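import Crest.Agent.H26SnP002

/-! certificate data for S0047, part P 3 (computer generated) -/

set_option autoImplicit false
set_option maxRecDepth 100000

namespace Crest.Agent.H26Snaky

open T

def nP_41 : ℕ := 0x700000000000000000000000600000000000000000000000000000000000000000000000000000000000000000000000000000000000000000000000000000000000000000000
def cP_41 : ℕ := 0x40000001800000018000001fe000000f9800000ffc000007f0000003f0000001e000000160000000000000000000000000000000000000000000000000000000000000000000000000000
theorem lP_41 : S nP_41 cP_41 11 := S_of_chk [] trivial (node 467 (merge (node 468 (merge (node 436 (merge (leaf 2 433 437) (node 464 (merge (leaf 2 432 435) (node 432 (merge (leaf 3 431 431) (leaf 3 432 433))))))) (merge (node 501 (merge (leaf 0 465 500) (node 469 (merge (leaf 0 466 502) (node 433 (merge (leaf 3 432 432) (leaf 3 433 434))))))) (node 501 (merge (leaf 0 465 500) (node 469 (merge (leaf 0 466 502) (node 437 (merge (leaf 2 433 436) (leaf 2 434 438)))))))))) (merge (node 468 (merge (node 500 (merge (leaf 0 465 501) (node 464 (merge (leaf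 0 464 499) (node 432 (merge (leaf 3 431 431) (leaf 3 432 433))))))) (merge (node 501 (merge (leaf 0 465 500) (node 469 (merge (leaf 0 466 502) (node 433 (merge (leaf 3 432 432) (leaf 3 433 434))))))) (merge (node 433 (merge (leaf 3 432 432) (node 469 (merge (leaf 3 433 434) (node 498 (merge (leaf 1 465 497) (node 499 (merge (leaf 1 466 470) (node 464 (merge (leaf 0 463 463) (leaf 0 464 500))))))))))) (merge (node 433 (merge (leaf 3 432 432) (node 469 (merge (leaf 3 433 434) (node 502 (merge (leaf 0 466 501) (node 470 (merge (leaf 0 467 503) (node 498 (merge (leaf 1 465 497) (leaf 1 466 499))))))))))) (merge (node 500 (merge (leaf 0 465 501) (node 464 (merge (leaf 0 464 499) (node 435 (merge (leaf 2 432 436) (node 434 (merge (leaf 2 431 463) (node 469 (merge (leaf 3 433 433) (leaf 3 434 470))))))))))) (node 500 (merge (leaf 0 465 501) (node 464 (merge (leaf 0 464 499) (node 435 (merge (leaf 2 432 436) (node 463 (merge (leaf 2 431 434) (node 431 (merge (leaf 3 430 430) (leaf 3 431 432))))))))))))))))) (merge (node 468 (merge (node 436 (merge (leaf 2 433 437) (node 464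 (merge (leaf 2 432 435) (node 432 (merge (leaf 3 431 431) (leaf 3 432 433))))))) (merge (node 437 (merge (leaf 2 433 436) (node 469 (merge (leaf 2 434 438) (node 433 (merge (leaf 3 432 432) (leaf 3 433 434))))))) (merge (node 433 (merge (leaf 3 432 432) (node 469 (merge (leaf 3 433 434) (node 498 (merge (leaf 1 465 497) (node 499 (merge (leaf 1 466 470) (node 464 (merge (leaf 0 463 463) (leaf 0 464 500))))))))))) (node 436 (merge (leaf 2 433 437) (node 464 (merge (leaf 2 432 435) (node 499 (merge (leaf 0 464 500) (node 498 (merge (leaf 0 463 463) (node 469 (merge (leaf 1 466 470) (leaf 1 465 497))))))))))))))) (merge (node 468 (merge (node 436 (merge (leaf 2 433 437) (node 464 (merge (leaf 2 432 435) (node 432 (merge (leaf 3 431 431) (leaf 3 432 433))))))) (merge (node 433 (merge (leaf 3 432 432) (node 469 (merge (leaf 3 433 434) (node 502 (merge (leaf 0 466 501) (node 470 (merge (leaf 0 467 503) (node 498 (merge (leaf 1 465 497) (leaf 1 466 499))))))))))) (node 437 (merge (leaf 2 433 436) (node 469 (merge (leaf 2 434 438) (node 502 (merge (leaf 0 466 501) (node 470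 (merge (leaf 0 467 503) (node 498 (merge (leaf 1 465 497) (leaf 1 466 499)))))))))))))) (merge (node 468 (merge (node 500 (merge (leaf 0 465 501) (node 464 (merge (leaf 0 464 499) (node 432 (merge (leaf 3 431 431) (leaf 3 432 433))))))) (merge (node 501 (merge (leaf 0 465 500) (node 469 (merge (leaf 0 466 502) (node 437 (merge (leaf 2 433 436) (leaf 2 434 438))))))) (merge (node 437 (merge (leaf 2 433 436) (node 469 (merge (leaf 2 434 438) (node 502 (merge (leaf 0 466 501) (node 470 (merge (leaf 0 467 503) (node 498 (merge (leaf 1 465 497) (leaf 1 466 499))))))))))) (node 436 (merge (leaf 2 433 437) (node 464 (merge (leaf 2 432 435) (node 499 (merge (leaf 0 464 500) (node 498 (merge (leaf 0 463 463) (node 469 (merge (leaf 1 466 470) (leaf 1 465 497))))))))))))))) (merge (node 468 (merge (node 500 (merge (leaf 0 465 501) (node 464 (merge (leaf 0 464 499) (node 432 (merge (leaf 3 431 431) (leaf 3 432 433))))))) (merge (node 501 (merge (leaf 0 465 500) (node 469 (merge (leaf 0 466 502) (node 433 (merge (leaf 3 432 432) (leaf 3 433 434))))))) (merge (node 433 (merge (leaf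 3 432 432) (node 469 (merge (leaf 3 433 434) (node 498 (merge (leaf 1 465 497) (node 470 (merge (leaf 1 466 499) (node 438 (merge (leaf 2 434 437) (leaf 2 435 439))))))))))) (node 501 (merge (leaf 0 465 500) (node 469 (merge (leaf 0 466 502) (node 498 (merge (leaf 1 465 497) (node 470 (merge (leaf 1 466 499) (node 438 (merge (leaf 2 434 437) (leaf 2 435 439))))))))))))))) (merge (node 468 (merge (node 500 (merge (leaf 0 465 501) (node 464 (merge (leaf 0 464 499) (node 436 (merge (leaf 2 432 435) (leaf 2 433 437))))))) (merge (node 501 (merge (leaf 0 465 500) (node 469 (merge (leaf 0 466 502) (node 437 (merge (leaf 2 433 436) (leaf 2 434 438))))))) (merge (node 436 (merge (leaf 2 433 437) (node 464 (merge (leaf 2 432 435) (node 499 (merge (leaf 0 464 500) (node 498 (merge (leaf 0 463 463) (node 469 (merge (leaf 1 466 470) (leaf 1 465 497))))))))))) (merge (node 437 (merge (leaf 2 433 436) (node 469 (merge (leaf 2 434 438) (node 502 (merge (leaf 0 466 501) (node 470 (merge (leaf 0 467 503) (node 498 (merge (leaf 1 465 497) (leaf 1 466 499))))))))))) (merge (node 501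 (merge (leaf 0 465 500) (node 469 (merge (leaf 0 466 502) (node 498 (merge (leaf 1 465 497) (node 470 (merge (leaf 1 466 499) (node 438 (merge (leaf 2 434 437) (leaf 2 435 439))))))))))) (node 500 (merge (leaf 0 465 501) (node 464 (merge (leaf 0 464 499) (node 435 (merge (leaf 2 432 436) (node 434 (merge (leaf 2 431 463) (node 469 (merge (leaf 3 433 433) (leaf 3 434 470))))))))))))))))) (merge (node 435 (merge (node 436 (merge (leaf 2 432 464) (node 437 (merge (leaf 1 433 434) (leaf 1 434 438))))) (merge (node 464 (merge (leaf 2 432 436) (node 499 (merge (leaf 0 464 500) (node 463 (merge (leaf 0 463 498) (node 431 (merge (leaf 3 430 430) (leaf 3 431 432))))))))) (merge (node 499 (merge (node 500 (merge (leaf 0 464 464) (node 501 (merge (leaf 3 465 498) (leaf 3 466 502))))) (merge (node 464 (merge (leaf 0 464 500) (node 463 (merge (leaf 2 431 434) (node 431 (merge (leaf 3 430 430) (leaf 3 431 432))))))) (node 531 (merge (node 563 (merge (leaf 2 528 532) (leaf 5 466 594))) (node 402 (merge (leaf 7 402 434) (node 403 (merge (leaf 7 370 370) (node 372 (merge (leaf 6 371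 404) (node 371 (merge (leaf 6 339 340) (leaf 5 370 498)))))))))))))) (node 403 (merge (node 371 (merge (leaf 5 370 498) (node 338 (merge (leaf 7 338 370) (node 339 (merge (leaf 7 306 306) (leaf 5 338 434))))))) (merge (node 371 (merge (leaf 5 370 498) (node 340 (merge (leaf 6 339 372) (node 339 (merge (leaf 6 307 308) (leaf 5 338 434))))))) (merge (node 371 (merge (leaf 5 370 498) (node 372 (merge (leaf 6 339 340) (node 499 (merge (leaf 6 371 404) (node 370 (merge (leaf 7 338 338) (leaf 7 370 402))))))))) (merge (node 371 (merge (node 340 (merge (leaf 6 339 372) (node 339 (merge (leaf 6 307 308) (leaf 5 338 434))))) (merge (node 338 (merge (leaf 7 338 370) (node 339 (merge (leaf 7 306 306) (leaf 5 338 434))))) (node 372 (merge (leaf 6 339 340) (node 499 (merge (leaf 6 371 404) (node 370 (merge (leaf 7 338 338) (leaf 7 370 402)))))))))) (node 499 (merge (node 500 (merge (leaf 4 403 532) (node 501 (merge (leaf 3 465 498) (leaf 3 466 502))))) (node 404 (merge (leaf 6 371 372) (node 531 (merge (leaf 6 403 436) (node 402 (merge (leaf 7 370 370) (leaf 7 402 434))))))))))))))))))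 (node 435 (merge (node 468 (merge (node 500 (merge (leaf 0 465 501) (node 532 (merge (leaf 7 435 564) (node 436 (merge (leaf 7 403 403) (leaf 2 433 437))))))) (merge (node 501 (merge (leaf 0 465 500) (node 469 (merge (leaf 0 466 502) (node 433 (merge (leaf 3 432 432) (leaf 3 433 434))))))) (node 437 (merge (leaf 2 433 436) (node 469 (merge (leaf 2 434 438) (node 433 (merge (leaf 3 432 432) (leaf 3 433 434)))))))))) (merge (node 403 (merge (node 371 (merge (leaf 5 370 498) (node 338 (merge (leaf 7 338 370) (node 339 (merge (leaf 7 306 306) (leaf 5 338 434))))))) (merge (node 371 (merge (leaf 5 370 498) (node 340 (merge (leaf 6 339 372) (node 339 (merge (leaf 6 307 308) (leaf 5 338 434))))))) (merge (node 371 (merge (leaf 5 370 498) (node 372 (merge (leaf 6 339 340) (node 499 (merge (leaf 6 371 404) (node 370 (merge (leaf 7 338 338) (leaf 7 370 402))))))))) (merge (node 371 (merge (node 340 (merge (leaf 6 339 372) (node 339 (merge (leaf 6 307 308) (leaf 5 338 434))))) (merge (node 338 (merge (leaf 7 338 370) (node 339 (merge (leaf 7 306 306) (leaf 5 338 434))))) (node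 372 (merge (leaf 6 339 340) (node 499 (merge (leaf 6 371 404) (node 370 (merge (leaf 7 338 338) (leaf 7 370 402)))))))))) (node 499 (merge (node 500 (merge (leaf 4 403 532) (node 501 (merge (leaf 3 465 498) (leaf 3 466 502))))) (node 404 (merge (leaf 6 371 372) (node 531 (merge (leaf 6 403 436) (node 402 (merge (leaf 7 370 370) (leaf 7 402 434)))))))))))))) (merge (node 403 (merge (node 371 (merge (leaf 5 370 498) (node 338 (merge (leaf 7 338 370) (node 339 (merge (leaf 7 306 306) (leaf 5 338 434))))))) (merge (node 371 (merge (leaf 5 370 498) (node 340 (merge (leaf 6 339 372) (node 339 (merge (leaf 6 307 308) (leaf 5 338 434))))))) (merge (node 371 (merge (leaf 5 370 498) (node 372 (merge (leaf 6 339 340) (node 499 (merge (leaf 6 371 404) (node 370 (merge (leaf 7 338 338) (leaf 7 370 402))))))))) (merge (node 371 (merge (node 340 (merge (leaf 6 339 372) (node 339 (merge (leaf 6 307 308) (leaf 5 338 434))))) (merge (node 338 (merge (leaf 7 338 370) (node 339 (merge (leaf 7 306 306) (leaf 5 338 434))))) (node 372 (merge (leaf 6 339 340) (node 499 (merge (leaf 6 371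 404) (node 370 (merge (leaf 7 338 338) (leaf 7 370 402)))))))))) (node 402 (merge (node 370 (merge (leaf 7 370 499) (node 338 (merge (leaf 4 306 306) (leaf 4 338 434))))) (merge (node 499 (merge (leaf 7 370 370) (node 404 (merge (leaf 6 371 372) (node 436 (merge (leaf 6 403 531) (node 401 (merge (leaf 0 400 400) (leaf 0 401 437))))))))) (merge (node 434 (merge (node 370 (merge (leaf 4 338 338) (leaf 5 369 497))) (node 436 (merge (leaf 1 433 437) (node 401 (merge (leaf 0 400 400) (node 369 (merge (leaf 7 369 498) (node 337 (merge (leaf 4 305 305) (leaf 4 337 433))))))))))) (node 434 (merge (node 499 (merge (leaf 7 402 531) (node 404 (merge (leaf 6 371 372) (node 405 (merge (leaf 1 402 406) (leaf 1 401 433))))))) (merge (node 436 (merge (leaf 1 433 437) (node 401 (merge (leaf 0 400 400) (node 369 (merge (leaf 7 369 498) (node 337 (merge (leaf 4 305 305) (leaf 4 337 433))))))))) (node 499 (merge (leaf 7 402 531) (node 404 (merge (leaf 6 371 372) (node 436 (merge (leaf 1 433 437) (node 401 (merge (leaf 0 400 400) (node 369 (merge (leaf 3 368 368) (leaf 7 369 498)))))))))))))))))))))))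 (merge (node 468 (merge (node 501 (merge (leaf 0 465 500) (node 469 (merge (leaf 0 466 502) (node 433 (merge (leaf 3 432 432) (leaf 3 433 434))))))) (merge (node 501 (merge (leaf 0 465 500) (node 469 (merge (leaf 0 466 502) (node 437 (merge (leaf 2 433 436) (leaf 2 434 438))))))) (merge (node 437 (merge (leaf 2 433 436) (node 469 (merge (leaf 2 434 438) (node 433 (merge (leaf 3 432 432) (leaf 3 433 434))))))) (node 500 (merge (leaf 0 465 501) (node 532 (merge (leaf 7 435 564) (node 436 (merge (leaf 2 433 437) (node 531 (merge (leaf 2 528 563) (node 404 (merge (leaf 6 403 499) (node 405 (merge (leaf 6 372 373) (node 433 (merge (leaf 3 432 432) (leaf 2 401 434))))))))))))))))))) (merge (node 468 (merge (node 501 (merge (leaf 0 465 500) (node 469 (merge (leaf 0 466 502) (node 433 (merge (leaf 3 432 432) (leaf 3 433 434))))))) (merge (node 500 (merge (leaf 0 465 501) (node 532 (merge (leaf 7 435 564) (node 403 (merge (leaf 4 371 371) (leaf 4 403 499))))))) (merge (node 433 (merge (leaf 3 432 432) (node 469 (merge (leaf 3 433 434) (node 498 (merge (leaf 1 465 497) (node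 470 (merge (leaf 1 466 499) (node 438 (merge (leaf 2 434 437) (leaf 2 435 439))))))))))) (node 501 (merge (leaf 0 465 500) (node 469 (merge (leaf 0 466 502) (node 498 (merge (leaf 1 465 497) (node 470 (merge (leaf 1 466 499) (node 438 (merge (leaf 2 434 437) (leaf 2 435 439))))))))))))))) (node 468 (merge (node 501 (merge (leaf 0 465 500) (node 469 (merge (leaf 0 466 502) (node 437 (merge (leaf 2 433 436) (leaf 2 434 438))))))) (merge (node 500 (merge (leaf 0 465 501) (node 532 (merge (leaf 7 435 564) (node 403 (merge (leaf 4 371 371) (leaf 4 403 499))))))) (node 469 (merge (node 437 (merge (leaf 2 433 436) (leaf 2 434 438))) (merge (node 498 (merge (leaf 1 465 497) (node 470 (merge (leaf 1 466 499) (node 503 (merge (leaf 0 467 502) (node 471 (merge (leaf 3 435 436) (leaf 0 468 504))))))))) (node 498 (merge (leaf 1 465 497) (node 470 (merge (leaf 1 466 499) (node 438 (merge (leaf 2 434 437) (leaf 2 435 439)))))))))))))))))))))))))))) nP_41 cP_41 11 (by decide +kernel)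
def nP_42 : ℕ := 0x300000001000000000000000000000000000000000000000000000000000000000000000000000000000000000000000000000000000000000000000000000000000000000000
def cP_42 : ℕ := 0x88000000c8000000d8000003ff800003cf000003c700001ffe00000ffc00000ffe000007fc000007f8000001f0000001e0000000200000000000000000000000000000000000000000000000000000000000000000000
theorem lP_42 : S nP_42 cP_42 17 := S_of_chk [(nP_40, cP_40, 13), (nP_41, cP_41, 11)] ⟨lP_40, lP_41, trivial⟩ (node 562 (merge (node 559 (merge (node 591 (merge (leaf 1 558 590) (node 623 (merge (leaf 6 527 655) (node 496 (merge (leaf 5 463 464) (leaf 5 495 592))))))) (node 595 (merge (leaf 0 559 594) (node 563 (merge (leaf 0 560 596) (node 531 (merge (leaf 2 527 530) (leaf 2 528 532))))))))) (merge (node 563 (merge (node 592 (merge (leaf 1 559 591) (node 564 (merge (leaf 1 560 593) (node 596 (merge (leaf 0 560 595) (leaf 0 561 597))))))) (merge (node 591 (merge (leaf 1 559 592) (node 559 (merge (leaf 1 558 590) (node 531 (merge (leaf 2 527 530) (leaf 2 528 532))))))) (node 596 (merge (leaf 0 560 595) (node 564 (merge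 (leaf 0 561 597) (node 532 (merge (leaf 2 528 531) (leaf 2 529 533)))))))))) (merge (node 595 (merge (node 596 (merge (leaf 0 560 563) (node 594 (merge (leaf 3 560 593) (leaf 3 561 597))))) (merge (node 594 (merge (leaf 0 559 559) (node 596 (merge (leaf 3 560 593) (leaf 3 561 597))))) (merge (node 563 (merge (leaf 0 560 596) (node 531 (merge (leaf 2 528 532) (node 530 (merge (leaf 2 527 559) (node 627 (merge (leaf 7 498 498) (leaf 7 530 659))))))))) (node 530 (merge (node 531 (merge (leaf 2 527 559) (node 532 (merge (leaf 1 529 533) (leaf 2 528 563))))) (merge (node 594 (merge (leaf 0 559 559) (node 627 (merge (leaf 4 498 498) (node 659 (merge (leaf 4 530 626) (leaf 7 562 691))))))) (node 627 (merge (node 498 (merge (leaf 4 498 594) (node 466 (merge (leaf 4 466 563) (leaf 5 465 593))))) (merge (node 594 (merge (leaf 4 498 498) (node 659 (merge (leaf 4 530 626) (leaf 7 562 691))))) (merge (node 659 (merge (leaf 7 530 563) (node 594 (merge (leaf 4 530 626) (leaf 7 562 691))))) (node 563 (merge (leaf 7 530 659) (node 531 (merge (leaf 7 498 498) (leaf 2 528 532))))))))))))))))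 (merge (node 559 (merge (node 591 (merge (leaf 1 558 590) (node 623 (merge (leaf 6 527 655) (node 496 (merge (leaf 5 463 464) (leaf 5 495 592))))))) (merge (node 563 (merge (node 595 (merge (leaf 0 559 594) (leaf 0 560 596))) (merge (node 592 (merge (leaf 1 559 591) (node 593 (merge (leaf 1 560 564) (node 558 (merge (leaf 0 557 557) (leaf 0 558 594))))))) (node 592 (merge (leaf 1 559 591) (node 564 (merge (leaf 1 560 593) (node 596 (merge (leaf 0 560 595) (leaf 0 561 597)))))))))) (node 594 (merge (leaf 0 559 595) (node 558 (merge (leaf 0 558 593) (node 589 (merge (leaf 1 557 590) (node 557 (merge (leaf 1 556 588) (node 525 (merge (leaf 3 524 524) (leaf 3 525 526)))))))))))))) (merge (node 563 (merge (node 592 (merge (leaf 1 559 591) (node 564 (merge (leaf 1 560 593) (node 532 (merge (leaf 2 528 531) (leaf 2 529 533))))))) (merge (node 592 (merge (leaf 1 559 591) (node 564 (merge (leaf 1 560 593) (node 596 (merge (leaf 0 560 595) (leaf 0 561 597))))))) (node 531 (merge (leaf 2 528 532) (node 499 (merge (node 594 (merge (leaf 5 466 467) (node 626 (merge (leaf 6 498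 530) (leaf 6 530 658))))) (merge (node 595 (merge (leaf 0 560 596) (node 468 (merge (leaf 6 467 500) (node 467 (merge (leaf 6 435 436) (node 466 (merge (leaf 7 434 434) (leaf 7 466 498))))))))) (node 595 (merge (leaf 0 560 596) (node 498 (merge (leaf 7 466 466) (node 627 (merge (leaf 7 498 530) (node 626 (merge (leaf 5 498 594) (leaf 5 530 658))))))))))))))))) (merge (node 530 (merge (node 559 (merge (leaf 2 527 531) (node 591 (merge (leaf 1 558 590) (node 623 (merge (leaf 6 527 655) (node 496 (merge (leaf 5 463 464) (leaf 5 495 592))))))))) (merge (node 498 (merge (node 594 (merge (node 595 (merge (leaf 0 559 559) (leaf 4 498 627))) (merge (node 499 (merge (leaf 6 466 467) (node 531 (merge (leaf 2 527 559) (leaf 6 498 626))))) (node 499 (merge (leaf 6 466 467) (node 626 (merge (leaf 6 498 531) (node 627 (merge (leaf 4 498 595) (leaf 4 530 659)))))))))) (merge (node 466 (merge (leaf 5 465 593) (node 435 (merge (leaf 6 434 467) (node 434 (merge (leaf 6 402 403) (node 433 (merge (leaf 7 401 401) (leaf 7 433 465))))))))) (node 466 (merge (leaf 5 465 593) (node 465 (merge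 (leaf 7 433 433) (node 594 (merge (leaf 7 465 497) (node 595 (merge (leaf 0 559 559) (leaf 4 498 627)))))))))))) (merge (node 496 (merge (node 464 (merge (leaf 4 464 593) (node 433 (merge (leaf 6 432 465) (node 432 (merge (leaf 6 400 401) (node 431 (merge (leaf 7 399 399) (leaf 7 431 463))))))))) (merge (node 463 (merge (node 464 (merge (leaf 7 431 431) (leaf 4 464 593))) (merge (node 592 (merge (leaf 7 463 495) (node 591 (merge (leaf 5 495 623) (node 590 (merge (leaf 2 557 589) (leaf 2 558 593))))))) (node 431 (merge (leaf 7 431 464) (node 495 (merge (leaf 4 399 399) (leaf 7 463 592)))))))) (merge (node 465 (merge (node 497 (merge (leaf 6 464 592) (node 498 (merge (leaf 7 465 594) (node 531 (merge (leaf 0 495 495) (node 532 (merge (leaf 0 496 499) (leaf 1 529 533))))))))) (merge (node 433 (merge (leaf 6 432 464) (node 497 (merge (leaf 5 400 401) (node 498 (merge (leaf 7 433 466) (leaf 7 465 594))))))) (node 464 (merge (leaf 6 432 433) (node 463 (merge (leaf 7 431 431) (node 495 (merge (leaf 7 463 592) (node 494 (merge (leaf 1 462 466) (leaf 2 461 493)))))))))))) (node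 498 (merge (node 497 (merge (node 465 (merge (leaf 6 464 592) (leaf 7 465 594))) (node 531 (merge (leaf 0 495 495) (node 532 (merge (leaf 0 496 499) (leaf 3 497 533))))))) (merge (node 466 (merge (leaf 5 465 593) (node 467 (merge (leaf 6 434 435) (node 499 (merge (leaf 6 466 594) (node 497 (merge (leaf 2 464 468) (leaf 2 463 495))))))))) (node 466 (merge (leaf 5 465 593) (node 435 (merge (leaf 6 434 467) (node 434 (merge (leaf 6 402 403) (node 433 (merge (leaf 7 401 401) (leaf 7 433 465)))))))))))))))) (node 559 (merge (node 591 (merge (leaf 1 558 590) (node 623 (merge (leaf 6 527 655) (node 496 (merge (leaf 5 463 464) (leaf 5 495 592))))))) (merge (node 594 (merge (leaf 0 559 595) (node 558 (merge (leaf 0 558 593) (node 589 (merge (leaf 1 557 590) (node 557 (merge (leaf 1 556 588) (node 525 (merge (leaf 3 524 524) (leaf 3 525 526))))))))))) (node 465 (merge (node 594 (merge (leaf 0 559 595) (node 593 (merge (leaf 0 558 558) (node 498 (merge (leaf 5 465 466) (leaf 7 465 497))))))) (merge (node 594 (merge (leaf 0 559 595) (node 498 (merge (leaf 7 465 497) (node 467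 (merge (leaf 6 466 499) (node 466 (merge (leaf 7 433 433) (leaf 6 434 435))))))))) (merge (node 464 (merge (node 496 (merge (leaf 6 432 433) (leaf 5 463 591))) (merge (node 496 (merge (leaf 5 463 591) (leaf 4 464 593))) (node 466 (merge (node 498 (merge (leaf 7 433 433) (leaf 5 465 593))) (merge (node 498 (merge (leaf 5 465 593) (node 435 (merge (leaf 6 434 467) (node 434 (merge (leaf 6 402 403) (leaf 2 431 463))))))) (node 463 (merge (node 494 (merge (leaf 1 462 495) (node 462 (merge (leaf 1 461 493) (node 434 (merge (leaf 2 430 433) (leaf 2 431 435))))))) (merge (node 435 (merge (leaf 2 431 434) (node 467 (merge (leaf 2 432 436) (node 431 (merge (leaf 3 430 430) (leaf 3 431 432))))))) (node 494 (merge (leaf 1 462 495) (node 462 (merge (leaf 1 461 493) (node 430 (merge (leaf 3 429 429) (leaf 3 430 431)))))))))))))))) (node 594 (merge (leaf 0 559 595) (node 558 (merge (leaf 0 558 593) (node 525 (merge (leaf 3 525 526) (node 557 (merge (leaf 3 524 524) (node 588 (merge (leaf 1 556 589) (node 556 (merge (leaf 1 555 587) (node 592 (merge (leaf 0 556 591) (node 496 (merge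 (leaf 6 464 497) (node 464 (merge (leaf 6 432 433) (node 463 (merge (leaf 7 431 431) (leaf 7 463 495)))))))))))))))))))))))))))))))) (node 592 (merge (node 591 (merge (leaf 1 559 563) (node 590 (merge (leaf 1 558 559) (leaf 2 558 593))))) (merge (node 591 (merge (leaf 1 559 563) (node 623 (merge (leaf 5 495 496) (node 655 (merge (leaf 5 527 624) (leaf 6 559 687))))))) (merge (node 591 (merge (node 590 (merge (leaf 1 558 559) (leaf 2 557 589))) (node 496 (merge (leaf 5 495 623) (node 463 (merge (leaf 7 463 495) (node 464 (merge (leaf 7 431 431) (leaf 4 464 593))))))))) (node 465 (merge (node 496 (merge (leaf 6 464 497) (node 464 (merge (leaf 6 432 433) (node 463 (merge (leaf 7 431 431) (leaf 7 463 495))))))) (merge (node 496 (merge (leaf 6 464 497) (node 463 (merge (leaf 7 463 495) (node 464 (merge (leaf 7 431 431) (leaf 4 464 593))))))) (merge (node 530 (merge (node 531 (merge (leaf 2 527 559) (node 532 (merge (leaf 1 529 533) (leaf 2 528 563))))) (node 497 (merge (leaf 6 464 496) (node 498 (merge (leaf 7 465 594) (node 466 (merge (leaf 7 433 433) (leaf 5 465 593)))))))))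 (merge (node 464 (merge (node 496 (merge (leaf 6 432 433) (leaf 4 464 593))) (merge (node 496 (merge (leaf 4 464 593) (node 463 (merge (leaf 7 431 431) (leaf 7 463 495))))) (merge (node 496 (merge (leaf 6 432 433) (node 463 (merge (leaf 7 431 431) (leaf 7 463 495))))) (node 530 (merge (node 531 (merge (leaf 2 527 559) (node 532 (merge (leaf 1 529 533) (leaf 2 528 563))))) (node 466 (merge (node 498 (merge (leaf 7 433 433) (leaf 5 465 593))) (merge (node 498 (merge (leaf 5 465 593) (node 435 (merge (leaf 6 434 467) (node 434 (merge (leaf 6 402 403) (leaf 2 431 463))))))) (node 463 (merge (node 494 (merge (leaf 1 462 495) (node 462 (merge (leaf 1 461 493) (node 434 (merge (leaf 2 430 433) (leaf 2 431 435))))))) (merge (node 435 (merge (leaf 2 431 434) (node 467 (merge (leaf 2 432 436) (node 431 (merge (leaf 3 430 430) (leaf 3 431 432))))))) (node 494 (merge (leaf 1 462 495) (node 462 (merge (leaf 1 461 493) (node 430 (merge (leaf 3 429 429) (leaf 3 430 431))))))))))))))))))) (node 466 (merge (node 530 (merge (node 498 (merge (leaf 7 433 433) (leaf 5 465 593))) (node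 531 (merge (leaf 2 527 559) (node 532 (merge (leaf 1 529 533) (leaf 2 528 563))))))) (merge (node 530 (merge (node 531 (merge (leaf 2 527 559) (node 532 (merge (leaf 1 529 533) (leaf 2 528 563))))) (node 498 (merge (leaf 5 465 593) (node 467 (merge (leaf 6 434 435) (node 594 (merge (leaf 7 465 497) (leaf 6 466 499))))))))) (merge (node 531 (merge (node 530 (merge (leaf 2 527 559) (node 532 (merge (leaf 1 529 533) (leaf 2 528 563))))) (merge (node 467 (merge (node 530 (merge (leaf 2 527 559) (node 499 (merge (leaf 5 434 435) (node 500 (merge (leaf 0 464 464) (node 501 (merge (leaf 0 465 468) (leaf 1 498 502))))))))) (merge (node 530 (merge (leaf 2 527 559) (node 435 (merge (leaf 5 434 499) (node 436 (merge (leaf 2 432 464) (node 437 (merge (leaf 1 433 434) (leaf 1 434 438))))))))) (merge (node 468 (merge (node 436 (merge (leaf 2 433 437) (node 464 (merge (leaf 2 432 435) (node 432 (merge (leaf 3 431 431) (leaf 3 432 433))))))) (merge (node 501 (merge (leaf 0 465 500) (node 469 (merge (leaf 0 466 502) (node 433 (merge (leaf 3 432 432) (leaf 3 433 434))))))) (node 501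 (merge (leaf 0 465 500) (node 469 (merge (leaf 0 466 502) (node 437 (merge (leaf 2 433 436) (leaf 2 434 438)))))))))) (merge (node 468 (merge (node 500 (merge (leaf 0 465 501) (node 464 (merge (leaf 0 464 499) (node 432 (merge (leaf 3 431 431) (leaf 3 432 433))))))) (merge (node 501 (merge (leaf 0 465 500) (node 469 (merge (leaf 0 466 502) (node 437 (merge (leaf 2 433 436) (leaf 2 434 438))))))) (node 437 (merge (leaf 2 433 436) (node 469 (merge (leaf 2 434 438) (node 433 (merge (leaf 3 432 432) (leaf 3 433 434)))))))))) (node 468 (merge (node 501 (merge (leaf 0 465 500) (node 469 (merge (leaf 0 466 502) (node 433 (merge (leaf 3 432 432) (leaf 3 433 434))))))) (merge (node 437 (merge (leaf 2 433 436) (node 469 (merge (leaf 2 434 438) (node 433 (merge (leaf 3 432 432) (leaf 3 433 434))))))) (node 500 (merge (leaf 0 465 501) (node 436 (merge (leaf 2 433 437) (node 530 (merge (leaf 2 527 559) (node 499 (merge (leaf 5 403 404) (leaf 5 434 435))))))))))))))))) (node 467 (merge (node 563 (merge (leaf 2 528 532) (node 499 (merge (leaf 7 434 434) (leaf 5 466 594))))) (merge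 (node 468 (merge (node 436 (merge (leaf 2 433 437) (node 464 (merge (leaf 2 432 435) (node 432 (merge (leaf 3 431 431) (leaf 3 432 433))))))) (merge (node 501 (merge (leaf 0 465 500) (node 469 (merge (leaf 0 466 502) (node 433 (merge (leaf 3 432 432) (leaf 3 433 434))))))) (node 501 (merge (leaf 0 465 500) (node 469 (merge (leaf 0 466 502) (node 437 (merge (leaf 2 433 436) (leaf 2 434 438)))))))))) (node 563 (merge (leaf 2 528 532) (node 499 (merge (leaf 5 466 594) (node 464 (merge (leaf 0 464 500) (node 436 (merge (leaf 2 432 435) (leaf 6 435 468))))))))))))))) (merge (node 467 (merge (node 435 (merge (node 436 (merge (leaf 2 432 464) (node 437 (merge (leaf 1 434 438) (leaf 2 433 468))))) (node 530 (merge (leaf 6 434 498) (node 531 (merge (leaf 5 434 499) (leaf 2 527 559))))))) (merge (node 436 (merge (node 435 (merge (leaf 2 432 464) (node 437 (merge (leaf 1 433 434) (leaf 1 434 438))))) (merge (node 437 (merge (leaf 2 433 468) (node 435 (merge (leaf 1 433 434) (leaf 1 434 438))))) (merge (node 464 (merge (leaf 2 432 435) (node 500 (merge (leaf 0 464 499) (node 468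 (merge (leaf 0 465 501) (node 432 (merge (leaf 3 431 431) (leaf 3 432 433))))))))) (node 468 (merge (leaf 2 433 437) (node 500 (merge (leaf 0 465 501) (node 464 (merge (leaf 0 464 499) (node 432 (merge (leaf 3 431 431) (leaf 3 432 433))))))))))))) (merge (node 435 (merge (node 530 (merge (leaf 6 434 498) (node 531 (merge (leaf 5 434 499) (leaf 2 527 559))))) (node 436 (merge (leaf 2 432 464) (node 437 (merge (leaf 1 433 434) (leaf 1 434 438))))))) (merge (node 433 (merge (node 432 (merge (leaf 3 432 468) (node 431 (merge (leaf 0 430 430) (leaf 0 431 434))))) (node 530 (merge (leaf 7 433 498) (node 531 (merge (leaf 2 527 559) (node 499 (merge (leaf 5 434 435) (node 594 (merge (leaf 5 466 563) (leaf 6 498 626))))))))))) (merge (node 432 (merge (node 433 (merge (leaf 3 432 468) (node 431 (merge (leaf 0 430 430) (leaf 0 431 434))))) (merge (node 464 (merge (leaf 3 431 431) (node 499 (merge (leaf 0 464 500) (node 498 (merge (leaf 0 463 463) (node 530 (merge (leaf 5 465 593) (leaf 6 466 594))))))))) (node 468 (merge (leaf 3 432 433) (node 500 (merge (leaf 0 465 501) (node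 499 (merge (leaf 0 464 464) (node 437 (merge (leaf 2 433 436) (node 469 (merge (leaf 2 434 438) (node 498 (merge (leaf 1 466 470) (leaf 1 465 497)))))))))))))))) (node 432 (merge (node 431 (merge (leaf 3 431 464) (node 433 (merge (leaf 0 430 430) (leaf 3 432 468))))) (merge (node 468 (merge (leaf 3 432 433) (node 501 (merge (leaf 0 465 500) (node 469 (merge (leaf 0 466 502) (node 437 (merge (leaf 2 433 436) (leaf 2 434 438))))))))) (node 464 (merge (leaf 3 431 431) (node 435 (merge (leaf 2 432 436) (node 498 (merge (leaf 6 434 530) (node 463 (merge (leaf 2 431 434) (node 462 (merge (leaf 0 462 497) (node 494 (merge (leaf 1 461 493) (leaf 1 462 495)))))))))))))))))))))) (merge (hyp 0) (hyp 1))))))))))))))))))))))) nP_42 cP_42 17 (by decide +kernel)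
def nP_43 : ℕ := 0x300000001000000010000000900000000000000000000000000000000000000000000000000000000000000000000000000000000000000000000000000000000000000000000
def cP_43 : ℕ := 0x100000003c0000007c0000007c8000007e800000720000003f8000001f8000001e8000001c000000140000000000000000000000000000000000000000000000000000000000000000000000000000
theorem lP_43 : S nP_43 cP_43 13 := S_of_chk [] trivial (node 435 (merge (node 433 (merge (leaf 6 432 465) (node 432 (merge (leaf 6 400 401) (node 399 (merge (leaf 7 399 431) (node 400 (merge (leaf 7 367 367) (leaf 3 399 434))))))))) (merge (node 499 (merge (node 498 (merge (node 497 (merge (leaf 2 464 468) (leaf 1 495 527))) (node 403 (merge (leaf 5 402 530) (node 402 (merge (leaf 7 370 370) (node 531 (merge (leaf 7 402 434) (node 532 (merge (leaf 4 403 500) (leaf 4 435 564))))))))))) (merge (node 498 (merge (node 497 (merge (leaf 2 464 468) (leaf 1 495 527))) (node 403 (merge (leaf 5 402 530) (node 404 (merge (leaf 6 371 372) (node 531 (merge (leaf 6 403 436) (node 532 (merge (leaf 4 403 500) (leaf 4 435 564))))))))))) (merge (node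 532 (merge (node 531 (merge (leaf 4 435 564) (node 562 (merge (leaf 5 434 530) (leaf 2 528 563))))) (merge (node 531 (merge (leaf 4 435 564) (node 436 (merge (leaf 6 403 404) (node 563 (merge (leaf 6 435 468) (leaf 2 528 562))))))) (node 403 (merge (leaf 4 403 500) (node 372 (merge (leaf 6 371 404) (node 371 (merge (leaf 6 339 340) (node 370 (merge (leaf 7 338 338) (leaf 7 370 402)))))))))))) (merge (node 403 (merge (node 402 (merge (leaf 7 370 370) (node 531 (merge (leaf 7 402 434) (node 530 (merge (leaf 5 402 498) (leaf 5 434 562))))))) (merge (node 404 (merge (leaf 6 371 372) (node 531 (merge (leaf 6 403 436) (node 530 (merge (leaf 5 402 498) (leaf 5 434 562))))))) (merge (node 404 (merge (leaf 6 371 372) (node 531 (merge (leaf 6 403 436) (node 532 (merge (leaf 4 403 500) (leaf 4 435 564))))))) (node 500 (merge (leaf 4 403 532) (node 498 (merge (leaf 5 402 530) (node 497 (merge (leaf 3 464 465) (leaf 1 495 527))))))))))) (merge (node 500 (merge (node 403 (merge (leaf 4 403 532) (node 372 (merge (leaf 6 371 404) (node 371 (merge (leaf 6 339 340) (leaf 4 371 468)))))))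 (merge (node 403 (merge (leaf 4 403 532) (node 404 (merge (leaf 6 371 372) (node 531 (merge (leaf 6 403 436) (node 402 (merge (leaf 7 370 370) (leaf 7 402 434))))))))) (merge (node 403 (merge (leaf 4 403 532) (node 404 (merge (leaf 6 371 372) (node 531 (merge (leaf 6 403 436) (node 468 (merge (leaf 4 371 371) (node 563 (merge (leaf 6 467 595) (node 562 (merge (leaf 3 527 527) (leaf 5 466 594))))))))))))) (merge (node 531 (merge (node 404 (merge (leaf 6 403 436) (node 403 (merge (leaf 6 371 372) (node 402 (merge (leaf 7 370 370) (leaf 7 402 434))))))) (merge (node 436 (merge (leaf 6 403 404) (node 563 (merge (leaf 6 435 468) (node 562 (merge (leaf 3 527 527) (leaf 5 466 594))))))) (merge (node 402 (merge (leaf 7 402 434) (node 403 (merge (leaf 7 370 370) (node 468 (merge (leaf 4 371 371) (node 563 (merge (leaf 6 467 595) (node 562 (merge (leaf 3 527 527) (leaf 5 466 594))))))))))) (node 402 (merge (leaf 7 402 434) (node 403 (merge (leaf 7 370 370) (node 468 (merge (leaf 4 371 371) (node 563 (merge (leaf 6 435 436) (leaf 6 467 595))))))))))))) (node 563 (merge (node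 562 (merge (leaf 3 527 527) (node 531 (merge (leaf 2 528 532) (leaf 5 466 594))))) (merge (node 562 (merge (leaf 3 527 527) (node 596 (merge (leaf 0 560 595) (node 564 (merge (leaf 7 467 532) (leaf 0 561 597))))))) (merge (node 564 (merge (node 532 (merge (leaf 4 435 531) (leaf 7 467 596))) (merge (node 532 (merge (leaf 7 435 468) (leaf 4 435 531))) (merge (node 532 (merge (leaf 7 435 468) (leaf 7 467 596))) (node 531 (merge (leaf 4 467 596) (node 468 (merge (leaf 6 435 436) (leaf 6 467 595))))))))) (node 562 (merge (leaf 3 527 527) (node 595 (merge (leaf 0 560 596) (node 531 (merge (leaf 5 466 594) (node 468 (merge (leaf 6 435 436) (leaf 6 467 500)))))))))))))))))) (merge (node 531 (merge (node 436 (merge (leaf 6 403 404) (node 563 (merge (leaf 6 435 468) (node 562 (merge (leaf 5 434 530) (leaf 5 466 594))))))) (merge (node 530 (merge (leaf 5 434 562) (node 498 (merge (leaf 5 402 403) (node 497 (merge (leaf 0 495 495) (leaf 1 495 527))))))) (merge (node 436 (merge (leaf 6 403 404) (node 563 (merge (leaf 6 435 468) (node 562 (merge (leaf 3 527 527) (leaf 5 466 594)))))))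 (node 436 (merge (leaf 6 403 404) (node 468 (merge (leaf 6 435 563) (node 498 (merge (leaf 2 464 497) (node 403 (merge (leaf 5 402 530) (node 371 (merge (leaf 4 339 339) (leaf 4 371 500))))))))))))))) (merge (node 562 (merge (node 527 (merge (leaf 3 527 563) (node 498 (merge (leaf 1 495 497) (node 530 (merge (leaf 5 402 403) (leaf 6 466 594))))))) (merge (node 563 (merge (leaf 3 527 527) (node 596 (merge (leaf 0 560 595) (node 564 (merge (leaf 0 561 597) (node 532 (merge (leaf 7 467 500) (leaf 2 529 533))))))))) (merge (node 498 (merge (node 530 (merge (leaf 5 402 403) (leaf 6 466 594))) (merge (node 497 (merge (leaf 2 464 468) (node 500 (merge (leaf 3 464 465) (node 403 (merge (leaf 4 403 532) (node 372 (merge (leaf 6 371 404) (node 371 (merge (leaf 6 339 340) (node 370 (merge (leaf 7 338 338) (leaf 7 370 402))))))))))))) (node 594 (merge (leaf 6 466 530) (node 497 (merge (leaf 2 464 468) (node 500 (merge (leaf 3 464 465) (node 532 (merge (leaf 0 497 533) (node 596 (merge (leaf 7 467 564) (node 595 (merge (leaf 0 560 563) (leaf 3 561 597)))))))))))))))) (node 403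 (merge (node 498 (merge (leaf 5 402 530) (node 497 (merge (leaf 2 464 468) (leaf 1 495 527))))) (merge (node 498 (merge (leaf 5 402 530) (node 497 (merge (leaf 2 464 468) (leaf 1 495 527))))) (merge (node 372 (merge (leaf 6 371 404) (node 371 (merge (leaf 6 339 340) (node 370 (merge (leaf 7 338 338) (leaf 7 370 402))))))) (node 500 (merge (leaf 4 403 532) (node 498 (merge (leaf 5 402 530) (node 497 (merge (leaf 3 464 465) (leaf 1 495 527))))))))))))))) (merge (node 498 (merge (node 497 (merge (leaf 2 464 468) (leaf 1 495 527))) (merge (node 403 (merge (leaf 5 402 530) (node 402 (merge (leaf 7 370 370) (node 531 (merge (leaf 7 402 434) (node 532 (merge (leaf 0 496 497) (leaf 4 435 564))))))))) (node 403 (merge (leaf 5 402 530) (node 402 (merge (leaf 7 370 370) (node 531 (merge (leaf 7 402 434) (node 436 (merge (leaf 6 403 404) (node 563 (merge (leaf 6 435 468) (node 562 (merge (leaf 3 527 527) (leaf 2 528 532)))))))))))))))) (node 531 (merge (node 562 (merge (leaf 5 434 530) (node 563 (merge (leaf 3 527 527) (leaf 2 528 532))))) (merge (node 436 (merge (leaf 6 403 404)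 (node 563 (merge (leaf 6 435 468) (node 564 (merge (leaf 4 435 532) (leaf 4 467 596))))))) (merge (node 436 (merge (leaf 6 403 404) (node 563 (merge (leaf 6 435 468) (node 562 (merge (leaf 3 527 527) (leaf 5 466 594))))))) (node 436 (merge (leaf 6 403 404) (node 532 (merge (leaf 4 435 564) (node 498 (merge (leaf 0 496 497) (node 533 (merge (leaf 3 498 534) (node 530 (merge (leaf 1 529 562) (node 565 (merge (leaf 0 530 566) (node 501 (merge (leaf 2 498 502) (node 468 (merge (leaf 7 436 469) (leaf 4 436 500)))))))))))))))))))))))))))))) (merge (node 432 (merge (node 401 (merge (leaf 6 400 433) (node 400 (merge (leaf 6 368 369) (node 399 (merge (leaf 7 367 367) (leaf 7 399 431))))))) (merge (node 433 (merge (leaf 6 400 401) (node 434 (merge (leaf 0 432 468) (node 403 (merge (leaf 2 400 404) (node 402 (merge (leaf 2 399 431) (node 499 (merge (leaf 7 370 370) (leaf 7 402 531))))))))))) (merge (node 399 (merge (leaf 7 399 431) (node 400 (merge (leaf 7 367 367) (node 401 (merge (leaf 6 368 369) (node 402 (merge (leaf 0 399 434) (node 403 (merge (leaf 0 400 436) (node 370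 (merge (leaf 2 367 371) (leaf 7 370 499))))))))))))) (merge (node 401 (merge (leaf 6 400 433) (node 400 (merge (leaf 6 368 369) (node 399 (merge (leaf 7 367 367) (node 402 (merge (leaf 0 399 434) (node 370 (merge (leaf 2 367 371) (node 499 (merge (leaf 7 370 403) (node 527 (merge (leaf 5 399 495) (node 498 (merge (leaf 1 495 497) (node 562 (merge (leaf 3 527 563) (node 530 (merge (leaf 5 434 531) (leaf 6 466 594))))))))))))))))))))) (node 499 (merge (node 498 (merge (node 497 (merge (leaf 2 464 468) (leaf 1 495 527))) (node 403 (merge (leaf 5 402 530) (node 402 (merge (leaf 7 370 370) (node 531 (merge (leaf 7 402 434) (node 532 (merge (leaf 4 403 500) (leaf 4 435 564))))))))))) (merge (node 399 (merge (leaf 7 399 431) (node 400 (merge (leaf 7 367 367) (node 527 (merge (leaf 5 399 495) (node 498 (merge (leaf 1 495 497) (node 562 (merge (leaf 3 527 563) (node 530 (merge (leaf 6 466 594) (node 435 (merge (leaf 5 402 403) (leaf 5 434 531))))))))))))))) (merge (node 399 (merge (leaf 7 399 431) (node 400 (merge (leaf 7 367 367) (node 434 (merge (leaf 3 399 433) (node 531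 (merge (leaf 7 402 402) (node 436 (merge (leaf 6 403 404) (node 563 (merge (leaf 6 435 468) (node 562 (merge (leaf 3 527 527) (leaf 2 528 532))))))))))))))) (merge (node 399 (merge (leaf 7 399 431) (node 400 (merge (leaf 7 367 367) (node 527 (merge (leaf 5 399 495) (node 498 (merge (leaf 1 495 497) (node 403 (merge (leaf 5 402 530) (node 372 (merge (leaf 6 371 404) (node 371 (merge (leaf 6 339 340) (node 500 (merge (leaf 4 371 468) (leaf 4 403 532))))))))))))))))) (node 532 (merge (node 531 (merge (leaf 4 435 564) (node 562 (merge (leaf 5 434 530) (leaf 2 528 563))))) (merge (node 531 (merge (leaf 4 435 564) (node 436 (merge (leaf 6 403 404) (node 563 (merge (leaf 6 435 468) (leaf 2 528 562))))))) (node 403 (merge (leaf 4 403 500) (node 372 (merge (leaf 6 371 404) (node 371 (merge (leaf 6 339 340) (node 370 (merge (leaf 7 338 338) (leaf 7 370 402)))))))))))))))))))))) (merge (node 468 (merge (node 433 (merge (leaf 6 432 465) (node 434 (merge (leaf 0 432 432) (node 469 (merge (leaf 0 433 436) (leaf 3 434 470))))))) (merge (node 499 (merge (node 498 (merge (leaf 2 464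 497) (node 403 (merge (leaf 5 402 530) (node 500 (merge (leaf 4 371 371) (leaf 4 403 532))))))) (merge (node 532 (merge (node 500 (merge (leaf 7 435 564) (node 403 (merge (leaf 4 371 371) (leaf 4 403 499))))) (merge (node 531 (merge (leaf 4 435 564) (node 436 (merge (leaf 6 403 404) (node 563 (merge (leaf 6 435 468) (leaf 2 528 562))))))) (node 403 (merge (leaf 4 403 500) (node 372 (merge (leaf 6 371 404) (node 371 (merge (leaf 6 339 340) (node 370 (merge (leaf 7 338 338) (leaf 7 370 402)))))))))))) (merge (node 498 (merge (leaf 2 464 497) (node 530 (merge (leaf 5 402 403) (node 562 (merge (leaf 5 434 531) (leaf 6 466 594))))))) (merge (node 498 (merge (leaf 2 464 497) (node 530 (merge (leaf 5 402 403) (node 562 (merge (leaf 5 434 531) (leaf 6 466 594))))))) (node 563 (merge (node 562 (merge (leaf 3 527 527) (node 531 (merge (leaf 5 434 530) (leaf 5 466 594))))) (merge (node 562 (merge (leaf 3 527 527) (node 596 (merge (leaf 0 560 595) (node 564 (merge (leaf 0 561 597) (node 532 (merge (leaf 7 435 500) (leaf 2 529 533))))))))) (node 531 (merge (leaf 6 435 436) (node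 595 (merge (leaf 6 467 500) (node 596 (merge (leaf 4 467 564) (leaf 4 499 628))))))))))))))) (node 465 (merge (leaf 6 432 433) (node 403 (merge (node 371 (merge (leaf 4 371 500) (node 340 (merge (leaf 6 339 372) (node 339 (merge (leaf 6 307 308) (node 338 (merge (leaf 7 306 306) (leaf 7 338 370))))))))) (merge (node 371 (merge (leaf 4 371 500) (node 370 (merge (leaf 7 338 338) (node 499 (merge (leaf 7 370 402) (node 498 (merge (leaf 2 464 497) (leaf 5 402 530))))))))) (merge (node 371 (merge (leaf 4 371 500) (node 372 (merge (leaf 6 339 340) (node 499 (merge (leaf 6 371 404) (node 498 (merge (leaf 2 464 497) (leaf 5 402 530))))))))) (merge (node 370 (merge (node 338 (merge (leaf 7 338 371) (node 402 (merge (leaf 4 306 306) (leaf 4 338 434))))) (merge (node 499 (merge (leaf 7 370 402) (node 498 (merge (leaf 2 464 497) (leaf 5 402 530))))) (node 371 (merge (leaf 7 338 338) (node 372 (merge (leaf 6 339 340) (node 499 (merge (leaf 6 371 404) (node 498 (merge (leaf 2 464 497) (leaf 5 402 530)))))))))))) (node 499 (merge (node 498 (merge (leaf 2 464 497) (leaf 5 402 530)))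 (node 402 (merge (leaf 7 370 370) (node 531 (merge (leaf 7 402 434) (node 532 (merge (leaf 4 403 500) (leaf 4 435 564))))))))))))))))))) (node 499 (merge (node 498 (merge (node 497 (merge (leaf 2 464 468) (leaf 1 495 527))) (node 403 (merge (leaf 5 402 530) (node 404 (merge (leaf 6 371 372) (node 531 (merge (leaf 6 403 436) (node 532 (merge (leaf 4 403 500) (leaf 4 435 564))))))))))) (merge (node 433 (merge (leaf 6 432 465) (node 432 (merge (leaf 6 400 401) (node 399 (merge (leaf 7 399 431) (node 400 (merge (leaf 7 367 367) (node 527 (merge (leaf 5 399 495) (node 498 (merge (leaf 1 495 497) (node 562 (merge (leaf 3 527 563) (node 530 (merge (leaf 5 434 531) (leaf 6 466 594))))))))))))))))) (merge (node 433 (merge (leaf 6 432 465) (node 432 (merge (leaf 6 400 401) (node 399 (merge (leaf 7 399 431) (node 400 (merge (leaf 7 367 367) (node 527 (merge (leaf 5 399 495) (node 562 (merge (leaf 3 527 563) (node 531 (merge (leaf 5 434 530) (node 404 (merge (leaf 6 403 436) (node 403 (merge (leaf 6 371 372) (node 532 (merge (leaf 4 403 500) (leaf 4 435 564)))))))))))))))))))))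 (merge (node 433 (merge (leaf 6 432 465) (node 432 (merge (leaf 6 400 401) (node 399 (merge (leaf 7 399 431) (node 400 (merge (leaf 7 367 367) (node 527 (merge (leaf 5 399 495) (node 498 (merge (leaf 1 495 497) (node 403 (merge (leaf 5 402 530) (node 370 (merge (leaf 7 370 402) (node 371 (merge (leaf 7 338 338) (node 500 (merge (leaf 4 371 468) (leaf 4 403 532))))))))))))))))))))) (node 403 (merge (node 404 (merge (leaf 6 371 372) (node 531 (merge (leaf 6 403 436) (node 532 (merge (leaf 4 403 500) (leaf 4 435 564))))))) (merge (node 404 (merge (leaf 6 371 372) (node 436 (merge (leaf 6 403 531) (node 402 (merge (leaf 7 370 370) (node 401 (merge (leaf 0 400 400) (leaf 0 401 437))))))))) (merge (node 433 (merge (leaf 6 432 465) (node 401 (merge (leaf 6 400 432) (node 402 (merge (leaf 7 370 370) (node 436 (merge (leaf 0 400 400) (node 404 (merge (leaf 0 401 437) (leaf 6 403 531))))))))))) (node 433 (merge (leaf 6 432 465) (node 401 (merge (leaf 6 400 432) (node 402 (merge (leaf 7 370 370) (node 500 (merge (leaf 4 403 532) (node 371 (merge (leaf 4 371 468) (node 372 (merge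 (leaf 6 339 340) (leaf 2 368 400))))))))))))))))))))))))))) nP_43 cP_43 13 (by decide +kernel)
def nP_44 : ℕ := 0x300000001000000010000000900000000000000000000000000000000000000000000000000000000000000000000000000000000000000000000000000000000000000000000
def cP_44 : ℕ := 0x40000001c0000003c0000003c0000007c8000007e800000760000007d8000007f8000007f80000074000000500000000000000000000000000000000000000000000000000000000000000000000000000000
theorem lP_44 : S nP_44 cP_44 14 := S_of_chk [] trivial (node 466 (merge (node 465 (merge (leaf 1 463 495) (node 500 (merge (leaf 0 464 499) (node 468 (merge (leaf 1 464 497) (leaf 0 465 501))))))) (merge (node 465 (merge (leaf 1 463 495) (node 500 (merge (leaf 0 464 499) (node 468 (merge (leaf 0 465 501) (node 436 (merge (leaf 2 432 435) (leaf 2 433 437))))))))) (merge (node 465 (merge (leaf 1 463 495) (node 497 (merge (leaf 1 464 468) (node 435 (merge (leaf 2 432 436) (node 432 (merge (leaf 3 431 431) (node 400 (merge (leaf 4 368 368) (node 401 (merge (leaf 6 368 369) (node 399 (merge (leaf 7 367 367) (node 402 (merge (leaf 0 399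 434) (node 371 (merge (leaf 2 367 370) (node 403 (merge (leaf 2 368 372) (leaf 5 370 498))))))))))))))))))))) (merge (node 562 (merge (node 563 (merge (leaf 3 527 527) (node 531 (merge (leaf 2 528 532) (node 499 (merge (leaf 7 434 434) (leaf 5 466 594))))))) (merge (node 495 (merge (leaf 1 463 465) (node 498 (merge (leaf 2 463 497) (node 563 (merge (leaf 3 527 527) (node 595 (merge (leaf 4 466 530) (leaf 0 560 596))))))))) (node 465 (merge (leaf 1 463 495) (node 499 (merge (leaf 0 464 500) (node 435 (merge (leaf 2 432 436) (node 530 (merge (leaf 6 434 498) (leaf 5 434 531)))))))))))) (merge (node 499 (merge (node 563 (merge (node 562 (merge (leaf 3 527 527) (node 531 (merge (leaf 2 528 532) (leaf 5 466 594))))) (merge (node 531 (merge (leaf 7 434 434) (node 595 (merge (leaf 7 466 498) (node 596 (merge (leaf 4 467 564) (leaf 4 499 628))))))) (node 562 (merge (leaf 3 527 527) (node 596 (merge (leaf 0 560 595) (node 564 (merge (leaf 0 561 597) (node 532 (merge (leaf 7 467 500) (leaf 2 529 533)))))))))))) (merge (node 465 (merge (leaf 0 464 500) (node 497 (merge (leaf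 1 464 468) (node 435 (merge (leaf 2 432 436) (node 432 (merge (leaf 3 431 431) (node 400 (merge (leaf 4 368 368) (node 401 (merge (leaf 6 368 369) (node 399 (merge (leaf 7 367 367) (node 402 (merge (leaf 0 399 434) (node 370 (merge (leaf 2 367 371) (leaf 7 370 403))))))))))))))))))) (merge (node 497 (merge (node 468 (merge (leaf 1 464 465) (node 498 (merge (leaf 1 465 469) (leaf 2 464 499))))) (merge (node 498 (merge (leaf 1 495 527) (node 531 (merge (leaf 0 496 532) (node 563 (merge (leaf 7 434 434) (leaf 7 466 595))))))) (node 465 (merge (leaf 1 464 468) (node 435 (merge (leaf 2 432 436) (node 432 (merge (leaf 3 431 431) (node 400 (merge (leaf 4 368 368) (node 401 (merge (leaf 6 368 369) (node 399 (merge (leaf 7 367 367) (node 402 (merge (leaf 0 399 434) (node 370 (merge (leaf 2 367 371) (leaf 7 370 403)))))))))))))))))))) (node 465 (merge (leaf 0 464 500) (node 497 (merge (leaf 1 464 468) (node 498 (merge (leaf 1 495 527) (node 435 (merge (leaf 2 432 436) (node 530 (merge (leaf 5 402 403) (leaf 6 434 562))))))))))))))) (node 499 (merge (node 563 (merge (node 562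 (merge (leaf 3 527 527) (node 531 (merge (leaf 2 528 532) (leaf 5 466 594))))) (merge (node 531 (merge (leaf 7 434 434) (node 595 (merge (leaf 7 466 498) (node 596 (merge (leaf 4 467 564) (leaf 4 499 628))))))) (node 562 (merge (leaf 3 527 527) (node 596 (merge (leaf 0 560 595) (node 564 (merge (leaf 0 561 597) (node 532 (merge (leaf 7 467 500) (leaf 2 529 533)))))))))))) (merge (node 498 (merge (node 497 (merge (leaf 2 464 468) (leaf 2 463 495))) (node 562 (merge (node 530 (merge (leaf 6 434 435) (leaf 6 466 594))) (node 563 (merge (leaf 3 527 527) (node 596 (merge (leaf 0 560 595) (node 564 (merge (leaf 0 561 597) (node 532 (merge (leaf 7 467 500) (leaf 2 529 533))))))))))))) (merge (node 563 (merge (node 562 (merge (leaf 3 527 527) (node 531 (merge (leaf 2 528 532) (leaf 5 466 594))))) (merge (node 531 (merge (leaf 7 434 434) (node 595 (merge (leaf 7 466 498) (node 596 (merge (leaf 4 467 564) (leaf 4 499 628))))))) (node 562 (merge (leaf 3 527 527) (node 595 (merge (leaf 0 560 596) (node 498 (merge (leaf 4 466 530) (node 497 (merge (leaf 2 464 468) (leaf 2 463 495))))))))))))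 (merge (node 563 (merge (node 562 (merge (leaf 3 527 527) (node 595 (merge (leaf 0 560 596) (node 531 (merge (leaf 5 466 594) (node 466 (merge (leaf 7 434 434) (leaf 7 466 498))))))))) (merge (node 562 (merge (leaf 3 527 527) (node 595 (merge (leaf 0 560 596) (node 498 (merge (leaf 4 466 530) (node 497 (merge (leaf 2 464 468) (leaf 2 463 495))))))))) (merge (node 531 (merge (leaf 7 434 434) (node 562 (merge (leaf 3 527 527) (leaf 5 466 594))))) (node 531 (merge (leaf 7 434 434) (node 468 (merge (leaf 6 435 436) (node 595 (merge (leaf 6 467 500) (node 596 (merge (leaf 4 467 564) (leaf 4 499 628))))))))))))) (merge (node 563 (merge (node 562 (merge (leaf 3 527 527) (node 531 (merge (leaf 2 528 532) (leaf 5 466 594))))) (merge (node 531 (merge (leaf 7 434 434) (node 468 (merge (leaf 6 435 436) (node 595 (merge (leaf 6 467 500) (node 596 (merge (leaf 4 467 564) (leaf 4 499 628))))))))) (node 562 (merge (leaf 3 527 527) (node 596 (merge (leaf 0 560 595) (node 564 (merge (leaf 0 561 597) (node 532 (merge (leaf 7 467 500) (leaf 2 529 533)))))))))))) (merge (node 563 (merge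 (node 562 (merge (leaf 3 527 527) (node 531 (merge (leaf 2 528 532) (leaf 5 466 594))))) (merge (node 562 (merge (leaf 3 527 527) (node 595 (merge (leaf 0 560 596) (node 498 (merge (leaf 4 466 530) (node 497 (merge (leaf 2 464 468) (leaf 2 463 495))))))))) (node 531 (merge (leaf 7 434 434) (node 595 (merge (leaf 7 466 498) (node 500 (merge (leaf 6 467 468) (node 627 (merge (leaf 6 499 532) (node 626 (merge (leaf 5 498 594) (leaf 5 530 658)))))))))))))) (merge (node 498 (merge (node 497 (merge (leaf 2 464 468) (leaf 2 463 495))) (merge (node 497 (merge (leaf 2 463 495) (node 531 (merge (leaf 0 496 532) (node 563 (merge (leaf 7 434 434) (leaf 7 466 595))))))) (node 435 (merge (node 403 (merge (leaf 5 370 371) (leaf 5 402 530))) (node 531 (merge (node 563 (merge (leaf 7 434 434) (node 595 (merge (leaf 7 466 498) (node 596 (merge (leaf 4 467 564) (leaf 4 499 628))))))) (merge (node 436 (merge (leaf 6 403 404) (node 563 (merge (leaf 7 434 434) (leaf 6 435 468))))) (merge (node 436 (merge (leaf 6 403 404) (node 563 (merge (leaf 6 435 468) (node 595 (merge (leaf 7 466 498)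 (node 596 (merge (leaf 4 467 564) (leaf 4 499 628))))))))) (node 436 (merge (leaf 6 403 404) (node 434 (merge (leaf 7 402 402) (node 437 (merge (leaf 1 434 438) (node 469 (merge (leaf 0 434 470) (node 405 (merge (leaf 2 402 406) (node 532 (merge (leaf 4 435 564) (node 500 (merge (leaf 6 404 468) (leaf 5 404 501)))))))))))))))))))))))) (node 435 (merge (node 498 (merge (node 403 (merge (leaf 5 370 371) (leaf 5 402 530))) (node 497 (merge (leaf 2 464 468) (leaf 1 495 527))))) (merge (node 403 (merge (node 498 (merge (leaf 5 370 371) (leaf 5 402 530))) (merge (node 402 (merge (leaf 7 370 370) (node 531 (merge (leaf 7 402 434) (node 532 (merge (leaf 4 403 500) (leaf 4 435 564))))))) (node 404 (merge (leaf 6 371 372) (node 531 (merge (leaf 6 403 436) (node 532 (merge (leaf 4 403 500) (leaf 4 435 564)))))))))) (merge (node 403 (merge (node 404 (merge (leaf 6 371 372) (node 531 (merge (leaf 6 403 436) (node 402 (merge (leaf 7 370 370) (leaf 7 402 434))))))) (merge (node 402 (merge (leaf 7 370 370) (node 531 (merge (leaf 7 402 434) (node 532 (merge (leaf 4 403 500) (leaf 4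 435 564))))))) (merge (node 404 (merge (leaf 6 371 372) (node 531 (merge (leaf 6 403 436) (node 532 (merge (leaf 4 403 500) (leaf 4 435 564))))))) (node 372 (merge (leaf 6 371 404) (node 371 (merge (leaf 6 339 340) (node 370 (merge (leaf 7 338 338) (leaf 7 370 402))))))))))) (node 436 (merge (node 404 (merge (leaf 6 403 531) (node 372 (merge (leaf 5 339 340) (leaf 5 371 468))))) (merge (node 437 (merge (leaf 1 434 438) (node 531 (merge (leaf 6 403 404) (node 434 (merge (leaf 7 402 402) (node 469 (merge (leaf 0 434 470) (node 405 (merge (leaf 2 402 406) (node 532 (merge (leaf 4 435 564) (node 501 (merge (leaf 5 404 500) (node 502 (merge (leaf 4 405 534) (node 530 (merge (leaf 2 498 533) (leaf 5 434 562))))))))))))))))))) (node 437 (merge (leaf 1 434 438) (node 469 (merge (node 434 (merge (leaf 0 434 470) (node 402 (merge (leaf 4 370 370) (leaf 3 401 401))))) (merge (node 405 (merge (node 434 (merge (leaf 2 402 406) (node 402 (merge (leaf 4 370 370) (leaf 3 401 401))))) (node 500 (merge (node 501 (merge (leaf 3 466 502) (leaf 5 404 532))) (node 373 (merge (leaf 5 372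 468) (node 342 (merge (leaf 6 341 374) (node 341 (merge (leaf 6 309 310) (node 340 (merge (leaf 7 308 308) (leaf 7 340 372))))))))))))) (node 498 (merge (node 497 (merge (leaf 1 465 468) (leaf 1 495 527))) (merge (node 497 (merge (leaf 2 463 495) (leaf 1 495 527))) (node 468 (merge (leaf 1 466 470) (node 501 (merge (leaf 0 466 502) (node 533 (merge (leaf 7 436 565) (node 500 (merge (leaf 0 498 534) (node 532 (merge (leaf 6 404 405) (leaf 6 436 564)))))))))))))))))))))))))))))))))))))))) nP_44 cP_44 14 (by decide +kernel)
def nP_45 : ℕ := 0x300000001000000010000000900000001000000000000000000000000000000000000000000000000000000000000000000000000000000000000000000000000000000000000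
def cP_45 : ℕ := 0x100000003c0000007c0000007c8000007e800000740000007e8000001d8000001c80000004000000000000000000000000000000000000000000000000000000000000000000000000000000000000
theorem lP_45 : S nP_45 cP_45 12 := S_of_chk [] trivial (node 499 (merge (node 399 (merge (leaf 7 399 431) (node 400 (merge (leaf 7 367 367) (node 527 (merge (leaf 5 399 495) (node 498 (merge (leaf 1 495 497) (node 562 (merge (leaf 3 527 563) (node 530 (merge (leaf 6 466 594) (node 435 (merge (leaf 5 402 403) (leaf 6 434 466))))))))))))))) (merge (node 399 (merge (leaf 7 399 431) (node 400 (merge (leaf 7 367 367) (node 527 (merge (leaf 5 399 495) (node 498 (merge (leaf 1 495 497) (node 562 (merge (leaf 3 527 563) (node 530 (merge (leaf 6 466 594) (node 435 (merge (leaf 5 402 403) (leaf 5 434 531))))))))))))))) (merge (node 563 (merge (node 562 (merge (leaf 3 527 527) (node 531 (merge (leaf 2 528 532) (leaf 5 466 594))))) (merge (node 562 (merge (leaf 3 527 527) (node 596 (merge (leaf 0 560 595) (node 564 (merge (leaf 0 561 597) (node 532 (merge (leaf 7 467 500) (leaf 2 529 533))))))))) (merge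 (node 562 (merge (leaf 3 527 527) (node 595 (merge (leaf 0 560 596) (node 531 (merge (leaf 5 466 594) (node 466 (merge (leaf 7 434 434) (leaf 7 466 498))))))))) (node 531 (merge (node 468 (merge (leaf 6 435 436) (node 595 (merge (leaf 6 467 500) (node 498 (merge (leaf 7 466 466) (leaf 2 464 497))))))) (merge (node 466 (merge (leaf 7 434 434) (node 595 (merge (leaf 7 466 498) (node 596 (merge (leaf 4 467 564) (leaf 4 499 628))))))) (merge (node 468 (merge (leaf 6 435 436) (node 595 (merge (leaf 6 467 500) (node 596 (merge (leaf 4 467 564) (leaf 4 499 628))))))) (node 468 (merge (leaf 6 435 436) (node 466 (merge (leaf 7 434 434) (node 498 (merge (leaf 2 464 497) (node 469 (merge (leaf 1 466 470) (node 501 (merge (leaf 0 466 502) (node 437 (merge (leaf 2 434 438) (node 564 (merge (leaf 4 467 596) (node 532 (merge (leaf 6 436 500) (leaf 5 436 533))))))))))))))))))))))))) (merge (node 434 (merge (node 431 (merge (leaf 7 399 399) (node 433 (merge (leaf 0 431 466) (node 435 (merge (leaf 0 432 468) (node 403 (merge (leaf 2 399 402) (leaf 2 400 404))))))))) (merge (node 431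 (merge (leaf 7 399 399) (node 466 (merge (leaf 0 431 433) (node 563 (merge (leaf 7 434 531) (node 562 (merge (leaf 3 527 527) (node 596 (merge (leaf 0 560 595) (node 564 (merge (leaf 0 561 597) (node 532 (merge (leaf 7 467 500) (leaf 2 529 533))))))))))))))) (merge (node 399 (merge (leaf 7 399 431) (node 400 (merge (leaf 7 367 367) (node 435 (merge (leaf 3 399 433) (node 531 (merge (leaf 7 402 402) (node 436 (merge (leaf 6 403 404) (node 563 (merge (leaf 6 435 468) (node 562 (merge (leaf 3 527 527) (leaf 2 528 532))))))))))))))) (merge (node 399 (merge (leaf 7 399 431) (node 400 (merge (leaf 7 367 367) (node 527 (merge (leaf 5 399 495) (node 563 (merge (leaf 3 527 562) (node 531 (merge (leaf 7 434 466) (node 436 (merge (leaf 6 435 468) (node 435 (merge (leaf 7 402 402) (leaf 6 403 404))))))))))))))) (node 531 (merge (node 563 (merge (leaf 7 434 466) (node 562 (merge (leaf 3 527 527) (leaf 2 528 532))))) (merge (node 563 (merge (leaf 7 434 466) (node 468 (merge (leaf 6 435 436) (node 595 (merge (leaf 6 467 500) (node 596 (merge (leaf 4 467 564) (leaf 4 499 628)))))))))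 (merge (node 435 (merge (leaf 7 402 402) (node 436 (merge (leaf 6 403 404) (node 563 (merge (leaf 6 435 468) (node 562 (merge (leaf 3 527 527) (leaf 2 528 532))))))))) (node 435 (merge (leaf 7 402 402) (node 404 (merge (leaf 6 403 436) (node 433 (merge (leaf 2 400 403) (leaf 0 432 468)))))))))))))))) (merge (node 435 (merge (node 498 (merge (node 497 (merge (leaf 2 464 468) (leaf 1 495 527))) (node 403 (merge (leaf 5 402 530) (node 404 (merge (leaf 6 371 372) (node 531 (merge (leaf 6 403 436) (node 532 (merge (leaf 4 403 500) (leaf 4 435 564))))))))))) (merge (node 399 (merge (leaf 7 399 431) (node 400 (merge (leaf 7 367 367) (node 434 (merge (leaf 3 399 433) (node 531 (merge (leaf 7 402 402) (node 404 (merge (leaf 6 403 436) (node 403 (merge (leaf 6 371 372) (node 532 (merge (leaf 4 403 500) (leaf 4 435 564))))))))))))))) (merge (node 399 (merge (leaf 7 399 431) (node 400 (merge (leaf 7 367 367) (node 434 (merge (leaf 3 399 433) (node 531 (merge (leaf 7 402 402) (node 527 (merge (leaf 5 399 495) (node 498 (merge (leaf 1 495 497) (node 530 (merge (leaf 5 402 403) (leaf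 5 434 562))))))))))))))) (merge (node 399 (merge (leaf 7 399 431) (node 400 (merge (leaf 7 367 367) (node 434 (merge (leaf 3 399 433) (node 531 (merge (leaf 7 402 402) (node 532 (merge (leaf 4 435 564) (node 403 (merge (leaf 4 403 500) (node 530 (merge (leaf 5 402 498) (leaf 5 434 562))))))))))))))) (merge (node 498 (merge (node 497 (merge (leaf 2 464 468) (leaf 1 495 527))) (merge (node 497 (merge (leaf 2 464 468) (node 531 (merge (leaf 0 496 532) (node 495 (merge (leaf 2 463 466) (leaf 0 495 530))))))) (node 399 (merge (leaf 7 399 431) (node 400 (merge (leaf 7 367 367) (node 434 (merge (leaf 3 399 433) (node 402 (merge (leaf 7 402 531) (node 370 (merge (leaf 4 338 338) (leaf 4 370 466)))))))))))))) (node 399 (merge (leaf 7 399 431) (node 400 (merge (leaf 7 367 367) (node 527 (merge (leaf 5 399 495) (node 498 (merge (leaf 1 495 497) (node 403 (merge (leaf 5 402 530) (node 500 (merge (leaf 4 403 532) (node 371 (merge (leaf 5 370 466) (leaf 4 371 468))))))))))))))))))))) (merge (node 435 (merge (node 498 (merge (node 497 (merge (leaf 2 464 468) (leaf 1 495 527))) (node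 403 (merge (leaf 5 402 530) (node 404 (merge (leaf 6 371 372) (node 531 (merge (leaf 6 403 436) (node 532 (merge (leaf 4 403 500) (leaf 4 435 564))))))))))) (merge (node 399 (merge (leaf 7 399 431) (node 400 (merge (leaf 7 367 367) (node 434 (merge (leaf 3 399 433) (node 531 (merge (leaf 7 402 402) (node 404 (merge (leaf 6 403 436) (node 403 (merge (leaf 6 371 372) (node 532 (merge (leaf 4 403 500) (leaf 4 435 564))))))))))))))) (merge (node 399 (merge (leaf 7 399 431) (node 400 (merge (leaf 7 367 367) (node 527 (merge (leaf 5 399 495) (node 498 (merge (leaf 1 495 497) (node 403 (merge (leaf 5 402 530) (node 500 (merge (leaf 4 403 532) (node 371 (merge (leaf 5 370 466) (leaf 4 371 468))))))))))))))) (merge (node 399 (merge (leaf 7 399 431) (node 400 (merge (leaf 7 367 367) (node 434 (merge (leaf 3 399 433) (node 531 (merge (leaf 7 402 402) (node 563 (merge (leaf 7 434 466) (node 468 (merge (leaf 6 435 436) (node 595 (merge (leaf 6 467 500) (node 596 (merge (leaf 4 467 564) (leaf 4 499 628))))))))))))))))) (node 399 (merge (leaf 7 399 431) (node 400 (merge (leaf 7 367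 367) (node 434 (merge (leaf 3 399 433) (node 531 (merge (leaf 7 402 402) (node 563 (merge (leaf 7 434 466) (node 564 (merge (leaf 4 435 532) (leaf 4 467 596)))))))))))))))))) (node 531 (merge (node 562 (merge (node 563 (merge (leaf 2 528 532) (leaf 5 466 594))) (node 431 (merge (leaf 7 399 399) (node 435 (merge (leaf 5 434 530) (node 434 (merge (leaf 7 402 402) (node 433 (merge (leaf 0 431 466) (leaf 0 432 468))))))))))) (merge (node 562 (merge (node 563 (merge (leaf 2 528 532) (leaf 5 466 594))) (merge (node 563 (merge (leaf 5 466 594) (node 468 (merge (leaf 6 435 436) (node 595 (merge (leaf 6 467 500) (leaf 0 560 596))))))) (node 435 (merge (leaf 5 434 530) (node 434 (merge (leaf 7 402 402) (node 433 (merge (leaf 0 432 468) (node 403 (merge (leaf 2 400 404) (node 532 (merge (leaf 4 403 500) (leaf 4 435 564)))))))))))))) (merge (node 562 (merge (node 563 (merge (leaf 5 466 594) (node 468 (merge (leaf 6 435 436) (node 595 (merge (leaf 6 467 500) (leaf 0 560 596))))))) (merge (node 563 (merge (leaf 5 466 594) (node 595 (merge (leaf 0 560 596) (node 466 (merge (leaf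 7 434 434) (leaf 7 466 498))))))) (node 431 (merge (leaf 7 399 399) (node 435 (merge (leaf 5 434 530) (node 434 (merge (leaf 7 402 402) (node 433 (merge (leaf 0 431 466) (leaf 0 432 468)))))))))))) (merge (node 563 (merge (node 468 (merge (leaf 6 435 436) (node 595 (merge (leaf 6 467 500) (node 498 (merge (leaf 7 466 466) (leaf 2 464 497))))))) (merge (node 466 (merge (leaf 7 434 434) (node 595 (merge (leaf 7 466 498) (node 596 (merge (leaf 4 467 564) (leaf 4 499 628))))))) (merge (node 468 (merge (leaf 6 435 436) (node 595 (merge (leaf 6 467 500) (node 596 (merge (leaf 4 467 564) (leaf 4 499 628))))))) (node 468 (merge (leaf 6 435 436) (node 466 (merge (leaf 7 434 434) (node 498 (merge (leaf 2 464 497) (node 469 (merge (leaf 1 466 470) (node 501 (merge (leaf 0 466 502) (node 437 (merge (leaf 2 434 438) (node 564 (merge (leaf 4 467 596) (node 532 (merge (leaf 6 436 500) (leaf 5 436 533))))))))))))))))))))) (merge (node 562 (merge (node 563 (merge (leaf 2 528 532) (leaf 5 466 594))) (merge (node 563 (merge (leaf 5 466 594) (node 595 (merge (leaf 0 560 596) (node 466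 (merge (leaf 7 434 434) (leaf 7 466 498))))))) (node 399 (merge (leaf 7 399 431) (node 400 (merge (leaf 7 367 367) (node 435 (merge (leaf 5 434 530) (node 434 (merge (leaf 7 402 402) (leaf 3 399 433)))))))))))) (merge (node 435 (merge (node 532 (merge (leaf 4 435 564) (node 498 (merge (leaf 0 496 497) (node 403 (merge (leaf 4 403 500) (leaf 5 402 530))))))) (merge (node 434 (merge (leaf 7 402 402) (node 433 (merge (leaf 0 432 468) (node 403 (merge (leaf 2 400 404) (node 532 (merge (leaf 4 403 500) (leaf 4 435 564))))))))) (merge (node 431 (merge (leaf 7 399 399) (node 434 (merge (leaf 7 402 402) (node 433 (merge (leaf 0 431 466) (leaf 0 432 468))))))) (merge (node 402 (merge (leaf 7 402 434) (node 403 (merge (leaf 7 370 370) (node 532 (merge (leaf 4 435 564) (node 498 (merge (leaf 0 496 497) (leaf 5 402 530))))))))) (merge (node 404 (merge (leaf 6 403 436) (node 403 (merge (leaf 6 371 372) (node 402 (merge (leaf 7 370 370) (leaf 7 402 434))))))) (node 436 (merge (leaf 6 403 404) (node 532 (merge (leaf 4 435 564) (node 498 (merge (leaf 0 496 497) (node 533 (merge (leaf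 3 498 534) (node 530 (merge (leaf 1 529 562) (node 565 (merge (leaf 0 530 566) (node 468 (merge (leaf 4 436 500) (node 469 (merge (leaf 1 466 470) (leaf 7 436 501))))))))))))))))))))))) (node 562 (merge (node 563 (merge (leaf 2 528 532) (leaf 5 466 594))) (merge (node 563 (merge (leaf 5 466 594) (node 468 (merge (leaf 6 435 436) (node 595 (merge (leaf 6 467 500) (leaf 0 560 596))))))) (node 435 (merge (leaf 5 434 530) (node 404 (merge (leaf 6 403 436) (node 403 (merge (leaf 6 371 372) (node 532 (merge (leaf 4 403 500) (leaf 4 435 564)))))))))))))))))))))))))) nP_45 cP_45 12 (by decide +kernel)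
def nP_46 : ℕ := 0x300000001000000010000000900000001000000000000000000000000000000000000000000000000000000000000000000000000000000000000000000000000000000000000
def cP_46 : ℕ := 0x580000007c0000007c000001fc800001fe800000f4000001fe8000007f0000007e00000050000000000000000000000000000000000000000000000000000000000000000000000000000000000000
theorem lP_46 : S nP_46 cP_46 13 := S_of_chk [] trivial (node 468 (merge (node 433 (merge (leaf 6 400 401) (node 434 (merge (leaf 0 432 435) (node 466 (merge (leaf 0 431 431) (leaf 3 433 469))))))) (merge (node 499 (merge (node 401 (merge (leaf 6 400 433) (node 400 (merge (leaf 6 368 369) (node 527 (merge (leaf 5 399 495) (node 498 (merge (leaf 1 495 497) (node 562 (merge (leaf 3 527 563) (node 530 (merge (leaf 6 466 594) (node 435 (merge (leaf 5 402 403) (leaf 5 434 531))))))))))))))) (merge (node 563 (merge (node 531 (merge (leaf 6 435 436) (node 562 (merge (leaf 2 528 532) (leaf 5 466 594))))) (merge (node 562 (merge (leaf 3 527 527) (node 596 (merge (leaf 0 560 595) (node 564 (merge (leaf 0 561 597) (node 532 (merge (leaf 2 529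 533) (node 500 (merge (leaf 7 435 435) (leaf 7 467 499))))))))))) (node 531 (merge (leaf 6 435 436) (node 595 (merge (leaf 6 467 500) (node 596 (merge (leaf 4 467 564) (leaf 4 499 628)))))))))) (merge (node 401 (merge (leaf 6 400 433) (node 400 (merge (leaf 6 368 369) (node 527 (merge (leaf 5 399 495) (node 563 (merge (leaf 3 527 562) (node 531 (merge (leaf 6 435 436) (node 595 (merge (leaf 6 467 500) (node 596 (merge (leaf 4 467 564) (leaf 4 499 628))))))))))))))) (node 433 (merge (leaf 6 400 401) (node 435 (merge (leaf 0 432 434) (node 498 (merge (leaf 2 464 497) (node 403 (merge (leaf 5 402 530) (node 500 (merge (leaf 4 371 371) (leaf 4 403 532))))))))))))))) (merge (node 499 (merge (node 401 (merge (leaf 6 400 433) (node 400 (merge (leaf 6 368 369) (node 527 (merge (leaf 5 399 495) (node 498 (merge (leaf 1 495 497) (node 562 (merge (leaf 3 527 563) (node 530 (merge (leaf 6 466 594) (node 435 (merge (leaf 5 402 403) (leaf 6 434 466))))))))))))))) (merge (node 563 (merge (node 531 (merge (leaf 6 435 436) (node 595 (merge (leaf 6 467 500) (node 498 (merge (leaf 7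 466 466) (leaf 2 464 497))))))) (merge (node 562 (merge (leaf 3 527 527) (node 531 (merge (leaf 2 528 532) (node 499 (merge (leaf 6 435 436) (leaf 5 466 594))))))) (node 562 (merge (leaf 3 527 527) (node 596 (merge (leaf 0 560 595) (node 564 (merge (leaf 0 561 597) (node 532 (merge (leaf 2 529 533) (node 500 (merge (leaf 7 435 435) (leaf 7 467 499)))))))))))))) (merge (node 401 (merge (leaf 6 400 433) (node 400 (merge (leaf 6 368 369) (node 527 (merge (leaf 5 399 495) (node 563 (merge (leaf 3 527 562) (node 531 (merge (leaf 6 435 436) (node 595 (merge (leaf 6 467 500) (node 596 (merge (leaf 4 467 564) (leaf 4 499 628))))))))))))))) (node 403 (merge (node 401 (merge (leaf 6 400 433) (node 400 (merge (leaf 6 368 369) (node 402 (merge (leaf 1 399 431) (node 435 (merge (leaf 7 370 370) (leaf 0 400 436))))))))) (merge (node 498 (merge (leaf 2 464 497) (node 435 (merge (leaf 5 402 530) (node 404 (merge (leaf 6 371 372) (node 531 (merge (leaf 6 403 436) (node 532 (merge (leaf 4 403 500) (leaf 4 435 564))))))))))) (merge (node 401 (merge (leaf 6 400 433) (node 400 (merge (leaf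 6 368 369) (node 402 (merge (leaf 1 399 431) (node 435 (merge (leaf 7 370 370) (node 372 (merge (leaf 2 368 371) (leaf 6 371 404))))))))))) (node 401 (merge (leaf 6 400 433) (node 400 (merge (leaf 6 368 369) (node 402 (merge (leaf 1 399 431) (node 372 (merge (leaf 2 368 371) (node 404 (merge (leaf 2 369 373) (leaf 5 371 436))))))))))))))))))) (merge (node 563 (merge (node 562 (merge (leaf 3 527 527) (node 531 (merge (leaf 2 528 532) (node 499 (merge (leaf 6 435 436) (leaf 5 466 594))))))) (merge (node 562 (merge (leaf 3 527 527) (node 596 (merge (leaf 0 560 595) (node 564 (merge (leaf 0 561 597) (node 532 (merge (leaf 2 528 531) (leaf 2 529 533))))))))) (merge (node 562 (merge (leaf 3 527 527) (node 596 (merge (leaf 0 560 595) (node 564 (merge (leaf 0 561 597) (node 532 (merge (leaf 2 529 533) (node 500 (merge (leaf 7 435 435) (leaf 7 467 499))))))))))) (merge (node 562 (merge (leaf 3 527 527) (node 596 (merge (leaf 0 560 595) (node 564 (merge (leaf 0 561 597) (node 499 (merge (leaf 4 467 531) (node 498 (merge (leaf 2 464 497) (node 530 (merge (leaf 6 466 594) (node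 435 (merge (leaf 5 402 403) (leaf 6 434 466))))))))))))))) (node 469 (merge (node 498 (merge (node 499 (merge (leaf 1 466 470) (leaf 2 464 497))) (merge (node 497 (merge (leaf 2 464 499) (node 466 (merge (leaf 1 465 469) (leaf 2 463 495))))) (merge (node 466 (merge (leaf 1 465 497) (node 502 (merge (leaf 0 466 501) (node 470 (merge (leaf 0 467 503) (node 438 (merge (leaf 2 434 437) (leaf 2 435 439))))))))) (node 470 (merge (leaf 1 466 499) (node 502 (merge (leaf 0 467 503) (node 466 (merge (leaf 0 466 501) (node 438 (merge (leaf 2 434 437) (leaf 2 435 439))))))))))))) (merge (node 499 (merge (node 498 (merge (leaf 1 466 470) (leaf 2 464 497))) (node 531 (merge (leaf 6 435 436) (node 595 (merge (leaf 6 467 500) (node 596 (merge (leaf 4 467 564) (leaf 4 499 628))))))))) (merge (node 470 (merge (node 503 (merge (leaf 0 467 502) (node 471 (merge (leaf 0 468 504) (node 435 (merge (leaf 3 434 434) (leaf 3 435 436))))))) (merge (node 502 (merge (leaf 0 467 503) (node 466 (merge (leaf 0 466 501) (node 438 (merge (leaf 2 434 437) (leaf 2 435 439))))))) (node 439 (merge (leaf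 2 435 438) (node 471 (merge (leaf 2 436 440) (node 435 (merge (leaf 3 434 434) (leaf 3 435 436)))))))))) (node 500 (merge (node 532 (merge (node 564 (merge (leaf 7 435 435) (leaf 5 467 595))) (merge (node 564 (merge (leaf 6 436 437) (leaf 5 467 595))) (node 436 (merge (leaf 5 435 531) (node 437 (merge (leaf 6 404 405) (node 438 (merge (leaf 1 435 439) (leaf 2 434 466)))))))))) (merge (node 532 (merge (node 564 (merge (leaf 7 435 435) (leaf 5 467 595))) (merge (node 564 (merge (leaf 5 467 595) (node 596 (merge (leaf 7 467 499) (leaf 6 468 501))))) (node 436 (merge (leaf 5 435 531) (node 435 (merge (leaf 7 403 403) (node 533 (merge (leaf 4 436 565) (node 404 (merge (leaf 4 404 501) (node 372 (merge (leaf 5 339 340) (leaf 5 371 499)))))))))))))) (merge (node 437 (merge (node 405 (merge (leaf 5 372 373) (node 532 (merge (leaf 6 404 436) (leaf 5 404 501))))) (merge (node 438 (merge (leaf 2 434 466) (node 439 (merge (leaf 1 435 436) (leaf 1 436 440))))) (node 405 (merge (leaf 5 372 373) (node 501 (merge (leaf 5 404 532) (node 406 (merge (leaf 6 373 374) (node 533 (merge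 (leaf 6 405 438) (node 534 (merge (leaf 4 405 502) (leaf 4 437 566)))))))))))))) (merge (node 501 (merge (node 502 (merge (leaf 0 466 466) (leaf 3 467 503))) (node 499 (merge (node 531 (merge (leaf 6 435 436) (leaf 6 467 595))) (merge (node 498 (merge (leaf 2 464 497) (node 533 (merge (leaf 0 498 534) (node 565 (merge (leaf 7 436 436) (leaf 7 468 597))))))) (node 595 (merge (leaf 6 467 531) (node 498 (merge (leaf 2 464 497) (node 533 (merge (leaf 0 498 534) (node 565 (merge (leaf 7 468 597) (node 566 (merge (leaf 4 469 598) (node 564 (merge (leaf 1 562 594) (leaf 5 468 596)))))))))))))))))) (node 501 (merge (node 502 (merge (leaf 0 466 466) (leaf 3 467 503))) (merge (node 532 (merge (node 564 (merge (leaf 7 435 435) (leaf 6 436 437))) (merge (node 564 (merge (leaf 5 467 595) (node 596 (merge (leaf 7 467 499) (leaf 6 468 501))))) (node 437 (merge (leaf 5 404 405) (node 438 (merge (leaf 2 434 466) (node 533 (merge (leaf 6 405 406) (node 534 (merge (leaf 4 437 566) (node 535 (merge (leaf 3 499 499) (leaf 3 500 536)))))))))))))) (node 499 (merge (node 531 (merge (leaf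 6 467 595) (node 564 (merge (leaf 4 467 596) (node 532 (merge (leaf 7 435 435) (leaf 6 436 437))))))) (merge (node 498 (merge (leaf 2 464 497) (node 534 (merge (leaf 0 498 533) (node 502 (merge (leaf 3 467 503) (leaf 0 499 535))))))) (node 498 (merge (leaf 2 464 497) (node 534 (merge (leaf 0 498 533) (node 502 (merge (leaf 3 467 503) (leaf 0 499 535))))))))))))))))))))))))))) (node 469 (merge (node 433 (merge (leaf 6 400 401) (node 466 (merge (leaf 3 433 434) (node 502 (merge (leaf 0 466 501) (node 470 (merge (leaf 0 467 503) (node 438 (merge (leaf 2 434 437) (leaf 2 435 439))))))))))) (merge (node 498 (merge (node 499 (merge (leaf 1 466 470) (leaf 2 464 497))) (merge (node 497 (merge (leaf 2 464 499) (node 466 (merge (leaf 1 465 469) (leaf 2 463 495))))) (merge (node 466 (merge (leaf 1 465 497) (node 502 (merge (leaf 0 466 501) (node 470 (merge (leaf 0 467 503) (node 438 (merge (leaf 2 434 437) (leaf 2 435 439))))))))) (node 470 (merge (leaf 1 466 499) (node 502 (merge (leaf 0 467 503) (node 466 (merge (leaf 0 466 501) (node 438 (merge (leaf 2 434 437) (leaf 2 435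 439))))))))))))) (merge (node 499 (merge (node 498 (merge (leaf 1 466 470) (leaf 2 464 497))) (node 401 (merge (leaf 6 400 433) (node 400 (merge (leaf 6 368 369) (node 527 (merge (leaf 5 399 495) (node 563 (merge (leaf 3 527 562) (node 531 (merge (leaf 6 435 436) (node 595 (merge (leaf 6 467 500) (node 596 (merge (leaf 4 467 564) (leaf 4 499 628))))))))))))))))) (node 501 (merge (node 433 (merge (leaf 6 400 401) (node 466 (merge (leaf 3 433 434) (leaf 0 466 502))))) (merge (node 533 (merge (node 565 (merge (leaf 7 436 436) (node 597 (merge (leaf 7 468 500) (node 598 (merge (leaf 4 469 566) (leaf 4 501 630))))))) (merge (node 565 (merge (leaf 7 436 436) (node 566 (merge (leaf 4 469 598) (node 437 (merge (leaf 4 437 534) (node 564 (merge (leaf 5 436 532) (leaf 5 468 596))))))))) (node 433 (merge (leaf 6 400 401) (node 466 (merge (leaf 3 433 434) (node 437 (merge (leaf 2 434 438) (node 532 (merge (leaf 5 436 564) (node 405 (merge (leaf 5 404 500) (node 374 (merge (leaf 6 373 406) (node 373 (merge (leaf 6 341 342) (node 372 (merge (leaf 7 340 340) (leaf 7 372 404))))))))))))))))))))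 (node 533 (merge (node 565 (merge (leaf 7 436 436) (node 597 (merge (leaf 7 468 500) (node 598 (merge (leaf 4 469 566) (leaf 4 501 630))))))) (merge (node 565 (merge (leaf 7 436 436) (node 597 (merge (leaf 7 468 500) (node 596 (merge (leaf 5 468 564) (leaf 5 500 628))))))) (merge (node 565 (merge (leaf 7 436 436) (node 566 (merge (leaf 4 469 598) (node 437 (merge (leaf 4 437 534) (node 564 (merge (leaf 5 436 532) (leaf 5 468 596))))))))) (merge (node 565 (merge (node 597 (merge (leaf 7 468 500) (node 598 (merge (leaf 4 469 566) (leaf 4 501 630))))) (merge (node 597 (merge (leaf 7 468 500) (node 596 (merge (leaf 5 468 564) (leaf 5 500 628))))) (node 566 (merge (leaf 4 469 598) (node 437 (merge (leaf 4 437 534) (node 564 (merge (leaf 5 436 532) (leaf 5 468 596)))))))))) (node 532 (merge (node 437 (merge (leaf 5 436 564) (node 438 (merge (leaf 6 405 406) (node 436 (merge (leaf 7 404 404) (leaf 1 435 439))))))) (merge (node 437 (merge (leaf 5 436 564) (node 534 (merge (leaf 4 437 566) (node 405 (merge (leaf 5 404 500) (leaf 4 405 502))))))) (node 531 (merge (node 530 (merge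 (leaf 2 498 502) (leaf 1 529 562))) (merge (node 530 (merge (leaf 2 498 502) (node 498 (merge (leaf 3 497 497) (node 499 (merge (leaf 3 498 534) (node 563 (merge (leaf 6 435 436) (node 595 (merge (leaf 6 467 500) (leaf 7 498 627))))))))))) (node 563 (merge (leaf 2 528 562) (node 436 (merge (leaf 6 435 499) (leaf 5 435 500)))))))))))))))))))))))))))) nP_46 cP_46 13 (by decide +kernel)
def nP_47 : ℕ := 0x300000001000000010000000900000001000000000000000000000000000000000000000000000000000000000000000000000000000000000000000000000000000000000000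
def cP_47 : ℕ := 0x100000003c0000007c0000007c800000fe800001f4000000fc800001ff8000007f80000036800000000000000000000000000000000000000000000000000000000000000000000000000000000000
theorem lP_47 : S nP_47 cP_47 13 := S_of_chk [] trivial (node 499 (merge (node 399 (merge (leaf 7 399 431) (node 400 (merge (leaf 7 367 367) (node 527 (merge (leaf 5 399 495) (node 498 (merge (leaf 1 495 497) (node 562 (merge (leaf 3 527 563) (node 530 (merge (leaf 6 466 594) (node 435 (merge (leaf 5 402 403) (leaf 6 434 466))))))))))))))) (merge (node 399 (merge (leaf 7 399 431) (node 400 (merge (leaf 7 367 367) (node 527 (merge (leaf 5 399 495) (node 498 (merge (leaf 1 495 497) (node 562 (merge (leaf 3 527 563) (node 530 (merge (leaf 6 466 594) (node 435 (merge (leaf 5 402 403) (leaf 5 434 531))))))))))))))) (merge (node 563 (merge (node 562 (merge (leaf 3 527 527) (node 531 (merge (leaf 2 528 532) (leaf 5 466 594))))) (merge (node 562 (merge (leaf 3 527 527) (node 596 (merge (leaf 0 560 595) (node 564 (merge (leaf 0 561 597) (node 532 (merge (leaf 7 467 500) (leaf 2 529 533))))))))) (merge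 (node 562 (merge (leaf 3 527 527) (node 595 (merge (leaf 0 560 596) (node 531 (merge (leaf 5 466 594) (node 466 (merge (leaf 7 434 434) (leaf 7 466 498))))))))) (node 531 (merge (node 468 (merge (leaf 6 435 436) (node 595 (merge (leaf 6 467 500) (node 498 (merge (leaf 7 466 466) (leaf 2 464 497))))))) (merge (node 466 (merge (leaf 7 434 434) (node 595 (merge (leaf 7 466 498) (node 596 (merge (leaf 4 467 564) (leaf 4 499 628))))))) (merge (node 468 (merge (leaf 6 435 436) (node 595 (merge (leaf 6 467 500) (node 596 (merge (leaf 4 467 564) (leaf 4 499 628))))))) (node 468 (merge (leaf 6 435 436) (node 466 (merge (leaf 7 434 434) (node 498 (merge (leaf 2 464 497) (node 469 (merge (leaf 1 466 470) (node 501 (merge (leaf 0 466 502) (node 437 (merge (leaf 2 434 438) (node 564 (merge (leaf 4 467 596) (node 532 (merge (leaf 6 436 500) (leaf 5 436 533))))))))))))))))))))))))) (merge (node 435 (merge (node 399 (merge (leaf 7 399 431) (node 400 (merge (leaf 7 367 367) (node 401 (merge (leaf 6 368 369) (node 402 (merge (leaf 0 399 434) (node 403 (merge (leaf 7 370 370) (leaf 0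 400 436))))))))))) (merge (node 532 (merge (node 531 (merge (leaf 4 435 564) (node 562 (merge (leaf 5 434 530) (leaf 2 528 563))))) (merge (node 531 (merge (leaf 4 435 564) (node 436 (merge (leaf 6 403 404) (node 563 (merge (leaf 6 435 468) (leaf 2 528 562))))))) (node 403 (merge (leaf 4 403 500) (node 372 (merge (leaf 6 371 404) (node 371 (merge (leaf 6 339 340) (node 370 (merge (leaf 7 338 338) (leaf 7 370 402)))))))))))) (merge (node 399 (merge (leaf 7 399 431) (node 400 (merge (leaf 7 367 367) (node 401 (merge (leaf 6 368 369) (node 402 (merge (leaf 0 399 434) (node 403 (merge (leaf 7 370 370) (node 532 (merge (leaf 4 403 500) (node 531 (merge (leaf 4 435 564) (node 562 (merge (leaf 5 434 530) (leaf 2 528 563))))))))))))))))) (merge (node 399 (merge (leaf 7 399 431) (node 400 (merge (leaf 7 367 367) (node 527 (merge (leaf 5 399 495) (node 562 (merge (leaf 3 527 563) (node 531 (merge (leaf 5 434 530) (node 404 (merge (leaf 6 403 436) (node 403 (merge (leaf 6 371 372) (node 532 (merge (leaf 4 403 500) (leaf 4 435 564))))))))))))))))) (node 434 (merge (node 531 (merge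 (leaf 7 402 402) (node 563 (merge (leaf 7 434 466) (node 562 (merge (leaf 3 527 527) (leaf 2 528 532))))))) (merge (node 399 (merge (leaf 7 399 431) (node 400 (merge (leaf 7 367 367) (node 401 (merge (leaf 6 368 369) (leaf 0 399 402))))))) (node 399 (merge (leaf 7 399 431) (node 400 (merge (leaf 7 367 367) (node 527 (merge (leaf 5 399 495) (node 563 (merge (leaf 3 527 562) (node 531 (merge (leaf 7 434 466) (node 468 (merge (leaf 6 435 436) (node 595 (merge (leaf 6 467 500) (node 596 (merge (leaf 4 467 564) (leaf 4 499 628))))))))))))))))))))))))) (merge (node 435 (merge (node 399 (merge (leaf 7 399 431) (node 400 (merge (leaf 7 367 367) (node 401 (merge (leaf 6 368 369) (node 402 (merge (leaf 0 399 434) (node 403 (merge (leaf 7 370 370) (leaf 0 400 436))))))))))) (merge (node 403 (merge (node 404 (merge (leaf 6 371 372) (node 531 (merge (leaf 6 403 436) (node 532 (merge (leaf 4 403 500) (leaf 4 435 564))))))) (merge (node 404 (merge (leaf 6 371 372) (node 531 (merge (leaf 6 403 436) (node 530 (merge (leaf 5 402 498) (leaf 5 434 562))))))) (node 498 (merge (leaf 5 402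 530) (node 468 (merge (leaf 2 464 497) (node 371 (merge (leaf 5 370 466) (leaf 4 371 500)))))))))) (merge (node 399 (merge (leaf 7 399 431) (node 400 (merge (leaf 7 367 367) (node 401 (merge (leaf 6 368 369) (node 402 (merge (leaf 0 399 434) (node 403 (merge (leaf 7 370 370) (node 532 (merge (leaf 4 403 500) (node 531 (merge (leaf 4 435 564) (node 562 (merge (leaf 5 434 530) (leaf 2 528 563))))))))))))))))) (node 531 (merge (node 434 (merge (leaf 7 402 402) (node 563 (merge (leaf 7 434 466) (node 562 (merge (leaf 5 434 530) (leaf 2 528 532))))))) (merge (node 436 (merge (leaf 6 403 404) (node 532 (merge (leaf 4 435 564) (node 498 (merge (leaf 0 496 497) (node 533 (merge (leaf 3 498 534) (node 530 (merge (leaf 1 529 562) (node 565 (merge (leaf 0 530 566) (node 501 (merge (leaf 2 498 502) (node 468 (merge (leaf 7 436 469) (leaf 4 436 500))))))))))))))))) (node 434 (merge (leaf 7 402 402) (node 563 (merge (leaf 7 434 466) (node 468 (merge (leaf 6 435 436) (node 595 (merge (leaf 6 467 500) (node 596 (merge (leaf 4 467 564) (leaf 4 499 628)))))))))))))))))) (merge (node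 400 (merge (node 399 (merge (leaf 7 367 367) (leaf 7 399 431))) (merge (node 369 (merge (leaf 6 368 401) (node 368 (merge (leaf 6 336 337) (node 367 (merge (leaf 7 335 335) (leaf 7 367 399))))))) (merge (node 401 (merge (leaf 6 368 369) (node 431 (merge (leaf 7 399 399) (node 403 (merge (leaf 1 399 402) (node 527 (merge (leaf 5 399 495) (node 498 (merge (leaf 1 495 497) (node 435 (merge (leaf 5 402 530) (node 372 (merge (leaf 6 371 404) (node 371 (merge (leaf 6 339 340) (leaf 5 370 466))))))))))))))))) (node 403 (merge (node 527 (merge (leaf 5 399 495) (node 498 (merge (leaf 1 495 497) (node 435 (merge (leaf 5 402 530) (node 404 (merge (leaf 6 371 372) (node 531 (merge (leaf 6 403 436) (node 532 (merge (leaf 4 403 500) (leaf 4 435 564))))))))))))) (merge (node 527 (merge (leaf 5 399 495) (node 498 (merge (leaf 1 495 497) (node 435 (merge (leaf 5 402 530) (node 402 (merge (leaf 7 370 370) (node 531 (merge (leaf 7 402 434) (node 532 (merge (leaf 4 403 500) (leaf 4 435 564))))))))))))) (merge (node 401 (merge (leaf 6 368 369) (node 402 (merge (leaf 1 399 431) (node 435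 (merge (leaf 7 370 370) (node 531 (merge (leaf 7 402 434) (node 530 (merge (leaf 5 402 498) (leaf 5 434 562))))))))))) (node 401 (merge (leaf 6 368 369) (node 402 (merge (leaf 1 399 431) (node 372 (merge (leaf 2 368 371) (node 404 (merge (leaf 2 369 373) (node 436 (merge (leaf 0 401 437) (leaf 5 371 468))))))))))))))))))) (node 435 (merge (node 399 (merge (leaf 7 399 431) (node 400 (merge (leaf 7 367 367) (node 401 (merge (leaf 6 368 369) (node 402 (merge (leaf 0 399 434) (node 403 (merge (leaf 7 370 370) (leaf 0 400 436))))))))))) (merge (node 498 (merge (node 497 (merge (leaf 2 464 468) (leaf 1 495 527))) (node 403 (merge (leaf 5 402 530) (node 404 (merge (leaf 6 371 372) (node 531 (merge (leaf 6 403 436) (node 532 (merge (leaf 4 403 500) (leaf 4 435 564))))))))))) (merge (node 498 (merge (node 497 (merge (leaf 2 464 468) (leaf 1 495 527))) (node 403 (merge (leaf 5 402 530) (node 402 (merge (leaf 7 370 370) (node 531 (merge (leaf 7 402 434) (node 532 (merge (leaf 4 403 500) (leaf 4 435 564))))))))))) (node 436 (merge (node 404 (merge (leaf 6 403 531) (node 372 (merge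 (leaf 5 339 340) (leaf 5 371 468))))) (merge (node 531 (merge (leaf 6 403 404) (node 434 (merge (leaf 7 402 402) (node 563 (merge (leaf 7 434 466) (node 564 (merge (leaf 4 435 532) (leaf 4 467 596))))))))) (merge (node 437 (merge (node 438 (merge (leaf 1 434 466) (node 471 (merge (leaf 0 435 470) (node 439 (merge (leaf 1 435 468) (leaf 0 436 472))))))) (merge (node 438 (merge (leaf 1 434 466) (node 406 (merge (leaf 2 403 407) (node 434 (merge (leaf 2 402 405) (node 531 (merge (leaf 7 402 402) (node 563 (merge (leaf 6 435 468) (node 564 (merge (leaf 4 435 532) (leaf 4 467 596))))))))))))) (merge (node 531 (merge (node 563 (merge (leaf 6 435 468) (node 434 (merge (leaf 7 402 402) (leaf 7 434 466))))) (merge (node 563 (merge (leaf 6 435 468) (node 564 (merge (leaf 4 435 532) (leaf 4 467 596))))) (merge (node 434 (merge (leaf 7 402 402) (node 563 (merge (leaf 7 434 466) (node 564 (merge (leaf 4 435 532) (leaf 4 467 596))))))) (node 434 (merge (leaf 7 402 402) (node 469 (merge (leaf 0 434 470) (node 405 (merge (leaf 2 402 406) (node 532 (merge (leaf 4 435 564) (node 500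 (merge (leaf 6 404 468) (leaf 5 404 501))))))))))))))) (merge (node 438 (merge (leaf 1 434 466) (node 470 (merge (leaf 0 435 471) (node 434 (merge (leaf 0 434 469) (node 406 (merge (leaf 2 402 405) (leaf 2 403 407))))))))) (node 399 (merge (leaf 7 399 431) (node 400 (merge (leaf 7 367 367) (node 401 (merge (leaf 6 368 369) (node 434 (merge (leaf 0 399 402) (node 406 (merge (leaf 2 402 405) (node 438 (merge (leaf 2 403 407) (node 471 (merge (leaf 0 435 470) (node 439 (merge (leaf 1 435 468) (leaf 0 436 472)))))))))))))))))))))) (node 437 (merge (node 438 (merge (leaf 1 434 466) (node 471 (merge (leaf 0 435 470) (node 439 (merge (leaf 1 435 468) (leaf 0 436 472))))))) (merge (node 399 (merge (leaf 7 399 431) (node 400 (merge (leaf 7 367 367) (node 401 (merge (leaf 6 368 369) (node 434 (merge (leaf 0 399 402) (node 438 (merge (leaf 1 434 466) (node 406 (merge (leaf 2 402 405) (leaf 2 403 407))))))))))))) (merge (node 399 (merge (leaf 7 399 431) (node 400 (merge (leaf 7 367 367) (node 401 (merge (leaf 6 368 369) (node 434 (merge (leaf 0 399 402) (node 406 (merge (leaf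 2 402 405) (node 438 (merge (leaf 2 403 407) (node 471 (merge (leaf 0 435 470) (node 439 (merge (leaf 1 435 468) (leaf 0 436 472))))))))))))))))) (node 405 (merge (node 406 (merge (leaf 2 402 434) (node 407 (merge (leaf 1 403 404) (leaf 1 404 408))))) (merge (node 434 (merge (leaf 2 402 406) (node 402 (merge (leaf 3 401 401) (node 370 (merge (leaf 4 338 338) (leaf 4 370 466))))))) (merge (node 469 (merge (node 404 (merge (node 501 (merge (leaf 7 372 372) (leaf 7 404 533))) (merge (node 372 (merge (leaf 5 339 340) (leaf 5 371 468))) (node 501 (merge (leaf 7 404 533) (node 500 (merge (leaf 5 404 532) (node 468 (merge (leaf 6 372 373) (node 502 (merge (leaf 0 466 466) (leaf 3 467 503)))))))))))) (node 434 (merge (leaf 0 434 470) (node 399 (merge (leaf 7 399 431) (node 400 (merge (leaf 7 367 367) (node 401 (merge (leaf 6 368 369) (leaf 0 399 402))))))))))) (node 469 (merge (node 404 (merge (node 372 (merge (leaf 5 339 340) (leaf 5 371 468))) (node 406 (merge (leaf 1 403 407) (node 501 (merge (leaf 6 373 374) (leaf 7 404 533))))))) (merge (node 399 (merge (leaf 7 399 431)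 (node 400 (merge (leaf 7 367 367) (node 527 (merge (leaf 5 399 495) (node 498 (merge (leaf 1 495 497) (node 468 (merge (leaf 1 466 470) (node 373 (merge (leaf 5 340 341) (leaf 5 372 500))))))))))))) (node 406 (merge (node 407 (merge (leaf 1 403 404) (leaf 1 404 408))) (node 501 (merge (leaf 6 373 374) (node 502 (merge (leaf 4 405 534) (node 500 (merge (leaf 3 466 466) (leaf 5 404 532))))))))))))))))))))))))))))))))))) nP_47 cP_47 13 (by decide +kernel)
def nP_48 : ℕ := 0x300000001000000010000000100000000000000000000000000000000000000000000000000000000000000000000000000000000000000000000000000000000000000000000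
def cP_48 : ℕ := 0x40000005c0000007c0000007c000001fc800001fe800001fe000001ff800001ff8000007f8000007e800000540000000000000000000000000000000000000000000000000000000000000000000000000000
theorem lP_48 : S nP_48 cP_48 15 := S_of_chk [(nP_43, cP_43, 13), (nP_44, cP_44, 14), (nP_45, cP_45, 12), (nP_46, cP_46, 13), (nP_47, cP_47, 13)] ⟨lP_43, lP_44, lP_45, lP_46, lP_47, trivial⟩ (node 467 (merge (node 465 (merge (leaf 6 432 433) (node 466 (merge (leaf 1 463 495) (node 500 (merge (leaf 0 464 499) (node 468 (merge (leaf 1 464 497) (leaf 0 465 501))))))))) (merge (node 433 (merge (leaf 6 432 465) (node 432 (merge (leaf 6 400 401) (node 431 (merge (leaf 7 399 399) (node 434 (merge (leaf 0 431 466) (node 435 (merge (leaf 0 432 468) (node 403 (merge (leaf 2 399 402) (leaf 2 400 404))))))))))))) (merge (node 499 (merge (node 465 (merge (leaf 6 432 433) (node 466 (merge (leaf 1 463 495) (leaf 0 464 500))))) (merge (node 433 (merge (leaf 6 432 465) (node 432 (merge (leaf 6 400 401) (node 399 (merge (leaf 7 399 431) (node 400 (merge (leaf 7 367 367) (node 527 (merge (leaf 5 399 495)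 (node 498 (merge (leaf 1 495 497) (node 562 (merge (leaf 3 527 563) (node 530 (merge (leaf 6 466 594) (node 435 (merge (leaf 5 402 403) (leaf 5 434 531))))))))))))))))))) (merge (node 433 (merge (leaf 6 432 465) (node 432 (merge (leaf 6 400 401) (node 431 (merge (leaf 7 399 399) (node 434 (merge (leaf 0 431 466) (node 403 (merge (leaf 2 399 402) (node 435 (merge (leaf 2 400 404) (node 532 (merge (leaf 4 403 500) (node 498 (merge (leaf 5 402 530) (node 497 (merge (leaf 1 495 527) (leaf 0 496 531))))))))))))))))))) (merge (node 432 (merge (node 401 (merge (leaf 6 400 433) (node 400 (merge (leaf 6 368 369) (node 399 (merge (leaf 7 367 367) (leaf 7 399 431))))))) (merge (node 399 (merge (leaf 7 399 431) (node 400 (merge (leaf 7 367 367) (node 527 (merge (leaf 5 399 495) (node 498 (merge (leaf 1 495 497) (node 562 (merge (leaf 3 527 563) (node 530 (merge (leaf 6 466 594) (node 435 (merge (leaf 5 402 403) (leaf 6 434 466))))))))))))))) (merge (node 401 (merge (leaf 6 400 433) (node 400 (merge (leaf 6 368 369) (node 527 (merge (leaf 5 399 495) (node 498 (merge (leaf 1 495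 497) (node 562 (merge (leaf 3 527 563) (node 530 (merge (leaf 6 466 594) (node 435 (merge (leaf 5 402 403) (leaf 6 434 466))))))))))))))) (node 433 (merge (leaf 6 400 401) (node 431 (merge (leaf 7 399 399) (node 434 (merge (leaf 0 431 466) (node 403 (merge (leaf 2 399 402) (node 435 (merge (leaf 2 400 404) (node 532 (merge (leaf 4 403 500) (node 498 (merge (leaf 5 402 530) (node 497 (merge (leaf 1 495 527) (leaf 0 496 531))))))))))))))))))))) (node 432 (merge (node 563 (merge (node 562 (merge (leaf 3 527 527) (node 531 (merge (leaf 2 528 532) (leaf 5 466 594))))) (merge (node 562 (merge (leaf 3 527 527) (node 596 (merge (leaf 0 560 595) (node 564 (merge (leaf 0 561 597) (node 532 (merge (leaf 7 467 500) (leaf 2 529 533))))))))) (node 431 (merge (leaf 7 399 399) (node 466 (merge (leaf 3 431 465) (node 531 (merge (leaf 7 434 434) (node 595 (merge (leaf 7 466 498) (node 596 (merge (leaf 4 467 564) (leaf 4 499 628)))))))))))))) (merge (node 498 (merge (node 497 (merge (leaf 1 495 527) (node 532 (merge (leaf 0 496 531) (node 500 (merge (leaf 3 464 465) (leaf 0 497 533)))))))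 (merge (node 497 (merge (leaf 1 495 527) (node 531 (merge (leaf 0 496 532) (node 495 (merge (leaf 2 463 466) (leaf 0 495 530))))))) (merge (node 497 (merge (leaf 1 495 527) (node 466 (merge (leaf 2 463 495) (node 465 (merge (leaf 3 431 431) (leaf 0 464 500))))))) (merge (node 466 (merge (node 465 (merge (leaf 3 431 431) (leaf 0 464 500))) (node 497 (merge (leaf 2 463 495) (node 531 (merge (leaf 0 496 532) (node 563 (merge (leaf 7 434 434) (leaf 7 466 595))))))))) (node 466 (merge (node 465 (merge (leaf 3 431 431) (leaf 1 463 495))) (node 562 (merge (node 530 (merge (leaf 6 434 435) (leaf 6 466 594))) (node 563 (merge (leaf 3 527 527) (node 596 (merge (leaf 0 560 595) (node 564 (merge (leaf 0 561 597) (node 532 (merge (leaf 7 467 500) (leaf 2 529 533)))))))))))))))))) (merge (node 400 (merge (node 369 (merge (leaf 6 368 401) (node 368 (merge (leaf 6 336 337) (node 367 (merge (leaf 7 335 335) (leaf 7 367 399))))))) (node 527 (merge (leaf 5 399 495) (node 498 (merge (leaf 1 495 497) (node 562 (merge (leaf 3 527 563) (node 530 (merge (leaf 6 466 594) (node 435 (merge (leaf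 5 402 403) (leaf 5 434 531))))))))))))) (node 399 (merge (leaf 7 399 431) (node 400 (merge (leaf 7 367 367) (node 369 (merge (leaf 6 368 401) (node 368 (merge (leaf 6 336 337) (node 370 (merge (leaf 1 367 371) (node 465 (merge (leaf 4 368 497) (node 466 (merge (leaf 1 463 495) (node 499 (merge (leaf 0 464 500) (node 435 (merge (leaf 2 432 436) (node 402 (merge (leaf 7 370 403) (leaf 4 370 434)))))))))))))))))))))))))))))) (merge (hyp 0) (merge (hyp 1) (node 432 (merge (node 401 (merge (leaf 6 400 433) (node 400 (merge (leaf 6 368 369) (node 399 (merge (leaf 7 367 367) (leaf 7 399 431))))))) (merge (node 433 (merge (leaf 6 400 401) (node 431 (merge (leaf 7 399 399) (node 434 (merge (leaf 0 431 466) (node 435 (merge (leaf 0 432 468) (node 403 (merge (leaf 2 399 402) (leaf 2 400 404))))))))))) (merge (node 499 (merge (node 401 (merge (leaf 6 400 433) (node 400 (merge (leaf 6 368 369) (node 527 (merge (leaf 5 399 495) (node 498 (merge (leaf 1 495 497) (node 562 (merge (leaf 3 527 563) (node 530 (merge (leaf 6 466 594) (node 435 (merge (leaf 5 402 403) (leaf 6 434 466)))))))))))))))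 (merge (node 401 (merge (leaf 6 400 433) (node 400 (merge (leaf 6 368 369) (node 527 (merge (leaf 5 399 495) (node 498 (merge (leaf 1 495 497) (node 562 (merge (leaf 3 527 563) (node 530 (merge (leaf 6 466 594) (node 435 (merge (leaf 5 402 403) (leaf 5 434 531))))))))))))))) (merge (node 563 (merge (node 562 (merge (leaf 3 527 527) (node 531 (merge (leaf 2 528 532) (leaf 5 466 594))))) (merge (node 562 (merge (leaf 3 527 527) (node 596 (merge (leaf 0 560 595) (node 564 (merge (leaf 0 561 597) (node 532 (merge (leaf 7 467 500) (leaf 2 529 533))))))))) (merge (node 562 (merge (leaf 3 527 527) (node 595 (merge (leaf 0 560 596) (node 531 (merge (leaf 5 466 594) (node 466 (merge (leaf 7 434 434) (leaf 7 466 498))))))))) (node 531 (merge (node 468 (merge (leaf 6 435 436) (node 595 (merge (leaf 6 467 500) (node 498 (merge (leaf 7 466 466) (leaf 2 464 497))))))) (merge (node 466 (merge (leaf 7 434 434) (node 595 (merge (leaf 7 466 498) (node 596 (merge (leaf 4 467 564) (leaf 4 499 628))))))) (merge (node 468 (merge (leaf 6 435 436) (node 595 (merge (leaf 6 467 500) (node 596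 (merge (leaf 4 467 564) (leaf 4 499 628))))))) (node 468 (merge (leaf 6 435 436) (node 466 (merge (leaf 7 434 434) (node 498 (merge (leaf 2 464 497) (node 469 (merge (leaf 1 466 470) (node 501 (merge (leaf 0 466 502) (node 437 (merge (leaf 2 434 438) (node 564 (merge (leaf 4 467 596) (node 532 (merge (leaf 6 436 500) (leaf 5 436 533))))))))))))))))))))))))) (merge (node 498 (merge (node 497 (merge (leaf 2 464 468) (node 531 (merge (leaf 0 496 532) (node 495 (merge (leaf 2 463 466) (leaf 0 495 530))))))) (merge (node 401 (merge (leaf 6 400 433) (node 400 (merge (leaf 6 368 369) (node 367 (merge (leaf 7 367 399) (node 368 (merge (leaf 7 335 335) (node 403 (merge (leaf 3 367 402) (node 435 (merge (leaf 5 402 530) (node 404 (merge (leaf 6 371 372) (node 531 (merge (leaf 6 403 436) (node 532 (merge (leaf 4 403 500) (leaf 4 435 564))))))))))))))))))) (merge (node 401 (merge (leaf 6 400 433) (node 400 (merge (leaf 6 368 369) (node 367 (merge (leaf 7 367 399) (node 368 (merge (leaf 7 335 335) (node 497 (merge (leaf 2 464 468) (node 466 (merge (leaf 2 463 495) (node 403 (merge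 (leaf 3 367 402) (node 435 (merge (leaf 5 370 371) (leaf 5 402 530))))))))))))))))) (node 401 (merge (leaf 6 400 433) (node 400 (merge (leaf 6 368 369) (node 367 (merge (leaf 7 367 399) (node 368 (merge (leaf 7 335 335) (node 497 (merge (leaf 2 464 468) (node 532 (merge (leaf 0 496 531) (node 500 (merge (leaf 0 497 533) (node 403 (merge (leaf 3 367 402) (leaf 4 403 435))))))))))))))))))))) (node 435 (merge (node 433 (merge (leaf 6 400 401) (node 434 (merge (leaf 0 432 468) (node 531 (merge (leaf 7 402 402) (node 563 (merge (leaf 7 434 466) (node 562 (merge (leaf 5 434 530) (leaf 2 528 532))))))))))) (merge (node 433 (merge (leaf 6 400 401) (node 434 (merge (leaf 0 432 468) (node 403 (merge (leaf 2 400 404) (node 370 (merge (leaf 7 370 402) (node 371 (merge (leaf 7 338 338) (node 340 (merge (leaf 6 339 372) (node 339 (merge (leaf 6 307 308) (leaf 5 338 466))))))))))))))) (merge (node 532 (merge (node 531 (merge (leaf 4 435 564) (node 562 (merge (leaf 5 434 530) (leaf 2 528 563))))) (merge (node 531 (merge (leaf 4 435 564) (node 436 (merge (leaf 6 403 404) (node 563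 (merge (leaf 6 435 468) (leaf 2 528 562))))))) (node 403 (merge (leaf 4 403 500) (node 372 (merge (leaf 6 371 404) (node 371 (merge (leaf 6 339 340) (node 370 (merge (leaf 7 338 338) (leaf 7 370 402)))))))))))) (merge (node 433 (merge (leaf 6 400 401) (node 434 (merge (leaf 0 432 468) (node 403 (merge (leaf 2 400 404) (node 532 (merge (leaf 4 403 500) (node 531 (merge (leaf 4 435 564) (node 563 (merge (leaf 7 434 466) (leaf 2 528 562))))))))))))) (node 401 (merge (leaf 6 400 433) (node 400 (merge (leaf 6 368 369) (node 527 (merge (leaf 5 399 495) (node 562 (merge (leaf 3 527 563) (node 531 (merge (leaf 5 434 530) (node 436 (merge (leaf 6 403 404) (node 403 (merge (leaf 0 400 402) (node 532 (merge (leaf 4 403 500) (leaf 4 435 564))))))))))))))))))))))))))) (merge (hyp 2) (merge (hyp 3) (hyp 4))))))))))))) nP_48 cP_48 15 (by decide +kernel)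
def nP_49 : ℕ := 0x100000001000000000000000000000000000000000000000000000000000000000000000000000000000000000000000000000000000000000000000000000000000000000000
def cP_49 : ℕ := 0x2800000038000000be000000ff000005df000007ffc00007ef80001fcfe0001fffc0001fffe0001fffc0001fff000007ff000007f8000005e0000000200000000000000000000000000000000000000000000000000000000000000000000
theorem lP_49 : S nP_49 cP_49 18 := S_of_chk [(nP_36, cP_36, 11), (nP_38, cP_38, 13), (nP_39, cP_39, 15), (nP_42, cP_42, 17), (nP_48, cP_48, 15)] ⟨lP_36, lP_38, lP_39, lP_42, lP_48, trivial⟩ (node 561 (merge (node 496 (merge (node 464 (merge (leaf 4 464 593) (node 559 (merge (leaf 5 463 591) (node 527 (merge (leaf 5 431 432) (node 526 (merge (leaf 0 525 525) (leaf 3 526 562))))))))) (merge (node 464 (merge (leaf 4 464 593) (node 465 (merge (leaf 6 432 433) (node 592 (merge (leaf 6 464 497) (node 463 (merge (leaf 7 431 431) (leaf 7 463 495))))))))) (merge (node 464 (merge (node 433 (merge (leaf 6 432 465) (node 432 (merge (leaf 6 400 401) (node 431 (merge (leaf 7 399 399) (leaf 7 431 463))))))) (merge (node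 465 (merge (leaf 6 432 433) (node 592 (merge (leaf 6 464 497) (node 591 (merge (leaf 5 463 559) (leaf 5 495 623))))))) (node 591 (merge (leaf 5 463 559) (node 592 (merge (leaf 5 495 623) (node 463 (merge (leaf 7 431 431) (leaf 7 463 495)))))))))) (node 527 (merge (node 562 (merge (leaf 3 527 563) (node 526 (merge (leaf 0 525 525) (leaf 3 526 559))))) (merge (node 591 (merge (node 623 (merge (leaf 6 495 559) (leaf 5 495 592))) (merge (node 562 (merge (leaf 3 527 563) (node 559 (merge (leaf 1 558 590) (leaf 6 495 623))))) (merge (node 562 (merge (leaf 3 527 563) (node 592 (merge (leaf 5 495 623) (node 590 (merge (leaf 2 557 589) (leaf 2 558 593))))))) (node 562 (merge (leaf 3 527 563) (node 590 (merge (leaf 1 558 559) (node 592 (merge (leaf 2 557 589) (leaf 2 558 593))))))))))) (node 495 (merge (node 592 (merge (leaf 7 463 463) (leaf 7 495 624))) (merge (node 592 (merge (leaf 7 495 624) (node 497 (merge (leaf 6 464 465) (node 526 (merge (leaf 1 494 498) (leaf 2 493 525))))))) (node 494 (merge (node 493 (merge (leaf 0 492 492) (node 525 (merge (leaf 1 492 524) (leaf 0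 525 526))))) (merge (node 493 (merge (leaf 0 492 492) (node 461 (merge (leaf 3 460 460) (node 497 (merge (leaf 3 461 462) (node 498 (merge (leaf 1 495 499) (node 466 (merge (leaf 2 462 465) (leaf 2 463 467))))))))))) (node 526 (merge (leaf 0 525 525) (node 497 (merge (leaf 1 494 498) (node 462 (merge (leaf 3 461 461) (node 430 (merge (leaf 4 398 398) (node 431 (merge (leaf 6 398 399) (leaf 4 431 463)))))))))))))))))))))))) (merge (node 496 (merge (node 464 (merge (leaf 4 464 593) (node 433 (merge (leaf 6 432 465) (node 432 (merge (leaf 6 400 401) (node 559 (merge (leaf 5 431 527) (leaf 5 463 591))))))))) (merge (node 464 (merge (leaf 4 464 593) (node 465 (merge (leaf 6 432 433) (node 592 (merge (leaf 6 464 497) (node 463 (merge (leaf 7 431 431) (leaf 7 463 495))))))))) (merge (node 464 (merge (node 433 (merge (leaf 6 432 465) (node 432 (merge (leaf 6 400 401) (node 431 (merge (leaf 7 399 399) (leaf 7 431 463))))))) (merge (node 465 (merge (leaf 6 432 433) (node 592 (merge (leaf 6 464 497) (node 591 (merge (leaf 5 463 559) (leaf 5 495 623))))))) (node 591 (merge (leaf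 5 463 559) (node 592 (merge (leaf 5 495 623) (node 463 (merge (leaf 7 431 431) (leaf 7 463 495)))))))))) (node 562 (merge (node 591 (merge (node 559 (merge (leaf 1 558 590) (node 623 (merge (leaf 6 495 527) (leaf 6 527 655))))) (merge (node 592 (merge (leaf 5 495 623) (node 590 (merge (leaf 2 557 589) (leaf 2 558 593))))) (merge (node 623 (merge (leaf 5 495 592) (node 559 (merge (leaf 6 495 527) (leaf 6 527 655))))) (node 590 (merge (leaf 1 558 559) (node 592 (merge (leaf 2 557 589) (leaf 2 558 593))))))))) (merge (node 563 (merge (leaf 3 527 527) (node 596 (merge (leaf 0 560 595) (node 564 (merge (leaf 0 561 597) (node 532 (merge (leaf 2 528 531) (leaf 2 529 533))))))))) (node 563 (merge (node 591 (merge (leaf 1 559 592) (node 559 (merge (leaf 1 558 590) (node 531 (merge (leaf 2 527 530) (leaf 2 528 532))))))) (merge (node 596 (merge (leaf 0 560 595) (node 564 (merge (leaf 0 561 597) (node 532 (merge (leaf 2 528 531) (leaf 2 529 533))))))) (node 595 (merge (leaf 0 560 596) (node 559 (merge (leaf 0 559 594) (node 591 (merge (leaf 1 558 590) (leaf 1 559 592)))))))))))))))))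 (merge (node 562 (merge (node 527 (merge (leaf 3 527 563) (node 526 (merge (leaf 0 525 525) (leaf 3 526 559))))) (merge (node 563 (merge (leaf 3 527 527) (node 596 (merge (leaf 0 560 595) (node 564 (merge (leaf 0 561 597) (node 532 (merge (leaf 2 528 531) (leaf 2 529 533))))))))) (merge (node 595 (merge (node 596 (merge (leaf 0 560 563) (node 594 (merge (leaf 3 560 593) (leaf 3 561 597))))) (merge (node 594 (merge (leaf 0 559 559) (node 596 (merge (leaf 3 560 593) (leaf 3 561 597))))) (merge (node 563 (merge (leaf 0 560 596) (node 531 (merge (leaf 2 528 532) (node 530 (merge (leaf 2 527 559) (node 627 (merge (leaf 7 498 498) (leaf 7 530 659))))))))) (node 530 (merge (node 531 (merge (leaf 2 527 559) (node 532 (merge (leaf 1 529 533) (leaf 2 528 563))))) (merge (node 594 (merge (leaf 0 559 559) (node 627 (merge (leaf 4 498 498) (node 659 (merge (leaf 4 530 626) (leaf 7 562 691))))))) (node 627 (merge (node 498 (merge (leaf 4 498 594) (node 466 (merge (leaf 4 466 563) (leaf 5 465 593))))) (merge (node 594 (merge (leaf 4 498 498) (node 659 (merge (leaf 4 530 626) (leaf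 7 562 691))))) (merge (node 659 (merge (leaf 7 530 563) (node 594 (merge (leaf 4 530 626) (leaf 7 562 691))))) (node 563 (merge (leaf 7 530 659) (node 531 (merge (leaf 7 498 498) (leaf 2 528 532)))))))))))))))) (node 559 (merge (node 591 (merge (leaf 1 558 590) (node 527 (merge (leaf 3 526 526) (node 496 (merge (leaf 5 463 464) (leaf 6 495 623))))))) (merge (node 590 (merge (leaf 1 558 591) (node 558 (merge (leaf 1 557 589) (node 594 (merge (leaf 0 558 593) (leaf 0 559 595))))))) (node 526 (merge (leaf 3 526 527) (node 558 (merge (leaf 3 525 525) (node 594 (merge (leaf 0 558 593) (leaf 0 559 595)))))))))))))) (merge (node 496 (merge (node 464 (merge (leaf 4 464 593) (node 433 (merge (leaf 6 432 465) (node 432 (merge (leaf 6 400 401) (node 431 (merge (leaf 7 399 399) (leaf 7 431 463))))))))) (merge (node 464 (merge (leaf 4 464 593) (node 431 (merge (leaf 7 431 463) (node 432 (merge (leaf 7 399 399) (node 401 (merge (leaf 6 400 433) (node 400 (merge (leaf 6 368 369) (node 527 (merge (leaf 5 399 495) (leaf 5 431 559))))))))))))) (merge (node 464 (merge (node 433 (merge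 (leaf 6 432 465) (node 432 (merge (leaf 6 400 401) (node 431 (merge (leaf 7 399 399) (leaf 7 431 463))))))) (merge (node 465 (merge (leaf 6 432 433) (node 592 (merge (leaf 6 464 497) (node 463 (merge (leaf 7 431 431) (leaf 7 463 495))))))) (merge (node 431 (merge (leaf 7 431 463) (node 432 (merge (leaf 7 399 399) (node 401 (merge (leaf 6 400 433) (node 400 (merge (leaf 6 368 369) (node 527 (merge (leaf 5 399 495) (leaf 5 431 559))))))))))) (merge (node 433 (merge (leaf 6 432 465) (node 432 (merge (leaf 6 400 401) (node 399 (merge (leaf 7 399 431) (node 400 (merge (leaf 7 367 367) (node 527 (merge (leaf 5 399 495) (leaf 5 431 559))))))))))) (merge (node 465 (merge (leaf 6 432 433) (node 592 (merge (leaf 6 464 497) (node 495 (merge (leaf 7 463 463) (node 527 (merge (leaf 7 495 624) (node 432 (merge (leaf 5 399 400) (leaf 5 431 559))))))))))) (node 431 (merge (leaf 7 431 463) (node 432 (merge (leaf 7 399 399) (node 527 (merge (leaf 5 431 559) (node 526 (merge (leaf 0 525 525) (node 495 (merge (leaf 5 399 400) (node 497 (merge (leaf 1 494 498) (node 592 (merge (leaf 6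 464 465) (leaf 7 495 624))))))))))))))))))))) (merge (node 464 (merge (leaf 4 464 593) (node 431 (merge (leaf 7 431 463) (node 432 (merge (leaf 7 399 399) (node 527 (merge (leaf 5 431 559) (node 526 (merge (leaf 0 525 525) (node 495 (merge (leaf 5 399 400) (node 497 (merge (leaf 1 494 498) (node 592 (merge (leaf 6 464 465) (leaf 7 495 624))))))))))))))))) (node 562 (merge (node 527 (merge (leaf 3 527 563) (node 526 (merge (leaf 0 525 525) (leaf 3 526 559))))) (merge (node 563 (merge (leaf 3 527 527) (node 596 (merge (leaf 0 560 595) (node 564 (merge (leaf 0 561 597) (node 532 (merge (leaf 2 528 531) (leaf 2 529 533))))))))) (merge (node 595 (merge (node 596 (merge (leaf 0 560 563) (node 594 (merge (leaf 3 560 593) (leaf 3 561 597))))) (merge (node 594 (merge (leaf 0 559 559) (node 596 (merge (leaf 3 560 593) (leaf 3 561 597))))) (merge (node 563 (merge (leaf 0 560 596) (node 531 (merge (leaf 2 528 532) (node 530 (merge (leaf 2 527 559) (node 627 (merge (leaf 7 498 498) (leaf 7 530 659))))))))) (node 530 (merge (node 531 (merge (leaf 2 527 559) (node 532 (merge (leaf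 1 529 533) (leaf 2 528 563))))) (merge (node 594 (merge (leaf 0 559 559) (node 627 (merge (leaf 4 498 498) (node 659 (merge (leaf 4 530 626) (leaf 7 562 691))))))) (node 627 (merge (node 498 (merge (leaf 4 498 594) (node 466 (merge (leaf 4 466 563) (leaf 5 465 593))))) (merge (node 594 (merge (leaf 4 498 498) (node 659 (merge (leaf 4 530 626) (leaf 7 562 691))))) (merge (node 659 (merge (leaf 7 530 563) (node 594 (merge (leaf 4 530 626) (leaf 7 562 691))))) (node 563 (merge (leaf 7 530 659) (node 531 (merge (leaf 7 498 498) (leaf 2 528 532)))))))))))))))) (node 530 (merge (node 559 (merge (leaf 2 527 531) (node 558 (merge (node 526 (merge (leaf 3 525 525) (leaf 3 526 527))) (merge (node 589 (merge (leaf 1 557 590) (node 557 (merge (leaf 1 556 588) (node 525 (merge (leaf 3 524 524) (leaf 3 525 526))))))) (merge (node 589 (merge (leaf 1 557 590) (node 557 (merge (leaf 1 556 588) (node 527 (merge (leaf 3 526 526) (leaf 2 524 556))))))) (node 589 (merge (leaf 1 557 590) (node 557 (merge (leaf 1 556 588) (node 556 (merge (leaf 2 524 527) (node 524 (merge (leaf 3 523 523)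 (leaf 3 524 525))))))))))))))) (merge (node 594 (merge (node 595 (merge (leaf 0 559 559) (node 596 (merge (leaf 3 560 593) (leaf 3 561 597))))) (merge (node 595 (merge (leaf 0 559 559) (node 627 (merge (leaf 4 498 498) (node 659 (merge (leaf 4 530 626) (leaf 7 562 691))))))) (node 498 (merge (node 467 (merge (leaf 6 466 499) (node 466 (merge (leaf 6 434 435) (leaf 5 465 593))))) (merge (node 497 (merge (leaf 7 465 465) (node 499 (merge (leaf 6 466 467) (leaf 1 495 527))))) (node 466 (merge (leaf 5 465 593) (node 465 (merge (leaf 7 433 433) (leaf 7 465 497))))))))))) (node 498 (merge (node 497 (merge (node 465 (merge (leaf 6 464 592) (leaf 7 465 594))) (node 531 (merge (leaf 0 495 495) (node 532 (merge (leaf 0 496 499) (leaf 3 497 533))))))) (merge (node 466 (merge (leaf 5 465 593) (node 467 (merge (leaf 6 434 435) (node 499 (merge (leaf 6 466 594) (node 497 (merge (leaf 2 464 468) (leaf 2 463 495))))))))) (node 466 (merge (leaf 5 465 593) (node 435 (merge (leaf 6 434 467) (node 434 (merge (leaf 6 402 403) (node 433 (merge (leaf 7 401 401) (leaf 7 433 465))))))))))))))))))))))))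 (merge (node 496 (merge (node 464 (merge (leaf 4 464 593) (node 559 (merge (leaf 5 463 591) (node 527 (merge (leaf 5 431 432) (node 526 (merge (leaf 0 525 525) (leaf 3 526 562))))))))) (merge (node 464 (merge (leaf 4 464 593) (node 465 (merge (leaf 6 432 433) (node 592 (merge (leaf 6 464 497) (node 463 (merge (leaf 7 431 431) (leaf 7 463 495))))))))) (merge (node 464 (merge (node 433 (merge (leaf 6 432 465) (node 432 (merge (leaf 6 400 401) (node 431 (merge (leaf 7 399 399) (leaf 7 431 463))))))) (merge (node 465 (merge (leaf 6 432 433) (node 592 (merge (leaf 6 464 497) (node 591 (merge (leaf 5 463 559) (leaf 5 495 623))))))) (node 591 (merge (leaf 5 463 559) (node 592 (merge (leaf 5 495 623) (node 463 (merge (leaf 7 431 431) (leaf 7 463 495)))))))))) (node 497 (merge (node 592 (merge (leaf 6 464 465) (node 591 (merge (leaf 5 495 623) (node 562 (merge (leaf 1 559 563) (node 590 (merge (leaf 1 558 559) (leaf 2 558 593))))))))) (merge (node 495 (merge (node 463 (merge (leaf 7 463 592) (node 431 (merge (leaf 4 399 399) (leaf 4 431 527))))) (merge (node 463 (merge (leaf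 7 463 592) (node 462 (merge (leaf 3 462 498) (node 461 (merge (leaf 0 460 460) (leaf 3 461 494))))))) (node 494 (merge (node 461 (merge (leaf 3 461 462) (node 493 (merge (leaf 3 460 460) (node 525 (merge (leaf 1 492 524) (leaf 1 493 526))))))) (merge (node 526 (merge (leaf 1 493 525) (node 498 (merge (leaf 1 494 527) (node 531 (merge (leaf 0 495 530) (node 499 (merge (leaf 0 496 532) (node 467 (merge (leaf 2 463 466) (leaf 2 464 468))))))))))) (merge (node 461 (merge (leaf 3 461 462) (node 493 (merge (leaf 3 460 460) (node 527 (merge (leaf 0 492 492) (node 498 (merge (leaf 1 495 499) (leaf 1 494 526))))))))) (node 461 (merge (leaf 3 461 462) (node 493 (merge (leaf 3 460 460) (node 492 (merge (leaf 0 492 527) (node 524 (merge (leaf 1 491 523) (leaf 1 492 525)))))))))))))))) (node 498 (merge (node 527 (merge (leaf 1 495 499) (node 526 (merge (leaf 1 494 495) (leaf 0 525 525))))) (merge (node 499 (merge (leaf 1 495 527) (node 532 (merge (leaf 0 496 531) (node 500 (merge (leaf 0 497 533) (node 468 (merge (leaf 2 464 467) (leaf 2 465 469))))))))) (merge (node 495 (merge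 (node 463 (merge (leaf 3 462 462) (node 527 (merge (leaf 4 431 431) (leaf 1 494 526))))) (merge (node 526 (merge (leaf 1 494 527) (node 494 (merge (leaf 1 493 525) (node 466 (merge (leaf 2 462 465) (leaf 2 463 467))))))) (node 466 (merge (leaf 2 463 467) (node 494 (merge (leaf 2 462 465) (node 462 (merge (leaf 3 461 461) (leaf 3 462 463)))))))))) (node 531 (merge (node 530 (merge (leaf 0 495 495) (node 532 (merge (leaf 0 496 499) (leaf 3 497 533))))) (merge (node 495 (merge (leaf 0 495 530) (node 466 (merge (leaf 2 463 467) (node 494 (merge (leaf 2 462 465) (node 462 (merge (leaf 3 461 461) (leaf 3 462 463))))))))) (merge (node 499 (merge (leaf 0 496 532) (node 467 (merge (leaf 2 464 468) (node 466 (merge (leaf 2 463 495) (node 434 (merge (leaf 4 402 402) (leaf 7 434 563))))))))) (node 532 (merge (leaf 0 496 499) (node 562 (merge (leaf 2 528 563) (node 530 (merge (leaf 1 529 533) (node 465 (merge (leaf 7 465 594) (node 466 (merge (leaf 7 433 433) (leaf 5 465 593)))))))))))))))))))))))))) (merge (node 559 (merge (node 562 (merge (node 527 (merge (leaf 3 526 526) (leaf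 3 527 563))) (merge (node 591 (merge (leaf 1 558 590) (node 563 (merge (leaf 1 559 592) (node 595 (merge (leaf 0 559 594) (leaf 0 560 596))))))) (node 591 (merge (leaf 1 558 590) (node 527 (merge (leaf 3 526 526) (node 623 (merge (leaf 6 495 496) (leaf 6 527 655)))))))))) (merge (node 562 (merge (node 527 (merge (leaf 3 526 526) (leaf 3 527 563))) (merge (node 591 (merge (leaf 1 558 590) (node 563 (merge (leaf 1 559 592) (node 531 (merge (leaf 2 527 530) (leaf 2 528 532))))))) (node 590 (merge (leaf 1 558 591) (node 558 (merge (leaf 1 557 589) (node 526 (merge (leaf 3 525 525) (leaf 3 526 527)))))))))) (merge (node 562 (merge (node 527 (merge (leaf 3 526 526) (leaf 3 527 563))) (merge (node 595 (merge (leaf 0 559 594) (node 563 (merge (leaf 0 560 596) (node 531 (merge (leaf 2 527 530) (leaf 2 528 532))))))) (node 526 (merge (leaf 3 526 527) (node 558 (merge (leaf 3 525 525) (node 594 (merge (leaf 0 558 593) (leaf 0 559 595)))))))))) (merge (node 562 (merge (node 563 (merge (leaf 3 527 527) (node 531 (merge (leaf 2 527 530) (leaf 2 528 532))))) (merge (node 595 (merge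 (leaf 0 559 594) (node 563 (merge (leaf 0 560 596) (node 531 (merge (leaf 2 527 530) (leaf 2 528 532))))))) (node 594 (merge (leaf 0 559 595) (node 558 (merge (leaf 0 558 593) (node 589 (merge (leaf 1 557 590) (node 557 (merge (leaf 1 556 588) (node 556 (merge (leaf 2 524 527) (node 524 (merge (leaf 3 523 523) (leaf 3 524 525)))))))))))))))) (node 558 (merge (node 589 (merge (leaf 1 557 590) (node 557 (merge (leaf 1 556 588) (node 593 (merge (leaf 0 557 592) (leaf 0 558 594))))))) (merge (node 525 (merge (leaf 3 525 526) (node 557 (merge (leaf 3 524 524) (node 593 (merge (leaf 0 557 592) (leaf 0 558 594))))))) (node 590 (merge (leaf 1 557 589) (node 526 (merge (leaf 3 525 525) (node 622 (merge (node 655 (merge (leaf 4 526 623) (node 654 (merge (leaf 4 558 687) (node 653 (merge (leaf 5 525 621) (leaf 5 557 685))))))) (merge (node 623 (merge (leaf 4 526 655) (node 494 (merge (leaf 4 494 591) (node 463 (merge (leaf 6 462 495) (node 462 (merge (leaf 6 430 431) (node 461 (merge (leaf 7 429 429) (leaf 7 461 493))))))))))) (merge (node 653 (merge (leaf 5 525 621) (node 654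 (merge (leaf 5 557 685) (node 591 (merge (leaf 6 558 686) (node 494 (merge (leaf 4 462 462) (leaf 4 494 623))))))))) (node 653 (merge (leaf 5 525 621) (node 654 (merge (leaf 5 557 685) (node 686 (merge (leaf 6 558 591) (node 687 (merge (leaf 4 558 655) (leaf 4 590 719))))))))))))))))))))))))) (merge (node 559 (merge (node 562 (merge (node 527 (merge (leaf 3 526 526) (leaf 3 527 563))) (merge (node 595 (merge (leaf 0 559 594) (node 563 (merge (leaf 0 560 596) (node 531 (merge (leaf 2 527 530) (leaf 2 528 532))))))) (node 526 (merge (leaf 3 526 527) (node 558 (merge (leaf 3 525 525) (node 594 (merge (leaf 0 558 593) (leaf 0 559 595)))))))))) (merge (node 558 (merge (node 590 (merge (leaf 1 557 589) (node 562 (merge (leaf 1 558 591) (node 594 (merge (leaf 0 558 593) (leaf 0 559 595))))))) (merge (node 525 (merge (leaf 3 525 526) (node 557 (merge (leaf 3 524 524) (node 593 (merge (leaf 0 557 592) (leaf 0 558 594))))))) (node 589 (merge (leaf 1 557 590) (node 557 (merge (leaf 1 556 588) (node 525 (merge (leaf 3 524 524) (leaf 3 525 526)))))))))) (merge (node 562 (merge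 (node 527 (merge (leaf 3 526 526) (leaf 3 527 563))) (merge (node 595 (merge (leaf 0 559 594) (node 563 (merge (leaf 0 560 596) (node 531 (merge (leaf 2 527 530) (leaf 2 528 532))))))) (node 594 (merge (leaf 0 559 595) (node 558 (merge (leaf 0 558 593) (node 589 (merge (leaf 1 557 590) (node 557 (merge (leaf 1 556 588) (node 527 (merge (leaf 3 526 526) (leaf 2 524 556)))))))))))))) (merge (node 562 (merge (node 563 (merge (leaf 3 527 527) (node 531 (merge (leaf 2 527 530) (leaf 2 528 532))))) (merge (node 595 (merge (leaf 0 559 594) (node 563 (merge (leaf 0 560 596) (node 531 (merge (leaf 2 527 530) (leaf 2 528 532))))))) (node 594 (merge (leaf 0 559 595) (node 558 (merge (leaf 0 558 593) (node 589 (merge (leaf 1 557 590) (node 557 (merge (leaf 1 556 588) (node 556 (merge (leaf 2 524 527) (node 524 (merge (leaf 3 523 523) (leaf 3 524 525)))))))))))))))) (merge (node 527 (merge (node 526 (merge (leaf 0 525 525) (leaf 3 526 562))) (node 495 (merge (node 592 (merge (leaf 4 463 463) (leaf 7 495 624))) (merge (node 463 (merge (leaf 4 431 431) (node 464 (merge (leaf 6 431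 432) (node 462 (merge (leaf 7 430 430) (node 494 (merge (leaf 7 462 591) (node 465 (merge (leaf 1 462 466) (leaf 1 461 493))))))))))) (node 591 (merge (node 624 (merge (leaf 7 495 592) (node 623 (merge (leaf 6 527 655) (leaf 4 527 656))))) (merge (node 592 (merge (leaf 4 495 624) (node 590 (merge (leaf 5 494 622) (node 589 (merge (leaf 2 557 561) (leaf 2 556 588))))))) (node 623 (merge (leaf 6 527 655) (node 622 (merge (leaf 5 494 590) (leaf 5 526 654))))))))))))) (hyp 0))))))) (merge (hyp 1) (merge (node 562 (merge (node 527 (merge (leaf 3 527 563) (node 526 (merge (leaf 0 525 525) (leaf 3 526 559))))) (merge (node 563 (merge (leaf 3 527 527) (node 596 (merge (leaf 0 560 595) (node 564 (merge (leaf 0 561 597) (node 532 (merge (leaf 2 528 531) (leaf 2 529 533))))))))) (merge (node 563 (merge (node 591 (merge (leaf 1 559 592) (node 559 (merge (leaf 1 558 590) (node 595 (merge (leaf 0 559 594) (leaf 0 560 596))))))) (merge (node 596 (merge (leaf 0 560 595) (node 564 (merge (leaf 0 561 597) (node 532 (merge (leaf 2 528 531) (leaf 2 529 533))))))) (node 591 (merge (leaf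 1 559 592) (node 559 (merge (leaf 1 558 590) (node 531 (merge (leaf 2 527 530) (leaf 2 528 532)))))))))) (hyp 2))))) (merge (node 592 (merge (node 496 (merge (node 465 (merge (leaf 6 464 497) (node 464 (merge (leaf 6 432 433) (node 591 (merge (leaf 5 463 559) (leaf 5 495 623))))))) (merge (node 623 (merge (leaf 5 495 591) (node 624 (merge (leaf 5 527 655) (node 495 (merge (leaf 7 463 463) (leaf 7 495 527))))))) (node 465 (merge (leaf 6 464 497) (node 464 (merge (leaf 6 432 433) (node 495 (merge (leaf 7 463 463) (node 527 (merge (leaf 7 495 624) (node 432 (merge (leaf 5 399 400) (leaf 5 431 559)))))))))))))) (merge (node 496 (merge (node 463 (merge (leaf 7 463 495) (node 464 (merge (leaf 7 431 431) (leaf 4 464 593))))) (merge (node 465 (merge (leaf 6 464 497) (node 464 (merge (leaf 6 432 433) (leaf 4 464 593))))) (node 497 (merge (leaf 6 464 465) (node 495 (merge (leaf 7 463 463) (node 527 (merge (leaf 7 495 624) (node 526 (merge (leaf 1 494 498) (leaf 0 525 525)))))))))))) (merge (node 624 (merge (node 655 (merge (leaf 5 527 623) (node 656 (merge (leaf 5 559 687) (node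 689 (merge (leaf 4 560 657) (node 688 (merge (leaf 6 560 593) (leaf 4 592 721))))))))) (node 527 (merge (leaf 7 495 495) (node 562 (merge (leaf 3 527 563) (node 526 (merge (leaf 0 525 525) (leaf 3 526 559))))))))) (merge (node 496 (merge (node 465 (merge (leaf 6 464 497) (node 464 (merge (leaf 6 432 433) (leaf 4 464 593))))) (merge (node 463 (merge (leaf 7 463 495) (node 464 (merge (leaf 7 431 431) (leaf 4 464 593))))) (merge (node 465 (merge (leaf 6 464 497) (node 464 (merge (leaf 6 432 433) (node 463 (merge (leaf 7 431 431) (leaf 7 463 495))))))) (node 495 (merge (leaf 7 463 463) (node 497 (merge (leaf 6 464 465) (node 498 (merge (node 531 (merge (leaf 0 495 530) (node 499 (merge (leaf 0 496 532) (node 467 (merge (leaf 2 463 466) (leaf 2 464 468))))))) (merge (node 530 (merge (leaf 0 495 531) (node 466 (merge (leaf 2 463 467) (node 562 (merge (leaf 5 465 593) (node 563 (merge (leaf 1 559 591) (leaf 4 466 595))))))))) (merge (node 467 (merge (leaf 2 463 466) (node 499 (merge (leaf 2 464 468) (node 531 (merge (leaf 0 496 532) (node 591 (merge (leaf 5 495 623) (node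 563 (merge (leaf 1 559 562) (node 596 (merge (leaf 4 467 564) (node 595 (merge (leaf 4 499 628) (node 594 (merge (leaf 3 560 593) (leaf 5 498 626))))))))))))))))) (merge (node 531 (merge (leaf 0 495 530) (node 499 (merge (leaf 0 496 532) (node 591 (merge (leaf 5 495 623) (node 563 (merge (leaf 1 559 562) (node 595 (merge (leaf 7 466 466) (node 596 (merge (leaf 4 499 628) (node 594 (merge (leaf 3 560 593) (leaf 5 498 626))))))))))))))) (merge (node 467 (merge (leaf 2 463 466) (node 499 (merge (leaf 2 464 468) (node 591 (merge (leaf 5 495 623) (node 562 (merge (leaf 1 559 563) (node 594 (merge (leaf 6 466 530) (node 559 (merge (leaf 0 559 595) (node 558 (merge (leaf 0 558 593) (node 557 (merge (leaf 0 556 556) (node 525 (merge (leaf 3 524 524) (leaf 3 525 526))))))))))))))))))) (node 531 (merge (leaf 0 495 530) (node 499 (merge (leaf 0 496 532) (node 468 (merge (leaf 2 464 467) (node 500 (merge (leaf 2 465 469) (node 563 (merge (leaf 6 467 595) (node 562 (merge (leaf 1 559 591) (node 564 (merge (leaf 1 560 593) (node 597 (merge (leaf 0 561 596) (node 565 (merge (leaf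 0 562 598) (node 533 (merge (leaf 7 468 501) (leaf 2 530 534))))))))))))))))))))))))))))))))))) (node 559 (merge (node 562 (merge (node 527 (merge (leaf 3 526 526) (leaf 3 527 563))) (merge (node 595 (merge (leaf 0 559 594) (node 563 (merge (leaf 0 560 596) (node 531 (merge (leaf 2 527 530) (leaf 2 528 532))))))) (node 526 (merge (leaf 3 526 527) (node 558 (merge (leaf 3 525 525) (node 594 (merge (leaf 0 558 593) (leaf 0 559 595)))))))))) (merge (node 624 (merge (node 656 (merge (leaf 7 527 527) (node 655 (merge (leaf 5 527 623) (leaf 5 559 687))))) (merge (node 656 (merge (leaf 7 527 527) (node 688 (merge (leaf 7 559 591) (node 689 (merge (leaf 4 560 657) (leaf 4 592 721))))))) (merge (node 656 (merge (node 655 (merge (leaf 5 527 623) (leaf 5 559 687))) (merge (node 591 (merge (leaf 7 559 688) (node 623 (merge (leaf 5 495 496) (leaf 6 527 655))))) (node 688 (merge (leaf 7 559 591) (node 721 (merge (leaf 4 592 689) (node 720 (merge (leaf 4 624 753) (node 719 (merge (leaf 5 591 687) (leaf 5 623 751)))))))))))) (node 623 (merge (leaf 5 527 655) (node 496 (merge (leaf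 5 495 591) (node 465 (merge (leaf 6 464 497) (node 464 (merge (leaf 6 432 433) (node 431 (merge (leaf 7 431 463) (node 432 (merge (leaf 7 399 399) (leaf 5 431 527))))))))))))))))) (node 562 (merge (node 563 (merge (leaf 1 559 591) (node 531 (merge (leaf 2 527 530) (leaf 2 528 532))))) (merge (node 595 (merge (leaf 0 559 594) (node 563 (merge (leaf 0 560 596) (node 531 (merge (leaf 2 527 530) (leaf 2 528 532))))))) (node 594 (merge (leaf 0 559 595) (node 558 (merge (leaf 0 558 593) (node 525 (merge (leaf 3 525 526) (node 557 (merge (leaf 3 524 524) (node 556 (merge (leaf 0 556 591) (node 588 (merge (leaf 1 555 587) (leaf 1 556 589)))))))))))))))))))))))) (merge (hyp 3) (node 496 (merge (node 464 (merge (leaf 4 464 593) (node 433 (merge (leaf 6 432 465) (node 432 (merge (leaf 6 400 401) (node 431 (merge (leaf 7 399 399) (leaf 7 431 463))))))))) (merge (node 463 (merge (node 464 (merge (leaf 7 431 431) (leaf 4 464 593))) (merge (node 495 (merge (leaf 7 463 592) (node 431 (merge (leaf 4 399 399) (leaf 4 431 527))))) (node 592 (merge (leaf 7 463 495) (node 591 (merge (leaf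 5 495 623) (node 562 (merge (leaf 1 559 563) (node 590 (merge (leaf 2 557 589) (leaf 2 558 593)))))))))))) (merge (node 592 (merge (node 591 (merge (leaf 5 495 623) (node 562 (merge (leaf 1 559 563) (node 590 (merge (leaf 2 557 589) (leaf 2 558 593))))))) (node 497 (merge (leaf 6 464 465) (node 495 (merge (leaf 7 463 463) (node 527 (merge (leaf 7 495 624) (node 526 (merge (leaf 1 494 498) (leaf 0 525 525))))))))))) (merge (node 497 (merge (node 465 (merge (leaf 6 464 592) (node 433 (merge (leaf 5 400 401) (leaf 6 432 464))))) (merge (node 592 (merge (leaf 6 464 465) (node 495 (merge (leaf 7 463 463) (node 527 (merge (leaf 7 495 624) (node 526 (merge (leaf 1 494 498) (leaf 0 525 525))))))))) (merge (node 495 (merge (node 463 (merge (leaf 7 463 592) (node 431 (merge (leaf 4 399 399) (leaf 4 431 527))))) (merge (node 463 (merge (leaf 7 463 592) (node 462 (merge (leaf 3 462 498) (node 461 (merge (leaf 0 460 460) (leaf 0 461 464))))))) (node 494 (merge (node 461 (merge (leaf 3 461 462) (node 493 (merge (leaf 3 460 460) (node 525 (merge (leaf 1 492 524) (leaf 1 493 526)))))))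 (merge (node 526 (merge (leaf 1 493 525) (node 498 (merge (leaf 1 494 527) (node 531 (merge (leaf 0 495 530) (node 499 (merge (leaf 0 496 532) (node 467 (merge (leaf 2 463 466) (leaf 2 464 468))))))))))) (merge (node 461 (merge (leaf 3 461 462) (node 493 (merge (leaf 3 460 460) (node 527 (merge (leaf 0 492 492) (node 498 (merge (leaf 1 495 499) (leaf 1 494 526))))))))) (node 461 (merge (leaf 3 461 462) (node 493 (merge (leaf 3 460 460) (node 492 (merge (leaf 0 492 527) (node 524 (merge (leaf 1 491 523) (leaf 1 492 525)))))))))))))))) (node 464 (merge (node 433 (merge (leaf 6 432 465) (node 432 (merge (leaf 6 400 401) (node 431 (merge (leaf 7 399 399) (leaf 7 431 463))))))) (merge (node 463 (merge (leaf 7 431 431) (node 498 (merge (leaf 3 463 499) (node 462 (merge (leaf 0 461 461) (leaf 3 462 495))))))) (node 495 (merge (node 465 (merge (leaf 6 432 433) (node 494 (merge (leaf 2 462 466) (leaf 2 461 493))))) (merge (node 433 (merge (leaf 6 432 465) (node 432 (merge (leaf 6 400 401) (node 527 (merge (leaf 5 399 400) (node 526 (merge (leaf 1 494 498) (leaf 0 525 525)))))))))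 (node 494 (merge (node 461 (merge (leaf 3 461 462) (node 493 (merge (leaf 3 460 460) (node 525 (merge (leaf 1 492 524) (leaf 1 493 526))))))) (merge (node 526 (merge (leaf 1 493 525) (node 498 (merge (leaf 1 494 527) (node 531 (merge (leaf 0 495 530) (node 499 (merge (leaf 0 496 532) (node 467 (merge (leaf 2 463 466) (leaf 2 464 468))))))))))) (merge (node 461 (merge (leaf 3 461 462) (node 493 (merge (leaf 3 460 460) (node 527 (merge (leaf 0 492 492) (node 498 (merge (leaf 1 495 499) (leaf 1 494 526))))))))) (node 461 (merge (leaf 3 461 462) (node 493 (merge (leaf 3 460 460) (node 492 (merge (leaf 0 492 527) (node 524 (merge (leaf 1 491 523) (leaf 1 492 525))))))))))))))))))))))) (node 464 (merge (leaf 4 464 593) (hyp 4)))))))))))))))))))) nP_49 cP_49 18 (by decide +kernel)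
def nP_50 : ℕ := 0x30000000100000001000000000000000000000000000000000000000000000000000000000000000000000000000000000000000000000000000000000000000000000000000000000000
def cP_50 : ℕ := 0x80000000e0000000e0000000f0000007f7000007ce000007e7000001c8000000c0000000c00000000000000000000000000000000000000000000000000000000000000000000000000000000000000000000000000000000000000000000
theorem lP_50 : S nP_50 cP_50 10 := S_of_chk [] trivial (node 594 (merge (node 595 (merge (node 596 (merge (leaf 3 560 561) (node 564 (merge (leaf 2 560 563) (leaf 2 561 565))))) (merge (node 596 (merge (leaf 3 560 561) (node 625 (merge (leaf 1 592 624) (node 626 (merge (leaf 1 593 597) (node 591 (merge (leaf 0 590 590) (leaf 0 591 627))))))))) (merge (node 563 (merge (leaf 2 560 564) (node 591 (merge (leaf 2 559 562) (node 626 (merge (leaf 0 591 627) (node 625 (merge (leaf 0 590 590) (node 596 (merge (leaf 1 593 597) (leaf 1 592 624))))))))))) (node 563 (merge (leaf 2 560 564) (node 591 (merge (leaf 2 559 562) (node 626 (merge (leaf 0 591 627) (node 625 (merge (leaf 0 590 590) (node 657 (merge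 (leaf 7 528 561) (leaf 4 528 624))))))))))))))) (merge (node 627 (merge (node 626 (merge (leaf 0 591 591) (node 628 (merge (leaf 0 592 595) (leaf 3 593 629))))) (merge (node 626 (merge (leaf 0 591 591) (node 628 (merge (leaf 3 592 625) (leaf 3 593 629))))) (merge (node 625 (merge (node 657 (merge (leaf 4 528 624) (leaf 7 560 689))) (merge (node 657 (merge (leaf 7 528 561) (leaf 7 560 689))) (node 595 (merge (leaf 0 592 628) (node 596 (merge (leaf 3 560 561) (leaf 1 592 624)))))))) (node 626 (merge (leaf 0 591 591) (node 562 (merge (node 659 (merge (leaf 4 530 530) (node 691 (merge (leaf 7 562 595) (leaf 4 562 658))))) (merge (node 530 (merge (leaf 4 530 659) (node 498 (merge (leaf 4 498 595) (leaf 5 497 625))))) (merge (node 657 (merge (node 689 (merge (leaf 7 560 625) (leaf 5 561 658))) (merge (node 625 (merge (leaf 5 529 530) (leaf 7 528 561))) (node 658 (merge (leaf 5 561 689) (node 690 (merge (leaf 7 561 561) (node 691 (merge (leaf 4 562 659) (leaf 4 594 723)))))))))) (merge (node 657 (merge (node 625 (merge (leaf 5 529 530) (leaf 7 528 561))) (merge (node 625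 (merge (leaf 6 561 689) (node 530 (merge (leaf 5 497 498) (leaf 5 529 626))))) (node 658 (merge (leaf 5 561 689) (node 690 (merge (leaf 7 561 561) (node 722 (merge (leaf 6 594 595) (node 723 (merge (leaf 4 594 691) (leaf 4 626 755)))))))))))) (node 658 (merge (node 657 (merge (leaf 5 561 689) (node 625 (merge (leaf 7 528 561) (leaf 4 528 624))))) (merge (node 690 (merge (leaf 7 561 561) (node 722 (merge (leaf 6 594 595) (leaf 7 593 625))))) (node 691 (merge (leaf 4 562 659) (node 690 (merge (leaf 4 594 723) (node 689 (merge (leaf 5 561 657) (leaf 5 593 721))))))))))))))))))))) (merge (node 595 (merge (node 596 (merge (leaf 3 560 561) (node 564 (merge (leaf 2 560 563) (leaf 2 561 565))))) (merge (node 596 (merge (leaf 3 560 561) (node 628 (merge (leaf 0 592 627) (leaf 0 593 629))))) (node 627 (merge (leaf 0 592 628) (node 563 (merge (leaf 2 560 564) (node 562 (merge (leaf 2 559 591) (node 530 (merge (leaf 4 498 498) (leaf 7 530 659)))))))))))) (merge (node 627 (merge (node 626 (merge (leaf 0 591 591) (node 628 (merge (leaf 3 592 625) (leaf 3 593 629))))) (merge (node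 595 (merge (leaf 0 592 628) (node 596 (merge (leaf 3 560 561) (node 564 (merge (leaf 2 560 563) (leaf 2 561 565))))))) (node 626 (merge (leaf 0 591 591) (node 595 (merge (node 596 (merge (leaf 3 560 561) (node 597 (merge (leaf 1 594 598) (leaf 1 593 625))))) (node 563 (merge (leaf 2 560 564) (node 658 (merge (leaf 6 562 690) (node 531 (merge (leaf 5 498 499) (leaf 5 530 627)))))))))))))) (merge (node 595 (merge (node 628 (merge (leaf 0 592 627) (node 596 (merge (leaf 0 593 629) (node 564 (merge (leaf 2 560 563) (leaf 2 561 565))))))) (merge (node 627 (merge (leaf 0 592 628) (node 591 (merge (leaf 0 591 626) (node 563 (merge (leaf 2 559 562) (leaf 2 560 564))))))) (merge (node 563 (merge (leaf 2 560 564) (node 591 (merge (leaf 2 559 562) (node 626 (merge (leaf 0 591 627) (node 625 (merge (leaf 0 590 590) (node 596 (merge (leaf 1 593 597) (leaf 1 592 624))))))))))) (merge (node 564 (merge (leaf 2 560 563) (node 596 (merge (leaf 2 561 565) (node 629 (merge (leaf 0 593 628) (node 597 (merge (leaf 0 594 630) (node 625 (merge (leaf 1 592 624) (leaf 1 593 626))))))))))) (merge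 (node 596 (merge (node 628 (merge (leaf 0 592 627) (leaf 0 593 629))) (merge (node 565 (merge (leaf 2 561 564) (node 597 (merge (leaf 2 562 566) (node 626 (merge (leaf 1 593 625) (node 627 (merge (leaf 0 591 591) (leaf 1 594 598))))))))) (node 629 (merge (leaf 0 593 628) (node 597 (merge (leaf 0 594 630) (node 565 (merge (leaf 2 561 564) (leaf 2 562 566)))))))))) (node 628 (merge (leaf 0 592 627) (node 596 (merge (leaf 0 593 629) (node 625 (merge (leaf 1 592 624) (node 626 (merge (leaf 1 593 597) (node 591 (merge (leaf 0 590 590) (node 657 (merge (leaf 7 560 689) (node 562 (merge (leaf 5 529 530) (leaf 2 559 563))))))))))))))))))))) (merge (node 595 (merge (node 596 (merge (leaf 3 560 561) (node 564 (merge (leaf 2 560 563) (leaf 2 561 565))))) (merge (node 596 (merge (leaf 3 560 561) (node 628 (merge (leaf 0 592 627) (leaf 0 593 629))))) (merge (node 628 (merge (leaf 0 592 627) (node 596 (merge (leaf 0 593 629) (node 564 (merge (leaf 2 560 563) (leaf 2 561 565))))))) (node 627 (merge (leaf 0 592 628) (node 562 (merge (node 659 (merge (leaf 7 562 691) (node 530 (merge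 (leaf 4 498 498) (leaf 4 530 626))))) (merge (node 659 (merge (leaf 7 562 691) (node 563 (merge (leaf 7 530 530) (leaf 2 560 564))))) (node 563 (merge (leaf 2 560 564) (node 561 (merge (leaf 3 527 527) (node 531 (merge (leaf 2 528 532) (node 499 (merge (leaf 5 466 467) (leaf 5 498 626)))))))))))))))))) (merge (node 625 (merge (node 657 (merge (leaf 7 528 561) (leaf 7 560 689))) (merge (node 562 (merge (node 657 (merge (leaf 7 560 689) (node 530 (merge (leaf 5 497 498) (leaf 5 529 626))))) (node 563 (merge (leaf 2 559 591) (node 564 (merge (leaf 1 561 565) (leaf 2 560 595))))))) (node 563 (merge (node 562 (merge (leaf 2 559 591) (node 564 (merge (leaf 1 561 565) (leaf 2 560 595))))) (merge (node 562 (merge (leaf 2 559 591) (node 564 (merge (leaf 1 560 561) (leaf 1 561 565))))) (merge (node 595 (merge (leaf 2 560 564) (node 596 (merge (leaf 3 560 561) (node 629 (merge (leaf 0 593 628) (node 597 (merge (leaf 1 593 626) (leaf 0 594 630))))))))) (node 562 (merge (leaf 2 559 591) (node 561 (merge (leaf 3 527 527) (node 595 (merge (leaf 0 560 596) (node 531 (merge (leaf 2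 528 532) (node 499 (merge (leaf 5 466 467) (leaf 5 498 626)))))))))))))))))) (node 562 (merge (node 563 (merge (leaf 2 559 591) (node 564 (merge (leaf 1 560 561) (leaf 1 561 565))))) (merge (node 591 (merge (leaf 2 559 563) (node 626 (merge (leaf 0 591 627) (node 625 (merge (leaf 0 590 590) (node 530 (merge (leaf 5 497 498) (leaf 5 529 657))))))))) (merge (node 561 (merge (node 563 (merge (leaf 3 527 527) (leaf 1 560 564))) (node 626 (merge (node 657 (merge (leaf 7 528 625) (node 658 (merge (leaf 5 561 689) (leaf 7 561 690))))) (merge (node 625 (merge (leaf 7 528 657) (node 530 (merge (leaf 5 497 498) (node 627 (merge (leaf 4 530 659) (node 628 (merge (leaf 3 592 592) (leaf 3 593 629))))))))) (merge (node 658 (merge (leaf 7 561 690) (node 659 (merge (leaf 4 562 691) (node 530 (merge (leaf 4 530 627) (node 498 (merge (leaf 5 465 466) (leaf 5 497 625))))))))) (node 658 (merge (leaf 7 561 690) (node 659 (merge (leaf 4 562 691) (node 627 (merge (leaf 4 530 530) (node 628 (merge (leaf 3 593 629) (node 657 (merge (leaf 2 624 656) (leaf 5 561 689))))))))))))))))) (node 626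 (merge (node 627 (merge (leaf 0 591 591) (node 628 (merge (leaf 3 592 625) (leaf 3 593 629))))) (merge (node 657 (merge (node 689 (merge (leaf 7 560 625) (leaf 5 561 658))) (merge (node 625 (merge (leaf 5 529 530) (leaf 7 528 561))) (node 658 (merge (leaf 5 561 689) (node 690 (merge (leaf 7 561 561) (node 691 (merge (leaf 4 562 659) (leaf 4 594 723)))))))))) (node 591 (merge (leaf 0 591 627) (node 590 (merge (leaf 2 558 561) (node 621 (merge (leaf 1 589 622) (node 589 (merge (leaf 1 588 620) (node 557 (merge (leaf 3 556 556) (leaf 3 557 558)))))))))))))))))))))))))) nP_50 cP_50 10 (by decide +kernel)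
def nP_51 : ℕ := 0x30000000100000001000000000000000000000000000000000000000000000000000000000000000000000000000000000000000000000000000000000000000000000000000000000000
def cP_51 : ℕ := 0x80000000e0000000f000000fee000007ce00000fe7000001c8000000c0000000c00000000000000000000000000000000000000000000000000000000000000000000000000000000000000000000000000000000000000000000
theorem lP_51 : S nP_51 cP_51 11 := S_of_chk [] trivial (node 594 (merge (node 591 (merge (node 627 (merge (leaf 0 591 626) (node 595 (merge (leaf 0 592 628) (node 563 (merge (leaf 2 559 562) (leaf 2 560 564))))))) (node 622 (merge (leaf 1 590 623) (node 590 (merge (leaf 1 589 621) (node 557 (merge (leaf 3 557 558) (node 589 (merge (leaf 3 556 556) (leaf 2 557 561))))))))))) (merge (node 595 (merge (node 596 (merge (leaf 3 560 561) (node 628 (merge (leaf 0 592 627) (leaf 0 593 629))))) (merge (node 628 (merge (leaf 0 592 627) (node 596 (merge (leaf 0 593 629) (node 564 (merge (leaf 2 560 563) (leaf 2 561 565))))))) (node 563 (merge (leaf 2 560 564) (node 591 (merge (leaf 2 559 562) (node 622 (merge (leaf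 1 590 623) (node 590 (merge (leaf 1 589 621) (node 589 (merge (leaf 2 557 561) (node 557 (merge (leaf 3 556 556) (leaf 3 557 558)))))))))))))))) (merge (node 595 (merge (node 596 (merge (leaf 3 560 561) (node 565 (merge (leaf 2 561 564) (node 597 (merge (leaf 2 562 566) (node 626 (merge (leaf 1 593 625) (node 627 (merge (leaf 0 591 591) (leaf 1 594 598))))))))))) (merge (node 596 (merge (node 628 (merge (leaf 0 592 627) (leaf 0 593 629))) (merge (node 565 (merge (leaf 2 561 564) (node 597 (merge (leaf 2 562 566) (node 626 (merge (leaf 1 593 625) (node 627 (merge (leaf 0 591 591) (leaf 1 594 598))))))))) (node 629 (merge (leaf 0 593 628) (node 597 (merge (leaf 0 594 630) (node 565 (merge (leaf 2 561 564) (leaf 2 562 566)))))))))) (merge (node 596 (merge (leaf 3 560 561) (node 629 (merge (leaf 0 593 628) (node 597 (merge (leaf 0 594 630) (node 565 (merge (leaf 2 561 564) (leaf 2 562 566))))))))) (node 627 (merge (leaf 0 592 628) (node 591 (merge (leaf 0 591 626) (node 622 (merge (leaf 1 590 623) (node 590 (merge (leaf 1 589 621) (node 589 (merge (leaf 2 557 561) (node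 557 (merge (leaf 3 556 556) (leaf 3 557 558))))))))))))))))) (merge (node 591 (merge (node 622 (merge (leaf 1 590 623) (node 590 (merge (leaf 1 589 621) (node 562 (merge (leaf 2 558 561) (leaf 2 559 563))))))) (merge (node 626 (merge (leaf 0 591 627) (node 590 (merge (leaf 0 590 625) (node 622 (merge (leaf 1 589 621) (leaf 1 590 623))))))) (merge (node 626 (merge (leaf 0 591 627) (node 590 (merge (leaf 0 590 625) (node 562 (merge (leaf 2 558 561) (leaf 2 559 563))))))) (node 626 (merge (leaf 0 591 627) (node 563 (merge (leaf 2 559 562) (node 595 (merge (leaf 2 560 564) (node 596 (merge (leaf 3 560 561) (node 597 (merge (leaf 1 593 625) (node 630 (merge (leaf 0 594 629) (node 598 (merge (leaf 0 595 631) (node 566 (merge (leaf 2 562 565) (leaf 2 563 567))))))))))))))))))))) (merge (node 627 (merge (node 628 (merge (leaf 0 592 595) (node 626 (merge (leaf 3 592 625) (leaf 3 593 629))))) (merge (node 626 (merge (leaf 0 591 591) (node 628 (merge (leaf 3 592 625) (leaf 3 593 629))))) (merge (node 595 (merge (leaf 0 592 628) (node 563 (merge (leaf 2 560 564) (node 562 (merge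 (leaf 2 559 591) (node 530 (merge (leaf 4 498 498) (leaf 7 530 659))))))))) (node 562 (merge (node 563 (merge (leaf 2 559 591) (node 564 (merge (leaf 1 561 565) (leaf 2 560 595))))) (merge (node 626 (merge (leaf 0 591 591) (node 530 (merge (leaf 4 530 659) (node 498 (merge (leaf 4 498 595) (leaf 5 497 625))))))) (merge (node 659 (merge (node 530 (merge (leaf 4 530 626) (node 498 (merge (leaf 4 498 595) (leaf 5 497 625))))) (merge (node 595 (merge (leaf 7 562 691) (node 563 (merge (leaf 7 530 530) (leaf 2 560 564))))) (merge (node 626 (merge (leaf 4 530 530) (node 691 (merge (leaf 4 562 658) (leaf 7 594 723))))) (node 691 (merge (leaf 7 562 595) (node 626 (merge (leaf 4 562 658) (leaf 7 594 723))))))))) (node 591 (merge (leaf 2 559 563) (node 626 (merge (leaf 0 591 627) (node 590 (merge (leaf 0 590 625) (node 622 (merge (leaf 1 589 621) (leaf 1 590 623))))))))))))))))) (merge (node 595 (merge (node 596 (merge (leaf 3 560 561) (node 564 (merge (leaf 2 560 563) (leaf 2 561 565))))) (merge (node 596 (merge (leaf 3 560 561) (node 628 (merge (leaf 0 592 627) (leaf 0 593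 629))))) (merge (node 628 (merge (leaf 0 592 627) (node 596 (merge (leaf 0 593 629) (node 564 (merge (leaf 2 560 563) (leaf 2 561 565))))))) (node 627 (merge (leaf 0 592 628) (node 562 (merge (node 659 (merge (leaf 7 562 691) (node 530 (merge (leaf 4 498 498) (leaf 4 530 626))))) (merge (node 659 (merge (leaf 7 562 691) (node 563 (merge (leaf 7 530 530) (leaf 2 560 564))))) (node 563 (merge (leaf 2 560 564) (node 561 (merge (leaf 3 527 527) (node 531 (merge (leaf 2 528 532) (node 499 (merge (leaf 5 466 467) (leaf 5 498 626)))))))))))))))))) (merge (node 625 (merge (node 657 (merge (leaf 7 528 561) (leaf 7 560 689))) (merge (node 562 (merge (node 657 (merge (leaf 7 560 689) (node 530 (merge (leaf 5 497 498) (leaf 5 529 626))))) (node 563 (merge (leaf 2 559 591) (node 564 (merge (leaf 1 561 565) (leaf 2 560 595))))))) (node 563 (merge (node 562 (merge (leaf 2 559 591) (node 564 (merge (leaf 1 561 565) (leaf 2 560 595))))) (merge (node 562 (merge (leaf 2 559 591) (node 564 (merge (leaf 1 560 561) (leaf 1 561 565))))) (merge (node 595 (merge (leaf 2 560 564) (node 596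 (merge (leaf 3 560 561) (node 629 (merge (leaf 0 593 628) (node 597 (merge (leaf 1 593 626) (leaf 0 594 630))))))))) (node 562 (merge (leaf 2 559 591) (node 561 (merge (leaf 3 527 527) (node 595 (merge (leaf 0 560 596) (node 531 (merge (leaf 2 528 532) (node 499 (merge (leaf 5 466 467) (leaf 5 498 626)))))))))))))))))) (merge (node 562 (merge (node 591 (merge (leaf 2 559 563) (node 622 (merge (leaf 1 590 623) (node 590 (merge (leaf 2 558 561) (leaf 1 589 621))))))) (merge (node 591 (merge (leaf 2 559 563) (node 626 (merge (leaf 0 591 627) (node 590 (merge (leaf 0 590 625) (node 622 (merge (leaf 1 589 621) (leaf 1 590 623))))))))) (merge (node 626 (merge (node 627 (merge (leaf 0 591 591) (node 628 (merge (leaf 0 592 595) (leaf 3 593 629))))) (node 657 (merge (node 689 (merge (leaf 7 560 625) (leaf 5 561 658))) (merge (node 625 (merge (leaf 5 529 530) (leaf 7 528 561))) (node 658 (merge (leaf 5 561 689) (node 690 (merge (leaf 7 561 561) (node 691 (merge (leaf 4 562 659) (leaf 4 594 723)))))))))))) (node 561 (merge (node 563 (merge (leaf 3 527 527) (node 531 (merge (leaf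 2 528 532) (node 626 (merge (leaf 6 530 658) (node 499 (merge (leaf 5 466 467) (leaf 6 498 530))))))))) (merge (node 595 (merge (leaf 3 560 596) (node 627 (merge (leaf 0 592 628) (node 659 (merge (leaf 7 562 691) (node 530 (merge (leaf 4 498 498) (leaf 4 530 626))))))))) (merge (node 563 (merge (leaf 3 527 527) (node 595 (merge (leaf 0 560 596) (node 627 (merge (leaf 0 592 628) (node 659 (merge (leaf 7 530 530) (leaf 7 562 691))))))))) (node 563 (merge (leaf 3 527 527) (node 595 (merge (leaf 0 560 596) (node 531 (merge (leaf 2 528 532) (node 499 (merge (leaf 5 466 467) (leaf 5 498 626))))))))))))))))) (node 562 (merge (node 591 (merge (leaf 2 559 563) (node 622 (merge (leaf 1 590 623) (node 590 (merge (leaf 2 558 561) (leaf 1 589 621))))))) (merge (node 591 (merge (leaf 2 559 563) (node 626 (merge (leaf 0 591 627) (node 590 (merge (leaf 0 590 625) (node 622 (merge (leaf 1 589 621) (leaf 1 590 623))))))))) (merge (node 626 (merge (node 627 (merge (leaf 0 591 591) (node 628 (merge (leaf 3 592 625) (leaf 3 593 629))))) (merge (node 591 (merge (leaf 0 591 627) (node 622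 (merge (leaf 1 590 623) (node 590 (merge (leaf 2 558 561) (leaf 1 589 621))))))) (node 657 (merge (node 689 (merge (leaf 7 560 625) (leaf 5 561 658))) (merge (node 625 (merge (leaf 5 529 530) (leaf 7 528 561))) (node 658 (merge (leaf 5 561 689) (node 690 (merge (leaf 7 561 561) (node 691 (merge (leaf 4 562 659) (leaf 4 594 723))))))))))))) (node 561 (merge (node 563 (merge (leaf 3 527 527) (leaf 1 560 564))) (node 626 (merge (node 657 (merge (leaf 7 528 625) (node 658 (merge (leaf 5 561 689) (leaf 7 561 690))))) (merge (node 625 (merge (leaf 7 528 657) (node 530 (merge (leaf 5 497 498) (node 627 (merge (leaf 4 530 659) (node 628 (merge (leaf 3 592 592) (leaf 3 593 629))))))))) (merge (node 658 (merge (leaf 7 561 690) (node 659 (merge (leaf 4 562 691) (node 530 (merge (leaf 4 530 627) (node 498 (merge (leaf 5 465 466) (leaf 5 497 625))))))))) (node 658 (merge (leaf 7 561 690) (node 659 (merge (leaf 4 562 691) (node 627 (merge (leaf 4 530 530) (node 628 (merge (leaf 3 593 629) (node 657 (merge (leaf 2 624 656) (leaf 5 561 689)))))))))))))))))))))))))))))) nP_51 cP_51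 11 (by decide +kernel)
def nP_52 : ℕ := 0x30000000100000001000000000000000000000000000000000000000000000000000000000000000000000000000000000000000000000000000000000000000000000000000000000000
def cP_52 : ℕ := 0xa8000003fe000001f8000001fe000003df800001cf000003e7000001c8000000c8000000800000000000000000000000000000000000000000000000000000000000000000000000000000000000000000000000000000000000000000000
theorem lP_52 : S nP_52 cP_52 17 := S_of_chk [] trivial (node 594 (merge (node 595 (merge (node 596 (merge (leaf 3 560 561) (node 564 (merge (leaf 2 560 563) (leaf 2 561 565))))) (merge (node 623 (merge (leaf 1 591 624) (node 591 (merge (leaf 1 590 622) (node 563 (merge (leaf 2 559 562) (leaf 2 560 564))))))) (node 623 (merge (leaf 1 591 624) (node 591 (merge (leaf 1 590 622) (node 561 (merge (leaf 3 560 596) (node 590 (merge (leaf 2 558 562) (leaf 2 557 589)))))))))))) (merge (node 595 (merge (node 596 (merge (leaf 3 560 561) (node 628 (merge (leaf 0 592 627) (leaf 0 593 629))))) (merge (node 627 (merge (leaf 0 592 628) (node 591 (merge (leaf 0 591 626) (node 623 (merge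 (leaf 1 590 622) (leaf 1 591 624))))))) (node 623 (merge (leaf 1 591 624) (node 591 (merge (leaf 1 590 622) (node 561 (merge (leaf 3 560 596) (node 590 (merge (leaf 2 558 562) (leaf 2 557 589)))))))))))) (merge (node 591 (merge (node 623 (merge (leaf 1 590 622) (node 655 (merge (leaf 5 527 624) (leaf 6 559 687))))) (node 627 (merge (leaf 0 591 626) (node 595 (merge (leaf 0 592 628) (node 563 (merge (leaf 2 559 562) (leaf 2 560 564))))))))) (merge (node 595 (merge (node 596 (merge (leaf 3 560 561) (node 564 (merge (leaf 2 560 563) (leaf 2 561 565))))) (merge (node 628 (merge (leaf 0 592 627) (node 596 (merge (leaf 0 593 629) (node 564 (merge (leaf 2 560 563) (leaf 2 561 565))))))) (node 627 (merge (leaf 0 592 628) (node 591 (merge (leaf 0 591 626) (node 622 (merge (leaf 1 590 623) (node 590 (merge (leaf 1 589 621) (node 589 (merge (leaf 2 557 561) (node 557 (merge (leaf 3 556 556) (leaf 3 557 558)))))))))))))))) (merge (node 595 (merge (node 596 (merge (leaf 3 560 561) (node 564 (merge (leaf 2 560 563) (leaf 2 561 565))))) (merge (node 596 (merge (leaf 3 560 561) (node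 628 (merge (leaf 0 592 627) (leaf 0 593 629))))) (merge (node 628 (merge (leaf 0 592 627) (node 596 (merge (leaf 0 593 629) (node 564 (merge (leaf 2 560 563) (leaf 2 561 565))))))) (node 627 (merge (leaf 0 592 628) (node 562 (merge (node 659 (merge (leaf 7 562 691) (node 530 (merge (leaf 4 498 498) (leaf 4 530 626))))) (merge (node 659 (merge (leaf 7 562 691) (node 563 (merge (leaf 7 530 530) (leaf 2 560 564))))) (node 563 (merge (leaf 2 560 564) (node 561 (merge (leaf 3 527 527) (node 531 (merge (leaf 2 528 532) (node 499 (merge (leaf 5 466 467) (leaf 5 498 626)))))))))))))))))) (node 626 (merge (node 591 (merge (leaf 0 591 627) (node 623 (merge (leaf 1 590 622) (node 655 (merge (leaf 5 527 624) (leaf 6 559 687))))))) (merge (node 591 (merge (leaf 0 591 627) (node 562 (merge (leaf 2 559 563) (node 590 (merge (leaf 2 558 561) (node 621 (merge (leaf 1 589 622) (node 589 (merge (leaf 1 588 620) (node 557 (merge (leaf 3 556 556) (leaf 3 557 558))))))))))))) (merge (node 658 (merge (node 690 (merge (leaf 7 561 561) (node 723 (merge (leaf 4 594 691) (node 722 (merge (leaf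 4 626 755) (node 721 (merge (leaf 5 593 689) (leaf 5 625 753))))))))) (merge (node 690 (merge (leaf 7 561 561) (node 689 (merge (leaf 5 593 721) (node 657 (merge (leaf 5 561 562) (node 656 (merge (leaf 4 560 624) (node 655 (merge (leaf 2 623 627) (leaf 0 654 654))))))))))) (merge (node 562 (merge (node 690 (merge (leaf 7 561 561) (node 691 (merge (leaf 4 562 659) (leaf 4 594 723))))) (merge (node 563 (merge (leaf 6 530 531) (node 564 (merge (leaf 1 560 561) (leaf 1 561 565))))) (node 531 (merge (leaf 6 530 563) (node 530 (merge (leaf 6 498 499) (node 659 (merge (leaf 4 530 627) (leaf 4 562 691)))))))))) (merge (node 562 (merge (node 563 (merge (leaf 6 530 531) (node 564 (merge (leaf 1 560 561) (leaf 1 561 565))))) (node 659 (merge (leaf 4 562 691) (node 627 (merge (leaf 4 530 530) (node 628 (merge (leaf 3 593 629) (node 657 (merge (leaf 2 624 656) (leaf 5 561 689))))))))))) (node 689 (merge (node 657 (merge (leaf 5 561 562) (node 721 (merge (leaf 5 593 690) (leaf 6 625 753))))) (merge (node 562 (merge (leaf 5 561 657) (node 531 (merge (leaf 6 530 563) (node 530 (merge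 (leaf 6 498 499) (node 659 (merge (leaf 4 530 627) (leaf 4 562 691))))))))) (merge (node 690 (merge (leaf 5 593 721) (node 691 (merge (leaf 4 594 723) (node 659 (merge (leaf 4 562 562) (node 688 (merge (leaf 2 656 660) (leaf 2 655 687))))))))) (node 721 (merge (leaf 5 593 690) (node 657 (merge (leaf 6 625 753) (node 656 (merge (leaf 4 560 624) (node 627 (merge (leaf 2 623 655) (node 628 (merge (leaf 1 625 629) (leaf 2 624 659)))))))))))))))))))) (node 689 (merge (node 624 (merge (node 656 (merge (leaf 4 560 657) (node 688 (merge (leaf 6 560 561) (leaf 4 592 721))))) (node 623 (merge (leaf 5 527 655) (node 622 (merge (leaf 1 590 591) (leaf 2 589 621))))))) (merge (node 658 (merge (node 657 (merge (leaf 5 561 562) (node 721 (merge (leaf 5 593 690) (leaf 6 625 753))))) (merge (node 562 (merge (leaf 5 561 657) (node 563 (merge (leaf 6 530 531) (node 564 (merge (leaf 1 560 561) (leaf 1 561 565))))))) (node 690 (merge (leaf 7 561 561) (node 723 (merge (leaf 4 594 691) (node 722 (merge (leaf 4 626 755) (node 721 (merge (leaf 5 593 689) (leaf 5 625 753)))))))))))) (merge (node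 624 (merge (node 623 (merge (leaf 5 527 655) (node 622 (merge (leaf 1 590 591) (leaf 2 589 621))))) (merge (node 656 (merge (leaf 4 560 657) (node 655 (merge (leaf 5 527 623) (leaf 5 559 687))))) (node 527 (merge (leaf 7 495 495) (node 657 (merge (leaf 4 560 656) (node 562 (merge (leaf 5 561 658) (node 563 (merge (leaf 3 527 561) (leaf 2 559 591)))))))))))) (merge (node 658 (merge (node 562 (merge (leaf 5 561 657) (node 563 (merge (leaf 6 530 531) (leaf 2 559 591))))) (merge (node 721 (merge (leaf 5 593 690) (node 657 (merge (leaf 6 625 753) (node 624 (merge (leaf 4 560 656) (node 623 (merge (leaf 5 527 655) (node 622 (merge (leaf 1 590 591) (leaf 2 589 621))))))))))) (node 690 (merge (leaf 5 593 721) (node 691 (merge (leaf 4 594 723) (node 659 (merge (leaf 4 562 562) (node 688 (merge (leaf 2 656 660) (leaf 2 655 687)))))))))))) (node 591 (merge (node 623 (merge (leaf 1 590 622) (node 655 (merge (leaf 5 527 624) (leaf 6 559 687))))) (merge (node 562 (merge (leaf 2 559 563) (node 590 (merge (leaf 2 558 561) (node 621 (merge (leaf 1 589 622) (node 589 (merge (leaf 1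 588 620) (node 557 (merge (leaf 3 556 556) (leaf 3 557 558))))))))))) (node 690 (merge (node 658 (merge (leaf 7 561 561) (leaf 5 593 721))) (merge (node 561 (merge (leaf 7 561 658) (node 590 (merge (leaf 2 558 562) (leaf 2 557 589))))) (merge (node 562 (merge (leaf 2 559 563) (node 658 (merge (leaf 5 593 721) (node 691 (merge (leaf 4 562 659) (leaf 4 594 723))))))) (node 688 (merge (node 655 (merge (node 623 (merge (leaf 5 527 624) (leaf 6 559 687))) (merge (node 654 (merge (leaf 3 654 687) (node 656 (merge (leaf 0 653 653) (leaf 3 655 691))))) (node 656 (merge (leaf 3 655 691) (node 624 (merge (leaf 5 527 623) (leaf 4 592 721)))))))) (merge (node 562 (merge (leaf 2 559 563) (node 561 (merge (leaf 2 558 590) (node 656 (merge (leaf 6 560 624) (node 655 (merge (leaf 3 655 691) (node 654 (merge (leaf 0 653 653) (leaf 3 654 687))))))))))) (merge (node 562 (merge (leaf 2 559 563) (node 561 (merge (leaf 2 558 590) (node 656 (merge (leaf 6 560 624) (node 691 (merge (leaf 3 655 655) (node 724 (merge (leaf 0 688 723) (node 692 (merge (leaf 0 689 725) (node 720 (merge (leaf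 1 687 719) (leaf 1 688 721))))))))))))))) (merge (node 719 (merge (node 687 (merge (leaf 1 686 718) (node 655 (merge (leaf 6 559 623) (leaf 3 654 654))))) (merge (node 720 (merge (leaf 1 687 691) (node 718 (merge (leaf 2 685 717) (leaf 2 686 721))))) (node 691 (merge (leaf 1 687 720) (node 723 (merge (leaf 0 688 724) (node 687 (merge (leaf 0 687 722) (node 655 (merge (leaf 6 559 623) (leaf 3 654 654)))))))))))) (merge (node 562 (merge (leaf 2 559 563) (node 590 (merge (leaf 2 558 561) (node 557 (merge (leaf 3 557 558) (node 589 (merge (leaf 3 556 556) (node 620 (merge (leaf 1 588 621) (node 588 (merge (leaf 1 587 619) (node 624 (merge (leaf 0 588 623) (node 656 (merge (leaf 4 592 721) (node 687 (merge (leaf 5 559 655) (leaf 5 591 719))))))))))))))))))) (node 562 (merge (leaf 2 559 563) (node 590 (merge (leaf 2 558 561) (node 557 (merge (leaf 3 557 558) (node 589 (merge (leaf 3 556 556) (node 620 (merge (leaf 1 588 621) (node 588 (merge (leaf 1 587 619) (node 624 (merge (leaf 0 588 623) (node 656 (merge (leaf 4 592 721) (node 719 (merge (leaf 5 591 687) (node 720 (merge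 (leaf 1 687 691) (leaf 5 623 751))))))))))))))))))))))))))))))))))))))))))))))))) nP_52 cP_52 17 (by decide +kernel)
def nP_53 : ℕ := 0x10000000100000001000000000000000000000000000000000000000000000000000000000000000000000000000000000000000000000000000000000000000000000000000000000000
def cP_53 : ℕ := 0xa8000003fe000001f8000001ff00000fff800007ef00000fe7000001ce000000ce000000c00000000000000000000000000000000000000000000000000000000000000000000000000000000000000000000000000000000000000000000
theorem lP_53 : S nP_53 cP_53 18 := S_of_chk [(nP_50, cP_50, 10), (nP_51, cP_51, 11), (nP_52, cP_52, 17)] ⟨lP_50, lP_51, lP_52, trivial⟩ (node 593 (merge (node 624 (merge (node 623 (merge (leaf 5 527 655) (node 622 (merge (leaf 2 589 621) (node 594 (merge (leaf 1 590 591) (leaf 2 590 625))))))) (merge (node 656 (merge (node 657 (merge (leaf 4 528 625) (leaf 4 560 689))) (merge (node 688 (merge (leaf 6 560 561) (node 720 (merge (leaf 6 592 625) (node 719 (merge (leaf 5 591 687) (leaf 5 623 751))))))) (node 689 (merge (leaf 4 560 657) (node 688 (merge (leaf 6 560 561) (leaf 4 592 721))))))))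 (node 655 (merge (leaf 5 527 623) (node 656 (merge (leaf 5 559 687) (node 689 (merge (leaf 4 560 657) (node 688 (merge (leaf 6 560 561) (leaf 4 592 721)))))))))))) (merge (node 624 (merge (node 623 (merge (leaf 5 527 655) (node 594 (merge (leaf 1 591 595) (node 622 (merge (leaf 2 589 621) (leaf 2 590 625))))))) (merge (node 656 (merge (node 657 (merge (leaf 4 528 625) (leaf 4 560 689))) (merge (node 688 (merge (leaf 6 560 561) (node 720 (merge (leaf 6 592 625) (node 719 (merge (leaf 5 591 687) (leaf 5 623 751))))))) (node 689 (merge (leaf 4 560 657) (node 688 (merge (leaf 6 560 561) (leaf 4 592 721)))))))) (node 655 (merge (leaf 5 527 623) (node 656 (merge (leaf 5 559 687) (node 689 (merge (leaf 4 560 657) (node 688 (merge (leaf 6 560 561) (leaf 4 592 721)))))))))))) (merge (node 623 (merge (node 624 (merge (leaf 5 527 655) (node 594 (merge (leaf 1 591 595) (node 622 (merge (leaf 2 589 621) (leaf 2 590 625))))))) (merge (node 655 (merge (leaf 5 527 624) (node 591 (merge (leaf 6 559 687) (node 622 (merge (leaf 1 590 594) (node 621 (merge (leaf 1 589 590) (leaf 2 588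 620))))))))) (merge (node 594 (merge (node 624 (merge (leaf 1 591 595) (leaf 5 527 655))) (merge (node 595 (merge (node 596 (merge (leaf 3 560 561) (node 564 (merge (leaf 2 560 563) (leaf 2 561 565))))) (merge (node 596 (merge (leaf 3 560 561) (node 628 (merge (leaf 0 592 627) (leaf 0 593 629))))) (node 627 (merge (leaf 0 592 628) (node 591 (merge (leaf 0 591 626) (node 563 (merge (leaf 2 559 562) (leaf 2 560 564)))))))))) (node 655 (merge (leaf 5 527 624) (node 591 (merge (leaf 6 559 687) (node 626 (merge (leaf 0 591 627) (node 590 (merge (leaf 0 590 625) (node 562 (merge (leaf 2 558 561) (leaf 2 559 563)))))))))))))) (merge (node 594 (merge (node 622 (merge (leaf 1 590 591) (node 624 (merge (leaf 2 589 621) (leaf 2 590 625))))) (merge (node 595 (merge (leaf 1 591 624) (node 596 (merge (leaf 3 560 561) (node 628 (merge (leaf 0 592 627) (leaf 0 593 629))))))) (node 591 (merge (leaf 1 590 622) (node 563 (merge (leaf 2 559 562) (node 595 (merge (leaf 2 560 564) (node 628 (merge (leaf 0 592 627) (node 596 (merge (leaf 3 560 561) (leaf 0 593 629)))))))))))))) (merge (node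 591 (merge (node 622 (merge (leaf 1 590 594) (node 621 (merge (leaf 1 589 590) (leaf 2 588 620))))) (merge (node 594 (merge (leaf 1 590 622) (node 627 (merge (leaf 0 591 626) (node 595 (merge (leaf 0 592 628) (node 563 (merge (leaf 2 559 562) (leaf 2 560 564))))))))) (merge (node 594 (merge (node 627 (merge (leaf 0 591 626) (node 595 (merge (leaf 0 592 628) (node 563 (merge (leaf 2 559 562) (leaf 2 560 564))))))) (merge (node 626 (merge (leaf 0 591 627) (node 590 (merge (leaf 0 590 625) (node 562 (merge (leaf 2 558 561) (leaf 2 559 563))))))) (merge (node 595 (merge (node 563 (merge (leaf 2 559 562) (leaf 2 560 564))) (merge (node 561 (merge (leaf 3 560 596) (node 590 (merge (leaf 2 558 562) (leaf 2 557 589))))) (node 596 (merge (leaf 3 560 561) (node 564 (merge (leaf 2 560 563) (leaf 2 561 565)))))))) (merge (node 627 (merge (leaf 0 591 626) (node 595 (merge (leaf 0 592 628) (node 561 (merge (leaf 3 560 596) (node 590 (merge (leaf 2 558 562) (leaf 2 557 589))))))))) (node 627 (merge (leaf 0 591 626) (node 595 (merge (leaf 0 592 628) (node 564 (merge (leaf 2 560 563)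 (node 596 (merge (leaf 3 560 561) (leaf 2 561 565)))))))))))))) (node 590 (merge (node 561 (merge (leaf 2 557 589) (node 562 (merge (leaf 1 559 563) (leaf 2 558 593))))) (node 622 (merge (leaf 1 589 621) (node 558 (merge (leaf 3 557 557) (node 526 (merge (leaf 4 494 494) (leaf 4 526 655))))))))))))) (node 591 (merge (node 655 (merge (leaf 5 527 624) (leaf 6 559 687))) (merge (node 590 (merge (node 561 (merge (leaf 2 557 589) (node 562 (merge (leaf 1 559 563) (leaf 2 558 593))))) (node 622 (merge (leaf 1 589 621) (node 558 (merge (leaf 3 557 557) (node 526 (merge (leaf 4 494 494) (leaf 4 526 655))))))))) (node 622 (merge (node 621 (merge (leaf 2 588 620) (leaf 2 589 624))) (merge (node 590 (merge (leaf 1 589 621) (node 561 (merge (leaf 2 558 562) (leaf 2 557 589))))) (node 590 (merge (node 561 (merge (leaf 2 558 562) (leaf 2 557 589))) (merge (node 625 (merge (leaf 0 590 626) (node 589 (merge (leaf 0 589 624) (node 557 (merge (leaf 3 556 556) (leaf 3 557 558))))))) (node 561 (merge (leaf 2 558 562) (node 558 (merge (leaf 3 557 557) (node 526 (merge (leaf 4 494 494)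 (node 525 (merge (leaf 7 493 493) (leaf 0 525 527)))))))))))))))))))))))) (merge (node 624 (merge (node 623 (merge (leaf 5 527 655) (node 594 (merge (leaf 1 591 595) (node 622 (merge (leaf 1 590 591) (leaf 2 589 621))))))) (merge (node 656 (merge (node 657 (merge (leaf 4 528 625) (leaf 4 560 689))) (merge (node 625 (merge (leaf 4 528 657) (node 688 (merge (leaf 6 592 720) (node 687 (merge (leaf 5 559 655) (leaf 5 591 719))))))) (merge (node 689 (merge (leaf 4 560 657) (node 688 (merge (leaf 4 592 721) (node 687 (merge (leaf 5 559 655) (leaf 5 591 719))))))) (node 687 (merge (leaf 5 559 655) (node 688 (merge (leaf 5 591 719) (node 721 (merge (leaf 4 592 689) (node 720 (merge (leaf 6 592 625) (leaf 4 624 753))))))))))))) (node 591 (merge (node 625 (merge (leaf 4 528 657) (node 590 (merge (leaf 0 589 589) (leaf 0 590 626))))) (merge (node 590 (merge (node 621 (merge (leaf 1 589 622) (node 589 (merge (leaf 1 588 620) (node 557 (merge (leaf 3 556 556) (leaf 3 557 558))))))) (merge (node 622 (merge (leaf 1 589 621) (node 594 (merge (leaf 1 590 623) (node 627 (merge (leaf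 0 591 626) (node 595 (merge (leaf 0 592 628) (node 563 (merge (leaf 2 559 562) (leaf 2 560 564))))))))))) (merge (node 557 (merge (leaf 3 557 558) (node 589 (merge (leaf 3 556 556) (node 623 (merge (leaf 0 588 588) (node 594 (merge (leaf 1 591 595) (leaf 1 590 622))))))))) (node 557 (merge (leaf 3 557 558) (node 589 (merge (leaf 3 556 556) (node 588 (merge (leaf 0 588 623) (node 620 (merge (leaf 1 587 619) (leaf 1 588 621))))))))))))) (merge (node 625 (merge (leaf 4 528 657) (node 590 (merge (leaf 0 589 589) (node 622 (merge (leaf 1 589 621) (node 594 (merge (leaf 1 590 623) (node 595 (merge (leaf 1 592 596) (node 563 (merge (leaf 2 559 562) (leaf 2 560 564))))))))))))) (node 626 (merge (node 625 (merge (leaf 3 591 627) (leaf 4 528 657))) (merge (node 594 (merge (leaf 0 591 627) (node 623 (merge (leaf 1 591 595) (leaf 1 590 622))))) (node 594 (merge (node 623 (merge (leaf 1 591 595) (leaf 1 590 622))) (node 562 (merge (leaf 2 559 563) (node 657 (merge (leaf 4 528 625) (node 689 (merge (leaf 4 560 656) (leaf 5 561 658))))))))))))))))))) (merge (node 624 (merge (node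 657 (merge (leaf 4 528 625) (node 656 (merge (leaf 4 560 689) (node 655 (merge (leaf 5 527 623) (leaf 5 559 687))))))) (merge (node 656 (merge (node 657 (merge (leaf 4 528 625) (leaf 4 560 689))) (merge (node 688 (merge (leaf 6 560 561) (node 720 (merge (leaf 6 592 625) (node 719 (merge (leaf 5 591 687) (leaf 5 623 751))))))) (node 689 (merge (leaf 4 560 657) (node 688 (merge (leaf 6 560 561) (leaf 4 592 721)))))))) (merge (node 655 (merge (leaf 5 527 623) (node 656 (merge (leaf 5 559 687) (node 689 (merge (leaf 4 560 657) (node 688 (merge (leaf 6 560 561) (leaf 4 592 721))))))))) (merge (node 655 (merge (leaf 5 527 623) (node 656 (merge (leaf 5 559 687) (node 688 (merge (leaf 6 560 561) (node 720 (merge (leaf 6 592 625) (node 721 (merge (leaf 4 592 689) (leaf 4 624 753))))))))))) (node 591 (merge (node 625 (merge (leaf 4 528 657) (node 590 (merge (leaf 0 589 589) (leaf 0 590 626))))) (merge (node 623 (merge (leaf 5 527 655) (node 594 (merge (leaf 1 591 595) (node 562 (merge (leaf 2 559 563) (node 590 (merge (leaf 2 558 561) (node 589 (merge (leaf 0 588 588) (node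 557 (merge (leaf 3 556 556) (leaf 3 557 558))))))))))))) (node 625 (merge (leaf 4 528 657) (node 626 (merge (leaf 3 591 627) (node 623 (merge (leaf 5 527 655) (node 658 (merge (leaf 0 623 659) (node 594 (merge (leaf 1 591 595) (node 690 (merge (leaf 7 561 561) (leaf 7 593 722))))))))))))))))))))) (merge (node 624 (merge (node 656 (merge (node 657 (merge (leaf 4 528 625) (leaf 4 560 689))) (merge (node 688 (merge (leaf 6 560 561) (node 720 (merge (leaf 6 592 625) (node 719 (merge (leaf 5 591 687) (leaf 5 623 751))))))) (node 689 (merge (leaf 4 560 657) (node 688 (merge (leaf 6 560 561) (leaf 4 592 721)))))))) (merge (node 655 (merge (leaf 5 527 623) (node 656 (merge (leaf 5 559 687) (node 689 (merge (leaf 4 560 657) (node 688 (merge (leaf 6 560 561) (leaf 4 592 721))))))))) (merge (node 655 (merge (leaf 5 527 623) (node 656 (merge (leaf 5 559 687) (node 688 (merge (leaf 6 560 561) (node 720 (merge (leaf 6 592 625) (node 721 (merge (leaf 4 592 689) (leaf 4 624 753))))))))))) (node 625 (merge (leaf 4 528 657) (node 623 (merge (leaf 5 527 655) (node 626 (merge (node 659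 (merge (leaf 0 623 658) (node 627 (merge (leaf 0 624 660) (node 591 (merge (leaf 3 590 590) (leaf 3 591 592))))))) (merge (node 659 (merge (leaf 0 623 658) (node 627 (merge (leaf 0 624 660) (node 596 (merge (leaf 2 592 595) (node 628 (merge (leaf 3 592 593) (leaf 2 593 597))))))))) (node 590 (merge (leaf 3 590 591) (node 622 (merge (leaf 3 589 589) (node 653 (merge (leaf 1 621 654) (node 621 (merge (leaf 2 589 593) (leaf 1 620 652)))))))))))))))))))) (merge (hyp 0) (merge (hyp 1) (hyp 2)))))))))) nP_53 cP_53 18 (by decide +kernel)
def nP_54 : ℕ := 0x10000000100000001200000000000000000000000000000000000000000000000000000000000000000000000000000000000000000000000000000000000000000000000000000000000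
def cP_54 : ℕ := 0x250000003f8000003fe000000fc000002780000005e000003f8000003f0000003f8000002f000000000000000000000000000000000000000000000000000000000000000000000000000000000000000000000000000
theorem lP_54 : S nP_54 cP_54 12 := S_of_chk [] trivial (node 496 (merge (node 465 (merge (leaf 6 464 497) (node 464 (merge (leaf 6 432 433) (node 463 (merge (leaf 7 431 431) (leaf 7 463 495))))))) (merge (node 495 (merge (leaf 7 463 463) (node 497 (merge (leaf 6 464 465) (node 494 (merge (leaf 1 493 526) (node 493 (merge (leaf 1 492 524) (node 461 (merge (leaf 3 460 460) (leaf 3 461 462))))))))))) (merge (node 591 (merge (leaf 5 495 623) (node 493 (merge (node 463 (merge (leaf 7 463 495) (node 464 (merge (leaf 7 431 431) (node 465 (merge (leaf 6 432 433) (node 462 (merge (leaf 1 461 494) (node 461 (merge (leaf 1 460 492) (node 429 (merge (leaf 3 428 428) (leaf 3 429 430))))))))))))) (merge (node 589 (merge (node 590 (merge (leaf 2 557 561) (node 557 (merge (leaf 3 556 556) (leaf 4 493 622))))) (merge (node 495 (merge (leaf 7 463 463) (node 494 (merge (leaf 1 492 524) (node 557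 (merge (leaf 6 461 462) (node 621 (merge (leaf 6 493 526) (node 620 (merge (leaf 5 492 588) (leaf 5 524 652))))))))))) (node 590 (merge (leaf 2 557 561) (node 620 (merge (leaf 1 588 621) (node 588 (merge (leaf 1 587 619) (node 556 (merge (leaf 6 492 524) (leaf 3 555 555)))))))))))) (merge (node 589 (merge (node 590 (merge (leaf 2 557 561) (node 557 (merge (leaf 3 556 556) (leaf 4 493 622))))) (merge (node 590 (merge (leaf 2 557 561) (node 620 (merge (leaf 1 588 621) (node 588 (merge (leaf 1 587 619) (node 556 (merge (leaf 6 492 524) (leaf 3 555 555))))))))) (merge (node 590 (merge (leaf 2 557 561) (node 620 (merge (leaf 1 588 621) (node 557 (merge (leaf 5 492 588) (leaf 4 493 622))))))) (node 557 (merge (node 492 (merge (leaf 7 460 460) (node 621 (merge (leaf 7 492 524) (node 620 (merge (leaf 5 492 588) (leaf 5 524 652))))))) (merge (node 462 (merge (leaf 6 461 494) (node 461 (merge (leaf 6 429 430) (node 588 (merge (leaf 5 460 556) (leaf 5 492 620))))))) (node 462 (merge (leaf 6 461 494) (node 461 (merge (leaf 6 429 430) (node 460 (merge (leaf 7 428 428) (leaf 7 460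 492)))))))))))))) (merge (node 590 (merge (node 589 (merge (leaf 2 557 561) (node 557 (merge (leaf 3 556 556) (leaf 4 493 622))))) (merge (node 495 (merge (leaf 7 463 463) (node 494 (merge (leaf 1 492 524) (node 461 (merge (leaf 3 460 460) (node 558 (merge (leaf 7 461 526) (leaf 4 461 557))))))))) (node 589 (merge (leaf 2 557 561) (node 620 (merge (leaf 1 588 621) (node 588 (merge (leaf 1 587 619) (node 556 (merge (leaf 6 492 524) (leaf 3 555 555)))))))))))) (node 590 (merge (node 589 (merge (leaf 2 557 561) (node 620 (merge (leaf 1 588 621) (node 588 (merge (leaf 1 587 619) (node 556 (merge (leaf 6 492 524) (leaf 3 555 555))))))))) (node 463 (merge (leaf 7 463 495) (node 464 (merge (leaf 7 431 431) (node 433 (merge (leaf 6 432 465) (node 432 (merge (leaf 6 400 401) (node 461 (merge (leaf 2 429 462) (node 558 (merge (leaf 4 461 557) (node 526 (merge (leaf 4 429 429) (leaf 7 493 622)))))))))))))))))))))))) (merge (node 591 (merge (leaf 5 495 623) (node 493 (merge (node 495 (merge (leaf 7 463 463) (node 494 (merge (leaf 1 492 524) (node 497 (merge (leaf 1 493 526) (node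 461 (merge (leaf 3 460 460) (leaf 3 461 462))))))))) (merge (node 589 (merge (node 590 (merge (leaf 2 557 561) (node 557 (merge (leaf 3 556 556) (leaf 4 493 622))))) (merge (node 590 (merge (leaf 2 557 561) (node 620 (merge (leaf 1 588 621) (node 588 (merge (leaf 1 587 619) (node 556 (merge (leaf 6 492 524) (leaf 3 555 555))))))))) (merge (node 590 (merge (leaf 2 557 561) (node 620 (merge (leaf 1 588 621) (node 557 (merge (leaf 5 492 588) (leaf 4 493 622))))))) (node 557 (merge (node 492 (merge (leaf 7 460 460) (node 621 (merge (leaf 7 492 524) (node 620 (merge (leaf 5 492 588) (leaf 5 524 652))))))) (merge (node 462 (merge (leaf 6 461 494) (node 461 (merge (leaf 6 429 430) (node 588 (merge (leaf 5 460 556) (leaf 5 492 620))))))) (node 462 (merge (leaf 6 461 494) (node 461 (merge (leaf 6 429 430) (node 460 (merge (leaf 7 428 428) (leaf 7 460 492)))))))))))))) (merge (node 589 (merge (node 590 (merge (leaf 2 557 561) (node 557 (merge (leaf 3 556 556) (leaf 4 493 622))))) (merge (node 495 (merge (leaf 7 463 463) (node 494 (merge (leaf 1 492 524) (node 557 (merge (leaf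 6 461 462) (node 621 (merge (leaf 6 493 526) (node 620 (merge (leaf 5 492 588) (leaf 5 524 652))))))))))) (node 590 (merge (leaf 2 557 561) (node 620 (merge (leaf 1 588 621) (node 588 (merge (leaf 1 587 619) (node 556 (merge (leaf 6 492 524) (leaf 3 555 555)))))))))))) (merge (node 590 (merge (node 589 (merge (leaf 2 557 561) (node 557 (merge (leaf 3 556 556) (leaf 4 493 622))))) (merge (node 495 (merge (leaf 7 463 463) (node 494 (merge (leaf 1 492 524) (node 461 (merge (leaf 3 460 460) (node 558 (merge (leaf 7 461 526) (leaf 4 461 557))))))))) (node 589 (merge (leaf 2 557 561) (node 620 (merge (leaf 1 588 621) (node 588 (merge (leaf 1 587 619) (node 556 (merge (leaf 6 492 524) (leaf 3 555 555)))))))))))) (merge (node 461 (merge (node 463 (merge (leaf 7 463 495) (node 464 (merge (leaf 7 431 431) (node 462 (merge (leaf 1 460 492) (leaf 0 461 497))))))) (merge (node 557 (merge (node 590 (merge (leaf 4 461 558) (node 556 (merge (leaf 5 460 588) (leaf 3 556 589))))) (merge (node 460 (merge (leaf 7 428 428) (node 589 (merge (leaf 7 460 492) (node 590 (merge (leaf 4 461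 558) (leaf 4 493 622))))))) (merge (node 460 (merge (leaf 7 428 428) (node 589 (merge (leaf 7 460 492) (node 588 (merge (leaf 5 460 556) (leaf 5 492 620))))))) (node 558 (merge (leaf 4 461 590) (node 429 (merge (leaf 4 429 526) (node 556 (merge (leaf 5 428 524) (leaf 5 460 588))))))))))) (node 463 (merge (leaf 7 463 495) (node 464 (merge (leaf 7 431 431) (node 462 (merge (leaf 0 461 497) (node 430 (merge (leaf 6 429 557) (node 429 (merge (leaf 6 397 398) (leaf 3 428 428)))))))))))))) (node 461 (merge (node 463 (merge (leaf 7 463 495) (node 464 (merge (leaf 7 431 431) (node 462 (merge (leaf 1 460 492) (leaf 0 461 497))))))) (merge (node 557 (merge (node 590 (merge (leaf 4 461 558) (node 556 (merge (leaf 5 460 588) (leaf 3 556 589))))) (node 430 (merge (leaf 6 429 462) (node 429 (merge (leaf 6 397 398) (node 428 (merge (leaf 7 396 396) (leaf 7 428 460))))))))) (node 495 (merge (leaf 7 463 463) (node 494 (merge (leaf 3 460 460) (node 526 (merge (leaf 1 493 497) (node 429 (merge (leaf 4 397 397) (leaf 4 429 558)))))))))))))))))))) (merge (node 589 (merge (node 591 (merge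 (leaf 5 495 623) (node 590 (merge (leaf 2 557 561) (node 557 (merge (leaf 3 556 556) (node 622 (merge (leaf 4 493 493) (node 654 (merge (leaf 7 525 558) (leaf 7 557 686))))))))))) (merge (node 591 (merge (leaf 5 495 623) (node 590 (merge (leaf 2 557 561) (node 620 (merge (leaf 1 588 621) (node 588 (merge (leaf 1 587 619) (node 556 (merge (leaf 3 555 555) (leaf 3 556 557))))))))))) (merge (node 623 (merge (leaf 5 495 591) (node 624 (merge (leaf 5 527 655) (node 625 (merge (leaf 4 528 657) (node 622 (merge (leaf 3 589 590) (node 653 (merge (leaf 1 621 654) (node 621 (merge (leaf 3 588 588) (leaf 1 620 652))))))))))))) (merge (node 623 (merge (leaf 5 495 591) (node 621 (merge (node 624 (merge (leaf 5 527 655) (node 657 (merge (leaf 4 528 625) (node 656 (merge (leaf 0 621 622) (leaf 4 560 689))))))) (node 557 (merge (node 524 (merge (leaf 7 492 492) (node 653 (merge (leaf 7 524 556) (node 652 (merge (leaf 5 524 620) (leaf 5 556 684))))))) (merge (node 494 (merge (leaf 6 493 526) (node 493 (merge (leaf 6 461 462) (node 492 (merge (leaf 7 460 460) (leaf 7 492 524)))))))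 (node 526 (merge (leaf 6 493 494) (node 653 (merge (leaf 6 525 558) (node 652 (merge (leaf 5 524 620) (leaf 5 556 684)))))))))))))) (merge (node 494 (merge (node 497 (merge (leaf 6 464 465) (node 495 (merge (leaf 1 493 526) (node 493 (merge (leaf 1 492 524) (node 461 (merge (leaf 3 460 460) (leaf 3 461 462))))))))) (merge (node 557 (merge (node 526 (merge (leaf 6 493 621) (node 462 (merge (leaf 5 429 430) (leaf 5 461 558))))) (merge (node 462 (merge (leaf 6 461 493) (node 526 (merge (leaf 5 429 430) (leaf 5 461 558))))) (merge (node 493 (merge (leaf 6 461 462) (node 622 (merge (leaf 4 493 590) (node 621 (merge (leaf 4 525 654) (node 620 (merge (leaf 5 492 588) (leaf 5 524 652))))))))) (node 621 (merge (leaf 6 493 526) (node 622 (merge (leaf 4 525 654) (node 493 (merge (leaf 4 493 590) (node 620 (merge (leaf 5 492 588) (leaf 5 524 652))))))))))))) (merge (node 497 (merge (leaf 6 464 465) (node 526 (merge (leaf 1 493 495) (node 621 (merge (leaf 6 493 557) (node 590 (merge (leaf 5 493 558) (node 591 (merge (leaf 2 557 561) (leaf 1 588 620))))))))))) (node 465 (merge (leaf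 6 464 497) (node 464 (merge (leaf 6 432 433) (node 493 (merge (leaf 2 461 495) (node 557 (merge (leaf 6 461 462) (node 492 (merge (leaf 7 460 460) (node 621 (merge (leaf 7 492 524) (node 620 (merge (leaf 5 492 588) (leaf 5 524 652))))))))))))))))))) (node 557 (merge (node 493 (merge (node 494 (merge (leaf 6 461 462) (node 497 (merge (leaf 6 464 465) (node 495 (merge (leaf 1 492 524) (leaf 1 493 526))))))) (node 590 (merge (leaf 4 493 622) (node 461 (merge (leaf 4 461 558) (node 588 (merge (leaf 5 460 556) (leaf 5 492 620))))))))) (merge (node 493 (merge (node 461 (merge (node 588 (merge (leaf 5 460 556) (leaf 5 492 620))) (node 462 (merge (leaf 6 429 430) (leaf 6 461 494))))) (merge (node 492 (merge (leaf 7 460 460) (node 621 (merge (leaf 7 492 524) (node 620 (merge (leaf 5 492 588) (leaf 5 524 652))))))) (node 494 (merge (leaf 6 461 462) (node 460 (merge (leaf 7 460 492) (node 461 (merge (leaf 7 428 428) (leaf 3 460 495)))))))))) (merge (node 622 (merge (node 590 (merge (leaf 4 493 493) (node 654 (merge (leaf 7 525 558) (leaf 7 557 686))))) (merge (node 465 (merge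 (leaf 6 464 497) (node 464 (merge (leaf 6 432 433) (node 493 (merge (leaf 4 493 590) (node 494 (merge (leaf 6 461 462) (leaf 2 461 495))))))))) (node 621 (merge (leaf 4 525 654) (node 526 (merge (leaf 6 493 494) (node 653 (merge (leaf 6 525 558) (node 524 (merge (leaf 7 492 492) (leaf 7 524 556)))))))))))) (merge (node 493 (merge (node 622 (merge (leaf 4 493 590) (node 621 (merge (leaf 4 525 654) (node 620 (merge (leaf 5 492 588) (leaf 5 524 652))))))) (node 465 (merge (leaf 6 464 497) (node 464 (merge (leaf 6 432 433) (node 494 (merge (leaf 2 461 495) (node 462 (merge (leaf 6 461 589) (node 430 (merge (leaf 5 397 398) (leaf 6 429 461))))))))))))) (node 621 (merge (node 654 (merge (leaf 4 525 622) (node 653 (merge (leaf 4 557 686) (node 652 (merge (leaf 5 524 620) (leaf 5 556 684))))))) (merge (node 524 (merge (leaf 7 492 492) (node 653 (merge (leaf 7 524 556) (node 654 (merge (leaf 4 525 622) (leaf 4 557 686))))))) (merge (node 524 (merge (leaf 7 492 492) (node 653 (merge (leaf 7 524 556) (node 652 (merge (leaf 5 524 620) (leaf 5 556 684))))))) (node 588 (merge (node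 622 (merge (leaf 4 525 654) (node 587 (merge (leaf 0 586 586) (node 623 (merge (leaf 0 587 590) (leaf 3 588 624))))))) (merge (node 622 (merge (leaf 4 525 654) (node 623 (merge (leaf 3 588 624) (node 620 (merge (leaf 3 587 587) (leaf 5 524 652))))))) (node 620 (merge (leaf 5 524 652) (node 619 (merge (node 618 (merge (leaf 2 586 590) (leaf 2 585 617))) (node 524 (merge (leaf 7 492 492) (node 556 (merge (leaf 5 523 651) (node 523 (merge (leaf 7 491 491) (node 522 (merge (leaf 0 521 521) (leaf 0 522 558))))))))))))))))))))))))))))))) (node 589 (merge (node 591 (merge (leaf 5 495 623) (node 590 (merge (leaf 2 557 561) (node 557 (merge (leaf 3 556 556) (node 622 (merge (leaf 4 493 493) (node 654 (merge (leaf 7 525 558) (leaf 7 557 686))))))))))) (merge (node 591 (merge (leaf 5 495 623) (node 590 (merge (leaf 2 557 561) (node 620 (merge (leaf 1 588 621) (node 588 (merge (leaf 1 587 619) (node 556 (merge (leaf 3 555 555) (leaf 3 556 557))))))))))) (merge (node 623 (merge (leaf 5 495 591) (node 624 (merge (leaf 5 527 655) (node 625 (merge (leaf 4 528 657) (node 622 (merge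 (leaf 3 589 590) (node 653 (merge (leaf 1 621 654) (node 621 (merge (leaf 3 588 588) (leaf 1 620 652))))))))))))) (merge (node 623 (merge (leaf 5 495 591) (node 621 (merge (node 624 (merge (leaf 5 527 655) (node 657 (merge (leaf 4 528 625) (node 656 (merge (leaf 0 621 622) (leaf 4 560 689))))))) (node 557 (merge (node 524 (merge (leaf 7 492 492) (node 653 (merge (leaf 7 524 556) (node 652 (merge (leaf 5 524 620) (leaf 5 556 684))))))) (merge (node 494 (merge (leaf 6 493 526) (node 493 (merge (leaf 6 461 462) (node 492 (merge (leaf 7 460 460) (leaf 7 492 524))))))) (node 526 (merge (leaf 6 493 494) (node 653 (merge (leaf 6 525 558) (node 652 (merge (leaf 5 524 620) (leaf 5 556 684)))))))))))))) (merge (node 493 (merge (node 557 (merge (node 590 (merge (leaf 4 493 622) (node 591 (merge (leaf 3 556 556) (leaf 2 557 561))))) (node 492 (merge (leaf 7 460 460) (node 621 (merge (leaf 7 492 524) (node 620 (merge (leaf 5 492 588) (leaf 5 524 652))))))))) (merge (node 465 (merge (leaf 6 464 497) (node 464 (merge (leaf 6 432 433) (node 463 (merge (leaf 7 431 431) (node 462 (merge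 (leaf 1 461 494) (node 461 (merge (leaf 1 460 492) (node 429 (merge (leaf 3 428 428) (leaf 3 429 430))))))))))))) (node 465 (merge (leaf 6 464 497) (node 464 (merge (leaf 6 432 433) (node 463 (merge (leaf 7 431 431) (node 462 (merge (leaf 1 461 494) (node 430 (merge (leaf 3 429 429) (node 557 (merge (leaf 6 429 461) (node 590 (merge (leaf 4 493 622) (node 591 (merge (leaf 3 556 556) (leaf 2 557 561)))))))))))))))))))) (node 557 (merge (node 494 (merge (node 526 (merge (leaf 6 493 621) (node 462 (merge (leaf 5 429 430) (leaf 5 461 558))))) (merge (node 462 (merge (leaf 6 461 493) (node 526 (merge (leaf 5 429 430) (leaf 5 461 558))))) (merge (node 493 (merge (leaf 6 461 462) (node 622 (merge (leaf 4 493 590) (node 621 (merge (leaf 4 525 654) (node 620 (merge (leaf 5 492 588) (leaf 5 524 652))))))))) (node 621 (merge (leaf 6 493 526) (node 622 (merge (leaf 4 525 654) (node 493 (merge (leaf 4 493 590) (node 620 (merge (leaf 5 492 588) (leaf 5 524 652))))))))))))) (merge (node 493 (merge (node 492 (merge (leaf 7 460 460) (node 621 (merge (leaf 7 492 524) (node 620 (merge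 (leaf 5 492 588) (leaf 5 524 652))))))) (merge (node 462 (merge (leaf 6 461 494) (node 461 (merge (leaf 6 429 430) (node 588 (merge (leaf 5 460 556) (leaf 5 492 620))))))) (node 462 (merge (leaf 6 461 494) (node 461 (merge (leaf 6 429 430) (node 460 (merge (leaf 7 428 428) (leaf 7 460 492)))))))))) (merge (node 464 (merge (node 465 (merge (leaf 6 432 433) (leaf 6 464 497))) (merge (node 433 (merge (leaf 6 432 465) (node 432 (merge (leaf 6 400 401) (node 431 (merge (leaf 7 399 399) (leaf 7 431 463))))))) (node 462 (merge (node 494 (merge (leaf 6 461 493) (node 526 (merge (leaf 5 429 430) (leaf 5 461 558))))) (node 463 (merge (leaf 7 431 431) (node 461 (merge (leaf 0 461 497) (node 428 (merge (leaf 3 428 429) (node 460 (merge (leaf 3 427 427) (node 492 (merge (leaf 1 459 491) (leaf 4 428 524)))))))))))))))) (node 621 (merge (node 654 (merge (leaf 4 525 622) (node 653 (merge (leaf 4 557 686) (node 652 (merge (leaf 5 524 620) (leaf 5 556 684))))))) (merge (node 524 (merge (leaf 7 492 492) (node 653 (merge (leaf 7 524 556) (node 654 (merge (leaf 4 525 622) (leaf 4 557 686)))))))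 (merge (node 524 (merge (leaf 7 492 492) (node 653 (merge (leaf 7 524 556) (node 652 (merge (leaf 5 524 620) (leaf 5 556 684))))))) (node 588 (merge (node 622 (merge (leaf 4 525 654) (node 587 (merge (leaf 0 586 586) (node 623 (merge (leaf 0 587 590) (leaf 3 588 624))))))) (merge (node 622 (merge (leaf 4 525 654) (node 623 (merge (leaf 3 588 624) (node 620 (merge (leaf 3 587 587) (leaf 5 524 652))))))) (node 620 (merge (leaf 5 524 652) (node 619 (merge (node 618 (merge (leaf 2 586 590) (leaf 2 585 617))) (node 524 (merge (leaf 7 492 492) (node 556 (merge (leaf 5 523 651) (node 523 (merge (leaf 7 491 491) (node 522 (merge (leaf 0 521 521) (leaf 0 522 558)))))))))))))))))))))))))))))))))))) nP_54 cP_54 12 (by decide +kernel)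

end Crest.Agent.H26Snaky
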