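import Crest.Agent.H26SnP003

/-! certificate data for S0047, part P 4 (computer generated) -/

set_option autoImplicit false
set_option maxRecDepth 100000

namespace Crest.Agent.H26Snaky

open T

def nP_55 : ℕ := 0x10000000100000001200000008000000000000000000000000000000000000000000000000000000000000000000000000000000000000000000000000000000000000000000000000000
def cP_55 : ℕ := 0x40000002f0000003f8000003fe000000fc000002780000001e00000378000003f0000002d00000000000000000000000000000000000000000000000000000000000000000000000000000000000000000000000000000000000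
theorem lP_55 : S nP_55 cP_55 13 := S_of_chk [] trivial (node 589 (merge (node 496 (merge (leaf 7 463 463) (node 465 (merge (leaf 6 464 497) (node 464 (merge (leaf 6 432 433) (node 493 (merge (leaf 2 461 494) (node 591 (merge (leaf 5 495 623) (node 590 (merge (leaf 2 557 561) (node 557 (merge (leaf 3 556 556) (leaf 4 493 622))))))))))))))) (merge (node 590 (merge (node 591 (merge (leaf 2 557 561) (node 620 (merge (leaf 1 588 621) (node 588 (merge (leaf 1 587 619) (node 556 (merge (leaf 3 555 555) (leaf 3 556 557))))))))) (merge (node 496 (merge (leaf 7 463 463) (node 591 (merge (leaf 2 557 561) (node 557 (merge (leaf 3 556 556) (node 493 (merge (leaf 4 493 622) (node 494 (merge (leaf 6 461 462) (leaf 1 492 524))))))))))) (merge (node 496 (merge (leaf 7 463 463) (node 465 (merge (leaf 6 464 497) (node 464 (merge (leaf 6 432 433) (node 493 (merge (leaf 2 461 494) (node 557 (merge (leaf 4 493 622) (node 461 (merge (leaf 4 461 558) (node 588 (merge (leaf 5 460 556) (leaf 5 492 620))))))))))))))) (merge (node 496 (merge (leaf 7 463 463) (node 465 (merge (leaf 6 464 497)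 (node 464 (merge (leaf 6 432 433) (node 493 (merge (leaf 2 461 494) (node 591 (merge (leaf 2 557 561) (node 620 (merge (leaf 1 588 621) (node 588 (merge (leaf 1 587 619) (node 556 (merge (leaf 6 492 524) (leaf 3 555 555))))))))))))))))) (node 496 (merge (leaf 7 463 463) (node 465 (merge (leaf 6 464 497) (node 464 (merge (leaf 6 432 433) (node 493 (merge (leaf 2 461 494) (node 591 (merge (leaf 2 557 561) (node 620 (merge (leaf 1 588 621) (node 588 (merge (leaf 5 492 557) (leaf 1 587 619)))))))))))))))))))) (merge (node 591 (merge (node 623 (merge (leaf 5 495 496) (node 655 (merge (leaf 5 527 624) (leaf 6 559 687))))) (node 590 (merge (leaf 2 557 561) (node 620 (merge (leaf 1 588 621) (node 588 (merge (leaf 1 587 619) (node 556 (merge (leaf 3 555 555) (leaf 3 556 557))))))))))) (merge (node 496 (merge (leaf 7 463 463) (node 623 (merge (leaf 5 495 591) (node 624 (merge (leaf 5 527 655) (node 625 (merge (leaf 4 528 657) (node 622 (merge (leaf 3 589 590) (node 653 (merge (leaf 1 621 654) (node 621 (merge (leaf 3 588 588) (leaf 1 620 652))))))))))))))) (merge (node 557 (merge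 (node 496 (merge (leaf 7 463 463) (node 465 (merge (leaf 6 464 497) (node 464 (merge (leaf 6 432 433) (node 493 (merge (leaf 2 461 494) (node 460 (merge (leaf 7 460 492) (node 461 (merge (leaf 7 428 428) (node 588 (merge (leaf 5 460 556) (leaf 5 492 620))))))))))))))) (merge (node 496 (merge (leaf 7 463 463) (node 465 (merge (leaf 6 464 497) (node 464 (merge (leaf 6 432 433) (node 493 (merge (leaf 2 461 494) (node 492 (merge (leaf 7 460 460) (node 621 (merge (leaf 7 492 524) (node 623 (merge (leaf 5 495 591) (node 624 (merge (leaf 5 527 655) (node 657 (merge (leaf 4 528 625) (node 656 (merge (leaf 0 621 622) (leaf 4 560 689))))))))))))))))))))) (merge (node 496 (merge (leaf 7 463 463) (node 465 (merge (leaf 6 464 497) (node 464 (merge (leaf 6 432 433) (node 493 (merge (leaf 2 461 494) (node 620 (merge (leaf 5 492 588) (node 623 (merge (leaf 5 495 591) (node 621 (merge (leaf 5 524 652) (node 624 (merge (leaf 5 527 655) (node 657 (merge (leaf 4 528 625) (node 656 (merge (leaf 0 621 622) (leaf 4 560 689))))))))))))))))))))) (merge (node 496 (merge (leaf 7 463 463) (node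 623 (merge (leaf 5 495 591) (node 624 (merge (leaf 5 527 655) (node 657 (merge (leaf 4 528 625) (node 656 (merge (leaf 4 560 689) (node 621 (merge (leaf 0 621 622) (node 524 (merge (leaf 7 492 492) (node 653 (merge (leaf 7 524 556) (node 652 (merge (leaf 5 524 620) (leaf 5 556 684))))))))))))))))))) (node 620 (merge (node 493 (merge (leaf 5 492 588) (node 462 (merge (leaf 6 461 494) (node 461 (merge (leaf 6 429 430) (node 460 (merge (leaf 7 428 428) (leaf 7 460 492))))))))) (node 621 (merge (leaf 5 524 652) (node 622 (merge (leaf 4 525 654) (node 623 (merge (leaf 2 588 591) (node 655 (merge (leaf 5 527 624) (leaf 0 620 656)))))))))))))))) (merge (node 557 (merge (node 493 (merge (node 590 (merge (leaf 4 493 622) (node 591 (merge (leaf 3 556 556) (leaf 2 557 561))))) (node 462 (merge (leaf 6 461 494) (node 461 (merge (leaf 6 429 430) (node 460 (merge (leaf 7 428 428) (leaf 7 460 492))))))))) (merge (node 590 (merge (node 622 (merge (leaf 4 493 493) (node 654 (merge (leaf 4 525 621) (leaf 7 557 686))))) (node 591 (merge (leaf 2 557 561) (node 624 (merge (leaf 0 589 625)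 (node 623 (merge (leaf 0 588 588) (leaf 5 527 655))))))))) (merge (node 620 (merge (node 493 (merge (leaf 5 492 588) (node 462 (merge (leaf 6 461 494) (node 461 (merge (leaf 6 429 430) (node 460 (merge (leaf 7 428 428) (leaf 7 460 492))))))))) (node 621 (merge (leaf 5 524 652) (node 622 (merge (leaf 4 525 654) (node 623 (merge (leaf 2 588 591) (node 655 (merge (leaf 5 527 624) (leaf 0 620 656))))))))))) (merge (node 622 (merge (node 654 (merge (leaf 4 525 621) (node 590 (merge (leaf 7 525 558) (leaf 7 557 686))))) (merge (node 621 (merge (leaf 4 525 654) (node 492 (merge (leaf 7 492 524) (node 493 (merge (leaf 7 460 460) (node 620 (merge (leaf 5 492 588) (leaf 5 524 652))))))))) (node 493 (merge (leaf 4 493 590) (node 460 (merge (leaf 7 460 492) (node 461 (merge (leaf 7 428 428) (node 588 (merge (leaf 5 460 556) (leaf 5 492 620)))))))))))) (merge (node 621 (merge (node 622 (merge (leaf 4 525 654) (node 620 (merge (leaf 5 524 652) (node 591 (merge (leaf 1 588 590) (leaf 2 588 623))))))) (merge (node 524 (merge (leaf 7 492 492) (node 653 (merge (leaf 7 524 556) (node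 654 (merge (leaf 4 525 622) (leaf 4 557 686))))))) (node 524 (merge (leaf 7 492 492) (node 653 (merge (leaf 7 524 556) (node 652 (merge (leaf 5 524 620) (leaf 5 556 684)))))))))) (node 620 (merge (node 588 (merge (leaf 5 492 493) (node 652 (merge (leaf 6 524 556) (leaf 6 556 684))))) (merge (node 493 (merge (leaf 5 492 588) (node 462 (merge (leaf 6 461 494) (node 461 (merge (leaf 6 429 430) (node 460 (merge (leaf 7 428 428) (leaf 7 460 492))))))))) (node 621 (merge (leaf 5 524 652) (node 524 (merge (leaf 7 492 492) (node 653 (merge (leaf 7 524 556) (node 590 (merge (leaf 1 588 591) (node 685 (merge (leaf 6 557 558) (node 686 (merge (leaf 4 557 654) (leaf 4 589 718)))))))))))))))))))))) (node 557 (merge (node 496 (merge (leaf 7 463 463) (node 465 (merge (leaf 6 464 497) (node 464 (merge (leaf 6 432 433) (node 493 (merge (leaf 2 461 494) (node 460 (merge (leaf 7 460 492) (node 461 (merge (leaf 7 428 428) (node 590 (merge (leaf 4 461 558) (leaf 4 493 622))))))))))))))) (merge (node 492 (merge (node 460 (merge (leaf 7 460 493) (node 524 (merge (leaf 4 428 428) (leaf 4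 460 556))))) (merge (node 493 (merge (leaf 7 460 460) (node 622 (merge (leaf 4 493 590) (node 621 (merge (leaf 4 525 654) (node 620 (merge (leaf 5 492 588) (leaf 5 524 652))))))))) (node 621 (merge (leaf 7 492 524) (node 654 (merge (leaf 4 525 622) (node 653 (merge (leaf 4 557 686) (node 652 (merge (leaf 5 524 620) (leaf 5 556 684)))))))))))) (merge (node 496 (merge (leaf 7 463 463) (node 465 (merge (leaf 6 464 497) (node 464 (merge (leaf 6 432 433) (node 493 (merge (leaf 2 461 494) (node 590 (merge (leaf 4 493 622) (node 461 (merge (leaf 4 461 558) (node 588 (merge (leaf 5 460 556) (leaf 5 492 620))))))))))))))) (merge (node 496 (merge (leaf 7 463 463) (node 465 (merge (leaf 6 464 497) (node 464 (merge (leaf 6 432 433) (node 493 (merge (leaf 2 461 494) (node 460 (merge (leaf 7 460 492) (node 461 (merge (leaf 7 428 428) (node 588 (merge (leaf 5 460 556) (leaf 5 492 620))))))))))))))) (node 496 (merge (node 465 (merge (leaf 6 464 497) (node 464 (merge (leaf 6 432 433) (node 463 (merge (leaf 7 431 431) (leaf 7 463 495))))))) (node 621 (merge (node 654 (merge (leaf 4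 525 622) (node 653 (merge (leaf 4 557 686) (node 652 (merge (leaf 5 524 620) (leaf 5 556 684))))))) (merge (node 524 (merge (leaf 7 492 492) (node 653 (merge (leaf 7 524 556) (node 654 (merge (leaf 4 525 622) (leaf 4 557 686))))))) (merge (node 524 (merge (leaf 7 492 492) (node 653 (merge (leaf 7 524 556) (node 652 (merge (leaf 5 524 620) (leaf 5 556 684))))))) (node 588 (merge (node 622 (merge (leaf 4 525 654) (node 587 (merge (leaf 0 586 586) (node 623 (merge (leaf 0 587 590) (leaf 3 588 624))))))) (merge (node 622 (merge (leaf 4 525 654) (node 623 (merge (leaf 3 588 624) (node 620 (merge (leaf 3 587 587) (leaf 5 524 652))))))) (node 620 (merge (leaf 5 524 652) (node 619 (merge (node 618 (merge (leaf 2 586 590) (leaf 2 585 617))) (node 524 (merge (leaf 7 492 492) (node 556 (merge (leaf 5 523 651) (node 523 (merge (leaf 7 491 491) (node 522 (merge (leaf 0 521 521) (leaf 0 522 558)))))))))))))))))))))))))))))))))) nP_55 cP_55 13 (by decide +kernel)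
def nP_56 : ℕ := 0x10000000100000001200000002000000000000000000000000000000000000000000000000000000000000000000000000000000000000000000000000000000000000000000000000000
def cP_56 : ℕ := 0x2c0000003f0000003f0000000f000000278000000d80000034f000003fe000003ff0000007400000054000000000000000000000000000000000000000000000000000000000000000000000000000000000000000000
theorem lP_56 : S nP_56 cP_56 14 := S_of_chk [] trivial (node 526 (merge (node 591 (merge (node 623 (merge (leaf 5 495 496) (node 655 (merge (leaf 5 527 624) (leaf 6 559 687))))) (node 561 (merge (leaf 0 525 527) (node 590 (merge (leaf 2 557 589) (node 558 (merge (leaf 7 493 622) (node 461 (merge (leaf 4 429 429) (leaf 7 461 494))))))))))) (merge (node 461 (merge (node 558 (merge (leaf 4 429 429) (node 590 (merge (leaf 7 461 494) (leaf 7 493 622))))) (merge (node 558 (merge (leaf 4 429 429) (node 590 (merge (leaf 4 461 557) (leaf 7 493 622))))) (merge (node 429 (merge (node 398 (merge (leaf 6 397 430) (node 397 (merge (leaf 6 365 366) (leaf 4 397 494))))) (merge (node 396 (merge (leaf 7 396 428) (node 397 (merge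 (leaf 7 364 364) (leaf 4 397 494))))) (node 430 (merge (leaf 6 397 398) (node 557 (merge (leaf 6 429 462) (node 428 (merge (leaf 7 396 396) (leaf 7 428 460)))))))))) (node 557 (merge (node 556 (merge (leaf 1 524 527) (leaf 5 460 588))) (node 462 (merge (leaf 6 429 430) (node 589 (merge (leaf 6 461 494) (node 590 (merge (leaf 4 461 558) (leaf 4 493 622))))))))))))) (merge (node 527 (merge (leaf 0 525 561) (node 557 (merge (leaf 1 524 556) (node 496 (merge (leaf 2 493 497) (node 623 (merge (leaf 5 495 591) (node 624 (merge (leaf 5 527 655) (node 657 (merge (leaf 4 528 625) (node 656 (merge (leaf 4 560 689) (node 622 (merge (leaf 0 621 621) (node 590 (merge (leaf 7 493 558) (leaf 4 493 589))))))))))))))))))) (merge (node 557 (merge (node 527 (merge (leaf 1 524 556) (leaf 0 525 561))) (merge (node 462 (merge (node 494 (merge (leaf 5 429 430) (node 589 (merge (leaf 6 461 493) (leaf 6 493 621))))) (merge (node 589 (merge (leaf 6 461 494) (node 590 (merge (leaf 4 493 622) (node 591 (merge (leaf 3 556 556) (leaf 2 557 561))))))) (node 461 (merge (leaf 6 429 430) (node 428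 (merge (leaf 7 428 460) (node 429 (merge (leaf 7 396 396) (node 556 (merge (leaf 5 428 524) (leaf 5 460 588)))))))))))) (merge (node 527 (merge (leaf 1 524 556) (node 496 (merge (leaf 2 493 497) (node 623 (merge (leaf 5 495 591) (node 624 (merge (leaf 5 527 655) (node 657 (merge (leaf 4 528 625) (node 656 (merge (leaf 4 560 689) (node 621 (merge (leaf 0 621 622) (node 589 (merge (leaf 6 493 494) (node 620 (merge (leaf 5 492 588) (leaf 5 524 652))))))))))))))))))) (node 527 (merge (leaf 0 525 561) (node 496 (merge (leaf 2 493 497) (node 623 (merge (leaf 5 495 591) (node 624 (merge (leaf 5 527 655) (node 657 (merge (leaf 4 528 625) (node 656 (merge (leaf 4 560 689) (node 621 (merge (leaf 0 621 622) (node 589 (merge (leaf 6 493 494) (node 620 (merge (leaf 5 492 588) (leaf 5 524 652))))))))))))))))))))))) (merge (node 461 (merge (node 558 (merge (leaf 4 429 429) (node 590 (merge (leaf 7 461 494) (leaf 4 461 557))))) (merge (node 527 (merge (leaf 0 525 561) (node 556 (merge (leaf 1 524 557) (node 524 (merge (leaf 5 428 429) (leaf 1 523 555))))))) (merge (node 429 (merge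 (leaf 4 429 558) (node 398 (merge (leaf 6 397 430) (node 397 (merge (leaf 6 365 366) (node 396 (merge (leaf 7 364 364) (leaf 7 396 428))))))))) (node 527 (merge (leaf 0 525 561) (node 557 (merge (leaf 1 524 556) (node 462 (merge (leaf 6 429 430) (node 589 (merge (leaf 6 461 494) (node 590 (merge (leaf 4 461 558) (node 620 (merge (leaf 5 492 588) (node 621 (merge (leaf 1 588 591) (leaf 5 524 652))))))))))))))))))) (merge (node 461 (merge (node 558 (merge (leaf 4 429 429) (node 590 (merge (leaf 4 461 557) (leaf 7 493 622))))) (merge (node 558 (merge (leaf 4 429 429) (node 590 (merge (leaf 7 461 494) (leaf 7 493 622))))) (merge (node 429 (merge (node 398 (merge (leaf 6 397 430) (node 397 (merge (leaf 6 365 366) (leaf 4 397 494))))) (merge (node 396 (merge (leaf 7 396 428) (node 397 (merge (leaf 7 364 364) (leaf 4 397 494))))) (node 430 (merge (leaf 6 397 398) (node 557 (merge (leaf 6 429 462) (node 428 (merge (leaf 7 396 396) (leaf 7 428 460)))))))))) (node 624 (merge (node 657 (merge (leaf 4 528 625) (node 656 (merge (leaf 4 560 689) (node 655 (merge (leaf 5 527 623)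 (leaf 5 559 687))))))) (merge (node 590 (merge (node 558 (merge (leaf 7 461 494) (leaf 4 461 557))) (merge (node 558 (merge (leaf 7 461 494) (leaf 7 493 622))) (node 625 (merge (leaf 4 528 657) (node 589 (merge (leaf 0 589 591) (node 557 (merge (leaf 4 493 622) (node 588 (merge (leaf 5 460 556) (leaf 5 492 620)))))))))))) (node 623 (merge (leaf 5 527 655) (node 496 (merge (leaf 5 495 591) (node 465 (merge (leaf 6 464 497) (node 464 (merge (leaf 6 432 433) (node 463 (merge (leaf 7 431 431) (node 462 (merge (leaf 1 461 494) (node 557 (merge (leaf 6 429 430) (node 590 (merge (leaf 4 461 558) (node 589 (merge (leaf 4 493 622) (node 588 (merge (leaf 5 460 556) (leaf 5 492 620)))))))))))))))))))))))))))) (merge (node 461 (merge (node 527 (merge (leaf 0 525 561) (node 556 (merge (leaf 1 524 557) (node 524 (merge (leaf 5 428 429) (leaf 1 523 555))))))) (merge (node 429 (merge (node 398 (merge (leaf 6 397 430) (node 397 (merge (leaf 6 365 366) (leaf 4 397 494))))) (merge (node 396 (merge (leaf 7 396 428) (node 397 (merge (leaf 7 364 364) (leaf 4 397 494))))) (node 430 (merge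 (leaf 6 397 398) (node 557 (merge (leaf 6 429 462) (node 428 (merge (leaf 7 396 396) (leaf 7 428 460)))))))))) (merge (node 429 (merge (leaf 4 429 558) (node 398 (merge (leaf 6 397 430) (node 397 (merge (leaf 6 365 366) (node 396 (merge (leaf 7 364 364) (leaf 7 396 428))))))))) (node 527 (merge (leaf 0 525 561) (node 557 (merge (leaf 1 524 556) (node 462 (merge (leaf 6 429 430) (node 589 (merge (leaf 6 461 494) (node 620 (merge (leaf 5 492 588) (node 621 (merge (leaf 5 524 652) (node 653 (merge (leaf 6 525 558) (node 654 (merge (leaf 4 525 622) (leaf 4 557 686))))))))))))))))))))) (node 461 (merge (node 558 (merge (leaf 4 429 429) (node 590 (merge (leaf 7 461 494) (leaf 7 493 622))))) (merge (node 527 (merge (leaf 0 525 561) (node 556 (merge (leaf 1 524 557) (node 524 (merge (leaf 5 428 429) (leaf 1 523 555))))))) (node 460 (merge (node 527 (merge (leaf 0 525 561) (node 557 (merge (leaf 7 428 428) (leaf 1 524 556))))) (merge (node 462 (merge (node 430 (merge (leaf 6 429 557) (node 398 (merge (leaf 5 365 366) (leaf 5 397 494))))) (merge (node 428 (merge (leaf 7 428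 557) (node 427 (merge (leaf 3 427 463) (node 426 (merge (leaf 0 425 425) (leaf 3 426 459))))))) (node 459 (merge (node 430 (merge (leaf 2 427 431) (node 398 (merge (leaf 5 365 366) (leaf 5 397 494))))) (node 490 (merge (leaf 1 458 491) (node 458 (merge (leaf 1 457 489) (node 426 (merge (leaf 3 425 425) (leaf 3 426 427)))))))))))) (merge (node 462 (merge (node 557 (merge (leaf 6 429 430) (node 527 (merge (leaf 1 524 556) (leaf 0 525 561))))) (merge (node 459 (merge (node 430 (merge (leaf 2 427 431) (node 398 (merge (leaf 5 365 366) (leaf 5 397 494))))) (node 490 (merge (leaf 1 458 491) (node 458 (merge (leaf 1 457 489) (node 426 (merge (leaf 3 425 425) (leaf 3 426 427))))))))) (node 459 (merge (node 458 (merge (leaf 0 458 494) (node 490 (merge (leaf 1 457 489) (leaf 1 458 491))))) (merge (node 458 (merge (leaf 0 458 494) (node 426 (merge (leaf 3 425 425) (leaf 3 426 427))))) (node 527 (merge (leaf 0 525 561) (node 491 (merge (leaf 1 458 490) (node 556 (merge (leaf 1 524 557) (node 524 (merge (leaf 1 523 555) (node 427 (merge (leaf 3 426 426) (leaf 4 427 523)))))))))))))))))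 (node 459 (merge (node 458 (merge (leaf 0 458 494) (node 490 (merge (leaf 1 457 489) (node 462 (merge (leaf 1 458 491) (node 426 (merge (leaf 3 425 425) (leaf 3 426 427))))))))) (merge (node 458 (merge (leaf 0 458 494) (node 489 (merge (leaf 1 457 490) (node 457 (merge (leaf 1 456 488) (node 425 (merge (leaf 3 424 424) (leaf 3 425 426))))))))) (merge (node 462 (merge (node 430 (merge (leaf 2 427 431) (node 398 (merge (leaf 5 365 366) (leaf 5 397 494))))) (node 491 (merge (leaf 1 458 490) (node 427 (merge (leaf 3 426 426) (node 428 (merge (leaf 3 427 463) (node 396 (merge (leaf 4 364 364) (leaf 6 395 523))))))))))) (merge (node 458 (merge (leaf 0 458 494) (node 527 (merge (leaf 0 525 561) (node 496 (merge (leaf 2 493 497) (node 426 (merge (leaf 3 425 425) (node 462 (merge (leaf 3 426 427) (node 431 (merge (leaf 2 427 430) (node 463 (merge (leaf 2 428 432) (leaf 7 431 464))))))))))))))) (merge (node 458 (merge (leaf 0 458 494) (node 527 (merge (leaf 0 525 561) (node 490 (merge (leaf 1 457 489) (node 462 (merge (leaf 1 458 491) (node 431 (merge (leaf 2 427 430) (node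 463 (merge (leaf 2 428 432) (node 496 (merge (leaf 7 431 464) (leaf 2 493 497))))))))))))))) (node 426 (merge (node 425 (merge (leaf 3 425 458) (node 427 (merge (leaf 0 424 424) (leaf 0 425 428))))) (merge (node 458 (merge (leaf 3 425 425) (node 490 (merge (leaf 1 457 489) (node 491 (merge (leaf 1 458 462) (node 394 (merge (leaf 4 362 362) (leaf 4 394 523))))))))) (node 527 (merge (leaf 0 525 561) (node 496 (merge (leaf 2 493 497) (node 462 (merge (leaf 3 426 427) (node 431 (merge (leaf 2 427 430) (node 463 (merge (leaf 2 428 432) (leaf 7 431 464))))))))))))))))))))))))))))))))))) nP_56 cP_56 14 (by decide +kernel)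
def nP_57 : ℕ := 0x10000000100000001200000000000000000000000000000000000000000000000000000000000000000000000000000000000000000000000000000000000000000000000000000000000
def cP_57 : ℕ := 0x8000000380000003c000001ff400000ffc00001cfc0000027c000000df0000037f000003fe000007ff000000f400000054000000000000000000000000000000000000000000000000000000000000000000000000000000000000000000
theorem lP_57 : S nP_57 cP_57 16 := S_of_chk [(nP_56, cP_56, 14)] ⟨lP_56, trivial⟩ (node 493 (merge (node 591 (merge (node 623 (merge (leaf 5 495 496) (node 655 (merge (leaf 5 527 624) (leaf 6 559 687))))) (node 589 (merge (node 590 (merge (leaf 2 557 561) (node 557 (merge (leaf 3 556 556) (leaf 4 493 622))))) (merge (node 590 (merge (leaf 2 557 561) (node 620 (merge (leaf 1 588 621) (node 588 (merge (leaf 5 492 557) (leaf 1 587 619))))))) (merge (node 590 (merge (leaf 2 557 561) (node 620 (merge (leaf 1 588 621) (node 588 (merge (leaf 1 587 619) (node 556 (merge (leaf 6 492 524) (leaf 3 555 555))))))))) (node 557 (merge (node 462 (merge (leaf 6 461 494) (node 461 (merge (leaf 6 429 430) (node 588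 (merge (leaf 5 460 556) (leaf 5 492 620))))))) (merge (node 462 (merge (leaf 6 461 494) (node 461 (merge (leaf 6 429 430) (node 460 (merge (leaf 7 428 428) (leaf 7 460 492))))))) (node 492 (merge (leaf 7 460 460) (node 621 (merge (leaf 7 492 524) (node 620 (merge (leaf 5 492 588) (leaf 5 524 652)))))))))))))))) (merge (node 623 (merge (node 591 (merge (leaf 5 495 496) (node 655 (merge (leaf 5 527 624) (leaf 6 559 687))))) (merge (node 526 (merge (node 527 (merge (leaf 3 492 492) (leaf 0 525 561))) (merge (node 496 (merge (leaf 5 495 591) (node 497 (merge (leaf 6 464 465) (leaf 2 493 527))))) (node 591 (merge (leaf 5 495 496) (node 590 (merge (node 589 (merge (leaf 2 557 561) (node 557 (merge (leaf 3 556 556) (leaf 4 493 622))))) (merge (node 558 (merge (leaf 4 494 494) (node 622 (merge (leaf 7 493 493) (node 621 (merge (leaf 2 588 620) (leaf 5 525 653))))))) (node 589 (merge (leaf 2 557 561) (node 621 (merge (leaf 1 588 620) (node 557 (merge (leaf 6 493 494) (leaf 3 556 556))))))))))))))) (node 624 (merge (leaf 5 527 655) (node 622 (merge (node 657 (merge (leaf 4 528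 625) (node 656 (merge (leaf 0 621 621) (leaf 4 560 689))))) (merge (node 625 (merge (leaf 4 528 657) (node 590 (merge (leaf 3 589 589) (node 526 (merge (leaf 7 493 558) (node 527 (merge (leaf 3 492 492) (leaf 0 525 561))))))))) (node 590 (merge (node 589 (merge (leaf 4 493 557) (node 588 (merge (leaf 0 587 587) (leaf 3 588 621))))) (node 526 (merge (leaf 7 493 558) (node 527 (merge (leaf 3 492 492) (leaf 0 525 561))))))))))))))) (merge (node 526 (merge (node 527 (merge (leaf 3 492 492) (leaf 0 525 561))) (merge (node 461 (merge (node 558 (merge (leaf 4 429 429) (node 590 (merge (leaf 7 461 494) (leaf 7 493 622))))) (merge (node 558 (merge (leaf 4 429 429) (node 590 (merge (leaf 4 461 557) (leaf 7 493 622))))) (merge (node 429 (merge (node 398 (merge (leaf 6 397 430) (node 397 (merge (leaf 6 365 366) (leaf 4 397 494))))) (merge (node 396 (merge (leaf 7 396 428) (node 397 (merge (leaf 7 364 364) (leaf 4 397 494))))) (node 430 (merge (leaf 6 397 398) (node 557 (merge (leaf 6 429 462) (node 428 (merge (leaf 7 396 396) (leaf 7 428 460)))))))))) (node 557 (merge (node 556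 (merge (leaf 1 524 527) (leaf 5 460 588))) (node 462 (merge (leaf 6 429 430) (node 589 (merge (leaf 6 461 494) (node 590 (merge (leaf 4 461 558) (leaf 4 493 622))))))))))))) (node 461 (merge (node 558 (merge (leaf 4 429 429) (node 590 (merge (leaf 4 461 557) (leaf 7 493 622))))) (merge (node 558 (merge (leaf 4 429 429) (node 590 (merge (leaf 7 461 494) (leaf 7 493 622))))) (merge (node 429 (merge (node 398 (merge (leaf 6 397 430) (node 397 (merge (leaf 6 365 366) (leaf 4 397 494))))) (merge (node 396 (merge (leaf 7 396 428) (node 397 (merge (leaf 7 364 364) (leaf 4 397 494))))) (node 430 (merge (leaf 6 397 398) (node 557 (merge (leaf 6 429 462) (node 428 (merge (leaf 7 396 396) (leaf 7 428 460)))))))))) (node 462 (merge (node 430 (merge (leaf 6 429 557) (node 398 (merge (leaf 5 365 366) (leaf 5 397 494))))) (merge (node 557 (merge (leaf 6 429 430) (node 460 (merge (leaf 7 428 428) (node 589 (merge (leaf 7 460 492) (node 590 (merge (leaf 4 461 558) (leaf 4 493 622))))))))) (merge (node 460 (merge (node 557 (merge (leaf 7 428 428) (node 589 (merge (leaf 6 461 494) (node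 590 (merge (leaf 4 461 558) (leaf 4 493 622))))))) (merge (node 428 (merge (node 396 (merge (leaf 4 364 364) (leaf 4 396 492))) (node 427 (merge (leaf 3 427 463) (node 426 (merge (leaf 0 425 425) (leaf 3 426 459))))))) (node 491 (merge (node 492 (merge (leaf 0 490 490) (node 463 (merge (leaf 1 459 460) (leaf 1 460 464))))) (merge (node 459 (merge (leaf 1 458 490) (node 458 (merge (leaf 0 458 494) (node 426 (merge (leaf 3 425 425) (leaf 3 426 427))))))) (node 463 (merge (leaf 1 459 492) (node 431 (merge (leaf 2 428 432) (node 558 (merge (leaf 6 430 494) (node 590 (merge (leaf 4 461 557) (leaf 7 493 622))))))))))))))) (node 463 (merge (node 492 (merge (leaf 1 460 464) (node 491 (merge (leaf 1 459 460) (leaf 0 490 490))))) (merge (node 464 (merge (node 496 (merge (leaf 7 431 431) (leaf 0 461 497))) (node 465 (merge (leaf 1 461 494) (node 433 (merge (leaf 2 429 432) (leaf 2 430 434))))))) (node 460 (merge (node 492 (merge (leaf 1 459 491) (node 428 (merge (leaf 4 396 396) (leaf 3 427 427))))) (merge (node 491 (merge (leaf 1 459 492) (node 459 (merge (leaf 1 458 490) (node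 431 (merge (leaf 2 427 430) (leaf 2 428 432))))))) (node 431 (merge (leaf 2 428 432) (node 459 (merge (leaf 2 427 430) (node 427 (merge (leaf 3 426 426) (leaf 3 427 428)))))))))))))))))))))))) (merge (node 526 (merge (node 527 (merge (leaf 3 492 492) (leaf 0 525 561))) (merge (node 591 (merge (node 623 (merge (leaf 5 495 496) (node 655 (merge (leaf 5 527 624) (leaf 6 559 687))))) (node 561 (merge (leaf 0 525 527) (node 590 (merge (leaf 2 557 589) (node 558 (merge (leaf 7 493 622) (node 461 (merge (leaf 4 429 429) (leaf 7 461 494))))))))))) (node 461 (merge (node 558 (merge (leaf 4 429 429) (node 590 (merge (leaf 4 461 557) (leaf 7 493 622))))) (merge (node 558 (merge (leaf 4 429 429) (node 590 (merge (leaf 7 461 494) (leaf 7 493 622))))) (merge (node 429 (merge (node 398 (merge (leaf 6 397 430) (node 397 (merge (leaf 6 365 366) (leaf 4 397 494))))) (merge (node 396 (merge (leaf 7 396 428) (node 397 (merge (leaf 7 364 364) (leaf 4 397 494))))) (node 430 (merge (leaf 6 397 398) (node 557 (merge (leaf 6 429 462) (node 428 (merge (leaf 7 396 396) (leaf 7 428 460))))))))))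 (node 462 (merge (node 430 (merge (leaf 6 429 557) (node 398 (merge (leaf 5 365 366) (leaf 5 397 494))))) (merge (node 557 (merge (leaf 6 429 430) (node 460 (merge (leaf 7 428 428) (node 589 (merge (leaf 7 460 492) (node 590 (merge (leaf 4 461 558) (leaf 4 493 622))))))))) (merge (node 460 (merge (node 557 (merge (leaf 7 428 428) (node 589 (merge (leaf 6 461 494) (node 590 (merge (leaf 4 461 558) (leaf 4 493 622))))))) (merge (node 428 (merge (node 396 (merge (leaf 4 364 364) (leaf 4 396 492))) (node 427 (merge (leaf 3 427 463) (node 426 (merge (leaf 0 425 425) (leaf 3 426 459))))))) (node 491 (merge (node 492 (merge (leaf 0 490 490) (node 463 (merge (leaf 1 459 460) (leaf 1 460 464))))) (merge (node 459 (merge (leaf 1 458 490) (node 458 (merge (leaf 0 458 494) (node 426 (merge (leaf 3 425 425) (leaf 3 426 427))))))) (node 463 (merge (leaf 1 459 492) (node 431 (merge (leaf 2 428 432) (node 558 (merge (leaf 6 430 494) (node 590 (merge (leaf 4 461 557) (leaf 7 493 622))))))))))))))) (node 463 (merge (node 492 (merge (leaf 1 460 464) (node 491 (merge (leaf 1 459 460)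 (leaf 0 490 490))))) (merge (node 464 (merge (node 496 (merge (leaf 7 431 431) (leaf 0 461 497))) (node 465 (merge (leaf 1 461 494) (node 433 (merge (leaf 2 429 432) (leaf 2 430 434))))))) (node 460 (merge (node 492 (merge (leaf 1 459 491) (node 428 (merge (leaf 4 396 396) (leaf 3 427 427))))) (merge (node 491 (merge (leaf 1 459 492) (node 459 (merge (leaf 1 458 490) (node 431 (merge (leaf 2 427 430) (leaf 2 428 432))))))) (node 431 (merge (leaf 2 428 432) (node 459 (merge (leaf 2 427 430) (node 427 (merge (leaf 3 426 426) (leaf 3 427 428)))))))))))))))))))))))) (merge (node 526 (merge (node 527 (merge (leaf 3 492 492) (leaf 0 525 561))) (merge (node 461 (merge (node 429 (merge (leaf 4 429 558) (node 397 (merge (leaf 4 397 494) (node 524 (merge (leaf 5 396 492) (leaf 5 428 556))))))) (merge (node 429 (merge (leaf 4 429 558) (node 430 (merge (leaf 6 397 398) (node 557 (merge (leaf 6 429 462) (node 556 (merge (leaf 5 428 524) (leaf 5 460 588))))))))) (merge (node 429 (merge (node 398 (merge (leaf 6 397 430) (node 397 (merge (leaf 6 365 366) (leaf 4 397 494))))) (merge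 (node 396 (merge (leaf 7 396 428) (node 397 (merge (leaf 7 364 364) (leaf 4 397 494))))) (node 430 (merge (leaf 6 397 398) (node 557 (merge (leaf 6 429 462) (node 428 (merge (leaf 7 396 396) (leaf 7 428 460)))))))))) (node 462 (merge (node 430 (merge (leaf 6 429 557) (node 398 (merge (leaf 5 365 366) (leaf 5 397 494))))) (merge (node 557 (merge (leaf 6 429 430) (node 460 (merge (leaf 7 428 428) (node 492 (merge (leaf 7 460 589) (node 491 (merge (leaf 1 459 463) (leaf 0 490 490))))))))) (merge (node 463 (merge (node 492 (merge (leaf 1 460 464) (node 491 (merge (leaf 1 459 460) (leaf 0 490 490))))) (merge (node 464 (merge (node 496 (merge (leaf 7 431 431) (leaf 0 461 497))) (node 465 (merge (leaf 1 461 494) (node 433 (merge (leaf 2 429 432) (leaf 2 430 434))))))) (node 460 (merge (node 492 (merge (leaf 1 459 491) (node 428 (merge (leaf 4 396 396) (leaf 3 427 427))))) (merge (node 491 (merge (leaf 1 459 492) (node 459 (merge (leaf 1 458 490) (node 431 (merge (leaf 2 427 430) (leaf 2 428 432))))))) (node 431 (merge (leaf 2 428 432) (node 459 (merge (leaf 2 427 430) (node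 427 (merge (leaf 3 426 426) (leaf 3 427 428))))))))))))) (node 460 (merge (node 557 (merge (leaf 7 428 428) (node 589 (merge (leaf 6 461 494) (node 588 (merge (leaf 5 460 556) (leaf 5 492 620))))))) (merge (node 428 (merge (node 396 (merge (leaf 4 364 364) (leaf 4 396 492))) (node 427 (merge (leaf 3 427 463) (node 426 (merge (leaf 0 425 425) (leaf 3 426 459))))))) (node 491 (merge (node 492 (merge (leaf 0 490 490) (node 463 (merge (leaf 1 459 460) (leaf 1 460 464))))) (merge (node 459 (merge (leaf 1 458 490) (node 458 (merge (leaf 0 458 494) (node 426 (merge (leaf 3 425 425) (leaf 3 426 427))))))) (node 463 (merge (leaf 1 459 492) (node 431 (merge (leaf 2 428 432) (node 494 (merge (leaf 6 430 558) (node 464 (merge (leaf 1 461 465) (leaf 7 431 496))))))))))))))))))))))) (node 461 (merge (node 558 (merge (leaf 4 429 429) (node 590 (merge (leaf 7 461 494) (leaf 4 461 557))))) (merge (node 527 (merge (leaf 0 525 561) (node 556 (merge (leaf 1 524 557) (node 524 (merge (leaf 5 428 429) (leaf 1 523 555))))))) (merge (node 429 (merge (leaf 4 429 558) (node 398 (merge (leaf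 6 397 430) (node 397 (merge (leaf 6 365 366) (node 396 (merge (leaf 7 364 364) (leaf 7 396 428))))))))) (node 527 (merge (leaf 0 525 561) (node 557 (merge (leaf 1 524 556) (node 462 (merge (leaf 6 429 430) (node 589 (merge (leaf 6 461 494) (node 590 (merge (leaf 4 461 558) (node 620 (merge (leaf 5 492 588) (node 621 (merge (leaf 1 588 591) (leaf 5 524 652)))))))))))))))))))))) (merge (node 591 (merge (node 623 (merge (leaf 5 495 496) (node 655 (merge (leaf 5 527 624) (leaf 6 559 687))))) (node 589 (merge (node 590 (merge (leaf 2 557 561) (node 557 (merge (leaf 3 556 556) (leaf 4 493 622))))) (merge (node 590 (merge (leaf 2 557 561) (node 620 (merge (leaf 1 588 621) (node 588 (merge (leaf 5 492 557) (leaf 1 587 619))))))) (merge (node 590 (merge (leaf 2 557 561) (node 620 (merge (leaf 1 588 621) (node 588 (merge (leaf 1 587 619) (node 556 (merge (leaf 6 492 524) (leaf 3 555 555))))))))) (merge (node 557 (merge (node 460 (merge (leaf 7 460 492) (node 461 (merge (leaf 7 428 428) (node 588 (merge (leaf 5 460 556) (leaf 5 492 620))))))) (merge (node 590 (merge (leaf 3 556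 556) (node 622 (merge (leaf 4 493 493) (node 654 (merge (leaf 7 525 558) (leaf 4 525 621))))))) (node 492 (merge (leaf 7 460 460) (node 621 (merge (leaf 7 492 524) (node 620 (merge (leaf 5 492 588) (leaf 5 524 652)))))))))) (node 557 (merge (node 492 (merge (leaf 7 460 460) (node 621 (merge (leaf 7 492 524) (node 526 (merge (leaf 3 492 527) (node 653 (merge (leaf 6 525 558) (node 654 (merge (leaf 4 525 622) (leaf 4 557 686))))))))))) (merge (node 588 (merge (leaf 5 492 620) (node 461 (merge (leaf 5 460 556) (node 430 (merge (leaf 6 429 462) (node 429 (merge (leaf 6 397 398) (node 428 (merge (leaf 7 396 396) (leaf 7 428 460))))))))))) (node 588 (merge (leaf 5 492 620) (node 461 (merge (leaf 5 460 556) (node 430 (merge (leaf 6 429 462) (node 429 (merge (leaf 6 397 398) (node 526 (merge (leaf 4 429 558) (node 527 (merge (leaf 3 492 492) (leaf 0 525 561))))))))))))))))))))))) (merge (node 526 (merge (node 527 (merge (leaf 3 492 492) (leaf 0 525 561))) (merge (node 461 (merge (node 429 (merge (leaf 4 429 558) (node 397 (merge (leaf 4 397 494) (node 524 (merge (leaf 5 396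 492) (leaf 5 428 556))))))) (merge (node 429 (merge (leaf 4 429 558) (node 430 (merge (leaf 6 397 398) (node 557 (merge (leaf 6 429 462) (node 556 (merge (leaf 5 428 524) (leaf 5 460 588))))))))) (merge (node 429 (merge (node 398 (merge (leaf 6 397 430) (node 397 (merge (leaf 6 365 366) (leaf 4 397 494))))) (merge (node 396 (merge (leaf 7 396 428) (node 397 (merge (leaf 7 364 364) (leaf 4 397 494))))) (node 430 (merge (leaf 6 397 398) (node 557 (merge (leaf 6 429 462) (node 428 (merge (leaf 7 396 396) (leaf 7 428 460)))))))))) (node 462 (merge (node 430 (merge (leaf 6 429 557) (node 398 (merge (leaf 5 365 366) (leaf 5 397 494))))) (merge (node 557 (merge (leaf 6 429 430) (node 460 (merge (leaf 7 428 428) (node 492 (merge (leaf 7 460 589) (node 491 (merge (leaf 1 459 463) (leaf 0 490 490))))))))) (merge (node 463 (merge (node 492 (merge (leaf 1 460 464) (node 491 (merge (leaf 1 459 460) (leaf 0 490 490))))) (merge (node 464 (merge (node 496 (merge (leaf 7 431 431) (leaf 0 461 497))) (node 465 (merge (leaf 1 461 494) (node 433 (merge (leaf 2 429 432) (leaf 2 430 434)))))))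 (node 460 (merge (node 492 (merge (leaf 1 459 491) (node 428 (merge (leaf 4 396 396) (leaf 3 427 427))))) (merge (node 491 (merge (leaf 1 459 492) (node 459 (merge (leaf 1 458 490) (node 431 (merge (leaf 2 427 430) (leaf 2 428 432))))))) (node 431 (merge (leaf 2 428 432) (node 459 (merge (leaf 2 427 430) (node 427 (merge (leaf 3 426 426) (leaf 3 427 428))))))))))))) (node 460 (merge (node 557 (merge (leaf 7 428 428) (node 589 (merge (leaf 6 461 494) (node 588 (merge (leaf 5 460 556) (leaf 5 492 620))))))) (merge (node 428 (merge (node 396 (merge (leaf 4 364 364) (leaf 4 396 492))) (node 427 (merge (leaf 3 427 463) (node 426 (merge (leaf 0 425 425) (leaf 3 426 459))))))) (node 491 (merge (node 492 (merge (leaf 0 490 490) (node 463 (merge (leaf 1 459 460) (leaf 1 460 464))))) (merge (node 459 (merge (leaf 1 458 490) (node 458 (merge (leaf 0 458 494) (node 426 (merge (leaf 3 425 425) (leaf 3 426 427))))))) (node 463 (merge (leaf 1 459 492) (node 431 (merge (leaf 2 428 432) (node 494 (merge (leaf 6 430 558) (node 464 (merge (leaf 1 461 465) (leaf 7 431 496)))))))))))))))))))))))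 (node 461 (merge (node 527 (merge (leaf 0 525 561) (node 556 (merge (leaf 1 524 557) (node 524 (merge (leaf 5 428 429) (leaf 1 523 555))))))) (merge (node 429 (merge (node 398 (merge (leaf 6 397 430) (node 397 (merge (leaf 6 365 366) (leaf 4 397 494))))) (merge (node 396 (merge (leaf 7 396 428) (node 397 (merge (leaf 7 364 364) (leaf 4 397 494))))) (node 430 (merge (leaf 6 397 398) (node 557 (merge (leaf 6 429 462) (node 428 (merge (leaf 7 396 396) (leaf 7 428 460)))))))))) (merge (node 429 (merge (leaf 4 429 558) (node 398 (merge (leaf 6 397 430) (node 397 (merge (leaf 6 365 366) (node 396 (merge (leaf 7 364 364) (leaf 7 396 428))))))))) (node 527 (merge (leaf 0 525 561) (node 557 (merge (leaf 1 524 556) (node 462 (merge (leaf 6 429 430) (node 589 (merge (leaf 6 461 494) (node 620 (merge (leaf 5 492 588) (node 621 (merge (leaf 5 524 652) (node 653 (merge (leaf 6 525 558) (node 654 (merge (leaf 4 525 622) (leaf 4 557 686)))))))))))))))))))))))) (merge (node 526 (merge (node 527 (merge (leaf 3 492 492) (leaf 0 525 561))) (merge (node 461 (merge (node 558 (merge (leaf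 4 429 429) (node 590 (merge (leaf 7 461 494) (leaf 7 493 622))))) (merge (node 558 (merge (leaf 4 429 429) (node 590 (merge (leaf 4 461 557) (leaf 7 493 622))))) (merge (node 429 (merge (node 398 (merge (leaf 6 397 430) (node 397 (merge (leaf 6 365 366) (leaf 4 397 494))))) (merge (node 396 (merge (leaf 7 396 428) (node 397 (merge (leaf 7 364 364) (leaf 4 397 494))))) (node 430 (merge (leaf 6 397 398) (node 557 (merge (leaf 6 429 462) (node 428 (merge (leaf 7 396 396) (leaf 7 428 460)))))))))) (node 557 (merge (node 556 (merge (leaf 1 524 527) (leaf 5 460 588))) (node 462 (merge (leaf 6 429 430) (node 589 (merge (leaf 6 461 494) (node 590 (merge (leaf 4 461 558) (leaf 4 493 622))))))))))))) (node 461 (merge (node 558 (merge (leaf 4 429 429) (node 590 (merge (leaf 4 461 557) (leaf 7 493 622))))) (merge (node 429 (merge (leaf 4 429 558) (node 397 (merge (leaf 4 397 494) (node 524 (merge (leaf 5 396 492) (leaf 5 428 556))))))) (merge (node 429 (merge (node 397 (merge (leaf 4 397 494) (node 524 (merge (leaf 5 396 492) (leaf 5 428 556))))) (merge (node 396 (merge (leaf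 7 396 428) (node 397 (merge (leaf 7 364 364) (leaf 4 397 494))))) (node 428 (merge (leaf 7 396 396) (node 557 (merge (leaf 7 428 460) (node 556 (merge (leaf 5 428 524) (leaf 5 460 588)))))))))) (node 624 (merge (node 657 (merge (leaf 4 528 625) (node 656 (merge (leaf 4 560 689) (node 655 (merge (leaf 5 527 623) (leaf 5 559 687))))))) (merge (node 590 (merge (node 558 (merge (leaf 7 461 494) (leaf 4 461 557))) (merge (node 558 (merge (leaf 7 461 494) (leaf 7 493 622))) (node 625 (merge (leaf 4 528 657) (node 589 (merge (leaf 0 589 591) (node 557 (merge (leaf 4 493 622) (node 588 (merge (leaf 5 460 556) (leaf 5 492 620)))))))))))) (merge (node 623 (merge (leaf 5 527 655) (node 590 (merge (node 558 (merge (leaf 7 461 494) (leaf 4 461 557))) (merge (node 558 (merge (leaf 7 461 494) (leaf 7 493 622))) (node 589 (merge (node 591 (merge (leaf 2 557 561) (leaf 0 588 588))) (node 622 (merge (leaf 4 493 557) (leaf 3 589 625)))))))))) (node 656 (merge (node 655 (merge (leaf 5 527 623) (leaf 5 559 687))) (merge (node 689 (merge (leaf 4 560 657) (node 688 (merge (leaf 4 592 721)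 (node 687 (merge (leaf 5 559 655) (leaf 5 591 719))))))) (merge (node 657 (merge (leaf 4 560 689) (node 623 (merge (leaf 5 527 655) (node 622 (merge (leaf 0 621 621) (node 590 (merge (leaf 7 493 558) (node 589 (merge (leaf 4 493 557) (node 588 (merge (leaf 0 587 587) (leaf 0 588 591))))))))))))) (node 590 (merge (node 558 (merge (leaf 7 461 494) (leaf 4 461 557))) (merge (node 558 (merge (leaf 7 461 494) (leaf 7 493 622))) (node 689 (merge (leaf 4 560 657) (node 688 (merge (leaf 4 592 721) (node 719 (merge (leaf 5 591 687) (node 720 (merge (leaf 5 623 751) (node 591 (merge (leaf 7 591 623) (node 589 (merge (leaf 2 557 561) (node 557 (merge (leaf 3 556 556) (leaf 4 493 622))))))))))))))))))))))))))))))))) (merge (hyp 0) (merge (node 591 (merge (node 623 (merge (leaf 5 495 496) (node 655 (merge (leaf 5 527 624) (leaf 6 559 687))))) (node 526 (merge (node 527 (merge (leaf 3 492 492) (leaf 0 525 561))) (merge (node 590 (merge (node 558 (merge (leaf 7 493 622) (node 461 (merge (leaf 4 429 429) (leaf 7 461 494))))) (node 589 (merge (leaf 2 557 561) (node 620 (merge (leaf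 1 588 621) (node 588 (merge (leaf 1 587 619) (node 556 (merge (leaf 6 492 524) (leaf 3 555 555))))))))))) (node 492 (merge (leaf 3 492 527) (node 491 (merge (leaf 0 490 490) (node 523 (merge (node 522 (merge (leaf 1 490 494) (node 521 (merge (leaf 2 488 520) (leaf 2 489 524))))) (merge (node 555 (merge (node 460 (merge (leaf 6 459 587) (node 428 (merge (leaf 4 396 396) (leaf 6 427 459))))) (merge (node 587 (merge (leaf 6 459 460) (node 524 (merge (leaf 1 522 554) (leaf 6 491 619))))) (node 554 (merge (leaf 1 522 524) (node 586 (merge (leaf 5 458 459) (node 618 (merge (leaf 6 490 522) (leaf 6 522 650)))))))))) (merge (node 555 (merge (node 460 (merge (leaf 6 459 587) (node 428 (merge (leaf 4 396 396) (leaf 6 427 459))))) (merge (node 587 (merge (leaf 6 459 460) (node 524 (merge (leaf 1 522 554) (leaf 6 491 619))))) (node 554 (merge (leaf 1 522 524) (node 459 (merge (leaf 5 458 586) (node 458 (merge (leaf 7 426 426) (leaf 3 458 494)))))))))) (node 494 (merge (leaf 1 490 522) (node 462 (merge (leaf 2 459 463) (node 459 (merge (leaf 3 458 458) (node 430 (merge (leaf 5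 397 398) (node 431 (merge (leaf 6 398 399) (node 429 (merge (leaf 7 397 397) (node 461 (merge (leaf 2 427 460) (leaf 7 429 558)))))))))))))))))))))))))))) (merge (node 526 (merge (node 527 (merge (leaf 3 492 492) (node 557 (merge (leaf 1 524 556) (node 496 (merge (leaf 2 493 497) (node 623 (merge (leaf 5 495 591) (node 624 (merge (leaf 5 527 655) (node 657 (merge (leaf 4 528 625) (node 656 (merge (leaf 4 560 689) (node 622 (merge (leaf 0 621 621) (node 590 (merge (leaf 7 493 558) (leaf 4 493 589))))))))))))))))))) (merge (node 557 (merge (node 527 (merge (leaf 3 492 492) (leaf 1 524 556))) (merge (node 492 (merge (leaf 3 492 527) (node 460 (merge (leaf 7 460 589) (node 428 (merge (leaf 4 396 396) (leaf 4 428 524))))))) (merge (node 462 (merge (node 494 (merge (leaf 6 461 589) (node 430 (merge (leaf 5 397 398) (leaf 5 429 526))))) (merge (node 589 (merge (leaf 6 461 494) (node 460 (merge (leaf 7 460 492) (node 461 (merge (leaf 7 428 428) (node 588 (merge (leaf 5 460 556) (leaf 5 492 620))))))))) (node 461 (merge (leaf 6 429 430) (node 428 (merge (leaf 7 428 460) (node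 429 (merge (leaf 7 396 396) (node 556 (merge (leaf 5 428 524) (leaf 5 460 588)))))))))))) (node 527 (merge (leaf 1 524 556) (node 496 (merge (leaf 2 493 497) (node 623 (merge (leaf 5 495 591) (node 624 (merge (leaf 5 527 655) (node 657 (merge (leaf 4 528 625) (node 656 (merge (leaf 4 560 689) (node 621 (merge (leaf 0 621 622) (node 589 (merge (leaf 6 493 494) (node 620 (merge (leaf 5 492 588) (leaf 5 524 652))))))))))))))))))))))) (merge (node 461 (merge (node 558 (merge (leaf 4 429 429) (node 590 (merge (leaf 4 461 557) (leaf 7 493 622))))) (merge (node 558 (merge (leaf 4 429 429) (node 590 (merge (leaf 7 461 494) (leaf 7 493 622))))) (merge (node 429 (merge (node 398 (merge (leaf 6 397 430) (node 397 (merge (leaf 6 365 366) (leaf 4 397 494))))) (merge (node 396 (merge (leaf 7 396 428) (node 397 (merge (leaf 7 364 364) (leaf 4 397 494))))) (node 430 (merge (leaf 6 397 398) (node 557 (merge (leaf 6 429 462) (node 428 (merge (leaf 7 396 396) (leaf 7 428 460)))))))))) (node 624 (merge (node 657 (merge (leaf 4 528 625) (node 656 (merge (leaf 4 560 689) (node 655 (merge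 (leaf 5 527 623) (leaf 5 559 687))))))) (merge (node 590 (merge (node 558 (merge (leaf 7 461 494) (leaf 4 461 557))) (merge (node 558 (merge (leaf 7 461 494) (leaf 7 493 622))) (node 625 (merge (leaf 4 528 657) (node 589 (merge (leaf 0 589 591) (node 557 (merge (leaf 4 493 622) (node 588 (merge (leaf 5 460 556) (leaf 5 492 620)))))))))))) (node 623 (merge (leaf 5 527 655) (node 496 (merge (leaf 5 495 591) (node 465 (merge (leaf 6 464 497) (node 464 (merge (leaf 6 432 433) (node 463 (merge (leaf 7 431 431) (node 462 (merge (leaf 1 461 494) (node 557 (merge (leaf 6 429 430) (node 590 (merge (leaf 4 461 558) (node 589 (merge (leaf 4 493 622) (node 588 (merge (leaf 5 460 556) (leaf 5 492 620)))))))))))))))))))))))))))) (node 492 (merge (leaf 3 492 527) (node 491 (merge (leaf 0 490 490) (node 523 (merge (node 522 (merge (leaf 1 490 494) (node 521 (merge (leaf 2 488 520) (leaf 2 489 524))))) (merge (node 555 (merge (node 460 (merge (leaf 6 459 587) (node 428 (merge (leaf 4 396 396) (leaf 6 427 459))))) (merge (node 587 (merge (leaf 6 459 460) (node 524 (merge (leaf 1 522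 554) (leaf 6 491 619))))) (node 554 (merge (leaf 1 522 524) (node 586 (merge (leaf 5 458 459) (node 618 (merge (leaf 6 490 522) (leaf 6 522 650)))))))))) (merge (node 555 (merge (node 460 (merge (leaf 6 459 587) (node 428 (merge (leaf 4 396 396) (leaf 6 427 459))))) (merge (node 587 (merge (leaf 6 459 460) (node 524 (merge (leaf 1 522 554) (leaf 6 491 619))))) (node 554 (merge (leaf 1 522 524) (node 459 (merge (leaf 5 458 586) (node 458 (merge (leaf 7 426 426) (leaf 3 458 494)))))))))) (node 494 (merge (leaf 1 490 522) (node 462 (merge (leaf 2 459 463) (node 459 (merge (leaf 3 458 458) (node 430 (merge (leaf 5 397 398) (node 431 (merge (leaf 6 398 399) (node 429 (merge (leaf 7 397 397) (node 461 (merge (leaf 2 427 460) (leaf 7 429 558))))))))))))))))))))))))))) (node 623 (merge (node 591 (merge (leaf 5 495 496) (node 655 (merge (leaf 5 527 624) (leaf 6 559 687))))) (merge (node 496 (merge (leaf 5 495 591) (node 465 (merge (leaf 6 464 497) (node 464 (merge (leaf 6 432 433) (node 463 (merge (leaf 7 431 431) (node 462 (merge (leaf 1 461 494) (node 461 (merge (leaf 1 460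 492) (node 430 (merge (leaf 3 429 429) (leaf 6 429 557))))))))))))))) (merge (node 461 (merge (node 428 (merge (node 460 (merge (leaf 7 428 557) (node 396 (merge (leaf 4 364 364) (leaf 4 396 492))))) (merge (node 429 (merge (leaf 7 396 396) (node 398 (merge (leaf 6 397 430) (node 397 (merge (leaf 6 365 366) (node 524 (merge (leaf 5 396 492) (leaf 5 428 556))))))))) (node 557 (merge (leaf 7 428 460) (node 430 (merge (leaf 6 429 462) (node 429 (merge (leaf 6 397 398) (node 556 (merge (leaf 5 428 524) (leaf 5 460 588)))))))))))) (merge (node 429 (merge (node 526 (merge (leaf 4 429 558) (node 527 (merge (leaf 3 492 492) (leaf 0 525 561))))) (node 398 (merge (leaf 6 397 430) (node 397 (merge (leaf 6 365 366) (node 396 (merge (leaf 7 364 364) (leaf 7 396 428))))))))) (node 590 (merge (node 558 (merge (leaf 4 461 557) (node 526 (merge (leaf 7 461 494) (leaf 7 493 622))))) (node 624 (merge (leaf 5 527 655) (node 625 (merge (leaf 4 528 657) (node 626 (merge (leaf 3 590 591) (node 659 (merge (leaf 0 623 658) (node 627 (merge (leaf 0 624 660) (node 595 (merge (leaf 2 591 594)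 (leaf 2 592 596)))))))))))))))))) (node 461 (merge (node 526 (merge (node 527 (merge (leaf 3 492 492) (leaf 0 525 561))) (node 558 (merge (leaf 4 429 429) (node 590 (merge (leaf 7 461 494) (leaf 4 461 557))))))) (merge (node 428 (merge (node 460 (merge (leaf 7 428 557) (node 396 (merge (leaf 4 364 364) (leaf 4 396 492))))) (merge (node 429 (merge (leaf 7 396 396) (node 398 (merge (leaf 6 397 430) (node 397 (merge (leaf 6 365 366) (node 524 (merge (leaf 5 396 492) (leaf 5 428 556))))))))) (node 557 (merge (leaf 7 428 460) (node 430 (merge (leaf 6 429 462) (node 429 (merge (leaf 6 397 398) (node 556 (merge (leaf 5 428 524) (leaf 5 460 588)))))))))))) (merge (node 430 (merge (node 398 (merge (leaf 6 397 429) (node 462 (merge (leaf 5 365 366) (leaf 5 397 494))))) (merge (node 462 (merge (leaf 6 429 557) (node 398 (merge (leaf 5 365 366) (leaf 5 397 494))))) (merge (node 429 (merge (leaf 6 397 398) (node 526 (merge (leaf 4 429 558) (node 527 (merge (leaf 0 525 561) (node 556 (merge (leaf 5 428 524) (leaf 1 524 557))))))))) (node 557 (merge (leaf 6 429 462) (node 558 (merge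 (leaf 4 461 590) (node 526 (merge (leaf 4 429 429) (node 556 (merge (leaf 1 524 527) (leaf 5 460 588))))))))))))) (merge (node 429 (merge (node 526 (merge (leaf 4 429 558) (node 527 (merge (leaf 3 492 492) (leaf 0 525 561))))) (node 398 (merge (leaf 6 397 430) (node 397 (merge (leaf 6 365 366) (node 396 (merge (leaf 7 364 364) (leaf 7 396 428))))))))) (node 462 (merge (node 430 (merge (leaf 6 429 557) (node 398 (merge (leaf 5 365 366) (leaf 5 397 494))))) (merge (node 460 (merge (node 428 (merge (leaf 7 428 557) (node 396 (merge (leaf 4 364 364) (leaf 4 396 492))))) (merge (node 428 (merge (node 396 (merge (leaf 4 364 364) (leaf 4 396 492))) (node 427 (merge (leaf 3 427 463) (node 426 (merge (leaf 0 425 425) (leaf 3 426 459))))))) (node 430 (merge (leaf 6 429 557) (node 431 (merge (leaf 2 427 459) (node 432 (merge (leaf 1 429 433) (leaf 2 428 463)))))))))) (merge (node 460 (merge (node 428 (merge (leaf 7 428 557) (node 396 (merge (leaf 4 364 364) (leaf 4 396 492))))) (merge (node 428 (merge (leaf 7 428 557) (node 427 (merge (leaf 3 427 463) (node 426 (merge (leaf 0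 425 425) (leaf 3 426 459))))))) (node 463 (merge (node 464 (merge (leaf 1 460 492) (node 431 (merge (leaf 2 428 432) (leaf 7 431 496))))) (merge (node 491 (merge (leaf 1 459 492) (node 459 (merge (leaf 1 458 490) (node 458 (merge (leaf 0 458 494) (node 426 (merge (leaf 3 425 425) (leaf 3 426 427))))))))) (node 431 (merge (leaf 2 428 432) (node 496 (merge (leaf 7 431 464) (node 497 (merge (leaf 6 464 465) (node 526 (merge (leaf 2 493 527) (node 558 (merge (leaf 6 430 494) (node 622 (merge (leaf 7 493 590) (node 624 (merge (leaf 5 527 655) (node 657 (merge (leaf 4 528 625) (node 656 (merge (leaf 0 621 621) (leaf 4 560 689))))))))))))))))))))))))) (node 463 (merge (node 492 (merge (leaf 1 460 464) (node 491 (merge (leaf 1 459 460) (leaf 2 458 490))))) (merge (node 464 (merge (leaf 1 460 492) (node 496 (merge (leaf 7 431 431) (leaf 0 461 497))))) (merge (node 431 (merge (node 464 (merge (leaf 7 431 496) (node 432 (merge (leaf 2 429 433) (leaf 2 428 460))))) (merge (node 432 (merge (leaf 2 428 460) (node 433 (merge (leaf 1 429 430) (leaf 1 430 434))))) (node 464 (merge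 (leaf 7 431 496) (node 494 (merge (leaf 1 461 465) (node 526 (merge (leaf 6 430 558) (node 430 (merge (leaf 5 397 398) (leaf 6 398 399)))))))))))) (node 526 (merge (node 527 (merge (leaf 3 492 492) (leaf 0 525 561))) (node 624 (merge (leaf 5 527 655) (node 657 (merge (leaf 4 528 625) (node 656 (merge (leaf 4 560 689) (node 622 (merge (leaf 0 621 621) (node 558 (merge (leaf 7 493 590) (node 431 (merge (leaf 6 430 494) (node 432 (merge (leaf 2 428 460) (node 433 (merge (leaf 1 429 430) (leaf 1 430 434)))))))))))))))))))))))))))))))))))))))))))))))) nP_57 cP_57 16 (by decide +kernel)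
def nP_58 : ℕ := 0x100000001700000000000000000000000000000000000000000000000000000000000000000000000000000000000000000000000000000000000000000000000000000000000
def cP_58 : ℕ := 0x38000000780000007f8000000f00000fdf80001ffc00000ffe000000ec000000a0000000000000000000000000000000000000000000000000000000000000000000000000000000000000000000
theorem lP_58 : S nP_58 cP_58 12 := S_of_chk [] trivial (node 494 (merge (node 523 (merge (leaf 2 491 495) (node 554 (merge (leaf 1 522 555) (node 522 (merge (leaf 1 521 553) (node 490 (merge (leaf 3 489 489) (leaf 3 490 491))))))))) (merge (node 495 (merge (leaf 2 491 523) (node 462 (merge (node 557 (merge (leaf 5 429 430) (node 589 (merge (leaf 5 461 558) (leaf 6 493 621))))) (merge (node 430 (merge (leaf 5 429 557) (node 399 (merge (leaf 6 398 431) (node 398 (merge (leaf 6 366 367) (node 397 (merge (leaf 7 365 365) (leaf 7 397 429))))))))) (node 463 (merge (node 431 (merge (leaf 6 430 558) (node 399 (merge (leaf 5 366 367) (leaf 5 398 495))))) (merge (node 431 (merge (leaf 5 398 399) (node 496 (merge (leaf 7 431 464) (leaf 1 493 497)))))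 (node 558 (merge (leaf 6 462 590) (node 461 (merge (leaf 7 429 429) (node 460 (merge (leaf 0 459 459) (leaf 0 460 496))))))))))))))) (merge (node 462 (merge (node 557 (merge (leaf 5 429 430) (node 589 (merge (leaf 5 461 558) (leaf 6 493 621))))) (merge (node 430 (merge (leaf 5 429 557) (node 399 (merge (leaf 6 398 431) (node 398 (merge (leaf 6 366 367) (node 397 (merge (leaf 7 365 365) (leaf 7 397 429))))))))) (merge (node 461 (merge (node 429 (merge (leaf 7 429 558) (node 397 (merge (leaf 4 365 365) (leaf 7 397 430))))) (merge (node 558 (merge (leaf 7 429 429) (node 463 (merge (leaf 6 430 431) (node 495 (merge (leaf 6 462 590) (node 460 (merge (leaf 0 459 459) (leaf 0 460 496))))))))) (merge (node 463 (merge (node 431 (merge (leaf 6 430 558) (node 399 (merge (leaf 5 366 367) (leaf 6 398 430))))) (node 496 (merge (node 464 (merge (leaf 0 461 497) (node 433 (merge (leaf 2 429 432) (leaf 6 432 465))))) (node 460 (merge (leaf 0 460 495) (node 491 (merge (leaf 1 459 492) (node 459 (merge (leaf 1 458 490) (node 427 (merge (leaf 3 426 426) (leaf 3 427 428))))))))))))) (node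 460 (merge (node 459 (merge (leaf 0 459 495) (node 490 (merge (leaf 1 458 491) (node 458 (merge (leaf 1 457 489) (node 426 (merge (leaf 3 425 425) (leaf 3 426 427))))))))) (merge (node 430 (merge (node 431 (merge (leaf 6 398 399) (node 429 (merge (leaf 7 397 397) (leaf 1 428 432))))) (merge (node 431 (merge (leaf 6 398 399) (node 432 (merge (leaf 1 429 433) (node 460 (merge (leaf 2 427 459) (leaf 2 428 463))))))) (node 429 (merge (leaf 7 397 397) (node 459 (merge (leaf 2 426 458) (node 491 (merge (leaf 1 458 490) (node 463 (merge (leaf 1 459 492) (node 427 (merge (leaf 3 426 426) (leaf 0 427 428)))))))))))))) (node 431 (merge (node 399 (merge (leaf 6 398 430) (node 463 (merge (leaf 5 366 367) (leaf 5 398 495))))) (merge (node 463 (merge (leaf 2 428 432) (node 496 (merge (leaf 7 431 464) (leaf 0 460 495))))) (node 430 (merge (leaf 6 398 399) (node 429 (merge (leaf 7 397 397) (node 432 (merge (leaf 1 429 433) (leaf 1 428 460))))))))))))))))) (node 463 (merge (node 558 (merge (leaf 6 430 431) (node 590 (merge (leaf 6 462 495) (node 589 (merge (leaf 5 461 557) (leaf 5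 493 621))))))) (merge (node 461 (merge (node 558 (merge (leaf 7 429 429) (leaf 6 430 431))) (merge (node 429 (merge (leaf 7 429 558) (node 428 (merge (leaf 3 428 464) (node 427 (merge (leaf 0 426 426) (leaf 3 427 460))))))) (merge (node 431 (merge (leaf 6 430 558) (node 464 (merge (leaf 7 431 496) (node 432 (merge (leaf 2 429 433) (leaf 2 428 460))))))) (node 464 (merge (node 496 (merge (leaf 7 431 431) (leaf 0 461 497))) (merge (node 432 (merge (leaf 2 429 433) (node 460 (merge (leaf 2 428 431) (node 428 (merge (leaf 3 427 427) (leaf 3 428 429))))))) (node 496 (merge (leaf 0 461 497) (node 433 (merge (leaf 2 429 432) (leaf 6 432 465)))))))))))) (merge (node 461 (merge (node 429 (merge (leaf 7 429 558) (node 428 (merge (leaf 3 428 464) (node 427 (merge (leaf 0 426 426) (leaf 3 427 460))))))) (merge (node 558 (merge (leaf 7 429 429) (node 590 (merge (leaf 6 462 495) (node 589 (merge (leaf 5 461 557) (leaf 5 493 621))))))) (node 496 (merge (node 464 (merge (leaf 0 461 497) (node 433 (merge (leaf 2 429 432) (leaf 6 432 465))))) (node 460 (merge (leaf 0 460 495) (node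 491 (merge (leaf 1 459 492) (node 459 (merge (leaf 1 458 490) (node 427 (merge (leaf 3 426 426) (leaf 3 427 428)))))))))))))) (node 464 (merge (node 431 (merge (leaf 7 431 496) (node 399 (merge (leaf 5 366 367) (leaf 5 398 495))))) (merge (node 496 (merge (leaf 7 431 431) (node 461 (merge (leaf 0 461 497) (node 433 (merge (leaf 2 429 432) (leaf 6 432 465))))))) (merge (node 433 (merge (node 465 (merge (leaf 2 430 434) (leaf 6 432 496))) (merge (node 432 (merge (leaf 2 429 461) (node 434 (merge (leaf 1 431 435) (leaf 2 430 465))))) (node 461 (merge (leaf 2 429 432) (node 496 (merge (leaf 0 461 497) (node 460 (merge (leaf 0 460 495) (node 428 (merge (leaf 3 427 427) (leaf 3 428 429)))))))))))) (node 465 (merge (node 498 (merge (leaf 0 462 497) (node 466 (merge (leaf 1 462 495) (leaf 0 463 499))))) (merge (node 498 (merge (leaf 0 462 497) (node 466 (merge (leaf 0 463 499) (node 433 (merge (leaf 2 430 434) (node 432 (merge (leaf 2 429 461) (node 467 (merge (leaf 3 431 431) (leaf 3 432 468))))))))))) (node 433 (merge (leaf 2 430 434) (node 461 (merge (leaf 2 429 432) (node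 428 (merge (leaf 3 428 429) (node 460 (merge (leaf 3 427 427) (node 459 (merge (leaf 0 459 495) (node 491 (merge (leaf 1 458 490) (leaf 1 459 492)))))))))))))))))))))))))))) (node 523 (merge (node 554 (merge (leaf 1 522 555) (node 522 (merge (leaf 1 521 553) (node 490 (merge (leaf 3 489 489) (leaf 3 490 491))))))) (merge (node 491 (merge (leaf 3 490 490) (node 459 (merge (node 556 (merge (leaf 4 427 427) (node 588 (merge (leaf 7 459 492) (leaf 7 491 620))))) (merge (node 555 (merge (leaf 1 522 554) (node 556 (merge (leaf 4 427 427) (leaf 4 459 588))))) (merge (node 555 (merge (leaf 1 522 554) (node 460 (merge (leaf 6 427 428) (node 492 (merge (leaf 6 459 587) (node 426 (merge (leaf 7 426 458) (node 427 (merge (leaf 7 394 394) (leaf 4 395 395))))))))))) (node 555 (merge (leaf 1 522 554) (node 460 (merge (leaf 6 427 428) (node 587 (merge (leaf 6 459 492) (node 588 (merge (leaf 4 459 556) (leaf 4 491 620))))))))))))))) (merge (node 522 (merge (node 490 (merge (leaf 3 489 489) (leaf 3 490 491))) (merge (node 557 (merge (leaf 0 522 558) (node 521 (merge (leaf 0 521 556)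 (node 552 (merge (leaf 1 520 553) (node 520 (merge (leaf 1 519 551) (node 488 (merge (leaf 3 487 487) (leaf 3 488 489))))))))))) (node 557 (merge (leaf 0 522 558) (node 521 (merge (leaf 0 521 556) (node 552 (merge (leaf 1 520 553) (node 520 (merge (leaf 1 519 551) (node 491 (merge (leaf 3 490 490) (leaf 2 488 492)))))))))))))) (merge (node 554 (merge (leaf 1 522 555) (node 522 (merge (leaf 1 521 553) (node 557 (merge (leaf 0 522 558) (node 521 (merge (leaf 0 521 556) (node 489 (merge (leaf 3 488 488) (leaf 3 489 490))))))))))) (node 492 (merge (node 555 (merge (leaf 1 522 554) (node 587 (merge (leaf 6 491 619) (node 460 (merge (leaf 5 427 428) (leaf 6 459 491))))))) (merge (node 555 (merge (leaf 1 522 554) (node 587 (merge (leaf 6 491 619) (node 460 (merge (leaf 5 427 428) (leaf 5 459 556))))))) (merge (node 557 (merge (node 589 (merge (leaf 6 493 621) (node 462 (merge (leaf 5 429 430) (leaf 5 461 558))))) (merge (node 589 (merge (leaf 6 493 621) (node 460 (merge (leaf 4 428 428) (leaf 4 460 556))))) (node 522 (merge (leaf 0 522 558) (node 521 (merge (leaf 0 521 556)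 (node 552 (merge (leaf 1 520 553) (node 520 (merge (leaf 2 488 491) (leaf 1 519 551)))))))))))) (node 554 (merge (leaf 1 522 555) (node 522 (merge (leaf 1 521 553) (node 557 (merge (leaf 0 522 558) (node 521 (merge (leaf 0 521 556) (node 520 (merge (leaf 2 488 491) (node 488 (merge (leaf 3 487 487) (leaf 3 488 489)))))))))))))))))))))))))) nP_58 cP_58 12 (by decide +kernel)
def nP_59 : ℕ := 0x100000001700000000000000010000000000000000000000000000000000000000000000000000000000000000000000000000000000000000000000000000000000000000000
def cP_59 : ℕ := 0x50000000700000007000000000000003ee000003ee000003ff000000e0000000c0000000000000000000000000000000000000000000000000000000000000000000000000000000000000000000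
theorem lP_59 : S nP_59 cP_59 10 := S_of_chk [] trivial (node 461 (merge (node 493 (merge (node 429 (merge (leaf 5 428 556) (leaf 4 429 558))) (merge (node 557 (merge (leaf 7 428 428) (node 556 (merge (leaf 5 428 429) (leaf 5 460 588))))) (merge (node 558 (merge (leaf 4 429 429) (node 590 (merge (leaf 4 461 557) (leaf 7 493 622))))) (node 557 (merge (leaf 7 428 428) (node 590 (merge (leaf 4 461 558) (node 589 (merge (leaf 4 493 622) (node 588 (merge (leaf 5 460 556) (leaf 5 492 620))))))))))))) (merge (node 493 (merge (node 557 (merge (leaf 7 428 428) (node 556 (merge (leaf 5 428 429) (leaf 5 460 588))))) (merge (node 429 (merge (leaf 5 428 556) (node 398 (merge (leaf 6 397 430) (node 397 (merge (leaf 6 365 366) (leaf 4 397 494))))))) (node 462 (merge (node 557 (merge (leaf 7 428 428) (leaf 6 429 430))) (merge (node 430 (merge (node 398 (merge (leaf 5 365 366) (leaf 5 397 494))) (node 431 (merge (leaf 2 427 459) (node 432 (merge (leaf 1 429 433) (leaf 2 428 463))))))) (node 428 (merge (leaf 7 428 557) (node 427 (merge (leaf 3 427 463) (node 426 (merge (leaf 0 425 425)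 (leaf 3 426 459))))))))))))) (merge (node 462 (merge (node 459 (merge (node 494 (merge (leaf 0 459 495) (node 430 (merge (leaf 2 427 431) (leaf 5 429 557))))) (node 490 (merge (leaf 1 458 491) (node 458 (merge (leaf 1 457 489) (node 426 (merge (leaf 3 425 425) (leaf 3 426 427))))))))) (merge (node 459 (merge (node 490 (merge (leaf 1 458 491) (node 458 (merge (leaf 1 457 489) (node 426 (merge (leaf 3 425 425) (leaf 3 426 427))))))) (merge (node 431 (merge (leaf 2 427 430) (node 463 (merge (leaf 2 428 432) (node 427 (merge (leaf 3 426 426) (leaf 3 427 428))))))) (node 490 (merge (leaf 1 458 491) (node 458 (merge (leaf 1 457 489) (node 430 (merge (leaf 2 426 429) (leaf 2 427 431)))))))))) (merge (node 459 (merge (node 490 (merge (leaf 1 458 491) (node 458 (merge (leaf 1 457 489) (node 426 (merge (leaf 3 425 425) (leaf 3 426 427))))))) (merge (node 495 (merge (leaf 0 459 494) (node 463 (merge (leaf 0 460 496) (node 427 (merge (leaf 3 426 426) (leaf 3 427 428))))))) (node 494 (merge (leaf 0 459 495) (node 490 (merge (leaf 1 458 491) (node 458 (merge (leaf 1 457 489) (node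 429 (merge (leaf 2 426 430) (leaf 7 429 558)))))))))))) (merge (node 463 (merge (node 432 (merge (leaf 2 428 431) (node 464 (merge (leaf 2 429 433) (node 428 (merge (leaf 3 427 427) (leaf 3 428 429))))))) (merge (node 496 (merge (leaf 0 460 495) (node 464 (merge (leaf 0 461 497) (node 428 (merge (leaf 3 427 427) (leaf 3 428 429))))))) (node 495 (merge (leaf 0 460 496) (node 431 (merge (leaf 2 428 432) (node 494 (merge (leaf 5 398 399) (leaf 6 430 558)))))))))) (node 459 (merge (node 494 (merge (leaf 0 459 495) (node 430 (merge (leaf 2 427 431) (leaf 5 429 557))))) (merge (node 490 (merge (leaf 1 458 491) (node 458 (merge (leaf 1 457 489) (node 430 (merge (leaf 2 426 429) (leaf 2 427 431))))))) (node 494 (merge (leaf 0 459 495) (node 490 (merge (leaf 1 458 491) (node 458 (merge (leaf 1 457 489) (node 429 (merge (leaf 7 429 558) (node 457 (merge (leaf 2 425 428) (node 425 (merge (leaf 3 424 424) (leaf 3 425 426))))))))))))))))))))) (merge (node 493 (merge (node 558 (merge (leaf 4 429 429) (node 590 (merge (leaf 4 461 557) (leaf 7 493 622))))) (merge (node 429 (merge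 (leaf 5 428 556) (node 398 (merge (leaf 6 397 430) (node 397 (merge (leaf 6 365 366) (leaf 4 397 494))))))) (node 462 (merge (node 430 (merge (leaf 6 429 557) (node 398 (merge (leaf 5 365 366) (leaf 5 397 494))))) (merge (node 430 (merge (leaf 6 429 557) (node 431 (merge (leaf 2 427 459) (node 432 (merge (leaf 1 429 433) (leaf 2 428 463))))))) (merge (node 430 (merge (node 398 (merge (leaf 5 365 366) (leaf 5 397 494))) (node 431 (merge (leaf 2 427 459) (node 432 (merge (leaf 1 429 433) (leaf 2 428 463))))))) (node 463 (merge (node 496 (merge (leaf 0 460 495) (node 431 (merge (leaf 2 428 432) (leaf 7 431 464))))) (merge (node 431 (merge (leaf 2 428 432) (node 558 (merge (leaf 6 430 494) (node 590 (merge (leaf 4 461 557) (leaf 7 493 622))))))) (node 495 (merge (leaf 0 460 496) (node 459 (merge (leaf 0 459 494) (node 490 (merge (leaf 1 458 491) (node 458 (merge (leaf 1 457 489) (node 426 (merge (leaf 3 425 425) (leaf 3 426 427))))))))))))))))))))) (merge (node 493 (merge (node 429 (merge (leaf 5 428 556) (leaf 4 429 558))) (merge (node 429 (merge (leaf 5 428 556) (node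 398 (merge (leaf 6 397 430) (node 397 (merge (leaf 6 365 366) (leaf 4 397 494))))))) (node 462 (merge (node 430 (merge (node 398 (merge (leaf 5 365 366) (leaf 5 397 494))) (node 431 (merge (leaf 2 427 459) (node 432 (merge (leaf 1 429 433) (leaf 2 428 463))))))) (merge (node 459 (merge (node 494 (merge (leaf 0 458 458) (leaf 0 459 495))) (merge (node 490 (merge (leaf 1 458 491) (node 458 (merge (leaf 1 457 489) (node 426 (merge (leaf 3 425 425) (leaf 3 426 427))))))) (node 495 (merge (leaf 0 459 494) (node 463 (merge (leaf 0 460 496) (node 427 (merge (leaf 3 426 426) (leaf 3 427 428)))))))))) (merge (node 459 (merge (node 490 (merge (leaf 1 458 491) (node 458 (merge (leaf 1 457 489) (node 426 (merge (leaf 3 425 425) (leaf 3 426 427))))))) (node 494 (merge (leaf 0 459 495) (node 430 (merge (leaf 5 397 398) (leaf 2 427 431))))))) (merge (node 431 (merge (node 463 (merge (leaf 2 428 432) (node 496 (merge (leaf 7 431 464) (leaf 0 460 495))))) (node 459 (merge (leaf 2 427 430) (node 490 (merge (leaf 1 458 491) (node 458 (merge (leaf 1 457 489) (node 426 (merge (leaf 3 425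 425) (leaf 3 426 427))))))))))) (node 463 (merge (node 496 (merge (leaf 0 460 495) (node 431 (merge (leaf 2 428 432) (leaf 7 431 464))))) (merge (node 431 (merge (leaf 2 428 432) (node 494 (merge (leaf 6 430 558) (node 399 (merge (leaf 5 366 367) (leaf 5 398 495))))))) (merge (node 431 (merge (leaf 2 428 432) (node 494 (merge (leaf 6 430 558) (node 464 (merge (leaf 1 461 465) (leaf 7 431 496))))))) (node 496 (merge (leaf 0 460 495) (node 464 (merge (leaf 0 461 497) (node 465 (merge (leaf 6 432 433) (leaf 1 461 494))))))))))))))))))) (node 493 (merge (node 557 (merge (leaf 7 428 428) (node 590 (merge (leaf 4 461 558) (node 589 (merge (leaf 4 493 622) (node 588 (merge (leaf 5 460 556) (leaf 5 492 620))))))))) (merge (node 557 (merge (leaf 7 428 428) (node 462 (merge (leaf 6 429 430) (node 494 (merge (leaf 6 461 589) (node 459 (merge (leaf 0 458 458) (leaf 0 459 495))))))))) (merge (node 462 (merge (node 430 (merge (leaf 6 429 557) (node 398 (merge (leaf 5 365 366) (leaf 5 397 494))))) (merge (node 430 (merge (leaf 6 429 557) (node 431 (merge (leaf 2 427 459) (node 432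 (merge (leaf 1 429 433) (leaf 2 428 463))))))) (merge (node 430 (merge (node 398 (merge (leaf 5 365 366) (leaf 5 397 494))) (node 431 (merge (leaf 2 427 459) (node 432 (merge (leaf 1 429 433) (leaf 2 428 463))))))) (node 463 (merge (node 496 (merge (leaf 0 460 495) (node 431 (merge (leaf 2 428 432) (leaf 7 431 464))))) (merge (node 431 (merge (leaf 2 428 432) (node 558 (merge (leaf 6 430 494) (node 590 (merge (leaf 4 461 557) (leaf 7 493 622))))))) (node 495 (merge (leaf 0 460 496) (node 459 (merge (leaf 0 459 494) (node 490 (merge (leaf 1 458 491) (node 458 (merge (leaf 1 457 489) (node 426 (merge (leaf 3 425 425) (leaf 3 426 427)))))))))))))))))) (node 462 (merge (node 430 (merge (node 398 (merge (leaf 5 365 366) (leaf 5 397 494))) (node 431 (merge (leaf 2 427 459) (node 432 (merge (leaf 1 429 433) (leaf 2 428 463))))))) (merge (node 459 (merge (node 494 (merge (leaf 0 458 458) (leaf 0 459 495))) (merge (node 490 (merge (leaf 1 458 491) (node 458 (merge (leaf 1 457 489) (node 426 (merge (leaf 3 425 425) (leaf 3 426 427))))))) (node 495 (merge (leaf 0 459 494) (node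 463 (merge (leaf 0 460 496) (node 427 (merge (leaf 3 426 426) (leaf 3 427 428)))))))))) (merge (node 459 (merge (node 490 (merge (leaf 1 458 491) (node 458 (merge (leaf 1 457 489) (node 426 (merge (leaf 3 425 425) (leaf 3 426 427))))))) (node 494 (merge (leaf 0 459 495) (node 430 (merge (leaf 5 397 398) (leaf 2 427 431))))))) (merge (node 431 (merge (node 463 (merge (leaf 2 428 432) (node 496 (merge (leaf 7 431 464) (leaf 0 460 495))))) (node 459 (merge (leaf 2 427 430) (node 490 (merge (leaf 1 458 491) (node 458 (merge (leaf 1 457 489) (node 426 (merge (leaf 3 425 425) (leaf 3 426 427))))))))))) (node 463 (merge (node 496 (merge (leaf 0 460 495) (node 431 (merge (leaf 2 428 432) (leaf 7 431 464))))) (merge (node 431 (merge (leaf 2 428 432) (node 494 (merge (leaf 6 430 558) (node 399 (merge (leaf 5 366 367) (leaf 5 398 495))))))) (merge (node 431 (merge (leaf 2 428 432) (node 494 (merge (leaf 6 430 558) (node 464 (merge (leaf 1 461 465) (leaf 7 431 496))))))) (node 496 (merge (leaf 0 460 495) (node 464 (merge (leaf 0 461 497) (node 465 (merge (leaf 6 432 433) (leaf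 1 461 494)))))))))))))))))))))))))) nP_59 cP_59 10 (by decide +kernel)
def nP_60 : ℕ := 0x100000001700000000000000010000000000000000000000000000000000000000000000000000000000000000000000000000000000000000000000000000000000000000000
def cP_60 : ℕ := 0x580000007c0000007c00000000000003ff800003ef000003ef800000e8000000e8000000000000000000000000000000000000000000000000000000000000000000000000000000000000000000
theorem lP_60 : S nP_60 cP_60 11 := S_of_chk [] trivial (node 461 (merge (node 493 (merge (node 429 (merge (leaf 5 428 556) (leaf 4 429 558))) (merge (node 558 (merge (leaf 4 429 429) (node 590 (merge (leaf 4 461 557) (leaf 7 493 622))))) (merge (node 556 (merge (leaf 5 428 429) (node 588 (merge (leaf 6 460 492) (leaf 5 460 557))))) (node 557 (merge (node 589 (merge (leaf 7 460 492) (node 590 (merge (leaf 4 461 558) (leaf 4 493 622))))) (merge (node 589 (merge (leaf 7 460 492) (node 588 (merge (leaf 5 460 556) (leaf 5 492 620))))) (merge (node 590 (merge (leaf 4 461 558) (node 589 (merge (leaf 4 493 622) (node 588 (merge (leaf 5 460 556) (leaf 5 492 620))))))) (node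 558 (merge (leaf 4 461 590) (node 556 (merge (leaf 5 460 588) (node 555 (merge (leaf 2 522 554) (node 587 (merge (leaf 5 459 492) (leaf 1 554 586))))))))))))))))) (merge (node 462 (merge (node 430 (merge (node 557 (merge (leaf 6 429 493) (leaf 5 429 494))) (node 431 (merge (leaf 2 427 459) (node 432 (merge (leaf 1 429 433) (leaf 2 428 463))))))) (merge (node 459 (merge (node 494 (merge (leaf 0 459 495) (node 430 (merge (leaf 2 427 431) (leaf 5 429 557))))) (node 490 (merge (leaf 1 458 491) (node 458 (merge (leaf 1 457 489) (node 426 (merge (leaf 3 425 425) (leaf 3 426 427))))))))) (merge (node 463 (merge (node 496 (merge (leaf 0 460 495) (node 464 (merge (leaf 7 431 431) (leaf 0 461 497))))) (merge (node 491 (merge (leaf 1 459 492) (node 459 (merge (leaf 1 458 490) (node 431 (merge (leaf 2 427 430) (leaf 2 428 432))))))) (node 496 (merge (leaf 0 460 495) (node 464 (merge (leaf 0 461 497) (node 492 (merge (leaf 1 459 491) (leaf 1 460 493)))))))))) (merge (node 463 (merge (node 431 (merge (leaf 2 428 432) (node 494 (merge (leaf 6 430 558) (node 399 (merge (leaf 5 366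 367) (leaf 5 398 495))))))) (merge (node 492 (merge (leaf 1 459 491) (node 464 (merge (leaf 1 460 493) (node 431 (merge (leaf 2 428 432) (leaf 7 431 496))))))) (node 496 (merge (leaf 0 460 495) (node 464 (merge (leaf 0 461 497) (node 492 (merge (leaf 1 459 491) (leaf 1 460 493)))))))))) (node 459 (merge (node 495 (merge (leaf 0 459 494) (node 463 (merge (leaf 0 460 496) (node 491 (merge (leaf 1 458 490) (leaf 1 459 492))))))) (merge (node 427 (merge (leaf 3 426 426) (node 492 (merge (leaf 7 427 556) (node 395 (merge (leaf 4 363 363) (leaf 4 395 491))))))) (node 494 (merge (leaf 0 459 495) (node 493 (merge (leaf 0 458 458) (node 430 (merge (leaf 5 397 398) (leaf 6 429 557))))))))))))))) (merge (node 462 (merge (node 459 (merge (node 494 (merge (leaf 0 459 495) (node 430 (merge (leaf 2 427 431) (leaf 5 429 557))))) (node 491 (merge (leaf 1 458 490) (node 492 (merge (leaf 1 459 463) (node 427 (merge (leaf 3 426 426) (leaf 7 427 556))))))))) (merge (node 463 (merge (node 496 (merge (leaf 0 460 495) (node 464 (merge (leaf 7 431 431) (leaf 0 461 497))))) (merge (node 431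 (merge (leaf 2 428 432) (node 494 (merge (leaf 6 430 558) (node 430 (merge (leaf 2 427 459) (leaf 5 429 557))))))) (node 495 (merge (leaf 0 460 496) (node 494 (merge (leaf 0 459 459) (node 558 (merge (leaf 7 429 429) (leaf 6 462 590)))))))))) (merge (node 459 (merge (node 427 (merge (leaf 3 426 426) (node 492 (merge (leaf 7 427 556) (node 395 (merge (leaf 4 363 363) (leaf 4 395 491))))))) (merge (node 494 (merge (leaf 0 459 495) (node 490 (merge (leaf 1 458 491) (node 458 (merge (leaf 1 457 489) (node 429 (merge (leaf 2 426 430) (leaf 7 429 558))))))))) (node 494 (merge (leaf 0 459 495) (node 429 (merge (leaf 7 429 558) (node 430 (merge (leaf 2 426 458) (leaf 5 429 557)))))))))) (merge (node 459 (merge (node 427 (merge (leaf 3 426 426) (node 492 (merge (leaf 7 427 556) (node 395 (merge (leaf 4 363 363) (leaf 4 395 491))))))) (merge (node 490 (merge (leaf 1 458 491) (node 458 (merge (leaf 1 457 489) (node 430 (merge (leaf 2 426 429) (leaf 2 427 431))))))) (node 431 (merge (leaf 2 427 430) (node 463 (merge (leaf 2 428 432) (node 496 (merge (leaf 7 431 464) (leaf 0 460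 495)))))))))) (merge (node 459 (merge (node 427 (merge (leaf 3 426 426) (node 492 (merge (leaf 7 427 556) (node 395 (merge (leaf 4 363 363) (leaf 4 395 491))))))) (merge (node 490 (merge (leaf 1 458 491) (node 458 (merge (leaf 1 457 489) (node 430 (merge (leaf 2 426 429) (leaf 2 427 431))))))) (node 430 (merge (leaf 2 427 431) (node 429 (merge (leaf 2 426 458) (node 494 (merge (leaf 7 397 397) (leaf 5 429 557)))))))))) (node 463 (merge (node 496 (merge (leaf 0 460 495) (node 464 (merge (leaf 7 431 431) (leaf 0 461 497))))) (merge (node 492 (merge (leaf 1 459 491) (node 556 (merge (leaf 6 428 429) (node 557 (merge (leaf 4 460 589) (node 555 (merge (leaf 2 522 554) (leaf 5 459 587))))))))) (node 496 (merge (leaf 0 460 495) (node 464 (merge (leaf 0 461 497) (node 433 (merge (leaf 2 429 432) (leaf 6 432 465)))))))))))))))) (merge (node 493 (merge (node 556 (merge (leaf 5 428 429) (node 588 (merge (leaf 6 460 492) (leaf 6 492 620))))) (merge (node 429 (merge (leaf 5 428 556) (node 398 (merge (leaf 6 397 430) (node 397 (merge (leaf 6 365 366) (leaf 4 397 494))))))) (merge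 (node 429 (merge (node 397 (merge (leaf 5 396 492) (leaf 4 397 494))) (node 430 (merge (leaf 6 397 398) (node 431 (merge (leaf 1 428 432) (node 459 (merge (leaf 2 426 458) (leaf 2 427 462))))))))) (node 557 (merge (node 462 (merge (leaf 6 429 430) (node 589 (merge (leaf 7 460 492) (leaf 6 461 494))))) (merge (node 589 (merge (leaf 7 460 492) (node 588 (merge (leaf 5 460 556) (leaf 5 492 620))))) (merge (node 462 (merge (leaf 6 429 430) (node 589 (merge (leaf 6 461 494) (node 588 (merge (leaf 5 460 556) (leaf 5 492 620))))))) (node 462 (merge (leaf 6 429 430) (node 556 (merge (leaf 5 460 588) (node 555 (merge (leaf 2 522 554) (node 492 (merge (leaf 5 459 587) (node 491 (merge (leaf 1 459 463) (leaf 0 490 490))))))))))))))))))) (merge (node 493 (merge (node 558 (merge (leaf 4 429 429) (node 590 (merge (leaf 4 461 557) (leaf 7 493 622))))) (merge (node 429 (merge (leaf 5 428 556) (node 398 (merge (leaf 6 397 430) (node 397 (merge (leaf 6 365 366) (leaf 4 397 494))))))) (node 462 (merge (node 430 (merge (leaf 6 429 557) (node 398 (merge (leaf 5 365 366) (leaf 5 397 494)))))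 (merge (node 430 (merge (leaf 6 429 557) (node 431 (merge (leaf 2 427 459) (node 432 (merge (leaf 1 429 433) (leaf 2 428 463))))))) (merge (node 430 (merge (node 398 (merge (leaf 5 365 366) (leaf 5 397 494))) (node 431 (merge (leaf 2 427 459) (node 432 (merge (leaf 1 429 433) (leaf 2 428 463))))))) (node 463 (merge (node 496 (merge (leaf 0 460 495) (node 431 (merge (leaf 2 428 432) (leaf 7 431 464))))) (merge (node 431 (merge (leaf 2 428 432) (node 558 (merge (leaf 6 430 494) (node 590 (merge (leaf 4 461 557) (leaf 7 493 622))))))) (node 495 (merge (leaf 0 460 496) (node 459 (merge (leaf 0 459 494) (node 490 (merge (leaf 1 458 491) (node 458 (merge (leaf 1 457 489) (node 426 (merge (leaf 3 425 425) (leaf 3 426 427))))))))))))))))))))) (merge (node 493 (merge (node 558 (merge (leaf 4 429 429) (node 590 (merge (leaf 4 461 557) (leaf 7 493 622))))) (merge (node 429 (merge (node 397 (merge (leaf 5 396 492) (leaf 4 397 494))) (node 430 (merge (leaf 6 397 398) (node 431 (merge (leaf 1 428 432) (node 459 (merge (leaf 2 426 458) (leaf 2 427 462))))))))) (node 462 (merge (node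 430 (merge (leaf 6 429 557) (node 398 (merge (leaf 5 365 366) (leaf 5 397 494))))) (merge (node 430 (merge (leaf 6 429 557) (node 431 (merge (leaf 2 427 459) (node 432 (merge (leaf 1 429 433) (leaf 2 428 463))))))) (merge (node 430 (merge (node 398 (merge (leaf 5 365 366) (leaf 5 397 494))) (node 431 (merge (leaf 2 427 459) (node 432 (merge (leaf 1 429 433) (leaf 2 428 463))))))) (node 463 (merge (node 496 (merge (leaf 0 460 495) (node 431 (merge (leaf 2 428 432) (leaf 7 431 464))))) (merge (node 431 (merge (leaf 2 428 432) (node 558 (merge (leaf 6 430 494) (node 590 (merge (leaf 4 461 557) (leaf 7 493 622))))))) (node 495 (merge (leaf 0 460 496) (node 459 (merge (leaf 0 459 494) (node 490 (merge (leaf 1 458 491) (node 458 (merge (leaf 1 457 489) (node 426 (merge (leaf 3 425 425) (leaf 3 426 427))))))))))))))))))))) (node 492 (merge (node 429 (merge (leaf 6 428 556) (node 397 (merge (leaf 5 364 365) (leaf 5 396 493))))) (merge (node 556 (merge (leaf 6 428 429) (node 459 (merge (leaf 7 427 427) (node 491 (merge (leaf 7 459 588) (node 490 (merge (leaf 1 458 462) (leaf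 0 489 489))))))))) (merge (node 493 (merge (node 429 (merge (leaf 5 396 397) (leaf 4 429 558))) (merge (node 494 (merge (node 495 (merge (leaf 3 459 459) (leaf 3 460 496))) (merge (node 491 (merge (leaf 0 490 490) (node 463 (merge (leaf 1 459 462) (node 495 (merge (leaf 2 460 464) (leaf 3 460 496))))))) (node 459 (merge (leaf 0 458 458) (node 491 (merge (leaf 0 490 490) (node 462 (merge (leaf 1 459 463) (node 427 (merge (leaf 3 426 426) (node 395 (merge (leaf 4 363 363) (leaf 4 395 524)))))))))))))) (node 429 (merge (node 397 (merge (leaf 5 396 492) (leaf 4 397 494))) (node 430 (merge (leaf 6 397 398) (node 431 (merge (leaf 1 428 432) (node 459 (merge (leaf 2 426 458) (leaf 2 427 462)))))))))))) (node 459 (merge (node 427 (merge (leaf 7 427 556) (node 395 (merge (leaf 4 363 363) (leaf 4 395 491))))) (merge (node 556 (merge (leaf 7 427 427) (node 588 (merge (leaf 6 460 493) (node 587 (merge (leaf 5 459 555) (leaf 5 491 619))))))) (node 458 (merge (node 493 (merge (leaf 0 457 457) (node 494 (merge (leaf 0 458 461) (leaf 3 459 495))))) (merge (node 493 (merge (leaf 0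 457 457) (node 491 (merge (leaf 0 490 490) (leaf 3 458 494))))) (merge (node 489 (merge (node 490 (merge (leaf 1 457 461) (leaf 0 489 491))) (merge (node 457 (merge (leaf 1 456 488) (node 456 (merge (leaf 0 456 491) (node 424 (merge (leaf 3 423 423) (leaf 3 424 425))))))) (node 488 (merge (leaf 1 456 457) (node 490 (merge (leaf 1 457 461) (leaf 2 455 487)))))))) (node 490 (merge (node 489 (merge (leaf 1 457 461) (leaf 0 489 491))) (merge (node 491 (merge (leaf 0 489 489) (leaf 0 490 493))) (merge (node 493 (merge (leaf 0 490 491) (node 494 (merge (leaf 0 458 461) (leaf 3 459 495))))) (node 461 (merge (leaf 1 457 489) (node 494 (merge (leaf 0 458 493) (node 462 (merge (leaf 0 459 495) (node 431 (merge (leaf 2 427 430) (node 463 (merge (leaf 2 428 432) (leaf 6 430 558))))))))))))))))))))))))))))))))) nP_60 cP_60 11 (by decide +kernel)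
def nP_61 : ℕ := 0x100000001700000000000000010000000000000000000000000000000000000000000000000000000000000000000000000000000000000000000000000000000000000000000
def cP_61 : ℕ := 0x40000000400000006000000000000003ff000003ee000003ff000000f8000000d8000000000000000000000000000000000000000000000000000000000000000000000000000000000000000000
theorem lP_61 : S nP_61 cP_61 10 := S_of_chk [] trivial (node 461 (merge (node 493 (merge (node 558 (merge (leaf 4 429 429) (node 590 (merge (leaf 4 461 557) (leaf 7 493 622))))) (merge (node 428 (merge (leaf 7 428 557) (node 396 (merge (leaf 4 364 364) (leaf 4 396 492))))) (node 429 (merge (leaf 4 429 558) (node 397 (merge (leaf 5 396 492) (leaf 4 397 494)))))))) (merge (node 462 (merge (node 459 (merge (node 494 (merge (leaf 0 459 495) (node 430 (merge (leaf 2 427 431) (leaf 5 429 557))))) (node 490 (merge (leaf 1 458 491) (node 458 (merge (leaf 1 457 489) (node 426 (merge (leaf 3 425 425) (leaf 3 426 427))))))))) (merge (node 459 (merge (node 490 (merge (leaf 1 458 491) (node 458 (merge (leaf 1 457 489) (node 426 (merge (leaf 3 425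 425) (leaf 3 426 427))))))) (merge (node 431 (merge (leaf 2 427 430) (node 463 (merge (leaf 2 428 432) (node 427 (merge (leaf 3 426 426) (leaf 3 427 428))))))) (node 490 (merge (leaf 1 458 491) (node 458 (merge (leaf 1 457 489) (node 430 (merge (leaf 2 426 429) (leaf 2 427 431)))))))))) (merge (node 459 (merge (node 490 (merge (leaf 1 458 491) (node 458 (merge (leaf 1 457 489) (node 426 (merge (leaf 3 425 425) (leaf 3 426 427))))))) (merge (node 495 (merge (leaf 0 459 494) (node 463 (merge (leaf 0 460 496) (node 427 (merge (leaf 3 426 426) (leaf 3 427 428))))))) (node 494 (merge (leaf 0 459 495) (node 490 (merge (leaf 1 458 491) (node 458 (merge (leaf 1 457 489) (node 429 (merge (leaf 2 426 430) (leaf 7 429 558)))))))))))) (merge (node 463 (merge (node 432 (merge (leaf 2 428 431) (node 464 (merge (leaf 2 429 433) (node 428 (merge (leaf 3 427 427) (leaf 3 428 429))))))) (merge (node 496 (merge (leaf 0 460 495) (node 464 (merge (leaf 0 461 497) (node 428 (merge (leaf 3 427 427) (leaf 3 428 429))))))) (node 495 (merge (leaf 0 460 496) (node 431 (merge (leaf 2 428 432)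 (node 494 (merge (leaf 5 398 399) (leaf 6 430 558)))))))))) (node 459 (merge (node 494 (merge (leaf 0 459 495) (node 430 (merge (leaf 2 427 431) (leaf 5 429 557))))) (merge (node 490 (merge (leaf 1 458 491) (node 458 (merge (leaf 1 457 489) (node 430 (merge (leaf 2 426 429) (leaf 2 427 431))))))) (node 494 (merge (leaf 0 459 495) (node 490 (merge (leaf 1 458 491) (node 458 (merge (leaf 1 457 489) (node 429 (merge (leaf 7 429 558) (node 457 (merge (leaf 2 425 428) (node 425 (merge (leaf 3 424 424) (leaf 3 425 426))))))))))))))))))))) (merge (node 493 (merge (node 558 (merge (leaf 4 429 429) (node 590 (merge (leaf 4 461 557) (leaf 7 493 622))))) (merge (node 429 (merge (node 397 (merge (leaf 5 396 492) (leaf 4 397 494))) (node 430 (merge (leaf 6 397 398) (node 431 (merge (leaf 1 428 432) (node 459 (merge (leaf 2 426 458) (leaf 2 427 462))))))))) (node 462 (merge (node 430 (merge (leaf 6 429 557) (node 398 (merge (leaf 5 365 366) (leaf 5 397 494))))) (merge (node 430 (merge (leaf 6 429 557) (node 431 (merge (leaf 2 427 459) (node 432 (merge (leaf 1 429 433) (leaf 2 428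 463))))))) (merge (node 430 (merge (node 398 (merge (leaf 5 365 366) (leaf 5 397 494))) (node 431 (merge (leaf 2 427 459) (node 432 (merge (leaf 1 429 433) (leaf 2 428 463))))))) (node 463 (merge (node 496 (merge (leaf 0 460 495) (node 431 (merge (leaf 2 428 432) (leaf 7 431 464))))) (merge (node 431 (merge (leaf 2 428 432) (node 558 (merge (leaf 6 430 494) (node 590 (merge (leaf 4 461 557) (leaf 7 493 622))))))) (node 495 (merge (leaf 0 460 496) (node 459 (merge (leaf 0 459 494) (node 490 (merge (leaf 1 458 491) (node 458 (merge (leaf 1 457 489) (node 426 (merge (leaf 3 425 425) (leaf 3 426 427))))))))))))))))))))) (merge (node 493 (merge (node 428 (merge (leaf 7 428 557) (node 396 (merge (leaf 4 364 364) (leaf 4 396 492))))) (merge (node 429 (merge (node 397 (merge (leaf 5 396 492) (leaf 4 397 494))) (node 430 (merge (leaf 6 397 398) (node 431 (merge (leaf 1 428 432) (node 459 (merge (leaf 2 426 458) (leaf 2 427 462))))))))) (node 462 (merge (node 557 (merge (leaf 7 428 428) (leaf 6 429 430))) (merge (node 430 (merge (node 398 (merge (leaf 5 365 366) (leaf 5 397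 494))) (node 431 (merge (leaf 2 427 459) (node 432 (merge (leaf 1 429 433) (leaf 2 428 463))))))) (node 428 (merge (leaf 7 428 557) (node 427 (merge (leaf 3 427 463) (node 426 (merge (leaf 0 425 425) (leaf 3 426 459))))))))))))) (merge (node 493 (merge (node 558 (merge (leaf 4 429 429) (node 590 (merge (leaf 4 461 557) (leaf 7 493 622))))) (merge (node 428 (merge (leaf 7 428 557) (node 396 (merge (leaf 4 364 364) (leaf 4 396 492))))) (node 429 (merge (leaf 4 429 558) (node 398 (merge (leaf 6 397 430) (node 397 (merge (leaf 6 365 366) (leaf 5 396 492)))))))))) (merge (node 493 (merge (node 428 (merge (leaf 7 428 557) (node 396 (merge (leaf 4 364 364) (leaf 4 396 492))))) (merge (node 462 (merge (node 430 (merge (leaf 6 429 557) (node 398 (merge (leaf 5 365 366) (leaf 5 397 494))))) (merge (node 430 (merge (leaf 6 429 557) (node 431 (merge (leaf 2 427 459) (node 432 (merge (leaf 1 429 433) (leaf 2 428 463))))))) (merge (node 430 (merge (node 398 (merge (leaf 5 365 366) (leaf 5 397 494))) (node 431 (merge (leaf 2 427 459) (node 432 (merge (leaf 1 429 433) (leaf 2 428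 463))))))) (node 463 (merge (node 496 (merge (leaf 0 460 495) (node 431 (merge (leaf 2 428 432) (leaf 7 431 464))))) (merge (node 431 (merge (leaf 2 428 432) (node 558 (merge (leaf 6 430 494) (node 590 (merge (leaf 4 461 557) (leaf 7 493 622))))))) (node 495 (merge (leaf 0 460 496) (node 459 (merge (leaf 0 459 494) (node 490 (merge (leaf 1 458 491) (node 458 (merge (leaf 1 457 489) (node 426 (merge (leaf 3 425 425) (leaf 3 426 427)))))))))))))))))) (node 462 (merge (node 430 (merge (node 398 (merge (leaf 5 365 366) (leaf 5 397 494))) (node 431 (merge (leaf 2 427 459) (node 432 (merge (leaf 1 429 433) (leaf 2 428 463))))))) (merge (node 459 (merge (node 494 (merge (leaf 0 458 458) (leaf 0 459 495))) (merge (node 490 (merge (leaf 1 458 491) (node 458 (merge (leaf 1 457 489) (node 426 (merge (leaf 3 425 425) (leaf 3 426 427))))))) (node 495 (merge (leaf 0 459 494) (node 463 (merge (leaf 0 460 496) (node 427 (merge (leaf 3 426 426) (leaf 3 427 428)))))))))) (merge (node 459 (merge (node 490 (merge (leaf 1 458 491) (node 458 (merge (leaf 1 457 489) (node 426 (merge (leaf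 3 425 425) (leaf 3 426 427))))))) (node 494 (merge (leaf 0 459 495) (node 430 (merge (leaf 5 397 398) (leaf 2 427 431))))))) (merge (node 431 (merge (node 463 (merge (leaf 2 428 432) (node 496 (merge (leaf 7 431 464) (leaf 0 460 495))))) (node 459 (merge (leaf 2 427 430) (node 490 (merge (leaf 1 458 491) (node 458 (merge (leaf 1 457 489) (node 426 (merge (leaf 3 425 425) (leaf 3 426 427))))))))))) (node 463 (merge (node 496 (merge (leaf 0 460 495) (node 431 (merge (leaf 2 428 432) (leaf 7 431 464))))) (merge (node 431 (merge (leaf 2 428 432) (node 494 (merge (leaf 6 430 558) (node 399 (merge (leaf 5 366 367) (leaf 5 398 495))))))) (merge (node 431 (merge (leaf 2 428 432) (node 494 (merge (leaf 6 430 558) (node 464 (merge (leaf 1 461 465) (leaf 7 431 496))))))) (node 496 (merge (leaf 0 460 495) (node 464 (merge (leaf 0 461 497) (node 465 (merge (leaf 6 432 433) (leaf 1 461 494))))))))))))))))))) (node 493 (merge (node 429 (merge (leaf 4 429 558) (node 397 (merge (leaf 5 396 492) (leaf 4 397 494))))) (merge (node 429 (merge (leaf 4 429 558) (node 398 (merge (leaf 6 397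 430) (node 397 (merge (leaf 6 365 366) (leaf 5 396 492))))))) (merge (node 462 (merge (node 430 (merge (node 398 (merge (leaf 5 365 366) (leaf 5 397 494))) (node 431 (merge (leaf 2 427 459) (node 432 (merge (leaf 1 429 433) (leaf 2 428 463))))))) (merge (node 459 (merge (node 494 (merge (leaf 0 458 458) (leaf 0 459 495))) (merge (node 490 (merge (leaf 1 458 491) (node 458 (merge (leaf 1 457 489) (node 426 (merge (leaf 3 425 425) (leaf 3 426 427))))))) (node 495 (merge (leaf 0 459 494) (node 463 (merge (leaf 0 460 496) (node 427 (merge (leaf 3 426 426) (leaf 3 427 428)))))))))) (merge (node 459 (merge (node 490 (merge (leaf 1 458 491) (node 458 (merge (leaf 1 457 489) (node 426 (merge (leaf 3 425 425) (leaf 3 426 427))))))) (node 494 (merge (leaf 0 459 495) (node 430 (merge (leaf 5 397 398) (leaf 2 427 431))))))) (merge (node 431 (merge (node 463 (merge (leaf 2 428 432) (node 496 (merge (leaf 7 431 464) (leaf 0 460 495))))) (node 459 (merge (leaf 2 427 430) (node 490 (merge (leaf 1 458 491) (node 458 (merge (leaf 1 457 489) (node 426 (merge (leaf 3 425 425) (leaf 3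 426 427))))))))))) (node 463 (merge (node 496 (merge (leaf 0 460 495) (node 431 (merge (leaf 2 428 432) (leaf 7 431 464))))) (merge (node 431 (merge (leaf 2 428 432) (node 494 (merge (leaf 6 430 558) (node 399 (merge (leaf 5 366 367) (leaf 5 398 495))))))) (merge (node 431 (merge (leaf 2 428 432) (node 494 (merge (leaf 6 430 558) (node 464 (merge (leaf 1 461 465) (leaf 7 431 496))))))) (node 496 (merge (leaf 0 460 495) (node 464 (merge (leaf 0 461 497) (node 465 (merge (leaf 6 432 433) (leaf 1 461 494)))))))))))))))) (node 459 (merge (node 494 (merge (leaf 0 458 458) (node 495 (merge (leaf 0 459 462) (leaf 3 460 496))))) (merge (node 458 (merge (leaf 0 458 494) (node 457 (merge (leaf 0 457 492) (node 489 (merge (leaf 1 456 488) (leaf 1 457 490))))))) (merge (node 462 (merge (node 494 (merge (leaf 0 459 495) (node 430 (merge (leaf 5 397 398) (leaf 2 427 431))))) (node 491 (merge (leaf 1 458 490) (node 463 (merge (leaf 1 459 492) (node 427 (merge (leaf 3 426 426) (leaf 3 427 428))))))))) (node 492 (merge (node 458 (merge (leaf 0 457 457) (node 490 (merge (leaf 1 457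 489) (leaf 0 490 491))))) (merge (node 458 (merge (leaf 0 457 457) (node 426 (merge (leaf 3 425 425) (node 462 (merge (leaf 3 426 427) (node 463 (merge (leaf 1 460 464) (node 431 (merge (leaf 2 427 430) (leaf 2 428 432))))))))))) (node 491 (merge (leaf 0 490 490) (node 462 (merge (leaf 1 459 463) (node 427 (merge (leaf 3 426 426) (node 395 (merge (leaf 4 363 363) (leaf 4 395 524))))))))))))))))))))))))))) nP_61 cP_61 10 (by decide +kernel)
def nP_62 : ℕ := 0x700000000000000010000000000000000000000000000000000000000000000000000000000000000000000000000000000000000000000000000000000000000000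
def cP_62 : ℕ := 0x2000000038000000780000005800000000000001ff800001ef000001ff800000f800000038000000380000002000000000000000000000000000000000000000000000000000000000000000000000000000
theorem lP_62 : S nP_62 cP_62 11 := S_of_chk [] trivial (node 492 (merge (node 429 (merge (node 428 (merge (leaf 6 396 397) (node 395 (merge (leaf 7 395 427) (node 396 (merge (leaf 7 363 363) (leaf 4 396 493))))))) (merge (node 397 (merge (leaf 6 396 428) (node 461 (merge (leaf 5 364 365) (leaf 6 428 556))))) (node 556 (merge (leaf 6 428 461) (node 587 (merge (leaf 5 459 555) (node 588 (merge (leaf 5 491 619) (node 620 (merge (leaf 6 492 493) (node 621 (merge (leaf 4 492 589) (leaf 4 524 653)))))))))))))) (merge (node 556 (merge (node 459 (merge (leaf 7 427 427) (node 491 (merge (leaf 7 459 588) (node 490 (merge (leaf 0 489 489) (leaf 0 490 493))))))) (merge (node 459 (merge (leaf 7 427 427) (node 588 (merge (leaf 7 459 491) (node 587 (merge (leaf 5 459 555) (leaf 5 491 619))))))) (merge (node 587 (merge (leaf 5 459 555) (node 588 (merge (leaf 5 491 619) (node 620 (merge (leaf 6 492 493)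 (node 621 (merge (leaf 4 492 589) (leaf 4 524 653))))))))) (node 427 (merge (leaf 7 427 459) (node 428 (merge (leaf 7 395 395) (node 397 (merge (leaf 6 396 429) (node 396 (merge (leaf 6 364 365) (leaf 4 396 493))))))))))))) (merge (node 493 (merge (node 428 (merge (leaf 4 396 396) (node 429 (merge (leaf 6 396 397) (node 461 (merge (leaf 6 428 556) (leaf 4 429 558))))))) (merge (node 494 (merge (node 459 (merge (leaf 3 459 495) (node 458 (merge (leaf 0 457 457) (leaf 0 458 461))))) (merge (node 491 (merge (leaf 0 490 490) (node 495 (merge (leaf 1 492 496) (node 463 (merge (leaf 2 459 462) (leaf 2 460 464))))))) (node 491 (merge (leaf 0 490 490) (node 462 (merge (leaf 2 459 463) (node 459 (merge (leaf 3 458 458) (node 430 (merge (leaf 5 397 398) (node 431 (merge (leaf 6 398 399) (leaf 2 427 461)))))))))))))) (node 494 (merge (node 495 (merge (leaf 3 459 459) (leaf 1 492 496))) (merge (node 491 (merge (leaf 0 490 490) (node 462 (merge (leaf 2 459 463) (node 459 (merge (leaf 3 458 458) (node 428 (merge (leaf 4 396 396) (node 429 (merge (leaf 6 396 397) (node 430 (merge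 (leaf 5 397 398) (leaf 1 427 431))))))))))))) (node 495 (merge (leaf 1 492 496) (node 463 (merge (leaf 2 460 464) (node 558 (merge (leaf 6 462 590) (node 431 (merge (leaf 5 398 399) (leaf 6 430 462))))))))))))))) (merge (node 459 (merge (node 427 (merge (leaf 7 427 556) (node 395 (merge (leaf 4 363 363) (leaf 7 395 428))))) (node 458 (merge (node 493 (merge (leaf 0 457 457) (node 494 (merge (leaf 0 458 461) (leaf 3 459 495))))) (merge (node 493 (merge (leaf 0 457 457) (node 491 (merge (leaf 0 490 490) (leaf 3 458 494))))) (merge (node 489 (merge (node 490 (merge (leaf 1 457 461) (leaf 0 489 491))) (merge (node 457 (merge (leaf 1 456 488) (node 456 (merge (leaf 0 456 491) (node 424 (merge (leaf 3 423 423) (leaf 3 424 425))))))) (node 488 (merge (leaf 1 456 457) (node 490 (merge (leaf 1 457 461) (leaf 2 455 487)))))))) (node 490 (merge (node 489 (merge (leaf 1 457 461) (leaf 0 489 491))) (merge (node 491 (merge (leaf 0 489 489) (leaf 0 490 493))) (merge (node 493 (merge (leaf 0 490 491) (node 494 (merge (leaf 0 458 461) (leaf 3 459 495))))) (node 461 (merge (leaf 1 457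 489) (node 494 (merge (leaf 0 458 493) (node 462 (merge (leaf 0 459 495) (node 431 (merge (leaf 2 427 430) (node 463 (merge (leaf 2 428 432) (leaf 6 430 558))))))))))))))))))))) (merge (node 461 (merge (node 429 (merge (leaf 6 428 556) (node 397 (merge (leaf 5 364 365) (leaf 5 396 493))))) (merge (node 556 (merge (leaf 6 428 429) (node 459 (merge (leaf 7 427 427) (node 491 (merge (leaf 7 459 588) (node 490 (merge (leaf 1 458 462) (leaf 0 489 489))))))))) (merge (node 493 (merge (node 429 (merge (leaf 5 396 397) (leaf 4 429 558))) (merge (node 494 (merge (node 495 (merge (leaf 3 459 459) (leaf 3 460 496))) (merge (node 491 (merge (leaf 0 490 490) (node 463 (merge (leaf 1 459 462) (node 495 (merge (leaf 2 460 464) (leaf 3 460 496))))))) (node 459 (merge (leaf 0 458 458) (node 491 (merge (leaf 0 490 490) (node 462 (merge (leaf 1 459 463) (node 427 (merge (leaf 3 426 426) (node 395 (merge (leaf 4 363 363) (leaf 4 395 524)))))))))))))) (node 429 (merge (node 397 (merge (leaf 5 396 492) (leaf 4 397 494))) (node 430 (merge (leaf 6 397 398) (node 431 (merge (leaf 1 428 432)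 (node 459 (merge (leaf 2 426 458) (leaf 2 427 462)))))))))))) (node 459 (merge (node 427 (merge (leaf 7 427 556) (node 395 (merge (leaf 4 363 363) (leaf 4 395 491))))) (merge (node 556 (merge (leaf 7 427 427) (node 588 (merge (leaf 6 460 493) (node 587 (merge (leaf 5 459 555) (leaf 5 491 619))))))) (node 458 (merge (node 493 (merge (leaf 0 457 457) (node 494 (merge (leaf 0 458 461) (leaf 3 459 495))))) (merge (node 493 (merge (leaf 0 457 457) (node 491 (merge (leaf 0 490 490) (leaf 3 458 494))))) (merge (node 489 (merge (node 490 (merge (leaf 1 457 461) (leaf 0 489 491))) (merge (node 457 (merge (leaf 1 456 488) (node 456 (merge (leaf 0 456 491) (node 424 (merge (leaf 3 423 423) (leaf 3 424 425))))))) (node 488 (merge (leaf 1 456 457) (node 490 (merge (leaf 1 457 461) (leaf 2 455 487)))))))) (node 490 (merge (node 489 (merge (leaf 1 457 461) (leaf 0 489 491))) (merge (node 491 (merge (leaf 0 489 489) (leaf 0 490 493))) (merge (node 493 (merge (leaf 0 490 491) (node 494 (merge (leaf 0 458 461) (leaf 3 459 495))))) (node 461 (merge (leaf 1 457 489) (node 494 (merge (leaf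 0 458 493) (node 462 (merge (leaf 0 459 495) (node 431 (merge (leaf 2 427 430) (node 463 (merge (leaf 2 428 432) (leaf 6 430 558)))))))))))))))))))))))))) (merge (node 493 (merge (node 428 (merge (leaf 4 396 396) (node 429 (merge (leaf 6 396 397) (node 461 (merge (leaf 4 429 558) (node 430 (merge (leaf 6 397 398) (node 431 (merge (leaf 1 428 432) (leaf 1 427 459))))))))))) (merge (node 428 (merge (leaf 4 396 396) (node 429 (merge (leaf 6 396 397) (node 427 (merge (leaf 7 395 395) (node 461 (merge (leaf 4 429 558) (node 426 (merge (leaf 0 425 425) (leaf 0 426 462))))))))))) (merge (node 494 (merge (node 459 (merge (leaf 3 459 495) (node 458 (merge (leaf 0 457 457) (leaf 0 458 461))))) (merge (node 491 (merge (leaf 0 490 490) (node 495 (merge (leaf 1 492 496) (node 463 (merge (leaf 2 459 462) (leaf 2 460 464))))))) (node 491 (merge (leaf 0 490 490) (node 462 (merge (leaf 2 459 463) (node 459 (merge (leaf 3 458 458) (node 430 (merge (leaf 5 397 398) (node 431 (merge (leaf 6 398 399) (leaf 2 427 461)))))))))))))) (node 494 (merge (node 495 (merge (leaf 3 459 459) (leaf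 1 492 496))) (merge (node 491 (merge (leaf 0 490 490) (node 462 (merge (leaf 2 459 463) (node 459 (merge (leaf 3 458 458) (node 428 (merge (leaf 4 396 396) (node 429 (merge (leaf 6 396 397) (node 430 (merge (leaf 5 397 398) (leaf 1 427 431))))))))))))) (node 495 (merge (leaf 1 492 496) (node 463 (merge (leaf 2 460 464) (node 558 (merge (leaf 6 462 590) (node 431 (merge (leaf 5 398 399) (leaf 6 430 462)))))))))))))))) (node 459 (merge (node 427 (merge (leaf 7 427 556) (node 395 (merge (leaf 4 363 363) (leaf 7 395 428))))) (merge (node 556 (merge (leaf 7 427 427) (node 588 (merge (leaf 7 459 491) (node 587 (merge (leaf 5 459 555) (leaf 5 491 619))))))) (merge (node 428 (merge (node 429 (merge (leaf 6 396 397) (node 430 (merge (leaf 1 427 431) (node 458 (merge (leaf 2 425 457) (leaf 2 426 461))))))) (node 396 (merge (node 395 (merge (leaf 7 363 363) (leaf 7 395 427))) (merge (node 364 (merge (leaf 5 363 491) (node 333 (merge (leaf 6 332 365) (node 332 (merge (leaf 6 300 301) (leaf 5 331 427))))))) (node 363 (merge (leaf 7 363 395) (node 364 (merge (leaf 7 331 331) (leaf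 5 363 491)))))))))) (node 461 (merge (node 429 (merge (leaf 6 428 556) (node 397 (merge (leaf 5 364 365) (leaf 6 396 428))))) (node 458 (merge (node 489 (merge (leaf 1 457 490) (node 457 (merge (leaf 1 456 488) (node 425 (merge (leaf 3 424 424) (leaf 3 425 426))))))) (merge (node 490 (merge (leaf 1 457 489) (node 462 (merge (leaf 1 458 491) (node 495 (merge (leaf 0 459 494) (node 463 (merge (leaf 0 460 496) (node 431 (merge (leaf 2 427 430) (leaf 2 428 432))))))))))) (merge (node 425 (merge (leaf 3 425 426) (node 457 (merge (leaf 3 424 424) (node 491 (merge (leaf 0 456 456) (node 462 (merge (leaf 1 459 463) (leaf 1 458 490))))))))) (node 425 (merge (leaf 3 425 426) (node 457 (merge (leaf 3 424 424) (node 456 (merge (leaf 0 456 491) (node 488 (merge (leaf 1 455 487) (leaf 1 456 489)))))))))))))))))))))))))) nP_62 cP_62 11 (by decide +kernel)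
def nP_63 : ℕ := 0x100000001700000000000000000000000000000000000000000000000000000000000000000000000000000000000000000000000000000000000000000000000000000000000
def cP_63 : ℕ := 0x20000000780000007c0000007c00000000000003ff800003ff000003ff800000f8000000f8000000380000002000000000000000000000000000000000000000000000000000000000000000000000000000
theorem lP_63 : S nP_63 cP_63 12 := S_of_chk [(nP_59, cP_59, 10), (nP_60, cP_60, 11), (nP_61, cP_61, 10), (nP_62, cP_62, 11)] ⟨lP_59, lP_60, lP_61, lP_62, trivial⟩ (node 460 (merge (node 492 (merge (node 557 (merge (leaf 4 428 428) (node 589 (merge (leaf 4 460 556) (leaf 7 492 621))))) (merge (node 428 (merge (leaf 4 428 557) (node 395 (merge (leaf 7 395 427) (node 396 (merge (leaf 7 363 363) (leaf 4 396 493))))))) (merge (node 556 (merge (node 557 (merge (leaf 4 460 589) (node 555 (merge (leaf 2 522 554) (leaf 5 459 587))))) (merge (node 461 (merge (leaf 6 428 429) (node 588 (merge (leaf 6 460 493) (node 589 (merge (leaf 4 460 557) (leaf 4 492 621))))))) (node 461 (merge (leaf 6 428 429) (node 588 (merge (leaf 6 460 493) (node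 587 (merge (leaf 5 459 555) (leaf 5 491 619)))))))))) (node 429 (merge (node 428 (merge (leaf 6 396 397) (node 395 (merge (leaf 7 395 427) (node 396 (merge (leaf 7 363 363) (leaf 4 396 493))))))) (merge (node 397 (merge (leaf 6 396 428) (node 461 (merge (leaf 5 364 365) (leaf 6 428 556))))) (node 556 (merge (leaf 6 428 461) (node 587 (merge (leaf 5 459 555) (node 588 (merge (leaf 5 491 619) (node 620 (merge (leaf 6 492 493) (node 621 (merge (leaf 4 492 589) (leaf 4 524 653)))))))))))))))))) (merge (node 492 (merge (node 557 (merge (leaf 4 428 428) (node 589 (merge (leaf 7 460 493) (leaf 4 460 556))))) (merge (node 428 (merge (leaf 4 428 557) (node 395 (merge (leaf 7 395 427) (node 396 (merge (leaf 7 363 363) (leaf 4 396 493))))))) (merge (node 556 (merge (node 557 (merge (leaf 4 460 589) (node 555 (merge (leaf 2 522 554) (leaf 5 459 587))))) (merge (node 459 (merge (leaf 7 427 427) (node 588 (merge (leaf 7 459 491) (node 589 (merge (leaf 4 460 557) (leaf 4 492 621))))))) (node 459 (merge (leaf 7 427 427) (node 588 (merge (leaf 7 459 491) (node 587 (merge (leaf 5 459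 555) (leaf 5 491 619)))))))))) (node 556 (merge (node 459 (merge (leaf 7 427 427) (node 491 (merge (leaf 7 459 588) (node 490 (merge (leaf 0 489 489) (leaf 0 490 493))))))) (merge (node 459 (merge (leaf 7 427 427) (node 588 (merge (leaf 7 459 491) (node 587 (merge (leaf 5 459 555) (leaf 5 491 619))))))) (merge (node 587 (merge (leaf 5 459 555) (node 588 (merge (leaf 5 491 619) (node 620 (merge (leaf 6 492 493) (node 621 (merge (leaf 4 492 589) (leaf 4 524 653))))))))) (node 427 (merge (leaf 7 427 459) (node 428 (merge (leaf 7 395 395) (node 397 (merge (leaf 6 396 429) (node 396 (merge (leaf 6 364 365) (leaf 4 396 493))))))))))))))))) (merge (hyp 0) (merge (node 492 (merge (node 557 (merge (leaf 4 428 428) (node 589 (merge (leaf 4 460 556) (leaf 7 492 621))))) (merge (node 428 (merge (leaf 4 428 557) (node 397 (merge (leaf 6 396 429) (node 396 (merge (leaf 6 364 365) (leaf 4 396 493))))))) (merge (node 556 (merge (node 557 (merge (leaf 4 460 589) (node 555 (merge (leaf 2 522 554) (leaf 5 459 587))))) (merge (node 461 (merge (leaf 6 428 429) (node 588 (merge (leaf 6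 460 493) (node 589 (merge (leaf 4 460 557) (leaf 4 492 621))))))) (node 461 (merge (leaf 6 428 429) (node 588 (merge (leaf 6 460 493) (node 587 (merge (leaf 5 459 555) (leaf 5 491 619)))))))))) (node 493 (merge (node 428 (merge (leaf 4 396 396) (node 429 (merge (leaf 6 396 397) (node 461 (merge (leaf 6 428 556) (leaf 4 429 558))))))) (merge (node 494 (merge (node 459 (merge (leaf 3 459 495) (node 458 (merge (leaf 0 457 457) (leaf 0 458 461))))) (merge (node 491 (merge (leaf 0 490 490) (node 495 (merge (leaf 1 492 496) (node 463 (merge (leaf 2 459 462) (leaf 2 460 464))))))) (node 491 (merge (leaf 0 490 490) (node 462 (merge (leaf 2 459 463) (node 459 (merge (leaf 3 458 458) (node 430 (merge (leaf 5 397 398) (node 431 (merge (leaf 6 398 399) (leaf 2 427 461)))))))))))))) (node 494 (merge (node 495 (merge (leaf 3 459 459) (leaf 1 492 496))) (merge (node 491 (merge (leaf 0 490 490) (node 462 (merge (leaf 2 459 463) (node 459 (merge (leaf 3 458 458) (node 428 (merge (leaf 4 396 396) (node 429 (merge (leaf 6 396 397) (node 430 (merge (leaf 5 397 398) (leaf 1 427 431)))))))))))))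 (node 495 (merge (leaf 1 492 496) (node 463 (merge (leaf 2 460 464) (node 558 (merge (leaf 6 462 590) (node 431 (merge (leaf 5 398 399) (leaf 6 430 462))))))))))))))))))) (merge (node 492 (merge (node 557 (merge (leaf 4 428 428) (node 589 (merge (leaf 7 460 493) (leaf 4 460 556))))) (merge (node 428 (merge (leaf 4 428 557) (node 395 (merge (leaf 7 395 427) (node 396 (merge (leaf 7 363 363) (leaf 4 396 493))))))) (merge (node 556 (merge (node 557 (merge (leaf 4 460 589) (node 555 (merge (leaf 2 522 554) (leaf 5 459 587))))) (merge (node 459 (merge (leaf 7 427 427) (node 588 (merge (leaf 7 459 491) (node 589 (merge (leaf 4 460 557) (leaf 4 492 621))))))) (node 459 (merge (leaf 7 427 427) (node 588 (merge (leaf 7 459 491) (node 587 (merge (leaf 5 459 555) (leaf 5 491 619)))))))))) (node 459 (merge (node 427 (merge (leaf 7 427 556) (node 395 (merge (leaf 4 363 363) (leaf 7 395 428))))) (node 458 (merge (node 493 (merge (leaf 0 457 457) (node 494 (merge (leaf 0 458 461) (leaf 3 459 495))))) (merge (node 493 (merge (leaf 0 457 457) (node 491 (merge (leaf 0 490 490) (leaf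 3 458 494))))) (merge (node 489 (merge (node 490 (merge (leaf 1 457 461) (leaf 0 489 491))) (merge (node 457 (merge (leaf 1 456 488) (node 456 (merge (leaf 0 456 491) (node 424 (merge (leaf 3 423 423) (leaf 3 424 425))))))) (node 488 (merge (leaf 1 456 457) (node 490 (merge (leaf 1 457 461) (leaf 2 455 487)))))))) (node 490 (merge (node 489 (merge (leaf 1 457 461) (leaf 0 489 491))) (merge (node 491 (merge (leaf 0 489 489) (leaf 0 490 493))) (merge (node 493 (merge (leaf 0 490 491) (node 494 (merge (leaf 0 458 461) (leaf 3 459 495))))) (node 461 (merge (leaf 1 457 489) (node 494 (merge (leaf 0 458 493) (node 462 (merge (leaf 0 459 495) (node 431 (merge (leaf 2 427 430) (node 463 (merge (leaf 2 428 432) (leaf 6 430 558))))))))))))))))))))))))) (merge (hyp 1) (merge (hyp 2) (merge (node 492 (merge (node 557 (merge (leaf 4 428 428) (node 589 (merge (leaf 4 460 556) (leaf 7 492 621))))) (merge (node 428 (merge (leaf 4 428 557) (node 397 (merge (leaf 6 396 429) (node 396 (merge (leaf 6 364 365) (node 395 (merge (leaf 7 363 363) (leaf 7 395 427))))))))) (merge (node 556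 (merge (node 557 (merge (leaf 4 460 589) (node 555 (merge (leaf 2 522 554) (leaf 5 459 587))))) (merge (node 459 (merge (leaf 7 427 427) (node 588 (merge (leaf 7 459 491) (node 589 (merge (leaf 4 460 557) (leaf 4 492 621))))))) (node 459 (merge (leaf 7 427 427) (node 588 (merge (leaf 7 459 491) (node 587 (merge (leaf 5 459 555) (leaf 5 491 619)))))))))) (node 459 (merge (node 427 (merge (leaf 7 427 556) (node 395 (merge (leaf 4 363 363) (leaf 7 395 428))))) (merge (node 556 (merge (leaf 7 427 427) (node 588 (merge (leaf 7 459 491) (node 587 (merge (leaf 5 459 555) (leaf 5 491 619))))))) (merge (node 428 (merge (node 429 (merge (leaf 6 396 397) (node 430 (merge (leaf 1 427 431) (node 458 (merge (leaf 2 425 457) (leaf 2 426 461))))))) (node 396 (merge (node 395 (merge (leaf 7 363 363) (leaf 7 395 427))) (merge (node 364 (merge (leaf 5 363 491) (node 333 (merge (leaf 6 332 365) (node 332 (merge (leaf 6 300 301) (leaf 5 331 427))))))) (node 363 (merge (leaf 7 363 395) (node 364 (merge (leaf 7 331 331) (leaf 5 363 491)))))))))) (node 461 (merge (node 429 (merge (leaf 6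 428 556) (node 397 (merge (leaf 5 364 365) (leaf 6 396 428))))) (node 458 (merge (node 489 (merge (leaf 1 457 490) (node 457 (merge (leaf 1 456 488) (node 425 (merge (leaf 3 424 424) (leaf 3 425 426))))))) (merge (node 490 (merge (leaf 1 457 489) (node 462 (merge (leaf 1 458 491) (node 495 (merge (leaf 0 459 494) (node 463 (merge (leaf 0 460 496) (node 431 (merge (leaf 2 427 430) (leaf 2 428 432))))))))))) (merge (node 425 (merge (leaf 3 425 426) (node 457 (merge (leaf 3 424 424) (node 491 (merge (leaf 0 456 456) (node 462 (merge (leaf 1 459 463) (leaf 1 458 490))))))))) (node 425 (merge (leaf 3 425 426) (node 457 (merge (leaf 3 424 424) (node 456 (merge (leaf 0 456 491) (node 488 (merge (leaf 1 455 487) (leaf 1 456 489))))))))))))))))))))))) (hyp 3)))))))))) nP_63 cP_63 12 (by decide +kernel)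
def nP_64 : ℕ := 0x10000000100000001600000000000000000000000000000000000000000000000000000000000000000000000000000000000000000000000000000000000000000000000000000000000
def cP_64 : ℕ := 0x20000000a4000000fc000000fc0000027f8000001f00000fff80001fff00000fff800002fc000000f8000000380000002000000000000000000000000000000000000000000000000000000000000000000000000000
theorem lP_64 : S nP_64 cP_64 13 := S_of_chk [(nP_58, cP_58, 12), (nP_63, cP_63, 12)] ⟨lP_58, lP_63, trivial⟩ (node 524 (merge (node 523 (merge (node 554 (merge (leaf 1 522 555) (node 522 (merge (leaf 1 521 553) (node 490 (merge (leaf 3 489 489) (leaf 3 490 491))))))) (merge (node 554 (merge (leaf 1 522 555) (node 522 (merge (leaf 1 521 553) (node 494 (merge (leaf 2 490 493) (leaf 2 491 495))))))) (merge (node 494 (merge (leaf 2 491 495) (node 522 (merge (leaf 2 490 493) (node 490 (merge (leaf 3 489 489) (leaf 3 490 491))))))) (node 494 (merge (leaf 2 491 495) (node 491 (merge (leaf 3 490 490) (node 459 (merge (node 556 (merge (leaf 4 427 427) (node 588 (merge (leaf 7 459 492) (leaf 7 491 620))))) (merge (node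 555 (merge (leaf 1 522 554) (node 556 (merge (leaf 4 427 427) (leaf 4 459 588))))) (node 555 (merge (leaf 1 522 554) (node 460 (merge (leaf 6 427 428) (node 492 (merge (leaf 6 459 587) (node 458 (merge (leaf 7 426 426) (leaf 3 458 493)))))))))))))))))))) (merge (node 494 (merge (node 523 (merge (leaf 2 491 495) (node 554 (merge (leaf 1 522 555) (node 522 (merge (leaf 2 490 493) (leaf 1 521 553))))))) (merge (node 591 (merge (node 623 (merge (leaf 5 495 496) (node 590 (merge (leaf 4 494 558) (node 589 (merge (leaf 2 557 561) (node 621 (merge (leaf 6 493 557) (leaf 1 588 620))))))))) (merge (node 496 (merge (leaf 5 495 623) (node 465 (merge (leaf 6 464 497) (node 464 (merge (leaf 6 432 433) (node 463 (merge (leaf 7 431 431) (node 462 (merge (leaf 1 461 493) (node 430 (merge (leaf 3 429 429) (leaf 5 429 557))))))))))))) (merge (node 589 (merge (node 557 (merge (leaf 6 493 621) (node 462 (merge (leaf 5 429 430) (leaf 6 461 493))))) (merge (node 590 (merge (leaf 2 557 561) (node 557 (merge (leaf 3 556 556) (node 462 (merge (leaf 5 429 430) (leaf 5 461 558))))))) (node 590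 (merge (leaf 2 557 561) (node 621 (merge (leaf 1 588 620) (node 558 (merge (leaf 5 493 494) (node 653 (merge (leaf 5 525 622) (leaf 6 557 685)))))))))))) (node 496 (merge (leaf 5 495 623) (node 465 (merge (leaf 6 464 497) (node 464 (merge (leaf 6 432 433) (node 463 (merge (leaf 7 431 431) (node 462 (merge (leaf 1 461 493) (node 429 (merge (leaf 3 429 430) (node 461 (merge (leaf 3 428 428) (leaf 7 429 558))))))))))))))))))) (node 495 (merge (leaf 2 491 523) (node 462 (merge (node 557 (merge (leaf 5 429 430) (node 589 (merge (leaf 5 461 558) (leaf 6 493 621))))) (merge (node 430 (merge (leaf 5 429 557) (node 399 (merge (leaf 6 398 431) (node 398 (merge (leaf 6 366 367) (node 397 (merge (leaf 7 365 365) (leaf 7 397 429))))))))) (node 463 (merge (node 431 (merge (leaf 6 430 558) (node 399 (merge (leaf 5 366 367) (leaf 5 398 495))))) (merge (node 431 (merge (leaf 5 398 399) (node 496 (merge (leaf 7 431 464) (leaf 1 493 497))))) (node 558 (merge (leaf 6 462 590) (node 461 (merge (leaf 7 429 429) (node 460 (merge (leaf 0 459 459) (leaf 0 460 496)))))))))))))))))) (merge (node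 494 (merge (node 495 (merge (leaf 2 491 523) (node 496 (merge (leaf 1 492 493) (leaf 1 493 497))))) (merge (node 462 (merge (node 557 (merge (leaf 5 429 430) (node 589 (merge (leaf 6 461 493) (leaf 6 493 621))))) (merge (node 557 (merge (leaf 5 429 430) (node 589 (merge (leaf 5 461 558) (leaf 6 493 621))))) (merge (node 430 (merge (node 399 (merge (leaf 6 398 431) (node 398 (merge (leaf 6 366 367) (leaf 5 397 493))))) (merge (node 398 (merge (leaf 5 397 493) (node 397 (merge (leaf 7 365 365) (leaf 7 397 429))))) (node 431 (merge (leaf 6 398 399) (node 558 (merge (leaf 6 430 463) (node 429 (merge (leaf 7 397 397) (leaf 7 429 461)))))))))) (node 461 (merge (node 429 (merge (leaf 7 429 558) (node 397 (merge (leaf 4 365 365) (leaf 4 397 493))))) (merge (node 558 (merge (leaf 7 429 429) (node 463 (merge (leaf 6 430 431) (node 590 (merge (leaf 6 462 495) (node 589 (merge (leaf 5 461 557) (leaf 5 493 621))))))))) (merge (node 493 (merge (node 557 (merge (leaf 6 461 589) (node 460 (merge (leaf 7 428 428) (node 459 (merge (leaf 0 458 458) (leaf 0 459 495))))))) (node 558 (merge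 (leaf 7 461 590) (node 463 (merge (leaf 6 430 431) (node 464 (merge (leaf 1 461 465) (leaf 1 460 492))))))))) (node 493 (merge (node 429 (merge (leaf 4 397 397) (node 524 (merge (leaf 5 428 556) (node 523 (merge (leaf 2 491 495) (leaf 2 490 522))))))) (merge (node 557 (merge (leaf 6 461 589) (node 460 (merge (leaf 7 428 428) (node 459 (merge (leaf 0 458 458) (leaf 0 459 495))))))) (node 557 (merge (leaf 6 461 589) (node 429 (merge (leaf 4 397 397) (node 556 (merge (leaf 5 428 524) (leaf 5 460 588)))))))))))))))))) (merge (node 495 (merge (leaf 2 491 523) (node 462 (merge (node 557 (merge (leaf 5 429 430) (node 589 (merge (leaf 5 461 558) (leaf 6 493 621))))) (merge (node 430 (merge (leaf 5 429 557) (node 399 (merge (leaf 6 398 431) (node 398 (merge (leaf 6 366 367) (node 397 (merge (leaf 7 365 365) (leaf 7 397 429))))))))) (node 463 (merge (node 431 (merge (leaf 6 430 558) (node 399 (merge (leaf 5 366 367) (leaf 5 398 495))))) (merge (node 431 (merge (leaf 5 398 399) (node 496 (merge (leaf 7 431 464) (leaf 1 493 497))))) (node 558 (merge (leaf 6 462 590) (node 461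 (merge (leaf 7 429 429) (node 460 (merge (leaf 0 459 459) (leaf 0 460 496))))))))))))))) (node 462 (merge (node 557 (merge (leaf 5 429 430) (node 589 (merge (leaf 5 461 558) (leaf 6 493 621))))) (merge (node 430 (merge (leaf 5 429 557) (node 397 (merge (leaf 7 397 429) (node 398 (merge (leaf 7 365 365) (leaf 5 397 493))))))) (merge (node 430 (merge (node 399 (merge (leaf 6 398 431) (node 398 (merge (leaf 6 366 367) (leaf 5 397 493))))) (merge (node 398 (merge (leaf 5 397 493) (node 397 (merge (leaf 7 365 365) (leaf 7 397 429))))) (node 431 (merge (leaf 6 398 399) (node 558 (merge (leaf 6 430 463) (node 429 (merge (leaf 7 397 397) (leaf 7 429 461)))))))))) (node 463 (merge (node 558 (merge (leaf 6 430 431) (node 589 (merge (leaf 5 461 557) (node 590 (merge (leaf 5 493 621) (node 622 (merge (leaf 7 493 493) (node 623 (merge (leaf 4 494 591) (leaf 4 526 655))))))))))) (merge (node 464 (merge (node 465 (merge (leaf 1 461 493) (node 433 (merge (leaf 2 430 434) (leaf 6 432 496))))) (merge (node 493 (merge (leaf 1 461 465) (node 492 (merge (leaf 1 460 461) (leaf 2 459 491)))))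 (merge (node 496 (merge (leaf 7 431 431) (node 461 (merge (leaf 0 461 497) (node 433 (merge (leaf 2 429 432) (leaf 6 432 465))))))) (node 496 (merge (leaf 7 431 431) (node 461 (merge (leaf 0 461 497) (node 493 (merge (leaf 1 460 492) (node 429 (merge (leaf 4 397 397) (leaf 3 428 428))))))))))))) (merge (node 461 (merge (node 558 (merge (leaf 7 429 429) (leaf 6 430 431))) (merge (node 429 (merge (leaf 7 429 558) (node 428 (merge (leaf 3 428 464) (node 427 (merge (leaf 0 426 426) (leaf 3 427 460))))))) (merge (node 431 (merge (leaf 6 430 558) (node 464 (merge (leaf 7 431 496) (node 432 (merge (leaf 2 429 433) (leaf 2 428 460))))))) (node 464 (merge (node 496 (merge (leaf 7 431 431) (leaf 0 461 497))) (merge (node 432 (merge (leaf 2 429 433) (node 460 (merge (leaf 2 428 431) (node 428 (merge (leaf 3 427 427) (leaf 3 428 429))))))) (node 496 (merge (leaf 0 461 497) (node 433 (merge (leaf 2 429 432) (leaf 6 432 465)))))))))))) (node 461 (merge (node 429 (merge (leaf 7 429 558) (node 397 (merge (leaf 4 365 365) (leaf 4 397 493))))) (merge (node 429 (merge (leaf 7 429 558)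 (node 428 (merge (leaf 3 428 464) (node 427 (merge (leaf 0 426 426) (leaf 3 427 460))))))) (merge (node 493 (merge (node 464 (merge (leaf 1 461 465) (leaf 1 460 492))) (node 557 (merge (leaf 6 461 589) (node 429 (merge (leaf 4 397 397) (node 556 (merge (leaf 5 428 524) (leaf 5 460 588))))))))) (node 492 (merge (node 464 (merge (leaf 1 460 493) (node 496 (merge (leaf 0 461 497) (node 433 (merge (leaf 2 429 432) (leaf 6 432 465))))))) (node 460 (merge (leaf 1 459 491) (node 428 (merge (leaf 3 427 427) (node 557 (merge (leaf 4 428 524) (node 589 (merge (leaf 5 461 558) (leaf 6 493 621))))))))))))))))))))))))))) (merge (node 494 (merge (node 495 (merge (leaf 2 491 523) (node 496 (merge (leaf 1 492 493) (leaf 1 493 497))))) (merge (node 523 (merge (leaf 2 491 495) (node 554 (merge (leaf 1 522 555) (node 522 (merge (leaf 1 521 553) (node 490 (merge (leaf 3 489 489) (leaf 3 490 491))))))))) (merge (node 493 (merge (node 461 (merge (node 429 (merge (leaf 4 397 397) (leaf 5 428 556))) (node 462 (merge (node 557 (merge (leaf 6 429 430) (leaf 6 461 589))) (node 558 (merge (leaf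 7 461 590) (node 463 (merge (leaf 6 430 431) (node 464 (merge (leaf 1 461 465) (leaf 1 460 492))))))))))) (merge (node 556 (merge (node 588 (merge (leaf 6 492 620) (node 461 (merge (leaf 5 428 429) (leaf 6 460 492))))) (merge (node 588 (merge (leaf 6 492 620) (node 523 (merge (leaf 2 490 522) (node 491 (merge (leaf 3 490 490) (node 459 (merge (leaf 4 427 427) (leaf 4 459 555))))))))) (node 523 (merge (leaf 2 490 522) (node 491 (merge (leaf 3 490 490) (node 459 (merge (leaf 4 427 427) (node 458 (merge (leaf 3 458 492) (node 461 (merge (leaf 5 428 429) (leaf 0 458 460)))))))))))))) (merge (node 491 (merge (node 523 (merge (leaf 3 490 490) (leaf 2 490 522))) (node 462 (merge (node 557 (merge (leaf 5 429 430) (leaf 6 461 589))) (node 463 (merge (leaf 2 459 492) (node 431 (merge (leaf 6 430 558) (node 464 (merge (leaf 1 461 465) (leaf 7 431 496))))))))))) (node 556 (merge (node 588 (merge (leaf 6 492 620) (node 461 (merge (leaf 5 428 429) (leaf 5 460 557))))) (merge (node 588 (merge (leaf 6 492 620) (node 523 (merge (leaf 2 490 522) (node 491 (merge (leaf 3 490 490) (node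 459 (merge (leaf 4 427 427) (leaf 4 459 555))))))))) (node 523 (merge (leaf 2 490 522) (node 555 (merge (leaf 1 522 554) (node 491 (merge (leaf 3 490 490) (node 459 (merge (leaf 4 427 427) (node 458 (merge (leaf 7 426 426) (node 461 (merge (leaf 5 428 429) (leaf 0 458 460)))))))))))))))))))) (node 462 (merge (node 557 (merge (leaf 5 429 430) (node 589 (merge (leaf 5 461 558) (leaf 6 493 621))))) (merge (node 430 (merge (leaf 5 429 557) (node 397 (merge (leaf 7 397 429) (node 398 (merge (leaf 7 365 365) (leaf 5 397 493))))))) (merge (node 430 (merge (node 399 (merge (leaf 6 398 431) (node 398 (merge (leaf 6 366 367) (leaf 5 397 493))))) (merge (node 398 (merge (leaf 5 397 493) (node 397 (merge (leaf 7 365 365) (leaf 7 397 429))))) (node 431 (merge (leaf 6 398 399) (node 558 (merge (leaf 6 430 463) (node 429 (merge (leaf 7 397 397) (leaf 7 429 461)))))))))) (node 461 (merge (node 429 (merge (leaf 7 429 558) (node 397 (merge (leaf 4 365 365) (leaf 4 397 493))))) (merge (node 558 (merge (leaf 7 429 429) (node 463 (merge (leaf 6 430 431) (node 495 (merge (leaf 6 462 590)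 (node 460 (merge (leaf 0 459 459) (leaf 0 460 496))))))))) (merge (node 463 (merge (node 431 (merge (leaf 6 430 558) (node 399 (merge (leaf 5 366 367) (leaf 5 398 495))))) (merge (node 558 (merge (leaf 6 430 431) (node 590 (merge (leaf 7 461 493) (node 589 (merge (leaf 5 461 557) (leaf 5 493 621))))))) (node 496 (merge (node 464 (merge (leaf 0 461 497) (node 433 (merge (leaf 2 429 432) (leaf 6 432 465))))) (node 495 (merge (leaf 1 492 493) (node 460 (merge (leaf 0 459 459) (leaf 0 460 463)))))))))) (node 493 (merge (node 556 (merge (leaf 5 428 429) (node 588 (merge (leaf 5 460 557) (leaf 6 492 620))))) (node 492 (merge (node 491 (merge (leaf 2 459 463) (leaf 0 490 490))) (merge (node 491 (merge (leaf 0 490 490) (node 495 (merge (leaf 1 492 496) (node 459 (merge (leaf 3 458 458) (leaf 3 459 460))))))) (node 463 (merge (leaf 1 460 464) (node 495 (merge (leaf 1 492 496) (node 460 (merge (leaf 0 459 459) (node 431 (merge (leaf 5 398 399) (leaf 2 428 432)))))))))))))))))))))))))) (merge (node 494 (merge (node 495 (merge (leaf 2 491 523) (node 496 (merge (leaf 1 492 493)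 (leaf 1 493 497))))) (merge (node 523 (merge (leaf 2 491 495) (node 554 (merge (leaf 1 522 555) (node 522 (merge (leaf 1 521 553) (node 490 (merge (leaf 3 489 489) (leaf 3 490 491))))))))) (node 462 (merge (node 557 (merge (leaf 5 429 430) (node 589 (merge (leaf 5 461 558) (leaf 6 493 621))))) (merge (node 430 (merge (leaf 5 429 557) (node 397 (merge (leaf 7 397 429) (node 398 (merge (leaf 7 365 365) (leaf 5 397 493))))))) (merge (node 430 (merge (node 399 (merge (leaf 6 398 431) (node 398 (merge (leaf 6 366 367) (leaf 5 397 493))))) (merge (node 398 (merge (leaf 5 397 493) (node 397 (merge (leaf 7 365 365) (leaf 7 397 429))))) (node 431 (merge (leaf 6 398 399) (node 558 (merge (leaf 6 430 463) (node 429 (merge (leaf 7 397 397) (leaf 7 429 461)))))))))) (node 463 (merge (node 558 (merge (leaf 6 430 431) (node 589 (merge (leaf 5 461 557) (node 590 (merge (leaf 5 493 621) (node 622 (merge (leaf 7 493 493) (node 623 (merge (leaf 4 494 591) (leaf 4 526 655))))))))))) (merge (node 464 (merge (node 465 (merge (leaf 1 461 493) (node 433 (merge (leaf 2 430 434) (leaf 6 432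 496))))) (merge (node 493 (merge (leaf 1 461 465) (node 492 (merge (leaf 1 460 461) (leaf 2 459 491))))) (merge (node 496 (merge (leaf 7 431 431) (node 461 (merge (leaf 0 461 497) (node 433 (merge (leaf 2 429 432) (leaf 6 432 465))))))) (node 496 (merge (leaf 7 431 431) (node 461 (merge (leaf 0 461 497) (node 493 (merge (leaf 1 460 492) (node 429 (merge (leaf 4 397 397) (leaf 3 428 428))))))))))))) (merge (node 461 (merge (node 558 (merge (leaf 7 429 429) (leaf 6 430 431))) (merge (node 429 (merge (leaf 7 429 558) (node 428 (merge (leaf 3 428 464) (node 427 (merge (leaf 0 426 426) (leaf 3 427 460))))))) (merge (node 431 (merge (leaf 6 430 558) (node 464 (merge (leaf 7 431 496) (node 432 (merge (leaf 2 429 433) (leaf 2 428 460))))))) (node 464 (merge (node 496 (merge (leaf 7 431 431) (leaf 0 461 497))) (merge (node 432 (merge (leaf 2 429 433) (node 460 (merge (leaf 2 428 431) (node 428 (merge (leaf 3 427 427) (leaf 3 428 429))))))) (node 496 (merge (leaf 0 461 497) (node 433 (merge (leaf 2 429 432) (leaf 6 432 465)))))))))))) (node 461 (merge (node 429 (merge (leaf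 7 429 558) (node 397 (merge (leaf 4 365 365) (leaf 4 397 493))))) (merge (node 429 (merge (leaf 7 429 558) (node 428 (merge (leaf 3 428 464) (node 427 (merge (leaf 0 426 426) (leaf 3 427 460))))))) (merge (node 493 (merge (node 464 (merge (leaf 1 461 465) (leaf 1 460 492))) (node 557 (merge (leaf 6 461 589) (node 429 (merge (leaf 4 397 397) (node 556 (merge (leaf 5 428 524) (leaf 5 460 588))))))))) (node 492 (merge (node 464 (merge (leaf 1 460 493) (node 496 (merge (leaf 0 461 497) (node 433 (merge (leaf 2 429 432) (leaf 6 432 465))))))) (node 460 (merge (leaf 1 459 491) (node 428 (merge (leaf 3 427 427) (node 557 (merge (leaf 4 428 524) (node 589 (merge (leaf 5 461 558) (leaf 6 493 621)))))))))))))))))))))))))) (merge (node 494 (merge (node 495 (merge (leaf 2 491 523) (node 496 (merge (leaf 1 492 493) (leaf 1 493 497))))) (merge (node 523 (merge (leaf 2 491 495) (node 554 (merge (leaf 1 522 555) (node 522 (merge (leaf 1 521 553) (node 490 (merge (leaf 3 489 489) (leaf 3 490 491))))))))) (merge (node 496 (merge (node 495 (merge (leaf 1 492 493) (leaf 1 493 497))) (merge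 (node 462 (merge (node 557 (merge (leaf 5 429 430) (node 589 (merge (leaf 5 461 558) (leaf 6 493 621))))) (merge (node 463 (merge (node 431 (merge (leaf 7 431 464) (leaf 6 430 558))) (merge (node 497 (merge (leaf 1 493 495) (node 464 (merge (leaf 0 461 461) (node 498 (merge (leaf 0 462 465) (leaf 3 463 499))))))) (node 431 (merge (leaf 6 430 558) (node 399 (merge (leaf 5 366 367) (leaf 5 398 495)))))))) (node 430 (merge (leaf 5 429 557) (node 431 (merge (leaf 6 398 399) (node 464 (merge (leaf 7 431 463) (node 433 (merge (leaf 6 432 465) (node 432 (merge (leaf 6 400 401) (leaf 1 429 461)))))))))))))) (merge (node 462 (merge (node 557 (merge (leaf 5 429 430) (node 589 (merge (leaf 5 461 558) (leaf 6 493 621))))) (merge (node 430 (merge (leaf 5 429 557) (node 397 (merge (leaf 7 397 429) (node 398 (merge (leaf 7 365 365) (leaf 5 397 493))))))) (merge (node 430 (merge (node 399 (merge (leaf 6 398 431) (node 398 (merge (leaf 6 366 367) (leaf 5 397 493))))) (merge (node 398 (merge (leaf 5 397 493) (node 397 (merge (leaf 7 365 365) (leaf 7 397 429))))) (node 431 (merge (leaf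 6 398 399) (node 558 (merge (leaf 6 430 463) (node 429 (merge (leaf 7 397 397) (leaf 7 429 461)))))))))) (node 463 (merge (node 431 (merge (leaf 7 431 464) (leaf 6 430 558))) (merge (node 464 (merge (leaf 7 431 431) (node 465 (merge (leaf 6 432 433) (node 462 (merge (leaf 1 461 493) (node 497 (merge (leaf 0 461 461) (leaf 0 462 498))))))))) (merge (node 464 (merge (node 465 (merge (leaf 6 432 433) (leaf 1 461 493))) (node 461 (merge (leaf 0 461 497) (node 429 (merge (leaf 3 428 428) (leaf 7 429 558))))))) (node 558 (merge (leaf 6 430 431) (node 461 (merge (leaf 7 429 429) (node 590 (merge (leaf 7 461 493) (node 589 (merge (leaf 5 461 557) (leaf 5 493 621))))))))))))))))) (node 462 (merge (node 557 (merge (leaf 5 429 430) (node 589 (merge (leaf 5 461 558) (leaf 6 493 621))))) (merge (node 430 (merge (leaf 5 429 557) (node 399 (merge (leaf 6 398 431) (node 398 (merge (leaf 6 366 367) (leaf 5 397 493))))))) (node 493 (merge (node 495 (merge (leaf 1 492 524) (node 461 (merge (leaf 3 460 460) (node 558 (merge (leaf 7 429 429) (leaf 7 461 590))))))) (merge (node 463 (merge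 (node 558 (merge (leaf 6 430 431) (node 461 (merge (leaf 7 429 429) (leaf 7 461 590))))) (merge (node 464 (merge (leaf 1 461 465) (node 492 (merge (leaf 1 460 461) (leaf 2 459 491))))) (node 431 (merge (leaf 6 430 558) (node 464 (merge (leaf 1 461 465) (leaf 7 431 496)))))))) (node 495 (merge (leaf 1 492 524) (node 464 (merge (leaf 2 461 465) (node 492 (merge (leaf 2 460 463) (node 491 (merge (leaf 0 490 490) (node 459 (merge (leaf 3 458 458) (leaf 3 459 460))))))))))))))))))))) (node 462 (merge (node 557 (merge (leaf 5 429 430) (node 589 (merge (leaf 5 461 558) (leaf 6 493 621))))) (merge (node 430 (merge (leaf 5 429 557) (node 397 (merge (leaf 7 397 429) (node 398 (merge (leaf 7 365 365) (leaf 5 397 493))))))) (merge (node 430 (merge (node 399 (merge (leaf 6 398 431) (node 398 (merge (leaf 6 366 367) (leaf 5 397 493))))) (merge (node 398 (merge (leaf 5 397 493) (node 397 (merge (leaf 7 365 365) (leaf 7 397 429))))) (node 431 (merge (leaf 6 398 399) (node 558 (merge (leaf 6 430 463) (node 429 (merge (leaf 7 397 397) (leaf 7 429 461)))))))))) (node 463 (merge (node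 523 (merge (node 554 (merge (leaf 1 522 555) (node 522 (merge (leaf 2 490 493) (leaf 1 521 553))))) (merge (node 493 (merge (leaf 2 490 522) (node 491 (merge (leaf 3 490 490) (leaf 2 459 492))))) (merge (node 554 (merge (leaf 1 522 555) (node 522 (merge (leaf 1 521 553) (node 490 (merge (leaf 3 489 489) (leaf 3 490 491))))))) (node 555 (merge (leaf 1 522 554) (node 491 (merge (leaf 3 490 490) (node 492 (merge (leaf 2 459 493) (node 460 (merge (leaf 5 427 428) (leaf 1 459 461))))))))))))) (merge (node 558 (merge (leaf 6 430 431) (node 589 (merge (leaf 5 461 557) (node 590 (merge (leaf 5 493 621) (node 622 (merge (leaf 7 493 493) (node 623 (merge (leaf 4 494 591) (leaf 4 526 655))))))))))) (node 461 (merge (node 558 (merge (leaf 7 429 429) (leaf 6 430 431))) (merge (node 429 (merge (leaf 7 429 558) (node 428 (merge (leaf 3 428 464) (node 427 (merge (leaf 0 426 426) (leaf 3 427 460))))))) (merge (node 431 (merge (leaf 6 430 558) (node 464 (merge (leaf 7 431 496) (node 432 (merge (leaf 2 429 433) (leaf 2 428 460))))))) (node 464 (merge (node 496 (merge (leaf 7 431 431)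 (leaf 0 461 497))) (merge (node 432 (merge (leaf 2 429 433) (node 460 (merge (leaf 2 428 431) (node 428 (merge (leaf 3 427 427) (leaf 3 428 429))))))) (node 496 (merge (leaf 0 461 497) (node 433 (merge (leaf 2 429 432) (leaf 6 432 465))))))))))))))))))))))) (merge (node 523 (merge (node 554 (merge (leaf 1 522 555) (node 522 (merge (leaf 1 521 553) (node 490 (merge (leaf 3 489 489) (leaf 3 490 491))))))) (merge (node 491 (merge (leaf 3 490 490) (node 459 (merge (node 556 (merge (leaf 4 427 427) (node 588 (merge (leaf 7 459 492) (leaf 7 491 620))))) (merge (node 555 (merge (leaf 1 522 554) (node 556 (merge (leaf 4 427 427) (leaf 4 459 588))))) (merge (node 555 (merge (leaf 1 522 554) (node 460 (merge (leaf 6 427 428) (node 492 (merge (leaf 6 459 587) (node 426 (merge (leaf 7 426 458) (node 427 (merge (leaf 7 394 394) (leaf 4 395 395))))))))))) (node 555 (merge (leaf 1 522 554) (node 460 (merge (leaf 6 427 428) (node 587 (merge (leaf 6 459 492) (node 588 (merge (leaf 4 459 556) (leaf 4 491 620))))))))))))))) (merge (node 522 (merge (node 490 (merge (leaf 3 489 489) (leaf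 3 490 491))) (merge (node 557 (merge (leaf 0 522 558) (node 521 (merge (leaf 0 521 556) (node 552 (merge (leaf 1 520 553) (node 520 (merge (leaf 1 519 551) (node 492 (merge (leaf 2 488 491) (leaf 2 489 493))))))))))) (node 557 (merge (leaf 0 522 558) (node 521 (merge (leaf 0 521 556) (node 489 (merge (leaf 3 488 488) (leaf 3 489 490)))))))))) (merge (node 554 (merge (leaf 1 522 555) (node 522 (merge (leaf 1 521 553) (node 557 (merge (leaf 0 522 558) (node 521 (merge (leaf 0 521 556) (node 489 (merge (leaf 3 488 488) (leaf 3 489 490))))))))))) (node 554 (merge (leaf 1 522 555) (node 522 (merge (leaf 1 521 553) (node 557 (merge (leaf 0 522 558) (node 521 (merge (leaf 0 521 556) (node 492 (merge (leaf 2 489 493) (node 520 (merge (leaf 2 488 491) (node 488 (merge (leaf 3 487 487) (leaf 3 488 489)))))))))))))))))))) (merge (node 494 (merge (node 495 (merge (leaf 2 491 523) (node 496 (merge (leaf 1 492 493) (leaf 1 493 497))))) (merge (node 523 (merge (leaf 2 491 495) (node 554 (merge (leaf 1 522 555) (node 522 (merge (leaf 1 521 553) (node 490 (merge (leaf 3 489 489) (leaf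 3 490 491))))))))) (merge (node 462 (merge (node 557 (merge (leaf 5 429 430) (node 589 (merge (leaf 5 461 558) (leaf 6 493 621))))) (merge (node 430 (merge (leaf 5 429 557) (node 397 (merge (leaf 7 397 429) (node 398 (merge (leaf 7 365 365) (leaf 5 397 493))))))) (node 463 (merge (node 431 (merge (leaf 6 430 558) (node 399 (merge (leaf 5 366 367) (leaf 5 398 495))))) (merge (node 558 (merge (leaf 6 430 431) (node 461 (merge (leaf 7 429 429) (node 493 (merge (leaf 7 461 590) (node 464 (merge (leaf 1 461 465) (leaf 1 460 492))))))))) (merge (node 431 (merge (node 399 (merge (leaf 5 366 367) (leaf 5 398 495))) (node 464 (merge (leaf 7 431 496) (node 493 (merge (leaf 1 461 465) (node 492 (merge (leaf 1 460 461) (leaf 2 459 491))))))))) (node 496 (merge (node 495 (merge (leaf 1 492 493) (leaf 1 493 497))) (merge (node 493 (merge (leaf 1 492 495) (node 464 (merge (leaf 1 461 465) (node 492 (merge (leaf 1 460 461) (leaf 2 459 491))))))) (merge (node 497 (merge (leaf 1 493 495) (node 464 (merge (leaf 0 461 461) (node 498 (merge (leaf 0 462 465) (leaf 3 463 499))))))) (node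 464 (merge (node 465 (merge (leaf 6 432 433) (leaf 1 461 493))) (node 461 (merge (leaf 0 461 497) (node 429 (merge (leaf 3 428 428) (leaf 7 429 558)))))))))))))))))) (node 493 (merge (node 461 (merge (node 429 (merge (leaf 4 397 397) (leaf 5 428 556))) (node 462 (merge (node 557 (merge (leaf 6 429 430) (leaf 6 461 589))) (node 558 (merge (leaf 7 461 590) (node 463 (merge (leaf 6 430 431) (node 464 (merge (leaf 1 461 465) (leaf 1 460 492))))))))))) (merge (node 556 (merge (node 588 (merge (leaf 6 492 620) (node 461 (merge (leaf 5 428 429) (leaf 6 460 492))))) (merge (node 588 (merge (leaf 6 492 620) (node 523 (merge (leaf 2 490 522) (node 491 (merge (leaf 3 490 490) (node 459 (merge (leaf 4 427 427) (leaf 4 459 555))))))))) (node 523 (merge (leaf 2 490 522) (node 555 (merge (leaf 1 522 554) (node 491 (merge (leaf 3 490 490) (node 459 (merge (leaf 4 427 427) (node 458 (merge (leaf 7 426 426) (leaf 3 458 492)))))))))))))) (merge (node 491 (merge (node 523 (merge (leaf 3 490 490) (leaf 2 490 522))) (node 462 (merge (node 557 (merge (leaf 5 429 430) (leaf 6 461 589))) (node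 463 (merge (leaf 2 459 492) (node 431 (merge (leaf 6 430 558) (node 464 (merge (leaf 1 461 465) (leaf 7 431 496))))))))))) (node 555 (merge (node 523 (merge (leaf 2 490 522) (leaf 1 522 554))) (merge (node 557 (merge (node 589 (merge (leaf 6 461 462) (leaf 6 493 621))) (node 556 (merge (leaf 2 522 554) (node 588 (merge (leaf 5 460 461) (leaf 6 492 620))))))) (node 588 (merge (node 556 (merge (leaf 6 492 620) (node 461 (merge (leaf 5 428 429) (leaf 5 460 557))))) (merge (node 556 (merge (leaf 6 492 620) (node 523 (merge (leaf 2 490 522) (node 491 (merge (leaf 3 490 490) (node 459 (merge (leaf 4 427 427) (leaf 4 459 555))))))))) (merge (node 523 (merge (leaf 2 490 522) (node 491 (merge (leaf 3 490 490) (node 556 (merge (leaf 4 459 459) (node 461 (merge (leaf 5 428 429) (leaf 5 460 557))))))))) (node 523 (merge (leaf 2 490 522) (node 491 (merge (leaf 3 490 490) (node 587 (merge (leaf 4 491 620) (node 618 (merge (leaf 5 490 586) (node 619 (merge (leaf 5 522 650) (node 590 (merge (leaf 1 586 589) (node 558 (merge (leaf 7 461 461) (leaf 7 493 622))))))))))))))))))))))))))))))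 (merge (hyp 0) (hyp 1))))))))))) nP_64 cP_64 13 (by decide +kernel)
def nP_65 : ℕ := 0x10000000100000001000000000000000000000000000000000000000000000000000000000000000000000000000000000000000000000000000000000000000000000000000000000000
def cP_65 : ℕ := 0x80000003c0000003f000001ffc00000ffe00001cfc0000027f800000ff00000fff80001fff00000fff800003fc000003fc000002b80000002000000000000000000000000000000000000000000000000000000000000000000000000000
theorem lP_65 : S nP_65 cP_65 18 := S_of_chk [(nP_54, cP_54, 12), (nP_55, cP_55, 13), (nP_57, cP_57, 16), (nP_64, cP_64, 13)] ⟨lP_54, lP_55, lP_57, lP_64, trivial⟩ (node 525 (merge (node 527 (merge (node 495 (merge (leaf 7 495 624) (node 463 (merge (leaf 4 431 431) (leaf 7 463 496))))) (node 526 (merge (leaf 0 525 561) (node 556 (merge (leaf 1 524 557) (node 524 (merge (leaf 1 523 555) (node 492 (merge (leaf 3 491 491) (leaf 3 492 493))))))))))) (merge (node 624 (merge (node 657 (merge (leaf 4 528 625) (node 656 (merge (leaf 4 560 689) (node 655 (merge (leaf 5 527 623) (leaf 5 559 687))))))) (node 495 (merge (leaf 7 495 527) (node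 496 (merge (leaf 7 463 463) (node 497 (merge (leaf 6 464 465) (node 494 (merge (leaf 1 493 526) (node 493 (merge (leaf 1 492 524) (node 461 (merge (leaf 3 460 460) (leaf 3 461 462))))))))))))))) (merge (node 624 (merge (node 657 (merge (leaf 4 528 625) (node 656 (merge (leaf 4 560 689) (node 655 (merge (leaf 5 527 623) (leaf 5 559 687))))))) (node 527 (merge (leaf 7 495 495) (node 526 (merge (leaf 0 525 561) (node 556 (merge (leaf 1 524 557) (node 524 (merge (leaf 1 523 555) (node 492 (merge (leaf 3 491 491) (leaf 3 492 493))))))))))))) (merge (node 623 (merge (node 591 (merge (leaf 5 495 496) (node 655 (merge (leaf 5 527 624) (leaf 6 559 687))))) (merge (node 496 (merge (leaf 5 495 591) (node 497 (merge (leaf 6 464 465) (node 495 (merge (leaf 7 463 463) (node 526 (merge (leaf 1 493 494) (leaf 2 493 527))))))))) (node 624 (merge (leaf 5 527 655) (node 621 (merge (node 657 (merge (leaf 4 528 625) (node 656 (merge (leaf 0 621 622) (leaf 4 560 689))))) (node 527 (merge (leaf 7 495 495) (node 526 (merge (leaf 0 525 561) (node 557 (merge (leaf 1 524 556) (node 589 (merge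 (leaf 6 493 494) (node 653 (merge (leaf 6 525 558) (node 652 (merge (leaf 5 524 620) (leaf 5 556 684)))))))))))))))))))) (merge (hyp 0) (merge (node 495 (merge (node 527 (merge (leaf 7 495 624) (node 463 (merge (leaf 4 431 431) (leaf 7 463 496))))) (merge (node 624 (merge (leaf 7 495 527) (node 657 (merge (leaf 4 528 625) (node 656 (merge (leaf 4 560 689) (node 655 (merge (leaf 5 527 623) (leaf 5 559 687))))))))) (merge (hyp 1) (node 493 (merge (node 496 (merge (leaf 7 463 463) (node 494 (merge (leaf 1 492 524) (node 492 (merge (leaf 0 492 527) (node 460 (merge (leaf 3 459 459) (leaf 3 460 461))))))))) (merge (node 496 (merge (leaf 7 463 463) (node 465 (merge (leaf 6 464 497) (node 464 (merge (leaf 6 432 433) (leaf 2 461 494))))))) (merge (node 494 (merge (node 496 (merge (leaf 1 492 524) (node 465 (merge (leaf 2 461 464) (leaf 6 464 497))))) (merge (node 492 (merge (leaf 0 492 527) (node 460 (merge (leaf 3 459 459) (node 496 (merge (leaf 3 460 461) (node 465 (merge (leaf 2 461 464) (leaf 6 464 497))))))))) (node 492 (merge (leaf 0 492 527) (node 523 (merge (leaf 1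 491 524) (node 491 (merge (leaf 1 490 522) (node 459 (merge (leaf 3 458 458) (leaf 3 459 460)))))))))))) (merge (node 492 (merge (node 494 (merge (leaf 0 492 527) (node 463 (merge (leaf 2 460 464) (node 491 (merge (leaf 2 459 462) (node 459 (merge (leaf 3 458 458) (leaf 3 459 460))))))))) (merge (node 494 (merge (leaf 0 492 527) (node 524 (merge (leaf 1 491 523) (node 460 (merge (leaf 3 459 459) (node 428 (merge (leaf 4 396 396) (leaf 4 428 557))))))))) (merge (node 494 (merge (leaf 0 492 527) (node 523 (merge (leaf 1 491 524) (node 491 (merge (leaf 1 490 522) (node 463 (merge (leaf 2 459 462) (leaf 2 460 464))))))))) (node 557 (merge (node 460 (merge (leaf 7 460 589) (node 428 (merge (leaf 7 428 461) (leaf 4 428 524))))) (merge (node 589 (merge (leaf 7 460 460) (node 590 (merge (leaf 4 493 622) (node 591 (merge (leaf 3 556 556) (leaf 2 557 561))))))) (merge (node 461 (merge (node 430 (merge (leaf 6 429 462) (node 429 (merge (leaf 6 397 398) (node 556 (merge (leaf 5 428 524) (leaf 5 460 588))))))) (merge (node 462 (merge (leaf 6 429 430) (node 463 (merge (leaf 1 460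 464) (node 491 (merge (leaf 1 459 460) (leaf 2 458 490))))))) (node 428 (merge (leaf 7 428 460) (node 429 (merge (leaf 7 396 396) (node 556 (merge (leaf 5 428 524) (leaf 5 460 588)))))))))) (node 588 (merge (node 556 (merge (leaf 5 460 461) (node 620 (merge (leaf 5 492 589) (leaf 6 524 652))))) (merge (node 589 (merge (leaf 5 492 620) (node 621 (merge (leaf 7 492 524) (node 622 (merge (leaf 4 493 590) (leaf 4 525 654))))))) (merge (node 556 (merge (leaf 5 460 461) (node 620 (merge (leaf 6 492 524) (leaf 6 524 652))))) (node 461 (merge (leaf 5 460 556) (node 430 (merge (leaf 6 429 462) (node 429 (merge (leaf 6 397 398) (node 590 (merge (leaf 4 461 558) (node 589 (merge (leaf 4 493 622) (node 524 (merge (leaf 5 396 397) (leaf 7 492 621))))))))))))))))))))))))) (node 589 (merge (node 496 (merge (leaf 7 463 463) (node 591 (merge (leaf 5 495 623) (node 590 (merge (leaf 2 557 561) (node 557 (merge (leaf 3 556 556) (leaf 4 493 622))))))))) (merge (node 557 (merge (node 492 (merge (leaf 7 460 460) (node 621 (merge (leaf 7 492 524) (node 622 (merge (leaf 4 493 590) (leaf 4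 525 654))))))) (merge (node 590 (merge (leaf 4 493 622) (node 556 (merge (leaf 3 556 591) (node 588 (merge (leaf 5 460 461) (leaf 5 492 620))))))) (node 460 (merge (leaf 7 460 492) (node 461 (merge (leaf 7 428 428) (node 588 (merge (leaf 5 460 556) (leaf 5 492 620)))))))))) (merge (node 496 (merge (leaf 7 463 463) (node 591 (merge (leaf 5 495 623) (node 590 (merge (leaf 2 557 561) (node 620 (merge (leaf 1 588 621) (node 557 (merge (leaf 5 492 588) (leaf 4 493 622))))))))))) (merge (node 496 (merge (leaf 7 463 463) (node 591 (merge (leaf 5 495 623) (node 590 (merge (leaf 2 557 561) (node 620 (merge (leaf 1 588 621) (node 588 (merge (leaf 1 587 619) (node 556 (merge (leaf 6 492 524) (leaf 3 555 555))))))))))))) (node 557 (merge (node 492 (merge (leaf 7 460 460) (node 621 (merge (leaf 7 492 524) (node 620 (merge (leaf 5 492 588) (leaf 5 524 652))))))) (merge (node 492 (merge (leaf 7 460 460) (node 621 (merge (leaf 7 492 524) (node 654 (merge (leaf 4 525 622) (node 653 (merge (leaf 4 557 686) (node 652 (merge (leaf 5 524 620) (leaf 5 556 684))))))))))) (merge (node 496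 (merge (leaf 7 463 463) (node 460 (merge (leaf 7 460 492) (node 461 (merge (leaf 7 428 428) (node 430 (merge (leaf 6 429 462) (node 429 (merge (leaf 6 397 398) (node 556 (merge (leaf 5 428 524) (leaf 5 460 588))))))))))))) (node 496 (merge (leaf 7 463 463) (node 465 (merge (leaf 6 464 497) (node 464 (merge (leaf 6 432 433) (node 588 (merge (leaf 5 492 620) (node 461 (merge (leaf 5 460 556) (node 430 (merge (leaf 6 429 462) (node 429 (merge (leaf 6 397 398) (node 432 (merge (leaf 0 429 431) (node 400 (merge (leaf 5 399 527) (node 369 (merge (leaf 6 368 401) (node 368 (merge (leaf 6 336 337) (node 367 (merge (leaf 7 335 335) (leaf 7 367 399))))))))))))))))))))))))))))))))))))))))))) (merge (hyp 2) (node 526 (merge (node 527 (merge (leaf 0 525 561) (node 496 (merge (leaf 2 493 497) (node 495 (merge (leaf 7 463 463) (leaf 2 492 524))))))) (merge (node 527 (merge (node 496 (merge (leaf 2 493 497) (node 495 (merge (leaf 7 463 463) (leaf 2 492 524))))) (node 557 (merge (leaf 1 524 556) (node 589 (merge (node 494 (merge (leaf 6 493 621) (node 462 (merge (leaf 5 429 430) (leaf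 6 461 493))))) (merge (node 621 (merge (leaf 6 493 494) (node 653 (merge (leaf 6 525 558) (node 652 (merge (leaf 5 524 620) (leaf 5 556 684))))))) (merge (node 493 (merge (leaf 3 492 492) (node 462 (merge (leaf 6 461 494) (node 461 (merge (leaf 6 429 430) (node 590 (merge (leaf 4 461 558) (leaf 4 493 622))))))))) (node 493 (merge (leaf 3 492 492) (node 590 (merge (leaf 4 493 622) (node 558 (merge (leaf 4 461 461) (node 621 (merge (leaf 6 525 653) (node 620 (merge (leaf 5 492 588) (leaf 5 524 652))))))))))))))))))) (merge (node 527 (merge (leaf 0 525 561) (node 557 (merge (leaf 1 524 556) (node 589 (merge (node 494 (merge (leaf 6 493 621) (node 462 (merge (leaf 5 429 430) (leaf 6 461 493))))) (merge (node 621 (merge (leaf 6 493 494) (node 653 (merge (leaf 6 525 558) (node 652 (merge (leaf 5 524 620) (leaf 5 556 684))))))) (merge (node 493 (merge (leaf 3 492 492) (node 462 (merge (leaf 6 461 494) (node 461 (merge (leaf 6 429 430) (node 590 (merge (leaf 4 461 558) (leaf 4 493 622))))))))) (node 493 (merge (leaf 3 492 492) (node 590 (merge (leaf 4 493 622) (node 558 (merge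 (leaf 4 461 461) (node 621 (merge (leaf 6 525 653) (node 620 (merge (leaf 5 492 588) (leaf 5 524 652))))))))))))))))))) (hyp 3))))))))))))) nP_65 cP_65 18 (by decide +kernel)
def nP_66 : ℕ := 0x10000000900000001000000010000000000000000000000000000000000000000000000000000000000000000000000000000000000000000000000000000000000000000000000000000
def cP_66 : ℕ := 0x170000001f8000003d8000007e800001f6000000fc800001fe0000007d8000007f8000007e8000000000000000000000000000000000000000000000000000000000000000000000000000000000000000000000000000
theorem lP_66 : S nP_66 cP_66 14 := S_of_chk [] trivial (node 531 (merge (node 591 (merge (leaf 5 495 623) (node 562 (merge (leaf 1 559 561) (node 594 (merge (leaf 2 559 593) (node 626 (merge (leaf 6 530 658) (node 499 (merge (leaf 5 466 467) (leaf 6 498 530))))))))))) (merge (node 591 (merge (leaf 5 495 623) (node 562 (merge (leaf 1 559 561) (node 594 (merge (leaf 2 559 593) (node 626 (merge (leaf 6 530 658) (node 499 (merge (leaf 5 466 467) (leaf 5 498 595))))))))))) (merge (node 562 (merge (node 561 (merge (leaf 2 528 532) (node 593 (merge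 (leaf 4 464 464) (leaf 1 560 564))))) (merge (node 561 (merge (leaf 3 527 527) (node 593 (merge (leaf 4 464 464) (leaf 1 560 564))))) (node 499 (merge (node 594 (merge (leaf 5 466 467) (node 626 (merge (leaf 6 498 530) (leaf 6 530 658))))) (merge (node 594 (merge (leaf 5 466 467) (node 626 (merge (leaf 5 498 595) (leaf 6 530 658))))) (node 498 (merge (node 497 (merge (leaf 1 495 527) (leaf 0 496 532))) (node 466 (merge (leaf 7 466 595) (node 434 (merge (leaf 4 402 402) (leaf 4 434 530))))))))))))) (merge (node 499 (merge (node 468 (merge (node 436 (merge (leaf 6 435 467) (node 500 (merge (leaf 5 403 404) (leaf 5 435 532))))) (merge (node 467 (merge (leaf 6 435 436) (node 466 (merge (leaf 7 434 434) (node 498 (merge (leaf 2 464 497) (leaf 7 466 595))))))) (node 595 (merge (leaf 6 467 500) (node 498 (merge (leaf 7 466 466) (node 497 (merge (leaf 1 495 527) (leaf 0 496 532)))))))))) (merge (node 591 (merge (leaf 5 495 623) (node 561 (merge (leaf 1 559 562) (node 464 (merge (leaf 4 464 593) (node 463 (merge (leaf 7 431 431) (node 498 (merge (leaf 3 463 497) (node 466 (merge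 (leaf 7 466 595) (node 434 (merge (leaf 4 402 402) (leaf 4 434 530))))))))))))))) (merge (node 468 (merge (node 500 (merge (leaf 6 467 595) (node 436 (merge (leaf 5 403 404) (leaf 5 435 532))))) (merge (node 595 (merge (leaf 6 467 500) (node 596 (merge (leaf 4 499 628) (node 562 (merge (leaf 0 560 561) (node 467 (merge (leaf 4 467 564) (node 434 (merge (leaf 7 434 466) (node 435 (merge (leaf 7 402 402) (leaf 5 434 530))))))))))))) (node 467 (merge (leaf 6 435 436) (node 434 (merge (leaf 7 434 466) (node 435 (merge (leaf 7 402 402) (node 564 (merge (leaf 4 435 532) (leaf 4 467 596)))))))))))) (merge (node 596 (merge (node 564 (merge (leaf 4 467 467) (node 628 (merge (leaf 7 499 532) (leaf 7 531 660))))) (merge (node 467 (merge (leaf 4 467 564) (node 468 (merge (leaf 6 435 436) (node 595 (merge (leaf 6 467 500) (node 562 (merge (leaf 0 560 561) (node 498 (merge (leaf 2 464 497) (node 530 (merge (leaf 5 434 435) (leaf 7 498 627))))))))))))) (node 595 (merge (leaf 4 499 628) (node 500 (merge (leaf 6 467 468) (node 627 (merge (leaf 6 499 532) (node 561 (merge (leaf 0 560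 562) (node 498 (merge (leaf 7 498 530) (node 464 (merge (leaf 4 464 593) (node 463 (merge (leaf 7 431 431) (leaf 3 463 497)))))))))))))))))) (node 434 (merge (node 467 (merge (leaf 7 434 466) (node 435 (merge (leaf 7 402 402) (node 564 (merge (leaf 4 435 532) (leaf 4 467 596))))))) (merge (node 467 (merge (leaf 7 434 466) (node 436 (merge (leaf 6 435 468) (node 435 (merge (leaf 6 403 404) (node 564 (merge (leaf 4 435 532) (leaf 4 467 596))))))))) (merge (node 591 (merge (leaf 5 495 623) (node 561 (merge (leaf 1 559 562) (node 464 (merge (leaf 4 464 593) (node 463 (merge (leaf 7 431 431) (node 498 (merge (leaf 3 463 497) (node 466 (merge (leaf 4 402 402) (leaf 4 434 530))))))))))))) (node 591 (merge (leaf 5 495 623) (node 561 (merge (leaf 1 559 562) (node 464 (merge (leaf 4 464 593) (node 431 (merge (leaf 7 431 463) (node 432 (merge (leaf 7 399 399) (node 433 (merge (leaf 6 400 401) (node 403 (merge (leaf 2 399 402) (node 435 (merge (leaf 2 400 404) (node 467 (merge (leaf 0 432 468) (node 532 (merge (leaf 4 403 500) (leaf 4 435 564)))))))))))))))))))))))))))))) (merge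 (node 499 (merge (node 591 (merge (leaf 5 495 623) (node 562 (merge (leaf 1 559 561) (node 594 (merge (leaf 5 466 467) (node 626 (merge (leaf 6 498 530) (leaf 6 530 658))))))))) (merge (node 468 (merge (node 436 (merge (leaf 6 435 467) (node 500 (merge (leaf 5 403 404) (leaf 5 435 532))))) (merge (node 467 (merge (leaf 6 435 436) (node 466 (merge (leaf 7 434 434) (node 498 (merge (leaf 2 464 497) (leaf 7 466 595))))))) (node 595 (merge (leaf 6 467 500) (node 498 (merge (leaf 7 466 466) (node 497 (merge (leaf 1 495 527) (leaf 0 496 532)))))))))) (node 595 (merge (node 498 (merge (leaf 7 466 466) (node 497 (merge (leaf 1 495 527) (leaf 0 496 532))))) (node 628 (merge (leaf 4 499 596) (node 627 (merge (leaf 4 531 660) (node 626 (merge (leaf 5 498 594) (leaf 5 530 658)))))))))))) (merge (node 594 (merge (node 591 (merge (leaf 5 495 623) (node 562 (merge (leaf 2 559 593) (node 626 (merge (leaf 6 530 658) (node 499 (merge (leaf 5 466 467) (leaf 6 498 530))))))))) (merge (node 591 (merge (leaf 5 495 623) (node 593 (merge (leaf 2 559 562) (node 627 (merge (leaf 0 591 626)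 (node 595 (merge (leaf 2 560 564) (leaf 0 592 628))))))))) (merge (node 591 (merge (leaf 5 495 623) (node 593 (merge (leaf 2 559 562) (node 595 (merge (leaf 2 560 564) (node 628 (merge (leaf 0 592 627) (node 596 (merge (leaf 4 499 499) (leaf 0 593 629))))))))))) (merge (node 499 (merge (node 562 (merge (leaf 5 466 467) (node 626 (merge (leaf 6 498 530) (leaf 6 530 658))))) (merge (node 595 (merge (leaf 5 498 626) (node 498 (merge (leaf 7 466 466) (node 497 (merge (leaf 1 495 527) (leaf 0 496 532))))))) (node 468 (merge (node 436 (merge (leaf 6 435 467) (node 500 (merge (leaf 5 403 404) (leaf 5 435 532))))) (merge (node 467 (merge (leaf 6 435 436) (node 466 (merge (leaf 7 434 434) (node 498 (merge (leaf 2 464 497) (leaf 7 466 595))))))) (node 595 (merge (leaf 6 467 500) (node 498 (merge (leaf 7 466 466) (node 497 (merge (leaf 1 495 527) (leaf 0 496 532))))))))))))) (node 623 (merge (leaf 5 495 591) (node 624 (merge (leaf 5 527 655) (node 595 (merge (leaf 1 591 593) (node 626 (merge (leaf 5 498 499) (node 658 (merge (leaf 5 530 627) (leaf 6 562 690)))))))))))))))) (merge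 (node 595 (merge (node 499 (merge (node 498 (merge (leaf 7 466 466) (node 497 (merge (leaf 1 495 527) (leaf 0 496 532))))) (merge (node 500 (merge (leaf 6 467 468) (node 627 (merge (leaf 6 499 532) (node 628 (merge (leaf 4 499 596) (leaf 4 531 660))))))) (node 498 (merge (leaf 7 466 466) (node 627 (merge (leaf 7 498 530) (node 628 (merge (leaf 4 499 596) (leaf 4 531 660)))))))))) (merge (node 623 (merge (leaf 5 495 591) (node 624 (merge (leaf 5 527 655) (node 594 (merge (leaf 1 591 593) (node 499 (merge (leaf 5 498 626) (node 498 (merge (leaf 7 466 466) (node 497 (merge (leaf 1 495 527) (leaf 0 496 532))))))))))))) (node 623 (merge (leaf 5 495 591) (node 658 (merge (node 627 (merge (leaf 5 530 626) (node 660 (merge (leaf 4 531 628) (node 659 (merge (leaf 5 562 690) (leaf 4 563 692))))))) (merge (node 626 (merge (leaf 5 530 627) (node 594 (merge (leaf 6 562 690) (node 593 (merge (leaf 2 560 564) (node 561 (merge (leaf 4 464 464) (leaf 3 560 596))))))))) (node 624 (merge (leaf 5 527 655) (node 593 (merge (leaf 1 591 594) (node 561 (merge (leaf 4 464 464) (node 656 (merge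 (leaf 6 560 688) (node 657 (merge (leaf 3 623 659) (leaf 4 560 689))))))))))))))))))) (node 595 (merge (node 561 (merge (node 562 (merge (leaf 3 527 527) (leaf 0 560 596))) (merge (node 593 (merge (leaf 4 464 464) (node 594 (merge (leaf 2 560 564) (leaf 3 560 596))))) (node 562 (merge (leaf 3 527 527) (node 593 (merge (leaf 4 464 464) (leaf 1 560 564)))))))) (merge (node 591 (merge (leaf 5 495 623) (node 561 (merge (leaf 1 559 562) (node 593 (merge (leaf 4 464 464) (node 594 (merge (leaf 2 560 564) (node 627 (merge (leaf 0 591 626) (leaf 0 592 628))))))))))) (merge (node 591 (merge (leaf 5 495 623) (node 561 (merge (leaf 1 559 562) (node 593 (merge (leaf 4 464 464) (node 594 (merge (leaf 3 560 596) (node 627 (merge (leaf 0 591 626) (leaf 0 592 628))))))))))) (merge (node 532 (merge (node 500 (merge (leaf 6 499 627) (node 468 (merge (leaf 5 435 436) (leaf 5 467 564))))) (merge (node 627 (merge (leaf 6 499 500) (node 530 (merge (leaf 7 498 498) (node 562 (merge (leaf 2 528 561) (leaf 7 530 659))))))) (merge (node 533 (merge (node 562 (merge (leaf 1 530 534) (leaf 2 528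 561))) (merge (node 534 (merge (node 567 (merge (leaf 0 531 566) (node 535 (merge (leaf 1 531 564) (leaf 0 532 568))))) (merge (node 535 (merge (leaf 1 531 564) (node 503 (merge (leaf 2 499 502) (leaf 2 500 504))))) (node 566 (merge (leaf 0 531 567) (node 530 (merge (leaf 0 530 565) (node 502 (merge (leaf 2 498 501) (leaf 2 499 503)))))))))) (node 591 (merge (leaf 5 495 623) (node 565 (merge (node 566 (merge (leaf 0 530 530) (node 567 (merge (leaf 3 531 564) (leaf 3 532 568))))) (merge (node 530 (merge (leaf 0 530 566) (node 498 (merge (leaf 3 497 497) (node 466 (merge (leaf 4 434 434) (leaf 4 466 562))))))) (node 597 (merge (node 500 (merge (leaf 7 500 629) (node 468 (merge (leaf 4 436 436) (leaf 7 468 501))))) (node 562 (merge (leaf 2 528 561) (node 598 (merge (leaf 0 562 564) (leaf 3 562 596))))))))))))))) (node 533 (merge (node 534 (merge (leaf 1 530 562) (node 535 (merge (leaf 1 531 564) (node 503 (merge (leaf 2 499 502) (leaf 2 500 504))))))) (merge (node 534 (merge (leaf 1 530 562) (node 567 (merge (leaf 0 531 566) (node 535 (merge (leaf 1 531 564) (leaf 0 532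 568))))))) (merge (node 534 (merge (leaf 1 530 562) (node 566 (merge (leaf 0 531 567) (node 530 (merge (leaf 0 530 565) (node 502 (merge (leaf 2 498 501) (leaf 2 499 503))))))))) (merge (node 534 (merge (node 567 (merge (leaf 0 531 566) (node 535 (merge (leaf 1 531 564) (leaf 0 532 568))))) (merge (node 535 (merge (leaf 1 531 564) (node 503 (merge (leaf 2 499 502) (leaf 2 500 504))))) (node 566 (merge (leaf 0 531 567) (node 530 (merge (leaf 0 530 565) (node 502 (merge (leaf 2 498 501) (leaf 2 499 503)))))))))) (node 627 (merge (node 659 (merge (leaf 6 531 564) (node 660 (merge (leaf 4 531 628) (leaf 4 563 692))))) (merge (node 530 (merge (leaf 7 498 498) (node 659 (merge (leaf 7 530 562) (node 658 (merge (leaf 5 530 626) (leaf 5 562 690))))))) (node 530 (merge (leaf 7 498 498) (node 565 (merge (leaf 0 530 566) (node 501 (merge (leaf 2 498 502) (node 628 (merge (leaf 4 531 660) (node 596 (merge (leaf 6 500 564) (leaf 5 500 597))))))))))))))))))))))) (merge (node 623 (merge (leaf 5 495 591) (node 658 (merge (node 627 (merge (leaf 5 530 626) (node 660 (merge (leaf 4 531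 628) (node 659 (merge (leaf 5 562 690) (leaf 4 563 692))))))) (merge (node 626 (merge (leaf 5 530 627) (node 594 (merge (leaf 6 562 690) (node 593 (merge (leaf 2 560 564) (node 561 (merge (leaf 4 464 464) (leaf 3 560 596))))))))) (node 624 (merge (leaf 5 527 655) (node 593 (merge (leaf 1 591 594) (node 561 (merge (leaf 4 464 464) (node 656 (merge (leaf 6 560 688) (node 657 (merge (leaf 3 623 659) (leaf 4 560 689)))))))))))))))) (node 532 (merge (node 500 (merge (leaf 6 499 627) (node 468 (merge (leaf 5 435 436) (leaf 5 467 564))))) (merge (node 627 (merge (leaf 6 499 500) (node 660 (merge (leaf 4 531 628) (node 659 (merge (leaf 4 563 692) (node 658 (merge (leaf 5 530 626) (leaf 5 562 690))))))))) (merge (node 533 (merge (node 534 (merge (leaf 1 530 562) (node 535 (merge (leaf 1 531 564) (node 503 (merge (leaf 2 499 502) (leaf 2 500 504))))))) (merge (node 534 (merge (leaf 1 530 562) (node 567 (merge (leaf 0 531 566) (node 535 (merge (leaf 1 531 564) (leaf 0 532 568))))))) (merge (node 534 (merge (leaf 1 530 562) (node 566 (merge (leaf 0 531 567) (node 530 (merge (leaf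 0 530 565) (node 502 (merge (leaf 2 498 501) (leaf 2 499 503))))))))) (merge (node 534 (merge (node 567 (merge (leaf 0 531 566) (node 535 (merge (leaf 1 531 564) (leaf 0 532 568))))) (merge (node 535 (merge (leaf 1 531 564) (node 503 (merge (leaf 2 499 502) (leaf 2 500 504))))) (node 566 (merge (leaf 0 531 567) (node 530 (merge (leaf 0 530 565) (node 502 (merge (leaf 2 498 501) (leaf 2 499 503)))))))))) (node 627 (merge (node 659 (merge (leaf 6 531 564) (node 660 (merge (leaf 4 531 628) (leaf 4 563 692))))) (merge (node 530 (merge (leaf 7 498 498) (node 659 (merge (leaf 7 530 562) (node 658 (merge (leaf 5 530 626) (leaf 5 562 690))))))) (node 530 (merge (leaf 7 498 498) (node 565 (merge (leaf 0 530 566) (node 501 (merge (leaf 2 498 502) (node 628 (merge (leaf 4 531 660) (node 596 (merge (leaf 6 500 564) (leaf 5 500 597))))))))))))))))))) (node 533 (merge (node 534 (merge (leaf 1 530 562) (node 535 (merge (leaf 1 531 564) (node 503 (merge (leaf 2 499 502) (leaf 2 500 504))))))) (merge (node 534 (merge (leaf 1 530 562) (node 567 (merge (leaf 0 531 566) (node 535 (merge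 (leaf 1 531 564) (leaf 0 532 568))))))) (merge (node 534 (merge (leaf 1 530 562) (node 566 (merge (leaf 0 531 567) (node 530 (merge (leaf 0 530 565) (node 502 (merge (leaf 2 498 501) (leaf 2 499 503))))))))) (merge (node 534 (merge (node 567 (merge (leaf 0 531 566) (node 535 (merge (leaf 1 531 564) (leaf 0 532 568))))) (merge (node 535 (merge (leaf 1 531 564) (node 503 (merge (leaf 2 499 502) (leaf 2 500 504))))) (node 566 (merge (leaf 0 531 567) (node 530 (merge (leaf 0 530 565) (node 502 (merge (leaf 2 498 501) (leaf 2 499 503)))))))))) (node 565 (merge (node 530 (merge (leaf 0 530 566) (node 498 (merge (leaf 3 497 497) (node 466 (merge (leaf 4 434 434) (leaf 4 466 562))))))) (merge (node 623 (merge (leaf 5 495 591) (node 624 (merge (leaf 5 527 655) (node 594 (merge (leaf 1 591 593) (node 566 (merge (leaf 1 562 564) (node 597 (merge (leaf 2 562 596) (node 500 (merge (leaf 7 500 629) (node 468 (merge (leaf 4 436 436) (leaf 7 468 501))))))))))))))) (node 501 (merge (node 530 (merge (leaf 2 498 502) (node 498 (merge (leaf 3 497 497) (node 466 (merge (leaf 4 434 434)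 (leaf 4 466 562))))))) (node 469 (merge (node 564 (merge (leaf 5 436 437) (leaf 5 468 596))) (merge (node 468 (merge (leaf 7 436 436) (node 564 (merge (leaf 5 467 500) (leaf 5 468 596))))) (node 438 (merge (leaf 6 437 470) (node 437 (merge (leaf 6 405 406) (node 468 (merge (leaf 7 436 436) (node 500 (merge (leaf 5 404 405) (leaf 7 468 597)))))))))))))))))))))))))))))))))))))))) nP_66 cP_66 14 (by decide +kernel)
def nP_67 : ℕ := 0x10000000100000001000000010000000000000000000000000000000000000000000000000000000000000000000000000000000000000000000000000000000000000000000000000000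
def cP_67 : ℕ := 0x170000001f8000003d8000007e800001fe000001fc800001fe000001ff8000007f8000007e8000000000000000000000000000000000000000000000000000000000000000000000000000000000000000000000000000
theorem lP_67 : S nP_67 cP_67 15 := S_of_chk [(nP_66, cP_66, 14)] ⟨lP_66, trivial⟩ (node 563 (merge (node 591 (merge (leaf 5 495 623) (node 561 (merge (leaf 1 559 562) (node 464 (merge (leaf 4 464 593) (node 433 (merge (leaf 6 432 465) (node 432 (merge (leaf 6 400 401) (node 431 (merge (leaf 7 399 399) (leaf 7 431 463))))))))))))) (merge (node 499 (merge (node 591 (merge (leaf 5 495 623) (node 562 (merge (leaf 1 559 561) (node 594 (merge (leaf 2 559 593) (node 531 (merge (leaf 5 466 467) (node 626 (merge (leaf 6 498 530) (leaf 6 530 658))))))))))) (merge (node 497 (merge (leaf 6 464 465) (node 498 (merge (leaf 1 495 527) (node 532 (merge (leaf 0 496 531) (node 500 (merge (leaf 0 497 533) (node 468 (merge (leaf 2 464 467) (leaf 2 465 469))))))))))) (merge (node 497 (merge (leaf 6 464 465) (node 498 (merge (leaf 1 495 527) (node 467 (merge (leaf 2 464 468) (node 591 (merge (leaf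 5 495 623) (node 562 (merge (leaf 1 559 561) (node 594 (merge (leaf 6 466 530) (leaf 2 559 593))))))))))))) (node 497 (merge (leaf 6 464 465) (node 498 (merge (leaf 1 495 527) (node 531 (merge (leaf 0 496 532) (node 595 (merge (leaf 7 466 466) (node 591 (merge (leaf 5 495 623) (node 562 (merge (leaf 1 559 561) (node 594 (merge (leaf 2 559 593) (leaf 5 498 626))))))))))))))))))) (merge (node 465 (merge (leaf 6 464 497) (node 464 (merge (leaf 6 432 433) (node 561 (merge (leaf 4 464 593) (node 562 (merge (leaf 3 527 527) (node 596 (merge (leaf 0 560 595) (node 564 (merge (leaf 0 561 597) (node 532 (merge (leaf 2 528 531) (leaf 2 529 533))))))))))))))) (merge (node 499 (merge (node 465 (merge (leaf 6 464 497) (node 464 (merge (leaf 6 432 433) (node 463 (merge (leaf 7 431 431) (node 466 (merge (leaf 0 463 498) (node 467 (merge (leaf 0 464 500) (node 435 (merge (leaf 2 431 434) (leaf 2 432 436))))))))))))) (merge (node 497 (merge (leaf 6 464 465) (node 498 (merge (leaf 1 495 527) (node 531 (merge (leaf 0 496 532) (node 466 (merge (leaf 7 466 595) (node 434 (merge (leaf 4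 402 402) (leaf 4 434 530))))))))))) (node 594 (merge (node 591 (merge (leaf 5 495 623) (node 562 (merge (leaf 2 559 593) (node 531 (merge (leaf 5 466 467) (node 626 (merge (leaf 6 498 530) (leaf 6 530 658))))))))) (merge (node 591 (merge (leaf 5 495 623) (node 593 (merge (leaf 2 559 562) (node 627 (merge (leaf 0 591 626) (node 595 (merge (leaf 2 560 564) (leaf 0 592 628))))))))) (merge (node 531 (merge (node 562 (merge (leaf 5 466 467) (node 626 (merge (leaf 6 498 530) (leaf 6 530 658))))) (merge (node 595 (merge (leaf 5 498 626) (node 593 (merge (leaf 2 560 564) (node 628 (merge (leaf 4 499 596) (leaf 0 592 627))))))) (node 467 (merge (leaf 5 466 562) (node 468 (merge (leaf 6 435 436) (node 595 (merge (leaf 6 467 500) (node 564 (merge (leaf 2 560 593) (leaf 4 467 596)))))))))))) (merge (node 591 (merge (leaf 5 495 623) (node 593 (merge (leaf 2 559 562) (node 595 (merge (leaf 2 560 564) (node 628 (merge (leaf 0 592 627) (node 596 (merge (leaf 4 499 531) (leaf 0 593 629))))))))))) (merge (node 623 (merge (leaf 5 495 591) (node 624 (merge (leaf 5 527 655) (node 595 (merge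 (leaf 1 591 593) (node 531 (merge (leaf 5 498 626) (node 468 (merge (leaf 6 467 500) (node 467 (merge (leaf 6 435 436) (node 596 (merge (leaf 4 467 564) (leaf 4 499 628))))))))))))))) (node 531 (merge (node 626 (merge (leaf 5 498 595) (node 562 (merge (leaf 6 498 530) (leaf 6 530 658))))) (merge (node 595 (merge (leaf 5 498 626) (node 468 (merge (leaf 6 467 500) (node 467 (merge (leaf 6 435 436) (node 596 (merge (leaf 4 467 564) (leaf 4 499 628))))))))) (node 467 (merge (leaf 5 466 562) (node 436 (merge (leaf 6 435 468) (node 435 (merge (leaf 6 403 404) (node 564 (merge (leaf 4 435 532) (leaf 4 467 596))))))))))))))))))))) (merge (node 595 (merge (node 499 (merge (node 497 (merge (leaf 6 464 465) (node 498 (merge (leaf 1 495 527) (node 531 (merge (leaf 7 466 466) (node 468 (merge (leaf 2 464 467) (leaf 6 467 500))))))))) (merge (node 623 (merge (leaf 5 495 591) (node 624 (merge (leaf 5 527 655) (node 594 (merge (leaf 1 591 593) (node 531 (merge (leaf 5 498 626) (node 500 (merge (leaf 6 467 468) (node 627 (merge (leaf 6 499 532) (node 628 (merge (leaf 4 499 596) (leaf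 4 531 660))))))))))))))) (merge (node 623 (merge (leaf 5 495 591) (node 624 (merge (leaf 5 527 655) (node 594 (merge (leaf 1 591 593) (node 531 (merge (leaf 5 498 626) (node 498 (merge (leaf 7 466 466) (node 497 (merge (leaf 1 495 527) (leaf 0 496 532))))))))))))) (node 497 (merge (leaf 6 464 465) (node 498 (merge (leaf 1 495 527) (node 468 (merge (leaf 2 464 467) (node 500 (merge (leaf 2 465 469) (node 532 (merge (leaf 0 497 533) (node 564 (merge (leaf 5 467 563) (node 597 (merge (leaf 4 468 565) (node 596 (merge (leaf 5 499 627) (leaf 4 500 629))))))))))))))))))))) (merge (node 499 (merge (node 497 (merge (leaf 6 464 465) (node 498 (merge (leaf 1 495 527) (node 531 (merge (leaf 7 466 466) (leaf 0 496 532))))))) (merge (node 531 (merge (node 468 (merge (leaf 6 467 500) (node 467 (merge (leaf 6 435 436) (node 466 (merge (leaf 7 434 434) (leaf 7 466 498))))))) (node 628 (merge (leaf 4 499 596) (node 627 (merge (leaf 4 531 660) (node 626 (merge (leaf 5 498 594) (leaf 5 530 658))))))))) (merge (node 497 (merge (leaf 6 464 465) (node 498 (merge (leaf 1 495 527) (node 468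 (merge (leaf 2 464 467) (node 500 (merge (leaf 2 465 469) (node 532 (merge (leaf 0 497 533) (leaf 5 467 564))))))))))) (node 531 (merge (node 628 (merge (leaf 4 499 596) (node 627 (merge (leaf 4 531 660) (node 626 (merge (leaf 5 498 594) (leaf 5 530 658))))))) (merge (node 500 (merge (leaf 6 467 468) (node 627 (merge (leaf 6 499 532) (node 626 (merge (leaf 5 498 594) (leaf 5 530 658))))))) (node 465 (merge (leaf 6 464 497) (node 464 (merge (leaf 6 432 433) (node 431 (merge (leaf 7 431 463) (node 432 (merge (leaf 7 399 399) (node 467 (merge (leaf 3 431 466) (node 436 (merge (leaf 6 435 468) (node 435 (merge (leaf 6 403 404) (node 564 (merge (leaf 4 435 532) (leaf 4 467 596)))))))))))))))))))))))) (merge (node 623 (merge (leaf 5 495 591) (node 624 (merge (leaf 5 527 655) (node 593 (merge (leaf 1 591 594) (node 464 (merge (leaf 4 464 561) (node 433 (merge (leaf 6 432 465) (node 432 (merge (leaf 6 400 401) (node 431 (merge (leaf 7 399 399) (leaf 7 431 463))))))))))))))) (merge (node 499 (merge (node 497 (merge (leaf 6 464 465) (node 498 (merge (leaf 1 495 527) (node 531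 (merge (leaf 7 466 466) (node 468 (merge (leaf 2 464 467) (leaf 6 467 500))))))))) (merge (node 497 (merge (leaf 6 464 465) (node 498 (merge (leaf 1 495 527) (node 531 (merge (leaf 0 496 532) (node 563 (merge (leaf 7 466 466) (node 627 (merge (leaf 7 498 530) (node 628 (merge (leaf 4 499 596) (leaf 4 531 660))))))))))))) (merge (node 531 (merge (node 498 (merge (leaf 7 466 466) (node 627 (merge (leaf 7 498 530) (node 628 (merge (leaf 4 499 596) (leaf 4 531 660))))))) (merge (node 468 (merge (leaf 6 467 500) (node 467 (merge (leaf 6 435 436) (node 466 (merge (leaf 7 434 434) (leaf 7 466 498))))))) (node 500 (merge (leaf 6 467 468) (node 627 (merge (leaf 6 499 532) (node 628 (merge (leaf 4 499 596) (leaf 4 531 660)))))))))) (merge (node 497 (merge (leaf 6 464 465) (node 498 (merge (leaf 1 495 527) (node 468 (merge (leaf 2 464 467) (node 500 (merge (leaf 2 465 469) (node 532 (merge (leaf 0 497 533) (node 564 (merge (leaf 5 467 563) (node 597 (merge (leaf 4 468 565) (node 596 (merge (leaf 5 499 627) (leaf 4 500 629))))))))))))))))) (node 531 (merge (node 500 (merge (leaf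 6 467 468) (node 627 (merge (leaf 6 499 532) (node 628 (merge (leaf 4 499 596) (leaf 4 531 660))))))) (merge (node 465 (merge (leaf 6 464 497) (node 464 (merge (leaf 6 432 433) (node 596 (merge (leaf 4 499 628) (node 467 (merge (leaf 4 467 564) (node 466 (merge (leaf 7 434 434) (leaf 0 464 500))))))))))) (merge (node 465 (merge (leaf 6 464 497) (node 464 (merge (leaf 6 432 433) (node 431 (merge (leaf 7 431 463) (node 432 (merge (leaf 7 399 399) (node 467 (merge (leaf 3 431 466) (node 436 (merge (leaf 6 435 468) (node 435 (merge (leaf 6 403 404) (node 564 (merge (leaf 4 435 532) (leaf 4 467 596))))))))))))))))) (node 500 (merge (leaf 6 467 468) (node 627 (merge (leaf 6 499 532) (node 660 (merge (leaf 4 531 628) (node 659 (merge (leaf 4 563 692) (node 658 (merge (leaf 5 530 626) (leaf 5 562 690)))))))))))))))))))) (node 531 (merge (node 623 (merge (leaf 5 495 591) (node 624 (merge (leaf 5 527 655) (node 594 (merge (leaf 1 591 593) (node 626 (merge (leaf 5 498 499) (node 658 (merge (leaf 5 530 627) (leaf 6 562 690))))))))))) (merge (node 627 (merge (node 532 (merge (leaf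 6 499 500) (node 659 (merge (leaf 6 531 564) (node 660 (merge (leaf 4 531 628) (leaf 4 563 692))))))) (merge (node 498 (merge (leaf 7 498 530) (node 499 (merge (leaf 7 466 466) (node 628 (merge (leaf 4 499 596) (leaf 4 531 660))))))) (node 500 (merge (leaf 6 499 532) (node 499 (merge (leaf 6 467 468) (node 498 (merge (leaf 7 466 466) (leaf 7 498 530)))))))))) (merge (node 623 (merge (leaf 5 495 591) (node 624 (merge (leaf 5 527 655) (node 594 (merge (leaf 1 591 593) (node 499 (merge (leaf 5 498 626) (node 468 (merge (leaf 6 467 500) (node 467 (merge (leaf 6 435 436) (node 596 (merge (leaf 4 467 564) (leaf 4 499 628))))))))))))))) (node 623 (merge (leaf 5 495 591) (node 658 (merge (node 627 (merge (leaf 5 530 626) (node 660 (merge (leaf 4 531 628) (node 659 (merge (leaf 5 562 690) (leaf 4 563 692))))))) (merge (node 626 (merge (leaf 5 530 627) (node 594 (merge (leaf 6 562 690) (node 593 (merge (leaf 2 560 564) (node 561 (merge (leaf 4 464 464) (leaf 3 560 596))))))))) (node 624 (merge (leaf 5 527 655) (node 593 (merge (leaf 1 591 594) (node 561 (merge (leaf 4 464 464)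 (node 656 (merge (leaf 6 560 688) (node 657 (merge (leaf 3 623 659) (leaf 4 560 689))))))))))))))))))))))))) (merge (node 499 (merge (node 497 (merge (leaf 6 464 465) (node 498 (merge (leaf 1 495 527) (node 531 (merge (leaf 0 496 532) (node 468 (merge (leaf 2 464 467) (node 500 (merge (leaf 2 465 469) (leaf 6 467 595))))))))))) (merge (node 497 (merge (leaf 6 464 465) (node 498 (merge (leaf 1 495 527) (node 531 (merge (leaf 0 496 532) (node 466 (merge (leaf 7 466 595) (node 434 (merge (leaf 4 402 402) (leaf 4 434 530))))))))))) (merge (node 465 (merge (leaf 6 464 497) (node 464 (merge (leaf 6 432 433) (node 463 (merge (leaf 7 431 431) (node 466 (merge (leaf 0 463 498) (node 467 (merge (leaf 0 464 500) (node 435 (merge (leaf 2 431 434) (leaf 2 432 436))))))))))))) (merge (node 562 (merge (node 591 (merge (leaf 1 559 561) (leaf 5 495 623))) (merge (node 561 (merge (leaf 3 527 527) (node 596 (merge (leaf 0 560 595) (node 564 (merge (leaf 0 561 597) (node 531 (merge (leaf 4 467 467) (leaf 2 528 532))))))))) (node 465 (merge (leaf 6 464 497) (node 464 (merge (leaf 6 432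 433) (node 431 (merge (leaf 7 431 463) (node 432 (merge (leaf 7 399 399) (node 467 (merge (leaf 3 431 466) (node 531 (merge (leaf 5 466 594) (node 564 (merge (leaf 4 467 596) (node 435 (merge (leaf 5 434 530) (leaf 4 435 532)))))))))))))))))))) (merge (node 531 (merge (node 591 (merge (leaf 5 495 623) (node 562 (merge (leaf 1 559 561) (node 594 (merge (leaf 5 466 467) (node 626 (merge (leaf 6 498 530) (leaf 6 530 658))))))))) (merge (node 468 (merge (node 436 (merge (leaf 6 435 467) (node 500 (merge (leaf 5 403 404) (leaf 5 435 532))))) (merge (node 467 (merge (leaf 6 435 436) (node 466 (merge (leaf 7 434 434) (node 498 (merge (leaf 2 464 497) (leaf 7 466 595))))))) (node 595 (merge (leaf 6 467 500) (node 498 (merge (leaf 7 466 466) (node 497 (merge (leaf 1 495 527) (leaf 0 496 532)))))))))) (node 595 (merge (node 498 (merge (leaf 7 466 466) (node 497 (merge (leaf 1 495 527) (leaf 0 496 532))))) (node 628 (merge (leaf 4 499 596) (node 627 (merge (leaf 4 531 660) (node 626 (merge (leaf 5 498 594) (leaf 5 530 658)))))))))))) (node 531 (merge (node 562 (merge (node 561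 (merge (leaf 3 527 527) (leaf 2 528 532))) (node 594 (merge (leaf 5 466 467) (node 626 (merge (leaf 6 498 530) (leaf 5 498 595))))))) (merge (node 591 (merge (leaf 5 495 623) (node 562 (merge (leaf 1 559 561) (node 594 (merge (leaf 5 466 467) (node 626 (merge (leaf 5 498 595) (leaf 6 530 658))))))))) (merge (node 591 (merge (leaf 5 495 623) (node 562 (merge (leaf 1 559 561) (node 467 (merge (leaf 5 466 594) (node 564 (merge (leaf 4 467 596) (node 435 (merge (leaf 5 434 530) (leaf 4 435 532))))))))))) (merge (node 466 (merge (node 434 (merge (leaf 7 434 467) (node 498 (merge (leaf 4 402 402) (leaf 7 466 595))))) (merge (node 467 (merge (leaf 7 434 434) (node 436 (merge (leaf 6 435 468) (node 435 (merge (leaf 6 403 404) (node 564 (merge (leaf 4 435 532) (leaf 4 467 596))))))))) (node 595 (merge (leaf 7 466 498) (node 500 (merge (leaf 6 467 468) (node 627 (merge (leaf 6 499 532) (node 626 (merge (leaf 5 498 594) (leaf 5 530 658)))))))))))) (merge (node 468 (merge (node 500 (merge (leaf 6 467 595) (node 436 (merge (leaf 5 403 404) (leaf 5 435 532))))) (merge (node 595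 (merge (leaf 6 467 500) (node 596 (merge (leaf 4 499 628) (node 562 (merge (leaf 0 560 561) (node 467 (merge (leaf 4 467 564) (node 434 (merge (leaf 7 434 466) (node 435 (merge (leaf 7 402 402) (leaf 5 434 530))))))))))))) (node 467 (merge (leaf 6 435 436) (node 434 (merge (leaf 7 434 466) (node 435 (merge (leaf 7 402 402) (node 564 (merge (leaf 4 435 532) (leaf 4 467 596)))))))))))) (node 500 (merge (node 468 (merge (leaf 6 467 595) (node 436 (merge (leaf 5 403 404) (leaf 5 435 532))))) (merge (node 595 (merge (leaf 6 467 468) (node 498 (merge (leaf 7 466 466) (node 627 (merge (leaf 7 498 530) (node 628 (merge (leaf 4 499 596) (leaf 4 531 660))))))))) (merge (node 501 (merge (node 502 (merge (leaf 1 498 530) (node 503 (merge (leaf 1 499 532) (node 471 (merge (leaf 2 467 470) (leaf 2 468 472))))))) (merge (node 502 (merge (leaf 1 498 530) (node 535 (merge (leaf 0 499 534) (node 503 (merge (leaf 1 499 532) (leaf 0 500 536))))))) (merge (node 502 (merge (leaf 1 498 530) (node 534 (merge (leaf 0 499 535) (node 498 (merge (leaf 0 498 533) (node 470 (merge (leaf 2 466 469)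 (leaf 2 467 471))))))))) (merge (node 502 (merge (node 535 (merge (leaf 0 499 534) (node 503 (merge (leaf 1 499 532) (leaf 0 500 536))))) (merge (node 503 (merge (leaf 1 499 532) (node 471 (merge (leaf 2 467 470) (leaf 2 468 472))))) (node 534 (merge (leaf 0 499 535) (node 498 (merge (leaf 0 498 533) (node 470 (merge (leaf 2 466 469) (leaf 2 467 471)))))))))) (node 595 (merge (node 627 (merge (leaf 6 499 532) (node 628 (merge (leaf 4 499 596) (leaf 4 531 660))))) (merge (node 498 (merge (leaf 7 466 466) (node 627 (merge (leaf 7 498 530) (node 626 (merge (leaf 5 498 594) (leaf 5 530 658))))))) (node 498 (merge (leaf 7 466 466) (node 533 (merge (leaf 0 498 534) (node 469 (merge (leaf 2 466 470) (node 596 (merge (leaf 4 499 628) (node 564 (merge (leaf 6 468 532) (leaf 5 468 565))))))))))))))))))) (node 501 (merge (node 502 (merge (leaf 1 498 530) (node 503 (merge (leaf 1 499 532) (node 471 (merge (leaf 2 467 470) (leaf 2 468 472))))))) (merge (node 502 (merge (leaf 1 498 530) (node 535 (merge (leaf 0 499 534) (node 503 (merge (leaf 1 499 532) (leaf 0 500 536))))))) (merge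 (node 502 (merge (leaf 1 498 530) (node 534 (merge (leaf 0 499 535) (node 498 (merge (leaf 0 498 533) (node 470 (merge (leaf 2 466 469) (leaf 2 467 471))))))))) (merge (node 502 (merge (node 535 (merge (leaf 0 499 534) (node 503 (merge (leaf 1 499 532) (leaf 0 500 536))))) (merge (node 503 (merge (leaf 1 499 532) (node 471 (merge (leaf 2 467 470) (leaf 2 468 472))))) (node 534 (merge (leaf 0 499 535) (node 498 (merge (leaf 0 498 533) (node 470 (merge (leaf 2 466 469) (leaf 2 467 471)))))))))) (node 469 (merge (node 498 (merge (leaf 2 466 470) (node 466 (merge (leaf 3 465 465) (node 434 (merge (leaf 4 402 402) (leaf 4 434 530))))))) (merge (node 533 (merge (node 534 (merge (leaf 0 498 498) (node 532 (merge (leaf 3 499 535) (leaf 1 530 562))))) (node 565 (merge (node 468 (merge (leaf 7 436 436) (leaf 7 468 597))) (node 566 (merge (leaf 4 469 598) (node 564 (merge (leaf 3 530 530) (leaf 5 468 596))))))))) (node 532 (merge (node 564 (merge (leaf 6 468 596) (node 437 (merge (leaf 5 404 405) (leaf 5 436 533))))) (merge (node 564 (merge (leaf 6 468 596) (node 468 (merge (leaf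 5 435 436) (leaf 6 436 437))))) (node 562 (merge (leaf 2 528 561) (node 533 (merge (leaf 1 530 534) (node 468 (merge (leaf 5 435 436) (node 470 (merge (leaf 1 467 471) (node 565 (merge (leaf 6 437 438) (leaf 7 468 597)))))))))))))))))))))))))))))))))))))) (hyp 0)))))))) nP_67 cP_67 15 (by decide +kernel)
def nP_68 : ℕ := 0x38000000200000002000000000000000000000000000000000000000000000000000000000000000000000000000000000000000000000000000000000000000000000000000
def cP_68 : ℕ := 0xe0000001f8000001f800000078000001f8000005e0000001c0000001c0000001000000000000000000000000000000000000000000000000000000000000000000000000000000000000000000000000000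
theorem lP_68 : S nP_68 cP_68 10 := S_of_chk [] trivial (node 523 (merge (node 524 (merge (node 522 (merge (leaf 2 490 494) (leaf 0 521 521))) (node 554 (merge (leaf 2 521 553) (node 586 (merge (leaf 1 553 585) (node 618 (merge (leaf 6 522 650) (node 587 (merge (leaf 5 490 491) (node 619 (merge (leaf 6 491 492) (leaf 6 523 651))))))))))))) (merge (node 522 (merge (node 521 (merge (leaf 0 520 520) (leaf 3 521 554))) (node 524 (merge (leaf 2 490 494) (node 588 (merge (leaf 6 492 620) (node 490 (merge (leaf 3 489 489) (node 587 (merge (leaf 7 490 619) (node 491 (merge (leaf 7 458 458) (leaf 4 459 459))))))))))))) (merge (node 491 (merge (node 459 (merge (leaf 4 459 588) (node 458 (merge (leaf 7 426 426) (node 587 (merge (leaf 7 458 490) (node 586 (merge (leaf 5 458 554) (leaf 5 490 618))))))))) (merge (node 459 (merge (leaf 4 459 588) (node 458 (merge (leaf 7 426 426) (node 587 (merge (leaf 7 458 490) (node 492 (merge (leaf 6 459 460) (leaf 3 458 494))))))))) (merge (node 522 (merge (node 521 (merge (leaf 0 520 520) (leaf 3 521 554))) (node 492 (merge (leaf 1 490 494)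 (node 587 (merge (leaf 6 459 460) (node 619 (merge (leaf 7 490 490) (node 618 (merge (leaf 5 490 586) (leaf 5 522 650))))))))))) (node 459 (merge (leaf 4 459 588) (node 554 (merge (leaf 5 458 586) (node 522 (merge (leaf 5 426 427) (leaf 3 521 521))))))))))) (merge (node 522 (merge (node 521 (merge (leaf 0 520 520) (leaf 3 521 554))) (merge (node 524 (merge (leaf 2 490 494) (leaf 0 521 521))) (node 524 (merge (leaf 2 490 494) (node 554 (merge (leaf 1 521 553) (node 586 (merge (leaf 1 553 585) (node 618 (merge (leaf 6 490 491) (leaf 6 522 650)))))))))))) (merge (node 524 (merge (node 554 (merge (leaf 2 521 553) (node 586 (merge (leaf 1 553 585) (node 618 (merge (leaf 6 522 650) (node 587 (merge (leaf 5 490 491) (node 619 (merge (leaf 6 491 492) (leaf 6 523 651))))))))))) (merge (node 588 (merge (leaf 6 492 620) (node 522 (merge (leaf 2 490 494) (node 490 (merge (leaf 3 489 489) (node 587 (merge (leaf 7 490 619) (node 491 (merge (leaf 7 458 458) (leaf 4 459 459))))))))))) (merge (node 522 (merge (leaf 2 490 494) (node 554 (merge (leaf 1 521 553) (node 490 (merge (leaf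 3 489 489) (node 587 (merge (leaf 4 458 458) (leaf 7 490 619))))))))) (node 522 (merge (leaf 2 490 494) (node 554 (merge (leaf 1 521 553) (node 586 (merge (leaf 1 553 585) (node 491 (merge (leaf 5 458 459) (leaf 6 490 618))))))))))))) (merge (node 491 (merge (node 459 (merge (leaf 4 459 588) (node 458 (merge (leaf 7 426 426) (node 494 (merge (leaf 3 458 492) (node 524 (merge (leaf 4 427 427) (leaf 2 490 522))))))))) (merge (node 459 (merge (leaf 4 459 588) (node 428 (merge (leaf 6 427 460) (node 427 (merge (leaf 6 395 396) (leaf 4 427 524))))))) (merge (node 459 (merge (leaf 4 459 588) (node 458 (merge (leaf 7 426 426) (node 587 (merge (leaf 7 458 490) (node 492 (merge (leaf 6 459 460) (leaf 3 458 494))))))))) (node 522 (merge (node 521 (merge (leaf 0 520 520) (leaf 0 521 524))) (node 492 (merge (leaf 1 490 494) (node 587 (merge (leaf 6 459 460) (node 619 (merge (leaf 7 490 490) (node 618 (merge (leaf 5 490 586) (leaf 5 522 650))))))))))))))) (merge (node 554 (merge (node 586 (merge (leaf 1 553 585) (node 618 (merge (leaf 6 522 650) (node 491 (merge (leaf 5 458 459)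 (leaf 5 490 587))))))) (merge (node 553 (merge (leaf 2 521 524) (node 584 (merge (leaf 1 552 585) (node 552 (merge (leaf 1 551 583) (node 520 (merge (leaf 3 519 519) (leaf 3 520 521))))))))) (node 553 (merge (leaf 2 521 524) (node 520 (merge (leaf 3 520 521) (node 552 (merge (leaf 3 519 519) (node 587 (merge (leaf 0 552 588) (node 586 (merge (leaf 0 551 551) (node 618 (merge (leaf 5 490 491) (leaf 6 522 650)))))))))))))))) (node 522 (merge (node 524 (merge (leaf 2 490 494) (leaf 0 521 521))) (merge (node 524 (merge (leaf 2 490 494) (node 554 (merge (leaf 1 521 553) (node 490 (merge (leaf 3 489 489) (node 587 (merge (leaf 4 458 458) (leaf 7 490 619))))))))) (node 554 (merge (leaf 3 521 521) (node 586 (merge (leaf 1 553 585) (node 618 (merge (leaf 6 522 650) (node 619 (merge (leaf 4 522 651) (node 587 (merge (leaf 7 490 490) (node 617 (merge (leaf 5 521 649) (node 616 (merge (leaf 2 584 588) (leaf 2 583 615)))))))))))))))))))))))))) nP_68 cP_68 10 (by decide +kernel)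
def nP_69 : ℕ := 0x10000000100000001200000010000000000000000000000000000000000000000000000000000000000000000000000000000000000000000000000000000000000000000000000000000
def cP_69 : ℕ := 0x400000005e0000017f800002ff8000067f800000df800002fe0000037c000003fc000001f000000050000000000000000000000000000000000000000000000000000000000000000000000000000000000000000000
theorem lP_69 : S nP_69 cP_69 14 := S_of_chk [(nP_68, cP_68, 10)] ⟨lP_68, trivial⟩ (node 557 (merge (node 497 (merge (leaf 6 464 465) (node 526 (merge (leaf 2 493 527) (node 494 (merge (leaf 1 493 495) (node 462 (merge (leaf 5 429 430) (node 589 (merge (leaf 6 461 493) (leaf 5 461 558))))))))))) (merge (node 497 (merge (leaf 6 464 465) (node 526 (merge (leaf 2 493 527) (node 494 (merge (leaf 1 493 495) (node 589 (merge (leaf 6 493 621) (node 462 (merge (leaf 5 429 430) (leaf 6 461 493))))))))))) (merge (node 497 (merge (leaf 6 464 465) (node 526 (merge (leaf 2 493 527) (node 494 (merge (leaf 1 493 495) (node 589 (merge (leaf 6 493 621) (node 462 (merge (leaf 5 429 430) (leaf 5 461 558))))))))))) (merge (node 590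 (merge (node 622 (merge (node 493 (merge (leaf 4 493 589) (node 558 (merge (leaf 4 461 461) (leaf 7 493 526))))) (merge (node 589 (merge (leaf 4 493 493) (node 654 (merge (leaf 4 525 621) (leaf 7 557 686))))) (merge (node 558 (merge (leaf 7 525 654) (node 493 (merge (leaf 4 461 461) (leaf 7 493 526))))) (node 654 (merge (leaf 7 525 558) (node 589 (merge (leaf 4 525 621) (leaf 7 557 686))))))))) (merge (node 591 (merge (node 589 (merge (leaf 3 556 556) (leaf 2 557 561))) (merge (node 593 (merge (leaf 3 557 558) (node 561 (merge (leaf 4 464 464) (leaf 2 558 562))))) (node 556 (merge (leaf 3 556 589) (node 558 (merge (leaf 0 555 555) (leaf 3 557 593)))))))) (merge (node 465 (merge (leaf 6 464 497) (node 464 (merge (leaf 6 432 433) (node 593 (merge (leaf 4 464 561) (node 558 (merge (leaf 3 557 591) (node 622 (merge (leaf 7 525 654) (node 493 (merge (leaf 4 461 461) (leaf 7 493 526))))))))))))) (node 465 (merge (leaf 6 464 497) (node 464 (merge (leaf 6 432 433) (node 561 (merge (leaf 4 464 593) (node 589 (merge (leaf 2 557 591) (node 622 (merge (leaf 4 493 493) (node 654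 (merge (leaf 4 525 621) (leaf 7 557 686))))))))))))))))) (merge (node 590 (merge (node 622 (merge (node 493 (merge (leaf 4 493 589) (node 558 (merge (leaf 4 461 461) (leaf 7 493 526))))) (merge (node 589 (merge (leaf 4 493 493) (node 654 (merge (leaf 4 525 621) (leaf 7 557 686))))) (merge (node 558 (merge (leaf 7 525 654) (node 493 (merge (leaf 4 461 461) (leaf 7 493 526))))) (node 654 (merge (leaf 7 525 558) (node 589 (merge (leaf 4 525 621) (leaf 7 557 686))))))))) (merge (node 591 (merge (node 589 (merge (leaf 3 556 556) (leaf 2 557 561))) (merge (node 593 (merge (leaf 3 557 558) (node 561 (merge (leaf 4 464 464) (leaf 2 558 562))))) (node 556 (merge (leaf 3 556 589) (node 558 (merge (leaf 0 555 555) (leaf 3 557 593)))))))) (merge (node 465 (merge (leaf 6 464 497) (node 464 (merge (leaf 6 432 433) (node 593 (merge (leaf 4 464 561) (node 558 (merge (leaf 3 557 591) (node 622 (merge (leaf 7 525 654) (node 493 (merge (leaf 4 461 461) (leaf 7 493 526))))))))))))) (node 465 (merge (leaf 6 464 497) (node 464 (merge (leaf 6 432 433) (node 561 (merge (leaf 4 464 593) (node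 589 (merge (leaf 2 557 591) (node 493 (merge (leaf 4 493 622) (node 494 (merge (leaf 6 461 462) (leaf 2 461 495))))))))))))))))) (merge (node 493 (merge (node 460 (merge (node 428 (merge (leaf 7 428 461) (node 492 (merge (leaf 4 396 396) (leaf 4 428 524))))) (merge (node 461 (merge (leaf 7 428 428) (node 462 (merge (leaf 6 429 430) (node 494 (merge (leaf 3 460 495) (leaf 6 461 589))))))) (merge (node 492 (merge (leaf 7 460 589) (node 428 (merge (leaf 4 396 396) (leaf 4 428 524))))) (node 589 (merge (leaf 7 460 492) (node 494 (merge (leaf 6 461 462) (node 495 (merge (leaf 3 460 461) (leaf 1 492 524))))))))))) (merge (node 588 (merge (node 556 (merge (leaf 5 460 461) (node 620 (merge (leaf 6 492 524) (leaf 6 524 652))))) (merge (node 620 (merge (leaf 5 492 589) (node 556 (merge (leaf 6 492 524) (leaf 6 524 652))))) (merge (node 461 (merge (leaf 5 460 556) (node 462 (merge (leaf 6 429 430) (node 589 (merge (leaf 6 461 494) (node 590 (merge (leaf 4 461 558) (leaf 4 493 622))))))))) (node 589 (merge (leaf 5 492 620) (node 462 (merge (leaf 6 461 494) (node 461 (merge (leaf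 6 429 430) (node 590 (merge (leaf 4 461 558) (leaf 4 493 622))))))))))))) (merge (node 460 (merge (node 428 (merge (leaf 7 428 461) (node 492 (merge (leaf 4 396 396) (leaf 4 428 524))))) (merge (node 461 (merge (leaf 7 428 428) (node 590 (merge (leaf 4 461 558) (node 589 (merge (leaf 4 493 622) (node 588 (merge (leaf 5 460 556) (leaf 5 492 620))))))))) (node 589 (merge (leaf 7 460 492) (node 622 (merge (leaf 4 493 590) (node 621 (merge (leaf 4 525 654) (node 620 (merge (leaf 5 492 588) (leaf 5 524 652)))))))))))) (merge (node 589 (merge (node 492 (merge (leaf 7 460 460) (node 621 (merge (leaf 7 492 524) (node 620 (merge (leaf 5 492 588) (leaf 5 524 652))))))) (merge (node 494 (merge (leaf 6 461 462) (node 492 (merge (leaf 7 460 460) (node 495 (merge (leaf 1 492 524) (leaf 0 492 527))))))) (node 622 (merge (leaf 4 493 590) (node 621 (merge (leaf 4 525 654) (node 620 (merge (leaf 5 492 588) (leaf 5 524 652)))))))))) (merge (node 461 (merge (node 430 (merge (leaf 6 429 462) (node 429 (merge (leaf 6 397 398) (node 428 (merge (leaf 7 396 396) (leaf 7 428 460))))))) (merge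 (node 460 (merge (leaf 7 428 428) (node 589 (merge (leaf 7 460 492) (node 588 (merge (leaf 5 460 556) (leaf 5 492 620))))))) (node 462 (merge (leaf 6 429 430) (node 589 (merge (leaf 6 461 494) (node 588 (merge (leaf 5 460 556) (leaf 5 492 620)))))))))) (node 461 (merge (node 430 (merge (leaf 6 429 462) (node 429 (merge (leaf 6 397 398) (node 556 (merge (leaf 5 428 524) (leaf 5 460 588))))))) (merge (node 430 (merge (leaf 6 429 462) (node 429 (merge (leaf 6 397 398) (node 428 (merge (leaf 7 396 396) (leaf 7 428 460))))))) (merge (node 460 (merge (leaf 7 428 428) (node 494 (merge (leaf 3 460 495) (node 459 (merge (leaf 0 458 458) (node 556 (merge (leaf 5 460 588) (node 524 (merge (leaf 5 428 429) (node 427 (merge (leaf 7 427 492) (node 523 (merge (leaf 4 427 491) (leaf 2 490 522))))))))))))))) (node 462 (merge (leaf 6 429 430) (node 556 (merge (leaf 5 460 588) (node 460 (merge (leaf 7 428 428) (node 494 (merge (leaf 3 460 495) (node 459 (merge (leaf 0 458 458) (node 491 (merge (leaf 1 458 490) (node 427 (merge (leaf 3 426 426) (node 524 (merge (leaf 7 427 492) (leaf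 4 427 523))))))))))))))))))))))))))) (node 493 (merge (node 527 (merge (node 526 (merge (leaf 3 492 492) (leaf 0 525 561))) (merge (node 495 (merge (leaf 7 495 624) (node 524 (merge (leaf 1 492 494) (leaf 2 492 526))))) (node 495 (merge (leaf 7 495 624) (node 494 (merge (leaf 0 492 492) (leaf 1 492 524)))))))) (merge (node 497 (merge (leaf 6 464 465) (node 527 (merge (leaf 2 493 526) (node 495 (merge (leaf 7 495 624) (node 494 (merge (leaf 0 492 492) (node 461 (merge (leaf 3 460 460) (leaf 3 461 462))))))))))) (merge (node 497 (merge (leaf 6 464 465) (node 527 (merge (leaf 2 493 526) (node 495 (merge (leaf 7 495 624) (node 494 (merge (leaf 1 492 524) (node 461 (merge (leaf 3 460 460) (leaf 3 461 462))))))))))) (merge (node 461 (merge (node 430 (merge (leaf 6 429 462) (node 429 (merge (leaf 6 397 398) (node 556 (merge (leaf 5 428 524) (leaf 5 460 588))))))) (merge (node 430 (merge (leaf 6 429 462) (node 429 (merge (leaf 6 397 398) (node 428 (merge (leaf 7 396 396) (leaf 7 428 460))))))) (merge (node 460 (merge (leaf 7 428 428) (node 494 (merge (leaf 3 460 495) (node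 459 (merge (leaf 0 458 458) (node 556 (merge (leaf 5 460 588) (node 524 (merge (leaf 5 428 429) (node 427 (merge (leaf 7 427 492) (node 523 (merge (leaf 4 427 491) (leaf 2 490 522))))))))))))))) (node 462 (merge (leaf 6 429 430) (node 556 (merge (leaf 5 460 588) (node 460 (merge (leaf 7 428 428) (node 494 (merge (leaf 3 460 495) (node 459 (merge (leaf 0 458 458) (node 491 (merge (leaf 1 458 490) (node 427 (merge (leaf 3 426 426) (node 524 (merge (leaf 7 427 492) (leaf 4 427 523))))))))))))))))))))) (merge (node 429 (merge (node 461 (merge (node 398 (merge (leaf 6 397 430) (node 397 (merge (leaf 6 365 366) (node 396 (merge (leaf 7 364 364) (leaf 7 396 428))))))) (merge (node 428 (merge (leaf 7 396 396) (node 557 (merge (leaf 7 428 460) (node 556 (merge (leaf 5 428 524) (leaf 5 460 588))))))) (node 430 (merge (leaf 6 397 398) (node 557 (merge (leaf 6 429 462) (node 556 (merge (leaf 5 428 524) (leaf 5 460 588)))))))))) (merge (node 497 (merge (leaf 6 464 465) (node 526 (merge (leaf 2 493 527) (node 461 (merge (leaf 4 429 558) (node 396 (merge (leaf 7 396 428) (node 397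 (merge (leaf 7 364 364) (node 524 (merge (leaf 5 396 492) (leaf 5 428 556))))))))))))) (node 465 (merge (leaf 6 464 497) (node 464 (merge (leaf 6 432 433) (node 561 (merge (leaf 4 464 593) (node 527 (merge (leaf 0 525 526) (node 495 (merge (leaf 7 495 624) (node 432 (merge (leaf 5 399 400) (node 431 (merge (leaf 7 399 399) (leaf 0 429 430)))))))))))))))))) (node 556 (merge (node 588 (merge (leaf 5 460 461) (node 620 (merge (leaf 6 492 524) (leaf 6 524 652))))) (merge (node 526 (merge (leaf 1 524 527) (node 461 (merge (leaf 5 460 588) (node 558 (merge (leaf 4 429 429) (leaf 4 461 590))))))) (merge (node 558 (merge (node 590 (merge (leaf 4 461 461) (node 591 (merge (leaf 0 555 555) (leaf 3 557 593))))) (merge (node 590 (merge (leaf 4 461 461) (node 622 (merge (leaf 7 493 526) (leaf 7 525 654))))) (merge (node 526 (merge (leaf 1 524 527) (node 590 (merge (leaf 7 493 622) (node 555 (merge (leaf 2 522 554) (leaf 0 555 591))))))) (node 460 (merge (node 461 (merge (leaf 7 428 428) (node 526 (merge (leaf 4 429 429) (leaf 1 524 527))))) (merge (node 428 (merge (leaf 7 428 461)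 (node 492 (merge (leaf 4 396 396) (leaf 4 428 524))))) (node 526 (merge (leaf 1 524 527) (node 555 (merge (leaf 2 522 554) (node 587 (merge (leaf 1 554 586) (node 523 (merge (leaf 3 522 522) (node 492 (merge (leaf 6 459 491) (leaf 5 459 524)))))))))))))))))) (node 555 (merge (node 526 (merge (leaf 1 524 527) (leaf 2 522 554))) (merge (node 523 (merge (node 522 (merge (leaf 3 522 558) (node 524 (merge (leaf 2 490 494) (leaf 0 521 521))))) (merge (node 526 (merge (leaf 1 524 527) (node 558 (merge (leaf 3 522 522) (node 590 (merge (leaf 0 555 591) (leaf 7 493 622))))))) (node 491 (merge (node 588 (merge (leaf 4 459 459) (node 620 (merge (leaf 4 491 587) (leaf 6 524 652))))) (node 526 (merge (leaf 1 524 527) (node 490 (merge (leaf 0 490 492) (leaf 3 490 524)))))))))) (hyp 0))))))))))))))))))))) nP_69 cP_69 14 (by decide +kernel)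

end Crest.Agent.H26Snaky
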