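import Crest.Agent.H26SnP004

/-! certificate data for S0047, part P 5 (computer generated) -/

set_option autoImplicit false
set_option maxRecDepth 100000

namespace Crest.Agent.H26Snaky

open T

def nP_70 : ℕ := 0x10000000100000001200000010000000000000000000000000000000000000000000000000000000000000000000000000000000000000000000000000000000000000000000000000000
def cP_70 : ℕ := 0x214000003dc000003fe000001ff8000027f8000027f800000df800002fe0000037e000003fc000001f000000050000000000000000000000000000000000000000000000000000000000000000000000000000000000000000000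
theorem lP_70 : S nP_70 cP_70 15 := S_of_chk [(nP_68, cP_68, 10)] ⟨lP_68, trivial⟩ (node 557 (merge (node 497 (merge (leaf 6 464 465) (node 526 (merge (leaf 2 493 527) (node 494 (merge (leaf 1 493 495) (node 589 (merge (leaf 6 493 621) (node 462 (merge (leaf 5 429 430) (leaf 6 461 493))))))))))) (merge (node 497 (merge (leaf 6 464 465) (node 526 (merge (leaf 2 493 527) (node 494 (merge (leaf 1 493 495) (node 589 (merge (leaf 6 493 621) (node 462 (merge (leaf 5 429 430) (leaf 5 461 558))))))))))) (merge (node 493 (merge (node 460 (merge (node 428 (merge (leaf 7 428 461) (node 492 (merge (leaf 4 396 396) (leaf 4 428 524))))) (merge (node 461 (merge (leaf 7 428 428) (node 462 (merge (leaf 6 429 430) (node 494 (merge (leaf 3 460 495) (leaf 6 461 589))))))) (merge (node 492 (merge (leaf 7 460 589) (node 428 (merge (leaf 4 396 396) (leaf 4 428 524))))) (node 589 (merge (leaf 7 460 492) (node 494 (merge (leaf 6 461 462) (node 495 (merge (leaf 3 460 461) (leaf 1 492 524))))))))))) (merge (node 588 (merge (node 556 (merge (leaf 5 460 461) (node 620 (merge (leaf 6 492 524) (leaf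 6 524 652))))) (merge (node 620 (merge (leaf 5 492 589) (node 556 (merge (leaf 6 492 524) (leaf 6 524 652))))) (merge (node 461 (merge (leaf 5 460 556) (node 462 (merge (leaf 6 429 430) (node 589 (merge (leaf 6 461 494) (node 590 (merge (leaf 4 461 558) (leaf 4 493 622))))))))) (node 589 (merge (leaf 5 492 620) (node 462 (merge (leaf 6 461 494) (node 461 (merge (leaf 6 429 430) (node 590 (merge (leaf 4 461 558) (leaf 4 493 622))))))))))))) (merge (node 460 (merge (node 428 (merge (leaf 7 428 461) (node 492 (merge (leaf 4 396 396) (leaf 4 428 524))))) (merge (node 461 (merge (leaf 7 428 428) (node 590 (merge (leaf 4 461 558) (node 589 (merge (leaf 4 493 622) (node 588 (merge (leaf 5 460 556) (leaf 5 492 620))))))))) (node 589 (merge (leaf 7 460 492) (node 622 (merge (leaf 4 493 590) (node 621 (merge (leaf 4 525 654) (node 620 (merge (leaf 5 492 588) (leaf 5 524 652)))))))))))) (merge (node 589 (merge (node 492 (merge (leaf 7 460 460) (node 621 (merge (leaf 7 492 524) (node 620 (merge (leaf 5 492 588) (leaf 5 524 652))))))) (merge (node 494 (merge (leaf 6 461 462) (node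 492 (merge (leaf 7 460 460) (node 495 (merge (leaf 1 492 524) (leaf 0 492 527))))))) (node 622 (merge (leaf 4 493 590) (node 621 (merge (leaf 4 525 654) (node 620 (merge (leaf 5 492 588) (leaf 5 524 652)))))))))) (merge (node 461 (merge (node 430 (merge (leaf 6 429 462) (node 429 (merge (leaf 6 397 398) (node 428 (merge (leaf 7 396 396) (leaf 7 428 460))))))) (merge (node 460 (merge (leaf 7 428 428) (node 589 (merge (leaf 7 460 492) (node 588 (merge (leaf 5 460 556) (leaf 5 492 620))))))) (node 462 (merge (leaf 6 429 430) (node 589 (merge (leaf 6 461 494) (node 588 (merge (leaf 5 460 556) (leaf 5 492 620)))))))))) (node 461 (merge (node 430 (merge (leaf 6 429 462) (node 429 (merge (leaf 6 397 398) (node 556 (merge (leaf 5 428 524) (leaf 5 460 588))))))) (merge (node 430 (merge (leaf 6 429 462) (node 429 (merge (leaf 6 397 398) (node 428 (merge (leaf 7 396 396) (leaf 7 428 460))))))) (merge (node 460 (merge (leaf 7 428 428) (node 494 (merge (leaf 3 460 495) (node 459 (merge (leaf 0 458 458) (node 556 (merge (leaf 5 460 588) (node 524 (merge (leaf 5 428 429) (node 427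 (merge (leaf 7 427 492) (node 523 (merge (leaf 4 427 491) (leaf 2 490 522))))))))))))))) (node 462 (merge (leaf 6 429 430) (node 556 (merge (leaf 5 460 588) (node 460 (merge (leaf 7 428 428) (node 494 (merge (leaf 3 460 495) (node 459 (merge (leaf 0 458 458) (node 491 (merge (leaf 1 458 490) (node 427 (merge (leaf 3 426 426) (node 524 (merge (leaf 7 427 492) (leaf 4 427 523))))))))))))))))))))))))))) (merge (node 493 (merge (node 465 (merge (leaf 6 464 497) (node 464 (merge (leaf 6 432 433) (node 494 (merge (leaf 2 461 495) (node 462 (merge (leaf 6 461 589) (node 430 (merge (leaf 5 397 398) (leaf 5 429 526))))))))))) (merge (node 588 (merge (node 620 (merge (leaf 5 492 589) (node 556 (merge (leaf 6 492 524) (leaf 6 524 652))))) (merge (node 556 (merge (leaf 5 460 461) (node 620 (merge (leaf 6 492 524) (leaf 6 524 652))))) (merge (node 461 (merge (leaf 5 460 556) (node 460 (merge (leaf 7 428 428) (node 589 (merge (leaf 7 460 492) (node 590 (merge (leaf 4 461 558) (leaf 4 493 622))))))))) (node 589 (merge (leaf 5 492 620) (node 460 (merge (leaf 7 460 492) (node 461 (merge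 (leaf 7 428 428) (node 590 (merge (leaf 4 461 558) (leaf 4 493 622))))))))))))) (node 461 (merge (node 430 (merge (leaf 6 429 462) (node 429 (merge (leaf 6 397 398) (node 556 (merge (leaf 5 428 524) (leaf 5 460 588))))))) (merge (node 430 (merge (leaf 6 429 462) (node 429 (merge (leaf 6 397 398) (node 428 (merge (leaf 7 396 396) (leaf 7 428 460))))))) (merge (node 460 (merge (leaf 7 428 428) (node 494 (merge (leaf 3 460 495) (node 459 (merge (leaf 0 458 458) (node 556 (merge (leaf 5 460 588) (node 524 (merge (leaf 5 428 429) (node 427 (merge (leaf 7 427 492) (node 523 (merge (leaf 4 427 491) (leaf 2 490 522))))))))))))))) (node 462 (merge (leaf 6 429 430) (node 556 (merge (leaf 5 460 588) (node 460 (merge (leaf 7 428 428) (node 494 (merge (leaf 3 460 495) (node 459 (merge (leaf 0 458 458) (node 491 (merge (leaf 1 458 490) (node 427 (merge (leaf 3 426 426) (node 524 (merge (leaf 7 427 492) (leaf 4 427 523)))))))))))))))))))))))) (merge (node 493 (merge (node 527 (merge (node 526 (merge (leaf 3 492 492) (leaf 0 525 561))) (merge (node 495 (merge (leaf 7 495 624) (node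 524 (merge (leaf 1 492 494) (leaf 2 492 526))))) (node 495 (merge (leaf 7 495 624) (node 494 (merge (leaf 0 492 492) (leaf 1 492 524)))))))) (merge (node 588 (merge (node 620 (merge (leaf 5 492 589) (node 556 (merge (leaf 6 492 524) (leaf 6 524 652))))) (merge (node 556 (merge (leaf 5 460 461) (node 620 (merge (leaf 6 492 524) (leaf 6 524 652))))) (merge (node 461 (merge (leaf 5 460 556) (node 460 (merge (leaf 7 428 428) (node 589 (merge (leaf 7 460 492) (node 590 (merge (leaf 4 461 558) (leaf 4 493 622))))))))) (node 589 (merge (leaf 5 492 620) (node 460 (merge (leaf 7 460 492) (node 461 (merge (leaf 7 428 428) (node 590 (merge (leaf 4 461 558) (leaf 4 493 622))))))))))))) (node 622 (merge (node 590 (merge (leaf 4 493 589) (node 558 (merge (leaf 7 493 526) (leaf 7 525 654))))) (merge (node 589 (merge (leaf 4 493 590) (node 621 (merge (leaf 4 525 654) (node 620 (merge (leaf 5 492 588) (leaf 5 524 652))))))) (node 497 (merge (leaf 6 464 465) (node 527 (merge (leaf 2 493 526) (node 624 (merge (leaf 7 495 495) (node 623 (merge (leaf 5 527 655) (node 621 (merge (leaf 2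 589 593) (node 652 (merge (leaf 1 620 653) (node 620 (merge (leaf 1 619 651) (node 588 (merge (leaf 6 524 556) (leaf 3 587 587))))))))))))))))))))))) (merge (node 589 (merge (node 497 (merge (leaf 6 464 465) (node 526 (merge (leaf 2 493 527) (node 494 (merge (leaf 6 493 621) (node 462 (merge (leaf 5 429 430) (leaf 5 461 558))))))))) (merge (node 497 (merge (leaf 6 464 465) (node 526 (merge (leaf 2 493 527) (node 494 (merge (leaf 6 493 621) (node 462 (merge (leaf 5 429 430) (leaf 6 461 493))))))))) (merge (node 622 (merge (node 654 (merge (leaf 4 525 621) (node 590 (merge (leaf 7 525 558) (leaf 7 557 686))))) (merge (node 621 (merge (leaf 4 525 654) (node 492 (merge (leaf 7 492 524) (node 493 (merge (leaf 7 460 460) (node 620 (merge (leaf 5 492 588) (leaf 5 524 652))))))))) (node 493 (merge (leaf 4 493 590) (node 460 (merge (leaf 7 460 492) (node 461 (merge (leaf 7 428 428) (node 588 (merge (leaf 5 460 556) (leaf 5 492 620)))))))))))) (node 588 (merge (node 620 (merge (leaf 5 492 493) (node 652 (merge (leaf 6 524 556) (leaf 6 556 684))))) (merge (node 493 (merge (leaf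 5 492 620) (node 462 (merge (leaf 6 461 494) (node 461 (merge (leaf 6 429 430) (node 590 (merge (leaf 4 461 558) (leaf 4 493 622))))))))) (merge (node 587 (merge (node 586 (merge (leaf 2 554 558) (node 585 (merge (leaf 2 553 556) (node 553 (merge (leaf 3 552 552) (leaf 3 553 554))))))) (merge (node 586 (merge (leaf 2 554 558) (node 617 (merge (leaf 1 585 618) (node 585 (merge (leaf 2 553 556) (leaf 1 584 616))))))) (merge (node 586 (merge (leaf 2 554 558) (node 618 (merge (leaf 1 585 617) (node 590 (merge (leaf 1 586 619) (node 554 (merge (leaf 3 553 553) (leaf 3 554 555))))))))) (merge (node 586 (merge (node 617 (merge (leaf 1 585 618) (node 585 (merge (leaf 2 553 556) (leaf 1 584 616))))) (merge (node 585 (merge (leaf 2 553 556) (node 553 (merge (leaf 3 552 552) (leaf 3 553 554))))) (node 618 (merge (leaf 1 585 617) (node 590 (merge (leaf 1 586 619) (node 554 (merge (leaf 3 553 553) (leaf 3 554 555)))))))))) (node 493 (merge (node 462 (merge (leaf 6 461 494) (node 461 (merge (leaf 6 429 430) (leaf 5 460 556))))) (merge (node 462 (merge (leaf 6 461 494) (node 461 (merge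 (leaf 6 429 430) (node 590 (merge (leaf 4 461 558) (leaf 4 493 622))))))) (node 492 (merge (leaf 7 460 460) (node 590 (merge (leaf 4 493 622) (node 619 (merge (leaf 1 586 618) (node 555 (merge (leaf 3 554 554) (node 524 (merge (leaf 6 491 523) (leaf 5 491 556))))))))))))))))))) (node 587 (merge (node 586 (merge (leaf 2 554 558) (node 585 (merge (leaf 2 553 556) (node 553 (merge (leaf 3 552 552) (leaf 3 553 554))))))) (merge (node 586 (merge (leaf 2 554 558) (node 617 (merge (leaf 1 585 618) (node 585 (merge (leaf 2 553 556) (leaf 1 584 616))))))) (merge (node 586 (merge (leaf 2 554 558) (node 618 (merge (leaf 1 585 617) (node 590 (merge (leaf 1 586 619) (node 554 (merge (leaf 3 553 553) (leaf 3 554 555))))))))) (merge (node 586 (merge (node 617 (merge (leaf 1 585 618) (node 585 (merge (leaf 2 553 556) (leaf 1 584 616))))) (merge (node 585 (merge (leaf 2 553 556) (node 553 (merge (leaf 3 552 552) (leaf 3 553 554))))) (node 618 (merge (leaf 1 585 617) (node 590 (merge (leaf 1 586 619) (node 554 (merge (leaf 3 553 553) (leaf 3 554 555)))))))))) (node 555 (merge (node 590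 (merge (leaf 3 554 554) (node 622 (merge (leaf 0 587 623) (node 654 (merge (leaf 7 525 558) (leaf 7 557 686))))))) (merge (node 497 (merge (leaf 6 464 465) (node 526 (merge (leaf 2 493 527) (node 554 (merge (leaf 2 522 556) (node 523 (merge (leaf 1 522 524) (node 620 (merge (leaf 4 491 491) (node 652 (merge (leaf 4 523 619) (leaf 6 556 684))))))))))))) (node 619 (merge (node 590 (merge (leaf 1 586 618) (node 622 (merge (leaf 0 587 623) (node 654 (merge (leaf 7 525 558) (leaf 7 557 686))))))) (node 651 (merge (node 556 (merge (leaf 6 523 524) (leaf 6 555 683))) (merge (node 684 (merge (leaf 4 555 652) (node 683 (merge (leaf 4 587 716) (node 682 (merge (leaf 5 554 650) (leaf 5 586 714))))))) (node 556 (merge (leaf 6 523 524) (node 652 (merge (leaf 6 524 620) (leaf 4 555 684)))))))))))))))))))))))))) (merge (node 589 (merge (node 492 (merge (node 460 (merge (leaf 7 460 493) (node 524 (merge (leaf 4 428 428) (leaf 4 460 556))))) (merge (node 493 (merge (leaf 7 460 460) (node 622 (merge (leaf 4 493 590) (node 621 (merge (leaf 4 525 654) (node 620 (merge (leaf 5 492 588)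 (leaf 5 524 652))))))))) (node 621 (merge (leaf 7 492 524) (node 654 (merge (leaf 4 525 622) (node 653 (merge (leaf 4 557 686) (node 652 (merge (leaf 5 524 620) (leaf 5 556 684)))))))))))) (merge (node 497 (merge (leaf 6 464 465) (node 527 (merge (leaf 2 493 526) (node 624 (merge (leaf 7 495 495) (node 655 (merge (leaf 5 527 623) (node 656 (merge (leaf 5 559 687) (node 689 (merge (leaf 4 560 657) (node 688 (merge (leaf 4 592 721) (node 654 (merge (leaf 0 653 653) (node 622 (merge (leaf 4 525 621) (node 590 (merge (leaf 4 493 493) (leaf 7 525 558))))))))))))))))))))) (merge (node 493 (merge (node 492 (merge (leaf 7 460 460) (node 621 (merge (leaf 7 492 524) (node 620 (merge (leaf 5 492 588) (leaf 5 524 652))))))) (merge (node 497 (merge (leaf 6 464 465) (node 460 (merge (leaf 7 460 492) (node 461 (merge (leaf 7 428 428) (node 430 (merge (leaf 6 429 462) (node 429 (merge (leaf 6 397 398) (node 526 (merge (leaf 2 493 527) (leaf 4 429 558))))))))))))) (node 497 (merge (leaf 6 464 465) (node 526 (merge (leaf 2 493 527) (node 588 (merge (leaf 5 492 620) (node 461 (merge (leaf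 5 460 556) (node 430 (merge (leaf 6 429 462) (node 429 (merge (leaf 6 397 398) (leaf 4 429 558)))))))))))))))) (merge (node 621 (merge (node 654 (merge (leaf 4 525 622) (node 653 (merge (leaf 4 557 686) (node 652 (merge (leaf 5 524 620) (leaf 5 556 684))))))) (merge (node 524 (merge (leaf 7 492 492) (node 653 (merge (leaf 7 524 556) (node 654 (merge (leaf 4 525 622) (leaf 4 557 686))))))) (merge (node 524 (merge (leaf 7 492 492) (node 653 (merge (leaf 7 524 556) (node 652 (merge (leaf 5 524 620) (leaf 5 556 684))))))) (node 588 (merge (node 622 (merge (leaf 4 525 654) (node 587 (merge (leaf 0 586 586) (node 623 (merge (leaf 0 587 590) (leaf 3 588 624))))))) (merge (node 622 (merge (leaf 4 525 654) (node 623 (merge (leaf 3 588 624) (node 620 (merge (leaf 3 587 587) (leaf 5 524 652))))))) (node 620 (merge (leaf 5 524 652) (node 619 (merge (node 618 (merge (leaf 2 586 590) (leaf 2 585 617))) (node 524 (merge (leaf 7 492 492) (node 556 (merge (leaf 5 523 651) (node 523 (merge (leaf 7 491 491) (node 522 (merge (leaf 0 521 521) (leaf 0 522 558)))))))))))))))))))) (node 588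 (merge (node 620 (merge (leaf 5 492 493) (node 652 (merge (leaf 6 524 556) (leaf 6 556 684))))) (merge (node 497 (merge (leaf 6 464 465) (node 526 (merge (leaf 2 493 527) (node 493 (merge (leaf 5 492 620) (node 460 (merge (leaf 7 460 492) (node 461 (merge (leaf 7 428 428) (node 430 (merge (leaf 6 429 462) (node 429 (merge (leaf 6 397 398) (leaf 4 429 558))))))))))))))) (merge (node 587 (merge (node 586 (merge (leaf 2 554 558) (node 585 (merge (leaf 2 553 556) (node 553 (merge (leaf 3 552 552) (leaf 3 553 554))))))) (merge (node 586 (merge (leaf 2 554 558) (node 617 (merge (leaf 1 585 618) (node 585 (merge (leaf 2 553 556) (leaf 1 584 616))))))) (merge (node 586 (merge (leaf 2 554 558) (node 618 (merge (leaf 1 585 617) (node 590 (merge (leaf 1 586 619) (node 554 (merge (leaf 3 553 553) (leaf 3 554 555))))))))) (merge (node 586 (merge (node 617 (merge (leaf 1 585 618) (node 585 (merge (leaf 2 553 556) (leaf 1 584 616))))) (merge (node 585 (merge (leaf 2 553 556) (node 553 (merge (leaf 3 552 552) (leaf 3 553 554))))) (node 618 (merge (leaf 1 585 617) (node 590 (merge (leaf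 1 586 619) (node 554 (merge (leaf 3 553 553) (leaf 3 554 555)))))))))) (node 493 (merge (node 590 (merge (leaf 4 493 622) (node 461 (merge (leaf 5 460 556) (leaf 4 461 558))))) (merge (node 460 (merge (leaf 7 460 492) (node 461 (merge (leaf 7 428 428) (leaf 5 460 556))))) (merge (node 492 (merge (leaf 7 460 460) (node 590 (merge (leaf 4 493 622) (node 619 (merge (leaf 1 586 618) (node 555 (merge (leaf 3 554 554) (node 524 (merge (leaf 6 491 523) (leaf 5 491 556))))))))))) (node 460 (merge (leaf 7 460 492) (node 461 (merge (leaf 7 428 428) (node 590 (merge (leaf 4 461 558) (leaf 4 493 622)))))))))))))))) (node 587 (merge (node 586 (merge (leaf 2 554 558) (node 585 (merge (leaf 2 553 556) (node 553 (merge (leaf 3 552 552) (leaf 3 553 554))))))) (merge (node 586 (merge (leaf 2 554 558) (node 617 (merge (leaf 1 585 618) (node 585 (merge (leaf 2 553 556) (leaf 1 584 616))))))) (merge (node 586 (merge (leaf 2 554 558) (node 618 (merge (leaf 1 585 617) (node 590 (merge (leaf 1 586 619) (node 554 (merge (leaf 3 553 553) (leaf 3 554 555))))))))) (merge (node 586 (merge (node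 617 (merge (leaf 1 585 618) (node 585 (merge (leaf 2 553 556) (leaf 1 584 616))))) (merge (node 585 (merge (leaf 2 553 556) (node 553 (merge (leaf 3 552 552) (leaf 3 553 554))))) (node 618 (merge (leaf 1 585 617) (node 590 (merge (leaf 1 586 619) (node 554 (merge (leaf 3 553 553) (leaf 3 554 555)))))))))) (node 555 (merge (node 590 (merge (leaf 3 554 554) (node 622 (merge (leaf 0 587 623) (node 654 (merge (leaf 7 525 558) (leaf 7 557 686))))))) (merge (node 497 (merge (leaf 6 464 465) (node 526 (merge (leaf 2 493 527) (node 554 (merge (leaf 2 522 556) (node 523 (merge (leaf 1 522 524) (node 620 (merge (leaf 4 491 491) (node 652 (merge (leaf 4 523 619) (leaf 6 556 684))))))))))))) (node 652 (merge (node 620 (merge (leaf 6 524 556) (leaf 6 556 684))) (merge (node 620 (merge (leaf 6 524 556) (node 523 (merge (leaf 4 491 491) (leaf 4 523 619))))) (merge (node 620 (merge (leaf 6 556 684) (node 523 (merge (leaf 4 491 491) (leaf 4 523 619))))) (node 497 (merge (leaf 6 464 465) (node 527 (merge (leaf 2 493 526) (node 624 (merge (leaf 7 495 495) (node 623 (merge (leaf 5 527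 655) (node 590 (merge (leaf 0 587 622) (node 619 (merge (leaf 1 586 618) (node 651 (merge (leaf 4 555 684) (node 556 (merge (leaf 6 523 524) (leaf 6 555 683)))))))))))))))))))))))))))))))))))))) (node 493 (merge (node 527 (merge (node 526 (merge (leaf 3 492 492) (leaf 0 525 561))) (merge (node 495 (merge (leaf 7 495 624) (node 524 (merge (leaf 1 492 494) (leaf 2 492 526))))) (node 495 (merge (leaf 7 495 624) (node 494 (merge (leaf 0 492 492) (leaf 1 492 524)))))))) (merge (node 497 (merge (leaf 6 464 465) (node 527 (merge (leaf 2 493 526) (node 495 (merge (leaf 7 495 624) (node 494 (merge (leaf 0 492 492) (node 461 (merge (leaf 3 460 460) (leaf 3 461 462))))))))))) (merge (node 497 (merge (leaf 6 464 465) (node 527 (merge (leaf 2 493 526) (node 495 (merge (leaf 7 495 624) (node 494 (merge (leaf 1 492 524) (node 461 (merge (leaf 3 460 460) (leaf 3 461 462))))))))))) (merge (node 461 (merge (node 430 (merge (leaf 6 429 462) (node 429 (merge (leaf 6 397 398) (node 556 (merge (leaf 5 428 524) (leaf 5 460 588))))))) (merge (node 430 (merge (leaf 6 429 462) (node 429 (merge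 (leaf 6 397 398) (node 428 (merge (leaf 7 396 396) (leaf 7 428 460))))))) (merge (node 460 (merge (leaf 7 428 428) (node 494 (merge (leaf 3 460 495) (node 459 (merge (leaf 0 458 458) (node 556 (merge (leaf 5 460 588) (node 524 (merge (leaf 5 428 429) (node 427 (merge (leaf 7 427 492) (node 523 (merge (leaf 4 427 491) (leaf 2 490 522))))))))))))))) (node 462 (merge (leaf 6 429 430) (node 556 (merge (leaf 5 460 588) (node 460 (merge (leaf 7 428 428) (node 494 (merge (leaf 3 460 495) (node 459 (merge (leaf 0 458 458) (node 491 (merge (leaf 1 458 490) (node 427 (merge (leaf 3 426 426) (node 524 (merge (leaf 7 427 492) (leaf 4 427 523))))))))))))))))))))) (merge (node 429 (merge (node 461 (merge (node 398 (merge (leaf 6 397 430) (node 397 (merge (leaf 6 365 366) (node 396 (merge (leaf 7 364 364) (leaf 7 396 428))))))) (merge (node 428 (merge (leaf 7 396 396) (node 557 (merge (leaf 7 428 460) (node 556 (merge (leaf 5 428 524) (leaf 5 460 588))))))) (node 430 (merge (leaf 6 397 398) (node 557 (merge (leaf 6 429 462) (node 556 (merge (leaf 5 428 524) (leaf 5 460 588))))))))))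 (merge (node 497 (merge (leaf 6 464 465) (node 526 (merge (leaf 2 493 527) (node 461 (merge (leaf 4 429 558) (node 396 (merge (leaf 7 396 428) (node 397 (merge (leaf 7 364 364) (node 524 (merge (leaf 5 396 492) (leaf 5 428 556))))))))))))) (node 465 (merge (leaf 6 464 497) (node 464 (merge (leaf 6 432 433) (node 561 (merge (leaf 4 464 593) (node 527 (merge (leaf 0 525 526) (node 495 (merge (leaf 7 495 624) (node 432 (merge (leaf 5 399 400) (node 431 (merge (leaf 7 399 399) (leaf 0 429 430)))))))))))))))))) (node 556 (merge (node 588 (merge (leaf 5 460 461) (node 620 (merge (leaf 6 492 524) (leaf 6 524 652))))) (merge (node 526 (merge (leaf 1 524 527) (node 461 (merge (leaf 5 460 588) (node 558 (merge (leaf 4 429 429) (leaf 4 461 590))))))) (merge (node 555 (merge (node 526 (merge (leaf 1 524 527) (leaf 2 522 554))) (merge (node 461 (merge (node 430 (merge (leaf 6 429 462) (node 429 (merge (leaf 6 397 398) (leaf 5 428 524))))) (node 558 (merge (leaf 4 461 590) (node 586 (merge (leaf 1 554 587) (node 554 (merge (leaf 1 553 585) (node 522 (merge (leaf 3 521 521) (leaf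 3 522 523))))))))))) (node 523 (merge (node 522 (merge (leaf 3 522 558) (node 524 (merge (leaf 2 490 494) (leaf 0 521 521))))) (merge (node 526 (merge (leaf 1 524 527) (node 558 (merge (leaf 3 522 522) (node 461 (merge (leaf 4 429 429) (leaf 4 461 590))))))) (merge (node 524 (merge (node 522 (merge (leaf 2 490 494) (leaf 0 521 521))) (merge (node 461 (merge (leaf 5 428 429) (node 460 (merge (leaf 7 428 428) (node 492 (merge (leaf 5 459 587) (node 459 (merge (leaf 7 427 427) (node 458 (merge (leaf 0 457 457) (leaf 0 458 494))))))))))) (node 522 (merge (leaf 0 521 521) (node 526 (merge (leaf 1 523 527) (node 490 (merge (leaf 3 489 489) (leaf 3 490 491)))))))))) (node 524 (merge (node 461 (merge (leaf 5 428 429) (node 460 (merge (leaf 7 428 428) (node 558 (merge (leaf 4 461 590) (node 587 (merge (leaf 5 459 492) (leaf 1 554 586))))))))) (merge (node 526 (merge (leaf 1 523 527) (node 491 (merge (leaf 3 490 490) (node 459 (merge (leaf 4 427 427) (node 460 (merge (leaf 6 427 428) (node 458 (merge (leaf 7 426 426) (node 492 (merge (leaf 0 457 457) (leaf 6 459 587)))))))))))))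 (merge (node 526 (merge (leaf 1 523 527) (node 491 (merge (leaf 3 490 490) (node 459 (merge (leaf 4 427 427) (node 460 (merge (leaf 6 427 428) (node 458 (merge (leaf 7 426 426) (node 461 (merge (leaf 5 428 429) (leaf 0 458 494))))))))))))) (node 461 (merge (leaf 5 428 429) (node 558 (merge (leaf 4 461 590) (node 587 (merge (leaf 1 554 586) (node 619 (merge (leaf 6 491 492) (leaf 6 523 651)))))))))))))))))))) (node 555 (merge (node 526 (merge (leaf 1 524 527) (leaf 2 522 554))) (merge (node 587 (merge (node 586 (merge (leaf 1 554 558) (node 585 (merge (leaf 2 552 584) (leaf 2 553 588))))) (merge (node 492 (merge (node 524 (merge (leaf 5 459 460) (node 588 (merge (leaf 5 491 619) (leaf 6 492 620))))) (merge (node 524 (merge (leaf 5 459 460) (node 619 (merge (leaf 6 491 523) (leaf 6 523 651))))) (merge (node 526 (merge (leaf 3 492 527) (node 491 (merge (leaf 0 490 490) (node 523 (merge (leaf 6 459 460) (node 588 (merge (leaf 4 459 459) (leaf 4 491 620))))))))) (node 588 (merge (node 620 (merge (leaf 6 492 524) (leaf 6 524 652))) (merge (node 526 (merge (leaf 1 524 527)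 (node 491 (merge (leaf 0 490 490) (node 524 (merge (leaf 7 459 459) (leaf 5 491 619))))))) (node 620 (merge (leaf 6 524 652) (node 526 (merge (leaf 1 524 527) (node 491 (merge (leaf 0 490 490) (leaf 4 491 523)))))))))))))) (node 619 (merge (node 524 (merge (leaf 6 523 651) (node 492 (merge (leaf 5 459 460) (leaf 6 491 523))))) (merge (node 526 (merge (leaf 1 524 527) (node 558 (merge (leaf 1 554 586) (node 523 (merge (leaf 3 522 522) (node 492 (merge (leaf 6 491 524) (node 491 (merge (leaf 6 459 460) (leaf 0 490 490))))))))))) (merge (node 558 (merge (leaf 1 554 586) (node 523 (merge (leaf 3 522 522) (node 652 (merge (leaf 4 523 620) (node 651 (merge (leaf 4 555 684) (node 650 (merge (leaf 5 522 618) (leaf 5 554 682))))))))))) (node 651 (merge (leaf 6 523 524) (node 684 (merge (leaf 4 555 652) (node 683 (merge (leaf 4 587 716) (node 682 (merge (leaf 5 554 650) (leaf 5 586 714)))))))))))))))) (hyp 0)))))))))))))))))))))) nP_70 cP_70 15 (by decide +kernel)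
def nP_71 : ℕ := 0x10000000100000001000000010000000000000000000000000000000000000000000000000000000000000000000000000000000000000000000000000000000000000000000000000000
def cP_71 : ℕ := 0x214000003dc000003fe000001ff800002ff8000067f800000ff800002fe0000037e000003fc000001f000000050000000000000000000000000000000000000000000000000000000000000000000000000000000000000000000
theorem lP_71 : S nP_71 cP_71 16 := S_of_chk [(nP_69, cP_69, 14), (nP_70, cP_70, 15)] ⟨lP_69, lP_70, trivial⟩ (node 525 (merge (node 497 (merge (leaf 6 464 465) (node 527 (merge (leaf 2 493 526) (node 624 (merge (leaf 7 495 495) (node 623 (merge (leaf 5 495 591) (leaf 5 527 655))))))))) (merge (node 623 (merge (leaf 5 495 591) (node 624 (merge (leaf 5 527 655) (node 527 (merge (leaf 7 495 495) (node 526 (merge (leaf 0 525 561) (node 556 (merge (leaf 1 524 557) (node 524 (merge (leaf 1 523 555) (node 492 (merge (leaf 3 491 491) (leaf 3 492 493))))))))))))))) (merge (node 589 (merge (node 465 (merge (leaf 6 464 497) (node 464 (merge (leaf 6 432 433) (node 561 (merge (leaf 4 464 593) (node 591 (merge (leaf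 2 557 590) (leaf 5 495 623))))))))) (merge (node 497 (merge (leaf 6 464 465) (node 526 (merge (leaf 2 493 527) (node 494 (merge (leaf 1 493 495) (node 557 (merge (leaf 6 493 621) (node 462 (merge (leaf 5 429 430) (leaf 5 461 558))))))))))) (node 591 (merge (leaf 5 495 623) (node 590 (merge (leaf 2 557 561) (node 620 (merge (leaf 1 588 621) (node 588 (merge (leaf 1 587 619) (node 556 (merge (leaf 3 555 555) (leaf 3 556 557)))))))))))))) (merge (node 589 (merge (node 465 (merge (leaf 6 464 497) (node 464 (merge (leaf 6 432 433) (node 561 (merge (leaf 4 464 593) (node 591 (merge (leaf 2 557 590) (leaf 5 495 623))))))))) (merge (node 591 (merge (leaf 5 495 623) (node 590 (merge (leaf 2 557 561) (node 557 (merge (leaf 3 556 556) (node 622 (merge (leaf 4 493 493) (node 654 (merge (leaf 7 525 558) (leaf 7 557 686))))))))))) (merge (node 494 (merge (node 497 (merge (leaf 6 464 465) (node 495 (merge (leaf 1 493 526) (node 493 (merge (leaf 1 492 524) (node 461 (merge (leaf 3 460 460) (leaf 3 461 462))))))))) (merge (node 557 (merge (node 526 (merge (leaf 6 493 621) (node 462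 (merge (leaf 5 429 430) (leaf 5 461 558))))) (merge (node 462 (merge (leaf 6 461 493) (node 526 (merge (leaf 5 429 430) (leaf 5 461 558))))) (merge (node 493 (merge (leaf 6 461 462) (node 622 (merge (leaf 4 493 590) (node 621 (merge (leaf 4 525 654) (node 620 (merge (leaf 5 492 588) (leaf 5 524 652))))))))) (node 621 (merge (leaf 6 493 526) (node 622 (merge (leaf 4 525 654) (node 493 (merge (leaf 4 493 590) (node 620 (merge (leaf 5 492 588) (leaf 5 524 652))))))))))))) (merge (node 497 (merge (leaf 6 464 465) (node 526 (merge (leaf 1 493 495) (node 621 (merge (leaf 6 493 557) (node 590 (merge (leaf 5 493 558) (node 591 (merge (leaf 2 557 561) (leaf 1 588 620))))))))))) (node 465 (merge (leaf 6 464 497) (node 464 (merge (leaf 6 432 433) (node 493 (merge (leaf 2 461 495) (node 557 (merge (leaf 6 461 462) (node 492 (merge (leaf 7 460 460) (node 621 (merge (leaf 7 492 524) (node 620 (merge (leaf 5 492 588) (leaf 5 524 652))))))))))))))))))) (merge (node 621 (merge (node 623 (merge (leaf 5 495 591) (node 624 (merge (leaf 5 527 655) (node 622 (merge (leaf 3 588 588) (leaf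 2 589 593))))))) (merge (node 494 (merge (node 497 (merge (leaf 6 464 465) (node 526 (merge (leaf 1 493 495) (leaf 6 493 557))))) (merge (node 557 (merge (leaf 6 493 526) (node 493 (merge (leaf 6 461 462) (node 620 (merge (leaf 5 492 588) (leaf 5 524 652))))))) (merge (node 465 (merge (leaf 6 464 497) (node 464 (merge (leaf 6 432 433) (node 493 (merge (leaf 2 461 495) (node 557 (merge (leaf 6 461 462) (node 620 (merge (leaf 5 492 588) (leaf 5 524 652))))))))))) (node 497 (merge (leaf 6 464 465) (node 495 (merge (leaf 1 493 526) (node 493 (merge (leaf 1 492 524) (node 461 (merge (leaf 3 460 460) (leaf 3 461 462))))))))))))) (node 465 (merge (leaf 6 464 497) (node 464 (merge (leaf 6 432 433) (node 593 (merge (leaf 4 464 561) (node 623 (merge (leaf 5 495 591) (node 624 (merge (leaf 2 589 622) (leaf 5 527 655)))))))))))))) (node 557 (merge (node 493 (merge (node 494 (merge (leaf 6 461 462) (node 497 (merge (leaf 6 464 465) (node 495 (merge (leaf 1 492 524) (leaf 1 493 526))))))) (node 590 (merge (leaf 4 493 622) (node 461 (merge (leaf 4 461 558) (node 588 (merge (leaf 5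 460 556) (leaf 5 492 620))))))))) (merge (node 493 (merge (node 461 (merge (node 588 (merge (leaf 5 460 556) (leaf 5 492 620))) (node 462 (merge (leaf 6 429 430) (leaf 6 461 494))))) (merge (node 492 (merge (leaf 7 460 460) (node 621 (merge (leaf 7 492 524) (node 620 (merge (leaf 5 492 588) (leaf 5 524 652))))))) (node 494 (merge (leaf 6 461 462) (node 460 (merge (leaf 7 460 492) (node 461 (merge (leaf 7 428 428) (leaf 3 460 495)))))))))) (merge (node 622 (merge (node 590 (merge (leaf 4 493 493) (node 654 (merge (leaf 7 525 558) (leaf 7 557 686))))) (merge (node 465 (merge (leaf 6 464 497) (node 464 (merge (leaf 6 432 433) (node 493 (merge (leaf 4 493 590) (node 494 (merge (leaf 6 461 462) (leaf 2 461 495))))))))) (node 621 (merge (leaf 4 525 654) (node 526 (merge (leaf 6 493 494) (node 653 (merge (leaf 6 525 558) (node 524 (merge (leaf 7 492 492) (leaf 7 524 556)))))))))))) (merge (node 493 (merge (node 622 (merge (leaf 4 493 590) (node 621 (merge (leaf 4 525 654) (node 620 (merge (leaf 5 492 588) (leaf 5 524 652))))))) (node 465 (merge (leaf 6 464 497) (node 464 (merge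 (leaf 6 432 433) (node 494 (merge (leaf 2 461 495) (node 462 (merge (leaf 6 461 589) (node 430 (merge (leaf 5 397 398) (leaf 6 429 461))))))))))))) (node 621 (merge (node 654 (merge (leaf 4 525 622) (node 653 (merge (leaf 4 557 686) (node 652 (merge (leaf 5 524 620) (leaf 5 556 684))))))) (merge (node 524 (merge (leaf 7 492 492) (node 653 (merge (leaf 7 524 556) (node 654 (merge (leaf 4 525 622) (leaf 4 557 686))))))) (merge (node 524 (merge (leaf 7 492 492) (node 653 (merge (leaf 7 524 556) (node 652 (merge (leaf 5 524 620) (leaf 5 556 684))))))) (node 588 (merge (node 622 (merge (leaf 4 525 654) (node 587 (merge (leaf 0 586 586) (node 623 (merge (leaf 0 587 590) (leaf 3 588 624))))))) (merge (node 622 (merge (leaf 4 525 654) (node 623 (merge (leaf 3 588 624) (node 620 (merge (leaf 3 587 587) (leaf 5 524 652))))))) (node 620 (merge (leaf 5 524 652) (node 619 (merge (node 618 (merge (leaf 2 586 590) (leaf 2 585 617))) (node 524 (merge (leaf 7 492 492) (node 556 (merge (leaf 5 523 651) (node 523 (merge (leaf 7 491 491) (node 522 (merge (leaf 0 521 521) (leaf 0 522 558))))))))))))))))))))))))))))))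 (merge (node 493 (merge (node 465 (merge (leaf 6 464 497) (node 464 (merge (leaf 6 432 433) (node 495 (merge (leaf 2 461 494) (node 624 (merge (leaf 7 495 527) (node 623 (merge (leaf 5 495 591) (leaf 5 527 655))))))))))) (merge (node 623 (merge (leaf 5 495 591) (node 624 (merge (leaf 5 527 655) (node 495 (merge (leaf 7 495 527) (node 494 (merge (leaf 1 492 524) (node 461 (merge (leaf 3 460 460) (node 462 (merge (leaf 3 461 497) (node 430 (merge (leaf 5 397 398) (leaf 6 429 557))))))))))))))) (merge (node 589 (merge (node 465 (merge (leaf 6 464 497) (node 464 (merge (leaf 6 432 433) (node 561 (merge (leaf 4 464 593) (node 591 (merge (leaf 2 557 590) (leaf 5 495 623))))))))) (merge (node 557 (merge (node 492 (merge (leaf 7 460 460) (node 621 (merge (leaf 7 492 524) (node 622 (merge (leaf 4 493 590) (leaf 4 525 654))))))) (merge (node 492 (merge (leaf 7 460 460) (node 621 (merge (leaf 7 492 524) (node 620 (merge (leaf 5 492 588) (leaf 5 524 652))))))) (node 590 (merge (leaf 4 493 622) (node 461 (merge (leaf 4 461 558) (node 588 (merge (leaf 5 460 556) (leaf 5 492 620))))))))))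 (node 557 (merge (node 492 (merge (leaf 7 460 460) (node 621 (merge (leaf 7 492 524) (node 620 (merge (leaf 5 492 588) (leaf 5 524 652))))))) (merge (node 492 (merge (leaf 7 460 460) (node 621 (merge (leaf 7 492 524) (node 622 (merge (leaf 4 525 654) (node 623 (merge (leaf 5 495 591) (node 624 (merge (leaf 2 589 593) (leaf 5 527 655))))))))))) (merge (node 588 (merge (leaf 5 492 620) (node 461 (merge (leaf 5 460 556) (node 430 (merge (leaf 6 429 462) (node 429 (merge (leaf 6 397 398) (node 428 (merge (leaf 7 396 396) (leaf 7 428 460))))))))))) (node 623 (merge (leaf 5 495 591) (node 588 (merge (leaf 5 492 620) (node 556 (merge (leaf 5 460 461) (node 624 (merge (leaf 5 527 655) (node 621 (merge (leaf 3 588 622) (node 524 (merge (leaf 7 492 492) (leaf 7 524 653)))))))))))))))))))) (merge (node 557 (merge (node 465 (merge (leaf 6 464 497) (node 464 (merge (leaf 6 432 433) (node 494 (merge (leaf 2 461 495) (node 462 (merge (leaf 6 461 589) (node 430 (merge (leaf 5 397 398) (leaf 6 429 461))))))))))) (merge (node 588 (merge (node 620 (merge (leaf 5 492 589) (node 556 (merge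 (leaf 6 492 524) (leaf 6 524 652))))) (merge (node 556 (merge (leaf 5 460 461) (node 620 (merge (leaf 6 492 524) (leaf 6 524 652))))) (merge (node 461 (merge (leaf 5 460 556) (node 460 (merge (leaf 7 428 428) (node 589 (merge (leaf 7 460 492) (node 590 (merge (leaf 4 461 558) (leaf 4 493 622))))))))) (node 589 (merge (leaf 5 492 620) (node 460 (merge (leaf 7 460 492) (node 461 (merge (leaf 7 428 428) (node 590 (merge (leaf 4 461 558) (leaf 4 493 622))))))))))))) (merge (node 465 (merge (leaf 6 464 497) (node 464 (merge (leaf 6 432 433) (node 494 (merge (leaf 2 461 495) (node 589 (merge (leaf 6 461 462) (node 622 (merge (leaf 4 493 590) (node 621 (merge (leaf 4 525 654) (node 620 (merge (leaf 5 492 588) (leaf 5 524 652))))))))))))))) (node 461 (merge (node 430 (merge (leaf 6 429 462) (node 429 (merge (leaf 6 397 398) (node 556 (merge (leaf 5 428 524) (leaf 5 460 588))))))) (merge (node 430 (merge (leaf 6 429 462) (node 429 (merge (leaf 6 397 398) (node 428 (merge (leaf 7 396 396) (leaf 7 428 460))))))) (merge (node 460 (merge (leaf 7 428 428) (node 494 (merge (leaf 3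 460 495) (node 459 (merge (leaf 0 458 458) (node 556 (merge (leaf 5 460 588) (node 524 (merge (leaf 5 428 429) (node 427 (merge (leaf 7 427 492) (node 523 (merge (leaf 4 427 491) (leaf 2 490 522))))))))))))))) (node 462 (merge (leaf 6 429 430) (node 556 (merge (leaf 5 460 588) (node 460 (merge (leaf 7 428 428) (node 494 (merge (leaf 3 460 495) (node 459 (merge (leaf 0 458 458) (node 491 (merge (leaf 1 458 490) (node 427 (merge (leaf 3 426 426) (node 524 (merge (leaf 7 427 492) (leaf 4 427 523))))))))))))))))))))))))) (node 557 (merge (node 588 (merge (node 589 (merge (leaf 5 492 620) (node 590 (merge (leaf 4 493 622) (node 591 (merge (leaf 2 557 561) (leaf 5 495 623))))))) (merge (node 556 (merge (leaf 5 460 461) (node 620 (merge (leaf 6 492 524) (leaf 6 524 652))))) (node 461 (merge (leaf 5 460 556) (node 460 (merge (leaf 7 428 428) (node 589 (merge (leaf 7 460 492) (node 590 (merge (leaf 4 461 558) (leaf 4 493 622)))))))))))) (merge (node 460 (merge (node 589 (merge (leaf 7 460 492) (node 590 (merge (leaf 4 493 622) (node 591 (merge (leaf 2 557 561) (leaf 5 495 623)))))))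 (merge (node 461 (merge (leaf 7 428 428) (node 462 (merge (leaf 6 429 430) (node 494 (merge (leaf 3 460 495) (leaf 6 461 589))))))) (node 623 (merge (leaf 5 495 591) (node 624 (merge (leaf 5 527 655) (node 495 (merge (leaf 7 495 527) (node 461 (merge (leaf 3 460 494) (node 428 (merge (leaf 7 428 557) (node 396 (merge (leaf 4 364 364) (leaf 4 396 492)))))))))))))))) (merge (node 461 (merge (node 430 (merge (leaf 6 429 462) (node 429 (merge (leaf 6 397 398) (node 556 (merge (leaf 5 428 524) (leaf 5 460 588))))))) (merge (node 430 (merge (leaf 6 429 462) (node 429 (merge (leaf 6 397 398) (node 428 (merge (leaf 7 396 396) (leaf 7 428 460))))))) (merge (node 460 (merge (leaf 7 428 428) (node 494 (merge (leaf 3 460 495) (node 459 (merge (leaf 0 458 458) (node 556 (merge (leaf 5 460 588) (node 524 (merge (leaf 5 428 429) (node 427 (merge (leaf 7 427 492) (node 523 (merge (leaf 4 427 491) (leaf 2 490 522))))))))))))))) (node 462 (merge (leaf 6 429 430) (node 556 (merge (leaf 5 460 588) (node 460 (merge (leaf 7 428 428) (node 494 (merge (leaf 3 460 495) (node 459 (merge (leaf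 0 458 458) (node 491 (merge (leaf 1 458 490) (node 427 (merge (leaf 3 426 426) (node 524 (merge (leaf 7 427 492) (leaf 4 427 523))))))))))))))))))))) (node 623 (merge (leaf 5 495 591) (node 624 (merge (leaf 5 527 655) (node 495 (merge (leaf 7 495 527) (node 494 (merge (leaf 1 492 524) (node 589 (merge (leaf 6 461 462) (node 464 (merge (leaf 2 461 465) (node 593 (merge (leaf 4 464 561) (node 622 (merge (leaf 4 493 590) (leaf 2 589 621)))))))))))))))))))))))))) (merge (node 589 (merge (node 465 (merge (leaf 6 464 497) (node 464 (merge (leaf 6 432 433) (node 561 (merge (leaf 4 464 593) (node 591 (merge (leaf 2 557 590) (leaf 5 495 623))))))))) (merge (node 591 (merge (leaf 5 495 623) (node 590 (merge (leaf 2 557 561) (node 557 (merge (leaf 3 556 556) (node 622 (merge (leaf 4 493 493) (node 654 (merge (leaf 7 525 558) (leaf 7 557 686))))))))))) (merge (node 621 (merge (node 623 (merge (leaf 5 495 591) (node 624 (merge (leaf 5 527 655) (node 622 (merge (leaf 3 588 588) (leaf 2 589 593))))))) (merge (node 497 (merge (leaf 6 464 465) (node 526 (merge (leaf 2 493 527) (node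 557 (merge (leaf 6 493 494) (node 653 (merge (leaf 6 525 558) (node 654 (merge (leaf 4 525 622) (leaf 4 557 686))))))))))) (node 497 (merge (leaf 6 464 465) (node 526 (merge (leaf 2 493 527) (node 557 (merge (leaf 6 493 494) (node 653 (merge (leaf 6 525 558) (node 652 (merge (leaf 5 524 620) (leaf 5 556 684)))))))))))))) (merge (node 557 (merge (node 497 (merge (leaf 6 464 465) (node 526 (merge (leaf 2 493 527) (node 494 (merge (leaf 6 493 621) (node 462 (merge (leaf 5 429 430) (leaf 5 461 558))))))))) (merge (node 497 (merge (leaf 6 464 465) (node 526 (merge (leaf 2 493 527) (node 494 (merge (leaf 6 493 621) (node 462 (merge (leaf 5 429 430) (leaf 6 461 493))))))))) (merge (node 465 (merge (leaf 6 464 497) (node 464 (merge (leaf 6 432 433) (node 561 (merge (leaf 4 464 593) (node 590 (merge (leaf 2 557 591) (node 622 (merge (leaf 4 493 493) (node 654 (merge (leaf 7 525 558) (leaf 7 557 686))))))))))))) (node 590 (merge (node 622 (merge (leaf 4 493 493) (node 654 (merge (leaf 4 525 621) (leaf 7 557 686))))) (merge (node 493 (merge (leaf 4 493 622) (node 461 (merge (leaf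 4 461 558) (node 588 (merge (leaf 5 460 556) (leaf 5 492 620))))))) (merge (node 493 (merge (node 461 (merge (leaf 4 461 558) (node 588 (merge (leaf 5 460 556) (leaf 5 492 620))))) (merge (node 492 (merge (leaf 7 460 460) (node 621 (merge (leaf 7 492 524) (node 620 (merge (leaf 5 492 588) (leaf 5 524 652))))))) (node 461 (merge (leaf 4 461 558) (node 430 (merge (leaf 6 429 462) (node 429 (merge (leaf 6 397 398) (node 428 (merge (leaf 7 396 396) (leaf 7 428 460)))))))))))) (node 621 (merge (node 524 (merge (leaf 7 492 492) (node 653 (merge (leaf 7 524 556) (node 654 (merge (leaf 4 525 622) (leaf 4 557 686))))))) (merge (node 524 (merge (leaf 7 492 492) (node 653 (merge (leaf 7 524 556) (node 652 (merge (leaf 5 524 620) (leaf 5 556 684))))))) (merge (node 654 (merge (leaf 4 525 622) (node 653 (merge (leaf 4 557 686) (node 652 (merge (leaf 5 524 620) (leaf 5 556 684))))))) (node 524 (merge (leaf 7 492 492) (node 622 (merge (leaf 4 525 654) (node 620 (merge (leaf 5 524 652) (node 619 (merge (leaf 2 586 618) (node 651 (merge (leaf 1 618 650) (node 587 (merge (leaf 3 586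 586) (node 556 (merge (leaf 6 523 555) (leaf 5 523 588))))))))))))))))))))))))))) (node 557 (merge (node 497 (merge (leaf 6 464 465) (node 526 (merge (leaf 2 493 527) (node 494 (merge (leaf 6 493 621) (node 462 (merge (leaf 5 429 430) (leaf 5 461 558))))))))) (merge (node 497 (merge (leaf 6 464 465) (node 526 (merge (leaf 2 493 527) (node 494 (merge (leaf 6 493 621) (node 462 (merge (leaf 5 429 430) (leaf 6 461 493))))))))) (merge (node 622 (merge (node 654 (merge (leaf 4 525 621) (node 590 (merge (leaf 7 525 558) (leaf 7 557 686))))) (merge (node 621 (merge (leaf 4 525 654) (node 492 (merge (leaf 7 492 524) (node 493 (merge (leaf 7 460 460) (node 620 (merge (leaf 5 492 588) (leaf 5 524 652))))))))) (node 493 (merge (leaf 4 493 590) (node 460 (merge (leaf 7 460 492) (node 461 (merge (leaf 7 428 428) (node 588 (merge (leaf 5 460 556) (leaf 5 492 620)))))))))))) (node 588 (merge (node 620 (merge (leaf 5 492 493) (node 652 (merge (leaf 6 524 556) (leaf 6 556 684))))) (merge (node 493 (merge (leaf 5 492 620) (node 462 (merge (leaf 6 461 494) (node 461 (merge (leaf 6 429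 430) (node 590 (merge (leaf 4 461 558) (leaf 4 493 622))))))))) (merge (node 587 (merge (node 586 (merge (leaf 2 554 558) (node 585 (merge (leaf 2 553 556) (node 553 (merge (leaf 3 552 552) (leaf 3 553 554))))))) (merge (node 586 (merge (leaf 2 554 558) (node 617 (merge (leaf 1 585 618) (node 585 (merge (leaf 2 553 556) (leaf 1 584 616))))))) (merge (node 586 (merge (leaf 2 554 558) (node 618 (merge (leaf 1 585 617) (node 590 (merge (leaf 1 586 619) (node 554 (merge (leaf 3 553 553) (leaf 3 554 555))))))))) (merge (node 586 (merge (node 617 (merge (leaf 1 585 618) (node 585 (merge (leaf 2 553 556) (leaf 1 584 616))))) (merge (node 585 (merge (leaf 2 553 556) (node 553 (merge (leaf 3 552 552) (leaf 3 553 554))))) (node 618 (merge (leaf 1 585 617) (node 590 (merge (leaf 1 586 619) (node 554 (merge (leaf 3 553 553) (leaf 3 554 555)))))))))) (node 493 (merge (node 462 (merge (leaf 6 461 494) (node 461 (merge (leaf 6 429 430) (leaf 5 460 556))))) (merge (node 462 (merge (leaf 6 461 494) (node 461 (merge (leaf 6 429 430) (node 590 (merge (leaf 4 461 558) (leaf 4 493 622)))))))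 (node 492 (merge (leaf 7 460 460) (node 590 (merge (leaf 4 493 622) (node 619 (merge (leaf 1 586 618) (node 555 (merge (leaf 3 554 554) (node 524 (merge (leaf 6 491 523) (leaf 5 491 556))))))))))))))))))) (node 587 (merge (node 586 (merge (leaf 2 554 558) (node 585 (merge (leaf 2 553 556) (node 553 (merge (leaf 3 552 552) (leaf 3 553 554))))))) (merge (node 586 (merge (leaf 2 554 558) (node 617 (merge (leaf 1 585 618) (node 585 (merge (leaf 2 553 556) (leaf 1 584 616))))))) (merge (node 586 (merge (leaf 2 554 558) (node 618 (merge (leaf 1 585 617) (node 590 (merge (leaf 1 586 619) (node 554 (merge (leaf 3 553 553) (leaf 3 554 555))))))))) (merge (node 586 (merge (node 617 (merge (leaf 1 585 618) (node 585 (merge (leaf 2 553 556) (leaf 1 584 616))))) (merge (node 585 (merge (leaf 2 553 556) (node 553 (merge (leaf 3 552 552) (leaf 3 553 554))))) (node 618 (merge (leaf 1 585 617) (node 590 (merge (leaf 1 586 619) (node 554 (merge (leaf 3 553 553) (leaf 3 554 555)))))))))) (node 555 (merge (node 590 (merge (leaf 3 554 554) (node 622 (merge (leaf 0 587 623) (node 654 (merge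 (leaf 7 525 558) (leaf 7 557 686))))))) (merge (node 497 (merge (leaf 6 464 465) (node 526 (merge (leaf 2 493 527) (node 554 (merge (leaf 2 522 556) (node 523 (merge (leaf 1 522 524) (node 620 (merge (leaf 4 491 491) (node 652 (merge (leaf 4 523 619) (leaf 6 556 684))))))))))))) (node 619 (merge (node 590 (merge (leaf 1 586 618) (node 622 (merge (leaf 0 587 623) (node 654 (merge (leaf 7 525 558) (leaf 7 557 686))))))) (node 651 (merge (node 556 (merge (leaf 6 523 524) (leaf 6 555 683))) (merge (node 684 (merge (leaf 4 555 652) (node 683 (merge (leaf 4 587 716) (node 682 (merge (leaf 5 554 650) (leaf 5 586 714))))))) (node 556 (merge (leaf 6 523 524) (node 652 (merge (leaf 6 524 620) (leaf 4 555 684))))))))))))))))))))))))))))))) (merge (hyp 0) (hyp 1))))))))) nP_71 cP_71 16 (by decide +kernel)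
def nP_72 : ℕ := 0x100000001000000090000000100000000000000000000000000000000000000000000000000000000000000000000000000000000000000000000000000000000000000000000000000000000000000000000
def cP_72 : ℕ := 0x140000003c8000003f800001ff800000fe000001fc800001f60000007c8000007c8000001c0000001800000000000000000000000000000000000000000000000000000000000000000000000000000000000000000000000000000000000000000000
theorem lP_72 : S nP_72 cP_72 13 := S_of_chk [] trivial (node 659 (merge (node 689 (merge (leaf 4 560 657) (node 688 (merge (leaf 4 592 721) (node 687 (merge (leaf 5 591 719) (node 690 (merge (leaf 2 655 658) (node 723 (merge (leaf 0 687 722) (node 691 (merge (leaf 2 656 660) (leaf 0 688 724))))))))))))) (merge (node 559 (merge (leaf 7 527 527) (node 594 (merge (leaf 3 559 593) (node 657 (merge (leaf 4 560 689) (node 658 (merge (leaf 3 623 623) (node 691 (merge (leaf 0 656 692) (node 627 (merge (leaf 7 562 562) (leaf 2 624 628))))))))))))) (merge (node 657 (merge (leaf 4 560 689) (node 658 (merge (leaf 3 623 623) (node 627 (merge (leaf 2 624 628) (node 563 (merge (leaf 5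 562 690) (node 532 (merge (leaf 6 531 564) (node 531 (merge (leaf 6 499 500) (leaf 5 530 626))))))))))))) (merge (node 559 (merge (leaf 7 527 527) (node 594 (merge (leaf 3 559 593) (node 689 (merge (leaf 4 560 657) (node 688 (merge (leaf 4 592 721) (node 719 (merge (leaf 5 591 687) (node 720 (merge (leaf 5 623 751) (node 691 (merge (leaf 1 687 690) (node 627 (merge (leaf 7 562 562) (node 723 (merge (leaf 7 594 626) (node 724 (merge (leaf 4 595 692) (leaf 4 627 756))))))))))))))))))))) (merge (node 627 (merge (node 559 (merge (leaf 7 527 527) (node 594 (merge (leaf 3 559 593) (node 691 (merge (leaf 7 562 562) (node 723 (merge (leaf 7 594 626) (node 722 (merge (leaf 5 594 690) (leaf 5 626 754))))))))))) (merge (node 658 (merge (node 657 (merge (leaf 3 623 623) (leaf 2 624 628))) (node 563 (merge (leaf 5 562 690) (node 564 (merge (leaf 6 531 532) (node 691 (merge (leaf 6 563 596) (node 692 (merge (leaf 4 563 660) (leaf 4 595 724))))))))))) (merge (node 559 (merge (leaf 7 527 527) (node 594 (merge (leaf 3 559 593) (node 691 (merge (leaf 7 562 562) (node 723 (merge (leaf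 7 594 626) (node 628 (merge (leaf 6 595 596) (node 755 (merge (leaf 6 627 660) (node 754 (merge (leaf 5 626 722) (leaf 5 658 786))))))))))))))) (node 527 (merge (leaf 7 527 559) (node 594 (merge (node 593 (merge (leaf 1 591 623) (leaf 0 592 628))) (merge (node 658 (merge (node 657 (merge (leaf 3 623 623) (leaf 2 624 628))) (node 563 (merge (leaf 5 562 690) (node 532 (merge (leaf 6 531 564) (node 531 (merge (leaf 6 499 500) (leaf 5 530 626))))))))) (merge (node 593 (merge (leaf 1 591 623) (node 563 (merge (leaf 2 560 564) (node 562 (merge (leaf 7 530 530) (node 658 (merge (leaf 5 562 690) (node 531 (merge (leaf 6 530 626) (node 500 (merge (leaf 6 499 532) (node 499 (merge (leaf 5 466 467) (leaf 6 467 468))))))))))))))) (node 593 (merge (leaf 0 592 628) (node 563 (merge (leaf 2 560 564) (node 562 (merge (leaf 7 530 530) (node 658 (merge (leaf 5 562 690) (node 531 (merge (leaf 6 530 626) (node 500 (merge (leaf 6 499 532) (node 499 (merge (leaf 5 466 467) (leaf 6 467 468))))))))))))))))))))))))) (node 627 (merge (node 559 (merge (leaf 7 527 527) (node 594 (merge (leaf 3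 559 593) (node 691 (merge (leaf 7 562 562) (node 723 (merge (leaf 7 594 626) (node 722 (merge (leaf 5 594 690) (leaf 5 626 754))))))))))) (merge (node 559 (merge (leaf 7 527 527) (node 594 (merge (leaf 3 559 593) (node 691 (merge (leaf 7 562 562) (node 596 (merge (leaf 6 563 564) (node 723 (merge (leaf 6 595 628) (node 722 (merge (leaf 5 594 690) (leaf 5 626 754))))))))))))) (merge (node 559 (merge (leaf 7 527 527) (node 594 (merge (leaf 3 559 593) (node 691 (merge (leaf 7 562 562) (node 723 (merge (leaf 7 594 626) (node 628 (merge (leaf 6 595 596) (node 755 (merge (leaf 6 627 660) (node 756 (merge (leaf 4 627 724) (leaf 4 659 788))))))))))))))) (merge (node 563 (merge (node 564 (merge (leaf 6 531 532) (node 691 (merge (leaf 6 563 596) (node 692 (merge (leaf 4 563 660) (leaf 4 595 724))))))) (merge (node 564 (merge (leaf 6 531 532) (node 691 (merge (leaf 6 563 596) (node 690 (merge (leaf 5 562 658) (leaf 5 594 722))))))) (merge (node 660 (merge (leaf 4 563 692) (node 531 (merge (leaf 4 531 628) (node 658 (merge (leaf 5 530 626) (leaf 5 562 690))))))) (node 530 (merge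 (leaf 7 530 562) (node 531 (merge (leaf 7 498 498) (node 658 (merge (leaf 5 530 626) (leaf 5 562 690))))))))))) (merge (node 563 (merge (node 660 (merge (leaf 4 563 692) (node 532 (merge (leaf 6 531 564) (node 531 (merge (leaf 6 499 500) (leaf 4 531 628))))))) (merge (node 559 (merge (leaf 7 527 527) (node 594 (merge (leaf 3 559 593) (node 660 (merge (leaf 4 563 692) (node 531 (merge (leaf 4 531 628) (node 626 (merge (leaf 5 498 499) (leaf 5 530 658))))))))))) (merge (node 559 (merge (leaf 7 527 527) (node 564 (merge (leaf 6 531 532) (node 691 (merge (leaf 6 563 596) (node 594 (merge (leaf 2 560 593) (node 723 (merge (leaf 7 594 626) (node 724 (merge (leaf 4 595 692) (leaf 4 627 756))))))))))))) (node 559 (merge (leaf 7 527 527) (node 564 (merge (leaf 6 531 532) (node 691 (merge (leaf 6 563 596) (node 594 (merge (leaf 2 560 593) (node 723 (merge (leaf 7 594 626) (node 756 (merge (leaf 4 627 724) (node 755 (merge (leaf 4 659 788) (node 754 (merge (leaf 5 626 722) (leaf 5 658 786))))))))))))))))))))) (node 660 (merge (node 563 (merge (leaf 4 563 692) (node 531 (merge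 (leaf 4 531 628) (node 658 (merge (leaf 5 530 626) (leaf 5 562 690))))))) (merge (node 563 (merge (leaf 4 563 692) (node 564 (merge (leaf 6 531 532) (node 562 (merge (leaf 7 530 530) (node 594 (merge (leaf 2 560 593) (node 565 (merge (leaf 1 562 566) (node 597 (merge (leaf 0 562 598) (node 533 (merge (leaf 2 530 534) (node 628 (merge (leaf 6 532 596) (leaf 5 532 629))))))))))))))))) (merge (node 559 (merge (leaf 7 527 527) (node 594 (merge (leaf 3 559 593) (node 563 (merge (leaf 4 563 692) (node 532 (merge (leaf 6 531 564) (node 531 (merge (leaf 6 499 500) (node 562 (merge (leaf 7 530 530) (node 499 (merge (leaf 5 466 467) (leaf 5 498 626))))))))))))))) (merge (node 661 (merge (node 662 (merge (leaf 3 626 626) (node 695 (merge (leaf 0 659 694) (node 663 (merge (leaf 3 627 628) (leaf 0 660 696))))))) (merge (node 662 (merge (leaf 3 626 626) (node 631 (merge (leaf 2 627 630) (node 663 (merge (leaf 3 627 628) (leaf 2 628 632))))))) (merge (node 662 (merge (leaf 3 626 626) (node 694 (merge (leaf 0 659 695) (node 658 (merge (leaf 0 658 693) (node 630 (merge (leaf 2 626 629)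 (leaf 2 627 631))))))))) (merge (node 662 (merge (node 695 (merge (leaf 0 659 694) (node 663 (merge (leaf 3 627 628) (leaf 0 660 696))))) (merge (node 631 (merge (leaf 2 627 630) (node 663 (merge (leaf 3 627 628) (leaf 2 628 632))))) (node 694 (merge (leaf 0 659 695) (node 658 (merge (leaf 0 658 693) (node 630 (merge (leaf 2 626 629) (leaf 2 627 631)))))))))) (node 563 (merge (node 531 (merge (leaf 4 531 628) (node 658 (merge (leaf 5 530 626) (leaf 5 562 690))))) (merge (node 532 (merge (leaf 6 531 564) (node 531 (merge (leaf 6 499 500) (leaf 4 531 628))))) (merge (node 531 (merge (leaf 4 531 628) (node 658 (merge (leaf 5 530 626) (leaf 5 562 690))))) (node 564 (merge (leaf 6 531 532) (node 562 (merge (leaf 7 530 530) (node 658 (merge (leaf 5 562 690) (node 693 (merge (leaf 0 658 694) (node 629 (merge (leaf 2 626 630) (node 597 (merge (leaf 7 564 596) (node 598 (merge (leaf 0 562 565) (leaf 6 565 566)))))))))))))))))))))))) (node 661 (merge (node 662 (merge (leaf 3 626 626) (node 695 (merge (leaf 0 659 694) (node 663 (merge (leaf 3 627 628) (leaf 0 660 696))))))) (merge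 (node 662 (merge (leaf 3 626 626) (node 631 (merge (leaf 2 627 630) (node 663 (merge (leaf 3 627 628) (leaf 2 628 632))))))) (merge (node 662 (merge (leaf 3 626 626) (node 694 (merge (leaf 0 659 695) (node 658 (merge (leaf 0 658 693) (node 630 (merge (leaf 2 626 629) (leaf 2 627 631))))))))) (merge (node 662 (merge (node 695 (merge (leaf 0 659 694) (node 663 (merge (leaf 3 627 628) (leaf 0 660 696))))) (merge (node 631 (merge (leaf 2 627 630) (node 663 (merge (leaf 3 627 628) (leaf 2 628 632))))) (node 694 (merge (leaf 0 659 695) (node 658 (merge (leaf 0 658 693) (node 630 (merge (leaf 2 626 629) (leaf 2 627 631)))))))))) (node 693 (merge (node 694 (merge (leaf 0 658 658) (node 695 (merge (leaf 3 659 692) (leaf 3 660 696))))) (merge (node 658 (merge (leaf 0 658 694) (node 690 (merge (leaf 1 657 689) (node 722 (merge (leaf 6 594 626) (leaf 6 626 754))))))) (node 628 (merge (node 725 (merge (leaf 7 628 757) (node 629 (merge (leaf 7 596 596) (node 630 (merge (leaf 3 594 594) (leaf 1 627 631))))))) (merge (node 692 (merge (leaf 7 595 724) (node 725 (merge (leaf 4 596 596)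 (leaf 7 628 757))))) (merge (node 594 (merge (leaf 0 592 593) (node 692 (merge (leaf 7 595 724) (node 629 (merge (leaf 3 594 630) (node 597 (merge (leaf 5 564 565) (node 598 (merge (leaf 2 594 626) (node 599 (merge (leaf 1 595 596) (leaf 1 596 600))))))))))))) (node 594 (merge (leaf 0 592 593) (node 692 (merge (leaf 7 595 724) (node 629 (merge (leaf 3 594 630) (node 597 (merge (leaf 5 564 565) (node 598 (merge (leaf 6 565 566) (leaf 2 594 626)))))))))))))))))))))))))))))))))))))))) nP_72 cP_72 13 (by decide +kernel)
def nP_73 : ℕ := 0x100000001000000090000000180000000000000000000000000000000000000000000000000000000000000000000000000000000000000000000000000000000000000000000000000000000000000000000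
def cP_73 : ℕ := 0x140000001e8000007f8000007d8000007e000000fc800000f60000007e0000007c0000007c0000001c00000008000000000000000000000000000000000000000000000000000000000000000000000000000000000000000000000000000000000000
theorem lP_73 : S nP_73 cP_73 13 := S_of_chk [] trivial (node 627 (merge (node 594 (merge (leaf 3 559 593) (node 562 (merge (leaf 0 559 561) (node 659 (merge (leaf 7 562 691) (node 530 (merge (leaf 4 498 498) (leaf 4 530 626))))))))) (merge (node 594 (merge (leaf 3 559 593) (node 562 (merge (leaf 0 559 561) (node 659 (merge (leaf 7 562 691) (node 563 (merge (leaf 7 530 530) (node 658 (merge (leaf 5 562 690) (node 657 (merge (leaf 3 623 623) (leaf 2 624 628))))))))))))) (merge (node 594 (merge (leaf 3 559 593) (node 659 (merge (node 691 (merge (leaf 7 562 562) (node 723 (merge (leaf 7 594 626) (node 722 (merge (leaf 5 594 690) (leaf 5 626 754))))))) (merge (node 658 (merge (node 657 (merge (leaf 3 623 623) (leaf 2 624 628))) (node 563 (merge (leaf 5 562 690) (node 564 (merge (leaf 6 531 532) (node 691 (merge (leaf 6 563 596) (node 692 (merge (leaf 4 563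 660) (leaf 4 595 724))))))))))) (merge (node 691 (merge (leaf 7 562 562) (node 723 (merge (leaf 7 594 626) (node 628 (merge (leaf 6 595 596) (node 755 (merge (leaf 6 627 660) (node 754 (merge (leaf 5 626 722) (leaf 5 658 786))))))))))) (node 658 (merge (node 657 (merge (leaf 3 623 623) (leaf 2 624 628))) (node 563 (merge (leaf 5 562 690) (node 532 (merge (leaf 6 531 564) (node 531 (merge (leaf 6 499 500) (leaf 5 530 626))))))))))))))) (merge (node 659 (merge (node 594 (merge (leaf 3 559 593) (node 691 (merge (leaf 7 562 562) (node 723 (merge (leaf 7 594 626) (node 722 (merge (leaf 5 594 690) (leaf 5 626 754))))))))) (merge (node 658 (merge (node 657 (merge (leaf 3 623 623) (leaf 2 624 628))) (node 563 (merge (leaf 5 562 690) (node 564 (merge (leaf 6 531 532) (node 691 (merge (leaf 6 563 596) (node 692 (merge (leaf 4 563 660) (leaf 4 595 724))))))))))) (merge (node 594 (merge (leaf 3 559 593) (node 691 (merge (leaf 7 562 562) (node 723 (merge (leaf 7 594 626) (node 628 (merge (leaf 6 595 596) (node 755 (merge (leaf 6 627 660) (node 754 (merge (leaf 5 626 722) (leaf 5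 658 786))))))))))))) (node 593 (merge (leaf 3 559 594) (node 688 (merge (leaf 6 560 561) (node 687 (merge (leaf 5 591 719) (node 658 (merge (leaf 1 655 657) (node 563 (merge (leaf 5 562 690) (node 660 (merge (leaf 4 563 692) (node 531 (merge (leaf 5 530 626) (leaf 4 531 628))))))))))))))))))) (merge (node 659 (merge (node 658 (merge (node 657 (merge (leaf 3 623 623) (leaf 2 624 628))) (node 563 (merge (leaf 5 562 690) (node 564 (merge (leaf 6 531 532) (node 691 (merge (leaf 6 563 596) (node 692 (merge (leaf 4 563 660) (leaf 4 595 724))))))))))) (merge (node 593 (merge (leaf 3 559 594) (node 688 (merge (leaf 6 560 561) (node 687 (merge (leaf 5 591 719) (node 658 (merge (leaf 1 655 657) (node 563 (merge (leaf 5 562 690) (node 531 (merge (leaf 5 530 626) (node 628 (merge (leaf 4 531 660) (node 596 (merge (leaf 4 499 499) (node 691 (merge (leaf 6 563 564) (leaf 6 595 723))))))))))))))))))) (merge (node 593 (merge (leaf 3 559 594) (node 688 (merge (leaf 6 560 561) (node 687 (merge (leaf 5 591 719) (node 658 (merge (leaf 1 655 657) (node 563 (merge (leaf 5 562 690) (node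 660 (merge (leaf 4 563 692) (node 531 (merge (leaf 5 530 626) (leaf 4 531 628))))))))))))))) (merge (node 593 (merge (leaf 3 559 594) (node 688 (merge (leaf 6 560 561) (node 687 (merge (leaf 5 591 719) (node 658 (merge (leaf 1 655 657) (node 563 (merge (leaf 5 562 690) (node 564 (merge (leaf 6 531 532) (node 691 (merge (leaf 6 563 596) (node 724 (merge (leaf 4 595 692) (node 723 (merge (leaf 4 627 756) (node 626 (merge (leaf 5 530 531) (leaf 7 626 755))))))))))))))))))))) (merge (node 563 (merge (node 564 (merge (leaf 6 531 532) (node 691 (merge (leaf 6 563 596) (node 692 (merge (leaf 4 563 660) (leaf 4 595 724))))))) (merge (node 594 (merge (leaf 3 559 593) (node 660 (merge (leaf 4 563 692) (node 531 (merge (leaf 4 531 628) (node 626 (merge (leaf 5 498 499) (leaf 5 530 658))))))))) (merge (node 564 (merge (leaf 6 531 532) (node 691 (merge (leaf 6 563 596) (node 594 (merge (leaf 2 560 593) (node 723 (merge (leaf 7 594 626) (node 724 (merge (leaf 4 595 692) (leaf 4 627 756))))))))))) (node 564 (merge (leaf 6 531 532) (node 691 (merge (leaf 6 563 596) (node 594 (merge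 (leaf 2 560 593) (node 723 (merge (leaf 7 594 626) (node 756 (merge (leaf 4 627 724) (node 755 (merge (leaf 4 659 788) (node 754 (merge (leaf 5 626 722) (leaf 5 658 786))))))))))))))))))) (merge (node 563 (merge (node 692 (merge (leaf 4 563 660) (node 691 (merge (leaf 4 595 724) (node 596 (merge (leaf 6 563 564) (node 723 (merge (leaf 6 595 628) (node 722 (merge (leaf 5 594 690) (leaf 5 626 754))))))))))) (merge (node 564 (merge (leaf 6 531 532) (node 691 (merge (leaf 6 563 596) (node 594 (merge (leaf 2 560 593) (node 723 (merge (leaf 7 594 626) (node 724 (merge (leaf 4 595 692) (leaf 4 627 756))))))))))) (merge (node 564 (merge (leaf 6 531 532) (node 691 (merge (leaf 6 563 596) (node 594 (merge (leaf 2 560 593) (node 723 (merge (leaf 7 594 626) (node 756 (merge (leaf 4 627 724) (node 755 (merge (leaf 4 659 788) (node 754 (merge (leaf 5 626 722) (leaf 5 658 786))))))))))))))) (node 660 (merge (leaf 4 563 692) (node 531 (merge (leaf 4 531 628) (node 500 (merge (leaf 6 499 532) (node 499 (merge (leaf 6 467 468) (node 594 (merge (leaf 5 498 626) (node 593 (merge (leaf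 3 559 559) (leaf 1 591 623))))))))))))))))) (node 722 (merge (node 691 (merge (leaf 5 594 690) (node 596 (merge (leaf 6 563 564) (node 723 (merge (leaf 6 595 628) (leaf 5 626 754))))))) (merge (node 593 (merge (leaf 3 559 594) (node 688 (merge (leaf 6 560 561) (node 687 (merge (leaf 5 591 719) (node 658 (merge (leaf 1 655 657) (node 690 (merge (leaf 6 594 626) (leaf 6 626 754))))))))))) (merge (node 691 (merge (leaf 5 594 690) (node 596 (merge (leaf 6 563 564) (node 723 (merge (leaf 6 595 628) (node 724 (merge (leaf 4 595 692) (leaf 4 627 756))))))))) (node 593 (merge (leaf 3 559 594) (node 688 (merge (leaf 6 560 561) (node 719 (merge (leaf 5 591 687) (node 720 (merge (leaf 5 623 751) (node 721 (merge (leaf 4 624 753) (node 755 (merge (leaf 0 719 754) (node 723 (merge (leaf 0 720 756) (node 691 (merge (leaf 2 688 692) (node 628 (merge (leaf 6 595 596) (leaf 6 627 660)))))))))))))))))))))))))))))) (merge (node 659 (merge (node 658 (merge (node 657 (merge (leaf 3 623 623) (leaf 2 624 628))) (node 563 (merge (leaf 5 562 690) (node 562 (merge (leaf 7 530 530) (node 561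 (merge (leaf 0 560 596) (node 531 (merge (leaf 2 528 532) (leaf 5 530 626))))))))))) (merge (node 563 (merge (node 564 (merge (leaf 6 531 532) (node 691 (merge (leaf 6 563 596) (node 692 (merge (leaf 4 563 660) (leaf 4 595 724))))))) (merge (node 562 (merge (leaf 7 530 530) (node 561 (merge (leaf 0 560 596) (node 688 (merge (leaf 6 560 593) (node 658 (merge (leaf 5 562 690) (node 687 (merge (leaf 1 655 657) (leaf 5 591 719))))))))))) (node 692 (merge (leaf 4 563 660) (node 658 (merge (leaf 5 562 690) (node 657 (merge (leaf 3 623 623) (leaf 0 656 691)))))))))) (merge (node 563 (merge (node 564 (merge (leaf 6 531 532) (node 691 (merge (leaf 6 563 596) (node 692 (merge (leaf 4 563 660) (leaf 4 595 724))))))) (merge (node 660 (merge (leaf 4 563 692) (node 532 (merge (leaf 6 531 564) (node 531 (merge (leaf 6 499 500) (leaf 4 531 628))))))) (merge (node 532 (merge (leaf 6 531 564) (node 562 (merge (leaf 7 530 530) (node 561 (merge (leaf 2 528 531) (leaf 0 560 596))))))) (node 562 (merge (leaf 7 530 530) (node 561 (merge (leaf 0 560 596) (node 688 (merge (leaf 6 560 593) (node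 660 (merge (leaf 4 563 692) (node 531 (merge (leaf 4 531 628) (node 658 (merge (leaf 5 530 626) (node 687 (merge (leaf 1 655 657) (leaf 5 591 719))))))))))))))))))) (merge (node 563 (merge (node 660 (merge (leaf 4 563 692) (node 532 (merge (leaf 6 531 564) (node 531 (merge (leaf 6 499 500) (leaf 4 531 628))))))) (merge (node 532 (merge (leaf 6 531 564) (node 562 (merge (leaf 7 530 530) (node 561 (merge (leaf 2 528 531) (leaf 0 560 596))))))) (merge (node 562 (merge (leaf 7 530 530) (node 561 (merge (leaf 0 560 596) (node 531 (merge (leaf 2 528 532) (node 660 (merge (leaf 4 531 628) (leaf 4 563 692))))))))) (node 692 (merge (leaf 4 563 660) (node 691 (merge (leaf 4 595 724) (node 596 (merge (leaf 6 563 564) (node 723 (merge (leaf 6 595 628) (node 722 (merge (leaf 5 594 690) (leaf 5 626 754))))))))))))))) (merge (node 658 (merge (node 657 (merge (leaf 3 623 623) (leaf 2 624 628))) (merge (node 563 (merge (leaf 5 562 690) (node 660 (merge (leaf 4 563 692) (node 531 (merge (leaf 5 530 626) (leaf 4 531 628))))))) (node 657 (merge (leaf 3 623 623) (node 691 (merge (leaf 0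 656 692) (node 722 (merge (leaf 5 594 690) (node 723 (merge (leaf 5 626 754) (node 755 (merge (leaf 7 626 626) (node 756 (merge (leaf 4 627 724) (leaf 4 659 788)))))))))))))))) (node 691 (merge (node 724 (merge (leaf 4 595 692) (node 723 (merge (leaf 4 627 756) (node 722 (merge (leaf 5 594 690) (leaf 5 626 754))))))) (merge (node 596 (merge (leaf 6 563 564) (node 723 (merge (leaf 6 595 628) (node 724 (merge (leaf 4 595 692) (leaf 4 627 756))))))) (merge (node 596 (merge (leaf 6 563 564) (node 723 (merge (leaf 6 595 628) (node 722 (merge (leaf 5 594 690) (leaf 5 626 754))))))) (node 596 (merge (leaf 6 563 564) (node 692 (merge (leaf 4 595 724) (node 658 (merge (leaf 0 656 657) (node 693 (merge (leaf 3 658 694) (node 690 (merge (leaf 5 594 722) (node 725 (merge (leaf 0 690 726) (node 661 (merge (leaf 2 658 662) (node 628 (merge (leaf 7 596 629) (leaf 4 596 660))))))))))))))))))))))))))) (merge (node 563 (merge (node 593 (merge (leaf 3 559 594) (node 561 (merge (leaf 6 560 688) (node 562 (merge (leaf 1 560 564) (leaf 0 560 596))))))) (merge (node 531 (merge (node 628 (merge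 (leaf 4 531 660) (node 498 (merge (leaf 7 498 530) (node 499 (merge (leaf 7 466 466) (leaf 4 499 596))))))) (merge (node 628 (merge (leaf 4 531 660) (node 499 (merge (leaf 4 499 596) (node 626 (merge (leaf 5 498 594) (leaf 5 530 658))))))) (merge (node 626 (merge (leaf 5 530 658) (node 594 (merge (leaf 5 498 499) (node 593 (merge (leaf 2 560 564) (leaf 1 591 623))))))) (node 532 (merge (leaf 6 499 500) (node 594 (merge (leaf 3 559 593) (node 628 (merge (leaf 4 531 660) (node 629 (merge (leaf 3 594 630) (node 626 (merge (leaf 5 530 658) (node 661 (merge (leaf 0 626 662) (node 597 (merge (leaf 2 594 598) (node 564 (merge (leaf 7 532 565) (leaf 4 532 596))))))))))))))))))))) (merge (node 561 (merge (node 593 (merge (leaf 3 559 594) (leaf 6 560 688))) (merge (node 562 (merge (leaf 0 559 594) (node 531 (merge (leaf 2 527 530) (leaf 2 528 532))))) (node 593 (merge (leaf 6 560 688) (node 562 (merge (leaf 1 560 564) (node 531 (merge (leaf 2 527 530) (leaf 2 528 532)))))))))) (merge (node 593 (merge (leaf 3 559 594) (node 561 (merge (leaf 6 560 688) (node 562 (merge (leaf 0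 560 596) (node 531 (merge (leaf 2 527 530) (leaf 2 528 532))))))))) (node 531 (merge (node 628 (merge (leaf 4 531 660) (node 498 (merge (leaf 7 498 530) (node 499 (merge (leaf 7 466 466) (leaf 4 499 596))))))) (merge (node 500 (merge (leaf 6 499 532) (node 499 (merge (leaf 6 467 468) (node 498 (merge (leaf 7 466 466) (leaf 7 498 530))))))) (merge (node 532 (merge (leaf 6 499 500) (node 562 (merge (leaf 2 528 561) (node 533 (merge (leaf 1 530 534) (node 628 (merge (leaf 4 531 660) (node 596 (merge (leaf 4 499 499) (node 564 (merge (leaf 6 500 501) (node 598 (merge (leaf 3 562 597) (node 629 (merge (leaf 4 532 661) (node 630 (merge (leaf 2 595 599) (leaf 3 595 631))))))))))))))))))) (node 532 (merge (leaf 6 499 500) (node 530 (merge (leaf 7 498 498) (node 562 (merge (leaf 2 528 561) (node 533 (merge (leaf 1 530 534) (node 565 (merge (leaf 0 530 566) (node 501 (merge (leaf 2 498 502) (node 628 (merge (leaf 4 531 660) (node 596 (merge (leaf 6 500 564) (leaf 5 500 597)))))))))))))))))))))))))) (node 563 (merge (node 562 (merge (node 561 (merge (leaf 0 559 594) (leaf 0 560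 596))) (node 659 (merge (leaf 7 530 530) (node 658 (merge (leaf 5 562 690) (node 628 (merge (leaf 2 624 657) (node 531 (merge (leaf 5 530 626) (leaf 4 531 660))))))))))) (merge (node 562 (merge (node 561 (merge (leaf 0 559 594) (leaf 0 560 596))) (merge (node 561 (merge (leaf 0 559 594) (node 531 (merge (leaf 2 527 530) (leaf 2 528 532))))) (node 659 (merge (leaf 7 530 530) (node 564 (merge (leaf 6 531 532) (node 691 (merge (leaf 6 563 596) (node 692 (merge (leaf 4 563 660) (leaf 4 595 724)))))))))))) (merge (node 659 (merge (node 658 (merge (leaf 5 562 690) (node 628 (merge (leaf 2 624 657) (node 531 (merge (leaf 5 530 626) (leaf 4 531 660))))))) (merge (node 564 (merge (leaf 6 531 532) (node 691 (merge (leaf 6 563 596) (node 692 (merge (leaf 4 563 660) (leaf 4 595 724))))))) (node 564 (merge (leaf 6 531 532) (node 691 (merge (leaf 6 563 596) (node 690 (merge (leaf 5 562 658) (leaf 5 594 722)))))))))) (merge (node 562 (merge (node 561 (merge (leaf 0 559 594) (leaf 0 560 596))) (merge (node 659 (merge (leaf 7 530 530) (node 564 (merge (leaf 6 531 532) (node 691 (merge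 (leaf 6 563 596) (node 692 (merge (leaf 4 563 660) (leaf 4 595 724))))))))) (node 594 (merge (leaf 0 559 561) (node 659 (merge (leaf 7 562 691) (node 530 (merge (leaf 4 498 498) (leaf 4 530 626)))))))))) (merge (node 531 (merge (node 530 (merge (leaf 7 498 498) (node 659 (merge (leaf 7 530 562) (node 660 (merge (leaf 4 531 628) (leaf 4 563 692))))))) (merge (node 532 (merge (leaf 6 499 500) (node 659 (merge (leaf 6 531 564) (node 658 (merge (leaf 5 530 626) (leaf 5 562 690))))))) (node 500 (merge (leaf 6 499 532) (node 499 (merge (leaf 6 467 468) (node 626 (merge (leaf 5 498 594) (leaf 5 530 658)))))))))) (merge (node 531 (merge (node 530 (merge (leaf 7 498 498) (node 659 (merge (leaf 7 530 562) (node 658 (merge (leaf 5 530 626) (leaf 5 562 690))))))) (merge (node 532 (merge (leaf 6 499 500) (node 659 (merge (leaf 6 531 564) (node 658 (merge (leaf 5 530 626) (leaf 5 562 690))))))) (merge (node 500 (merge (leaf 6 499 532) (node 499 (merge (leaf 6 467 468) (node 626 (merge (leaf 5 498 594) (leaf 5 530 658))))))) (merge (node 530 (merge (leaf 7 498 498) (node 659 (merge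 (leaf 7 530 562) (node 564 (merge (leaf 6 531 532) (node 691 (merge (leaf 6 563 596) (node 690 (merge (leaf 5 562 658) (leaf 5 594 722))))))))))) (node 530 (merge (leaf 7 498 498) (node 659 (merge (leaf 7 530 562) (node 564 (merge (leaf 6 531 532) (node 691 (merge (leaf 6 563 596) (node 724 (merge (leaf 4 595 692) (node 723 (merge (leaf 4 627 756) (node 722 (merge (leaf 5 594 690) (leaf 5 626 754)))))))))))))))))))) (node 531 (merge (node 500 (merge (leaf 6 499 532) (node 499 (merge (leaf 6 467 468) (node 626 (merge (leaf 5 498 594) (leaf 5 530 658))))))) (merge (node 532 (merge (leaf 6 499 500) (node 530 (merge (leaf 7 498 498) (node 562 (merge (leaf 2 528 561) (node 628 (merge (leaf 4 531 660) (node 499 (merge (leaf 4 499 596) (node 467 (merge (leaf 5 434 435) (leaf 5 466 594))))))))))))) (merge (node 498 (merge (leaf 7 498 530) (node 499 (merge (leaf 7 466 466) (node 626 (merge (leaf 5 498 594) (leaf 5 530 658))))))) (merge (node 500 (merge (leaf 6 499 532) (node 499 (merge (leaf 6 467 468) (node 498 (merge (leaf 7 466 466) (leaf 7 498 530))))))) (merge (node 500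 (merge (leaf 6 499 532) (node 499 (merge (leaf 6 467 468) (node 626 (merge (leaf 5 498 594) (leaf 5 530 658))))))) (node 532 (merge (leaf 6 499 500) (node 530 (merge (leaf 7 498 498) (node 562 (merge (leaf 2 527 561) (node 533 (merge (leaf 1 530 534) (node 565 (merge (leaf 0 530 566) (node 501 (merge (leaf 2 498 502) (node 628 (merge (leaf 4 531 660) (node 596 (merge (leaf 6 500 564) (leaf 5 500 597)))))))))))))))))))))))))))))))))))))) nP_73 cP_73 13 (by decide +kernel)
def nP_74 : ℕ := 0x100000001000000010000000100000001000000000000000000000000000000000000000000000000000000000000000000000000000000000000000000000000000000000000000000000000000000000000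
def cP_74 : ℕ := 0x140000003e8000007f800001ff800000fe000001fc800001fe0000007e8000007c8000007f0000001f00000008000000000000000000000000000000000000000000000000000000000000000000000000000000000000000000000000000000000000
theorem lP_74 : S nP_74 cP_74 15 := S_of_chk [(nP_72, cP_72, 13), (nP_73, cP_73, 13)] ⟨lP_72, lP_73, trivial⟩ (node 595 (merge (node 559 (merge (leaf 7 527 527) (node 593 (merge (leaf 3 559 594) (node 688 (merge (leaf 6 560 561) (node 721 (merge (leaf 4 592 689) (node 720 (merge (leaf 4 624 753) (node 719 (merge (leaf 5 591 687) (leaf 5 623 751))))))))))))) (merge (node 689 (merge (leaf 4 560 657) (node 688 (merge (leaf 4 592 721) (node 593 (merge (leaf 6 560 561) (node 594 (merge (leaf 1 591 623) (node 628 (merge (leaf 0 592 627) (node 596 (merge (leaf 0 593 629) (node 564 (merge (leaf 2 560 563) (leaf 2 561 565))))))))))))))) (merge (node 659 (merge (node 657 (merge (leaf 4 560 689) (node 658 (merge (leaf 3 623 623) (node 691 (merge (leaf 0 656 692) (node 627 (merge (leaf 2 624 628) (node 562 (merge (leaf 7 562 594) (node 563 (merge (leaf 7 530 530)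 (leaf 5 562 690))))))))))))) (merge (node 559 (merge (leaf 7 527 527) (node 594 (merge (leaf 3 559 593) (node 562 (merge (leaf 0 559 561) (node 657 (merge (leaf 4 560 689) (node 658 (merge (leaf 3 623 623) (node 626 (merge (leaf 4 562 691) (node 563 (merge (leaf 6 530 531) (leaf 6 562 690))))))))))))))) (merge (node 559 (merge (leaf 7 527 527) (node 594 (merge (leaf 3 559 593) (node 562 (merge (leaf 0 559 561) (node 691 (merge (leaf 7 562 627) (node 658 (merge (leaf 4 562 626) (node 657 (merge (leaf 3 623 623) (leaf 0 656 692))))))))))))) (merge (node 559 (merge (leaf 7 527 527) (node 657 (merge (leaf 4 560 689) (node 658 (merge (leaf 3 623 623) (node 627 (merge (leaf 2 624 628) (node 563 (merge (leaf 5 562 690) (node 562 (merge (leaf 7 530 530) (node 561 (merge (leaf 0 559 594) (leaf 0 560 596))))))))))))))) (merge (node 657 (merge (leaf 4 560 689) (node 658 (merge (leaf 3 623 623) (node 691 (merge (leaf 0 656 692) (node 627 (merge (leaf 2 624 628) (node 564 (merge (leaf 6 563 596) (node 563 (merge (leaf 6 531 532) (leaf 5 562 690))))))))))))) (node 559 (merge (leaf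 7 527 527) (node 594 (merge (leaf 3 559 593) (node 562 (merge (leaf 0 559 561) (node 627 (merge (leaf 7 562 691) (node 530 (merge (leaf 7 530 563) (leaf 4 530 626))))))))))))))))) (merge (node 659 (merge (node 689 (merge (leaf 4 560 657) (node 688 (merge (leaf 4 592 721) (node 687 (merge (leaf 5 591 719) (node 690 (merge (leaf 2 655 658) (node 723 (merge (leaf 0 687 722) (node 691 (merge (leaf 2 656 660) (leaf 0 688 724))))))))))))) (merge (node 559 (merge (leaf 7 527 527) (node 657 (merge (leaf 4 560 689) (node 658 (merge (leaf 3 623 623) (node 627 (merge (leaf 2 624 628) (node 563 (merge (leaf 5 562 690) (node 562 (merge (leaf 7 530 530) (node 561 (merge (leaf 0 559 594) (leaf 0 560 596))))))))))))))) (merge (node 657 (merge (leaf 4 560 689) (node 658 (merge (leaf 3 623 623) (node 691 (merge (leaf 0 656 692) (node 627 (merge (leaf 2 624 628) (node 594 (merge (leaf 7 562 562) (node 723 (merge (leaf 7 594 626) (node 756 (merge (leaf 4 627 724) (node 755 (merge (leaf 4 659 788) (node 754 (merge (leaf 5 626 722) (leaf 5 658 786))))))))))))))))))) (merge (node 562 (merge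 (node 559 (merge (leaf 7 527 527) (node 561 (merge (leaf 0 559 594) (node 563 (merge (leaf 0 560 596) (node 531 (merge (leaf 2 527 530) (leaf 2 528 532))))))))) (merge (node 559 (merge (leaf 7 527 527) (node 594 (merge (leaf 0 559 561) (node 627 (merge (leaf 7 562 691) (node 530 (merge (leaf 4 498 498) (leaf 4 530 626))))))))) (merge (node 527 (merge (leaf 7 527 559) (node 563 (merge (leaf 3 527 561) (node 627 (merge (leaf 7 530 530) (node 564 (merge (leaf 6 531 532) (node 691 (merge (leaf 6 563 596) (node 690 (merge (leaf 5 562 658) (leaf 5 594 722))))))))))))) (merge (node 559 (merge (leaf 7 527 527) (node 561 (merge (leaf 0 559 594) (node 563 (merge (leaf 0 560 596) (node 532 (merge (leaf 2 528 531) (node 627 (merge (leaf 6 531 564) (node 692 (merge (leaf 4 563 660) (node 691 (merge (leaf 4 595 724) (node 690 (merge (leaf 5 562 658) (leaf 5 594 722))))))))))))))))) (node 627 (merge (node 563 (merge (leaf 7 530 530) (node 691 (merge (leaf 7 562 594) (node 690 (merge (leaf 5 562 658) (leaf 5 594 722))))))) (merge (node 691 (merge (leaf 7 562 594) (node 596 (merge (leaf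 6 563 564) (node 723 (merge (leaf 6 595 628) (node 724 (merge (leaf 4 595 692) (leaf 4 627 756))))))))) (node 563 (merge (leaf 7 530 530) (node 532 (merge (leaf 6 531 564) (node 531 (merge (leaf 6 499 500) (node 658 (merge (leaf 5 530 626) (leaf 5 562 690))))))))))))))))) (node 562 (merge (node 559 (merge (leaf 7 527 527) (node 561 (merge (leaf 0 559 594) (node 563 (merge (leaf 0 560 596) (node 531 (merge (leaf 2 527 530) (leaf 2 528 532))))))))) (merge (node 559 (merge (leaf 7 527 527) (node 594 (merge (leaf 0 559 561) (node 627 (merge (leaf 7 562 691) (node 530 (merge (leaf 4 498 498) (leaf 4 530 626))))))))) (merge (node 689 (merge (leaf 4 560 657) (node 688 (merge (leaf 4 592 721) (node 719 (merge (leaf 5 591 687) (node 720 (merge (leaf 5 623 751) (node 691 (merge (leaf 1 687 690) (node 627 (merge (leaf 7 562 594) (node 564 (merge (leaf 6 563 596) (node 563 (merge (leaf 7 530 530) (leaf 6 531 532))))))))))))))))) (merge (node 527 (merge (leaf 7 527 559) (node 563 (merge (leaf 3 527 561) (node 627 (merge (leaf 7 530 530) (node 564 (merge (leaf 6 531 532) (node 691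 (merge (leaf 6 563 596) (node 692 (merge (leaf 4 563 660) (leaf 4 595 724))))))))))))) (node 559 (merge (leaf 7 527 527) (node 594 (merge (leaf 0 559 561) (node 691 (merge (leaf 7 562 627) (node 689 (merge (leaf 4 560 657) (node 688 (merge (leaf 4 592 721) (node 690 (merge (leaf 2 656 660) (node 719 (merge (leaf 5 591 687) (leaf 1 687 720))))))))))))))))))))))))) (merge (node 563 (merge (node 659 (merge (node 657 (merge (leaf 4 560 689) (node 658 (merge (leaf 3 623 623) (node 627 (merge (leaf 2 624 628) (leaf 5 562 690))))))) (merge (node 657 (merge (leaf 4 560 689) (node 658 (merge (leaf 3 623 623) (node 692 (merge (leaf 0 656 691) (node 660 (merge (leaf 0 657 693) (node 628 (merge (leaf 7 563 596) (leaf 2 625 629))))))))))) (node 527 (merge (leaf 7 527 559) (node 562 (merge (leaf 3 527 561) (node 627 (merge (leaf 7 530 530) (node 564 (merge (leaf 6 531 532) (node 691 (merge (leaf 6 563 596) (node 692 (merge (leaf 4 563 660) (leaf 4 595 724)))))))))))))))) (merge (node 527 (merge (leaf 7 527 559) (node 561 (merge (leaf 3 527 562) (node 688 (merge (leaf 6 560 593) (node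 721 (merge (leaf 4 592 689) (node 720 (merge (leaf 4 624 753) (node 719 (merge (leaf 5 591 687) (leaf 5 623 751))))))))))))) (merge (node 659 (merge (node 657 (merge (leaf 4 560 689) (node 658 (merge (leaf 3 623 623) (node 627 (merge (leaf 2 624 628) (leaf 5 562 690))))))) (merge (node 689 (merge (leaf 4 560 657) (node 688 (merge (leaf 4 592 721) (node 687 (merge (leaf 5 591 719) (node 690 (merge (leaf 2 655 658) (node 723 (merge (leaf 0 687 722) (node 691 (merge (leaf 2 656 660) (leaf 0 688 724))))))))))))) (merge (node 627 (merge (node 564 (merge (leaf 6 531 532) (node 691 (merge (leaf 6 563 596) (node 692 (merge (leaf 4 563 660) (leaf 4 595 724))))))) (merge (node 564 (merge (leaf 6 531 532) (node 691 (merge (leaf 6 563 596) (node 690 (merge (leaf 5 562 658) (leaf 5 594 722))))))) (merge (node 660 (merge (leaf 4 563 692) (node 531 (merge (leaf 4 531 628) (node 658 (merge (leaf 5 530 626) (leaf 5 562 690))))))) (node 692 (merge (leaf 4 563 660) (node 691 (merge (leaf 4 595 724) (node 596 (merge (leaf 6 563 564) (node 723 (merge (leaf 6 595 628) (node 722 (merge (leaf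 5 594 690) (leaf 5 626 754))))))))))))))) (merge (node 627 (merge (node 660 (merge (leaf 4 563 692) (node 532 (merge (leaf 6 531 564) (node 531 (merge (leaf 6 499 500) (leaf 4 531 628))))))) (merge (node 564 (merge (leaf 6 531 532) (node 691 (merge (leaf 6 563 596) (node 689 (merge (leaf 4 560 657) (node 688 (merge (leaf 4 592 721) (node 690 (merge (leaf 2 656 660) (leaf 5 594 722))))))))))) (merge (node 692 (merge (leaf 4 563 660) (node 689 (merge (leaf 4 560 657) (node 721 (merge (leaf 4 592 688) (node 691 (merge (leaf 4 595 724) (node 690 (merge (leaf 1 688 720) (leaf 5 594 722))))))))))) (node 564 (merge (leaf 6 531 532) (node 691 (merge (leaf 6 563 596) (node 689 (merge (leaf 4 560 657) (node 721 (merge (leaf 4 592 688) (node 692 (merge (leaf 4 595 724) (node 690 (merge (leaf 1 688 720) (leaf 5 594 722))))))))))))))))) (node 657 (merge (leaf 4 560 689) (node 658 (merge (leaf 3 623 623) (node 692 (merge (leaf 0 656 691) (node 660 (merge (leaf 0 657 693) (node 628 (merge (leaf 7 563 596) (leaf 2 625 629)))))))))))))))) (merge (node 659 (merge (node 657 (merge (leaf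 4 560 689) (node 658 (merge (leaf 3 623 623) (node 627 (merge (leaf 2 624 628) (leaf 5 562 690))))))) (merge (node 689 (merge (leaf 4 560 657) (node 688 (merge (leaf 4 592 721) (node 687 (merge (leaf 5 591 719) (node 690 (merge (leaf 2 655 658) (node 723 (merge (leaf 0 687 722) (node 691 (merge (leaf 2 656 660) (leaf 0 688 724))))))))))))) (merge (node 657 (merge (leaf 4 560 689) (node 658 (merge (leaf 3 623 623) (node 692 (merge (leaf 0 656 691) (node 660 (merge (leaf 0 657 693) (node 628 (merge (leaf 7 563 596) (leaf 2 625 629))))))))))) (merge (node 627 (merge (node 564 (merge (leaf 6 531 532) (node 691 (merge (leaf 6 563 596) (node 692 (merge (leaf 4 563 660) (leaf 4 595 724))))))) (merge (node 564 (merge (leaf 6 531 532) (node 691 (merge (leaf 6 563 596) (node 690 (merge (leaf 5 562 658) (leaf 5 594 722))))))) (merge (node 660 (merge (leaf 4 563 692) (node 531 (merge (leaf 4 531 628) (node 658 (merge (leaf 5 530 626) (leaf 5 562 690))))))) (node 692 (merge (leaf 4 563 660) (node 691 (merge (leaf 4 595 724) (node 596 (merge (leaf 6 563 564) (node 723 (merge (leaf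 6 595 628) (node 722 (merge (leaf 5 594 690) (leaf 5 626 754))))))))))))))) (node 527 (merge (leaf 7 527 559) (node 691 (merge (node 689 (merge (leaf 4 560 657) (node 688 (merge (leaf 4 592 721) (node 719 (merge (leaf 5 591 687) (node 720 (merge (leaf 1 687 690) (leaf 5 623 751))))))))) (merge (node 627 (merge (node 692 (merge (leaf 4 563 660) (leaf 4 595 724))) (merge (node 596 (merge (leaf 6 563 564) (node 723 (merge (leaf 6 595 628) (node 724 (merge (leaf 4 595 692) (leaf 4 627 756))))))) (node 596 (merge (leaf 6 563 564) (node 723 (merge (leaf 6 595 628) (node 722 (merge (leaf 5 594 690) (leaf 5 626 754)))))))))) (node 627 (merge (node 692 (merge (leaf 4 563 660) (leaf 4 595 724))) (merge (node 596 (merge (leaf 6 563 564) (node 723 (merge (leaf 6 595 628) (node 724 (merge (leaf 4 595 692) (leaf 4 627 756))))))) (merge (node 596 (merge (leaf 6 563 564) (node 723 (merge (leaf 6 595 628) (node 689 (merge (leaf 4 560 657) (node 692 (merge (leaf 4 563 660) (node 721 (merge (leaf 4 592 688) (node 722 (merge (leaf 2 688 720) (leaf 5 626 754))))))))))))) (node 596 (merge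 (leaf 6 563 564) (node 723 (merge (leaf 6 595 628) (node 689 (merge (leaf 4 560 657) (node 721 (merge (leaf 4 592 688) (node 756 (merge (leaf 4 627 724) (node 755 (merge (leaf 4 659 788) (node 722 (merge (leaf 0 720 720) (leaf 5 626 754))))))))))))))))))))))))))))) (node 627 (merge (node 527 (merge (leaf 7 527 559) (node 562 (merge (leaf 3 527 561) (node 659 (merge (leaf 7 530 530) (node 658 (merge (leaf 5 562 690) (node 628 (merge (leaf 2 624 657) (node 531 (merge (leaf 5 530 626) (leaf 4 531 660))))))))))))) (merge (node 659 (merge (node 658 (merge (leaf 5 562 690) (node 628 (merge (leaf 2 624 657) (node 531 (merge (leaf 5 530 626) (leaf 4 531 660))))))) (merge (node 564 (merge (leaf 6 531 532) (node 691 (merge (leaf 6 563 596) (node 692 (merge (leaf 4 563 660) (leaf 4 595 724))))))) (node 564 (merge (leaf 6 531 532) (node 691 (merge (leaf 6 563 596) (node 690 (merge (leaf 5 562 658) (leaf 5 594 722)))))))))) (merge (node 527 (merge (leaf 7 527 559) (node 562 (merge (leaf 3 527 561) (node 659 (merge (leaf 7 530 530) (node 564 (merge (leaf 6 531 532) (node 691 (merge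 (leaf 6 563 596) (node 690 (merge (leaf 5 562 658) (leaf 5 594 722))))))))))))) (node 498 (merge (node 530 (merge (leaf 7 498 531) (node 562 (merge (leaf 4 466 466) (node 561 (merge (leaf 3 527 527) (leaf 0 560 596))))))) (merge (node 531 (merge (leaf 7 498 530) (node 500 (merge (leaf 6 499 532) (node 499 (merge (leaf 7 466 466) (leaf 6 467 468))))))) (node 527 (merge (leaf 7 527 559) (node 561 (merge (leaf 3 527 562) (node 593 (merge (leaf 6 560 688) (node 496 (merge (leaf 4 464 464) (node 497 (merge (leaf 6 464 465) (leaf 1 495 499))))))))))))))))))))))) (merge (hyp 0) (node 559 (merge (leaf 7 527 527) (hyp 1)))))))))) nP_74 cP_74 15 (by decide +kernel)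
def nP_75 : ℕ := 0x100000001000000090000000100000001000000000000000000000000000000000000000000000000000000000000000000000000000000000000000000000000000000000000000000000000000000000000
def cP_75 : ℕ := 0x140000003c0000003e000001ff000000fe800001fc800001f60000007c8000007c8000001c0000000800000000000000000000000000000000000000000000000000000000000000000000000000000000000000000000000000000000000000000000
theorem lP_75 : S nP_75 cP_75 13 := S_of_chk [] trivial (node 659 (merge (node 657 (merge (leaf 4 560 689) (node 623 (merge (leaf 5 527 655) (leaf 3 623 658))))) (merge (node 559 (merge (leaf 7 527 527) (node 594 (merge (leaf 3 559 593) (node 689 (merge (leaf 4 560 657) (node 688 (merge (leaf 4 592 721) (node 655 (merge (leaf 5 527 623) (node 691 (merge (leaf 3 655 690) (node 627 (merge (leaf 7 562 562) (node 723 (merge (leaf 7 594 626) (node 628 (merge (leaf 6 595 596) (node 755 (merge (leaf 6 627 660) (node 754 (merge (leaf 5 626 722) (leaf 5 658 786))))))))))))))))))))))) (merge (node 627 (merge (node 559 (merge (leaf 7 527 527) (node 594 (merge (leaf 3 559 593) (node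 691 (merge (leaf 7 562 562) (node 723 (merge (leaf 7 594 626) (node 722 (merge (leaf 5 594 690) (leaf 5 626 754))))))))))) (merge (node 658 (merge (node 657 (merge (leaf 3 623 623) (leaf 2 624 628))) (node 563 (merge (leaf 5 562 690) (node 564 (merge (leaf 6 531 532) (node 691 (merge (leaf 6 563 596) (node 692 (merge (leaf 4 563 660) (leaf 4 595 724))))))))))) (merge (node 559 (merge (leaf 7 527 527) (node 594 (merge (leaf 3 559 593) (node 691 (merge (leaf 7 562 562) (node 723 (merge (leaf 7 594 626) (node 628 (merge (leaf 6 595 596) (node 755 (merge (leaf 6 627 660) (node 754 (merge (leaf 5 626 722) (leaf 5 658 786))))))))))))))) (node 623 (merge (leaf 5 527 655) (node 658 (merge (leaf 3 623 657) (node 563 (merge (leaf 5 562 690) (node 660 (merge (leaf 4 563 692) (node 531 (merge (leaf 5 530 626) (leaf 4 531 628))))))))))))))) (node 627 (merge (node 559 (merge (leaf 7 527 527) (node 594 (merge (leaf 3 559 593) (node 691 (merge (leaf 7 562 562) (node 723 (merge (leaf 7 594 626) (node 722 (merge (leaf 5 594 690) (leaf 5 626 754))))))))))) (merge (node 559 (merge (leaf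 7 527 527) (node 594 (merge (leaf 3 559 593) (node 691 (merge (leaf 7 562 562) (node 596 (merge (leaf 6 563 564) (node 723 (merge (leaf 6 595 628) (node 722 (merge (leaf 5 594 690) (leaf 5 626 754))))))))))))) (merge (node 559 (merge (leaf 7 527 527) (node 594 (merge (leaf 3 559 593) (node 691 (merge (leaf 7 562 562) (node 723 (merge (leaf 7 594 626) (node 628 (merge (leaf 6 595 596) (node 755 (merge (leaf 6 627 660) (node 756 (merge (leaf 4 627 724) (leaf 4 659 788))))))))))))))) (merge (node 563 (merge (node 564 (merge (leaf 6 531 532) (node 691 (merge (leaf 6 563 596) (node 692 (merge (leaf 4 563 660) (leaf 4 595 724))))))) (merge (node 564 (merge (leaf 6 531 532) (node 691 (merge (leaf 6 563 596) (node 690 (merge (leaf 5 562 658) (leaf 5 594 722))))))) (merge (node 660 (merge (leaf 4 563 692) (node 531 (merge (leaf 4 531 628) (node 658 (merge (leaf 5 530 626) (leaf 5 562 690))))))) (node 530 (merge (leaf 7 530 562) (node 531 (merge (leaf 7 498 498) (node 658 (merge (leaf 5 530 626) (leaf 5 562 690))))))))))) (merge (node 563 (merge (node 660 (merge (leaf 4 563 692)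 (node 532 (merge (leaf 6 531 564) (node 531 (merge (leaf 6 499 500) (leaf 4 531 628))))))) (merge (node 559 (merge (leaf 7 527 527) (node 594 (merge (leaf 3 559 593) (node 660 (merge (leaf 4 563 692) (node 531 (merge (leaf 4 531 628) (node 626 (merge (leaf 5 498 499) (leaf 5 530 658))))))))))) (merge (node 559 (merge (leaf 7 527 527) (node 564 (merge (leaf 6 531 532) (node 691 (merge (leaf 6 563 596) (node 594 (merge (leaf 2 560 593) (node 723 (merge (leaf 7 594 626) (node 724 (merge (leaf 4 595 692) (leaf 4 627 756))))))))))))) (node 559 (merge (leaf 7 527 527) (node 564 (merge (leaf 6 531 532) (node 691 (merge (leaf 6 563 596) (node 594 (merge (leaf 2 560 593) (node 723 (merge (leaf 7 594 626) (node 756 (merge (leaf 4 627 724) (node 755 (merge (leaf 4 659 788) (node 754 (merge (leaf 5 626 722) (leaf 5 658 786))))))))))))))))))))) (node 660 (merge (node 563 (merge (leaf 4 563 692) (node 531 (merge (leaf 4 531 628) (node 658 (merge (leaf 5 530 626) (leaf 5 562 690))))))) (merge (node 563 (merge (leaf 4 563 692) (node 564 (merge (leaf 6 531 532) (node 562 (merge (leaf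 7 530 530) (node 594 (merge (leaf 2 560 593) (node 565 (merge (leaf 1 562 566) (node 597 (merge (leaf 0 562 598) (node 533 (merge (leaf 2 530 534) (node 628 (merge (leaf 6 532 596) (leaf 5 532 629))))))))))))))))) (merge (node 559 (merge (leaf 7 527 527) (node 594 (merge (leaf 3 559 593) (node 563 (merge (leaf 4 563 692) (node 532 (merge (leaf 6 531 564) (node 531 (merge (leaf 6 499 500) (node 562 (merge (leaf 7 530 530) (node 499 (merge (leaf 5 466 467) (leaf 5 498 626))))))))))))))) (merge (node 661 (merge (node 662 (merge (leaf 3 626 626) (node 695 (merge (leaf 0 659 694) (node 663 (merge (leaf 3 627 628) (leaf 0 660 696))))))) (merge (node 662 (merge (leaf 3 626 626) (node 631 (merge (leaf 2 627 630) (node 663 (merge (leaf 3 627 628) (leaf 2 628 632))))))) (merge (node 662 (merge (leaf 3 626 626) (node 694 (merge (leaf 0 659 695) (node 658 (merge (leaf 0 658 693) (node 630 (merge (leaf 2 626 629) (leaf 2 627 631))))))))) (merge (node 662 (merge (node 695 (merge (leaf 0 659 694) (node 663 (merge (leaf 3 627 628) (leaf 0 660 696))))) (merge (node 631 (merge (leaf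 2 627 630) (node 663 (merge (leaf 3 627 628) (leaf 2 628 632))))) (node 694 (merge (leaf 0 659 695) (node 658 (merge (leaf 0 658 693) (node 630 (merge (leaf 2 626 629) (leaf 2 627 631)))))))))) (node 563 (merge (node 531 (merge (leaf 4 531 628) (node 658 (merge (leaf 5 530 626) (leaf 5 562 690))))) (merge (node 532 (merge (leaf 6 531 564) (node 531 (merge (leaf 6 499 500) (leaf 4 531 628))))) (merge (node 531 (merge (leaf 4 531 628) (node 658 (merge (leaf 5 530 626) (leaf 5 562 690))))) (node 564 (merge (leaf 6 531 532) (node 562 (merge (leaf 7 530 530) (node 658 (merge (leaf 5 562 690) (node 693 (merge (leaf 0 658 694) (node 629 (merge (leaf 2 626 630) (node 597 (merge (leaf 7 564 596) (node 598 (merge (leaf 0 562 565) (leaf 6 565 566)))))))))))))))))))))))) (node 661 (merge (node 662 (merge (leaf 3 626 626) (node 695 (merge (leaf 0 659 694) (node 663 (merge (leaf 3 627 628) (leaf 0 660 696))))))) (merge (node 662 (merge (leaf 3 626 626) (node 631 (merge (leaf 2 627 630) (node 663 (merge (leaf 3 627 628) (leaf 2 628 632))))))) (merge (node 662 (merge (leaf 3 626 626)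 (node 694 (merge (leaf 0 659 695) (node 658 (merge (leaf 0 658 693) (node 630 (merge (leaf 2 626 629) (leaf 2 627 631))))))))) (merge (node 662 (merge (node 695 (merge (leaf 0 659 694) (node 663 (merge (leaf 3 627 628) (leaf 0 660 696))))) (merge (node 631 (merge (leaf 2 627 630) (node 663 (merge (leaf 3 627 628) (leaf 2 628 632))))) (node 694 (merge (leaf 0 659 695) (node 658 (merge (leaf 0 658 693) (node 630 (merge (leaf 2 626 629) (leaf 2 627 631)))))))))) (node 693 (merge (node 694 (merge (leaf 0 658 658) (node 695 (merge (leaf 3 659 692) (leaf 3 660 696))))) (merge (node 658 (merge (leaf 0 658 694) (node 690 (merge (leaf 1 657 689) (node 722 (merge (leaf 6 594 626) (leaf 6 626 754))))))) (node 628 (merge (node 725 (merge (leaf 7 628 757) (node 629 (merge (leaf 7 596 596) (node 630 (merge (leaf 3 594 594) (leaf 1 627 631))))))) (merge (node 692 (merge (leaf 7 595 724) (node 725 (merge (leaf 4 596 596) (leaf 7 628 757))))) (merge (node 594 (merge (leaf 0 592 593) (node 692 (merge (leaf 7 595 724) (node 629 (merge (leaf 3 594 630) (node 597 (merge (leaf 5 564 565)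 (node 598 (merge (leaf 2 594 626) (node 599 (merge (leaf 1 595 596) (leaf 1 596 600))))))))))))) (node 594 (merge (leaf 0 592 593) (node 692 (merge (leaf 7 595 724) (node 629 (merge (leaf 3 594 630) (node 597 (merge (leaf 5 564 565) (node 598 (merge (leaf 6 565 566) (leaf 2 594 626)))))))))))))))))))))))))))))))))))))) nP_75 cP_75 13 (by decide +kernel)
def nP_76 : ℕ := 0x100000001000000090000000100000001000000000000000000000000000000000000000000000000000000000000000000000000000000000000000000000000000000000000000000000000000000000000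
def cP_76 : ℕ := 0x140000001c0000007c0000007d0000007e8000007c800000760000007e8000007c8000007f0000001f00000008000000000000000000000000000000000000000000000000000000000000000000000000000000000000000000000000000000000000
theorem lP_76 : S nP_76 cP_76 13 := S_of_chk [] trivial (node 627 (merge (node 559 (merge (leaf 7 527 527) (node 594 (merge (leaf 3 559 593) (node 562 (merge (leaf 0 559 561) (node 659 (merge (leaf 7 562 691) (node 530 (merge (leaf 4 498 498) (leaf 4 530 626))))))))))) (merge (node 559 (merge (leaf 7 527 527) (node 594 (merge (leaf 3 559 593) (node 562 (merge (leaf 0 559 561) (node 659 (merge (leaf 7 562 691) (node 563 (merge (leaf 7 530 530) (node 658 (merge (leaf 5 562 690) (node 657 (merge (leaf 3 623 623) (leaf 2 624 628))))))))))))))) (merge (node 559 (merge (leaf 7 527 527) (node 594 (merge (leaf 3 559 593) (node 562 (merge (leaf 0 559 561) (node 659 (merge (leaf 7 562 691) (node 623 (merge (leaf 5 527 655) (node 658 (merge (leaf 3 623 657) (node 563 (merge (leaf 5 562 690) (node 531 (merge (leaf 6 530 626) (node 660 (merge (leaf 4 531 628) (leaf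 4 563 692))))))))))))))))))) (merge (node 594 (merge (node 593 (merge (leaf 1 591 623) (leaf 0 592 628))) (merge (node 593 (merge (leaf 0 592 628) (node 564 (merge (leaf 2 560 563) (node 596 (merge (leaf 3 560 561) (leaf 2 561 565))))))) (merge (node 593 (merge (leaf 1 591 623) (node 564 (merge (leaf 2 560 563) (node 596 (merge (leaf 3 560 561) (leaf 2 561 565))))))) (node 659 (merge (node 691 (merge (leaf 7 562 562) (node 723 (merge (leaf 7 594 626) (node 722 (merge (leaf 5 594 690) (leaf 5 626 754))))))) (merge (node 658 (merge (node 657 (merge (leaf 3 623 623) (leaf 2 624 628))) (node 563 (merge (leaf 5 562 690) (node 564 (merge (leaf 6 531 532) (node 691 (merge (leaf 6 563 596) (node 692 (merge (leaf 4 563 660) (leaf 4 595 724))))))))))) (merge (node 691 (merge (leaf 7 562 562) (node 723 (merge (leaf 7 594 626) (node 628 (merge (leaf 6 595 596) (node 755 (merge (leaf 6 627 660) (node 754 (merge (leaf 5 626 722) (leaf 5 658 786))))))))))) (node 658 (merge (node 657 (merge (leaf 3 623 623) (leaf 2 624 628))) (node 563 (merge (leaf 5 562 690) (node 532 (merge (leaf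 6 531 564) (node 531 (merge (leaf 6 499 500) (leaf 5 530 626))))))))))))))))) (merge (node 563 (merge (node 527 (merge (leaf 7 527 559) (node 562 (merge (leaf 3 527 561) (node 659 (merge (leaf 7 530 530) (node 658 (merge (leaf 5 562 690) (node 628 (merge (leaf 2 624 657) (node 531 (merge (leaf 5 530 626) (leaf 4 531 660))))))))))))) (merge (node 659 (merge (node 658 (merge (leaf 5 562 690) (node 628 (merge (leaf 2 624 657) (node 531 (merge (leaf 5 530 626) (leaf 4 531 660))))))) (merge (node 564 (merge (leaf 6 531 532) (node 691 (merge (leaf 6 563 596) (node 692 (merge (leaf 4 563 660) (leaf 4 595 724))))))) (node 564 (merge (leaf 6 531 532) (node 691 (merge (leaf 6 563 596) (node 690 (merge (leaf 5 562 658) (leaf 5 594 722)))))))))) (merge (node 527 (merge (leaf 7 527 559) (node 562 (merge (leaf 3 527 561) (node 659 (merge (leaf 7 530 530) (node 564 (merge (leaf 6 531 532) (node 691 (merge (leaf 6 563 596) (node 690 (merge (leaf 5 562 658) (leaf 5 594 722))))))))))))) (node 498 (merge (node 530 (merge (leaf 7 498 531) (node 562 (merge (leaf 4 466 466) (node 561 (merge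 (leaf 3 527 527) (leaf 0 560 596))))))) (merge (node 531 (merge (leaf 7 498 530) (node 500 (merge (leaf 6 499 532) (node 499 (merge (leaf 7 466 466) (leaf 6 467 468))))))) (node 527 (merge (leaf 7 527 559) (node 561 (merge (leaf 3 527 562) (node 593 (merge (leaf 6 560 688) (node 496 (merge (leaf 4 464 464) (node 497 (merge (leaf 6 464 465) (leaf 1 495 499)))))))))))))))))) (merge (node 563 (merge (node 527 (merge (leaf 7 527 559) (node 562 (merge (leaf 3 527 561) (node 659 (merge (leaf 7 530 530) (node 564 (merge (leaf 6 531 532) (node 691 (merge (leaf 6 563 596) (node 692 (merge (leaf 4 563 660) (leaf 4 595 724))))))))))))) (merge (node 527 (merge (leaf 7 527 559) (node 562 (merge (leaf 3 527 561) (node 659 (merge (leaf 7 530 530) (node 658 (merge (leaf 5 562 690) (node 628 (merge (leaf 2 624 657) (node 531 (merge (leaf 5 530 626) (leaf 4 531 660))))))))))))) (merge (node 659 (merge (node 658 (merge (leaf 5 562 690) (node 628 (merge (leaf 2 624 657) (node 531 (merge (leaf 5 530 626) (leaf 4 531 660))))))) (merge (node 564 (merge (leaf 6 531 532) (node 691 (merge (leaf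 6 563 596) (node 692 (merge (leaf 4 563 660) (leaf 4 595 724))))))) (node 564 (merge (leaf 6 531 532) (node 691 (merge (leaf 6 563 596) (node 690 (merge (leaf 5 562 658) (leaf 5 594 722)))))))))) (merge (node 527 (merge (leaf 7 527 559) (node 562 (merge (leaf 3 527 561) (node 659 (merge (leaf 7 530 530) (node 564 (merge (leaf 6 531 532) (node 691 (merge (leaf 6 563 596) (node 690 (merge (leaf 5 562 658) (leaf 5 594 722))))))))))))) (node 559 (merge (leaf 7 527 527) (node 531 (merge (node 500 (merge (leaf 6 499 532) (node 499 (merge (leaf 6 467 468) (node 626 (merge (leaf 5 498 594) (leaf 5 530 658))))))) (merge (node 532 (merge (leaf 6 499 500) (node 530 (merge (leaf 7 498 498) (node 562 (merge (leaf 2 528 561) (node 628 (merge (leaf 4 531 660) (node 499 (merge (leaf 4 499 596) (node 467 (merge (leaf 5 434 435) (leaf 5 466 594))))))))))))) (merge (node 498 (merge (leaf 7 498 530) (node 499 (merge (leaf 7 466 466) (node 626 (merge (leaf 5 498 594) (leaf 5 530 658))))))) (merge (node 500 (merge (leaf 6 499 532) (node 499 (merge (leaf 6 467 468) (node 498 (merge (leaf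 7 466 466) (leaf 7 498 530))))))) (merge (node 500 (merge (leaf 6 499 532) (node 499 (merge (leaf 6 467 468) (node 626 (merge (leaf 5 498 594) (leaf 5 530 658))))))) (node 532 (merge (leaf 6 499 500) (node 530 (merge (leaf 7 498 498) (node 562 (merge (leaf 2 527 561) (node 533 (merge (leaf 1 530 534) (node 565 (merge (leaf 0 530 566) (node 501 (merge (leaf 2 498 502) (node 628 (merge (leaf 4 531 660) (node 596 (merge (leaf 6 500 564) (leaf 5 500 597)))))))))))))))))))))))))))))) (merge (node 563 (merge (node 623 (merge (leaf 5 527 655) (node 593 (merge (leaf 1 591 594) (node 561 (merge (leaf 6 560 688) (node 562 (merge (leaf 1 560 564) (leaf 0 560 596))))))))) (merge (node 559 (merge (leaf 7 527 527) (node 531 (merge (node 628 (merge (leaf 4 531 660) (node 498 (merge (leaf 7 498 530) (node 499 (merge (leaf 7 466 466) (leaf 4 499 596))))))) (merge (node 628 (merge (leaf 4 531 660) (node 499 (merge (leaf 4 499 596) (node 626 (merge (leaf 5 498 594) (leaf 5 530 658))))))) (merge (node 626 (merge (leaf 5 530 658) (node 594 (merge (leaf 5 498 499) (node 593 (merge (leaf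 2 560 564) (leaf 1 591 623))))))) (node 532 (merge (leaf 6 499 500) (node 594 (merge (leaf 3 559 593) (node 628 (merge (leaf 4 531 660) (node 629 (merge (leaf 3 594 630) (node 626 (merge (leaf 5 530 658) (node 661 (merge (leaf 0 626 662) (node 597 (merge (leaf 2 594 598) (node 564 (merge (leaf 7 532 565) (leaf 4 532 596))))))))))))))))))))))) (merge (node 559 (merge (leaf 7 527 527) (node 593 (merge (leaf 3 559 594) (node 561 (merge (leaf 6 560 688) (node 562 (merge (leaf 1 560 564) (node 531 (merge (leaf 2 527 530) (leaf 2 528 532))))))))))) (merge (node 498 (merge (node 530 (merge (leaf 7 498 531) (node 562 (merge (leaf 4 466 466) (node 561 (merge (leaf 3 527 527) (leaf 0 560 596))))))) (merge (node 531 (merge (leaf 7 498 530) (node 500 (merge (leaf 6 499 532) (node 499 (merge (leaf 7 466 466) (leaf 6 467 468))))))) (node 527 (merge (leaf 7 527 559) (node 561 (merge (leaf 3 527 562) (node 593 (merge (leaf 6 560 688) (node 496 (merge (leaf 4 464 464) (node 497 (merge (leaf 6 464 465) (leaf 1 495 499)))))))))))))) (node 559 (merge (leaf 7 527 527) (node 531 (merge (node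 500 (merge (leaf 6 499 532) (node 499 (merge (leaf 6 467 468) (node 626 (merge (leaf 5 498 594) (leaf 5 530 658))))))) (merge (node 532 (merge (leaf 6 499 500) (node 530 (merge (leaf 7 498 498) (node 562 (merge (leaf 2 528 561) (node 628 (merge (leaf 4 531 660) (node 499 (merge (leaf 4 499 596) (node 467 (merge (leaf 5 434 435) (leaf 5 466 594))))))))))))) (merge (node 498 (merge (leaf 7 498 530) (node 499 (merge (leaf 7 466 466) (node 626 (merge (leaf 5 498 594) (leaf 5 530 658))))))) (merge (node 500 (merge (leaf 6 499 532) (node 499 (merge (leaf 6 467 468) (node 498 (merge (leaf 7 466 466) (leaf 7 498 530))))))) (merge (node 500 (merge (leaf 6 499 532) (node 499 (merge (leaf 6 467 468) (node 626 (merge (leaf 5 498 594) (leaf 5 530 658))))))) (node 532 (merge (leaf 6 499 500) (node 530 (merge (leaf 7 498 498) (node 562 (merge (leaf 2 527 561) (node 533 (merge (leaf 1 530 534) (node 565 (merge (leaf 0 530 566) (node 501 (merge (leaf 2 498 502) (node 628 (merge (leaf 4 531 660) (node 596 (merge (leaf 6 500 564) (leaf 5 500 597)))))))))))))))))))))))))))))) (node 559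 (merge (leaf 7 527 527) (node 659 (merge (node 623 (merge (leaf 5 527 655) (node 658 (merge (leaf 3 623 657) (node 563 (merge (leaf 5 562 690) (node 660 (merge (leaf 4 563 692) (node 531 (merge (leaf 5 530 626) (leaf 4 531 628))))))))))) (merge (node 563 (merge (node 564 (merge (leaf 6 531 532) (node 691 (merge (leaf 6 563 596) (node 692 (merge (leaf 4 563 660) (leaf 4 595 724))))))) (merge (node 594 (merge (leaf 3 559 593) (node 660 (merge (leaf 4 563 692) (node 531 (merge (leaf 4 531 628) (node 626 (merge (leaf 5 498 499) (leaf 5 530 658))))))))) (merge (node 564 (merge (leaf 6 531 532) (node 691 (merge (leaf 6 563 596) (node 594 (merge (leaf 2 560 593) (node 723 (merge (leaf 7 594 626) (node 724 (merge (leaf 4 595 692) (leaf 4 627 756))))))))))) (node 564 (merge (leaf 6 531 532) (node 691 (merge (leaf 6 563 596) (node 594 (merge (leaf 2 560 593) (node 723 (merge (leaf 7 594 626) (node 756 (merge (leaf 4 627 724) (node 755 (merge (leaf 4 659 788) (node 754 (merge (leaf 5 626 722) (leaf 5 658 786))))))))))))))))))) (merge (node 623 (merge (leaf 5 527 655) (node 658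 (merge (leaf 3 623 657) (node 690 (merge (leaf 5 562 563) (node 722 (merge (leaf 6 594 626) (leaf 5 594 691))))))))) (merge (node 563 (merge (node 692 (merge (leaf 4 563 660) (node 691 (merge (leaf 4 595 724) (node 596 (merge (leaf 6 563 564) (node 723 (merge (leaf 6 595 628) (node 722 (merge (leaf 5 594 690) (leaf 5 626 754))))))))))) (merge (node 564 (merge (leaf 6 531 532) (node 691 (merge (leaf 6 563 596) (node 594 (merge (leaf 2 560 593) (node 723 (merge (leaf 7 594 626) (node 724 (merge (leaf 4 595 692) (leaf 4 627 756))))))))))) (merge (node 564 (merge (leaf 6 531 532) (node 691 (merge (leaf 6 563 596) (node 594 (merge (leaf 2 560 593) (node 723 (merge (leaf 7 594 626) (node 756 (merge (leaf 4 627 724) (node 755 (merge (leaf 4 659 788) (node 754 (merge (leaf 5 626 722) (leaf 5 658 786))))))))))))))) (node 660 (merge (leaf 4 563 692) (node 531 (merge (leaf 4 531 628) (node 500 (merge (leaf 6 499 532) (node 499 (merge (leaf 6 467 468) (node 594 (merge (leaf 5 498 626) (node 593 (merge (leaf 3 559 559) (leaf 1 591 623))))))))))))))))) (node 691 (merge (node 724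 (merge (leaf 4 595 692) (node 723 (merge (leaf 4 627 756) (node 722 (merge (leaf 5 594 690) (leaf 5 626 754))))))) (merge (node 596 (merge (leaf 6 563 564) (node 723 (merge (leaf 6 595 628) (node 724 (merge (leaf 4 595 692) (leaf 4 627 756))))))) (merge (node 596 (merge (leaf 6 563 564) (node 723 (merge (leaf 6 595 628) (node 722 (merge (leaf 5 594 690) (leaf 5 626 754))))))) (node 596 (merge (leaf 6 563 564) (node 692 (merge (leaf 4 595 724) (node 658 (merge (leaf 0 656 657) (node 693 (merge (leaf 3 658 694) (node 690 (merge (leaf 5 594 722) (node 725 (merge (leaf 0 690 726) (node 661 (merge (leaf 2 658 662) (node 628 (merge (leaf 7 596 629) (leaf 4 596 660)))))))))))))))))))))))))))))))))))) nP_76 cP_76 13 (by decide +kernel)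
def nP_77 : ℕ := 0x100000001000000090000000100000001000000000000000000000000000000000000000000000000000000000000000000000000000000000000000000000000000000000000000000000000000000000000
def cP_77 : ℕ := 0x40000001c0000001e0000001f0000007c8000007c800000760000007e8000007c8000007f000000ff0000001c000000000000000000000000000000000000000000000000000000000000000000000000000000000000000000000000000000000000
theorem lP_77 : S nP_77 cP_77 13 := S_of_chk [] trivial (node 563 (merge (node 623 (merge (leaf 5 527 655) (node 593 (merge (leaf 1 591 594) (node 561 (merge (leaf 6 560 688) (node 562 (merge (leaf 1 560 564) (leaf 0 560 596))))))))) (merge (node 559 (merge (leaf 7 527 527) (node 593 (merge (leaf 3 559 594) (node 561 (merge (leaf 6 560 688) (node 562 (merge (leaf 1 560 564) (node 531 (merge (leaf 2 527 530) (leaf 2 528 532))))))))))) (merge (node 559 (merge (leaf 7 527 527) (node 593 (merge (leaf 3 559 594) (node 561 (merge (leaf 6 560 688) (node 562 (merge (leaf 0 560 596) (node 531 (merge (leaf 2 527 530) (leaf 2 528 532))))))))))) (merge (node 627 (merge (node 527 (merge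 (leaf 7 527 559) (node 562 (merge (leaf 3 527 561) (node 659 (merge (leaf 7 530 530) (node 691 (merge (leaf 7 562 594) (node 690 (merge (leaf 5 562 658) (leaf 5 594 722))))))))))) (merge (node 527 (merge (leaf 7 527 559) (node 562 (merge (leaf 3 527 561) (node 659 (merge (leaf 7 530 530) (node 564 (merge (leaf 6 531 532) (node 691 (merge (leaf 6 563 596) (node 692 (merge (leaf 4 563 660) (leaf 4 595 724))))))))))))) (merge (node 532 (merge (node 531 (merge (leaf 6 499 500) (node 659 (merge (leaf 6 531 564) (node 658 (merge (leaf 5 530 626) (leaf 5 562 690))))))) (merge (node 531 (merge (leaf 6 499 500) (node 659 (merge (leaf 6 531 564) (node 660 (merge (leaf 4 531 628) (leaf 4 563 692))))))) (merge (node 531 (merge (leaf 6 499 500) (node 628 (merge (leaf 4 531 660) (node 499 (merge (leaf 4 499 596) (node 626 (merge (leaf 5 498 594) (leaf 5 530 658))))))))) (node 659 (merge (leaf 6 531 564) (node 692 (merge (leaf 4 563 660) (node 691 (merge (leaf 4 595 724) (node 690 (merge (leaf 5 562 658) (leaf 5 594 722))))))))))))) (node 559 (merge (leaf 7 527 527) (node 531 (merge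 (node 500 (merge (leaf 6 499 532) (node 499 (merge (leaf 6 467 468) (node 626 (merge (leaf 5 498 594) (leaf 5 530 658))))))) (merge (node 532 (merge (leaf 6 499 500) (node 530 (merge (leaf 7 498 498) (node 562 (merge (leaf 2 528 561) (node 628 (merge (leaf 4 531 660) (node 499 (merge (leaf 4 499 596) (node 467 (merge (leaf 5 434 435) (leaf 5 466 594))))))))))))) (merge (node 498 (merge (leaf 7 498 530) (node 499 (merge (leaf 7 466 466) (node 626 (merge (leaf 5 498 594) (leaf 5 530 658))))))) (merge (node 500 (merge (leaf 6 499 532) (node 499 (merge (leaf 6 467 468) (node 498 (merge (leaf 7 466 466) (leaf 7 498 530))))))) (merge (node 500 (merge (leaf 6 499 532) (node 499 (merge (leaf 6 467 468) (node 626 (merge (leaf 5 498 594) (leaf 5 530 658))))))) (node 532 (merge (leaf 6 499 500) (node 530 (merge (leaf 7 498 498) (node 562 (merge (leaf 2 527 561) (node 533 (merge (leaf 1 530 534) (node 565 (merge (leaf 0 530 566) (node 501 (merge (leaf 2 498 502) (node 628 (merge (leaf 4 531 660) (node 596 (merge (leaf 6 500 564) (leaf 5 500 597))))))))))))))))))))))))))))) (merge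 (node 627 (merge (node 527 (merge (leaf 7 527 559) (node 562 (merge (leaf 3 527 561) (node 659 (merge (leaf 7 530 530) (node 564 (merge (leaf 6 531 532) (node 691 (merge (leaf 6 563 596) (node 690 (merge (leaf 5 562 658) (leaf 5 594 722))))))))))))) (merge (node 659 (merge (node 564 (merge (leaf 6 531 532) (node 691 (merge (leaf 6 563 596) (node 692 (merge (leaf 4 563 660) (leaf 4 595 724))))))) (merge (node 564 (merge (leaf 6 531 532) (node 691 (merge (leaf 6 563 596) (node 690 (merge (leaf 5 562 658) (leaf 5 594 722))))))) (merge (node 660 (merge (leaf 4 563 692) (node 531 (merge (leaf 4 531 628) (node 658 (merge (leaf 5 530 626) (leaf 5 562 690))))))) (node 530 (merge (leaf 7 530 562) (node 531 (merge (leaf 7 498 498) (node 658 (merge (leaf 5 530 626) (leaf 5 562 690))))))))))) (merge (node 527 (merge (leaf 7 527 559) (node 562 (merge (leaf 3 527 561) (node 530 (merge (leaf 7 530 659) (node 498 (merge (leaf 4 466 466) (leaf 7 498 531))))))))) (merge (node 527 (merge (leaf 7 527 559) (node 658 (merge (node 531 (merge (leaf 5 530 626) (node 660 (merge (leaf 4 531 628)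 (node 659 (merge (leaf 5 562 690) (leaf 4 563 692))))))) (merge (node 659 (merge (leaf 5 562 690) (node 564 (merge (leaf 6 531 532) (node 691 (merge (leaf 6 563 596) (node 692 (merge (leaf 4 563 660) (leaf 4 595 724))))))))) (merge (node 531 (merge (leaf 5 530 626) (node 500 (merge (leaf 6 499 532) (node 499 (merge (leaf 6 467 468) (node 628 (merge (leaf 4 499 596) (leaf 4 531 660))))))))) (node 659 (merge (leaf 5 562 690) (node 564 (merge (leaf 6 531 532) (node 691 (merge (leaf 6 563 596) (node 724 (merge (leaf 4 595 692) (node 723 (merge (leaf 4 627 756) (node 755 (merge (leaf 7 626 626) (node 754 (merge (leaf 5 626 722) (leaf 5 658 786))))))))))))))))))))) (merge (node 498 (merge (node 530 (merge (leaf 7 498 531) (node 562 (merge (leaf 4 466 466) (node 561 (merge (leaf 3 527 527) (leaf 0 560 596))))))) (merge (node 531 (merge (leaf 7 498 530) (node 500 (merge (leaf 6 499 532) (node 499 (merge (leaf 7 466 466) (leaf 6 467 468))))))) (node 527 (merge (leaf 7 527 559) (node 561 (merge (leaf 3 527 562) (node 593 (merge (leaf 6 560 688) (node 496 (merge (leaf 4 464 464)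 (node 497 (merge (leaf 6 464 465) (leaf 1 495 499)))))))))))))) (node 527 (merge (leaf 7 527 559) (node 561 (merge (leaf 3 527 562) (node 688 (merge (leaf 6 560 593) (node 689 (merge (leaf 4 592 721) (node 655 (merge (leaf 5 527 623) (node 690 (merge (leaf 3 655 691) (node 659 (merge (leaf 5 562 658) (node 532 (merge (leaf 6 531 564) (node 531 (merge (leaf 6 499 500) (node 660 (merge (leaf 4 531 628) (leaf 4 563 692))))))))))))))))))))))))))) (merge (node 531 (merge (node 559 (merge (leaf 7 527 527) (node 594 (merge (leaf 3 559 593) (node 499 (merge (leaf 5 498 626) (node 498 (merge (leaf 7 466 466) (node 627 (merge (leaf 7 498 530) (node 628 (merge (leaf 4 499 596) (leaf 4 531 660))))))))))))) (merge (node 559 (merge (leaf 7 527 527) (node 594 (merge (leaf 3 559 593) (node 499 (merge (leaf 5 498 626) (node 500 (merge (leaf 6 467 468) (node 627 (merge (leaf 6 499 532) (node 628 (merge (leaf 4 499 596) (leaf 4 531 660))))))))))))) (merge (node 623 (merge (leaf 5 527 655) (node 594 (merge (leaf 1 591 593) (node 626 (merge (leaf 5 498 499) (node 658 (merge (leaf 5 530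 627) (leaf 6 562 690))))))))) (merge (node 559 (merge (leaf 7 527 527) (node 594 (merge (leaf 3 559 593) (node 499 (merge (leaf 5 498 626) (node 468 (merge (leaf 6 467 500) (node 467 (merge (leaf 6 435 436) (node 466 (merge (leaf 7 434 434) (leaf 7 466 498))))))))))))) (merge (node 498 (merge (node 499 (merge (leaf 7 466 466) (node 627 (merge (leaf 7 498 530) (node 628 (merge (leaf 4 499 596) (leaf 4 531 660))))))) (merge (node 627 (merge (leaf 7 498 530) (node 532 (merge (leaf 6 499 500) (node 659 (merge (leaf 6 531 564) (node 658 (merge (leaf 5 530 626) (leaf 5 562 690))))))))) (merge (node 499 (merge (leaf 7 466 466) (node 500 (merge (leaf 6 467 468) (node 627 (merge (leaf 6 499 532) (node 628 (merge (leaf 4 499 596) (leaf 4 531 660))))))))) (node 499 (merge (leaf 7 466 466) (node 500 (merge (leaf 6 467 468) (node 527 (merge (leaf 7 527 559) (node 497 (merge (leaf 1 495 496) (node 533 (merge (leaf 0 497 532) (node 501 (merge (leaf 0 498 534) (node 502 (merge (leaf 1 498 530) (node 470 (merge (leaf 2 466 469) (leaf 2 467 471))))))))))))))))))))) (merge (node 498 (merge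 (node 499 (merge (leaf 7 466 466) (node 627 (merge (leaf 7 498 530) (node 628 (merge (leaf 4 499 596) (leaf 4 531 660))))))) (merge (node 627 (merge (leaf 7 498 530) (node 532 (merge (leaf 6 499 500) (node 659 (merge (leaf 6 531 564) (node 660 (merge (leaf 4 531 628) (leaf 4 563 692))))))))) (merge (node 499 (merge (leaf 7 466 466) (node 500 (merge (leaf 6 467 468) (node 627 (merge (leaf 6 499 532) (node 628 (merge (leaf 4 499 596) (leaf 4 531 660))))))))) (merge (node 499 (merge (leaf 7 466 466) (node 500 (merge (leaf 6 467 468) (node 527 (merge (leaf 7 527 559) (node 497 (merge (leaf 1 495 496) (node 533 (merge (leaf 0 497 532) (node 501 (merge (leaf 0 498 534) (node 502 (merge (leaf 1 498 530) (node 470 (merge (leaf 2 466 469) (leaf 2 467 471))))))))))))))))) (node 466 (merge (leaf 7 466 499) (node 530 (merge (leaf 4 466 562) (leaf 7 498 627)))))))))) (node 627 (merge (node 530 (merge (leaf 7 498 498) (node 659 (merge (leaf 7 530 562) (node 660 (merge (leaf 4 531 628) (leaf 4 563 692))))))) (merge (node 532 (merge (leaf 6 499 500) (node 659 (merge (leaf 6 531 564)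 (node 658 (merge (leaf 5 530 626) (leaf 5 562 690))))))) (node 532 (merge (leaf 6 499 500) (node 628 (merge (leaf 4 531 660) (node 594 (merge (leaf 0 592 593) (node 629 (merge (leaf 3 594 630) (node 626 (merge (leaf 5 530 658) (node 661 (merge (leaf 0 626 662) (node 597 (merge (leaf 2 594 598) (node 564 (merge (leaf 7 532 565) (leaf 4 532 596))))))))))))))))))))))))))) (node 531 (merge (node 559 (merge (leaf 7 527 527) (node 594 (merge (leaf 3 559 593) (node 499 (merge (leaf 5 498 626) (node 498 (merge (leaf 7 466 466) (node 627 (merge (leaf 7 498 530) (node 628 (merge (leaf 4 499 596) (leaf 4 531 660))))))))))))) (merge (node 559 (merge (leaf 7 527 527) (node 594 (merge (leaf 3 559 593) (node 499 (merge (leaf 5 498 626) (node 500 (merge (leaf 6 467 468) (node 627 (merge (leaf 6 499 532) (node 628 (merge (leaf 4 499 596) (leaf 4 531 660))))))))))))) (merge (node 623 (merge (leaf 5 527 655) (node 594 (merge (leaf 1 591 593) (node 626 (merge (leaf 5 498 499) (node 658 (merge (leaf 5 530 627) (leaf 6 562 690))))))))) (merge (node 559 (merge (leaf 7 527 527) (node 594 (merge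 (leaf 3 559 593) (node 499 (merge (leaf 5 498 626) (node 468 (merge (leaf 6 467 500) (node 467 (merge (leaf 6 435 436) (node 466 (merge (leaf 7 434 434) (leaf 7 466 498))))))))))))) (merge (node 498 (merge (node 499 (merge (leaf 7 466 466) (node 627 (merge (leaf 7 498 530) (node 628 (merge (leaf 4 499 596) (leaf 4 531 660))))))) (merge (node 627 (merge (leaf 7 498 530) (node 532 (merge (leaf 6 499 500) (node 659 (merge (leaf 6 531 564) (node 658 (merge (leaf 5 530 626) (leaf 5 562 690))))))))) (merge (node 499 (merge (leaf 7 466 466) (node 500 (merge (leaf 6 467 468) (node 627 (merge (leaf 6 499 532) (node 628 (merge (leaf 4 499 596) (leaf 4 531 660))))))))) (node 499 (merge (leaf 7 466 466) (node 500 (merge (leaf 6 467 468) (node 527 (merge (leaf 7 527 559) (node 497 (merge (leaf 1 495 496) (node 533 (merge (leaf 0 497 532) (node 501 (merge (leaf 0 498 534) (node 502 (merge (leaf 1 498 530) (node 470 (merge (leaf 2 466 469) (leaf 2 467 471))))))))))))))))))))) (merge (node 498 (merge (node 499 (merge (leaf 7 466 466) (node 627 (merge (leaf 7 498 530) (node 628 (merge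 (leaf 4 499 596) (leaf 4 531 660))))))) (merge (node 627 (merge (leaf 7 498 530) (node 532 (merge (leaf 6 499 500) (node 659 (merge (leaf 6 531 564) (node 660 (merge (leaf 4 531 628) (leaf 4 563 692))))))))) (merge (node 499 (merge (leaf 7 466 466) (node 559 (merge (leaf 7 527 527) (node 593 (merge (leaf 3 559 594) (node 561 (merge (leaf 6 560 688) (node 496 (merge (leaf 4 464 464) (node 497 (merge (leaf 6 464 465) (leaf 0 496 532))))))))))))) (node 499 (merge (leaf 7 466 466) (node 627 (merge (leaf 7 498 530) (node 532 (merge (leaf 6 499 500) (node 496 (merge (leaf 0 496 497) (node 564 (merge (leaf 6 531 659) (node 593 (merge (leaf 2 560 594) (node 561 (merge (leaf 4 464 464) (leaf 6 560 688))))))))))))))))))) (node 627 (merge (node 532 (merge (leaf 6 499 500) (node 659 (merge (leaf 6 531 564) (node 660 (merge (leaf 4 531 628) (leaf 4 563 692))))))) (merge (node 559 (merge (leaf 7 527 527) (node 593 (merge (leaf 3 559 594) (node 688 (merge (leaf 6 560 561) (node 689 (merge (leaf 4 592 721) (node 655 (merge (leaf 5 527 623) (node 690 (merge (leaf 3 655 691) (node 658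 (merge (leaf 5 562 659) (node 626 (merge (leaf 5 530 531) (leaf 6 594 722))))))))))))))))) (node 532 (merge (leaf 6 499 500) (node 628 (merge (leaf 4 531 660) (node 594 (merge (leaf 0 592 593) (node 629 (merge (leaf 3 594 630) (node 626 (merge (leaf 5 530 658) (node 661 (merge (leaf 0 626 662) (node 597 (merge (leaf 2 594 598) (node 564 (merge (leaf 7 532 565) (leaf 4 532 596)))))))))))))))))))))))))))))))))) nP_77 cP_77 13 (by decide +kernel)
def nP_78 : ℕ := 0x100000001000000010000000100000001000000000000000000000000000000000000000000000000000000000000000000000000000000000000000000000000000000000000000000000000000000000000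
def cP_78 : ℕ := 0x140000003c0000007f000001ff000000fe800001fc800001fe0000007e8000007c8000007f000000ff0000001c000000100000000000000000000000000000000000000000000000000000000000000000000000000000000000000000000000000000
theorem lP_78 : S nP_78 cP_78 14 := S_of_chk [(nP_75, cP_75, 13), (nP_76, cP_76, 13), (nP_77, cP_77, 13)] ⟨lP_75, lP_76, lP_77, trivial⟩ (node 595 (merge (node 559 (merge (leaf 7 527 527) (node 593 (merge (leaf 3 559 594) (node 688 (merge (leaf 6 560 561) (node 689 (merge (leaf 4 560 657) (leaf 4 592 721))))))))) (merge (node 559 (merge (leaf 7 527 527) (node 594 (merge (leaf 3 559 593) (node 562 (merge (leaf 0 559 561) (node 657 (merge (leaf 4 560 689) (node 623 (merge (leaf 5 527 655) (node 659 (merge (leaf 3 623 658) (node 627 (merge (leaf 7 562 691) (node 530 (merge (leaf 7 530 563) (leaf 4 530 626))))))))))))))))) (merge (node 689 (merge (leaf 4 560 657) (node 688 (merge (leaf 4 592 721) (node 593 (merge (leaf 6 560 561) (node 594 (merge (leaf 1 591 623) (node 628 (merge (leaf 0 592 627) (node 596 (merge (leaf 0 593 629) (node 564 (merge (leaf 2 560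 563) (leaf 2 561 565))))))))))))))) (merge (node 659 (merge (node 657 (merge (leaf 4 560 689) (node 623 (merge (leaf 5 527 655) (leaf 3 623 658))))) (merge (node 562 (merge (node 559 (merge (leaf 7 527 527) (node 561 (merge (leaf 0 559 594) (node 563 (merge (leaf 0 560 596) (node 531 (merge (leaf 2 527 530) (leaf 2 528 532))))))))) (merge (node 559 (merge (leaf 7 527 527) (node 594 (merge (leaf 0 559 561) (node 627 (merge (leaf 7 562 691) (node 530 (merge (leaf 4 498 498) (leaf 4 530 626))))))))) (merge (node 527 (merge (leaf 7 527 559) (node 563 (merge (leaf 3 527 561) (node 627 (merge (leaf 7 530 530) (node 564 (merge (leaf 6 531 532) (node 691 (merge (leaf 6 563 596) (node 690 (merge (leaf 5 562 658) (leaf 5 594 722))))))))))))) (merge (node 559 (merge (leaf 7 527 527) (node 561 (merge (leaf 0 559 594) (node 563 (merge (leaf 0 560 596) (node 532 (merge (leaf 2 528 531) (node 627 (merge (leaf 6 531 564) (node 692 (merge (leaf 4 563 660) (node 691 (merge (leaf 4 595 724) (node 690 (merge (leaf 5 562 658) (leaf 5 594 722))))))))))))))))) (node 627 (merge (node 563 (merge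 (leaf 7 530 530) (node 691 (merge (leaf 7 562 594) (node 690 (merge (leaf 5 562 658) (leaf 5 594 722))))))) (merge (node 691 (merge (leaf 7 562 594) (node 596 (merge (leaf 6 563 564) (node 723 (merge (leaf 6 595 628) (node 724 (merge (leaf 4 595 692) (leaf 4 627 756))))))))) (node 563 (merge (leaf 7 530 530) (node 532 (merge (leaf 6 531 564) (node 531 (merge (leaf 6 499 500) (node 658 (merge (leaf 5 530 626) (leaf 5 562 690))))))))))))))))) (node 562 (merge (node 559 (merge (leaf 7 527 527) (node 561 (merge (leaf 0 559 594) (node 563 (merge (leaf 0 560 596) (node 531 (merge (leaf 2 527 530) (leaf 2 528 532))))))))) (merge (node 559 (merge (leaf 7 527 527) (node 594 (merge (leaf 0 559 561) (node 627 (merge (leaf 7 562 691) (node 530 (merge (leaf 4 498 498) (leaf 4 530 626))))))))) (merge (node 527 (merge (leaf 7 527 559) (node 563 (merge (leaf 3 527 561) (node 627 (merge (leaf 7 530 530) (node 564 (merge (leaf 6 531 532) (node 691 (merge (leaf 6 563 596) (node 692 (merge (leaf 4 563 660) (leaf 4 595 724))))))))))))) (node 689 (merge (leaf 4 560 657) (node 688 (merge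 (leaf 4 592 721) (node 655 (merge (leaf 5 527 623) (node 691 (merge (leaf 3 655 690) (node 627 (merge (leaf 7 562 594) (node 596 (merge (leaf 6 563 564) (node 723 (merge (leaf 6 595 628) (node 724 (merge (leaf 4 595 692) (leaf 4 627 756)))))))))))))))))))))))) (merge (hyp 0) (merge (hyp 1) (merge (node 527 (merge (leaf 7 527 559) (node 563 (merge (node 561 (merge (leaf 3 527 562) (node 688 (merge (leaf 6 560 593) (node 689 (merge (leaf 4 560 657) (leaf 4 592 721))))))) (merge (node 562 (merge (leaf 3 527 561) (node 657 (merge (leaf 4 560 689) (node 623 (merge (leaf 5 527 655) (node 659 (merge (leaf 3 623 658) (node 627 (merge (leaf 7 530 530) (node 564 (merge (leaf 6 531 532) (node 691 (merge (leaf 6 563 596) (node 692 (merge (leaf 4 563 660) (leaf 4 595 724))))))))))))))))) (merge (node 659 (merge (node 657 (merge (leaf 4 560 689) (node 623 (merge (leaf 5 527 655) (leaf 3 623 658))))) (merge (node 627 (merge (node 564 (merge (leaf 6 531 532) (node 691 (merge (leaf 6 563 596) (node 692 (merge (leaf 4 563 660) (leaf 4 595 724))))))) (merge (node 564 (merge (leaf 6 531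 532) (node 691 (merge (leaf 6 563 596) (node 690 (merge (leaf 5 562 658) (leaf 5 594 722))))))) (merge (node 660 (merge (leaf 4 563 692) (node 531 (merge (leaf 4 531 628) (node 658 (merge (leaf 5 530 626) (leaf 5 562 690))))))) (node 692 (merge (leaf 4 563 660) (node 691 (merge (leaf 4 595 724) (node 596 (merge (leaf 6 563 564) (node 723 (merge (leaf 6 595 628) (node 722 (merge (leaf 5 594 690) (leaf 5 626 754))))))))))))))) (node 691 (merge (node 689 (merge (leaf 4 560 657) (node 688 (merge (leaf 4 592 721) (node 690 (merge (leaf 3 655 655) (leaf 2 656 660))))))) (merge (node 627 (merge (node 692 (merge (leaf 4 563 660) (leaf 4 595 724))) (merge (node 596 (merge (leaf 6 563 564) (node 723 (merge (leaf 6 595 628) (node 724 (merge (leaf 4 595 692) (leaf 4 627 756))))))) (node 596 (merge (leaf 6 563 564) (node 723 (merge (leaf 6 595 628) (node 722 (merge (leaf 5 594 690) (leaf 5 626 754)))))))))) (merge (node 689 (merge (leaf 4 560 657) (node 655 (merge (leaf 5 527 623) (node 690 (merge (leaf 3 655 688) (node 627 (merge (leaf 5 594 722) (node 596 (merge (leaf 6 563 564)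 (node 723 (merge (leaf 6 595 628) (node 724 (merge (leaf 4 595 692) (leaf 4 627 756))))))))))))))) (node 627 (merge (node 692 (merge (leaf 4 563 660) (leaf 4 595 724))) (merge (node 596 (merge (leaf 6 563 564) (node 723 (merge (leaf 6 595 628) (node 689 (merge (leaf 4 560 657) (node 692 (merge (leaf 4 563 660) (node 721 (merge (leaf 4 592 688) (node 722 (merge (leaf 2 688 720) (leaf 5 626 754))))))))))))) (node 596 (merge (leaf 6 563 564) (node 723 (merge (leaf 6 595 628) (node 689 (merge (leaf 4 560 657) (node 721 (merge (leaf 4 592 688) (node 756 (merge (leaf 4 627 724) (node 755 (merge (leaf 4 659 788) (node 722 (merge (leaf 0 720 720) (leaf 5 626 754))))))))))))))))))))))))) (merge (node 627 (merge (node 562 (merge (leaf 3 527 561) (node 659 (merge (leaf 7 530 530) (node 564 (merge (leaf 6 531 532) (node 691 (merge (leaf 6 563 596) (node 690 (merge (leaf 5 562 658) (leaf 5 594 722))))))))))) (merge (node 562 (merge (leaf 3 527 561) (node 530 (merge (leaf 7 530 659) (node 498 (merge (leaf 4 466 466) (leaf 7 498 531))))))) (merge (node 561 (merge (leaf 3 527 562)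 (node 688 (merge (leaf 6 560 593) (node 689 (merge (leaf 4 592 721) (node 655 (merge (leaf 5 527 623) (node 690 (merge (leaf 3 655 691) (node 659 (merge (leaf 5 562 658) (node 532 (merge (leaf 6 531 564) (node 531 (merge (leaf 6 499 500) (node 660 (merge (leaf 4 531 628) (leaf 4 563 692))))))))))))))))))) (merge (node 498 (merge (node 530 (merge (leaf 7 498 531) (node 562 (merge (leaf 4 466 466) (node 561 (merge (leaf 3 527 527) (leaf 0 560 596))))))) (merge (node 531 (merge (leaf 7 498 530) (node 500 (merge (leaf 6 499 532) (node 499 (merge (leaf 7 466 466) (leaf 6 467 468))))))) (node 561 (merge (leaf 3 527 562) (node 593 (merge (leaf 6 560 688) (node 496 (merge (leaf 4 464 464) (node 497 (merge (leaf 6 464 465) (leaf 1 495 499)))))))))))) (node 658 (merge (node 531 (merge (leaf 5 530 626) (node 660 (merge (leaf 4 531 628) (node 659 (merge (leaf 5 562 690) (leaf 4 563 692))))))) (merge (node 659 (merge (leaf 5 562 690) (node 564 (merge (leaf 6 531 532) (node 691 (merge (leaf 6 563 596) (node 692 (merge (leaf 4 563 660) (leaf 4 595 724))))))))) (merge (node 531 (merge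 (leaf 5 530 626) (node 500 (merge (leaf 6 499 532) (node 499 (merge (leaf 6 467 468) (node 628 (merge (leaf 4 499 596) (leaf 4 531 660))))))))) (node 659 (merge (leaf 5 562 690) (node 564 (merge (leaf 6 531 532) (node 691 (merge (leaf 6 563 596) (node 724 (merge (leaf 4 595 692) (node 723 (merge (leaf 4 627 756) (node 755 (merge (leaf 7 626 626) (node 754 (merge (leaf 5 626 722) (leaf 5 658 786)))))))))))))))))))))))) (node 531 (merge (node 623 (merge (leaf 5 527 655) (node 561 (merge (leaf 3 527 562) (node 593 (merge (leaf 6 560 688) (node 496 (merge (leaf 4 464 464) (node 497 (merge (leaf 6 464 465) (node 498 (merge (leaf 1 495 499) (node 627 (merge (leaf 7 498 530) (node 658 (merge (leaf 5 530 626) (node 659 (merge (leaf 3 623 657) (leaf 5 562 690))))))))))))))))))) (merge (node 627 (merge (node 530 (merge (leaf 7 498 498) (node 659 (merge (leaf 7 530 562) (node 660 (merge (leaf 4 531 628) (leaf 4 563 692))))))) (merge (node 532 (merge (leaf 6 499 500) (node 659 (merge (leaf 6 531 564) (node 658 (merge (leaf 5 530 626) (leaf 5 562 690))))))) (node 532 (merge (leaf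 6 499 500) (node 530 (merge (leaf 7 498 498) (node 562 (merge (leaf 2 528 561) (node 533 (merge (leaf 1 530 534) (node 565 (merge (leaf 0 530 566) (node 501 (merge (leaf 2 498 502) (node 628 (merge (leaf 4 531 660) (node 596 (merge (leaf 6 500 564) (leaf 5 500 597)))))))))))))))))))) (merge (node 498 (merge (node 499 (merge (leaf 7 466 466) (node 627 (merge (leaf 7 498 530) (node 628 (merge (leaf 4 499 596) (leaf 4 531 660))))))) (merge (node 627 (merge (leaf 7 498 530) (node 532 (merge (leaf 6 499 500) (node 659 (merge (leaf 6 531 564) (node 658 (merge (leaf 5 530 626) (leaf 5 562 690))))))))) (merge (node 499 (merge (leaf 7 466 466) (node 500 (merge (leaf 6 467 468) (node 627 (merge (leaf 6 499 532) (node 628 (merge (leaf 4 499 596) (leaf 4 531 660))))))))) (node 499 (merge (leaf 7 466 466) (node 500 (merge (leaf 6 467 468) (node 497 (merge (leaf 1 495 496) (node 533 (merge (leaf 0 497 532) (node 501 (merge (leaf 0 498 534) (node 502 (merge (leaf 1 498 530) (node 470 (merge (leaf 2 466 469) (leaf 2 467 471))))))))))))))))))) (merge (node 561 (merge (leaf 3 527 562)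 (node 593 (merge (leaf 6 560 688) (node 496 (merge (leaf 4 464 464) (node 497 (merge (leaf 6 464 465) (node 499 (merge (leaf 1 495 498) (node 468 (merge (leaf 6 467 500) (node 467 (merge (leaf 6 435 436) (node 596 (merge (leaf 4 467 564) (leaf 4 499 628))))))))))))))))) (node 623 (merge (leaf 5 527 655) (node 499 (merge (node 500 (merge (leaf 6 467 468) (node 627 (merge (leaf 6 499 532) (node 658 (merge (leaf 5 530 626) (node 659 (merge (leaf 3 623 657) (leaf 5 562 690))))))))) (merge (node 562 (merge (leaf 3 527 561) (node 596 (merge (leaf 4 499 628) (node 467 (merge (leaf 4 467 564) (node 436 (merge (leaf 6 435 468) (node 435 (merge (leaf 6 403 404) (leaf 5 434 530))))))))))) (node 561 (merge (leaf 3 527 562) (node 628 (merge (leaf 4 499 596) (node 627 (merge (leaf 4 531 660) (node 532 (merge (leaf 6 499 500) (node 659 (merge (leaf 6 531 564) (node 658 (merge (leaf 5 530 626) (leaf 2 624 657)))))))))))))))))))))))))))))) (hyp 2))))))))) nP_78 cP_78 14 (by decide +kernel)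
def nP_79 : ℕ := 0x1c0000000000000010000000100000001000000000000000000000000000000000000000000000000000000000000000000000000000000000000000000000000000000000000000000000000000000000000
def cP_79 : ℕ := 0xa0000000e0000000e000000ef800000e0000001c6000000ef800000ef000001ca00000000000000000000000000000000000000000000000000000000000000000000000000000000000000000000000000000000000000000000000000000000000
theorem lP_79 : S nP_79 cP_79 14 := S_of_chk [] trivial (node 622 (merge (node 657 (merge (leaf 3 621 621) (node 690 (merge (leaf 0 654 689) (node 658 (merge (leaf 0 655 691) (node 686 (merge (leaf 1 653 685) (leaf 1 654 687))))))))) (merge (node 593 (merge (node 621 (merge (leaf 3 621 657) (node 590 (merge (leaf 1 589 591) (node 558 (merge (leaf 4 558 687) (node 557 (merge (leaf 7 525 525) (leaf 0 557 559))))))))) (merge (node 657 (merge (leaf 3 621 621) (node 690 (merge (leaf 0 654 689) (node 658 (merge (leaf 0 655 691) (node 626 (merge (leaf 2 623 627) (node 594 (merge (leaf 7 561 561) (node 595 (merge (leaf 3 559 559) (leaf 6 562 563))))))))))))) (merge (node 657 (merge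 (leaf 3 621 621) (node 690 (merge (leaf 0 654 689) (node 658 (merge (leaf 0 655 691) (node 626 (merge (leaf 2 623 627) (node 594 (merge (leaf 7 561 561) (node 563 (merge (leaf 6 562 595) (node 562 (merge (leaf 6 530 531) (leaf 2 559 591))))))))))))))) (node 558 (merge (node 559 (merge (leaf 0 557 557) (node 594 (merge (leaf 0 558 561) (leaf 3 558 591))))) (merge (node 590 (merge (leaf 4 558 687) (node 559 (merge (leaf 6 526 527) (node 557 (merge (leaf 7 525 525) (leaf 0 557 593))))))) (merge (node 590 (merge (leaf 4 558 687) (node 557 (merge (leaf 7 525 525) (node 591 (merge (leaf 3 557 593) (node 589 (merge (leaf 3 556 556) (leaf 2 557 561))))))))) (node 590 (merge (leaf 4 558 687) (node 559 (merge (leaf 6 526 527) (node 561 (merge (leaf 1 557 589) (node 594 (merge (leaf 0 558 593) (node 562 (merge (leaf 1 558 591) (leaf 0 559 595))))))))))))))))))) (merge (node 686 (merge (node 685 (merge (leaf 1 653 657) (node 684 (merge (leaf 2 651 683) (leaf 2 652 687))))) (merge (node 685 (merge (leaf 1 653 657) (node 590 (merge (leaf 5 589 717) (node 591 (merge (leaf 6 558 559)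 (node 589 (merge (leaf 7 557 557) (leaf 2 557 561))))))))) (node 590 (merge (node 591 (merge (leaf 6 558 559) (node 589 (merge (leaf 7 557 557) (leaf 2 557 561))))) (merge (node 558 (merge (leaf 4 558 687) (node 559 (merge (leaf 6 526 527) (node 557 (merge (leaf 7 525 525) (leaf 0 557 593))))))) (merge (node 558 (merge (leaf 4 558 687) (node 557 (merge (leaf 7 525 525) (node 591 (merge (leaf 3 557 593) (node 589 (merge (leaf 3 556 556) (leaf 2 557 561))))))))) (node 558 (merge (leaf 4 558 687) (node 559 (merge (leaf 6 526 527) (node 561 (merge (leaf 1 557 589) (node 594 (merge (leaf 0 558 593) (node 562 (merge (leaf 1 558 591) (leaf 0 559 595)))))))))))))))))) (merge (node 590 (merge (node 558 (merge (leaf 4 558 687) (node 559 (merge (leaf 6 526 527) (node 557 (merge (leaf 7 525 525) (leaf 0 557 593))))))) (merge (node 558 (merge (leaf 4 558 687) (node 559 (merge (leaf 6 526 527) (node 686 (merge (leaf 6 558 591) (node 589 (merge (leaf 7 557 557) (leaf 1 557 561))))))))) (merge (node 558 (merge (leaf 4 558 687) (node 557 (merge (leaf 7 525 525) (node 591 (merge (leaf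 3 557 593) (node 589 (merge (leaf 3 556 556) (leaf 2 557 561))))))))) (merge (node 589 (merge (node 686 (merge (leaf 7 557 557) (node 718 (merge (leaf 7 589 621) (node 717 (merge (leaf 5 589 685) (leaf 5 621 749))))))) (merge (node 591 (merge (leaf 2 557 561) (node 686 (merge (leaf 6 558 559) (node 718 (merge (leaf 7 589 621) (node 717 (merge (leaf 5 589 685) (leaf 5 621 749))))))))) (node 591 (merge (leaf 2 557 561) (node 557 (merge (leaf 3 556 556) (node 558 (merge (leaf 7 525 525) (leaf 3 557 593)))))))))) (merge (node 686 (merge (node 591 (merge (leaf 6 558 559) (node 589 (merge (leaf 7 557 557) (leaf 2 557 561))))) (merge (node 589 (merge (leaf 7 557 557) (node 718 (merge (leaf 7 589 621) (node 717 (merge (leaf 5 589 685) (leaf 5 621 749))))))) (node 685 (merge (leaf 5 589 717) (node 684 (merge (leaf 2 651 683) (leaf 2 652 687)))))))) (node 558 (merge (leaf 4 558 687) (node 559 (merge (leaf 6 526 527) (node 561 (merge (leaf 1 557 589) (node 594 (merge (leaf 0 558 593) (node 562 (merge (leaf 1 558 591) (leaf 0 559 595))))))))))))))))) (node 559 (merge (node 686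 (merge (node 657 (merge (leaf 3 621 621) (leaf 1 653 685))) (merge (node 590 (merge (leaf 6 558 591) (node 685 (merge (leaf 1 653 657) (leaf 5 589 717))))) (node 590 (merge (leaf 6 558 591) (node 589 (merge (leaf 7 557 557) (node 718 (merge (leaf 7 589 621) (node 751 (merge (leaf 4 622 719) (node 750 (merge (leaf 4 654 783) (node 749 (merge (leaf 5 621 717) (leaf 5 653 781)))))))))))))))) (merge (node 558 (merge (node 557 (merge (leaf 0 557 593) (node 590 (merge (leaf 7 525 525) (leaf 6 526 527))))) (merge (node 590 (merge (leaf 6 526 527) (node 686 (merge (leaf 6 558 591) (node 685 (merge (leaf 1 653 657) (leaf 5 589 717))))))) (merge (node 557 (merge (leaf 0 557 593) (node 590 (merge (leaf 7 525 525) (node 686 (merge (leaf 7 557 589) (leaf 6 558 591))))))) (node 557 (merge (leaf 0 557 593) (node 556 (merge (leaf 2 524 527) (leaf 0 556 591))))))))) (merge (node 590 (merge (node 558 (merge (leaf 6 526 527) (node 557 (merge (leaf 7 525 525) (leaf 0 557 593))))) (merge (node 686 (merge (leaf 6 558 591) (node 589 (merge (leaf 7 557 557) (node 718 (merge (leaf 7 589 621)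 (node 717 (merge (leaf 5 589 685) (leaf 5 621 749))))))))) (node 558 (merge (leaf 6 526 527) (node 561 (merge (leaf 1 557 589) (node 594 (merge (leaf 0 558 593) (node 562 (merge (leaf 1 558 591) (leaf 0 559 595)))))))))))) (merge (node 657 (merge (leaf 3 621 621) (node 690 (merge (leaf 0 654 689) (node 658 (merge (leaf 0 655 691) (node 627 (merge (leaf 2 623 626) (node 659 (merge (leaf 2 624 628) (node 595 (merge (leaf 5 562 563) (node 593 (merge (leaf 3 559 594) (node 558 (merge (leaf 0 557 557) (node 590 (merge (leaf 6 526 527) (node 589 (merge (leaf 1 557 561) (node 588 (merge (leaf 2 555 587) (leaf 2 556 591))))))))))))))))))))))) (merge (node 594 (merge (node 593 (merge (leaf 3 559 595) (node 558 (merge (leaf 0 557 557) (leaf 0 558 561))))) (merge (node 595 (merge (leaf 3 559 593) (node 657 (merge (leaf 3 621 621) (node 690 (merge (leaf 0 654 689) (node 658 (merge (leaf 0 655 691) (node 626 (merge (leaf 6 562 563) (leaf 2 623 627))))))))))) (merge (node 657 (merge (leaf 3 621 621) (node 690 (merge (leaf 0 654 689) (node 658 (merge (leaf 0 655 691) (node 626 (merge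 (leaf 2 623 627) (node 593 (merge (leaf 7 561 561) (node 558 (merge (leaf 0 557 557) (leaf 3 558 591))))))))))))) (node 657 (merge (leaf 3 621 621) (node 690 (merge (leaf 0 654 689) (node 658 (merge (leaf 0 655 691) (node 626 (merge (leaf 2 623 627) (node 563 (merge (leaf 6 562 595) (node 562 (merge (leaf 6 530 531) (node 561 (merge (leaf 3 527 527) (leaf 1 559 591))))))))))))))))))) (merge (node 657 (merge (leaf 3 621 621) (node 690 (merge (leaf 0 654 689) (node 658 (merge (leaf 0 655 691) (node 686 (merge (leaf 1 653 685) (node 590 (merge (leaf 6 558 591) (node 558 (merge (leaf 6 526 527) (node 561 (merge (leaf 1 557 589) (node 594 (merge (leaf 0 558 593) (node 595 (merge (leaf 0 559 562) (node 626 (merge (leaf 6 562 563) (leaf 2 623 627))))))))))))))))))))) (node 561 (merge (node 594 (merge (node 595 (merge (leaf 0 559 562) (leaf 3 559 593))) (merge (node 558 (merge (leaf 0 558 593) (node 590 (merge (leaf 6 526 527) (leaf 1 557 589))))) (node 562 (merge (leaf 0 559 595) (node 531 (merge (leaf 2 527 530) (node 563 (merge (leaf 3 527 527) (leaf 2 528 532))))))))))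 (merge (node 657 (merge (leaf 3 621 621) (node 690 (merge (leaf 0 654 689) (node 658 (merge (leaf 0 655 691) (node 626 (merge (leaf 2 623 627) (node 594 (merge (leaf 7 561 593) (node 595 (merge (leaf 0 559 562) (leaf 6 562 563))))))))))))) (merge (node 657 (merge (leaf 3 621 621) (node 690 (merge (leaf 0 654 689) (node 658 (merge (leaf 0 655 691) (node 626 (merge (leaf 2 623 627) (node 593 (merge (leaf 7 561 594) (node 558 (merge (leaf 0 557 557) (node 590 (merge (leaf 6 526 527) (leaf 1 557 589))))))))))))))) (node 657 (merge (leaf 3 621 621) (node 690 (merge (leaf 0 654 689) (node 658 (merge (leaf 0 655 691) (node 627 (merge (leaf 2 623 626) (node 659 (merge (leaf 2 624 628) (node 563 (merge (leaf 5 562 595) (node 562 (merge (leaf 3 527 527) (node 531 (merge (leaf 2 527 530) (leaf 2 528 532))))))))))))))))))))))))))))))))) nP_79 cP_79 14 (by decide +kernel)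
def nP_80 : ℕ := 0x180000000000000010000000100000001000000000000000000000000000000000000000000000000000000000000000000000000000000000000000000000000000000000000000000000000000000000000
def cP_80 : ℕ := 0xa0000002e0000002e000001ffc00000e7c00001c7e00000ef800000ef000001cf00000000000000000000000000000000000000000000000000000000000000000000000000000000000000000000000000000000000000000000000000000000000
theorem lP_80 : S nP_80 cP_80 15 := S_of_chk [(nP_79, cP_79, 14)] ⟨lP_79, trivial⟩ (node 654 (merge (node 653 (merge (node 684 (merge (leaf 1 652 685) (node 652 (merge (leaf 1 651 683) (node 620 (merge (leaf 3 619 619) (leaf 3 620 621))))))) (merge (node 689 (merge (leaf 0 653 688) (node 657 (merge (leaf 0 654 690) (node 621 (merge (leaf 3 620 620) (leaf 3 621 622))))))) (node 689 (merge (leaf 0 653 688) (node 657 (merge (leaf 0 654 690) (node 685 (merge (leaf 1 652 684) (leaf 1 653 686)))))))))) (merge (node 653 (merge (node 684 (merge (leaf 1 652 685) (node 652 (merge (leaf 1 651 683) (node 620 (merge (leaf 3 619 619) (leaf 3 620 621))))))) (merge (node 689 (merge (leaf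 0 653 688) (node 657 (merge (leaf 0 654 690) (node 621 (merge (leaf 3 620 620) (leaf 3 621 622))))))) (node 688 (merge (leaf 0 653 689) (node 652 (merge (leaf 0 652 687) (node 684 (merge (leaf 1 651 683) (leaf 1 652 685)))))))))) (merge (node 657 (merge (node 689 (merge (leaf 0 654 690) (node 653 (merge (leaf 0 653 688) (node 621 (merge (leaf 3 620 620) (leaf 3 621 622))))))) (merge (node 621 (merge (leaf 3 621 622) (node 653 (merge (leaf 3 620 620) (node 688 (merge (leaf 0 653 689) (node 687 (merge (leaf 0 652 652) (node 658 (merge (leaf 1 655 659) (leaf 1 654 686))))))))))) (node 686 (merge (leaf 1 653 685) (node 658 (merge (leaf 1 654 687) (node 691 (merge (leaf 0 655 690) (node 659 (merge (leaf 0 656 692) (node 627 (merge (leaf 2 623 626) (leaf 2 624 628)))))))))))))) (merge (node 653 (merge (node 688 (merge (leaf 0 653 689) (node 652 (merge (leaf 0 652 687) (node 620 (merge (leaf 3 619 619) (leaf 3 620 621))))))) (merge (node 688 (merge (leaf 0 653 689) (node 652 (merge (leaf 0 652 687) (node 684 (merge (leaf 1 651 683) (leaf 1 652 685))))))) (node 685 (merge (leaf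 1 652 684) (node 590 (merge (node 622 (merge (leaf 5 557 558) (node 717 (merge (leaf 5 589 686) (leaf 6 621 749))))) (merge (node 621 (merge (leaf 3 620 620) (node 589 (merge (leaf 6 557 558) (node 588 (merge (leaf 7 556 556) (node 591 (merge (leaf 2 556 559) (leaf 2 557 561))))))))) (node 621 (merge (leaf 3 620 620) (node 717 (merge (leaf 6 589 622) (node 718 (merge (leaf 4 621 750) (node 589 (merge (leaf 4 589 686) (node 588 (merge (leaf 7 556 556) (node 591 (merge (leaf 2 556 559) (leaf 2 557 561))))))))))))))))))))) (merge (node 657 (merge (node 689 (merge (leaf 0 654 690) (node 653 (merge (leaf 0 653 688) (node 684 (merge (leaf 1 652 685) (node 652 (merge (leaf 1 651 683) (node 620 (merge (leaf 3 619 619) (leaf 3 620 621))))))))))) (merge (node 685 (merge (leaf 1 653 686) (node 653 (merge (leaf 1 652 684) (node 688 (merge (leaf 0 653 689) (node 652 (merge (leaf 0 652 687) (node 620 (merge (leaf 3 619 619) (leaf 3 620 621))))))))))) (merge (node 686 (merge (leaf 1 653 685) (node 658 (merge (leaf 1 654 687) (node 691 (merge (leaf 0 655 690) (node 659 (merge (leaf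 0 656 692) (node 627 (merge (leaf 2 623 626) (leaf 2 624 628))))))))))) (node 658 (merge (node 687 (merge (leaf 1 654 686) (node 659 (merge (leaf 1 655 688) (node 627 (merge (leaf 2 623 626) (leaf 2 624 628))))))) (merge (node 691 (merge (leaf 0 655 690) (node 659 (merge (leaf 0 656 692) (node 627 (merge (leaf 2 623 626) (leaf 2 624 628))))))) (merge (node 691 (merge (leaf 0 655 690) (node 659 (merge (leaf 0 656 692) (node 687 (merge (leaf 1 654 686) (leaf 1 655 688))))))) (node 690 (merge (leaf 0 655 691) (node 689 (merge (leaf 0 654 654) (node 626 (merge (leaf 2 623 627) (node 721 (merge (leaf 5 593 594) (leaf 6 625 753))))))))))))))))) (merge (node 621 (merge (node 620 (merge (leaf 3 620 653) (node 622 (merge (leaf 0 619 619) (leaf 3 621 657))))) (merge (node 657 (merge (leaf 3 621 622) (node 686 (merge (leaf 1 653 685) (node 658 (merge (leaf 1 654 687) (node 691 (merge (leaf 0 655 690) (node 659 (merge (leaf 0 656 692) (node 627 (merge (leaf 2 623 626) (leaf 2 624 628))))))))))))) (merge (node 653 (merge (leaf 3 620 620) (node 684 (merge (leaf 1 652 685) (node 652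 (merge (leaf 1 651 683) (node 687 (merge (leaf 0 652 688) (node 651 (merge (leaf 0 651 686) (node 650 (merge (leaf 2 618 622) (node 618 (merge (leaf 3 617 617) (leaf 3 618 619))))))))))))))) (node 653 (merge (leaf 3 620 620) (node 685 (merge (leaf 1 652 684) (node 686 (merge (leaf 1 653 657) (node 718 (merge (leaf 4 589 589) (leaf 7 621 750))))))))))))) (merge (hyp 0) (merge (node 653 (merge (node 689 (merge (leaf 0 653 688) (node 657 (merge (leaf 0 654 690) (node 685 (merge (leaf 1 652 684) (leaf 1 653 686))))))) (merge (node 652 (merge (node 684 (merge (leaf 1 651 683) (leaf 1 652 685))) (merge (node 683 (merge (leaf 1 651 684) (node 651 (merge (leaf 1 650 682) (node 619 (merge (leaf 3 618 618) (leaf 3 619 620))))))) (merge (node 619 (merge (leaf 3 619 620) (node 651 (merge (leaf 3 618 618) (node 686 (merge (leaf 0 651 687) (node 685 (merge (leaf 0 650 650) (leaf 1 653 657))))))))) (node 685 (merge (leaf 1 652 684) (node 686 (merge (leaf 1 653 657) (node 651 (merge (leaf 0 650 650) (leaf 0 651 687))))))))))) (merge (node 688 (merge (leaf 0 653 689) (node 652 (merge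 (leaf 0 652 687) (node 683 (merge (leaf 1 651 684) (node 651 (merge (leaf 1 650 682) (node 619 (merge (leaf 3 618 618) (leaf 3 619 620))))))))))) (node 559 (merge (node 657 (merge (node 689 (merge (leaf 0 653 688) (leaf 0 654 690))) (merge (node 686 (merge (leaf 1 653 685) (node 687 (merge (leaf 1 654 658) (node 652 (merge (leaf 0 651 651) (leaf 0 652 688))))))) (node 690 (merge (leaf 0 654 689) (node 658 (merge (leaf 0 655 691) (node 686 (merge (leaf 1 653 685) (leaf 1 654 687)))))))))) (merge (node 558 (merge (node 557 (merge (leaf 0 557 593) (node 556 (merge (leaf 2 524 527) (leaf 0 556 591))))) (merge (node 590 (merge (node 622 (merge (leaf 5 557 685) (leaf 4 558 687))) (node 561 (merge (leaf 1 557 589) (node 562 (merge (leaf 1 558 591) (node 526 (merge (leaf 3 525 525) (leaf 3 526 527))))))))) (node 557 (merge (leaf 0 557 593) (node 525 (merge (leaf 3 524 524) (node 590 (merge (leaf 7 525 622) (node 561 (merge (leaf 3 525 526) (leaf 1 557 589)))))))))))) (merge (node 558 (merge (node 557 (merge (leaf 0 557 593) (node 556 (merge (leaf 2 524 527) (leaf 0 556 591)))))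 (merge (node 557 (merge (leaf 0 557 593) (node 525 (merge (leaf 3 524 524) (node 590 (merge (leaf 7 525 622) (node 561 (merge (leaf 3 525 526) (leaf 1 557 589))))))))) (node 689 (merge (leaf 0 653 688) (node 657 (merge (leaf 0 654 690) (node 685 (merge (leaf 1 653 686) (node 590 (merge (leaf 5 557 622) (node 561 (merge (leaf 1 557 589) (node 562 (merge (leaf 1 558 591) (node 526 (merge (leaf 3 525 525) (leaf 3 526 527)))))))))))))))))) (node 558 (merge (node 557 (merge (leaf 0 557 593) (node 556 (merge (leaf 2 524 527) (leaf 0 556 591))))) (merge (node 557 (merge (leaf 0 557 593) (node 525 (merge (leaf 3 524 524) (node 590 (merge (leaf 7 525 622) (node 561 (merge (leaf 3 525 526) (leaf 1 557 589))))))))) (node 688 (merge (leaf 0 653 689) (node 687 (merge (leaf 0 652 652) (node 590 (merge (leaf 4 558 622) (node 561 (merge (leaf 1 557 589) (node 562 (merge (leaf 1 558 591) (node 526 (merge (leaf 3 525 525) (leaf 3 526 527)))))))))))))))))))))))) (node 653 (merge (node 689 (merge (leaf 0 653 688) (node 657 (merge (leaf 0 654 690) (node 621 (merge (leaf 3 620 620) (leaf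 3 621 622))))))) (merge (node 688 (merge (leaf 0 653 689) (node 652 (merge (leaf 0 652 687) (node 683 (merge (leaf 1 651 684) (node 651 (merge (leaf 1 650 682) (node 619 (merge (leaf 3 618 618) (leaf 3 619 620))))))))))) (merge (node 621 (merge (leaf 3 620 620) (node 622 (merge (leaf 3 621 657) (node 590 (merge (node 558 (merge (leaf 5 525 526) (leaf 4 558 687))) (node 591 (merge (leaf 1 589 593) (node 589 (merge (leaf 2 557 561) (node 686 (merge (leaf 7 557 557) (leaf 7 589 718))))))))))))) (node 687 (merge (node 688 (merge (leaf 0 652 652) (leaf 0 653 689))) (merge (node 686 (merge (node 652 (merge (leaf 0 651 651) (leaf 0 652 688))) (node 657 (merge (leaf 1 654 658) (node 622 (merge (leaf 3 621 621) (node 719 (merge (leaf 4 590 590) (leaf 7 622 751))))))))) (node 622 (merge (node 719 (merge (leaf 7 622 751) (node 590 (merge (leaf 4 558 558) (leaf 4 590 686))))) (merge (node 657 (merge (leaf 3 621 621) (node 690 (merge (leaf 0 654 689) (node 658 (merge (leaf 1 654 686) (leaf 0 655 691))))))) (merge (node 657 (merge (leaf 3 621 621) (node 690 (merge (leaf 0 654 689)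 (node 658 (merge (leaf 1 654 686) (leaf 0 655 691))))))) (node 621 (merge (leaf 3 621 657) (node 590 (merge (leaf 4 558 558) (node 591 (merge (leaf 1 589 593) (node 589 (merge (leaf 2 557 561) (node 557 (merge (leaf 4 525 525) (leaf 3 556 556))))))))))))))))))))))))))))))) nP_80 cP_80 15 (by decide +kernel)
def nP_81 : ℕ := 0x180000000000000010000000100000001000000000000000000000000000000000000000000000000000000000000000000000000000000000000000000000000000000000000000000000000000000000000
def cP_81 : ℕ := 0x20000000600000026000001f7c00000e7800001d7800003ef800001ef000001cf800000370000003e0000001c00000008000000000000000000000000000000000000000000000000000000000000000000000000000000000000000000000000000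
theorem lP_81 : S nP_81 cP_81 13 := S_of_chk [] trivial (node 559 (merge (node 624 (merge (leaf 7 527 527) (node 688 (merge (leaf 7 559 591) (node 689 (merge (leaf 4 560 657) (leaf 4 592 721))))))) (merge (node 654 (merge (node 689 (merge (node 657 (merge (leaf 4 560 624) (leaf 0 654 690))) (merge (node 688 (merge (leaf 0 653 653) (node 624 (merge (leaf 7 559 591) (leaf 4 592 721))))) (node 653 (merge (leaf 0 653 688) (node 657 (merge (leaf 0 654 690) (node 621 (merge (leaf 3 620 620) (leaf 3 621 622)))))))))) (merge (node 689 (merge (node 657 (merge (leaf 4 560 624) (leaf 0 654 690))) (merge (node 688 (merge (leaf 0 653 653) (node 624 (merge (leaf 7 559 591) (leaf 4 592 721))))) (node 653 (merge (leaf 0 653 688) (node 657 (merge (leaf 0 654 690) (node 685 (merge (leaf 1 652 684) (leaf 1 653 686)))))))))) (merge (node 653 (merge (node 684 (merge (leaf 1 652 685) (node 652 (merge (leaf 1 651 683) (node 620 (merge (leaf 3 619 619) (leaf 3 620 621))))))) (merge (node 689 (merge (leaf 0 653 688) (node 657 (merge (leaf 0 654 690) (node 621 (merge (leaf 3 620 620) (leaf 3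 621 622))))))) (node 689 (merge (leaf 0 653 688) (node 657 (merge (leaf 0 654 690) (node 685 (merge (leaf 1 652 684) (leaf 1 653 686)))))))))) (merge (node 688 (merge (node 593 (merge (node 624 (merge (leaf 6 560 561) (leaf 7 559 591))) (merge (node 558 (merge (leaf 0 557 557) (node 594 (merge (leaf 0 558 561) (leaf 3 559 595))))) (node 558 (merge (leaf 0 557 557) (node 594 (merge (leaf 3 558 591) (leaf 3 559 595)))))))) (node 653 (merge (leaf 0 653 689) (node 684 (merge (leaf 1 652 685) (node 652 (merge (leaf 1 651 683) (node 620 (merge (leaf 3 619 619) (leaf 3 620 621))))))))))) (merge (node 657 (merge (node 689 (merge (leaf 4 560 624) (leaf 0 654 690))) (node 686 (merge (leaf 1 653 685) (node 622 (merge (leaf 3 621 621) (node 590 (merge (leaf 6 558 591) (node 557 (merge (leaf 7 557 589) (node 558 (merge (leaf 7 525 525) (leaf 0 557 593))))))))))))) (node 558 (merge (node 557 (merge (leaf 0 557 593) (node 525 (merge (leaf 3 524 524) (node 622 (merge (leaf 7 525 590) (node 621 (merge (leaf 4 525 589) (leaf 3 621 657))))))))) (merge (node 557 (merge (leaf 0 557 593)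 (node 588 (merge (leaf 1 556 589) (node 556 (merge (leaf 1 555 587) (node 524 (merge (leaf 3 523 523) (leaf 3 524 525))))))))) (merge (node 557 (merge (leaf 0 557 593) (node 589 (merge (leaf 1 556 588) (node 590 (merge (leaf 1 557 561) (node 686 (merge (leaf 7 557 622) (node 685 (merge (leaf 1 653 657) (node 653 (merge (leaf 6 557 621) (leaf 1 652 684))))))))))))) (merge (node 557 (merge (leaf 0 557 593) (node 556 (merge (leaf 0 556 591) (node 588 (merge (leaf 1 555 587) (node 525 (merge (leaf 3 524 524) (node 620 (merge (leaf 6 524 652) (node 622 (merge (leaf 7 525 590) (node 621 (merge (leaf 0 619 619) (leaf 3 620 653))))))))))))))) (merge (node 653 (merge (node 685 (merge (leaf 1 652 684) (node 657 (merge (leaf 1 653 686) (node 621 (merge (leaf 3 620 620) (leaf 3 621 622))))))) (merge (node 685 (merge (leaf 1 652 684) (node 590 (merge (leaf 5 557 622) (node 561 (merge (leaf 1 557 589) (node 594 (merge (leaf 0 558 593) (node 562 (merge (leaf 1 558 591) (leaf 0 559 595))))))))))) (merge (node 621 (merge (leaf 3 620 620) (node 622 (merge (leaf 3 621 657) (node 590 (merge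 (leaf 5 525 526) (node 593 (merge (leaf 1 589 591) (node 594 (merge (leaf 0 558 561) (leaf 3 559 595))))))))))) (node 685 (merge (leaf 1 652 684) (node 686 (merge (leaf 1 653 657) (node 621 (merge (leaf 3 620 620) (node 589 (merge (leaf 6 557 590) (leaf 4 589 718))))))))))))) (node 525 (merge (node 524 (merge (leaf 3 524 557) (node 526 (merge (leaf 0 523 523) (leaf 3 525 561))))) (merge (node 557 (merge (leaf 3 524 524) (node 589 (merge (leaf 1 556 588) (node 622 (merge (leaf 7 525 590) (leaf 4 525 621))))))) (node 561 (merge (leaf 3 525 526) (node 590 (merge (leaf 1 557 589) (node 562 (merge (leaf 1 558 591) (node 595 (merge (leaf 0 559 594) (node 563 (merge (leaf 0 560 596) (node 531 (merge (leaf 2 527 530) (leaf 2 528 532)))))))))))))))))))))))))))) (merge (node 657 (merge (node 624 (merge (leaf 7 527 527) (leaf 4 560 689))) (merge (node 689 (merge (leaf 4 560 624) (node 654 (merge (leaf 0 654 690) (node 653 (merge (leaf 0 653 688) (node 621 (merge (leaf 3 620 620) (leaf 3 621 622))))))))) (merge (node 561 (merge (node 527 (merge (leaf 7 527 624) (node 562 (merge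 (leaf 3 526 526) (leaf 3 527 563))))) (merge (node 624 (merge (leaf 7 527 527) (node 593 (merge (leaf 6 560 688) (node 594 (merge (leaf 0 558 558) (leaf 3 559 595))))))) (node 562 (merge (node 595 (merge (leaf 0 559 594) (node 563 (merge (leaf 0 560 596) (node 531 (merge (leaf 2 527 530) (leaf 2 528 532))))))) (merge (node 594 (merge (leaf 0 559 595) (node 558 (merge (leaf 0 558 593) (node 589 (merge (leaf 1 557 590) (node 557 (merge (leaf 1 556 588) (node 525 (merge (leaf 3 524 524) (leaf 3 525 526))))))))))) (merge (node 531 (merge (leaf 2 527 530) (node 563 (merge (leaf 2 528 532) (node 596 (merge (leaf 0 560 595) (node 564 (merge (leaf 1 560 593) (leaf 0 561 597))))))))) (node 531 (merge (leaf 2 527 530) (node 563 (merge (leaf 2 528 532) (node 593 (merge (leaf 1 560 564) (node 558 (merge (leaf 0 557 557) (leaf 0 558 594)))))))))))))))) (node 558 (merge (node 593 (merge (leaf 0 557 557) (node 594 (merge (leaf 0 558 561) (leaf 3 559 595))))) (merge (node 557 (merge (leaf 0 557 593) (node 588 (merge (leaf 1 556 589) (node 556 (merge (leaf 2 524 527) (leaf 1 555 587)))))))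 (merge (node 654 (merge (node 689 (merge (leaf 0 654 690) (node 653 (merge (leaf 0 653 688) (node 621 (merge (leaf 3 620 620) (leaf 3 621 622))))))) (merge (node 686 (merge (leaf 1 653 685) (node 622 (merge (leaf 3 621 621) (node 590 (merge (leaf 6 526 527) (node 557 (merge (leaf 7 525 525) (leaf 7 557 589))))))))) (merge (node 689 (merge (leaf 0 654 690) (node 653 (merge (leaf 0 653 688) (node 686 (merge (leaf 1 653 685) (node 621 (merge (leaf 3 620 620) (node 557 (merge (leaf 4 557 589) (node 556 (merge (leaf 2 524 527) (node 524 (merge (leaf 3 523 523) (leaf 3 524 525))))))))))))))) (node 689 (merge (leaf 0 654 690) (node 653 (merge (leaf 0 653 688) (node 685 (merge (leaf 1 652 684) (leaf 1 653 686))))))))))) (node 658 (merge (node 691 (merge (leaf 0 655 690) (node 659 (merge (leaf 0 656 692) (node 627 (merge (leaf 2 623 626) (leaf 2 624 628))))))) (merge (node 690 (merge (leaf 0 655 691) (node 654 (merge (leaf 0 654 689) (node 685 (merge (leaf 1 653 686) (node 622 (merge (leaf 3 621 621) (node 590 (merge (leaf 6 526 527) (leaf 5 557 653))))))))))) (merge (node 689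 (merge (node 626 (merge (leaf 2 623 627) (node 594 (merge (leaf 5 561 562) (node 593 (merge (leaf 0 558 561) (leaf 3 559 595))))))) (node 654 (merge (leaf 0 654 690) (node 685 (merge (leaf 1 653 686) (node 622 (merge (leaf 3 621 621) (node 590 (merge (leaf 6 526 527) (leaf 5 557 653))))))))))) (node 594 (merge (node 593 (merge (leaf 0 558 561) (leaf 3 559 595))) (merge (node 561 (merge (leaf 0 558 593) (node 626 (merge (leaf 2 623 627) (node 526 (merge (leaf 3 525 525) (node 562 (merge (leaf 3 526 527) (leaf 5 561 689))))))))) (merge (node 626 (merge (leaf 2 623 627) (node 562 (merge (leaf 5 561 689) (node 561 (merge (leaf 0 559 595) (node 563 (merge (leaf 3 527 527) (leaf 6 530 531))))))))) (node 627 (merge (leaf 2 623 626) (node 659 (merge (leaf 2 624 628) (node 691 (merge (leaf 0 656 692) (node 595 (merge (leaf 7 562 562) (leaf 3 559 593))))))))))))))))))))))))) (merge (node 527 (merge (leaf 7 527 624) (node 558 (merge (node 557 (merge (leaf 0 557 593) (node 588 (merge (leaf 1 556 589) (node 556 (merge (leaf 2 524 527) (leaf 1 555 587))))))) (merge (node 561 (merge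 (node 562 (merge (leaf 3 526 526) (leaf 3 527 563))) (merge (node 526 (merge (leaf 0 525 525) (node 593 (merge (leaf 0 558 594) (node 590 (merge (leaf 1 557 589) (node 622 (merge (leaf 6 526 654) (node 621 (merge (leaf 1 589 591) (leaf 5 525 653))))))))))) (node 594 (merge (leaf 0 558 593) (node 562 (merge (leaf 3 527 563) (leaf 0 559 595)))))))) (node 557 (merge (leaf 2 524 556) (node 525 (merge (leaf 3 524 524) (node 526 (merge (leaf 0 525 561) (node 493 (merge (leaf 3 492 492) (node 590 (merge (leaf 4 461 461) (leaf 7 493 622)))))))))))))))) (node 558 (merge (node 593 (merge (leaf 0 557 557) (node 594 (merge (leaf 0 558 561) (leaf 3 559 595))))) (merge (node 557 (merge (leaf 0 557 593) (node 588 (merge (leaf 1 556 589) (node 556 (merge (leaf 2 524 527) (leaf 1 555 587))))))) (merge (node 561 (merge (node 589 (merge (leaf 1 557 590) (node 557 (merge (leaf 1 556 588) (node 525 (merge (leaf 3 524 524) (leaf 3 525 526))))))) (merge (node 526 (merge (leaf 3 525 525) (node 562 (merge (leaf 3 526 527) (node 595 (merge (leaf 0 559 594) (node 563 (merge (leaf 0 560 596) (node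 531 (merge (leaf 2 527 530) (leaf 2 528 532))))))))))) (merge (node 589 (merge (leaf 1 557 590) (node 557 (merge (leaf 1 556 588) (node 527 (merge (leaf 2 524 556) (node 562 (merge (leaf 3 526 526) (leaf 3 527 563))))))))) (node 589 (merge (leaf 1 557 590) (node 557 (merge (leaf 1 556 588) (node 556 (merge (leaf 2 524 527) (node 524 (merge (leaf 3 523 523) (leaf 3 524 525))))))))))))) (node 590 (merge (node 589 (merge (leaf 1 557 561) (node 588 (merge (leaf 2 555 587) (leaf 2 556 591))))) (merge (node 561 (merge (leaf 1 557 589) (node 594 (merge (leaf 0 558 593) (node 562 (merge (leaf 0 559 595) (node 526 (merge (leaf 3 525 525) (leaf 3 526 527))))))))) (merge (node 654 (merge (node 622 (merge (leaf 6 526 527) (node 686 (merge (leaf 6 558 591) (node 685 (merge (leaf 5 557 653) (leaf 5 589 717))))))) (merge (node 622 (merge (leaf 6 526 527) (node 621 (merge (leaf 3 621 657) (node 653 (merge (leaf 3 620 620) (leaf 5 557 685))))))) (merge (node 622 (merge (leaf 6 526 527) (node 686 (merge (leaf 6 558 591) (node 685 (merge (leaf 1 653 657) (leaf 5 589 717))))))) (merge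 (node 622 (merge (leaf 6 526 527) (node 686 (merge (leaf 6 558 591) (node 621 (merge (leaf 3 621 657) (node 718 (merge (leaf 7 589 589) (node 750 (merge (leaf 7 621 653) (node 749 (merge (leaf 5 621 717) (leaf 5 653 781))))))))))))) (node 653 (merge (node 689 (merge (leaf 0 653 688) (node 657 (merge (leaf 0 654 690) (node 685 (merge (leaf 1 652 684) (leaf 1 653 686))))))) (merge (node 689 (merge (leaf 0 653 688) (node 657 (merge (leaf 0 654 690) (node 685 (merge (leaf 1 653 686) (node 621 (merge (leaf 6 557 589) (leaf 3 620 620))))))))) (node 620 (merge (leaf 3 620 621) (node 652 (merge (leaf 3 619 619) (node 683 (merge (leaf 1 651 684) (node 651 (merge (leaf 1 650 682) (node 588 (merge (leaf 5 555 556) (node 589 (merge (leaf 2 555 587) (leaf 2 556 591))))))))))))))))))))) (node 526 (merge (node 561 (merge (leaf 3 525 525) (node 562 (merge (leaf 3 526 527) (leaf 1 558 591))))) (merge (node 561 (merge (leaf 3 525 525) (node 594 (merge (leaf 0 558 593) (node 562 (merge (leaf 3 526 527) (leaf 0 559 595))))))) (merge (node 561 (merge (leaf 3 525 525) (node 594 (merge (leaf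 0 558 593) (node 562 (merge (leaf 0 559 595) (node 591 (merge (leaf 1 559 563) (leaf 1 558 590))))))))) (merge (node 622 (merge (node 621 (merge (leaf 5 525 653) (node 593 (merge (leaf 1 589 591) (node 594 (merge (leaf 0 558 561) (leaf 3 559 595))))))) (merge (node 654 (merge (leaf 6 526 527) (node 686 (merge (leaf 6 558 591) (node 685 (merge (leaf 1 653 657) (leaf 5 589 717))))))) (node 654 (merge (leaf 6 526 527) (node 621 (merge (leaf 3 621 657) (node 653 (merge (leaf 3 620 620) (leaf 5 557 685)))))))))) (node 494 (merge (node 493 (merge (leaf 7 461 461) (node 622 (merge (leaf 7 493 525) (node 654 (merge (leaf 6 526 527) (node 653 (merge (leaf 5 525 621) (leaf 5 557 685))))))))) (merge (node 462 (merge (leaf 4 462 591) (node 431 (merge (leaf 6 430 463) (node 430 (merge (leaf 6 398 399) (leaf 4 430 527))))))) (merge (node 493 (merge (leaf 7 461 461) (node 622 (merge (leaf 7 493 525) (node 591 (merge (leaf 4 462 462) (node 621 (merge (leaf 1 589 593) (leaf 5 525 653))))))))) (node 462 (merge (leaf 4 462 591) (node 463 (merge (leaf 6 430 431) (node 527 (merge (leaf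 4 430 430) (node 525 (merge (leaf 0 524 524) (node 496 (merge (leaf 2 493 497) (node 493 (merge (leaf 3 492 492) (node 464 (merge (leaf 5 431 432) (leaf 1 461 465))))))))))))))))))))))))))))))))))))) nP_81 cP_81 13 (by decide +kernel)
def nP_82 : ℕ := 0x180000000000000010000000180000001000000000000000200000000000000000000000000000000000000000000000000000000000000000000000000000000000000000000000000000000000000000000
def cP_82 : ℕ := 0x2800000028000003ffc00001e7800003c7c00000e7800000e7000000c380000077000001de000001fe00000000000000000000000000000000000000000000000000000000000000000000000000000000000000000000000000000000000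
theorem lP_82 : S nP_82 cP_82 13 := S_of_chk [] trivial (node 657 (merge (node 654 (merge (node 689 (merge (leaf 0 654 690) (node 653 (merge (leaf 0 653 688) (node 621 (merge (leaf 3 620 620) (leaf 3 621 622))))))) (merge (node 690 (merge (leaf 0 654 689) (node 658 (merge (leaf 0 655 691) (node 686 (merge (leaf 1 653 685) (leaf 1 654 687))))))) (node 685 (merge (leaf 1 653 686) (node 653 (merge (leaf 1 652 684) (node 621 (merge (leaf 3 620 620) (leaf 3 621 622)))))))))) (merge (node 658 (merge (node 691 (merge (leaf 0 655 690) (node 659 (merge (leaf 0 656 692) (node 687 (merge (leaf 1 654 686) (leaf 1 655 688))))))) (merge (node 691 (merge (leaf 0 655 690) (node 659 (merge (leaf 0 656 692) (node 627 (merge (leaf 2 623 626) (leaf 2 624 628))))))) (merge (node 687 (merge (leaf 1 654 686) (node 659 (merge (leaf 1 655 688) (node 692 (merge (leaf 0 656 691) (node 660 (merge (leaf 0 657 693) (node 628 (merge (leaf 2 624 627) (leaf 2 625 629))))))))))) (merge (node 496 (merge (leaf 6 464 497) (node 464 (merge (leaf 6 432 433) (node 690 (merge (leaf 0 655 691) (node 626 (merge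 (leaf 2 623 627) (node 593 (merge (leaf 4 464 561) (node 594 (merge (leaf 3 559 595) (node 689 (merge (leaf 5 561 562) (leaf 5 593 721))))))))))))))) (node 496 (merge (leaf 6 464 497) (node 464 (merge (leaf 6 432 433) (node 626 (merge (leaf 2 623 627) (node 593 (merge (leaf 4 464 561) (node 594 (merge (leaf 3 559 595) (node 689 (merge (leaf 5 561 562) (node 721 (merge (leaf 5 593 690) (leaf 6 625 753)))))))))))))))))))) (merge (node 658 (merge (node 691 (merge (leaf 0 655 690) (node 659 (merge (leaf 0 656 692) (node 627 (merge (leaf 2 623 626) (leaf 2 624 628))))))) (merge (node 690 (merge (leaf 0 655 691) (node 654 (merge (leaf 0 654 689) (node 685 (merge (leaf 1 653 686) (node 653 (merge (leaf 1 652 684) (node 622 (merge (leaf 3 621 621) (node 558 (merge (leaf 5 557 590) (node 593 (merge (leaf 0 557 557) (node 594 (merge (leaf 0 558 561) (leaf 3 559 595))))))))))))))))) (merge (node 496 (merge (leaf 6 464 497) (node 464 (merge (leaf 6 432 433) (node 626 (merge (leaf 2 623 627) (node 593 (merge (leaf 4 464 561) (node 594 (merge (leaf 3 559 595) (node 689 (merge (leaf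 5 561 562) (node 721 (merge (leaf 5 593 690) (leaf 6 625 753))))))))))))))) (node 496 (merge (leaf 6 464 497) (node 464 (merge (leaf 6 432 433) (node 627 (merge (leaf 2 623 626) (node 659 (merge (leaf 2 624 628) (node 692 (merge (leaf 0 656 691) (node 660 (merge (leaf 0 657 693) (node 593 (merge (leaf 4 464 561) (node 595 (merge (leaf 4 563 563) (leaf 3 559 594))))))))))))))))))))) (merge (node 433 (merge (node 496 (merge (leaf 6 432 464) (leaf 6 464 497))) (node 658 (merge (node 687 (merge (leaf 1 654 686) (node 659 (merge (leaf 1 655 688) (node 627 (merge (leaf 2 623 626) (leaf 2 624 628))))))) (merge (node 691 (merge (leaf 0 655 690) (node 659 (merge (leaf 0 656 692) (node 687 (merge (leaf 1 654 686) (leaf 1 655 688))))))) (merge (node 691 (merge (leaf 0 655 690) (node 659 (merge (leaf 0 656 692) (node 627 (merge (leaf 2 623 626) (leaf 2 624 628))))))) (node 690 (merge (leaf 0 655 691) (node 686 (merge (leaf 1 654 687) (node 654 (merge (leaf 1 653 685) (node 626 (merge (leaf 2 623 627) (node 621 (merge (leaf 3 621 622) (node 653 (merge (leaf 3 620 620) (node 557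 (merge (leaf 4 557 589) (node 593 (merge (leaf 0 557 558) (node 594 (merge (leaf 7 561 561) (leaf 3 559 595))))))))))))))))))))))))) (merge (node 433 (merge (node 496 (merge (leaf 6 432 464) (leaf 6 464 497))) (merge (node 558 (merge (node 593 (merge (leaf 0 557 557) (node 594 (merge (leaf 0 558 561) (leaf 3 559 595))))) (merge (node 557 (merge (leaf 0 557 593) (node 588 (merge (leaf 1 556 589) (node 556 (merge (leaf 1 555 587) (node 524 (merge (leaf 3 523 523) (leaf 3 524 525))))))))) (merge (node 654 (merge (node 622 (merge (leaf 3 621 621) (node 590 (merge (leaf 4 558 687) (node 589 (merge (leaf 1 557 561) (node 557 (merge (leaf 7 525 525) (leaf 1 556 588))))))))) (merge (node 689 (merge (leaf 0 654 690) (node 653 (merge (leaf 0 653 688) (node 685 (merge (leaf 1 652 684) (node 590 (merge (leaf 5 557 622) (node 589 (merge (leaf 1 557 561) (node 588 (merge (leaf 1 556 557) (leaf 2 555 587))))))))))))) (node 689 (merge (leaf 0 654 690) (node 653 (merge (leaf 0 653 688) (node 684 (merge (leaf 1 652 685) (node 652 (merge (leaf 1 651 683) (node 620 (merge (leaf 3 619 619)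 (leaf 3 620 621)))))))))))))) (node 654 (merge (node 622 (merge (leaf 3 621 621) (node 590 (merge (leaf 4 558 687) (node 561 (merge (leaf 1 557 589) (node 594 (merge (leaf 0 558 593) (node 562 (merge (leaf 0 559 595) (node 530 (merge (leaf 2 527 531) (node 498 (merge (leaf 7 433 466) (leaf 7 465 497))))))))))))))) (merge (node 561 (merge (node 689 (merge (leaf 0 654 690) (node 653 (merge (leaf 0 653 688) (node 590 (merge (leaf 1 557 589) (node 622 (merge (leaf 5 557 685) (leaf 4 558 687))))))))) (merge (node 594 (merge (leaf 0 558 593) (node 562 (merge (leaf 0 559 595) (node 530 (merge (leaf 2 527 531) (node 498 (merge (leaf 7 433 466) (leaf 7 465 497))))))))) (node 594 (merge (leaf 0 558 593) (node 562 (merge (leaf 0 559 595) (node 530 (merge (leaf 2 527 531) (node 498 (merge (leaf 7 433 466) (leaf 7 465 497)))))))))))) (node 689 (merge (leaf 0 654 690) (node 653 (merge (leaf 0 653 688) (node 684 (merge (leaf 1 652 685) (node 652 (merge (leaf 1 651 683) (node 620 (merge (leaf 3 619 619) (leaf 3 620 621)))))))))))))))))) (node 464 (merge (leaf 6 432 496) (node 658 (merge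 (node 627 (merge (leaf 2 623 626) (node 659 (merge (leaf 2 624 628) (node 688 (merge (leaf 1 655 687) (node 689 (merge (leaf 1 656 660) (node 654 (merge (leaf 0 653 653) (leaf 0 654 690))))))))))) (merge (node 627 (merge (leaf 2 623 626) (node 659 (merge (leaf 2 624 628) (node 692 (merge (leaf 0 656 691) (node 660 (merge (leaf 0 657 693) (node 688 (merge (leaf 1 655 687) (leaf 1 656 689))))))))))) (merge (node 691 (merge (leaf 0 655 690) (node 659 (merge (leaf 0 656 692) (node 626 (merge (leaf 2 623 627) (node 594 (merge (leaf 4 562 562) (node 593 (merge (leaf 3 559 595) (node 558 (merge (leaf 0 557 557) (leaf 0 558 561))))))))))))) (merge (node 691 (merge (leaf 0 655 690) (node 659 (merge (leaf 0 656 692) (node 688 (merge (leaf 1 655 687) (node 660 (merge (leaf 1 656 689) (node 628 (merge (leaf 2 624 627) (leaf 2 625 629))))))))))) (node 593 (merge (node 558 (merge (leaf 0 557 557) (node 594 (merge (leaf 0 558 561) (leaf 3 559 595))))) (merge (node 690 (merge (leaf 0 655 691) (node 689 (merge (leaf 0 654 654) (node 594 (merge (leaf 3 559 595) (node 626 (merge (leaf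 7 561 561) (leaf 5 561 562))))))))) (node 557 (merge (leaf 0 557 558) (node 690 (merge (leaf 0 655 691) (node 654 (merge (leaf 0 654 689) (node 621 (merge (leaf 3 621 622) (node 653 (merge (leaf 3 620 620) (node 684 (merge (leaf 1 652 685) (node 652 (merge (leaf 5 556 589) (leaf 1 651 683)))))))))))))))))))))))))))) (merge (node 433 (merge (node 496 (merge (leaf 6 432 464) (leaf 6 464 497))) (merge (node 558 (merge (node 593 (merge (leaf 0 557 557) (node 594 (merge (leaf 0 558 561) (leaf 3 559 595))))) (merge (node 557 (merge (leaf 0 557 593) (node 588 (merge (leaf 1 556 589) (node 556 (merge (leaf 1 555 587) (node 524 (merge (leaf 3 523 523) (leaf 3 524 525))))))))) (merge (node 654 (merge (node 622 (merge (leaf 3 621 621) (node 590 (merge (leaf 4 558 687) (node 589 (merge (leaf 1 557 561) (node 557 (merge (leaf 7 525 525) (leaf 1 556 588))))))))) (merge (node 686 (merge (leaf 1 653 685) (node 687 (merge (leaf 1 654 658) (node 590 (merge (leaf 4 558 622) (node 589 (merge (leaf 1 557 561) (node 588 (merge (leaf 1 556 557) (leaf 2 555 587))))))))))) (merge (node 685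 (merge (leaf 1 653 686) (node 622 (merge (leaf 3 621 621) (node 590 (merge (leaf 5 557 653) (node 589 (merge (leaf 1 557 561) (node 557 (merge (leaf 7 525 525) (leaf 1 556 588))))))))))) (merge (node 621 (merge (leaf 3 621 622) (node 653 (merge (leaf 3 620 620) (node 688 (merge (leaf 0 653 689) (node 687 (merge (leaf 0 652 652) (node 658 (merge (leaf 1 655 659) (leaf 1 654 686))))))))))) (node 685 (merge (leaf 1 653 686) (node 653 (merge (leaf 1 652 684) (node 688 (merge (leaf 0 653 689) (node 652 (merge (leaf 0 652 687) (node 620 (merge (leaf 3 619 619) (leaf 3 620 621)))))))))))))))) (node 654 (merge (node 622 (merge (leaf 3 621 621) (node 590 (merge (leaf 4 558 687) (node 561 (merge (leaf 1 557 589) (node 594 (merge (leaf 0 558 593) (node 562 (merge (leaf 0 559 595) (node 530 (merge (leaf 2 527 531) (node 498 (merge (leaf 7 433 466) (leaf 7 465 497))))))))))))))) (merge (node 685 (merge (leaf 1 653 686) (node 622 (merge (leaf 3 621 621) (node 590 (merge (leaf 5 557 653) (node 561 (merge (leaf 1 557 589) (node 594 (merge (leaf 0 558 593) (node 562 (merge (leaf 0 559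 595) (node 530 (merge (leaf 2 527 531) (node 498 (merge (leaf 7 433 466) (leaf 7 465 497))))))))))))))))) (merge (node 686 (merge (leaf 1 653 685) (node 687 (merge (leaf 1 654 658) (node 590 (merge (leaf 4 558 622) (node 561 (merge (leaf 1 557 589) (node 594 (merge (leaf 0 558 593) (node 562 (merge (leaf 0 559 595) (node 530 (merge (leaf 2 527 531) (node 498 (merge (leaf 7 433 466) (leaf 7 465 497))))))))))))))))) (node 685 (merge (leaf 1 653 686) (node 653 (merge (leaf 1 652 684) (node 688 (merge (leaf 0 653 689) (node 652 (merge (leaf 0 652 687) (node 620 (merge (leaf 3 619 619) (leaf 3 620 621))))))))))))))))))) (node 464 (merge (leaf 6 432 496) (node 654 (merge (node 621 (merge (leaf 3 621 622) (node 653 (merge (leaf 3 620 620) (node 688 (merge (leaf 0 653 689) (node 687 (merge (leaf 0 652 652) (node 658 (merge (leaf 1 655 659) (leaf 1 654 686))))))))))) (merge (node 685 (merge (leaf 1 653 686) (node 653 (merge (leaf 1 652 684) (node 622 (merge (leaf 3 621 621) (node 558 (merge (leaf 5 557 590) (node 593 (merge (leaf 0 557 557) (node 594 (merge (leaf 0 558 561)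 (leaf 3 559 595))))))))))))) (merge (node 653 (merge (node 685 (merge (leaf 1 652 684) (leaf 1 653 686))) (merge (node 688 (merge (leaf 0 653 689) (node 652 (merge (leaf 0 652 687) (node 683 (merge (leaf 1 651 684) (node 651 (merge (leaf 1 650 682) (node 619 (merge (leaf 3 618 618) (leaf 3 619 620))))))))))) (node 688 (merge (leaf 0 653 689) (node 687 (merge (leaf 0 652 652) (node 686 (merge (leaf 1 654 658) (leaf 1 653 685)))))))))) (merge (node 686 (merge (leaf 1 653 685) (node 687 (merge (leaf 1 654 658) (node 622 (merge (leaf 3 621 621) (node 719 (merge (leaf 4 590 590) (leaf 7 622 751))))))))) (node 621 (merge (leaf 3 621 622) (node 653 (merge (leaf 3 620 620) (node 688 (merge (leaf 0 653 689) (node 652 (merge (leaf 0 652 687) (node 684 (merge (leaf 1 651 683) (leaf 1 652 685))))))))))))))))))))) (node 433 (merge (node 496 (merge (leaf 6 432 464) (leaf 6 464 497))) (merge (node 558 (merge (node 593 (merge (leaf 0 557 557) (node 594 (merge (leaf 0 558 561) (leaf 3 559 595))))) (merge (node 557 (merge (leaf 0 557 593) (node 588 (merge (leaf 1 556 589) (node 556 (merge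 (leaf 1 555 587) (node 524 (merge (leaf 3 523 523) (leaf 3 524 525))))))))) (merge (node 654 (merge (node 689 (merge (leaf 0 654 690) (node 653 (merge (leaf 0 653 688) (node 621 (merge (leaf 3 620 620) (leaf 3 621 622))))))) (merge (node 686 (merge (leaf 1 653 685) (node 622 (merge (leaf 3 621 621) (node 590 (merge (leaf 4 558 687) (node 557 (merge (leaf 7 525 525) (leaf 7 557 589))))))))) (merge (node 689 (merge (leaf 0 654 690) (node 653 (merge (leaf 0 653 688) (node 685 (merge (leaf 1 652 684) (leaf 1 653 686))))))) (node 689 (merge (leaf 0 654 690) (node 653 (merge (leaf 0 653 688) (node 684 (merge (leaf 1 652 685) (node 652 (merge (leaf 1 651 683) (node 620 (merge (leaf 3 619 619) (leaf 3 620 621))))))))))))))) (node 654 (merge (node 622 (merge (leaf 3 621 621) (node 590 (merge (leaf 4 558 687) (node 561 (merge (leaf 1 557 589) (node 594 (merge (leaf 0 558 593) (node 562 (merge (leaf 0 559 595) (node 530 (merge (leaf 2 527 531) (node 498 (merge (leaf 7 433 466) (leaf 7 465 497))))))))))))))) (merge (node 689 (merge (leaf 0 654 690) (node 653 (merge (leaf 0 653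 688) (node 685 (merge (leaf 1 652 684) (leaf 1 653 686))))))) (node 689 (merge (leaf 0 654 690) (node 653 (merge (leaf 0 653 688) (node 684 (merge (leaf 1 652 685) (node 652 (merge (leaf 1 651 683) (node 620 (merge (leaf 3 619 619) (leaf 3 620 621)))))))))))))))))) (node 464 (merge (leaf 6 432 496) (node 466 (merge (node 435 (merge (node 436 (merge (leaf 1 432 434) (leaf 2 432 467))) (merge (node 467 (merge (leaf 2 432 436) (node 432 (merge (leaf 3 431 431) (leaf 3 432 468))))) (node 463 (merge (leaf 2 431 434) (node 430 (merge (leaf 3 430 431) (node 462 (merge (leaf 3 429 429) (node 493 (merge (leaf 1 461 494) (node 461 (merge (leaf 2 429 432) (leaf 1 460 492)))))))))))))) (node 558 (merge (node 593 (merge (leaf 0 557 557) (node 594 (merge (leaf 0 558 561) (leaf 3 559 595))))) (merge (node 557 (merge (leaf 0 557 593) (node 588 (merge (leaf 1 556 589) (node 556 (merge (leaf 1 555 587) (node 524 (merge (leaf 3 523 523) (leaf 3 524 525))))))))) (merge (node 654 (merge (node 689 (merge (leaf 0 654 690) (node 653 (merge (leaf 0 653 688) (node 621 (merge (leaf 3 620 620)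 (leaf 3 621 622))))))) (merge (node 686 (merge (leaf 1 653 685) (node 622 (merge (leaf 3 621 621) (node 590 (merge (leaf 4 558 687) (node 557 (merge (leaf 7 525 525) (leaf 7 557 589))))))))) (merge (node 689 (merge (leaf 0 654 690) (node 653 (merge (leaf 0 653 688) (node 685 (merge (leaf 1 652 684) (leaf 1 653 686))))))) (node 689 (merge (leaf 0 654 690) (node 653 (merge (leaf 0 653 688) (node 685 (merge (leaf 1 652 684) (leaf 1 653 686))))))))))) (node 654 (merge (node 689 (merge (leaf 0 654 690) (node 653 (merge (leaf 0 653 688) (node 621 (merge (leaf 3 620 620) (leaf 3 621 622))))))) (merge (node 689 (merge (leaf 0 654 690) (node 653 (merge (leaf 0 653 688) (node 685 (merge (leaf 1 652 684) (leaf 1 653 686))))))) (merge (node 689 (merge (leaf 0 654 690) (node 653 (merge (leaf 0 653 688) (node 685 (merge (leaf 1 652 684) (leaf 1 653 686))))))) (node 622 (merge (leaf 3 621 621) (node 590 (merge (leaf 4 558 687) (node 561 (merge (leaf 1 557 589) (node 594 (merge (leaf 0 558 593) (node 562 (merge (leaf 0 559 595) (node 530 (merge (leaf 7 433 498) (leaf 2 527 531)))))))))))))))))))))))))))))))))))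 nP_82 cP_82 13 (by decide +kernel)
def nP_83 : ℕ := 0x80000000000000010000000180000001000000000000000000000000000000000000000000000000000000000000000000000000000000000000000000000000000000000000000000000000000000000000
def cP_83 : ℕ := 0x2c0000002e000003ffc00001f7800003d7c00003e7800001e7800001cf80000077000001fe000001fe00000008000000000000000000000000000000000000000000000000000000000000000000000000000000000000000000000000000
theorem lP_83 : S nP_83 cP_83 15 := S_of_chk [(nP_82, cP_82, 13)] ⟨lP_82, trivial⟩ (node 656 (merge (node 624 (merge (leaf 7 527 527) (leaf 5 559 687))) (merge (node 657 (merge (node 624 (merge (leaf 5 559 687) (leaf 4 560 689))) (merge (node 689 (merge (leaf 4 560 624) (node 690 (merge (leaf 0 654 654) (node 691 (merge (leaf 0 655 658) (leaf 3 655 688))))))) (merge (node 687 (merge (leaf 5 559 624) (node 686 (merge (leaf 1 654 658) (node 685 (merge (leaf 1 653 654) (leaf 2 652 684))))))) (node 654 (merge (node 689 (merge (leaf 0 654 690) (node 653 (merge (leaf 0 653 688) (node 684 (merge (leaf 1 652 685) (node 652 (merge (leaf 1 651 683) (node 620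 (merge (leaf 3 619 619) (leaf 3 620 621))))))))))) (merge (node 685 (merge (leaf 1 653 686) (node 653 (merge (leaf 1 652 684) (node 688 (merge (leaf 0 653 689) (node 652 (merge (leaf 0 652 687) (node 620 (merge (leaf 3 619 619) (leaf 3 620 621))))))))))) (merge (node 686 (merge (leaf 1 653 685) (node 658 (merge (leaf 1 654 687) (node 691 (merge (leaf 0 655 690) (node 659 (merge (leaf 0 656 692) (node 627 (merge (leaf 2 623 626) (leaf 2 624 628))))))))))) (node 690 (merge (leaf 0 654 689) (node 658 (merge (leaf 0 655 691) (node 687 (merge (leaf 1 654 686) (node 659 (merge (leaf 1 655 688) (node 627 (merge (leaf 2 623 626) (leaf 2 624 628))))))))))))))))))) (merge (node 657 (merge (node 624 (merge (leaf 7 527 527) (leaf 4 560 689))) (merge (node 689 (merge (leaf 4 560 624) (node 654 (merge (leaf 0 654 690) (node 653 (merge (leaf 0 653 688) (node 621 (merge (leaf 3 620 620) (leaf 3 621 622))))))))) (merge (node 561 (merge (node 527 (merge (leaf 7 527 624) (node 562 (merge (leaf 3 526 526) (leaf 3 527 563))))) (merge (node 624 (merge (leaf 7 527 527) (node 593 (merge (leaf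 6 560 688) (node 594 (merge (leaf 0 558 558) (leaf 3 559 595))))))) (node 562 (merge (node 595 (merge (leaf 0 559 594) (node 563 (merge (leaf 0 560 596) (node 531 (merge (leaf 2 527 530) (leaf 2 528 532))))))) (merge (node 594 (merge (leaf 0 559 595) (node 558 (merge (leaf 0 558 593) (node 589 (merge (leaf 1 557 590) (node 557 (merge (leaf 1 556 588) (node 525 (merge (leaf 3 524 524) (leaf 3 525 526))))))))))) (merge (node 531 (merge (leaf 2 527 530) (node 563 (merge (leaf 2 528 532) (node 596 (merge (leaf 0 560 595) (node 564 (merge (leaf 1 560 593) (leaf 0 561 597))))))))) (node 531 (merge (leaf 2 527 530) (node 563 (merge (leaf 2 528 532) (node 593 (merge (leaf 1 560 564) (node 558 (merge (leaf 0 557 557) (leaf 0 558 594)))))))))))))))) (node 558 (merge (node 593 (merge (leaf 0 557 557) (node 594 (merge (leaf 0 558 561) (leaf 3 559 595))))) (merge (node 557 (merge (leaf 0 557 593) (node 588 (merge (leaf 1 556 589) (node 556 (merge (leaf 2 524 527) (leaf 1 555 587))))))) (merge (node 654 (merge (node 689 (merge (leaf 0 654 690) (node 653 (merge (leaf 0 653 688) (node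 621 (merge (leaf 3 620 620) (leaf 3 621 622))))))) (merge (node 686 (merge (leaf 1 653 685) (node 622 (merge (leaf 3 621 621) (node 590 (merge (leaf 6 526 527) (node 557 (merge (leaf 7 525 525) (leaf 7 557 589))))))))) (merge (node 689 (merge (leaf 0 654 690) (node 653 (merge (leaf 0 653 688) (node 686 (merge (leaf 1 653 685) (node 621 (merge (leaf 3 620 620) (node 557 (merge (leaf 4 557 589) (node 556 (merge (leaf 2 524 527) (node 524 (merge (leaf 3 523 523) (leaf 3 524 525))))))))))))))) (node 689 (merge (leaf 0 654 690) (node 653 (merge (leaf 0 653 688) (node 685 (merge (leaf 1 652 684) (leaf 1 653 686))))))))))) (node 658 (merge (node 691 (merge (leaf 0 655 690) (node 659 (merge (leaf 0 656 692) (node 627 (merge (leaf 2 623 626) (leaf 2 624 628))))))) (merge (node 690 (merge (leaf 0 655 691) (node 654 (merge (leaf 0 654 689) (node 685 (merge (leaf 1 653 686) (node 622 (merge (leaf 3 621 621) (node 590 (merge (leaf 6 526 527) (leaf 5 557 653))))))))))) (merge (node 689 (merge (node 626 (merge (leaf 2 623 627) (node 594 (merge (leaf 5 561 562) (node 593 (merge (leaf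 0 558 561) (leaf 3 559 595))))))) (node 654 (merge (leaf 0 654 690) (node 685 (merge (leaf 1 653 686) (node 622 (merge (leaf 3 621 621) (node 590 (merge (leaf 6 526 527) (leaf 5 557 653))))))))))) (node 594 (merge (node 593 (merge (leaf 0 558 561) (leaf 3 559 595))) (merge (node 561 (merge (leaf 0 558 593) (node 626 (merge (leaf 2 623 627) (node 526 (merge (leaf 3 525 525) (node 562 (merge (leaf 3 526 527) (leaf 5 561 689))))))))) (merge (node 626 (merge (leaf 2 623 627) (node 562 (merge (leaf 5 561 689) (node 561 (merge (leaf 0 559 595) (node 563 (merge (leaf 3 527 527) (leaf 6 530 531))))))))) (node 627 (merge (leaf 2 623 626) (node 659 (merge (leaf 2 624 628) (node 691 (merge (leaf 0 656 692) (node 595 (merge (leaf 7 562 562) (leaf 3 559 593))))))))))))))))))))))))) (node 465 (merge (node 496 (merge (leaf 6 464 497) (node 464 (merge (leaf 6 432 433) (node 431 (merge (leaf 7 431 463) (node 432 (merge (leaf 7 399 399) (leaf 5 431 527))))))))) (merge (node 654 (merge (node 657 (merge (node 689 (merge (leaf 0 654 690) (node 653 (merge (leaf 0 653 688) (node 621 (merge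 (leaf 3 620 620) (leaf 3 621 622))))))) (merge (node 690 (merge (leaf 0 654 689) (node 658 (merge (leaf 0 655 691) (node 686 (merge (leaf 1 653 685) (leaf 1 654 687))))))) (node 685 (merge (leaf 1 653 686) (node 653 (merge (leaf 1 652 684) (node 621 (merge (leaf 3 620 620) (leaf 3 621 622)))))))))) (merge (node 558 (merge (node 557 (merge (leaf 0 557 593) (node 588 (merge (leaf 1 556 589) (node 556 (merge (leaf 2 524 527) (leaf 1 555 587))))))) (merge (node 557 (merge (leaf 0 557 593) (node 589 (merge (leaf 1 556 588) (node 561 (merge (leaf 1 557 590) (node 525 (merge (leaf 3 524 524) (leaf 3 525 526))))))))) (merge (node 557 (merge (leaf 0 557 593) (node 527 (merge (leaf 2 524 556) (node 525 (merge (leaf 3 524 524) (node 526 (merge (leaf 0 525 561) (node 493 (merge (leaf 3 492 492) (node 590 (merge (leaf 4 461 461) (leaf 7 493 622))))))))))))) (merge (node 557 (merge (node 588 (merge (leaf 1 556 589) (node 556 (merge (leaf 2 524 527) (leaf 1 555 587))))) (merge (node 589 (merge (leaf 1 556 588) (node 525 (merge (leaf 3 524 524) (node 622 (merge (leaf 7 525 590) (leaf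 4 525 621))))))) (merge (node 556 (merge (leaf 2 524 527) (node 588 (merge (leaf 1 555 587) (node 525 (merge (leaf 3 524 524) (node 620 (merge (leaf 6 524 652) (node 622 (merge (leaf 7 525 590) (node 621 (merge (leaf 0 619 619) (leaf 3 620 653))))))))))))) (node 525 (merge (leaf 3 524 524) (node 590 (merge (leaf 7 525 622) (node 561 (merge (leaf 3 525 526) (leaf 1 557 589))))))))))) (node 590 (merge (node 622 (merge (leaf 6 526 527) (leaf 4 558 687))) (merge (node 561 (merge (leaf 1 557 589) (node 594 (merge (leaf 0 558 593) (node 562 (merge (leaf 0 559 595) (node 526 (merge (leaf 3 525 525) (leaf 3 526 527))))))))) (node 622 (merge (leaf 4 558 687) (node 653 (merge (leaf 5 557 685) (node 526 (merge (leaf 5 525 621) (node 525 (merge (leaf 7 493 493) (leaf 3 525 561))))))))))))))))) (merge (node 558 (merge (node 557 (merge (leaf 0 557 593) (node 588 (merge (leaf 1 556 589) (node 556 (merge (leaf 2 524 527) (leaf 1 555 587))))))) (merge (node 557 (merge (leaf 0 557 593) (node 589 (merge (leaf 1 556 588) (node 561 (merge (leaf 1 557 590) (node 525 (merge (leaf 3 524 524)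 (leaf 3 525 526))))))))) (merge (node 557 (merge (leaf 0 557 593) (node 527 (merge (leaf 2 524 556) (node 525 (merge (leaf 3 524 524) (node 526 (merge (leaf 0 525 561) (node 493 (merge (leaf 3 492 492) (node 590 (merge (leaf 4 461 461) (leaf 7 493 622))))))))))))) (merge (node 590 (merge (node 622 (merge (leaf 6 526 527) (leaf 4 558 687))) (merge (node 561 (merge (leaf 1 557 589) (node 526 (merge (leaf 3 525 525) (node 562 (merge (leaf 3 526 527) (node 595 (merge (leaf 0 559 594) (node 563 (merge (leaf 0 560 596) (node 531 (merge (leaf 2 527 530) (leaf 2 528 532))))))))))))) (node 622 (merge (leaf 4 558 687) (node 557 (merge (leaf 7 525 525) (node 686 (merge (leaf 7 557 589) (node 685 (merge (leaf 1 653 657) (leaf 5 589 717)))))))))))) (node 590 (merge (node 622 (merge (leaf 6 526 527) (leaf 4 558 687))) (merge (node 561 (merge (leaf 1 557 589) (node 594 (merge (leaf 0 558 593) (node 562 (merge (leaf 0 559 595) (node 526 (merge (leaf 3 525 525) (leaf 3 526 527))))))))) (node 561 (merge (leaf 1 557 589) (node 594 (merge (leaf 0 558 593) (node 595 (merge (leaf 0 559 562)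 (node 622 (merge (leaf 4 558 687) (node 657 (merge (leaf 3 621 621) (node 690 (merge (leaf 0 654 689) (node 658 (merge (leaf 0 655 691) (node 626 (merge (leaf 6 562 563) (leaf 2 623 627))))))))))))))))))))))))) (merge (node 653 (merge (node 688 (merge (leaf 0 653 689) (node 652 (merge (leaf 0 652 687) (node 620 (merge (leaf 3 619 619) (leaf 3 620 621))))))) (merge (node 689 (merge (leaf 0 653 688) (node 657 (merge (leaf 0 654 690) (node 685 (merge (leaf 1 652 684) (leaf 1 653 686))))))) (node 685 (merge (leaf 1 652 684) (node 686 (merge (leaf 1 653 657) (node 621 (merge (leaf 3 620 620) (node 718 (merge (leaf 4 589 589) (leaf 7 621 750)))))))))))) (merge (node 653 (merge (node 689 (merge (leaf 0 653 688) (node 657 (merge (leaf 0 654 690) (node 685 (merge (leaf 1 652 684) (leaf 1 653 686))))))) (merge (node 689 (merge (leaf 0 653 688) (node 657 (merge (leaf 0 654 690) (node 621 (merge (leaf 3 620 620) (leaf 3 621 622))))))) (node 684 (merge (leaf 1 652 685) (node 652 (merge (leaf 1 651 683) (node 621 (merge (leaf 3 620 620) (node 557 (merge (leaf 5 556 589) (node 558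 (merge (leaf 0 557 593) (node 556 (merge (leaf 2 524 527) (node 524 (merge (leaf 3 523 523) (leaf 3 524 525)))))))))))))))))) (merge (node 557 (merge (node 558 (merge (leaf 0 557 593) (node 588 (merge (leaf 1 556 589) (node 556 (merge (leaf 2 524 527) (leaf 1 555 587))))))) (merge (node 558 (merge (leaf 0 557 593) (node 589 (merge (leaf 1 556 588) (node 561 (merge (leaf 1 557 590) (node 525 (merge (leaf 3 524 524) (leaf 3 525 526))))))))) (merge (node 558 (merge (leaf 0 557 593) (node 527 (merge (leaf 2 524 556) (node 525 (merge (leaf 3 524 524) (node 526 (merge (leaf 0 525 561) (node 493 (merge (leaf 3 492 492) (node 590 (merge (leaf 4 461 461) (leaf 7 493 622))))))))))))) (node 653 (merge (node 689 (merge (leaf 0 653 688) (node 657 (merge (leaf 0 654 690) (node 685 (merge (leaf 1 652 684) (leaf 1 653 686))))))) (merge (node 684 (merge (leaf 1 652 685) (node 652 (merge (leaf 1 651 683) (node 620 (merge (leaf 3 619 619) (node 588 (merge (leaf 6 556 589) (node 556 (merge (leaf 6 524 525) (node 555 (merge (leaf 7 523 523) (leaf 7 555 587))))))))))))) (merge (node 688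 (merge (leaf 0 653 689) (node 652 (merge (leaf 0 652 687) (node 684 (merge (leaf 1 651 683) (node 620 (merge (leaf 3 619 619) (node 588 (merge (leaf 6 556 589) (node 556 (merge (leaf 6 524 525) (node 555 (merge (leaf 7 523 523) (leaf 7 555 587))))))))))))))) (node 657 (merge (node 689 (merge (leaf 0 653 688) (leaf 0 654 690))) (merge (node 686 (merge (leaf 1 653 685) (node 687 (merge (leaf 1 654 658) (node 652 (merge (leaf 0 651 651) (leaf 0 652 688))))))) (node 690 (merge (leaf 0 654 689) (node 658 (merge (leaf 0 655 691) (node 686 (merge (leaf 1 653 685) (leaf 1 654 687)))))))))))))))))) (node 621 (merge (node 620 (merge (leaf 3 620 653) (node 622 (merge (leaf 0 619 619) (leaf 3 621 657))))) (merge (node 657 (merge (leaf 3 621 622) (node 690 (merge (leaf 0 654 689) (node 658 (merge (leaf 0 655 691) (node 687 (merge (leaf 1 654 686) (node 659 (merge (leaf 1 655 688) (node 627 (merge (leaf 2 623 626) (leaf 2 624 628))))))))))))) (node 653 (merge (leaf 3 620 620) (node 688 (merge (leaf 0 653 689) (node 652 (merge (leaf 0 652 687) (node 684 (merge (leaf 1 651 683) (node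 557 (merge (leaf 5 556 589) (node 558 (merge (leaf 0 557 593) (node 556 (merge (leaf 2 524 527) (node 524 (merge (leaf 3 523 523) (leaf 3 524 525))))))))))))))))))))))))))) (hyp 0)))))))) nP_83 cP_83 15 (by decide +kernel)

end Crest.Agent.H26Snaky
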