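import Crest.Agent.H26SnP004
import Crest.Agent.H26SnP005

/-! certificate data for S0047, part P 6 (computer generated) -/

set_option autoImplicit false
set_option maxRecDepth 100000

namespace Crest.Agent.H26Snaky

open T

def nP_84 : ℕ := 0x80000000800000000000000000000001c0000000000000000000000000000000000000000000000000000000000000000000000000000000000000000000000000000000000000000000000000000000000000000000
def cP_84 : ℕ := 0x1c0000003c0000003e000001ffc00001ff800001f7c00000778000004fc0000007800000218000000000000000000000000000000000000000000000000000000000000000000000000000000000000000000000000000000000000000000000000000000000000000000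
theorem lP_84 : S nP_84 cP_84 13 := S_of_chk [] trivial (node 719 (merge (node 751 (merge (node 784 (merge (leaf 4 655 752) (node 783 (merge (leaf 4 687 816) (node 782 (merge (leaf 5 654 750) (leaf 5 686 814))))))) (merge (node 654 (merge (leaf 7 622 622) (node 783 (merge (leaf 7 654 686) (node 784 (merge (leaf 4 655 752) (leaf 4 687 816))))))) (merge (node 654 (merge (leaf 7 622 622) (node 783 (merge (leaf 7 654 686) (node 782 (merge (leaf 5 654 750) (leaf 5 686 814))))))) (node 752 (merge (leaf 4 655 784) (node 750 (merge (leaf 5 654 782) (node 718 (merge (leaf 5 622 623) (node 753 (merge (leaf 3 717 717) (leaf 3 718 754))))))))))))) (merge (node 752 (merge (node 720 (merge (leaf 4 623 623) (node 784 (merge (leaf 7 655 688) (leaf 7 687 816))))) (merge (node 784 (merge (leaf 4 655 751) (node 720 (merge (leaf 7 655 688) (leaf 7 687 816))))) (merge (node 751 (merge (leaf 4 655 784) (node 750 (merge (leaf 5 654 782) (node 718 (merge (leaf 5 622 623) (node 753 (merge (leaf 3 717 717) (leaf 3 718 754))))))))) (node 623 (merge (leaf 4 623 720) (node 622 (merge (leaf 7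 590 590) (node 751 (merge (leaf 7 622 654) (node 750 (merge (leaf 5 622 718) (leaf 5 654 782))))))))))))) (merge (node 751 (merge (node 784 (merge (leaf 4 655 752) (node 783 (merge (leaf 4 687 816) (node 782 (merge (leaf 5 654 750) (leaf 5 686 814))))))) (merge (node 654 (merge (leaf 7 622 622) (node 783 (merge (leaf 7 654 686) (node 784 (merge (leaf 4 655 752) (leaf 4 687 816))))))) (merge (node 654 (merge (leaf 7 622 622) (node 783 (merge (leaf 7 654 686) (node 782 (merge (leaf 5 654 750) (leaf 5 686 814))))))) (node 752 (merge (leaf 4 655 784) (node 720 (merge (leaf 4 623 623) (node 750 (merge (leaf 5 654 782) (node 749 (merge (leaf 2 717 721) (leaf 2 716 748))))))))))))) (merge (node 751 (merge (node 622 (merge (leaf 7 622 654) (node 623 (merge (leaf 7 590 590) (node 752 (merge (leaf 4 623 720) (leaf 4 655 784))))))) (merge (node 654 (merge (leaf 7 622 622) (node 783 (merge (leaf 7 654 686) (node 784 (merge (leaf 4 655 752) (leaf 4 687 816))))))) (merge (node 654 (merge (leaf 7 622 622) (node 783 (merge (leaf 7 654 686) (node 688 (merge (leaf 6 655 656) (node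 815 (merge (leaf 6 687 720) (node 814 (merge (leaf 5 686 782) (leaf 5 718 846))))))))))) (node 784 (merge (leaf 4 655 752) (node 783 (merge (leaf 4 687 816) (node 688 (merge (leaf 6 655 656) (node 815 (merge (leaf 6 687 720) (node 814 (merge (leaf 5 686 782) (leaf 5 718 846))))))))))))))) (merge (node 751 (merge (node 622 (merge (leaf 7 622 654) (node 623 (merge (leaf 7 590 590) (node 750 (merge (leaf 5 622 718) (leaf 5 654 782))))))) (merge (node 654 (merge (leaf 7 622 622) (node 783 (merge (leaf 7 654 686) (node 688 (merge (leaf 6 655 656) (node 815 (merge (leaf 6 687 720) (node 816 (merge (leaf 4 687 784) (leaf 4 719 848))))))))))) (node 782 (merge (leaf 5 654 750) (node 783 (merge (leaf 5 686 814) (node 688 (merge (leaf 6 655 656) (node 815 (merge (leaf 6 687 720) (node 816 (merge (leaf 4 687 784) (leaf 4 719 848)))))))))))))) (merge (node 720 (merge (node 752 (merge (leaf 4 623 623) (node 784 (merge (leaf 4 655 751) (leaf 7 687 816))))) (merge (node 752 (merge (leaf 4 623 623) (node 784 (merge (leaf 7 655 688) (leaf 7 687 816))))) (merge (node 718 (merge (node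 750 (merge (leaf 5 622 623) (node 782 (merge (leaf 5 654 751) (leaf 6 686 814))))) (node 685 (merge (node 717 (merge (leaf 3 684 684) (node 688 (merge (leaf 2 685 689) (leaf 2 684 716))))) (merge (node 686 (merge (leaf 0 684 684) (node 721 (merge (leaf 3 685 718) (leaf 3 686 722))))) (node 721 (merge (leaf 3 685 686) (node 753 (merge (leaf 0 718 754) (node 689 (merge (leaf 2 686 690) (node 688 (merge (leaf 2 685 717) (node 785 (merge (leaf 7 656 656) (leaf 7 688 817)))))))))))))))) (node 751 (merge (node 752 (merge (leaf 4 655 784) (node 750 (merge (leaf 5 654 782) (node 749 (merge (leaf 2 717 721) (leaf 2 716 748))))))) (merge (node 782 (merge (leaf 5 654 750) (node 783 (merge (leaf 5 686 814) (node 688 (merge (leaf 6 655 656) (node 815 (merge (leaf 6 687 720) (node 816 (merge (leaf 4 687 784) (leaf 4 719 848))))))))))) (merge (node 784 (merge (leaf 4 655 752) (node 783 (merge (leaf 4 687 816) (node 688 (merge (leaf 6 655 656) (node 815 (merge (leaf 6 687 720) (node 814 (merge (leaf 5 686 782) (leaf 5 718 846))))))))))) (merge (node 784 (merge (leaf 4 655 752) (node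 783 (merge (leaf 4 687 816) (node 815 (merge (leaf 6 687 688) (node 718 (merge (leaf 7 686 686) (node 750 (merge (leaf 7 718 847) (node 749 (merge (leaf 1 717 721) (leaf 0 748 748))))))))))))) (node 750 (merge (leaf 5 654 782) (node 721 (merge (leaf 1 718 722) (node 749 (merge (leaf 1 717 718) (leaf 2 716 748)))))))))))))))) (merge (node 720 (merge (node 752 (merge (leaf 4 623 623) (node 784 (merge (leaf 4 655 751) (leaf 7 687 816))))) (merge (node 752 (merge (leaf 4 623 623) (node 784 (merge (leaf 7 655 688) (leaf 7 687 816))))) (merge (node 721 (merge (node 722 (merge (leaf 3 686 686) (node 755 (merge (leaf 0 719 754) (node 723 (merge (leaf 3 687 688) (leaf 0 720 756))))))) (merge (node 722 (merge (leaf 3 686 686) (node 750 (merge (leaf 1 718 751) (node 718 (merge (leaf 1 717 749) (node 690 (merge (leaf 2 686 689) (leaf 2 687 691))))))))) (merge (node 722 (merge (node 755 (merge (leaf 0 719 754) (node 723 (merge (leaf 3 687 688) (leaf 0 720 756))))) (node 750 (merge (leaf 1 718 751) (node 718 (merge (leaf 1 717 749) (node 690 (merge (leaf 2 686 689) (leaf 2 687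 691))))))))) (node 654 (merge (node 622 (merge (leaf 4 558 590) (leaf 7 622 751))) (merge (node 688 (merge (node 686 (merge (leaf 0 685 685) (node 689 (merge (leaf 3 653 653) (leaf 3 654 690))))) (merge (node 653 (merge (leaf 0 652 652) (node 689 (merge (leaf 0 653 656) (leaf 3 654 690))))) (merge (node 653 (merge (leaf 0 652 652) (node 685 (merge (leaf 0 685 686) (node 684 (merge (leaf 1 652 656) (node 718 (merge (leaf 3 684 717) (node 750 (merge (leaf 5 622 623) (leaf 1 717 749))))))))))) (node 689 (merge (leaf 3 654 690) (node 718 (merge (leaf 2 685 717) (node 753 (merge (leaf 0 718 754) (node 785 (merge (leaf 7 656 656) (leaf 7 688 817))))))))))))) (node 685 (merge (node 686 (merge (leaf 0 684 684) (leaf 3 685 718))) (merge (node 686 (merge (leaf 0 685 688) (leaf 3 685 718))) (node 590 (merge (leaf 4 558 622) (node 589 (merge (leaf 1 557 561) (node 653 (merge (leaf 6 557 621) (node 688 (merge (leaf 0 652 652) (node 656 (merge (leaf 1 652 684) (leaf 0 653 689))))))))))))))))))))) (node 721 (merge (node 722 (merge (leaf 3 686 686) (node 755 (merge (leaf 0 719 754)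 (node 723 (merge (leaf 3 687 688) (leaf 0 720 756))))))) (merge (node 722 (merge (leaf 3 686 686) (node 750 (merge (leaf 1 718 751) (node 718 (merge (leaf 1 717 749) (node 690 (merge (leaf 2 686 689) (leaf 2 687 691))))))))) (merge (node 722 (merge (node 755 (merge (leaf 0 719 754) (node 723 (merge (leaf 3 687 688) (leaf 0 720 756))))) (node 750 (merge (leaf 1 718 751) (node 718 (merge (leaf 1 717 749) (node 690 (merge (leaf 2 686 689) (leaf 2 687 691))))))))) (node 654 (merge (node 622 (merge (leaf 4 558 590) (leaf 7 622 751))) (merge (node 688 (merge (node 686 (merge (leaf 0 685 685) (node 689 (merge (leaf 3 653 653) (leaf 3 654 690))))) (merge (node 653 (merge (leaf 0 652 652) (node 689 (merge (leaf 0 653 656) (leaf 3 654 690))))) (merge (node 653 (merge (leaf 0 652 652) (node 685 (merge (leaf 0 685 686) (node 656 (merge (leaf 1 652 684) (node 752 (merge (leaf 7 655 784) (node 753 (merge (leaf 4 656 785) (node 754 (merge (leaf 0 718 718) (leaf 3 719 755))))))))))))) (node 784 (merge (leaf 7 655 752) (node 689 (merge (leaf 3 654 690) (node 718 (merge (leaf 2 685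 717) (node 753 (merge (leaf 0 718 754) (node 785 (merge (leaf 7 656 656) (leaf 5 688 816))))))))))))))) (node 685 (merge (node 686 (merge (leaf 0 684 684) (leaf 3 685 718))) (merge (node 686 (merge (leaf 0 685 688) (leaf 3 685 718))) (node 590 (merge (leaf 4 558 622) (node 589 (merge (leaf 1 557 561) (node 653 (merge (leaf 6 557 621) (node 688 (merge (leaf 0 652 652) (node 656 (merge (leaf 1 652 684) (leaf 0 653 689))))))))))))))))))))))))) (merge (node 718 (merge (node 750 (merge (leaf 5 622 623) (node 782 (merge (leaf 5 654 751) (leaf 6 686 814))))) (merge (node 750 (merge (leaf 5 622 623) (node 782 (merge (leaf 6 654 686) (leaf 6 686 814))))) (merge (node 717 (merge (node 716 (merge (leaf 2 684 688) (node 747 (merge (leaf 1 715 748) (node 715 (merge (leaf 2 683 686) (leaf 1 714 746))))))) (merge (node 716 (merge (leaf 2 684 688) (node 752 (merge (leaf 0 716 751) (node 720 (merge (leaf 0 717 753) (node 684 (merge (leaf 3 683 683) (leaf 3 684 685))))))))) (merge (node 622 (merge (node 654 (merge (leaf 4 558 590) (leaf 7 622 751))) (merge (node 751 (merge (leaf 7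 622 654) (node 716 (merge (leaf 0 716 752) (node 748 (merge (leaf 1 715 747) (node 720 (merge (leaf 1 716 749) (node 684 (merge (leaf 3 683 683) (leaf 3 684 685))))))))))) (node 623 (merge (leaf 7 590 590) (node 720 (merge (leaf 4 623 752) (node 685 (merge (leaf 3 684 684) (node 721 (merge (leaf 3 685 686) (node 754 (merge (leaf 0 718 753) (node 722 (merge (leaf 0 719 755) (node 690 (merge (leaf 2 686 689) (leaf 2 687 691)))))))))))))))))) (node 622 (merge (node 654 (merge (leaf 4 558 590) (leaf 7 622 751))) (merge (node 623 (merge (leaf 7 590 590) (node 720 (merge (leaf 4 623 752) (node 685 (merge (leaf 3 684 684) (node 721 (merge (leaf 3 685 686) (node 754 (merge (leaf 0 718 753) (node 722 (merge (leaf 0 719 755) (node 690 (merge (leaf 2 686 689) (leaf 2 687 691))))))))))))))) (node 654 (merge (leaf 7 622 751) (node 686 (merge (leaf 5 621 749) (node 621 (merge (leaf 7 589 589) (node 688 (merge (leaf 1 685 689) (node 653 (merge (leaf 0 652 652) (node 656 (merge (leaf 3 620 620) (leaf 3 621 657)))))))))))))))))))) (node 717 (merge (node 716 (merge (leaf 2 684 688)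 (node 747 (merge (leaf 1 715 748) (node 715 (merge (leaf 2 683 686) (leaf 1 714 746))))))) (merge (node 716 (merge (leaf 2 684 688) (node 752 (merge (leaf 0 716 751) (node 720 (merge (leaf 0 717 753) (node 684 (merge (leaf 3 683 683) (leaf 3 684 685))))))))) (merge (node 751 (merge (node 654 (merge (leaf 7 622 622) (node 783 (merge (leaf 7 654 686) (node 782 (merge (leaf 5 654 750) (leaf 5 686 814))))))) (merge (node 716 (merge (leaf 0 716 752) (node 750 (merge (leaf 0 715 715) (leaf 5 654 782))))) (merge (node 716 (merge (leaf 0 716 752) (node 748 (merge (leaf 1 715 747) (node 720 (merge (leaf 1 716 749) (node 684 (merge (leaf 3 683 683) (leaf 3 684 685))))))))) (node 716 (merge (leaf 0 716 752) (node 715 (merge (leaf 2 683 686) (leaf 0 715 750))))))))) (node 654 (merge (node 622 (merge (leaf 4 558 590) (leaf 7 622 751))) (node 720 (merge (node 689 (merge (leaf 2 685 688) (node 721 (merge (leaf 2 686 690) (node 685 (merge (leaf 3 684 684) (leaf 3 685 686))))))) (merge (node 688 (merge (leaf 2 685 689) (node 653 (merge (leaf 0 652 652) (node 685 (merge (leaf 3 684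 684) (node 621 (merge (leaf 4 621 750) (node 620 (merge (leaf 7 588 588) (leaf 3 620 656))))))))))) (merge (node 753 (merge (leaf 0 717 752) (node 721 (merge (leaf 0 718 754) (node 685 (merge (leaf 3 684 684) (leaf 3 685 686))))))) (node 753 (merge (leaf 0 717 752) (node 721 (merge (leaf 0 718 754) (node 749 (merge (leaf 1 716 748) (leaf 1 717 750))))))))))))))))))))) (merge (node 720 (merge (node 752 (merge (leaf 4 623 623) (node 784 (merge (leaf 7 655 688) (leaf 7 687 816))))) (merge (node 718 (merge (node 750 (merge (leaf 5 622 623) (node 782 (merge (leaf 6 654 686) (leaf 6 686 814))))) (merge (node 685 (merge (node 717 (merge (leaf 3 684 684) (node 688 (merge (leaf 2 685 689) (leaf 2 684 716))))) (merge (node 686 (merge (leaf 0 684 684) (node 721 (merge (leaf 3 685 718) (leaf 3 686 722))))) (node 721 (merge (leaf 3 685 686) (node 753 (merge (leaf 0 718 754) (node 689 (merge (leaf 2 686 690) (node 688 (merge (leaf 2 685 717) (node 785 (merge (leaf 7 656 656) (leaf 7 688 817)))))))))))))) (node 750 (merge (leaf 5 622 623) (node 721 (merge (leaf 1 717 749) (node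 753 (merge (leaf 0 718 754) (node 689 (merge (leaf 2 686 690) (node 688 (merge (leaf 2 685 717) (node 785 (merge (leaf 7 656 656) (leaf 7 688 817)))))))))))))))) (merge (node 721 (merge (node 722 (merge (leaf 3 686 686) (node 755 (merge (leaf 0 719 754) (node 723 (merge (leaf 3 687 688) (leaf 0 720 756))))))) (merge (node 722 (merge (leaf 3 686 686) (node 691 (merge (leaf 2 687 690) (node 723 (merge (leaf 3 687 688) (leaf 2 688 692))))))) (merge (node 722 (merge (leaf 3 686 686) (node 754 (merge (leaf 0 719 755) (node 718 (merge (leaf 0 718 753) (node 690 (merge (leaf 2 686 689) (leaf 2 687 691))))))))) (merge (node 722 (merge (node 755 (merge (leaf 0 719 754) (node 723 (merge (leaf 3 687 688) (leaf 0 720 756))))) (merge (node 691 (merge (leaf 2 687 690) (node 723 (merge (leaf 3 687 688) (leaf 2 688 692))))) (node 754 (merge (leaf 0 719 755) (node 718 (merge (leaf 0 718 753) (node 690 (merge (leaf 2 686 689) (leaf 2 687 691)))))))))) (node 718 (merge (node 750 (merge (leaf 1 717 749) (node 686 (merge (leaf 3 685 685) (leaf 6 654 782))))) (merge (node 749 (merge (leaf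 1 717 750) (node 717 (merge (leaf 1 716 748) (node 689 (merge (leaf 2 685 688) (leaf 2 686 690))))))) (merge (node 753 (merge (leaf 0 718 754) (node 717 (merge (leaf 0 717 752) (node 716 (merge (leaf 2 684 688) (node 686 (merge (leaf 3 685 685) (leaf 2 683 715))))))))) (node 753 (merge (leaf 0 718 754) (node 717 (merge (leaf 0 717 752) (node 688 (merge (leaf 2 685 689) (leaf 2 684 716)))))))))))))))) (node 721 (merge (node 722 (merge (leaf 3 686 686) (node 754 (merge (leaf 0 719 755) (node 718 (merge (leaf 0 718 753) (node 690 (merge (leaf 2 686 689) (leaf 2 687 691))))))))) (merge (node 623 (merge (leaf 4 623 752) (node 718 (merge (leaf 5 622 750) (node 754 (merge (leaf 0 718 753) (node 722 (merge (leaf 0 719 755) (node 690 (merge (leaf 2 686 689) (leaf 2 687 691))))))))))) (merge (node 722 (merge (leaf 3 686 686) (node 755 (merge (leaf 0 719 754) (node 723 (merge (leaf 0 720 756) (node 690 (merge (leaf 2 687 691) (node 752 (merge (leaf 4 623 623) (node 753 (merge (leaf 1 720 724) (node 785 (merge (leaf 6 689 817) (node 658 (merge (leaf 4 626 626) (leaf 6 657 689)))))))))))))))))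 (node 623 (merge (leaf 4 623 752) (node 622 (merge (leaf 7 590 590) (node 718 (merge (leaf 5 622 750) (node 685 (merge (leaf 3 685 686) (node 717 (merge (leaf 3 684 684) (node 749 (merge (leaf 1 716 748) (node 653 (merge (leaf 6 621 654) (node 620 (merge (leaf 7 620 652) (node 621 (merge (leaf 7 588 588) (leaf 0 620 656))))))))))))))))))))))))))) (node 654 (merge (node 622 (merge (leaf 7 622 751) (node 590 (merge (leaf 4 558 558) (leaf 4 590 686))))) (merge (node 751 (merge (leaf 7 622 622) (node 784 (merge (leaf 4 655 752) (node 783 (merge (leaf 4 687 816) (node 782 (merge (leaf 5 654 750) (leaf 5 686 814))))))))) (merge (node 751 (merge (node 783 (merge (leaf 7 654 686) (node 784 (merge (leaf 4 655 752) (leaf 4 687 816))))) (merge (node 783 (merge (leaf 7 654 686) (node 782 (merge (leaf 5 654 750) (leaf 5 686 814))))) (merge (node 784 (merge (leaf 4 655 752) (node 783 (merge (leaf 4 687 816) (node 782 (merge (leaf 5 654 750) (leaf 5 686 814))))))) (node 718 (merge (node 752 (merge (leaf 4 655 784) (node 717 (merge (leaf 0 716 716) (node 753 (merge (leaf 0 717 720)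 (leaf 3 718 754))))))) (merge (node 752 (merge (leaf 4 655 784) (node 753 (merge (leaf 3 718 754) (node 750 (merge (leaf 3 717 717) (leaf 5 654 782))))))) (merge (node 688 (merge (node 689 (merge (leaf 1 686 690) (node 717 (merge (leaf 1 685 686) (leaf 2 684 716))))) (merge (node 653 (merge (leaf 0 652 652) (node 686 (merge (leaf 3 653 689) (node 750 (merge (leaf 5 654 782) (node 718 (merge (leaf 7 621 621) (node 749 (merge (leaf 5 653 781) (node 748 (merge (leaf 2 716 720) (leaf 2 715 747))))))))))))) (merge (node 653 (merge (leaf 0 652 652) (node 750 (merge (leaf 5 654 782) (node 686 (merge (leaf 7 621 621) (node 749 (merge (leaf 5 653 781) (node 748 (merge (leaf 2 716 720) (leaf 2 715 747))))))))))) (node 689 (merge (leaf 1 686 690) (node 717 (merge (leaf 2 684 716) (leaf 2 685 720))))))))) (node 752 (merge (leaf 4 655 784) (node 753 (merge (leaf 3 718 754) (node 750 (merge (leaf 5 654 782) (node 721 (merge (leaf 2 718 722) (node 749 (merge (leaf 1 717 720) (node 686 (merge (leaf 5 653 781) (node 653 (merge (leaf 7 621 621) (node 688 (merge (leaf 0 652 652) (leaf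 3 653 689))))))))))))))))))))))))) (node 653 (merge (node 688 (merge (leaf 0 652 652) (node 689 (merge (leaf 3 653 686) (leaf 3 654 690))))) (merge (node 652 (merge (leaf 0 652 688) (node 683 (merge (leaf 1 651 684) (node 651 (merge (leaf 1 650 682) (node 619 (merge (leaf 3 618 618) (leaf 3 619 620))))))))) (merge (node 652 (merge (node 620 (merge (leaf 3 619 619) (node 590 (merge (leaf 4 558 622) (node 589 (merge (leaf 1 557 561) (node 685 (merge (leaf 6 557 621) (node 588 (merge (leaf 4 556 556) (leaf 2 555 587))))))))))) (merge (node 651 (merge (leaf 0 651 686) (node 684 (merge (leaf 1 651 683) (node 619 (merge (leaf 3 618 618) (node 587 (merge (leaf 4 555 555) (node 590 (merge (leaf 4 558 622) (node 589 (merge (leaf 1 557 561) (leaf 2 555 588))))))))))))) (merge (node 686 (merge (leaf 0 651 651) (node 684 (merge (leaf 1 651 683) (node 685 (merge (leaf 0 684 720) (node 620 (merge (leaf 3 619 619) (node 717 (merge (leaf 4 588 588) (leaf 7 620 749))))))))))) (merge (node 684 (merge (leaf 1 651 683) (node 620 (merge (leaf 3 619 619) (node 590 (merge (leaf 4 558 622)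 (node 589 (merge (leaf 1 557 561) (node 621 (merge (leaf 6 557 685) (leaf 6 588 716))))))))))) (merge (node 684 (merge (leaf 1 651 683) (node 620 (merge (leaf 3 619 619) (node 590 (merge (leaf 4 558 622) (node 589 (merge (leaf 1 557 561) (node 621 (merge (leaf 6 557 685) (leaf 6 588 716))))))))))) (node 684 (merge (leaf 1 651 683) (node 590 (merge (leaf 4 558 622) (node 589 (merge (leaf 1 557 561) (node 685 (merge (leaf 6 557 621) (node 588 (merge (leaf 2 555 587) (node 620 (merge (leaf 4 556 556) (leaf 4 588 717))))))))))))))))))) (node 685 (merge (node 590 (merge (leaf 4 558 622) (node 589 (merge (leaf 1 557 561) (leaf 6 557 621))))) (merge (node 684 (merge (node 683 (merge (leaf 2 650 682) (leaf 2 651 686))) (merge (node 686 (merge (leaf 0 684 720) (node 716 (merge (leaf 1 683 715) (node 688 (merge (leaf 3 653 689) (leaf 1 684 717))))))) (node 683 (merge (leaf 2 650 682) (node 622 (merge (leaf 4 558 590) (node 717 (merge (leaf 6 621 749) (node 718 (merge (leaf 3 683 716) (leaf 3 684 720)))))))))))) (node 686 (merge (node 684 (merge (leaf 2 651 683) (leaf 0 684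 720))) (merge (node 688 (merge (leaf 3 653 689) (node 720 (merge (leaf 0 685 721) (node 717 (merge (leaf 1 684 716) (node 752 (merge (leaf 7 655 784) (node 718 (merge (leaf 0 717 753) (node 750 (merge (leaf 7 621 621) (leaf 6 654 782))))))))))))) (node 684 (merge (leaf 2 651 683) (node 716 (merge (leaf 1 683 715) (node 688 (merge (leaf 3 653 689) (leaf 1 684 717))))))))))))))))))))))))))))))) nP_84 cP_84 13 (by decide +kernel)
def nP_85 : ℕ := 0x800000000000000100000001c0000001000000000000000000000000000000000000000000000000000000000000000000000000000000000000000000000000000000000000000000000000000000000000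
def cP_85 : ℕ := 0x1c0000003c0000003e000001ffc00001ff800001ffc00000f7800000dfc00000e7800000e1800001c000000000000000000000000000000000000000000000000000000000000000000000000000000000000000000000000000000000000000000000000000000000000
theorem lP_85 : S nP_85 cP_85 14 := S_of_chk [(nP_84, cP_84, 13)] ⟨lP_84, trivial⟩ (node 687 (merge (node 624 (merge (leaf 5 527 623) (leaf 5 559 656))) (merge (node 656 (merge (leaf 5 559 624) (node 654 (merge (node 622 (merge (leaf 4 558 590) (node 657 (merge (leaf 3 621 621) (node 658 (merge (leaf 1 654 686) (node 691 (merge (leaf 0 655 690) (node 659 (merge (leaf 1 655 688) (leaf 0 656 692))))))))))) (merge (node 653 (merge (node 652 (merge (leaf 0 652 688) (node 651 (merge (leaf 0 651 686) (node 619 (merge (leaf 3 618 618) (leaf 3 619 620))))))) (merge (node 688 (merge (leaf 0 652 652) (leaf 0 653 689))) (node 685 (merge (leaf 1 652 684) (node 621 (merge (leaf 3 620 620) (node 590 (merge (leaf 6 557 589) (leaf 5 557 622)))))))))) (merge (node 590 (merge (leaf 4 558 622) (node 561 (merge (leaf 1 557 589) (node 594 (merge (leaf 0 558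 593) (node 562 (merge (leaf 0 559 595) (node 531 (merge (leaf 2 527 530) (node 563 (merge (leaf 2 528 532) (node 658 (merge (leaf 6 530 626) (node 657 (merge (leaf 1 654 686) (node 690 (merge (leaf 0 654 689) (leaf 0 655 691))))))))))))))))))) (merge (node 622 (merge (leaf 4 558 590) (node 657 (merge (leaf 3 621 621) (node 689 (merge (leaf 0 654 690) (node 688 (merge (leaf 0 653 653) (node 658 (merge (leaf 1 655 659) (node 626 (merge (leaf 2 623 627) (node 594 (merge (leaf 5 561 562) (node 593 (merge (leaf 0 558 561) (leaf 3 559 595))))))))))))))))) (merge (node 689 (merge (node 688 (merge (leaf 0 653 653) (leaf 3 654 690))) (merge (node 653 (merge (leaf 0 653 688) (node 685 (merge (leaf 1 652 684) (node 686 (merge (leaf 1 653 657) (node 621 (merge (leaf 3 620 620) (node 589 (merge (leaf 6 557 590) (leaf 4 589 718))))))))))) (node 657 (merge (leaf 0 654 690) (node 658 (merge (leaf 1 654 686) (node 626 (merge (leaf 2 623 627) (node 594 (merge (leaf 5 561 562) (node 593 (merge (leaf 0 558 561) (leaf 3 559 595)))))))))))))) (node 689 (merge (node 688 (merge (leaf 0 653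 653) (leaf 3 654 690))) (merge (node 653 (merge (leaf 0 653 688) (node 621 (merge (leaf 3 620 620) (node 657 (merge (leaf 3 621 622) (node 658 (merge (leaf 1 654 686) (node 626 (merge (leaf 2 623 627) (node 594 (merge (leaf 5 561 562) (node 593 (merge (leaf 0 558 561) (leaf 3 559 595))))))))))))))) (node 657 (merge (leaf 0 654 690) (node 658 (merge (leaf 1 654 686) (node 626 (merge (leaf 2 623 627) (node 594 (merge (leaf 5 561 562) (node 593 (merge (leaf 0 558 561) (leaf 3 559 595)))))))))))))))))))))) (merge (node 719 (merge (node 623 (merge (leaf 6 591 624) (node 622 (merge (leaf 7 590 590) (node 751 (merge (leaf 7 622 654) (node 752 (merge (leaf 4 623 720) (leaf 4 655 784))))))))) (merge (node 623 (merge (leaf 6 591 624) (node 622 (merge (leaf 7 590 590) (node 751 (merge (leaf 7 622 654) (node 750 (merge (leaf 5 622 718) (leaf 5 654 782))))))))) (merge (node 623 (merge (leaf 6 591 624) (node 752 (merge (leaf 4 623 720) (node 751 (merge (leaf 4 655 784) (node 750 (merge (leaf 5 622 718) (leaf 5 654 782))))))))) (merge (node 718 (merge (node 623 (merge (leaf 6 591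 624) (leaf 5 622 750))) (merge (node 689 (merge (node 688 (merge (leaf 1 686 690) (node 717 (merge (leaf 2 684 716) (leaf 2 685 720))))) (merge (node 688 (merge (leaf 1 686 690) (node 717 (merge (leaf 1 685 686) (leaf 2 684 716))))) (merge (node 623 (merge (leaf 6 591 624) (node 720 (merge (leaf 4 623 752) (node 721 (merge (leaf 2 686 690) (node 754 (merge (leaf 0 718 753) (node 722 (merge (leaf 3 686 686) (leaf 0 719 755))))))))))) (node 623 (merge (leaf 6 591 624) (node 622 (merge (leaf 7 590 590) (node 720 (merge (leaf 4 623 752) (node 717 (merge (leaf 2 685 688) (node 749 (merge (leaf 1 716 748) (node 685 (merge (leaf 3 684 684) (node 686 (merge (leaf 5 621 654) (leaf 3 685 721))))))))))))))))))) (node 717 (merge (node 716 (merge (leaf 2 684 688) (node 747 (merge (leaf 1 715 748) (node 715 (merge (leaf 2 683 686) (leaf 1 714 746))))))) (merge (node 688 (merge (leaf 2 684 716) (node 689 (merge (leaf 1 686 690) (leaf 2 685 720))))) (merge (node 684 (merge (node 716 (merge (leaf 3 683 683) (node 747 (merge (leaf 1 715 748) (node 715 (merge (leaf 2 683 686) (leaf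 1 714 746))))))) (merge (node 720 (merge (leaf 3 684 685) (node 753 (merge (leaf 0 717 752) (node 721 (merge (leaf 0 718 754) (node 749 (merge (leaf 1 716 748) (leaf 1 717 750))))))))) (node 683 (merge (leaf 3 683 716) (node 685 (merge (leaf 0 683 686) (leaf 3 684 720)))))))) (merge (node 716 (merge (leaf 2 684 688) (node 686 (merge (leaf 2 683 715) (node 750 (merge (leaf 6 654 782) (node 684 (merge (leaf 3 683 683) (node 720 (merge (leaf 0 684 685) (node 721 (merge (leaf 3 686 722) (leaf 1 717 749))))))))))))) (node 720 (merge (node 752 (merge (leaf 0 717 753) (node 688 (merge (leaf 2 685 689) (leaf 7 655 784))))) (merge (node 689 (merge (leaf 2 685 688) (node 721 (merge (leaf 2 686 690) (node 685 (merge (leaf 3 684 684) (leaf 3 685 686))))))) (merge (node 749 (merge (leaf 1 716 748) (node 721 (merge (leaf 1 717 750) (node 688 (merge (leaf 2 685 689) (node 722 (merge (leaf 3 686 686) (leaf 3 687 723))))))))) (node 753 (merge (leaf 0 717 752) (node 721 (merge (leaf 0 718 754) (node 685 (merge (leaf 3 684 684) (leaf 3 685 686))))))))))))))))))) (node 654 (merge (node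 622 (merge (leaf 7 622 751) (node 590 (merge (leaf 4 558 558) (leaf 4 590 686))))) (merge (node 751 (merge (leaf 7 622 622) (node 784 (merge (leaf 4 655 752) (node 783 (merge (leaf 4 687 816) (node 782 (merge (leaf 5 654 750) (leaf 5 686 814))))))))) (merge (node 751 (merge (node 783 (merge (leaf 7 654 686) (node 784 (merge (leaf 4 655 752) (leaf 4 687 816))))) (merge (node 783 (merge (leaf 7 654 686) (node 782 (merge (leaf 5 654 750) (leaf 5 686 814))))) (merge (node 784 (merge (leaf 4 655 752) (node 783 (merge (leaf 4 687 816) (node 782 (merge (leaf 5 654 750) (leaf 5 686 814))))))) (node 718 (merge (node 752 (merge (leaf 4 655 784) (node 717 (merge (leaf 0 716 716) (node 753 (merge (leaf 0 717 720) (leaf 3 718 754))))))) (merge (node 752 (merge (leaf 4 655 784) (node 753 (merge (leaf 3 718 754) (node 750 (merge (leaf 3 717 717) (leaf 5 654 782))))))) (merge (node 688 (merge (node 689 (merge (leaf 1 686 690) (node 717 (merge (leaf 1 685 686) (leaf 2 684 716))))) (merge (node 653 (merge (leaf 0 652 652) (node 686 (merge (leaf 3 653 689) (node 750 (merge (leaf 5 654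 782) (node 718 (merge (leaf 7 621 621) (node 749 (merge (leaf 5 653 781) (node 748 (merge (leaf 2 716 720) (leaf 2 715 747))))))))))))) (merge (node 653 (merge (leaf 0 652 652) (node 750 (merge (leaf 5 654 782) (node 686 (merge (leaf 7 621 621) (node 749 (merge (leaf 5 653 781) (node 748 (merge (leaf 2 716 720) (leaf 2 715 747))))))))))) (node 689 (merge (leaf 1 686 690) (node 717 (merge (leaf 2 684 716) (leaf 2 685 720))))))))) (node 752 (merge (leaf 4 655 784) (node 753 (merge (leaf 3 718 754) (node 750 (merge (leaf 5 654 782) (node 721 (merge (leaf 2 718 722) (node 749 (merge (leaf 1 717 720) (node 686 (merge (leaf 5 653 781) (node 653 (merge (leaf 7 621 621) (node 688 (merge (leaf 0 652 652) (leaf 3 653 689))))))))))))))))))))))))) (node 653 (merge (node 688 (merge (leaf 0 652 652) (node 689 (merge (leaf 3 653 686) (leaf 3 654 690))))) (merge (node 652 (merge (leaf 0 652 688) (node 683 (merge (leaf 1 651 684) (node 651 (merge (leaf 1 650 682) (node 619 (merge (leaf 3 618 618) (leaf 3 619 620))))))))) (merge (node 652 (merge (node 620 (merge (leaf 3 619 619) (node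 590 (merge (leaf 4 558 622) (node 589 (merge (leaf 1 557 561) (node 685 (merge (leaf 6 557 621) (node 588 (merge (leaf 4 556 556) (leaf 2 555 587))))))))))) (merge (node 651 (merge (leaf 0 651 686) (node 684 (merge (leaf 1 651 683) (node 619 (merge (leaf 3 618 618) (node 587 (merge (leaf 4 555 555) (node 590 (merge (leaf 4 558 622) (node 589 (merge (leaf 1 557 561) (leaf 2 555 588))))))))))))) (merge (node 686 (merge (leaf 0 651 651) (node 684 (merge (leaf 1 651 683) (node 685 (merge (leaf 0 684 720) (node 620 (merge (leaf 3 619 619) (node 717 (merge (leaf 4 588 588) (leaf 7 620 749))))))))))) (merge (node 684 (merge (leaf 1 651 683) (node 620 (merge (leaf 3 619 619) (node 590 (merge (leaf 4 558 622) (node 589 (merge (leaf 1 557 561) (node 621 (merge (leaf 6 557 685) (leaf 6 588 716))))))))))) (merge (node 684 (merge (leaf 1 651 683) (node 620 (merge (leaf 3 619 619) (node 590 (merge (leaf 4 558 622) (node 589 (merge (leaf 1 557 561) (node 621 (merge (leaf 6 557 685) (leaf 6 588 716))))))))))) (node 684 (merge (leaf 1 651 683) (node 590 (merge (leaf 4 558 622) (node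 589 (merge (leaf 1 557 561) (node 685 (merge (leaf 6 557 621) (node 588 (merge (leaf 2 555 587) (node 620 (merge (leaf 4 556 556) (leaf 4 588 717))))))))))))))))))) (node 685 (merge (node 590 (merge (leaf 4 558 622) (node 589 (merge (leaf 1 557 561) (leaf 6 557 621))))) (merge (node 684 (merge (node 683 (merge (leaf 2 650 682) (leaf 2 651 686))) (merge (node 686 (merge (leaf 0 684 720) (node 716 (merge (leaf 1 683 715) (node 688 (merge (leaf 3 653 689) (leaf 1 684 717))))))) (node 683 (merge (leaf 2 650 682) (node 622 (merge (leaf 4 558 590) (node 717 (merge (leaf 6 621 749) (node 718 (merge (leaf 3 683 716) (leaf 3 684 720)))))))))))) (node 686 (merge (node 684 (merge (leaf 2 651 683) (leaf 0 684 720))) (merge (node 688 (merge (leaf 3 653 689) (node 720 (merge (leaf 0 685 721) (node 717 (merge (leaf 1 684 716) (node 752 (merge (leaf 7 655 784) (node 718 (merge (leaf 0 717 753) (node 750 (merge (leaf 7 621 621) (leaf 6 654 782))))))))))))) (node 684 (merge (leaf 2 651 683) (node 716 (merge (leaf 1 683 715) (node 688 (merge (leaf 3 653 689) (leaf 1 684 717))))))))))))))))))))))))))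 (hyp 0))))) nP_85 cP_85 14 (by decide +kernel)
def nP_86 : ℕ := 0x10000000100000001000000000000000000000000000000000000000000000000000000000000000000000000000000000000000000000000000000000000000000000000000000000000
def cP_86 : ℕ := 0x1c0000003c0000003e000001ffc00001ff800003ffc00001ffc00003dfe00003efc00001ef800001cfc0000077000001fe000001fe00000008000000000000000000000000000000000000000000000000000000000000000000000000000000000000000000000000000
theorem lP_86 : S nP_86 cP_86 17 := S_of_chk [(nP_79, cP_79, 14), (nP_80, cP_80, 15), (nP_81, cP_81, 13), (nP_83, cP_83, 15), (nP_85, cP_85, 14)] ⟨lP_79, lP_80, lP_81, lP_83, lP_85, trivial⟩ (node 655 (merge (node 623 (merge (leaf 5 527 624) (node 591 (merge (leaf 5 495 496) (leaf 6 527 559))))) (merge (node 623 (merge (leaf 5 527 624) (node 591 (merge (leaf 5 495 496) (leaf 6 559 687))))) (merge (node 623 (merge (leaf 5 527 624) (node 591 (merge (leaf 6 527 559) (leaf 6 559 687))))) (merge (node 591 (merge (node 623 (merge (leaf 5 495 496) (leaf 6 559 687))) (merge (node 496 (merge (leaf 5 495 623) (node 465 (merge (leaf 6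 464 497) (node 464 (merge (leaf 6 432 433) (leaf 5 463 559))))))) (node 590 (merge (node 561 (merge (leaf 2 557 589) (node 562 (merge (leaf 1 559 563) (node 590 (merge (leaf 1 558 559) (leaf 2 558 593))))))) (merge (node 589 (merge (leaf 2 557 561) (node 620 (merge (leaf 1 588 621) (node 588 (merge (leaf 2 556 559) (leaf 1 587 619))))))) (merge (node 589 (merge (leaf 2 557 561) (node 621 (merge (leaf 1 588 620) (node 593 (merge (leaf 1 589 622) (node 557 (merge (leaf 3 556 556) (leaf 3 557 558))))))))) (merge (node 593 (merge (node 621 (merge (leaf 1 589 622) (node 589 (merge (leaf 1 588 620) (node 557 (merge (leaf 3 556 556) (leaf 3 557 558))))))) (merge (node 558 (merge (leaf 3 557 557) (node 594 (merge (leaf 3 558 559) (node 627 (merge (leaf 0 591 626) (node 595 (merge (leaf 0 592 628) (node 563 (merge (leaf 2 559 562) (leaf 2 560 564))))))))))) (merge (node 621 (merge (leaf 1 589 622) (node 589 (merge (leaf 1 588 620) (node 559 (merge (leaf 2 556 588) (node 594 (merge (leaf 3 558 558) (leaf 3 559 595))))))))) (node 621 (merge (leaf 1 589 622) (node 589 (merge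 (leaf 1 588 620) (node 556 (merge (leaf 3 556 557) (node 588 (merge (leaf 3 555 555) (leaf 2 556 559))))))))))))) (node 622 (merge (node 593 (merge (leaf 1 589 621) (node 562 (merge (leaf 2 558 561) (node 594 (merge (leaf 2 559 563) (node 627 (merge (leaf 0 591 626) (node 595 (merge (leaf 3 559 559) (leaf 0 592 628))))))))))) (merge (node 558 (merge (node 654 (merge (leaf 4 558 687) (node 559 (merge (leaf 6 526 527) (leaf 6 558 686))))) (merge (node 557 (merge (leaf 3 557 593) (node 654 (merge (leaf 7 525 525) (leaf 4 558 687))))) (node 593 (merge (leaf 3 557 557) (node 594 (merge (leaf 3 558 559) (node 562 (merge (leaf 2 558 561) (leaf 2 559 563)))))))))) (merge (node 558 (merge (node 593 (merge (leaf 3 557 557) (leaf 1 589 621))) (merge (node 557 (merge (leaf 3 557 593) (node 654 (merge (leaf 7 525 525) (leaf 4 558 687))))) (node 654 (merge (leaf 4 558 687) (node 653 (merge (leaf 5 557 685) (node 621 (merge (leaf 5 525 526) (node 656 (merge (leaf 3 620 620) (leaf 3 621 657)))))))))))) (node 654 (merge (node 559 (merge (leaf 6 558 686) (node 558 (merge (leaf 6 526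 527) (node 557 (merge (leaf 7 525 525) (leaf 0 556 556))))))) (merge (node 686 (merge (leaf 6 558 559) (node 719 (merge (leaf 4 590 687) (node 718 (merge (leaf 4 622 751) (node 717 (merge (leaf 5 589 685) (leaf 5 621 749))))))))) (node 558 (merge (leaf 4 558 687) (node 653 (merge (leaf 5 557 685) (node 621 (merge (leaf 5 525 526) (node 656 (merge (leaf 3 620 620) (leaf 3 621 657)))))))))))))))))))))))) (merge (node 656 (merge (node 624 (merge (leaf 5 559 687) (node 559 (merge (leaf 7 527 527) (node 688 (merge (leaf 7 559 591) (node 689 (merge (leaf 4 560 657) (leaf 4 592 721))))))))) (merge (node 624 (merge (leaf 5 559 687) (node 559 (merge (leaf 7 527 527) (node 593 (merge (node 688 (merge (leaf 6 560 561) (leaf 7 559 591))) (merge (node 558 (merge (leaf 0 557 557) (node 594 (merge (leaf 0 558 561) (leaf 3 559 595))))) (node 558 (merge (leaf 0 557 557) (node 594 (merge (leaf 3 558 591) (leaf 3 559 595)))))))))))) (merge (node 657 (merge (node 624 (merge (leaf 5 559 687) (leaf 4 560 689))) (merge (node 689 (merge (leaf 4 560 624) (node 690 (merge (leaf 0 654 654)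 (node 691 (merge (leaf 0 655 658) (leaf 3 655 688))))))) (merge (node 687 (merge (leaf 5 559 624) (node 686 (merge (leaf 1 654 658) (node 685 (merge (leaf 1 653 654) (leaf 2 652 684))))))) (node 654 (merge (node 689 (merge (leaf 0 654 690) (node 653 (merge (leaf 0 653 688) (node 684 (merge (leaf 1 652 685) (node 652 (merge (leaf 1 651 683) (node 620 (merge (leaf 3 619 619) (leaf 3 620 621))))))))))) (merge (node 685 (merge (leaf 1 653 686) (node 653 (merge (leaf 1 652 684) (node 688 (merge (leaf 0 653 689) (node 652 (merge (leaf 0 652 687) (node 620 (merge (leaf 3 619 619) (leaf 3 620 621))))))))))) (merge (node 686 (merge (leaf 1 653 685) (node 658 (merge (leaf 1 654 687) (node 691 (merge (leaf 0 655 690) (node 659 (merge (leaf 0 656 692) (node 627 (merge (leaf 2 623 626) (leaf 2 624 628))))))))))) (node 690 (merge (leaf 0 654 689) (node 658 (merge (leaf 0 655 691) (node 687 (merge (leaf 1 654 686) (node 659 (merge (leaf 1 655 688) (node 627 (merge (leaf 2 623 626) (leaf 2 624 628))))))))))))))))))) (merge (node 654 (merge (node 657 (merge (node 689 (merge (leaf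 4 560 624) (leaf 0 654 690))) (node 685 (merge (leaf 1 653 686) (node 653 (merge (leaf 1 652 684) (node 621 (merge (leaf 3 620 620) (leaf 3 621 622))))))))) (merge (node 622 (merge (node 621 (merge (leaf 3 621 657) (node 620 (merge (leaf 0 619 619) (leaf 3 620 653))))) (node 687 (merge (leaf 5 559 624) (node 590 (merge (leaf 4 558 558) (node 719 (merge (leaf 4 590 686) (leaf 7 622 751))))))))) (merge (node 657 (merge (node 624 (merge (leaf 5 559 687) (leaf 4 560 689))) (merge (node 689 (merge (leaf 4 560 624) (leaf 0 654 690))) (node 686 (merge (leaf 1 653 685) (node 658 (merge (leaf 1 654 687) (node 691 (merge (leaf 0 655 690) (node 659 (merge (leaf 0 656 692) (node 627 (merge (leaf 2 623 626) (leaf 2 624 628)))))))))))))) (merge (node 624 (merge (leaf 5 559 687) (node 559 (merge (leaf 7 527 527) (node 657 (merge (leaf 4 560 689) (node 621 (merge (leaf 3 621 622) (node 653 (merge (leaf 3 620 620) (node 684 (merge (leaf 1 652 685) (node 652 (merge (leaf 1 651 683) (node 557 (merge (leaf 5 556 589) (node 558 (merge (leaf 0 557 593) (node 556 (merge (leaf 0 556 591)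 (node 524 (merge (leaf 3 523 523) (leaf 3 524 525))))))))))))))))))))))) (merge (node 559 (merge (node 624 (merge (leaf 7 527 527) (leaf 5 559 687))) (merge (node 558 (merge (node 557 (merge (leaf 0 557 593) (node 588 (merge (leaf 1 556 589) (node 556 (merge (leaf 2 524 527) (leaf 1 555 587))))))) (merge (node 527 (merge (leaf 7 527 624) (node 590 (merge (leaf 6 526 622) (node 561 (merge (leaf 1 557 589) (node 562 (merge (leaf 3 526 526) (leaf 3 527 563))))))))) (merge (node 557 (merge (leaf 0 557 593) (node 556 (merge (leaf 2 524 527) (leaf 0 556 591))))) (node 557 (merge (leaf 0 557 593) (node 589 (merge (leaf 1 556 588) (node 525 (merge (leaf 3 524 524) (node 622 (merge (leaf 7 525 590) (leaf 4 525 621))))))))))))) (merge (node 558 (merge (node 557 (merge (leaf 0 557 593) (node 588 (merge (leaf 1 556 589) (node 556 (merge (leaf 2 524 527) (leaf 1 555 587))))))) (merge (node 557 (merge (leaf 0 557 593) (node 556 (merge (leaf 2 524 527) (leaf 0 556 591))))) (merge (node 525 (merge (node 524 (merge (leaf 3 524 557) (node 526 (merge (leaf 0 523 523) (leaf 3 525 561)))))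 (merge (node 557 (merge (leaf 3 524 524) (node 589 (merge (leaf 1 556 588) (node 622 (merge (leaf 7 525 590) (leaf 4 525 621))))))) (node 561 (merge (leaf 3 525 526) (node 590 (merge (leaf 1 557 589) (node 562 (merge (leaf 1 558 591) (node 595 (merge (leaf 0 559 594) (node 563 (merge (leaf 0 560 596) (node 531 (merge (leaf 2 527 530) (leaf 2 528 532)))))))))))))))) (node 561 (merge (node 590 (merge (leaf 1 557 589) (node 526 (merge (leaf 3 525 525) (node 622 (merge (leaf 4 558 687) (node 653 (merge (leaf 5 525 621) (leaf 5 557 685))))))))) (merge (node 590 (merge (leaf 1 557 589) (node 562 (merge (leaf 1 558 591) (node 595 (merge (leaf 0 559 594) (node 563 (merge (leaf 0 560 596) (node 531 (merge (leaf 2 527 530) (leaf 2 528 532))))))))))) (node 526 (merge (leaf 3 525 525) (node 562 (merge (leaf 3 526 527) (node 563 (merge (leaf 1 559 591) (node 531 (merge (leaf 2 527 530) (leaf 2 528 532)))))))))))))))) (node 558 (merge (node 557 (merge (leaf 0 557 593) (node 588 (merge (leaf 1 556 589) (node 556 (merge (leaf 1 555 587) (node 524 (merge (leaf 3 523 523) (leaf 3 524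 525))))))))) (merge (node 687 (merge (leaf 5 559 624) (node 590 (merge (leaf 4 558 622) (node 561 (merge (leaf 1 557 589) (node 562 (merge (leaf 1 558 591) (node 595 (merge (leaf 0 559 594) (node 563 (merge (leaf 0 560 596) (node 531 (merge (leaf 2 527 530) (leaf 2 528 532))))))))))))))) (merge (node 557 (merge (leaf 0 557 593) (node 556 (merge (leaf 0 556 591) (node 588 (merge (leaf 1 555 587) (node 525 (merge (leaf 3 524 524) (node 620 (merge (leaf 6 524 652) (node 622 (merge (leaf 7 525 590) (node 621 (merge (leaf 0 619 619) (leaf 3 620 653))))))))))))))) (node 557 (merge (leaf 0 557 593) (node 556 (merge (leaf 0 556 591) (node 589 (merge (leaf 1 556 588) (node 524 (merge (leaf 3 523 523) (node 653 (merge (leaf 7 524 621) (node 684 (merge (leaf 1 652 685) (node 652 (merge (leaf 1 651 683) (node 619 (merge (leaf 3 619 620) (node 651 (merge (leaf 3 618 618) (node 687 (merge (leaf 5 559 624) (leaf 0 651 686))))))))))))))))))))))))))))) (hyp 0))))))) (merge (hyp 1) (hyp 2))))))) (node 559 (merge (node 624 (merge (leaf 5 527 623) (node 656 (merge (leaf 7 527 527) (leaf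 5 559 687))))) (merge (node 558 (merge (node 557 (merge (leaf 0 557 593) (node 589 (merge (leaf 1 556 588) (node 561 (merge (leaf 1 557 590) (node 525 (merge (leaf 3 524 524) (leaf 3 525 526))))))))) (merge (node 557 (merge (leaf 0 557 593) (node 556 (merge (leaf 2 524 527) (node 587 (merge (leaf 1 555 588) (node 555 (merge (leaf 1 554 586) (node 523 (merge (leaf 3 522 522) (leaf 3 523 524))))))))))) (merge (node 561 (merge (node 594 (merge (leaf 0 558 593) (node 562 (merge (leaf 0 559 595) (node 526 (merge (leaf 3 525 525) (leaf 3 526 527))))))) (merge (node 590 (merge (leaf 1 557 589) (node 526 (merge (leaf 3 525 525) (node 622 (merge (leaf 4 526 623) (node 654 (merge (leaf 4 558 687) (node 653 (merge (leaf 5 525 621) (leaf 5 557 685))))))))))) (node 594 (merge (leaf 0 558 593) (node 562 (merge (leaf 0 559 595) (node 531 (merge (leaf 2 527 530) (node 563 (merge (leaf 3 527 527) (leaf 2 528 532)))))))))))) (node 561 (merge (node 589 (merge (leaf 1 557 590) (node 557 (merge (leaf 1 556 588) (node 556 (merge (leaf 2 524 527) (node 524 (merge (leaf 3 523 523) (leaf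 3 524 525))))))))) (merge (node 589 (merge (leaf 1 557 590) (node 557 (merge (leaf 1 556 588) (node 527 (merge (leaf 2 524 556) (node 562 (merge (leaf 3 526 526) (leaf 3 527 563))))))))) (merge (node 526 (merge (leaf 3 525 525) (node 562 (merge (leaf 3 526 527) (node 595 (merge (leaf 0 559 594) (node 563 (merge (leaf 0 560 596) (node 531 (merge (leaf 2 527 530) (leaf 2 528 532))))))))))) (node 590 (merge (leaf 1 557 589) (node 526 (merge (leaf 3 525 525) (node 622 (merge (leaf 4 526 623) (node 654 (merge (leaf 4 558 687) (node 653 (merge (leaf 5 525 621) (leaf 5 557 685))))))))))))))))))) (merge (node 561 (merge (node 624 (merge (leaf 5 527 623) (node 527 (merge (leaf 7 527 656) (node 562 (merge (leaf 3 526 526) (leaf 3 527 563))))))) (merge (node 624 (merge (leaf 5 527 623) (node 656 (merge (leaf 7 527 527) (node 688 (merge (leaf 6 560 593) (node 689 (merge (leaf 4 560 657) (leaf 4 592 721))))))))) (merge (node 558 (merge (node 593 (merge (leaf 0 557 557) (node 594 (merge (leaf 0 558 561) (leaf 3 559 595))))) (merge (node 589 (merge (leaf 1 557 590) (node 557 (merge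 (leaf 1 556 588) (node 525 (merge (leaf 3 524 524) (leaf 3 525 526))))))) (node 594 (merge (leaf 0 558 593) (node 562 (merge (leaf 0 559 595) (node 526 (merge (leaf 3 525 525) (leaf 3 526 527)))))))))) (node 624 (merge (leaf 5 527 623) (node 562 (merge (node 595 (merge (leaf 0 559 594) (node 563 (merge (leaf 0 560 596) (node 531 (merge (leaf 2 527 530) (leaf 2 528 532))))))) (merge (node 594 (merge (leaf 0 559 595) (node 558 (merge (leaf 0 558 593) (node 589 (merge (leaf 1 557 590) (node 557 (merge (leaf 1 556 588) (node 525 (merge (leaf 3 524 524) (leaf 3 525 526))))))))))) (merge (node 531 (merge (leaf 2 527 530) (node 563 (merge (leaf 2 528 532) (node 596 (merge (leaf 0 560 595) (node 564 (merge (leaf 1 560 593) (leaf 0 561 597))))))))) (node 531 (merge (leaf 2 527 530) (node 563 (merge (leaf 2 528 532) (node 593 (merge (leaf 1 560 564) (node 558 (merge (leaf 0 557 557) (leaf 0 558 594))))))))))))))))))) (merge (hyp 3) (node 558 (merge (node 593 (merge (leaf 0 557 557) (node 594 (merge (leaf 0 558 561) (leaf 3 559 595))))) (merge (node 590 (merge (node 589 (merge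 (leaf 1 557 561) (node 588 (merge (leaf 1 556 557) (leaf 2 555 587))))) (node 623 (merge (leaf 5 527 624) (node 622 (merge (leaf 4 526 526) (node 687 (merge (leaf 4 558 654) (leaf 7 590 719))))))))) (merge (node 557 (merge (leaf 0 557 593) (node 589 (merge (leaf 1 556 588) (node 624 (merge (leaf 5 527 623) (node 656 (merge (leaf 5 559 687) (node 689 (merge (leaf 4 560 657) (node 688 (merge (leaf 4 592 721) (node 653 (merge (leaf 0 653 654) (node 621 (merge (leaf 6 525 526) (node 685 (merge (leaf 6 557 590) (node 684 (merge (leaf 5 556 652) (leaf 5 588 716))))))))))))))))))))) (hyp 4)))))))))))))))) nP_86 cP_86 17 (by decide +kernel)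
def nP_87 : ℕ := 0x100000001000000010000000120000001000000000000000000000000000000000000000000000000000000000000000000000000000000000000000000000000000000000000000000000000000000000000
def cP_87 : ℕ := 0xd0000000fc0000027c000002fc00000298000000f000000370000003f0000003f00000029000000000000000000000000000000000000000000000000000000000000000000000000000000000000000000000000000
theorem lP_87 : S nP_87 cP_87 13 := S_of_chk [] trivial (node 525 (merge (node 527 (merge (leaf 7 527 559) (node 526 (merge (leaf 1 524 556) (leaf 0 525 561))))) (merge (node 496 (merge (node 527 (merge (leaf 7 527 559) (node 526 (merge (leaf 2 493 497) (leaf 0 525 561))))) (merge (node 497 (merge (leaf 6 464 465) (node 527 (merge (leaf 2 493 526) (leaf 7 527 559))))) (node 593 (merge (leaf 4 496 625) (node 464 (merge (leaf 4 464 561) (node 433 (merge (leaf 6 432 465) (node 432 (merge (leaf 6 400 401) (node 431 (merge (leaf 7 399 399) (leaf 7 431 463)))))))))))))) (merge (node 589 (merge (node 493 (merge (node 492 (merge (leaf 7 460 460) (node 527 (merge (leaf 3 492 526) (leaf 7 527 559))))) (merge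 (node 494 (merge (leaf 6 461 462) (node 621 (merge (leaf 6 493 526) (node 620 (merge (leaf 5 492 588) (leaf 5 524 652))))))) (node 492 (merge (leaf 7 460 460) (node 621 (merge (leaf 7 492 524) (node 620 (merge (leaf 5 492 588) (leaf 5 524 652)))))))))) (merge (node 527 (merge (leaf 7 527 559) (node 526 (merge (leaf 1 524 556) (node 621 (merge (leaf 6 493 494) (node 620 (merge (leaf 5 524 652) (node 590 (merge (leaf 1 588 591) (node 493 (merge (leaf 5 492 588) (leaf 4 493 622))))))))))))) (merge (node 527 (merge (leaf 7 527 559) (node 526 (merge (leaf 1 524 556) (node 496 (merge (leaf 2 493 497) (node 493 (merge (leaf 3 492 492) (node 590 (merge (leaf 4 493 622) (node 625 (merge (leaf 0 589 591) (leaf 4 496 593))))))))))))) (merge (node 527 (merge (leaf 7 527 559) (node 526 (merge (leaf 1 524 556) (node 621 (merge (leaf 6 493 494) (node 492 (merge (leaf 3 492 493) (leaf 7 492 524))))))))) (merge (node 621 (merge (node 524 (merge (leaf 7 492 492) (node 653 (merge (leaf 7 524 556) (node 654 (merge (leaf 4 525 622) (leaf 4 557 686))))))) (merge (node 524 (merge (leaf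 7 492 492) (node 653 (merge (leaf 7 524 556) (node 652 (merge (leaf 5 524 620) (leaf 5 556 684))))))) (node 622 (merge (leaf 4 525 654) (node 493 (merge (leaf 4 493 590) (node 620 (merge (leaf 5 492 588) (leaf 5 524 652)))))))))) (node 527 (merge (leaf 7 527 559) (node 526 (merge (leaf 1 524 556) (node 621 (merge (leaf 6 493 494) (node 654 (merge (leaf 4 525 622) (node 653 (merge (leaf 4 557 686) (node 620 (merge (leaf 5 524 652) (leaf 3 620 655))))))))))))))))))) (merge (node 589 (merge (node 590 (merge (node 591 (merge (leaf 3 556 556) (leaf 2 557 561))) (node 622 (merge (leaf 4 493 493) (node 654 (merge (leaf 4 525 621) (leaf 7 557 686))))))) (merge (node 655 (merge (leaf 5 559 687) (node 493 (merge (node 462 (merge (leaf 6 461 494) (node 461 (merge (leaf 6 429 430) (node 588 (merge (leaf 5 460 556) (leaf 5 492 620))))))) (merge (node 590 (merge (leaf 4 493 622) (node 591 (merge (leaf 2 557 561) (leaf 0 589 625))))) (merge (node 590 (merge (leaf 4 493 622) (node 591 (merge (leaf 3 556 556) (leaf 2 557 561))))) (node 590 (merge (leaf 4 493 622) (node 591 (merge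 (leaf 3 556 556) (leaf 2 557 561))))))))))) (merge (node 621 (merge (node 524 (merge (leaf 7 492 492) (node 653 (merge (leaf 7 524 556) (node 654 (merge (leaf 4 525 622) (leaf 4 557 686))))))) (merge (node 654 (merge (leaf 4 525 622) (node 653 (merge (leaf 4 557 686) (node 620 (merge (leaf 5 524 652) (leaf 3 620 655))))))) (node 492 (merge (leaf 7 492 524) (node 493 (merge (leaf 7 460 460) (node 620 (merge (leaf 5 492 588) (leaf 5 524 652)))))))))) (merge (node 493 (merge (node 494 (merge (leaf 6 461 462) (node 621 (merge (leaf 6 493 526) (node 620 (merge (leaf 5 492 588) (leaf 5 524 652))))))) (merge (node 492 (merge (leaf 7 460 460) (node 621 (merge (leaf 7 492 524) (node 622 (merge (leaf 4 493 590) (leaf 4 525 654))))))) (node 590 (merge (leaf 4 493 622) (node 591 (merge (leaf 2 557 561) (leaf 0 589 625)))))))) (merge (node 591 (merge (node 590 (merge (leaf 2 557 561) (leaf 0 589 625))) (node 493 (merge (node 494 (merge (leaf 6 461 462) (node 621 (merge (leaf 6 493 526) (node 620 (merge (leaf 5 492 588) (leaf 5 524 652))))))) (merge (node 492 (merge (leaf 7 460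 460) (node 621 (merge (leaf 7 492 524) (node 526 (merge (leaf 6 493 494) (leaf 3 492 527))))))) (merge (node 492 (merge (leaf 7 460 460) (node 621 (merge (leaf 7 492 524) (node 620 (merge (leaf 5 492 588) (leaf 5 524 652))))))) (node 462 (merge (leaf 6 461 494) (node 461 (merge (leaf 6 429 430) (node 588 (merge (leaf 5 460 556) (leaf 5 492 620))))))))))))) (node 621 (merge (node 526 (merge (leaf 6 493 494) (node 527 (merge (leaf 1 524 556) (leaf 0 525 561))))) (merge (node 524 (merge (leaf 7 492 492) (node 653 (merge (leaf 7 524 556) (node 654 (merge (leaf 4 525 622) (leaf 4 557 686))))))) (node 654 (merge (leaf 4 525 622) (node 653 (merge (leaf 4 557 686) (node 620 (merge (leaf 5 524 652) (leaf 3 620 655)))))))))))))))) (merge (node 589 (merge (node 590 (merge (node 591 (merge (leaf 3 556 556) (leaf 2 557 561))) (merge (node 493 (merge (leaf 4 493 622) (node 462 (merge (leaf 6 461 494) (node 461 (merge (leaf 6 429 430) (node 588 (merge (leaf 5 460 556) (leaf 5 492 620))))))))) (node 591 (merge (leaf 2 557 561) (node 588 (merge (leaf 2 556 559) (node 493 (merge (leaf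 5 492 620) (leaf 4 493 622)))))))))) (merge (node 493 (merge (node 492 (merge (leaf 7 460 460) (node 621 (merge (leaf 7 492 524) (node 622 (merge (leaf 4 493 590) (leaf 4 525 654))))))) (merge (node 492 (merge (leaf 7 460 460) (node 621 (merge (leaf 7 492 524) (node 620 (merge (leaf 5 492 588) (leaf 5 524 652))))))) (node 590 (merge (leaf 4 493 622) (node 591 (merge (leaf 2 557 561) (node 588 (merge (leaf 2 556 559) (leaf 5 492 620)))))))))) (merge (node 621 (merge (node 524 (merge (leaf 7 492 492) (node 653 (merge (leaf 7 524 556) (node 654 (merge (leaf 4 525 622) (leaf 4 557 686))))))) (merge (node 654 (merge (leaf 4 525 622) (node 653 (merge (leaf 4 557 686) (node 620 (merge (leaf 5 524 652) (leaf 3 620 655))))))) (node 492 (merge (leaf 7 492 524) (node 493 (merge (leaf 7 460 460) (node 620 (merge (leaf 5 492 588) (leaf 5 524 652)))))))))) (merge (node 559 (merge (leaf 7 527 527) (node 620 (merge (node 621 (merge (leaf 5 524 652) (node 524 (merge (leaf 7 492 492) (node 653 (merge (leaf 7 524 556) (node 654 (merge (leaf 3 620 655) (leaf 4 557 686))))))))) (merge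 (node 493 (merge (leaf 5 492 588) (node 462 (merge (leaf 6 461 494) (node 461 (merge (leaf 6 429 430) (node 428 (merge (leaf 7 428 460) (node 429 (merge (leaf 7 396 396) (node 464 (merge (leaf 3 428 463) (node 591 (merge (leaf 5 463 496) (node 621 (merge (leaf 1 588 590) (leaf 5 524 652))))))))))))))))) (node 493 (merge (leaf 5 492 588) (node 462 (merge (leaf 6 461 494) (node 461 (merge (leaf 6 429 430) (node 492 (merge (leaf 7 460 460) (node 464 (merge (leaf 1 460 463) (node 496 (merge (leaf 5 463 591) (node 593 (merge (leaf 4 464 561) (leaf 4 496 625)))))))))))))))))))) (node 496 (merge (node 559 (merge (leaf 7 527 527) (node 593 (merge (leaf 4 496 625) (node 464 (merge (leaf 4 464 561) (leaf 5 463 591))))))) (merge (node 465 (merge (leaf 6 464 497) (node 464 (merge (leaf 6 432 433) (node 591 (merge (leaf 5 463 559) (node 590 (merge (leaf 3 556 556) (leaf 2 557 561))))))))) (merge (node 593 (merge (leaf 4 496 625) (node 464 (merge (leaf 4 464 561) (node 433 (merge (leaf 6 432 465) (node 432 (merge (leaf 6 400 401) (node 431 (merge (leaf 7 399 399) (leaf 7 431 463)))))))))))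 (node 625 (merge (leaf 4 496 593) (node 590 (merge (leaf 0 589 591) (node 655 (merge (leaf 5 559 687) (node 654 (merge (leaf 2 621 653) (node 622 (merge (leaf 4 525 621) (leaf 7 557 686)))))))))))))))))))) (node 589 (merge (node 590 (merge (node 591 (merge (leaf 3 556 556) (leaf 2 557 561))) (node 622 (merge (leaf 4 493 493) (node 654 (merge (leaf 4 525 621) (leaf 7 557 686))))))) (merge (node 590 (merge (node 591 (merge (leaf 3 556 556) (leaf 2 557 561))) (merge (node 493 (merge (leaf 4 493 622) (node 462 (merge (leaf 6 461 494) (node 461 (merge (leaf 6 429 430) (node 588 (merge (leaf 5 460 556) (leaf 5 492 620))))))))) (node 591 (merge (leaf 2 557 561) (node 588 (merge (leaf 2 556 559) (node 493 (merge (leaf 5 492 620) (leaf 4 493 622)))))))))) (merge (node 493 (merge (node 492 (merge (leaf 7 460 460) (node 621 (merge (leaf 7 492 524) (node 622 (merge (leaf 4 493 590) (leaf 4 525 654))))))) (merge (node 492 (merge (leaf 7 460 460) (node 621 (merge (leaf 7 492 524) (node 620 (merge (leaf 5 492 588) (leaf 5 524 652))))))) (node 590 (merge (leaf 4 493 622) (node 591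 (merge (leaf 2 557 561) (node 588 (merge (leaf 2 556 559) (leaf 5 492 620)))))))))) (merge (node 621 (merge (node 524 (merge (leaf 7 492 492) (node 653 (merge (leaf 7 524 556) (node 654 (merge (leaf 4 525 622) (leaf 4 557 686))))))) (merge (node 654 (merge (leaf 4 525 622) (node 653 (merge (leaf 4 557 686) (node 620 (merge (leaf 5 524 652) (leaf 3 620 655))))))) (node 492 (merge (leaf 7 492 524) (node 493 (merge (leaf 7 460 460) (node 620 (merge (leaf 5 492 588) (leaf 5 524 652)))))))))) (merge (node 493 (merge (node 494 (merge (leaf 6 461 462) (node 621 (merge (leaf 6 493 526) (node 620 (merge (leaf 5 492 588) (leaf 5 524 652))))))) (merge (node 492 (merge (leaf 7 460 460) (node 621 (merge (leaf 7 492 524) (node 620 (merge (leaf 5 492 588) (leaf 5 524 652))))))) (merge (node 462 (merge (leaf 6 461 494) (node 461 (merge (leaf 6 429 430) (node 460 (merge (leaf 7 428 428) (leaf 7 460 492))))))) (node 462 (merge (leaf 6 461 494) (node 461 (merge (leaf 6 429 430) (node 492 (merge (leaf 7 460 460) (node 464 (merge (leaf 1 460 463) (node 621 (merge (leaf 7 492 524) (node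 620 (merge (leaf 5 524 652) (node 591 (merge (leaf 1 588 590) (node 496 (merge (leaf 5 463 559) (node 465 (merge (leaf 6 432 433) (leaf 6 464 497))))))))))))))))))))))) (node 621 (merge (node 524 (merge (leaf 7 492 492) (node 653 (merge (leaf 7 524 556) (node 654 (merge (leaf 4 525 622) (leaf 4 557 686))))))) (merge (node 524 (merge (leaf 7 492 492) (node 653 (merge (leaf 7 524 556) (node 652 (merge (leaf 5 524 620) (leaf 5 556 684))))))) (merge (node 654 (merge (leaf 4 525 622) (node 653 (merge (leaf 4 557 686) (node 620 (merge (leaf 5 524 652) (leaf 3 620 655))))))) (node 524 (merge (leaf 7 492 492) (node 622 (merge (leaf 4 525 654) (node 620 (merge (leaf 5 524 652) (node 590 (merge (leaf 1 588 591) (node 619 (merge (leaf 2 586 618) (node 651 (merge (leaf 1 618 650) (node 587 (merge (leaf 3 586 586) (node 556 (merge (leaf 6 523 555) (leaf 5 523 588))))))))))))))))))))))))))))))))) nP_87 cP_87 13 (by decide +kernel)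
def nP_88 : ℕ := 0x1000000010000000120000001000000000000000000000000000000000000000000000000000000000000000000000000000000000000000000000000000000000000000000000000000000000000
def cP_88 : ℕ := 0x10000002f0000003f0000003fc0000007c000002fc00000298000000fc0000037c000003fc000003700000001000000000000000000000000000000000000000000000000000000000000000000000000000000000000000000000000000
theorem lP_88 : S nP_88 cP_88 15 := S_of_chk [] trivial (node 525 (merge (node 527 (merge (node 526 (merge (leaf 1 524 556) (leaf 0 525 561))) (node 656 (merge (leaf 7 527 559) (node 689 (merge (leaf 4 560 657) (node 688 (merge (leaf 4 592 721) (node 687 (merge (leaf 5 559 655) (leaf 5 591 719))))))))))) (merge (node 526 (merge (node 527 (merge (leaf 1 524 556) (leaf 0 525 561))) (merge (node 527 (merge (leaf 1 524 556) (node 559 (merge (leaf 0 524 524) (node 496 (merge (leaf 2 493 497) (node 464 (merge (leaf 5 431 432) (leaf 5 463 591))))))))) (merge (node 527 (merge (leaf 0 525 561) (node 559 (merge (leaf 0 524 524) (node 496 (merge (leaf 2 493 497) (node 464 (merge (leaf 5 431 432) (leaf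 5 463 591))))))))) (node 589 (merge (node 621 (merge (leaf 6 493 494) (node 620 (merge (leaf 5 524 652) (node 590 (merge (leaf 1 588 591) (node 493 (merge (leaf 5 492 588) (leaf 4 493 622))))))))) (merge (node 621 (merge (leaf 6 493 494) (node 524 (merge (leaf 7 492 492) (node 653 (merge (leaf 7 524 556) (node 652 (merge (leaf 5 524 620) (leaf 5 556 684))))))))) (merge (node 590 (merge (node 591 (merge (leaf 3 556 556) (leaf 2 557 561))) (node 622 (merge (leaf 4 493 493) (node 654 (merge (leaf 4 525 621) (leaf 7 557 686))))))) (node 590 (merge (node 591 (merge (leaf 3 556 556) (leaf 2 557 561))) (merge (node 493 (merge (leaf 4 493 622) (node 462 (merge (leaf 6 461 494) (node 461 (merge (leaf 6 429 430) (node 588 (merge (leaf 5 460 556) (leaf 5 492 620))))))))) (node 591 (merge (leaf 2 557 561) (node 588 (merge (leaf 2 556 559) (node 493 (merge (leaf 5 492 620) (leaf 4 493 622)))))))))))))))))) (merge (node 656 (merge (node 559 (merge (leaf 7 527 527) (node 688 (merge (leaf 7 559 591) (node 689 (merge (leaf 4 560 657) (leaf 4 592 721))))))) (merge (node 689 (merge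 (leaf 4 560 657) (node 688 (merge (leaf 4 592 721) (node 687 (merge (leaf 5 559 655) (leaf 5 591 719))))))) (merge (node 559 (merge (leaf 7 527 527) (node 688 (merge (leaf 7 559 591) (node 687 (merge (leaf 5 559 655) (leaf 5 591 719))))))) (node 527 (merge (leaf 7 527 559) (node 526 (merge (leaf 0 525 561) (node 492 (merge (leaf 3 492 493) (node 524 (merge (leaf 3 491 491) (node 621 (merge (leaf 7 492 589) (node 657 (merge (leaf 4 560 689) (node 655 (merge (leaf 5 559 687) (node 654 (merge (leaf 3 621 622) (node 685 (merge (leaf 1 653 686) (node 653 (merge (leaf 3 620 620) (leaf 1 652 684))))))))))))))))))))))))) (merge (node 656 (merge (node 559 (merge (leaf 7 527 527) (node 688 (merge (leaf 7 559 591) (node 689 (merge (leaf 4 560 657) (leaf 4 592 721))))))) (merge (node 689 (merge (leaf 4 560 657) (node 688 (merge (leaf 4 592 721) (node 687 (merge (leaf 5 559 655) (leaf 5 591 719))))))) (merge (node 559 (merge (leaf 7 527 527) (node 688 (merge (leaf 7 559 591) (node 687 (merge (leaf 5 559 655) (leaf 5 591 719))))))) (node 527 (merge (leaf 7 527 559) (node 526 (merge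 (leaf 1 524 556) (node 492 (merge (leaf 3 492 493) (node 524 (merge (leaf 3 491 491) (node 621 (merge (leaf 7 492 589) (node 657 (merge (leaf 4 560 689) (node 655 (merge (leaf 5 559 687) (node 654 (merge (leaf 3 621 622) (node 685 (merge (leaf 1 653 686) (node 653 (merge (leaf 3 620 620) (leaf 1 652 684))))))))))))))))))))))))) (merge (node 656 (merge (node 689 (merge (leaf 4 560 657) (node 688 (merge (leaf 4 592 721) (node 687 (merge (leaf 5 559 655) (leaf 5 591 719))))))) (merge (node 589 (merge (node 590 (merge (node 591 (merge (leaf 3 556 556) (leaf 2 557 561))) (node 622 (merge (leaf 4 493 493) (node 654 (merge (leaf 4 525 621) (leaf 7 557 686))))))) (merge (node 590 (merge (node 591 (merge (leaf 3 556 556) (leaf 2 557 561))) (merge (node 493 (merge (leaf 4 493 622) (node 462 (merge (leaf 6 461 494) (node 461 (merge (leaf 6 429 430) (node 588 (merge (leaf 5 460 556) (leaf 5 492 620))))))))) (node 591 (merge (leaf 2 557 561) (node 588 (merge (leaf 2 556 559) (node 493 (merge (leaf 5 492 620) (leaf 4 493 622)))))))))) (merge (node 493 (merge (node 492 (merge (leaf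 7 460 460) (node 621 (merge (leaf 7 492 524) (node 622 (merge (leaf 4 493 590) (leaf 4 525 654))))))) (merge (node 492 (merge (leaf 7 460 460) (node 621 (merge (leaf 7 492 524) (node 620 (merge (leaf 5 492 588) (leaf 5 524 652))))))) (node 590 (merge (leaf 4 493 622) (node 591 (merge (leaf 2 557 561) (node 588 (merge (leaf 2 556 559) (leaf 5 492 620)))))))))) (merge (node 621 (merge (node 524 (merge (leaf 7 492 492) (node 653 (merge (leaf 7 524 556) (node 654 (merge (leaf 4 525 622) (leaf 4 557 686))))))) (merge (node 654 (merge (leaf 4 525 622) (node 653 (merge (leaf 4 557 686) (node 620 (merge (leaf 5 524 652) (leaf 3 620 655))))))) (node 492 (merge (leaf 7 492 524) (node 493 (merge (leaf 7 460 460) (node 620 (merge (leaf 5 492 588) (leaf 5 524 652)))))))))) (merge (node 493 (merge (node 494 (merge (leaf 6 461 462) (node 621 (merge (leaf 6 493 526) (node 620 (merge (leaf 5 492 588) (leaf 5 524 652))))))) (merge (node 492 (merge (leaf 7 460 460) (node 621 (merge (leaf 7 492 524) (node 620 (merge (leaf 5 492 588) (leaf 5 524 652))))))) (merge (node 462 (merge (leaf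 6 461 494) (node 461 (merge (leaf 6 429 430) (node 460 (merge (leaf 7 428 428) (leaf 7 460 492))))))) (node 462 (merge (leaf 6 461 494) (node 461 (merge (leaf 6 429 430) (node 492 (merge (leaf 7 460 460) (node 464 (merge (leaf 1 460 463) (node 621 (merge (leaf 7 492 524) (node 620 (merge (leaf 5 524 652) (node 591 (merge (leaf 1 588 590) (node 496 (merge (leaf 5 463 559) (node 465 (merge (leaf 6 432 433) (leaf 6 464 497))))))))))))))))))))))) (node 621 (merge (node 524 (merge (leaf 7 492 492) (node 653 (merge (leaf 7 524 556) (node 654 (merge (leaf 4 525 622) (leaf 4 557 686))))))) (merge (node 524 (merge (leaf 7 492 492) (node 653 (merge (leaf 7 524 556) (node 652 (merge (leaf 5 524 620) (leaf 5 556 684))))))) (merge (node 654 (merge (leaf 4 525 622) (node 653 (merge (leaf 4 557 686) (node 620 (merge (leaf 5 524 652) (leaf 3 620 655))))))) (node 524 (merge (leaf 7 492 492) (node 622 (merge (leaf 4 525 654) (node 620 (merge (leaf 5 524 652) (node 590 (merge (leaf 1 588 591) (node 619 (merge (leaf 2 586 618) (node 651 (merge (leaf 1 618 650) (node 587 (merge (leaf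 3 586 586) (node 556 (merge (leaf 6 523 555) (leaf 5 523 588))))))))))))))))))))))))))) (node 589 (merge (node 689 (merge (leaf 4 560 657) (node 688 (merge (leaf 4 592 721) (node 591 (merge (leaf 7 559 559) (node 590 (merge (leaf 3 556 556) (leaf 2 557 561))))))))) (merge (node 590 (merge (node 591 (merge (leaf 3 556 556) (leaf 2 557 561))) (node 622 (merge (leaf 4 493 493) (node 654 (merge (leaf 4 525 621) (leaf 7 557 686))))))) (merge (node 657 (merge (leaf 4 560 689) (node 620 (merge (node 493 (merge (leaf 5 492 588) (node 462 (merge (leaf 6 461 494) (node 461 (merge (leaf 6 429 430) (node 460 (merge (leaf 7 428 428) (leaf 7 460 492))))))))) (merge (node 621 (merge (leaf 5 524 652) (node 524 (merge (leaf 7 492 492) (node 653 (merge (leaf 7 524 556) (node 654 (merge (leaf 4 525 622) (leaf 4 557 686))))))))) (node 588 (merge (leaf 5 492 493) (node 652 (merge (leaf 6 524 556) (leaf 5 524 621)))))))))) (node 689 (merge (leaf 4 560 657) (node 688 (merge (leaf 4 592 721) (node 591 (merge (leaf 7 559 559) (node 590 (merge (leaf 2 557 561) (node 621 (merge (leaf 1 588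 620) (node 492 (merge (leaf 7 492 524) (node 493 (merge (leaf 7 460 460) (leaf 4 493 622)))))))))))))))))))))) (merge (node 589 (merge (node 590 (merge (node 591 (merge (leaf 3 556 556) (leaf 2 557 561))) (node 622 (merge (leaf 4 493 493) (node 654 (merge (leaf 4 525 621) (leaf 7 557 686))))))) (merge (node 590 (merge (node 591 (merge (leaf 3 556 556) (leaf 2 557 561))) (merge (node 493 (merge (leaf 4 493 622) (node 462 (merge (leaf 6 461 494) (node 461 (merge (leaf 6 429 430) (node 588 (merge (leaf 5 460 556) (leaf 5 492 620))))))))) (node 591 (merge (leaf 2 557 561) (node 588 (merge (leaf 2 556 559) (node 493 (merge (leaf 5 492 620) (leaf 4 493 622)))))))))) (merge (node 621 (merge (node 524 (merge (leaf 7 492 492) (node 653 (merge (leaf 7 524 556) (node 654 (merge (leaf 4 525 622) (leaf 4 557 686))))))) (merge (node 524 (merge (leaf 7 492 492) (node 653 (merge (leaf 7 524 556) (node 652 (merge (leaf 5 524 620) (leaf 5 556 684))))))) (node 622 (merge (leaf 4 525 654) (node 493 (merge (leaf 4 493 590) (node 620 (merge (leaf 5 492 588) (leaf 5 524 652)))))))))) (merge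 (node 493 (merge (node 492 (merge (leaf 7 460 460) (node 621 (merge (leaf 7 492 524) (node 622 (merge (leaf 4 493 590) (leaf 4 525 654))))))) (merge (node 492 (merge (leaf 7 460 460) (node 621 (merge (leaf 7 492 524) (node 620 (merge (leaf 5 492 588) (leaf 5 524 652))))))) (node 590 (merge (leaf 4 493 622) (node 591 (merge (leaf 2 557 561) (node 588 (merge (leaf 2 556 559) (leaf 5 492 620)))))))))) (merge (node 621 (merge (node 524 (merge (leaf 7 492 492) (node 653 (merge (leaf 7 524 556) (node 654 (merge (leaf 4 525 622) (leaf 4 557 686))))))) (merge (node 654 (merge (leaf 4 525 622) (node 653 (merge (leaf 4 557 686) (node 620 (merge (leaf 5 524 652) (node 656 (merge (leaf 3 620 655) (node 559 (merge (leaf 7 527 527) (node 688 (merge (leaf 7 559 591) (node 689 (merge (leaf 4 560 657) (leaf 4 592 721))))))))))))))) (merge (node 654 (merge (leaf 4 525 622) (node 653 (merge (leaf 4 557 686) (node 620 (merge (leaf 5 524 652) (node 656 (merge (leaf 3 620 655) (node 559 (merge (leaf 7 527 527) (node 688 (merge (leaf 7 559 591) (node 689 (merge (leaf 4 560 657) (leaf 4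 592 721))))))))))))))) (node 492 (merge (leaf 7 492 524) (node 493 (merge (leaf 7 460 460) (node 620 (merge (leaf 5 492 588) (leaf 5 524 652))))))))))) (merge (node 621 (merge (node 524 (merge (leaf 7 492 492) (node 653 (merge (leaf 7 524 556) (node 654 (merge (leaf 4 525 622) (leaf 4 557 686))))))) (merge (node 524 (merge (leaf 7 492 492) (node 653 (merge (leaf 7 524 556) (node 652 (merge (leaf 5 524 620) (leaf 5 556 684))))))) (merge (node 654 (merge (leaf 4 525 622) (node 653 (merge (leaf 4 557 686) (node 620 (merge (leaf 5 524 652) (node 591 (merge (leaf 1 588 590) (node 656 (merge (leaf 3 620 655) (node 688 (merge (leaf 7 559 559) (node 689 (merge (leaf 4 560 657) (leaf 4 592 721))))))))))))))) (node 524 (merge (leaf 7 492 492) (node 622 (merge (leaf 4 525 654) (node 620 (merge (leaf 5 524 652) (node 590 (merge (leaf 1 588 591) (node 619 (merge (leaf 2 586 618) (node 651 (merge (leaf 1 618 650) (node 587 (merge (leaf 3 586 586) (node 556 (merge (leaf 6 523 555) (leaf 5 523 588))))))))))))))))))))) (node 621 (merge (node 620 (merge (leaf 5 524 652) (node 591 (merge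 (leaf 1 588 590) (node 493 (merge (leaf 5 492 588) (node 462 (merge (leaf 6 461 494) (node 461 (merge (leaf 6 429 430) (node 492 (merge (leaf 7 460 460) (node 464 (merge (leaf 1 460 463) (node 496 (merge (leaf 5 463 559) (node 465 (merge (leaf 6 432 433) (leaf 6 464 497))))))))))))))))))) (merge (node 620 (merge (leaf 5 524 652) (node 591 (merge (leaf 1 588 590) (node 493 (merge (leaf 5 492 588) (node 462 (merge (leaf 6 461 494) (node 461 (merge (leaf 6 429 430) (node 428 (merge (leaf 7 428 460) (node 429 (merge (leaf 7 396 396) (node 464 (merge (leaf 3 428 463) (node 496 (merge (leaf 5 463 559) (node 465 (merge (leaf 6 432 433) (leaf 6 464 497))))))))))))))))))))) (merge (node 524 (merge (leaf 7 492 492) (node 653 (merge (leaf 7 524 556) (node 686 (merge (leaf 4 557 654) (node 685 (merge (leaf 4 589 718) (node 684 (merge (leaf 5 556 652) (leaf 5 588 716))))))))))) (node 524 (merge (leaf 7 492 492) (node 653 (merge (leaf 7 524 556) (node 686 (merge (leaf 4 557 654) (node 685 (merge (leaf 4 589 718) (node 716 (merge (leaf 5 588 684) (node 717 (merge (leaf 5 620 748)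 (node 620 (merge (leaf 7 588 588) (node 591 (merge (leaf 1 588 590) (node 688 (merge (leaf 1 684 687) (node 656 (merge (leaf 7 559 559) (node 689 (merge (leaf 4 560 657) (leaf 4 592 721)))))))))))))))))))))))))))))))))) (node 526 (merge (node 527 (merge (leaf 1 524 556) (leaf 0 525 561))) (merge (node 656 (merge (node 561 (merge (leaf 0 525 527) (node 688 (merge (leaf 6 560 593) (node 687 (merge (leaf 5 559 655) (leaf 5 591 719))))))) (merge (node 561 (merge (leaf 0 525 527) (node 688 (merge (leaf 6 560 593) (node 689 (merge (leaf 4 560 657) (leaf 4 592 721))))))) (merge (node 689 (merge (leaf 4 560 657) (node 688 (merge (leaf 4 592 721) (node 687 (merge (leaf 5 559 655) (leaf 5 591 719))))))) (node 527 (merge (leaf 0 525 561) (node 492 (merge (leaf 3 492 493) (node 524 (merge (leaf 3 491 491) (node 621 (merge (leaf 7 492 589) (node 657 (merge (leaf 4 560 689) (node 655 (merge (leaf 5 559 687) (node 654 (merge (leaf 3 621 622) (node 685 (merge (leaf 1 653 686) (node 653 (merge (leaf 3 620 620) (leaf 1 652 684))))))))))))))))))))))) (merge (node 493 (merge (node 527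 (merge (leaf 3 492 492) (leaf 1 524 556))) (merge (node 492 (merge (leaf 3 492 527) (node 589 (merge (leaf 7 460 460) (node 621 (merge (leaf 6 493 494) (leaf 7 492 524))))))) (merge (node 556 (merge (leaf 1 524 527) (node 461 (merge (leaf 5 460 588) (node 462 (merge (leaf 6 429 430) (node 589 (merge (leaf 6 461 494) (node 590 (merge (leaf 3 556 591) (leaf 4 493 622))))))))))) (node 462 (merge (node 494 (merge (leaf 5 429 430) (node 589 (merge (leaf 6 461 493) (leaf 6 493 621))))) (merge (node 461 (merge (leaf 6 429 430) (node 460 (merge (leaf 7 428 428) (node 589 (merge (leaf 7 460 492) (node 588 (merge (leaf 5 460 556) (leaf 5 492 620))))))))) (merge (node 589 (merge (leaf 6 461 494) (node 492 (merge (leaf 7 460 460) (node 621 (merge (leaf 7 492 524) (node 620 (merge (leaf 5 492 588) (leaf 5 524 652))))))))) (node 430 (merge (leaf 6 429 461) (leaf 5 429 494))))))))))) (node 589 (merge (node 621 (merge (leaf 6 493 494) (node 620 (merge (leaf 5 524 652) (node 590 (merge (leaf 1 588 591) (node 493 (merge (leaf 5 492 588) (leaf 4 493 622))))))))) (merge (node 621 (merge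 (leaf 6 493 494) (node 524 (merge (leaf 7 492 492) (node 653 (merge (leaf 7 524 556) (node 652 (merge (leaf 5 524 620) (leaf 5 556 684))))))))) (merge (node 590 (merge (node 591 (merge (leaf 3 556 556) (leaf 2 557 561))) (node 622 (merge (leaf 4 493 493) (node 654 (merge (leaf 4 525 621) (leaf 7 557 686))))))) (node 590 (merge (node 591 (merge (leaf 3 556 556) (leaf 2 557 561))) (merge (node 493 (merge (leaf 4 493 622) (node 494 (merge (leaf 6 461 462) (node 492 (merge (leaf 7 460 460) (node 491 (merge (leaf 0 490 490) (node 523 (merge (leaf 1 490 522) (node 459 (merge (leaf 3 458 458) (node 588 (merge (leaf 5 492 620) (node 556 (merge (leaf 7 459 524) (leaf 4 459 555))))))))))))))))) (node 561 (merge (leaf 2 557 591) (node 493 (merge (leaf 4 493 622) (node 462 (merge (leaf 6 461 494) (node 461 (merge (leaf 6 429 430) (node 492 (merge (leaf 7 460 460) (node 464 (merge (leaf 1 460 463) (node 496 (merge (leaf 4 464 593) (node 465 (merge (leaf 6 432 433) (leaf 6 464 497))))))))))))))))))))))))))))))))))) nP_88 cP_88 15 (by decide +kernel)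
def nP_89 : ℕ := 0x10000000168000000600000000000000000000000000000000000000000000000000000000000000000000000000000000000000000000000000000000000000000000000000000000000
def cP_89 : ℕ := 0x140000007c0000007c000002fe000002040000001c0000005c0000007c0000005c0000001400000000000000000000000000000000000000000000000000000000000000000000000000000000000000000000000000
theorem lP_89 : S nP_89 cP_89 12 := S_of_chk [] trivial (node 523 (merge (node 524 (merge (leaf 0 522 522) (leaf 1 522 554))) (merge (node 491 (merge (node 524 (merge (leaf 3 490 490) (leaf 1 522 554))) (merge (node 490 (merge (leaf 3 490 524) (node 587 (merge (leaf 7 458 458) (node 588 (merge (leaf 4 491 620) (node 586 (merge (leaf 2 554 589) (leaf 5 490 618))))))))) (merge (node 459 (merge (node 428 (merge (leaf 6 427 460) (node 427 (merge (leaf 6 395 396) (node 426 (merge (leaf 7 394 394) (leaf 7 426 458))))))) (merge (node 460 (merge (leaf 6 427 428) (node 587 (merge (leaf 6 459 492) (node 586 (merge (leaf 5 458 554) (leaf 5 490 618))))))) (node 458 (merge (leaf 7 426 426) (node 587 (merge (leaf 7 458 490)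 (node 586 (merge (leaf 5 458 554) (leaf 5 490 618)))))))))) (node 554 (merge (leaf 1 522 524) (node 459 (merge (leaf 5 458 586) (node 460 (merge (leaf 6 427 428) (node 587 (merge (leaf 6 459 492) (node 588 (merge (leaf 4 491 620) (node 589 (merge (leaf 3 554 590) (node 621 (merge (leaf 6 493 494) (leaf 6 525 653))))))))))))))))))) (merge (node 587 (merge (node 522 (merge (leaf 0 522 524) (node 619 (merge (leaf 7 490 490) (node 652 (merge (leaf 4 523 620) (node 651 (merge (leaf 4 555 684) (node 650 (merge (leaf 5 522 618) (leaf 5 554 682))))))))))) (merge (node 524 (merge (leaf 0 522 522) (node 619 (merge (leaf 6 491 492) (node 620 (merge (leaf 4 523 652) (node 491 (merge (leaf 4 491 588) (node 618 (merge (leaf 5 490 586) (leaf 5 522 650))))))))))) (merge (node 524 (merge (leaf 0 522 522) (node 491 (merge (leaf 3 490 490) (node 492 (merge (leaf 6 459 460) (node 589 (merge (leaf 7 492 621) (node 586 (merge (leaf 2 554 588) (leaf 5 490 618))))))))))) (merge (node 524 (merge (node 619 (merge (leaf 6 491 492) (node 491 (merge (leaf 3 490 490) (node 620 (merge (leaf 4 491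 588) (leaf 4 523 652))))))) (merge (node 491 (merge (leaf 3 490 490) (node 588 (merge (leaf 4 491 620) (node 586 (merge (leaf 2 554 589) (leaf 5 490 618))))))) (merge (node 619 (merge (leaf 6 491 492) (node 491 (merge (leaf 3 490 490) (node 618 (merge (leaf 5 490 586) (leaf 5 522 650))))))) (node 619 (merge (leaf 6 491 492) (node 652 (merge (leaf 4 523 620) (node 651 (merge (leaf 4 555 684) (node 650 (merge (leaf 5 522 618) (leaf 5 554 682))))))))))))) (merge (node 491 (merge (node 588 (merge (leaf 4 491 620) (node 586 (merge (leaf 2 554 589) (leaf 5 490 618))))) (merge (node 490 (merge (leaf 7 458 458) (node 619 (merge (leaf 7 490 522) (node 618 (merge (leaf 5 490 586) (leaf 5 522 650))))))) (node 490 (merge (leaf 7 458 458) (node 619 (merge (leaf 7 490 522) (node 620 (merge (leaf 4 491 588) (leaf 4 523 652)))))))))) (node 522 (merge (leaf 0 522 524) (node 619 (merge (leaf 7 490 490) (node 620 (merge (leaf 4 523 652) (node 588 (merge (leaf 4 491 491) (node 586 (merge (leaf 2 554 589) (node 621 (merge (leaf 0 585 585) (leaf 3 586 622))))))))))))))))))) (node 587 (merge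 (node 491 (merge (node 588 (merge (leaf 4 491 620) (node 586 (merge (leaf 2 554 589) (leaf 5 490 618))))) (merge (node 490 (merge (leaf 7 458 458) (node 619 (merge (leaf 7 490 522) (node 618 (merge (leaf 5 490 586) (leaf 5 522 650))))))) (node 490 (merge (leaf 7 458 458) (node 619 (merge (leaf 7 490 522) (node 620 (merge (leaf 4 491 588) (leaf 4 523 652)))))))))) (merge (node 589 (merge (node 621 (merge (leaf 6 493 494) (leaf 6 525 653))) (merge (node 586 (merge (leaf 2 554 588) (node 462 (merge (leaf 5 461 494) (node 491 (merge (leaf 5 490 618) (node 460 (merge (leaf 6 459 492) (node 490 (merge (leaf 7 458 458) (node 459 (merge (leaf 1 458 461) (leaf 5 458 554))))))))))))) (node 586 (merge (leaf 2 554 588) (node 491 (merge (leaf 5 490 618) (node 460 (merge (leaf 6 459 492) (node 459 (merge (leaf 6 427 428) (leaf 5 458 554)))))))))))) (merge (node 491 (merge (node 490 (merge (leaf 7 458 458) (node 619 (merge (leaf 7 490 522) (node 620 (merge (leaf 4 491 588) (leaf 4 523 652))))))) (merge (node 460 (merge (leaf 6 459 492) (node 459 (merge (leaf 6 427 428) (node 586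 (merge (leaf 5 458 554) (leaf 5 490 618))))))) (node 618 (merge (leaf 5 490 586) (node 619 (merge (leaf 5 522 650) (node 522 (merge (leaf 7 490 490) (node 651 (merge (leaf 7 522 554) (node 652 (merge (leaf 4 523 620) (leaf 4 555 684)))))))))))))) (merge (node 491 (merge (node 490 (merge (leaf 7 458 458) (node 619 (merge (leaf 7 490 522) (node 618 (merge (leaf 5 490 586) (leaf 5 522 650))))))) (merge (node 460 (merge (leaf 6 459 492) (node 459 (merge (leaf 6 427 428) (node 586 (merge (leaf 5 458 554) (leaf 5 490 618))))))) (merge (node 460 (merge (leaf 6 459 492) (node 459 (merge (leaf 6 427 428) (node 490 (merge (leaf 7 458 458) (node 462 (merge (leaf 1 458 461) (node 494 (merge (leaf 5 429 430) (leaf 5 461 589))))))))))) (node 618 (merge (leaf 5 490 586) (node 619 (merge (leaf 5 522 650) (node 522 (merge (leaf 7 490 490) (node 651 (merge (leaf 7 522 554) (node 652 (merge (leaf 4 523 620) (leaf 4 555 684))))))))))))))) (merge (node 491 (merge (node 490 (merge (leaf 7 458 458) (node 619 (merge (leaf 7 490 522) (node 620 (merge (leaf 4 491 588) (leaf 4 523 652)))))))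 (merge (node 460 (merge (leaf 6 459 492) (node 459 (merge (leaf 6 427 428) (node 490 (merge (leaf 7 458 458) (node 462 (merge (leaf 1 458 461) (node 494 (merge (leaf 5 429 430) (leaf 5 461 589))))))))))) (node 620 (merge (leaf 4 491 588) (node 619 (merge (leaf 4 523 652) (node 650 (merge (leaf 5 522 618) (node 651 (merge (leaf 5 554 682) (node 621 (merge (leaf 1 618 622) (node 589 (merge (leaf 6 493 494) (leaf 6 525 653)))))))))))))))) (merge (node 590 (merge (node 622 (merge (leaf 7 525 654) (node 621 (merge (leaf 5 525 653) (node 589 (merge (leaf 6 493 494) (node 620 (merge (leaf 1 588 591) (leaf 5 524 652))))))))) (merge (node 591 (merge (leaf 3 557 593) (node 589 (merge (leaf 2 557 561) (node 621 (merge (leaf 6 493 494) (leaf 6 525 653))))))) (merge (node 591 (merge (leaf 3 557 593) (node 589 (merge (leaf 2 557 561) (node 588 (merge (leaf 3 554 554) (leaf 2 554 586))))))) (merge (node 622 (merge (leaf 7 525 654) (node 621 (merge (leaf 5 525 653) (node 589 (merge (leaf 6 493 494) (node 620 (merge (leaf 5 524 652) (node 619 (merge (leaf 2 586 618) (node 651 (merge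 (leaf 1 618 650) (node 587 (merge (leaf 3 586 586) (node 522 (merge (leaf 7 490 490) (leaf 7 522 554))))))))))))))))) (node 622 (merge (leaf 7 525 654) (node 591 (merge (leaf 3 557 593) (node 621 (merge (leaf 5 525 653) (node 619 (merge (leaf 2 587 620) (node 522 (merge (leaf 7 490 490) (node 651 (merge (leaf 7 522 554) (node 650 (merge (leaf 5 522 618) (leaf 5 554 682)))))))))))))))))))) (merge (node 589 (merge (node 621 (merge (leaf 6 493 494) (leaf 6 525 653))) (merge (node 588 (merge (leaf 2 554 586) (node 590 (merge (leaf 3 554 554) (node 591 (merge (leaf 2 557 561) (leaf 3 557 593))))))) (node 588 (merge (leaf 2 554 586) (node 590 (merge (leaf 3 554 554) (node 591 (merge (leaf 2 557 561) (leaf 3 557 593)))))))))) (node 491 (merge (node 588 (merge (leaf 4 491 620) (node 586 (merge (leaf 2 554 589) (leaf 5 490 618))))) (merge (node 588 (merge (leaf 4 491 620) (node 586 (merge (leaf 2 554 589) (leaf 5 490 618))))) (merge (node 460 (merge (leaf 6 459 492) (node 459 (merge (leaf 6 427 428) (node 586 (merge (leaf 5 458 554) (leaf 5 490 618))))))) (merge (node 620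 (merge (leaf 4 491 588) (node 619 (merge (leaf 4 523 652) (node 650 (merge (leaf 5 522 618) (node 651 (merge (leaf 5 554 682) (node 621 (merge (leaf 1 618 622) (node 589 (merge (leaf 6 493 494) (leaf 6 525 653))))))))))))) (node 588 (merge (leaf 4 491 620) (node 589 (merge (leaf 2 554 586) (node 621 (merge (leaf 6 493 494) (leaf 6 525 653)))))))))))))))))))))))) nP_89 cP_89 12 (by decide +kernel)
def nP_90 : ℕ := 0x68000000200000000000000000000000000000000000000000000000000000000000000000000000000000000000000000000000000000000000000000000000000000000000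
def cP_90 : ℕ := 0x40000005c0000007c000000de000000140000001f0000007f0000007f0000007c0000005c00000010000000000000000000000000000000000000000000000000000000000000000000000000000000000000000000
theorem lP_90 : S nP_90 cP_90 12 := S_of_chk [] trivial (node 523 (merge (node 522 (merge (leaf 0 522 524) (leaf 3 522 556))) (merge (node 522 (merge (leaf 0 522 524) (node 491 (merge (node 493 (merge (node 492 (merge (leaf 1 490 494) (node 521 (merge (leaf 1 489 490) (leaf 2 488 520))))) (node 461 (merge (leaf 4 461 590) (node 430 (merge (leaf 6 429 462) (node 429 (merge (leaf 6 397 398) (node 428 (merge (leaf 7 396 396) (leaf 7 428 460))))))))))) (merge (node 587 (merge (node 492 (merge (leaf 6 459 460) (node 490 (merge (leaf 7 458 458) (node 493 (merge (leaf 1 490 494) (leaf 1 489 521))))))) (merge (node 490 (merge (leaf 7 458 458) (node 619 (merge (leaf 7 490 522) (node 620 (merge (leaf 4 491 588) (leaf 4 523 652))))))) (node 620 (merge (leaf 4 491 588) (node 619 (merge (leaf 4 523 652) (node 618 (merge (leaf 5 490 586) (leaf 5 522 650)))))))))) (merge (node 586 (merge (node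 618 (merge (leaf 6 490 554) (leaf 5 490 587))) (merge (node 587 (merge (leaf 5 490 618) (node 490 (merge (leaf 7 458 458) (node 619 (merge (leaf 7 490 522) (node 620 (merge (leaf 4 491 588) (leaf 4 523 652))))))))) (node 459 (merge (leaf 5 458 554) (node 426 (merge (leaf 7 426 458) (node 427 (merge (leaf 7 394 394) (node 396 (merge (leaf 6 395 428) (node 395 (merge (leaf 6 363 364) (leaf 5 394 490)))))))))))))) (node 459 (merge (node 554 (merge (leaf 5 426 427) (leaf 5 458 586))) (merge (node 460 (merge (leaf 6 427 428) (node 587 (merge (leaf 6 459 492) (node 586 (merge (leaf 5 458 554) (leaf 5 490 618))))))) (merge (node 460 (merge (leaf 6 427 428) (node 587 (merge (leaf 6 459 492) (node 620 (merge (leaf 4 491 588) (node 619 (merge (leaf 4 523 652) (node 618 (merge (leaf 5 490 586) (leaf 5 522 650))))))))))) (node 460 (merge (leaf 6 427 428) (node 587 (merge (leaf 6 459 492) (node 620 (merge (leaf 4 491 588) (node 619 (merge (leaf 4 523 652) (node 651 (merge (leaf 7 522 554) (node 650 (merge (leaf 5 522 618) (leaf 5 554 682))))))))))))))))))))))) (merge (node 491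 (merge (node 556 (merge (leaf 3 522 522) (node 587 (merge (leaf 1 554 586) (node 460 (merge (leaf 6 459 492) (node 459 (merge (leaf 6 427 428) (leaf 4 459 588))))))))) (merge (node 556 (merge (leaf 3 522 522) (node 587 (merge (leaf 1 554 586) (node 458 (merge (leaf 7 458 490) (node 459 (merge (leaf 7 426 426) (leaf 4 459 588))))))))) (merge (node 556 (merge (leaf 3 522 522) (node 590 (merge (leaf 0 555 591) (node 587 (merge (leaf 1 554 586) (node 460 (merge (leaf 6 459 492) (node 459 (merge (leaf 6 427 428) (node 490 (merge (leaf 7 458 458) (node 461 (merge (leaf 1 458 462) (leaf 4 461 493))))))))))))))) (merge (node 556 (merge (leaf 3 522 522) (node 590 (merge (leaf 0 555 591) (node 459 (merge (leaf 4 459 588) (node 460 (merge (leaf 6 427 428) (node 458 (merge (leaf 7 426 426) (node 461 (merge (leaf 4 461 493) (node 490 (merge (leaf 1 458 462) (leaf 1 457 489))))))))))))))) (merge (node 556 (merge (leaf 3 522 522) (node 459 (merge (leaf 4 459 588) (node 460 (merge (leaf 6 427 428) (node 587 (merge (leaf 6 459 492) (node 458 (merge (leaf 7 426 426) (leaf 7 458 490)))))))))))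 (merge (node 459 (merge (node 460 (merge (leaf 6 427 428) (node 587 (merge (leaf 6 459 492) (node 586 (merge (leaf 5 458 554) (leaf 1 554 556))))))) (merge (node 458 (merge (leaf 7 426 426) (node 587 (merge (leaf 7 458 490) (node 586 (merge (leaf 5 458 554) (leaf 5 490 618))))))) (merge (node 458 (merge (leaf 7 426 426) (node 587 (merge (leaf 7 458 490) (node 588 (merge (leaf 4 459 556) (leaf 4 491 620))))))) (node 460 (merge (leaf 6 427 428) (node 458 (merge (leaf 7 426 426) (node 556 (merge (leaf 4 459 588) (node 590 (merge (leaf 0 555 591) (node 461 (merge (leaf 4 461 493) (node 490 (merge (leaf 1 458 462) (leaf 1 457 489))))))))))))))))) (merge (node 587 (merge (node 490 (merge (leaf 7 458 458) (node 619 (merge (leaf 7 490 522) (node 620 (merge (leaf 4 491 588) (leaf 4 523 652))))))) (merge (node 460 (merge (leaf 6 459 492) (node 459 (merge (leaf 6 427 428) (node 586 (merge (leaf 5 458 554) (leaf 5 490 618))))))) (node 492 (merge (leaf 6 459 460) (node 620 (merge (leaf 4 491 588) (node 619 (merge (leaf 4 523 652) (node 522 (merge (leaf 7 490 490) (node 493 (merge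 (leaf 1 490 494) (node 590 (merge (leaf 4 461 461) (node 622 (merge (leaf 7 525 654) (node 586 (merge (leaf 5 490 618) (leaf 3 586 621)))))))))))))))))))) (node 556 (merge (leaf 3 522 522) (node 590 (merge (leaf 0 555 591) (node 587 (merge (leaf 1 554 586) (node 622 (merge (leaf 7 525 654) (node 620 (merge (leaf 4 491 588) (node 619 (merge (leaf 4 523 652) (node 650 (merge (leaf 5 522 618) (node 651 (merge (leaf 1 618 621) (leaf 5 554 682))))))))))))))))))))))))) (node 491 (merge (node 587 (merge (node 586 (merge (leaf 1 554 556) (leaf 5 490 618))) (node 492 (merge (leaf 6 459 460) (node 619 (merge (leaf 6 491 524) (node 620 (merge (leaf 4 491 588) (leaf 4 523 652))))))))) (merge (node 586 (merge (node 587 (merge (leaf 1 554 556) (leaf 5 490 618))) (node 459 (merge (leaf 5 458 554) (node 428 (merge (leaf 6 427 460) (node 427 (merge (leaf 6 395 396) (node 426 (merge (leaf 7 394 394) (leaf 7 426 458))))))))))) (merge (node 459 (merge (node 460 (merge (leaf 6 427 428) (node 587 (merge (leaf 6 459 492) (node 588 (merge (leaf 4 459 556) (leaf 4 491 620))))))) (merge (node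 428 (merge (leaf 6 427 460) (node 427 (merge (leaf 6 395 396) (node 426 (merge (leaf 7 394 394) (leaf 7 426 458))))))) (node 458 (merge (leaf 7 426 426) (node 587 (merge (leaf 7 458 490) (node 588 (merge (leaf 4 459 556) (leaf 4 491 620)))))))))) (merge (node 459 (merge (node 428 (merge (leaf 6 427 460) (node 427 (merge (leaf 6 395 396) (node 426 (merge (leaf 7 394 394) (leaf 7 426 458))))))) (merge (node 460 (merge (leaf 6 427 428) (node 587 (merge (leaf 6 459 492) (node 586 (merge (leaf 5 458 554) (leaf 5 490 618))))))) (node 458 (merge (leaf 7 426 426) (node 587 (merge (leaf 7 458 490) (node 586 (merge (leaf 5 458 554) (leaf 5 490 618)))))))))) (merge (node 459 (merge (node 428 (merge (leaf 6 427 460) (node 427 (merge (leaf 6 395 396) (node 426 (merge (leaf 7 394 394) (leaf 7 426 458))))))) (merge (node 458 (merge (leaf 7 426 426) (node 556 (merge (leaf 4 459 588) (node 590 (merge (leaf 0 555 591) (node 493 (merge (leaf 4 461 461) (node 492 (merge (leaf 3 458 494) (node 457 (merge (leaf 0 456 456) (leaf 0 457 460))))))))))))) (merge (node 460 (merge (leaf 6 427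 428) (node 556 (merge (leaf 4 459 588) (node 590 (merge (leaf 0 555 591) (node 427 (merge (leaf 4 427 524) (node 426 (merge (leaf 7 394 394) (node 461 (merge (leaf 3 426 462) (leaf 4 461 493))))))))))))) (merge (node 458 (merge (leaf 7 426 426) (node 556 (merge (leaf 4 459 588) (node 590 (merge (leaf 0 555 591) (node 493 (merge (leaf 4 461 461) (node 492 (merge (leaf 3 458 494) (node 457 (merge (leaf 0 456 456) (leaf 3 457 490))))))))))))) (merge (node 460 (merge (leaf 6 427 428) (node 556 (merge (leaf 4 459 588) (node 590 (merge (leaf 0 555 591) (node 461 (merge (leaf 4 461 493) (node 490 (merge (leaf 1 458 462) (node 489 (merge (leaf 1 457 458) (leaf 2 456 488))))))))))))) (node 460 (merge (leaf 6 427 428) (node 458 (merge (leaf 7 426 426) (node 556 (merge (leaf 4 459 588) (node 590 (merge (leaf 0 555 591) (node 461 (merge (leaf 4 461 493) (node 490 (merge (leaf 1 458 462) (leaf 1 457 489))))))))))))))))))) (node 493 (merge (node 586 (merge (node 587 (merge (leaf 1 554 556) (leaf 5 490 618))) (node 459 (merge (leaf 5 458 554) (node 458 (merge (leaf 7 426 426) (node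 492 (merge (leaf 3 458 494) (node 457 (merge (leaf 0 456 456) (leaf 3 457 490))))))))))) (merge (node 461 (merge (leaf 4 461 590) (node 556 (merge (leaf 5 460 588) (node 586 (merge (leaf 1 554 587) (node 524 (merge (leaf 5 428 429) (node 459 (merge (leaf 4 427 427) (leaf 5 458 554))))))))))) (merge (node 461 (merge (leaf 4 461 590) (node 462 (merge (leaf 6 429 430) (node 490 (merge (leaf 2 458 492) (node 556 (merge (leaf 5 460 588) (node 429 (merge (leaf 5 428 524) (node 428 (merge (leaf 7 396 396) (node 426 (merge (leaf 0 426 427) (node 458 (merge (leaf 4 394 394) (leaf 7 426 459))))))))))))))))) (merge (node 461 (merge (leaf 4 461 590) (node 556 (merge (leaf 5 460 588) (node 586 (merge (leaf 1 554 587) (node 554 (merge (leaf 5 458 459) (leaf 1 553 585))))))))) (node 461 (merge (leaf 4 461 590) (node 462 (merge (leaf 6 429 430) (node 490 (merge (leaf 2 458 492) (node 587 (merge (leaf 7 458 458) (node 620 (merge (leaf 4 491 588) (node 619 (merge (leaf 4 523 652) (node 618 (merge (leaf 5 490 586) (leaf 5 522 650)))))))))))))))))))))))))))))) nP_90 cP_90 12 (by decide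 +kernel)
def nP_91 : ℕ := 0x10000000168000001200000000000000000000000000000000000000000000000000000000000000000000000000000000000000000000000000000000000000000000000000000000000
def cP_91 : ℕ := 0x140000005c0000007c000002dc00000204000000df0000037e000003ff000003fc0000025c00000014000000000000000000000000000000000000000000000000000000000000000000000000000000000000000000
theorem lP_91 : S nP_91 cP_91 13 := S_of_chk [] trivial (node 523 (merge (node 524 (merge (leaf 0 522 522) (node 526 (merge (leaf 1 522 554) (node 527 (merge (leaf 0 525 561) (node 493 (merge (leaf 3 492 492) (node 590 (merge (leaf 4 461 461) (leaf 7 493 622))))))))))) (merge (node 524 (merge (leaf 0 522 522) (node 526 (merge (leaf 1 522 554) (node 491 (merge (leaf 3 490 490) (node 492 (merge (leaf 3 491 527) (node 587 (merge (leaf 6 459 460) (leaf 6 491 619))))))))))) (merge (node 522 (merge (leaf 0 522 524) (node 491 (merge (node 493 (merge (node 492 (merge (leaf 1 490 494) (node 521 (merge (leaf 1 489 490) (leaf 2 488 520))))) (node 461 (merge (leaf 4 461 590) (node 430 (merge (leaf 6 429 462) (node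 429 (merge (leaf 6 397 398) (node 428 (merge (leaf 7 396 396) (leaf 7 428 460))))))))))) (merge (node 587 (merge (node 492 (merge (leaf 6 459 460) (node 490 (merge (leaf 7 458 458) (node 493 (merge (leaf 1 490 494) (leaf 1 489 521))))))) (merge (node 490 (merge (leaf 7 458 458) (node 619 (merge (leaf 7 490 522) (node 620 (merge (leaf 4 491 588) (leaf 4 523 652))))))) (node 620 (merge (leaf 4 491 588) (node 619 (merge (leaf 4 523 652) (node 618 (merge (leaf 5 490 586) (leaf 5 522 650)))))))))) (merge (node 586 (merge (node 618 (merge (leaf 6 490 554) (leaf 5 490 587))) (merge (node 587 (merge (leaf 5 490 618) (node 490 (merge (leaf 7 458 458) (node 619 (merge (leaf 7 490 522) (node 620 (merge (leaf 4 491 588) (leaf 4 523 652))))))))) (node 459 (merge (leaf 5 458 554) (node 426 (merge (leaf 7 426 458) (node 427 (merge (leaf 7 394 394) (node 396 (merge (leaf 6 395 428) (node 395 (merge (leaf 6 363 364) (leaf 5 394 490)))))))))))))) (node 459 (merge (node 554 (merge (leaf 5 426 427) (leaf 5 458 586))) (merge (node 460 (merge (leaf 6 427 428) (node 587 (merge (leaf 6 459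 492) (node 586 (merge (leaf 5 458 554) (leaf 5 490 618))))))) (merge (node 460 (merge (leaf 6 427 428) (node 587 (merge (leaf 6 459 492) (node 620 (merge (leaf 4 491 588) (node 619 (merge (leaf 4 523 652) (node 618 (merge (leaf 5 490 586) (leaf 5 522 650))))))))))) (node 460 (merge (leaf 6 427 428) (node 587 (merge (leaf 6 459 492) (node 620 (merge (leaf 4 491 588) (node 619 (merge (leaf 4 523 652) (node 651 (merge (leaf 7 522 554) (node 650 (merge (leaf 5 522 618) (leaf 5 554 682))))))))))))))))))))))) (merge (node 587 (merge (node 522 (merge (leaf 0 522 524) (node 619 (merge (leaf 7 490 490) (node 652 (merge (leaf 4 523 620) (node 651 (merge (leaf 4 555 684) (node 650 (merge (leaf 5 522 618) (leaf 5 554 682))))))))))) (merge (node 524 (merge (leaf 0 522 522) (node 619 (merge (leaf 6 491 492) (node 620 (merge (leaf 4 523 652) (node 491 (merge (leaf 4 491 588) (node 618 (merge (leaf 5 490 586) (leaf 5 522 650))))))))))) (merge (node 491 (merge (node 524 (merge (leaf 0 522 522) (node 490 (merge (leaf 7 458 458) (leaf 3 490 526))))) (merge (node 492 (merge (leaf 6 459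 460) (node 490 (merge (leaf 7 458 458) (node 493 (merge (leaf 0 490 526) (node 461 (merge (leaf 2 458 462) (leaf 4 461 590))))))))) (merge (node 492 (merge (leaf 6 459 460) (node 524 (merge (leaf 0 522 522) (node 490 (merge (leaf 7 458 458) (leaf 0 489 489))))))) (node 492 (merge (leaf 6 459 460) (node 522 (merge (leaf 0 522 524) (node 493 (merge (leaf 1 490 494) (node 526 (merge (leaf 3 492 527) (node 461 (merge (leaf 4 429 429) (leaf 4 461 590))))))))))))))) (merge (node 524 (merge (leaf 0 522 522) (node 492 (merge (leaf 6 491 619) (node 491 (merge (leaf 6 459 460) (node 526 (merge (leaf 3 490 490) (leaf 3 491 527))))))))) (merge (node 524 (merge (leaf 0 522 522) (node 492 (merge (leaf 6 491 619) (node 491 (merge (leaf 6 459 460) (node 526 (merge (leaf 3 490 490) (leaf 3 491 527))))))))) (merge (node 491 (merge (node 490 (merge (leaf 7 458 458) (node 619 (merge (leaf 7 490 522) (node 618 (merge (leaf 5 490 586) (leaf 5 522 650))))))) (merge (node 620 (merge (leaf 4 491 588) (node 619 (merge (leaf 4 523 652) (node 586 (merge (leaf 5 490 618) (node 622 (merge (leaf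 3 586 621) (node 590 (merge (leaf 7 525 654) (node 493 (merge (leaf 4 461 461) (leaf 7 493 526))))))))))))) (node 492 (merge (leaf 6 459 460) (node 490 (merge (leaf 7 458 458) (node 493 (merge (leaf 0 490 526) (node 461 (merge (leaf 2 458 462) (leaf 4 461 590)))))))))))) (node 491 (merge (node 492 (merge (leaf 6 459 460) (node 619 (merge (leaf 6 491 524) (node 618 (merge (leaf 5 490 586) (leaf 5 522 650))))))) (merge (node 492 (merge (leaf 6 459 460) (node 490 (merge (leaf 7 458 458) (node 526 (merge (leaf 0 490 493) (leaf 3 490 524))))))) (node 620 (merge (leaf 4 491 588) (node 619 (merge (leaf 4 523 652) (node 586 (merge (leaf 5 490 618) (node 622 (merge (leaf 3 586 621) (node 590 (merge (leaf 7 525 654) (node 493 (merge (leaf 4 461 461) (leaf 7 493 526))))))))))))))))))))))) (merge (node 493 (merge (node 590 (merge (leaf 4 461 461) (node 622 (merge (leaf 7 493 526) (leaf 7 525 654))))) (merge (node 461 (merge (leaf 4 461 590) (node 430 (merge (leaf 6 429 462) (node 429 (merge (leaf 6 397 398) (node 428 (merge (leaf 7 396 396) (leaf 7 428 460))))))))) (merge (node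 491 (merge (node 492 (merge (node 526 (merge (leaf 0 490 490) (leaf 3 492 527))) (node 587 (merge (leaf 6 459 460) (node 586 (merge (leaf 5 490 618) (node 459 (merge (leaf 5 458 554) (node 458 (merge (leaf 7 426 426) (leaf 3 458 494))))))))))) (merge (node 492 (merge (node 526 (merge (leaf 0 490 490) (leaf 3 492 527))) (merge (node 587 (merge (leaf 6 459 460) (node 490 (merge (leaf 7 458 458) (node 619 (merge (leaf 7 490 522) (node 620 (merge (leaf 4 491 588) (leaf 4 523 652))))))))) (node 494 (merge (leaf 1 490 522) (node 526 (merge (leaf 0 491 527) (node 462 (merge (leaf 5 429 430) (leaf 2 459 463)))))))))) (merge (node 492 (merge (node 526 (merge (leaf 0 490 490) (leaf 3 492 527))) (merge (node 587 (merge (leaf 6 459 460) (node 522 (merge (leaf 1 490 494) (node 490 (merge (leaf 1 489 521) (leaf 7 490 619))))))) (node 494 (merge (leaf 1 490 522) (node 526 (merge (leaf 0 491 527) (node 462 (merge (leaf 5 429 430) (leaf 2 459 463)))))))))) (merge (node 586 (merge (node 459 (merge (leaf 5 458 554) (node 428 (merge (leaf 6 427 460) (node 427 (merge (leaf 6 395 396)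 (node 426 (merge (leaf 7 394 394) (leaf 7 426 458))))))))) (merge (node 587 (merge (leaf 5 490 618) (node 490 (merge (leaf 7 458 458) (node 619 (merge (leaf 7 490 522) (node 620 (merge (leaf 4 491 588) (leaf 4 523 652))))))))) (node 554 (merge (leaf 5 458 459) (node 618 (merge (leaf 6 490 522) (leaf 5 490 587)))))))) (merge (node 492 (merge (node 494 (merge (leaf 1 490 522) (node 526 (merge (leaf 0 491 527) (node 462 (merge (leaf 5 429 430) (leaf 2 459 463))))))) (merge (node 587 (merge (leaf 6 459 460) (node 586 (merge (leaf 5 490 618) (node 459 (merge (leaf 5 458 554) (node 458 (merge (leaf 7 426 426) (leaf 3 458 494))))))))) (node 587 (merge (leaf 6 459 460) (node 620 (merge (leaf 4 491 588) (node 619 (merge (leaf 4 523 652) (node 586 (merge (leaf 5 490 618) (node 622 (merge (leaf 3 586 621) (node 590 (merge (leaf 7 493 526) (leaf 7 525 654)))))))))))))))) (merge (node 586 (merge (node 587 (merge (leaf 5 490 618) (node 490 (merge (leaf 7 458 458) (node 619 (merge (leaf 7 490 522) (node 620 (merge (leaf 4 491 588) (leaf 4 523 652))))))))) (merge (node 459 (merge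 (leaf 5 458 554) (node 458 (merge (leaf 7 426 426) (node 492 (merge (leaf 3 458 494) (node 457 (merge (leaf 0 456 456) (leaf 3 457 490))))))))) (node 554 (merge (leaf 5 458 459) (node 618 (merge (leaf 6 490 522) (leaf 5 490 587)))))))) (node 492 (merge (node 526 (merge (leaf 0 490 490) (leaf 3 492 527))) (node 494 (merge (leaf 1 490 522) (node 462 (merge (leaf 2 459 463) (node 459 (merge (leaf 3 458 458) (node 428 (merge (leaf 6 427 460) (node 427 (merge (leaf 6 395 396) (node 394 (merge (leaf 7 394 426) (node 395 (merge (leaf 7 362 362) (node 430 (merge (leaf 5 397 398) (leaf 3 394 429)))))))))))))))))))))))))) (node 491 (merge (node 492 (merge (node 526 (merge (leaf 0 490 490) (leaf 3 492 527))) (node 587 (merge (leaf 6 459 460) (node 586 (merge (leaf 5 490 618) (node 459 (merge (leaf 5 458 554) (node 458 (merge (leaf 7 426 426) (leaf 3 458 494))))))))))) (merge (node 461 (merge (node 428 (merge (leaf 7 428 460) (node 429 (merge (leaf 7 396 396) (leaf 4 429 526))))) (merge (node 430 (merge (leaf 6 429 462) (node 429 (merge (leaf 6 397 398) (leaf 4 429 526))))) (node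 462 (merge (leaf 6 429 430) (node 460 (merge (leaf 7 428 428) (node 459 (merge (leaf 1 458 490) (node 458 (merge (leaf 7 426 426) (leaf 0 458 494)))))))))))) (merge (node 492 (merge (node 526 (merge (leaf 0 490 490) (leaf 3 492 527))) (merge (node 494 (merge (leaf 1 490 522) (node 462 (merge (leaf 2 459 463) (node 461 (merge (leaf 6 429 430) (leaf 2 458 490))))))) (node 494 (merge (leaf 1 490 522) (node 526 (merge (leaf 0 491 527) (node 462 (merge (leaf 5 429 430) (leaf 2 459 463)))))))))) (merge (node 526 (merge (node 527 (merge (leaf 3 492 492) (leaf 0 525 561))) (node 461 (merge (leaf 4 429 429) (node 462 (merge (leaf 6 429 430) (node 460 (merge (leaf 7 428 428) (node 459 (merge (leaf 1 458 490) (node 427 (merge (leaf 3 426 426) (node 554 (merge (leaf 5 426 522) (leaf 5 458 586))))))))))))))) (merge (node 492 (merge (node 587 (merge (leaf 6 459 460) (node 586 (merge (leaf 5 490 618) (node 459 (merge (leaf 5 458 554) (node 458 (merge (leaf 7 426 426) (leaf 3 458 494))))))))) (merge (node 494 (merge (leaf 1 490 522) (node 462 (merge (leaf 2 459 463) (node 461 (merge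 (leaf 6 429 430) (leaf 2 458 490))))))) (merge (node 494 (merge (leaf 1 490 522) (node 462 (merge (leaf 2 459 463) (node 461 (merge (leaf 6 429 430) (leaf 2 458 490))))))) (node 587 (merge (leaf 6 459 460) (node 490 (merge (leaf 7 458 458) (node 619 (merge (leaf 7 490 522) (node 620 (merge (leaf 4 491 588) (leaf 4 523 652))))))))))))) (merge (node 492 (merge (node 490 (merge (leaf 0 490 526) (node 522 (merge (leaf 1 489 521) (node 458 (merge (leaf 3 457 457) (node 587 (merge (leaf 7 458 523) (leaf 4 458 554))))))))) (merge (node 587 (merge (leaf 6 459 460) (node 490 (merge (leaf 7 458 458) (node 619 (merge (leaf 7 490 522) (node 618 (merge (leaf 5 490 586) (leaf 5 522 650))))))))) (node 526 (merge (leaf 3 492 527) (node 461 (merge (leaf 4 429 429) (node 462 (merge (leaf 6 429 430) (node 460 (merge (leaf 7 428 428) (node 463 (merge (leaf 1 460 464) (node 431 (merge (leaf 2 428 432) (leaf 6 430 494)))))))))))))))) (node 586 (merge (node 459 (merge (leaf 5 458 554) (node 428 (merge (leaf 6 427 460) (node 427 (merge (leaf 6 395 396) (node 426 (merge (leaf 7 394 394) (leaf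 7 426 458))))))))) (merge (node 587 (merge (leaf 5 490 618) (node 492 (merge (leaf 6 459 460) (node 494 (merge (leaf 1 490 522) (node 526 (merge (leaf 0 491 527) (node 462 (merge (leaf 5 429 430) (leaf 2 459 463))))))))))) (node 554 (merge (leaf 5 458 459) (node 618 (merge (leaf 6 490 522) (leaf 5 490 587))))))))))))))))))) (merge (node 491 (merge (node 524 (merge (leaf 0 522 522) (node 554 (merge (leaf 1 522 526) (node 459 (merge (leaf 5 458 586) (node 428 (merge (leaf 6 427 460) (node 427 (merge (leaf 6 395 396) (node 426 (merge (leaf 7 394 394) (leaf 7 426 458))))))))))))) (merge (node 586 (merge (node 459 (merge (leaf 5 458 554) (node 428 (merge (leaf 6 427 460) (node 427 (merge (leaf 6 395 396) (node 426 (merge (leaf 7 394 394) (leaf 7 426 458))))))))) (merge (node 587 (merge (leaf 5 490 618) (node 490 (merge (leaf 7 458 458) (node 619 (merge (leaf 7 490 522) (node 620 (merge (leaf 4 491 588) (leaf 4 523 652))))))))) (node 522 (merge (leaf 0 522 524) (node 554 (merge (leaf 5 458 459) (leaf 6 490 618)))))))) (merge (node 587 (merge (node 524 (merge (leaf 0 522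 522) (node 490 (merge (leaf 7 458 458) (leaf 3 490 526))))) (merge (node 490 (merge (leaf 7 458 458) (node 619 (merge (leaf 7 490 522) (node 620 (merge (leaf 4 491 588) (leaf 4 523 652))))))) (node 620 (merge (leaf 4 491 588) (node 619 (merge (leaf 4 523 652) (node 586 (merge (leaf 5 490 618) (node 622 (merge (leaf 3 586 621) (node 590 (merge (leaf 7 525 654) (node 493 (merge (leaf 4 461 461) (leaf 7 493 526)))))))))))))))) (merge (node 586 (merge (node 459 (merge (leaf 5 458 554) (node 428 (merge (leaf 6 427 460) (node 427 (merge (leaf 6 395 396) (node 426 (merge (leaf 7 394 394) (leaf 7 426 458))))))))) (merge (node 587 (merge (leaf 5 490 618) (node 490 (merge (leaf 7 458 458) (node 619 (merge (leaf 7 490 522) (node 620 (merge (leaf 4 491 588) (leaf 4 523 652))))))))) (node 618 (merge (leaf 5 490 587) (node 554 (merge (leaf 6 490 522) (leaf 6 522 650)))))))) (node 526 (merge (node 524 (merge (leaf 3 490 490) (leaf 1 522 554))) (node 496 (merge (node 527 (merge (leaf 2 493 497) (leaf 0 525 561))) (merge (node 497 (merge (leaf 6 464 465) (leaf 2 493 527))) (merge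 (node 465 (merge (leaf 6 464 497) (node 464 (merge (leaf 6 432 433) (node 593 (merge (leaf 4 464 561) (node 590 (merge (leaf 3 557 591) (node 493 (merge (leaf 4 461 461) (leaf 7 493 622))))))))))) (node 561 (merge (leaf 0 525 527) (node 464 (merge (leaf 4 464 593) (node 433 (merge (leaf 6 432 465) (node 432 (merge (leaf 6 400 401) (node 463 (merge (leaf 7 431 431) (node 461 (merge (leaf 2 429 462) (node 493 (merge (leaf 4 429 429) (leaf 4 461 590)))))))))))))))))))))))))) (node 526 (merge (node 527 (merge (leaf 0 525 561) (node 493 (merge (leaf 3 492 492) (node 461 (merge (leaf 4 429 429) (leaf 4 461 590))))))) (merge (node 524 (merge (leaf 1 522 554) (node 491 (merge (leaf 3 490 490) (node 492 (merge (leaf 3 491 527) (node 587 (merge (leaf 6 459 460) (leaf 6 491 619))))))))) (merge (node 496 (merge (node 527 (merge (leaf 2 493 497) (leaf 0 525 561))) (merge (node 497 (merge (leaf 6 464 465) (leaf 2 493 527))) (merge (node 465 (merge (leaf 6 464 497) (node 464 (merge (leaf 6 432 433) (node 593 (merge (leaf 4 464 561) (node 590 (merge (leaf 3 557 591) (node 622 (merge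 (leaf 7 525 654) (node 493 (merge (leaf 4 461 461) (leaf 7 493 526))))))))))))) (node 561 (merge (leaf 0 525 527) (node 464 (merge (leaf 4 464 593) (node 433 (merge (leaf 6 432 465) (node 432 (merge (leaf 6 400 401) (node 463 (merge (leaf 7 431 431) (node 461 (merge (leaf 2 429 462) (node 493 (merge (leaf 4 429 429) (leaf 4 461 590))))))))))))))))))) (node 587 (merge (node 524 (merge (leaf 1 522 554) (node 619 (merge (leaf 6 491 492) (node 652 (merge (leaf 4 523 620) (node 651 (merge (leaf 4 555 684) (node 650 (merge (leaf 5 522 618) (leaf 5 554 682))))))))))) (merge (node 491 (merge (node 492 (merge (leaf 6 459 460) (node 490 (merge (leaf 7 458 458) (leaf 0 490 493))))) (merge (node 620 (merge (leaf 4 491 588) (node 619 (merge (leaf 4 523 652) (node 586 (merge (leaf 5 490 618) (node 622 (merge (leaf 3 586 621) (node 590 (merge (leaf 7 525 654) (node 493 (merge (leaf 4 461 461) (leaf 7 493 526))))))))))))) (node 620 (merge (leaf 4 491 588) (node 619 (merge (leaf 4 523 652) (node 618 (merge (leaf 5 490 586) (leaf 5 522 650)))))))))) (merge (node 524 (merge (leaf 1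 522 554) (node 491 (merge (leaf 3 490 490) (node 620 (merge (leaf 4 491 588) (node 619 (merge (leaf 4 523 652) (node 586 (merge (leaf 5 490 618) (node 622 (merge (leaf 3 586 621) (node 590 (merge (leaf 7 493 493) (leaf 7 525 654))))))))))))))) (node 524 (merge (leaf 1 522 554) (node 491 (merge (leaf 3 490 490) (node 460 (merge (leaf 6 459 492) (node 459 (merge (leaf 6 427 428) (node 426 (merge (leaf 7 426 458) (node 427 (merge (leaf 7 394 394) (node 461 (merge (leaf 3 426 462) (node 493 (merge (leaf 4 429 429) (leaf 4 461 590)))))))))))))))))))))))))))))))) nP_91 cP_91 13 (by decide +kernel)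
def nP_92 : ℕ := 0x10000000160000001000000000000000000000000000000000000000000000000000000000000000000000000000000000000000000000000000000000000000000000000000000000000
def cP_92 : ℕ := 0x7c0000007c0000007c000002fe0000021c000000ff0000037f000003ff000003fc000002dc00000014000000000000000000000000000000000000000000000000000000000000000000000000000000000000000000
theorem lP_92 : S nP_92 cP_92 15 := S_of_chk [(nP_89, cP_89, 12), (nP_90, cP_90, 12), (nP_91, cP_91, 13)] ⟨lP_89, lP_90, lP_91, trivial⟩ (node 525 (merge (node 590 (merge (node 622 (merge (leaf 7 525 654) (node 493 (merge (leaf 4 461 461) (leaf 7 493 526))))) (merge (node 591 (merge (leaf 3 557 593) (node 589 (merge (leaf 3 556 556) (leaf 2 557 561))))) (node 591 (merge (leaf 3 557 593) (node 589 (merge (leaf 3 556 556) (leaf 2 557 561)))))))) (merge (node 526 (merge (node 527 (merge (leaf 1 524 556) (leaf 0 525 561))) (merge (node 493 (merge (node 461 (merge (leaf 4 429 429) (node 462 (merge (leaf 6 429 430) (node 589 (merge (leaf 6 461 494) (node 588 (merge (leaf 5 460 556) (leaf 5 492 620))))))))) (merge (node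 461 (merge (leaf 4 429 429) (node 462 (merge (leaf 6 429 430) (node 589 (merge (leaf 6 461 494) (node 621 (merge (leaf 6 525 653) (node 492 (merge (leaf 7 460 460) (leaf 7 492 524))))))))))) (merge (node 461 (merge (leaf 4 429 429) (node 460 (merge (leaf 7 428 428) (node 589 (merge (leaf 7 460 492) (node 588 (merge (leaf 5 460 556) (leaf 5 492 620))))))))) (merge (node 461 (merge (leaf 4 429 429) (node 460 (merge (leaf 7 428 428) (node 556 (merge (leaf 5 460 588) (node 555 (merge (leaf 2 522 554) (node 587 (merge (leaf 1 554 586) (node 523 (merge (leaf 3 522 522) (node 492 (merge (leaf 6 459 491) (leaf 5 459 524))))))))))))))) (node 589 (merge (node 621 (merge (leaf 6 493 494) (leaf 6 525 653))) (merge (node 492 (merge (leaf 7 460 460) (node 621 (merge (leaf 7 492 524) (node 620 (merge (leaf 5 492 588) (leaf 5 524 652))))))) (node 494 (merge (leaf 6 461 462) (node 492 (merge (leaf 7 460 460) (node 491 (merge (leaf 0 490 490) (node 523 (merge (leaf 1 490 522) (node 459 (merge (leaf 3 458 458) (node 588 (merge (leaf 5 492 620) (node 556 (merge (leaf 7 459 524) (leaf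 4 459 555))))))))))))))))))))))) (node 527 (merge (leaf 0 525 561) (node 493 (merge (leaf 3 492 492) (node 461 (merge (leaf 4 429 429) (node 462 (merge (leaf 6 429 430) (node 589 (merge (leaf 6 461 494) (node 621 (merge (leaf 6 525 653) (node 620 (merge (leaf 5 492 588) (leaf 5 524 652)))))))))))))))))) (merge (node 590 (merge (node 622 (merge (leaf 7 525 654) (node 493 (merge (leaf 4 461 461) (leaf 7 493 526))))) (merge (node 622 (merge (leaf 7 525 654) (node 493 (merge (leaf 4 461 461) (leaf 4 493 589))))) (node 591 (merge (leaf 3 557 593) (node 589 (merge (leaf 3 556 556) (node 621 (merge (leaf 1 588 620) (node 653 (merge (leaf 6 525 526) (leaf 6 557 685)))))))))))) (merge (node 590 (merge (node 622 (merge (leaf 7 525 654) (node 493 (merge (leaf 4 461 461) (leaf 7 493 526))))) (merge (node 622 (merge (leaf 7 525 654) (node 493 (merge (leaf 4 461 461) (leaf 4 493 589))))) (merge (node 654 (merge (leaf 7 525 622) (node 591 (merge (leaf 3 557 593) (node 589 (merge (leaf 2 557 561) (node 621 (merge (leaf 1 588 620) (node 653 (merge (leaf 6 525 526) (leaf 4 557 686)))))))))))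 (node 591 (merge (leaf 3 557 593) (node 589 (merge (leaf 2 557 561) (node 621 (merge (leaf 1 588 620) (node 653 (merge (leaf 6 525 526) (leaf 6 557 685))))))))))))) (merge (node 590 (merge (node 622 (merge (leaf 7 525 654) (node 589 (merge (leaf 4 493 493) (node 591 (merge (leaf 3 556 556) (leaf 2 557 561))))))) (merge (node 622 (merge (leaf 7 525 654) (node 526 (merge (leaf 7 493 493) (node 527 (merge (leaf 1 524 556) (leaf 0 525 561))))))) (merge (node 591 (merge (leaf 3 557 593) (node 589 (merge (leaf 3 556 556) (node 621 (merge (leaf 1 588 620) (node 653 (merge (leaf 6 525 526) (leaf 6 557 685))))))))) (node 654 (merge (leaf 7 525 622) (node 591 (merge (leaf 3 557 593) (node 589 (merge (leaf 2 557 561) (node 621 (merge (leaf 1 588 620) (node 653 (merge (leaf 6 525 526) (leaf 4 557 686))))))))))))))) (merge (node 493 (merge (node 461 (merge (leaf 4 461 590) (node 556 (merge (leaf 5 460 588) (node 430 (merge (leaf 6 429 462) (node 429 (merge (leaf 6 397 398) (leaf 5 428 524))))))))) (merge (node 461 (merge (leaf 4 461 590) (node 462 (merge (leaf 6 429 430) (node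 589 (merge (leaf 6 461 494) (node 460 (merge (leaf 7 428 428) (leaf 7 460 492))))))))) (merge (node 461 (merge (node 460 (merge (leaf 7 428 428) (node 589 (merge (leaf 7 460 492) (node 588 (merge (leaf 5 460 556) (leaf 5 492 620))))))) (merge (node 556 (merge (leaf 5 460 588) (node 430 (merge (leaf 6 429 462) (node 429 (merge (leaf 6 397 398) (leaf 5 428 524))))))) (node 430 (merge (leaf 6 429 462) (node 429 (merge (leaf 6 397 398) (node 428 (merge (leaf 7 396 396) (leaf 7 428 460)))))))))) (node 589 (merge (node 492 (merge (leaf 7 460 460) (node 621 (merge (leaf 7 492 524) (node 620 (merge (leaf 5 492 588) (leaf 5 524 652))))))) (node 590 (merge (node 622 (merge (leaf 4 493 493) (leaf 7 525 654))) (node 591 (merge (leaf 3 556 556) (leaf 2 557 561))))))))))) (merge (node 526 (merge (node 527 (merge (leaf 1 524 556) (leaf 0 525 561))) (merge (node 556 (merge (leaf 1 524 527) (node 555 (merge (leaf 2 522 554) (node 590 (merge (leaf 0 555 591) (node 587 (merge (leaf 1 554 586) (node 622 (merge (leaf 7 525 654) (node 523 (merge (leaf 3 522 522) (node 621 (merge (leaf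 5 525 653) (node 589 (merge (leaf 6 493 494) (node 620 (merge (leaf 5 524 652) (node 491 (merge (leaf 4 491 588) (node 490 (merge (leaf 7 458 458) (leaf 3 490 524))))))))))))))))))))))) (merge (node 496 (merge (node 497 (merge (leaf 6 464 465) (leaf 2 493 527))) (merge (node 527 (merge (leaf 2 493 497) (leaf 0 525 561))) (merge (node 561 (merge (leaf 0 525 527) (node 464 (merge (leaf 4 464 593) (node 433 (merge (leaf 6 432 465) (node 432 (merge (leaf 6 400 401) (node 463 (merge (leaf 7 431 431) (node 462 (merge (leaf 2 429 461) (node 494 (merge (leaf 5 429 430) (leaf 5 461 589))))))))))))))) (node 465 (merge (leaf 6 464 497) (node 464 (merge (leaf 6 432 433) (node 431 (merge (leaf 7 431 463) (node 432 (merge (leaf 7 399 399) (node 430 (merge (leaf 0 429 429) (node 593 (merge (leaf 4 464 561) (node 590 (merge (leaf 3 557 591) (node 622 (merge (leaf 7 525 654) (node 494 (merge (leaf 5 429 462) (node 621 (merge (leaf 6 493 589) (leaf 5 525 653))))))))))))))))))))))))) (node 555 (merge (node 523 (merge (node 522 (merge (leaf 0 522 524) (leaf 3 522 556))) (merge (node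 524 (merge (leaf 0 522 522) (leaf 1 522 554))) (merge (node 556 (merge (leaf 3 522 522) (leaf 2 522 554))) (node 554 (merge (leaf 1 522 524) (leaf 2 522 556))))))) (merge (node 556 (merge (leaf 2 522 554) (node 590 (merge (leaf 0 555 591) (node 587 (merge (leaf 1 554 586) (node 622 (merge (leaf 7 525 654) (node 621 (merge (leaf 5 525 653) (node 589 (merge (leaf 6 493 494) (node 524 (merge (leaf 7 492 492) (node 619 (merge (leaf 6 523 651) (node 618 (merge (leaf 1 586 588) (leaf 2 586 620))))))))))))))))))) (merge (node 590 (merge (node 591 (merge (leaf 0 555 556) (leaf 3 557 593))) (merge (node 591 (merge (leaf 3 557 593) (node 589 (merge (leaf 3 556 556) (leaf 2 557 561))))) (merge (node 622 (merge (leaf 7 525 654) (node 621 (merge (leaf 5 525 653) (node 589 (merge (leaf 6 493 494) (node 620 (merge (leaf 1 588 591) (leaf 5 524 652))))))))) (node 622 (merge (leaf 7 525 654) (node 621 (merge (leaf 5 525 653) (node 589 (merge (leaf 6 493 494) (node 524 (merge (leaf 7 492 492) (node 620 (merge (leaf 5 524 652) (node 619 (merge (leaf 2 586 618) (node 651 (merge (leaf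 1 618 650) (node 587 (merge (leaf 3 586 586) (node 556 (merge (leaf 6 523 555) (leaf 5 523 588))))))))))))))))))))))) (merge (node 556 (merge (leaf 2 522 554) (node 590 (merge (leaf 0 555 591) (node 587 (merge (leaf 1 554 586) (node 622 (merge (leaf 7 525 654) (node 523 (merge (leaf 3 522 522) (node 621 (merge (leaf 5 525 653) (node 589 (merge (leaf 6 493 494) (node 620 (merge (leaf 5 524 652) (node 619 (merge (leaf 2 586 618) (node 651 (merge (leaf 1 618 650) (node 588 (merge (leaf 4 491 491) (leaf 6 555 683))))))))))))))))))))))) (hyp 0)))))))))) (node 555 (merge (node 590 (merge (node 591 (merge (leaf 0 555 556) (leaf 3 557 593))) (node 622 (merge (leaf 7 525 654) (node 493 (merge (leaf 4 461 461) (leaf 7 493 526))))))) (merge (node 523 (merge (node 522 (merge (leaf 0 522 524) (leaf 3 522 556))) (merge (node 556 (merge (leaf 3 522 522) (node 526 (merge (leaf 1 524 527) (leaf 2 522 554))))) (merge (node 526 (merge (node 527 (merge (leaf 1 524 556) (leaf 0 525 561))) (merge (node 554 (merge (leaf 1 522 524) (leaf 2 522 556))) (node 527 (merge (leaf 0 525 561) (node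 524 (merge (leaf 1 522 554) (node 491 (merge (leaf 3 490 490) (leaf 3 491 492)))))))))) (node 524 (merge (leaf 0 522 522) (node 526 (merge (leaf 1 522 554) (node 527 (merge (leaf 0 525 561) (node 491 (merge (leaf 3 490 490) (leaf 3 491 492))))))))))))) (merge (hyp 1) (hyp 2))))))))))))) nP_92 cP_92 15 (by decide +kernel)
def nP_93 : ℕ := 0x10000000160000000600000000000000000000000000000000000000000000000000000000000000000000000000000000000000000000000000000000000000000000000000000000000
def cP_93 : ℕ := 0x1c0000007c0000007c000000fe0000021c0000001c0000005e0000007c0000005c0000001c00000000000000000000000000000000000000000000000000000000000000000000000000000000000000000000000000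
theorem lP_93 : S nP_93 cP_93 13 := S_of_chk [] trivial (node 555 (merge (node 523 (merge (node 522 (merge (leaf 0 522 524) (leaf 3 522 556))) (merge (node 524 (merge (leaf 0 522 522) (leaf 1 522 554))) (merge (node 556 (merge (leaf 3 522 522) (leaf 2 522 554))) (node 554 (merge (leaf 1 522 524) (leaf 2 522 556))))))) (merge (node 556 (merge (leaf 2 522 554) (node 590 (merge (leaf 0 555 591) (node 587 (merge (leaf 1 554 586) (node 622 (merge (leaf 7 525 654) (node 621 (merge (leaf 5 525 653) (node 589 (merge (leaf 6 493 494) (node 524 (merge (leaf 7 492 492) (node 619 (merge (leaf 6 523 651) (node 618 (merge (leaf 1 586 588) (leaf 2 586 620))))))))))))))))))) (merge (node 556 (merge (leaf 2 522 554) (node 590 (merge (leaf 0 555 591) (node 587 (merge (leaf 1 554 586) (node 622 (merge (leaf 7 525 654) (node 523 (merge (leaf 3 522 522) (node 621 (merge (leaf 5 525 653) (node 589 (merge (leaf 6 493 494) (node 620 (merge (leaf 5 524 652) (node 619 (merge (leaf 2 586 618) (node 651 (merge (leaf 1 618 650) (node 588 (merge (leaf 4 491 491) (leaf 6 555 683)))))))))))))))))))))))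 (merge (node 523 (merge (node 522 (merge (leaf 0 522 524) (leaf 3 522 556))) (merge (node 556 (merge (leaf 3 522 522) (node 590 (merge (leaf 0 555 591) (node 587 (merge (leaf 1 554 586) (node 622 (merge (leaf 7 525 654) (node 621 (merge (leaf 5 525 653) (node 589 (merge (leaf 6 493 494) (node 620 (merge (leaf 5 524 652) (node 619 (merge (leaf 2 586 618) (node 651 (merge (leaf 1 618 650) (node 588 (merge (leaf 4 491 491) (leaf 6 555 683))))))))))))))))))))) (merge (node 587 (merge (node 522 (merge (leaf 0 522 524) (node 619 (merge (leaf 7 490 490) (node 652 (merge (leaf 4 523 620) (node 651 (merge (leaf 4 555 684) (node 650 (merge (leaf 5 522 618) (leaf 5 554 682))))))))))) (merge (node 524 (merge (leaf 0 522 522) (node 619 (merge (leaf 6 491 492) (node 620 (merge (leaf 4 523 652) (node 491 (merge (leaf 4 491 588) (node 618 (merge (leaf 5 490 586) (leaf 5 522 650))))))))))) (merge (node 524 (merge (leaf 0 522 522) (node 491 (merge (leaf 3 490 490) (node 492 (merge (leaf 6 459 460) (node 589 (merge (leaf 7 492 621) (node 586 (merge (leaf 2 554 588) (leaf 5 490 618)))))))))))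 (merge (node 524 (merge (node 619 (merge (leaf 6 491 492) (node 491 (merge (leaf 3 490 490) (node 620 (merge (leaf 4 491 588) (leaf 4 523 652))))))) (merge (node 491 (merge (leaf 3 490 490) (node 588 (merge (leaf 4 491 620) (node 586 (merge (leaf 2 554 589) (leaf 5 490 618))))))) (merge (node 619 (merge (leaf 6 491 492) (node 491 (merge (leaf 3 490 490) (node 618 (merge (leaf 5 490 586) (leaf 5 522 650))))))) (node 619 (merge (leaf 6 491 492) (node 652 (merge (leaf 4 523 620) (node 651 (merge (leaf 4 555 684) (node 650 (merge (leaf 5 522 618) (leaf 5 554 682))))))))))))) (merge (node 491 (merge (node 588 (merge (leaf 4 491 620) (node 586 (merge (leaf 2 554 589) (leaf 5 490 618))))) (merge (node 490 (merge (leaf 7 458 458) (node 619 (merge (leaf 7 490 522) (node 618 (merge (leaf 5 490 586) (leaf 5 522 650))))))) (node 490 (merge (leaf 7 458 458) (node 619 (merge (leaf 7 490 522) (node 620 (merge (leaf 4 491 588) (leaf 4 523 652)))))))))) (node 522 (merge (leaf 0 522 524) (node 619 (merge (leaf 7 490 490) (node 620 (merge (leaf 4 523 652) (node 588 (merge (leaf 4 491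 491) (node 586 (merge (leaf 2 554 589) (node 621 (merge (leaf 0 585 585) (leaf 3 586 622))))))))))))))))))) (node 587 (merge (node 586 (merge (leaf 1 554 556) (node 589 (merge (leaf 2 554 588) (node 621 (merge (leaf 6 493 494) (leaf 6 525 653))))))) (merge (node 586 (merge (leaf 1 554 556) (node 491 (merge (leaf 5 490 618) (node 492 (merge (leaf 6 459 460) (node 524 (merge (leaf 6 491 619) (node 490 (merge (leaf 7 458 458) (leaf 0 489 489))))))))))) (merge (node 524 (merge (node 619 (merge (leaf 6 491 492) (node 491 (merge (leaf 3 490 490) (node 620 (merge (leaf 4 491 588) (leaf 4 523 652))))))) (merge (node 491 (merge (leaf 3 490 490) (node 588 (merge (leaf 4 491 620) (node 586 (merge (leaf 2 554 589) (leaf 5 490 618))))))) (merge (node 619 (merge (leaf 6 491 492) (node 491 (merge (leaf 3 490 490) (node 618 (merge (leaf 5 490 586) (leaf 5 522 650))))))) (node 619 (merge (leaf 6 491 492) (node 652 (merge (leaf 4 523 620) (node 651 (merge (leaf 4 555 684) (node 650 (merge (leaf 5 522 618) (leaf 5 554 682))))))))))))) (node 524 (merge (node 619 (merge (leaf 6 491 492)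 (node 491 (merge (leaf 3 490 490) (node 620 (merge (leaf 4 491 588) (leaf 4 523 652))))))) (merge (node 619 (merge (leaf 6 491 492) (node 651 (merge (leaf 6 523 556) (node 650 (merge (leaf 5 522 618) (leaf 5 554 682))))))) (node 491 (merge (leaf 3 490 490) (node 588 (merge (leaf 4 491 620) (node 459 (merge (leaf 4 459 556) (node 428 (merge (leaf 6 427 460) (node 427 (merge (leaf 6 395 396) (node 426 (merge (leaf 7 394 394) (leaf 7 426 458)))))))))))))))))))))))) (node 523 (merge (node 524 (merge (leaf 0 522 522) (leaf 1 522 554))) (merge (node 491 (merge (node 524 (merge (leaf 3 490 490) (leaf 1 522 554))) (merge (node 490 (merge (leaf 3 490 524) (node 587 (merge (leaf 7 458 458) (node 588 (merge (leaf 4 491 620) (node 586 (merge (leaf 2 554 589) (leaf 5 490 618))))))))) (merge (node 459 (merge (node 428 (merge (leaf 6 427 460) (node 427 (merge (leaf 6 395 396) (node 426 (merge (leaf 7 394 394) (leaf 7 426 458))))))) (merge (node 460 (merge (leaf 6 427 428) (node 587 (merge (leaf 6 459 492) (node 586 (merge (leaf 5 458 554) (leaf 5 490 618))))))) (node 458 (merge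 (leaf 7 426 426) (node 587 (merge (leaf 7 458 490) (node 586 (merge (leaf 5 458 554) (leaf 5 490 618)))))))))) (node 554 (merge (leaf 1 522 524) (node 459 (merge (leaf 5 458 586) (node 460 (merge (leaf 6 427 428) (node 587 (merge (leaf 6 459 492) (node 588 (merge (leaf 4 491 620) (node 589 (merge (leaf 3 554 590) (node 621 (merge (leaf 6 493 494) (leaf 6 525 653))))))))))))))))))) (merge (node 587 (merge (node 522 (merge (leaf 0 522 524) (node 619 (merge (leaf 7 490 490) (node 652 (merge (leaf 4 523 620) (node 651 (merge (leaf 4 555 684) (node 650 (merge (leaf 5 522 618) (leaf 5 554 682))))))))))) (merge (node 524 (merge (leaf 0 522 522) (node 619 (merge (leaf 6 491 492) (node 620 (merge (leaf 4 523 652) (node 491 (merge (leaf 4 491 588) (node 618 (merge (leaf 5 490 586) (leaf 5 522 650))))))))))) (merge (node 524 (merge (leaf 0 522 522) (node 491 (merge (leaf 3 490 490) (node 492 (merge (leaf 6 459 460) (node 589 (merge (leaf 7 492 621) (node 586 (merge (leaf 2 554 588) (leaf 5 490 618))))))))))) (merge (node 524 (merge (node 619 (merge (leaf 6 491 492) (node 491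 (merge (leaf 3 490 490) (node 620 (merge (leaf 4 491 588) (leaf 4 523 652))))))) (merge (node 491 (merge (leaf 3 490 490) (node 588 (merge (leaf 4 491 620) (node 586 (merge (leaf 2 554 589) (leaf 5 490 618))))))) (merge (node 619 (merge (leaf 6 491 492) (node 491 (merge (leaf 3 490 490) (node 618 (merge (leaf 5 490 586) (leaf 5 522 650))))))) (node 619 (merge (leaf 6 491 492) (node 652 (merge (leaf 4 523 620) (node 651 (merge (leaf 4 555 684) (node 650 (merge (leaf 5 522 618) (leaf 5 554 682))))))))))))) (merge (node 491 (merge (node 588 (merge (leaf 4 491 620) (node 586 (merge (leaf 2 554 589) (leaf 5 490 618))))) (merge (node 490 (merge (leaf 7 458 458) (node 619 (merge (leaf 7 490 522) (node 618 (merge (leaf 5 490 586) (leaf 5 522 650))))))) (node 490 (merge (leaf 7 458 458) (node 619 (merge (leaf 7 490 522) (node 620 (merge (leaf 4 491 588) (leaf 4 523 652)))))))))) (node 522 (merge (leaf 0 522 524) (node 619 (merge (leaf 7 490 490) (node 620 (merge (leaf 4 523 652) (node 588 (merge (leaf 4 491 491) (node 586 (merge (leaf 2 554 589) (node 621 (merge (leaf 0 585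 585) (leaf 3 586 622))))))))))))))))))) (node 587 (merge (node 589 (merge (node 621 (merge (leaf 6 493 494) (leaf 6 525 653))) (merge (node 586 (merge (leaf 2 554 588) (node 491 (merge (leaf 5 490 618) (node 460 (merge (leaf 6 459 492) (node 459 (merge (leaf 6 427 428) (leaf 5 458 554))))))))) (node 586 (merge (leaf 2 554 588) (node 491 (merge (leaf 5 490 618) (node 460 (merge (leaf 6 459 492) (node 459 (merge (leaf 6 427 428) (leaf 5 458 554)))))))))))) (merge (node 491 (merge (node 588 (merge (leaf 4 491 620) (node 586 (merge (leaf 2 554 589) (leaf 5 490 618))))) (merge (node 490 (merge (leaf 7 458 458) (node 619 (merge (leaf 7 490 522) (node 618 (merge (leaf 5 490 586) (leaf 5 522 650))))))) (node 490 (merge (leaf 7 458 458) (node 619 (merge (leaf 7 490 522) (node 620 (merge (leaf 4 491 588) (leaf 4 523 652)))))))))) (merge (node 589 (merge (node 621 (merge (leaf 6 493 494) (leaf 6 525 653))) (merge (node 588 (merge (leaf 2 554 586) (node 491 (merge (leaf 4 491 620) (node 460 (merge (leaf 6 459 492) (node 459 (merge (leaf 6 427 428) (node 490 (merge (leaf 7 458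 458) (node 462 (merge (leaf 1 458 461) (leaf 5 461 494))))))))))))) (node 588 (merge (leaf 2 554 586) (node 491 (merge (leaf 4 491 620) (node 460 (merge (leaf 6 459 492) (node 459 (merge (leaf 6 427 428) (node 490 (merge (leaf 7 458 458) (node 522 (merge (leaf 7 490 619) (node 427 (merge (leaf 5 394 395) (leaf 5 426 554)))))))))))))))))) (merge (node 491 (merge (node 490 (merge (leaf 7 458 458) (node 619 (merge (leaf 7 490 522) (node 620 (merge (leaf 4 491 588) (leaf 4 523 652))))))) (merge (node 460 (merge (leaf 6 459 492) (node 459 (merge (leaf 6 427 428) (node 586 (merge (leaf 5 458 554) (leaf 5 490 618))))))) (node 618 (merge (leaf 5 490 586) (node 619 (merge (leaf 5 522 650) (node 522 (merge (leaf 7 490 490) (node 651 (merge (leaf 7 522 554) (node 652 (merge (leaf 4 523 620) (leaf 4 555 684)))))))))))))) (merge (node 491 (merge (node 490 (merge (leaf 7 458 458) (node 619 (merge (leaf 7 490 522) (node 618 (merge (leaf 5 490 586) (leaf 5 522 650))))))) (merge (node 460 (merge (leaf 6 459 492) (node 459 (merge (leaf 6 427 428) (node 586 (merge (leaf 5 458 554) (leaf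 5 490 618))))))) (merge (node 460 (merge (leaf 6 459 492) (node 459 (merge (leaf 6 427 428) (node 490 (merge (leaf 7 458 458) (node 462 (merge (leaf 1 458 461) (node 494 (merge (leaf 5 429 430) (leaf 5 461 589))))))))))) (node 618 (merge (leaf 5 490 586) (node 619 (merge (leaf 5 522 650) (node 522 (merge (leaf 7 490 490) (node 651 (merge (leaf 7 522 554) (node 652 (merge (leaf 4 523 620) (leaf 4 555 684))))))))))))))) (merge (node 491 (merge (node 490 (merge (leaf 7 458 458) (node 619 (merge (leaf 7 490 522) (node 620 (merge (leaf 4 491 588) (leaf 4 523 652))))))) (merge (node 460 (merge (leaf 6 459 492) (node 459 (merge (leaf 6 427 428) (node 490 (merge (leaf 7 458 458) (node 462 (merge (leaf 1 458 461) (node 494 (merge (leaf 5 429 430) (leaf 5 461 589))))))))))) (node 620 (merge (leaf 4 491 588) (node 619 (merge (leaf 4 523 652) (node 650 (merge (leaf 5 522 618) (node 651 (merge (leaf 5 554 682) (node 621 (merge (leaf 1 618 622) (node 589 (merge (leaf 6 493 494) (leaf 6 525 653)))))))))))))))) (node 589 (merge (node 621 (merge (leaf 6 493 494) (leaf 6 525 653)))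 (merge (node 588 (merge (leaf 2 554 586) (node 590 (merge (leaf 3 554 554) (node 619 (merge (leaf 1 586 618) (node 591 (merge (leaf 2 557 561) (leaf 1 587 620))))))))) (node 621 (merge (leaf 6 525 653) (node 622 (merge (leaf 4 525 654) (node 620 (merge (leaf 5 524 652) (node 590 (merge (leaf 1 588 591) (node 619 (merge (leaf 2 586 618) (node 651 (merge (leaf 1 618 650) (node 587 (merge (leaf 3 586 586) (node 522 (merge (leaf 7 490 490) (leaf 7 522 554)))))))))))))))))))))))))))))))))))) nP_93 cP_93 13 (by decide +kernel)
def nP_94 : ℕ := 0x10000000130000001200000000000000000000000000000000000000000000000000000000000000000000000000000000000000000000000000000000000000000000000000000000000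
def cP_94 : ℕ := 0x1800000018000000dc000002c6000000de00000f7f000007fe00000ff80000021000000000000000000000000000000000000000000000000000000000000000000000000000000000000000000000000000
theorem lP_94 : S nP_94 cP_94 11 := S_of_chk [] trivial (node 464 (merge (node 527 (merge (leaf 1 524 526) (node 559 (merge (leaf 2 524 558) (node 496 (merge (leaf 5 431 432) (leaf 5 463 591))))))) (merge (node 559 (merge (node 496 (merge (leaf 5 463 591) (node 465 (merge (leaf 6 432 433) (leaf 6 464 497))))) (node 558 (merge (leaf 2 524 527) (node 524 (merge (leaf 3 523 523) (leaf 3 524 525))))))) (merge (node 496 (merge (node 465 (merge (leaf 6 432 433) (leaf 6 464 497))) (node 559 (merge (leaf 5 463 591) (node 527 (merge (leaf 5 431 432) (node 526 (merge (leaf 0 524 524) (leaf 0 525 561))))))))) (merge (node 496 (merge (node 465 (merge (leaf 6 432 433) (leaf 6 464 497))) (merge (node 497 (merge (leaf 6 464 465) (node 463 (merge (leaf 7 431 431) (node 461 (merge (leaf 0 461 462) (node 493 (merge (leaf 5 460 588) (node 428 (merge (leaf 7 428 460) (node 429 (merge (leaf 7 396 396) (leaf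 5 428 524))))))))))))) (merge (node 461 (merge (node 526 (merge (leaf 1 524 527) (node 493 (merge (leaf 5 460 588) (node 429 (merge (leaf 5 428 524) (leaf 4 429 558))))))) (merge (node 463 (merge (leaf 7 431 431) (node 462 (merge (leaf 0 461 497) (node 526 (merge (leaf 1 524 527) (node 429 (merge (leaf 3 428 428) (node 494 (merge (leaf 5 429 430) (leaf 7 429 558))))))))))) (node 493 (merge (leaf 5 460 588) (node 462 (merge (leaf 6 429 430) (node 460 (merge (leaf 7 428 428) (node 463 (merge (leaf 1 460 492) (node 432 (merge (leaf 2 428 431) (leaf 2 429 433)))))))))))))) (node 433 (merge (leaf 6 432 465) (node 432 (merge (leaf 6 400 401) (node 463 (merge (leaf 7 431 431) (node 526 (merge (leaf 1 524 527) (node 461 (merge (leaf 2 429 462) (node 493 (merge (leaf 5 460 588) (node 429 (merge (leaf 5 428 524) (leaf 4 429 558))))))))))))))))))) (merge (node 462 (merge (node 558 (merge (node 559 (merge (leaf 3 524 524) (leaf 0 556 591))) (node 526 (merge (leaf 1 524 527) (node 494 (merge (leaf 5 429 430) (node 461 (merge (leaf 7 429 429) (node 493 (merge (leaf 5 460 588) (leaf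 7 461 590))))))))))) (merge (node 558 (merge (node 559 (merge (leaf 3 524 524) (leaf 0 556 591))) (node 526 (merge (leaf 1 524 527) (node 494 (merge (leaf 5 429 430) (node 463 (merge (leaf 6 430 431) (node 465 (merge (leaf 1 461 493) (node 498 (merge (leaf 0 462 497) (node 466 (merge (leaf 0 463 499) (node 434 (merge (leaf 2 430 433) (leaf 2 431 435))))))))))))))))) (merge (node 461 (merge (node 493 (merge (leaf 6 429 430) (leaf 5 460 588))) (merge (node 493 (merge (leaf 5 460 588) (node 428 (merge (leaf 7 428 460) (node 463 (merge (leaf 3 428 429) (leaf 1 460 492))))))) (node 463 (merge (node 428 (merge (leaf 3 428 429) (node 460 (merge (leaf 3 427 427) (node 492 (merge (leaf 1 459 491) (leaf 4 428 524))))))) (merge (node 433 (merge (leaf 2 429 432) (node 465 (merge (leaf 2 430 434) (node 429 (merge (leaf 3 428 428) (leaf 3 429 430))))))) (merge (node 432 (merge (leaf 2 429 433) (node 460 (merge (leaf 2 428 431) (node 492 (merge (leaf 1 459 491) (node 428 (merge (leaf 3 427 427) (leaf 4 428 524))))))))) (node 558 (merge (node 559 (merge (leaf 3 524 524) (leaf 0 556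 591))) (node 433 (merge (leaf 2 429 432) (node 465 (merge (leaf 2 430 434) (node 498 (merge (leaf 0 462 497) (node 466 (merge (leaf 0 463 499) (node 430 (merge (leaf 3 429 429) (leaf 3 430 431)))))))))))))))))))) (merge (node 461 (merge (node 493 (merge (leaf 6 429 430) (leaf 5 460 588))) (merge (node 463 (merge (node 428 (merge (leaf 3 428 429) (node 460 (merge (leaf 3 427 427) (node 492 (merge (leaf 1 459 491) (leaf 4 428 524))))))) (merge (node 433 (merge (leaf 2 429 432) (node 465 (merge (leaf 2 430 434) (node 429 (merge (leaf 3 428 428) (leaf 3 429 430))))))) (merge (node 432 (merge (leaf 2 429 433) (node 460 (merge (leaf 2 428 431) (node 492 (merge (leaf 1 459 491) (node 428 (merge (leaf 3 427 427) (leaf 4 428 524))))))))) (node 526 (merge (leaf 1 524 527) (node 432 (merge (leaf 2 429 433) (node 460 (merge (leaf 2 428 431) (node 492 (merge (leaf 1 459 491) (node 429 (merge (leaf 6 428 524) (node 430 (merge (leaf 3 429 465) (leaf 5 429 494))))))))))))))))) (node 493 (merge (leaf 5 460 588) (node 428 (merge (leaf 7 428 460) (node 463 (merge (leaf 3 428 429) (leaf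 1 460 492)))))))))) (merge (node 461 (merge (node 526 (merge (leaf 1 524 527) (node 493 (merge (leaf 5 460 588) (node 429 (merge (leaf 5 428 524) (leaf 4 429 558))))))) (merge (node 493 (merge (leaf 5 460 588) (node 558 (merge (leaf 4 461 590) (node 559 (merge (leaf 2 524 527) (leaf 0 556 591))))))) (merge (node 493 (merge (leaf 5 460 588) (node 428 (merge (leaf 7 428 460) (node 463 (merge (leaf 3 428 429) (leaf 1 460 492))))))) (node 558 (merge (node 559 (merge (leaf 3 524 524) (leaf 0 556 591))) (merge (node 559 (merge (leaf 2 524 527) (leaf 0 556 591))) (node 526 (merge (leaf 1 524 527) (node 429 (merge (leaf 7 429 494) (node 463 (merge (leaf 3 428 428) (node 432 (merge (leaf 2 429 433) (node 460 (merge (leaf 2 428 431) (node 492 (merge (leaf 1 459 491) (leaf 6 428 524)))))))))))))))))))) (merge (node 463 (merge (node 526 (merge (leaf 1 524 527) (node 494 (merge (leaf 5 429 430) (node 558 (merge (leaf 6 430 431) (node 559 (merge (leaf 3 524 524) (leaf 0 556 591))))))))) (merge (node 526 (merge (leaf 1 524 527) (node 430 (merge (leaf 5 429 494) (node 465 (merge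 (leaf 3 429 429) (node 498 (merge (leaf 0 462 497) (node 466 (merge (leaf 0 463 499) (node 434 (merge (leaf 2 430 433) (leaf 2 431 435))))))))))))) (merge (node 461 (merge (node 428 (merge (leaf 3 428 429) (node 460 (merge (leaf 3 427 427) (node 492 (merge (leaf 1 459 491) (leaf 4 428 524))))))) (merge (node 433 (merge (leaf 2 429 432) (node 465 (merge (leaf 2 430 434) (node 429 (merge (leaf 3 428 428) (leaf 3 429 430))))))) (merge (node 432 (merge (leaf 2 429 433) (node 460 (merge (leaf 2 428 431) (node 492 (merge (leaf 1 459 491) (node 428 (merge (leaf 3 427 427) (leaf 4 428 524))))))))) (node 558 (merge (node 559 (merge (leaf 3 524 524) (leaf 0 556 591))) (node 433 (merge (leaf 2 429 432) (node 465 (merge (leaf 2 430 434) (node 498 (merge (leaf 0 462 497) (node 466 (merge (leaf 0 463 499) (node 430 (merge (leaf 3 429 429) (leaf 3 430 431))))))))))))))))) (node 461 (merge (node 428 (merge (leaf 3 428 429) (node 460 (merge (leaf 3 427 427) (node 492 (merge (leaf 1 459 491) (leaf 4 428 524))))))) (merge (node 526 (merge (leaf 1 524 527) (node 429 (merge (leaf 3 428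 428) (node 558 (merge (leaf 7 429 494) (node 559 (merge (leaf 3 524 524) (leaf 0 556 591))))))))) (merge (node 432 (merge (leaf 2 429 433) (node 460 (merge (leaf 2 428 431) (node 492 (merge (leaf 1 459 491) (node 428 (merge (leaf 3 427 427) (leaf 4 428 524))))))))) (merge (node 526 (merge (leaf 1 524 527) (node 432 (merge (leaf 2 429 433) (node 431 (merge (leaf 2 428 460) (node 558 (merge (leaf 6 430 494) (node 559 (merge (leaf 3 524 524) (leaf 3 525 561))))))))))) (node 526 (merge (leaf 1 524 527) (node 429 (merge (leaf 3 428 428) (node 558 (merge (leaf 7 429 494) (node 559 (merge (leaf 3 525 561) (leaf 0 556 591)))))))))))))))))) (node 493 (merge (node 461 (merge (leaf 6 429 430) (leaf 5 460 588))) (merge (node 526 (merge (leaf 1 524 527) (node 494 (merge (leaf 5 429 430) (node 463 (merge (leaf 1 461 465) (node 558 (merge (leaf 6 430 431) (node 559 (merge (leaf 3 525 561) (leaf 0 556 591))))))))))) (node 461 (merge (leaf 5 460 588) (node 558 (merge (leaf 4 461 590) (node 559 (merge (leaf 2 524 527) (leaf 0 556 591))))))))))))))))) (node 524 (merge (node 559 (merge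 (leaf 3 524 558) (node 496 (merge (leaf 5 463 591) (node 465 (merge (leaf 6 432 433) (leaf 6 464 497))))))) (merge (node 492 (merge (node 460 (merge (leaf 4 428 428) (node 459 (merge (leaf 7 427 427) (node 588 (merge (leaf 7 459 491) (node 620 (merge (leaf 6 524 652) (node 619 (merge (leaf 5 491 587) (leaf 5 523 651))))))))))) (merge (node 460 (merge (leaf 4 428 428) (node 461 (merge (leaf 6 428 429) (node 588 (merge (leaf 6 460 493) (node 620 (merge (leaf 6 524 652) (node 619 (merge (leaf 5 491 587) (leaf 5 523 651))))))))))) (merge (node 558 (merge (leaf 3 524 559) (node 460 (merge (leaf 4 428 428) (node 461 (merge (leaf 6 428 429) (node 459 (merge (leaf 7 427 427) (node 493 (merge (leaf 4 461 590) (node 458 (merge (leaf 0 457 457) (leaf 0 458 494))))))))))))) (merge (node 491 (merge (node 588 (merge (leaf 7 459 459) (node 620 (merge (leaf 7 491 523) (leaf 6 524 652))))) (merge (node 588 (merge (leaf 7 459 459) (node 620 (merge (leaf 6 492 493) (leaf 6 524 652))))) (node 490 (merge (leaf 0 489 489) (node 558 (merge (leaf 3 524 559) (node 522 (merge (leaf 0 522 523)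 (node 493 (merge (leaf 1 489 521) (node 461 (merge (leaf 2 458 462) (leaf 4 461 590)))))))))))))) (node 460 (merge (leaf 4 428 428) (node 461 (merge (leaf 6 428 429) (node 588 (merge (leaf 6 460 493) (node 620 (merge (leaf 6 524 652) (node 619 (merge (leaf 5 491 587) (leaf 5 523 651)))))))))))))))) (node 523 (merge (node 522 (merge (leaf 0 521 521) (node 554 (merge (leaf 1 521 553) (node 490 (merge (leaf 3 489 489) (node 491 (merge (leaf 3 490 526) (node 459 (merge (leaf 4 427 427) (leaf 6 458 586))))))))))) (merge (node 491 (merge (node 490 (merge (leaf 3 490 526) (node 489 (merge (leaf 0 488 488) (leaf 0 489 492))))) (merge (node 490 (merge (leaf 3 490 526) (node 489 (merge (leaf 0 488 488) (leaf 0 489 492))))) (merge (node 588 (merge (leaf 7 491 620) (node 492 (merge (leaf 7 459 459) (node 461 (merge (leaf 6 460 493) (node 460 (merge (leaf 4 428 428) (leaf 6 428 429))))))))) (node 588 (merge (leaf 7 491 620) (node 490 (merge (leaf 3 490 526) (node 489 (merge (leaf 0 488 488) (node 459 (merge (leaf 4 427 427) (node 461 (merge (leaf 5 460 493) (node 460 (merge (leaf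 1 457 458) (leaf 1 458 462))))))))))))))))) (merge (node 522 (merge (leaf 0 521 521) (node 493 (merge (leaf 2 490 494) (node 588 (merge (leaf 5 460 461) (leaf 6 492 620))))))) (node 522 (merge (leaf 0 521 521) (node 493 (merge (leaf 2 490 494) (node 490 (merge (leaf 3 489 489) (node 491 (merge (leaf 3 490 526) (node 461 (merge (leaf 5 428 429) (node 462 (merge (leaf 6 429 430) (leaf 2 458 492)))))))))))))))))))))))))) nP_94 cP_94 11 (by decide +kernel)
def nP_95 : ℕ := 0x10000000120000001200000000000000000000000000000000000000000000000000000000000000000000000000000000000000000000000000000000000000000000000000000000000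
def cP_95 : ℕ := 0x4000000fe0000007f800000df800002df800000df80000f7f000007ff00000ffc0000027000000030000000100000000000000000000000000000000000000000000000000000000000000000000000000000000000
theorem lP_95 : S nP_95 cP_95 14 := S_of_chk [(nP_94, cP_94, 11), (nP_68, cP_68, 10)] ⟨lP_94, lP_68, trivial⟩ (node 556 (merge (node 558 (merge (node 559 (merge (leaf 3 524 524) (leaf 0 556 591))) (merge (node 559 (merge (leaf 3 524 524) (leaf 2 524 527))) (node 526 (merge (leaf 1 524 527) (node 555 (merge (leaf 2 522 554) (node 590 (merge (leaf 0 555 591) (node 622 (merge (leaf 7 493 493) (leaf 7 525 654)))))))))))) (merge (node 526 (merge (leaf 1 524 527) (node 558 (merge (node 559 (merge (leaf 3 524 524) (leaf 3 525 561))) (node 555 (merge (leaf 2 522 554) (node 590 (merge (leaf 0 555 591) (node 622 (merge (leaf 7 493 493) (leaf 7 525 654))))))))))) (merge (node 524 (merge (node 526 (merge (leaf 1 524 527) (node 558 (merge (leaf 3 524 559) (node 523 (merge (leaf 0 522 522) (node 491 (merge (leaf 3 490 490) (node 588 (merge (leaf 7 491 620) (node 459 (merge (leaf 4 427 427)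 (leaf 4 459 555))))))))))))) (merge (node 526 (merge (leaf 1 524 527) (node 555 (merge (leaf 2 522 554) (node 558 (merge (leaf 3 524 559) (node 587 (merge (leaf 1 554 586) (node 619 (merge (leaf 6 523 651) (node 492 (merge (leaf 5 459 460) (leaf 5 491 588))))))))))))) (merge (node 526 (merge (leaf 1 524 527) (node 555 (merge (leaf 2 522 554) (node 558 (merge (leaf 3 524 559) (node 523 (merge (leaf 0 522 522) (node 587 (merge (leaf 1 554 586) (node 619 (merge (leaf 6 491 492) (leaf 6 523 651))))))))))))) (merge (node 526 (merge (leaf 1 524 527) (node 558 (merge (leaf 3 524 559) (node 523 (merge (leaf 0 522 522) (node 491 (merge (leaf 3 490 490) (node 588 (merge (leaf 7 491 620) (node 459 (merge (leaf 4 427 427) (leaf 7 459 492))))))))))))) (merge (node 558 (merge (leaf 3 524 559) (node 555 (merge (node 522 (merge (leaf 0 522 523) (node 554 (merge (leaf 3 521 521) (leaf 2 521 553))))) (merge (node 523 (merge (leaf 0 522 522) (node 587 (merge (leaf 1 554 586) (node 619 (merge (leaf 6 491 492) (leaf 6 523 651))))))) (node 587 (merge (leaf 1 554 586) (node 619 (merge (leaf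 6 523 651) (node 492 (merge (leaf 5 459 460) (leaf 5 491 588)))))))))))) (node 526 (merge (leaf 1 524 527) (node 492 (merge (node 555 (merge (leaf 2 522 554) (node 460 (merge (leaf 4 428 428) (leaf 5 459 587))))) (merge (node 460 (merge (leaf 4 428 428) (node 459 (merge (leaf 7 427 427) (node 588 (merge (leaf 7 459 491) (node 620 (merge (leaf 6 524 652) (node 619 (merge (leaf 5 491 587) (leaf 5 523 651))))))))))) (merge (node 588 (merge (node 620 (merge (leaf 6 524 652) (node 619 (merge (leaf 5 491 587) (leaf 5 523 651))))) (merge (node 620 (merge (leaf 6 524 652) (node 523 (merge (leaf 7 491 491) (node 522 (merge (leaf 0 521 521) (node 554 (merge (leaf 1 521 553) (leaf 1 522 555))))))))) (node 491 (merge (leaf 7 459 459) (node 555 (merge (leaf 2 522 554) (node 523 (merge (leaf 3 490 490) (node 587 (merge (leaf 6 491 619) (node 586 (merge (leaf 2 553 585) (leaf 5 490 618)))))))))))))) (node 554 (merge (leaf 2 522 555) (node 460 (merge (leaf 4 428 428) (node 459 (merge (leaf 7 427 427) (node 491 (merge (leaf 7 459 588) (node 523 (merge (leaf 3 490 490) (node 522 (merge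 (leaf 0 521 521) (leaf 1 521 553))))))))))))))))))))))))) (merge (node 558 (merge (node 559 (merge (leaf 3 524 524) (leaf 0 556 591))) (merge (node 590 (merge (node 622 (merge (leaf 7 525 654) (node 493 (merge (leaf 4 461 461) (leaf 7 493 526))))) (node 555 (merge (leaf 0 555 591) (node 586 (merge (leaf 1 554 587) (node 554 (merge (leaf 1 553 585) (node 522 (merge (leaf 3 521 521) (leaf 3 522 523))))))))))) (node 559 (merge (leaf 3 524 524) (node 587 (merge (leaf 1 555 588) (node 555 (merge (leaf 1 554 586) (node 526 (merge (leaf 2 522 554) (leaf 3 525 561)))))))))))) (merge (node 526 (merge (leaf 1 524 527) (node 558 (merge (node 559 (merge (leaf 3 525 561) (leaf 0 556 591))) (merge (node 555 (merge (leaf 2 522 554) (node 590 (merge (leaf 0 555 591) (node 622 (merge (leaf 7 493 493) (leaf 7 525 654))))))) (node 493 (merge (node 461 (merge (leaf 4 429 429) (leaf 5 460 588))) (merge (node 590 (merge (leaf 4 461 461) (leaf 7 493 622))) (node 555 (merge (leaf 2 522 554) (node 587 (merge (leaf 1 554 586) (node 559 (merge (leaf 3 525 561) (leaf 1 555 588)))))))))))))))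 (merge (node 524 (merge (node 526 (merge (leaf 1 524 527) (node 558 (merge (leaf 3 524 559) (node 523 (merge (leaf 0 522 522) (node 491 (merge (leaf 3 490 490) (node 588 (merge (leaf 7 491 620) (node 459 (merge (leaf 4 427 427) (leaf 4 459 555))))))))))))) (merge (node 526 (merge (leaf 1 524 527) (node 558 (merge (leaf 3 524 559) (node 523 (merge (leaf 0 522 522) (node 491 (merge (leaf 3 490 490) (node 588 (merge (leaf 7 491 620) (node 459 (merge (leaf 4 427 427) (leaf 7 459 492))))))))))))) (merge (node 493 (merge (node 588 (merge (leaf 5 460 461) (node 620 (merge (leaf 6 492 524) (leaf 6 524 652))))) (merge (node 526 (merge (leaf 1 524 527) (node 558 (merge (leaf 3 524 559) (node 590 (merge (leaf 4 461 461) (leaf 7 493 622))))))) (node 620 (merge (leaf 6 492 588) (node 526 (merge (leaf 1 524 527) (node 558 (merge (leaf 3 524 559) (node 523 (merge (leaf 0 522 522) (node 590 (merge (leaf 7 493 622) (node 555 (merge (leaf 0 555 591) (node 587 (merge (leaf 1 554 586) (node 619 (merge (leaf 6 491 492) (leaf 4 523 652)))))))))))))))))))) (merge (node 493 (merge (node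 588 (merge (leaf 5 460 461) (node 620 (merge (leaf 6 492 524) (leaf 6 524 652))))) (merge (node 526 (merge (leaf 1 524 527) (node 558 (merge (leaf 3 524 559) (node 590 (merge (leaf 4 461 461) (leaf 7 493 622))))))) (node 588 (merge (leaf 6 492 620) (node 526 (merge (leaf 1 524 527) (node 558 (merge (leaf 3 524 559) (node 590 (merge (leaf 7 493 622) (node 555 (merge (leaf 0 555 591) (node 587 (merge (leaf 1 554 586) (node 619 (merge (leaf 5 491 492) (leaf 6 523 651)))))))))))))))))) (merge (node 492 (merge (node 526 (merge (leaf 1 524 527) (node 491 (merge (node 490 (merge (leaf 0 489 489) (leaf 0 490 493))) (node 588 (merge (leaf 7 459 459) (node 620 (merge (leaf 7 491 523) (leaf 6 524 652))))))))) (merge (node 460 (merge (leaf 4 428 428) (node 461 (merge (leaf 6 428 429) (node 588 (merge (leaf 6 460 493) (node 587 (merge (leaf 5 459 555) (leaf 5 491 619))))))))) (merge (node 460 (merge (leaf 4 428 428) (node 459 (merge (leaf 7 427 427) (node 588 (merge (leaf 7 459 491) (node 587 (merge (leaf 5 459 555) (leaf 5 491 619))))))))) (node 490 (merge (node 491 (merge (leaf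 0 489 489) (node 526 (merge (leaf 0 490 493) (leaf 1 524 527))))) (merge (node 489 (merge (leaf 0 489 491) (node 460 (merge (leaf 4 428 428) (node 461 (merge (leaf 6 428 429) (node 459 (merge (leaf 7 427 427) (leaf 1 457 458))))))))) (merge (node 526 (merge (leaf 1 524 527) (node 491 (merge (leaf 0 490 493) (leaf 3 490 523))))) (node 460 (merge (leaf 4 428 428) (node 461 (merge (leaf 6 428 429) (node 459 (merge (leaf 7 427 427) (node 458 (merge (leaf 1 457 489) (node 493 (merge (leaf 0 457 457) (leaf 0 458 494))))))))))))))))))) (merge (node 492 (merge (node 460 (merge (leaf 4 428 428) (node 459 (merge (leaf 7 427 427) (node 588 (merge (leaf 7 459 491) (node 620 (merge (leaf 6 524 652) (node 619 (merge (leaf 5 491 587) (leaf 5 523 651))))))))))) (merge (node 460 (merge (leaf 4 428 428) (node 461 (merge (leaf 6 428 429) (node 588 (merge (leaf 6 460 493) (node 587 (merge (leaf 5 459 555) (leaf 5 491 619))))))))) (merge (node 558 (merge (leaf 3 524 559) (node 460 (merge (leaf 4 428 428) (node 461 (merge (leaf 6 428 429) (node 459 (merge (leaf 7 427 427) (node 493 (merge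 (leaf 4 461 590) (node 458 (merge (leaf 0 457 457) (leaf 0 458 494))))))))))))) (node 491 (merge (node 588 (merge (leaf 7 459 459) (node 620 (merge (leaf 7 491 523) (leaf 6 524 652))))) (merge (node 588 (merge (leaf 7 459 459) (node 620 (merge (leaf 6 492 493) (leaf 6 524 652))))) (node 490 (merge (leaf 0 489 489) (node 558 (merge (leaf 3 524 559) (node 522 (merge (leaf 0 522 523) (node 493 (merge (leaf 1 489 521) (node 461 (merge (leaf 2 458 462) (leaf 4 461 590)))))))))))))))))) (node 492 (merge (node 558 (merge (leaf 3 524 559) (node 460 (merge (leaf 4 428 428) (node 461 (merge (leaf 6 428 429) (node 493 (merge (leaf 4 461 590) (node 462 (merge (leaf 6 429 430) (node 491 (merge (leaf 1 459 463) (leaf 2 458 490))))))))))))) (merge (node 558 (merge (leaf 3 524 559) (node 460 (merge (leaf 4 428 428) (node 461 (merge (leaf 6 428 429) (node 459 (merge (leaf 7 427 427) (node 493 (merge (leaf 4 461 590) (node 458 (merge (leaf 0 457 457) (leaf 0 458 494))))))))))))) (merge (node 558 (merge (leaf 3 524 559) (node 460 (merge (leaf 4 428 428) (node 461 (merge (leaf 6 428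 429) (node 459 (merge (leaf 7 427 427) (node 493 (merge (leaf 4 461 590) (node 458 (merge (leaf 0 457 457) (leaf 0 458 494))))))))))))) (merge (node 526 (merge (leaf 1 524 527) (node 558 (merge (leaf 3 524 559) (node 523 (merge (leaf 0 522 522) (node 491 (merge (leaf 3 490 490) (node 459 (merge (leaf 4 427 427) (node 460 (merge (leaf 4 428 428) (node 555 (merge (leaf 6 459 587) (node 458 (merge (leaf 7 426 426) (node 493 (merge (leaf 0 457 457) (leaf 3 458 494))))))))))))))))))) (merge (node 558 (merge (leaf 3 524 559) (node 493 (merge (node 461 (merge (leaf 5 428 429) (leaf 4 461 590))) (merge (node 523 (merge (leaf 0 522 522) (node 526 (merge (leaf 1 524 527) (node 491 (merge (leaf 0 490 490) (node 459 (merge (leaf 4 427 427) (node 494 (merge (leaf 3 458 458) (node 462 (merge (leaf 5 429 430) (leaf 2 459 463))))))))))))) (node 523 (merge (leaf 0 522 522) (node 526 (merge (leaf 1 524 527) (node 491 (merge (leaf 0 490 490) (node 459 (merge (leaf 4 427 427) (node 494 (merge (leaf 3 458 458) (node 462 (merge (leaf 5 429 430) (leaf 2 459 463)))))))))))))))))) (merge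 (node 490 (merge (node 491 (merge (leaf 0 489 489) (node 526 (merge (leaf 0 490 493) (leaf 1 524 527))))) (merge (node 489 (merge (leaf 0 489 491) (node 460 (merge (leaf 4 428 428) (node 461 (merge (leaf 6 428 429) (node 459 (merge (leaf 7 427 427) (leaf 1 457 458))))))))) (merge (node 526 (merge (leaf 1 524 527) (node 491 (merge (leaf 0 490 493) (leaf 3 490 523))))) (node 460 (merge (leaf 4 428 428) (node 461 (merge (leaf 6 428 429) (node 459 (merge (leaf 7 427 427) (node 458 (merge (leaf 1 457 489) (node 493 (merge (leaf 0 457 457) (leaf 0 458 494))))))))))))))) (node 526 (merge (leaf 1 524 527) (node 558 (merge (leaf 3 524 559) (node 523 (merge (leaf 0 522 522) (node 491 (merge (leaf 3 490 490) (node 459 (merge (leaf 4 427 427) (node 460 (merge (leaf 4 428 428) (node 461 (merge (leaf 6 428 429) (node 462 (merge (leaf 1 459 463) (node 430 (merge (leaf 2 427 431) (leaf 5 429 494))))))))))))))))))))))))))))))))) (merge (node 558 (merge (node 559 (merge (leaf 2 524 527) (leaf 0 556 591))) (merge (node 559 (merge (leaf 3 524 524) (leaf 2 524 527))) (node 524 (merge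 (node 555 (merge (node 522 (merge (leaf 0 522 523) (node 554 (merge (leaf 3 521 521) (leaf 2 521 553))))) (merge (node 523 (merge (leaf 0 522 522) (node 587 (merge (leaf 1 554 586) (node 619 (merge (leaf 6 491 492) (leaf 6 523 651))))))) (node 587 (merge (leaf 1 554 586) (node 619 (merge (leaf 6 523 651) (node 492 (merge (leaf 5 459 460) (leaf 5 491 588)))))))))) (merge (node 492 (merge (node 460 (merge (leaf 4 428 428) (node 461 (merge (leaf 6 428 429) (node 588 (merge (leaf 6 460 493) (node 587 (merge (leaf 5 459 555) (leaf 5 491 619))))))))) (merge (node 460 (merge (leaf 4 428 428) (node 459 (merge (leaf 7 427 427) (node 588 (merge (leaf 7 459 491) (node 587 (merge (leaf 5 459 555) (leaf 5 491 619))))))))) (merge (node 588 (merge (node 620 (merge (leaf 6 492 493) (leaf 6 524 652))) (merge (node 587 (merge (leaf 5 491 619) (node 586 (merge (leaf 1 554 555) (leaf 2 553 585))))) (node 587 (merge (leaf 5 491 619) (node 586 (merge (leaf 1 554 555) (leaf 2 553 585)))))))) (node 460 (merge (leaf 4 428 428) (node 461 (merge (leaf 6 428 429) (node 459 (merge (leaf 7 427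 427) (node 493 (merge (leaf 4 461 590) (node 458 (merge (leaf 0 457 457) (node 462 (merge (leaf 6 429 430) (node 490 (merge (leaf 1 457 489) (leaf 1 458 491))))))))))))))))))) (merge (node 522 (merge (leaf 0 522 523) (node 492 (merge (node 460 (merge (leaf 4 428 428) (node 461 (merge (leaf 6 428 429) (node 493 (merge (leaf 6 460 588) (leaf 4 461 590))))))) (merge (node 460 (merge (leaf 4 428 428) (node 459 (merge (leaf 7 427 427) (node 588 (merge (leaf 7 459 491) (node 620 (merge (leaf 6 492 493) (leaf 6 524 652))))))))) (merge (node 493 (merge (node 461 (merge (leaf 5 428 429) (leaf 4 461 590))) (node 588 (merge (leaf 6 492 620) (node 491 (merge (leaf 7 459 459) (node 490 (merge (leaf 0 489 489) (leaf 1 489 521))))))))) (merge (node 460 (merge (leaf 4 428 428) (node 461 (merge (leaf 6 428 429) (node 459 (merge (leaf 7 427 427) (node 491 (merge (leaf 7 459 588) (node 490 (merge (leaf 1 458 462) (leaf 0 489 489))))))))))) (node 460 (merge (leaf 4 428 428) (node 461 (merge (leaf 6 428 429) (node 459 (merge (leaf 7 427 427) (node 493 (merge (leaf 4 461 590) (node 458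 (merge (leaf 0 457 457) (node 462 (merge (leaf 6 429 430) (node 490 (merge (leaf 1 457 489) (leaf 1 458 491)))))))))))))))))))))) (merge (node 492 (merge (node 460 (merge (leaf 4 428 428) (node 461 (merge (leaf 6 428 429) (node 493 (merge (leaf 6 460 588) (leaf 4 461 590))))))) (merge (node 523 (merge (leaf 0 522 522) (node 460 (merge (leaf 4 428 428) (node 461 (merge (leaf 6 428 429) (node 588 (merge (leaf 6 460 493) (node 620 (merge (leaf 7 491 491) (leaf 6 524 652))))))))))) (merge (node 588 (merge (node 620 (merge (leaf 6 492 493) (leaf 6 524 652))) (merge (node 523 (merge (leaf 0 522 522) (node 620 (merge (leaf 7 491 491) (leaf 6 524 652))))) (node 493 (merge (leaf 6 460 461) (node 522 (merge (leaf 0 522 523) (node 491 (merge (leaf 7 459 459) (node 490 (merge (leaf 0 489 489) (leaf 1 489 521)))))))))))) (merge (node 460 (merge (leaf 4 428 428) (node 461 (merge (leaf 6 428 429) (node 459 (merge (leaf 7 427 427) (node 493 (merge (leaf 4 461 590) (node 458 (merge (leaf 0 457 457) (node 462 (merge (leaf 6 429 430) (node 490 (merge (leaf 1 457 489) (leaf 1 458 491)))))))))))))))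 (node 460 (merge (leaf 4 428 428) (node 459 (merge (leaf 7 427 427) (node 588 (merge (leaf 7 459 491) (node 620 (merge (leaf 6 524 652) (node 619 (merge (leaf 5 491 587) (leaf 5 523 651)))))))))))))))) (merge (node 492 (merge (node 460 (merge (leaf 4 428 428) (node 461 (merge (leaf 6 428 429) (node 459 (merge (leaf 7 427 427) (node 493 (merge (leaf 4 461 590) (node 458 (merge (leaf 0 457 457) (node 462 (merge (leaf 6 429 430) (node 490 (merge (leaf 1 457 489) (leaf 1 458 491))))))))))))))) (node 555 (merge (node 522 (merge (leaf 0 522 523) (node 554 (merge (leaf 3 521 521) (leaf 2 521 553))))) (merge (node 523 (merge (leaf 0 522 522) (node 587 (merge (leaf 1 554 586) (node 619 (merge (leaf 6 491 492) (leaf 6 523 651))))))) (merge (node 587 (merge (leaf 1 554 586) (node 619 (merge (leaf 6 491 523) (leaf 6 523 651))))) (node 586 (merge (leaf 1 554 587) (node 554 (merge (leaf 2 521 553) (leaf 1 553 585))))))))))) (node 620 (merge (node 588 (merge (leaf 6 492 493) (leaf 6 524 652))) (merge (node 523 (merge (leaf 0 522 522) (node 588 (merge (leaf 7 491 491) (leaf 6 492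 493))))) (node 555 (merge (node 522 (merge (leaf 0 522 523) (node 554 (merge (leaf 3 521 521) (leaf 2 521 553))))) (merge (node 587 (merge (leaf 1 554 586) (node 523 (merge (leaf 3 522 522) (node 619 (merge (leaf 4 523 652) (node 651 (merge (leaf 6 523 524) (node 650 (merge (leaf 5 522 618) (leaf 5 554 682))))))))))) (merge (node 586 (merge (leaf 1 554 587) (node 554 (merge (leaf 2 521 553) (leaf 1 553 585))))) (node 590 (merge (leaf 0 555 591) (node 587 (merge (leaf 1 554 586) (node 619 (merge (leaf 6 523 651) (node 654 (merge (leaf 7 525 622) (node 652 (merge (leaf 4 523 523) (node 653 (merge (leaf 3 619 655) (node 618 (merge (leaf 0 617 617) (leaf 0 618 621))))))))))))))))))))))))))))))) (merge (hyp 0) (node 493 (merge (node 588 (merge (leaf 5 460 461) (node 620 (merge (leaf 6 492 524) (leaf 6 524 652))))) (merge (node 461 (merge (leaf 5 460 588) (node 430 (merge (leaf 6 429 462) (node 429 (merge (leaf 6 397 398) (node 428 (merge (leaf 7 396 396) (leaf 7 428 460))))))))) (merge (node 460 (merge (node 428 (merge (leaf 7 428 461) (node 492 (merge (leaf 4 396 396)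 (leaf 4 428 524))))) (merge (node 461 (merge (leaf 7 428 428) (node 430 (merge (leaf 6 429 462) (node 429 (merge (leaf 6 397 398) (leaf 5 428 524))))))) (merge (node 492 (merge (node 428 (merge (leaf 4 396 396) (leaf 4 428 524))) (node 526 (merge (leaf 1 524 527) (node 491 (merge (leaf 0 490 490) (node 555 (merge (leaf 2 522 554) (node 523 (merge (leaf 6 459 587) (node 494 (merge (leaf 1 490 522) (node 462 (merge (leaf 5 429 430) (leaf 2 459 463))))))))))))))) (merge (node 461 (merge (leaf 7 428 428) (node 430 (merge (leaf 6 429 462) (node 429 (merge (leaf 6 397 398) (node 526 (merge (leaf 1 524 527) (node 397 (merge (leaf 4 397 494) (node 364 (merge (leaf 7 364 396) (node 365 (merge (leaf 7 332 332) (leaf 5 364 492))))))))))))))) (node 524 (merge (node 526 (merge (leaf 1 524 527) (node 555 (merge (leaf 2 522 554) (node 492 (merge (leaf 5 459 587) (node 491 (merge (leaf 0 490 490) (node 459 (merge (leaf 7 427 427) (node 458 (merge (leaf 0 457 457) (leaf 3 458 494))))))))))))) (merge (node 526 (merge (leaf 1 524 527) (node 555 (merge (leaf 2 522 554) (node 461 (merge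 (leaf 5 428 429) (node 462 (merge (leaf 6 429 430) (node 492 (merge (leaf 5 459 587) (node 491 (merge (leaf 1 459 463) (leaf 0 490 490))))))))))))) (merge (node 526 (merge (leaf 1 524 527) (node 555 (merge (leaf 2 522 554) (node 461 (merge (leaf 5 428 429) (node 492 (merge (leaf 5 459 587) (node 459 (merge (leaf 7 427 427) (node 458 (merge (leaf 0 457 457) (leaf 0 458 494))))))))))))) (merge (node 523 (merge (node 522 (merge (leaf 2 490 494) (leaf 0 521 521))) (merge (node 522 (merge (leaf 0 521 521) (node 490 (merge (leaf 3 489 489) (node 461 (merge (leaf 5 428 429) (node 462 (merge (leaf 6 429 430) (node 491 (merge (leaf 1 458 459) (leaf 2 458 492))))))))))) (node 526 (merge (leaf 1 524 527) (node 491 (merge (leaf 3 490 490) (node 459 (merge (leaf 4 427 427) (node 461 (merge (leaf 5 428 429) (node 458 (merge (leaf 0 458 494) (node 492 (merge (leaf 0 457 457) (node 462 (merge (leaf 6 429 430) (leaf 1 459 463)))))))))))))))))) (merge (node 523 (merge (node 522 (merge (leaf 2 490 494) (leaf 0 521 521))) (merge (node 526 (merge (leaf 1 524 527) (node 491 (merge (leaf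 3 490 490) (node 459 (merge (leaf 4 427 427) (node 461 (merge (leaf 5 428 429) (node 458 (merge (leaf 0 458 494) (node 492 (merge (leaf 0 457 457) (node 462 (merge (leaf 6 429 430) (leaf 1 459 463))))))))))))))) (node 526 (merge (leaf 1 524 527) (node 491 (merge (leaf 3 490 490) (node 459 (merge (leaf 4 427 427) (node 461 (merge (leaf 5 428 429) (node 462 (merge (leaf 6 429 430) (node 492 (merge (leaf 1 459 463) (node 458 (merge (leaf 0 457 457) (node 555 (merge (leaf 7 426 426) (leaf 6 459 587)))))))))))))))))))) (merge (node 459 (merge (node 461 (merge (leaf 5 428 429) (node 462 (merge (leaf 6 429 430) (node 491 (merge (leaf 1 458 490) (node 427 (merge (leaf 3 426 426) (leaf 4 427 523))))))))) (merge (node 492 (merge (leaf 7 427 427) (node 458 (merge (leaf 0 457 457) (node 461 (merge (leaf 6 428 429) (leaf 0 458 494))))))) (merge (node 427 (merge (leaf 7 427 492) (node 523 (merge (leaf 4 427 491) (node 522 (merge (leaf 2 490 494) (leaf 0 521 521))))))) (node 461 (merge (leaf 5 428 429) (node 494 (merge (leaf 0 458 458) (node 462 (merge (leaf 6 429 430) (node 491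 (merge (leaf 1 458 490) (node 463 (merge (leaf 1 459 492) (node 464 (merge (leaf 1 461 465) (node 431 (merge (leaf 2 428 432) (leaf 7 431 496))))))))))))))))))) (node 523 (merge (node 522 (merge (leaf 2 490 494) (leaf 0 521 521))) (merge (node 526 (merge (leaf 1 524 527) (node 555 (merge (leaf 1 522 554) (node 491 (merge (leaf 3 490 490) (node 459 (merge (leaf 4 427 427) (node 458 (merge (leaf 7 426 426) (node 461 (merge (leaf 5 428 429) (leaf 0 458 494))))))))))))) (node 522 (merge (leaf 0 521 521) (node 554 (merge (leaf 1 521 553) (node 555 (merge (leaf 1 522 526) (node 490 (merge (leaf 3 489 489) (node 587 (merge (leaf 4 458 458) (leaf 7 490 619)))))))))))))))))))))))))) (node 555 (merge (node 526 (merge (leaf 2 522 554) (leaf 1 524 527))) (merge (node 491 (merge (node 523 (merge (node 588 (merge (leaf 4 459 459) (node 620 (merge (leaf 4 491 587) (leaf 6 524 652))))) (merge (node 526 (merge (leaf 1 524 527) (node 524 (merge (leaf 3 490 490) (node 522 (merge (leaf 2 490 494) (leaf 0 521 521))))))) (node 526 (merge (leaf 1 524 527) (node 524 (merge (leaf 3 490 490)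 (node 522 (merge (leaf 2 490 494) (leaf 0 521 521)))))))))) (merge (node 526 (merge (leaf 1 524 527) (node 490 (merge (leaf 0 490 492) (node 523 (merge (leaf 3 490 524) (node 587 (merge (leaf 7 458 458) (node 619 (merge (leaf 7 490 522) (node 618 (merge (leaf 5 490 586) (leaf 5 522 650))))))))))))) (merge (node 523 (merge (node 459 (merge (leaf 4 459 588) (node 458 (merge (leaf 7 426 426) (node 494 (merge (leaf 3 458 492) (node 524 (merge (leaf 4 427 427) (leaf 2 490 522))))))))) (merge (node 459 (merge (leaf 4 459 588) (node 428 (merge (leaf 6 427 460) (node 427 (merge (leaf 6 395 396) (leaf 4 427 524))))))) (merge (node 459 (merge (leaf 4 459 588) (node 458 (merge (leaf 7 426 426) (node 587 (merge (leaf 7 458 490) (node 492 (merge (leaf 6 459 460) (leaf 3 458 494))))))))) (node 522 (merge (node 521 (merge (leaf 0 520 520) (leaf 0 521 524))) (node 492 (merge (leaf 1 490 494) (node 587 (merge (leaf 6 459 460) (node 619 (merge (leaf 7 490 490) (node 618 (merge (leaf 5 490 586) (leaf 5 522 650))))))))))))))) (merge (node 588 (merge (node 620 (merge (leaf 6 492 524)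 (leaf 6 524 652))) (merge (node 620 (merge (leaf 6 524 652) (node 523 (merge (leaf 4 459 459) (leaf 4 491 587))))) (node 459 (merge (leaf 4 459 523) (node 492 (merge (leaf 7 459 524) (node 458 (merge (leaf 3 458 494) (node 457 (merge (leaf 0 456 456) (leaf 0 457 460)))))))))))) (merge (node 492 (merge (node 526 (merge (leaf 0 490 490) (leaf 1 524 527))) (merge (node 459 (merge (node 458 (merge (leaf 3 458 494) (node 457 (merge (leaf 0 456 456) (leaf 0 457 460))))) (merge (node 524 (merge (leaf 7 459 588) (node 460 (merge (leaf 7 427 427) (leaf 4 428 428))))) (node 458 (merge (leaf 3 458 494) (node 457 (merge (leaf 0 456 456) (leaf 3 457 490)))))))) (node 494 (merge (node 462 (merge (leaf 2 459 463) (node 430 (merge (leaf 5 397 398) (leaf 5 429 526))))) (node 459 (merge (leaf 3 458 458) (node 524 (merge (leaf 7 459 588) (node 460 (merge (leaf 7 427 427) (leaf 4 428 428)))))))))))) (node 523 (merge (node 588 (merge (leaf 4 459 459) (node 620 (merge (leaf 4 491 587) (leaf 6 524 652))))) (node 526 (merge (leaf 1 524 527) (node 492 (merge (leaf 0 490 490) (node 494 (merge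 (leaf 1 490 522) (node 462 (merge (leaf 5 429 430) (leaf 2 459 463))))))))))))))))) (hyp 1))))))))))))))))) nP_95 cP_95 14 (by decide +kernel)
def nP_96 : ℕ := 0x10000000120000001000000000000000000000000000000000000000000000000000000000000000000000000000000000000000000000000000000000000000000000000000000000000
def cP_96 : ℕ := 0x2a0000003fc000003fe0000037f800000ff80000edf80001cff80000f7f000007ff00000ffc0000027c00000030000000100000000000000000000000000000000000000000000000000000000000000000000000000000000000
theorem lP_96 : S nP_96 cP_96 16 := S_of_chk [(nP_93, cP_93, 13), (nP_95, cP_95, 14)] ⟨lP_93, lP_95, trivial⟩ (node 525 (merge (node 526 (merge (node 527 (merge (leaf 1 524 556) (leaf 0 525 561))) (merge (node 527 (merge (leaf 1 524 556) (node 559 (merge (leaf 0 524 524) (node 496 (merge (leaf 2 493 497) (node 464 (merge (leaf 5 431 432) (leaf 5 463 591))))))))) (merge (node 527 (merge (leaf 0 525 561) (node 559 (merge (leaf 0 524 524) (node 496 (merge (leaf 2 493 497) (node 464 (merge (leaf 5 431 432) (leaf 5 463 591))))))))) (node 558 (merge (node 559 (merge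 (leaf 3 524 524) (node 589 (merge (leaf 1 556 588) (node 621 (merge (leaf 6 493 494) (leaf 6 525 653))))))) (merge (node 589 (merge (node 621 (merge (leaf 6 493 494) (leaf 6 525 653))) (node 590 (merge (node 622 (merge (leaf 4 493 493) (leaf 7 525 654))) (node 591 (merge (leaf 3 556 556) (leaf 2 557 561))))))) (node 559 (merge (leaf 3 524 524) (node 591 (merge (leaf 0 556 556) (node 561 (merge (leaf 3 525 526) (node 562 (merge (leaf 1 559 563) (leaf 1 558 590)))))))))))))))) (merge (node 526 (merge (node 527 (merge (leaf 1 524 556) (leaf 0 525 561))) (merge (node 527 (merge (leaf 1 524 556) (node 492 (merge (leaf 3 492 493) (node 524 (merge (leaf 3 491 491) (leaf 0 524 559))))))) (merge (node 527 (merge (leaf 0 525 561) (node 524 (merge (leaf 0 524 559) (node 491 (merge (leaf 3 491 492) (node 523 (merge (leaf 3 490 490) (node 522 (merge (leaf 0 522 558) (node 554 (merge (leaf 1 521 553) (leaf 1 522 555))))))))))))) (node 558 (merge (node 559 (merge (leaf 3 524 524) (leaf 3 525 561))) (merge (node 559 (merge (leaf 3 525 561) (node 589 (merge (leaf 1 556 588) (node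 621 (merge (leaf 6 493 494) (leaf 6 525 653))))))) (node 493 (merge (node 461 (merge (leaf 4 429 429) (node 462 (merge (leaf 6 429 430) (node 589 (merge (leaf 6 461 494) (node 588 (merge (leaf 5 460 556) (leaf 5 492 620))))))))) (merge (node 461 (merge (leaf 4 429 429) (node 462 (merge (leaf 6 429 430) (node 589 (merge (leaf 6 461 494) (node 621 (merge (leaf 6 525 653) (node 492 (merge (leaf 7 460 460) (leaf 7 492 524))))))))))) (merge (node 461 (merge (leaf 4 429 429) (node 460 (merge (leaf 7 428 428) (node 589 (merge (leaf 7 460 492) (node 588 (merge (leaf 5 460 556) (leaf 5 492 620))))))))) (merge (node 461 (merge (leaf 4 429 429) (node 460 (merge (leaf 7 428 428) (node 556 (merge (leaf 5 460 588) (node 555 (merge (leaf 2 522 554) (node 587 (merge (leaf 1 554 586) (node 523 (merge (leaf 3 522 522) (node 492 (merge (leaf 6 459 491) (leaf 5 459 524))))))))))))))) (node 589 (merge (node 621 (merge (leaf 6 493 494) (leaf 6 525 653))) (merge (node 492 (merge (leaf 7 460 460) (node 621 (merge (leaf 7 492 524) (node 620 (merge (leaf 5 492 588) (leaf 5 524 652))))))) (node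 494 (merge (leaf 6 461 462) (node 492 (merge (leaf 7 460 460) (node 491 (merge (leaf 0 490 490) (node 523 (merge (leaf 1 490 522) (node 459 (merge (leaf 3 458 458) (node 588 (merge (leaf 5 492 620) (node 556 (merge (leaf 7 459 524) (leaf 4 459 555)))))))))))))))))))))))))))))) (merge (node 558 (merge (node 559 (merge (leaf 3 524 524) (node 556 (merge (leaf 2 524 527) (leaf 0 556 591))))) (merge (node 559 (merge (leaf 3 524 524) (node 589 (merge (leaf 1 556 588) (node 561 (merge (leaf 3 525 526) (leaf 1 557 590))))))) (merge (node 589 (merge (node 559 (merge (leaf 1 556 588) (node 556 (merge (leaf 2 524 527) (leaf 0 556 591))))) (merge (node 559 (merge (leaf 1 556 588) (node 590 (merge (leaf 1 557 561) (node 622 (merge (leaf 4 493 493) (leaf 7 525 654))))))) (node 590 (merge (node 622 (merge (leaf 4 493 493) (leaf 7 525 654))) (node 591 (merge (leaf 3 556 556) (leaf 2 557 561)))))))) (node 493 (merge (node 461 (merge (leaf 4 461 590) (node 429 (merge (leaf 4 429 526) (node 556 (merge (leaf 5 428 524) (leaf 5 460 588))))))) (merge (node 461 (merge (leaf 4 461 590) (node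 462 (merge (leaf 6 429 430) (node 589 (merge (leaf 6 461 494) (node 460 (merge (leaf 7 428 428) (leaf 7 460 492))))))))) (merge (node 461 (merge (leaf 4 461 590) (node 429 (merge (leaf 4 429 526) (node 556 (merge (leaf 5 428 524) (leaf 5 460 588))))))) (merge (node 526 (merge (node 527 (merge (leaf 3 492 492) (leaf 0 525 561))) (merge (node 527 (merge (leaf 1 524 556) (leaf 0 525 561))) (node 461 (merge (leaf 4 429 429) (node 460 (merge (leaf 7 428 428) (node 556 (merge (leaf 5 460 588) (node 555 (merge (leaf 2 522 554) (node 587 (merge (leaf 1 554 586) (node 523 (merge (leaf 3 522 522) (node 492 (merge (leaf 6 459 491) (leaf 5 459 524)))))))))))))))))) (node 589 (merge (node 590 (merge (node 622 (merge (leaf 4 493 493) (leaf 7 525 654))) (node 591 (merge (leaf 3 556 556) (leaf 2 557 561))))) (merge (node 494 (merge (leaf 6 461 462) (node 492 (merge (leaf 7 460 460) (node 526 (merge (leaf 3 492 527) (node 491 (merge (leaf 0 490 490) (node 523 (merge (leaf 1 490 522) (node 459 (merge (leaf 3 458 458) (node 588 (merge (leaf 5 492 620) (node 556 (merge (leaf 7 459 524)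 (leaf 4 459 555))))))))))))))))) (node 494 (merge (leaf 6 461 462) (node 492 (merge (leaf 7 460 460) (node 590 (merge (leaf 4 493 622) (node 588 (merge (leaf 5 492 620) (node 587 (merge (leaf 2 554 586) (node 619 (merge (leaf 1 586 618) (node 555 (merge (leaf 3 554 554) (node 523 (merge (leaf 6 491 524) (node 522 (merge (leaf 7 490 490) (leaf 1 490 491))))))))))))))))))))))))))))))) (merge (node 558 (merge (node 559 (merge (leaf 3 524 524) (node 556 (merge (leaf 2 524 527) (leaf 0 556 591))))) (merge (node 559 (merge (leaf 3 524 524) (node 589 (merge (leaf 1 556 588) (node 561 (merge (leaf 3 525 526) (leaf 1 557 590))))))) (merge (node 589 (merge (node 559 (merge (leaf 1 556 588) (node 556 (merge (leaf 2 524 527) (leaf 0 556 591))))) (merge (node 559 (merge (leaf 1 556 588) (node 590 (merge (leaf 1 557 561) (node 622 (merge (leaf 4 493 493) (leaf 7 525 654))))))) (node 590 (merge (node 622 (merge (leaf 4 493 493) (leaf 7 525 654))) (node 591 (merge (leaf 3 556 556) (leaf 2 557 561)))))))) (node 493 (merge (node 461 (merge (leaf 4 461 590) (node 429 (merge (leaf 4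 429 526) (node 556 (merge (leaf 5 428 524) (leaf 5 460 588))))))) (merge (node 461 (merge (leaf 4 461 590) (node 430 (merge (leaf 6 429 462) (node 429 (merge (leaf 6 397 398) (leaf 4 429 526))))))) (merge (node 526 (merge (node 527 (merge (leaf 3 492 492) (leaf 0 525 561))) (merge (node 527 (merge (leaf 1 524 556) (leaf 0 525 561))) (node 461 (merge (leaf 4 429 429) (node 460 (merge (leaf 7 428 428) (node 589 (merge (leaf 7 460 492) (node 588 (merge (leaf 5 460 556) (leaf 5 492 620)))))))))))) (merge (node 461 (merge (leaf 4 461 590) (node 526 (merge (leaf 4 429 429) (node 527 (merge (leaf 3 492 492) (leaf 1 524 556))))))) (node 589 (merge (node 492 (merge (leaf 7 460 460) (node 621 (merge (leaf 7 492 524) (node 620 (merge (leaf 5 492 588) (leaf 5 524 652))))))) (node 590 (merge (node 622 (merge (leaf 4 493 493) (leaf 7 525 654))) (node 591 (merge (leaf 3 556 556) (leaf 2 557 561)))))))))))))))) (merge (node 526 (merge (node 527 (merge (leaf 1 524 556) (leaf 0 525 561))) (merge (node 462 (merge (node 494 (merge (leaf 5 429 430) (node 589 (merge (leaf 5 461 558) (leaf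 6 493 621))))) (merge (node 527 (merge (leaf 0 525 561) (node 493 (merge (leaf 3 492 492) (node 461 (merge (leaf 6 429 430) (node 428 (merge (leaf 7 428 460) (node 429 (merge (leaf 7 396 396) (leaf 4 429 558))))))))))) (node 527 (merge (leaf 0 525 561) (node 493 (merge (leaf 3 492 492) (node 589 (merge (leaf 6 461 494) (node 622 (merge (leaf 4 493 590) (node 621 (merge (leaf 4 525 654) (node 620 (merge (leaf 5 492 588) (leaf 5 524 652)))))))))))))))) (merge (node 589 (merge (node 621 (merge (leaf 6 493 494) (node 653 (merge (leaf 6 525 558) (node 654 (merge (leaf 4 525 622) (leaf 4 557 686))))))) (merge (node 621 (merge (leaf 6 493 494) (node 524 (merge (leaf 7 492 492) (node 653 (merge (leaf 7 524 556) (node 652 (merge (leaf 5 524 620) (leaf 5 556 684))))))))) (node 527 (merge (leaf 1 524 556) (node 493 (merge (leaf 3 492 492) (node 590 (merge (leaf 4 493 622) (node 461 (merge (leaf 4 461 558) (node 430 (merge (leaf 6 429 462) (node 429 (merge (leaf 6 397 398) (node 428 (merge (leaf 7 396 396) (leaf 7 428 460)))))))))))))))))) (node 589 (merge (node 621 (merge (leaf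 6 493 494) (node 653 (merge (leaf 6 525 558) (node 654 (merge (leaf 4 525 622) (leaf 4 557 686))))))) (merge (node 621 (merge (leaf 6 493 494) (node 653 (merge (leaf 6 525 558) (node 524 (merge (leaf 7 492 492) (leaf 7 524 556))))))) (merge (node 590 (merge (node 591 (merge (leaf 3 556 556) (leaf 2 557 561))) (node 622 (merge (leaf 4 493 493) (node 654 (merge (leaf 4 525 621) (leaf 7 557 686))))))) (node 590 (merge (node 591 (merge (leaf 3 556 556) (leaf 2 557 561))) (node 493 (merge (leaf 4 493 622) (node 492 (merge (leaf 7 460 460) (node 490 (merge (leaf 0 490 491) (node 558 (merge (leaf 4 461 461) (node 588 (merge (leaf 5 492 620) (node 587 (merge (leaf 2 554 586) (node 619 (merge (leaf 1 586 618) (node 555 (merge (leaf 3 554 554) (node 523 (merge (leaf 7 490 522) (leaf 6 491 524))))))))))))))))))))))))))))) (merge (node 526 (merge (node 527 (merge (leaf 0 525 561) (node 559 (merge (leaf 0 524 524) (node 496 (merge (leaf 2 493 497) (node 464 (merge (leaf 5 431 432) (leaf 5 463 591))))))))) (merge (node 462 (merge (node 494 (merge (leaf 5 429 430) (node 589 (merge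 (leaf 5 461 558) (leaf 6 493 621))))) (merge (node 527 (merge (leaf 0 525 561) (node 493 (merge (leaf 3 492 492) (node 461 (merge (leaf 6 429 430) (node 428 (merge (leaf 7 428 460) (node 429 (merge (leaf 7 396 396) (leaf 4 429 558))))))))))) (node 527 (merge (leaf 0 525 561) (node 493 (merge (leaf 3 492 492) (node 589 (merge (leaf 6 461 494) (node 622 (merge (leaf 4 493 590) (node 621 (merge (leaf 4 525 654) (node 620 (merge (leaf 5 492 588) (leaf 5 524 652)))))))))))))))) (merge (node 493 (merge (node 527 (merge (leaf 3 492 492) (node 559 (merge (leaf 0 524 524) (node 496 (merge (leaf 2 493 497) (node 464 (merge (leaf 5 431 432) (leaf 5 463 591))))))))) (node 590 (merge (node 558 (merge (leaf 4 461 461) (leaf 7 493 622))) (merge (node 589 (merge (leaf 4 493 622) (node 494 (merge (leaf 6 461 462) (node 621 (merge (leaf 6 493 526) (node 620 (merge (leaf 5 492 588) (leaf 5 524 652))))))))) (node 461 (merge (leaf 4 461 558) (node 430 (merge (leaf 6 429 462) (node 429 (merge (leaf 6 397 398) (node 428 (merge (leaf 7 396 396) (leaf 7 428 460)))))))))))))) (node 589 (merge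 (node 621 (merge (leaf 6 493 494) (node 653 (merge (leaf 6 525 558) (node 654 (merge (leaf 4 525 622) (leaf 4 557 686))))))) (merge (node 621 (merge (leaf 6 493 494) (node 653 (merge (leaf 6 525 558) (node 652 (merge (leaf 5 524 620) (leaf 5 556 684))))))) (merge (node 621 (merge (leaf 6 493 494) (node 620 (merge (leaf 5 524 652) (node 590 (merge (leaf 1 588 591) (node 493 (merge (leaf 5 492 588) (leaf 4 493 622))))))))) (merge (node 621 (merge (node 653 (merge (leaf 6 525 558) (node 652 (merge (leaf 5 524 620) (leaf 5 556 684))))) (merge (node 620 (merge (leaf 5 524 652) (node 590 (merge (leaf 1 588 591) (node 493 (merge (leaf 5 492 588) (leaf 4 493 622))))))) (node 524 (merge (leaf 7 492 492) (node 559 (merge (leaf 3 524 558) (node 622 (merge (leaf 4 525 654) (node 590 (merge (leaf 4 493 493) (node 591 (merge (leaf 2 557 561) (leaf 2 556 588)))))))))))))) (node 590 (merge (node 591 (merge (leaf 2 557 561) (node 588 (merge (leaf 2 556 559) (node 619 (merge (leaf 1 587 620) (node 587 (merge (leaf 1 586 618) (node 586 (merge (leaf 2 554 558) (node 554 (merge (leaf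 3 553 553) (leaf 3 554 555))))))))))))) (merge (node 561 (merge (leaf 2 557 591) (node 558 (merge (leaf 1 557 559) (node 493 (merge (leaf 4 461 461) (leaf 7 493 622))))))) (merge (node 591 (merge (leaf 2 557 561) (node 588 (merge (leaf 2 556 559) (node 493 (merge (leaf 5 492 620) (leaf 4 493 622))))))) (node 493 (merge (leaf 4 493 622) (node 492 (merge (leaf 7 460 460) (node 490 (merge (leaf 0 490 491) (node 558 (merge (leaf 4 461 461) (node 588 (merge (leaf 5 492 620) (node 587 (merge (leaf 2 554 586) (node 619 (merge (leaf 1 586 618) (node 555 (merge (leaf 3 554 554) (node 523 (merge (leaf 7 490 522) (leaf 6 491 524)))))))))))))))))))))))))))))))) (merge (node 558 (merge (node 559 (merge (leaf 3 524 524) (node 556 (merge (leaf 2 524 527) (leaf 0 556 591))))) (merge (node 526 (merge (node 559 (merge (leaf 3 524 524) (leaf 3 525 561))) (node 527 (merge (leaf 1 524 556) (node 493 (merge (leaf 3 492 492) (node 590 (merge (leaf 4 461 461) (leaf 7 493 622))))))))) (merge (node 559 (merge (leaf 3 524 524) (node 591 (merge (leaf 0 556 556) (node 561 (merge (leaf 3 525 526)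 (node 562 (merge (leaf 1 559 563) (leaf 1 558 590))))))))) (merge (node 526 (merge (node 527 (merge (leaf 1 524 556) (leaf 0 525 561))) (merge (node 527 (merge (leaf 1 524 556) (node 493 (merge (leaf 3 492 492) (node 590 (merge (leaf 4 461 461) (leaf 7 493 622))))))) (merge (node 589 (merge (node 621 (merge (leaf 6 493 494) (leaf 6 525 653))) (node 590 (merge (node 622 (merge (leaf 4 493 493) (leaf 7 525 654))) (node 591 (merge (leaf 3 556 556) (leaf 2 557 561))))))) (node 527 (merge (leaf 0 525 561) (node 493 (merge (leaf 3 492 492) (node 590 (merge (leaf 4 461 461) (leaf 7 493 622))))))))))) (node 559 (merge (leaf 3 524 524) (node 561 (merge (leaf 3 525 526) (node 590 (merge (leaf 1 557 589) (node 562 (merge (leaf 1 558 591) (node 531 (merge (leaf 2 527 530) (node 563 (merge (leaf 3 527 527) (leaf 2 528 532)))))))))))))))))) (merge (node 526 (merge (node 527 (merge (leaf 1 524 556) (leaf 0 525 561))) (merge (node 462 (merge (node 494 (merge (leaf 5 429 430) (node 589 (merge (leaf 5 461 558) (leaf 6 493 621))))) (merge (node 527 (merge (leaf 0 525 561) (node 493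 (merge (leaf 3 492 492) (node 461 (merge (leaf 6 429 430) (node 428 (merge (leaf 7 428 460) (node 429 (merge (leaf 7 396 396) (leaf 4 429 558))))))))))) (node 527 (merge (leaf 0 525 561) (node 493 (merge (leaf 3 492 492) (node 589 (merge (leaf 6 461 494) (node 622 (merge (leaf 4 493 590) (node 621 (merge (leaf 4 525 654) (node 620 (merge (leaf 5 492 588) (leaf 5 524 652)))))))))))))))) (merge (node 558 (merge (node 559 (merge (leaf 3 525 561) (node 589 (merge (leaf 1 556 588) (node 621 (merge (leaf 6 493 494) (leaf 6 525 653))))))) (merge (node 559 (merge (leaf 3 525 561) (node 556 (merge (leaf 0 556 591) (node 587 (merge (leaf 1 555 588) (node 555 (merge (leaf 2 522 554) (leaf 1 554 586))))))))) (merge (node 589 (merge (node 621 (merge (leaf 6 493 494) (leaf 6 525 653))) (node 590 (merge (node 622 (merge (leaf 4 493 493) (leaf 7 525 654))) (node 591 (merge (leaf 3 556 556) (leaf 2 557 561))))))) (node 589 (merge (node 621 (merge (leaf 6 493 494) (leaf 6 525 653))) (merge (node 588 (merge (leaf 1 556 559) (node 493 (merge (leaf 5 492 620) (node 590 (merge (leaf 4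 461 461) (leaf 7 493 622))))))) (node 588 (merge (leaf 1 556 559) (node 493 (merge (leaf 5 492 620) (node 590 (merge (leaf 4 461 461) (leaf 7 493 622)))))))))))))) (node 462 (merge (node 494 (merge (leaf 5 429 430) (node 589 (merge (leaf 5 461 558) (leaf 6 493 621))))) (merge (node 527 (merge (leaf 1 524 556) (node 496 (merge (leaf 2 493 497) (node 493 (merge (leaf 3 492 492) (node 461 (merge (leaf 6 429 430) (node 428 (merge (leaf 7 428 460) (node 429 (merge (leaf 7 396 396) (node 464 (merge (leaf 3 428 463) (node 559 (merge (leaf 5 431 432) (leaf 5 463 591))))))))))))))))) (node 527 (merge (leaf 1 524 556) (node 493 (merge (leaf 3 492 492) (node 589 (merge (leaf 6 461 494) (node 590 (merge (leaf 4 493 622) (node 588 (merge (leaf 5 492 620) (node 559 (merge (leaf 1 556 558) (leaf 2 556 591)))))))))))))))))))) (merge (node 526 (merge (node 527 (merge (leaf 1 524 556) (node 559 (merge (leaf 0 524 524) (node 496 (merge (leaf 2 493 497) (node 464 (merge (leaf 5 431 432) (leaf 5 463 591))))))))) (merge (node 493 (merge (node 527 (merge (leaf 3 492 492) (node 559 (merge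 (leaf 0 524 524) (node 496 (merge (leaf 2 493 497) (node 464 (merge (leaf 5 431 432) (leaf 5 463 591))))))))) (node 590 (merge (node 558 (merge (leaf 4 461 461) (leaf 7 493 622))) (merge (node 589 (merge (leaf 4 493 622) (node 494 (merge (leaf 6 461 462) (node 621 (merge (leaf 6 493 526) (node 620 (merge (leaf 5 492 588) (leaf 5 524 652))))))))) (node 461 (merge (leaf 4 461 558) (node 430 (merge (leaf 6 429 462) (node 429 (merge (leaf 6 397 398) (node 428 (merge (leaf 7 396 396) (leaf 7 428 460)))))))))))))) (merge (node 589 (merge (node 621 (merge (leaf 6 493 494) (node 653 (merge (leaf 6 525 558) (node 654 (merge (leaf 4 525 622) (leaf 4 557 686))))))) (merge (node 621 (merge (leaf 6 493 494) (node 524 (merge (leaf 7 492 492) (node 653 (merge (leaf 7 524 556) (node 652 (merge (leaf 5 524 620) (leaf 5 556 684))))))))) (node 527 (merge (leaf 1 524 556) (node 493 (merge (leaf 3 492 492) (node 590 (merge (leaf 4 493 622) (node 461 (merge (leaf 4 461 558) (node 430 (merge (leaf 6 429 462) (node 429 (merge (leaf 6 397 398) (node 428 (merge (leaf 7 396 396) (leaf 7 428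 460)))))))))))))))))) (merge (node 462 (merge (node 494 (merge (leaf 5 429 430) (node 589 (merge (leaf 5 461 558) (leaf 6 493 621))))) (merge (node 527 (merge (leaf 1 524 556) (node 496 (merge (leaf 2 493 497) (node 493 (merge (leaf 3 492 492) (node 461 (merge (leaf 6 429 430) (node 428 (merge (leaf 7 428 460) (node 429 (merge (leaf 7 396 396) (node 464 (merge (leaf 3 428 463) (node 559 (merge (leaf 5 431 432) (leaf 5 463 591))))))))))))))))) (node 527 (merge (leaf 1 524 556) (node 493 (merge (leaf 3 492 492) (node 589 (merge (leaf 6 461 494) (node 590 (merge (leaf 4 493 622) (node 588 (merge (leaf 5 492 620) (node 559 (merge (leaf 1 556 558) (leaf 2 556 591)))))))))))))))) (node 589 (merge (node 621 (merge (leaf 6 493 494) (node 653 (merge (leaf 6 525 558) (node 524 (merge (leaf 7 492 492) (leaf 7 524 556))))))) (merge (node 621 (merge (leaf 6 493 494) (node 620 (merge (leaf 5 524 652) (node 590 (merge (leaf 1 588 591) (node 493 (merge (leaf 5 492 588) (leaf 4 493 622))))))))) (merge (node 621 (merge (node 653 (merge (leaf 6 525 558) (node 652 (merge (leaf 5 524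 620) (leaf 5 556 684))))) (merge (node 653 (merge (leaf 6 525 558) (node 524 (merge (leaf 7 492 492) (leaf 7 524 556))))) (merge (node 524 (merge (leaf 7 492 492) (node 653 (merge (leaf 7 524 556) (node 652 (merge (leaf 5 524 620) (leaf 5 556 684))))))) (node 620 (merge (leaf 5 524 652) (node 590 (merge (leaf 1 588 591) (node 493 (merge (leaf 5 492 588) (leaf 4 493 622))))))))))) (node 493 (merge (node 590 (merge (leaf 4 493 622) (node 461 (merge (leaf 4 461 558) (node 588 (merge (leaf 5 460 556) (leaf 5 492 620))))))) (merge (node 588 (merge (leaf 5 492 620) (node 558 (merge (leaf 1 556 559) (node 461 (merge (leaf 4 429 429) (leaf 5 460 556))))))) (merge (node 590 (merge (leaf 4 493 622) (node 588 (merge (leaf 5 492 620) (node 559 (merge (leaf 1 556 558) (leaf 2 556 591))))))) (merge (node 462 (merge (leaf 6 461 494) (node 461 (merge (leaf 6 429 430) (node 492 (merge (leaf 7 460 460) (node 464 (merge (leaf 1 460 463) (node 556 (merge (leaf 5 460 588) (node 591 (merge (leaf 3 556 590) (node 496 (merge (leaf 5 463 559) (node 465 (merge (leaf 6 432 433) (leaf 6 464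 497))))))))))))))))) (node 492 (merge (leaf 7 460 460) (node 590 (merge (leaf 4 493 622) (node 556 (merge (leaf 3 556 591) (node 555 (merge (leaf 0 554 554) (node 558 (merge (leaf 4 461 461) (node 587 (merge (leaf 1 554 586) (node 523 (merge (leaf 3 522 522) (node 524 (merge (leaf 0 523 559) (leaf 6 491 619))))))))))))))))))))))))))))))) (merge (node 558 (merge (node 559 (merge (leaf 3 524 524) (node 589 (merge (leaf 1 556 588) (node 561 (merge (leaf 3 525 526) (leaf 1 557 590))))))) (merge (node 559 (merge (leaf 3 524 524) (node 588 (merge (leaf 1 556 589) (node 556 (merge (leaf 1 555 587) (leaf 0 556 591))))))) (merge (node 559 (merge (leaf 3 524 524) (node 591 (merge (leaf 0 556 556) (node 561 (merge (leaf 3 525 526) (node 562 (merge (leaf 1 559 563) (leaf 1 558 590))))))))) (merge (node 526 (merge (node 559 (merge (leaf 3 525 561) (node 589 (merge (leaf 1 556 588) (node 621 (merge (leaf 6 493 494) (leaf 6 525 653))))))) (merge (node 559 (merge (leaf 3 525 561) (node 556 (merge (leaf 0 556 591) (node 587 (merge (leaf 1 555 588) (node 555 (merge (leaf 2 522 554)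 (leaf 1 554 586))))))))) (merge (node 589 (merge (node 621 (merge (leaf 6 493 494) (leaf 6 525 653))) (node 590 (merge (node 622 (merge (leaf 4 493 493) (leaf 7 525 654))) (node 591 (merge (leaf 3 556 556) (leaf 2 557 561))))))) (node 589 (merge (node 621 (merge (leaf 6 493 494) (leaf 6 525 653))) (merge (node 588 (merge (leaf 1 556 559) (node 493 (merge (leaf 5 492 620) (node 590 (merge (leaf 4 461 461) (leaf 7 493 622))))))) (node 588 (merge (leaf 1 556 559) (node 493 (merge (leaf 5 492 620) (node 590 (merge (leaf 4 461 461) (leaf 7 493 622)))))))))))))) (node 589 (merge (node 590 (merge (node 622 (merge (leaf 4 493 493) (leaf 7 525 654))) (node 591 (merge (leaf 3 556 556) (leaf 2 557 561))))) (merge (node 622 (merge (node 590 (merge (leaf 4 493 493) (leaf 7 525 654))) (merge (node 621 (merge (leaf 4 525 654) (node 653 (merge (leaf 6 525 526) (node 652 (merge (leaf 5 524 620) (leaf 5 556 684))))))) (node 493 (merge (leaf 4 493 590) (node 492 (merge (leaf 7 460 460) (node 621 (merge (leaf 7 492 524) (node 653 (merge (leaf 6 525 526) (node 652 (merge (leaf 5 524 620)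 (leaf 5 556 684)))))))))))))) (merge (node 590 (merge (node 591 (merge (leaf 3 556 556) (leaf 2 557 561))) (node 493 (merge (leaf 4 461 461) (node 494 (merge (leaf 6 461 462) (node 621 (merge (leaf 6 493 526) (node 620 (merge (leaf 5 492 588) (leaf 5 524 652))))))))))) (merge (node 621 (merge (node 653 (merge (leaf 6 525 526) (node 652 (merge (leaf 5 524 620) (leaf 5 556 684))))) (merge (node 524 (merge (leaf 7 492 492) (node 653 (merge (leaf 7 524 556) (node 654 (merge (leaf 4 525 622) (leaf 4 557 686))))))) (node 492 (merge (leaf 7 492 524) (node 493 (merge (leaf 7 460 460) (node 620 (merge (leaf 5 492 588) (leaf 5 524 652)))))))))) (node 590 (merge (node 591 (merge (leaf 3 556 556) (leaf 2 557 561))) (merge (node 654 (merge (leaf 7 525 622) (node 591 (merge (leaf 2 557 561) (node 621 (merge (leaf 1 588 620) (node 653 (merge (leaf 6 525 526) (leaf 4 557 686))))))))) (node 621 (merge (node 524 (merge (leaf 7 492 492) (node 653 (merge (leaf 7 524 556) (node 654 (merge (leaf 4 525 622) (leaf 4 557 686))))))) (merge (node 524 (merge (leaf 7 492 492) (node 653 (merge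 (leaf 7 524 556) (node 652 (merge (leaf 5 524 620) (leaf 5 556 684))))))) (merge (node 654 (merge (leaf 4 525 622) (node 653 (merge (leaf 4 557 686) (node 652 (merge (leaf 5 524 620) (leaf 5 556 684))))))) (node 524 (merge (leaf 7 492 492) (node 622 (merge (leaf 4 525 654) (node 620 (merge (leaf 5 524 652) (node 619 (merge (leaf 2 586 618) (node 651 (merge (leaf 1 618 650) (node 587 (merge (leaf 3 586 586) (node 556 (merge (leaf 6 523 555) (leaf 5 523 588)))))))))))))))))))))))))))))))) (merge (node 526 (merge (node 527 (merge (leaf 1 524 556) (leaf 0 525 561))) (merge (node 527 (merge (leaf 1 524 556) (node 559 (merge (leaf 0 524 524) (node 496 (merge (leaf 2 493 497) (node 464 (merge (leaf 5 431 432) (leaf 5 463 591))))))))) (merge (node 527 (merge (leaf 0 525 561) (node 559 (merge (leaf 0 524 524) (node 496 (merge (leaf 2 493 497) (node 464 (merge (leaf 5 431 432) (leaf 5 463 591))))))))) (node 558 (merge (node 559 (merge (leaf 3 524 524) (leaf 3 525 561))) (merge (node 559 (merge (leaf 3 525 561) (node 589 (merge (leaf 1 556 588) (node 621 (merge (leaf 6 493 494)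 (leaf 6 525 653))))))) (merge (node 559 (merge (leaf 3 524 524) (node 589 (merge (leaf 1 556 588) (node 621 (merge (leaf 6 493 494) (leaf 6 525 653))))))) (hyp 0))))))))) (merge (node 624 (merge (node 657 (merge (leaf 4 528 625) (node 656 (merge (leaf 4 560 689) (node 559 (merge (leaf 7 527 527) (node 688 (merge (leaf 7 559 591) (node 687 (merge (leaf 5 559 655) (leaf 5 591 719))))))))))) (merge (node 559 (merge (node 527 (merge (leaf 7 527 656) (node 558 (merge (leaf 3 524 524) (leaf 2 524 556))))) (merge (node 656 (merge (leaf 7 527 527) (node 688 (merge (leaf 7 559 591) (node 687 (merge (leaf 5 559 655) (leaf 5 591 719))))))) (node 558 (merge (leaf 3 524 524) (node 556 (merge (leaf 0 556 591) (node 588 (merge (leaf 1 555 587) (leaf 1 556 589)))))))))) (merge (node 657 (merge (leaf 4 528 625) (node 656 (merge (leaf 4 560 689) (node 559 (merge (leaf 7 527 527) (node 558 (merge (leaf 3 524 524) (node 589 (merge (leaf 1 556 588) (node 590 (merge (leaf 1 557 561) (node 493 (merge (leaf 4 461 461) (leaf 4 493 622))))))))))))))) (merge (node 589 (merge (node 590 (merge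 (node 591 (merge (leaf 3 556 556) (leaf 2 557 561))) (node 622 (merge (leaf 4 493 493) (node 654 (merge (leaf 4 525 621) (leaf 7 557 686))))))) (merge (node 625 (merge (leaf 4 528 657) (node 590 (merge (leaf 0 589 591) (node 493 (merge (leaf 4 493 622) (node 492 (merge (leaf 7 460 460) (node 621 (merge (leaf 7 492 524) (node 620 (merge (leaf 5 492 588) (leaf 5 524 652))))))))))))) (merge (node 625 (merge (leaf 4 528 657) (node 590 (merge (leaf 0 589 591) (node 493 (merge (leaf 4 493 622) (node 462 (merge (leaf 6 461 494) (node 461 (merge (leaf 6 429 430) (node 588 (merge (leaf 5 460 556) (leaf 5 492 620))))))))))))) (merge (node 590 (merge (node 591 (merge (leaf 2 557 561) (leaf 0 589 625))) (node 493 (merge (node 461 (merge (leaf 4 461 558) (node 588 (merge (leaf 5 460 556) (leaf 5 492 620))))) (merge (node 492 (merge (leaf 7 460 460) (node 621 (merge (leaf 7 492 524) (node 620 (merge (leaf 5 492 588) (leaf 5 524 652))))))) (node 461 (merge (leaf 4 461 558) (node 430 (merge (leaf 6 429 462) (node 429 (merge (leaf 6 397 398) (node 428 (merge (leaf 7 396 396) (leaf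 7 428 460)))))))))))))) (merge (node 621 (merge (node 524 (merge (leaf 7 492 492) (node 653 (merge (leaf 7 524 556) (node 654 (merge (leaf 4 525 622) (leaf 4 557 686))))))) (merge (node 657 (merge (leaf 4 528 625) (node 656 (merge (leaf 4 560 689) (node 655 (merge (leaf 5 559 687) (node 654 (merge (leaf 3 621 622) (node 653 (merge (leaf 3 620 620) (leaf 4 557 686))))))))))) (node 492 (merge (leaf 7 492 524) (node 493 (merge (leaf 7 460 460) (node 620 (merge (leaf 5 492 588) (leaf 5 524 652)))))))))) (node 590 (merge (node 591 (merge (leaf 2 557 561) (leaf 0 589 625))) (merge (node 591 (merge (leaf 3 556 556) (leaf 2 557 561))) (node 654 (merge (node 622 (merge (leaf 7 525 558) (node 589 (merge (leaf 4 525 621) (leaf 7 557 686))))) (merge (node 622 (merge (leaf 7 525 558) (node 657 (merge (leaf 4 528 625) (node 656 (merge (leaf 4 560 689) (node 655 (merge (leaf 3 621 621) (leaf 5 559 687))))))))) (merge (node 657 (merge (leaf 4 528 625) (node 656 (merge (leaf 4 560 689) (node 655 (merge (leaf 5 559 687) (node 686 (merge (leaf 1 653 685) (node 622 (merge (leaf 7 557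 589) (leaf 3 621 621))))))))))) (merge (node 622 (merge (leaf 7 525 558) (node 686 (merge (leaf 7 557 589) (node 657 (merge (leaf 4 528 625) (node 656 (merge (leaf 4 560 689) (node 685 (merge (leaf 1 653 655) (leaf 5 589 717))))))))))) (node 657 (merge (leaf 4 528 625) (node 656 (merge (leaf 4 560 689) (node 655 (merge (leaf 5 559 687) (node 685 (merge (leaf 1 653 686) (node 653 (merge (leaf 1 652 684) (node 621 (merge (leaf 3 620 620) (node 589 (merge (leaf 6 557 558) (node 556 (merge (leaf 7 524 524) (leaf 7 556 588))))))))))))))))))))))))))))))) (node 589 (merge (node 590 (merge (node 591 (merge (leaf 3 556 556) (leaf 2 557 561))) (node 622 (merge (leaf 4 493 493) (node 654 (merge (leaf 4 525 621) (leaf 7 557 686))))))) (merge (node 625 (merge (leaf 4 528 657) (node 590 (merge (leaf 0 589 591) (node 493 (merge (leaf 4 493 622) (node 492 (merge (leaf 7 460 460) (node 621 (merge (leaf 7 492 524) (node 620 (merge (leaf 5 492 588) (leaf 5 524 652))))))))))))) (merge (node 621 (merge (node 524 (merge (leaf 7 492 492) (node 653 (merge (leaf 7 524 556) (node 654 (merge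 (leaf 4 525 622) (leaf 4 557 686))))))) (merge (node 524 (merge (leaf 7 492 492) (node 653 (merge (leaf 7 524 556) (node 652 (merge (leaf 5 524 620) (leaf 5 556 684))))))) (node 622 (merge (leaf 4 525 654) (node 493 (merge (leaf 4 493 590) (node 620 (merge (leaf 5 492 588) (leaf 5 524 652)))))))))) (merge (node 590 (merge (node 591 (merge (leaf 3 556 556) (leaf 2 557 561))) (merge (node 493 (merge (leaf 4 493 622) (node 462 (merge (leaf 6 461 494) (node 461 (merge (leaf 6 429 430) (node 588 (merge (leaf 5 460 556) (leaf 5 492 620))))))))) (node 591 (merge (leaf 2 557 561) (node 588 (merge (leaf 2 556 559) (node 493 (merge (leaf 5 492 620) (leaf 4 493 622)))))))))) (merge (node 590 (merge (node 591 (merge (leaf 2 557 561) (leaf 0 589 625))) (node 493 (merge (node 461 (merge (leaf 4 461 558) (node 588 (merge (leaf 5 460 556) (leaf 5 492 620))))) (merge (node 492 (merge (leaf 7 460 460) (node 621 (merge (leaf 7 492 524) (node 620 (merge (leaf 5 492 588) (leaf 5 524 652))))))) (node 461 (merge (leaf 4 461 558) (node 430 (merge (leaf 6 429 462) (node 429 (merge (leaf 6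 397 398) (node 428 (merge (leaf 7 396 396) (leaf 7 428 460)))))))))))))) (merge (node 559 (merge (node 558 (merge (leaf 3 524 524) (leaf 1 556 588))) (merge (node 558 (merge (leaf 1 556 588) (node 556 (merge (leaf 2 524 527) (leaf 0 556 591))))) (merge (node 524 (merge (leaf 3 524 558) (node 621 (merge (leaf 7 492 492) (node 653 (merge (leaf 7 524 556) (node 652 (merge (leaf 5 524 620) (leaf 5 556 684))))))))) (node 492 (merge (node 621 (merge (leaf 7 492 524) (node 654 (merge (leaf 4 525 622) (node 653 (merge (leaf 4 557 686) (node 652 (merge (leaf 5 524 620) (leaf 5 556 684))))))))) (node 493 (merge (leaf 7 460 460) (node 462 (merge (leaf 6 461 494) (node 461 (merge (leaf 6 429 430) (node 464 (merge (leaf 1 460 463) (node 496 (merge (leaf 5 463 591) (node 465 (merge (leaf 6 432 433) (leaf 6 464 497))))))))))))))))))) (node 590 (merge (node 591 (merge (leaf 2 557 561) (leaf 0 589 625))) (node 621 (merge (node 524 (merge (leaf 7 492 492) (node 653 (merge (leaf 7 524 556) (node 654 (merge (leaf 4 525 622) (leaf 4 557 686))))))) (merge (node 524 (merge (leaf 7 492 492)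 (node 653 (merge (leaf 7 524 556) (node 652 (merge (leaf 5 524 620) (leaf 5 556 684))))))) (merge (node 654 (merge (leaf 4 525 622) (node 653 (merge (leaf 4 557 686) (node 652 (merge (leaf 5 524 620) (leaf 5 556 684))))))) (node 524 (merge (leaf 7 492 492) (node 622 (merge (leaf 4 525 654) (node 620 (merge (leaf 5 524 652) (node 619 (merge (leaf 2 586 618) (node 651 (merge (leaf 1 618 650) (node 587 (merge (leaf 3 586 586) (node 556 (merge (leaf 6 523 555) (leaf 5 523 588))))))))))))))))))))))))))))))))) (merge (node 624 (merge (node 657 (merge (leaf 4 528 625) (node 656 (merge (leaf 4 560 689) (node 559 (merge (leaf 7 527 527) (node 688 (merge (leaf 7 559 591) (node 687 (merge (leaf 5 559 655) (leaf 5 591 719))))))))))) (merge (node 527 (merge (node 526 (merge (leaf 1 524 556) (leaf 0 525 561))) (node 656 (merge (leaf 7 527 559) (node 689 (merge (leaf 4 560 657) (node 688 (merge (leaf 4 592 721) (node 687 (merge (leaf 5 559 655) (leaf 5 591 719))))))))))) (merge (node 526 (merge (node 527 (merge (leaf 1 524 556) (leaf 0 525 561))) (merge (node 527 (merge (leaf 1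 524 556) (node 559 (merge (leaf 0 524 524) (node 496 (merge (leaf 2 493 497) (node 464 (merge (leaf 5 431 432) (leaf 5 463 591))))))))) (merge (node 527 (merge (leaf 0 525 561) (node 559 (merge (leaf 0 524 524) (node 496 (merge (leaf 2 493 497) (node 464 (merge (leaf 5 431 432) (leaf 5 463 591))))))))) (node 589 (merge (node 621 (merge (leaf 6 493 494) (node 620 (merge (leaf 5 524 652) (node 590 (merge (leaf 1 588 591) (node 493 (merge (leaf 5 492 588) (leaf 4 493 622))))))))) (merge (node 621 (merge (leaf 6 493 494) (node 524 (merge (leaf 7 492 492) (node 653 (merge (leaf 7 524 556) (node 652 (merge (leaf 5 524 620) (leaf 5 556 684))))))))) (merge (node 590 (merge (node 591 (merge (leaf 3 556 556) (leaf 2 557 561))) (node 622 (merge (leaf 4 493 493) (node 654 (merge (leaf 4 525 621) (leaf 7 557 686))))))) (node 590 (merge (node 591 (merge (leaf 3 556 556) (leaf 2 557 561))) (merge (node 493 (merge (leaf 4 493 622) (node 462 (merge (leaf 6 461 494) (node 461 (merge (leaf 6 429 430) (node 588 (merge (leaf 5 460 556) (leaf 5 492 620))))))))) (node 591 (merge (leaf 2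 557 561) (node 588 (merge (leaf 2 556 559) (node 493 (merge (leaf 5 492 620) (leaf 4 493 622)))))))))))))))))) (merge (node 589 (merge (node 590 (merge (node 591 (merge (leaf 3 556 556) (leaf 2 557 561))) (node 622 (merge (leaf 4 493 493) (node 654 (merge (leaf 4 525 621) (leaf 7 557 686))))))) (merge (node 625 (merge (leaf 4 528 657) (node 590 (merge (leaf 0 589 591) (node 493 (merge (leaf 4 493 622) (node 494 (merge (leaf 6 461 462) (node 621 (merge (leaf 6 493 526) (node 492 (merge (leaf 7 460 460) (leaf 7 492 524))))))))))))) (merge (node 621 (merge (node 526 (merge (leaf 6 493 494) (node 527 (merge (leaf 1 524 556) (leaf 0 525 561))))) (node 657 (merge (leaf 4 528 625) (node 656 (merge (leaf 4 560 689) (node 655 (merge (leaf 5 559 687) (node 654 (merge (leaf 3 621 622) (node 653 (merge (leaf 3 620 620) (leaf 4 557 686))))))))))))) (merge (node 591 (merge (node 590 (merge (leaf 2 557 561) (leaf 0 589 625))) (node 493 (merge (node 494 (merge (leaf 6 461 462) (node 621 (merge (leaf 6 493 526) (node 620 (merge (leaf 5 492 588) (leaf 5 524 652))))))) (merge (node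 492 (merge (leaf 7 460 460) (node 621 (merge (leaf 7 492 524) (node 526 (merge (leaf 6 493 494) (leaf 3 492 527))))))) (merge (node 492 (merge (leaf 7 460 460) (node 621 (merge (leaf 7 492 524) (node 620 (merge (leaf 5 492 588) (leaf 5 524 652))))))) (node 462 (merge (leaf 6 461 494) (node 461 (merge (leaf 6 429 430) (node 588 (merge (leaf 5 460 556) (leaf 5 492 620))))))))))))) (node 625 (merge (leaf 4 528 657) (node 590 (merge (leaf 0 589 591) (node 493 (merge (leaf 4 493 622) (node 462 (merge (leaf 6 461 494) (node 461 (merge (leaf 6 429 430) (node 588 (merge (leaf 5 460 556) (leaf 5 492 620)))))))))))))))))) (node 656 (merge (node 657 (merge (leaf 4 528 625) (leaf 4 560 689))) (node 589 (merge (node 687 (merge (leaf 5 559 655) (node 688 (merge (leaf 5 591 719) (node 591 (merge (leaf 7 559 559) (node 590 (merge (leaf 3 556 556) (leaf 2 557 561))))))))) (merge (node 590 (merge (node 591 (merge (leaf 3 556 556) (leaf 2 557 561))) (node 622 (merge (leaf 4 493 493) (node 654 (merge (leaf 4 525 621) (leaf 7 557 686))))))) (merge (node 687 (merge (leaf 5 559 655) (node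 688 (merge (leaf 5 591 719) (node 591 (merge (leaf 7 559 559) (node 590 (merge (leaf 2 557 561) (node 621 (merge (leaf 1 588 620) (node 492 (merge (leaf 7 492 524) (node 493 (merge (leaf 7 460 460) (leaf 4 493 622))))))))))))))) (node 621 (merge (node 524 (merge (leaf 7 492 492) (node 653 (merge (leaf 7 524 556) (node 654 (merge (leaf 4 525 622) (leaf 4 557 686))))))) (merge (node 654 (merge (leaf 4 525 622) (node 653 (merge (leaf 4 557 686) (node 620 (merge (leaf 5 524 652) (leaf 3 620 655))))))) (node 492 (merge (leaf 7 492 524) (node 493 (merge (leaf 7 460 460) (node 620 (merge (leaf 5 492 588) (leaf 5 524 652))))))))))))))))))))) (hyp 1))))))))))))))) nP_96 cP_96 16 (by decide +kernel)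

end Crest.Agent.H26Snaky
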