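import Crest.Agent.H26SnP005
import Crest.Agent.H26SnP006

/-! certificate data for S0047, part P 7 (computer generated) -/

set_option autoImplicit false
set_option maxRecDepth 100000

namespace Crest.Agent.H26Snaky

open T

def nP_97 : ℕ := 0x18000000120000001000000000000000000000000000000000000000000000000000000000000000000000000000000000000000000000000000000000000000000000000000000000000
def cP_97 : ℕ := 0x140000001e0000001e0000007ff000003ff000007f7000001e2000001ed000001cd00000040000000000000000000000000000000000000000000000000000000000000000000000000000000000000000000000000000000000000000000000000000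
theorem lP_97 : S nP_97 cP_97 15 := S_of_chk [] trivial (node 657 (merge (node 625 (merge (leaf 4 528 624) (node 593 (merge (leaf 7 528 561) (leaf 7 560 689))))) (merge (node 624 (merge (leaf 4 528 625) (node 656 (merge (leaf 4 560 689) (node 559 (merge (leaf 7 527 527) (leaf 7 559 688))))))) (merge (node 625 (merge (leaf 4 528 624) (node 593 (merge (leaf 7 528 561) (node 559 (merge (leaf 0 557 558) (node 594 (merge (leaf 3 559 595) (node 562 (merge (leaf 2 559 563) (node 530 (merge (leaf 5 497 498) (leaf 5 529 626))))))))))))) (merge (node 593 (merge (node 625 (merge (leaf 7 528 561) (leaf 7 560 689))) (merge (node 559 (merge (leaf 0 557 558) (node 625 (merge (leaf 7 528 561) (node 594 (merge (leaf 3 559 595) (node 562 (merge (leaf 2 559 563) (node 530 (merge (leaf 5 497 498) (leaf 5 529 626))))))))))) (merge (node 559 (merge (leaf 0 557 558) (node 689 (merge (leaf 7 560 625) (node 594 (merge (leaf 3 559 595) (node 626 (merge (leaf 0 591 627) (node 562 (merge (leaf 2 559 563) (leaf 5 561 658))))))))))) (node 559 (merge (leaf 0 557 558) (node 594 (merge (leaf 3 559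 595) (node 626 (merge (leaf 0 591 627) (node 562 (merge (leaf 2 559 563) (node 658 (merge (leaf 5 561 689) (node 690 (merge (leaf 7 561 561) (node 691 (merge (leaf 4 562 659) (leaf 4 594 723))))))))))))))))))) (node 656 (merge (node 624 (merge (leaf 4 560 689) (node 559 (merge (leaf 7 527 527) (node 558 (merge (leaf 0 556 556) (leaf 0 557 593))))))) (merge (node 559 (merge (node 558 (merge (leaf 0 556 556) (leaf 0 557 593))) (node 624 (merge (leaf 7 527 527) (leaf 7 559 688))))) (merge (node 655 (merge (node 624 (merge (leaf 5 559 687) (leaf 4 560 689))) (merge (node 689 (merge (leaf 4 560 624) (node 690 (merge (leaf 0 654 654) (node 691 (merge (leaf 0 655 658) (leaf 3 655 688))))))) (merge (node 687 (merge (leaf 5 559 624) (node 686 (merge (leaf 1 654 658) (node 685 (merge (leaf 1 653 654) (leaf 2 652 684))))))) (node 654 (merge (node 689 (merge (leaf 0 654 690) (node 653 (merge (leaf 0 653 688) (node 621 (merge (leaf 3 620 620) (leaf 3 621 622))))))) (merge (node 690 (merge (leaf 0 654 689) (node 658 (merge (leaf 0 655 691) (node 686 (merge (leaf 1 653 685) (leaf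 1 654 687))))))) (node 685 (merge (leaf 1 653 686) (node 653 (merge (leaf 1 652 684) (node 621 (merge (leaf 3 620 620) (leaf 3 621 622)))))))))))))) (node 658 (merge (node 659 (merge (node 691 (merge (leaf 0 656 692) (node 655 (merge (leaf 0 655 690) (node 687 (merge (leaf 1 654 686) (leaf 1 655 688))))))) (merge (node 692 (merge (leaf 0 656 691) (node 660 (merge (leaf 0 657 693) (node 628 (merge (leaf 2 624 627) (leaf 2 625 629))))))) (node 687 (merge (leaf 1 655 688) (node 655 (merge (leaf 1 654 686) (node 627 (merge (leaf 2 623 626) (leaf 2 624 628)))))))))) (merge (node 659 (merge (node 692 (merge (leaf 0 656 691) (node 660 (merge (leaf 0 657 693) (node 628 (merge (leaf 2 624 627) (leaf 2 625 629))))))) (merge (node 687 (merge (leaf 1 655 688) (node 655 (merge (leaf 1 654 686) (node 627 (merge (leaf 2 623 626) (leaf 2 624 628))))))) (node 692 (merge (leaf 0 656 691) (node 660 (merge (leaf 0 657 693) (node 688 (merge (leaf 1 655 687) (leaf 1 656 689)))))))))) (merge (node 655 (merge (node 691 (merge (leaf 0 655 690) (node 659 (merge (leaf 0 656 692) (node 687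 (merge (leaf 1 654 686) (leaf 1 655 688))))))) (merge (node 686 (merge (leaf 1 654 687) (node 654 (merge (leaf 1 653 685) (node 621 (merge (leaf 3 621 622) (node 653 (merge (leaf 4 557 589) (leaf 3 620 620))))))))) (node 690 (merge (leaf 0 655 691) (node 654 (merge (leaf 0 654 689) (node 621 (merge (leaf 3 621 622) (node 653 (merge (leaf 3 620 620) (node 684 (merge (leaf 1 652 685) (node 589 (merge (leaf 5 556 652) (node 558 (merge (leaf 6 525 526) (node 556 (merge (leaf 7 524 524) (leaf 0 556 559)))))))))))))))))))) (merge (node 626 (merge (node 655 (merge (leaf 2 623 627) (node 686 (merge (leaf 1 654 687) (node 654 (merge (leaf 1 653 685) (node 621 (merge (leaf 3 621 622) (node 653 (merge (leaf 4 557 589) (leaf 3 620 620))))))))))) (merge (node 594 (merge (node 689 (merge (leaf 5 561 562) (node 721 (merge (leaf 5 593 690) (leaf 6 625 753))))) (merge (node 562 (merge (leaf 5 561 689) (node 563 (merge (leaf 6 530 531) (node 591 (merge (leaf 1 559 561) (leaf 2 559 593))))))) (node 593 (merge (leaf 0 591 627) (node 690 (merge (leaf 7 561 561) (node 595 (merge (leaf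 3 559 559) (leaf 6 562 563)))))))))) (node 690 (merge (node 594 (merge (node 595 (merge (leaf 6 562 563) (node 593 (merge (leaf 3 559 559) (leaf 7 561 561))))) (node 689 (merge (leaf 5 561 562) (node 721 (merge (leaf 5 593 690) (leaf 6 625 753))))))) (node 655 (merge (leaf 0 655 691) (node 686 (merge (leaf 1 654 687) (node 654 (merge (leaf 1 653 685) (node 621 (merge (leaf 3 621 622) (node 653 (merge (leaf 4 557 589) (leaf 3 620 620)))))))))))))))) (merge (node 659 (merge (node 688 (merge (leaf 1 655 687) (node 660 (merge (leaf 1 656 689) (node 693 (merge (leaf 0 657 692) (node 661 (merge (leaf 0 658 694) (node 629 (merge (leaf 2 625 628) (leaf 2 626 630))))))))))) (merge (node 628 (merge (leaf 2 624 627) (node 660 (merge (leaf 2 625 629) (node 693 (merge (leaf 0 657 692) (node 661 (merge (leaf 0 658 694) (node 689 (merge (leaf 1 656 688) (leaf 1 657 690))))))))))) (merge (node 627 (merge (leaf 2 624 628) (node 655 (merge (leaf 2 623 626) (node 686 (merge (leaf 1 654 687) (node 654 (merge (leaf 1 653 685) (node 621 (merge (leaf 3 621 622) (node 653 (merge (leaf 4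 557 589) (leaf 3 620 620))))))))))))) (node 626 (merge (node 688 (merge (leaf 1 655 687) (node 689 (merge (leaf 1 656 660) (node 721 (merge (leaf 6 625 753) (node 594 (merge (leaf 5 561 562) (leaf 5 593 690))))))))) (merge (node 655 (merge (leaf 2 623 627) (node 686 (merge (leaf 1 654 687) (node 654 (merge (leaf 1 653 685) (node 621 (merge (leaf 3 621 622) (node 653 (merge (leaf 4 557 589) (leaf 3 620 620))))))))))) (node 594 (merge (node 689 (merge (leaf 5 561 562) (node 721 (merge (leaf 5 593 690) (leaf 6 625 753))))) (merge (node 562 (merge (leaf 5 561 689) (node 563 (merge (leaf 6 530 531) (node 591 (merge (leaf 1 559 561) (leaf 2 559 593))))))) (node 593 (merge (leaf 0 591 627) (node 690 (merge (leaf 7 561 561) (node 595 (merge (leaf 3 559 559) (leaf 6 562 563))))))))))))))))) (merge (node 627 (merge (node 655 (merge (leaf 2 623 626) (node 690 (merge (leaf 0 655 691) (node 654 (merge (leaf 0 654 689) (node 685 (merge (leaf 1 653 686) (node 653 (merge (leaf 1 652 684) (node 621 (merge (leaf 3 620 620) (leaf 3 621 622))))))))))))) (merge (node 628 (merge (leaf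 2 624 659) (node 626 (merge (leaf 1 625 629) (node 594 (merge (leaf 0 591 593) (node 562 (merge (leaf 5 561 689) (node 563 (merge (leaf 6 530 531) (leaf 1 559 561))))))))))) (node 659 (merge (leaf 2 624 628) (node 691 (merge (leaf 0 656 692) (node 690 (merge (leaf 0 655 655) (node 722 (merge (leaf 5 594 595) (leaf 6 626 754)))))))))))) (node 563 (merge (node 562 (merge (leaf 1 559 561) (node 594 (merge (leaf 2 559 593) (node 626 (merge (leaf 6 530 531) (leaf 5 561 689))))))) (merge (node 659 (merge (node 692 (merge (leaf 0 656 691) (node 660 (merge (leaf 0 657 693) (node 688 (merge (leaf 1 655 687) (leaf 1 656 689))))))) (node 562 (merge (leaf 1 559 561) (node 627 (merge (leaf 2 624 628) (node 595 (merge (leaf 7 530 530) (leaf 5 562 690))))))))) (merge (node 562 (merge (leaf 1 559 561) (node 594 (merge (leaf 2 559 593) (node 626 (merge (leaf 6 530 531) (node 690 (merge (leaf 6 562 595) (node 691 (merge (leaf 4 562 659) (leaf 4 594 723))))))))))) (node 659 (merge (node 692 (merge (leaf 0 656 691) (node 660 (merge (leaf 0 657 693) (node 688 (merge (leaf 1 655 687)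 (leaf 1 656 689))))))) (merge (node 688 (merge (leaf 1 655 687) (node 660 (merge (leaf 1 656 689) (node 627 (merge (leaf 2 624 628) (node 595 (merge (leaf 5 562 690) (leaf 4 563 692))))))))) (node 627 (merge (leaf 2 624 628) (node 595 (merge (leaf 5 562 690) (node 564 (merge (leaf 6 531 532) (node 691 (merge (leaf 6 563 596) (node 594 (merge (leaf 2 560 593) (node 723 (merge (leaf 7 594 626) (node 756 (merge (leaf 4 627 724) (node 755 (merge (leaf 4 659 788) (node 754 (merge (leaf 5 626 722) (leaf 5 658 786)))))))))))))))))))))))))))))))))))))))))) nP_97 cP_97 15 (by decide +kernel)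
def nP_98 : ℕ := 0x200000000000000010000000120000000000000000000000000000000000000000000000000000000000000000000000000000000000000000000000000000000000000000000000000000000000000000000
def cP_98 : ℕ := 0x140000001e0000001e8000007ff800007df00000fd7800003ef800007ed800001c780000000000000000000000000000000000000000000000000000000000000000000000000000000000000000000000000000000000000000000000000000000000
theorem lP_98 : S nP_98 cP_98 15 := S_of_chk [] trivial (node 656 (merge (node 624 (merge (leaf 4 560 689) (node 687 (merge (leaf 5 559 655) (node 688 (merge (leaf 5 591 719) (node 593 (merge (leaf 6 560 561) (node 559 (merge (leaf 0 557 558) (leaf 7 559 591))))))))))) (merge (node 655 (merge (node 624 (merge (leaf 5 559 687) (leaf 4 560 689))) (merge (node 689 (merge (leaf 4 560 624) (node 690 (merge (leaf 0 654 654) (node 691 (merge (leaf 0 655 658) (leaf 3 655 688))))))) (merge (node 687 (merge (leaf 5 559 624) (node 686 (merge (leaf 1 654 658) (node 685 (merge (leaf 1 653 654) (leaf 2 652 684))))))) (node 658 (merge (node 687 (merge (leaf 1 654 686) (node 659 (merge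 (leaf 1 655 688) (node 627 (merge (leaf 2 623 626) (leaf 2 624 628))))))) (merge (node 691 (merge (leaf 0 655 690) (node 659 (merge (leaf 0 656 692) (node 627 (merge (leaf 2 623 626) (leaf 2 624 628))))))) (merge (node 691 (merge (leaf 0 655 690) (node 659 (merge (leaf 0 656 692) (node 687 (merge (leaf 1 654 686) (leaf 1 655 688))))))) (node 690 (merge (leaf 0 655 691) (node 689 (merge (leaf 0 654 654) (node 626 (merge (leaf 2 623 627) (node 721 (merge (leaf 5 593 594) (leaf 6 625 753))))))))))))))))) (merge (node 655 (merge (node 624 (merge (leaf 5 559 687) (leaf 4 560 689))) (merge (node 687 (merge (leaf 5 559 624) (node 686 (merge (leaf 1 654 658) (node 685 (merge (leaf 1 653 654) (leaf 2 652 684))))))) (merge (node 689 (merge (leaf 4 560 624) (node 654 (merge (leaf 0 654 690) (node 685 (merge (leaf 1 653 686) (node 653 (merge (leaf 1 652 684) (node 621 (merge (leaf 3 620 620) (leaf 3 621 622))))))))))) (node 654 (merge (node 690 (merge (leaf 0 654 689) (node 658 (merge (leaf 0 655 691) (node 686 (merge (leaf 1 653 685) (leaf 1 654 687))))))) (merge (node 621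 (merge (leaf 3 621 622) (node 653 (merge (leaf 3 620 620) (node 684 (merge (leaf 1 652 685) (node 589 (merge (leaf 5 556 652) (node 558 (merge (leaf 6 525 526) (node 556 (merge (leaf 7 524 524) (node 591 (merge (leaf 0 556 559) (leaf 3 556 590))))))))))))))) (node 690 (merge (leaf 0 654 689) (node 658 (merge (leaf 0 655 691) (node 687 (merge (leaf 1 654 686) (node 626 (merge (leaf 2 623 627) (node 622 (merge (leaf 3 621 621) (node 558 (merge (leaf 4 558 590) (node 593 (merge (leaf 0 557 559) (node 594 (merge (leaf 7 561 561) (node 563 (merge (leaf 6 562 595) (node 562 (merge (leaf 6 530 531) (leaf 2 559 591)))))))))))))))))))))))))))) (merge (node 655 (merge (node 687 (merge (leaf 5 559 624) (node 658 (merge (leaf 1 654 686) (node 691 (merge (leaf 0 655 690) (node 659 (merge (leaf 1 655 688) (leaf 0 656 692))))))))) (merge (node 654 (merge (node 685 (merge (leaf 1 653 686) (node 653 (merge (leaf 1 652 684) (node 621 (merge (leaf 3 620 620) (leaf 3 621 622))))))) (merge (node 686 (merge (leaf 1 653 685) (node 622 (merge (leaf 3 621 621) (node 590 (merge (leaf 7 557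 589) (node 559 (merge (leaf 6 558 591) (node 558 (merge (leaf 7 525 525) (leaf 0 557 593))))))))))) (merge (node 621 (merge (leaf 3 621 622) (node 653 (merge (leaf 3 620 620) (node 589 (merge (leaf 4 557 686) (node 558 (merge (leaf 6 525 526) (node 556 (merge (leaf 7 524 524) (node 591 (merge (leaf 0 556 559) (leaf 3 556 590))))))))))))) (merge (node 621 (merge (leaf 3 621 622) (node 653 (merge (leaf 3 620 620) (node 684 (merge (leaf 1 652 685) (node 589 (merge (leaf 5 556 652) (node 558 (merge (leaf 6 525 526) (node 556 (merge (leaf 7 524 524) (node 591 (merge (leaf 0 556 559) (leaf 3 556 590))))))))))))))) (merge (node 653 (merge (node 685 (merge (leaf 1 652 684) (leaf 1 653 686))) (merge (node 621 (merge (leaf 3 620 620) (node 589 (merge (leaf 4 557 686) (node 558 (merge (leaf 6 525 526) (node 556 (merge (leaf 7 524 524) (node 591 (merge (leaf 0 556 559) (leaf 3 556 590))))))))))) (node 684 (merge (leaf 1 652 685) (node 652 (merge (leaf 1 651 683) (node 620 (merge (leaf 3 619 619) (node 588 (merge (leaf 6 556 589) (node 556 (merge (leaf 6 524 525) (node 555 (merge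 (leaf 7 523 523) (leaf 7 555 587)))))))))))))))) (node 590 (merge (node 686 (merge (leaf 1 653 685) (node 589 (merge (leaf 7 557 622) (node 591 (merge (leaf 3 556 556) (leaf 2 557 561))))))) (merge (node 685 (merge (leaf 1 653 686) (node 653 (merge (leaf 1 652 684) (node 558 (merge (leaf 5 557 622) (node 593 (merge (leaf 0 557 559) (leaf 3 557 591))))))))) (merge (node 558 (merge (node 593 (merge (leaf 0 557 559) (leaf 3 557 591))) (merge (node 591 (merge (leaf 3 557 593) (node 589 (merge (leaf 3 556 556) (leaf 2 557 561))))) (node 525 (merge (leaf 7 525 622) (node 559 (merge (leaf 3 524 524) (node 561 (merge (leaf 3 525 526) (leaf 1 557 589)))))))))) (merge (node 685 (merge (leaf 1 653 686) (node 653 (merge (leaf 1 652 684) (node 558 (merge (leaf 5 557 622) (node 559 (merge (leaf 0 557 593) (node 561 (merge (leaf 1 557 589) (node 525 (merge (leaf 3 524 524) (leaf 3 525 526))))))))))))) (node 558 (merge (node 593 (merge (leaf 0 557 559) (leaf 3 557 591))) (merge (node 591 (merge (leaf 3 557 593) (node 589 (merge (leaf 3 556 556) (leaf 2 557 561))))) (merge (node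 559 (merge (leaf 0 557 593) (node 561 (merge (leaf 1 557 589) (node 525 (merge (leaf 3 524 524) (leaf 3 525 526))))))) (node 589 (merge (node 559 (merge (leaf 1 557 561) (leaf 1 556 588))) (merge (node 591 (merge (leaf 3 556 556) (leaf 2 557 561))) (node 588 (merge (leaf 1 556 559) (node 685 (merge (leaf 1 653 686) (node 684 (merge (leaf 1 652 653) (node 620 (merge (leaf 6 556 652) (node 591 (merge (leaf 3 556 556) (leaf 1 587 619))))))))))))))))))))))))))))) (node 591 (merge (node 624 (merge (leaf 5 559 687) (node 559 (merge (leaf 7 559 688) (node 558 (merge (leaf 0 556 556) (leaf 0 557 593))))))) (merge (node 561 (merge (node 562 (merge (leaf 1 559 563) (node 590 (merge (leaf 2 557 589) (leaf 2 558 593))))) (merge (node 562 (merge (leaf 1 559 563) (node 590 (merge (leaf 1 558 559) (leaf 2 557 589))))) (merge (node 624 (merge (leaf 5 559 687) (node 688 (merge (leaf 7 559 559) (leaf 6 560 593))))) (node 624 (merge (leaf 5 559 687) (node 688 (merge (leaf 7 559 559) (leaf 6 560 593))))))))) (merge (node 590 (merge (node 589 (merge (leaf 3 556 556) (leaf 2 557 561)))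 (merge (node 558 (merge (leaf 3 557 593) (node 556 (merge (leaf 0 555 555) (leaf 0 556 559))))) (node 589 (merge (leaf 2 557 561) (node 620 (merge (leaf 1 588 621) (node 588 (merge (leaf 2 556 559) (leaf 1 587 619)))))))))) (merge (node 590 (merge (node 589 (merge (leaf 3 556 556) (leaf 2 557 561))) (merge (node 593 (merge (leaf 3 557 558) (node 561 (merge (leaf 2 558 562) (node 624 (merge (leaf 5 559 687) (leaf 6 560 688))))))) (node 589 (merge (leaf 3 556 556) (node 621 (merge (leaf 1 588 620) (node 593 (merge (leaf 3 557 558) (leaf 1 589 622)))))))))) (node 624 (merge (leaf 5 559 687) (node 559 (merge (leaf 7 559 688) (node 558 (merge (leaf 0 556 556) (node 525 (merge (leaf 3 524 524) (node 561 (merge (leaf 3 525 526) (node 562 (merge (leaf 1 559 563) (leaf 1 558 590))))))))))))))))))))) (merge (node 689 (merge (leaf 4 560 624) (node 655 (merge (node 658 (merge (node 626 (merge (leaf 2 623 627) (node 721 (merge (leaf 6 625 753) (node 594 (merge (leaf 5 561 562) (leaf 5 593 690))))))) (merge (node 627 (merge (leaf 2 623 626) (node 659 (merge (leaf 2 624 628) (node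 692 (merge (leaf 0 656 691) (node 660 (merge (leaf 1 656 688) (leaf 0 657 693))))))))) (node 659 (merge (node 691 (merge (leaf 0 655 690) (leaf 0 656 692))) (merge (node 690 (merge (leaf 0 655 691) (node 660 (merge (leaf 1 657 661) (leaf 1 656 688))))) (merge (node 692 (merge (leaf 0 656 691) (node 660 (merge (leaf 1 656 688) (leaf 0 657 693))))) (node 660 (merge (leaf 1 656 688) (node 693 (merge (leaf 0 657 692) (node 661 (merge (leaf 1 657 690) (leaf 0 658 694)))))))))))))) (node 654 (merge (node 685 (merge (leaf 1 653 686) (node 653 (merge (leaf 1 652 684) (node 621 (merge (leaf 3 620 620) (leaf 3 621 622))))))) (merge (node 686 (merge (leaf 1 653 685) (node 622 (merge (leaf 3 621 621) (node 590 (merge (leaf 7 557 589) (node 559 (merge (leaf 6 558 591) (node 558 (merge (leaf 7 525 525) (leaf 0 557 593))))))))))) (merge (node 621 (merge (leaf 3 621 622) (node 653 (merge (leaf 3 620 620) (node 589 (merge (leaf 4 557 686) (node 558 (merge (leaf 6 525 526) (node 556 (merge (leaf 7 524 524) (node 591 (merge (leaf 0 556 559) (leaf 3 556 590))))))))))))) (merge (node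 621 (merge (leaf 3 621 622) (node 653 (merge (leaf 3 620 620) (node 684 (merge (leaf 1 652 685) (node 589 (merge (leaf 5 556 652) (node 558 (merge (leaf 6 525 526) (node 556 (merge (leaf 7 524 524) (node 591 (merge (leaf 0 556 559) (leaf 3 556 590))))))))))))))) (merge (node 653 (merge (node 685 (merge (leaf 1 652 684) (leaf 1 653 686))) (merge (node 621 (merge (leaf 3 620 620) (node 589 (merge (leaf 4 557 686) (node 558 (merge (leaf 6 525 526) (node 556 (merge (leaf 7 524 524) (node 591 (merge (leaf 0 556 559) (leaf 3 556 590))))))))))) (node 684 (merge (leaf 1 652 685) (node 652 (merge (leaf 1 651 683) (node 620 (merge (leaf 3 619 619) (node 588 (merge (leaf 6 556 589) (node 556 (merge (leaf 6 524 525) (node 555 (merge (leaf 7 523 523) (leaf 7 555 587)))))))))))))))) (node 590 (merge (node 686 (merge (leaf 1 653 685) (node 589 (merge (leaf 7 557 622) (node 591 (merge (leaf 3 556 556) (leaf 2 557 561))))))) (merge (node 685 (merge (leaf 1 653 686) (node 653 (merge (leaf 1 652 684) (node 558 (merge (leaf 5 557 622) (node 593 (merge (leaf 0 557 559) (leaf 3 557 591)))))))))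 (merge (node 558 (merge (node 593 (merge (leaf 0 557 559) (leaf 3 557 591))) (merge (node 591 (merge (leaf 3 557 593) (node 589 (merge (leaf 3 556 556) (leaf 2 557 561))))) (node 525 (merge (leaf 7 525 622) (node 559 (merge (leaf 3 524 524) (node 561 (merge (leaf 3 525 526) (leaf 1 557 589)))))))))) (merge (node 685 (merge (leaf 1 653 686) (node 653 (merge (leaf 1 652 684) (node 558 (merge (leaf 5 557 622) (node 559 (merge (leaf 0 557 593) (node 561 (merge (leaf 1 557 589) (node 525 (merge (leaf 3 524 524) (leaf 3 525 526))))))))))))) (node 558 (merge (node 593 (merge (leaf 0 557 559) (leaf 3 557 591))) (merge (node 591 (merge (leaf 3 557 593) (node 589 (merge (leaf 3 556 556) (leaf 2 557 561))))) (merge (node 559 (merge (leaf 0 557 593) (node 561 (merge (leaf 1 557 589) (node 525 (merge (leaf 3 524 524) (leaf 3 525 526))))))) (node 589 (merge (node 559 (merge (leaf 1 557 561) (leaf 1 556 588))) (merge (node 591 (merge (leaf 3 556 556) (leaf 2 557 561))) (node 588 (merge (leaf 1 556 559) (node 685 (merge (leaf 1 653 686) (node 684 (merge (leaf 1 652 653) (node 620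 (merge (leaf 6 556 652) (node 591 (merge (leaf 3 556 556) (leaf 1 587 619))))))))))))))))))))))))))))))))) (merge (node 658 (merge (node 659 (merge (node 692 (merge (leaf 0 656 691) (node 660 (merge (leaf 0 657 693) (node 628 (merge (leaf 2 624 627) (leaf 2 625 629))))))) (merge (node 687 (merge (leaf 1 655 688) (node 655 (merge (leaf 1 654 686) (node 627 (merge (leaf 2 623 626) (leaf 2 624 628))))))) (node 692 (merge (leaf 0 656 691) (node 660 (merge (leaf 0 657 693) (node 688 (merge (leaf 1 655 687) (leaf 1 656 689)))))))))) (merge (node 655 (merge (node 687 (merge (leaf 1 654 686) (node 659 (merge (leaf 1 655 688) (node 627 (merge (leaf 2 623 626) (leaf 2 624 628))))))) (merge (node 686 (merge (leaf 1 654 687) (node 654 (merge (leaf 1 653 685) (node 622 (merge (leaf 3 621 621) (node 590 (merge (leaf 7 557 589) (node 559 (merge (leaf 6 558 591) (node 558 (merge (leaf 7 525 525) (leaf 0 557 593))))))))))))) (merge (node 627 (merge (leaf 2 623 626) (node 659 (merge (leaf 2 624 628) (node 688 (merge (leaf 1 655 687) (node 689 (merge (leaf 1 656 660) (node 654 (merge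 (leaf 0 653 653) (leaf 0 654 690))))))))))) (node 654 (merge (node 689 (merge (leaf 0 654 690) (node 653 (merge (leaf 0 653 688) (node 621 (merge (leaf 3 620 620) (leaf 3 621 622))))))) (merge (node 689 (merge (leaf 0 654 690) (node 653 (merge (leaf 0 653 688) (node 685 (merge (leaf 1 652 684) (leaf 1 653 686))))))) (node 686 (merge (leaf 1 653 685) (node 622 (merge (leaf 3 621 621) (node 590 (merge (leaf 7 557 589) (node 559 (merge (leaf 6 558 591) (node 558 (merge (leaf 7 525 525) (leaf 0 557 593)))))))))))))))))) (merge (node 659 (merge (node 692 (merge (leaf 0 656 691) (node 660 (merge (leaf 0 657 693) (node 628 (merge (leaf 2 624 627) (leaf 2 625 629))))))) (merge (node 627 (merge (leaf 2 624 628) (node 655 (merge (leaf 2 623 626) (node 686 (merge (leaf 1 654 687) (node 654 (merge (leaf 1 653 685) (node 622 (merge (leaf 3 621 621) (node 590 (merge (leaf 7 557 589) (node 559 (merge (leaf 6 558 591) (node 558 (merge (leaf 7 525 525) (leaf 0 557 593))))))))))))))))) (node 691 (merge (leaf 0 656 692) (node 655 (merge (leaf 0 655 690) (node 686 (merge (leaf 1 654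 687) (node 654 (merge (leaf 1 653 685) (node 622 (merge (leaf 3 621 621) (node 590 (merge (leaf 7 557 589) (node 559 (merge (leaf 6 558 591) (node 558 (merge (leaf 7 525 525) (leaf 0 557 593)))))))))))))))))))) (merge (node 659 (merge (node 691 (merge (leaf 0 656 692) (node 655 (merge (leaf 0 655 690) (node 686 (merge (leaf 1 654 687) (node 654 (merge (leaf 1 653 685) (node 622 (merge (leaf 3 621 621) (node 590 (merge (leaf 7 557 589) (node 559 (merge (leaf 6 558 591) (node 558 (merge (leaf 7 525 525) (leaf 0 557 593))))))))))))))))) (merge (node 688 (merge (leaf 1 655 687) (node 660 (merge (leaf 1 656 689) (node 693 (merge (leaf 0 657 692) (node 661 (merge (leaf 0 658 694) (node 629 (merge (leaf 2 625 628) (leaf 2 626 630))))))))))) (merge (node 692 (merge (leaf 0 656 691) (node 660 (merge (leaf 0 657 693) (node 689 (merge (leaf 1 656 688) (node 661 (merge (leaf 1 657 690) (node 629 (merge (leaf 2 625 628) (leaf 2 626 630))))))))))) (node 687 (merge (leaf 1 655 688) (node 655 (merge (leaf 1 654 686) (node 690 (merge (leaf 0 655 691) (node 654 (merge (leaf 0 654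 689) (node 622 (merge (leaf 3 621 621) (node 558 (merge (leaf 4 558 590) (node 559 (merge (leaf 0 557 593) (node 556 (merge (leaf 0 556 591) (node 588 (merge (leaf 1 555 587) (leaf 1 556 589))))))))))))))))))))))) (merge (node 627 (merge (node 626 (merge (leaf 2 623 655) (node 628 (merge (leaf 1 625 629) (leaf 2 624 659))))) (merge (node 655 (merge (leaf 2 623 626) (node 690 (merge (leaf 0 655 691) (node 654 (merge (leaf 0 654 689) (node 621 (merge (leaf 3 621 622) (node 653 (merge (leaf 3 620 620) (node 684 (merge (leaf 1 652 685) (node 589 (merge (leaf 5 556 652) (node 558 (merge (leaf 6 525 526) (node 556 (merge (leaf 7 524 524) (node 591 (merge (leaf 0 556 559) (leaf 3 556 590))))))))))))))))))))) (merge (node 659 (merge (leaf 2 624 628) (node 691 (merge (leaf 0 656 692) (node 690 (merge (leaf 0 655 655) (node 722 (merge (leaf 5 594 595) (leaf 6 626 754))))))))) (node 659 (merge (leaf 2 624 628) (node 692 (merge (leaf 0 656 691) (node 660 (merge (leaf 0 657 693) (node 689 (merge (leaf 1 656 688) (node 661 (merge (leaf 1 657 690) (node 630 (merge (leaf 2 626 629)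 (node 662 (merge (leaf 3 626 626) (leaf 2 627 631))))))))))))))))))) (merge (node 659 (merge (node 688 (merge (leaf 1 655 687) (node 660 (merge (leaf 1 656 689) (node 628 (merge (leaf 2 624 627) (leaf 2 625 629))))))) (merge (node 692 (merge (leaf 0 656 691) (node 660 (merge (leaf 0 657 693) (node 628 (merge (leaf 2 624 627) (leaf 2 625 629))))))) (merge (node 692 (merge (leaf 0 656 691) (node 660 (merge (leaf 0 657 693) (node 688 (merge (leaf 1 655 687) (leaf 1 656 689))))))) (node 627 (merge (leaf 2 624 628) (node 722 (merge (node 691 (merge (leaf 0 656 692) (node 754 (merge (leaf 6 626 690) (leaf 5 626 723))))) (merge (node 690 (merge (leaf 6 626 754) (node 626 (merge (leaf 6 594 595) (node 721 (merge (leaf 5 625 753) (node 594 (merge (leaf 5 593 689) (node 593 (merge (leaf 7 561 561) (leaf 0 591 591))))))))))) (merge (node 691 (merge (leaf 0 656 692) (node 723 (merge (leaf 5 626 754) (node 755 (merge (leaf 7 626 626) (node 756 (merge (leaf 4 627 724) (leaf 4 659 788))))))))) (node 691 (merge (leaf 0 656 692) (node 595 (merge (leaf 5 594 690) (node 596 (merge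 (leaf 6 563 564) (node 594 (merge (leaf 7 562 562) (node 593 (merge (leaf 3 559 559) (leaf 3 560 561))))))))))))))))))))) (node 626 (merge (node 655 (merge (leaf 2 623 627) (node 686 (merge (leaf 1 654 687) (node 654 (merge (leaf 1 653 685) (node 622 (merge (leaf 3 621 621) (node 590 (merge (leaf 7 557 589) (node 559 (merge (leaf 6 558 591) (node 558 (merge (leaf 7 525 525) (leaf 0 557 593))))))))))))))) (merge (node 655 (merge (leaf 2 623 627) (node 690 (merge (leaf 0 655 691) (node 689 (merge (leaf 0 654 654) (node 721 (merge (leaf 5 593 594) (leaf 6 625 753))))))))) (merge (node 594 (merge (node 689 (merge (leaf 5 561 562) (node 721 (merge (leaf 5 593 690) (leaf 6 625 753))))) (merge (node 562 (merge (leaf 5 561 689) (node 563 (merge (leaf 6 530 531) (node 591 (merge (leaf 1 559 561) (leaf 2 559 593))))))) (node 690 (merge (node 595 (merge (leaf 6 562 563) (node 593 (merge (leaf 3 559 559) (leaf 7 561 561))))) (merge (node 595 (merge (leaf 6 562 563) (node 722 (merge (leaf 6 594 627) (node 723 (merge (leaf 4 594 691) (leaf 4 626 755))))))) (node 593 (merge (leaf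 7 561 561) (node 591 (merge (leaf 0 591 627) (node 590 (merge (leaf 3 557 558) (node 621 (merge (leaf 1 589 622) (node 589 (merge (leaf 3 556 556) (leaf 1 588 620))))))))))))))))) (merge (node 690 (merge (node 691 (merge (leaf 0 655 655) (node 692 (merge (leaf 3 656 689) (leaf 3 657 693))))) (merge (node 594 (merge (node 595 (merge (leaf 6 562 563) (node 593 (merge (leaf 3 559 559) (leaf 7 561 561))))) (node 689 (merge (leaf 5 561 562) (node 721 (merge (leaf 5 593 690) (leaf 6 625 753))))))) (node 655 (merge (leaf 0 655 691) (node 686 (merge (leaf 1 654 687) (node 654 (merge (leaf 1 653 685) (node 622 (merge (leaf 3 621 621) (node 590 (merge (leaf 7 557 589) (node 559 (merge (leaf 6 558 591) (node 558 (merge (leaf 7 525 525) (leaf 0 557 593)))))))))))))))))) (node 655 (merge (leaf 2 623 627) (node 690 (merge (leaf 0 655 691) (node 654 (merge (leaf 0 654 689) (node 686 (merge (leaf 1 653 685) (leaf 1 654 687))))))))))))))))))))) (node 591 (merge (node 624 (merge (leaf 4 560 689) (node 559 (merge (leaf 7 559 688) (node 558 (merge (leaf 0 556 556) (leaf 0 557 593)))))))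 (merge (node 590 (merge (node 589 (merge (leaf 3 556 556) (leaf 2 557 561))) (merge (node 558 (merge (leaf 3 557 593) (node 556 (merge (leaf 0 555 555) (leaf 0 556 559))))) (node 589 (merge (leaf 2 557 561) (node 620 (merge (leaf 1 588 621) (node 588 (merge (leaf 2 556 559) (leaf 1 587 619)))))))))) (merge (node 590 (merge (node 589 (merge (leaf 3 556 556) (leaf 2 557 561))) (merge (node 593 (merge (leaf 3 557 558) (node 561 (merge (leaf 2 558 562) (node 624 (merge (leaf 6 560 688) (leaf 4 560 689))))))) (node 556 (merge (leaf 3 556 589) (node 558 (merge (leaf 0 555 555) (leaf 3 557 593)))))))) (merge (node 624 (merge (leaf 4 560 689) (node 559 (merge (leaf 7 559 688) (node 558 (merge (leaf 0 556 556) (node 589 (merge (leaf 1 556 588) (node 561 (merge (leaf 1 557 590) (node 525 (merge (leaf 3 524 524) (leaf 3 525 526))))))))))))) (node 658 (merge (node 624 (merge (leaf 4 560 689) (node 688 (merge (leaf 7 559 559) (node 687 (merge (leaf 1 655 659) (leaf 5 591 719))))))) (merge (node 561 (merge (node 562 (merge (leaf 1 559 563) (node 590 (merge (leaf 2 557 589) (leaf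 2 558 593))))) (merge (node 562 (merge (leaf 1 559 563) (node 590 (merge (leaf 1 558 559) (leaf 2 557 589))))) (merge (node 624 (merge (leaf 4 560 689) (node 688 (merge (leaf 7 559 559) (leaf 6 560 593))))) (node 624 (merge (leaf 4 560 689) (node 688 (merge (leaf 7 559 559) (leaf 6 560 593))))))))) (merge (node 688 (merge (node 561 (merge (node 624 (merge (leaf 7 559 559) (leaf 6 560 593))) (merge (node 562 (merge (leaf 1 559 563) (node 590 (merge (leaf 2 557 589) (leaf 2 558 593))))) (node 562 (merge (leaf 1 559 563) (node 590 (merge (leaf 1 558 559) (leaf 2 557 589)))))))) (node 659 (merge (leaf 1 655 687) (node 692 (merge (leaf 0 656 691) (node 660 (merge (leaf 0 657 693) (node 628 (merge (leaf 2 624 627) (leaf 2 625 629))))))))))) (merge (node 689 (merge (leaf 4 560 624) (node 562 (merge (node 561 (merge (leaf 1 559 563) (node 590 (merge (leaf 1 558 559) (leaf 2 557 589))))) (merge (node 563 (merge (leaf 1 559 561) (node 594 (merge (leaf 2 559 593) (node 626 (merge (leaf 6 530 531) (leaf 5 561 689))))))) (merge (node 561 (merge (node 590 (merge (leaf 2 557 589)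 (leaf 2 558 593))) (merge (node 590 (merge (leaf 1 558 559) (leaf 2 557 589))) (node 594 (merge (leaf 5 561 626) (node 595 (merge (leaf 0 559 559) (node 596 (merge (leaf 3 560 593) (leaf 3 561 597)))))))))) (node 594 (merge (leaf 5 561 626) (node 593 (merge (leaf 2 559 563) (node 595 (merge (leaf 3 559 559) (node 628 (merge (leaf 0 592 627) (node 596 (merge (leaf 0 593 629) (node 565 (merge (leaf 2 561 564) (node 597 (merge (leaf 2 562 566) (node 692 (merge (leaf 6 564 660) (node 691 (merge (leaf 0 656 659) (leaf 3 656 690))))))))))))))))))))))))) (node 563 (merge (node 562 (merge (leaf 1 559 561) (node 594 (merge (leaf 2 559 593) (node 626 (merge (leaf 6 530 531) (leaf 5 561 689))))))) (merge (node 659 (merge (node 692 (merge (leaf 0 656 691) (node 660 (merge (leaf 0 657 693) (node 688 (merge (leaf 1 655 687) (leaf 1 656 689))))))) (node 562 (merge (leaf 1 559 561) (node 627 (merge (leaf 2 624 628) (node 595 (merge (leaf 7 530 530) (leaf 5 562 690))))))))) (merge (node 562 (merge (leaf 1 559 561) (node 594 (merge (leaf 2 559 593) (node 626 (merge (leaf 6 530 531)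 (node 690 (merge (leaf 6 562 595) (node 691 (merge (leaf 4 562 659) (leaf 4 594 723))))))))))) (node 659 (merge (node 692 (merge (leaf 0 656 691) (node 660 (merge (leaf 0 657 693) (node 688 (merge (leaf 1 655 687) (leaf 1 656 689))))))) (merge (node 688 (merge (leaf 1 655 687) (node 660 (merge (leaf 1 656 689) (node 627 (merge (leaf 2 624 628) (node 595 (merge (leaf 5 562 690) (leaf 4 563 692))))))))) (node 627 (merge (leaf 2 624 628) (node 595 (merge (leaf 5 562 690) (node 564 (merge (leaf 6 531 532) (node 691 (merge (leaf 6 563 596) (node 594 (merge (leaf 2 560 593) (node 723 (merge (leaf 7 594 626) (node 756 (merge (leaf 4 627 724) (node 755 (merge (leaf 4 659 788) (node 754 (merge (leaf 5 626 722) (leaf 5 658 786))))))))))))))))))))))))))))))))))))))))))) nP_98 cP_98 15 (by decide +kernel)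
def nP_99 : ℕ := 0x200000000000000012000000120000001000000000000000000000000000000000000000000000000000000000000000000000000000000000000000000000000000000000000000000000000000000000000
def cP_99 : ℕ := 0x500000007040000070c0000075c00003ff800001dff80001f7f0000005f000002df0000007c0000007c00000070000000500000000000000000000000000000000000000000000000000000000000000000000000000000000000000000000000000000000000
theorem lP_99 : S nP_99 cP_99 13 := S_of_chk [] trivial (node 621 (merge (node 624 (merge (leaf 4 528 625) (node 656 (merge (leaf 4 560 689) (node 655 (merge (leaf 5 559 687) (node 654 (merge (leaf 3 621 622) (node 653 (merge (leaf 3 620 620) (leaf 4 557 686))))))))))) (merge (node 624 (merge (leaf 4 528 625) (node 656 (merge (leaf 4 560 689) (node 655 (merge (leaf 5 559 687) (node 654 (merge (leaf 3 621 622) (node 686 (merge (leaf 4 557 653) (leaf 1 653 685))))))))))) (merge (node 624 (merge (leaf 4 528 625) (node 525 (merge (node 524 (merge (leaf 7 492 492) (node 653 (merge (leaf 7 524 556) (node 558 (merge (leaf 6 525 526) (leaf 3 524 559))))))) (merge (node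 526 (merge (leaf 6 493 494) (node 653 (merge (leaf 6 525 558) (node 652 (merge (leaf 5 524 620) (leaf 5 556 684))))))) (node 492 (merge (leaf 7 492 524) (node 493 (merge (leaf 7 460 460) (node 620 (merge (leaf 5 492 588) (leaf 5 524 652)))))))))))) (merge (node 558 (merge (node 559 (merge (leaf 1 556 588) (node 525 (merge (leaf 3 524 524) (node 526 (merge (leaf 6 493 494) (leaf 3 525 561))))))) (merge (node 653 (merge (leaf 6 525 526) (node 685 (merge (leaf 6 557 590) (node 588 (merge (leaf 7 556 556) (leaf 1 556 559))))))) (merge (node 653 (merge (leaf 6 525 526) (node 685 (merge (leaf 6 557 590) (node 684 (merge (leaf 5 556 652) (leaf 5 588 716))))))) (node 559 (merge (leaf 1 556 588) (node 525 (merge (leaf 3 524 524) (node 622 (merge (leaf 4 525 654) (node 493 (merge (leaf 4 493 590) (node 462 (merge (leaf 6 461 494) (node 461 (merge (leaf 6 429 430) (node 460 (merge (leaf 7 428 428) (leaf 7 460 492))))))))))))))))))) (node 689 (merge (node 624 (merge (leaf 4 528 625) (leaf 4 560 656))) (merge (node 654 (merge (node 525 (merge (leaf 4 525 622) (node 494 (merge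 (leaf 6 493 526) (node 493 (merge (leaf 6 461 462) (node 620 (merge (leaf 5 492 588) (leaf 5 524 652))))))))) (node 656 (merge (leaf 4 560 624) (node 655 (merge (leaf 0 654 690) (node 686 (merge (leaf 1 653 685) (node 658 (merge (leaf 1 654 687) (node 627 (merge (leaf 2 623 626) (node 659 (merge (leaf 2 624 628) (node 692 (merge (leaf 0 656 691) (node 660 (merge (leaf 1 656 688) (leaf 0 657 693))))))))))))))))))) (node 721 (merge (node 753 (merge (node 658 (merge (leaf 6 625 626) (node 785 (merge (leaf 6 657 690) (node 786 (merge (leaf 4 657 754) (leaf 4 689 818))))))) (merge (node 754 (merge (leaf 4 657 786) (node 625 (merge (leaf 4 625 722) (node 752 (merge (leaf 5 624 720) (leaf 5 656 784))))))) (node 658 (merge (leaf 6 625 626) (node 785 (merge (leaf 6 657 690) (node 784 (merge (leaf 5 656 752) (leaf 5 688 816)))))))))) (node 620 (merge (node 525 (merge (leaf 5 524 652) (node 622 (merge (leaf 4 525 654) (node 493 (merge (leaf 5 492 588) (leaf 4 493 590))))))) (merge (node 525 (merge (leaf 5 524 652) (node 494 (merge (leaf 6 493 526) (node 493 (merge (leaf 6 461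 462) (node 622 (merge (leaf 4 493 590) (leaf 4 525 654))))))))) (merge (node 525 (merge (leaf 5 524 652) (node 526 (merge (leaf 6 493 494) (node 524 (merge (leaf 7 492 492) (node 558 (merge (leaf 3 524 559) (node 523 (merge (leaf 0 522 522) (node 555 (merge (leaf 1 522 554) (node 491 (merge (leaf 3 490 490) (node 588 (merge (leaf 7 491 556) (leaf 4 491 587))))))))))))))))) (merge (node 525 (merge (node 493 (merge (leaf 5 492 588) (node 462 (merge (leaf 6 461 494) (node 461 (merge (leaf 6 429 430) (node 460 (merge (leaf 7 428 428) (leaf 7 460 492))))))))) (merge (node 494 (merge (leaf 6 493 526) (node 493 (merge (leaf 6 461 462) (node 622 (merge (leaf 4 493 590) (leaf 4 525 654))))))) (merge (node 493 (merge (leaf 5 492 588) (node 590 (merge (leaf 4 493 622) (node 558 (merge (leaf 4 461 461) (node 559 (merge (leaf 3 524 524) (leaf 1 557 561))))))))) (merge (node 493 (merge (leaf 5 492 588) (node 590 (merge (leaf 4 493 622) (node 558 (merge (leaf 4 461 461) (node 559 (merge (leaf 3 524 524) (leaf 1 557 561))))))))) (node 526 (merge (leaf 6 493 494) (node 524 (merge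 (leaf 7 492 492) (node 558 (merge (leaf 3 524 559) (node 523 (merge (leaf 0 522 522) (node 555 (merge (leaf 1 522 554) (node 491 (merge (leaf 3 490 490) (node 588 (merge (leaf 7 491 556) (leaf 4 491 587)))))))))))))))))))) (node 619 (merge (node 618 (merge (leaf 2 586 590) (node 649 (merge (leaf 1 617 650) (node 617 (merge (leaf 2 585 588) (leaf 1 616 648))))))) (merge (node 618 (merge (leaf 2 586 590) (node 650 (merge (leaf 1 617 649) (node 622 (merge (leaf 1 618 651) (node 586 (merge (leaf 3 585 585) (leaf 3 586 587))))))))) (merge (node 618 (merge (leaf 2 586 590) (node 588 (merge (leaf 2 585 617) (node 652 (merge (leaf 6 556 684) (node 586 (merge (leaf 3 585 585) (node 622 (merge (leaf 0 586 587) (node 651 (merge (leaf 1 618 650) (node 683 (merge (leaf 5 555 556) (leaf 6 587 715))))))))))))))) (merge (node 652 (merge (node 684 (merge (leaf 6 556 588) (leaf 6 588 716))) (merge (node 618 (merge (leaf 2 586 590) (node 617 (merge (leaf 2 585 588) (node 616 (merge (leaf 0 616 651) (node 648 (merge (leaf 1 615 647) (leaf 1 616 649))))))))) (node 618 (merge (leaf 2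 586 590) (node 585 (merge (leaf 3 585 586) (node 617 (merge (leaf 3 584 584) (node 616 (merge (leaf 0 616 651) (node 648 (merge (leaf 1 615 647) (leaf 1 616 649)))))))))))))) (merge (node 651 (merge (node 650 (merge (leaf 1 618 622) (node 649 (merge (leaf 2 616 648) (leaf 2 617 652))))) (merge (node 650 (merge (leaf 1 618 622) (node 649 (merge (leaf 1 617 618) (leaf 2 616 648))))) (merge (node 622 (merge (leaf 1 618 650) (node 586 (merge (leaf 3 586 587) (node 618 (merge (leaf 3 585 585) (node 683 (merge (leaf 7 586 715) (node 588 (merge (leaf 2 585 617) (node 652 (merge (leaf 5 555 556) (leaf 6 556 684))))))))))))) (merge (node 618 (merge (node 649 (merge (leaf 1 617 650) (node 617 (merge (leaf 2 585 588) (leaf 1 616 648))))) (merge (node 650 (merge (leaf 1 617 649) (node 586 (merge (leaf 3 585 585) (node 683 (merge (leaf 4 554 554) (leaf 7 586 715))))))) (merge (node 617 (merge (leaf 2 585 588) (node 616 (merge (leaf 0 616 652) (node 648 (merge (leaf 1 615 647) (leaf 1 616 649))))))) (node 586 (merge (leaf 3 585 585) (node 683 (merge (leaf 7 586 715) (node 554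 (merge (leaf 4 522 522) (leaf 7 554 587))))))))))) (node 586 (merge (node 587 (merge (leaf 3 586 622) (node 683 (merge (leaf 7 554 554) (node 715 (merge (leaf 6 587 588) (leaf 7 586 618))))))) (merge (node 585 (merge (leaf 3 585 618) (node 587 (merge (leaf 0 585 588) (leaf 3 586 622))))) (merge (node 618 (merge (leaf 3 585 585) (node 617 (merge (leaf 2 585 588) (node 616 (merge (leaf 0 616 652) (node 648 (merge (leaf 1 615 647) (leaf 1 616 649))))))))) (merge (node 587 (merge (leaf 3 586 622) (node 683 (merge (leaf 7 554 554) (node 715 (merge (leaf 6 587 588) (node 747 (merge (leaf 6 619 652) (node 746 (merge (leaf 5 618 714) (leaf 5 650 778))))))))))) (node 587 (merge (leaf 3 586 622) (node 683 (merge (leaf 7 554 554) (node 715 (merge (leaf 7 586 618) (node 747 (merge (leaf 6 619 652) (node 746 (merge (leaf 5 618 714) (leaf 5 650 778))))))))))))))))))))) (node 587 (merge (node 586 (merge (leaf 3 586 622) (node 588 (merge (leaf 2 554 558) (leaf 0 585 585))))) (merge (node 622 (merge (leaf 3 586 586) (node 654 (merge (leaf 0 619 655) (node 686 (merge (leaf 7 557 590)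 (leaf 7 589 718))))))) (merge (node 588 (merge (node 586 (merge (leaf 2 554 558) (leaf 0 585 585))) (node 652 (merge (leaf 6 556 684) (node 555 (merge (leaf 4 523 523) (node 554 (merge (leaf 3 554 590) (node 553 (merge (leaf 0 552 552) (leaf 0 553 556))))))))))) (node 651 (merge (node 650 (merge (leaf 1 618 622) (node 649 (merge (leaf 2 616 648) (leaf 2 617 652))))) (merge (node 622 (merge (leaf 1 618 650) (node 654 (merge (leaf 0 619 655) (node 686 (merge (leaf 7 557 590) (leaf 7 589 718))))))) (node 652 (merge (node 684 (merge (leaf 6 556 588) (leaf 6 588 716))) (merge (node 684 (merge (leaf 6 588 716) (node 555 (merge (leaf 4 523 523) (leaf 4 555 651))))) (node 555 (merge (leaf 4 523 523) (node 554 (merge (leaf 7 522 522) (node 590 (merge (leaf 0 554 556) (leaf 3 554 588)))))))))))))))))))))))))))))))))))))) nP_99 cP_99 13 (by decide +kernel)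
def nP_100 : ℕ := 0x10000000120000001200000000000000000000000000000000000000000000000000000000000000000000000000000000000000000000000000000000000000000000000000000000000
def cP_100 : ℕ := 0x1000000070000002700000027c0000025c000000dc0000037c000003fc000003f8000002f000000000000000000000000000000000000000000000000000000000000000000000000000000000000000000000000000
theorem lP_100 : S nP_100 cP_100 15 := S_of_chk [] trivial (node 496 (merge (node 593 (merge (leaf 4 496 625) (node 464 (merge (leaf 4 464 561) (node 433 (merge (leaf 6 432 465) (node 432 (merge (leaf 6 400 401) (node 431 (merge (leaf 7 399 399) (leaf 7 431 463))))))))))) (merge (node 461 (merge (node 593 (merge (leaf 4 496 625) (node 464 (merge (leaf 4 464 561) (node 463 (merge (leaf 7 431 431) (node 462 (merge (leaf 0 461 497) (node 493 (merge (leaf 6 429 430) (leaf 1 460 492))))))))))) (merge (node 493 (merge (node 460 (merge (leaf 7 428 428) (node 589 (merge (leaf 7 460 492) (node 590 (merge (leaf 4 461 558) (leaf 4 493 622))))))) (merge (node 556 (merge (leaf 5 460 588) (node 526 (merge (leaf 1 524 527)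 (node 429 (merge (leaf 5 428 524) (leaf 4 429 558))))))) (node 460 (merge (leaf 7 428 428) (node 589 (merge (leaf 7 460 492) (node 588 (merge (leaf 5 460 556) (leaf 5 492 620)))))))))) (merge (node 593 (merge (leaf 4 496 625) (node 464 (merge (leaf 4 464 561) (node 463 (merge (leaf 7 431 431) (node 462 (merge (leaf 0 461 497) (node 493 (merge (leaf 6 429 430) (node 589 (merge (leaf 6 461 494) (node 588 (merge (leaf 5 460 556) (leaf 5 492 620))))))))))))))) (node 593 (merge (leaf 4 496 625) (node 464 (merge (leaf 4 464 561) (node 463 (merge (leaf 7 431 431) (node 462 (merge (leaf 0 461 497) (node 428 (merge (leaf 3 428 429) (node 460 (merge (leaf 3 427 427) (node 492 (merge (leaf 1 459 491) (leaf 4 428 524))))))))))))))))))) (merge (node 493 (merge (node 465 (merge (leaf 6 464 497) (node 464 (merge (leaf 6 432 433) (node 463 (merge (leaf 7 431 431) (node 462 (merge (leaf 1 461 494) (node 430 (merge (leaf 3 429 429) (leaf 6 429 461))))))))))) (merge (node 589 (merge (node 492 (merge (leaf 7 460 460) (node 621 (merge (leaf 7 492 524) (node 526 (merge (leaf 6 493 494)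 (leaf 3 492 527))))))) (merge (node 494 (merge (leaf 6 461 462) (node 621 (merge (leaf 6 493 526) (node 620 (merge (leaf 5 492 588) (leaf 5 524 652))))))) (merge (node 492 (merge (leaf 7 460 460) (node 621 (merge (leaf 7 492 524) (node 620 (merge (leaf 5 492 588) (leaf 5 524 652))))))) (node 590 (merge (leaf 4 493 622) (node 461 (merge (leaf 4 461 558) (node 588 (merge (leaf 5 460 556) (leaf 5 492 620))))))))))) (merge (node 589 (merge (node 492 (merge (leaf 7 460 460) (node 621 (merge (leaf 7 492 524) (node 526 (merge (leaf 6 493 494) (leaf 3 492 527))))))) (merge (node 492 (merge (leaf 7 460 460) (node 621 (merge (leaf 7 492 524) (node 620 (merge (leaf 5 492 588) (leaf 5 524 652))))))) (merge (node 497 (merge (leaf 6 464 465) (node 526 (merge (leaf 2 493 527) (node 621 (merge (leaf 6 493 494) (node 653 (merge (leaf 6 525 558) (node 652 (merge (leaf 5 524 620) (leaf 5 556 684))))))))))) (node 590 (merge (leaf 4 493 622) (node 461 (merge (leaf 4 461 558) (node 588 (merge (leaf 5 460 556) (leaf 5 492 620))))))))))) (merge (node 465 (merge (leaf 6 464 497) (node 464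 (merge (leaf 6 432 433) (node 431 (merge (leaf 7 431 463) (node 432 (merge (leaf 7 399 399) (node 430 (merge (leaf 0 429 429) (node 461 (merge (leaf 6 429 462) (node 460 (merge (leaf 7 428 428) (node 589 (merge (leaf 7 460 492) (node 588 (merge (leaf 5 460 556) (leaf 5 492 620))))))))))))))))))) (node 526 (merge (node 527 (merge (leaf 2 493 497) (leaf 1 524 556))) (merge (node 492 (merge (leaf 3 492 527) (node 589 (merge (leaf 7 460 460) (node 621 (merge (leaf 6 493 494) (leaf 7 492 524))))))) (node 465 (merge (leaf 6 464 497) (node 464 (merge (leaf 6 432 433) (node 463 (merge (leaf 7 431 431) (node 494 (merge (leaf 1 461 462) (node 589 (merge (leaf 6 493 621) (node 492 (merge (leaf 7 460 460) (node 491 (merge (leaf 0 490 490) (node 523 (merge (leaf 1 490 522) (node 459 (merge (leaf 3 458 458) (node 588 (merge (leaf 5 492 620) (node 556 (merge (leaf 7 459 524) (leaf 4 459 555))))))))))))))))))))))))))))))) (node 493 (merge (node 465 (merge (leaf 6 464 497) (node 461 (merge (node 430 (merge (leaf 6 429 462) (node 429 (merge (leaf 6 397 398) (node 428 (merge (leaf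 7 396 396) (leaf 7 428 460))))))) (merge (node 460 (merge (leaf 7 428 428) (node 589 (merge (leaf 7 460 492) (node 588 (merge (leaf 5 460 556) (leaf 5 492 620))))))) (node 462 (merge (leaf 6 429 430) (node 589 (merge (leaf 6 461 494) (node 588 (merge (leaf 5 460 556) (leaf 5 492 620)))))))))))) (merge (node 465 (merge (leaf 6 464 497) (node 461 (merge (node 430 (merge (leaf 6 429 462) (node 429 (merge (leaf 6 397 398) (node 428 (merge (leaf 7 396 396) (leaf 7 428 460))))))) (merge (node 462 (merge (leaf 6 429 430) (node 589 (merge (leaf 6 461 494) (node 588 (merge (leaf 5 460 556) (leaf 5 492 620))))))) (node 556 (merge (leaf 5 460 588) (node 526 (merge (leaf 1 524 527) (node 429 (merge (leaf 5 428 524) (leaf 4 429 558)))))))))))) (merge (node 461 (merge (node 430 (merge (leaf 6 429 462) (node 429 (merge (leaf 6 397 398) (node 428 (merge (leaf 7 396 396) (leaf 7 428 460))))))) (merge (node 556 (merge (leaf 5 460 588) (node 526 (merge (leaf 1 524 527) (node 429 (merge (leaf 5 428 524) (leaf 4 429 558))))))) (node 460 (merge (leaf 7 428 428) (node 558 (merge (leaf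 4 461 590) (node 556 (merge (leaf 5 460 588) (node 526 (merge (leaf 1 524 527) (node 555 (merge (leaf 2 522 554) (node 587 (merge (leaf 1 554 586) (node 523 (merge (leaf 3 522 522) (node 492 (merge (leaf 6 459 491) (leaf 5 459 524)))))))))))))))))))) (merge (node 526 (merge (node 527 (merge (leaf 3 492 492) (leaf 2 493 497))) (node 590 (merge (node 558 (merge (leaf 4 461 461) (leaf 7 493 622))) (merge (node 589 (merge (leaf 4 493 622) (node 494 (merge (leaf 6 461 462) (node 621 (merge (leaf 6 493 526) (node 620 (merge (leaf 5 492 588) (leaf 5 524 652))))))))) (node 461 (merge (leaf 4 461 558) (node 430 (merge (leaf 6 429 462) (node 429 (merge (leaf 6 397 398) (node 428 (merge (leaf 7 396 396) (leaf 7 428 460)))))))))))))) (merge (node 589 (merge (node 492 (merge (leaf 7 460 460) (node 621 (merge (leaf 7 492 524) (node 526 (merge (leaf 6 493 494) (leaf 3 492 527))))))) (merge (node 492 (merge (leaf 7 460 460) (node 621 (merge (leaf 7 492 524) (node 620 (merge (leaf 5 492 588) (leaf 5 524 652))))))) (merge (node 497 (merge (leaf 6 464 465) (node 526 (merge (leaf 2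 493 527) (node 621 (merge (leaf 6 493 494) (node 653 (merge (leaf 6 525 558) (node 652 (merge (leaf 5 524 620) (leaf 5 556 684))))))))))) (node 590 (merge (leaf 4 493 622) (node 461 (merge (leaf 4 461 558) (node 588 (merge (leaf 5 460 556) (leaf 5 492 620))))))))))) (merge (node 461 (merge (node 556 (merge (leaf 5 460 588) (node 526 (merge (leaf 1 524 527) (node 429 (merge (leaf 5 428 524) (leaf 4 429 558))))))) (merge (node 462 (merge (leaf 6 429 430) (node 589 (merge (leaf 6 461 494) (node 588 (merge (leaf 5 460 556) (leaf 5 492 620))))))) (merge (node 462 (merge (leaf 6 429 430) (node 589 (merge (leaf 6 461 494) (node 590 (merge (leaf 4 461 558) (leaf 4 493 622))))))) (node 462 (merge (leaf 6 429 430) (node 494 (merge (leaf 6 461 589) (node 497 (merge (leaf 6 464 465) (node 526 (merge (leaf 2 493 527) (node 429 (merge (leaf 4 397 397) (leaf 7 429 558))))))))))))))) (merge (node 461 (merge (node 430 (merge (leaf 6 429 462) (node 429 (merge (leaf 6 397 398) (node 428 (merge (leaf 7 396 396) (leaf 7 428 460))))))) (merge (node 462 (merge (leaf 6 429 430) (node 589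 (merge (leaf 6 461 494) (node 492 (merge (leaf 7 460 460) (node 621 (merge (leaf 7 492 524) (node 622 (merge (leaf 4 493 590) (leaf 4 525 654))))))))))) (merge (node 462 (merge (leaf 6 429 430) (node 494 (merge (leaf 6 461 589) (node 497 (merge (leaf 6 464 465) (node 526 (merge (leaf 2 493 527) (node 429 (merge (leaf 4 397 397) (leaf 7 429 558))))))))))) (node 497 (merge (leaf 6 464 465) (node 460 (merge (leaf 7 428 428) (node 589 (merge (leaf 7 460 492) (node 526 (merge (leaf 2 493 527) (node 621 (merge (leaf 6 493 494) (node 653 (merge (leaf 6 525 558) (node 652 (merge (leaf 5 524 620) (leaf 5 556 684))))))))))))))))))) (node 465 (merge (leaf 6 464 497) (node 589 (merge (node 492 (merge (leaf 7 460 460) (node 621 (merge (leaf 7 492 524) (node 620 (merge (leaf 5 492 588) (leaf 5 524 652))))))) (merge (node 494 (merge (leaf 6 461 462) (node 621 (merge (leaf 6 493 526) (node 620 (merge (leaf 5 492 588) (leaf 5 524 652))))))) (merge (node 492 (merge (leaf 7 460 460) (node 621 (merge (leaf 7 492 524) (node 526 (merge (leaf 6 493 494) (leaf 3 492 527))))))) (node 494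 (merge (leaf 6 461 462) (node 492 (merge (leaf 7 460 460) (node 526 (merge (leaf 3 492 527) (node 491 (merge (leaf 0 490 490) (node 523 (merge (leaf 1 490 522) (node 459 (merge (leaf 3 458 458) (node 588 (merge (leaf 5 492 620) (node 556 (merge (leaf 7 459 524) (leaf 4 459 555))))))))))))))))))))))))))))))))))) nP_100 cP_100 15 (by decide +kernel)
def nP_101 : ℕ := 0x10000000920000001200000010000000000000000000000000000000000000000000000000000000000000000000000000000000000000000000000000000000000000000000000000000
def cP_101 : ℕ := 0x40000005c0000007f0000007f000001fa800000f6100000fcc00000fe0000003e0000001c000000140000000000000000000000000000000000000000000000000000000000000000000000000000000000000000000000000000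
theorem lP_101 : S nP_101 cP_101 13 := S_of_chk [] trivial (node 531 (merge (node 499 (merge (node 497 (merge (leaf 6 464 465) (node 527 (merge (leaf 1 495 498) (leaf 2 493 526))))) (node 596 (merge (node 564 (merge (leaf 4 467 467) (node 628 (merge (leaf 7 499 532) (leaf 7 531 660))))) (merge (node 467 (merge (leaf 4 467 564) (node 436 (merge (leaf 6 435 468) (node 435 (merge (leaf 6 403 404) (node 434 (merge (leaf 7 402 402) (leaf 7 434 466))))))))) (node 625 (merge (leaf 4 496 593) (node 595 (merge (leaf 4 499 628) (node 500 (merge (leaf 6 467 468) (node 627 (merge (leaf 6 499 532) (node 626 (merge (leaf 2 592 624) (leaf 5 530 658)))))))))))))))) (merge (node 499 (merge (node 497 (merge (leaf 6 464 465) (node 527 (merge (leaf 1 495 498) (leaf 2 493 526))))) (merge (node 595 (merge (node 468 (merge (leaf 6 467 500) (node 467 (merge (leaf 6 435 436) (node 466 (merge (leaf 7 434 434) (leaf 7 466 498))))))) (merge (node 498 (merge (leaf 7 466 466) (node 627 (merge (leaf 7 498 530) (node 625 (merge (leaf 4 496 593) (node 626 (merge (leaf 5 530 658) (node 624 (merge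 (leaf 3 591 591) (leaf 2 592 596))))))))))) (node 500 (merge (leaf 6 467 468) (node 627 (merge (leaf 6 499 532) (node 625 (merge (leaf 4 496 593) (node 626 (merge (leaf 5 530 658) (node 624 (merge (leaf 3 591 591) (leaf 2 592 596)))))))))))))) (node 593 (merge (leaf 4 496 625) (node 467 (merge (node 468 (merge (leaf 6 435 436) (node 500 (merge (leaf 6 467 595) (node 466 (merge (leaf 7 434 434) (node 501 (merge (leaf 0 465 465) (leaf 3 466 502))))))))) (merge (node 564 (merge (leaf 4 467 596) (node 562 (merge (leaf 1 560 561) (node 435 (merge (leaf 5 434 530) (leaf 4 435 532))))))) (node 564 (merge (leaf 4 467 596) (node 435 (merge (leaf 4 435 532) (node 562 (merge (leaf 5 434 530) (node 561 (merge (leaf 1 559 591) (leaf 1 560 593))))))))))))))))) (merge (node 595 (merge (node 497 (merge (leaf 6 464 465) (node 527 (merge (leaf 2 493 526) (node 499 (merge (leaf 1 495 498) (node 500 (merge (leaf 6 467 468) (node 627 (merge (leaf 6 499 532) (node 628 (merge (leaf 4 499 596) (leaf 4 531 660))))))))))))) (merge (node 627 (merge (node 625 (merge (leaf 4 496 593) (node 624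 (merge (leaf 4 528 657) (node 626 (merge (leaf 3 591 591) (leaf 2 592 596))))))) (node 530 (merge (leaf 7 498 498) (node 659 (merge (leaf 7 530 562) (node 660 (merge (leaf 4 531 628) (leaf 4 563 692))))))))) (merge (node 628 (merge (node 625 (merge (leaf 4 496 593) (node 627 (merge (leaf 4 531 660) (node 626 (merge (leaf 5 530 658) (node 624 (merge (leaf 3 591 591) (leaf 2 592 596))))))))) (merge (node 499 (merge (leaf 4 499 596) (node 468 (merge (leaf 6 467 500) (node 467 (merge (leaf 6 435 436) (node 434 (merge (leaf 7 434 466) (node 435 (merge (leaf 7 402 402) (node 562 (merge (leaf 5 434 530) (node 561 (merge (leaf 2 528 532) (leaf 1 559 591))))))))))))))) (merge (node 625 (merge (leaf 4 496 593) (node 624 (merge (leaf 4 528 657) (node 627 (merge (leaf 4 531 660) (node 626 (merge (leaf 3 591 591) (leaf 5 530 658))))))))) (node 625 (merge (leaf 4 496 593) (node 624 (merge (leaf 4 528 657) (node 627 (merge (leaf 4 531 660) (node 626 (merge (leaf 2 592 596) (leaf 5 530 658))))))))))))) (node 497 (merge (leaf 6 464 465) (node 527 (merge (leaf 2 493 526) (node 499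 (merge (leaf 1 495 498) (node 468 (merge (leaf 6 467 500) (node 467 (merge (leaf 6 435 436) (node 434 (merge (leaf 7 434 466) (node 435 (merge (leaf 7 402 402) (node 562 (merge (leaf 5 434 530) (leaf 3 527 561))))))))))))))))))))) (merge (node 595 (merge (node 627 (merge (node 532 (merge (leaf 6 499 500) (node 659 (merge (leaf 6 531 564) (node 660 (merge (leaf 4 531 628) (leaf 4 563 692))))))) (merge (node 532 (merge (leaf 6 499 500) (node 659 (merge (leaf 6 531 564) (node 658 (merge (leaf 5 530 626) (leaf 5 562 690))))))) (node 625 (merge (leaf 4 496 593) (node 624 (merge (leaf 4 528 657) (node 626 (merge (leaf 3 591 591) (leaf 5 530 658)))))))))) (merge (node 497 (merge (leaf 6 464 465) (node 527 (merge (leaf 2 493 526) (node 499 (merge (leaf 1 495 498) (node 468 (merge (leaf 6 467 500) (node 467 (merge (leaf 6 435 436) (node 434 (merge (leaf 7 434 466) (node 435 (merge (leaf 7 402 402) (node 562 (merge (leaf 5 434 530) (leaf 3 527 561))))))))))))))))) (node 497 (merge (leaf 6 464 465) (node 527 (merge (leaf 2 493 526) (node 498 (merge (leaf 1 495 499) (node 627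 (merge (leaf 7 498 530) (node 625 (merge (leaf 4 496 593) (node 624 (merge (leaf 4 528 657) (node 626 (merge (leaf 3 591 591) (leaf 5 530 658)))))))))))))))))) (merge (node 499 (merge (node 497 (merge (leaf 6 464 465) (node 527 (merge (leaf 1 495 498) (leaf 2 493 526))))) (merge (node 595 (merge (node 468 (merge (leaf 6 467 500) (node 467 (merge (leaf 6 435 436) (node 466 (merge (leaf 7 434 434) (leaf 7 466 498))))))) (merge (node 498 (merge (leaf 7 466 466) (node 627 (merge (leaf 7 498 530) (node 628 (merge (leaf 4 499 596) (leaf 4 531 660))))))) (node 468 (merge (leaf 6 467 500) (node 467 (merge (leaf 6 435 436) (node 596 (merge (leaf 4 467 564) (leaf 4 499 628)))))))))) (node 593 (merge (leaf 4 496 625) (node 595 (merge (node 468 (merge (leaf 6 467 500) (node 467 (merge (leaf 6 435 436) (node 596 (merge (leaf 4 467 564) (leaf 4 499 628))))))) (merge (node 628 (merge (leaf 4 499 596) (node 627 (merge (leaf 4 531 660) (node 658 (merge (leaf 5 530 626) (node 659 (merge (leaf 5 562 690) (node 562 (merge (leaf 7 530 530) (node 561 (merge (leaf 1 560 564) (leaf 1 559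 591))))))))))))) (merge (node 628 (merge (leaf 4 499 596) (node 627 (merge (leaf 4 531 660) (node 658 (merge (leaf 5 530 626) (node 659 (merge (leaf 5 562 690) (node 562 (merge (leaf 7 530 530) (node 561 (merge (leaf 3 527 527) (leaf 1 559 591))))))))))))) (node 468 (merge (leaf 6 467 500) (node 467 (merge (leaf 6 435 436) (node 434 (merge (leaf 7 434 466) (node 435 (merge (leaf 7 402 402) (node 562 (merge (leaf 5 434 530) (node 561 (merge (leaf 1 560 564) (leaf 1 559 591)))))))))))))))))))))) (merge (node 627 (merge (node 625 (merge (leaf 4 496 593) (node 624 (merge (leaf 4 528 657) (node 626 (merge (leaf 3 591 591) (node 595 (merge (leaf 2 592 596) (leaf 5 530 658))))))))) (merge (node 625 (merge (leaf 4 496 593) (node 624 (merge (leaf 4 528 657) (node 626 (merge (leaf 3 591 591) (node 660 (merge (leaf 0 624 659) (node 628 (merge (leaf 0 625 661) (node 596 (merge (leaf 7 531 564) (leaf 2 593 597))))))))))))) (merge (node 625 (merge (leaf 4 496 593) (node 624 (merge (leaf 4 528 657) (node 626 (merge (leaf 3 591 591) (node 659 (merge (leaf 0 624 660) (node 595 (merge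 (leaf 5 530 658) (node 530 (merge (leaf 7 498 498) (leaf 7 530 562))))))))))))) (merge (node 593 (merge (leaf 4 496 625) (node 595 (merge (node 532 (merge (leaf 6 499 500) (node 659 (merge (leaf 6 531 564) (node 660 (merge (leaf 4 531 628) (leaf 4 563 692))))))) (merge (node 532 (merge (leaf 6 499 500) (node 659 (merge (leaf 6 531 564) (node 562 (merge (leaf 7 530 530) (leaf 2 528 561))))))) (merge (node 530 (merge (leaf 7 498 498) (node 659 (merge (leaf 7 530 562) (node 660 (merge (leaf 4 531 628) (leaf 4 563 692))))))) (node 532 (merge (leaf 6 499 500) (node 530 (merge (leaf 7 498 498) (node 562 (merge (leaf 2 528 561) (node 533 (merge (leaf 1 530 534) (node 565 (merge (leaf 0 530 566) (node 501 (merge (leaf 2 498 502) (node 628 (merge (leaf 4 531 660) (node 596 (merge (leaf 6 500 564) (leaf 5 500 597))))))))))))))))))))))) (node 595 (merge (node 530 (merge (leaf 7 498 498) (node 659 (merge (leaf 7 530 562) (node 660 (merge (leaf 4 531 628) (leaf 4 563 692))))))) (merge (node 532 (merge (leaf 6 499 500) (node 659 (merge (leaf 6 531 564) (node 658 (merge (leaf 5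 530 626) (leaf 5 562 690))))))) (node 499 (merge (node 500 (merge (leaf 6 467 468) (node 627 (merge (leaf 6 499 532) (node 628 (merge (leaf 4 499 596) (leaf 4 531 660))))))) (merge (node 468 (merge (leaf 6 467 500) (node 467 (merge (leaf 6 435 436) (node 466 (merge (leaf 7 434 434) (leaf 7 466 498))))))) (node 466 (merge (leaf 7 466 498) (node 467 (merge (leaf 7 434 434) (node 596 (merge (leaf 4 467 564) (leaf 4 499 628)))))))))))))))))) (merge (node 627 (merge (node 625 (merge (leaf 4 496 593) (node 624 (merge (leaf 4 528 657) (node 626 (merge (leaf 3 591 591) (node 595 (merge (leaf 2 592 596) (leaf 5 530 658))))))))) (merge (node 465 (merge (leaf 6 464 497) (node 595 (merge (node 532 (merge (leaf 6 499 500) (node 659 (merge (leaf 6 531 564) (node 660 (merge (leaf 4 531 628) (leaf 4 563 692))))))) (merge (node 530 (merge (leaf 7 498 498) (node 659 (merge (leaf 7 530 562) (node 658 (merge (leaf 5 530 626) (leaf 5 562 690))))))) (node 532 (merge (leaf 6 499 500) (node 530 (merge (leaf 7 498 498) (node 562 (merge (leaf 2 528 561) (node 533 (merge (leaf 1 530 534) (node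 565 (merge (leaf 0 530 566) (node 501 (merge (leaf 2 498 502) (node 628 (merge (leaf 4 531 660) (node 596 (merge (leaf 6 500 564) (leaf 5 500 597)))))))))))))))))))))) (merge (node 593 (merge (leaf 4 496 625) (node 595 (merge (node 532 (merge (leaf 6 499 500) (node 659 (merge (leaf 6 531 564) (node 660 (merge (leaf 4 531 628) (leaf 4 563 692))))))) (merge (node 532 (merge (leaf 6 499 500) (node 659 (merge (leaf 6 531 564) (node 562 (merge (leaf 7 530 530) (leaf 2 528 561))))))) (merge (node 530 (merge (leaf 7 498 498) (node 659 (merge (leaf 7 530 562) (node 660 (merge (leaf 4 531 628) (leaf 4 563 692))))))) (node 532 (merge (leaf 6 499 500) (node 530 (merge (leaf 7 498 498) (node 562 (merge (leaf 2 528 561) (node 533 (merge (leaf 1 530 534) (node 565 (merge (leaf 0 530 566) (node 501 (merge (leaf 2 498 502) (node 628 (merge (leaf 4 531 660) (node 596 (merge (leaf 6 500 564) (leaf 5 500 597))))))))))))))))))))))) (merge (node 625 (merge (leaf 4 496 593) (node 624 (merge (leaf 4 528 657) (node 626 (merge (leaf 3 591 591) (node 659 (merge (leaf 0 624 660) (node 595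 (merge (leaf 5 530 658) (node 530 (merge (leaf 7 498 498) (leaf 7 530 562))))))))))))) (node 625 (merge (leaf 4 496 593) (node 624 (merge (leaf 4 528 657) (node 626 (merge (leaf 3 591 591) (node 660 (merge (leaf 0 624 659) (node 628 (merge (leaf 0 625 661) (node 596 (merge (leaf 7 531 564) (leaf 2 593 597)))))))))))))))))) (merge (node 595 (merge (node 497 (merge (leaf 6 464 465) (node 527 (merge (leaf 2 493 526) (node 499 (merge (leaf 1 495 498) (node 468 (merge (leaf 6 467 500) (node 467 (merge (leaf 6 435 436) (node 434 (merge (leaf 7 434 466) (node 435 (merge (leaf 7 402 402) (node 562 (merge (leaf 5 434 530) (leaf 3 527 561))))))))))))))))) (merge (node 499 (merge (node 498 (merge (leaf 7 466 466) (node 497 (merge (leaf 1 495 527) (leaf 0 496 532))))) (merge (node 500 (merge (leaf 6 467 468) (node 627 (merge (leaf 6 499 532) (node 628 (merge (leaf 4 499 596) (leaf 4 531 660))))))) (node 468 (merge (leaf 6 467 500) (node 467 (merge (leaf 6 435 436) (node 466 (merge (leaf 7 434 434) (leaf 7 466 498)))))))))) (merge (node 497 (merge (leaf 6 464 465) (node 527 (merge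 (leaf 2 493 526) (node 499 (merge (leaf 1 495 498) (node 562 (merge (leaf 3 527 561) (node 596 (merge (leaf 4 499 628) (node 467 (merge (leaf 4 467 564) (node 434 (merge (leaf 7 434 466) (node 435 (merge (leaf 7 402 402) (leaf 5 434 530))))))))))))))))) (merge (node 628 (merge (node 596 (merge (leaf 4 499 499) (node 660 (merge (leaf 7 531 564) (leaf 7 563 692))))) (merge (node 627 (merge (leaf 4 531 660) (node 532 (merge (leaf 6 499 500) (node 659 (merge (leaf 6 531 564) (node 658 (merge (leaf 5 530 626) (leaf 5 562 690))))))))) (node 499 (merge (leaf 4 499 596) (node 468 (merge (leaf 6 467 500) (node 467 (merge (leaf 6 435 436) (node 434 (merge (leaf 7 434 466) (node 435 (merge (leaf 7 402 402) (node 562 (merge (leaf 5 434 530) (node 561 (merge (leaf 2 528 532) (leaf 1 559 591)))))))))))))))))) (node 627 (merge (node 532 (merge (leaf 6 499 500) (node 659 (merge (leaf 6 531 564) (node 660 (merge (leaf 4 531 628) (leaf 4 563 692))))))) (merge (node 530 (merge (leaf 7 498 498) (node 659 (merge (leaf 7 530 562) (node 658 (merge (leaf 5 530 626) (leaf 5 562 690)))))))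 (node 532 (merge (leaf 6 499 500) (node 530 (merge (leaf 7 498 498) (node 562 (merge (leaf 2 528 561) (node 533 (merge (leaf 1 530 534) (node 501 (merge (leaf 2 498 502) (node 628 (merge (leaf 4 531 660) (node 596 (merge (leaf 6 500 564) (node 597 (merge (leaf 3 562 598) (node 626 (merge (leaf 2 593 625) (leaf 5 530 658))))))))))))))))))))))))))) (merge (node 625 (merge (leaf 4 496 593) (node 627 (merge (node 624 (merge (leaf 4 528 657) (node 626 (merge (leaf 3 591 591) (node 595 (merge (leaf 2 592 596) (leaf 5 530 658))))))) (merge (node 624 (merge (leaf 4 528 657) (node 626 (merge (leaf 3 591 591) (node 660 (merge (leaf 0 624 659) (node 628 (merge (leaf 0 625 661) (node 596 (merge (leaf 7 531 564) (leaf 2 593 597))))))))))) (merge (node 624 (merge (leaf 4 528 657) (node 626 (merge (leaf 3 591 591) (node 660 (merge (leaf 0 624 659) (node 628 (merge (leaf 4 531 595) (leaf 0 625 661))))))))) (merge (node 595 (merge (node 532 (merge (leaf 6 499 500) (node 659 (merge (leaf 6 531 564) (node 660 (merge (leaf 4 531 628) (leaf 4 563 692))))))) (merge (node 628 (merge (leaf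 4 531 660) (node 499 (merge (leaf 4 499 596) (node 468 (merge (leaf 6 467 500) (node 467 (merge (leaf 6 435 436) (node 434 (merge (leaf 7 434 466) (node 435 (merge (leaf 7 402 402) (node 562 (merge (leaf 5 434 530) (node 561 (merge (leaf 3 527 527) (leaf 1 559 591))))))))))))))))) (node 497 (merge (leaf 6 464 465) (node 527 (merge (leaf 2 493 526) (node 562 (merge (leaf 3 527 561) (node 659 (merge (leaf 7 530 530) (node 564 (merge (leaf 6 531 532) (node 691 (merge (leaf 6 563 596) (node 690 (merge (leaf 5 562 658) (leaf 5 594 722)))))))))))))))))) (node 626 (merge (node 595 (merge (leaf 5 530 658) (node 532 (merge (leaf 6 499 500) (node 659 (merge (leaf 6 531 564) (node 562 (merge (leaf 7 530 530) (leaf 2 528 561))))))))) (merge (node 657 (merge (leaf 4 528 624) (node 628 (merge (leaf 1 624 656) (node 660 (merge (leaf 0 625 661) (node 596 (merge (leaf 7 531 564) (leaf 2 593 597))))))))) (node 624 (merge (leaf 4 528 657) (node 595 (merge (leaf 2 592 596) (leaf 5 530 658))))))))))))))) (merge (node 595 (merge (node 627 (merge (node 625 (merge (leaf 4 496 593) (node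 624 (merge (leaf 4 528 657) (node 626 (merge (leaf 3 591 591) (leaf 2 592 596))))))) (node 530 (merge (leaf 7 498 498) (node 659 (merge (leaf 7 530 562) (node 660 (merge (leaf 4 531 628) (leaf 4 563 692))))))))) (merge (node 497 (merge (leaf 6 464 465) (node 527 (merge (leaf 2 493 526) (node 499 (merge (leaf 1 495 498) (node 596 (merge (leaf 4 499 628) (node 467 (merge (leaf 4 467 564) (node 436 (merge (leaf 6 435 468) (node 435 (merge (leaf 6 403 404) (node 434 (merge (leaf 7 402 402) (leaf 7 434 466))))))))))))))))) (merge (node 497 (merge (leaf 6 464 465) (node 527 (merge (leaf 2 493 526) (node 498 (merge (leaf 1 495 499) (node 627 (merge (leaf 7 498 530) (node 625 (merge (leaf 4 496 593) (node 624 (merge (leaf 4 528 657) (node 626 (merge (leaf 3 591 591) (leaf 5 530 658))))))))))))))) (merge (node 627 (merge (node 625 (merge (leaf 4 496 593) (node 624 (merge (leaf 4 528 657) (node 626 (merge (leaf 3 591 591) (leaf 2 592 596))))))) (merge (node 562 (merge (node 561 (merge (leaf 3 527 527) (leaf 1 559 591))) (node 659 (merge (leaf 7 530 530) (node 564 (merge (leaf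 6 531 532) (node 691 (merge (leaf 6 563 596) (node 690 (merge (leaf 5 562 658) (leaf 5 594 722))))))))))) (merge (node 625 (merge (leaf 4 496 593) (node 624 (merge (leaf 4 528 657) (node 626 (merge (leaf 3 591 591) (node 659 (merge (leaf 0 624 660) (node 530 (merge (leaf 7 530 562) (node 531 (merge (leaf 7 498 498) (leaf 5 530 658))))))))))))) (node 625 (merge (leaf 4 496 593) (node 624 (merge (leaf 4 528 657) (node 626 (merge (leaf 2 592 596) (node 659 (merge (leaf 0 624 660) (node 530 (merge (leaf 7 530 562) (node 531 (merge (leaf 7 498 498) (leaf 5 530 658))))))))))))))))) (node 627 (merge (node 625 (merge (leaf 4 496 593) (node 624 (merge (leaf 4 528 657) (node 626 (merge (leaf 3 591 591) (leaf 2 592 596))))))) (merge (node 625 (merge (leaf 4 496 593) (node 624 (merge (leaf 4 528 657) (node 626 (merge (leaf 3 591 591) (leaf 5 530 658))))))) (node 527 (merge (node 526 (merge (leaf 2 493 497) (leaf 1 524 556))) (node 562 (merge (leaf 3 527 561) (node 659 (merge (leaf 7 530 530) (node 564 (merge (leaf 6 531 532) (node 691 (merge (leaf 6 563 596) (node 690 (merge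 (leaf 5 562 658) (leaf 5 594 722))))))))))))))))))))) (merge (node 499 (merge (node 497 (merge (leaf 6 464 465) (node 527 (merge (leaf 1 495 498) (leaf 2 493 526))))) (merge (node 595 (merge (node 500 (merge (leaf 6 467 468) (node 627 (merge (leaf 6 499 532) (node 628 (merge (leaf 4 499 596) (leaf 4 531 660))))))) (merge (node 468 (merge (leaf 6 467 500) (node 467 (merge (leaf 6 435 436) (node 466 (merge (leaf 7 434 434) (leaf 7 466 498))))))) (node 498 (merge (leaf 7 466 466) (node 627 (merge (leaf 7 498 530) (node 628 (merge (leaf 4 499 596) (leaf 4 531 660)))))))))) (node 564 (merge (node 596 (merge (leaf 4 467 467) (node 628 (merge (leaf 7 499 532) (leaf 4 499 595))))) (merge (node 467 (merge (leaf 4 467 596) (node 436 (merge (leaf 6 435 468) (node 435 (merge (leaf 6 403 404) (leaf 4 435 532))))))) (merge (node 467 (merge (leaf 4 467 596) (node 468 (merge (leaf 6 435 436) (node 500 (merge (leaf 6 467 595) (node 466 (merge (leaf 7 434 434) (node 501 (merge (leaf 0 465 465) (leaf 3 466 502))))))))))) (merge (node 467 (merge (node 435 (merge (leaf 4 435 532) (node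 562 (merge (leaf 5 434 530) (node 561 (merge (leaf 1 559 591) (leaf 1 560 593))))))) (merge (node 468 (merge (leaf 6 435 436) (node 500 (merge (leaf 6 467 595) (node 466 (merge (leaf 7 434 434) (node 501 (merge (leaf 0 465 465) (leaf 3 466 502))))))))) (node 435 (merge (leaf 4 435 532) (node 562 (merge (leaf 5 434 530) (node 561 (merge (leaf 1 559 591) (leaf 1 560 593)))))))))) (node 595 (merge (node 500 (merge (leaf 6 467 468) (node 627 (merge (leaf 6 499 532) (node 628 (merge (leaf 4 499 596) (leaf 4 531 660))))))) (merge (node 628 (merge (leaf 4 499 596) (node 627 (merge (leaf 4 531 660) (node 659 (merge (leaf 6 531 532) (node 562 (merge (leaf 7 530 530) (node 561 (merge (leaf 3 527 527) (leaf 1 559 591))))))))))) (merge (node 500 (merge (leaf 6 467 468) (node 627 (merge (leaf 6 499 532) (node 658 (merge (leaf 5 530 626) (node 659 (merge (leaf 5 562 690) (node 562 (merge (leaf 7 530 530) (node 561 (merge (leaf 1 559 591) (leaf 0 560 596))))))))))))) (merge (node 628 (merge (leaf 4 499 596) (node 627 (merge (leaf 4 531 660) (node 658 (merge (leaf 5 530 626) (node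 659 (merge (leaf 5 562 690) (node 562 (merge (leaf 7 530 530) (node 561 (merge (leaf 1 559 591) (leaf 1 560 593))))))))))))) (merge (node 500 (merge (leaf 6 467 468) (node 627 (merge (leaf 6 499 532) (node 660 (merge (leaf 4 531 628) (node 659 (merge (leaf 4 563 692) (node 562 (merge (leaf 7 530 530) (node 561 (merge (leaf 3 527 527) (leaf 1 559 591))))))))))))) (node 500 (merge (leaf 6 467 468) (node 596 (merge (leaf 4 499 628) (node 562 (merge (leaf 0 560 561) (node 597 (merge (leaf 3 562 598) (node 532 (merge (leaf 4 500 629) (node 501 (merge (leaf 6 468 469) (node 502 (merge (leaf 1 499 503) (leaf 1 498 530))))))))))))))))))))))))))))) (node 499 (merge (node 497 (merge (leaf 6 464 465) (node 527 (merge (leaf 1 495 498) (leaf 2 493 526))))) (node 564 (merge (node 467 (merge (leaf 4 467 596) (node 436 (merge (leaf 6 435 468) (node 435 (merge (leaf 6 403 404) (leaf 4 435 532))))))) (merge (node 593 (merge (leaf 4 496 625) (node 562 (merge (leaf 1 560 561) (node 467 (merge (leaf 4 467 596) (node 436 (merge (leaf 6 435 468) (node 435 (merge (leaf 6 403 404) (leaf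 5 434 530))))))))))) (merge (node 565 (merge (node 566 (merge (leaf 3 530 530) (node 599 (merge (leaf 0 563 598) (node 567 (merge (leaf 3 531 532) (leaf 0 564 600))))))) (merge (node 566 (merge (leaf 3 530 530) (node 534 (merge (leaf 2 531 535) (node 562 (merge (leaf 2 530 533) (node 561 (merge (leaf 1 559 591) (leaf 1 560 593))))))))) (merge (node 593 (merge (leaf 4 496 625) (node 562 (merge (leaf 1 560 561) (node 534 (merge (leaf 2 530 533) (node 566 (merge (leaf 2 531 535) (node 599 (merge (leaf 0 563 598) (node 567 (merge (leaf 3 531 532) (leaf 0 564 600))))))))))))) (node 467 (merge (node 436 (merge (leaf 6 435 468) (node 435 (merge (leaf 6 403 404) (leaf 4 435 532))))) (merge (node 435 (merge (leaf 4 435 532) (node 562 (merge (leaf 5 434 530) (node 561 (merge (leaf 1 559 591) (leaf 1 560 593))))))) (merge (node 435 (merge (leaf 4 435 532) (node 562 (merge (leaf 5 434 530) (node 561 (merge (leaf 1 559 591) (leaf 1 560 593))))))) (merge (node 436 (merge (leaf 6 435 468) (node 435 (merge (leaf 6 403 404) (node 562 (merge (leaf 5 434 530) (node 561 (merge (leaf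 1 559 591) (leaf 1 560 593))))))))) (node 468 (merge (leaf 6 435 436) (node 593 (merge (leaf 4 496 625) (node 562 (merge (leaf 1 560 561) (node 597 (merge (leaf 0 562 598) (node 533 (merge (leaf 2 530 534) (node 500 (merge (leaf 7 468 501) (leaf 4 468 532)))))))))))))))))))))) (node 565 (merge (node 566 (merge (leaf 3 530 530) (node 599 (merge (leaf 0 563 598) (node 567 (merge (leaf 3 531 532) (leaf 0 564 600))))))) (merge (node 566 (merge (leaf 3 530 530) (node 534 (merge (leaf 2 531 535) (node 562 (merge (leaf 2 530 533) (node 561 (merge (leaf 1 559 591) (leaf 1 560 593))))))))) (node 628 (merge (node 596 (merge (leaf 7 499 532) (leaf 7 531 660))) (merge (node 596 (merge (leaf 7 499 532) (node 593 (merge (leaf 4 496 625) (node 562 (merge (leaf 1 560 561) (node 533 (merge (leaf 2 530 534) (node 501 (merge (leaf 5 468 469) (leaf 5 500 597))))))))))) (merge (node 660 (merge (leaf 7 531 596) (node 593 (merge (leaf 4 496 625) (node 562 (merge (leaf 1 560 561) (node 597 (merge (leaf 0 562 598) (node 533 (merge (leaf 2 530 534) (leaf 5 532 629))))))))))) (node 593 (merge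 (leaf 4 496 625) (node 562 (merge (leaf 1 560 561) (node 597 (merge (leaf 0 562 598) (node 533 (merge (leaf 2 530 534) (node 629 (merge (leaf 5 532 660) (node 661 (merge (leaf 7 532 532) (node 662 (merge (leaf 4 533 630) (leaf 4 565 694)))))))))))))))))))))))))))))))))))))))) nP_101 cP_101 13 (by decide +kernel)
def nP_102 : ℕ := 0x10000000120000001200000010000000000000000000000000000000000000000000000000000000000000000000000000000000000000000000000000000000000000000000000000000
def cP_102 : ℕ := 0x40000005c0000007f0000007f000001fe800000fe100000fcc00000fe0000003e0000001c000000140000000000000000000000000000000000000000000000000000000000000000000000000000000000000000000000000000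
theorem lP_102 : S nP_102 cP_102 14 := S_of_chk [(nP_101, cP_101, 13)] ⟨lP_101, trivial⟩ (node 563 (merge (node 593 (merge (leaf 4 496 625) (node 562 (merge (node 591 (merge (leaf 1 559 561) (leaf 2 559 594))) (merge (node 561 (merge (leaf 3 527 527) (leaf 1 560 564))) (node 594 (merge (leaf 2 559 591) (node 564 (merge (leaf 1 561 565) (leaf 2 560 595)))))))))) (merge (node 497 (merge (leaf 6 464 465) (node 527 (merge (leaf 2 493 526) (node 499 (merge (leaf 1 495 498) (node 562 (merge (leaf 3 527 561) (node 593 (merge (leaf 4 496 625) (node 594 (merge (leaf 2 559 591) (node 531 (merge (leaf 5 466 467) (node 626 (merge (leaf 6 498 530) (leaf 6 530 658))))))))))))))))) (merge (node 593 (merge (leaf 4 496 625) (node 562 (merge (node 591 (merge (leaf 1 559 561) (leaf 2 559 594))) (merge (node 561 (merge (leaf 1 560 564) (leaf 1 559 591))) (merge (node 564 (merge (leaf 1 560 561) (node 594 (merge (leaf 1 561 565) (leaf 2 560 595))))) (node 594 (merge (leaf 2 559 591) (node 595 (merge (leaf 2 560 564) (node 627 (merge (leaf 0 592 628) (node 659 (merge (leaf 7 530 530)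 (leaf 7 562 691))))))))))))))) (merge (node 595 (merge (node 593 (merge (leaf 4 496 625) (node 594 (merge (leaf 2 560 564) (node 628 (merge (leaf 0 592 627) (node 596 (merge (leaf 3 560 561) (leaf 0 593 629))))))))) (merge (node 497 (merge (leaf 6 464 465) (node 527 (merge (leaf 2 493 526) (node 498 (merge (leaf 1 495 499) (node 562 (merge (leaf 3 527 561) (node 530 (merge (leaf 4 466 466) (node 627 (merge (leaf 7 498 531) (leaf 7 530 659))))))))))))) (merge (node 497 (merge (leaf 6 464 465) (node 527 (merge (leaf 2 493 526) (node 499 (merge (leaf 1 495 498) (node 593 (merge (leaf 4 496 625) (node 594 (merge (leaf 2 560 564) (node 627 (merge (leaf 0 592 628) (node 531 (merge (leaf 5 498 626) (node 500 (merge (leaf 6 467 468) (leaf 6 499 532))))))))))))))))) (node 593 (merge (leaf 4 496 625) (node 594 (merge (leaf 2 560 564) (node 561 (merge (leaf 3 560 596) (node 527 (merge (leaf 0 525 526) (leaf 3 527 562))))))))))))) (merge (node 562 (merge (node 527 (merge (leaf 3 527 561) (node 526 (merge (leaf 2 493 497) (leaf 1 524 556))))) (merge (node 561 (merge (leaf 1 559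 591) (node 596 (merge (leaf 0 560 595) (node 564 (merge (leaf 0 561 597) (node 532 (merge (leaf 2 528 531) (leaf 2 529 533))))))))) (node 499 (merge (node 497 (merge (leaf 6 464 465) (node 527 (merge (leaf 1 495 498) (leaf 2 493 526))))) (merge (node 531 (merge (node 467 (merge (leaf 5 466 594) (node 466 (merge (leaf 7 434 434) (node 595 (merge (leaf 7 466 498) (node 596 (merge (leaf 4 467 564) (leaf 4 499 628))))))))) (merge (node 467 (merge (leaf 5 466 594) (node 468 (merge (leaf 6 435 436) (node 595 (merge (leaf 6 467 500) (node 596 (merge (leaf 4 467 564) (leaf 4 499 628))))))))) (merge (node 594 (merge (leaf 5 466 467) (node 626 (merge (leaf 6 498 530) (leaf 5 498 595))))) (merge (node 467 (merge (node 466 (merge (leaf 7 434 434) (node 595 (merge (leaf 7 466 498) (node 596 (merge (leaf 4 467 564) (leaf 4 499 628))))))) (merge (node 468 (merge (leaf 6 435 436) (node 595 (merge (leaf 6 467 500) (node 596 (merge (leaf 4 467 564) (leaf 4 499 628))))))) (merge (node 466 (merge (leaf 7 434 434) (node 595 (merge (leaf 7 466 498) (node 500 (merge (leaf 6 467 468) (node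 627 (merge (leaf 6 499 532) (node 659 (merge (leaf 7 530 530) (node 658 (merge (leaf 5 530 626) (leaf 5 562 690))))))))))))) (node 436 (merge (leaf 6 435 468) (node 435 (merge (leaf 6 403 404) (leaf 5 434 530))))))))) (merge (node 467 (merge (leaf 5 466 594) (node 436 (merge (leaf 6 435 468) (node 435 (merge (leaf 6 403 404) (leaf 5 434 530))))))) (node 595 (merge (node 498 (merge (leaf 7 466 466) (node 627 (merge (leaf 7 498 530) (node 626 (merge (leaf 5 498 594) (leaf 5 530 658))))))) (merge (node 500 (merge (leaf 6 467 468) (node 627 (merge (leaf 6 499 532) (node 628 (merge (leaf 4 499 596) (leaf 4 531 660))))))) (node 500 (merge (leaf 6 467 468) (node 596 (merge (leaf 4 499 628) (node 597 (merge (leaf 3 562 598) (node 594 (merge (leaf 5 498 626) (node 629 (merge (leaf 0 594 630) (node 565 (merge (leaf 2 562 566) (node 532 (merge (leaf 7 500 533) (leaf 4 500 564)))))))))))))))))))))))) (node 531 (merge (node 467 (merge (leaf 5 466 594) (node 468 (merge (leaf 6 435 436) (node 595 (merge (leaf 6 467 500) (node 596 (merge (leaf 4 467 564) (leaf 4 499 628)))))))))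 (merge (node 467 (merge (leaf 5 466 594) (node 434 (merge (leaf 7 434 466) (node 435 (merge (leaf 7 402 402) (leaf 5 434 530))))))) (merge (node 467 (merge (leaf 5 466 594) (node 564 (merge (leaf 4 467 596) (node 435 (merge (leaf 5 434 530) (leaf 4 435 532))))))) (merge (node 497 (merge (leaf 6 464 465) (node 467 (merge (leaf 5 466 594) (node 468 (merge (leaf 6 435 436) (node 595 (merge (leaf 6 467 500) (node 628 (merge (leaf 4 499 596) (node 627 (merge (leaf 4 531 660) (node 530 (merge (leaf 5 434 435) (leaf 7 530 659))))))))))))))) (merge (node 596 (merge (node 564 (merge (leaf 4 467 467) (node 628 (merge (leaf 7 499 532) (leaf 7 531 660))))) (merge (node 467 (merge (leaf 4 467 564) (node 436 (merge (leaf 6 435 468) (node 435 (merge (leaf 6 403 404) (node 434 (merge (leaf 7 402 402) (leaf 7 434 466))))))))) (node 595 (merge (leaf 4 499 628) (node 500 (merge (leaf 6 467 468) (node 627 (merge (leaf 6 499 532) (node 659 (merge (leaf 7 530 530) (node 658 (merge (leaf 5 530 626) (leaf 5 562 690)))))))))))))) (node 526 (merge (node 497 (merge (leaf 6 464 465) (leaf 2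 493 527))) (node 595 (merge (node 628 (merge (leaf 4 499 596) (node 627 (merge (leaf 4 531 660) (node 659 (merge (leaf 7 530 530) (node 594 (merge (leaf 5 498 626) (leaf 7 562 691))))))))) (merge (node 500 (merge (leaf 6 467 468) (node 627 (merge (leaf 6 499 532) (node 659 (merge (leaf 7 530 530) (node 691 (merge (leaf 7 562 594) (node 596 (merge (leaf 6 563 564) (leaf 4 499 628))))))))))) (merge (node 500 (merge (leaf 6 467 468) (node 627 (merge (leaf 6 499 532) (node 659 (merge (leaf 7 530 530) (node 658 (merge (leaf 5 530 626) (leaf 5 562 690))))))))) (node 500 (merge (leaf 6 467 468) (node 596 (merge (leaf 4 499 628) (node 597 (merge (leaf 3 562 598) (node 594 (merge (leaf 5 498 626) (node 629 (merge (leaf 0 594 630) (node 565 (merge (leaf 2 562 566) (node 532 (merge (leaf 7 500 533) (leaf 4 500 564))))))))))))))))))))))))))))))))) (merge (node 595 (merge (node 593 (merge (leaf 4 496 625) (node 594 (merge (leaf 2 560 564) (node 628 (merge (leaf 0 592 627) (node 596 (merge (leaf 3 560 561) (leaf 0 593 629))))))))) (merge (node 593 (merge (leaf 4 496 625) (node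 594 (merge (leaf 2 560 564) (node 627 (merge (leaf 0 592 628) (node 626 (merge (leaf 0 591 591) (node 658 (merge (leaf 5 530 531) (leaf 6 562 690))))))))))) (merge (node 497 (merge (leaf 6 464 465) (node 527 (merge (leaf 2 493 526) (node 499 (merge (leaf 1 495 498) (node 593 (merge (leaf 4 496 625) (node 594 (merge (leaf 2 560 564) (node 596 (merge (leaf 3 560 561) (node 531 (merge (leaf 5 498 626) (leaf 4 499 628))))))))))))))) (merge (node 593 (merge (leaf 4 496 625) (node 499 (merge (node 497 (merge (leaf 6 464 465) (node 527 (merge (leaf 1 495 498) (leaf 2 493 526))))) (node 531 (merge (node 596 (merge (leaf 4 499 628) (node 594 (merge (leaf 3 560 561) (leaf 5 498 626))))) (merge (node 500 (merge (leaf 6 467 468) (node 627 (merge (leaf 6 499 532) (node 626 (merge (leaf 5 498 594) (leaf 5 530 658))))))) (node 500 (merge (leaf 6 467 468) (node 627 (merge (leaf 6 499 532) (node 628 (merge (leaf 4 499 596) (leaf 4 531 660)))))))))))))) (merge (node 499 (merge (node 497 (merge (leaf 6 464 465) (node 527 (merge (leaf 1 495 498) (leaf 2 493 526))))) (merge (node 531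 (merge (node 498 (merge (leaf 7 466 466) (node 627 (merge (leaf 7 498 530) (node 626 (merge (leaf 5 498 594) (leaf 5 530 658))))))) (merge (node 500 (merge (leaf 6 467 468) (node 627 (merge (leaf 6 499 532) (node 628 (merge (leaf 4 499 596) (leaf 4 531 660))))))) (node 468 (merge (leaf 6 467 500) (node 467 (merge (leaf 6 435 436) (node 466 (merge (leaf 7 434 434) (leaf 7 466 498)))))))))) (node 531 (merge (node 500 (merge (leaf 6 467 468) (node 627 (merge (leaf 6 499 532) (node 628 (merge (leaf 4 499 596) (leaf 4 531 660))))))) (merge (node 500 (merge (leaf 6 467 468) (node 627 (merge (leaf 6 499 532) (node 626 (merge (leaf 5 498 594) (leaf 5 530 658))))))) (merge (node 596 (merge (leaf 4 499 628) (node 467 (merge (leaf 4 467 564) (node 436 (merge (leaf 6 435 468) (node 435 (merge (leaf 6 403 404) (node 434 (merge (leaf 7 402 402) (leaf 7 434 466))))))))))) (node 497 (merge (leaf 6 464 465) (node 626 (merge (leaf 5 498 594) (node 627 (merge (leaf 5 530 658) (node 532 (merge (leaf 6 499 500) (node 659 (merge (leaf 6 531 564) (node 660 (merge (leaf 4 531 628) (leaf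 4 563 692)))))))))))))))))))) (merge (node 627 (merge (node 625 (merge (leaf 4 496 593) (node 624 (merge (leaf 4 528 657) (node 626 (merge (leaf 3 591 591) (leaf 2 592 596))))))) (node 497 (merge (leaf 6 464 465) (node 527 (merge (leaf 2 493 526) (node 498 (merge (leaf 1 495 499) (node 531 (merge (leaf 7 498 530) (node 532 (merge (leaf 6 499 500) (node 659 (merge (leaf 6 531 564) (node 660 (merge (leaf 4 531 628) (leaf 4 563 692))))))))))))))))) (node 627 (merge (node 625 (merge (leaf 4 496 593) (node 624 (merge (leaf 4 528 657) (node 626 (merge (leaf 3 591 591) (leaf 2 592 596))))))) (merge (node 497 (merge (leaf 6 464 465) (node 527 (merge (leaf 2 493 526) (node 498 (merge (leaf 1 495 499) (node 531 (merge (leaf 7 498 530) (node 532 (merge (leaf 6 499 500) (node 659 (merge (leaf 6 531 564) (node 658 (merge (leaf 5 530 626) (leaf 5 562 690))))))))))))))) (node 593 (merge (leaf 4 496 625) (node 564 (merge (leaf 2 560 594) (node 659 (merge (leaf 6 531 532) (node 691 (merge (leaf 6 563 596) (node 690 (merge (leaf 5 562 658) (leaf 5 594 722))))))))))))))))))))) (merge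 (node 595 (merge (node 593 (merge (leaf 4 496 625) (node 594 (merge (leaf 2 560 564) (node 627 (merge (leaf 0 592 628) (node 591 (merge (leaf 2 559 562) (leaf 0 591 626))))))))) (merge (node 593 (merge (leaf 4 496 625) (node 497 (merge (leaf 6 464 465) (node 527 (merge (leaf 2 493 526) (node 499 (merge (leaf 1 495 498) (node 594 (merge (leaf 2 560 564) (node 628 (merge (leaf 0 592 627) (node 596 (merge (leaf 4 499 531) (leaf 0 593 629))))))))))))))) (merge (node 497 (merge (leaf 6 464 465) (node 527 (merge (leaf 2 493 526) (node 499 (merge (leaf 1 495 498) (node 593 (merge (leaf 4 496 625) (node 594 (merge (leaf 2 560 564) (node 562 (merge (leaf 2 559 591) (node 531 (merge (leaf 5 466 467) (leaf 5 498 626))))))))))))))) (merge (node 627 (merge (node 625 (merge (leaf 4 496 593) (node 624 (merge (leaf 4 528 657) (node 626 (merge (leaf 3 591 591) (leaf 2 592 596))))))) (node 497 (merge (leaf 6 464 465) (node 527 (merge (leaf 2 493 526) (node 498 (merge (leaf 1 495 499) (node 531 (merge (leaf 7 498 530) (node 532 (merge (leaf 6 499 500) (node 659 (merge (leaf 6 531 564)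 (node 660 (merge (leaf 4 531 628) (leaf 4 563 692))))))))))))))))) (merge (node 627 (merge (node 593 (merge (leaf 4 496 625) (node 628 (merge (leaf 0 592 594) (node 531 (merge (leaf 4 531 660) (node 530 (merge (leaf 7 498 498) (node 659 (merge (leaf 7 530 562) (node 658 (merge (leaf 5 530 626) (leaf 5 562 690))))))))))))) (merge (node 593 (merge (leaf 4 496 625) (node 628 (merge (leaf 0 592 594) (node 531 (merge (leaf 4 531 660) (node 500 (merge (leaf 6 499 532) (node 499 (merge (leaf 6 467 468) (leaf 4 499 596))))))))))) (merge (node 497 (merge (leaf 6 464 465) (node 527 (merge (leaf 2 493 526) (node 498 (merge (leaf 1 495 499) (node 530 (merge (leaf 7 498 531) (node 562 (merge (leaf 4 498 594) (leaf 7 530 659))))))))))) (merge (node 497 (merge (leaf 6 464 465) (node 527 (merge (leaf 2 493 526) (node 498 (merge (leaf 1 495 499) (node 531 (merge (leaf 7 498 530) (node 660 (merge (leaf 4 531 628) (node 659 (merge (leaf 4 563 692) (node 658 (merge (leaf 5 530 626) (leaf 5 562 690))))))))))))))) (node 625 (merge (leaf 4 496 593) (node 624 (merge (leaf 4 528 657) (node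 626 (merge (leaf 2 592 596) (node 659 (merge (leaf 0 624 660) (node 562 (merge (leaf 7 530 530) (node 691 (merge (leaf 7 562 594) (node 690 (merge (leaf 5 562 658) (leaf 5 594 722)))))))))))))))))))) (node 499 (merge (node 497 (merge (leaf 6 464 465) (node 527 (merge (leaf 1 495 498) (leaf 2 493 526))))) (merge (node 531 (merge (node 498 (merge (leaf 7 466 466) (node 627 (merge (leaf 7 498 530) (node 626 (merge (leaf 5 498 594) (leaf 5 530 658))))))) (merge (node 500 (merge (leaf 6 467 468) (node 627 (merge (leaf 6 499 532) (node 628 (merge (leaf 4 499 596) (leaf 4 531 660))))))) (node 468 (merge (leaf 6 467 500) (node 467 (merge (leaf 6 435 436) (node 466 (merge (leaf 7 434 434) (leaf 7 466 498)))))))))) (node 531 (merge (node 500 (merge (leaf 6 467 468) (node 627 (merge (leaf 6 499 532) (node 628 (merge (leaf 4 499 596) (leaf 4 531 660))))))) (merge (node 500 (merge (leaf 6 467 468) (node 627 (merge (leaf 6 499 532) (node 626 (merge (leaf 5 498 594) (leaf 5 530 658))))))) (merge (node 596 (merge (leaf 4 499 628) (node 467 (merge (leaf 4 467 564) (node 594 (merge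 (leaf 5 466 562) (leaf 5 498 626))))))) (node 497 (merge (leaf 6 464 465) (node 594 (merge (leaf 5 498 626) (node 467 (merge (leaf 5 466 562) (node 564 (merge (leaf 4 467 596) (node 532 (merge (leaf 4 435 435) (node 627 (merge (leaf 6 499 500) (leaf 6 531 659)))))))))))))))))))))))))) (hyp 0))))))))) nP_102 cP_102 14 (by decide +kernel)
def nP_103 : ℕ := 0x10000000120000001000000000000000000000000000000000000000000000000000000000000000000000000000000000000000000000000000000000000000000000000000000000000
def cP_103 : ℕ := 0xa0000004f000005ef000007f7c00007f7c0001fefe0000fe5e0000fcfe0000ff7c00003ffc00001ff8000016f000000000000000000000000000000000000000000000000000000000000000000000000000000000000000000000000000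
theorem lP_103 : S nP_103 cP_103 16 := S_of_chk [(nP_100, cP_100, 15), (nP_102, cP_102, 14)] ⟨lP_100, lP_102, trivial⟩ (node 525 (merge (node 590 (merge (node 589 (merge (node 591 (merge (leaf 3 556 556) (leaf 2 557 561))) (node 622 (merge (leaf 4 493 493) (node 654 (merge (leaf 4 525 621) (leaf 7 557 686))))))) (merge (node 591 (merge (node 589 (merge (leaf 3 556 556) (leaf 2 557 561))) (node 593 (merge (leaf 3 557 558) (node 625 (merge (leaf 4 496 496) (leaf 0 590 626))))))) (merge (node 622 (merge (node 558 (merge (leaf 7 525 654) (node 493 (merge (leaf 4 461 461) (leaf 7 493 526))))) (merge (node 589 (merge (leaf 4 493 493) (node 654 (merge (leaf 4 525 621) (leaf 7 557 686))))) (merge (node 493 (merge (leaf 4 493 589) (node 558 (merge (leaf 4 461 461) (leaf 7 493 526))))) (node 654 (merge (leaf 7 525 558) (node 686 (merge (leaf 7 557 589) (node 719 (merge (leaf 4 590 687) (node 718 (merge (leaf 4 622 751) (node 717 (merge (leaf 5 589 685) (leaf 5 621 749))))))))))))))) (node 593 (merge (node 625 (merge (leaf 4 496 496) (node 657 (merge (leaf 4 528 624) (leaf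 7 560 689))))) (node 558 (merge (leaf 3 557 591) (node 622 (merge (leaf 7 525 654) (node 526 (merge (leaf 7 493 493) (node 527 (merge (leaf 1 524 556) (leaf 0 525 561))))))))))))))) (merge (node 526 (merge (node 527 (merge (leaf 1 524 556) (leaf 0 525 561))) (merge (node 462 (merge (node 494 (merge (leaf 5 429 430) (node 589 (merge (leaf 5 461 558) (leaf 6 493 621))))) (merge (node 527 (merge (leaf 0 525 561) (node 493 (merge (leaf 3 492 492) (node 461 (merge (leaf 6 429 430) (node 428 (merge (leaf 7 428 460) (node 429 (merge (leaf 7 396 396) (leaf 4 429 558))))))))))) (node 527 (merge (leaf 0 525 561) (node 493 (merge (leaf 3 492 492) (node 589 (merge (leaf 6 461 494) (node 622 (merge (leaf 4 493 590) (node 621 (merge (leaf 4 525 654) (node 620 (merge (leaf 5 492 588) (leaf 5 524 652)))))))))))))))) (merge (node 589 (merge (node 621 (merge (leaf 6 493 494) (node 653 (merge (leaf 6 525 558) (node 654 (merge (leaf 4 525 622) (leaf 4 557 686))))))) (merge (node 621 (merge (leaf 6 493 494) (node 524 (merge (leaf 7 492 492) (node 653 (merge (leaf 7 524 556) (node 652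 (merge (leaf 5 524 620) (leaf 5 556 684))))))))) (node 527 (merge (leaf 1 524 556) (node 493 (merge (leaf 3 492 492) (node 590 (merge (leaf 4 493 622) (node 461 (merge (leaf 4 461 558) (node 430 (merge (leaf 6 429 462) (node 429 (merge (leaf 6 397 398) (node 428 (merge (leaf 7 396 396) (leaf 7 428 460)))))))))))))))))) (node 589 (merge (node 621 (merge (leaf 6 493 494) (node 653 (merge (leaf 6 525 558) (node 654 (merge (leaf 4 525 622) (leaf 4 557 686))))))) (merge (node 621 (merge (leaf 6 493 494) (node 653 (merge (leaf 6 525 558) (node 524 (merge (leaf 7 492 492) (leaf 7 524 556))))))) (merge (node 590 (merge (node 591 (merge (leaf 3 556 556) (leaf 2 557 561))) (node 622 (merge (leaf 4 493 493) (node 654 (merge (leaf 4 525 621) (leaf 7 557 686))))))) (node 590 (merge (node 591 (merge (leaf 3 556 556) (leaf 2 557 561))) (node 493 (merge (leaf 4 493 622) (node 492 (merge (leaf 7 460 460) (node 490 (merge (leaf 0 490 491) (node 558 (merge (leaf 4 461 461) (node 588 (merge (leaf 5 492 620) (node 587 (merge (leaf 2 554 586) (node 619 (merge (leaf 1 586 618) (node 555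 (merge (leaf 3 554 554) (node 523 (merge (leaf 7 490 522) (leaf 6 491 524))))))))))))))))))))))))))))) (merge (node 593 (merge (node 625 (merge (leaf 4 496 496) (node 657 (merge (leaf 4 528 624) (leaf 7 560 689))))) (merge (node 590 (merge (node 591 (merge (leaf 3 557 558) (node 561 (merge (leaf 2 558 562) (leaf 2 557 589))))) (merge (node 558 (merge (leaf 3 557 591) (node 493 (merge (leaf 4 461 461) (node 526 (merge (leaf 7 493 622) (node 527 (merge (leaf 3 492 492) (leaf 1 524 556))))))))) (merge (node 591 (merge (node 589 (merge (leaf 3 556 556) (leaf 2 557 561))) (merge (node 625 (merge (leaf 0 590 626) (node 561 (merge (leaf 2 558 562) (leaf 7 528 657))))) (node 625 (merge (leaf 0 590 626) (node 589 (merge (leaf 3 556 556) (leaf 0 589 624)))))))) (node 526 (merge (node 527 (merge (leaf 1 524 556) (leaf 0 525 561))) (merge (node 527 (merge (leaf 0 525 561) (node 493 (merge (leaf 3 492 492) (node 622 (merge (leaf 7 493 558) (leaf 4 493 589))))))) (node 493 (merge (node 558 (merge (leaf 4 461 461) (leaf 7 493 622))) (merge (node 461 (merge (leaf 4 461 558) (node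 460 (merge (leaf 7 428 428) (node 589 (merge (leaf 7 460 492) (node 588 (merge (leaf 5 460 556) (leaf 5 492 620))))))))) (node 589 (merge (leaf 4 493 622) (node 494 (merge (leaf 6 461 462) (node 492 (merge (leaf 7 460 460) (node 491 (merge (leaf 0 490 490) (node 523 (merge (leaf 1 490 522) (node 459 (merge (leaf 3 458 458) (node 588 (merge (leaf 5 492 620) (node 556 (merge (leaf 7 459 524) (leaf 4 459 555))))))))))))))))))))))))))) (node 590 (merge (node 591 (merge (leaf 3 557 558) (node 561 (merge (leaf 2 558 562) (leaf 2 557 589))))) (merge (node 558 (merge (leaf 3 557 591) (node 493 (merge (leaf 4 461 461) (node 526 (merge (leaf 7 493 622) (node 527 (merge (leaf 3 492 492) (leaf 1 524 556))))))))) (merge (node 589 (merge (node 591 (merge (leaf 3 556 556) (leaf 2 557 561))) (merge (node 493 (merge (leaf 4 493 622) (node 462 (merge (leaf 6 461 494) (node 461 (merge (leaf 6 429 430) (node 588 (merge (leaf 5 460 556) (leaf 5 492 620))))))))) (node 561 (merge (leaf 2 557 591) (node 464 (merge (leaf 4 464 496) (node 493 (merge (leaf 4 493 622) (node 462 (merge (leaf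 6 461 494) (node 461 (merge (leaf 6 429 430) (node 492 (merge (leaf 7 460 460) (leaf 1 460 463)))))))))))))))) (node 526 (merge (node 527 (merge (leaf 1 524 556) (leaf 0 525 561))) (merge (node 527 (merge (leaf 0 525 561) (node 493 (merge (leaf 3 492 492) (node 622 (merge (leaf 7 493 558) (leaf 4 493 589))))))) (node 493 (merge (node 558 (merge (leaf 4 461 461) (leaf 7 493 622))) (merge (node 461 (merge (leaf 4 461 558) (node 460 (merge (leaf 7 428 428) (node 589 (merge (leaf 7 460 492) (node 588 (merge (leaf 5 460 556) (leaf 5 492 620))))))))) (node 589 (merge (leaf 4 493 622) (node 494 (merge (leaf 6 461 462) (node 492 (merge (leaf 7 460 460) (node 491 (merge (leaf 0 490 490) (node 523 (merge (leaf 1 490 522) (node 459 (merge (leaf 3 458 458) (node 588 (merge (leaf 5 492 620) (node 556 (merge (leaf 7 459 524) (leaf 4 459 555)))))))))))))))))))))))))))))) (merge (node 589 (merge (node 590 (merge (node 591 (merge (leaf 3 556 556) (leaf 2 557 561))) (node 622 (merge (leaf 4 493 493) (node 654 (merge (leaf 4 525 621) (leaf 7 557 686))))))) (merge (node 590 (merge (node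 591 (merge (leaf 3 556 556) (leaf 2 557 561))) (merge (node 493 (merge (leaf 4 493 622) (node 461 (merge (leaf 4 461 558) (node 588 (merge (leaf 5 460 556) (leaf 5 492 620))))))) (node 591 (merge (leaf 2 557 561) (node 558 (merge (leaf 3 557 593) (node 493 (merge (leaf 4 461 461) (leaf 4 493 622)))))))))) (merge (node 657 (merge (node 625 (merge (leaf 4 528 624) (node 593 (merge (leaf 4 496 496) (leaf 7 528 561))))) (node 492 (merge (node 493 (merge (leaf 7 460 460) (node 462 (merge (leaf 6 461 494) (node 461 (merge (leaf 6 429 430) (node 588 (merge (leaf 5 460 556) (leaf 5 492 620))))))))) (merge (node 621 (merge (leaf 7 492 524) (node 654 (merge (leaf 4 525 622) (node 653 (merge (leaf 4 557 686) (node 652 (merge (leaf 5 524 620) (leaf 5 556 684))))))))) (node 556 (merge (node 460 (merge (leaf 7 460 493) (leaf 4 460 524))) (merge (node 621 (merge (leaf 7 492 524) (node 654 (merge (leaf 4 525 622) (node 653 (merge (leaf 4 557 686) (node 685 (merge (leaf 7 556 588) (node 684 (merge (leaf 5 556 652) (leaf 5 588 716))))))))))) (node 493 (merge (leaf 7 460 460) (node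 462 (merge (leaf 6 461 494) (node 461 (merge (leaf 6 429 430) (leaf 5 460 588))))))))))))))) (merge (node 493 (merge (node 492 (merge (leaf 7 460 460) (node 621 (merge (leaf 7 492 524) (node 620 (merge (leaf 5 492 588) (leaf 5 524 652))))))) (merge (node 462 (merge (leaf 6 461 494) (node 461 (merge (leaf 6 429 430) (node 590 (merge (leaf 4 461 558) (node 556 (merge (leaf 5 460 588) (leaf 3 556 591))))))))) (merge (node 462 (merge (leaf 6 461 494) (node 461 (merge (leaf 6 429 430) (node 492 (merge (leaf 7 460 460) (node 621 (merge (leaf 7 492 524) (node 590 (merge (leaf 4 461 558) (node 620 (merge (leaf 1 588 591) (leaf 5 524 652))))))))))))) (node 588 (merge (leaf 5 492 620) (node 461 (merge (leaf 5 460 556) (node 590 (merge (leaf 4 461 558) (node 591 (merge (leaf 2 557 561) (node 625 (merge (leaf 0 589 624) (node 593 (merge (leaf 4 496 496) (leaf 0 590 626))))))))))))))))) (merge (node 590 (merge (node 622 (merge (leaf 4 493 493) (node 654 (merge (leaf 4 525 621) (leaf 7 557 686))))) (merge (node 591 (merge (leaf 2 557 561) (node 558 (merge (leaf 3 557 593) (node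 493 (merge (leaf 4 461 461) (leaf 4 493 622))))))) (merge (node 591 (merge (leaf 2 557 561) (node 621 (merge (leaf 1 588 620) (node 593 (merge (leaf 3 557 558) (leaf 1 589 622))))))) (node 591 (merge (leaf 2 557 561) (node 620 (merge (leaf 1 588 621) (node 558 (merge (leaf 3 557 593) (node 493 (merge (leaf 4 461 461) (leaf 5 492 588))))))))))))) (merge (node 590 (merge (node 591 (merge (leaf 3 556 556) (leaf 2 557 561))) (merge (node 591 (merge (leaf 2 557 561) (node 621 (merge (leaf 1 588 620) (node 593 (merge (leaf 3 557 558) (leaf 1 589 622))))))) (node 621 (merge (node 524 (merge (leaf 7 492 492) (node 653 (merge (leaf 7 524 556) (node 654 (merge (leaf 4 525 622) (leaf 4 557 686))))))) (merge (node 524 (merge (leaf 7 492 492) (node 653 (merge (leaf 7 524 556) (node 652 (merge (leaf 5 524 620) (leaf 5 556 684))))))) (merge (node 654 (merge (leaf 4 525 622) (node 653 (merge (leaf 4 557 686) (node 652 (merge (leaf 5 524 620) (leaf 5 556 684))))))) (node 524 (merge (leaf 7 492 492) (node 622 (merge (leaf 4 525 654) (node 620 (merge (leaf 5 524 652) (node 619 (merge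 (leaf 2 586 618) (node 651 (merge (leaf 1 618 650) (node 587 (merge (leaf 3 586 586) (node 556 (merge (leaf 6 523 555) (leaf 5 523 588)))))))))))))))))))))) (node 590 (merge (node 622 (merge (leaf 4 493 493) (node 654 (merge (leaf 4 525 621) (leaf 7 557 686))))) (merge (node 493 (merge (leaf 4 493 622) (node 461 (merge (leaf 4 461 558) (node 588 (merge (leaf 5 460 556) (leaf 5 492 620))))))) (merge (node 493 (merge (node 461 (merge (leaf 4 461 558) (node 588 (merge (leaf 5 460 556) (leaf 5 492 620))))) (merge (node 492 (merge (leaf 7 460 460) (node 621 (merge (leaf 7 492 524) (node 620 (merge (leaf 5 492 588) (leaf 5 524 652))))))) (node 461 (merge (leaf 4 461 558) (node 430 (merge (leaf 6 429 462) (node 429 (merge (leaf 6 397 398) (node 428 (merge (leaf 7 396 396) (leaf 7 428 460)))))))))))) (node 621 (merge (node 524 (merge (leaf 7 492 492) (node 653 (merge (leaf 7 524 556) (node 654 (merge (leaf 4 525 622) (leaf 4 557 686))))))) (merge (node 524 (merge (leaf 7 492 492) (node 653 (merge (leaf 7 524 556) (node 652 (merge (leaf 5 524 620) (leaf 5 556 684))))))) (merge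 (node 654 (merge (leaf 4 525 622) (node 653 (merge (leaf 4 557 686) (node 652 (merge (leaf 5 524 620) (leaf 5 556 684))))))) (node 524 (merge (leaf 7 492 492) (node 622 (merge (leaf 4 525 654) (node 620 (merge (leaf 5 524 652) (node 619 (merge (leaf 2 586 618) (node 651 (merge (leaf 1 618 650) (node 587 (merge (leaf 3 586 586) (node 556 (merge (leaf 6 523 555) (leaf 5 523 588)))))))))))))))))))))))))))))) (merge (node 590 (merge (node 558 (merge (node 622 (merge (leaf 7 525 654) (node 493 (merge (leaf 4 461 461) (leaf 7 493 526))))) (node 593 (merge (leaf 3 557 591) (node 625 (merge (leaf 4 496 496) (node 657 (merge (leaf 4 528 624) (leaf 7 560 689))))))))) (merge (node 593 (merge (node 625 (merge (leaf 4 496 496) (node 657 (merge (leaf 4 528 624) (leaf 7 560 689))))) (node 591 (merge (leaf 3 557 558) (node 621 (merge (leaf 1 589 622) (node 589 (merge (leaf 3 556 556) (leaf 1 588 620))))))))) (merge (node 622 (merge (node 558 (merge (leaf 7 525 654) (node 493 (merge (leaf 4 461 461) (leaf 7 493 526))))) (merge (node 589 (merge (leaf 4 493 493) (node 654 (merge (leaf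 4 525 621) (leaf 7 557 686))))) (merge (node 493 (merge (leaf 4 493 589) (node 558 (merge (leaf 4 461 461) (leaf 7 493 526))))) (node 654 (merge (leaf 7 525 558) (node 686 (merge (leaf 7 557 589) (node 719 (merge (leaf 4 590 687) (node 718 (merge (leaf 4 622 751) (node 717 (merge (leaf 5 589 685) (leaf 5 621 749))))))))))))))) (merge (node 589 (merge (node 622 (merge (leaf 4 493 493) (node 654 (merge (leaf 4 525 621) (leaf 7 557 686))))) (merge (node 556 (merge (leaf 3 556 591) (node 493 (merge (leaf 4 493 622) (node 588 (merge (leaf 5 460 461) (leaf 5 492 620))))))) (node 591 (merge (leaf 3 556 556) (node 625 (merge (leaf 0 589 624) (node 621 (merge (leaf 1 588 620) (node 526 (merge (leaf 6 493 494) (node 496 (merge (leaf 4 496 593) (node 497 (merge (leaf 6 464 465) (leaf 2 493 527)))))))))))))))) (node 591 (merge (node 593 (merge (leaf 3 557 558) (node 625 (merge (leaf 4 496 496) (leaf 0 590 626))))) (merge (node 589 (merge (leaf 3 556 556) (node 625 (merge (leaf 0 589 624) (node 621 (merge (leaf 1 588 620) (node 526 (merge (leaf 6 493 494) (node 496 (merge (leaf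 4 496 593) (node 497 (merge (leaf 6 464 465) (leaf 2 493 527))))))))))))) (node 589 (merge (leaf 3 556 556) (node 621 (merge (leaf 1 588 620) (node 526 (merge (leaf 6 493 494) (node 653 (merge (leaf 6 525 558) (node 686 (merge (leaf 4 557 654) (node 685 (merge (leaf 4 589 718) (node 684 (merge (leaf 5 556 652) (leaf 5 588 716))))))))))))))))))))))) (merge (node 593 (merge (node 625 (merge (leaf 4 496 496) (node 657 (merge (leaf 4 528 624) (leaf 7 560 689))))) (merge (node 590 (merge (node 591 (merge (leaf 3 557 558) (node 625 (merge (leaf 0 590 626) (node 561 (merge (leaf 2 558 562) (leaf 7 528 657))))))) (merge (node 591 (merge (node 589 (merge (leaf 3 556 556) (leaf 2 557 561))) (merge (node 625 (merge (leaf 0 590 626) (node 561 (merge (leaf 2 558 562) (leaf 7 528 657))))) (node 625 (merge (leaf 0 590 626) (node 589 (merge (leaf 3 556 556) (leaf 0 589 624)))))))) (merge (node 591 (merge (leaf 3 557 558) (node 589 (merge (leaf 3 556 556) (node 621 (merge (leaf 1 588 620) (node 494 (merge (leaf 6 493 526) (node 493 (merge (leaf 6 461 462) (node 492 (merge (leaf 7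 460 460) (leaf 7 492 524))))))))))))) (node 493 (merge (node 461 (merge (leaf 4 461 558) (node 430 (merge (leaf 6 429 462) (node 429 (merge (leaf 6 397 398) (node 428 (merge (leaf 7 396 396) (leaf 7 428 460))))))))) (merge (node 461 (merge (leaf 4 461 558) (node 460 (merge (leaf 7 428 428) (node 589 (merge (leaf 7 460 492) (node 588 (merge (leaf 5 460 556) (leaf 5 492 620))))))))) (merge (node 461 (merge (leaf 4 461 558) (node 462 (merge (leaf 6 429 430) (node 589 (merge (leaf 6 461 494) (node 588 (merge (leaf 5 460 556) (leaf 5 492 620))))))))) (node 526 (merge (node 527 (merge (leaf 3 492 492) (leaf 0 525 561))) (merge (node 527 (merge (leaf 1 524 556) (leaf 0 525 561))) (node 589 (merge (node 621 (merge (leaf 6 493 494) (node 492 (merge (leaf 7 460 460) (leaf 7 492 524))))) (merge (node 494 (merge (leaf 6 461 462) (node 621 (merge (leaf 6 493 526) (node 620 (merge (leaf 5 492 588) (leaf 5 524 652))))))) (merge (node 492 (merge (leaf 7 460 460) (node 621 (merge (leaf 7 492 524) (node 620 (merge (leaf 5 492 588) (leaf 5 524 652))))))) (node 494 (merge (leaf 6 461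 462) (node 492 (merge (leaf 7 460 460) (node 491 (merge (leaf 0 490 490) (node 523 (merge (leaf 1 490 522) (node 459 (merge (leaf 3 458 458) (node 588 (merge (leaf 5 492 620) (node 556 (merge (leaf 7 459 524) (leaf 4 459 555)))))))))))))))))))))))))))))) (node 526 (merge (node 496 (merge (node 497 (merge (leaf 6 464 465) (leaf 2 493 527))) (merge (node 527 (merge (leaf 2 493 497) (leaf 0 525 561))) (node 464 (merge (leaf 4 464 561) (node 433 (merge (leaf 6 432 465) (node 432 (merge (leaf 6 400 401) (node 431 (merge (leaf 7 399 399) (leaf 7 431 463)))))))))))) (merge (node 493 (merge (node 527 (merge (leaf 3 492 492) (leaf 1 524 556))) (merge (node 556 (merge (leaf 1 524 527) (node 461 (merge (leaf 5 460 588) (node 429 (merge (leaf 5 428 524) (leaf 4 429 558))))))) (node 462 (merge (node 494 (merge (leaf 5 429 430) (node 589 (merge (leaf 6 461 493) (leaf 5 461 558))))) (merge (node 461 (merge (leaf 6 429 430) (node 558 (merge (leaf 4 429 429) (leaf 4 461 590))))) (node 589 (merge (leaf 6 461 494) (node 492 (merge (leaf 7 460 460) (node 621 (merge (leaf 7 492 524)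 (node 620 (merge (leaf 5 492 588) (leaf 5 524 652))))))))))))))) (node 589 (merge (node 621 (merge (leaf 6 493 494) (node 653 (merge (leaf 6 525 558) (node 524 (merge (leaf 7 492 492) (leaf 7 524 556))))))) (merge (node 621 (merge (leaf 6 493 494) (node 653 (merge (leaf 6 525 558) (node 652 (merge (leaf 5 524 620) (leaf 5 556 684))))))) (merge (node 621 (merge (leaf 6 493 494) (node 524 (merge (leaf 7 492 492) (node 653 (merge (leaf 7 524 556) (node 652 (merge (leaf 5 524 620) (leaf 5 556 684))))))))) (merge (node 590 (merge (node 591 (merge (leaf 3 557 558) (leaf 2 557 561))) (merge (node 591 (merge (leaf 3 556 556) (leaf 2 557 561))) (node 621 (merge (node 653 (merge (leaf 6 525 558) (node 524 (merge (leaf 7 492 492) (leaf 7 524 556))))) (merge (node 653 (merge (leaf 6 525 558) (node 652 (merge (leaf 5 524 620) (leaf 5 556 684))))) (merge (node 524 (merge (leaf 7 492 492) (node 653 (merge (leaf 7 524 556) (node 652 (merge (leaf 5 524 620) (leaf 5 556 684))))))) (node 492 (merge (leaf 7 492 524) (node 493 (merge (leaf 7 460 460) (node 620 (merge (leaf 5 492 588)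 (leaf 5 524 652)))))))))))))) (node 493 (merge (node 494 (merge (leaf 6 461 462) (node 588 (merge (leaf 5 492 620) (node 461 (merge (leaf 5 460 556) (node 429 (merge (leaf 4 397 397) (leaf 4 429 558))))))))) (merge (node 494 (merge (leaf 6 461 462) (node 492 (merge (leaf 7 460 460) (node 491 (merge (leaf 0 490 490) (node 523 (merge (leaf 1 490 522) (node 459 (merge (leaf 3 458 458) (node 588 (merge (leaf 5 492 620) (node 556 (merge (leaf 7 459 524) (leaf 4 459 555))))))))))))))) (merge (node 462 (merge (leaf 6 461 494) (node 461 (merge (leaf 6 429 430) (node 460 (merge (leaf 7 428 428) (leaf 7 460 492))))))) (merge (node 492 (merge (leaf 7 460 460) (node 588 (merge (leaf 5 492 620) (node 461 (merge (leaf 5 460 556) (node 462 (merge (leaf 6 429 430) (node 464 (merge (leaf 1 460 463) (node 496 (merge (leaf 4 464 561) (node 465 (merge (leaf 6 432 433) (leaf 6 464 497))))))))))))))) (node 460 (merge (leaf 7 460 492) (node 461 (merge (leaf 7 428 428) (node 588 (merge (leaf 5 460 556) (leaf 5 492 620))))))))))))))))))))))) (merge (hyp 0) (merge (node 593 (merge (node 625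 (merge (leaf 4 496 496) (node 657 (merge (leaf 4 528 624) (leaf 7 560 689))))) (merge (node 589 (merge (node 590 (merge (node 591 (merge (leaf 3 556 556) (leaf 2 557 561))) (node 622 (merge (leaf 4 493 493) (node 654 (merge (leaf 4 525 621) (leaf 7 557 686))))))) (merge (node 621 (merge (node 526 (merge (leaf 6 493 494) (node 527 (merge (leaf 1 524 556) (leaf 0 525 561))))) (merge (node 524 (merge (leaf 7 492 492) (node 653 (merge (leaf 7 524 556) (node 654 (merge (leaf 4 525 622) (leaf 4 557 686))))))) (node 654 (merge (leaf 4 525 622) (node 653 (merge (leaf 4 557 686) (node 652 (merge (leaf 5 524 620) (leaf 5 556 684)))))))))) (merge (node 590 (merge (node 591 (merge (leaf 3 556 556) (node 621 (merge (leaf 1 588 620) (leaf 1 589 622))))) (merge (node 622 (merge (leaf 4 493 493) (node 654 (merge (leaf 4 525 621) (leaf 7 557 686))))) (merge (node 591 (merge (leaf 3 556 556) (node 621 (merge (leaf 1 588 620) (node 494 (merge (leaf 6 493 526) (node 493 (merge (leaf 6 461 462) (node 492 (merge (leaf 7 460 460) (leaf 7 492 524))))))))))) (node 493 (merge (leaf 4 493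 622) (node 462 (merge (leaf 6 461 494) (node 461 (merge (leaf 6 429 430) (node 588 (merge (leaf 5 460 556) (leaf 5 492 620))))))))))))) (merge (node 591 (merge (node 590 (merge (leaf 3 556 556) (leaf 2 557 561))) (merge (node 493 (merge (node 494 (merge (leaf 6 461 462) (node 621 (merge (leaf 6 493 526) (node 620 (merge (leaf 5 492 588) (leaf 5 524 652))))))) (merge (node 492 (merge (leaf 7 460 460) (node 621 (merge (leaf 7 492 524) (node 526 (merge (leaf 6 493 494) (leaf 3 492 527))))))) (merge (node 492 (merge (leaf 7 460 460) (node 621 (merge (leaf 7 492 524) (node 620 (merge (leaf 5 492 588) (leaf 5 524 652))))))) (node 462 (merge (leaf 6 461 494) (node 461 (merge (leaf 6 429 430) (node 588 (merge (leaf 5 460 556) (leaf 5 492 620))))))))))) (node 590 (merge (leaf 2 557 561) (node 625 (merge (leaf 0 589 624) (leaf 0 590 626)))))))) (merge (node 590 (merge (node 622 (merge (leaf 4 493 493) (node 654 (merge (leaf 4 525 621) (leaf 7 557 686))))) (merge (node 591 (merge (leaf 2 557 561) (node 625 (merge (leaf 0 589 624) (leaf 0 590 626))))) (node 591 (merge (leaf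 2 557 561) (node 625 (merge (leaf 0 589 624) (leaf 0 590 626)))))))) (node 591 (merge (node 590 (merge (leaf 3 556 556) (leaf 2 557 561))) (merge (node 493 (merge (node 460 (merge (leaf 7 460 492) (node 461 (merge (leaf 7 428 428) (node 588 (merge (leaf 5 460 556) (leaf 5 492 620))))))) (merge (node 462 (merge (leaf 6 461 494) (node 461 (merge (leaf 6 429 430) (node 588 (merge (leaf 5 460 556) (leaf 5 492 620))))))) (merge (node 462 (merge (leaf 6 461 494) (node 461 (merge (leaf 6 429 430) (node 460 (merge (leaf 7 428 428) (leaf 7 460 492))))))) (node 494 (merge (leaf 6 461 462) (node 492 (merge (leaf 7 460 460) (node 526 (merge (leaf 3 492 527) (node 491 (merge (leaf 0 490 490) (node 523 (merge (leaf 1 490 522) (node 459 (merge (leaf 3 458 458) (node 588 (merge (leaf 5 492 620) (node 556 (merge (leaf 7 459 524) (leaf 4 459 555))))))))))))))))))))) (node 590 (merge (leaf 2 557 561) (node 625 (merge (leaf 0 589 624) (leaf 0 590 626)))))))))))))) (node 526 (merge (node 496 (merge (node 497 (merge (leaf 6 464 465) (leaf 2 493 527))) (merge (node 527 (merge (leaf 2 493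 497) (leaf 0 525 561))) (node 464 (merge (leaf 4 464 561) (node 433 (merge (leaf 6 432 465) (node 432 (merge (leaf 6 400 401) (node 431 (merge (leaf 7 399 399) (leaf 7 431 463)))))))))))) (merge (node 589 (merge (node 621 (merge (leaf 6 493 494) (node 620 (merge (leaf 5 524 652) (node 590 (merge (leaf 1 588 591) (node 493 (merge (leaf 5 492 588) (leaf 4 493 622))))))))) (merge (node 590 (merge (node 591 (merge (leaf 3 556 556) (leaf 2 557 561))) (node 622 (merge (leaf 4 493 493) (node 654 (merge (leaf 4 525 621) (leaf 7 557 686))))))) (merge (node 621 (merge (leaf 6 493 494) (node 524 (merge (leaf 7 492 492) (node 653 (merge (leaf 7 524 556) (node 652 (merge (leaf 5 524 620) (leaf 5 556 684))))))))) (node 590 (merge (node 591 (merge (leaf 3 556 556) (leaf 2 557 561))) (merge (node 493 (merge (leaf 4 493 622) (node 462 (merge (leaf 6 461 494) (node 461 (merge (leaf 6 429 430) (node 588 (merge (leaf 5 460 556) (leaf 5 492 620))))))))) (node 561 (merge (leaf 2 557 591) (node 493 (merge (leaf 4 493 622) (node 462 (merge (leaf 6 461 494) (node 461 (merge (leaf 6 429 430)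 (node 492 (merge (leaf 7 460 460) (node 464 (merge (leaf 1 460 463) (node 496 (merge (leaf 4 464 593) (node 465 (merge (leaf 6 432 433) (leaf 6 464 497)))))))))))))))))))))))) (node 493 (merge (node 527 (merge (leaf 3 492 492) (leaf 1 524 556))) (merge (node 492 (merge (leaf 3 492 527) (node 589 (merge (leaf 7 460 460) (node 621 (merge (leaf 6 493 494) (leaf 7 492 524))))))) (merge (node 556 (merge (leaf 1 524 527) (node 461 (merge (leaf 5 460 588) (node 462 (merge (leaf 6 429 430) (node 589 (merge (leaf 6 461 494) (node 590 (merge (leaf 3 556 591) (leaf 4 493 622))))))))))) (node 588 (merge (node 589 (merge (leaf 5 492 620) (node 621 (merge (leaf 6 493 494) (node 622 (merge (leaf 4 493 590) (leaf 4 525 654))))))) (merge (node 589 (merge (leaf 5 492 620) (node 492 (merge (leaf 7 460 460) (node 621 (merge (leaf 7 492 524) (node 622 (merge (leaf 4 493 590) (leaf 4 525 654))))))))) (node 461 (merge (leaf 5 460 556) (node 430 (merge (leaf 6 429 462) (node 429 (merge (leaf 6 397 398) (node 428 (merge (leaf 7 396 396) (leaf 7 428 460)))))))))))))))))))))) (merge (node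 593 (merge (node 625 (merge (leaf 4 496 496) (node 657 (merge (leaf 4 528 624) (leaf 7 560 689))))) (merge (node 590 (merge (node 591 (merge (leaf 3 557 558) (node 625 (merge (leaf 0 590 626) (node 561 (merge (leaf 2 558 562) (leaf 7 528 657))))))) (merge (node 622 (merge (node 558 (merge (leaf 7 525 654) (node 493 (merge (leaf 4 461 461) (leaf 7 493 526))))) (merge (node 589 (merge (leaf 4 493 493) (node 654 (merge (leaf 4 525 621) (leaf 7 557 686))))) (merge (node 493 (merge (leaf 4 493 589) (node 558 (merge (leaf 4 461 461) (leaf 7 493 526))))) (node 654 (merge (leaf 7 525 558) (node 686 (merge (leaf 7 557 589) (node 719 (merge (leaf 4 590 687) (node 718 (merge (leaf 4 622 751) (node 717 (merge (leaf 5 589 685) (leaf 5 621 749))))))))))))))) (node 589 (merge (node 622 (merge (leaf 4 493 493) (node 654 (merge (leaf 4 525 621) (leaf 7 557 686))))) (merge (node 591 (merge (leaf 2 557 561) (node 625 (merge (leaf 0 589 624) (leaf 0 590 626))))) (node 591 (merge (leaf 2 557 561) (node 625 (merge (leaf 0 589 624) (leaf 0 590 626))))))))))) (node 594 (merge (node 590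 (merge (node 591 (merge (leaf 3 557 558) (node 562 (merge (leaf 2 558 561) (leaf 2 559 563))))) (merge (node 622 (merge (node 558 (merge (leaf 7 525 654) (node 493 (merge (leaf 4 461 461) (leaf 7 493 526))))) (merge (node 589 (merge (leaf 4 493 493) (node 654 (merge (leaf 4 525 621) (leaf 7 557 686))))) (merge (node 493 (merge (leaf 4 493 589) (node 558 (merge (leaf 4 461 461) (leaf 7 493 526))))) (node 654 (merge (leaf 7 525 558) (node 589 (merge (leaf 4 525 621) (leaf 7 557 686))))))))) (node 591 (merge (node 562 (merge (leaf 2 558 561) (leaf 2 559 563))) (merge (node 621 (merge (leaf 1 589 622) (node 589 (merge (leaf 2 557 561) (leaf 1 588 620))))) (node 621 (merge (leaf 1 589 622) (node 589 (merge (leaf 1 588 620) (node 494 (merge (leaf 6 493 526) (node 493 (merge (leaf 6 461 462) (node 492 (merge (leaf 7 460 460) (leaf 7 492 524))))))))))))))))) (merge (node 595 (merge (node 564 (merge (leaf 2 560 563) (node 596 (merge (leaf 3 560 561) (leaf 2 561 565))))) (node 627 (merge (leaf 0 592 628) (node 591 (merge (leaf 0 591 626) (node 590 (merge (leaf 3 557 558) (node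 621 (merge (leaf 1 589 622) (node 589 (merge (leaf 1 588 620) (node 494 (merge (leaf 6 493 526) (node 493 (merge (leaf 6 461 462) (node 492 (merge (leaf 7 460 460) (leaf 7 492 524))))))))))))))))))) (merge (node 595 (merge (node 628 (merge (leaf 0 592 627) (node 596 (merge (leaf 0 593 629) (node 564 (merge (leaf 2 560 563) (leaf 2 561 565))))))) (merge (node 563 (merge (leaf 2 560 564) (node 591 (merge (leaf 2 559 562) (node 590 (merge (leaf 3 557 558) (node 621 (merge (leaf 1 589 622) (node 589 (merge (leaf 1 588 620) (node 494 (merge (leaf 6 493 526) (node 493 (merge (leaf 6 461 462) (node 492 (merge (leaf 7 460 460) (leaf 7 492 524))))))))))))))))) (node 627 (merge (leaf 0 592 628) (node 591 (merge (leaf 0 591 626) (node 590 (merge (leaf 3 557 558) (node 621 (merge (leaf 1 589 622) (node 589 (merge (leaf 1 588 620) (node 494 (merge (leaf 6 493 526) (node 493 (merge (leaf 6 461 462) (node 492 (merge (leaf 7 460 460) (leaf 7 492 524)))))))))))))))))))) (merge (node 590 (merge (node 622 (merge (node 558 (merge (leaf 7 525 654) (node 493 (merge (leaf 4 461 461) (leaf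 7 493 526))))) (merge (node 589 (merge (leaf 4 493 493) (node 654 (merge (leaf 4 525 621) (leaf 7 557 686))))) (merge (node 493 (merge (leaf 4 493 589) (node 558 (merge (leaf 4 461 461) (leaf 7 493 526))))) (node 654 (merge (leaf 7 525 558) (node 589 (merge (leaf 4 525 621) (leaf 7 557 686))))))))) (merge (node 591 (merge (leaf 3 557 558) (node 627 (merge (leaf 0 591 626) (node 595 (merge (leaf 0 592 628) (node 561 (merge (leaf 2 558 562) (leaf 3 560 596))))))))) (node 595 (merge (node 628 (merge (leaf 0 592 627) (node 596 (merge (leaf 3 560 561) (leaf 0 593 629))))) (merge (node 561 (merge (leaf 3 560 596) (node 591 (merge (leaf 2 558 562) (leaf 2 557 589))))) (node 627 (merge (leaf 0 592 628) (node 591 (merge (leaf 0 591 626) (node 621 (merge (leaf 1 589 622) (node 589 (merge (leaf 1 588 620) (node 494 (merge (leaf 6 493 526) (node 493 (merge (leaf 6 461 462) (node 492 (merge (leaf 7 460 460) (leaf 7 492 524))))))))))))))))))))) (node 595 (merge (node 596 (merge (leaf 3 560 561) (node 628 (merge (leaf 0 592 627) (leaf 0 593 629))))) (merge (node 596 (merge (leaf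 3 560 561) (node 564 (merge (leaf 2 560 563) (leaf 2 561 565))))) (merge (node 628 (merge (leaf 0 592 627) (node 596 (merge (leaf 0 593 629) (node 564 (merge (leaf 2 560 563) (leaf 2 561 565))))))) (node 562 (merge (node 627 (merge (leaf 0 592 628) (node 659 (merge (leaf 7 562 691) (node 530 (merge (leaf 4 498 498) (leaf 4 530 626))))))) (merge (node 563 (merge (leaf 2 560 564) (node 561 (merge (leaf 3 527 527) (node 531 (merge (leaf 2 528 532) (node 626 (merge (leaf 5 498 499) (leaf 6 530 658))))))))) (node 627 (merge (leaf 0 592 628) (node 659 (merge (leaf 7 562 691) (node 563 (merge (leaf 7 530 530) (leaf 2 560 564)))))))))))))))))))))) (merge (node 593 (merge (node 625 (merge (leaf 4 496 496) (node 657 (merge (leaf 4 528 624) (leaf 7 560 689))))) (merge (node 590 (merge (node 591 (merge (leaf 3 557 558) (node 625 (merge (leaf 0 590 626) (node 561 (merge (leaf 2 558 562) (leaf 7 528 657))))))) (merge (node 591 (merge (leaf 3 557 558) (node 621 (merge (leaf 1 589 622) (node 589 (merge (leaf 3 556 556) (leaf 1 588 620))))))) (merge (node 589 (merge (node 591 (merge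 (leaf 3 556 556) (leaf 2 557 561))) (node 622 (merge (leaf 4 493 493) (node 654 (merge (leaf 4 525 621) (leaf 7 557 686))))))) (node 526 (merge (node 527 (merge (leaf 1 524 556) (leaf 0 525 561))) (merge (node 527 (merge (leaf 0 525 561) (node 493 (merge (leaf 3 492 492) (node 622 (merge (leaf 7 493 558) (leaf 4 493 589))))))) (node 589 (merge (node 621 (merge (leaf 6 493 494) (node 653 (merge (leaf 6 525 558) (node 524 (merge (leaf 7 492 492) (leaf 7 524 556))))))) (merge (node 493 (merge (leaf 4 493 622) (node 494 (merge (leaf 6 461 462) (node 621 (merge (leaf 6 493 526) (node 620 (merge (leaf 5 492 588) (leaf 5 524 652))))))))) (merge (node 493 (merge (leaf 4 493 622) (node 492 (merge (leaf 7 460 460) (node 621 (merge (leaf 7 492 524) (node 620 (merge (leaf 5 492 588) (leaf 5 524 652))))))))) (node 493 (merge (leaf 4 493 622) (node 494 (merge (leaf 6 461 462) (node 492 (merge (leaf 7 460 460) (node 491 (merge (leaf 0 490 490) (node 523 (merge (leaf 1 490 522) (node 459 (merge (leaf 3 458 458) (node 588 (merge (leaf 5 492 620) (node 556 (merge (leaf 7 459 524)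 (leaf 4 459 555)))))))))))))))))))))))))))) (node 594 (merge (node 591 (merge (node 627 (merge (leaf 0 591 626) (node 595 (merge (leaf 0 592 628) (node 563 (merge (leaf 2 559 562) (leaf 2 560 564))))))) (node 590 (merge (leaf 3 557 558) (node 621 (merge (leaf 1 589 622) (node 589 (merge (leaf 3 556 556) (leaf 1 588 620))))))))) (merge (node 591 (merge (node 590 (merge (leaf 3 557 558) (node 621 (merge (leaf 1 589 622) (node 589 (merge (leaf 3 556 556) (leaf 1 588 620))))))) (node 627 (merge (leaf 0 591 626) (node 595 (merge (leaf 0 592 628) (node 564 (merge (leaf 2 560 563) (node 596 (merge (leaf 3 560 561) (leaf 2 561 565))))))))))) (merge (node 590 (merge (node 591 (merge (leaf 3 557 558) (node 561 (merge (leaf 2 558 562) (leaf 2 557 589))))) (merge (node 591 (merge (leaf 3 557 558) (node 621 (merge (leaf 1 589 622) (node 589 (merge (leaf 3 556 556) (leaf 1 588 620))))))) (merge (node 589 (merge (node 591 (merge (leaf 3 556 556) (leaf 2 557 561))) (node 622 (merge (leaf 4 493 493) (node 654 (merge (leaf 4 525 621) (leaf 7 557 686))))))) (merge (node 558 (merge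 (leaf 3 557 591) (node 622 (merge (leaf 7 525 654) (node 526 (merge (leaf 7 493 493) (node 527 (merge (leaf 1 524 556) (leaf 0 525 561))))))))) (node 589 (merge (node 622 (merge (leaf 4 493 493) (node 654 (merge (leaf 7 525 558) (leaf 7 557 686))))) (merge (node 493 (merge (leaf 4 493 622) (node 494 (merge (leaf 6 461 462) (node 621 (merge (leaf 6 493 526) (node 492 (merge (leaf 7 460 460) (leaf 7 492 524))))))))) (node 496 (merge (node 465 (merge (leaf 6 464 497) (node 464 (merge (leaf 6 432 433) (leaf 4 464 561))))) (merge (node 561 (merge (leaf 4 464 464) (node 526 (merge (leaf 0 525 527) (node 621 (merge (leaf 6 493 494) (node 653 (merge (leaf 6 525 558) (node 652 (merge (leaf 5 524 620) (leaf 5 556 684))))))))))) (node 497 (merge (leaf 6 464 465) (node 526 (merge (leaf 2 493 527) (node 621 (merge (leaf 6 493 494) (node 653 (merge (leaf 6 525 558) (node 652 (merge (leaf 5 524 620) (leaf 5 556 684)))))))))))))))))))))) (node 595 (merge (node 596 (merge (leaf 3 560 561) (node 628 (merge (leaf 0 592 627) (leaf 0 593 629))))) (merge (node 596 (merge (leaf 3 560 561)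 (node 564 (merge (leaf 2 560 563) (leaf 2 561 565))))) (merge (node 628 (merge (leaf 0 592 627) (node 596 (merge (leaf 0 593 629) (node 564 (merge (leaf 2 560 563) (leaf 2 561 565))))))) (node 562 (merge (node 627 (merge (leaf 0 592 628) (node 659 (merge (leaf 7 562 691) (node 530 (merge (leaf 4 498 498) (leaf 4 530 626))))))) (merge (node 563 (merge (leaf 2 560 564) (node 561 (merge (leaf 3 527 527) (node 531 (merge (leaf 2 528 532) (node 626 (merge (leaf 5 498 499) (leaf 6 530 658))))))))) (node 627 (merge (leaf 0 592 628) (node 659 (merge (leaf 7 562 691) (node 563 (merge (leaf 7 530 530) (leaf 2 560 564))))))))))))))))))))) (merge (node 593 (merge (node 625 (merge (leaf 4 496 496) (node 657 (merge (leaf 4 528 624) (leaf 7 560 689))))) (merge (node 526 (merge (node 496 (merge (node 497 (merge (leaf 6 464 465) (leaf 2 493 527))) (merge (node 527 (merge (leaf 2 493 497) (leaf 0 525 561))) (node 464 (merge (leaf 4 464 561) (node 433 (merge (leaf 6 432 465) (node 432 (merge (leaf 6 400 401) (node 431 (merge (leaf 7 399 399) (leaf 7 431 463)))))))))))) (merge (node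 462 (merge (node 494 (merge (leaf 5 429 430) (node 589 (merge (leaf 6 461 493) (leaf 6 493 621))))) (merge (node 494 (merge (leaf 5 429 430) (node 589 (merge (leaf 5 461 558) (leaf 6 493 621))))) (merge (node 527 (merge (leaf 1 524 556) (node 493 (merge (leaf 3 492 492) (node 461 (merge (leaf 6 429 430) (node 428 (merge (leaf 7 428 460) (node 429 (merge (leaf 7 396 396) (leaf 4 429 558))))))))))) (node 527 (merge (leaf 1 524 556) (node 493 (merge (leaf 3 492 492) (node 589 (merge (leaf 6 461 494) (node 620 (merge (leaf 5 492 588) (node 621 (merge (leaf 5 524 652) (node 653 (merge (leaf 6 525 558) (node 654 (merge (leaf 4 525 622) (leaf 4 557 686))))))))))))))))))) (node 589 (merge (node 621 (merge (leaf 6 493 494) (node 653 (merge (leaf 6 525 558) (node 654 (merge (leaf 4 525 622) (leaf 4 557 686))))))) (merge (node 621 (merge (leaf 6 493 494) (node 524 (merge (leaf 7 492 492) (node 653 (merge (leaf 7 524 556) (node 654 (merge (leaf 4 525 622) (leaf 4 557 686))))))))) (merge (node 620 (merge (node 588 (merge (leaf 5 492 493) (node 652 (merge (leaf 6 524 556) (leaf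 6 556 684))))) (merge (node 621 (merge (leaf 5 524 652) (node 653 (merge (leaf 6 525 558) (node 654 (merge (leaf 4 525 622) (leaf 4 557 686))))))) (node 493 (merge (leaf 5 492 588) (node 492 (merge (leaf 7 460 460) (node 621 (merge (leaf 7 492 524) (node 653 (merge (leaf 6 525 558) (node 654 (merge (leaf 4 525 622) (leaf 4 557 686)))))))))))))) (node 493 (merge (node 494 (merge (leaf 6 461 462) (node 588 (merge (leaf 5 492 620) (node 461 (merge (leaf 5 460 556) (node 429 (merge (leaf 4 397 397) (leaf 4 429 558))))))))) (merge (node 494 (merge (leaf 6 461 462) (node 492 (merge (leaf 7 460 460) (node 491 (merge (leaf 0 490 490) (node 523 (merge (leaf 1 490 522) (node 459 (merge (leaf 3 458 458) (node 588 (merge (leaf 5 492 620) (node 556 (merge (leaf 7 459 524) (leaf 4 459 555))))))))))))))) (merge (node 462 (merge (leaf 6 461 494) (node 461 (merge (leaf 6 429 430) (node 460 (merge (leaf 7 428 428) (leaf 7 460 492))))))) (merge (node 492 (merge (leaf 7 460 460) (node 588 (merge (leaf 5 492 620) (node 461 (merge (leaf 5 460 556) (node 462 (merge (leaf 6 429 430) (node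 464 (merge (leaf 1 460 463) (node 496 (merge (leaf 4 464 561) (node 465 (merge (leaf 6 432 433) (leaf 6 464 497))))))))))))))) (node 460 (merge (leaf 7 460 492) (node 461 (merge (leaf 7 428 428) (node 588 (merge (leaf 5 460 556) (leaf 5 492 620))))))))))))))))))) (node 594 (merge (node 589 (merge (node 526 (merge (node 527 (merge (leaf 1 524 556) (leaf 0 525 561))) (node 621 (merge (leaf 6 493 494) (node 653 (merge (leaf 6 525 558) (node 654 (merge (leaf 4 525 622) (leaf 4 557 686))))))))) (merge (node 492 (merge (node 524 (merge (leaf 7 492 621) (node 460 (merge (leaf 4 428 428) (leaf 4 460 556))))) (merge (node 493 (merge (leaf 7 460 460) (node 462 (merge (leaf 6 461 494) (node 461 (merge (leaf 6 429 430) (node 588 (merge (leaf 5 460 556) (leaf 5 492 620))))))))) (node 621 (merge (leaf 7 492 524) (node 654 (merge (leaf 4 525 622) (node 653 (merge (leaf 4 557 686) (node 652 (merge (leaf 5 524 620) (leaf 5 556 684)))))))))))) (merge (node 526 (merge (node 527 (merge (leaf 1 524 556) (leaf 0 525 561))) (merge (node 620 (merge (node 588 (merge (leaf 5 492 493) (node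 652 (merge (leaf 6 524 556) (leaf 6 556 684))))) (merge (node 621 (merge (leaf 5 524 652) (node 653 (merge (leaf 6 525 558) (node 654 (merge (leaf 4 525 622) (leaf 4 557 686))))))) (node 493 (merge (leaf 5 492 588) (node 492 (merge (leaf 7 460 460) (node 621 (merge (leaf 7 492 524) (node 653 (merge (leaf 6 525 558) (node 654 (merge (leaf 4 525 622) (leaf 4 557 686)))))))))))))) (node 527 (merge (leaf 0 525 561) (node 493 (merge (leaf 3 492 492) (node 620 (merge (leaf 5 492 588) (node 621 (merge (leaf 5 524 652) (node 653 (merge (leaf 6 525 558) (node 654 (merge (leaf 4 525 622) (leaf 4 557 686)))))))))))))))) (merge (node 526 (merge (node 621 (merge (leaf 6 493 494) (node 654 (merge (leaf 4 525 622) (node 653 (merge (leaf 4 557 686) (node 652 (merge (leaf 5 524 620) (leaf 5 556 684))))))))) (merge (node 527 (merge (leaf 0 525 561) (node 493 (merge (leaf 3 492 492) (node 620 (merge (leaf 5 492 588) (node 621 (merge (leaf 5 524 652) (node 653 (merge (leaf 6 525 558) (node 654 (merge (leaf 4 525 622) (leaf 4 557 686))))))))))))) (node 527 (merge (leaf 0 525 561) (node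 493 (merge (leaf 3 492 492) (node 462 (merge (leaf 6 461 494) (node 461 (merge (leaf 6 429 430) (node 428 (merge (leaf 7 428 460) (node 429 (merge (leaf 7 396 396) (leaf 4 429 558)))))))))))))))) (node 526 (merge (node 527 (merge (leaf 1 524 556) (leaf 0 525 561))) (merge (node 527 (merge (leaf 0 525 561) (node 493 (merge (leaf 3 492 492) (node 462 (merge (leaf 6 461 494) (node 461 (merge (leaf 6 429 430) (node 428 (merge (leaf 7 428 460) (node 429 (merge (leaf 7 396 396) (leaf 4 429 558))))))))))))) (node 493 (merge (node 494 (merge (leaf 6 461 462) (node 588 (merge (leaf 5 492 620) (node 461 (merge (leaf 5 460 556) (node 429 (merge (leaf 4 397 397) (leaf 4 429 558))))))))) (merge (node 462 (merge (leaf 6 461 494) (node 461 (merge (leaf 6 429 430) (node 460 (merge (leaf 7 428 428) (leaf 7 460 492))))))) (merge (node 460 (merge (leaf 7 460 492) (node 461 (merge (leaf 7 428 428) (node 588 (merge (leaf 5 460 556) (leaf 5 492 620))))))) (merge (node 460 (merge (leaf 7 460 492) (node 461 (merge (leaf 7 428 428) (node 588 (merge (leaf 5 460 556) (leaf 5 492 620)))))))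 (node 494 (merge (leaf 6 461 462) (node 492 (merge (leaf 7 460 460) (node 491 (merge (leaf 0 490 490) (node 523 (merge (leaf 1 490 522) (node 459 (merge (leaf 3 458 458) (node 588 (merge (leaf 5 492 620) (node 556 (merge (leaf 7 459 524) (leaf 4 459 555)))))))))))))))))))))))))))) (node 595 (merge (node 628 (merge (leaf 0 592 627) (node 596 (merge (leaf 0 593 629) (node 564 (merge (leaf 2 560 563) (leaf 2 561 565))))))) (merge (node 563 (merge (leaf 2 560 564) (node 626 (merge (node 591 (merge (leaf 2 559 562) (leaf 0 591 627))) (merge (node 658 (merge (leaf 6 562 690) (node 531 (merge (leaf 5 498 499) (leaf 5 530 627))))) (node 562 (merge (leaf 2 559 591) (node 531 (merge (leaf 5 498 499) (leaf 6 530 658)))))))))) (merge (node 627 (merge (leaf 0 592 628) (node 562 (merge (node 591 (merge (leaf 2 559 563) (leaf 0 591 626))) (merge (node 659 (merge (leaf 7 562 691) (node 530 (merge (leaf 4 498 498) (leaf 4 530 626))))) (node 659 (merge (leaf 7 562 691) (node 563 (merge (leaf 7 530 530) (leaf 2 559 591)))))))))) (merge (node 564 (merge (leaf 2 560 563) (node 596 (merge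 (leaf 2 561 565) (node 629 (merge (leaf 0 593 628) (node 597 (merge (leaf 0 594 630) (node 625 (merge (leaf 1 592 624) (leaf 1 593 626))))))))))) (node 628 (merge (leaf 0 592 627) (node 596 (merge (leaf 0 593 629) (node 625 (merge (leaf 1 592 624) (node 597 (merge (leaf 1 593 626) (node 565 (merge (leaf 2 561 564) (leaf 2 562 566))))))))))))))))))))) (merge (node 496 (merge (node 593 (merge (leaf 4 496 625) (node 464 (merge (leaf 4 464 561) (node 433 (merge (leaf 6 432 465) (node 432 (merge (leaf 6 400 401) (node 431 (merge (leaf 7 399 399) (leaf 7 431 463))))))))))) (merge (node 461 (merge (node 464 (merge (node 465 (merge (leaf 6 432 433) (leaf 6 464 497))) (merge (node 463 (merge (leaf 7 431 431) (node 462 (merge (leaf 0 461 497) (node 493 (merge (leaf 6 429 430) (leaf 1 460 492))))))) (node 433 (merge (leaf 6 432 465) (node 432 (merge (leaf 6 400 401) (node 463 (merge (leaf 7 431 431) (leaf 2 429 462)))))))))) (merge (node 493 (merge (node 556 (merge (leaf 5 460 588) (node 526 (merge (leaf 1 524 527) (node 429 (merge (leaf 5 428 524) (leaf 4 429 558))))))) (merge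 (node 430 (merge (leaf 6 429 462) (node 429 (merge (leaf 6 397 398) (node 428 (merge (leaf 7 396 396) (leaf 7 428 460))))))) (node 460 (merge (leaf 7 428 428) (node 558 (merge (leaf 4 461 590) (node 556 (merge (leaf 5 460 588) (node 526 (merge (leaf 1 524 527) (node 555 (merge (leaf 2 522 554) (node 587 (merge (leaf 1 554 586) (node 523 (merge (leaf 3 522 522) (node 492 (merge (leaf 6 459 491) (leaf 5 459 524)))))))))))))))))))) (merge (node 464 (merge (node 465 (merge (leaf 6 432 433) (leaf 6 464 497))) (merge (node 433 (merge (leaf 6 432 465) (node 432 (merge (leaf 6 400 401) (node 463 (merge (leaf 7 431 431) (leaf 2 429 462))))))) (node 463 (merge (leaf 7 431 431) (node 462 (merge (leaf 0 461 497) (node 493 (merge (leaf 6 429 430) (node 428 (merge (leaf 3 428 429) (leaf 7 428 460)))))))))))) (merge (node 464 (merge (node 465 (merge (leaf 6 432 433) (leaf 6 464 497))) (merge (node 463 (merge (leaf 7 431 431) (node 462 (merge (leaf 0 461 497) (node 428 (merge (leaf 3 428 429) (node 460 (merge (leaf 3 427 427) (node 492 (merge (leaf 1 459 491) (leaf 4 428 524)))))))))))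 (node 433 (merge (leaf 6 432 465) (node 432 (merge (leaf 6 400 401) (node 463 (merge (leaf 7 431 431) (leaf 2 429 462)))))))))) (node 493 (merge (node 556 (merge (leaf 5 460 588) (node 526 (merge (leaf 1 524 527) (node 429 (merge (leaf 5 428 524) (leaf 4 429 558))))))) (merge (node 556 (merge (leaf 5 460 588) (node 428 (merge (leaf 7 428 460) (node 429 (merge (leaf 7 396 396) (leaf 5 428 524))))))) (merge (node 465 (merge (leaf 6 464 497) (node 464 (merge (leaf 6 432 433) (node 431 (merge (leaf 7 431 463) (node 558 (merge (leaf 4 461 590) (node 429 (merge (leaf 4 429 526) (node 430 (merge (leaf 6 397 398) (leaf 0 429 432))))))))))))) (node 460 (merge (leaf 7 428 428) (node 558 (merge (leaf 4 461 590) (node 556 (merge (leaf 5 460 588) (node 526 (merge (leaf 1 524 527) (node 555 (merge (leaf 2 522 554) (node 587 (merge (leaf 1 554 586) (node 523 (merge (leaf 3 522 522) (node 492 (merge (leaf 6 459 491) (leaf 5 459 524)))))))))))))))))))))))))) (merge (node 526 (merge (node 527 (merge (leaf 2 493 497) (leaf 1 524 556))) (merge (node 527 (merge (leaf 2 493 497) (leaf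 0 525 561))) (merge (node 527 (merge (leaf 1 524 556) (leaf 0 525 561))) (node 461 (merge (node 593 (merge (leaf 4 496 625) (node 464 (merge (leaf 4 464 561) (node 463 (merge (leaf 7 431 431) (node 462 (merge (leaf 0 461 497) (node 493 (merge (leaf 6 429 430) (leaf 1 460 492))))))))))) (merge (node 493 (merge (node 429 (merge (leaf 4 429 558) (node 556 (merge (leaf 5 428 524) (leaf 5 460 588))))) (merge (node 558 (merge (leaf 4 429 429) (leaf 4 461 590))) (merge (node 556 (merge (leaf 5 460 588) (node 428 (merge (leaf 7 428 460) (node 429 (merge (leaf 7 396 396) (leaf 5 428 524))))))) (node 460 (merge (leaf 7 428 428) (node 558 (merge (leaf 4 461 590) (node 556 (merge (leaf 5 460 588) (node 555 (merge (leaf 2 522 554) (node 587 (merge (leaf 1 554 586) (node 523 (merge (leaf 3 522 522) (node 492 (merge (leaf 6 459 491) (leaf 5 459 524))))))))))))))))))) (node 593 (merge (leaf 4 496 625) (node 464 (merge (leaf 4 464 561) (node 463 (merge (leaf 7 431 431) (node 462 (merge (leaf 0 461 497) (node 429 (merge (leaf 3 428 428) (node 494 (merge (leaf 7 429 558) (node 430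 (merge (leaf 7 397 397) (leaf 5 429 557)))))))))))))))))))))) (hyp 1))))) (node 496 (merge (node 593 (merge (leaf 4 496 625) (node 464 (merge (leaf 4 464 561) (node 433 (merge (leaf 6 432 465) (node 432 (merge (leaf 6 400 401) (node 431 (merge (leaf 7 399 399) (leaf 7 431 463))))))))))) (merge (node 526 (merge (node 527 (merge (leaf 1 524 556) (leaf 0 525 561))) (node 464 (merge (node 465 (merge (leaf 6 432 433) (leaf 6 464 497))) (merge (node 433 (merge (leaf 6 432 465) (node 432 (merge (leaf 6 400 401) (node 431 (merge (leaf 7 399 399) (leaf 7 431 463))))))) (node 462 (merge (node 494 (merge (leaf 5 429 430) (node 589 (merge (leaf 5 461 558) (leaf 6 493 621))))) (node 463 (merge (leaf 7 431 431) (node 461 (merge (leaf 0 461 497) (node 428 (merge (leaf 3 428 429) (node 460 (merge (leaf 3 427 427) (node 492 (merge (leaf 1 459 491) (leaf 4 428 524)))))))))))))))))) (merge (node 526 (merge (node 527 (merge (leaf 2 493 497) (leaf 1 524 556))) (merge (node 527 (merge (leaf 1 524 556) (leaf 0 525 561))) (node 462 (merge (node 494 (merge (leaf 5 429 430) (node 589 (merge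 (leaf 5 461 558) (leaf 6 493 621))))) (node 593 (merge (leaf 4 496 625) (node 464 (merge (leaf 4 464 561) (node 463 (merge (leaf 7 431 431) (node 461 (merge (leaf 0 461 497) (node 428 (merge (leaf 3 428 429) (node 460 (merge (leaf 3 427 427) (node 492 (merge (leaf 1 459 491) (leaf 4 428 524)))))))))))))))))))) (merge (node 526 (merge (node 497 (merge (leaf 6 464 465) (leaf 2 493 527))) (merge (node 464 (merge (node 465 (merge (leaf 6 432 433) (leaf 6 464 497))) (merge (node 433 (merge (leaf 6 432 465) (node 432 (merge (leaf 6 400 401) (node 431 (merge (leaf 7 399 399) (leaf 7 431 463))))))) (node 462 (merge (node 494 (merge (leaf 5 429 430) (node 589 (merge (leaf 5 461 558) (leaf 6 493 621))))) (node 463 (merge (leaf 7 431 431) (node 461 (merge (leaf 0 461 497) (node 428 (merge (leaf 3 428 429) (node 460 (merge (leaf 3 427 427) (node 492 (merge (leaf 1 459 491) (leaf 4 428 524)))))))))))))))) (node 556 (merge (leaf 1 524 527) (node 524 (merge (node 523 (merge (node 522 (merge (leaf 0 521 521) (leaf 0 522 558))) (node 555 (merge (leaf 1 522 554) (node 491 (merge (leaf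 3 490 490) (node 588 (merge (leaf 4 459 459) (leaf 7 491 620))))))))) (merge (node 555 (merge (leaf 2 522 554) (node 558 (merge (node 587 (merge (leaf 1 554 586) (node 619 (merge (leaf 6 523 651) (node 492 (merge (leaf 5 459 460) (leaf 5 491 588))))))) (merge (node 590 (merge (leaf 0 555 591) (node 622 (merge (leaf 7 525 654) (node 621 (merge (leaf 5 525 653) (node 589 (merge (leaf 7 492 492) (leaf 6 493 494))))))))) (node 590 (merge (leaf 0 555 591) (node 587 (merge (leaf 1 554 586) (node 619 (merge (leaf 6 523 651) (node 622 (merge (leaf 7 525 654) (node 621 (merge (leaf 5 525 653) (node 589 (merge (leaf 6 493 494) (node 620 (merge (leaf 2 586 618) (leaf 5 524 652)))))))))))))))))))) (merge (node 492 (merge (node 589 (merge (leaf 4 460 460) (leaf 7 492 621))) (node 588 (merge (node 620 (merge (leaf 6 524 652) (node 619 (merge (leaf 5 491 587) (leaf 5 523 651))))) (merge (node 620 (merge (leaf 6 524 652) (node 523 (merge (leaf 7 491 491) (node 522 (merge (leaf 0 521 521) (node 554 (merge (leaf 1 521 553) (leaf 1 522 555))))))))) (node 491 (merge (leaf 7 459 459)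 (node 555 (merge (leaf 2 522 554) (node 523 (merge (leaf 3 490 490) (node 587 (merge (leaf 6 491 619) (node 586 (merge (leaf 2 553 585) (leaf 5 490 618)))))))))))))))) (merge (node 523 (merge (node 522 (merge (leaf 0 521 521) (leaf 0 522 558))) (merge (node 522 (merge (leaf 0 521 521) (node 554 (merge (leaf 1 521 553) (leaf 1 522 555))))) (node 555 (merge (leaf 1 522 554) (node 491 (merge (leaf 3 490 490) (node 459 (merge (leaf 4 427 427) (node 460 (merge (leaf 6 427 428) (node 587 (merge (leaf 6 459 492) (node 586 (merge (leaf 1 554 558) (leaf 5 490 618)))))))))))))))) (node 657 (merge (node 625 (merge (leaf 4 496 593) (leaf 4 528 624))) (node 523 (merge (node 522 (merge (leaf 0 521 521) (leaf 0 522 558))) (node 491 (merge (leaf 3 490 490) (node 588 (merge (leaf 7 491 620) (node 492 (merge (leaf 7 459 459) (node 589 (merge (leaf 4 460 460) (leaf 7 492 621))))))))))))))))))))))) (hyp 1))))))))))))))))))) nP_103 cP_103 16 (by decide +kernel)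
def nP_104 : ℕ := 0x10000000100000001000000000000000000000000000000000000000000000000000000000000000000000000000000000000000000000000000000000000000000000000000000000000
def cP_104 : ℕ := 0x5000000170400001fbc00001ffc00007ffc00007fff8000ff7f8001feff8000feff8000fcff8000ff7f00003fff00001ffc000016fc00000034000000100000000000000000000000000000000000000000000000000000000000000000000000000000000000
theorem lP_104 : S nP_104 cP_104 17 := S_of_chk [(nP_87, cP_87, 13), (nP_88, cP_88, 15), (nP_92, cP_92, 15), (nP_96, cP_96, 16), (nP_97, cP_97, 15), (nP_98, cP_98, 15), (nP_99, cP_99, 13), (nP_103, cP_103, 16)] ⟨lP_87, lP_88, lP_92, lP_96, lP_97, lP_98, lP_99, lP_103, trivial⟩ (node 557 (merge (node 624 (merge (node 657 (merge (leaf 4 528 625) (node 656 (merge (leaf 4 560 689) (node 559 (merge (leaf 7 527 527) (node 688 (merge (leaf 7 559 591) (node 687 (merge (leaf 5 559 655) (leaf 5 591 719))))))))))) (merge (node 656 (merge (node 657 (merge (leaf 4 528 625) (leaf 4 560 689))) (merge (node 689 (merge (leaf 4 560 657) (node 688 (merge (leaf 4 592 721) (node 687 (merge (leaf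 5 559 655) (leaf 5 591 719))))))) (merge (node 625 (merge (leaf 4 528 657) (node 687 (merge (leaf 5 559 655) (node 688 (merge (leaf 5 591 719) (node 593 (merge (leaf 6 560 561) (leaf 6 592 720))))))))) (node 687 (merge (leaf 5 559 655) (node 688 (merge (leaf 5 591 719) (node 593 (merge (leaf 6 560 561) (node 720 (merge (leaf 6 592 625) (node 721 (merge (leaf 4 592 689) (leaf 4 624 753))))))))))))))) (merge (node 559 (merge (node 656 (merge (leaf 7 527 527) (node 688 (merge (leaf 7 559 591) (node 687 (merge (leaf 5 559 655) (leaf 5 591 719))))))) (node 558 (merge (leaf 0 557 593) (node 589 (merge (leaf 1 556 588) (node 561 (merge (leaf 1 557 590) (node 525 (merge (leaf 3 524 524) (leaf 3 525 526))))))))))) (node 625 (merge (leaf 4 528 657) (node 496 (merge (leaf 4 496 593) (node 465 (merge (leaf 6 464 497) (node 464 (merge (leaf 6 432 433) (node 431 (merge (leaf 7 431 463) (node 432 (merge (leaf 7 399 399) (node 559 (merge (leaf 5 431 527) (leaf 5 463 591))))))))))))))))))) (merge (node 559 (merge (node 593 (merge (leaf 0 557 558) (node 496 (merge (leaf 4 496 625)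 (node 465 (merge (leaf 6 464 497) (node 464 (merge (leaf 6 432 433) (leaf 5 463 591))))))))) (merge (node 558 (merge (leaf 0 557 593) (node 588 (merge (leaf 1 556 589) (node 556 (merge (leaf 2 524 527) (leaf 1 555 587))))))) (merge (node 558 (merge (node 556 (merge (leaf 2 524 527) (leaf 0 556 591))) (node 589 (merge (leaf 1 556 588) (node 525 (merge (leaf 3 524 524) (node 526 (merge (leaf 3 525 561) (node 621 (merge (leaf 6 493 494) (leaf 6 525 653))))))))))) (node 496 (merge (node 465 (merge (leaf 6 464 497) (node 464 (merge (leaf 6 432 433) (leaf 5 463 591))))) (merge (node 465 (merge (leaf 6 464 497) (node 464 (merge (leaf 6 432 433) (node 432 (merge (leaf 5 431 527) (node 431 (merge (leaf 7 399 399) (leaf 7 431 463))))))))) (node 625 (merge (leaf 4 496 593) (node 624 (merge (leaf 4 528 657) (node 656 (merge (leaf 7 527 527) (node 688 (merge (leaf 7 559 591) (node 687 (merge (leaf 5 559 655) (leaf 5 591 719)))))))))))))))))) (merge (node 559 (merge (node 593 (merge (leaf 0 557 558) (node 496 (merge (leaf 4 496 625) (node 465 (merge (leaf 6 464 497) (node 464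 (merge (leaf 6 432 433) (leaf 5 463 591))))))))) (merge (node 558 (merge (leaf 0 557 593) (node 588 (merge (leaf 1 556 589) (node 556 (merge (leaf 2 524 527) (leaf 1 555 587))))))) (merge (node 496 (merge (node 465 (merge (leaf 6 464 497) (node 464 (merge (leaf 6 432 433) (leaf 5 463 591))))) (merge (node 465 (merge (leaf 6 464 497) (node 464 (merge (leaf 6 432 433) (node 432 (merge (leaf 5 431 527) (node 431 (merge (leaf 7 399 399) (leaf 7 431 463))))))))) (node 625 (merge (leaf 4 496 593) (node 624 (merge (leaf 4 528 657) (node 656 (merge (leaf 7 527 527) (node 688 (merge (leaf 7 559 591) (node 687 (merge (leaf 5 559 655) (leaf 5 591 719)))))))))))))) (node 624 (merge (node 656 (merge (leaf 7 527 527) (node 657 (merge (leaf 4 528 625) (leaf 4 560 689))))) (merge (node 656 (merge (leaf 7 527 527) (node 688 (merge (leaf 7 559 591) (node 687 (merge (leaf 5 559 655) (leaf 5 591 719))))))) (merge (node 657 (merge (leaf 4 528 625) (node 656 (merge (leaf 4 560 689) (node 688 (merge (leaf 7 559 591) (node 687 (merge (leaf 5 559 655) (leaf 5 591 719))))))))) (node 558 (merge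 (node 556 (merge (leaf 2 524 527) (leaf 0 556 591))) (merge (node 588 (merge (leaf 1 556 589) (node 556 (merge (leaf 2 524 527) (leaf 1 555 587))))) (node 589 (merge (leaf 1 556 588) (node 590 (merge (leaf 1 557 561) (node 591 (merge (leaf 0 589 625) (node 621 (merge (leaf 1 588 620) (node 653 (merge (leaf 6 525 526) (leaf 6 557 685)))))))))))))))))))))) (merge (node 559 (merge (node 558 (merge (leaf 0 557 593) (node 589 (merge (leaf 1 556 588) (node 590 (merge (leaf 1 557 561) (node 525 (merge (leaf 3 524 524) (node 622 (merge (leaf 4 493 493) (leaf 7 525 654))))))))))) (merge (node 464 (merge (node 496 (merge (leaf 5 463 591) (node 465 (merge (leaf 6 432 433) (leaf 6 464 497))))) (merge (node 558 (merge (node 556 (merge (leaf 2 524 527) (leaf 0 556 591))) (node 589 (merge (leaf 1 556 588) (node 590 (merge (leaf 1 557 561) (node 525 (merge (leaf 3 524 524) (node 622 (merge (leaf 4 493 493) (leaf 7 525 654))))))))))) (node 496 (merge (node 465 (merge (leaf 6 432 433) (leaf 6 464 497))) (node 432 (merge (leaf 5 431 527) (node 431 (merge (leaf 7 399 399) (leaf 7 431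 463)))))))))) (node 496 (merge (node 465 (merge (leaf 6 464 497) (node 464 (merge (leaf 6 432 433) (leaf 5 463 591))))) (merge (node 465 (merge (leaf 6 464 497) (node 464 (merge (leaf 6 432 433) (node 432 (merge (leaf 5 431 527) (node 431 (merge (leaf 7 399 399) (leaf 7 431 463))))))))) (node 625 (merge (leaf 4 496 593) (node 624 (merge (leaf 4 528 657) (node 656 (merge (leaf 7 527 527) (node 688 (merge (leaf 7 559 591) (node 687 (merge (leaf 5 559 655) (leaf 5 591 719))))))))))))))))) (merge (node 559 (merge (node 593 (merge (leaf 0 557 558) (node 496 (merge (leaf 4 496 625) (node 465 (merge (leaf 6 464 497) (node 464 (merge (leaf 6 432 433) (leaf 5 463 591))))))))) (merge (node 558 (merge (leaf 0 557 593) (node 556 (merge (leaf 2 524 527) (node 587 (merge (leaf 1 555 588) (node 555 (merge (leaf 1 554 586) (node 523 (merge (leaf 3 522 522) (leaf 3 523 524))))))))))) (merge (node 496 (merge (node 465 (merge (leaf 6 464 497) (node 464 (merge (leaf 6 432 433) (leaf 5 463 591))))) (merge (node 465 (merge (leaf 6 464 497) (node 464 (merge (leaf 6 432 433) (node 432 (merge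 (leaf 5 431 527) (node 431 (merge (leaf 7 399 399) (leaf 7 431 463))))))))) (node 625 (merge (leaf 4 496 593) (node 624 (merge (leaf 4 528 657) (node 656 (merge (leaf 7 527 527) (node 688 (merge (leaf 7 559 591) (node 687 (merge (leaf 5 559 655) (leaf 5 591 719)))))))))))))) (node 496 (merge (node 465 (merge (leaf 6 464 497) (node 464 (merge (leaf 6 432 433) (leaf 5 463 591))))) (merge (node 464 (merge (leaf 5 463 591) (node 431 (merge (leaf 7 431 463) (node 432 (merge (leaf 7 399 399) (leaf 5 431 527))))))) (merge (node 465 (merge (leaf 6 464 497) (node 464 (merge (leaf 6 432 433) (node 432 (merge (leaf 5 431 527) (node 431 (merge (leaf 7 399 399) (leaf 7 431 463))))))))) (node 558 (merge (node 556 (merge (leaf 2 524 527) (leaf 0 556 591))) (merge (node 525 (merge (leaf 3 524 524) (node 526 (merge (leaf 3 525 561) (node 527 (merge (leaf 2 493 497) (node 493 (merge (leaf 3 492 492) (node 590 (merge (leaf 4 461 461) (leaf 7 493 622))))))))))) (node 524 (merge (leaf 3 524 525) (node 556 (merge (leaf 3 523 523) (node 591 (merge (leaf 0 556 592) (node 555 (merge (leaf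 0 555 590) (node 587 (merge (leaf 1 554 586) (leaf 1 555 588)))))))))))))))))))))) (merge (node 559 (merge (node 558 (merge (leaf 0 557 593) (node 588 (merge (leaf 1 556 589) (node 556 (merge (leaf 2 524 527) (leaf 1 555 587))))))) (merge (node 558 (merge (leaf 0 557 593) (node 589 (merge (leaf 1 556 588) (node 561 (merge (leaf 1 557 590) (node 525 (merge (leaf 3 524 524) (leaf 3 525 526))))))))) (merge (node 558 (merge (node 524 (merge (leaf 3 524 525) (node 556 (merge (leaf 3 523 523) (leaf 2 524 527))))) (merge (node 588 (merge (leaf 1 556 589) (node 556 (merge (leaf 2 524 527) (leaf 1 555 587))))) (node 589 (merge (leaf 1 556 588) (node 525 (merge (leaf 3 524 524) (node 526 (merge (leaf 3 525 561) (node 621 (merge (leaf 6 493 494) (leaf 6 525 653)))))))))))) (node 624 (merge (node 656 (merge (leaf 7 527 527) (node 657 (merge (leaf 4 528 625) (leaf 4 560 689))))) (merge (node 656 (merge (leaf 7 527 527) (node 687 (merge (leaf 5 559 655) (node 688 (merge (leaf 5 591 719) (node 593 (merge (leaf 6 560 561) (node 625 (merge (leaf 4 496 496) (leaf 6 592 720)))))))))))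 (merge (node 656 (merge (node 657 (merge (leaf 4 528 625) (leaf 4 560 689))) (merge (node 689 (merge (leaf 4 560 657) (node 688 (merge (leaf 4 592 721) (node 687 (merge (leaf 5 559 655) (leaf 5 591 719))))))) (merge (node 625 (merge (leaf 4 528 657) (node 687 (merge (leaf 5 559 655) (node 688 (merge (leaf 5 591 719) (node 593 (merge (leaf 6 560 561) (leaf 6 592 720))))))))) (node 687 (merge (leaf 5 559 655) (node 688 (merge (leaf 5 591 719) (node 593 (merge (leaf 6 560 561) (node 720 (merge (leaf 6 592 625) (node 721 (merge (leaf 4 592 689) (leaf 4 624 753))))))))))))))) (merge (node 656 (merge (leaf 7 527 527) (node 689 (merge (leaf 4 560 657) (node 688 (merge (leaf 4 592 721) (node 687 (merge (leaf 5 559 655) (leaf 5 591 719))))))))) (node 625 (merge (leaf 4 528 657) (node 496 (merge (leaf 4 496 593) (node 465 (merge (leaf 6 464 497) (node 464 (merge (leaf 6 432 433) (node 431 (merge (leaf 7 431 463) (node 432 (merge (leaf 7 399 399) (leaf 5 431 527)))))))))))))))))))))) (merge (node 559 (merge (node 593 (merge (leaf 0 557 558) (node 496 (merge (leaf 4 496 625)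 (node 465 (merge (leaf 6 464 497) (node 464 (merge (leaf 6 432 433) (leaf 5 463 591))))))))) (merge (node 496 (merge (node 593 (merge (leaf 4 496 625) (node 594 (merge (leaf 3 559 595) (node 558 (merge (leaf 0 557 557) (leaf 0 558 561))))))) (node 465 (merge (leaf 6 464 497) (node 464 (merge (leaf 6 432 433) (node 432 (merge (leaf 5 431 527) (node 431 (merge (leaf 7 399 399) (leaf 7 431 463))))))))))) (merge (node 496 (merge (node 465 (merge (leaf 6 464 497) (node 464 (merge (leaf 6 432 433) (leaf 5 463 591))))) (merge (node 465 (merge (leaf 6 464 497) (node 464 (merge (leaf 6 432 433) (node 432 (merge (leaf 5 431 527) (node 431 (merge (leaf 7 399 399) (leaf 7 431 463))))))))) (node 625 (merge (leaf 4 496 593) (node 624 (merge (leaf 4 528 657) (node 656 (merge (leaf 7 527 527) (node 688 (merge (leaf 7 559 591) (node 687 (merge (leaf 5 559 655) (leaf 5 591 719)))))))))))))) (node 558 (merge (node 556 (merge (leaf 2 524 527) (leaf 0 556 591))) (merge (node 524 (merge (leaf 3 524 525) (node 556 (merge (leaf 3 523 523) (leaf 0 556 591))))) (merge (node 524 (merge (leaf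 3 524 525) (node 556 (merge (leaf 3 523 523) (leaf 2 524 527))))) (node 525 (merge (leaf 3 524 524) (node 561 (merge (leaf 3 525 526) (node 590 (merge (leaf 1 557 589) (node 562 (merge (leaf 1 558 591) (node 531 (merge (leaf 2 527 530) (node 563 (merge (leaf 3 527 527) (leaf 2 528 532))))))))))))))))))))) (merge (node 559 (merge (node 593 (merge (leaf 0 557 558) (node 496 (merge (leaf 4 496 625) (node 465 (merge (leaf 6 464 497) (node 464 (merge (leaf 6 432 433) (leaf 5 463 591))))))))) (merge (node 558 (merge (leaf 0 557 593) (node 588 (merge (leaf 1 556 589) (node 556 (merge (leaf 2 524 527) (leaf 1 555 587))))))) (merge (node 496 (merge (node 465 (merge (leaf 6 464 497) (node 464 (merge (leaf 6 432 433) (leaf 5 463 591))))) (merge (node 465 (merge (leaf 6 464 497) (node 464 (merge (leaf 6 432 433) (node 432 (merge (leaf 5 431 527) (node 431 (merge (leaf 7 399 399) (leaf 7 431 463))))))))) (node 625 (merge (leaf 4 496 593) (node 624 (merge (leaf 4 528 657) (node 656 (merge (leaf 7 527 527) (node 688 (merge (leaf 7 559 591) (node 687 (merge (leaf 5 559 655) (leaf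 5 591 719)))))))))))))) (node 589 (merge (node 558 (merge (leaf 1 556 588) (node 556 (merge (leaf 2 524 527) (leaf 0 556 591))))) (merge (node 558 (merge (leaf 1 556 588) (node 524 (merge (leaf 3 524 525) (node 556 (merge (leaf 3 523 523) (leaf 0 556 591))))))) (merge (node 558 (merge (leaf 1 556 588) (node 524 (merge (leaf 3 524 525) (node 556 (merge (leaf 3 523 523) (leaf 2 524 527))))))) (merge (node 624 (merge (node 656 (merge (leaf 7 527 527) (node 657 (merge (leaf 4 528 625) (leaf 4 560 689))))) (merge (node 656 (merge (leaf 7 527 527) (node 688 (merge (leaf 7 559 591) (node 687 (merge (leaf 5 559 655) (leaf 5 591 719))))))) (merge (node 657 (merge (leaf 4 528 625) (node 656 (merge (leaf 4 560 689) (node 688 (merge (leaf 7 559 591) (node 687 (merge (leaf 5 559 655) (leaf 5 591 719))))))))) (node 558 (merge (leaf 1 556 588) (node 525 (merge (leaf 3 524 524) (node 625 (merge (leaf 4 528 657) (node 590 (merge (leaf 0 589 591) (node 622 (merge (leaf 4 493 493) (leaf 7 525 654))))))))))))))) (merge (node 624 (merge (node 656 (merge (leaf 7 527 527) (node 657 (merge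 (leaf 4 528 625) (leaf 4 560 689))))) (merge (node 656 (merge (leaf 7 527 527) (node 688 (merge (leaf 7 559 591) (node 687 (merge (leaf 5 559 655) (leaf 5 591 719))))))) (merge (node 657 (merge (leaf 4 528 625) (node 656 (merge (leaf 4 560 689) (node 688 (merge (leaf 7 559 591) (node 687 (merge (leaf 5 559 655) (leaf 5 591 719))))))))) (node 625 (merge (leaf 4 528 657) (node 591 (merge (leaf 0 589 590) (node 558 (merge (leaf 0 556 556) (node 525 (merge (leaf 3 524 524) (node 496 (merge (leaf 5 463 464) (node 497 (merge (leaf 6 464 465) (node 526 (merge (leaf 2 493 527) (node 621 (merge (leaf 6 493 494) (leaf 6 525 653))))))))))))))))))))) (node 624 (merge (node 656 (merge (leaf 7 527 527) (node 657 (merge (leaf 4 528 625) (leaf 4 560 689))))) (merge (node 656 (merge (leaf 7 527 527) (node 688 (merge (leaf 7 559 591) (node 687 (merge (leaf 5 559 655) (leaf 5 591 719))))))) (merge (node 657 (merge (leaf 4 528 625) (node 656 (merge (leaf 4 560 689) (node 688 (merge (leaf 7 559 591) (node 687 (merge (leaf 5 559 655) (leaf 5 591 719))))))))) (node 525 (merge (node 625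 (merge (leaf 4 528 657) (node 590 (merge (leaf 0 589 591) (node 493 (merge (leaf 4 493 622) (node 494 (merge (leaf 6 461 462) (node 621 (merge (leaf 6 493 526) (node 492 (merge (leaf 7 460 460) (leaf 7 492 524))))))))))))) (merge (node 625 (merge (leaf 4 528 657) (node 590 (merge (leaf 0 589 591) (node 493 (merge (leaf 4 493 622) (node 492 (merge (leaf 7 460 460) (node 621 (merge (leaf 7 492 524) (node 620 (merge (leaf 5 492 588) (leaf 5 524 652))))))))))))) (merge (node 621 (merge (node 524 (merge (leaf 7 492 492) (node 653 (merge (leaf 7 524 556) (node 654 (merge (leaf 4 525 622) (leaf 4 557 686))))))) (merge (node 524 (merge (leaf 7 492 492) (node 653 (merge (leaf 7 524 556) (node 652 (merge (leaf 5 524 620) (leaf 5 556 684))))))) (node 622 (merge (leaf 4 525 654) (node 493 (merge (leaf 4 493 590) (node 620 (merge (leaf 5 492 588) (leaf 5 524 652)))))))))) (merge (node 625 (merge (leaf 4 528 657) (node 591 (merge (leaf 0 589 590) (node 496 (merge (leaf 5 463 464) (node 497 (merge (leaf 6 464 465) (node 526 (merge (leaf 2 493 527) (node 621 (merge (leaf 6 493 494)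 (node 524 (merge (leaf 7 492 492) (node 653 (merge (leaf 7 524 556) (node 652 (merge (leaf 5 524 620) (leaf 5 556 684))))))))))))))))))) (merge (node 625 (merge (leaf 4 528 657) (node 590 (merge (leaf 0 589 591) (node 493 (merge (leaf 4 493 622) (node 462 (merge (leaf 6 461 494) (node 461 (merge (leaf 6 429 430) (node 588 (merge (leaf 5 460 556) (leaf 5 492 620))))))))))))) (node 492 (merge (node 621 (merge (leaf 7 492 524) (node 654 (merge (leaf 4 525 622) (node 653 (merge (leaf 4 557 686) (node 652 (merge (leaf 5 524 620) (leaf 5 556 684))))))))) (node 493 (merge (leaf 7 460 460) (node 462 (merge (leaf 6 461 494) (node 461 (merge (leaf 6 429 430) (node 464 (merge (leaf 1 460 463) (node 496 (merge (leaf 5 463 591) (node 465 (merge (leaf 6 432 433) (leaf 6 464 497))))))))))))))))))))))))))))))))))) (merge (node 624 (merge (node 657 (merge (leaf 4 528 625) (node 656 (merge (leaf 4 560 689) (node 559 (merge (leaf 7 527 527) (node 688 (merge (leaf 7 559 591) (node 687 (merge (leaf 5 559 655) (leaf 5 591 719))))))))))) (merge (node 625 (merge (leaf 4 528 657) (node 496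 (merge (leaf 4 496 593) (node 465 (merge (leaf 6 464 497) (node 464 (merge (leaf 6 432 433) (node 431 (merge (leaf 7 431 463) (node 432 (merge (leaf 7 399 399) (node 559 (merge (leaf 5 431 527) (leaf 5 463 591))))))))))))))) (merge (node 656 (merge (node 657 (merge (leaf 4 528 625) (leaf 4 560 689))) (merge (node 689 (merge (leaf 4 560 657) (node 688 (merge (leaf 4 592 721) (node 687 (merge (leaf 5 559 655) (leaf 5 591 719))))))) (merge (node 625 (merge (leaf 4 528 657) (node 687 (merge (leaf 5 559 655) (node 688 (merge (leaf 5 591 719) (node 593 (merge (leaf 6 560 561) (leaf 6 592 720))))))))) (node 687 (merge (leaf 5 559 655) (node 688 (merge (leaf 5 591 719) (node 593 (merge (leaf 6 560 561) (node 720 (merge (leaf 6 592 625) (node 721 (merge (leaf 4 592 689) (leaf 4 624 753))))))))))))))) (merge (node 656 (merge (node 559 (merge (leaf 7 527 527) (node 688 (merge (leaf 7 559 591) (node 687 (merge (leaf 5 559 655) (leaf 5 591 719))))))) (merge (node 687 (merge (leaf 5 559 655) (node 688 (merge (leaf 5 591 719) (node 593 (merge (leaf 6 560 561) (node 625 (merge (leaf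 4 496 496) (leaf 6 592 720))))))))) (merge (node 559 (merge (leaf 7 527 527) (node 688 (merge (leaf 7 559 591) (node 593 (merge (leaf 6 560 561) (node 720 (merge (leaf 6 592 625) (node 721 (merge (leaf 4 592 689) (leaf 4 624 753))))))))))) (hyp 0))))) (hyp 1)))))) (merge (node 558 (merge (node 559 (merge (leaf 0 557 593) (node 556 (merge (leaf 2 524 527) (leaf 0 556 591))))) (merge (node 559 (merge (leaf 0 557 593) (node 589 (merge (leaf 1 556 588) (node 561 (merge (leaf 1 557 590) (node 525 (merge (leaf 3 524 524) (leaf 3 525 526))))))))) (merge (node 559 (merge (node 556 (merge (leaf 2 524 527) (leaf 0 556 591))) (node 589 (merge (leaf 1 556 588) (node 525 (merge (leaf 3 524 524) (node 526 (merge (leaf 3 525 561) (node 621 (merge (leaf 6 493 494) (leaf 6 525 653))))))))))) (hyp 2))))) (merge (hyp 3) (merge (node 591 (merge (node 590 (merge (node 589 (merge (leaf 3 556 556) (leaf 2 557 561))) (node 593 (merge (leaf 3 557 558) (node 625 (merge (leaf 0 590 626) (node 657 (merge (leaf 4 528 624) (leaf 7 560 689))))))))) (merge (node 590 (merge (node 593 (merge (leaf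 3 557 558) (node 561 (merge (leaf 2 558 562) (leaf 2 557 589))))) (merge (node 589 (merge (leaf 2 557 561) (node 620 (merge (leaf 1 588 621) (node 588 (merge (leaf 2 556 559) (leaf 1 587 619))))))) (node 593 (merge (leaf 3 557 558) (node 625 (merge (leaf 0 590 626) (node 657 (merge (leaf 4 528 624) (leaf 7 560 689)))))))))) (merge (node 558 (merge (node 559 (merge (leaf 0 556 556) (leaf 0 557 593))) (merge (node 593 (merge (leaf 0 557 559) (leaf 3 557 590))) (merge (node 556 (merge (leaf 0 556 559) (node 590 (merge (leaf 0 555 555) (leaf 3 556 589))))) (node 590 (merge (leaf 3 557 593) (node 589 (merge (leaf 3 556 556) (node 621 (merge (leaf 1 588 620) (node 653 (merge (leaf 6 525 526) (leaf 6 557 685))))))))))))) (merge (node 589 (merge (node 590 (merge (leaf 3 556 556) (leaf 2 557 561))) (merge (node 590 (merge (leaf 2 557 561) (node 620 (merge (leaf 1 588 621) (node 588 (merge (leaf 2 556 559) (leaf 1 587 619))))))) (merge (node 590 (merge (leaf 3 556 556) (node 620 (merge (leaf 1 588 621) (node 588 (merge (leaf 2 556 559) (leaf 1 587 619))))))) (node 525 (merge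 (node 526 (merge (node 527 (merge (leaf 1 524 556) (leaf 0 525 561))) (merge (node 621 (merge (leaf 6 493 494) (node 524 (merge (leaf 7 492 492) (node 653 (merge (leaf 7 524 556) (node 654 (merge (leaf 4 525 622) (leaf 4 557 686))))))))) (node 527 (merge (leaf 0 525 561) (node 524 (merge (leaf 0 524 559) (node 621 (merge (leaf 7 492 492) (leaf 6 493 494)))))))))) (merge (node 621 (merge (node 526 (merge (leaf 6 493 494) (node 527 (merge (leaf 1 524 556) (leaf 0 525 561))))) (node 654 (merge (leaf 4 525 622) (node 653 (merge (leaf 4 557 686) (node 652 (merge (leaf 5 524 620) (leaf 5 556 684))))))))) (merge (node 621 (merge (node 654 (merge (leaf 4 525 622) (node 653 (merge (leaf 4 557 686) (node 652 (merge (leaf 5 524 620) (leaf 5 556 684))))))) (node 526 (merge (leaf 6 493 494) (node 527 (merge (leaf 0 525 561) (node 524 (merge (leaf 7 492 492) (leaf 0 524 559))))))))) (merge (node 492 (merge (node 524 (merge (leaf 7 492 621) (node 460 (merge (leaf 4 428 428) (leaf 4 460 556))))) (merge (node 493 (merge (leaf 7 460 460) (node 462 (merge (leaf 6 461 494) (node 461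 (merge (leaf 6 429 430) (node 588 (merge (leaf 5 460 556) (leaf 5 492 620))))))))) (node 621 (merge (leaf 7 492 524) (node 654 (merge (leaf 4 525 622) (node 653 (merge (leaf 4 557 686) (node 652 (merge (leaf 5 524 620) (leaf 5 556 684)))))))))))) (merge (node 493 (merge (node 460 (merge (leaf 7 460 492) (node 461 (merge (leaf 7 428 428) (node 588 (merge (leaf 5 460 556) (leaf 5 492 620))))))) (merge (node 462 (merge (leaf 6 461 494) (node 461 (merge (leaf 6 429 430) (node 588 (merge (leaf 5 460 556) (leaf 5 492 620))))))) (merge (node 462 (merge (leaf 6 461 494) (node 461 (merge (leaf 6 429 430) (node 460 (merge (leaf 7 428 428) (leaf 7 460 492))))))) (node 494 (merge (leaf 6 461 462) (node 492 (merge (leaf 7 460 460) (node 526 (merge (leaf 3 492 527) (node 491 (merge (leaf 0 490 490) (node 523 (merge (leaf 1 490 522) (node 459 (merge (leaf 3 458 458) (node 588 (merge (leaf 5 492 620) (node 556 (merge (leaf 7 459 524) (leaf 4 459 555))))))))))))))))))))) (node 620 (merge (node 588 (merge (leaf 5 492 493) (node 652 (merge (leaf 6 524 556) (leaf 6 556 684))))) (merge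 (node 621 (merge (leaf 5 524 652) (node 524 (merge (leaf 7 492 492) (node 653 (merge (leaf 7 524 556) (node 654 (merge (leaf 4 525 622) (leaf 4 557 686))))))))) (node 493 (merge (leaf 5 492 588) (node 492 (merge (leaf 7 460 460) (node 621 (merge (leaf 7 492 524) (node 527 (merge (leaf 3 492 526) (node 654 (merge (leaf 4 525 622) (node 653 (merge (leaf 4 557 686) (node 656 (merge (leaf 3 620 655) (node 624 (merge (leaf 7 527 559) (node 657 (merge (leaf 4 528 625) (leaf 4 560 689)))))))))))))))))))))))))))))))) (merge (node 624 (merge (node 657 (merge (leaf 4 528 625) (node 656 (merge (leaf 4 560 689) (node 559 (merge (leaf 7 527 527) (leaf 7 559 688))))))) (merge (node 625 (merge (leaf 4 528 657) (node 626 (merge (leaf 3 591 627) (node 593 (merge (leaf 0 590 590) (node 559 (merge (leaf 0 557 558) (node 594 (merge (leaf 3 559 595) (node 562 (merge (leaf 2 559 563) (node 530 (merge (leaf 5 497 498) (node 531 (merge (leaf 6 498 499) (leaf 2 527 561))))))))))))))))) (merge (node 656 (merge (node 559 (merge (leaf 7 527 527) (node 558 (merge (leaf 0 556 556) (leaf 0 557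 593))))) (node 689 (merge (leaf 4 560 657) (node 688 (merge (leaf 4 592 721) (node 687 (merge (leaf 5 559 655) (leaf 5 591 719))))))))) (merge (node 656 (merge (node 559 (merge (leaf 7 527 527) (node 558 (merge (leaf 0 556 556) (leaf 0 557 593))))) (merge (node 559 (merge (leaf 7 527 527) (node 688 (merge (leaf 7 559 591) (node 687 (merge (leaf 5 559 655) (leaf 5 591 719))))))) (node 687 (merge (leaf 5 559 655) (node 688 (merge (leaf 5 591 719) (node 593 (merge (leaf 6 560 561) (node 720 (merge (leaf 6 592 625) (node 721 (merge (leaf 4 592 689) (leaf 4 624 753)))))))))))))) (node 656 (merge (node 657 (merge (leaf 4 528 625) (leaf 4 560 689))) (merge (node 689 (merge (leaf 4 560 657) (node 688 (merge (leaf 4 592 721) (node 687 (merge (leaf 5 559 655) (leaf 5 591 719))))))) (merge (node 625 (merge (leaf 4 528 657) (node 687 (merge (leaf 5 559 655) (node 688 (merge (leaf 5 591 719) (node 593 (merge (leaf 6 560 561) (leaf 6 592 720))))))))) (node 687 (merge (leaf 5 559 655) (node 688 (merge (leaf 5 591 719) (node 593 (merge (leaf 6 560 561) (node 720 (merge (leaf 6 592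 625) (node 721 (merge (leaf 4 592 689) (leaf 4 624 753)))))))))))))))))))) (hyp 4))))))) (merge (node 657 (merge (node 625 (merge (leaf 4 528 624) (node 593 (merge (leaf 4 496 496) (leaf 7 560 689))))) (merge (node 625 (merge (leaf 4 528 624) (node 593 (merge (leaf 4 496 496) (leaf 7 528 561))))) (merge (node 593 (merge (node 625 (merge (leaf 4 496 496) (leaf 7 560 689))) (merge (node 625 (merge (leaf 7 528 561) (leaf 7 560 689))) (merge (node 625 (merge (leaf 4 496 496) (leaf 7 528 561))) (node 594 (merge (node 595 (merge (leaf 3 559 559) (node 628 (merge (leaf 0 592 627) (node 596 (merge (leaf 3 560 561) (leaf 0 593 629))))))) (merge (node 595 (merge (leaf 3 559 559) (node 564 (merge (leaf 2 560 563) (node 596 (merge (leaf 3 560 561) (leaf 2 561 565))))))) (merge (node 595 (merge (leaf 3 559 559) (node 627 (merge (leaf 0 592 628) (node 591 (merge (leaf 0 591 626) (node 563 (merge (leaf 2 559 562) (leaf 2 560 564))))))))) (merge (node 558 (merge (leaf 0 557 559) (node 591 (merge (leaf 3 557 590) (node 626 (merge (leaf 0 591 627) (node 562 (merge (leaf 2 559 563)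 (node 658 (merge (leaf 5 561 689) (node 690 (merge (leaf 7 561 561) (node 691 (merge (leaf 4 562 659) (leaf 4 594 723))))))))))))))) (node 591 (merge (node 627 (merge (leaf 0 591 626) (node 595 (merge (leaf 0 592 628) (node 563 (merge (leaf 2 559 562) (leaf 2 560 564))))))) (merge (node 562 (merge (leaf 2 559 563) (node 590 (merge (leaf 2 558 561) (node 621 (merge (leaf 1 589 622) (node 589 (merge (leaf 3 556 556) (leaf 1 588 620))))))))) (merge (node 627 (merge (leaf 0 591 626) (node 595 (merge (leaf 0 592 628) (node 564 (merge (leaf 2 560 563) (node 596 (merge (leaf 3 560 561) (leaf 2 561 565))))))))) (node 627 (merge (leaf 0 591 626) (node 595 (merge (leaf 0 592 628) (node 561 (merge (leaf 3 560 596) (node 590 (merge (leaf 2 558 562) (leaf 2 557 589)))))))))))))))))))))) (merge (hyp 5) (node 589 (merge (node 624 (merge (leaf 4 528 625) (node 656 (merge (leaf 4 560 689) (node 687 (merge (leaf 5 559 655) (node 688 (merge (leaf 5 591 719) (node 591 (merge (leaf 7 559 559) (node 590 (merge (leaf 3 556 556) (leaf 2 557 561))))))))))))) (merge (node 624 (merge (leaf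 4 528 625) (node 656 (merge (leaf 4 560 689) (node 687 (merge (leaf 5 559 655) (node 688 (merge (leaf 5 591 719) (node 559 (merge (leaf 7 559 591) (node 558 (merge (leaf 1 556 588) (node 525 (merge (leaf 3 524 524) (node 526 (merge (leaf 3 525 561) (node 621 (merge (leaf 6 493 494) (leaf 6 525 653))))))))))))))))))) (merge (node 590 (merge (node 591 (merge (leaf 3 556 556) (leaf 2 557 561))) (node 654 (merge (node 622 (merge (leaf 7 557 686) (node 525 (merge (leaf 7 525 558) (leaf 4 525 621))))) (merge (node 686 (merge (leaf 7 557 622) (node 624 (merge (leaf 4 528 625) (node 656 (merge (leaf 4 560 689) (node 655 (merge (leaf 1 653 685) (leaf 5 559 687))))))))) (merge (node 624 (merge (leaf 4 528 625) (node 656 (merge (leaf 4 560 689) (node 655 (merge (leaf 5 559 687) (node 621 (merge (leaf 3 621 622) (node 653 (merge (leaf 3 620 620) (node 685 (merge (leaf 6 557 558) (leaf 1 652 684))))))))))))) (node 624 (merge (leaf 4 528 625) (node 656 (merge (leaf 4 560 689) (node 655 (merge (leaf 5 559 687) (node 685 (merge (leaf 1 653 686) (node 653 (merge (leaf 1 652 684)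 (node 621 (merge (leaf 6 557 558) (leaf 3 620 620))))))))))))))))))) (merge (node 624 (merge (leaf 4 528 625) (node 656 (merge (leaf 4 560 689) (node 687 (merge (leaf 5 559 655) (node 688 (merge (leaf 5 591 719) (node 591 (merge (leaf 7 559 559) (node 686 (merge (leaf 2 653 685) (node 590 (merge (leaf 3 556 556) (node 621 (merge (leaf 1 588 620) (node 654 (merge (leaf 7 557 622) (leaf 4 557 653))))))))))))))))))) (merge (node 558 (merge (node 559 (merge (leaf 1 556 588) (node 556 (merge (leaf 0 556 591) (node 524 (merge (leaf 3 523 523) (leaf 3 524 525))))))) (merge (node 559 (merge (leaf 1 556 588) (node 561 (merge (leaf 1 557 590) (node 525 (merge (leaf 3 524 524) (leaf 3 525 526))))))) (merge (node 590 (merge (node 559 (merge (leaf 1 557 561) (leaf 1 556 588))) (merge (node 591 (merge (leaf 3 556 556) (leaf 2 557 561))) (node 591 (merge (leaf 3 556 556) (node 620 (merge (leaf 1 588 621) (node 588 (merge (leaf 2 556 559) (leaf 1 587 619)))))))))) (merge (node 590 (merge (node 591 (merge (leaf 3 556 556) (node 621 (merge (leaf 1 588 620) (node 653 (merge (leaf 6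 525 526) (leaf 6 557 685))))))) (node 559 (merge (leaf 1 557 561) (node 525 (merge (leaf 3 524 524) (node 622 (merge (leaf 4 493 493) (leaf 7 525 654))))))))) (node 590 (merge (node 591 (merge (leaf 3 556 556) (leaf 2 557 561))) (merge (node 591 (merge (leaf 2 557 561) (node 621 (merge (leaf 1 588 620) (node 653 (merge (leaf 6 525 526) (leaf 6 557 685))))))) (node 525 (merge (node 622 (merge (leaf 4 493 493) (node 654 (merge (leaf 4 525 621) (leaf 7 557 686))))) (merge (node 493 (merge (leaf 4 493 622) (node 461 (merge (leaf 4 461 558) (node 588 (merge (leaf 5 460 556) (leaf 5 492 620))))))) (merge (node 493 (merge (node 461 (merge (leaf 4 461 558) (node 588 (merge (leaf 5 460 556) (leaf 5 492 620))))) (merge (node 492 (merge (leaf 7 460 460) (node 621 (merge (leaf 7 492 524) (node 620 (merge (leaf 5 492 588) (leaf 5 524 652))))))) (node 461 (merge (leaf 4 461 558) (node 430 (merge (leaf 6 429 462) (node 429 (merge (leaf 6 397 398) (node 428 (merge (leaf 7 396 396) (leaf 7 428 460)))))))))))) (node 621 (merge (node 524 (merge (leaf 7 492 492) (node 653 (merge (leaf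 7 524 556) (node 654 (merge (leaf 4 525 622) (leaf 4 557 686))))))) (merge (node 524 (merge (leaf 7 492 492) (node 653 (merge (leaf 7 524 556) (node 652 (merge (leaf 5 524 620) (leaf 5 556 684))))))) (merge (node 654 (merge (leaf 4 525 622) (node 653 (merge (leaf 4 557 686) (node 652 (merge (leaf 5 524 620) (leaf 5 556 684))))))) (node 524 (merge (leaf 7 492 492) (node 622 (merge (leaf 4 525 654) (node 620 (merge (leaf 5 524 652) (node 619 (merge (leaf 2 586 618) (node 651 (merge (leaf 1 618 650) (node 587 (merge (leaf 3 586 586) (node 556 (merge (leaf 6 523 555) (leaf 5 523 588))))))))))))))))))))))))))))))) (hyp 6)))))))))))) (hyp 7))))))))))))))) nP_104 cP_104 17 (by decide +kernel)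
def nP_105 : ℕ := 0x100000001000000000000000000000000000000000000000000000000000000000000000000000000000000000000000000000000000000000000000000000000000000000000
def cP_105 : ℕ := 0x1c0000007c0000017e400003ffc00007ffc0001fffc0000ffff8001ffff8001ffff8000feff8000fcff8000ff7f0000ffff00001ffc000016fc00000034000000100000000000000000000000000000000000000000000000000000000000000000000000000000000000
theorem lP_105 : S nP_105 cP_105 18 := S_of_chk [(nP_74, cP_74, 15), (nP_78, cP_78, 14), (nP_86, cP_86, 17), (nP_104, cP_104, 17)] ⟨lP_74, lP_78, lP_86, lP_104, trivial⟩ (node 592 (merge (node 496 (merge (node 625 (merge (leaf 4 496 593) (node 624 (merge (leaf 4 528 657) (node 623 (merge (leaf 5 495 591) (leaf 5 527 655))))))) (merge (node 593 (merge (leaf 4 496 625) (node 465 (merge (leaf 6 464 497) (node 464 (merge (leaf 6 432 433) (leaf 4 464 561))))))) (node 465 (merge (leaf 6 464 497) (node 464 (merge (leaf 6 432 433) (node 591 (merge (leaf 5 463 559) (leaf 5 495 623)))))))))) (merge (node 624 (merge (node 657 (merge (leaf 4 528 625) (node 656 (merge (leaf 4 560 689) (node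 655 (merge (leaf 5 527 623) (leaf 5 559 687))))))) (merge (node 625 (merge (leaf 4 528 657) (node 623 (merge (leaf 5 527 655) (node 591 (merge (leaf 5 495 496) (node 626 (merge (leaf 3 590 590) (leaf 3 591 627))))))))) (merge (node 657 (merge (leaf 4 528 625) (node 656 (merge (leaf 4 560 689) (node 559 (merge (leaf 7 527 527) (node 591 (merge (leaf 7 559 688) (node 496 (merge (leaf 5 463 464) (leaf 5 495 623))))))))))) (merge (node 657 (merge (leaf 4 528 625) (node 656 (merge (leaf 4 560 689) (node 559 (merge (leaf 7 527 527) (node 688 (merge (leaf 7 559 591) (node 687 (merge (leaf 5 559 655) (leaf 5 591 719))))))))))) (node 559 (merge (node 656 (merge (leaf 7 527 527) (node 655 (merge (leaf 5 527 623) (leaf 5 559 687))))) (merge (node 623 (merge (leaf 5 527 655) (node 496 (merge (leaf 5 495 591) (node 465 (merge (leaf 6 464 497) (node 464 (merge (leaf 6 432 433) (node 431 (merge (leaf 7 431 463) (node 432 (merge (leaf 7 399 399) (leaf 5 431 527))))))))))))) (merge (node 656 (merge (node 655 (merge (leaf 5 527 623) (leaf 5 559 687))) (merge (node 591 (merge (leaf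 7 559 688) (node 623 (merge (leaf 5 495 496) (leaf 6 527 655))))) (node 688 (merge (leaf 7 559 591) (node 721 (merge (leaf 4 592 689) (node 720 (merge (leaf 4 624 753) (node 719 (merge (leaf 5 591 687) (leaf 5 623 751)))))))))))) (node 656 (merge (leaf 7 527 527) (node 688 (merge (leaf 7 559 591) (node 721 (merge (leaf 4 592 689) (node 720 (merge (leaf 4 624 753) (node 719 (merge (leaf 5 591 687) (leaf 5 623 751)))))))))))))))))))) (merge (node 624 (merge (node 657 (merge (leaf 4 528 625) (node 656 (merge (leaf 4 560 689) (node 655 (merge (leaf 5 527 623) (leaf 5 559 687))))))) (merge (node 656 (merge (node 657 (merge (leaf 4 528 625) (leaf 4 560 689))) (merge (node 559 (merge (leaf 7 527 527) (node 688 (merge (leaf 7 559 591) (node 593 (merge (leaf 6 560 561) (node 720 (merge (leaf 6 592 625) (node 719 (merge (leaf 5 591 687) (leaf 5 623 751))))))))))) (node 559 (merge (leaf 7 527 527) (node 688 (merge (leaf 7 559 591) (node 689 (merge (leaf 4 560 657) (leaf 4 592 721)))))))))) (merge (node 655 (merge (leaf 5 527 623) (node 656 (merge (leaf 5 559 687) (node 559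 (merge (leaf 7 527 527) (node 688 (merge (leaf 7 559 591) (node 689 (merge (leaf 4 560 657) (leaf 4 592 721))))))))))) (merge (node 655 (merge (leaf 5 527 623) (node 656 (merge (leaf 5 559 687) (node 559 (merge (leaf 7 527 527) (node 688 (merge (leaf 7 559 591) (node 593 (merge (leaf 6 560 561) (node 720 (merge (leaf 6 592 625) (node 721 (merge (leaf 4 592 689) (leaf 4 624 753))))))))))))))) (node 591 (merge (node 625 (merge (leaf 4 528 657) (node 626 (merge (leaf 3 591 627) (node 590 (merge (leaf 0 589 589) (leaf 0 590 593))))))) (merge (node 625 (merge (leaf 4 528 657) (node 626 (merge (leaf 3 591 627) (node 623 (merge (leaf 3 590 590) (leaf 5 527 655))))))) (merge (node 623 (merge (leaf 5 527 655) (node 590 (merge (node 589 (merge (leaf 2 557 561) (leaf 0 588 588))) (merge (node 593 (merge (node 622 (merge (leaf 1 590 594) (leaf 2 589 621))) (merge (node 594 (merge (leaf 1 591 595) (node 558 (merge (leaf 3 557 557) (leaf 3 558 559))))) (node 561 (merge (leaf 2 558 562) (node 558 (merge (leaf 3 557 557) (node 526 (merge (leaf 4 494 494) (node 525 (merge (leaf 0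 525 527) (leaf 3 525 559)))))))))))) (node 589 (merge (leaf 0 588 588) (node 621 (merge (leaf 1 588 620) (node 593 (merge (leaf 1 589 622) (node 557 (merge (leaf 3 556 556) (leaf 3 557 558)))))))))))))) (node 625 (merge (leaf 4 528 657) (node 626 (merge (leaf 3 591 627) (node 623 (merge (leaf 5 527 655) (node 594 (merge (leaf 2 591 595) (node 622 (merge (leaf 1 590 593) (node 653 (merge (leaf 1 621 654) (node 621 (merge (leaf 2 588 620) (leaf 1 620 652)))))))))))))))))))))))) (merge (node 496 (merge (node 593 (merge (leaf 4 496 625) (node 465 (merge (leaf 6 464 497) (node 464 (merge (leaf 6 432 433) (leaf 4 464 561))))))) (merge (node 593 (merge (leaf 4 496 625) (node 561 (merge (leaf 4 464 464) (node 591 (merge (leaf 5 495 623) (node 590 (merge (leaf 2 558 562) (leaf 2 557 589))))))))) (merge (node 465 (merge (leaf 6 464 497) (node 464 (merge (leaf 6 432 433) (node 591 (merge (leaf 5 463 559) (leaf 5 495 623))))))) (node 591 (merge (leaf 5 495 623) (node 562 (merge (node 561 (merge (leaf 1 559 563) (node 590 (merge (leaf 1 558 559) (leaf 2 557 589))))) (merge (node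 593 (merge (leaf 4 496 625) (node 563 (merge (leaf 1 559 561) (leaf 2 559 594))))) (merge (node 593 (merge (leaf 4 496 625) (node 594 (merge (leaf 2 559 563) (node 627 (merge (leaf 0 591 626) (node 595 (merge (leaf 3 559 559) (leaf 0 592 628))))))))) (node 497 (merge (leaf 6 464 465) (node 593 (merge (leaf 4 496 625) (node 590 (merge (leaf 2 558 561) (node 558 (merge (leaf 3 557 557) (node 594 (merge (leaf 3 558 559) (node 627 (merge (leaf 0 591 626) (node 595 (merge (leaf 0 592 628) (node 498 (merge (leaf 4 498 530) (node 499 (merge (leaf 1 495 527) (node 532 (merge (leaf 0 496 531) (node 500 (merge (leaf 0 497 533) (node 468 (merge (leaf 2 464 467) (leaf 2 465 469))))))))))))))))))))))))))))))))))) (merge (node 593 (merge (node 625 (merge (leaf 4 496 496) (node 657 (merge (leaf 4 528 624) (leaf 7 560 689))))) (merge (node 496 (merge (leaf 4 496 625) (node 465 (merge (leaf 6 464 497) (node 464 (merge (leaf 6 432 433) (leaf 4 464 561))))))) (merge (node 624 (merge (node 623 (merge (leaf 5 527 655) (node 594 (merge (leaf 1 591 595) (node 622 (merge (leaf 1 590 591)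 (leaf 2 589 621))))))) (merge (node 657 (merge (leaf 4 528 625) (node 656 (merge (leaf 4 560 689) (node 688 (merge (leaf 6 560 561) (node 687 (merge (leaf 5 559 655) (leaf 5 591 719))))))))) (node 623 (merge (node 594 (merge (leaf 1 591 595) (node 622 (merge (leaf 1 590 591) (leaf 2 589 621))))) (merge (node 625 (merge (leaf 4 528 657) (node 622 (merge (leaf 2 590 594) (leaf 2 589 621))))) (merge (node 657 (merge (leaf 4 528 625) (node 656 (merge (leaf 4 560 689) (node 688 (merge (leaf 6 560 561) (node 720 (merge (leaf 7 591 591) (node 719 (merge (leaf 5 591 687) (leaf 5 623 751))))))))))) (node 657 (merge (leaf 4 528 625) (node 656 (merge (leaf 4 560 689) (node 688 (merge (leaf 6 560 561) (node 720 (merge (leaf 7 591 591) (node 719 (merge (leaf 5 591 687) (leaf 5 623 751)))))))))))))))))) (node 591 (merge (node 623 (merge (leaf 5 495 496) (node 655 (merge (leaf 5 527 624) (leaf 6 559 687))))) (merge (node 562 (merge (node 561 (merge (leaf 1 559 563) (leaf 2 558 590))) (merge (node 590 (merge (leaf 2 558 561) (node 622 (merge (leaf 1 589 621) (node 623 (merge (leaf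 1 590 594) (node 558 (merge (leaf 3 557 557) (node 655 (merge (leaf 4 526 526) (leaf 5 527 624))))))))))) (node 594 (merge (leaf 2 559 563) (node 627 (merge (leaf 0 591 626) (node 595 (merge (leaf 0 592 628) (node 623 (merge (leaf 1 590 622) (leaf 1 591 624)))))))))))) (node 594 (merge (node 627 (merge (leaf 0 591 626) (node 595 (merge (leaf 0 592 628) (node 563 (merge (leaf 2 559 562) (leaf 2 560 564))))))) (merge (node 562 (merge (leaf 2 559 563) (node 590 (merge (leaf 2 558 561) (node 621 (merge (leaf 1 589 622) (node 589 (merge (leaf 1 588 620) (node 557 (merge (leaf 3 556 556) (leaf 3 557 558))))))))))) (merge (node 627 (merge (leaf 0 591 626) (node 595 (merge (leaf 0 592 628) (node 596 (merge (leaf 3 560 561) (node 564 (merge (leaf 2 560 563) (leaf 2 561 565))))))))) (node 627 (merge (leaf 0 591 626) (node 595 (merge (leaf 0 592 628) (node 561 (merge (leaf 3 560 596) (node 590 (merge (leaf 2 558 562) (leaf 2 557 589)))))))))))))))))))) (merge (node 624 (merge (node 657 (merge (leaf 4 528 625) (node 656 (merge (leaf 4 560 689) (node 655 (merge (leaf 5 527 623)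 (leaf 5 559 687))))))) (merge (node 625 (merge (leaf 4 528 657) (node 593 (merge (leaf 4 496 496) (node 623 (merge (leaf 5 527 655) (node 622 (merge (leaf 2 590 594) (leaf 2 589 621))))))))) (merge (node 593 (merge (node 625 (merge (leaf 4 496 496) (node 623 (merge (leaf 5 527 655) (node 622 (merge (leaf 2 590 594) (leaf 2 589 621))))))) (merge (node 496 (merge (leaf 4 496 625) (node 465 (merge (leaf 6 464 497) (node 464 (merge (leaf 6 432 433) (leaf 4 464 561))))))) (node 655 (merge (leaf 5 527 623) (node 656 (merge (leaf 5 559 687) (node 559 (merge (leaf 7 527 527) (node 558 (merge (leaf 0 557 557) (node 594 (merge (leaf 0 558 561) (leaf 3 559 595)))))))))))))) (merge (node 559 (merge (node 656 (merge (leaf 7 527 527) (node 657 (merge (leaf 4 528 625) (leaf 4 560 689))))) (merge (node 625 (merge (leaf 4 528 657) (node 593 (merge (leaf 4 496 496) (node 558 (merge (leaf 0 557 557) (node 594 (merge (leaf 0 558 561) (leaf 3 559 595))))))))) (merge (node 496 (merge (node 593 (merge (leaf 4 496 625) (node 594 (merge (leaf 3 559 595) (node 558 (merge (leaf 0 557 557)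 (leaf 0 558 561))))))) (node 465 (merge (leaf 6 464 497) (node 464 (merge (leaf 6 432 433) (node 432 (merge (leaf 5 431 527) (node 431 (merge (leaf 7 399 399) (leaf 7 431 463))))))))))) (node 561 (merge (node 527 (merge (leaf 7 527 656) (node 562 (merge (leaf 3 526 526) (leaf 3 527 563))))) (merge (node 656 (merge (leaf 7 527 527) (node 689 (merge (leaf 4 560 657) (node 688 (merge (leaf 6 560 593) (leaf 4 592 721))))))) (merge (node 562 (merge (node 563 (merge (leaf 3 527 527) (node 531 (merge (leaf 2 527 530) (leaf 2 528 532))))) (merge (node 563 (merge (leaf 3 527 527) (node 596 (merge (leaf 0 560 595) (node 564 (merge (leaf 1 560 593) (leaf 0 561 597))))))) (node 594 (merge (leaf 0 559 595) (node 558 (merge (leaf 0 558 593) (node 589 (merge (leaf 1 557 590) (node 557 (merge (leaf 1 556 588) (node 525 (merge (leaf 3 524 524) (leaf 3 525 526)))))))))))))) (node 562 (merge (node 595 (merge (leaf 0 559 594) (node 563 (merge (leaf 0 560 596) (node 531 (merge (leaf 2 527 530) (leaf 2 528 532))))))) (merge (node 594 (merge (leaf 0 559 595) (node 558 (merge (leaf 0 558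 593) (node 589 (merge (leaf 1 557 590) (node 557 (merge (leaf 1 556 588) (node 525 (merge (leaf 3 524 524) (leaf 3 525 526))))))))))) (merge (node 531 (merge (leaf 2 527 530) (node 563 (merge (leaf 2 528 532) (node 596 (merge (leaf 0 560 595) (node 564 (merge (leaf 1 560 593) (leaf 0 561 597))))))))) (node 531 (merge (leaf 2 527 530) (node 563 (merge (leaf 2 528 532) (node 593 (merge (leaf 1 560 564) (node 558 (merge (leaf 0 557 557) (leaf 0 558 594))))))))))))))))))))) (node 656 (merge (node 655 (merge (leaf 5 527 623) (leaf 5 559 687))) (merge (node 689 (merge (leaf 4 560 657) (node 688 (merge (leaf 4 592 721) (node 687 (merge (leaf 5 559 655) (leaf 5 591 719))))))) (merge (hyp 0) (hyp 1)))))))))) (merge (hyp 2) (hyp 3))))))))) nP_105 cP_105 18 (by decide +kernel)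

end Crest.Agent.H26Snaky
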