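import Crest.Agent.H26SnP000
import Crest.Agent.H26SnP001

/-! certificate data for S0047, part P 8 (computer generated) -/

set_option autoImplicit false
set_option maxRecDepth 100000

namespace Crest.Agent.H26Snaky

open T

def nP_106 : ℕ := 0x180000001000000000000000000000000000000000000000000000000000000000000000000000000000000000000000000000000000000000000000000000000000000000000
def cP_106 : ℕ := 0x1e0000001f000000ff000000e70000000f0000000f0000000f0000000f00000005000000000000000000000000000000000000000000000000000000000000000000000000000000000000000000000000000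
theorem lP_106 : S nP_106 cP_106 11 := S_of_chk [(nP_5, cP_5, 10)] ⟨lP_5, trivial⟩ (node 527 (merge (node 558 (merge (node 557 (merge (leaf 2 524 556) (node 592 (merge (leaf 0 557 593) (node 495 (merge (leaf 4 463 463) (leaf 7 495 624))))))) (merge (node 557 (merge (leaf 2 524 556) (node 589 (merge (leaf 1 556 588) (node 590 (merge (leaf 1 557 561) (node 622 (merge (leaf 6 526 654) (node 495 (merge (leaf 5 462 463) (leaf 5 494 591))))))))))) (merge (node 590 (merge (node 561 (merge (leaf 1 557 589) (node 562 (merge (leaf 3 527 563) (leaf 1 558 591))))) (merge (node 622 (merge (leaf 6 526 654) (node 495 (merge (leaf 5 462 463) (leaf 5 494 591))))) (node 561 (merge (leaf 1 557 589) (node 594 (merge (leaf 0 558 593) (node 562 (merge (leaf 3 527 563) (leaf 0 559 595)))))))))) (node 557 (merge (leaf 2 524 556) (node 593 (merge (leaf 0 557 592) (node 561 (merge (leaf 0 558 594) (node 590 (merge (leaf 1 557 589) (node 562 (merge (leaf 3 527 563) (leaf 1 558 591))))))))))))))) (merge (node 558 (merge (node 557 (merge (leaf 2 524 556) (node 592 (merge (leaf 0 557 593) (node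 624 (merge (leaf 7 495 495) (leaf 7 527 656))))))) (merge (node 557 (merge (leaf 2 524 556) (node 589 (merge (leaf 1 556 588) (node 561 (merge (leaf 1 557 590) (node 562 (merge (leaf 3 526 526) (leaf 3 527 563))))))))) (node 561 (merge (node 562 (merge (leaf 3 527 563) (node 594 (merge (leaf 0 558 593) (leaf 0 559 595))))) (node 590 (merge (leaf 1 557 589) (node 526 (merge (leaf 3 525 525) (node 622 (merge (leaf 6 494 495) (leaf 6 526 654)))))))))))) (merge (node 591 (merge (node 623 (merge (leaf 6 527 655) (node 526 (merge (leaf 7 494 494) (node 561 (merge (leaf 0 525 525) (leaf 3 526 562))))))) (merge (node 623 (merge (leaf 6 527 655) (node 622 (merge (leaf 5 526 654) (node 495 (merge (leaf 5 494 590) (node 463 (merge (leaf 4 431 431) (leaf 4 463 592))))))))) (node 495 (merge (node 592 (merge (leaf 4 463 463) (leaf 7 495 624))) (merge (node 463 (merge (leaf 4 431 431) (node 462 (merge (leaf 7 430 430) (leaf 7 462 494))))) (node 592 (merge (leaf 4 495 624) (node 590 (merge (leaf 5 494 622) (node 561 (merge (leaf 1 558 562) (leaf 2 557 589))))))))))))) (merge (node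 591 (merge (node 623 (merge (leaf 6 527 655) (node 526 (merge (leaf 7 494 494) (node 561 (merge (leaf 0 525 525) (leaf 3 526 562))))))) (merge (node 623 (merge (leaf 6 527 655) (node 494 (merge (leaf 7 494 526) (node 622 (merge (leaf 5 526 654) (node 495 (merge (leaf 7 462 462) (leaf 5 494 590))))))))) (merge (node 623 (merge (leaf 6 527 655) (node 622 (merge (leaf 5 526 654) (node 590 (merge (leaf 5 494 495) (node 561 (merge (leaf 1 558 562) (node 589 (merge (leaf 1 557 558) (leaf 2 556 588))))))))))) (node 590 (merge (node 561 (merge (leaf 1 558 562) (node 589 (merge (leaf 1 557 558) (leaf 2 556 588))))) (node 495 (merge (leaf 5 494 622) (node 463 (merge (leaf 4 431 431) (node 462 (merge (leaf 7 430 430) (leaf 7 462 494))))))))))))) (merge (node 558 (merge (node 592 (merge (node 624 (merge (leaf 7 495 495) (leaf 7 527 656))) (node 593 (merge (leaf 0 557 557) (node 594 (merge (leaf 3 558 591) (leaf 3 559 595))))))) (merge (node 557 (merge (leaf 2 524 556) (node 525 (merge (leaf 3 524 524) (node 526 (merge (leaf 0 525 561) (node 493 (merge (leaf 3 492 492) (node 590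 (merge (leaf 4 461 461) (leaf 7 493 622))))))))))) (node 526 (merge (node 561 (merge (leaf 3 525 525) (leaf 3 526 562))) (node 494 (merge (node 462 (merge (leaf 4 430 430) (leaf 4 462 591))) (node 495 (merge (node 463 (merge (leaf 4 431 431) (leaf 4 463 592))) (node 493 (merge (leaf 0 492 492) (node 590 (merge (leaf 7 461 461) (leaf 6 494 622)))))))))))))) (merge (node 558 (merge (node 561 (merge (node 562 (merge (leaf 3 526 526) (leaf 3 527 563))) (merge (node 562 (merge (leaf 3 527 563) (node 594 (merge (leaf 0 558 593) (leaf 0 559 595))))) (node 525 (merge (leaf 3 525 526) (node 557 (merge (leaf 3 524 524) (node 593 (merge (leaf 0 557 592) (leaf 0 558 594)))))))))) (merge (node 557 (merge (leaf 2 524 556) (node 593 (merge (leaf 0 557 592) (node 561 (merge (leaf 0 558 594) (node 590 (merge (leaf 1 557 589) (node 562 (merge (leaf 3 527 563) (leaf 1 558 591))))))))))) (merge (node 526 (merge (node 561 (merge (leaf 3 525 525) (leaf 3 526 562))) (merge (node 525 (merge (leaf 0 524 524) (node 493 (merge (leaf 3 492 492) (node 590 (merge (leaf 7 493 622) (node 461 (merge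 (leaf 4 429 429) (leaf 7 461 494))))))))) (node 561 (merge (leaf 3 526 562) (node 590 (merge (leaf 1 557 589) (node 622 (merge (leaf 6 526 654) (node 623 (merge (leaf 4 526 655) (node 494 (merge (leaf 7 494 591) (node 461 (merge (leaf 7 461 493) (node 462 (merge (leaf 7 429 429) (leaf 4 430 430)))))))))))))))))) (node 526 (merge (node 525 (merge (leaf 0 524 524) (node 557 (merge (leaf 1 524 556) (node 493 (merge (leaf 3 492 492) (node 590 (merge (leaf 4 461 461) (leaf 7 493 622))))))))) (merge (node 525 (merge (leaf 0 524 524) (node 493 (merge (leaf 3 492 492) (node 590 (merge (leaf 7 493 622) (node 461 (merge (leaf 4 429 429) (leaf 7 461 494))))))))) (node 557 (merge (leaf 2 524 556) (node 592 (merge (leaf 0 557 593) (node 624 (merge (leaf 7 527 656) (node 623 (merge (leaf 5 527 655) (node 494 (merge (leaf 7 494 591) (node 462 (merge (leaf 4 430 430) (leaf 5 461 589)))))))))))))))))))) (merge (node 558 (merge (node 561 (merge (node 562 (merge (leaf 3 526 526) (leaf 3 527 563))) (node 593 (merge (leaf 0 558 594) (node 592 (merge (leaf 0 557 557) (node 495 (merge (leaf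 4 463 463) (leaf 7 495 624))))))))) (merge (node 495 (merge (node 463 (merge (leaf 4 431 431) (leaf 5 462 590))) (node 592 (merge (leaf 7 495 624) (node 593 (merge (leaf 0 557 557) (node 594 (merge (leaf 3 558 591) (leaf 3 559 595))))))))) (merge (node 561 (merge (node 562 (merge (leaf 3 526 526) (leaf 3 527 563))) (merge (node 589 (merge (leaf 1 557 590) (node 557 (merge (leaf 1 556 588) (node 525 (merge (leaf 3 524 524) (leaf 3 525 526))))))) (node 562 (merge (leaf 3 527 563) (node 590 (merge (leaf 1 558 591) (node 558 (merge (leaf 1 557 589) (node 594 (merge (leaf 0 558 593) (leaf 0 559 595)))))))))))) (merge (node 561 (merge (node 562 (merge (leaf 3 526 526) (leaf 3 527 563))) (merge (node 589 (merge (leaf 1 557 590) (node 557 (merge (leaf 1 556 588) (node 525 (merge (leaf 3 524 524) (leaf 3 525 526))))))) (node 562 (merge (leaf 3 527 563) (node 591 (merge (leaf 1 558 590) (node 623 (merge (leaf 6 527 655) (node 624 (merge (leaf 4 527 656) (node 495 (merge (leaf 7 495 592) (node 462 (merge (leaf 7 462 494) (node 463 (merge (leaf 7 430 430) (leaf 4 431 431))))))))))))))))))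 (node 526 (merge (node 561 (merge (leaf 3 525 525) (leaf 3 526 562))) (merge (node 525 (merge (leaf 0 524 524) (node 493 (merge (leaf 3 492 492) (node 461 (merge (leaf 4 429 429) (node 494 (merge (leaf 7 461 590) (node 591 (merge (leaf 4 462 462) (leaf 7 494 623))))))))))) (node 494 (merge (node 591 (merge (leaf 4 462 462) (leaf 7 494 623))) (node 561 (merge (leaf 3 526 562) (node 590 (merge (leaf 1 557 589) (node 495 (merge (leaf 6 462 463) (node 493 (merge (leaf 7 461 461) (leaf 0 492 492))))))))))))))))))) (merge (node 592 (merge (node 624 (merge (leaf 7 495 495) (leaf 7 527 656))) (merge (node 591 (merge (node 623 (merge (leaf 6 527 655) (node 494 (merge (leaf 7 494 526) (node 495 (merge (leaf 7 462 462) (leaf 4 463 463))))))) (merge (node 623 (merge (leaf 6 527 655) (node 622 (merge (leaf 5 526 654) (node 593 (merge (leaf 1 590 594) (node 621 (merge (leaf 1 589 590) (leaf 2 588 620))))))))) (node 495 (merge (leaf 4 463 463) (node 494 (merge (leaf 7 462 462) (node 590 (merge (leaf 5 494 622) (node 589 (merge (leaf 2 556 588) (node 621 (merge (leaf 1 588 620) (node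 557 (merge (leaf 3 556 556) (node 558 (merge (leaf 5 493 526) (leaf 0 557 593)))))))))))))))))) (node 526 (merge (node 525 (merge (leaf 0 524 524) (node 557 (merge (leaf 1 524 556) (node 558 (merge (leaf 0 557 593) (node 493 (merge (leaf 3 492 492) (node 461 (merge (leaf 4 429 429) (leaf 4 461 590))))))))))) (merge (node 624 (merge (leaf 7 527 656) (node 623 (merge (leaf 5 527 655) (node 591 (merge (leaf 7 494 494) (node 622 (merge (leaf 5 526 654) (node 621 (merge (leaf 2 589 593) (leaf 2 588 620))))))))))) (node 525 (merge (leaf 0 524 524) (node 557 (merge (leaf 1 524 556) (node 624 (merge (leaf 7 527 656) (node 493 (merge (leaf 3 492 492) (node 623 (merge (leaf 5 527 655) (node 494 (merge (leaf 7 494 591) (node 589 (merge (leaf 6 461 462) (leaf 6 493 621))))))))))))))))))))) (hyp 0)))))))))) nP_106 cP_106 11 (by decide +kernel)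
def nP_107 : ℕ := 0x180000001800000000000000000000000000000000000000000000000000000000000000000000000000000000000000000000000000000000000000000000000000000000000
def cP_107 : ℕ := 0x38000000fb0000001f000000e7000000070000000f0000000f0000000000000000000000000000000000000000000000000000000000000000000000000000000000000000000000000000000000000000000
theorem lP_107 : S nP_107 cP_107 10 := S_of_chk [] trivial (node 591 (merge (node 623 (merge (leaf 6 527 655) (node 526 (merge (leaf 7 494 494) (node 561 (merge (leaf 0 525 525) (leaf 3 526 562))))))) (merge (node 623 (merge (leaf 6 527 655) (node 624 (merge (leaf 4 527 656) (node 592 (merge (leaf 7 495 495) (node 625 (merge (leaf 4 528 657) (node 626 (merge (leaf 3 590 590) (leaf 3 591 627))))))))))) (node 558 (merge (node 557 (merge (leaf 2 524 556) (node 525 (merge (leaf 3 524 524) (node 561 (merge (leaf 0 525 526) (node 562 (merge (leaf 3 527 563) (leaf 1 558 590))))))))) (merge (node 557 (merge (leaf 2 524 556) (node 589 (merge (leaf 1 556 588) (node 561 (merge (leaf 1 557 590) (node 562 (merge (leaf 3 526 526) (leaf 3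 527 563))))))))) (merge (node 557 (merge (leaf 2 524 556) (node 589 (merge (leaf 1 556 588) (node 525 (merge (leaf 3 524 524) (node 526 (merge (leaf 0 525 561) (node 494 (merge (leaf 4 462 462) (leaf 6 493 621))))))))))) (merge (node 561 (merge (node 526 (merge (leaf 3 525 525) (leaf 3 526 562))) (merge (node 562 (merge (leaf 3 527 563) (leaf 1 558 590))) (node 526 (merge (leaf 0 525 525) (node 590 (merge (leaf 1 557 589) (node 494 (merge (leaf 4 462 462) (node 495 (merge (leaf 6 462 463) (node 493 (merge (leaf 7 461 461) (leaf 0 492 492)))))))))))))) (merge (node 557 (merge (leaf 2 524 556) (node 589 (merge (leaf 1 556 588) (node 590 (merge (leaf 1 557 561) (node 525 (merge (leaf 3 524 524) (node 493 (merge (leaf 4 461 461) (node 494 (merge (leaf 6 461 462) (node 495 (merge (leaf 5 462 463) (leaf 0 492 492))))))))))))))) (node 590 (merge (node 557 (merge (leaf 2 524 556) (node 589 (merge (leaf 1 556 588) (node 525 (merge (leaf 3 524 524) (node 493 (merge (leaf 4 461 461) (node 492 (merge (leaf 7 460 460) (leaf 3 492 526))))))))))) (merge (node 557 (merge (leaf 2 524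 556) (node 525 (merge (leaf 3 524 524) (node 493 (merge (leaf 4 461 461) (node 495 (merge (leaf 5 462 463) (node 494 (merge (leaf 7 462 462) (leaf 0 492 492))))))))))) (node 589 (merge (leaf 2 556 588) (node 495 (merge (leaf 5 462 463) (node 494 (merge (leaf 7 462 462) (node 592 (merge (leaf 4 495 624) (node 621 (merge (leaf 5 493 526) (leaf 1 588 620))))))))))))))))))))))) nP_107 cP_107 10 (by decide +kernel)
def nP_108 : ℕ := 0x180000001000000000000000000000000000000000000000000000000000000000000000000000000000000000000000000000000000000000000000000000000000000000000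
def cP_108 : ℕ := 0x28000000380000003c000003ff000001ff000003ff800000e7000001cb8000000a0000000a0000000000000000000000000000000000000000000000000000000000000000000000000000000000000000000000000000000000000000000
theorem lP_108 : S nP_108 cP_108 11 := S_of_chk [] trivial (node 592 (merge (node 624 (merge (node 527 (merge (leaf 7 495 495) (leaf 7 527 656))) (merge (node 657 (merge (leaf 4 528 625) (node 656 (merge (leaf 4 560 689) (node 655 (merge (leaf 5 527 623) (leaf 5 559 687))))))) (node 625 (merge (leaf 4 528 657) (node 593 (merge (node 594 (merge (leaf 3 559 595) (node 558 (merge (leaf 0 557 557) (leaf 3 558 591))))) (merge (node 594 (merge (leaf 3 559 595) (node 623 (merge (leaf 5 527 655) (node 622 (merge (leaf 2 589 621) (leaf 2 590 625))))))) (node 527 (merge (leaf 7 495 495) (node 623 (merge (leaf 5 527 655) (node 622 (merge (leaf 2 589 621) (node 654 (merge (leaf 5 526 591) (leaf 1 621 653))))))))))))))))) (merge (node 591 (merge (node 590 (merge (node 589 (merge (leaf 2 557 561) (leaf 2 556 588))) (node 622 (merge (node 621 (merge (leaf 1 589 593) (node 623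 (merge (leaf 2 588 620) (leaf 6 527 655))))) (node 654 (merge (leaf 6 558 686) (node 527 (merge (leaf 5 494 495) (leaf 6 526 558))))))))) (merge (node 623 (merge (leaf 6 527 655) (node 624 (merge (node 657 (merge (leaf 4 528 625) (node 656 (merge (leaf 7 559 688) (leaf 4 560 689))))) (node 527 (merge (leaf 7 495 495) (node 622 (merge (leaf 5 526 654) (node 621 (merge (leaf 2 589 593) (leaf 2 588 620))))))))))) (merge (node 624 (merge (node 527 (merge (leaf 7 495 495) (leaf 7 527 656))) (merge (node 657 (merge (leaf 4 528 625) (node 656 (merge (leaf 7 559 688) (leaf 4 560 689))))) (node 625 (merge (leaf 4 528 657) (node 590 (merge (leaf 0 589 589) (node 626 (merge (leaf 0 590 593) (leaf 3 591 627)))))))))) (node 624 (merge (node 657 (merge (leaf 4 528 625) (node 656 (merge (leaf 7 559 688) (leaf 4 560 689))))) (merge (node 656 (merge (leaf 7 559 688) (node 655 (merge (leaf 6 527 623) (leaf 5 559 687))))) (node 625 (merge (leaf 4 528 657) (node 623 (merge (leaf 6 527 655) (node 590 (merge (leaf 0 589 589) (leaf 3 590 626)))))))))))))) (merge (node 558 (merge (node 593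 (merge (leaf 0 557 557) (node 594 (merge (leaf 0 558 561) (leaf 3 559 595))))) (merge (node 624 (merge (node 527 (merge (leaf 7 495 495) (leaf 7 527 656))) (node 625 (merge (leaf 4 528 657) (node 594 (merge (node 593 (merge (leaf 3 558 591) (leaf 3 559 595))) (merge (node 595 (merge (leaf 3 559 593) (node 623 (merge (leaf 2 591 626) (leaf 5 527 655))))) (merge (node 623 (merge (leaf 5 527 655) (node 626 (merge (leaf 2 591 595) (node 591 (merge (leaf 3 590 590) (leaf 3 591 627))))))) (node 591 (merge (leaf 3 558 593) (node 590 (merge (leaf 0 589 589) (node 626 (merge (leaf 3 590 623) (leaf 3 591 627))))))))))))))) (node 624 (merge (node 527 (merge (leaf 7 495 495) (leaf 7 527 656))) (merge (node 657 (merge (leaf 4 528 625) (node 656 (merge (leaf 4 560 689) (node 655 (merge (leaf 5 527 623) (leaf 5 559 687))))))) (node 527 (merge (leaf 7 495 495) (node 557 (merge (leaf 2 524 556) (node 589 (merge (leaf 1 556 588) (node 590 (merge (leaf 1 557 561) (node 625 (merge (leaf 0 589 591) (leaf 4 528 657))))))))))))))))) (merge (node 527 (merge (node 624 (merge (leaf 7 495 495)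 (leaf 7 527 656))) (merge (node 593 (merge (node 594 (merge (leaf 3 559 595) (node 558 (merge (leaf 0 557 557) (leaf 0 558 561))))) (merge (node 624 (merge (leaf 7 527 656) (node 594 (merge (leaf 3 559 595) (node 623 (merge (leaf 5 527 655) (node 622 (merge (leaf 1 590 591) (leaf 2 589 621))))))))) (node 558 (merge (leaf 0 557 557) (node 624 (merge (leaf 7 527 656) (node 623 (merge (leaf 5 527 655) (node 622 (merge (leaf 2 589 621) (node 654 (merge (leaf 6 526 590) (leaf 5 526 591)))))))))))))) (node 558 (merge (node 557 (merge (leaf 2 524 556) (leaf 0 557 593))) (merge (node 557 (merge (leaf 2 524 556) (node 589 (merge (leaf 1 556 588) (node 590 (merge (leaf 1 557 561) (node 622 (merge (leaf 6 526 654) (node 495 (merge (leaf 5 462 463) (leaf 5 494 591))))))))))) (node 590 (merge (node 561 (merge (leaf 1 557 589) (node 562 (merge (leaf 3 527 563) (leaf 1 558 591))))) (merge (node 622 (merge (leaf 6 526 654) (node 495 (merge (leaf 5 462 463) (leaf 5 494 591))))) (node 561 (merge (leaf 1 557 589) (node 594 (merge (leaf 0 558 593) (node 562 (merge (leaf 3 527 563) (leaf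 0 559 595)))))))))))))))) (merge (node 558 (merge (node 557 (merge (leaf 0 557 593) (node 556 (merge (leaf 2 524 527) (leaf 0 556 591))))) (merge (node 593 (merge (leaf 0 557 557) (node 594 (merge (leaf 0 558 561) (leaf 3 559 595))))) (merge (node 589 (merge (node 590 (merge (leaf 1 557 561) (node 588 (merge (leaf 2 555 587) (leaf 2 556 591))))) (merge (node 557 (merge (leaf 1 556 588) (node 524 (merge (leaf 3 524 525) (node 556 (merge (leaf 3 523 523) (leaf 2 524 527))))))) (node 590 (merge (leaf 1 557 561) (node 557 (merge (node 556 (merge (leaf 2 524 527) (leaf 0 556 591))) (node 525 (merge (leaf 3 524 524) (node 493 (merge (leaf 4 461 461) (leaf 4 493 622)))))))))))) (node 561 (merge (node 590 (merge (leaf 1 557 589) (node 562 (merge (leaf 1 558 591) (node 594 (merge (leaf 0 558 593) (leaf 0 559 595))))))) (merge (node 590 (merge (leaf 1 557 589) (node 562 (merge (leaf 1 558 591) (node 531 (merge (leaf 2 527 530) (node 563 (merge (leaf 3 527 527) (leaf 2 528 532))))))))) (merge (node 594 (merge (leaf 0 558 593) (node 562 (merge (leaf 0 559 595) (node 563 (merge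 (leaf 3 527 527) (node 531 (merge (leaf 2 527 530) (leaf 2 528 532))))))))) (node 590 (merge (leaf 1 557 589) (node 593 (merge (leaf 0 558 594) (node 625 (merge (leaf 7 528 657) (node 591 (merge (leaf 0 590 626) (node 622 (merge (leaf 1 589 621) (node 527 (merge (leaf 5 494 495) (leaf 6 526 654))))))))))))))))))))) (merge (node 624 (merge (node 527 (merge (leaf 7 495 495) (leaf 7 527 656))) (merge (node 657 (merge (leaf 4 528 625) (node 656 (merge (leaf 4 560 689) (node 655 (merge (leaf 5 527 623) (leaf 5 559 687))))))) (node 625 (merge (leaf 4 528 657) (node 626 (merge (node 623 (merge (leaf 5 527 655) (node 659 (merge (leaf 0 623 658) (node 627 (merge (leaf 0 624 660) (node 595 (merge (leaf 2 591 594) (leaf 2 592 596))))))))) (merge (node 627 (merge (leaf 3 591 591) (node 660 (merge (leaf 0 624 659) (node 628 (merge (leaf 0 625 661) (node 596 (merge (leaf 2 592 595) (leaf 2 593 597))))))))) (node 527 (merge (leaf 7 495 495) (node 623 (merge (leaf 5 527 655) (node 590 (merge (leaf 3 590 591) (node 622 (merge (leaf 3 589 589) (node 654 (merge (leaf 6 526 558) (leaf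 1 621 653))))))))))))))))))) (merge (node 624 (merge (node 527 (merge (leaf 7 495 495) (leaf 7 527 656))) (node 623 (merge (leaf 5 527 655) (node 625 (merge (leaf 4 528 657) (node 626 (merge (node 659 (merge (leaf 0 623 658) (node 627 (merge (leaf 0 624 660) (node 595 (merge (leaf 2 591 594) (leaf 2 592 596))))))) (merge (node 594 (merge (leaf 2 591 595) (node 622 (merge (leaf 2 590 593) (node 653 (merge (leaf 1 621 654) (node 621 (merge (leaf 1 620 652) (node 589 (merge (leaf 3 588 588) (leaf 3 589 590))))))))))) (merge (node 659 (merge (leaf 0 623 658) (node 627 (merge (leaf 0 624 660) (node 593 (merge (leaf 3 592 628) (node 622 (merge (leaf 2 590 594) (leaf 2 589 621))))))))) (node 659 (merge (leaf 0 623 658) (node 627 (merge (leaf 0 624 660) (node 596 (merge (leaf 2 592 595) (node 628 (merge (leaf 3 592 593) (leaf 2 593 597))))))))))))))))))) (node 624 (merge (node 657 (merge (leaf 4 528 625) (node 656 (merge (leaf 4 560 689) (node 655 (merge (leaf 5 527 623) (leaf 5 559 687))))))) (merge (node 655 (merge (leaf 5 527 623) (node 656 (merge (leaf 5 559 687) (node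 688 (merge (leaf 7 559 591) (node 689 (merge (leaf 4 560 657) (leaf 4 592 721))))))))) (merge (node 625 (merge (leaf 4 528 657) (node 593 (merge (node 594 (merge (leaf 3 559 595) (node 558 (merge (leaf 0 557 557) (leaf 3 558 591))))) (merge (node 594 (merge (leaf 3 559 595) (node 623 (merge (leaf 5 527 655) (node 622 (merge (leaf 2 589 621) (leaf 2 590 625))))))) (node 623 (merge (leaf 5 527 655) (node 622 (merge (leaf 2 589 621) (node 654 (merge (leaf 1 621 653) (node 590 (merge (leaf 3 589 589) (node 591 (merge (leaf 0 590 626) (leaf 6 558 686)))))))))))))))) (merge (node 593 (merge (node 594 (merge (leaf 3 559 595) (node 558 (merge (leaf 0 557 557) (leaf 3 558 591))))) (merge (node 594 (merge (leaf 3 559 595) (node 623 (merge (leaf 5 527 655) (node 622 (merge (leaf 2 589 621) (leaf 2 590 625))))))) (node 655 (merge (leaf 5 527 623) (node 656 (merge (leaf 5 559 687) (node 688 (merge (leaf 7 559 591) (node 720 (merge (leaf 6 592 625) (node 721 (merge (leaf 4 592 689) (leaf 4 624 753)))))))))))))) (node 656 (merge (node 657 (merge (leaf 4 528 625) (leaf 4 560 689)))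 (merge (node 688 (merge (leaf 7 559 591) (node 625 (merge (leaf 4 528 657) (node 720 (merge (leaf 6 592 593) (node 719 (merge (leaf 5 591 687) (leaf 5 623 751))))))))) (node 688 (merge (leaf 7 559 591) (node 721 (merge (leaf 4 592 689) (node 720 (merge (leaf 4 624 753) (node 719 (merge (leaf 5 591 687) (leaf 5 623 751))))))))))))))))))))))))) nP_108 cP_108 11 (by decide +kernel)
def nP_109 : ℕ := 0x180000001000000000000000000000000000000000000000000000000000000000000000000000000000000000000000000000000000000000000000000000000000000000000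
def cP_109 : ℕ := 0x1000000038000001fc000000fd000000ff000000e70000000f0000000f0000000f0000000f00000005000000000000000000000000000000000000000000000000000000000000000000000000000000000000000000000000000
theorem lP_109 : S nP_109 cP_109 12 := S_of_chk [] trivial (node 527 (merge (node 558 (merge (node 557 (merge (leaf 2 524 556) (node 592 (merge (leaf 0 557 593) (node 495 (merge (leaf 4 463 463) (leaf 7 495 624))))))) (merge (node 557 (merge (leaf 2 524 556) (node 589 (merge (leaf 1 556 588) (node 590 (merge (leaf 1 557 561) (node 622 (merge (leaf 6 526 654) (node 495 (merge (leaf 5 462 463) (leaf 5 494 591))))))))))) (merge (node 590 (merge (node 561 (merge (leaf 1 557 589) (node 562 (merge (leaf 3 527 563) (leaf 1 558 591))))) (merge (node 622 (merge (leaf 6 526 654) (node 495 (merge (leaf 5 462 463) (leaf 5 494 591))))) (node 561 (merge (leaf 1 557 589) (node 594 (merge (leaf 0 558 593) (node 562 (merge (leaf 3 527 563) (leaf 0 559 595)))))))))) (node 557 (merge (leaf 2 524 556) (node 593 (merge (leaf 0 557 592) (node 561 (merge (leaf 0 558 594) (node 590 (merge (leaf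 1 557 589) (node 562 (merge (leaf 3 527 563) (leaf 1 558 591))))))))))))))) (merge (node 558 (merge (node 557 (merge (leaf 2 524 556) (node 592 (merge (leaf 0 557 593) (node 624 (merge (leaf 7 495 495) (leaf 7 527 656))))))) (merge (node 557 (merge (leaf 2 524 556) (node 589 (merge (leaf 1 556 588) (node 561 (merge (leaf 1 557 590) (node 562 (merge (leaf 3 526 526) (leaf 3 527 563))))))))) (node 561 (merge (node 562 (merge (leaf 3 527 563) (node 594 (merge (leaf 0 558 593) (leaf 0 559 595))))) (node 590 (merge (leaf 1 557 589) (node 526 (merge (leaf 3 525 525) (node 622 (merge (leaf 6 494 495) (leaf 6 526 654)))))))))))) (merge (node 591 (merge (node 623 (merge (leaf 6 527 655) (node 526 (merge (leaf 7 494 494) (node 561 (merge (leaf 0 525 525) (leaf 3 526 562))))))) (merge (node 623 (merge (leaf 6 527 655) (node 622 (merge (leaf 5 526 654) (node 495 (merge (leaf 5 494 590) (node 463 (merge (leaf 4 431 431) (leaf 4 463 592))))))))) (node 495 (merge (node 592 (merge (leaf 4 463 463) (leaf 7 495 624))) (merge (node 463 (merge (leaf 4 431 431) (node 462 (merge (leaf 7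 430 430) (leaf 7 462 494))))) (node 592 (merge (leaf 4 495 624) (node 590 (merge (leaf 5 494 622) (node 561 (merge (leaf 1 558 562) (leaf 2 557 589))))))))))))) (merge (node 591 (merge (node 623 (merge (leaf 6 527 655) (node 526 (merge (leaf 7 494 494) (node 561 (merge (leaf 0 525 525) (leaf 3 526 562))))))) (merge (node 623 (merge (leaf 6 527 655) (node 494 (merge (leaf 7 494 526) (node 622 (merge (leaf 5 526 654) (node 495 (merge (leaf 7 462 462) (leaf 5 494 590))))))))) (merge (node 623 (merge (leaf 6 527 655) (node 622 (merge (leaf 5 526 654) (node 590 (merge (leaf 5 494 495) (node 561 (merge (leaf 1 558 562) (node 589 (merge (leaf 1 557 558) (leaf 2 556 588))))))))))) (node 590 (merge (node 561 (merge (leaf 1 558 562) (node 589 (merge (leaf 1 557 558) (leaf 2 556 588))))) (node 495 (merge (leaf 5 494 622) (node 463 (merge (leaf 4 431 431) (node 462 (merge (leaf 7 430 430) (leaf 7 462 494))))))))))))) (merge (node 558 (merge (node 557 (merge (leaf 2 524 556) (node 592 (merge (leaf 0 557 593) (node 624 (merge (leaf 7 495 495) (leaf 7 527 656))))))) (merge (node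 557 (merge (leaf 2 524 556) (node 589 (merge (leaf 1 556 588) (node 561 (merge (leaf 1 557 590) (node 562 (merge (leaf 3 526 526) (leaf 3 527 563))))))))) (node 591 (merge (node 623 (merge (leaf 6 527 655) (node 624 (merge (leaf 4 527 656) (node 495 (merge (leaf 7 495 592) (node 463 (merge (leaf 4 431 431) (leaf 5 462 590))))))))) (merge (node 623 (merge (leaf 6 527 655) (node 494 (merge (leaf 7 494 526) (node 495 (merge (leaf 7 462 462) (node 463 (merge (leaf 4 431 431) (leaf 5 462 590))))))))) (merge (node 495 (merge (node 592 (merge (leaf 4 463 463) (leaf 7 495 624))) (merge (node 463 (merge (leaf 4 431 431) (node 462 (merge (leaf 7 430 430) (leaf 7 462 494))))) (node 624 (merge (leaf 7 495 592) (node 623 (merge (leaf 4 527 656) (node 494 (merge (leaf 7 462 462) (leaf 7 494 526)))))))))) (merge (node 623 (merge (leaf 6 527 655) (node 526 (merge (leaf 7 494 494) (node 561 (merge (leaf 3 526 562) (node 593 (merge (leaf 0 558 594) (node 590 (merge (leaf 1 557 589) (node 625 (merge (leaf 7 528 657) (node 624 (merge (leaf 3 590 626) (leaf 4 527 656))))))))))))))) (node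 561 (merge (node 562 (merge (leaf 3 526 526) (leaf 3 527 563))) (node 593 (merge (leaf 0 558 594) (node 590 (merge (leaf 1 557 589) (node 625 (merge (leaf 7 528 657) (node 592 (merge (leaf 0 590 626) (node 495 (merge (leaf 4 463 463) (leaf 7 495 624))))))))))))))))))))) (merge (node 591 (merge (node 623 (merge (leaf 6 527 655) (node 526 (merge (leaf 7 494 494) (node 561 (merge (leaf 0 525 525) (leaf 3 526 562))))))) (merge (node 495 (merge (node 592 (merge (leaf 4 463 463) (leaf 7 495 624))) (merge (node 463 (merge (leaf 4 431 431) (node 462 (merge (leaf 7 430 430) (leaf 7 462 494))))) (node 624 (merge (leaf 7 495 592) (node 623 (merge (leaf 4 527 656) (node 494 (merge (leaf 7 462 462) (leaf 7 494 526)))))))))) (node 592 (merge (node 624 (merge (leaf 7 495 495) (leaf 7 527 656))) (merge (node 624 (merge (leaf 7 527 656) (node 625 (merge (leaf 4 528 657) (node 626 (merge (leaf 3 591 627) (node 593 (merge (leaf 0 590 590) (node 594 (merge (leaf 3 558 558) (leaf 3 559 595))))))))))) (node 593 (merge (node 594 (merge (leaf 3 558 558) (leaf 3 559 595))) (node 495 (merge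 (leaf 4 463 463) (node 590 (merge (leaf 5 494 622) (node 625 (merge (leaf 0 590 626) (node 561 (merge (leaf 1 558 562) (leaf 7 528 657))))))))))))))))) (merge (node 592 (merge (node 624 (merge (leaf 7 495 495) (leaf 7 527 656))) (merge (node 591 (merge (node 624 (merge (leaf 7 527 656) (node 625 (merge (leaf 4 528 657) (node 590 (merge (leaf 0 589 589) (node 626 (merge (leaf 3 590 623) (leaf 3 591 627))))))))) (merge (node 623 (merge (leaf 6 527 655) (node 526 (merge (leaf 7 494 494) (node 525 (merge (leaf 0 524 524) (node 557 (merge (leaf 1 524 556) (node 593 (merge (leaf 0 557 558) (node 622 (merge (leaf 1 590 594) (leaf 5 526 654))))))))))))) (node 624 (merge (leaf 7 527 656) (node 625 (merge (leaf 4 528 657) (node 590 (merge (leaf 0 589 589) (node 593 (merge (leaf 0 590 626) (node 558 (merge (leaf 0 557 557) (leaf 3 558 594)))))))))))))) (node 591 (merge (node 623 (merge (leaf 6 527 655) (node 494 (merge (leaf 7 494 526) (node 495 (merge (leaf 7 462 462) (leaf 4 463 463))))))) (merge (node 623 (merge (leaf 6 527 655) (node 622 (merge (leaf 5 526 654) (node 495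 (merge (leaf 5 494 590) (node 463 (merge (leaf 4 431 431) (leaf 4 463 592))))))))) (merge (node 623 (merge (leaf 6 527 655) (node 526 (merge (leaf 7 494 494) (node 525 (merge (leaf 0 524 524) (node 557 (merge (leaf 1 524 556) (node 593 (merge (leaf 0 557 558) (node 622 (merge (leaf 1 590 594) (leaf 5 526 654))))))))))))) (node 495 (merge (leaf 4 463 463) (node 494 (merge (leaf 7 462 462) (node 493 (merge (leaf 0 492 492) (node 590 (merge (leaf 5 494 622) (node 589 (merge (leaf 2 556 588) (node 557 (merge (leaf 3 556 556) (node 558 (merge (leaf 0 557 593) (node 525 (merge (leaf 4 461 461) (leaf 3 524 524)))))))))))))))))))))))) (merge (node 558 (merge (node 561 (merge (node 562 (merge (leaf 3 526 526) (leaf 3 527 563))) (merge (node 562 (merge (leaf 3 527 563) (node 594 (merge (leaf 0 558 593) (leaf 0 559 595))))) (node 525 (merge (leaf 3 525 526) (node 557 (merge (leaf 3 524 524) (node 593 (merge (leaf 0 557 592) (leaf 0 558 594)))))))))) (merge (node 557 (merge (leaf 2 524 556) (node 593 (merge (leaf 0 557 592) (node 561 (merge (leaf 0 558 594) (node 590 (merge (leaf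 1 557 589) (node 562 (merge (leaf 3 527 563) (leaf 1 558 591))))))))))) (merge (node 526 (merge (node 561 (merge (leaf 3 525 525) (leaf 3 526 562))) (merge (node 525 (merge (leaf 0 524 524) (node 493 (merge (leaf 3 492 492) (node 590 (merge (leaf 7 493 622) (node 461 (merge (leaf 4 429 429) (leaf 7 461 494))))))))) (node 561 (merge (leaf 3 526 562) (node 590 (merge (leaf 1 557 589) (node 622 (merge (leaf 6 526 654) (node 623 (merge (leaf 4 526 655) (node 494 (merge (leaf 7 494 591) (node 461 (merge (leaf 7 461 493) (node 462 (merge (leaf 7 429 429) (leaf 4 430 430)))))))))))))))))) (node 526 (merge (node 525 (merge (leaf 0 524 524) (node 557 (merge (leaf 1 524 556) (node 493 (merge (leaf 3 492 492) (node 590 (merge (leaf 4 461 461) (leaf 7 493 622))))))))) (merge (node 525 (merge (leaf 0 524 524) (node 493 (merge (leaf 3 492 492) (node 590 (merge (leaf 7 493 622) (node 461 (merge (leaf 4 429 429) (leaf 7 461 494))))))))) (node 557 (merge (leaf 2 524 556) (node 592 (merge (leaf 0 557 593) (node 624 (merge (leaf 7 527 656) (node 623 (merge (leaf 5 527 655) (node 494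 (merge (leaf 7 494 591) (node 462 (merge (leaf 4 430 430) (leaf 5 461 589)))))))))))))))))))) (node 592 (merge (node 624 (merge (leaf 7 495 495) (leaf 7 527 656))) (merge (node 625 (merge (node 624 (merge (leaf 4 528 657) (node 656 (merge (leaf 7 527 527) (node 655 (merge (leaf 5 527 623) (leaf 5 559 687))))))) (merge (node 593 (merge (node 657 (merge (leaf 7 528 561) (leaf 7 560 689))) (node 594 (merge (leaf 3 559 595) (node 558 (merge (leaf 0 557 557) (leaf 3 558 591))))))) (node 624 (merge (node 656 (merge (leaf 7 527 527) (node 655 (merge (leaf 5 527 623) (leaf 5 559 687))))) (merge (node 656 (merge (leaf 7 527 527) (node 688 (merge (leaf 7 559 591) (node 593 (merge (leaf 6 560 561) (leaf 6 592 720))))))) (node 594 (merge (node 593 (merge (leaf 3 559 595) (node 558 (merge (leaf 0 557 557) (leaf 0 558 561))))) (merge (node 623 (merge (leaf 5 527 655) (node 593 (merge (leaf 2 590 622) (node 558 (merge (leaf 0 557 557) (leaf 0 558 561))))))) (node 623 (merge (leaf 5 527 655) (node 626 (merge (leaf 2 591 595) (node 659 (merge (leaf 0 623 658) (node 627 (merge (leaf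 3 591 591) (leaf 0 624 660)))))))))))))))))) (node 557 (merge (node 558 (merge (leaf 2 524 556) (leaf 0 557 593))) (merge (node 558 (merge (leaf 0 557 593) (node 525 (merge (leaf 3 524 524) (node 526 (merge (leaf 0 525 561) (node 493 (merge (leaf 3 492 492) (node 461 (merge (leaf 4 429 429) (node 462 (merge (leaf 6 429 430) (node 494 (merge (leaf 6 461 589) (leaf 4 462 591))))))))))))))) (node 493 (merge (node 495 (merge (leaf 4 463 463) (node 494 (merge (leaf 0 492 492) (node 462 (merge (leaf 7 462 591) (node 430 (merge (leaf 4 398 398) (leaf 4 430 526))))))))) (merge (node 495 (merge (leaf 4 463 463) (node 492 (merge (leaf 0 492 494) (node 525 (merge (leaf 3 492 526) (node 460 (merge (leaf 7 460 589) (node 428 (merge (leaf 4 396 396) (leaf 4 428 524))))))))))) (merge (node 495 (merge (leaf 4 463 463) (node 494 (merge (leaf 0 492 492) (node 462 (merge (leaf 7 462 591) (node 525 (merge (leaf 6 461 589) (node 430 (merge (leaf 4 398 398) (leaf 6 429 461))))))))))) (merge (node 525 (merge (node 526 (merge (leaf 3 492 492) (leaf 1 524 556))) (merge (node 526 (merge (leaf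 0 524 524) (leaf 0 525 561))) (node 461 (merge (node 430 (merge (leaf 6 429 462) (node 429 (merge (leaf 6 397 398) (node 556 (merge (leaf 5 428 524) (leaf 5 460 588))))))) (merge (node 460 (merge (leaf 7 428 428) (node 589 (merge (leaf 7 460 492) (node 588 (merge (leaf 5 460 556) (leaf 5 492 620))))))) (node 430 (merge (leaf 6 429 462) (node 429 (merge (leaf 6 397 398) (node 428 (merge (leaf 7 396 396) (leaf 7 428 460))))))))))))) (node 525 (merge (node 526 (merge (leaf 0 524 524) (leaf 0 525 561))) (merge (node 526 (merge (leaf 1 524 556) (leaf 0 525 561))) (node 462 (merge (node 494 (merge (leaf 6 461 589) (node 495 (merge (leaf 4 463 463) (leaf 7 462 591))))) (node 461 (merge (leaf 6 429 430) (node 428 (merge (leaf 7 428 460) (node 429 (merge (leaf 7 396 396) (node 556 (merge (leaf 5 428 524) (leaf 5 460 588)))))))))))))))))))))))))))))))))) nP_109 cP_109 12 (by decide +kernel)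
def nP_110 : ℕ := 0x180000001000000000000000000000000000000000000000000000000000000000000000000000000000000000000000000000000000000000000000000000000000000000000
def cP_110 : ℕ := 0x20000003a000000ff000000ff000000e70000000f0000000f0000003f0000001f00000005000000000000000000000000000000000000000000000000000000000000000000000000000000000000000000000000000
theorem lP_110 : S nP_110 cP_110 12 := S_of_chk [] trivial (node 527 (merge (node 558 (merge (node 557 (merge (leaf 2 524 556) (node 592 (merge (leaf 0 557 593) (node 624 (merge (leaf 7 495 495) (leaf 7 527 656))))))) (merge (node 557 (merge (leaf 2 524 556) (node 589 (merge (leaf 1 556 588) (node 561 (merge (leaf 1 557 590) (node 562 (merge (leaf 3 526 526) (leaf 3 527 563))))))))) (node 561 (merge (node 562 (merge (leaf 3 527 563) (node 594 (merge (leaf 0 558 593) (leaf 0 559 595))))) (node 590 (merge (leaf 1 557 589) (node 526 (merge (leaf 3 525 525) (node 495 (merge (leaf 5 462 463) (leaf 6 494 622)))))))))))) (merge (node 558 (merge (node 557 (merge (leaf 2 524 556) (node 592 (merge (leaf 0 557 593) (node 624 (merge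 (leaf 7 495 495) (leaf 7 527 656))))))) (merge (node 557 (merge (leaf 2 524 556) (node 589 (merge (leaf 1 556 588) (node 561 (merge (leaf 1 557 590) (node 562 (merge (leaf 3 526 526) (leaf 3 527 563))))))))) (node 495 (merge (node 592 (merge (leaf 4 463 463) (leaf 7 495 624))) (node 591 (merge (node 623 (merge (leaf 6 527 655) (node 494 (merge (leaf 7 462 462) (leaf 7 494 526))))) (node 590 (merge (leaf 5 494 622) (node 561 (merge (leaf 1 558 562) (node 589 (merge (leaf 1 557 558) (leaf 2 556 588)))))))))))))) (merge (node 591 (merge (node 495 (merge (node 592 (merge (leaf 4 463 463) (leaf 7 495 624))) (merge (node 463 (merge (leaf 4 431 431) (node 462 (merge (leaf 7 430 430) (leaf 7 462 494))))) (node 624 (merge (leaf 7 495 592) (node 623 (merge (leaf 4 527 656) (node 494 (merge (leaf 7 462 462) (leaf 7 494 526)))))))))) (merge (node 526 (merge (node 525 (merge (leaf 0 524 524) (leaf 0 525 561))) (node 494 (merge (leaf 7 494 623) (node 462 (merge (leaf 4 430 430) (leaf 4 462 558))))))) (node 592 (merge (node 624 (merge (leaf 7 495 495) (leaf 7 527 656))) (merge (node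 624 (merge (leaf 7 527 656) (node 625 (merge (leaf 4 528 657) (node 626 (merge (leaf 3 591 627) (node 593 (merge (leaf 0 590 590) (node 594 (merge (leaf 3 558 558) (leaf 3 559 595))))))))))) (node 593 (merge (node 594 (merge (leaf 3 558 558) (leaf 3 559 595))) (node 495 (merge (leaf 4 463 463) (node 590 (merge (leaf 5 494 622) (node 625 (merge (leaf 0 590 626) (node 561 (merge (leaf 1 558 562) (leaf 7 528 657))))))))))))))))) (merge (node 495 (merge (node 592 (merge (leaf 4 463 463) (leaf 7 495 624))) (merge (node 463 (merge (leaf 4 431 431) (node 464 (merge (leaf 6 431 432) (node 462 (merge (leaf 7 430 430) (node 494 (merge (leaf 7 462 591) (node 493 (merge (leaf 1 461 465) (leaf 0 492 492))))))))))) (node 591 (merge (node 624 (merge (leaf 7 495 592) (node 623 (merge (leaf 4 527 656) (node 494 (merge (leaf 7 462 462) (leaf 7 494 526))))))) (merge (node 592 (merge (leaf 4 495 624) (node 590 (merge (leaf 5 494 622) (node 589 (merge (leaf 2 557 561) (leaf 2 556 588))))))) (node 494 (merge (leaf 7 462 462) (node 526 (merge (leaf 7 494 623) (node 525 (merge (leaf 0 524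 524) (leaf 0 525 561))))))))))))) (merge (node 558 (merge (node 557 (merge (leaf 2 524 556) (node 592 (merge (leaf 0 557 593) (node 495 (merge (leaf 4 463 463) (leaf 7 495 624))))))) (merge (node 557 (merge (leaf 2 524 556) (node 589 (merge (leaf 1 556 588) (node 561 (merge (leaf 1 557 590) (node 594 (merge (leaf 0 558 593) (node 562 (merge (leaf 3 527 563) (leaf 0 559 595))))))))))) (merge (node 561 (merge (node 590 (merge (leaf 1 557 589) (node 562 (merge (leaf 3 527 563) (leaf 1 558 591))))) (merge (node 562 (merge (leaf 3 527 563) (node 594 (merge (leaf 0 558 593) (leaf 0 559 595))))) (node 593 (merge (leaf 0 558 594) (node 590 (merge (leaf 1 557 589) (node 625 (merge (leaf 7 528 657) (node 495 (merge (leaf 5 462 463) (node 592 (merge (leaf 7 495 624) (node 591 (merge (leaf 5 494 622) (leaf 0 590 626)))))))))))))))) (node 557 (merge (leaf 2 524 556) (node 589 (merge (leaf 1 556 588) (node 590 (merge (leaf 1 557 561) (node 525 (merge (leaf 3 524 524) (node 493 (merge (leaf 4 461 461) (node 494 (merge (leaf 6 461 462) (node 495 (merge (leaf 5 462 463) (leaf 0 492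 492))))))))))))))))))) (merge (node 558 (merge (node 557 (merge (leaf 2 524 556) (node 525 (merge (leaf 3 524 524) (node 561 (merge (leaf 3 525 526) (node 593 (merge (leaf 0 557 592) (leaf 0 558 594))))))))) (merge (node 557 (merge (leaf 2 524 556) (node 589 (merge (leaf 1 556 588) (node 561 (merge (leaf 1 557 590) (node 525 (merge (leaf 3 524 524) (leaf 3 525 526))))))))) (merge (node 557 (merge (leaf 2 524 556) (node 592 (merge (leaf 0 557 593) (node 589 (merge (leaf 1 556 588) (node 624 (merge (leaf 7 527 656) (node 625 (merge (leaf 4 528 657) (node 590 (merge (leaf 0 589 591) (node 623 (merge (leaf 3 589 622) (leaf 5 527 655))))))))))))))) (node 623 (merge (node 624 (merge (node 591 (merge (leaf 6 527 655) (leaf 4 527 656))) (merge (node 592 (merge (leaf 5 527 655) (leaf 7 527 656))) (merge (node 656 (merge (leaf 4 527 591) (leaf 7 527 592))) (node 655 (merge (leaf 6 527 591) (leaf 5 527 592))))))) (merge (node 591 (merge (leaf 6 527 655) (node 526 (merge (leaf 7 494 494) (node 561 (merge (leaf 0 525 525) (leaf 3 526 562))))))) (merge (node 561 (merge (node 526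 (merge (leaf 3 525 525) (leaf 3 526 562))) (merge (node 590 (merge (leaf 1 557 589) (node 562 (merge (leaf 3 527 563) (leaf 1 558 591))))) (node 526 (merge (leaf 0 525 525) (node 593 (merge (leaf 0 558 594) (node 591 (merge (leaf 7 494 494) (node 590 (merge (leaf 1 557 589) (node 625 (merge (leaf 7 528 657) (node 624 (merge (leaf 3 590 626) (leaf 4 527 656)))))))))))))))) (node 526 (merge (node 561 (merge (leaf 3 525 525) (leaf 3 526 562))) (merge (node 525 (merge (leaf 0 524 524) (node 493 (merge (leaf 3 492 492) (node 590 (merge (leaf 7 493 622) (node 461 (merge (leaf 4 429 429) (leaf 7 461 494))))))))) (node 561 (merge (leaf 3 526 562) (node 593 (merge (leaf 0 558 594) (node 590 (merge (leaf 1 557 589) (node 657 (merge (leaf 7 528 625) (node 622 (merge (leaf 4 526 655) (node 621 (merge (leaf 5 525 653) (node 624 (merge (leaf 2 589 592) (leaf 0 621 656)))))))))))))))))))))))))) (merge (node 558 (merge (node 557 (merge (leaf 2 524 556) (node 525 (merge (leaf 3 524 524) (node 561 (merge (leaf 0 525 526) (node 594 (merge (leaf 0 558 593) (node 562 (merge (leaf 3 527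 563) (leaf 0 559 595))))))))))) (merge (node 557 (merge (leaf 2 524 556) (node 589 (merge (leaf 1 556 588) (node 561 (merge (leaf 1 557 590) (node 594 (merge (leaf 0 558 593) (node 562 (merge (leaf 3 527 563) (leaf 0 559 595))))))))))) (merge (node 526 (merge (node 557 (merge (leaf 2 524 556) (node 589 (merge (leaf 1 556 588) (node 621 (merge (leaf 6 525 653) (node 494 (merge (leaf 5 461 462) (leaf 5 493 590))))))))) (merge (node 557 (merge (leaf 2 524 556) (node 589 (merge (leaf 1 556 588) (node 621 (merge (leaf 6 525 653) (node 494 (merge (leaf 5 461 462) (leaf 6 493 525))))))))) (merge (node 525 (merge (leaf 0 524 524) (node 557 (merge (leaf 1 524 556) (node 493 (merge (leaf 3 492 492) (node 461 (merge (leaf 4 429 429) (leaf 4 461 590))))))))) (node 525 (merge (leaf 0 524 524) (node 493 (merge (leaf 3 492 492) (node 461 (merge (leaf 4 429 429) (node 494 (merge (leaf 7 461 590) (node 591 (merge (leaf 4 462 462) (leaf 7 494 623))))))))))))))) (node 526 (merge (node 561 (merge (leaf 3 525 525) (leaf 3 526 562))) (merge (node 525 (merge (leaf 0 524 524) (node 493 (merge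 (leaf 3 492 492) (node 461 (merge (leaf 4 429 429) (node 494 (merge (leaf 7 461 590) (node 591 (merge (leaf 4 462 462) (leaf 7 494 623))))))))))) (node 494 (merge (node 591 (merge (leaf 4 462 462) (leaf 7 494 623))) (node 561 (merge (leaf 3 526 562) (node 590 (merge (leaf 1 557 589) (node 495 (merge (leaf 6 462 463) (node 493 (merge (leaf 7 461 461) (leaf 0 492 492)))))))))))))))))) (merge (node 592 (merge (node 624 (merge (leaf 7 495 495) (leaf 7 527 656))) (merge (node 526 (merge (node 624 (merge (leaf 7 527 656) (node 625 (merge (leaf 4 528 657) (node 623 (merge (leaf 5 527 655) (node 591 (merge (leaf 7 494 494) (node 590 (merge (leaf 0 589 589) (leaf 3 590 626))))))))))) (merge (node 525 (merge (leaf 0 524 524) (node 557 (merge (leaf 1 524 556) (node 558 (merge (leaf 0 557 593) (node 493 (merge (leaf 3 492 492) (node 461 (merge (leaf 4 429 429) (leaf 4 461 590))))))))))) (node 525 (merge (leaf 0 524 524) (node 557 (merge (leaf 1 524 556) (node 624 (merge (leaf 7 527 656) (node 493 (merge (leaf 3 492 492) (node 623 (merge (leaf 5 527 655) (node 494 (merge (leaf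 7 494 591) (node 589 (merge (leaf 6 461 462) (leaf 6 493 621)))))))))))))))))) (node 591 (merge (node 623 (merge (leaf 6 527 655) (node 494 (merge (leaf 7 494 526) (node 495 (merge (leaf 7 462 462) (leaf 4 463 463))))))) (merge (node 495 (merge (leaf 4 463 463) (node 590 (merge (leaf 5 494 622) (node 589 (merge (leaf 2 556 588) (node 621 (merge (leaf 1 588 620) (node 557 (merge (leaf 3 556 556) (node 558 (merge (leaf 0 557 593) (node 653 (merge (leaf 6 525 526) (leaf 6 557 685))))))))))))))) (merge (node 623 (merge (leaf 6 527 655) (node 526 (merge (leaf 7 494 494) (node 525 (merge (leaf 0 524 524) (node 557 (merge (leaf 1 524 556) (node 558 (merge (leaf 0 557 593) (node 493 (merge (leaf 3 492 492) (node 461 (merge (leaf 4 429 429) (leaf 4 461 590))))))))))))))) (node 495 (merge (leaf 4 463 463) (node 494 (merge (leaf 7 462 462) (node 493 (merge (leaf 0 492 492) (node 590 (merge (leaf 5 494 622) (node 589 (merge (leaf 2 556 588) (node 557 (merge (leaf 3 556 556) (node 558 (merge (leaf 0 557 593) (node 525 (merge (leaf 4 461 461) (leaf 3 524 524))))))))))))))))))))))))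 (node 592 (merge (node 624 (merge (leaf 7 495 495) (leaf 7 527 656))) (merge (node 557 (merge (node 558 (merge (leaf 2 524 556) (leaf 0 557 593))) (merge (node 558 (merge (leaf 0 557 593) (node 589 (merge (leaf 1 556 588) (node 525 (merge (leaf 3 524 524) (node 526 (merge (leaf 0 525 561) (node 621 (merge (leaf 6 493 494) (leaf 6 525 653))))))))))) (node 493 (merge (node 495 (merge (leaf 4 463 463) (node 494 (merge (leaf 0 492 492) (node 462 (merge (leaf 7 462 591) (node 430 (merge (leaf 4 398 398) (leaf 4 430 526))))))))) (merge (node 495 (merge (leaf 4 463 463) (node 492 (merge (leaf 0 492 494) (node 525 (merge (leaf 3 492 526) (node 460 (merge (leaf 7 460 589) (node 428 (merge (leaf 4 396 396) (leaf 4 428 524))))))))))) (merge (node 495 (merge (leaf 4 463 463) (node 494 (merge (leaf 0 492 492) (node 462 (merge (leaf 7 462 591) (node 525 (merge (leaf 6 461 589) (node 430 (merge (leaf 4 398 398) (leaf 6 429 461))))))))))) (merge (node 525 (merge (node 526 (merge (leaf 3 492 492) (leaf 1 524 556))) (merge (node 526 (merge (leaf 0 524 524) (leaf 0 525 561))) (node 461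 (merge (node 430 (merge (leaf 6 429 462) (node 429 (merge (leaf 6 397 398) (node 556 (merge (leaf 5 428 524) (leaf 5 460 588))))))) (merge (node 460 (merge (leaf 7 428 428) (node 589 (merge (leaf 7 460 492) (node 588 (merge (leaf 5 460 556) (leaf 5 492 620))))))) (node 430 (merge (leaf 6 429 462) (node 429 (merge (leaf 6 397 398) (node 428 (merge (leaf 7 396 396) (leaf 7 428 460))))))))))))) (node 525 (merge (node 526 (merge (leaf 0 524 524) (leaf 0 525 561))) (merge (node 526 (merge (leaf 1 524 556) (leaf 0 525 561))) (node 462 (merge (node 494 (merge (leaf 6 461 589) (node 495 (merge (leaf 4 463 463) (leaf 7 462 591))))) (node 461 (merge (leaf 6 429 430) (node 428 (merge (leaf 7 428 460) (node 429 (merge (leaf 7 396 396) (node 556 (merge (leaf 5 428 524) (leaf 5 460 588)))))))))))))))))))))) (node 558 (merge (node 557 (merge (leaf 2 524 556) (leaf 0 557 593))) (merge (node 557 (merge (leaf 2 524 556) (node 589 (merge (leaf 1 556 588) (node 525 (merge (leaf 3 524 524) (node 526 (merge (leaf 0 525 561) (node 621 (merge (leaf 6 493 494) (leaf 6 525 653))))))))))) (node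 526 (merge (node 561 (merge (leaf 3 525 525) (leaf 3 526 562))) (merge (node 624 (merge (leaf 7 527 656) (node 625 (merge (leaf 4 528 657) (node 623 (merge (leaf 5 527 655) (node 591 (merge (leaf 7 494 494) (node 594 (merge (leaf 3 558 593) (node 626 (merge (leaf 2 591 595) (leaf 3 591 627))))))))))))) (node 624 (merge (leaf 7 527 656) (node 625 (merge (leaf 4 528 657) (node 623 (merge (leaf 5 527 655) (node 591 (merge (leaf 7 494 494) (node 594 (merge (leaf 3 558 593) (node 626 (merge (leaf 2 591 595) (leaf 3 591 627))))))))))))))))))))))))))))))) nP_110 cP_110 12 (by decide +kernel)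
def nP_111 : ℕ := 0x180000001000000000000000000000000000000000000000000000000000000000000000000000000000000000000000000000000000000000000000000000000000000000000
def cP_111 : ℕ := 0x1fe000000ff000001fe000000e70000000f0000000f8000003e0000001e00000000000000000000000000000000000000000000000000000000000000000000000000000000000000000000000000000000000
theorem lP_111 : S nP_111 cP_111 13 := S_of_chk [] trivial (node 527 (merge (node 591 (merge (node 623 (merge (leaf 6 527 655) (node 526 (merge (leaf 7 494 494) (node 561 (merge (leaf 0 525 525) (leaf 3 526 562))))))) (merge (node 623 (merge (leaf 6 527 655) (node 622 (merge (leaf 5 526 654) (node 495 (merge (leaf 5 494 590) (node 463 (merge (leaf 4 431 431) (leaf 4 463 592))))))))) (node 495 (merge (node 592 (merge (leaf 4 463 463) (leaf 7 495 624))) (merge (node 463 (merge (leaf 4 431 431) (node 462 (merge (leaf 7 430 430) (leaf 7 462 494))))) (node 592 (merge (leaf 4 495 624) (node 590 (merge (leaf 5 494 622) (node 561 (merge (leaf 1 558 562) (leaf 2 557 589))))))))))))) (merge (node 591 (merge (node 623 (merge (leaf 6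 527 655) (node 526 (merge (leaf 7 494 494) (node 561 (merge (leaf 0 525 525) (leaf 3 526 562))))))) (merge (node 623 (merge (leaf 6 527 655) (node 624 (merge (leaf 4 527 656) (node 592 (merge (leaf 7 495 495) (node 625 (merge (leaf 4 528 657) (node 626 (merge (leaf 3 590 590) (leaf 3 591 627))))))))))) (node 592 (merge (node 624 (merge (leaf 7 495 495) (leaf 7 527 656))) (node 593 (merge (node 594 (merge (leaf 3 558 558) (leaf 3 559 595))) (node 561 (merge (node 526 (merge (leaf 0 525 525) (leaf 3 526 562))) (node 625 (merge (leaf 7 528 657) (node 590 (merge (leaf 2 557 589) (leaf 0 590 626)))))))))))))) (merge (node 591 (merge (node 623 (merge (leaf 6 527 655) (node 622 (merge (leaf 5 526 654) (node 495 (merge (leaf 5 494 590) (node 463 (merge (leaf 4 431 431) (leaf 4 463 592))))))))) (merge (node 623 (merge (leaf 6 527 655) (node 624 (merge (leaf 4 527 656) (node 592 (merge (leaf 7 495 495) (node 625 (merge (leaf 4 528 657) (node 590 (merge (leaf 0 589 589) (leaf 3 590 626))))))))))) (merge (node 623 (merge (leaf 6 527 655) (node 624 (merge (leaf 4 527 656) (node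 622 (merge (leaf 5 526 654) (node 590 (merge (leaf 5 494 495) (node 625 (merge (leaf 3 589 589) (leaf 3 590 626))))))))))) (merge (node 623 (merge (leaf 6 527 655) (node 624 (merge (leaf 4 527 656) (node 592 (merge (leaf 7 495 495) (node 622 (merge (leaf 5 526 654) (node 593 (merge (leaf 1 590 594) (leaf 2 589 621))))))))))) (merge (node 592 (merge (node 623 (merge (leaf 6 527 655) (node 622 (merge (leaf 5 526 654) (node 593 (merge (leaf 1 590 594) (node 621 (merge (leaf 1 589 590) (leaf 2 588 620))))))))) (merge (node 624 (merge (leaf 7 527 656) (node 625 (merge (leaf 4 528 657) (node 590 (merge (leaf 0 589 589) (node 626 (merge (leaf 0 590 593) (leaf 3 591 627))))))))) (merge (node 623 (merge (leaf 6 527 655) (node 624 (merge (leaf 7 527 656) (node 622 (merge (leaf 5 526 654) (node 621 (merge (leaf 2 589 593) (leaf 2 588 620))))))))) (node 623 (merge (leaf 6 527 655) (node 624 (merge (leaf 7 527 656) (node 625 (merge (leaf 4 528 657) (node 626 (merge (leaf 3 590 590) (leaf 3 591 627))))))))))))) (node 592 (merge (node 624 (merge (leaf 7 495 495) (leaf 7 527 656)))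 (merge (node 624 (merge (leaf 7 527 656) (node 625 (merge (leaf 4 528 657) (node 626 (merge (leaf 3 591 627) (node 593 (merge (leaf 0 590 590) (node 558 (merge (leaf 0 557 557) (leaf 3 558 594))))))))))) (node 593 (merge (node 594 (merge (leaf 3 558 558) (leaf 3 559 595))) (node 495 (merge (leaf 4 463 463) (node 590 (merge (leaf 5 494 622) (node 625 (merge (leaf 0 590 626) (node 561 (merge (leaf 1 558 562) (leaf 7 528 657)))))))))))))))))))) (merge (node 591 (merge (node 623 (merge (leaf 6 527 655) (node 494 (merge (leaf 7 494 526) (node 495 (merge (leaf 7 462 462) (node 592 (merge (leaf 4 463 463) (leaf 7 495 624))))))))) (merge (node 623 (merge (leaf 6 527 655) (node 622 (merge (leaf 5 526 654) (node 495 (merge (leaf 5 494 590) (node 463 (merge (leaf 4 431 431) (leaf 4 463 592))))))))) (merge (node 623 (merge (leaf 6 527 655) (node 526 (merge (leaf 7 494 494) (node 525 (merge (leaf 0 524 524) (node 557 (merge (leaf 1 524 556) (node 493 (merge (leaf 3 492 492) (node 622 (merge (leaf 5 526 654) (node 590 (merge (leaf 7 493 558) (leaf 4 493 589))))))))))))))) (node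 592 (merge (node 624 (merge (leaf 7 495 495) (leaf 7 527 656))) (merge (node 624 (merge (leaf 7 527 656) (node 625 (merge (leaf 4 528 657) (node 590 (merge (leaf 0 589 589) (node 626 (merge (leaf 0 590 593) (leaf 3 591 627))))))))) (node 593 (merge (node 594 (merge (leaf 3 558 558) (leaf 3 559 595))) (merge (node 594 (merge (leaf 3 559 595) (node 626 (merge (leaf 0 591 627) (node 590 (merge (leaf 0 590 625) (node 495 (merge (leaf 4 463 463) (leaf 5 494 622))))))))) (node 557 (merge (leaf 0 557 558) (node 495 (merge (leaf 4 463 463) (node 494 (merge (leaf 7 462 462) (node 492 (merge (leaf 0 492 493) (node 590 (merge (leaf 5 494 622) (node 589 (merge (leaf 3 556 556) (node 621 (merge (leaf 1 588 620) (node 525 (merge (leaf 7 492 524) (leaf 6 493 526))))))))))))))))))))))))))) (merge (node 558 (merge (node 592 (merge (node 624 (merge (leaf 7 495 495) (leaf 7 527 656))) (node 593 (merge (leaf 0 557 557) (node 594 (merge (leaf 3 558 591) (leaf 3 559 595))))))) (merge (node 557 (merge (leaf 2 524 556) (node 525 (merge (leaf 3 524 524) (node 526 (merge (leaf 0 525 561) (node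 493 (merge (leaf 3 492 492) (node 590 (merge (leaf 4 461 461) (leaf 7 493 622))))))))))) (node 526 (merge (node 561 (merge (leaf 3 525 525) (leaf 3 526 562))) (node 494 (merge (node 462 (merge (leaf 4 430 430) (leaf 4 462 591))) (node 495 (merge (node 463 (merge (leaf 4 431 431) (leaf 4 463 592))) (node 493 (merge (leaf 0 492 492) (node 590 (merge (leaf 7 461 461) (leaf 6 494 622)))))))))))))) (merge (node 558 (merge (node 561 (merge (node 562 (merge (leaf 3 526 526) (leaf 3 527 563))) (merge (node 562 (merge (leaf 3 527 563) (node 594 (merge (leaf 0 558 593) (leaf 0 559 595))))) (node 525 (merge (leaf 3 525 526) (node 557 (merge (leaf 3 524 524) (node 593 (merge (leaf 0 557 592) (leaf 0 558 594)))))))))) (merge (node 557 (merge (leaf 2 524 556) (node 593 (merge (leaf 0 557 592) (node 561 (merge (leaf 0 558 594) (node 590 (merge (leaf 1 557 589) (node 562 (merge (leaf 3 527 563) (leaf 1 558 591))))))))))) (merge (node 526 (merge (node 561 (merge (leaf 3 525 525) (leaf 3 526 562))) (merge (node 525 (merge (leaf 0 524 524) (node 493 (merge (leaf 3 492 492) (node 590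 (merge (leaf 7 493 622) (node 461 (merge (leaf 4 429 429) (leaf 7 461 494))))))))) (node 561 (merge (leaf 3 526 562) (node 590 (merge (leaf 1 557 589) (node 622 (merge (leaf 6 526 654) (node 623 (merge (leaf 4 526 655) (node 494 (merge (leaf 7 494 591) (node 461 (merge (leaf 7 461 493) (node 462 (merge (leaf 7 429 429) (leaf 4 430 430)))))))))))))))))) (node 526 (merge (node 525 (merge (leaf 0 524 524) (node 557 (merge (leaf 1 524 556) (node 493 (merge (leaf 3 492 492) (node 590 (merge (leaf 4 461 461) (leaf 7 493 622))))))))) (merge (node 525 (merge (leaf 0 524 524) (node 493 (merge (leaf 3 492 492) (node 590 (merge (leaf 7 493 622) (node 461 (merge (leaf 4 429 429) (leaf 7 461 494))))))))) (node 557 (merge (leaf 2 524 556) (node 592 (merge (leaf 0 557 593) (node 624 (merge (leaf 7 527 656) (node 623 (merge (leaf 5 527 655) (node 494 (merge (leaf 7 494 591) (node 462 (merge (leaf 4 430 430) (leaf 5 461 589)))))))))))))))))))) (merge (node 495 (merge (node 463 (merge (leaf 4 431 431) (node 464 (merge (leaf 6 431 432) (node 462 (merge (leaf 7 430 430) (node 494 (merge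 (leaf 7 462 591) (node 493 (merge (leaf 1 461 465) (leaf 0 492 492))))))))))) (merge (node 463 (merge (leaf 4 431 431) (node 558 (merge (leaf 5 462 590) (node 557 (merge (leaf 2 524 556) (node 525 (merge (leaf 3 524 524) (node 561 (merge (leaf 0 525 526) (node 594 (merge (leaf 0 558 593) (node 562 (merge (leaf 3 527 563) (leaf 0 559 595))))))))))))))) (node 591 (merge (node 623 (merge (leaf 6 527 655) (node 622 (merge (leaf 5 494 590) (leaf 5 526 654))))) (merge (node 623 (merge (leaf 6 527 655) (node 494 (merge (leaf 7 462 462) (leaf 7 494 526))))) (node 494 (merge (leaf 7 462 462) (node 493 (merge (leaf 0 492 492) (node 590 (merge (leaf 5 494 622) (node 561 (merge (leaf 1 558 562) (node 526 (merge (leaf 0 525 525) (node 558 (merge (leaf 7 461 461) (leaf 1 557 589))))))))))))))))))) (merge (node 558 (merge (node 557 (merge (leaf 2 524 556) (node 592 (merge (leaf 0 557 593) (node 624 (merge (leaf 7 495 495) (leaf 7 527 656))))))) (merge (node 557 (merge (leaf 2 524 556) (node 525 (merge (leaf 3 524 524) (node 526 (merge (leaf 0 525 561) (node 493 (merge (leaf 3 492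 492) (node 590 (merge (leaf 4 461 461) (leaf 7 493 622))))))))))) (node 526 (merge (node 561 (merge (leaf 3 525 525) (leaf 3 526 562))) (merge (node 525 (merge (leaf 0 524 524) (node 493 (merge (leaf 3 492 492) (node 590 (merge (leaf 7 493 622) (node 461 (merge (leaf 4 429 429) (leaf 7 461 494))))))))) (node 494 (merge (node 462 (merge (leaf 4 430 430) (node 463 (merge (leaf 6 430 431) (node 495 (merge (leaf 6 462 590) (leaf 4 463 592))))))) (merge (node 462 (merge (leaf 4 430 430) (node 461 (merge (leaf 7 429 429) (node 590 (merge (leaf 7 461 493) (node 622 (merge (leaf 6 494 495) (leaf 6 526 654))))))))) (merge (node 462 (merge (leaf 4 430 430) (node 463 (merge (leaf 6 430 431) (node 461 (merge (leaf 7 429 429) (node 493 (merge (leaf 7 461 590) (node 492 (merge (leaf 1 460 464) (leaf 0 491 491))))))))))) (merge (node 462 (merge (leaf 4 430 430) (node 463 (merge (leaf 6 430 431) (node 495 (merge (leaf 4 463 592) (node 464 (merge (leaf 6 431 432) (node 493 (merge (leaf 1 461 465) (leaf 0 492 492))))))))))) (node 592 (merge (node 624 (merge (leaf 7 495 495) (leaf 7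 527 656))) (merge (node 495 (merge (leaf 4 463 463) (node 493 (merge (leaf 0 492 492) (node 590 (merge (leaf 7 461 461) (leaf 6 494 622))))))) (node 624 (merge (leaf 7 527 656) (node 561 (merge (leaf 3 526 562) (node 593 (merge (leaf 0 558 594) (node 625 (merge (leaf 7 528 657) (node 623 (merge (leaf 5 527 655) (node 622 (merge (leaf 2 589 621) (node 654 (merge (leaf 6 526 590) (leaf 1 621 653))))))))))))))))))))))))))))) (node 526 (merge (node 561 (merge (leaf 0 525 525) (leaf 3 526 562))) (merge (node 591 (merge (node 623 (merge (leaf 7 494 494) (leaf 6 527 655))) (merge (node 623 (merge (leaf 6 527 655) (node 624 (merge (leaf 4 527 656) (node 592 (merge (leaf 7 495 495) (node 622 (merge (leaf 5 526 654) (node 593 (merge (leaf 1 590 594) (leaf 2 589 621))))))))))) (node 592 (merge (node 624 (merge (leaf 7 495 495) (leaf 7 527 656))) (node 525 (merge (leaf 0 524 524) (node 557 (merge (leaf 1 524 556) (node 558 (merge (leaf 0 557 593) (node 493 (merge (leaf 3 492 492) (node 461 (merge (leaf 4 429 429) (node 462 (merge (leaf 6 429 430) (leaf 4 462 494))))))))))))))))))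 (node 623 (merge (node 591 (merge (leaf 7 494 494) (leaf 6 527 655))) (merge (node 591 (merge (leaf 7 494 494) (node 624 (merge (leaf 4 527 656) (node 592 (merge (leaf 7 495 495) (node 622 (merge (leaf 5 526 654) (node 621 (merge (leaf 2 589 593) (leaf 2 588 620))))))))))) (node 561 (merge (leaf 3 526 562) (node 625 (merge (node 593 (merge (leaf 7 528 657) (node 558 (merge (leaf 0 558 594) (node 557 (merge (leaf 2 524 556) (leaf 0 557 592))))))) (merge (node 657 (merge (leaf 7 528 593) (node 624 (merge (leaf 4 528 592) (node 658 (merge (leaf 0 622 622) (node 659 (merge (leaf 3 623 656) (leaf 3 624 660))))))))) (merge (node 593 (merge (leaf 7 528 657) (node 594 (merge (leaf 0 558 558) (node 624 (merge (leaf 2 590 622) (node 595 (merge (leaf 1 592 596) (leaf 2 591 626))))))))) (merge (node 624 (merge (node 592 (merge (leaf 7 495 495) (leaf 7 527 656))) (merge (node 592 (merge (leaf 7 495 495) (leaf 5 527 655))) (node 594 (merge (node 593 (merge (leaf 0 558 558) (leaf 2 590 622))) (node 626 (merge (leaf 2 591 595) (node 659 (merge (leaf 0 623 658) (node 627 (merge (leaf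 0 624 660) (node 655 (merge (leaf 1 622 654) (leaf 1 623 656)))))))))))))) (node 624 (merge (node 592 (merge (leaf 7 495 495) (leaf 7 527 656))) (merge (node 592 (merge (leaf 5 527 655) (leaf 4 528 657))) (node 626 (merge (node 658 (merge (leaf 0 623 659) (node 622 (merge (leaf 0 622 657) (node 654 (merge (leaf 1 621 653) (leaf 1 622 655))))))) (merge (node 659 (merge (leaf 0 623 658) (node 627 (merge (leaf 0 624 660) (node 595 (merge (leaf 2 591 594) (leaf 2 592 596))))))) (node 655 (merge (leaf 1 622 654) (node 627 (merge (leaf 1 623 656) (node 595 (merge (leaf 2 591 594) (leaf 2 592 596))))))))))))))))))))))))))))))))))) nP_111 cP_111 13 (by decide +kernel)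
def nP_112 : ℕ := 0x180000001000000000000000000000000000000000000000000000000000000000000000000000000000000000000000000000000000000000000000000000000000000000000
def cP_112 : ℕ := 0x4000000044000001ff800000ff000001ff800000e7000000cc000000ef800000fe0000003e00000000000000000000000000000000000000000000000000000000000000000000000000000000000000000000000000000000000
theorem lP_112 : S nP_112 cP_112 15 := S_of_chk [] trivial (node 527 (merge (node 495 (merge (node 592 (merge (leaf 4 463 463) (leaf 7 495 624))) (merge (node 463 (merge (leaf 4 431 431) (node 590 (merge (leaf 5 462 558) (node 591 (merge (leaf 5 494 622) (node 462 (merge (leaf 7 430 430) (leaf 7 462 494))))))))) (node 591 (merge (node 623 (merge (leaf 6 527 655) (node 622 (merge (leaf 5 494 590) (leaf 5 526 654))))) (merge (node 624 (merge (leaf 7 495 592) (node 623 (merge (leaf 6 527 655) (leaf 4 527 656))))) (node 592 (merge (leaf 4 495 624) (node 590 (merge (leaf 5 494 622) (node 589 (merge (leaf 2 557 561) (leaf 2 556 588))))))))))))) (merge (node 558 (merge (node 557 (merge (leaf 2 524 556) (node 592 (merge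 (leaf 0 557 593) (node 624 (merge (leaf 7 495 495) (leaf 7 527 656))))))) (merge (node 557 (merge (leaf 2 524 556) (node 589 (merge (leaf 1 556 588) (node 561 (merge (leaf 1 557 590) (node 562 (merge (leaf 3 526 526) (leaf 3 527 563))))))))) (node 561 (merge (node 590 (merge (leaf 1 557 589) (node 622 (merge (leaf 6 526 654) (node 495 (merge (leaf 5 462 463) (leaf 6 494 526))))))) (node 562 (merge (leaf 3 527 563) (node 594 (merge (leaf 0 558 593) (leaf 0 559 595)))))))))) (merge (node 558 (merge (node 557 (merge (leaf 2 524 556) (node 589 (merge (leaf 1 556 588) (node 561 (merge (leaf 1 557 590) (node 593 (merge (leaf 0 557 592) (leaf 0 558 594))))))))) (merge (node 557 (merge (leaf 2 524 556) (node 593 (merge (leaf 0 557 592) (node 561 (merge (leaf 0 558 594) (node 562 (merge (leaf 3 526 526) (leaf 3 527 563))))))))) (merge (node 557 (merge (leaf 2 524 556) (node 589 (merge (leaf 1 556 588) (node 561 (merge (leaf 1 557 590) (node 562 (merge (leaf 3 526 526) (leaf 3 527 563))))))))) (merge (node 561 (merge (node 590 (merge (leaf 1 557 589) (node 622 (merge (leaf 6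 526 654) (node 495 (merge (leaf 5 462 463) (leaf 6 494 526))))))) (node 562 (merge (leaf 3 527 563) (node 594 (merge (leaf 0 558 593) (leaf 0 559 595))))))) (node 592 (merge (node 557 (merge (leaf 2 524 556) (leaf 0 557 593))) (merge (node 591 (merge (node 623 (merge (leaf 6 527 655) (node 494 (merge (leaf 7 494 526) (node 495 (merge (leaf 7 462 462) (leaf 4 463 463))))))) (merge (node 495 (merge (leaf 4 463 463) (node 494 (merge (leaf 7 462 462) (node 590 (merge (leaf 5 494 622) (node 589 (merge (leaf 2 556 588) (node 621 (merge (leaf 5 493 526) (leaf 1 588 620))))))))))) (node 623 (merge (leaf 6 527 655) (node 622 (merge (leaf 5 526 654) (node 593 (merge (leaf 1 590 594) (node 621 (merge (leaf 1 589 590) (leaf 2 588 620)))))))))))) (node 591 (merge (node 623 (merge (leaf 6 527 655) (node 622 (merge (leaf 5 526 654) (node 495 (merge (leaf 4 463 463) (leaf 5 494 590))))))) (merge (node 623 (merge (leaf 6 527 655) (node 494 (merge (leaf 7 494 526) (node 495 (merge (leaf 7 462 462) (leaf 4 463 463))))))) (merge (node 495 (merge (leaf 4 463 463) (node 494 (merge (leaf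 7 462 462) (node 590 (merge (leaf 5 494 622) (node 589 (merge (leaf 2 556 588) (node 621 (merge (leaf 5 493 526) (leaf 1 588 620))))))))))) (node 557 (merge (leaf 0 556 556) (node 623 (merge (leaf 6 527 655) (node 526 (merge (leaf 7 494 494) (node 589 (merge (leaf 1 556 588) (node 621 (merge (leaf 6 525 653) (node 622 (merge (leaf 2 588 620) (leaf 5 526 654))))))))))))))))))))))))) (merge (node 558 (merge (node 557 (merge (leaf 2 524 556) (node 592 (merge (leaf 0 557 593) (node 624 (merge (leaf 7 495 495) (leaf 7 527 656))))))) (merge (node 557 (merge (leaf 2 524 556) (node 589 (merge (leaf 1 556 588) (node 561 (merge (leaf 1 557 590) (node 562 (merge (leaf 3 526 526) (leaf 3 527 563))))))))) (node 591 (merge (node 623 (merge (leaf 6 527 655) (node 624 (merge (leaf 4 527 656) (node 495 (merge (leaf 7 495 592) (node 463 (merge (leaf 4 431 431) (leaf 5 462 590))))))))) (merge (node 623 (merge (leaf 6 527 655) (node 494 (merge (leaf 7 494 526) (node 495 (merge (leaf 7 462 462) (node 463 (merge (leaf 4 431 431) (leaf 5 462 590))))))))) (merge (node 495 (merge (node 592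 (merge (leaf 4 463 463) (leaf 7 495 624))) (merge (node 463 (merge (leaf 4 431 431) (node 462 (merge (leaf 7 430 430) (leaf 7 462 494))))) (node 624 (merge (leaf 7 495 592) (node 623 (merge (leaf 4 527 656) (node 494 (merge (leaf 7 462 462) (leaf 7 494 526)))))))))) (merge (node 623 (merge (leaf 6 527 655) (node 526 (merge (leaf 7 494 494) (node 561 (merge (leaf 3 526 562) (node 593 (merge (leaf 0 558 594) (node 590 (merge (leaf 1 557 589) (node 625 (merge (leaf 7 528 657) (node 624 (merge (leaf 3 590 626) (leaf 4 527 656))))))))))))))) (node 561 (merge (node 562 (merge (leaf 3 526 526) (leaf 3 527 563))) (node 593 (merge (leaf 0 558 594) (node 590 (merge (leaf 1 557 589) (node 625 (merge (leaf 7 528 657) (node 592 (merge (leaf 0 590 626) (node 495 (merge (leaf 4 463 463) (leaf 7 495 624))))))))))))))))))))) (merge (node 591 (merge (node 623 (merge (leaf 6 527 655) (node 622 (merge (leaf 5 526 654) (node 495 (merge (leaf 5 494 590) (node 463 (merge (leaf 4 431 431) (leaf 4 463 592))))))))) (merge (node 623 (merge (leaf 6 527 655) (node 624 (merge (leaf 4 527 656) (node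 592 (merge (leaf 7 495 495) (node 625 (merge (leaf 4 528 657) (node 590 (merge (leaf 0 589 589) (leaf 3 590 626))))))))))) (merge (node 623 (merge (leaf 6 527 655) (node 624 (merge (leaf 4 527 656) (node 622 (merge (leaf 5 526 654) (node 590 (merge (leaf 5 494 495) (node 625 (merge (leaf 3 589 589) (leaf 3 590 626))))))))))) (merge (node 592 (merge (node 624 (merge (leaf 7 495 495) (leaf 7 527 656))) (merge (node 495 (merge (leaf 4 463 463) (node 590 (merge (leaf 5 494 622) (node 589 (merge (leaf 2 557 561) (leaf 2 556 588))))))) (node 624 (merge (leaf 7 527 656) (node 625 (merge (leaf 4 528 657) (node 590 (merge (leaf 0 589 589) (node 626 (merge (leaf 0 590 593) (leaf 3 591 627)))))))))))) (merge (node 623 (merge (leaf 6 527 655) (node 624 (merge (leaf 4 527 656) (node 592 (merge (leaf 7 495 495) (node 625 (merge (leaf 4 528 657) (node 626 (merge (leaf 3 591 627) (node 594 (merge (leaf 2 591 595) (node 622 (merge (leaf 1 590 593) (leaf 5 526 654))))))))))))))) (node 592 (merge (node 623 (merge (leaf 6 527 655) (node 622 (merge (leaf 5 526 654) (node 593 (merge (leaf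 1 590 594) (node 621 (merge (leaf 1 589 590) (leaf 2 588 620))))))))) (merge (node 624 (merge (leaf 7 527 656) (node 625 (merge (leaf 4 528 657) (node 590 (merge (leaf 0 589 589) (node 626 (merge (leaf 0 590 593) (leaf 3 591 627))))))))) (merge (node 623 (merge (leaf 6 527 655) (node 624 (merge (leaf 7 527 656) (node 622 (merge (leaf 5 526 654) (node 621 (merge (leaf 2 589 593) (leaf 2 588 620))))))))) (node 623 (merge (leaf 6 527 655) (node 624 (merge (leaf 7 527 656) (node 625 (merge (leaf 4 528 657) (node 626 (merge (leaf 3 590 590) (leaf 3 591 627))))))))))))))))))) (merge (node 591 (merge (node 623 (merge (leaf 6 527 655) (node 494 (merge (leaf 7 494 526) (node 624 (merge (leaf 4 527 656) (node 495 (merge (leaf 7 462 462) (leaf 7 495 592))))))))) (merge (node 623 (merge (leaf 6 527 655) (node 494 (merge (leaf 7 494 526) (node 622 (merge (leaf 5 526 654) (node 495 (merge (leaf 7 462 462) (leaf 5 494 590))))))))) (merge (node 592 (merge (node 624 (merge (leaf 7 495 495) (leaf 7 527 656))) (merge (node 624 (merge (leaf 7 527 656) (node 625 (merge (leaf 4 528 657)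 (node 590 (merge (leaf 0 589 589) (node 626 (merge (leaf 0 590 593) (leaf 3 591 627))))))))) (node 495 (merge (leaf 4 463 463) (node 494 (merge (leaf 7 462 462) (node 590 (merge (leaf 5 494 622) (node 589 (merge (leaf 2 556 588) (node 621 (merge (leaf 1 588 620) (node 557 (merge (leaf 3 556 556) (node 558 (merge (leaf 5 493 526) (leaf 0 557 593)))))))))))))))))) (node 592 (merge (node 623 (merge (leaf 6 527 655) (node 622 (merge (leaf 5 526 654) (node 593 (merge (leaf 1 590 594) (node 621 (merge (leaf 1 589 590) (leaf 2 588 620))))))))) (merge (node 624 (merge (leaf 7 527 656) (node 625 (merge (leaf 4 528 657) (node 590 (merge (leaf 0 589 589) (node 626 (merge (leaf 0 590 593) (leaf 3 591 627))))))))) (merge (node 623 (merge (leaf 6 527 655) (node 624 (merge (leaf 7 527 656) (node 622 (merge (leaf 5 526 654) (node 621 (merge (leaf 2 589 593) (leaf 2 588 620))))))))) (node 623 (merge (leaf 6 527 655) (node 624 (merge (leaf 7 527 656) (node 625 (merge (leaf 4 528 657) (node 626 (merge (leaf 3 590 590) (leaf 3 591 627))))))))))))))))) (merge (node 591 (merge (node 590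 (merge (node 622 (merge (leaf 5 494 495) (node 654 (merge (leaf 6 526 558) (leaf 6 558 686))))) (node 561 (merge (leaf 1 558 562) (node 589 (merge (leaf 2 556 588) (leaf 2 557 592))))))) (merge (node 623 (merge (leaf 6 527 655) (node 622 (merge (leaf 5 526 654) (node 590 (merge (leaf 5 494 495) (node 561 (merge (leaf 1 558 562) (node 589 (merge (leaf 1 557 558) (leaf 2 556 588))))))))))) (merge (node 623 (merge (leaf 6 527 655) (node 624 (merge (leaf 4 527 656) (node 592 (merge (leaf 7 495 495) (node 625 (merge (leaf 4 528 657) (node 590 (merge (leaf 0 589 589) (leaf 3 590 626))))))))))) (merge (node 623 (merge (leaf 6 527 655) (node 624 (merge (leaf 4 527 656) (node 592 (merge (leaf 7 495 495) (node 622 (merge (leaf 5 526 654) (node 593 (merge (leaf 1 590 594) (leaf 2 589 621))))))))))) (node 592 (merge (node 623 (merge (leaf 6 527 655) (node 622 (merge (leaf 5 526 654) (node 593 (merge (leaf 1 590 594) (node 621 (merge (leaf 1 589 590) (leaf 2 588 620))))))))) (merge (node 624 (merge (leaf 7 527 656) (node 625 (merge (leaf 4 528 657) (node 590 (merge (leaf 0 589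 589) (node 626 (merge (leaf 0 590 593) (leaf 3 591 627))))))))) (merge (node 623 (merge (leaf 6 527 655) (node 624 (merge (leaf 7 527 656) (node 622 (merge (leaf 5 526 654) (node 621 (merge (leaf 2 589 593) (leaf 2 588 620))))))))) (node 623 (merge (leaf 6 527 655) (node 624 (merge (leaf 7 527 656) (node 625 (merge (leaf 4 528 657) (node 626 (merge (leaf 3 590 590) (leaf 3 591 627)))))))))))))))))) (merge (node 591 (merge (node 623 (merge (leaf 6 527 655) (node 622 (merge (leaf 5 526 654) (node 495 (merge (leaf 5 494 590) (node 463 (merge (leaf 4 431 431) (leaf 4 463 592))))))))) (merge (node 592 (merge (node 624 (merge (leaf 7 495 495) (leaf 7 527 656))) (merge (node 624 (merge (leaf 7 527 656) (node 625 (merge (leaf 4 528 657) (node 626 (merge (leaf 3 591 627) (node 593 (merge (leaf 0 590 590) (node 594 (merge (leaf 3 558 558) (leaf 3 559 595))))))))))) (node 593 (merge (node 594 (merge (leaf 3 558 558) (leaf 3 559 595))) (node 495 (merge (leaf 4 463 463) (node 590 (merge (leaf 5 494 622) (node 625 (merge (leaf 0 590 626) (node 561 (merge (leaf 1 558 562) (leaf 7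 528 657)))))))))))))) (merge (node 623 (merge (leaf 6 527 655) (node 624 (merge (leaf 4 527 656) (node 622 (merge (leaf 5 526 654) (node 590 (merge (leaf 5 494 495) (node 561 (merge (leaf 1 558 562) (node 625 (merge (leaf 3 590 626) (node 657 (merge (leaf 7 528 593) (leaf 0 622 658))))))))))))))) (merge (node 592 (merge (node 623 (merge (leaf 6 527 655) (node 622 (merge (leaf 5 526 654) (node 593 (merge (leaf 1 590 594) (node 621 (merge (leaf 2 588 620) (leaf 2 589 624))))))))) (merge (node 623 (merge (leaf 6 527 655) (node 624 (merge (leaf 7 527 656) (node 625 (merge (leaf 4 528 657) (node 626 (merge (leaf 3 590 590) (leaf 3 591 627))))))))) (merge (node 623 (merge (leaf 6 527 655) (node 622 (merge (leaf 5 526 654) (node 593 (merge (leaf 1 590 594) (node 621 (merge (leaf 1 589 590) (leaf 2 588 620))))))))) (node 624 (merge (leaf 7 527 656) (node 625 (merge (leaf 4 528 657) (node 626 (merge (leaf 3 591 627) (node 593 (merge (leaf 0 590 590) (node 594 (merge (leaf 3 558 558) (leaf 3 559 595))))))))))))))) (node 623 (merge (leaf 6 527 655) (node 624 (merge (leaf 4 527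 656) (node 592 (merge (leaf 7 495 495) (node 625 (merge (leaf 4 528 657) (node 626 (merge (leaf 3 591 627) (node 658 (merge (leaf 0 623 659) (node 594 (merge (leaf 2 591 595) (node 593 (merge (leaf 3 558 558) (node 690 (merge (leaf 7 561 561) (leaf 7 593 722)))))))))))))))))))))))) (merge (node 558 (merge (node 557 (merge (leaf 2 524 556) (node 593 (merge (leaf 0 557 592) (node 561 (merge (leaf 0 558 594) (node 562 (merge (leaf 3 526 526) (leaf 3 527 563))))))))) (merge (node 557 (merge (leaf 2 524 556) (node 589 (merge (leaf 1 556 588) (node 561 (merge (leaf 1 557 590) (node 562 (merge (leaf 3 526 526) (leaf 3 527 563))))))))) (merge (node 557 (merge (leaf 2 524 556) (node 592 (merge (leaf 0 557 593) (node 589 (merge (leaf 1 556 588) (node 624 (merge (leaf 7 527 656) (node 625 (merge (leaf 4 528 657) (node 590 (merge (leaf 0 589 591) (node 623 (merge (leaf 3 589 622) (leaf 5 527 655))))))))))))))) (node 623 (merge (node 624 (merge (node 591 (merge (leaf 6 527 655) (leaf 4 527 656))) (merge (node 592 (merge (leaf 5 527 655) (leaf 7 527 656))) (merge (node 656 (merge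 (leaf 4 527 591) (leaf 7 527 592))) (node 655 (merge (leaf 6 527 591) (leaf 5 527 592))))))) (merge (node 591 (merge (leaf 6 527 655) (node 526 (merge (leaf 7 494 494) (node 561 (merge (leaf 3 526 562) (node 593 (merge (leaf 0 558 594) (node 590 (merge (leaf 1 557 589) (node 622 (merge (leaf 6 526 654) (node 621 (merge (leaf 1 589 592) (leaf 5 525 653))))))))))))))) (merge (node 591 (merge (leaf 6 527 655) (node 526 (merge (leaf 7 494 494) (node 561 (merge (leaf 3 526 562) (node 593 (merge (leaf 0 558 594) (node 590 (merge (leaf 1 557 589) (node 625 (merge (leaf 7 528 657) (node 624 (merge (leaf 3 590 626) (leaf 4 527 656))))))))))))))) (merge (node 561 (merge (node 562 (merge (leaf 3 526 526) (leaf 3 527 563))) (merge (node 562 (merge (leaf 3 527 563) (node 594 (merge (leaf 0 558 593) (leaf 0 559 595))))) (node 593 (merge (leaf 0 558 594) (node 590 (merge (leaf 1 557 589) (node 622 (merge (leaf 6 526 654) (node 657 (merge (leaf 7 528 625) (node 526 (merge (leaf 4 526 655) (node 621 (merge (leaf 5 525 653) (node 624 (merge (leaf 2 589 592) (leaf 0 621 656))))))))))))))))))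 (node 622 (merge (node 654 (merge (leaf 6 526 590) (leaf 5 526 591))) (merge (node 590 (merge (leaf 6 526 654) (node 561 (merge (leaf 1 557 589) (node 594 (merge (leaf 0 558 593) (node 562 (merge (leaf 3 527 563) (leaf 0 559 595))))))))) (merge (node 624 (merge (node 656 (merge (leaf 4 527 591) (leaf 7 527 592))) (merge (node 654 (merge (leaf 5 526 591) (node 653 (merge (leaf 1 621 625) (node 652 (merge (leaf 1 620 621) (leaf 2 619 651))))))) (node 621 (merge (node 657 (merge (leaf 0 621 656) (node 592 (merge (leaf 2 589 593) (leaf 4 528 625))))) (node 652 (merge (leaf 1 620 653) (node 620 (merge (leaf 1 619 651) (node 588 (merge (leaf 3 587 587) (leaf 3 588 589)))))))))))) (node 526 (merge (node 494 (merge (leaf 7 494 591) (node 462 (merge (leaf 4 430 430) (node 463 (merge (leaf 6 430 431) (node 461 (merge (leaf 7 429 429) (node 493 (merge (leaf 7 461 590) (node 492 (merge (leaf 1 460 464) (leaf 0 491 491))))))))))))) (merge (node 561 (merge (leaf 3 526 562) (node 593 (merge (leaf 0 558 594) (node 590 (merge (leaf 1 557 589) (node 657 (merge (leaf 7 528 625) (node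 621 (merge (leaf 5 525 653) (node 624 (merge (leaf 2 589 592) (leaf 0 621 656))))))))))))) (node 591 (merge (leaf 7 494 494) (node 561 (merge (leaf 3 526 562) (node 593 (merge (leaf 0 558 594) (node 624 (merge (leaf 4 527 656) (node 621 (merge (leaf 2 589 592) (node 652 (merge (leaf 1 620 653) (node 620 (merge (leaf 1 619 651) (node 588 (merge (leaf 3 587 587) (leaf 3 588 589))))))))))))))))))))))))))))))))) (merge (node 561 (merge (node 562 (merge (leaf 3 526 526) (leaf 3 527 563))) (merge (node 562 (merge (leaf 3 527 563) (node 594 (merge (leaf 0 559 595) (node 593 (merge (leaf 0 558 558) (node 530 (merge (leaf 2 527 531) (node 498 (merge (leaf 5 465 466) (leaf 5 497 625))))))))))) (node 623 (merge (node 591 (merge (leaf 6 527 655) (node 494 (merge (leaf 7 494 526) (node 495 (merge (leaf 7 462 462) (node 463 (merge (leaf 4 431 431) (leaf 4 463 592))))))))) (merge (node 495 (merge (node 592 (merge (leaf 4 463 463) (leaf 7 495 624))) (merge (node 624 (merge (leaf 7 495 592) (node 591 (merge (leaf 4 527 656) (node 494 (merge (leaf 7 462 462) (leaf 7 494 526))))))) (node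 463 (merge (leaf 4 431 431) (node 464 (merge (leaf 6 431 432) (node 462 (merge (leaf 7 430 430) (node 494 (merge (leaf 7 462 591) (node 493 (merge (leaf 1 461 465) (leaf 0 492 492)))))))))))))) (merge (node 625 (merge (node 593 (merge (leaf 7 528 657) (node 558 (merge (leaf 0 558 594) (node 557 (merge (leaf 2 524 556) (leaf 0 557 592))))))) (merge (node 657 (merge (leaf 7 528 593) (node 624 (merge (leaf 4 528 592) (node 658 (merge (leaf 0 622 622) (node 659 (merge (leaf 3 623 656) (leaf 3 624 660))))))))) (merge (node 593 (merge (leaf 7 528 657) (node 594 (merge (leaf 0 558 558) (node 624 (merge (leaf 2 590 622) (node 595 (merge (leaf 1 592 596) (leaf 2 591 626))))))))) (merge (node 624 (merge (node 592 (merge (leaf 7 495 495) (leaf 7 527 656))) (merge (node 592 (merge (leaf 7 495 495) (leaf 5 527 655))) (node 594 (merge (node 593 (merge (leaf 0 558 558) (leaf 2 590 622))) (node 626 (merge (leaf 2 591 595) (node 659 (merge (leaf 0 623 658) (node 627 (merge (leaf 0 624 660) (node 655 (merge (leaf 1 622 654) (leaf 1 623 656)))))))))))))) (node 624 (merge (node 592 (merge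 (leaf 7 495 495) (leaf 7 527 656))) (merge (node 592 (merge (leaf 5 527 655) (leaf 4 528 657))) (node 626 (merge (node 658 (merge (leaf 0 623 659) (node 622 (merge (leaf 0 622 657) (node 654 (merge (leaf 1 621 653) (leaf 1 622 655))))))) (merge (node 659 (merge (leaf 0 623 658) (node 627 (merge (leaf 0 624 660) (node 595 (merge (leaf 2 591 594) (leaf 2 592 596))))))) (node 655 (merge (leaf 1 622 654) (node 627 (merge (leaf 1 623 656) (node 595 (merge (leaf 2 591 594) (leaf 2 592 596)))))))))))))))))) (node 624 (merge (node 591 (merge (leaf 6 527 655) (leaf 4 527 656))) (merge (node 625 (merge (node 593 (merge (leaf 7 528 657) (node 594 (merge (leaf 0 558 558) (leaf 2 590 622))))) (merge (node 655 (merge (leaf 6 527 591) (node 654 (merge (leaf 1 622 626) (node 653 (merge (leaf 1 621 622) (leaf 2 620 652))))))) (node 593 (merge (leaf 7 528 657) (node 594 (merge (leaf 0 558 558) (node 595 (merge (leaf 1 592 596) (leaf 2 591 626)))))))))) (merge (node 625 (merge (node 593 (merge (leaf 7 528 657) (node 594 (merge (leaf 0 558 558) (leaf 2 590 622))))) (merge (node 657 (merge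 (leaf 7 528 593) (node 658 (merge (leaf 0 622 622) (node 659 (merge (leaf 0 623 626) (leaf 3 623 656))))))) (merge (node 593 (merge (leaf 7 528 657) (node 594 (merge (leaf 0 558 558) (node 595 (merge (leaf 1 592 596) (leaf 2 591 626))))))) (merge (node 594 (merge (node 593 (merge (leaf 0 558 558) (leaf 2 590 622))) (node 626 (merge (leaf 2 591 595) (node 659 (merge (leaf 0 623 658) (node 627 (merge (leaf 0 624 660) (node 655 (merge (leaf 1 622 654) (leaf 1 623 656))))))))))) (node 626 (merge (node 658 (merge (leaf 0 623 659) (node 622 (merge (leaf 0 622 657) (node 654 (merge (leaf 1 621 653) (leaf 1 622 655))))))) (merge (node 659 (merge (leaf 0 623 658) (node 627 (merge (leaf 0 624 660) (node 595 (merge (leaf 2 591 594) (leaf 2 592 596))))))) (node 655 (merge (leaf 1 622 654) (node 627 (merge (leaf 1 623 656) (node 595 (merge (leaf 2 591 594) (leaf 2 592 596))))))))))))))) (node 622 (merge (node 591 (merge (leaf 5 526 654) (leaf 4 527 656))) (merge (node 654 (merge (leaf 5 526 591) (node 653 (merge (leaf 1 621 625) (node 652 (merge (leaf 1 620 621) (leaf 2 619 651)))))))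 (node 621 (merge (node 657 (merge (leaf 0 621 656) (node 625 (merge (leaf 7 528 593) (leaf 0 622 658))))) (node 652 (merge (leaf 1 620 653) (node 620 (merge (leaf 1 619 651) (node 588 (merge (leaf 3 587 587) (leaf 3 588 589))))))))))))))))))))))) (node 591 (merge (node 623 (merge (leaf 6 527 655) (node 624 (merge (leaf 4 527 656) (node 622 (merge (leaf 5 526 654) (node 590 (merge (leaf 5 494 495) (node 625 (merge (leaf 3 589 589) (leaf 3 590 626))))))))))) (merge (node 590 (merge (node 561 (merge (leaf 1 558 562) (node 589 (merge (leaf 1 557 558) (leaf 2 556 588))))) (node 495 (merge (leaf 5 494 622) (node 463 (merge (leaf 4 431 431) (node 462 (merge (leaf 7 430 430) (leaf 7 462 494))))))))) (merge (node 561 (merge (node 562 (merge (leaf 3 527 563) (leaf 1 558 590))) (merge (node 562 (merge (leaf 3 527 563) (node 594 (merge (leaf 0 559 595) (node 593 (merge (leaf 0 558 558) (node 530 (merge (leaf 2 527 531) (node 498 (merge (leaf 5 465 466) (leaf 5 497 625))))))))))) (node 625 (merge (node 623 (merge (leaf 6 527 655) (node 624 (merge (leaf 4 527 656) (node 590 (merge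 (leaf 3 590 626) (node 589 (merge (leaf 1 557 558) (leaf 0 588 588))))))))) (merge (node 593 (merge (leaf 7 528 657) (node 558 (merge (leaf 0 558 594) (node 589 (merge (leaf 1 557 590) (node 557 (merge (leaf 2 524 556) (leaf 1 556 588))))))))) (merge (node 623 (merge (leaf 6 527 655) (node 593 (merge (leaf 7 528 657) (node 594 (merge (leaf 0 558 558) (node 595 (merge (leaf 3 560 596) (node 624 (merge (leaf 2 591 626) (leaf 4 527 656))))))))))) (node 623 (merge (leaf 6 527 655) (node 624 (merge (leaf 4 527 656) (node 626 (merge (leaf 3 590 590) (node 659 (merge (leaf 0 623 658) (node 627 (merge (leaf 0 624 660) (node 595 (merge (leaf 2 591 594) (leaf 2 592 596)))))))))))))))))))) (node 623 (merge (leaf 6 527 655) (node 624 (merge (leaf 4 527 656) (node 625 (merge (node 526 (merge (leaf 7 494 494) (node 561 (merge (leaf 3 526 562) (node 657 (merge (leaf 7 528 593) (node 622 (merge (leaf 5 526 654) (leaf 0 622 658))))))))) (merge (node 622 (merge (node 654 (merge (leaf 5 526 591) (leaf 1 621 653))) (node 658 (merge (leaf 0 622 657) (node 626 (merge (leaf 0 623 659) (node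 594 (merge (leaf 2 590 593) (leaf 2 591 595))))))))) (merge (node 561 (merge (node 562 (merge (leaf 3 526 526) (leaf 3 527 563))) (node 593 (merge (leaf 7 528 657) (node 594 (merge (leaf 0 558 558) (node 595 (merge (leaf 1 592 596) (leaf 2 591 626))))))))) (merge (node 526 (merge (leaf 7 494 494) (node 562 (merge (leaf 3 526 561) (node 622 (merge (leaf 5 526 654) (node 594 (merge (leaf 2 590 593) (node 626 (merge (leaf 2 591 595) (node 659 (merge (leaf 0 623 658) (node 627 (merge (leaf 4 530 530) (leaf 0 624 660))))))))))))))) (node 463 (merge (node 495 (merge (leaf 4 431 431) (node 462 (merge (leaf 7 430 430) (leaf 7 462 494))))) (node 626 (merge (node 658 (merge (leaf 0 623 659) (node 622 (merge (leaf 0 622 657) (node 654 (merge (leaf 5 526 591) (leaf 1 621 653))))))) (merge (node 659 (merge (leaf 0 623 658) (node 627 (merge (leaf 0 624 660) (node 595 (merge (leaf 2 591 594) (leaf 2 592 596))))))) (node 562 (merge (node 561 (merge (leaf 3 526 526) (leaf 3 527 563))) (node 594 (merge (leaf 2 591 595) (node 530 (merge (leaf 5 529 657) (node 499 (merge (leaf 6 498 531)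 (node 498 (merge (leaf 6 466 467) (node 465 (merge (leaf 7 465 497) (node 466 (merge (leaf 7 433 433) (leaf 0 463 464)))))))))))))))))))))))))))))))))))))))))))) nP_112 cP_112 15 (by decide +kernel)
def nP_113 : ℕ := 0x180000001000000000000000000000000000000000000000000000000000000000000000000000000000000000000000000000000000000000000000000000000000000000000
def cP_113 : ℕ := 0x600000037000000ff000000ff000000e7000000cf0000004fc000007f8000003fc0000005000000000000000000000000000000000000000000000000000000000000000000000000000000000000000000000000000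
theorem lP_113 : S nP_113 cP_113 12 := S_of_chk [] trivial (node 527 (merge (node 558 (merge (node 557 (merge (leaf 2 524 556) (node 592 (merge (leaf 0 557 593) (node 495 (merge (leaf 4 463 463) (leaf 7 495 624))))))) (merge (node 557 (merge (leaf 2 524 556) (node 589 (merge (leaf 1 556 588) (node 590 (merge (leaf 1 557 561) (node 622 (merge (leaf 6 526 654) (node 495 (merge (leaf 5 462 463) (leaf 5 494 591))))))))))) (merge (node 590 (merge (node 561 (merge (leaf 1 557 589) (node 562 (merge (leaf 3 527 563) (leaf 1 558 591))))) (merge (node 622 (merge (leaf 6 526 654) (node 495 (merge (leaf 5 462 463) (leaf 5 494 591))))) (node 561 (merge (leaf 1 557 589) (node 594 (merge (leaf 0 558 593) (node 562 (merge (leaf 3 527 563) (leaf 0 559 595)))))))))) (node 557 (merge (leaf 2 524 556) (node 593 (merge (leaf 0 557 592) (node 561 (merge (leaf 0 558 594) (node 590 (merge (leaf 1 557 589) (node 562 (merge (leaf 3 527 563) (leaf 1 558 591))))))))))))))) (merge (node 561 (merge (node 562 (merge (leaf 3 526 526) (leaf 3 527 563))) (merge (node 562 (merge (leaf 3 527 563) (node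 594 (merge (leaf 0 559 595) (node 558 (merge (leaf 0 558 593) (node 589 (merge (leaf 1 557 590) (node 557 (merge (leaf 2 524 556) (leaf 1 556 588))))))))))) (node 558 (merge (node 525 (merge (leaf 3 525 526) (node 557 (merge (leaf 3 524 524) (leaf 2 524 556))))) (merge (node 590 (merge (leaf 1 557 589) (node 622 (merge (leaf 6 526 654) (node 495 (merge (leaf 5 462 463) (leaf 6 494 526))))))) (node 557 (merge (leaf 2 524 556) (node 589 (merge (leaf 1 556 588) (node 590 (merge (leaf 1 557 561) (node 622 (merge (leaf 6 526 654) (node 525 (merge (leaf 4 493 493) (leaf 3 524 524))))))))))))))))) (merge (node 558 (merge (node 592 (merge (node 624 (merge (leaf 7 495 495) (leaf 7 527 656))) (node 593 (merge (leaf 0 557 557) (node 594 (merge (leaf 3 558 591) (leaf 3 559 595))))))) (merge (node 557 (merge (leaf 2 524 556) (node 525 (merge (leaf 3 524 524) (node 526 (merge (leaf 0 525 561) (node 493 (merge (leaf 3 492 492) (node 590 (merge (leaf 4 461 461) (leaf 7 493 622))))))))))) (node 526 (merge (node 561 (merge (leaf 3 525 525) (leaf 3 526 562))) (node 494 (merge (node 462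 (merge (leaf 4 430 430) (leaf 4 462 591))) (node 495 (merge (node 463 (merge (leaf 4 431 431) (leaf 4 463 592))) (node 493 (merge (leaf 0 492 492) (node 590 (merge (leaf 7 461 461) (leaf 6 494 622)))))))))))))) (merge (node 495 (merge (node 592 (merge (leaf 4 463 463) (leaf 7 495 624))) (merge (node 463 (merge (leaf 4 431 431) (node 464 (merge (leaf 6 431 432) (node 462 (merge (leaf 7 430 430) (node 494 (merge (leaf 7 462 591) (node 493 (merge (leaf 1 461 465) (leaf 0 492 492))))))))))) (node 591 (merge (node 624 (merge (leaf 7 495 592) (node 623 (merge (leaf 4 527 656) (node 494 (merge (leaf 7 462 462) (leaf 7 494 526))))))) (merge (node 592 (merge (leaf 4 495 624) (node 590 (merge (leaf 5 494 622) (node 589 (merge (leaf 2 557 561) (leaf 2 556 588))))))) (node 494 (merge (leaf 7 462 462) (node 526 (merge (leaf 7 494 623) (node 525 (merge (leaf 0 524 524) (leaf 0 525 561))))))))))))) (merge (node 558 (merge (node 557 (merge (leaf 2 524 556) (node 593 (merge (leaf 0 557 592) (node 561 (merge (leaf 0 558 594) (node 562 (merge (leaf 3 526 526) (leaf 3 527 563)))))))))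 (merge (node 557 (merge (leaf 2 524 556) (node 593 (merge (leaf 0 557 592) (node 561 (merge (leaf 0 558 594) (node 590 (merge (leaf 1 557 589) (node 562 (merge (leaf 3 527 563) (leaf 1 558 591))))))))))) (merge (node 526 (merge (node 557 (merge (leaf 2 524 556) (node 589 (merge (leaf 1 556 588) (node 621 (merge (leaf 6 525 653) (node 494 (merge (leaf 5 461 462) (leaf 5 493 590))))))))) (merge (node 557 (merge (leaf 2 524 556) (node 589 (merge (leaf 1 556 588) (node 621 (merge (leaf 6 525 653) (node 494 (merge (leaf 5 461 462) (leaf 6 493 525))))))))) (merge (node 525 (merge (leaf 0 524 524) (node 557 (merge (leaf 1 524 556) (node 493 (merge (leaf 3 492 492) (node 461 (merge (leaf 4 429 429) (leaf 4 461 590))))))))) (node 525 (merge (leaf 0 524 524) (node 493 (merge (leaf 3 492 492) (node 461 (merge (leaf 4 429 429) (node 494 (merge (leaf 7 461 590) (node 591 (merge (leaf 4 462 462) (leaf 7 494 623))))))))))))))) (node 526 (merge (node 561 (merge (leaf 3 525 525) (leaf 3 526 562))) (merge (node 525 (merge (leaf 0 524 524) (node 493 (merge (leaf 3 492 492) (node 590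 (merge (leaf 7 493 622) (node 461 (merge (leaf 4 429 429) (leaf 7 461 494))))))))) (node 561 (merge (leaf 3 526 562) (node 593 (merge (leaf 0 558 594) (node 590 (merge (leaf 1 557 589) (node 622 (merge (leaf 6 526 654) (node 621 (merge (leaf 5 525 653) (node 592 (merge (leaf 1 589 591) (node 624 (merge (leaf 2 589 623) (leaf 7 527 656)))))))))))))))))))))) (merge (node 592 (merge (node 624 (merge (leaf 7 495 495) (leaf 7 527 656))) (merge (node 591 (merge (node 495 (merge (leaf 4 463 463) (node 622 (merge (leaf 5 494 590) (node 623 (merge (leaf 5 526 654) (node 494 (merge (leaf 7 462 462) (leaf 7 494 526))))))))) (merge (node 495 (merge (leaf 4 463 463) (node 590 (merge (leaf 5 494 622) (node 589 (merge (leaf 2 556 588) (node 621 (merge (leaf 1 588 620) (node 557 (merge (leaf 3 556 556) (node 558 (merge (leaf 0 557 593) (node 653 (merge (leaf 6 525 526) (leaf 6 557 685))))))))))))))) (merge (node 495 (merge (leaf 4 463 463) (node 494 (merge (leaf 7 462 462) (node 526 (merge (leaf 7 494 623) (node 525 (merge (leaf 0 524 524) (node 557 (merge (leaf 1 524 556) (node 589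 (merge (leaf 6 493 621) (node 558 (merge (leaf 1 556 588) (leaf 0 557 593))))))))))))))) (merge (node 622 (merge (node 654 (merge (leaf 5 526 623) (node 590 (merge (leaf 6 526 558) (leaf 6 558 686))))) (merge (node 623 (merge (leaf 5 526 654) (node 593 (merge (leaf 1 590 594) (node 621 (merge (leaf 1 589 590) (leaf 2 588 620))))))) (merge (node 593 (merge (node 594 (merge (leaf 3 558 558) (leaf 3 559 595))) (merge (node 590 (merge (leaf 1 589 621) (node 557 (merge (leaf 3 557 558) (node 589 (merge (leaf 3 556 556) (leaf 2 556 588))))))) (node 590 (merge (leaf 1 589 621) (node 594 (merge (leaf 3 559 595) (node 626 (merge (leaf 0 590 625) (leaf 0 591 627)))))))))) (node 623 (merge (leaf 5 526 654) (node 526 (merge (leaf 7 494 494) (node 525 (merge (leaf 0 524 524) (node 557 (merge (leaf 1 524 556) (node 593 (merge (leaf 0 557 558) (leaf 1 590 594))))))))))))))) (node 495 (merge (leaf 4 463 463) (node 494 (merge (leaf 7 462 462) (node 493 (merge (leaf 0 492 492) (node 590 (merge (leaf 5 494 622) (node 589 (merge (leaf 2 556 588) (node 557 (merge (leaf 3 556 556) (node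 558 (merge (leaf 0 557 593) (node 525 (merge (leaf 4 461 461) (leaf 3 524 524)))))))))))))))))))))) (node 591 (merge (node 624 (merge (leaf 7 527 656) (node 625 (merge (leaf 4 528 657) (node 590 (merge (leaf 0 589 589) (node 626 (merge (leaf 3 590 623) (leaf 3 591 627))))))))) (merge (node 624 (merge (leaf 7 527 656) (node 625 (merge (leaf 4 528 657) (node 626 (merge (leaf 3 591 627) (node 593 (merge (leaf 0 590 590) (node 594 (merge (leaf 3 558 558) (leaf 3 559 595))))))))))) (merge (node 622 (merge (node 654 (merge (leaf 5 526 623) (node 590 (merge (leaf 6 526 558) (leaf 6 558 686))))) (merge (node 623 (merge (leaf 5 526 654) (node 593 (merge (leaf 1 590 594) (node 621 (merge (leaf 1 589 590) (leaf 2 588 620))))))) (merge (node 593 (merge (node 594 (merge (leaf 3 558 558) (leaf 3 559 595))) (merge (node 590 (merge (leaf 1 589 621) (node 557 (merge (leaf 3 557 558) (node 589 (merge (leaf 3 556 556) (leaf 2 556 588))))))) (node 590 (merge (leaf 1 589 621) (node 594 (merge (leaf 3 559 595) (node 626 (merge (leaf 0 590 625) (leaf 0 591 627)))))))))) (node 623 (merge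 (leaf 5 526 654) (node 526 (merge (leaf 7 494 494) (node 525 (merge (leaf 0 524 524) (node 557 (merge (leaf 1 524 556) (node 593 (merge (leaf 0 557 558) (leaf 1 590 594))))))))))))))) (node 526 (merge (node 494 (merge (leaf 7 494 623) (node 462 (merge (leaf 4 430 430) (leaf 4 462 558))))) (merge (node 623 (merge (leaf 7 494 494) (node 624 (merge (leaf 7 527 656) (node 622 (merge (leaf 5 526 654) (node 621 (merge (leaf 2 589 593) (leaf 2 588 620))))))))) (merge (node 525 (merge (leaf 0 524 524) (node 557 (merge (leaf 1 524 556) (node 558 (merge (leaf 0 557 593) (node 589 (merge (leaf 1 556 588) (node 494 (merge (leaf 4 462 462) (leaf 6 493 621))))))))))) (node 525 (merge (leaf 0 524 524) (node 557 (merge (leaf 1 524 556) (node 558 (merge (leaf 0 557 593) (node 589 (merge (leaf 1 556 588) (node 621 (merge (leaf 6 525 653) (node 622 (merge (leaf 4 525 654) (node 620 (merge (leaf 2 588 623) (leaf 5 524 652)))))))))))))))))))))))))) (node 561 (merge (node 562 (merge (leaf 3 526 526) (leaf 3 527 563))) (merge (node 562 (merge (leaf 3 527 563) (node 594 (merge (leaf 0 559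 595) (node 593 (merge (leaf 0 558 558) (node 530 (merge (leaf 2 527 531) (node 498 (merge (leaf 5 465 466) (leaf 5 497 625))))))))))) (node 462 (merge (node 526 (merge (leaf 0 525 525) (node 494 (merge (leaf 4 430 430) (node 591 (merge (leaf 4 462 558) (leaf 7 494 623))))))) (merge (node 495 (merge (node 592 (merge (leaf 4 463 463) (leaf 7 495 624))) (node 494 (merge (leaf 7 462 591) (node 430 (merge (leaf 4 398 398) (leaf 4 430 526))))))) (merge (node 495 (merge (node 463 (merge (leaf 4 431 431) (leaf 4 463 592))) (merge (node 463 (merge (leaf 7 430 430) (leaf 4 431 431))) (node 557 (merge (node 592 (merge (leaf 7 495 624) (node 558 (merge (leaf 2 524 556) (leaf 0 557 593))))) (node 494 (merge (leaf 7 462 591) (node 493 (merge (leaf 0 492 492) (node 525 (merge (leaf 6 461 589) (node 430 (merge (leaf 4 398 398) (leaf 6 429 461)))))))))))))) (merge (node 558 (merge (node 525 (merge (leaf 3 525 526) (node 557 (merge (leaf 3 524 524) (leaf 2 524 556))))) (merge (node 593 (merge (leaf 0 558 594) (node 557 (merge (leaf 2 524 556) (leaf 0 557 592))))) (node 526 (merge (leaf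 0 525 525) (node 494 (merge (leaf 4 462 591) (node 463 (merge (leaf 6 430 431) (node 495 (merge (leaf 4 463 592) (node 464 (merge (leaf 6 431 432) (node 493 (merge (leaf 1 461 465) (leaf 0 492 492)))))))))))))))) (node 463 (merge (node 495 (merge (leaf 7 430 430) (leaf 4 463 592))) (merge (node 495 (merge (leaf 4 431 431) (leaf 4 463 592))) (merge (node 495 (merge (leaf 7 430 430) (leaf 4 431 431))) (node 461 (merge (node 557 (merge (node 558 (merge (leaf 2 524 556) (node 593 (merge (leaf 0 557 592) (leaf 0 558 594))))) (node 525 (merge (leaf 0 525 526) (node 493 (merge (leaf 6 429 430) (node 460 (merge (leaf 7 428 428) (node 492 (merge (leaf 1 459 491) (leaf 7 460 589))))))))))) (merge (node 428 (merge (node 427 (merge (leaf 3 427 460) (node 429 (merge (leaf 0 426 426) (leaf 3 428 464))))) (merge (node 525 (merge (leaf 0 525 526) (node 460 (merge (leaf 3 427 427) (node 557 (merge (leaf 7 428 493) (node 558 (merge (leaf 3 524 524) (leaf 2 524 556))))))))) (node 525 (merge (leaf 0 525 526) (node 429 (merge (leaf 3 428 464) (node 493 (merge (leaf 7 396 396) (node 556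 (merge (leaf 5 428 524) (node 557 (merge (leaf 2 524 558) (leaf 5 460 588)))))))))))))) (merge (node 557 (merge (node 558 (merge (leaf 2 524 556) (node 593 (merge (leaf 0 557 592) (leaf 0 558 594))))) (merge (node 525 (merge (leaf 0 525 526) (node 558 (merge (leaf 3 524 524) (node 593 (merge (leaf 0 557 592) (leaf 0 558 594))))))) (node 525 (merge (leaf 0 525 526) (node 493 (merge (leaf 6 429 430) (node 464 (merge (leaf 1 460 492) (node 429 (merge (leaf 3 428 428) (node 556 (merge (leaf 5 428 524) (leaf 5 460 588)))))))))))))) (merge (node 557 (merge (node 558 (merge (leaf 2 524 556) (node 593 (merge (leaf 0 557 592) (leaf 0 558 594))))) (node 525 (merge (leaf 0 525 526) (node 493 (merge (leaf 6 429 430) (node 492 (merge (leaf 1 460 464) (node 491 (merge (leaf 1 459 460) (leaf 2 458 490))))))))))) (node 460 (merge (node 491 (merge (leaf 1 459 492) (node 459 (merge (leaf 1 458 490) (node 427 (merge (leaf 3 426 426) (leaf 3 427 428))))))) (merge (node 432 (merge (leaf 2 428 431) (node 464 (merge (leaf 2 429 433) (node 428 (merge (leaf 3 427 427) (leaf 3 428 429)))))))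 (node 491 (merge (leaf 1 459 492) (node 459 (merge (leaf 1 458 490) (node 431 (merge (leaf 2 427 430) (leaf 2 428 432)))))))))))))))))))))))))))))))))) nP_113 cP_113 12 (by decide +kernel)
def nP_114 : ℕ := 0x180000001000000000000000000000000000000000000000000000000000000000000000000000000000000000000000000000000000000000000000000000000000000000000
def cP_114 : ℕ := 0x4000000040000001ffc00000ff800001fdc00000e7000000cf000000efe00000ffc00001ffe0000005000000000000000000000000000000000000000000000000000000000000000000000000000000000000000000000000000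
theorem lP_114 : S nP_114 cP_114 17 := S_of_chk [] trivial (node 527 (merge (node 558 (merge (node 592 (merge (node 624 (merge (leaf 7 495 495) (leaf 7 527 656))) (node 593 (merge (leaf 0 557 557) (node 594 (merge (leaf 3 558 591) (leaf 3 559 595))))))) (merge (node 557 (merge (leaf 2 524 556) (node 525 (merge (leaf 3 524 524) (node 526 (merge (leaf 0 525 561) (node 493 (merge (leaf 3 492 492) (node 590 (merge (leaf 4 461 461) (leaf 7 493 622))))))))))) (node 526 (merge (node 561 (merge (leaf 3 525 525) (leaf 3 526 562))) (node 494 (merge (node 462 (merge (leaf 4 430 430) (leaf 4 462 591))) (node 495 (merge (node 463 (merge (leaf 4 431 431) (leaf 4 463 592))) (node 493 (merge (leaf 0 492 492) (node 590 (merge (leaf 7 461 461) (leaf 6 494 622)))))))))))))) (merge (node 591 (merge (node 623 (merge (leaf 6 527 655) (node 526 (merge (leaf 7 494 494) (node 561 (merge (leaf 0 525 525) (leaf 3 526 562))))))) (merge (node 623 (merge (leaf 6 527 655) (node 622 (merge (leaf 5 526 654) (node 495 (merge (leaf 5 494 590) (node 463 (merge (leaf 4 431 431) (leaf 4 463 592)))))))))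 (node 558 (merge (node 557 (merge (leaf 2 524 556) (node 593 (merge (leaf 0 557 592) (node 561 (merge (leaf 0 558 594) (node 562 (merge (leaf 3 527 563) (leaf 1 558 590))))))))) (merge (node 561 (merge (node 562 (merge (leaf 3 526 526) (leaf 3 527 563))) (merge (node 562 (merge (leaf 3 527 563) (node 594 (merge (leaf 0 558 593) (leaf 0 559 595))))) (node 525 (merge (leaf 3 525 526) (node 557 (merge (leaf 3 524 524) (node 593 (merge (leaf 0 557 592) (leaf 0 558 594)))))))))) (merge (node 590 (merge (node 622 (merge (leaf 6 526 654) (node 495 (merge (leaf 5 462 463) (leaf 5 494 591))))) (merge (node 622 (merge (leaf 6 526 654) (node 557 (merge (leaf 2 524 556) (node 525 (merge (leaf 3 524 524) (node 493 (merge (leaf 4 461 461) (leaf 7 493 526))))))))) (node 557 (merge (leaf 2 524 556) (node 525 (merge (leaf 3 524 524) (node 493 (merge (leaf 4 461 461) (node 492 (merge (leaf 3 492 526) (node 495 (merge (leaf 5 462 463) (leaf 0 492 494)))))))))))))) (node 495 (merge (node 590 (merge (leaf 5 462 463) (node 622 (merge (leaf 5 494 591) (leaf 6 526 654))))) (merge (node 463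 (merge (leaf 4 431 431) (node 462 (merge (leaf 7 430 430) (leaf 7 462 494))))) (node 494 (merge (leaf 7 462 462) (node 493 (merge (leaf 0 492 492) (node 590 (merge (leaf 5 494 622) (node 526 (merge (leaf 7 461 461) (node 561 (merge (leaf 0 525 525) (leaf 1 558 562))))))))))))))))))))) (merge (node 591 (merge (node 623 (merge (leaf 6 527 655) (node 622 (merge (leaf 5 526 654) (node 495 (merge (leaf 5 494 590) (node 463 (merge (leaf 4 431 431) (leaf 4 463 592))))))))) (merge (node 592 (merge (node 624 (merge (leaf 7 495 495) (leaf 7 527 656))) (merge (node 624 (merge (leaf 7 527 656) (node 625 (merge (leaf 4 528 657) (node 626 (merge (leaf 3 591 627) (node 593 (merge (leaf 0 590 590) (node 594 (merge (leaf 3 558 558) (leaf 3 559 595))))))))))) (node 593 (merge (node 594 (merge (leaf 3 558 558) (leaf 3 559 595))) (node 495 (merge (leaf 4 463 463) (node 590 (merge (leaf 5 494 622) (node 625 (merge (leaf 0 590 626) (node 561 (merge (leaf 1 558 562) (leaf 7 528 657)))))))))))))) (merge (node 623 (merge (leaf 6 527 655) (node 624 (merge (leaf 4 527 656) (node 622 (merge (leaf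 5 526 654) (node 590 (merge (leaf 5 494 495) (node 561 (merge (leaf 1 558 562) (node 625 (merge (leaf 3 590 626) (node 657 (merge (leaf 7 528 593) (leaf 0 622 658))))))))))))))) (merge (node 592 (merge (node 623 (merge (leaf 6 527 655) (node 622 (merge (leaf 5 526 654) (node 593 (merge (leaf 1 590 594) (node 621 (merge (leaf 2 588 620) (leaf 2 589 624))))))))) (merge (node 623 (merge (leaf 6 527 655) (node 624 (merge (leaf 7 527 656) (node 625 (merge (leaf 4 528 657) (node 626 (merge (leaf 3 590 590) (leaf 3 591 627))))))))) (merge (node 623 (merge (leaf 6 527 655) (node 622 (merge (leaf 5 526 654) (node 593 (merge (leaf 1 590 594) (node 621 (merge (leaf 1 589 590) (leaf 2 588 620))))))))) (node 624 (merge (leaf 7 527 656) (node 625 (merge (leaf 4 528 657) (node 626 (merge (leaf 3 591 627) (node 593 (merge (leaf 0 590 590) (node 594 (merge (leaf 3 558 558) (leaf 3 559 595))))))))))))))) (node 623 (merge (leaf 6 527 655) (node 624 (merge (leaf 4 527 656) (node 592 (merge (leaf 7 495 495) (node 625 (merge (leaf 4 528 657) (node 626 (merge (leaf 3 591 627) (node 658 (merge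 (leaf 0 623 659) (node 594 (merge (leaf 2 591 595) (node 593 (merge (leaf 3 558 558) (node 690 (merge (leaf 7 561 561) (leaf 7 593 722)))))))))))))))))))))))) (merge (node 558 (merge (node 557 (merge (leaf 2 524 556) (node 592 (merge (leaf 0 557 593) (node 624 (merge (leaf 7 495 495) (leaf 7 527 656))))))) (merge (node 557 (merge (leaf 2 524 556) (node 525 (merge (leaf 3 524 524) (node 526 (merge (leaf 0 525 561) (node 493 (merge (leaf 3 492 492) (node 590 (merge (leaf 4 461 461) (leaf 7 493 622))))))))))) (node 526 (merge (node 561 (merge (leaf 3 525 525) (leaf 3 526 562))) (merge (node 525 (merge (leaf 0 524 524) (node 493 (merge (leaf 3 492 492) (node 590 (merge (leaf 7 493 622) (node 461 (merge (leaf 4 429 429) (leaf 7 461 494))))))))) (node 494 (merge (node 462 (merge (leaf 4 430 430) (node 463 (merge (leaf 6 430 431) (node 495 (merge (leaf 6 462 590) (leaf 4 463 592))))))) (merge (node 462 (merge (leaf 4 430 430) (node 461 (merge (leaf 7 429 429) (node 590 (merge (leaf 7 461 493) (node 622 (merge (leaf 6 494 495) (leaf 6 526 654))))))))) (merge (node 462 (merge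 (leaf 4 430 430) (node 463 (merge (leaf 6 430 431) (node 461 (merge (leaf 7 429 429) (node 493 (merge (leaf 7 461 590) (node 492 (merge (leaf 1 460 464) (leaf 0 491 491))))))))))) (merge (node 462 (merge (leaf 4 430 430) (node 463 (merge (leaf 6 430 431) (node 495 (merge (leaf 4 463 592) (node 464 (merge (leaf 6 431 432) (node 493 (merge (leaf 1 461 465) (leaf 0 492 492))))))))))) (node 592 (merge (node 624 (merge (leaf 7 495 495) (leaf 7 527 656))) (merge (node 495 (merge (leaf 4 463 463) (node 493 (merge (leaf 0 492 492) (node 590 (merge (leaf 7 461 461) (leaf 6 494 622))))))) (node 624 (merge (leaf 7 527 656) (node 561 (merge (leaf 3 526 562) (node 593 (merge (leaf 0 558 594) (node 625 (merge (leaf 7 528 657) (node 623 (merge (leaf 5 527 655) (node 622 (merge (leaf 2 589 621) (node 654 (merge (leaf 6 526 590) (leaf 1 621 653))))))))))))))))))))))))))))) (merge (node 592 (merge (node 624 (merge (leaf 7 495 495) (leaf 7 527 656))) (merge (node 526 (merge (node 561 (merge (leaf 0 525 525) (leaf 3 526 562))) (node 624 (merge (leaf 7 527 656) (node 625 (merge (leaf 4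 528 657) (node 623 (merge (leaf 5 527 655) (node 591 (merge (leaf 7 494 494) (node 626 (merge (leaf 3 590 590) (leaf 3 591 627))))))))))))) (node 591 (merge (node 623 (merge (leaf 6 527 655) (node 622 (merge (leaf 5 526 654) (node 495 (merge (leaf 4 463 463) (leaf 5 494 590))))))) (merge (node 623 (merge (leaf 6 527 655) (node 526 (merge (leaf 7 494 494) (node 561 (merge (leaf 0 525 525) (leaf 3 526 562))))))) (node 593 (merge (node 594 (merge (leaf 3 559 595) (node 562 (merge (leaf 2 559 563) (node 561 (merge (leaf 3 526 526) (leaf 1 558 590))))))) (merge (node 495 (merge (leaf 4 463 463) (node 590 (merge (leaf 5 494 622) (node 625 (merge (leaf 0 590 626) (node 561 (merge (leaf 1 558 562) (leaf 7 528 657))))))))) (merge (node 594 (merge (leaf 3 559 595) (node 626 (merge (leaf 0 591 627) (node 590 (merge (leaf 0 590 625) (node 495 (merge (leaf 4 463 463) (leaf 5 494 622))))))))) (node 594 (merge (leaf 3 559 595) (node 562 (merge (leaf 2 559 563) (node 561 (merge (leaf 3 526 526) (node 625 (merge (leaf 7 528 657) (node 530 (merge (leaf 5 497 498) (leaf 2 527 531)))))))))))))))))))))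 (merge (node 561 (merge (node 562 (merge (leaf 3 526 526) (leaf 3 527 563))) (merge (node 562 (merge (leaf 3 527 563) (node 594 (merge (leaf 0 559 595) (node 593 (merge (leaf 0 558 558) (node 530 (merge (leaf 2 527 531) (node 498 (merge (leaf 5 465 466) (leaf 5 497 625))))))))))) (node 623 (merge (node 526 (merge (leaf 0 525 525) (node 591 (merge (leaf 7 494 494) (leaf 6 527 655))))) (merge (node 624 (merge (node 591 (merge (leaf 6 527 655) (leaf 4 527 656))) (merge (node 592 (merge (leaf 5 527 655) (leaf 7 527 656))) (merge (node 656 (merge (leaf 4 527 591) (leaf 7 527 592))) (node 655 (merge (leaf 6 527 591) (leaf 5 527 592))))))) (merge (node 625 (merge (node 593 (merge (leaf 7 528 657) (node 558 (merge (leaf 0 558 594) (node 557 (merge (leaf 2 524 556) (leaf 0 557 592))))))) (merge (node 526 (merge (leaf 0 525 525) (node 591 (merge (leaf 7 494 494) (node 624 (merge (leaf 4 527 656) (node 657 (merge (leaf 4 528 592) (node 622 (merge (leaf 5 526 654) (leaf 0 622 658))))))))))) (merge (node 525 (merge (leaf 0 525 526) (node 593 (merge (leaf 7 528 657) (node 558 (merge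 (leaf 0 558 594) (node 557 (merge (leaf 3 524 524) (leaf 2 524 556))))))))) (node 594 (merge (node 593 (merge (leaf 0 558 558) (node 595 (merge (leaf 3 559 592) (leaf 3 560 596))))) (merge (node 525 (merge (leaf 0 525 526) (node 558 (merge (leaf 0 558 593) (node 557 (merge (leaf 3 524 524) (leaf 2 524 556))))))) (node 526 (merge (leaf 0 525 525) (node 591 (merge (leaf 7 494 494) (node 624 (merge (leaf 4 527 656) (node 626 (merge (leaf 2 591 595) (node 659 (merge (leaf 0 623 658) (node 627 (merge (leaf 3 591 592) (leaf 0 624 660)))))))))))))))))))) (node 624 (merge (node 592 (merge (leaf 5 527 655) (leaf 7 527 656))) (merge (node 558 (merge (node 525 (merge (leaf 3 525 526) (node 557 (merge (leaf 3 524 524) (leaf 2 524 556))))) (node 593 (merge (leaf 0 558 594) (node 625 (merge (leaf 7 528 657) (node 592 (merge (leaf 5 527 655) (node 622 (merge (leaf 2 589 621) (node 654 (merge (leaf 6 526 590) (leaf 1 621 653))))))))))))) (merge (node 558 (merge (node 525 (merge (leaf 3 525 526) (node 557 (merge (leaf 3 524 524) (leaf 2 524 556))))) (node 593 (merge (leaf 0 558 594)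 (node 592 (merge (leaf 7 527 656) (node 625 (merge (leaf 7 528 657) (node 622 (merge (leaf 2 589 621) (node 654 (merge (leaf 6 526 590) (leaf 1 621 653))))))))))))) (node 625 (merge (node 593 (merge (leaf 7 528 657) (node 594 (merge (leaf 0 558 558) (leaf 2 590 622))))) (merge (node 657 (merge (leaf 7 528 593) (node 658 (merge (leaf 0 622 622) (node 659 (merge (leaf 0 623 626) (leaf 3 623 656))))))) (merge (node 593 (merge (leaf 7 528 657) (node 594 (merge (leaf 0 558 558) (node 595 (merge (leaf 1 592 596) (leaf 2 591 626))))))) (merge (node 594 (merge (node 593 (merge (leaf 0 558 558) (leaf 2 590 622))) (node 626 (merge (leaf 2 591 595) (node 659 (merge (leaf 0 623 658) (node 627 (merge (leaf 0 624 660) (node 655 (merge (leaf 1 622 654) (leaf 1 623 656))))))))))) (node 626 (merge (node 658 (merge (leaf 0 623 659) (node 622 (merge (leaf 0 622 657) (node 654 (merge (leaf 1 621 653) (leaf 1 622 655))))))) (merge (node 659 (merge (leaf 0 623 658) (node 627 (merge (leaf 0 624 660) (node 595 (merge (leaf 2 591 594) (leaf 2 592 596))))))) (node 655 (merge (leaf 1 622 654)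 (node 627 (merge (leaf 1 623 656) (node 595 (merge (leaf 2 591 594) (leaf 2 592 596)))))))))))))))))))))))))) (merge (node 495 (merge (node 592 (merge (leaf 4 463 463) (leaf 7 495 624))) (merge (node 463 (merge (leaf 4 431 431) (node 590 (merge (leaf 5 462 558) (node 591 (merge (leaf 5 494 622) (node 462 (merge (leaf 7 430 430) (leaf 7 462 494))))))))) (node 622 (merge (node 591 (merge (leaf 5 494 590) (node 623 (merge (leaf 5 526 654) (leaf 6 527 655))))) (merge (node 591 (merge (leaf 5 494 590) (node 623 (merge (leaf 6 527 655) (node 494 (merge (leaf 7 462 462) (leaf 7 494 526))))))) (merge (node 558 (merge (node 590 (merge (leaf 6 494 526) (leaf 6 526 654))) (node 592 (merge (leaf 7 495 624) (node 557 (merge (leaf 2 524 556) (leaf 0 557 593))))))) (node 624 (merge (leaf 7 495 592) (node 623 (merge (node 591 (merge (leaf 4 527 656) (node 494 (merge (leaf 7 462 462) (leaf 7 494 526))))) (merge (node 591 (merge (leaf 5 526 654) (node 494 (merge (leaf 7 462 462) (leaf 7 494 526))))) (node 621 (merge (node 652 (merge (leaf 1 620 653) (node 620 (merge (leaf 1 619 651)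 (node 655 (merge (leaf 0 620 656) (node 619 (merge (leaf 0 619 654) (node 587 (merge (leaf 3 586 586) (leaf 3 587 588))))))))))) (merge (node 656 (merge (leaf 0 621 657) (node 620 (merge (leaf 0 620 655) (node 651 (merge (leaf 1 619 652) (node 619 (merge (leaf 1 618 650) (node 587 (merge (leaf 3 586 586) (leaf 3 587 588))))))))))) (merge (node 657 (merge (leaf 0 621 656) (node 625 (merge (leaf 0 622 658) (node 654 (merge (leaf 1 621 653) (node 626 (merge (leaf 1 622 655) (node 594 (merge (leaf 2 590 593) (leaf 2 591 595))))))))))) (node 653 (merge (leaf 1 620 652) (node 625 (merge (leaf 1 621 654) (node 658 (merge (leaf 0 622 657) (node 626 (merge (leaf 0 623 659) (node 594 (merge (leaf 2 590 593) (leaf 2 591 595))))))))))))))))))))))))))) (merge (node 561 (merge (node 562 (merge (leaf 3 526 526) (leaf 3 527 563))) (merge (node 562 (merge (leaf 3 527 563) (node 594 (merge (leaf 0 559 595) (node 593 (merge (leaf 0 558 558) (node 530 (merge (leaf 2 527 531) (node 498 (merge (leaf 5 465 466) (leaf 5 497 625))))))))))) (node 462 (merge (node 526 (merge (leaf 0 525 525)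 (node 494 (merge (leaf 4 430 430) (node 591 (merge (leaf 4 462 558) (leaf 7 494 623))))))) (merge (node 495 (merge (node 592 (merge (leaf 4 463 463) (leaf 7 495 624))) (merge (node 494 (merge (leaf 7 462 591) (node 493 (merge (leaf 0 492 492) (node 463 (merge (leaf 4 431 431) (node 464 (merge (leaf 6 431 432) (leaf 1 461 465))))))))) (node 624 (merge (leaf 7 495 592) (node 591 (merge (leaf 7 462 494) (node 623 (merge (leaf 6 527 655) (leaf 4 527 656)))))))))) (node 463 (merge (node 495 (merge (leaf 7 430 430) (leaf 4 463 592))) (merge (node 495 (merge (leaf 4 431 431) (leaf 4 463 592))) (node 461 (merge (node 493 (merge (node 492 (merge (leaf 1 460 464) (node 491 (merge (leaf 1 459 460) (leaf 2 458 490))))) (node 525 (merge (leaf 0 525 526) (node 557 (merge (leaf 6 429 430) (node 558 (merge (leaf 3 524 524) (leaf 2 524 556))))))))) (merge (node 428 (merge (node 427 (merge (leaf 3 427 460) (node 429 (merge (leaf 0 426 426) (leaf 3 428 464))))) (merge (node 525 (merge (leaf 0 525 526) (node 460 (merge (leaf 3 427 427) (node 557 (merge (leaf 7 428 493) (node 558 (merge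 (leaf 3 524 524) (leaf 2 524 556))))))))) (node 525 (merge (leaf 0 525 526) (node 429 (merge (leaf 3 428 464) (node 493 (merge (leaf 7 396 396) (node 556 (merge (leaf 5 428 524) (node 557 (merge (leaf 2 524 558) (leaf 5 460 588)))))))))))))) (merge (node 525 (merge (leaf 0 525 526) (node 460 (merge (node 491 (merge (leaf 1 459 492) (node 459 (merge (leaf 1 458 490) (node 431 (merge (leaf 2 427 430) (leaf 2 428 432))))))) (node 428 (merge (leaf 3 427 427) (node 557 (merge (leaf 7 428 493) (node 558 (merge (leaf 3 524 524) (leaf 2 524 556))))))))))) (merge (node 460 (merge (node 491 (merge (leaf 1 459 492) (node 459 (merge (leaf 1 458 490) (node 427 (merge (leaf 3 426 426) (leaf 3 427 428))))))) (merge (node 432 (merge (leaf 2 428 431) (node 464 (merge (leaf 2 429 433) (node 428 (merge (leaf 3 427 427) (leaf 3 428 429))))))) (node 491 (merge (leaf 1 459 492) (node 459 (merge (leaf 1 458 490) (node 431 (merge (leaf 2 427 430) (leaf 2 428 432)))))))))) (node 429 (merge (node 464 (merge (leaf 3 428 428) (node 433 (merge (leaf 2 429 432) (node 465 (merge (leaf 3 429 430)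 (leaf 2 430 434))))))) (merge (node 428 (merge (node 427 (merge (leaf 0 426 426) (leaf 0 427 430))) (node 525 (merge (leaf 0 525 526) (node 493 (merge (leaf 7 396 396) (node 556 (merge (leaf 5 428 524) (node 557 (merge (leaf 2 524 558) (leaf 5 460 588))))))))))) (merge (node 525 (merge (leaf 0 525 526) (node 428 (merge (leaf 3 428 464) (node 493 (merge (leaf 7 396 396) (node 556 (merge (leaf 5 428 524) (node 557 (merge (leaf 2 524 558) (leaf 5 460 588))))))))))) (node 493 (merge (node 525 (merge (leaf 0 525 526) (node 430 (merge (leaf 6 397 398) (leaf 6 429 557))))) (merge (node 464 (merge (leaf 1 460 492) (node 433 (merge (leaf 2 429 432) (node 465 (merge (leaf 3 429 430) (leaf 2 430 434))))))) (node 525 (merge (leaf 0 525 526) (node 556 (merge (leaf 5 428 524) (node 557 (merge (leaf 2 524 558) (leaf 5 460 588)))))))))))))))))))))))))))) (merge (node 624 (merge (node 592 (merge (leaf 7 495 495) (leaf 7 527 656))) (merge (node 623 (merge (node 591 (merge (leaf 6 527 655) (leaf 4 527 656))) (merge (node 592 (merge (leaf 5 527 655) (leaf 7 527 656))) (merge (node 656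 (merge (leaf 4 527 591) (leaf 7 527 592))) (node 655 (merge (leaf 6 527 591) (leaf 5 527 592))))))) (merge (node 495 (merge (leaf 7 495 592) (node 463 (merge (leaf 4 431 431) (node 590 (merge (leaf 5 462 558) (node 591 (merge (leaf 5 494 622) (node 623 (merge (leaf 6 527 655) (node 494 (merge (leaf 7 462 462) (leaf 7 494 526))))))))))))) (node 462 (merge (node 591 (merge (node 623 (merge (leaf 6 527 655) (leaf 4 527 656))) (node 495 (merge (leaf 7 462 494) (node 463 (merge (leaf 7 430 430) (leaf 4 431 431))))))) (merge (node 526 (merge (node 561 (merge (leaf 0 525 525) (leaf 3 526 562))) (node 494 (merge (leaf 4 430 430) (node 591 (merge (leaf 4 462 558) (leaf 7 494 623))))))) (merge (node 591 (merge (node 623 (merge (leaf 6 527 655) (leaf 4 527 656))) (node 494 (merge (leaf 7 462 495) (node 526 (merge (leaf 4 462 558) (node 525 (merge (leaf 0 524 524) (leaf 0 525 561))))))))) (merge (node 463 (merge (node 495 (merge (leaf 7 430 430) (leaf 4 431 431))) (merge (node 430 (merge (leaf 7 430 495) (node 526 (merge (leaf 4 430 494) (node 561 (merge (leaf 0 525 525) (leaf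 3 526 562))))))) (merge (node 526 (merge (node 561 (merge (leaf 0 525 525) (leaf 3 526 562))) (node 494 (merge (leaf 4 430 430) (node 558 (merge (leaf 6 430 431) (node 461 (merge (leaf 7 429 429) (node 493 (merge (leaf 7 461 590) (node 492 (merge (leaf 1 460 464) (leaf 0 491 491))))))))))))) (node 495 (merge (leaf 4 431 431) (node 464 (merge (leaf 6 431 432) (node 558 (merge (leaf 5 462 590) (node 557 (merge (leaf 2 524 556) (node 525 (merge (leaf 3 524 524) (node 526 (merge (leaf 0 525 561) (node 493 (merge (leaf 3 492 492) (node 494 (merge (leaf 1 461 465) (node 461 (merge (leaf 7 429 429) (node 460 (merge (leaf 7 428 428) (leaf 0 459 459))))))))))))))))))))))))) (node 463 (merge (node 495 (merge (leaf 7 430 430) (leaf 4 431 431))) (merge (node 495 (merge (leaf 7 430 430) (node 590 (merge (leaf 5 462 558) (node 591 (merge (leaf 5 494 622) (node 623 (merge (leaf 6 527 655) (leaf 4 527 656))))))))) (merge (node 495 (merge (leaf 4 431 431) (node 590 (merge (leaf 5 462 558) (node 591 (merge (leaf 5 494 622) (node 623 (merge (leaf 6 527 655) (leaf 4 527 656))))))))) (node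 461 (merge (node 525 (merge (node 526 (merge (leaf 0 524 524) (leaf 0 525 561))) (merge (node 557 (merge (node 558 (merge (leaf 3 524 524) (leaf 2 524 556))) (merge (node 493 (merge (leaf 6 429 430) (node 558 (merge (leaf 2 524 556) (leaf 4 461 590))))) (merge (node 493 (merge (leaf 6 429 430) (node 558 (merge (leaf 3 524 524) (leaf 4 461 590))))) (node 493 (merge (leaf 6 429 430) (node 428 (merge (leaf 7 428 460) (node 429 (merge (leaf 7 396 396) (node 556 (merge (leaf 5 428 524) (leaf 5 460 588))))))))))))) (node 526 (merge (leaf 0 525 561) (node 557 (merge (leaf 1 524 556) (node 493 (merge (leaf 6 429 430) (leaf 3 492 492)))))))))) (merge (node 460 (merge (node 491 (merge (leaf 1 459 492) (node 459 (merge (leaf 1 458 490) (node 427 (merge (leaf 3 426 426) (leaf 3 427 428))))))) (merge (node 492 (merge (leaf 1 459 491) (node 464 (merge (leaf 1 460 493) (node 432 (merge (leaf 2 428 431) (leaf 2 429 433))))))) (node 432 (merge (leaf 2 428 431) (node 464 (merge (leaf 2 429 433) (node 428 (merge (leaf 3 427 427) (leaf 3 428 429)))))))))) (merge (node 460 (merge (node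 492 (merge (leaf 1 459 491) (node 464 (merge (leaf 1 460 493) (node 432 (merge (leaf 2 428 431) (leaf 2 429 433))))))) (merge (node 492 (merge (leaf 1 459 491) (node 493 (merge (leaf 1 460 464) (node 525 (merge (leaf 3 492 526) (node 557 (merge (leaf 6 429 430) (node 558 (merge (leaf 3 524 524) (leaf 2 524 556))))))))))) (merge (node 525 (merge (node 526 (merge (leaf 0 524 524) (leaf 0 525 561))) (merge (node 431 (merge (leaf 2 428 432) (node 430 (merge (leaf 2 427 459) (node 557 (merge (leaf 6 429 493) (node 558 (merge (leaf 3 524 524) (leaf 2 524 556))))))))) (node 526 (merge (leaf 0 525 561) (node 557 (merge (leaf 1 524 556) (node 493 (merge (leaf 6 429 430) (leaf 3 492 492)))))))))) (node 431 (merge (leaf 2 428 432) (node 459 (merge (leaf 2 427 430) (node 490 (merge (leaf 1 458 491) (node 458 (merge (leaf 1 457 489) (node 426 (merge (leaf 3 425 425) (leaf 3 426 427))))))))))))))) (merge (node 561 (merge (node 562 (merge (leaf 3 527 563) (node 591 (merge (leaf 1 558 590) (node 623 (merge (leaf 6 527 655) (leaf 4 527 656))))))) (node 429 (merge (node 464 (merge (leaf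 3 428 428) (node 433 (merge (leaf 2 429 432) (node 465 (merge (leaf 3 429 430) (leaf 2 430 434))))))) (merge (node 428 (merge (node 427 (merge (leaf 0 426 426) (leaf 0 427 430))) (node 525 (merge (leaf 0 525 526) (node 493 (merge (leaf 7 396 396) (node 556 (merge (leaf 5 428 524) (node 557 (merge (leaf 2 524 558) (leaf 5 460 588))))))))))) (merge (node 525 (merge (leaf 0 525 526) (node 428 (merge (leaf 3 428 464) (node 493 (merge (leaf 7 396 396) (node 556 (merge (leaf 5 428 524) (node 557 (merge (leaf 2 524 558) (leaf 5 460 588))))))))))) (node 493 (merge (node 525 (merge (leaf 0 525 526) (node 430 (merge (leaf 6 397 398) (leaf 6 429 557))))) (merge (node 464 (merge (leaf 1 460 492) (node 433 (merge (leaf 2 429 432) (node 465 (merge (leaf 3 429 430) (leaf 2 430 434))))))) (node 525 (merge (leaf 0 525 526) (node 556 (merge (leaf 5 428 524) (node 557 (merge (leaf 2 524 558) (leaf 5 460 588)))))))))))))))) (node 460 (merge (node 427 (merge (leaf 3 427 428) (node 459 (merge (leaf 3 426 426) (node 490 (merge (leaf 1 458 491) (node 458 (merge (leaf 1 457 489) (node 430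 (merge (leaf 2 426 429) (leaf 2 427 431))))))))))) (merge (node 431 (merge (leaf 2 428 432) (node 459 (merge (leaf 2 427 430) (node 490 (merge (leaf 1 458 491) (node 458 (merge (leaf 1 457 489) (node 426 (merge (leaf 3 425 425) (leaf 3 426 427))))))))))) (merge (node 428 (merge (leaf 3 427 427) (node 464 (merge (leaf 3 428 429) (node 433 (merge (leaf 2 429 432) (node 465 (merge (leaf 2 430 434) (node 498 (merge (leaf 0 462 497) (node 466 (merge (leaf 0 463 499) (node 562 (merge (leaf 7 433 530) (node 561 (merge (leaf 3 526 526) (leaf 3 527 563))))))))))))))))) (node 432 (merge (leaf 2 428 431) (node 464 (merge (leaf 2 429 433) (node 429 (merge (leaf 3 428 428) (node 465 (merge (leaf 3 429 430) (node 498 (merge (leaf 0 462 497) (node 466 (merge (leaf 0 463 499) (node 435 (merge (leaf 2 431 434) (node 467 (merge (leaf 2 432 436) (node 562 (merge (leaf 6 434 530) (node 561 (merge (leaf 3 526 526) (leaf 3 527 563))))))))))))))))))))))))))))))))))))))))))) (node 462 (merge (node 495 (merge (node 463 (merge (leaf 7 430 430) (leaf 4 431 431))) (node 591 (merge (leaf 7 462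 494) (node 623 (merge (leaf 6 527 655) (node 622 (merge (leaf 5 494 590) (leaf 5 526 654))))))))) (merge (node 561 (merge (node 562 (merge (leaf 3 526 526) (leaf 3 527 563))) (merge (node 526 (merge (leaf 0 525 525) (node 494 (merge (leaf 4 430 430) (node 591 (merge (leaf 4 462 558) (leaf 7 494 623))))))) (node 562 (merge (leaf 3 527 563) (node 594 (merge (leaf 0 559 595) (node 593 (merge (leaf 0 558 558) (node 530 (merge (leaf 2 527 531) (node 498 (merge (leaf 5 465 466) (leaf 5 497 625)))))))))))))) (merge (node 591 (merge (node 495 (merge (leaf 7 462 494) (node 590 (merge (leaf 5 494 622) (node 463 (merge (leaf 4 431 431) (leaf 5 462 558))))))) (merge (node 623 (merge (leaf 6 527 655) (node 526 (merge (leaf 7 494 494) (node 561 (merge (leaf 0 525 525) (leaf 3 526 562))))))) (node 623 (merge (leaf 6 527 655) (node 624 (merge (leaf 4 527 656) (node 622 (merge (leaf 5 526 654) (node 590 (merge (leaf 5 494 495) (node 561 (merge (leaf 1 558 562) (node 625 (merge (leaf 3 590 626) (node 657 (merge (leaf 7 528 593) (leaf 0 622 658)))))))))))))))))) (merge (node 561 (merge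 (node 562 (merge (leaf 3 526 526) (leaf 3 527 563))) (merge (node 562 (merge (leaf 3 527 563) (node 594 (merge (leaf 0 559 595) (node 593 (merge (leaf 0 558 558) (node 530 (merge (leaf 2 527 531) (node 498 (merge (leaf 5 465 466) (leaf 5 497 625))))))))))) (node 463 (merge (node 495 (merge (leaf 7 430 430) (leaf 4 431 431))) (merge (node 430 (merge (leaf 7 430 495) (node 526 (merge (leaf 4 430 494) (node 525 (merge (leaf 0 524 524) (leaf 0 525 561))))))) (merge (node 525 (merge (leaf 0 525 526) (node 495 (merge (leaf 4 431 431) (node 558 (merge (leaf 5 462 590) (node 557 (merge (leaf 3 524 524) (leaf 2 524 556))))))))) (node 526 (merge (leaf 0 525 525) (node 494 (merge (leaf 4 430 430) (node 558 (merge (leaf 6 430 431) (node 461 (merge (leaf 7 429 429) (node 493 (merge (leaf 7 461 590) (node 492 (merge (leaf 1 460 464) (leaf 0 491 491)))))))))))))))))))) (node 463 (merge (node 495 (merge (leaf 7 430 430) (leaf 4 431 431))) (merge (node 495 (merge (leaf 7 430 430) (node 558 (merge (leaf 5 462 590) (node 557 (merge (leaf 2 524 556) (node 525 (merge (leaf 3 524 524) (node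 561 (merge (leaf 0 525 526) (node 594 (merge (leaf 0 558 593) (node 562 (merge (leaf 3 527 563) (leaf 0 559 595))))))))))))))) (merge (node 495 (merge (leaf 4 431 431) (node 558 (merge (leaf 5 462 590) (node 557 (merge (leaf 2 524 556) (node 525 (merge (leaf 3 524 524) (node 561 (merge (leaf 0 525 526) (node 594 (merge (leaf 0 558 593) (node 562 (merge (leaf 3 527 563) (leaf 0 559 595))))))))))))))) (node 461 (merge (node 525 (merge (node 526 (merge (leaf 0 524 524) (leaf 0 525 561))) (merge (node 557 (merge (node 558 (merge (leaf 3 524 524) (leaf 2 524 556))) (merge (node 493 (merge (leaf 6 429 430) (node 558 (merge (leaf 2 524 556) (leaf 4 461 590))))) (merge (node 493 (merge (leaf 6 429 430) (node 558 (merge (leaf 3 524 524) (leaf 4 461 590))))) (node 493 (merge (leaf 6 429 430) (node 428 (merge (leaf 7 428 460) (node 429 (merge (leaf 7 396 396) (node 556 (merge (leaf 5 428 524) (leaf 5 460 588))))))))))))) (node 526 (merge (leaf 0 525 561) (node 557 (merge (leaf 1 524 556) (node 493 (merge (leaf 6 429 430) (leaf 3 492 492)))))))))) (merge (node 460 (merge (node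 491 (merge (leaf 1 459 492) (node 459 (merge (leaf 1 458 490) (node 427 (merge (leaf 3 426 426) (leaf 3 427 428))))))) (merge (node 492 (merge (leaf 1 459 491) (node 464 (merge (leaf 1 460 493) (node 432 (merge (leaf 2 428 431) (leaf 2 429 433))))))) (node 432 (merge (leaf 2 428 431) (node 464 (merge (leaf 2 429 433) (node 428 (merge (leaf 3 427 427) (leaf 3 428 429)))))))))) (merge (node 460 (merge (node 492 (merge (leaf 1 459 491) (node 464 (merge (leaf 1 460 493) (node 432 (merge (leaf 2 428 431) (leaf 2 429 433))))))) (merge (node 492 (merge (leaf 1 459 491) (node 493 (merge (leaf 1 460 464) (node 525 (merge (leaf 3 492 526) (node 557 (merge (leaf 6 429 430) (node 558 (merge (leaf 3 524 524) (leaf 2 524 556))))))))))) (merge (node 525 (merge (node 526 (merge (leaf 0 524 524) (leaf 0 525 561))) (merge (node 431 (merge (leaf 2 428 432) (node 430 (merge (leaf 2 427 459) (node 557 (merge (leaf 6 429 493) (node 558 (merge (leaf 3 524 524) (leaf 2 524 556))))))))) (node 526 (merge (leaf 0 525 561) (node 557 (merge (leaf 1 524 556) (node 493 (merge (leaf 6 429 430) (leaf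 3 492 492)))))))))) (node 431 (merge (leaf 2 428 432) (node 459 (merge (leaf 2 427 430) (node 490 (merge (leaf 1 458 491) (node 458 (merge (leaf 1 457 489) (node 426 (merge (leaf 3 425 425) (leaf 3 426 427))))))))))))))) (merge (node 460 (merge (node 427 (merge (leaf 3 427 428) (node 459 (merge (leaf 3 426 426) (node 490 (merge (leaf 1 458 491) (node 458 (merge (leaf 1 457 489) (node 430 (merge (leaf 2 426 429) (leaf 2 427 431))))))))))) (merge (node 431 (merge (leaf 2 428 432) (node 459 (merge (leaf 2 427 430) (node 490 (merge (leaf 1 458 491) (node 458 (merge (leaf 1 457 489) (node 426 (merge (leaf 3 425 425) (leaf 3 426 427))))))))))) (merge (node 428 (merge (leaf 3 427 427) (node 464 (merge (leaf 3 428 429) (node 433 (merge (leaf 2 429 432) (node 465 (merge (leaf 2 430 434) (node 498 (merge (leaf 0 462 497) (node 466 (merge (leaf 0 463 499) (node 562 (merge (leaf 7 433 530) (node 561 (merge (leaf 3 526 526) (leaf 3 527 563))))))))))))))))) (node 432 (merge (leaf 2 428 431) (node 464 (merge (leaf 2 429 433) (node 429 (merge (leaf 3 428 428) (node 465 (merge (leaf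 3 429 430) (node 498 (merge (leaf 0 462 497) (node 466 (merge (leaf 0 463 499) (node 435 (merge (leaf 2 431 434) (node 467 (merge (leaf 2 432 436) (node 562 (merge (leaf 6 434 530) (node 561 (merge (leaf 3 526 526) (leaf 3 527 563))))))))))))))))))))))))) (node 493 (merge (node 464 (merge (leaf 1 460 492) (node 433 (merge (leaf 2 429 432) (node 465 (merge (leaf 2 430 434) (node 429 (merge (leaf 3 428 428) (leaf 3 429 430))))))))) (merge (node 561 (merge (node 562 (merge (leaf 3 526 526) (leaf 3 527 563))) (merge (node 525 (merge (leaf 0 525 526) (node 557 (merge (leaf 6 429 430) (node 558 (merge (leaf 3 524 524) (leaf 2 524 556))))))) (node 562 (merge (leaf 3 527 563) (node 594 (merge (leaf 0 559 595) (node 558 (merge (leaf 0 558 593) (node 590 (merge (leaf 1 558 591) (node 557 (merge (leaf 4 461 525) (leaf 2 524 556)))))))))))))) (node 464 (merge (leaf 1 460 492) (node 433 (merge (leaf 2 429 432) (node 465 (merge (leaf 2 430 434) (node 498 (merge (leaf 0 462 497) (node 466 (merge (leaf 0 463 499) (node 562 (merge (leaf 7 433 530) (node 561 (merge (leaf 3 526 526)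 (leaf 3 527 563)))))))))))))))))))))))))))))))))))))))))) nP_114 cP_114 17 (by decide +kernel)
def nP_115 : ℕ := 0x180000001800000000000000000000000000000000000000000000000000000000000000000000000000000000000000000000000000000000000000000000000000000000000
def cP_115 : ℕ := 0xa0000000e0000000e0000000fc000000f8000000ff000000e7000000c3000000ef000000ff000000ec00000080000000000000000000000000000000000000000000000000000000000000000000000000000000000000000000000000000
theorem lP_115 : S nP_115 cP_115 15 := S_of_chk [] trivial (node 594 (merge (node 592 (merge (node 495 (merge (leaf 4 463 463) (leaf 7 495 624))) (node 593 (merge (leaf 3 559 595) (node 558 (merge (leaf 0 557 557) (leaf 3 558 591))))))) (merge (node 561 (merge (node 562 (merge (leaf 3 527 563) (leaf 0 559 595))) (node 558 (merge (leaf 0 558 593) (node 589 (merge (leaf 1 557 590) (node 557 (merge (leaf 2 524 556) (leaf 1 556 588))))))))) (merge (node 562 (merge (node 561 (merge (leaf 3 527 563) (leaf 0 559 595))) (merge (node 595 (merge (leaf 0 559 561) (node 592 (merge (leaf 3 559 593) (node 495 (merge (leaf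 4 463 463) (leaf 7 495 624))))))) (merge (node 592 (merge (node 624 (merge (leaf 7 495 495) (leaf 7 527 656))) (node 593 (merge (leaf 3 559 595) (node 591 (merge (leaf 2 559 563) (node 626 (merge (leaf 0 591 627) (node 625 (merge (leaf 0 590 590) (node 530 (merge (leaf 5 497 498) (leaf 5 529 657))))))))))))) (node 561 (merge (leaf 3 527 563) (node 591 (merge (leaf 1 558 590) (node 623 (merge (leaf 6 527 655) (node 530 (merge (leaf 2 527 531) (node 624 (merge (leaf 4 527 656) (node 592 (merge (leaf 7 495 495) (node 625 (merge (leaf 4 528 657) (node 626 (merge (leaf 3 591 627) (node 658 (merge (leaf 0 623 659) (node 593 (merge (leaf 5 497 498) (leaf 7 561 690))))))))))))))))))))))))) (merge (node 558 (merge (node 561 (merge (leaf 0 558 593) (node 590 (merge (leaf 1 557 589) (node 562 (merge (leaf 3 527 563) (leaf 1 558 591))))))) (merge (node 557 (merge (leaf 2 524 556) (node 592 (merge (leaf 0 557 593) (node 624 (merge (leaf 7 495 495) (leaf 7 527 656))))))) (node 557 (merge (leaf 2 524 556) (node 589 (merge (leaf 1 556 588) (node 590 (merge (leaf 1 557 561) (node 525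 (merge (leaf 3 524 524) (node 493 (merge (leaf 4 461 461) (node 492 (merge (leaf 7 460 460) (node 495 (merge (leaf 5 462 463) (leaf 0 492 494)))))))))))))))))) (node 562 (merge (node 561 (merge (leaf 3 527 563) (leaf 0 559 595))) (merge (node 561 (merge (leaf 0 559 595) (node 591 (merge (leaf 1 558 590) (node 623 (merge (leaf 6 527 655) (node 624 (merge (leaf 4 527 656) (node 495 (merge (leaf 7 495 592) (node 462 (merge (leaf 7 462 494) (node 463 (merge (leaf 7 430 430) (leaf 4 431 431))))))))))))))) (merge (node 561 (merge (leaf 3 527 563) (node 591 (merge (leaf 1 558 590) (node 623 (merge (leaf 6 527 655) (node 624 (merge (leaf 4 527 656) (node 495 (merge (leaf 7 495 592) (node 462 (merge (leaf 7 462 494) (node 463 (merge (leaf 7 430 430) (leaf 4 431 431))))))))))))))) (node 626 (merge (node 658 (merge (node 531 (merge (leaf 6 530 563) (node 530 (merge (leaf 6 498 499) (node 657 (merge (leaf 5 529 625) (leaf 5 561 689))))))) (merge (node 691 (merge (leaf 4 562 659) (node 690 (merge (leaf 4 594 723) (node 689 (merge (leaf 5 561 657) (leaf 5 593 721))))))) (node 563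 (merge (leaf 6 530 531) (node 690 (merge (leaf 6 562 595) (node 691 (merge (leaf 4 562 659) (leaf 4 594 723)))))))))) (merge (node 624 (merge (node 592 (merge (leaf 7 495 495) (leaf 7 527 656))) (merge (node 592 (merge (leaf 7 495 495) (node 657 (merge (leaf 4 528 625) (node 658 (merge (leaf 5 561 689) (node 563 (merge (leaf 6 530 531) (node 690 (merge (leaf 6 562 595) (node 691 (merge (leaf 4 562 659) (leaf 4 594 723))))))))))))) (node 658 (merge (node 659 (merge (leaf 4 562 691) (node 623 (merge (leaf 0 623 625) (node 657 (merge (leaf 3 623 656) (leaf 5 561 689))))))) (merge (node 563 (merge (leaf 6 530 531) (node 690 (merge (leaf 6 562 595) (node 689 (merge (leaf 5 561 657) (leaf 5 593 721))))))) (node 563 (merge (leaf 6 530 531) (node 690 (merge (leaf 6 562 595) (node 691 (merge (leaf 4 562 659) (leaf 4 594 723))))))))))))) (merge (node 625 (merge (node 530 (merge (leaf 5 529 657) (node 499 (merge (leaf 6 498 531) (node 498 (merge (leaf 6 466 467) (node 627 (merge (leaf 4 498 595) (leaf 4 530 659))))))))) (merge (node 495 (merge (node 463 (merge (leaf 4 431 431)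 (leaf 4 463 592))) (merge (node 624 (merge (leaf 7 495 592) (node 623 (merge (leaf 2 591 595) (node 591 (merge (leaf 3 590 590) (leaf 4 527 656))))))) (node 463 (merge (leaf 4 431 431) (node 462 (merge (leaf 7 430 430) (node 591 (merge (leaf 7 462 494) (node 623 (merge (leaf 6 527 655) (node 624 (merge (leaf 3 590 590) (leaf 2 591 595)))))))))))))) (node 530 (merge (leaf 5 529 657) (node 499 (merge (leaf 6 498 531) (node 498 (merge (leaf 6 466 467) (node 465 (merge (leaf 7 465 497) (node 466 (merge (leaf 7 433 433) (node 463 (merge (leaf 0 463 464) (node 495 (merge (leaf 4 431 431) (leaf 4 463 592)))))))))))))))))) (merge (node 658 (merge (node 531 (merge (leaf 6 530 563) (node 530 (merge (leaf 6 498 499) (node 657 (merge (leaf 5 529 625) (leaf 5 561 689))))))) (merge (node 691 (merge (leaf 4 562 659) (node 690 (merge (leaf 4 594 723) (node 689 (merge (leaf 5 561 657) (leaf 5 593 721))))))) (node 659 (merge (leaf 4 562 691) (node 530 (merge (leaf 4 530 627) (node 499 (merge (leaf 6 498 531) (node 498 (merge (leaf 6 466 467) (node 465 (merge (leaf 7 465 497) (node 466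 (merge (leaf 7 433 433) (node 463 (merge (leaf 0 463 464) (node 495 (merge (leaf 4 431 431) (leaf 4 463 592)))))))))))))))))))) (merge (node 658 (merge (node 657 (merge (leaf 5 561 689) (node 625 (merge (leaf 5 529 530) (node 624 (merge (leaf 4 528 592) (node 623 (merge (leaf 2 591 595) (node 655 (merge (leaf 6 527 591) (leaf 1 622 654))))))))))) (merge (node 659 (merge (leaf 4 562 691) (node 530 (merge (leaf 4 530 627) (node 625 (merge (leaf 5 529 657) (node 624 (merge (leaf 0 623 623) (node 592 (merge (leaf 7 495 495) (leaf 7 527 656))))))))))) (node 691 (merge (leaf 4 562 659) (node 690 (merge (leaf 4 594 723) (node 595 (merge (leaf 6 562 563) (node 722 (merge (leaf 6 594 627) (node 721 (merge (leaf 5 593 689) (leaf 5 625 753)))))))))))))) (merge (node 658 (merge (node 531 (merge (leaf 6 530 563) (node 530 (merge (leaf 6 498 499) (node 657 (merge (leaf 5 529 625) (leaf 5 561 689))))))) (merge (node 657 (merge (leaf 5 561 689) (node 625 (merge (leaf 5 529 530) (node 624 (merge (leaf 4 528 592) (node 623 (merge (leaf 2 591 595) (node 655 (merge (leaf 6 527 591) (leaf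 1 622 654))))))))))) (merge (node 624 (merge (node 592 (merge (leaf 7 495 495) (leaf 7 527 656))) (merge (node 563 (merge (leaf 6 530 531) (node 595 (merge (leaf 6 562 690) (node 623 (merge (leaf 2 591 625) (node 591 (merge (leaf 6 527 655) (leaf 4 527 656))))))))) (node 592 (merge (leaf 7 495 495) (node 625 (merge (leaf 4 528 657) (node 623 (merge (leaf 2 591 595) (leaf 5 527 655)))))))))) (node 563 (merge (leaf 6 530 531) (node 690 (merge (leaf 6 562 595) (node 723 (merge (leaf 4 594 691) (node 722 (merge (leaf 4 626 755) (node 721 (merge (leaf 5 593 689) (leaf 5 625 753))))))))))))))) (node 658 (merge (node 659 (merge (leaf 4 562 691) (node 530 (merge (leaf 4 530 627) (node 499 (merge (leaf 6 498 531) (node 498 (merge (leaf 6 466 467) (node 465 (merge (leaf 7 465 497) (node 466 (merge (leaf 7 433 433) (node 463 (merge (leaf 0 463 464) (node 495 (merge (leaf 4 431 431) (leaf 4 463 592))))))))))))))))) (merge (node 531 (merge (leaf 6 530 563) (node 530 (merge (leaf 6 498 499) (node 627 (merge (leaf 4 530 659) (node 498 (merge (leaf 4 498 595) (node 465 (merge (leaf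 7 465 497) (node 466 (merge (leaf 7 433 433) (node 435 (merge (leaf 6 434 467) (node 434 (merge (leaf 6 402 403) (node 463 (merge (leaf 2 431 464) (node 495 (merge (leaf 4 431 431) (leaf 4 463 592))))))))))))))))))))) (merge (node 691 (merge (leaf 4 562 659) (node 690 (merge (leaf 4 594 723) (node 595 (merge (leaf 6 562 563) (node 722 (merge (leaf 6 594 627) (node 721 (merge (leaf 5 593 689) (leaf 5 625 753))))))))))) (node 563 (merge (leaf 6 530 531) (node 690 (merge (leaf 6 562 595) (node 723 (merge (leaf 4 594 691) (node 722 (merge (leaf 4 626 755) (node 721 (merge (leaf 5 593 689) (leaf 5 625 753))))))))))))))))))))))))))))))) nP_115 cP_115 15 (by decide +kernel)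
def nP_116 : ℕ := 0x180000001000000000000000000000000000000000000000000000000000000000000000000000000000000000000000000000000000000000000000000000000000000000000
def cP_116 : ℕ := 0xa0000000e4000000e7000000ff000000fb000003ff000000e7000000cf000000ef000000ff000000ff00000087000000040000000000000000000000000000000000000000000000000000000000000000000000000000000000000000000
theorem lP_116 : S nP_116 cP_116 17 := S_of_chk [(nP_107, cP_107, 10), (nP_20, cP_20, 10), (nP_115, cP_115, 15)] ⟨lP_107, lP_20, lP_115, trivial⟩ (node 527 (merge (node 558 (merge (node 557 (merge (leaf 2 524 556) (node 525 (merge (leaf 3 524 524) (node 561 (merge (leaf 0 525 526) (node 594 (merge (leaf 0 558 593) (node 562 (merge (leaf 3 527 563) (leaf 0 559 595))))))))))) (merge (node 557 (merge (leaf 2 524 556) (node 589 (merge (leaf 1 556 588) (node 561 (merge (leaf 1 557 590) (node 594 (merge (leaf 0 558 593) (node 562 (merge (leaf 3 527 563) (leaf 0 559 595))))))))))) (merge (node 526 (merge (node 557 (merge (leaf 2 524 556) (node 589 (merge (leaf 1 556 588) (node 621 (merge (leaf 6 525 653) (node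 494 (merge (leaf 5 461 462) (leaf 5 493 590))))))))) (merge (node 557 (merge (leaf 2 524 556) (node 589 (merge (leaf 1 556 588) (node 621 (merge (leaf 6 525 653) (node 494 (merge (leaf 5 461 462) (leaf 6 493 525))))))))) (merge (node 525 (merge (leaf 0 524 524) (node 557 (merge (leaf 1 524 556) (node 493 (merge (leaf 3 492 492) (node 461 (merge (leaf 4 429 429) (leaf 4 461 590))))))))) (node 525 (merge (leaf 0 524 524) (node 493 (merge (leaf 3 492 492) (node 461 (merge (leaf 4 429 429) (node 494 (merge (leaf 7 461 590) (node 591 (merge (leaf 4 462 462) (leaf 7 494 623))))))))))))))) (node 526 (merge (node 561 (merge (leaf 3 525 525) (leaf 3 526 562))) (merge (node 525 (merge (leaf 0 524 524) (node 493 (merge (leaf 3 492 492) (node 461 (merge (leaf 4 429 429) (node 494 (merge (leaf 7 461 590) (node 591 (merge (leaf 4 462 462) (leaf 7 494 623))))))))))) (node 494 (merge (node 591 (merge (leaf 4 462 462) (leaf 7 494 623))) (node 561 (merge (leaf 3 526 562) (node 590 (merge (leaf 1 557 589) (node 495 (merge (leaf 6 462 463) (node 493 (merge (leaf 7 461 461) (leaf 0 492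 492)))))))))))))))))) (merge (hyp 0) (merge (node 526 (merge (node 561 (merge (leaf 0 525 525) (leaf 3 526 562))) (merge (node 592 (merge (node 624 (merge (leaf 7 495 495) (leaf 7 527 656))) (node 525 (merge (leaf 0 524 524) (node 557 (merge (leaf 1 524 556) (node 558 (merge (leaf 0 557 593) (node 493 (merge (leaf 3 492 492) (node 461 (merge (leaf 4 429 429) (leaf 4 461 590))))))))))))) (node 558 (merge (node 557 (merge (leaf 2 524 556) (node 592 (merge (leaf 0 557 593) (node 624 (merge (leaf 7 495 495) (leaf 7 527 656))))))) (merge (node 557 (merge (leaf 2 524 556) (node 589 (merge (leaf 1 556 588) (node 561 (merge (leaf 1 557 590) (node 562 (merge (leaf 3 526 526) (leaf 3 527 563))))))))) (node 494 (merge (node 462 (merge (leaf 4 430 430) (node 463 (merge (leaf 6 430 431) (node 495 (merge (leaf 6 462 590) (leaf 4 463 592))))))) (merge (node 561 (merge (leaf 3 526 562) (node 590 (merge (leaf 1 557 589) (node 461 (merge (leaf 7 461 493) (node 462 (merge (leaf 7 429 429) (leaf 4 430 430))))))))) (merge (node 561 (merge (leaf 3 526 562) (node 590 (merge (leaf 1 557 589)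 (node 495 (merge (leaf 6 462 463) (node 493 (merge (leaf 7 461 461) (leaf 0 492 492))))))))) (node 462 (merge (leaf 4 430 430) (node 463 (merge (leaf 6 430 431) (node 495 (merge (leaf 4 463 592) (node 464 (merge (leaf 6 431 432) (node 493 (merge (leaf 1 461 465) (leaf 0 492 492))))))))))))))))))))) (merge (node 558 (merge (node 557 (merge (leaf 2 524 556) (node 592 (merge (leaf 0 557 593) (node 624 (merge (leaf 7 495 495) (leaf 7 527 656))))))) (merge (node 557 (merge (leaf 2 524 556) (node 589 (merge (leaf 1 556 588) (node 561 (merge (leaf 1 557 590) (node 562 (merge (leaf 3 526 526) (leaf 3 527 563))))))))) (node 591 (merge (node 623 (merge (leaf 6 527 655) (node 624 (merge (leaf 4 527 656) (node 495 (merge (leaf 7 495 592) (node 463 (merge (leaf 4 431 431) (leaf 5 462 590))))))))) (merge (node 623 (merge (leaf 6 527 655) (node 494 (merge (leaf 7 494 526) (node 495 (merge (leaf 7 462 462) (node 463 (merge (leaf 4 431 431) (leaf 5 462 590))))))))) (merge (node 495 (merge (node 592 (merge (leaf 4 463 463) (leaf 7 495 624))) (merge (node 463 (merge (leaf 4 431 431)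 (node 462 (merge (leaf 7 430 430) (leaf 7 462 494))))) (node 624 (merge (leaf 7 495 592) (node 623 (merge (leaf 4 527 656) (node 494 (merge (leaf 7 462 462) (leaf 7 494 526)))))))))) (merge (node 623 (merge (leaf 6 527 655) (node 526 (merge (leaf 7 494 494) (node 561 (merge (leaf 3 526 562) (node 593 (merge (leaf 0 558 594) (node 590 (merge (leaf 1 557 589) (node 625 (merge (leaf 7 528 657) (node 624 (merge (leaf 3 590 626) (leaf 4 527 656))))))))))))))) (node 561 (merge (node 562 (merge (leaf 3 526 526) (leaf 3 527 563))) (node 593 (merge (leaf 0 558 594) (node 590 (merge (leaf 1 557 589) (node 625 (merge (leaf 7 528 657) (node 592 (merge (leaf 0 590 626) (node 495 (merge (leaf 4 463 463) (leaf 7 495 624))))))))))))))))))))) (merge (node 558 (merge (node 592 (merge (node 624 (merge (leaf 7 495 495) (leaf 7 527 656))) (node 593 (merge (leaf 0 557 557) (node 594 (merge (leaf 3 558 591) (leaf 3 559 595))))))) (merge (node 557 (merge (leaf 2 524 556) (node 525 (merge (leaf 3 524 524) (node 526 (merge (leaf 0 525 561) (node 493 (merge (leaf 3 492 492) (node 461 (merge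 (leaf 4 429 429) (leaf 4 461 590))))))))))) (node 526 (merge (node 561 (merge (leaf 3 525 525) (leaf 3 526 562))) (merge (node 525 (merge (leaf 0 524 524) (node 493 (merge (leaf 3 492 492) (node 461 (merge (leaf 4 429 429) (node 494 (merge (leaf 7 461 590) (node 591 (merge (leaf 4 462 462) (leaf 7 494 623))))))))))) (node 494 (merge (node 591 (merge (leaf 4 462 462) (leaf 7 494 623))) (merge (node 462 (merge (leaf 4 430 430) (node 463 (merge (leaf 6 430 431) (node 495 (merge (leaf 6 462 590) (leaf 4 463 592))))))) (node 495 (merge (node 592 (merge (leaf 4 463 463) (leaf 7 495 624))) (merge (node 463 (merge (leaf 5 430 431) (leaf 5 462 590))) (node 493 (merge (leaf 0 492 492) (node 590 (merge (leaf 7 461 461) (node 591 (merge (leaf 7 494 623) (node 592 (merge (leaf 7 495 624) (node 561 (merge (leaf 1 558 562) (node 593 (merge (leaf 0 558 594) (node 625 (merge (leaf 0 590 626) (leaf 7 528 657))))))))))))))))))))))))))) (merge (node 561 (merge (node 562 (merge (leaf 3 526 526) (leaf 3 527 563))) (merge (node 562 (merge (leaf 3 527 563) (node 590 (merge (leaf 1 558 591)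 (node 558 (merge (leaf 1 557 589) (node 594 (merge (leaf 0 558 593) (leaf 0 559 595))))))))) (node 589 (merge (node 558 (merge (leaf 1 557 590) (node 557 (merge (leaf 2 524 556) (leaf 1 556 588))))) (merge (node 558 (merge (leaf 1 557 590) (node 593 (merge (leaf 0 558 594) (node 557 (merge (leaf 2 524 556) (leaf 0 557 592))))))) (merge (node 591 (merge (node 590 (merge (leaf 2 556 588) (leaf 2 557 592))) (node 526 (merge (leaf 0 525 525) (node 623 (merge (leaf 7 494 494) (leaf 6 527 655))))))) (node 525 (merge (leaf 0 525 526) (node 557 (merge (node 558 (merge (leaf 3 524 524) (leaf 2 524 556))) (merge (node 558 (merge (leaf 3 524 524) (leaf 1 556 588))) (merge (node 558 (merge (leaf 1 556 588) (node 592 (merge (leaf 0 557 593) (node 556 (merge (leaf 2 524 527) (leaf 0 556 591))))))) (node 493 (merge (node 462 (merge (leaf 6 461 494) (node 461 (merge (leaf 6 429 430) (node 588 (merge (leaf 5 460 556) (leaf 5 492 620))))))) (merge (node 492 (merge (leaf 7 460 460) (node 621 (merge (leaf 7 492 524) (node 620 (merge (leaf 5 492 588) (leaf 5 524 652))))))) (node 462 (merge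 (leaf 6 461 494) (node 461 (merge (leaf 6 429 430) (node 460 (merge (leaf 7 428 428) (leaf 7 460 492))))))))))))))))))))))) (merge (node 592 (merge (node 624 (merge (leaf 7 495 495) (leaf 7 527 656))) (merge (node 557 (merge (node 558 (merge (leaf 2 524 556) (leaf 0 557 593))) (merge (node 558 (merge (leaf 0 557 593) (node 589 (merge (leaf 1 556 588) (node 525 (merge (leaf 3 524 524) (node 526 (merge (leaf 0 525 561) (node 621 (merge (leaf 6 493 494) (leaf 6 525 653))))))))))) (node 493 (merge (node 495 (merge (leaf 4 463 463) (node 494 (merge (leaf 0 492 492) (node 462 (merge (leaf 7 462 591) (node 430 (merge (leaf 4 398 398) (leaf 4 430 526))))))))) (merge (node 495 (merge (leaf 4 463 463) (node 492 (merge (leaf 0 492 494) (node 525 (merge (leaf 3 492 526) (node 460 (merge (leaf 7 460 589) (node 428 (merge (leaf 4 396 396) (leaf 4 428 524))))))))))) (merge (node 495 (merge (leaf 4 463 463) (node 494 (merge (leaf 0 492 492) (node 462 (merge (leaf 7 462 591) (node 525 (merge (leaf 6 461 589) (node 430 (merge (leaf 4 398 398) (leaf 6 429 461))))))))))) (merge (node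 525 (merge (node 526 (merge (leaf 3 492 492) (leaf 1 524 556))) (merge (node 526 (merge (leaf 0 524 524) (leaf 0 525 561))) (node 461 (merge (node 430 (merge (leaf 6 429 462) (node 429 (merge (leaf 6 397 398) (node 556 (merge (leaf 5 428 524) (leaf 5 460 588))))))) (merge (node 460 (merge (leaf 7 428 428) (node 589 (merge (leaf 7 460 492) (node 588 (merge (leaf 5 460 556) (leaf 5 492 620))))))) (node 430 (merge (leaf 6 429 462) (node 429 (merge (leaf 6 397 398) (node 428 (merge (leaf 7 396 396) (leaf 7 428 460))))))))))))) (node 525 (merge (node 526 (merge (leaf 0 524 524) (leaf 0 525 561))) (merge (node 526 (merge (leaf 1 524 556) (leaf 0 525 561))) (node 462 (merge (node 494 (merge (leaf 6 461 589) (node 495 (merge (leaf 4 463 463) (leaf 7 462 591))))) (node 461 (merge (leaf 6 429 430) (node 428 (merge (leaf 7 428 460) (node 429 (merge (leaf 7 396 396) (node 556 (merge (leaf 5 428 524) (leaf 5 460 588)))))))))))))))))))))) (node 558 (merge (node 557 (merge (leaf 2 524 556) (leaf 0 557 593))) (merge (node 557 (merge (leaf 2 524 556) (node 589 (merge (leaf 1 556 588)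 (node 525 (merge (leaf 3 524 524) (node 526 (merge (leaf 0 525 561) (node 621 (merge (leaf 6 493 494) (leaf 6 525 653))))))))))) (node 526 (merge (node 561 (merge (leaf 3 525 525) (leaf 3 526 562))) (merge (node 624 (merge (leaf 7 527 656) (node 625 (merge (leaf 4 528 657) (node 623 (merge (leaf 5 527 655) (node 591 (merge (leaf 7 494 494) (node 594 (merge (leaf 3 558 593) (node 626 (merge (leaf 2 591 595) (leaf 3 591 627))))))))))))) (node 624 (merge (leaf 7 527 656) (node 625 (merge (leaf 4 528 657) (node 623 (merge (leaf 5 527 655) (node 591 (merge (leaf 7 494 494) (node 594 (merge (leaf 3 558 593) (node 626 (merge (leaf 2 591 595) (leaf 3 591 627)))))))))))))))))))))) (merge (node 591 (merge (node 623 (merge (leaf 6 527 655) (node 526 (merge (leaf 7 494 494) (node 561 (merge (leaf 0 525 525) (leaf 3 526 562))))))) (merge (node 623 (merge (leaf 6 527 655) (node 624 (merge (leaf 4 527 656) (node 592 (merge (leaf 7 495 495) (node 625 (merge (leaf 4 528 657) (node 626 (merge (leaf 3 590 590) (leaf 3 591 627))))))))))) (node 592 (merge (node 624 (merge (leaf 7 495 495)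 (leaf 7 527 656))) (merge (node 624 (merge (leaf 7 527 656) (node 625 (merge (leaf 4 528 657) (node 590 (merge (leaf 0 589 589) (node 626 (merge (leaf 0 590 593) (leaf 3 591 627))))))))) (node 593 (merge (node 594 (merge (leaf 3 559 595) (node 562 (merge (leaf 2 559 563) (node 561 (merge (leaf 3 526 526) (leaf 1 558 590))))))) (merge (node 561 (merge (node 526 (merge (leaf 0 525 525) (leaf 3 526 562))) (node 625 (merge (leaf 7 528 657) (node 590 (merge (leaf 2 557 589) (leaf 0 590 626))))))) (merge (node 594 (merge (leaf 3 559 595) (node 626 (merge (leaf 0 591 627) (node 625 (merge (leaf 0 590 590) (node 657 (merge (leaf 7 560 689) (node 562 (merge (leaf 5 529 530) (leaf 2 559 563))))))))))) (merge (node 594 (merge (leaf 3 559 595) (node 562 (merge (leaf 2 559 563) (node 561 (merge (leaf 3 526 526) (node 625 (merge (leaf 7 528 657) (node 530 (merge (leaf 5 497 498) (leaf 2 527 531))))))))))) (node 594 (merge (leaf 3 559 595) (node 626 (merge (leaf 0 591 627) (node 590 (merge (leaf 0 590 625) (node 589 (merge (leaf 2 557 561) (leaf 2 556 588)))))))))))))))))))) (merge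 (node 557 (merge (node 525 (merge (node 558 (merge (leaf 3 524 524) (leaf 2 524 556))) (merge (node 526 (merge (leaf 0 524 524) (leaf 1 524 556))) (merge (node 524 (merge (leaf 0 524 526) (leaf 3 524 558))) (node 556 (merge (leaf 1 524 526) (leaf 2 524 558))))))) (merge (node 558 (merge (leaf 2 524 556) (node 592 (merge (leaf 0 557 593) (node 624 (merge (leaf 7 495 495) (leaf 7 527 656))))))) (merge (hyp 1) (node 589 (merge (node 558 (merge (leaf 1 556 588) (node 592 (merge (leaf 0 557 593) (node 495 (merge (leaf 4 463 463) (leaf 7 495 624))))))) (merge (node 588 (merge (leaf 1 556 558) (node 591 (merge (leaf 2 556 590) (node 623 (merge (leaf 6 527 655) (node 526 (merge (leaf 7 494 494) (node 525 (merge (leaf 0 524 524) (node 493 (merge (leaf 3 492 492) (leaf 5 492 620))))))))))))) (merge (node 525 (merge (node 524 (merge (leaf 0 524 526) (node 492 (merge (leaf 7 492 621) (node 460 (merge (leaf 4 428 428) (leaf 7 460 493))))))) (merge (node 526 (merge (leaf 0 524 524) (node 494 (merge (leaf 6 493 621) (node 591 (merge (leaf 7 494 623) (node 462 (merge (leaf 4 430 430)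 (leaf 7 462 495))))))))) (merge (node 493 (merge (node 492 (merge (leaf 3 492 526) (node 460 (merge (leaf 7 460 589) (node 428 (merge (leaf 4 396 396) (leaf 7 428 461))))))) (merge (node 494 (merge (leaf 6 461 462) (node 495 (merge (leaf 0 492 492) (node 463 (merge (leaf 4 431 431) (leaf 4 463 592))))))) (node 462 (merge (leaf 6 461 494) (node 461 (merge (leaf 6 429 430) (node 428 (merge (leaf 7 428 460) (node 429 (merge (leaf 7 396 396) (node 463 (merge (leaf 3 428 464) (node 495 (merge (leaf 4 431 431) (leaf 4 463 592)))))))))))))))) (node 493 (merge (node 492 (merge (leaf 7 460 460) (node 621 (merge (leaf 7 492 524) (node 620 (merge (leaf 5 492 588) (leaf 5 524 652))))))) (merge (node 494 (merge (leaf 6 461 462) (node 495 (merge (leaf 0 492 492) (node 463 (merge (leaf 4 431 431) (leaf 4 463 592))))))) (node 462 (merge (leaf 6 461 494) (node 461 (merge (leaf 6 429 430) (node 428 (merge (leaf 7 428 460) (node 429 (merge (leaf 7 396 396) (node 463 (merge (leaf 3 428 464) (node 495 (merge (leaf 4 431 431) (leaf 4 463 592)))))))))))))))))))) (node 525 (merge (node 558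 (merge (leaf 3 524 524) (node 592 (merge (leaf 0 557 593) (node 624 (merge (leaf 7 495 495) (leaf 7 527 656))))))) (merge (node 524 (merge (leaf 0 524 526) (node 492 (merge (leaf 7 492 621) (node 460 (merge (leaf 4 428 428) (leaf 7 460 493))))))) (node 493 (merge (node 492 (merge (leaf 3 492 526) (node 460 (merge (leaf 7 460 589) (node 428 (merge (leaf 4 396 396) (leaf 7 428 461))))))) (merge (node 494 (merge (leaf 6 461 462) (node 495 (merge (leaf 0 492 492) (node 463 (merge (leaf 4 431 431) (leaf 4 463 592))))))) (node 494 (merge (leaf 6 461 462) (node 621 (merge (leaf 6 493 526) (node 652 (merge (leaf 5 524 620) (node 653 (merge (leaf 5 556 684) (node 686 (merge (leaf 4 557 654) (node 685 (merge (leaf 4 589 718) (node 558 (merge (leaf 6 557 590) (node 592 (merge (leaf 0 557 593) (node 495 (merge (leaf 4 463 463) (leaf 7 495 624))))))))))))))))))))))))))))))))) (merge (hyp 2) (node 526 (merge (node 561 (merge (leaf 0 525 525) (leaf 3 526 562))) (merge (node 592 (merge (node 624 (merge (leaf 7 495 495) (leaf 7 527 656))) (node 525 (merge (leaf 0 524 524) (node 557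 (merge (leaf 1 524 556) (node 558 (merge (leaf 0 557 593) (node 493 (merge (leaf 3 492 492) (node 461 (merge (leaf 4 429 429) (leaf 4 461 590))))))))))))) (node 594 (merge (node 561 (merge (leaf 3 526 562) (node 558 (merge (leaf 0 558 593) (node 589 (merge (leaf 1 557 590) (node 557 (merge (leaf 2 524 556) (leaf 1 556 588))))))))) (merge (node 592 (merge (node 495 (merge (leaf 4 463 463) (leaf 7 495 624))) (node 593 (merge (leaf 3 559 595) (node 558 (merge (leaf 0 557 557) (leaf 3 558 591))))))) (node 562 (merge (leaf 3 526 561) (node 626 (merge (node 658 (merge (node 531 (merge (leaf 6 530 563) (node 530 (merge (leaf 6 498 499) (node 657 (merge (leaf 5 529 625) (leaf 5 561 689))))))) (merge (node 691 (merge (leaf 4 562 659) (node 690 (merge (leaf 4 594 723) (node 689 (merge (leaf 5 561 657) (leaf 5 593 721))))))) (node 563 (merge (leaf 6 530 531) (node 690 (merge (leaf 6 562 595) (node 691 (merge (leaf 4 562 659) (leaf 4 594 723)))))))))) (merge (node 625 (merge (node 624 (merge (node 592 (merge (leaf 7 495 495) (leaf 7 527 656))) (node 595 (merge (leaf 2 591 623)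 (node 596 (merge (leaf 1 593 597) (leaf 2 592 627))))))) (merge (node 530 (merge (leaf 5 529 657) (node 499 (merge (leaf 6 498 531) (node 498 (merge (leaf 6 466 467) (node 627 (merge (leaf 4 498 595) (leaf 4 530 659))))))))) (node 530 (merge (leaf 5 529 657) (node 499 (merge (leaf 6 498 531) (node 498 (merge (leaf 6 466 467) (node 465 (merge (leaf 7 465 497) (node 466 (merge (leaf 7 433 433) (node 463 (merge (leaf 0 463 464) (node 495 (merge (leaf 4 431 431) (leaf 4 463 592)))))))))))))))))) (merge (node 624 (merge (node 592 (merge (leaf 7 495 495) (leaf 7 527 656))) (merge (node 592 (merge (leaf 7 495 495) (node 657 (merge (leaf 4 528 625) (node 658 (merge (leaf 5 561 689) (node 563 (merge (leaf 6 530 531) (node 690 (merge (leaf 6 562 595) (node 691 (merge (leaf 4 562 659) (leaf 4 594 723))))))))))))) (node 658 (merge (node 659 (merge (leaf 4 562 691) (node 623 (merge (leaf 0 623 625) (node 657 (merge (leaf 3 623 656) (leaf 5 561 689))))))) (merge (node 563 (merge (leaf 6 530 531) (node 690 (merge (leaf 6 562 595) (node 689 (merge (leaf 5 561 657) (leaf 5 593 721)))))))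 (node 563 (merge (leaf 6 530 531) (node 690 (merge (leaf 6 562 595) (node 691 (merge (leaf 4 562 659) (leaf 4 594 723))))))))))))) (merge (node 658 (merge (node 531 (merge (leaf 6 530 563) (node 530 (merge (leaf 6 498 499) (node 657 (merge (leaf 5 529 625) (leaf 5 561 689))))))) (merge (node 691 (merge (leaf 4 562 659) (node 690 (merge (leaf 4 594 723) (node 689 (merge (leaf 5 561 657) (leaf 5 593 721))))))) (node 659 (merge (leaf 4 562 691) (node 530 (merge (leaf 4 530 627) (node 499 (merge (leaf 6 498 531) (node 498 (merge (leaf 6 466 467) (node 465 (merge (leaf 7 465 497) (node 466 (merge (leaf 7 433 433) (node 463 (merge (leaf 0 463 464) (node 495 (merge (leaf 4 431 431) (leaf 4 463 592)))))))))))))))))))) (merge (node 658 (merge (node 657 (merge (leaf 5 561 689) (node 625 (merge (leaf 5 529 530) (node 624 (merge (leaf 4 528 592) (node 623 (merge (leaf 2 591 595) (node 655 (merge (leaf 6 527 591) (leaf 1 622 654))))))))))) (merge (node 659 (merge (leaf 4 562 691) (node 530 (merge (leaf 4 530 627) (node 625 (merge (leaf 5 529 657) (node 624 (merge (leaf 0 623 623)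 (node 592 (merge (leaf 7 495 495) (leaf 7 527 656))))))))))) (node 691 (merge (leaf 4 562 659) (node 690 (merge (leaf 4 594 723) (node 595 (merge (leaf 6 562 563) (node 722 (merge (leaf 6 594 627) (node 721 (merge (leaf 5 593 689) (leaf 5 625 753)))))))))))))) (merge (node 658 (merge (node 531 (merge (leaf 6 530 563) (node 530 (merge (leaf 6 498 499) (node 657 (merge (leaf 5 529 625) (leaf 5 561 689))))))) (merge (node 657 (merge (leaf 5 561 689) (node 625 (merge (leaf 5 529 530) (node 624 (merge (leaf 4 528 592) (node 623 (merge (leaf 2 591 595) (node 655 (merge (leaf 6 527 591) (leaf 1 622 654))))))))))) (merge (node 624 (merge (node 592 (merge (leaf 7 495 495) (leaf 7 527 656))) (merge (node 563 (merge (leaf 6 530 531) (node 595 (merge (leaf 6 562 690) (node 623 (merge (leaf 2 591 625) (node 591 (merge (leaf 6 527 655) (leaf 4 527 656))))))))) (node 592 (merge (leaf 7 495 495) (node 625 (merge (leaf 4 528 657) (node 623 (merge (leaf 2 591 595) (leaf 5 527 655)))))))))) (node 563 (merge (leaf 6 530 531) (node 690 (merge (leaf 6 562 595) (node 723 (merge (leaf 4 594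 691) (node 722 (merge (leaf 4 626 755) (node 721 (merge (leaf 5 593 689) (leaf 5 625 753))))))))))))))) (node 658 (merge (node 659 (merge (leaf 4 562 691) (node 530 (merge (leaf 4 530 627) (node 499 (merge (leaf 6 498 531) (node 498 (merge (leaf 6 466 467) (node 465 (merge (leaf 7 465 497) (node 466 (merge (leaf 7 433 433) (node 463 (merge (leaf 0 463 464) (node 495 (merge (leaf 4 431 431) (leaf 4 463 592))))))))))))))))) (merge (node 531 (merge (leaf 6 530 563) (node 530 (merge (leaf 6 498 499) (node 627 (merge (leaf 4 530 659) (node 498 (merge (leaf 4 498 595) (node 465 (merge (leaf 7 465 497) (node 466 (merge (leaf 7 433 433) (node 435 (merge (leaf 6 434 467) (node 434 (merge (leaf 6 402 403) (node 463 (merge (leaf 2 431 464) (node 495 (merge (leaf 4 431 431) (leaf 4 463 592))))))))))))))))))))) (merge (node 691 (merge (leaf 4 562 659) (node 690 (merge (leaf 4 594 723) (node 595 (merge (leaf 6 562 563) (node 722 (merge (leaf 6 594 627) (node 721 (merge (leaf 5 593 689) (leaf 5 625 753))))))))))) (node 563 (merge (leaf 6 530 531) (node 690 (merge (leaf 6 562 595)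 (node 723 (merge (leaf 4 594 691) (node 722 (merge (leaf 4 626 755) (node 721 (merge (leaf 5 593 689) (leaf 5 625 753))))))))))))))))))))))))))))))))))))))))) nP_116 cP_116 17 (by decide +kernel)
def nP_117 : ℕ := 0x180000001000000000000000000000000000000000000000000000000000000000000000000000000000000000000000000000000000000000000000000000000000000000000
def cP_117 : ℕ := 0x5000001ff000000ff000001df000000e70000004fe00000eff00000fff80001ffe0000005000000000000000000000000000000000000000000000000000000000000000000000000000000000000000000000000000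
theorem lP_117 : S nP_117 cP_117 17 := S_of_chk [(nP_4, cP_4, 7), (nP_3, cP_3, 10), (nP_107, cP_107, 10)] ⟨lP_4, lP_3, lP_107, trivial⟩ (node 527 (merge (node 495 (merge (node 592 (merge (leaf 4 463 463) (leaf 7 495 624))) (merge (node 463 (merge (leaf 4 431 431) (node 590 (merge (leaf 5 462 558) (node 591 (merge (leaf 5 494 622) (node 462 (merge (leaf 7 430 430) (leaf 7 462 494))))))))) (node 591 (merge (node 623 (merge (leaf 6 527 655) (node 622 (merge (leaf 5 494 590) (leaf 5 526 654))))) (merge (node 624 (merge (leaf 7 495 592) (node 623 (merge (leaf 6 527 655) (leaf 4 527 656))))) (node 592 (merge (leaf 4 495 624) (node 590 (merge (leaf 5 494 622) (node 589 (merge (leaf 2 557 561) (leaf 2 556 588))))))))))))) (merge (node 591 (merge (node 623 (merge (leaf 6 527 655) (node 526 (merge (leaf 7 494 494) (node 561 (merge (leaf 0 525 525) (leaf 3 526 562))))))) (merge (node 623 (merge (leaf 6 527 655) (node 622 (merge (leaf 5 526 654) (node 495 (merge (leaf 5 494 590) (node 463 (merge (leaf 4 431 431) (leaf 4 463 592))))))))) (node 495 (merge (node 592 (merge (leaf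 4 463 463) (leaf 7 495 624))) (merge (node 463 (merge (leaf 4 431 431) (node 462 (merge (leaf 7 430 430) (leaf 7 462 494))))) (node 592 (merge (leaf 4 495 624) (node 590 (merge (leaf 5 494 622) (node 561 (merge (leaf 1 558 562) (leaf 2 557 589))))))))))))) (merge (hyp 0) (merge (hyp 1) (merge (hyp 2) (merge (node 557 (merge (node 525 (merge (node 558 (merge (leaf 3 524 524) (leaf 2 524 556))) (merge (node 526 (merge (leaf 0 524 524) (leaf 1 524 556))) (merge (node 524 (merge (leaf 0 524 526) (leaf 3 524 558))) (node 556 (merge (leaf 1 524 526) (leaf 2 524 558))))))) (merge (node 558 (merge (leaf 2 524 556) (node 589 (merge (leaf 1 556 588) (node 590 (merge (leaf 1 557 561) (node 622 (merge (leaf 6 526 654) (node 495 (merge (leaf 5 462 463) (leaf 5 494 591))))))))))) (merge (node 525 (merge (node 524 (merge (leaf 0 524 526) (leaf 3 524 558))) (merge (node 526 (merge (leaf 0 524 524) (leaf 0 525 561))) (merge (node 558 (merge (leaf 3 524 524) (node 589 (merge (leaf 1 556 588) (node 590 (merge (leaf 1 557 561) (node 493 (merge (leaf 4 461 461) (leaf 4 493 622)))))))))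 (node 561 (merge (leaf 0 525 526) (node 562 (merge (leaf 3 527 563) (node 590 (merge (leaf 1 558 591) (node 589 (merge (leaf 1 557 558) (node 622 (merge (leaf 4 493 493) (node 654 (merge (leaf 4 525 621) (leaf 7 557 686))))))))))))))))) (node 591 (merge (node 623 (merge (leaf 6 527 655) (node 622 (merge (leaf 5 526 654) (node 495 (merge (leaf 5 494 590) (node 463 (merge (leaf 4 431 431) (leaf 4 463 592))))))))) (merge (node 623 (merge (leaf 6 527 655) (node 624 (merge (leaf 4 527 656) (node 592 (merge (leaf 7 495 495) (node 625 (merge (leaf 4 528 657) (node 626 (merge (leaf 3 590 590) (leaf 3 591 627))))))))))) (merge (node 623 (merge (leaf 6 527 655) (node 624 (merge (leaf 4 527 656) (node 622 (merge (leaf 5 526 654) (node 590 (merge (leaf 5 494 495) (node 625 (merge (leaf 3 589 589) (leaf 3 590 626))))))))))) (merge (node 590 (merge (node 561 (merge (leaf 1 558 562) (node 589 (merge (leaf 2 556 588) (leaf 2 557 592))))) (merge (node 623 (merge (leaf 6 527 655) (node 624 (merge (leaf 4 527 656) (node 625 (merge (leaf 3 590 626) (node 657 (merge (leaf 4 528 592) (node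 622 (merge (leaf 5 526 654) (leaf 0 622 658))))))))))) (node 623 (merge (leaf 6 527 655) (node 589 (merge (leaf 2 556 588) (node 624 (merge (leaf 4 527 656) (node 622 (merge (leaf 3 589 625) (leaf 5 526 654)))))))))))) (merge (node 590 (merge (node 589 (merge (leaf 2 556 588) (node 592 (merge (leaf 3 556 556) (leaf 2 557 561))))) (merge (node 495 (merge (leaf 5 494 622) (node 592 (merge (leaf 4 463 463) (leaf 4 495 624))))) (node 561 (merge (leaf 1 558 562) (node 525 (merge (leaf 0 525 526) (node 589 (merge (leaf 2 556 588) (node 622 (merge (leaf 4 493 493) (leaf 5 494 495)))))))))))) (node 525 (merge (node 526 (merge (leaf 0 524 524) (leaf 0 525 561))) (merge (node 526 (merge (leaf 1 524 556) (leaf 0 525 561))) (node 623 (merge (leaf 6 527 655) (node 624 (merge (leaf 4 527 656) (node 592 (merge (leaf 7 495 495) (node 622 (merge (leaf 5 526 654) (node 621 (merge (leaf 2 588 620) (node 653 (merge (leaf 1 620 652) (node 589 (merge (leaf 3 588 588) (node 524 (merge (leaf 7 492 492) (leaf 7 524 556)))))))))))))))))))))))))))))) (merge (node 592 (merge (node 624 (merge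 (leaf 7 495 495) (leaf 7 527 656))) (merge (node 591 (merge (node 623 (merge (leaf 6 527 655) (node 494 (merge (leaf 7 494 526) (node 495 (merge (leaf 7 462 462) (leaf 4 463 463))))))) (merge (node 623 (merge (leaf 6 527 655) (node 622 (merge (leaf 5 526 654) (node 495 (merge (leaf 5 494 590) (node 463 (merge (leaf 4 431 431) (leaf 4 463 592))))))))) (merge (node 495 (merge (leaf 4 463 463) (node 494 (merge (leaf 7 462 462) (node 590 (merge (leaf 5 494 622) (node 589 (merge (leaf 2 556 588) (node 621 (merge (leaf 1 588 620) (node 557 (merge (leaf 3 556 556) (node 526 (merge (leaf 6 493 525) (leaf 5 493 558))))))))))))))) (node 623 (merge (leaf 6 527 655) (node 526 (merge (leaf 7 494 494) (node 525 (merge (leaf 0 524 524) (node 557 (merge (leaf 1 524 556) (node 493 (merge (leaf 3 492 492) (node 622 (merge (leaf 5 526 654) (node 590 (merge (leaf 7 493 558) (leaf 4 493 589))))))))))))))))))) (node 623 (merge (node 624 (merge (leaf 5 527 655) (leaf 7 527 656))) (merge (node 591 (merge (leaf 6 527 655) (node 526 (merge (leaf 7 494 494) (node 525 (merge (leaf 0 524 524)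 (node 557 (merge (leaf 1 524 556) (node 493 (merge (leaf 3 492 492) (node 622 (merge (leaf 5 526 654) (node 590 (merge (leaf 7 493 558) (leaf 4 493 589))))))))))))))) (node 622 (merge (node 624 (merge (leaf 7 527 656) (node 625 (merge (leaf 4 528 657) (node 654 (merge (leaf 5 526 591) (leaf 1 621 653))))))) (merge (node 591 (merge (leaf 5 526 654) (node 526 (merge (leaf 7 494 494) (node 525 (merge (leaf 0 524 524) (node 557 (merge (leaf 1 524 556) (node 493 (merge (leaf 3 492 492) (node 590 (merge (leaf 7 493 558) (leaf 4 493 589))))))))))))) (merge (node 624 (merge (leaf 7 527 656) (node 625 (merge (leaf 4 528 657) (node 654 (merge (leaf 1 621 653) (node 590 (merge (leaf 6 526 558) (leaf 3 589 589))))))))) (node 624 (merge (leaf 7 527 656) (node 625 (merge (leaf 4 528 657) (node 590 (merge (leaf 3 589 589) (node 626 (merge (leaf 3 590 591) (node 659 (merge (leaf 0 623 658) (node 627 (merge (leaf 0 624 660) (node 595 (merge (leaf 2 591 594) (leaf 2 592 596))))))))))))))))))))))))) (merge (node 623 (merge (node 624 (merge (node 591 (merge (leaf 6 527 655) (leaf 4 527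 656))) (merge (node 592 (merge (leaf 5 527 655) (leaf 7 527 656))) (merge (node 656 (merge (leaf 4 527 591) (leaf 7 527 592))) (node 655 (merge (leaf 6 527 591) (leaf 5 527 592))))))) (merge (node 591 (merge (leaf 6 527 655) (node 526 (merge (leaf 7 494 494) (node 561 (merge (leaf 0 525 525) (leaf 3 526 562))))))) (merge (node 495 (merge (node 592 (merge (leaf 4 463 463) (leaf 7 495 624))) (merge (node 624 (merge (leaf 7 495 592) (node 591 (merge (leaf 4 527 656) (node 494 (merge (leaf 7 462 462) (leaf 7 494 526))))))) (node 463 (merge (leaf 4 431 431) (node 464 (merge (leaf 6 431 432) (node 462 (merge (leaf 7 430 430) (node 494 (merge (leaf 7 462 591) (node 493 (merge (leaf 1 461 465) (leaf 0 492 492)))))))))))))) (node 525 (merge (node 526 (merge (leaf 0 524 524) (leaf 0 525 561))) (merge (node 493 (merge (node 526 (merge (leaf 3 492 492) (leaf 0 525 561))) (merge (node 557 (merge (node 526 (merge (leaf 1 524 556) (leaf 0 525 561))) (node 462 (merge (node 589 (merge (leaf 6 461 494) (node 588 (merge (leaf 1 556 558) (leaf 5 492 620))))) (node 461 (merge (leaf 6 429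 430) (node 428 (merge (leaf 7 428 460) (node 429 (merge (leaf 7 396 396) (node 463 (merge (leaf 3 428 464) (node 495 (merge (leaf 4 431 431) (leaf 4 463 592))))))))))))))) (node 557 (merge (node 556 (merge (leaf 2 524 558) (node 588 (merge (leaf 5 460 461) (node 620 (merge (leaf 5 492 589) (leaf 6 524 652))))))) (merge (node 558 (merge (leaf 2 524 556) (node 589 (merge (leaf 1 556 588) (node 494 (merge (leaf 6 461 462) (node 492 (merge (leaf 7 460 460) (leaf 0 492 495))))))))) (merge (node 592 (merge (node 624 (merge (leaf 5 527 655) (leaf 7 527 656))) (node 495 (merge (leaf 4 463 463) (node 492 (merge (leaf 0 492 494) (node 460 (merge (leaf 7 460 589) (node 428 (merge (leaf 4 396 396) (leaf 7 428 461))))))))))) (node 556 (merge (leaf 2 524 558) (node 461 (merge (leaf 5 460 588) (node 430 (merge (leaf 6 429 462) (node 429 (merge (leaf 6 397 398) (node 428 (merge (leaf 7 396 396) (leaf 7 428 460)))))))))))))))))) (node 557 (merge (node 558 (merge (leaf 3 524 524) (leaf 2 524 556))) (merge (node 493 (merge (node 556 (merge (leaf 2 524 558) (node 588 (merge (leaf 5 460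 461) (node 620 (merge (leaf 5 492 589) (leaf 6 524 652))))))) (merge (node 558 (merge (leaf 2 524 556) (node 589 (merge (leaf 1 556 588) (node 494 (merge (leaf 6 461 462) (node 492 (merge (leaf 7 460 460) (leaf 0 492 495))))))))) (merge (node 592 (merge (node 624 (merge (leaf 5 527 655) (leaf 7 527 656))) (node 495 (merge (leaf 4 463 463) (node 494 (merge (leaf 0 492 492) (node 462 (merge (leaf 6 461 589) (node 430 (merge (leaf 4 398 398) (leaf 6 429 461))))))))))) (node 556 (merge (leaf 2 524 558) (node 461 (merge (leaf 5 460 588) (node 430 (merge (leaf 6 429 462) (node 429 (merge (leaf 6 397 398) (node 428 (merge (leaf 7 396 396) (leaf 7 428 460))))))))))))))) (merge (node 589 (merge (node 558 (merge (leaf 3 524 524) (leaf 1 556 588))) (merge (node 588 (merge (leaf 1 556 558) (node 620 (merge (leaf 5 492 493) (node 652 (merge (leaf 5 524 621) (leaf 6 556 684))))))) (merge (node 524 (merge (leaf 3 524 558) (node 492 (merge (leaf 7 492 621) (node 460 (merge (leaf 4 428 428) (leaf 7 460 493))))))) (node 493 (merge (node 492 (merge (leaf 7 460 460) (node 621 (merge (leaf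 7 492 524) (node 620 (merge (leaf 5 492 588) (leaf 5 524 652))))))) (merge (node 494 (merge (leaf 6 461 462) (node 495 (merge (leaf 0 492 492) (node 463 (merge (leaf 4 431 431) (leaf 4 463 592))))))) (node 462 (merge (leaf 6 461 494) (node 461 (merge (leaf 6 429 430) (node 428 (merge (leaf 7 428 460) (node 429 (merge (leaf 7 396 396) (node 463 (merge (leaf 3 428 464) (node 495 (merge (leaf 4 431 431) (leaf 4 463 592)))))))))))))))))))) (node 493 (merge (node 495 (merge (node 592 (merge (leaf 4 463 463) (leaf 7 495 624))) (node 492 (merge (leaf 0 492 494) (node 460 (merge (leaf 7 460 589) (node 428 (merge (leaf 4 396 396) (leaf 4 428 524))))))))) (merge (node 592 (merge (node 624 (merge (leaf 5 527 655) (leaf 7 527 656))) (node 495 (merge (leaf 4 463 463) (node 494 (merge (leaf 0 492 492) (node 462 (merge (leaf 6 461 589) (node 430 (merge (leaf 4 398 398) (leaf 6 429 461))))))))))) (merge (node 461 (merge (node 460 (merge (leaf 7 428 428) (node 589 (merge (leaf 7 460 492) (node 588 (merge (leaf 5 460 556) (leaf 5 492 620))))))) (merge (node 430 (merge (leaf 6 429 462)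 (node 429 (merge (leaf 6 397 398) (node 556 (merge (leaf 5 428 524) (leaf 5 460 588))))))) (node 430 (merge (leaf 6 429 462) (node 429 (merge (leaf 6 397 398) (node 428 (merge (leaf 7 396 396) (leaf 7 428 460)))))))))) (merge (node 461 (merge (node 428 (merge (leaf 7 428 460) (node 429 (merge (leaf 7 396 396) (node 556 (merge (leaf 5 428 524) (leaf 5 460 588))))))) (merge (node 462 (merge (leaf 6 429 430) (node 589 (merge (leaf 6 461 494) (node 588 (merge (leaf 5 460 556) (leaf 5 492 620))))))) (node 430 (merge (leaf 6 429 462) (node 429 (merge (leaf 6 397 398) (node 428 (merge (leaf 7 396 396) (leaf 7 428 460)))))))))) (node 492 (merge (node 495 (merge (leaf 0 492 494) (node 463 (merge (leaf 4 431 431) (leaf 4 463 592))))) (merge (node 461 (merge (node 462 (merge (leaf 6 429 430) (node 460 (merge (leaf 7 428 428) (node 463 (merge (leaf 1 460 464) (leaf 1 459 491))))))) (merge (node 428 (merge (leaf 7 428 460) (node 429 (merge (leaf 7 396 396) (node 556 (merge (leaf 5 428 524) (leaf 5 460 588))))))) (node 430 (merge (leaf 6 429 462) (node 429 (merge (leaf 6 397 398)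 (node 556 (merge (leaf 5 428 524) (leaf 5 460 588)))))))))) (node 459 (merge (node 494 (merge (leaf 0 492 495) (node 458 (merge (leaf 3 458 491) (node 460 (merge (leaf 0 457 457) (leaf 0 458 461))))))) (merge (node 461 (merge (node 430 (merge (leaf 6 429 462) (node 429 (merge (leaf 6 397 398) (node 556 (merge (leaf 5 428 524) (leaf 5 460 588))))))) (merge (node 430 (merge (leaf 6 429 462) (node 429 (merge (leaf 6 397 398) (node 428 (merge (leaf 7 396 396) (leaf 7 428 460))))))) (merge (node 460 (merge (leaf 7 428 428) (node 556 (merge (leaf 5 460 588) (node 524 (merge (leaf 7 427 427) (leaf 6 428 429))))))) (node 462 (merge (leaf 6 429 430) (node 460 (merge (leaf 7 428 428) (node 427 (merge (leaf 3 426 426) (node 556 (merge (leaf 7 427 524) (leaf 5 460 588))))))))))))) (merge (node 494 (merge (leaf 0 492 495) (node 491 (merge (leaf 3 458 458) (node 522 (merge (leaf 1 490 523) (node 490 (merge (leaf 1 489 521) (node 524 (merge (leaf 0 489 489) (node 556 (merge (leaf 7 459 588) (node 461 (merge (leaf 5 428 429) (leaf 2 458 462))))))))))))))) (node 494 (merge (leaf 0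 492 495) (node 491 (merge (leaf 3 458 458) (node 522 (merge (leaf 1 490 523) (node 490 (merge (leaf 1 489 521) (node 489 (merge (leaf 0 489 524) (node 488 (merge (leaf 2 456 460) (node 456 (merge (leaf 3 455 455) (leaf 3 456 457)))))))))))))))))))))))))))))))))))))) (node 624 (merge (node 592 (merge (leaf 7 495 495) (leaf 7 527 656))) (merge (node 623 (merge (node 591 (merge (leaf 6 527 655) (leaf 4 527 656))) (merge (node 592 (merge (leaf 5 527 655) (leaf 7 527 656))) (merge (node 656 (merge (leaf 4 527 591) (leaf 7 527 592))) (node 655 (merge (leaf 6 527 591) (leaf 5 527 592))))))) (merge (node 495 (merge (leaf 7 495 592) (node 463 (merge (leaf 4 431 431) (node 590 (merge (leaf 5 462 558) (node 591 (merge (leaf 5 494 622) (node 623 (merge (leaf 6 527 655) (node 494 (merge (leaf 7 462 462) (leaf 7 494 526))))))))))))) (node 462 (merge (node 591 (merge (node 623 (merge (leaf 6 527 655) (leaf 4 527 656))) (node 495 (merge (leaf 7 462 494) (node 463 (merge (leaf 7 430 430) (leaf 4 431 431))))))) (merge (node 526 (merge (node 561 (merge (leaf 0 525 525) (leaf 3 526 562)))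 (node 494 (merge (leaf 4 430 430) (node 591 (merge (leaf 4 462 558) (leaf 7 494 623))))))) (merge (node 591 (merge (node 623 (merge (leaf 6 527 655) (leaf 4 527 656))) (node 494 (merge (leaf 7 462 495) (node 526 (merge (leaf 4 462 558) (node 525 (merge (leaf 0 524 524) (leaf 0 525 561))))))))) (merge (node 463 (merge (node 495 (merge (leaf 7 430 430) (leaf 4 431 431))) (merge (node 430 (merge (leaf 7 430 495) (node 526 (merge (leaf 4 430 494) (node 561 (merge (leaf 0 525 525) (leaf 3 526 562))))))) (merge (node 526 (merge (node 561 (merge (leaf 0 525 525) (leaf 3 526 562))) (node 494 (merge (leaf 4 430 430) (node 558 (merge (leaf 6 430 431) (node 461 (merge (leaf 7 429 429) (node 493 (merge (leaf 7 461 590) (node 492 (merge (leaf 1 460 464) (leaf 0 491 491))))))))))))) (node 495 (merge (leaf 4 431 431) (node 464 (merge (leaf 6 431 432) (node 558 (merge (leaf 5 462 590) (node 557 (merge (leaf 2 524 556) (node 525 (merge (leaf 3 524 524) (node 526 (merge (leaf 0 525 561) (node 493 (merge (leaf 3 492 492) (node 494 (merge (leaf 1 461 465) (node 461 (merge (leaf 7 429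 429) (node 460 (merge (leaf 7 428 428) (leaf 0 459 459))))))))))))))))))))))))) (node 463 (merge (node 495 (merge (leaf 7 430 430) (leaf 4 431 431))) (merge (node 495 (merge (leaf 7 430 430) (node 590 (merge (leaf 5 462 558) (node 591 (merge (leaf 5 494 622) (node 623 (merge (leaf 6 527 655) (leaf 4 527 656))))))))) (merge (node 495 (merge (leaf 4 431 431) (node 590 (merge (leaf 5 462 558) (node 591 (merge (leaf 5 494 622) (node 623 (merge (leaf 6 527 655) (leaf 4 527 656))))))))) (node 461 (merge (node 525 (merge (node 526 (merge (leaf 0 524 524) (leaf 0 525 561))) (merge (node 557 (merge (node 558 (merge (leaf 3 524 524) (leaf 2 524 556))) (merge (node 493 (merge (leaf 6 429 430) (node 558 (merge (leaf 2 524 556) (leaf 4 461 590))))) (merge (node 493 (merge (leaf 6 429 430) (node 558 (merge (leaf 3 524 524) (leaf 4 461 590))))) (node 493 (merge (leaf 6 429 430) (node 428 (merge (leaf 7 428 460) (node 429 (merge (leaf 7 396 396) (node 556 (merge (leaf 5 428 524) (leaf 5 460 588))))))))))))) (node 526 (merge (leaf 0 525 561) (node 557 (merge (leaf 1 524 556) (node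 493 (merge (leaf 6 429 430) (leaf 3 492 492)))))))))) (merge (node 460 (merge (node 491 (merge (leaf 1 459 492) (node 459 (merge (leaf 1 458 490) (node 427 (merge (leaf 3 426 426) (leaf 3 427 428))))))) (merge (node 492 (merge (leaf 1 459 491) (node 464 (merge (leaf 1 460 493) (node 432 (merge (leaf 2 428 431) (leaf 2 429 433))))))) (node 432 (merge (leaf 2 428 431) (node 464 (merge (leaf 2 429 433) (node 428 (merge (leaf 3 427 427) (leaf 3 428 429)))))))))) (merge (node 460 (merge (node 492 (merge (leaf 1 459 491) (node 464 (merge (leaf 1 460 493) (node 432 (merge (leaf 2 428 431) (leaf 2 429 433))))))) (merge (node 492 (merge (leaf 1 459 491) (node 493 (merge (leaf 1 460 464) (node 525 (merge (leaf 3 492 526) (node 557 (merge (leaf 6 429 430) (node 558 (merge (leaf 3 524 524) (leaf 2 524 556))))))))))) (merge (node 525 (merge (node 526 (merge (leaf 0 524 524) (leaf 0 525 561))) (merge (node 431 (merge (leaf 2 428 432) (node 430 (merge (leaf 2 427 459) (node 557 (merge (leaf 6 429 493) (node 558 (merge (leaf 3 524 524) (leaf 2 524 556))))))))) (node 526 (merge (leaf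 0 525 561) (node 557 (merge (leaf 1 524 556) (node 493 (merge (leaf 6 429 430) (leaf 3 492 492)))))))))) (node 431 (merge (leaf 2 428 432) (node 459 (merge (leaf 2 427 430) (node 490 (merge (leaf 1 458 491) (node 458 (merge (leaf 1 457 489) (node 426 (merge (leaf 3 425 425) (leaf 3 426 427))))))))))))))) (merge (node 561 (merge (node 562 (merge (leaf 3 527 563) (node 591 (merge (leaf 1 558 590) (node 623 (merge (leaf 6 527 655) (leaf 4 527 656))))))) (node 429 (merge (node 464 (merge (leaf 3 428 428) (node 433 (merge (leaf 2 429 432) (node 465 (merge (leaf 3 429 430) (leaf 2 430 434))))))) (merge (node 428 (merge (node 427 (merge (leaf 0 426 426) (leaf 0 427 430))) (node 525 (merge (leaf 0 525 526) (node 493 (merge (leaf 7 396 396) (node 556 (merge (leaf 5 428 524) (node 557 (merge (leaf 2 524 558) (leaf 5 460 588))))))))))) (merge (node 525 (merge (leaf 0 525 526) (node 428 (merge (leaf 3 428 464) (node 493 (merge (leaf 7 396 396) (node 556 (merge (leaf 5 428 524) (node 557 (merge (leaf 2 524 558) (leaf 5 460 588))))))))))) (node 493 (merge (node 525 (merge (leaf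 0 525 526) (node 430 (merge (leaf 6 397 398) (leaf 6 429 557))))) (merge (node 464 (merge (leaf 1 460 492) (node 433 (merge (leaf 2 429 432) (node 465 (merge (leaf 3 429 430) (leaf 2 430 434))))))) (node 525 (merge (leaf 0 525 526) (node 556 (merge (leaf 5 428 524) (node 557 (merge (leaf 2 524 558) (leaf 5 460 588)))))))))))))))) (node 460 (merge (node 427 (merge (leaf 3 427 428) (node 459 (merge (leaf 3 426 426) (node 490 (merge (leaf 1 458 491) (node 458 (merge (leaf 1 457 489) (node 430 (merge (leaf 2 426 429) (leaf 2 427 431))))))))))) (merge (node 431 (merge (leaf 2 428 432) (node 459 (merge (leaf 2 427 430) (node 490 (merge (leaf 1 458 491) (node 458 (merge (leaf 1 457 489) (node 426 (merge (leaf 3 425 425) (leaf 3 426 427))))))))))) (merge (node 428 (merge (leaf 3 427 427) (node 464 (merge (leaf 3 428 429) (node 433 (merge (leaf 2 429 432) (node 465 (merge (leaf 2 430 434) (node 498 (merge (leaf 0 462 497) (node 466 (merge (leaf 0 463 499) (node 562 (merge (leaf 7 433 530) (node 561 (merge (leaf 3 526 526) (leaf 3 527 563))))))))))))))))) (node 432 (merge (leaf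 2 428 431) (node 464 (merge (leaf 2 429 433) (node 429 (merge (leaf 3 428 428) (node 465 (merge (leaf 3 429 430) (node 498 (merge (leaf 0 462 497) (node 466 (merge (leaf 0 463 499) (node 435 (merge (leaf 2 431 434) (node 467 (merge (leaf 2 432 436) (node 562 (merge (leaf 6 434 530) (node 561 (merge (leaf 3 526 526) (leaf 3 527 563)))))))))))))))))))))))))))))))))))))))))))))))))))) nP_117 cP_117 17 (by decide +kernel)
def nP_118 : ℕ := 0x1c0000001000000000000000000000000000000000000000000000000000000000000000000000000000000000000000000000000000000000000000000000000000000000000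
def cP_118 : ℕ := 0x80000007c000001fe000001fe000001ff800000ff800000f7800000e0000001cf8000000e0000000e0000000e00000008000000000000000000000000000000000000000000000000000000000000000000000000000000000000000000000000000
theorem lP_118 : S nP_118 cP_118 16 := S_of_chk [] trivial (node 590 (merge (node 561 (merge (leaf 1 557 589) (node 594 (merge (leaf 0 558 593) (node 562 (merge (leaf 0 559 595) (node 531 (merge (leaf 2 527 530) (node 563 (merge (leaf 3 527 527) (leaf 2 528 532))))))))))) (merge (node 526 (merge (node 525 (merge (leaf 3 525 561) (node 524 (merge (leaf 0 523 523) (leaf 0 524 527))))) (merge (node 525 (merge (leaf 3 525 561) (node 493 (merge (leaf 7 493 622) (node 461 (merge (leaf 4 429 429) (leaf 7 461 494))))))) (node 494 (merge (node 463 (merge (leaf 6 462 495) (node 462 (merge (leaf 6 430 431) (node 461 (merge (leaf 7 429 429) (leaf 7 461 493))))))) (merge (node 495 (merge (leaf 6 462 463) (node 622 (merge (leaf 6 494 527) (node 655 (merge (leaf 4 526 623) (node 654 (merge (leaf 4 558 687) (node 653 (merge (leaf 5 525 621) (leaf 5 557 685)))))))))))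 (merge (node 461 (merge (leaf 7 461 493) (node 462 (merge (leaf 7 429 429) (node 527 (merge (leaf 4 430 430) (node 622 (merge (leaf 6 494 495) (leaf 6 526 654))))))))) (node 461 (merge (leaf 7 461 493) (node 462 (merge (leaf 7 429 429) (node 431 (merge (leaf 6 430 463) (node 430 (merge (leaf 6 398 399) (leaf 4 430 527)))))))))))))))) (merge (node 622 (merge (node 527 (merge (leaf 6 526 654) (node 495 (merge (leaf 5 462 463) (leaf 6 494 526))))) (merge (node 654 (merge (leaf 6 526 527) (node 687 (merge (leaf 4 558 655) (node 686 (merge (leaf 4 590 719) (node 685 (merge (leaf 5 557 653) (leaf 5 589 717))))))))) (merge (node 526 (merge (node 525 (merge (leaf 7 493 493) (node 524 (merge (leaf 0 523 523) (leaf 0 524 527))))) (merge (node 493 (merge (leaf 7 493 525) (node 494 (merge (leaf 7 461 461) (node 621 (merge (leaf 5 493 589) (leaf 5 525 653))))))) (node 623 (merge (leaf 4 526 655) (node 621 (merge (leaf 5 525 653) (node 589 (merge (leaf 5 493 494) (node 588 (merge (leaf 0 587 587) (leaf 3 588 624)))))))))))) (node 655 (merge (node 623 (merge (leaf 4 526 526) (node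 687 (merge (leaf 4 558 654) (leaf 7 590 719))))) (merge (node 526 (merge (leaf 4 526 623) (node 493 (merge (leaf 7 493 525) (node 494 (merge (leaf 7 461 461) (node 621 (merge (leaf 5 493 589) (leaf 5 525 653))))))))) (merge (node 654 (merge (leaf 4 558 687) (node 653 (merge (leaf 5 557 685) (node 621 (merge (leaf 5 525 526) (node 620 (merge (leaf 0 619 619) (leaf 3 620 656))))))))) (node 687 (merge (leaf 4 558 654) (node 623 (merge (leaf 7 590 719) (node 624 (merge (leaf 5 527 592) (node 589 (merge (leaf 3 589 625) (node 588 (merge (leaf 0 587 587) (leaf 3 588 621))))))))))))))))))) (node 622 (merge (node 526 (merge (node 525 (merge (leaf 7 493 493) (leaf 3 525 561))) (merge (node 589 (merge (leaf 1 557 561) (node 621 (merge (leaf 5 493 494) (leaf 5 525 653))))) (node 493 (merge (leaf 7 493 525) (node 494 (merge (leaf 7 461 461) (node 621 (merge (leaf 5 493 589) (leaf 5 525 653)))))))))) (merge (node 623 (merge (node 655 (merge (leaf 4 526 526) (node 687 (merge (leaf 4 558 654) (leaf 7 590 719))))) (node 589 (merge (leaf 1 557 561) (node 588 (merge (leaf 0 587 587)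 (node 624 (merge (leaf 3 588 621) (leaf 3 589 625))))))))) (merge (node 526 (merge (node 525 (merge (leaf 7 493 493) (leaf 3 525 561))) (node 655 (merge (leaf 4 526 623) (node 654 (merge (leaf 4 558 687) (node 653 (merge (leaf 5 525 621) (leaf 5 557 685))))))))) (merge (node 655 (merge (node 623 (merge (leaf 4 526 526) (node 687 (merge (leaf 4 558 654) (leaf 7 590 719))))) (merge (node 526 (merge (leaf 4 526 623) (node 493 (merge (leaf 7 493 525) (node 494 (merge (leaf 7 461 461) (node 621 (merge (leaf 5 493 589) (leaf 5 525 653))))))))) (merge (node 654 (merge (leaf 4 558 687) (node 653 (merge (leaf 5 557 685) (node 621 (merge (leaf 5 525 526) (node 620 (merge (leaf 0 619 619) (leaf 3 620 656))))))))) (node 687 (merge (leaf 4 558 654) (node 623 (merge (leaf 7 590 719) (node 624 (merge (leaf 5 527 592) (node 589 (merge (leaf 3 589 625) (node 588 (merge (leaf 0 587 587) (leaf 3 588 621))))))))))))))) (merge (node 561 (merge (leaf 1 557 589) (node 593 (merge (leaf 0 558 594) (node 657 (merge (leaf 7 528 625) (node 526 (merge (leaf 3 525 525) (node 655 (merge (leaf 4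 526 623) (node 654 (merge (leaf 4 558 687) (node 685 (merge (leaf 5 557 653) (node 686 (merge (leaf 1 653 656) (leaf 5 589 717))))))))))))))))) (node 657 (merge (node 561 (merge (leaf 1 557 589) (node 593 (merge (leaf 0 558 594) (leaf 7 528 625))))) (merge (node 654 (merge (node 687 (merge (leaf 4 558 655) (node 686 (merge (leaf 4 590 719) (node 685 (merge (leaf 5 557 653) (leaf 5 589 717))))))) (merge (node 655 (merge (leaf 4 558 687) (node 656 (merge (leaf 3 621 621) (node 690 (merge (leaf 0 654 689) (node 658 (merge (leaf 3 622 623) (leaf 0 655 691))))))))) (merge (node 685 (merge (leaf 5 557 653) (node 686 (merge (leaf 5 589 717) (node 687 (merge (leaf 4 590 719) (node 688 (merge (leaf 2 653 656) (node 721 (merge (leaf 0 685 720) (node 689 (merge (leaf 2 654 658) (leaf 0 686 722))))))))))))) (node 589 (merge (leaf 1 557 561) (node 685 (merge (leaf 5 557 653) (node 686 (merge (leaf 5 589 717) (node 718 (merge (leaf 7 589 621) (node 655 (merge (leaf 1 653 656) (node 750 (merge (leaf 6 622 623) (node 751 (merge (leaf 4 622 719) (leaf 4 654 783))))))))))))))))))) (merge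 (node 654 (merge (node 687 (merge (leaf 4 558 655) (node 686 (merge (leaf 4 590 719) (node 685 (merge (leaf 5 557 653) (leaf 5 589 717))))))) (merge (node 655 (merge (leaf 4 558 687) (node 656 (merge (leaf 3 621 621) (node 690 (merge (leaf 0 654 689) (node 658 (merge (leaf 3 622 623) (leaf 0 655 691))))))))) (merge (node 685 (merge (leaf 5 557 653) (node 686 (merge (leaf 5 589 717) (node 687 (merge (leaf 4 590 719) (node 688 (merge (leaf 2 653 656) (node 721 (merge (leaf 0 685 720) (node 689 (merge (leaf 2 654 658) (leaf 0 686 722))))))))))))) (node 624 (merge (node 625 (merge (leaf 4 528 592) (node 623 (merge (leaf 3 589 589) (leaf 0 622 658))))) (merge (node 653 (merge (leaf 5 557 685) (node 623 (merge (leaf 1 621 625) (node 652 (merge (leaf 1 620 621) (leaf 2 619 651))))))) (merge (node 592 (merge (leaf 4 528 625) (node 656 (merge (leaf 4 560 689) (node 685 (merge (leaf 5 557 653) (node 686 (merge (leaf 1 653 655) (leaf 5 589 717))))))))) (node 685 (merge (leaf 5 557 653) (node 686 (merge (leaf 5 589 717) (node 656 (merge (leaf 1 653 655) (node 621 (merge (leaf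 0 621 623) (node 718 (merge (leaf 7 589 589) (node 689 (merge (leaf 4 560 592) (node 721 (merge (leaf 7 624 753) (node 719 (merge (leaf 3 685 720) (leaf 4 622 751))))))))))))))))))))))))) (node 625 (merge (node 624 (merge (leaf 4 528 592) (node 623 (merge (leaf 0 622 658) (node 621 (merge (leaf 0 621 656) (node 653 (merge (leaf 1 620 652) (leaf 1 621 654))))))))) (merge (node 593 (merge (leaf 7 528 561) (node 689 (merge (leaf 7 560 592) (node 722 (merge (leaf 4 593 690) (node 721 (merge (leaf 4 625 754) (node 720 (merge (leaf 5 592 688) (leaf 5 624 752))))))))))) (node 654 (merge (node 687 (merge (leaf 4 558 655) (node 686 (merge (leaf 4 590 719) (node 685 (merge (leaf 5 557 653) (leaf 5 589 717))))))) (merge (node 655 (merge (leaf 4 558 687) (node 656 (merge (leaf 3 621 621) (node 690 (merge (leaf 0 654 689) (node 658 (merge (leaf 3 622 623) (leaf 0 655 691))))))))) (merge (node 685 (merge (leaf 5 557 653) (node 686 (merge (leaf 5 589 717) (node 687 (merge (leaf 4 590 719) (node 688 (merge (leaf 2 653 656) (node 721 (merge (leaf 0 685 720) (node 689 (merge (leaf 2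 654 658) (leaf 0 686 722))))))))))))) (node 689 (merge (node 593 (merge (leaf 7 528 561) (node 594 (merge (leaf 6 561 562) (node 721 (merge (leaf 6 593 626) (node 720 (merge (leaf 5 592 688) (leaf 5 624 752))))))))) (merge (node 593 (merge (leaf 7 528 561) (node 594 (merge (leaf 6 561 562) (node 721 (merge (leaf 6 593 626) (node 722 (merge (leaf 4 593 690) (leaf 4 625 754))))))))) (merge (node 593 (merge (leaf 7 528 561) (node 722 (merge (leaf 4 593 690) (node 721 (merge (leaf 4 625 754) (node 720 (merge (leaf 5 592 688) (leaf 5 624 752))))))))) (merge (node 624 (merge (node 623 (merge (leaf 1 621 653) (leaf 0 622 658))) (merge (node 623 (merge (leaf 0 622 658) (node 656 (merge (leaf 0 621 621) (node 655 (merge (leaf 1 622 626) (leaf 0 654 690))))))) (node 685 (merge (leaf 5 557 653) (node 686 (merge (leaf 5 589 717) (node 656 (merge (leaf 1 653 655) (node 721 (merge (leaf 7 624 753) (node 722 (merge (leaf 4 625 754) (node 720 (merge (leaf 5 624 752) (node 719 (merge (leaf 3 685 718) (node 751 (merge (leaf 5 623 688) (leaf 1 718 750)))))))))))))))))))) (node 593 (merge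 (leaf 7 528 561) (node 594 (merge (leaf 6 561 562) (node 690 (merge (leaf 4 593 722) (node 656 (merge (leaf 0 654 655) (node 691 (merge (leaf 3 656 692) (node 688 (merge (leaf 5 592 720) (node 723 (merge (leaf 0 688 724) (node 659 (merge (leaf 2 656 660) (node 626 (merge (leaf 7 594 627) (leaf 4 594 658))))))))))))))))))))))))))))))))))))))))))))) nP_118 cP_118 16 (by decide +kernel)

end Crest.Agent.H26Snaky
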