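import Crest.Agent.H26SnP001
import Crest.Agent.H26SnP009

/-! certificate data for S0047, part P 10 (computer generated) -/

set_option autoImplicit false
set_option maxRecDepth 100000

namespace Crest.Agent.H26Snaky

open T

def nP_132 : ℕ := 0x300000000000000000000000000000000000000000000000000000000000000000000000000000000000000000000000000000000000000000000000000000000000
def cP_132 : ℕ := 0x3c0000003e0000003fc000004f800000ffc00001fe000000ff0000007c00000008000000000000000000000000000000000000000000000000000000000000000000000000000000000000000000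
theorem lP_132 : S nP_132 cP_132 12 := S_of_chk [] trivial (node 523 (merge (node 554 (merge (node 555 (merge (leaf 1 522 526) (node 553 (merge (leaf 2 520 552) (leaf 2 521 556))))) (merge (node 553 (merge (leaf 1 521 522) (node 555 (merge (leaf 2 520 552) (leaf 2 521 556))))) (merge (node 522 (merge (leaf 1 521 553) (node 494 (merge (leaf 2 490 493) (node 526 (merge (leaf 2 491 495) (node 490 (merge (leaf 3 489 489) (leaf 3 490 491))))))))) (node 526 (merge (leaf 1 522 555) (node 494 (merge (leaf 2 491 495) (node 522 (merge (leaf 2 490 493) (node 490 (merge (leaf 3 489 489) (leaf 3 490 491))))))))))))) (merge (node 522 (merge (node 554 (merge (leaf 1 521 553) (node 526 (merge (leaf 1 522 555) (node 490 (merge (leaf 3 489 489) (leaf 3 490 491))))))) (merge (node 553 (merge (leaf 1 521 554) (node 521 (merge (leaf 1 520 552) (node 489 (merge (leaf 3 488 488) (leaf 3 489 490))))))) (merge (node 521 (merge (node 489 (merge (leaf 3 488 488) (leaf 3 489 490))) (merge (node 556 (merge (leaf 0 521 557) (node 520 (merge (leaf 0 520 555) (node 491 (merge (leaf 2 488 492) (node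 490 (merge (leaf 2 487 519) (leaf 3 490 526))))))))) (node 556 (merge (leaf 0 521 557) (node 520 (merge (leaf 0 520 555) (node 488 (merge (leaf 3 487 487) (leaf 3 488 489)))))))))) (merge (node 553 (merge (leaf 1 521 554) (node 521 (merge (leaf 1 520 552) (node 556 (merge (leaf 0 521 557) (node 520 (merge (leaf 0 520 555) (node 491 (merge (leaf 2 488 492) (node 490 (merge (leaf 2 487 519) (leaf 3 490 526))))))))))))) (node 553 (merge (leaf 1 521 554) (node 521 (merge (leaf 1 520 552) (node 556 (merge (leaf 0 521 557) (node 520 (merge (leaf 0 520 555) (node 488 (merge (leaf 3 487 487) (leaf 3 488 489)))))))))))))))) (merge (node 522 (merge (node 554 (merge (leaf 1 521 553) (node 526 (merge (leaf 1 522 555) (node 494 (merge (leaf 2 490 493) (leaf 2 491 495))))))) (merge (node 553 (merge (leaf 1 521 554) (node 521 (merge (leaf 1 520 552) (node 493 (merge (leaf 2 489 492) (leaf 2 490 494))))))) (merge (node 493 (merge (leaf 2 490 494) (node 521 (merge (leaf 2 489 492) (node 556 (merge (leaf 0 521 557) (node 520 (merge (leaf 0 520 555) (node 488 (merge (leaf 3 487 487)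 (leaf 3 488 489))))))))))) (node 553 (merge (leaf 1 521 554) (node 521 (merge (leaf 1 520 552) (node 556 (merge (leaf 0 521 557) (node 520 (merge (leaf 0 520 555) (node 488 (merge (leaf 3 487 487) (leaf 3 488 489))))))))))))))) (merge (node 522 (merge (node 494 (merge (leaf 2 490 493) (node 526 (merge (leaf 2 491 495) (node 490 (merge (leaf 3 489 489) (leaf 3 490 491))))))) (merge (node 553 (merge (leaf 1 521 554) (node 521 (merge (leaf 1 520 552) (node 489 (merge (leaf 3 488 488) (leaf 3 489 490))))))) (node 553 (merge (leaf 1 521 554) (node 521 (merge (leaf 1 520 552) (node 493 (merge (leaf 2 489 492) (leaf 2 490 494)))))))))) (merge (node 522 (merge (node 494 (merge (leaf 2 490 493) (node 526 (merge (leaf 2 491 495) (node 490 (merge (leaf 3 489 489) (leaf 3 490 491))))))) (merge (node 521 (merge (node 489 (merge (leaf 3 488 488) (leaf 3 489 490))) (merge (node 556 (merge (leaf 0 521 557) (node 520 (merge (leaf 0 520 555) (node 491 (merge (leaf 2 488 492) (node 490 (merge (leaf 2 487 519) (leaf 3 490 526))))))))) (node 556 (merge (leaf 0 521 557) (node 520 (merge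 (leaf 0 520 555) (node 488 (merge (leaf 3 487 487) (leaf 3 488 489)))))))))) (node 493 (merge (leaf 2 490 494) (node 521 (merge (leaf 2 489 492) (node 556 (merge (leaf 0 521 557) (node 520 (merge (leaf 0 520 555) (node 551 (merge (leaf 1 519 552) (node 519 (merge (leaf 1 518 550) (node 487 (merge (leaf 3 486 486) (leaf 3 487 488)))))))))))))))))) (merge (node 522 (merge (node 554 (merge (leaf 1 521 553) (node 526 (merge (leaf 1 522 555) (node 494 (merge (leaf 2 490 493) (leaf 2 491 495))))))) (merge (node 553 (merge (leaf 1 521 554) (node 521 (merge (leaf 1 520 552) (node 493 (merge (leaf 2 489 492) (leaf 2 490 494))))))) (merge (node 553 (merge (leaf 1 521 554) (node 521 (merge (leaf 1 520 552) (node 556 (merge (leaf 0 521 557) (node 520 (merge (leaf 0 520 555) (node 491 (merge (leaf 2 488 492) (node 490 (merge (leaf 2 487 519) (leaf 3 490 526))))))))))))) (node 493 (merge (leaf 2 490 494) (node 521 (merge (leaf 2 489 492) (node 556 (merge (leaf 0 521 557) (node 520 (merge (leaf 0 520 555) (node 551 (merge (leaf 1 519 552) (node 519 (merge (leaf 1 518 550) (node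 487 (merge (leaf 3 486 486) (leaf 3 487 488))))))))))))))))))) (merge (node 492 (merge (node 460 (merge (node 428 (merge (leaf 5 427 555) (leaf 4 428 557))) (merge (node 555 (merge (leaf 5 427 428) (node 587 (merge (leaf 5 459 556) (leaf 6 491 619))))) (merge (node 557 (merge (leaf 4 428 428) (node 589 (merge (leaf 4 460 556) (leaf 7 492 621))))) (node 556 (merge (node 589 (merge (leaf 4 460 557) (node 588 (merge (leaf 4 492 621) (node 587 (merge (leaf 5 459 555) (leaf 5 491 619))))))) (merge (node 459 (merge (leaf 7 427 427) (node 588 (merge (leaf 7 459 491) (node 589 (merge (leaf 4 460 557) (leaf 4 492 621))))))) (merge (node 459 (merge (leaf 7 427 427) (node 588 (merge (leaf 7 459 491) (node 587 (merge (leaf 5 459 555) (leaf 5 491 619))))))) (node 459 (merge (leaf 7 427 427) (node 557 (merge (leaf 4 460 589) (node 555 (merge (leaf 5 459 587) (node 554 (merge (leaf 2 521 553) (node 586 (merge (leaf 5 458 491) (leaf 1 553 585))))))))))))))))))) (merge (node 493 (merge (node 494 (merge (leaf 1 491 495) (leaf 2 490 522))) (merge (node 491 (merge (node 494 (merge (leaf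 1 491 495) (node 459 (merge (leaf 3 458 458) (node 427 (merge (leaf 4 395 395) (leaf 4 427 556))))))) (merge (node 490 (merge (leaf 0 489 489) (node 461 (merge (leaf 2 458 462) (node 429 (merge (leaf 5 396 397) (leaf 5 428 556))))))) (node 490 (merge (leaf 0 489 489) (node 494 (merge (leaf 1 491 495) (node 458 (merge (leaf 3 457 457) (leaf 3 458 459)))))))))) (node 461 (merge (node 556 (merge (leaf 5 428 429) (node 588 (merge (leaf 6 460 492) (leaf 5 460 557))))) (node 522 (merge (leaf 2 489 521) (node 554 (merge (leaf 1 521 553) (node 490 (merge (leaf 3 489 489) (node 491 (merge (leaf 2 458 462) (node 586 (merge (leaf 6 458 459) (leaf 6 490 618)))))))))))))))) (merge (node 493 (merge (node 494 (merge (leaf 1 491 495) (leaf 2 490 522))) (merge (node 555 (merge (node 587 (merge (leaf 6 491 619) (node 460 (merge (leaf 5 427 428) (leaf 5 459 556))))) (merge (node 587 (merge (leaf 6 491 619) (node 522 (merge (leaf 2 489 521) (node 490 (merge (leaf 3 489 489) (node 458 (merge (leaf 4 426 426) (leaf 7 458 491))))))))) (node 522 (merge (leaf 2 489 521) (node 490 (merge (leaf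 3 489 489) (node 458 (merge (leaf 4 426 426) (node 457 (merge (leaf 3 457 491) (node 460 (merge (leaf 5 427 428) (leaf 0 457 459)))))))))))))) (node 491 (merge (node 494 (merge (leaf 1 491 495) (node 459 (merge (leaf 3 458 458) (node 427 (merge (leaf 4 395 395) (leaf 4 427 556))))))) (merge (node 490 (merge (leaf 0 489 489) (node 461 (merge (leaf 2 458 462) (node 429 (merge (leaf 5 396 397) (leaf 5 428 556))))))) (node 490 (merge (leaf 0 489 489) (node 494 (merge (leaf 1 491 495) (node 458 (merge (leaf 3 457 457) (leaf 3 458 459))))))))))))) (merge (node 460 (merge (node 428 (merge (leaf 5 427 555) (leaf 4 428 557))) (merge (node 555 (merge (leaf 5 427 428) (node 587 (merge (leaf 5 459 556) (leaf 6 491 619))))) (merge (node 557 (merge (leaf 4 428 428) (node 589 (merge (leaf 4 460 556) (leaf 7 492 621))))) (node 556 (merge (node 461 (merge (leaf 6 428 429) (node 588 (merge (leaf 6 460 493) (node 589 (merge (leaf 4 460 557) (leaf 4 492 621))))))) (merge (node 589 (merge (leaf 4 460 557) (node 588 (merge (leaf 4 492 621) (node 587 (merge (leaf 5 459 555) (leaf 5 491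 619))))))) (merge (node 461 (merge (leaf 6 428 429) (node 588 (merge (leaf 6 460 493) (node 587 (merge (leaf 5 459 555) (leaf 5 491 619))))))) (node 459 (merge (leaf 7 427 427) (node 557 (merge (leaf 4 460 589) (node 522 (merge (leaf 0 521 521) (node 493 (merge (leaf 2 490 494) (node 458 (merge (leaf 0 457 457) (node 490 (merge (leaf 3 489 489) (node 555 (merge (leaf 4 426 426) (leaf 5 459 587))))))))))))))))))))))) (merge (node 493 (merge (node 494 (merge (leaf 1 491 495) (leaf 2 490 522))) (merge (node 555 (merge (node 587 (merge (leaf 6 491 619) (node 460 (merge (leaf 5 427 428) (leaf 6 459 491))))) (merge (node 587 (merge (leaf 6 491 619) (node 522 (merge (leaf 2 489 521) (node 490 (merge (leaf 3 489 489) (node 458 (merge (leaf 4 426 426) (leaf 4 458 554))))))))) (node 522 (merge (leaf 2 489 521) (node 490 (merge (leaf 3 489 489) (node 458 (merge (leaf 4 426 426) (node 457 (merge (leaf 3 457 491) (node 460 (merge (leaf 5 427 428) (leaf 0 457 459)))))))))))))) (node 557 (merge (node 589 (merge (leaf 7 460 460) (leaf 7 492 621))) (merge (node 494 (merge (leaf 1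 491 495) (node 589 (merge (leaf 6 461 462) (leaf 7 492 621))))) (node 461 (merge (node 428 (merge (leaf 7 428 460) (node 429 (merge (leaf 7 396 396) (leaf 5 396 397))))) (node 462 (merge (leaf 6 429 430) (node 463 (merge (leaf 1 460 464) (node 491 (merge (leaf 2 458 490) (leaf 2 459 494))))))))))))))) (node 493 (merge (node 494 (merge (leaf 1 491 495) (leaf 2 490 522))) (merge (node 555 (merge (node 587 (merge (leaf 6 491 619) (node 460 (merge (leaf 5 427 428) (leaf 5 459 556))))) (merge (node 587 (merge (leaf 6 491 619) (node 522 (merge (leaf 2 489 521) (node 490 (merge (leaf 3 489 489) (node 458 (merge (leaf 4 426 426) (leaf 4 458 554))))))))) (node 522 (merge (leaf 2 489 521) (node 554 (merge (leaf 1 521 553) (node 490 (merge (leaf 3 489 489) (node 458 (merge (leaf 4 426 426) (node 457 (merge (leaf 7 425 425) (leaf 3 457 491)))))))))))))) (node 557 (merge (node 589 (merge (leaf 7 460 460) (leaf 7 492 621))) (node 461 (merge (node 556 (merge (leaf 5 428 429) (leaf 5 460 588))) (node 462 (merge (leaf 6 429 430) (node 463 (merge (leaf 1 460 464) (node 491 (merge (leaf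 2 458 490) (leaf 2 459 494)))))))))))))))))))) (node 492 (merge (node 460 (merge (node 428 (merge (leaf 5 427 555) (leaf 4 428 557))) (merge (node 555 (merge (leaf 5 427 428) (node 587 (merge (leaf 5 459 556) (leaf 6 491 619))))) (merge (node 557 (merge (leaf 4 428 428) (node 589 (merge (leaf 4 460 556) (leaf 7 492 621))))) (node 556 (merge (node 555 (merge (leaf 5 459 587) (node 554 (merge (leaf 1 522 526) (leaf 2 521 553))))) (node 461 (merge (leaf 6 428 429) (node 588 (merge (leaf 6 460 493) (node 589 (merge (leaf 4 460 557) (leaf 4 492 621))))))))))))) (merge (node 491 (merge (node 490 (merge (leaf 0 489 489) (leaf 3 490 526))) (node 460 (merge (node 428 (merge (leaf 4 428 557) (node 396 (merge (leaf 5 395 491) (leaf 4 396 493))))) (merge (node 428 (merge (leaf 5 395 396) (node 429 (merge (leaf 6 396 397) (node 556 (merge (leaf 6 428 461) (node 427 (merge (leaf 7 395 395) (leaf 7 427 459))))))))) (node 459 (merge (node 427 (merge (leaf 7 427 556) (node 395 (merge (leaf 4 363 363) (leaf 4 395 491))))) (merge (node 427 (merge (leaf 4 395 395) (node 426 (merge (leaf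 7 394 394) (node 425 (merge (leaf 0 424 424) (node 461 (merge (leaf 3 425 458) (leaf 3 426 462))))))))) (node 556 (merge (leaf 7 459 588) (node 461 (merge (leaf 6 428 429) (node 462 (merge (leaf 1 459 463) (node 430 (merge (leaf 2 427 431) (node 557 (merge (leaf 6 429 493) (leaf 4 460 589))))))))))))))))))) (merge (node 460 (merge (node 428 (merge (leaf 5 427 555) (leaf 4 428 557))) (merge (node 555 (merge (leaf 5 427 428) (node 587 (merge (leaf 5 459 556) (leaf 6 491 619))))) (merge (node 557 (merge (leaf 4 428 428) (node 589 (merge (leaf 4 460 556) (leaf 7 492 621))))) (node 556 (merge (node 589 (merge (leaf 4 460 557) (node 588 (merge (leaf 4 492 621) (node 587 (merge (leaf 5 459 555) (leaf 5 491 619))))))) (merge (node 459 (merge (leaf 7 427 427) (node 588 (merge (leaf 7 459 491) (node 589 (merge (leaf 4 460 557) (leaf 4 492 621))))))) (merge (node 459 (merge (leaf 7 427 427) (node 588 (merge (leaf 7 459 491) (node 587 (merge (leaf 5 459 555) (leaf 5 491 619))))))) (node 459 (merge (leaf 7 427 427) (node 557 (merge (leaf 4 460 589) (node 555 (merge (leaf 5 459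 587) (node 554 (merge (leaf 2 521 553) (node 586 (merge (leaf 5 458 491) (leaf 1 553 585))))))))))))))))))) (merge (node 491 (merge (node 490 (merge (leaf 0 489 489) (leaf 3 490 526))) (merge (node 460 (merge (node 428 (merge (leaf 4 428 557) (node 396 (merge (leaf 5 395 491) (leaf 4 396 493))))) (node 555 (merge (leaf 6 459 587) (node 554 (merge (leaf 1 522 526) (node 459 (merge (leaf 5 458 586) (node 426 (merge (leaf 7 426 458) (node 427 (merge (leaf 7 394 394) (leaf 4 395 395))))))))))))) (node 493 (merge (node 490 (merge (leaf 0 489 489) (node 494 (merge (leaf 1 491 495) (node 458 (merge (leaf 3 457 457) (leaf 3 458 459))))))) (merge (node 490 (merge (leaf 0 489 489) (node 458 (merge (leaf 3 457 457) (node 555 (merge (leaf 7 458 587) (node 426 (merge (leaf 4 394 394) (leaf 7 426 459))))))))) (node 494 (merge (leaf 1 491 495) (node 462 (merge (leaf 2 459 463) (node 557 (merge (leaf 6 461 589) (node 430 (merge (leaf 5 397 398) (leaf 6 429 461))))))))))))))) (node 491 (merge (node 490 (merge (leaf 0 489 489) (leaf 3 490 526))) (merge (node 555 (merge (node 554 (merge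 (leaf 1 522 526) (node 553 (merge (leaf 2 520 552) (leaf 2 521 556))))) (merge (node 587 (merge (leaf 6 491 619) (node 554 (merge (leaf 1 522 526) (node 586 (merge (leaf 5 458 459) (leaf 5 490 618))))))) (node 587 (merge (leaf 6 491 619) (node 588 (merge (leaf 4 491 620) (node 459 (merge (leaf 7 459 556) (node 426 (merge (leaf 7 426 458) (node 427 (merge (leaf 7 394 394) (leaf 4 395 395)))))))))))))) (node 493 (merge (node 490 (merge (leaf 0 489 489) (node 461 (merge (leaf 2 458 462) (node 556 (merge (leaf 5 428 429) (leaf 6 460 588))))))) (merge (node 494 (merge (leaf 1 491 495) (node 459 (merge (leaf 3 458 458) (node 427 (merge (leaf 4 395 395) (leaf 4 427 556))))))) (node 490 (merge (leaf 0 489 489) (node 494 (merge (leaf 1 491 495) (node 458 (merge (leaf 3 457 457) (leaf 3 458 459)))))))))))))))))))))))))) nP_132 cP_132 12 (by decide +kernel)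
def nP_133 : ℕ := 0x20000001200000003000000000000000000000000000000000000000000000000000000000000000000000000000000000000000000000000000000000000000000000000000
def cP_133 : ℕ := 0x140000001e0000001f8000001f8000009fc00000cf800001dfc000001f8000001e00000018000000100000000000000000000000000000000000000000000000000000000000000000000000000000000000
theorem lP_133 : S nP_133 cP_133 11 := S_of_chk [] trivial (node 491 (merge (node 494 (merge (node 495 (merge (leaf 0 492 527) (node 463 (merge (leaf 2 459 462) (leaf 2 460 464))))) (node 522 (merge (leaf 1 490 523) (node 490 (merge (leaf 1 489 521) (node 458 (merge (leaf 3 457 457) (leaf 3 458 459))))))))) (merge (node 490 (merge (node 489 (merge (leaf 0 489 524) (node 457 (merge (leaf 3 456 456) (leaf 3 457 458))))) (node 522 (merge (leaf 1 489 521) (node 494 (merge (leaf 1 490 523) (node 495 (merge (leaf 0 492 527) (node 463 (merge (leaf 2 459 462) (leaf 2 460 464))))))))))) (merge (node 490 (merge (node 458 (merge (leaf 3 457 457) (node 494 (merge (leaf 3 458 459) (node 495 (merge (leaf 0 492 527) (node 463 (merge (leaf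 2 459 462) (leaf 2 460 464))))))))) (merge (node 489 (merge (leaf 0 489 524) (node 520 (merge (leaf 1 488 521) (node 488 (merge (leaf 1 487 519) (node 456 (merge (leaf 3 455 455) (leaf 3 456 457))))))))) (node 489 (merge (leaf 0 489 524) (node 520 (merge (leaf 1 488 521) (node 488 (merge (leaf 1 487 519) (node 459 (merge (leaf 2 456 460) (node 458 (merge (leaf 2 455 487) (leaf 3 458 494)))))))))))))) (merge (node 494 (merge (node 495 (merge (leaf 0 492 527) (node 523 (merge (leaf 1 490 522) (leaf 1 491 524))))) (merge (node 495 (merge (leaf 0 492 527) (node 463 (merge (leaf 2 460 464) (node 491 (merge (leaf 2 459 462) (node 459 (merge (leaf 3 458 458) (leaf 3 459 460))))))))) (node 522 (merge (leaf 1 490 523) (node 490 (merge (leaf 1 489 521) (node 489 (merge (leaf 0 489 524) (node 459 (merge (leaf 3 458 458) (node 488 (merge (leaf 2 456 460) (node 519 (merge (leaf 1 487 520) (node 487 (merge (leaf 1 486 518) (node 455 (merge (leaf 3 454 454) (leaf 3 455 456)))))))))))))))))))) (merge (node 490 (merge (node 522 (merge (leaf 1 489 521) (node 494 (merge (leaf 1 490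 523) (node 495 (merge (leaf 0 492 527) (node 463 (merge (leaf 2 459 462) (leaf 2 460 464))))))))) (merge (node 489 (merge (leaf 0 489 524) (node 520 (merge (leaf 1 488 521) (node 488 (merge (leaf 1 487 519) (node 456 (merge (leaf 3 455 455) (leaf 3 456 457))))))))) (node 523 (merge (node 494 (merge (leaf 1 490 522) (node 495 (merge (leaf 0 492 527) (node 463 (merge (leaf 2 459 462) (leaf 2 460 464))))))) (node 524 (merge (leaf 0 489 489) (node 556 (merge (node 588 (merge (leaf 7 459 459) (leaf 6 492 620))) (merge (node 459 (merge (leaf 4 427 427) (node 460 (merge (leaf 4 428 428) (node 555 (merge (leaf 6 459 587) (node 554 (merge (leaf 2 521 553) (leaf 5 458 586))))))))) (node 588 (merge (leaf 6 492 620) (node 460 (merge (leaf 4 428 428) (node 587 (merge (leaf 6 459 555) (leaf 5 491 619))))))))))))))))) (merge (node 523 (merge (node 494 (merge (leaf 1 490 522) (node 495 (merge (leaf 0 492 527) (node 463 (merge (leaf 2 459 462) (leaf 2 460 464))))))) (merge (node 459 (merge (node 458 (merge (leaf 3 458 494) (node 457 (merge (leaf 0 456 456) (leaf 0 457 460))))) (merge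 (node 494 (merge (leaf 3 458 458) (node 495 (merge (leaf 1 491 524) (node 463 (merge (leaf 2 459 462) (leaf 2 460 464))))))) (node 524 (merge (node 556 (merge (leaf 4 427 427) (leaf 7 459 588))) (merge (node 427 (merge (leaf 4 395 395) (node 428 (merge (leaf 6 395 396) (leaf 4 428 460))))) (node 556 (merge (leaf 7 459 588) (node 460 (merge (leaf 4 428 428) (node 555 (merge (leaf 6 459 587) (node 554 (merge (leaf 2 521 553) (leaf 5 458 586))))))))))))))) (node 555 (merge (node 460 (merge (leaf 6 459 587) (node 428 (merge (leaf 4 396 396) (leaf 6 427 459))))) (merge (node 587 (merge (leaf 6 459 460) (node 619 (merge (leaf 6 491 524) (node 620 (merge (leaf 4 491 588) (leaf 4 523 652))))))) (merge (node 587 (merge (node 619 (merge (leaf 6 491 524) (node 618 (merge (leaf 5 490 586) (leaf 5 522 650))))) (merge (node 619 (merge (leaf 6 491 524) (node 620 (merge (leaf 4 491 588) (leaf 4 523 652))))) (node 588 (merge (leaf 4 491 620) (node 459 (merge (leaf 4 459 556) (node 586 (merge (leaf 5 458 554) (leaf 5 490 618)))))))))) (node 459 (merge (node 460 (merge (leaf 6 427 428)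 (node 458 (merge (leaf 7 426 426) (leaf 0 457 457))))) (node 556 (merge (leaf 4 459 588) (node 554 (merge (leaf 5 458 586) (node 522 (merge (leaf 5 426 427) (leaf 3 521 521)))))))))))))))) (merge (node 459 (merge (node 458 (merge (leaf 3 458 494) (node 457 (merge (leaf 0 456 456) (leaf 3 457 490))))) (merge (node 460 (merge (node 524 (merge (leaf 4 428 428) (node 556 (merge (leaf 7 427 427) (node 588 (merge (leaf 7 459 491) (leaf 6 492 620))))))) (merge (node 494 (merge (leaf 3 459 495) (node 523 (merge (leaf 1 490 522) (node 428 (merge (leaf 4 396 396) (leaf 6 427 555))))))) (node 494 (merge (leaf 3 459 495) (node 523 (merge (leaf 1 490 522) (node 555 (merge (leaf 6 459 587) (node 556 (merge (leaf 4 459 588) (node 524 (merge (leaf 7 427 427) (node 554 (merge (leaf 2 521 553) (leaf 5 458 586)))))))))))))))) (node 427 (merge (node 524 (merge (leaf 4 395 395) (node 460 (merge (leaf 4 428 428) (leaf 7 427 556))))) (merge (node 524 (merge (leaf 4 395 395) (node 556 (merge (leaf 4 427 523) (leaf 7 459 588))))) (merge (node 396 (merge (node 428 (merge (leaf 4 396 460) (leaf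 6 395 523))) (merge (node 395 (merge (leaf 6 363 364) (node 363 (merge (leaf 4 363 460) (node 490 (merge (leaf 5 362 458) (leaf 5 394 522))))))) (node 364 (merge (leaf 6 363 395) (node 428 (merge (leaf 5 331 332) (leaf 6 395 523)))))))) (node 428 (merge (node 396 (merge (leaf 4 396 460) (leaf 6 395 523))) (merge (node 460 (merge (leaf 4 396 396) (leaf 4 428 524))) (merge (node 524 (merge (leaf 4 428 460) (node 556 (merge (leaf 4 427 523) (leaf 7 459 588))))) (node 523 (merge (leaf 6 395 396) (node 426 (merge (leaf 7 394 394) (node 458 (merge (leaf 7 426 555) (node 490 (merge (leaf 3 457 457) (node 524 (merge (leaf 0 489 489) (leaf 4 427 556)))))))))))))))))))))) (node 523 (merge (node 490 (merge (node 489 (merge (leaf 0 489 524) (node 521 (merge (leaf 1 488 520) (leaf 1 489 522))))) (merge (node 489 (merge (leaf 0 489 524) (node 457 (merge (leaf 3 456 456) (leaf 3 457 458))))) (node 522 (merge (leaf 1 489 521) (node 458 (merge (leaf 3 457 457) (node 426 (merge (leaf 4 394 394) (leaf 4 426 555)))))))))) (merge (node 490 (merge (node 489 (merge (leaf 0 489 524) (node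 457 (merge (leaf 3 456 456) (leaf 3 457 458))))) (merge (node 458 (merge (leaf 3 457 457) (node 555 (merge (leaf 7 458 587) (node 426 (merge (leaf 4 394 394) (leaf 7 426 459))))))) (node 524 (merge (leaf 0 489 489) (node 556 (merge (node 588 (merge (leaf 7 459 459) (leaf 6 492 620))) (merge (node 459 (merge (leaf 4 427 427) (node 460 (merge (leaf 4 428 428) (node 555 (merge (leaf 6 459 587) (node 554 (merge (leaf 2 521 553) (leaf 5 458 586))))))))) (node 588 (merge (leaf 6 492 620) (node 460 (merge (leaf 4 428 428) (node 587 (merge (leaf 6 459 555) (leaf 5 491 619))))))))))))))) (merge (node 555 (merge (node 460 (merge (leaf 6 459 587) (node 428 (merge (leaf 4 396 396) (leaf 6 427 459))))) (merge (node 587 (merge (leaf 6 459 460) (node 490 (merge (leaf 7 458 458) (node 522 (merge (leaf 1 489 521) (leaf 7 490 619))))))) (merge (node 459 (merge (node 460 (merge (leaf 6 427 428) (node 458 (merge (leaf 7 426 426) (leaf 0 457 457))))) (node 556 (merge (leaf 4 459 588) (node 554 (merge (leaf 5 458 586) (node 522 (merge (leaf 5 426 427) (leaf 3 521 521))))))))) (node 490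 (merge (node 458 (merge (leaf 3 457 457) (leaf 7 458 587))) (merge (node 522 (merge (leaf 1 489 521) (node 458 (merge (leaf 3 457 457) (node 426 (merge (leaf 4 394 394) (leaf 4 426 555))))))) (node 522 (merge (leaf 1 489 521) (node 587 (merge (leaf 7 490 619) (node 588 (merge (leaf 4 491 620) (node 556 (merge (leaf 4 459 459) (node 586 (merge (leaf 2 553 585) (leaf 5 490 618)))))))))))))))))) (merge (node 555 (merge (node 460 (merge (leaf 6 459 587) (node 428 (merge (leaf 4 396 396) (leaf 6 427 459))))) (merge (node 587 (merge (leaf 6 459 460) (node 619 (merge (leaf 6 491 524) (node 620 (merge (leaf 4 491 588) (leaf 4 523 652))))))) (node 554 (merge (node 586 (merge (leaf 5 458 459) (node 618 (merge (leaf 6 490 522) (leaf 6 522 650))))) (merge (node 459 (merge (leaf 5 458 586) (node 556 (merge (leaf 4 459 588) (node 524 (merge (leaf 4 427 427) (leaf 2 521 553))))))) (merge (node 522 (merge (node 521 (merge (leaf 2 488 520) (leaf 2 489 524))) (merge (node 521 (merge (leaf 2 488 520) (leaf 3 521 556))) (node 586 (merge (leaf 6 490 618) (node 524 (merge (leaf 1 521 553)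 (node 490 (merge (leaf 0 489 489) (node 585 (merge (leaf 1 553 556) (leaf 5 489 617)))))))))))) (node 522 (merge (node 521 (merge (leaf 2 488 520) (leaf 2 489 524))) (merge (node 521 (merge (leaf 2 488 520) (leaf 3 521 556))) (node 553 (merge (leaf 1 521 524) (node 552 (merge (leaf 2 519 551) (node 584 (merge (leaf 1 551 583) (node 556 (merge (leaf 1 552 585) (node 459 (merge (leaf 5 426 427) (leaf 4 459 588))))))))))))))))))))) (merge (node 555 (merge (node 460 (merge (leaf 6 459 587) (node 428 (merge (leaf 4 396 396) (leaf 6 427 459))))) (merge (node 587 (merge (leaf 6 459 460) (node 619 (merge (leaf 6 491 524) (node 620 (merge (leaf 4 491 588) (leaf 4 523 652))))))) (merge (node 587 (merge (node 619 (merge (leaf 6 491 524) (node 618 (merge (leaf 5 490 586) (leaf 5 522 650))))) (merge (node 619 (merge (leaf 6 491 524) (node 620 (merge (leaf 4 491 588) (leaf 4 523 652))))) (node 588 (merge (leaf 4 491 620) (node 459 (merge (leaf 4 459 556) (node 586 (merge (leaf 5 458 554) (leaf 5 490 618)))))))))) (node 459 (merge (node 460 (merge (leaf 6 427 428) (node 458 (merge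 (leaf 7 426 426) (leaf 0 457 457))))) (node 556 (merge (leaf 4 459 588) (node 554 (merge (leaf 5 458 586) (node 522 (merge (leaf 5 426 427) (leaf 3 521 521))))))))))))) (node 522 (merge (node 521 (merge (leaf 1 489 490) (leaf 2 489 524))) (merge (node 521 (merge (leaf 1 489 490) (leaf 2 488 520))) (merge (node 521 (merge (leaf 2 488 520) (leaf 2 489 524))) (node 490 (merge (node 524 (merge (leaf 0 489 489) (node 554 (merge (leaf 1 521 553) (node 459 (merge (leaf 5 426 427) (leaf 6 458 586))))))) (merge (node 489 (merge (leaf 0 489 524) (node 456 (merge (leaf 3 456 457) (node 488 (merge (leaf 3 455 455) (node 487 (merge (leaf 0 487 522) (node 519 (merge (leaf 1 486 518) (leaf 1 487 520))))))))))) (node 458 (merge (leaf 3 457 457) (node 426 (merge (leaf 4 394 394) (node 427 (merge (leaf 6 394 395) (node 459 (merge (leaf 6 426 554) (node 425 (merge (leaf 7 393 393) (node 424 (merge (leaf 0 423 423) (leaf 0 424 460)))))))))))))))))))))))))))))))))) nP_133 cP_133 11 (by decide +kernel)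
def nP_134 : ℕ := 0x20000001200000002000000000000000000000000000000000000000000000000000000000000000000000000000000000000000000000000000000000000000000000000000
def cP_134 : ℕ := 0x140000001e0000001f8000001f8000009fc00000df800003ffc000007f8000007e0000007e000000500000000000000000000000000000000000000000000000000000000000000000000000000000000000
theorem lP_134 : S nP_134 cP_134 13 := S_of_chk [(nP_133, cP_133, 11)] ⟨lP_133, trivial⟩ (node 492 (merge (node 461 (merge (node 462 (merge (leaf 6 429 430) (node 460 (merge (leaf 7 428 428) (node 463 (merge (leaf 1 460 464) (leaf 1 459 491))))))) (merge (node 428 (merge (leaf 7 428 460) (node 429 (merge (leaf 7 396 396) (node 556 (merge (leaf 5 428 524) (leaf 5 460 588))))))) (node 430 (merge (leaf 6 429 462) (node 429 (merge (leaf 6 397 398) (node 556 (merge (leaf 5 428 524) (leaf 5 460 588)))))))))) (merge (node 494 (merge (node 495 (merge (leaf 0 492 527) (node 460 (merge (leaf 3 459 459) (node 428 (merge (leaf 4 396 396) (leaf 7 428 461))))))) (merge (node 462 (merge (node 430 (merge (leaf 5 397 398) (leaf 6 429 461)))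 (node 463 (merge (leaf 2 459 491) (node 464 (merge (leaf 1 461 465) (leaf 2 460 495))))))) (merge (node 495 (merge (leaf 0 492 527) (node 463 (merge (leaf 2 460 464) (node 491 (merge (leaf 2 459 462) (node 459 (merge (leaf 3 458 458) (leaf 3 459 460))))))))) (node 462 (merge (node 430 (merge (leaf 5 397 398) (leaf 6 429 461))) (node 491 (merge (leaf 2 459 463) (node 522 (merge (leaf 1 490 523) (node 490 (merge (leaf 1 489 521) (node 458 (merge (leaf 3 457 457) (leaf 3 458 459))))))))))))))) (merge (node 461 (merge (node 428 (merge (leaf 7 428 460) (node 429 (merge (leaf 7 396 396) (node 524 (merge (leaf 5 396 397) (leaf 5 428 556))))))) (merge (node 430 (merge (leaf 6 429 462) (node 429 (merge (leaf 6 397 398) (node 556 (merge (leaf 5 428 524) (leaf 5 460 588))))))) (merge (node 430 (merge (leaf 6 429 462) (node 429 (merge (leaf 6 397 398) (node 428 (merge (leaf 7 396 396) (leaf 7 428 460))))))) (node 460 (merge (leaf 7 428 428) (node 459 (merge (node 458 (merge (leaf 0 457 457) (node 494 (merge (leaf 0 458 461) (leaf 3 459 495))))) (node 462 (merge (leaf 6 429 430)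 (node 427 (merge (leaf 3 426 426) (node 556 (merge (leaf 7 427 524) (leaf 5 460 588))))))))))))))) (merge (node 461 (merge (node 430 (merge (leaf 6 429 462) (node 429 (merge (leaf 6 397 398) (node 524 (merge (leaf 5 396 397) (leaf 5 428 556))))))) (merge (node 462 (merge (leaf 6 429 430) (node 463 (merge (leaf 1 460 464) (node 491 (merge (leaf 2 458 490) (leaf 2 459 494))))))) (node 460 (merge (leaf 7 428 428) (node 556 (merge (leaf 5 460 588) (node 524 (merge (leaf 6 428 429) (node 459 (merge (leaf 7 427 427) (node 458 (merge (leaf 0 457 457) (leaf 0 458 494)))))))))))))) (merge (node 461 (merge (node 462 (merge (leaf 6 429 430) (node 463 (merge (leaf 1 460 464) (node 491 (merge (leaf 2 458 490) (leaf 2 459 494))))))) (merge (node 556 (merge (leaf 5 460 588) (node 429 (merge (leaf 5 428 524) (node 398 (merge (leaf 6 397 430) (node 397 (merge (leaf 6 365 366) (node 396 (merge (leaf 7 364 364) (leaf 7 396 428))))))))))) (node 494 (merge (node 495 (merge (leaf 0 492 527) (node 524 (merge (leaf 1 491 523) (node 556 (merge (leaf 5 428 429) (leaf 6 460 588))))))) (merge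 (node 556 (merge (leaf 5 460 588) (node 429 (merge (leaf 5 428 524) (node 396 (merge (leaf 7 396 428) (node 397 (merge (leaf 7 364 364) (node 366 (merge (leaf 6 365 398) (node 365 (merge (leaf 6 333 334) (leaf 4 365 462))))))))))))) (node 495 (merge (leaf 0 492 527) (node 463 (merge (leaf 2 460 464) (node 491 (merge (leaf 2 459 462) (node 522 (merge (leaf 1 490 523) (node 490 (merge (leaf 1 489 521) (node 458 (merge (leaf 3 457 457) (leaf 3 458 459))))))))))))))))))) (merge (node 461 (merge (node 462 (merge (leaf 6 429 430) (node 463 (merge (leaf 1 460 464) (node 491 (merge (leaf 2 458 490) (leaf 2 459 494))))))) (merge (node 556 (merge (leaf 5 460 588) (node 429 (merge (leaf 5 428 524) (node 398 (merge (leaf 6 397 430) (node 397 (merge (leaf 6 365 366) (node 364 (merge (leaf 7 364 396) (node 365 (merge (leaf 7 332 332) (leaf 5 364 460))))))))))))) (node 491 (merge (node 462 (merge (leaf 2 458 490) (node 463 (merge (leaf 1 460 464) (leaf 2 459 494))))) (merge (node 490 (merge (leaf 2 458 462) (node 489 (merge (leaf 0 489 524) (node 521 (merge (leaf 1 488 520) (leaf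 1 489 522))))))) (merge (node 490 (merge (node 489 (merge (leaf 0 489 524) (node 521 (merge (leaf 1 488 520) (leaf 1 489 522))))) (merge (node 489 (merge (leaf 0 489 524) (node 457 (merge (leaf 3 456 456) (leaf 3 457 458))))) (node 522 (merge (leaf 1 489 521) (node 494 (merge (leaf 1 490 523) (node 458 (merge (leaf 3 457 457) (leaf 3 458 459)))))))))) (node 494 (merge (node 495 (merge (leaf 0 492 527) (node 463 (merge (leaf 2 459 462) (leaf 2 460 464))))) (node 523 (merge (leaf 1 490 522) (node 459 (merge (leaf 3 458 458) (node 556 (merge (leaf 5 460 588) (node 524 (merge (leaf 4 427 427) (leaf 5 428 429)))))))))))))))))) (merge (node 460 (merge (node 428 (merge (leaf 4 396 396) (leaf 7 428 461))) (merge (node 428 (merge (leaf 4 396 396) (leaf 4 428 524))) (node 491 (merge (node 522 (merge (node 494 (merge (leaf 1 490 523) (node 495 (merge (leaf 3 459 459) (leaf 0 492 527))))) (node 490 (merge (leaf 1 489 521) (node 489 (merge (leaf 2 457 461) (leaf 0 489 524))))))) (merge (node 494 (merge (node 495 (merge (leaf 3 459 459) (leaf 0 492 527))) (merge (node 522 (merge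 (leaf 1 490 523) (node 490 (merge (leaf 1 489 521) (node 458 (merge (leaf 3 457 457) (leaf 3 458 459))))))) (node 522 (merge (leaf 1 490 523) (node 490 (merge (leaf 1 489 521) (node 489 (merge (leaf 2 457 461) (node 457 (merge (leaf 3 456 456) (leaf 3 457 458)))))))))))) (merge (node 490 (merge (node 489 (merge (leaf 0 489 524) (node 521 (merge (leaf 1 488 520) (leaf 1 489 522))))) (merge (node 489 (merge (leaf 0 489 524) (node 457 (merge (leaf 3 456 456) (leaf 3 457 458))))) (node 522 (merge (leaf 1 489 521) (node 523 (merge (leaf 1 490 494) (node 555 (merge (leaf 6 459 587) (node 458 (merge (leaf 4 426 426) (leaf 3 457 457)))))))))))) (merge (node 461 (merge (node 556 (merge (leaf 5 460 588) (node 429 (merge (leaf 6 428 524) (node 398 (merge (leaf 6 397 430) (node 397 (merge (leaf 5 364 365) (leaf 6 365 366))))))))) (node 490 (merge (leaf 2 457 489) (node 522 (merge (leaf 1 489 521) (node 458 (merge (leaf 3 457 457) (node 459 (merge (leaf 0 458 494) (node 427 (merge (leaf 5 394 395) (leaf 6 426 554))))))))))))) (merge (node 461 (merge (node 556 (merge (leaf 5 460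 588) (node 429 (merge (leaf 6 428 524) (node 398 (merge (leaf 6 397 430) (node 397 (merge (leaf 5 364 365) (leaf 6 365 366))))))))) (node 490 (merge (leaf 2 457 489) (node 458 (merge (leaf 3 457 457) (node 459 (merge (leaf 0 458 494) (node 426 (merge (leaf 3 425 425) (node 394 (merge (leaf 4 362 362) (leaf 4 394 523))))))))))))) (merge (node 459 (merge (node 494 (merge (leaf 3 458 458) (node 495 (merge (leaf 3 459 460) (leaf 0 492 527))))) (merge (node 494 (merge (leaf 3 459 495) (node 523 (merge (leaf 1 490 522) (node 555 (merge (leaf 6 459 587) (node 556 (merge (leaf 4 459 588) (node 524 (merge (leaf 7 427 427) (node 554 (merge (leaf 2 521 553) (leaf 5 458 586))))))))))))) (node 461 (merge (node 458 (merge (leaf 0 457 457) (node 429 (merge (leaf 2 426 430) (node 397 (merge (leaf 5 364 365) (leaf 5 396 524))))))) (merge (node 458 (merge (leaf 0 457 457) (node 426 (merge (leaf 3 425 425) (node 523 (merge (leaf 7 426 555) (node 394 (merge (leaf 4 362 362) (leaf 7 394 427))))))))) (node 556 (merge (leaf 5 460 588) (node 524 (merge (leaf 7 427 427) (node 555 (merge (leaf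 5 459 587) (node 554 (merge (leaf 2 521 553) (node 586 (merge (leaf 5 458 523) (leaf 1 553 585))))))))))))))))) (node 524 (merge (node 556 (merge (node 461 (merge (leaf 6 428 429) (leaf 6 460 588))) (node 459 (merge (leaf 7 427 427) (node 555 (merge (leaf 5 459 587) (node 554 (merge (leaf 2 521 553) (node 586 (merge (leaf 5 458 523) (leaf 1 553 585))))))))))) (merge (node 556 (merge (node 461 (merge (leaf 6 428 429) (leaf 6 460 588))) (merge (node 588 (merge (leaf 7 459 459) (leaf 6 492 620))) (node 461 (merge (leaf 6 428 429) (node 490 (merge (leaf 0 489 489) (node 459 (merge (leaf 7 427 427) (node 458 (merge (leaf 0 457 457) (node 426 (merge (leaf 3 425 425) (node 394 (merge (leaf 4 362 362) (leaf 4 394 523)))))))))))))))) (merge (node 523 (merge (node 490 (merge (leaf 0 489 489) (node 522 (merge (leaf 1 489 521) (node 458 (merge (leaf 3 457 457) (node 426 (merge (leaf 4 394 394) (leaf 4 426 555))))))))) (merge (node 555 (merge (leaf 6 459 587) (node 522 (merge (leaf 2 489 521) (node 554 (merge (leaf 1 521 553) (node 459 (merge (leaf 5 426 427) (leaf 5 458 586)))))))))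 (merge (node 490 (merge (leaf 0 489 489) (node 555 (merge (leaf 6 459 587) (node 458 (merge (leaf 3 457 457) (node 426 (merge (leaf 4 394 394) (leaf 7 426 459))))))))) (node 490 (merge (leaf 0 489 489) (node 522 (merge (leaf 1 489 521) (node 554 (merge (leaf 1 521 553) (node 586 (merge (leaf 6 458 459) (leaf 6 490 618))))))))))))) (merge (node 556 (merge (node 588 (merge (leaf 7 459 459) (leaf 6 492 620))) (merge (node 588 (merge (leaf 6 492 620) (node 587 (merge (leaf 5 459 555) (leaf 5 491 619))))) (node 490 (merge (leaf 0 489 489) (node 522 (merge (leaf 1 489 521) (node 555 (merge (leaf 5 459 587) (node 554 (merge (leaf 2 521 553) (node 586 (merge (leaf 6 458 459) (leaf 1 553 585)))))))))))))) (node 555 (merge (node 556 (merge (leaf 5 459 587) (node 461 (merge (leaf 6 428 429) (leaf 6 460 588))))) (merge (node 490 (merge (leaf 0 489 489) (node 523 (merge (leaf 6 459 587) (node 522 (merge (leaf 1 489 521) (node 458 (merge (leaf 4 426 426) (leaf 3 457 457))))))))) (node 522 (merge (node 490 (merge (leaf 0 489 489) (leaf 1 489 521))) (merge (node 521 (merge (leaf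 2 489 523) (node 556 (merge (leaf 3 521 554) (node 461 (merge (leaf 6 428 429) (leaf 6 460 588))))))) (node 490 (merge (leaf 0 489 489) (node 458 (merge (leaf 3 457 457) (node 426 (merge (leaf 4 426 523) (node 395 (merge (leaf 6 394 427) (node 394 (merge (leaf 6 362 363) (node 393 (merge (leaf 7 361 361) (leaf 7 393 425)))))))))))))))))))))))))))))))))) (hyp 0))))))))) nP_134 cP_134 13 (by decide +kernel)
def nP_135 : ℕ := 0x8000000000000001a0000001200000002000000000000000000000000000000000000000000000000000000000000000000000000000000000000000000000000000000000000000000000000000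
def cP_135 : ℕ := 0x200000007bc0000037c000007bc0000021e0000009f000000de000001ee0000007c0000007c00000070000000400000000000000000000000000000000000000000000000000000000000000000000000000000000000
theorem lP_135 : S nP_135 cP_135 14 := S_of_chk [] trivial (node 492 (merge (node 624 (merge (node 655 (merge (leaf 6 527 591) (leaf 5 527 592))) (merge (node 592 (merge (leaf 5 527 655) (node 527 (merge (leaf 7 495 495) (leaf 7 527 656))))) (merge (node 494 (merge (node 527 (merge (leaf 0 492 495) (node 656 (merge (leaf 4 527 591) (leaf 7 527 592))))) (node 462 (merge (leaf 6 461 589) (node 430 (merge (leaf 5 397 398) (leaf 6 429 461))))))) (node 591 (merge (leaf 6 527 655) (node 527 (merge (leaf 4 527 656) (node 494 (merge (leaf 0 492 495) (node 462 (merge (leaf 6 461 589) (node 430 (merge (leaf 5 397 398) (leaf 6 429 461))))))))))))))) (merge (node 494 (merge (node 589 (merge (leaf 6 461 462) (node 621 (merge (leaf 7 492 524) (node 620 (merge (leaf 5 492 588) (leaf 5 524 652))))))) (merge (node 495 (merge (leaf 0 492 527) (node 462 (merge (leaf 6 461 589) (node 463 (merge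 (leaf 2 460 464) (leaf 2 459 491))))))) (node 491 (merge (node 495 (merge (leaf 0 492 527) (node 523 (merge (leaf 1 490 522) (leaf 1 491 524))))) (merge (node 522 (merge (leaf 1 490 523) (node 490 (merge (leaf 1 489 521) (node 458 (merge (leaf 3 457 457) (leaf 3 458 459))))))) (merge (node 495 (merge (leaf 0 492 527) (node 524 (merge (leaf 1 491 523) (node 490 (merge (leaf 0 489 489) (node 458 (merge (leaf 3 457 457) (leaf 3 458 459))))))))) (node 458 (merge (leaf 3 458 459) (node 490 (merge (leaf 3 457 457) (node 489 (merge (leaf 0 489 524) (node 521 (merge (leaf 1 488 520) (leaf 1 489 522)))))))))))))))) (merge (node 588 (merge (node 556 (merge (leaf 5 460 461) (node 620 (merge (leaf 5 492 589) (leaf 6 524 652))))) (merge (node 655 (merge (leaf 6 527 591) (node 589 (merge (leaf 5 492 620) (node 621 (merge (leaf 7 492 524) (node 624 (merge (leaf 5 527 592) (leaf 3 588 622))))))))) (node 461 (merge (leaf 5 460 556) (node 430 (merge (leaf 6 429 462) (node 429 (merge (leaf 6 397 398) (node 396 (merge (leaf 7 396 428) (node 397 (merge (leaf 7 364 364) (leaf 5 396 524))))))))))))))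 (merge (node 461 (merge (node 462 (merge (leaf 6 429 430) (node 463 (merge (leaf 1 460 464) (node 491 (merge (leaf 2 458 490) (leaf 2 459 494))))))) (merge (node 556 (merge (leaf 5 460 588) (node 429 (merge (leaf 5 428 524) (node 398 (merge (leaf 6 397 430) (node 397 (merge (leaf 6 365 366) (node 396 (merge (leaf 7 364 364) (leaf 7 396 428))))))))))) (node 494 (merge (node 495 (merge (leaf 0 492 527) (node 524 (merge (leaf 1 491 523) (node 556 (merge (leaf 5 428 429) (leaf 6 460 588))))))) (merge (node 556 (merge (leaf 5 460 588) (node 429 (merge (leaf 5 428 524) (node 396 (merge (leaf 7 396 428) (node 397 (merge (leaf 7 364 364) (node 366 (merge (leaf 6 365 398) (node 365 (merge (leaf 6 333 334) (leaf 4 365 462))))))))))))) (node 495 (merge (leaf 0 492 527) (node 463 (merge (leaf 2 460 464) (node 491 (merge (leaf 2 459 462) (node 522 (merge (leaf 1 490 523) (node 490 (merge (leaf 1 489 521) (node 458 (merge (leaf 3 457 457) (leaf 3 458 459))))))))))))))))))) (node 524 (merge (node 589 (merge (leaf 7 492 621) (node 588 (merge (leaf 5 492 620) (node 556 (merge (leaf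 6 460 461) (node 491 (merge (leaf 7 459 459) (node 490 (merge (leaf 0 489 489) (node 522 (merge (leaf 1 489 521) (node 523 (merge (leaf 1 490 494) (node 458 (merge (leaf 3 457 457) (node 426 (merge (leaf 4 394 394) (leaf 4 426 555))))))))))))))))))) (merge (node 621 (merge (leaf 7 492 589) (node 624 (merge (node 655 (merge (leaf 6 527 591) (leaf 5 527 592))) (merge (node 592 (merge (leaf 5 527 655) (node 527 (merge (leaf 7 495 495) (leaf 7 527 656))))) (merge (node 592 (merge (node 527 (merge (leaf 7 495 495) (leaf 7 527 656))) (merge (node 622 (merge (leaf 2 589 593) (node 657 (merge (leaf 4 528 625) (leaf 0 621 656))))) (node 622 (merge (leaf 2 589 593) (node 652 (merge (leaf 1 620 653) (node 620 (merge (leaf 2 588 591) (leaf 1 619 651)))))))))) (node 591 (merge (leaf 6 527 655) (node 656 (merge (leaf 4 527 527) (node 622 (merge (leaf 0 621 657) (node 652 (merge (leaf 1 620 653) (node 620 (merge (leaf 1 619 651) (node 588 (merge (leaf 6 492 556) (leaf 3 587 587))))))))))))))))))) (merge (node 491 (merge (node 490 (merge (leaf 0 489 489) (node 458 (merge (leaf 3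 457 457) (node 494 (merge (leaf 3 458 459) (node 495 (merge (leaf 1 491 523) (leaf 0 492 527))))))))) (merge (node 490 (merge (leaf 0 489 489) (node 522 (merge (leaf 1 489 521) (node 523 (merge (leaf 1 490 494) (node 554 (merge (leaf 1 521 553) (node 459 (merge (leaf 5 426 427) (leaf 6 458 586))))))))))) (merge (node 490 (merge (leaf 0 489 489) (node 522 (merge (leaf 1 489 521) (node 458 (merge (leaf 3 457 457) (node 459 (merge (leaf 3 458 494) (node 427 (merge (leaf 4 395 395) (leaf 6 426 554))))))))))) (merge (node 523 (merge (node 494 (merge (leaf 1 491 495) (leaf 2 490 522))) (merge (node 522 (merge (leaf 2 489 521) (node 554 (merge (leaf 1 521 553) (node 586 (merge (leaf 6 490 618) (node 459 (merge (leaf 5 426 427) (leaf 5 458 555))))))))) (node 494 (merge (leaf 1 491 495) (node 459 (merge (leaf 3 458 458) (node 427 (merge (leaf 4 395 395) (leaf 4 427 556)))))))))) (merge (node 459 (merge (node 556 (merge (leaf 7 459 588) (node 427 (merge (leaf 4 395 395) (leaf 4 427 523))))) (merge (node 490 (merge (leaf 0 489 489) (node 522 (merge (leaf 1 489 521) (node 554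 (merge (leaf 6 458 586) (node 427 (merge (leaf 4 395 395) (leaf 5 426 523))))))))) (merge (node 490 (merge (leaf 0 489 489) (node 522 (merge (leaf 1 489 521) (node 554 (merge (leaf 6 458 586) (node 556 (merge (leaf 7 459 588) (node 553 (merge (leaf 1 521 523) (leaf 2 521 555))))))))))) (node 490 (merge (leaf 0 489 489) (node 522 (merge (leaf 1 489 521) (node 554 (merge (leaf 6 458 586) (node 427 (merge (leaf 4 395 395) (leaf 6 426 458))))))))))))) (node 490 (merge (leaf 0 489 489) (node 522 (merge (leaf 1 489 521) (node 523 (merge (leaf 1 490 494) (node 458 (merge (leaf 3 457 457) (node 426 (merge (leaf 4 394 394) (leaf 4 426 555))))))))))))))))) (merge (node 624 (merge (node 655 (merge (leaf 6 527 591) (leaf 5 527 592))) (merge (node 592 (merge (leaf 5 527 655) (node 527 (merge (leaf 7 495 495) (leaf 7 527 656))))) (merge (node 592 (merge (node 527 (merge (leaf 7 495 495) (leaf 7 527 656))) (merge (node 621 (merge (leaf 7 492 589) (node 657 (merge (leaf 4 528 625) (node 656 (merge (leaf 0 621 622) (leaf 4 560 689))))))) (node 621 (merge (leaf 7 492 589) (node 622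 (merge (leaf 2 589 593) (node 652 (merge (leaf 1 620 653) (node 620 (merge (leaf 2 588 591) (leaf 1 619 651)))))))))))) (node 591 (merge (leaf 6 527 655) (node 621 (merge (leaf 7 492 589) (node 656 (merge (leaf 4 527 527) (node 622 (merge (leaf 0 621 657) (node 652 (merge (leaf 1 620 653) (node 620 (merge (leaf 1 619 651) (node 587 (merge (leaf 3 587 588) (node 619 (merge (leaf 3 586 586) (node 523 (merge (leaf 6 491 555) (node 522 (merge (leaf 2 490 494) (leaf 2 489 521))))))))))))))))))))))))) (node 621 (merge (leaf 7 492 589) (node 622 (merge (node 591 (merge (leaf 6 527 655) (node 592 (merge (leaf 2 588 620) (node 593 (merge (leaf 1 590 594) (leaf 2 589 624))))))) (merge (node 655 (merge (leaf 6 527 591) (node 624 (merge (leaf 5 527 592) (node 657 (merge (leaf 0 621 656) (node 625 (merge (leaf 0 622 658) (node 593 (merge (leaf 7 528 561) (leaf 2 590 594))))))))))) (merge (node 624 (merge (node 592 (merge (leaf 2 589 593) (leaf 5 527 655))) (merge (node 656 (merge (leaf 0 621 657) (node 620 (merge (leaf 0 620 655) (node 652 (merge (leaf 1 619 651) (leaf 1 620 653)))))))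 (node 657 (merge (leaf 0 621 656) (node 592 (merge (leaf 2 589 593) (leaf 4 528 625)))))))) (merge (node 624 (merge (node 656 (merge (leaf 0 621 657) (node 527 (merge (leaf 4 527 591) (leaf 7 527 592))))) (merge (node 652 (merge (leaf 1 620 653) (node 620 (merge (leaf 1 619 651) (node 592 (merge (leaf 2 588 591) (leaf 2 589 593))))))) (node 657 (merge (leaf 0 621 656) (node 625 (merge (leaf 0 622 658) (node 593 (merge (leaf 7 528 561) (leaf 2 590 594)))))))))) (node 655 (merge (leaf 6 527 591) (node 620 (merge (leaf 0 620 656) (node 651 (merge (leaf 1 619 652) (node 619 (merge (leaf 1 618 650) (node 587 (merge (leaf 3 586 586) (node 555 (merge (leaf 6 491 523) (leaf 6 523 556)))))))))))))))))))))))))))))) nP_135 cP_135 14 (by decide +kernel)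
def nP_136 : ℕ := 0x1a0000001200000002000000000000000000000000000000000000000000000000000000000000000000000000000000000000000000000000000000000000000000000000000
def cP_136 : ℕ := 0x7000000070000000ff000001ffc00001ffc00003fbc0000061e0000049f000004de000003ef000001fc0000007c00000070000000400000000000000000000000000000000000000000000000000000000000000000000000000000000000
theorem lP_136 : S nP_136 cP_136 15 := S_of_chk [(nP_135, cP_135, 14)] ⟨lP_135, trivial⟩ (node 623 (merge (node 527 (merge (node 495 (merge (node 463 (merge (leaf 4 431 431) (leaf 4 463 592))) (node 494 (merge (leaf 0 492 492) (node 591 (merge (leaf 7 462 462) (leaf 6 527 655))))))) (merge (node 620 (merge (node 588 (merge (leaf 5 492 589) (node 556 (merge (leaf 5 460 461) (leaf 6 492 524))))) (merge (node 591 (merge (leaf 6 527 655) (node 622 (merge (leaf 5 526 654) (node 621 (merge (leaf 2 588 592) (node 652 (merge (leaf 5 524 589) (leaf 1 619 651))))))))) (node 591 (merge (leaf 6 527 655) (node 622 (merge (leaf 5 526 654) (node 621 (merge (leaf 2 588 592) (node 652 (merge (leaf 1 619 651) (node 588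 (merge (leaf 6 524 556) (leaf 3 587 587)))))))))))))) (node 589 (merge (node 462 (merge (leaf 6 461 494) (node 461 (merge (leaf 6 429 430) (node 588 (merge (leaf 5 460 556) (leaf 5 492 620))))))) (merge (node 620 (merge (leaf 5 492 588) (node 621 (merge (leaf 5 524 652) (node 524 (merge (leaf 7 492 492) (node 653 (merge (leaf 7 524 556) (node 654 (merge (leaf 4 525 622) (leaf 4 557 686))))))))))) (merge (node 494 (merge (leaf 6 461 462) (node 492 (merge (leaf 0 492 495) (node 621 (merge (leaf 7 492 524) (node 654 (merge (leaf 4 525 622) (node 653 (merge (leaf 4 557 686) (node 652 (merge (leaf 5 524 620) (leaf 5 556 684))))))))))))) (node 462 (merge (leaf 6 461 494) (node 461 (merge (leaf 6 429 430) (node 556 (merge (leaf 5 460 588) (node 524 (merge (leaf 5 428 429) (node 621 (merge (leaf 7 492 492) (leaf 7 524 653)))))))))))))))))) (merge (node 527 (merge (node 624 (merge (node 591 (merge (leaf 6 527 655) (leaf 4 527 656))) (merge (node 592 (merge (leaf 5 527 655) (leaf 7 527 656))) (merge (node 656 (merge (leaf 4 527 591) (leaf 7 527 592))) (node 655 (merge (leaf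 6 527 591) (leaf 5 527 592))))))) (merge (node 495 (merge (node 463 (merge (leaf 4 431 431) (leaf 4 463 592))) (node 494 (merge (leaf 0 492 492) (node 462 (merge (leaf 6 461 589) (leaf 7 462 591))))))) (merge (node 592 (merge (node 624 (merge (leaf 5 527 655) (leaf 7 527 656))) (node 495 (merge (leaf 4 463 463) (node 494 (merge (leaf 0 492 492) (node 462 (merge (leaf 6 461 589) (node 430 (merge (leaf 4 398 398) (leaf 6 429 461))))))))))) (node 589 (merge (node 462 (merge (leaf 6 461 494) (node 461 (merge (leaf 6 429 430) (node 588 (merge (leaf 5 460 556) (leaf 5 492 620))))))) (merge (node 621 (merge (node 620 (merge (leaf 5 492 588) (leaf 5 524 652))) (merge (node 524 (merge (leaf 7 492 492) (node 556 (merge (leaf 7 524 653) (node 461 (merge (leaf 5 428 429) (leaf 5 460 588))))))) (node 524 (merge (leaf 7 492 492) (node 653 (merge (leaf 7 524 556) (node 652 (merge (leaf 5 524 620) (leaf 5 556 684)))))))))) (merge (node 462 (merge (leaf 6 461 494) (node 461 (merge (leaf 6 429 430) (node 556 (merge (leaf 5 460 588) (node 524 (merge (leaf 5 428 429) (node 621 (merge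 (leaf 7 492 492) (leaf 7 524 653))))))))))) (node 494 (merge (leaf 6 461 462) (node 492 (merge (leaf 0 492 495) (node 655 (merge (leaf 6 527 591) (node 621 (merge (leaf 7 492 524) (node 652 (merge (leaf 5 524 620) (node 653 (merge (leaf 5 556 684) (node 654 (merge (leaf 2 620 624) (leaf 4 557 686))))))))))))))))))))))) (merge (node 624 (merge (node 592 (merge (leaf 5 527 655) (node 527 (merge (leaf 7 495 495) (leaf 7 527 656))))) (merge (node 625 (merge (node 592 (merge (leaf 5 527 655) (leaf 4 528 657))) (merge (node 655 (merge (leaf 5 527 592) (node 654 (merge (leaf 1 622 626) (node 653 (merge (leaf 1 621 622) (leaf 2 620 652))))))) (node 622 (merge (node 658 (merge (leaf 0 622 657) (node 626 (merge (leaf 0 623 659) (node 594 (merge (leaf 2 590 593) (leaf 2 591 595))))))) (node 653 (merge (leaf 1 621 654) (node 621 (merge (leaf 1 620 652) (node 589 (merge (leaf 3 588 588) (node 524 (merge (leaf 7 492 492) (leaf 7 524 556)))))))))))))) (merge (node 622 (merge (node 621 (merge (node 589 (merge (leaf 3 588 588) (leaf 4 525 654))) (merge (node 652 (merge (leaf 1 620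 653) (node 620 (merge (leaf 5 524 589) (leaf 1 619 651))))) (node 652 (merge (leaf 1 620 653) (node 620 (merge (leaf 1 619 651) (node 588 (merge (leaf 6 524 556) (leaf 3 587 587)))))))))) (merge (node 657 (merge (node 621 (merge (leaf 0 621 656) (node 589 (merge (leaf 3 588 588) (leaf 4 525 654))))) (node 625 (merge (leaf 0 622 658) (node 593 (merge (leaf 7 528 561) (leaf 2 590 594))))))) (merge (node 621 (merge (node 652 (merge (leaf 1 620 653) (node 620 (merge (leaf 5 524 589) (leaf 1 619 651))))) (node 657 (merge (leaf 0 621 656) (node 625 (merge (leaf 0 622 658) (node 593 (merge (leaf 7 528 561) (leaf 2 590 594))))))))) (node 625 (merge (node 657 (merge (leaf 0 622 658) (node 593 (merge (leaf 7 528 561) (leaf 2 590 594))))) (merge (node 654 (merge (leaf 1 621 653) (node 626 (merge (leaf 1 622 655) (node 594 (merge (leaf 2 590 593) (leaf 2 591 595))))))) (node 658 (merge (leaf 0 622 657) (node 626 (merge (leaf 0 623 659) (node 654 (merge (leaf 1 621 653) (leaf 1 622 655)))))))))))))) (node 625 (merge (node 592 (merge (leaf 4 528 657) (node 527 (merge (leaf 7 495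 495) (leaf 7 527 656))))) (merge (node 588 (merge (node 556 (merge (leaf 5 460 461) (node 620 (merge (leaf 6 492 524) (leaf 6 524 652))))) (merge (node 589 (merge (leaf 5 492 620) (node 622 (merge (leaf 3 588 621) (node 657 (merge (leaf 0 622 658) (node 593 (merge (leaf 7 528 561) (leaf 2 590 594))))))))) (node 461 (merge (leaf 5 460 556) (node 462 (merge (leaf 6 429 430) (node 589 (merge (leaf 6 461 494) (node 622 (merge (leaf 3 588 621) (node 657 (merge (leaf 0 622 658) (node 593 (merge (leaf 7 528 561) (leaf 2 590 594)))))))))))))))) (node 592 (merge (node 527 (merge (leaf 7 495 495) (leaf 7 527 656))) (node 626 (merge (node 659 (merge (leaf 0 623 658) (node 627 (merge (leaf 0 624 660) (node 595 (merge (leaf 2 591 594) (leaf 2 592 596))))))) (merge (node 659 (merge (leaf 0 623 658) (node 627 (merge (leaf 0 624 660) (node 593 (merge (leaf 3 592 628) (node 622 (merge (leaf 2 590 594) (leaf 2 589 621))))))))) (merge (node 659 (merge (leaf 0 623 658) (node 627 (merge (leaf 0 624 660) (node 596 (merge (leaf 2 592 595) (node 628 (merge (leaf 3 592 593) (leaf 2 593 597)))))))))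 (node 594 (merge (leaf 2 591 595) (node 622 (merge (leaf 2 590 593) (node 654 (merge (leaf 1 621 653) (node 589 (merge (leaf 4 525 621) (node 462 (merge (leaf 6 461 494) (node 461 (merge (leaf 6 429 430) (node 588 (merge (leaf 5 460 556) (leaf 5 492 620)))))))))))))))))))))))))))) (merge (node 655 (merge (leaf 6 527 591) (node 624 (merge (leaf 5 527 592) (node 625 (merge (node 654 (merge (leaf 1 622 626) (node 653 (merge (leaf 1 621 622) (leaf 2 620 652))))) (merge (node 626 (merge (leaf 1 622 654) (node 627 (merge (leaf 1 623 656) (node 595 (merge (leaf 2 591 594) (leaf 2 592 596))))))) (merge (node 594 (merge (node 626 (merge (leaf 2 591 595) (node 659 (merge (leaf 0 623 658) (node 627 (merge (leaf 1 623 656) (leaf 0 624 660))))))) (merge (node 593 (merge (leaf 2 590 622) (node 561 (merge (leaf 7 528 657) (node 595 (merge (leaf 0 559 562) (leaf 1 592 596))))))) (node 593 (merge (leaf 2 590 622) (node 657 (merge (leaf 7 528 561) (node 562 (merge (leaf 6 561 689) (node 530 (merge (leaf 5 497 498) (leaf 5 529 626)))))))))))) (node 657 (merge (node 658 (merge (leaf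 0 622 622) (node 659 (merge (leaf 3 623 656) (leaf 3 624 660))))) (merge (node 622 (merge (leaf 0 622 658) (node 593 (merge (leaf 7 528 561) (leaf 2 590 594))))) (merge (node 593 (merge (leaf 7 528 561) (node 594 (merge (leaf 2 590 622) (node 689 (merge (leaf 6 561 562) (node 690 (merge (leaf 4 593 722) (node 654 (merge (leaf 0 654 656) (node 688 (merge (leaf 3 654 687) (leaf 5 592 720))))))))))))) (node 656 (merge (node 654 (merge (leaf 2 621 653) (node 686 (merge (leaf 1 653 685) (node 658 (merge (leaf 3 623 659) (leaf 1 654 687))))))) (merge (node 593 (merge (leaf 7 528 561) (node 720 (merge (leaf 6 592 688) (node 654 (merge (leaf 2 621 653) (node 689 (merge (leaf 0 654 690) (node 721 (merge (leaf 5 624 752) (leaf 7 624 753))))))))))) (node 593 (merge (leaf 7 528 561) (node 658 (merge (leaf 3 623 659) (node 690 (merge (leaf 0 655 691) (node 722 (merge (leaf 4 593 689) (leaf 7 625 754)))))))))))))))))))))))) (merge (node 527 (merge (node 495 (merge (node 463 (merge (leaf 4 431 431) (leaf 4 463 592))) (node 494 (merge (leaf 0 492 492) (node 462 (merge (leaf 6 461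 589) (leaf 7 462 591))))))) (merge (node 589 (merge (node 462 (merge (leaf 6 461 494) (node 461 (merge (leaf 6 429 430) (node 588 (merge (leaf 5 460 556) (leaf 5 492 620))))))) (merge (node 620 (merge (leaf 5 492 588) (node 621 (merge (leaf 5 524 652) (node 524 (merge (leaf 7 492 492) (node 653 (merge (leaf 7 524 556) (node 654 (merge (leaf 4 525 622) (leaf 4 557 686))))))))))) (merge (node 494 (merge (leaf 6 461 462) (node 492 (merge (leaf 0 492 495) (node 621 (merge (leaf 7 492 524) (node 654 (merge (leaf 4 525 622) (node 653 (merge (leaf 4 557 686) (node 652 (merge (leaf 5 524 620) (leaf 5 556 684))))))))))))) (node 462 (merge (leaf 6 461 494) (node 461 (merge (leaf 6 429 430) (node 556 (merge (leaf 5 460 588) (node 524 (merge (leaf 5 428 429) (node 621 (merge (leaf 7 492 492) (leaf 7 524 653))))))))))))))) (merge (node 624 (merge (node 592 (merge (leaf 7 495 495) (leaf 7 527 656))) (merge (node 622 (merge (node 592 (merge (leaf 7 495 495) (node 621 (merge (leaf 2 589 593) (node 591 (merge (leaf 2 588 620) (leaf 5 526 654))))))) (merge (node 654 (merge (leaf 5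 526 591) (node 653 (merge (leaf 1 621 625) (node 652 (merge (leaf 1 620 621) (leaf 2 619 651))))))) (merge (node 592 (merge (leaf 7 495 495) (node 593 (merge (leaf 2 589 621) (node 625 (merge (leaf 2 590 594) (leaf 4 528 657))))))) (node 592 (merge (leaf 7 495 495) (node 625 (merge (leaf 4 528 657) (node 594 (merge (leaf 2 590 593) (node 626 (merge (leaf 2 591 595) (node 591 (merge (leaf 3 591 627) (leaf 5 526 654))))))))))))))) (node 622 (merge (node 591 (merge (leaf 5 526 654) (leaf 4 527 656))) (merge (node 654 (merge (leaf 5 526 591) (node 653 (merge (leaf 1 621 625) (node 652 (merge (leaf 1 620 621) (leaf 2 619 651))))))) (node 657 (merge (node 625 (merge (leaf 0 622 658) (node 593 (merge (leaf 7 528 561) (leaf 2 590 594))))) (node 621 (merge (leaf 0 621 656) (node 652 (merge (leaf 1 620 653) (node 620 (merge (leaf 1 619 651) (node 588 (merge (leaf 3 587 587) (node 556 (merge (leaf 6 524 557) (node 524 (merge (leaf 6 492 493) (node 523 (merge (leaf 7 491 491) (leaf 7 523 555))))))))))))))))))))))) (node 624 (merge (node 656 (merge (leaf 4 527 591) (leaf 7 527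 592))) (merge (node 588 (merge (node 556 (merge (leaf 5 460 461) (node 620 (merge (leaf 6 492 524) (leaf 6 524 652))))) (merge (node 589 (merge (leaf 5 492 620) (node 622 (merge (leaf 3 588 621) (node 654 (merge (leaf 5 526 591) (node 625 (merge (leaf 1 621 653) (node 657 (merge (leaf 4 528 592) (leaf 0 622 658))))))))))) (node 461 (merge (leaf 5 460 556) (node 462 (merge (leaf 6 429 430) (node 589 (merge (leaf 6 461 494) (node 622 (merge (leaf 3 588 621) (node 654 (merge (leaf 5 526 591) (node 625 (merge (leaf 1 621 653) (node 657 (merge (leaf 4 528 592) (leaf 0 622 658)))))))))))))))))) (merge (node 622 (merge (node 591 (merge (leaf 5 526 654) (leaf 4 527 656))) (merge (node 654 (merge (leaf 5 526 591) (node 653 (merge (leaf 1 621 625) (node 652 (merge (leaf 1 620 621) (leaf 2 619 651))))))) (node 657 (merge (node 625 (merge (leaf 0 622 658) (node 593 (merge (leaf 7 528 561) (leaf 2 590 594))))) (node 621 (merge (leaf 0 621 656) (node 652 (merge (leaf 1 620 653) (node 620 (merge (leaf 1 619 651) (node 588 (merge (leaf 3 587 587) (node 556 (merge (leaf 6 524 557)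 (node 524 (merge (leaf 6 492 493) (node 523 (merge (leaf 7 491 491) (leaf 7 523 555)))))))))))))))))))) (node 625 (merge (node 592 (merge (leaf 7 527 656) (leaf 4 528 657))) (merge (node 588 (merge (node 556 (merge (leaf 5 460 461) (node 620 (merge (leaf 6 492 524) (leaf 6 524 652))))) (merge (node 589 (merge (leaf 5 492 620) (node 622 (merge (leaf 3 588 621) (node 657 (merge (leaf 0 622 658) (node 593 (merge (leaf 7 528 561) (leaf 2 590 594))))))))) (node 461 (merge (leaf 5 460 556) (node 462 (merge (leaf 6 429 430) (node 589 (merge (leaf 6 461 494) (node 622 (merge (leaf 3 588 621) (node 657 (merge (leaf 0 622 658) (node 593 (merge (leaf 7 528 561) (leaf 2 590 594)))))))))))))))) (node 592 (merge (leaf 7 527 656) (node 626 (merge (node 659 (merge (leaf 0 623 658) (node 627 (merge (leaf 0 624 660) (node 595 (merge (leaf 2 591 594) (leaf 2 592 596))))))) (merge (node 659 (merge (leaf 0 623 658) (node 627 (merge (leaf 0 624 660) (node 593 (merge (leaf 3 592 628) (node 622 (merge (leaf 2 590 594) (leaf 2 589 621))))))))) (merge (node 659 (merge (leaf 0 623 658) (node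 627 (merge (leaf 0 624 660) (node 596 (merge (leaf 2 592 595) (node 628 (merge (leaf 3 592 593) (leaf 2 593 597))))))))) (node 594 (merge (leaf 2 591 595) (node 622 (merge (leaf 2 590 593) (node 654 (merge (leaf 1 621 653) (node 589 (merge (leaf 4 525 621) (node 462 (merge (leaf 6 461 494) (node 461 (merge (leaf 6 429 430) (node 588 (merge (leaf 5 460 556) (leaf 5 492 620)))))))))))))))))))))))))))))))) (merge (node 527 (merge (node 624 (merge (node 591 (merge (leaf 6 527 655) (leaf 4 527 656))) (merge (node 592 (merge (leaf 5 527 655) (leaf 7 527 656))) (merge (node 656 (merge (leaf 4 527 591) (leaf 7 527 592))) (node 655 (merge (leaf 6 527 591) (leaf 5 527 592))))))) (merge (node 462 (merge (node 430 (merge (leaf 6 429 461) (node 494 (merge (leaf 5 397 398) (leaf 6 461 589))))) (merge (node 494 (merge (leaf 6 461 589) (node 495 (merge (leaf 7 462 591) (node 463 (merge (leaf 4 431 431) (leaf 4 463 592))))))) (node 461 (merge (leaf 6 429 430) (node 556 (merge (leaf 5 460 588) (node 429 (merge (leaf 5 428 524) (node 428 (merge (leaf 7 396 396) (node 463 (merge (leaf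 3 428 464) (node 495 (merge (leaf 4 431 431) (leaf 4 463 592)))))))))))))))) (merge (node 592 (merge (node 624 (merge (leaf 5 527 655) (leaf 7 527 656))) (node 495 (merge (leaf 4 463 463) (node 494 (merge (leaf 0 492 492) (node 462 (merge (leaf 6 461 589) (node 430 (merge (leaf 4 398 398) (leaf 6 429 461))))))))))) (node 461 (merge (node 430 (merge (leaf 6 429 462) (node 429 (merge (leaf 6 397 398) (node 556 (merge (leaf 5 428 524) (leaf 5 460 588))))))) (merge (node 591 (merge (leaf 6 527 655) (node 624 (merge (leaf 4 527 656) (node 588 (merge (leaf 5 460 556) (node 589 (merge (leaf 5 492 620) (node 622 (merge (leaf 3 588 621) (leaf 5 526 654))))))))))) (node 462 (merge (leaf 6 429 430) (node 494 (merge (leaf 6 461 589) (node 495 (merge (leaf 7 462 591) (node 463 (merge (leaf 4 431 431) (node 464 (merge (leaf 6 431 432) (leaf 1 461 465)))))))))))))))))) (merge (node 461 (merge (node 430 (merge (leaf 6 429 462) (node 429 (merge (leaf 6 397 398) (node 396 (merge (leaf 7 396 428) (node 397 (merge (leaf 7 364 364) (node 524 (merge (leaf 5 396 492) (leaf 5 428 556)))))))))))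 (merge (node 556 (merge (leaf 5 460 588) (node 429 (merge (leaf 5 428 524) (node 398 (merge (leaf 6 397 430) (node 397 (merge (leaf 6 365 366) (node 396 (merge (leaf 7 364 364) (leaf 7 396 428))))))))))) (merge (node 462 (merge (leaf 6 429 430) (node 589 (merge (leaf 6 461 494) (node 655 (merge (leaf 6 527 591) (node 620 (merge (leaf 5 492 588) (node 621 (merge (leaf 5 524 652) (node 622 (merge (leaf 4 525 654) (leaf 0 620 656))))))))))))) (node 591 (merge (leaf 6 527 655) (node 492 (merge (node 588 (merge (leaf 5 460 556) (node 589 (merge (leaf 5 492 620) (node 621 (merge (leaf 7 492 524) (node 622 (merge (leaf 3 588 624) (leaf 4 525 654))))))))) (merge (node 588 (merge (leaf 5 460 556) (node 589 (merge (leaf 5 492 620) (node 494 (merge (leaf 6 461 462) (node 527 (merge (leaf 0 492 495) (node 624 (merge (leaf 4 527 656) (node 622 (merge (leaf 3 588 621) (leaf 5 526 654))))))))))))) (merge (node 491 (merge (node 462 (merge (leaf 2 458 490) (node 463 (merge (leaf 1 460 464) (leaf 2 459 494))))) (merge (node 490 (merge (leaf 2 458 462) (node 489 (merge (leaf 0 489 524)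 (node 521 (merge (leaf 1 488 520) (leaf 1 489 522))))))) (merge (node 494 (merge (node 462 (merge (leaf 2 459 463) (leaf 6 461 589))) (node 495 (merge (leaf 0 492 527) (node 523 (merge (leaf 1 490 522) (leaf 1 491 524))))))) (node 490 (merge (node 489 (merge (leaf 0 489 524) (node 521 (merge (leaf 1 488 520) (leaf 1 489 522))))) (merge (node 489 (merge (leaf 0 489 524) (node 457 (merge (leaf 3 456 456) (leaf 3 457 458))))) (node 522 (merge (leaf 1 489 521) (node 494 (merge (leaf 1 490 523) (node 458 (merge (leaf 3 457 457) (leaf 3 458 459)))))))))))))) (node 494 (merge (node 495 (merge (leaf 0 492 527) (node 524 (merge (leaf 1 491 523) (node 429 (merge (leaf 5 396 397) (leaf 5 428 556))))))) (merge (node 556 (merge (leaf 5 460 588) (node 429 (merge (leaf 5 428 524) (node 396 (merge (leaf 7 396 428) (node 397 (merge (leaf 7 364 364) (node 366 (merge (leaf 6 365 398) (node 365 (merge (leaf 6 333 334) (leaf 4 365 462))))))))))))) (node 495 (merge (leaf 0 492 527) (node 463 (merge (leaf 2 460 464) (node 491 (merge (leaf 2 459 462) (node 522 (merge (leaf 1 490 523) (node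 490 (merge (leaf 1 489 521) (node 458 (merge (leaf 3 457 457) (leaf 3 458 459)))))))))))))))))))))))))) (hyp 0))))))))) nP_136 cP_136 15 (by decide +kernel)
def nP_137 : ℕ := 0x180000001200000000000000000000000000000000000000000000000000000000000000000000000000000000000000000000000000000000000000000000000000000000000
def cP_137 : ℕ := 0x7000000070000000ff000003ffc00001ffe00003fbf8000067f8000049fc00004ff800003ffc00001ff8000007e0000007e000000500000000000000000000000000000000000000000000000000000000000000000000000000000000000
theorem lP_137 : S nP_137 cP_137 17 := S_of_chk [(nP_133, cP_133, 11), (nP_134, cP_134, 13), (nP_136, cP_136, 15)] ⟨lP_133, lP_134, lP_136, trivial⟩ (node 557 (merge (node 558 (merge (leaf 3 524 524) (node 592 (merge (leaf 0 557 593) (node 556 (merge (leaf 2 524 527) (leaf 0 556 591))))))) (merge (node 558 (merge (leaf 3 524 524) (node 588 (merge (leaf 1 556 589) (node 556 (merge (leaf 2 524 527) (leaf 1 555 587))))))) (merge (node 558 (merge (leaf 3 524 524) (node 588 (merge (leaf 1 556 589) (node 556 (merge (leaf 1 555 587) (node 592 (merge (leaf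 0 556 591) (leaf 0 557 593))))))))) (merge (node 592 (merge (node 558 (merge (leaf 0 557 593) (node 588 (merge (leaf 1 556 589) (node 556 (merge (leaf 2 524 527) (leaf 1 555 587))))))) (merge (node 623 (merge (node 655 (merge (leaf 6 527 591) (leaf 5 527 624))) (merge (node 593 (merge (leaf 0 557 558) (node 591 (merge (leaf 6 527 655) (node 594 (merge (leaf 3 559 595) (leaf 1 590 622))))))) (merge (node 593 (merge (leaf 0 557 558) (node 594 (merge (leaf 3 559 595) (node 622 (merge (leaf 1 590 591) (node 624 (merge (leaf 2 589 621) (leaf 2 590 625))))))))) (node 593 (merge (leaf 0 557 558) (node 624 (merge (leaf 5 527 655) (node 622 (merge (leaf 2 589 621) (node 625 (merge (leaf 2 590 594) (leaf 4 528 657))))))))))))) (merge (node 624 (merge (node 527 (merge (leaf 7 495 495) (leaf 7 527 656))) (merge (node 657 (merge (leaf 4 528 625) (node 656 (merge (leaf 4 560 689) (node 655 (merge (leaf 5 527 623) (leaf 5 559 687))))))) (node 623 (merge (leaf 5 527 655) (node 622 (merge (node 527 (merge (leaf 7 495 495) (node 625 (merge (leaf 4 528 657) (node 654 (merge (leaf 5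 526 591) (leaf 1 621 653))))))) (merge (node 621 (merge (node 589 (merge (leaf 3 588 588) (leaf 4 525 654))) (merge (node 652 (merge (leaf 1 620 653) (node 620 (merge (leaf 5 524 589) (leaf 1 619 651))))) (node 652 (merge (leaf 1 620 653) (node 620 (merge (leaf 1 619 651) (node 588 (merge (leaf 6 524 556) (leaf 3 587 587)))))))))) (node 588 (merge (node 589 (merge (leaf 1 556 558) (leaf 3 588 621))) (merge (node 558 (merge (leaf 1 556 589) (node 556 (merge (leaf 2 524 527) (leaf 1 555 587))))) (merge (node 621 (merge (leaf 3 588 589) (node 620 (merge (leaf 3 587 587) (node 652 (merge (leaf 6 524 556) (leaf 1 619 651))))))) (node 527 (merge (leaf 7 495 495) (node 556 (merge (leaf 2 524 558) (node 620 (merge (leaf 6 524 652) (node 621 (merge (leaf 3 587 587) (leaf 2 588 591))))))))))))))))))))) (node 624 (merge (node 527 (merge (leaf 7 495 495) (leaf 7 527 656))) (node 625 (merge (leaf 4 528 657) (node 626 (merge (node 627 (merge (leaf 3 591 591) (node 660 (merge (leaf 0 624 659) (node 628 (merge (leaf 3 592 593) (leaf 0 625 661))))))) (merge (node 627 (merge (leaf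 3 591 591) (node 659 (merge (leaf 0 624 660) (node 623 (merge (leaf 0 623 658) (node 595 (merge (leaf 2 591 594) (leaf 2 592 596))))))))) (merge (node 627 (merge (node 596 (merge (leaf 2 592 595) (node 628 (merge (leaf 3 592 593) (leaf 2 593 597))))) (merge (node 660 (merge (leaf 0 624 659) (node 628 (merge (leaf 3 592 593) (leaf 0 625 661))))) (merge (node 660 (merge (leaf 0 624 659) (node 628 (merge (leaf 0 625 661) (node 596 (merge (leaf 2 592 595) (leaf 2 593 597))))))) (node 659 (merge (leaf 0 624 660) (node 595 (merge (leaf 2 592 596) (node 594 (merge (leaf 3 559 593) (node 562 (merge (leaf 4 530 530) (leaf 0 559 561))))))))))))) (node 623 (merge (leaf 5 527 655) (node 594 (merge (leaf 2 591 595) (node 622 (merge (leaf 2 590 593) (node 653 (merge (leaf 1 621 654) (node 621 (merge (leaf 1 620 652) (node 620 (merge (leaf 2 588 591) (node 588 (merge (leaf 3 587 587) (leaf 3 588 589))))))))))))))))))))))))))) (merge (node 592 (merge (node 558 (merge (leaf 3 524 524) (leaf 0 557 593))) (merge (node 589 (merge (node 558 (merge (leaf 3 524 524) (leaf 1 556 588))) (merge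 (node 524 (merge (leaf 3 524 558) (node 492 (merge (leaf 7 492 621) (node 460 (merge (leaf 4 428 428) (leaf 7 460 493))))))) (node 620 (merge (node 621 (merge (leaf 5 524 652) (node 622 (merge (leaf 4 525 654) (node 623 (merge (leaf 2 588 591) (node 655 (merge (leaf 5 527 624) (leaf 0 620 656))))))))) (node 493 (merge (leaf 5 492 588) (node 462 (merge (leaf 6 461 494) (node 461 (merge (leaf 6 429 430) (node 460 (merge (leaf 7 428 428) (leaf 7 460 492)))))))))))))) (node 624 (merge (node 527 (merge (leaf 7 495 495) (leaf 7 527 656))) (node 625 (merge (leaf 4 528 657) (node 626 (merge (node 627 (merge (leaf 3 591 591) (node 660 (merge (leaf 0 624 659) (node 628 (merge (leaf 3 592 593) (leaf 0 625 661))))))) (merge (node 627 (merge (leaf 3 591 591) (node 659 (merge (leaf 0 624 660) (node 623 (merge (leaf 0 623 658) (node 595 (merge (leaf 2 591 594) (leaf 2 592 596))))))))) (merge (node 627 (merge (node 596 (merge (leaf 2 592 595) (node 628 (merge (leaf 3 592 593) (leaf 2 593 597))))) (merge (node 660 (merge (leaf 0 624 659) (node 628 (merge (leaf 3 592 593) (leaf 0 625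 661))))) (merge (node 660 (merge (leaf 0 624 659) (node 628 (merge (leaf 0 625 661) (node 596 (merge (leaf 2 592 595) (leaf 2 593 597))))))) (node 659 (merge (leaf 0 624 660) (node 595 (merge (leaf 2 592 596) (node 594 (merge (leaf 3 559 593) (node 562 (merge (leaf 4 530 530) (leaf 0 559 561))))))))))))) (node 623 (merge (leaf 5 527 655) (node 594 (merge (leaf 2 591 595) (node 622 (merge (leaf 2 590 593) (node 653 (merge (leaf 1 621 654) (node 621 (merge (leaf 1 620 652) (node 620 (merge (leaf 2 588 591) (node 588 (merge (leaf 3 587 587) (leaf 3 588 589)))))))))))))))))))))))))) (node 493 (merge (node 461 (merge (node 428 (merge (leaf 7 428 460) (node 429 (merge (leaf 7 396 396) (node 556 (merge (leaf 5 428 524) (leaf 5 460 588))))))) (merge (node 462 (merge (leaf 6 429 430) (node 589 (merge (leaf 6 461 494) (node 588 (merge (leaf 5 460 556) (leaf 5 492 620))))))) (node 430 (merge (leaf 6 429 462) (node 429 (merge (leaf 6 397 398) (node 428 (merge (leaf 7 396 396) (leaf 7 428 460)))))))))) (merge (node 589 (merge (node 462 (merge (leaf 6 461 494) (node 461 (merge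 (leaf 6 429 430) (node 588 (merge (leaf 5 460 556) (leaf 5 492 620))))))) (merge (node 492 (merge (leaf 7 460 460) (node 621 (merge (leaf 7 492 524) (node 620 (merge (leaf 5 492 588) (leaf 5 524 652))))))) (node 494 (merge (leaf 6 461 462) (node 492 (merge (leaf 7 460 460) (node 495 (merge (leaf 0 492 527) (node 524 (merge (leaf 1 491 523) (leaf 7 492 621)))))))))))) (merge (node 461 (merge (node 460 (merge (leaf 7 428 428) (node 589 (merge (leaf 7 460 492) (node 588 (merge (leaf 5 460 556) (leaf 5 492 620))))))) (merge (node 430 (merge (leaf 6 429 462) (node 429 (merge (leaf 6 397 398) (node 428 (merge (leaf 7 396 396) (leaf 7 428 460))))))) (node 462 (merge (leaf 6 429 430) (node 589 (merge (leaf 6 461 494) (node 588 (merge (leaf 5 460 556) (leaf 5 492 620)))))))))) (merge (node 461 (merge (node 430 (merge (leaf 6 429 462) (node 429 (merge (leaf 6 397 398) (node 428 (merge (leaf 7 396 396) (leaf 7 428 460))))))) (merge (node 462 (merge (leaf 6 429 430) (node 589 (merge (leaf 6 461 494) (node 460 (merge (leaf 7 428 428) (leaf 7 460 492))))))) (merge (node 428 (merge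 (leaf 7 428 460) (node 429 (merge (leaf 7 396 396) (node 398 (merge (leaf 6 397 430) (node 397 (merge (leaf 6 365 366) (node 524 (merge (leaf 5 396 492) (leaf 5 428 556))))))))))) (merge (node 430 (merge (leaf 6 429 462) (node 429 (merge (leaf 6 397 398) (node 396 (merge (leaf 7 396 428) (node 397 (merge (leaf 7 364 364) (node 524 (merge (leaf 5 396 492) (leaf 5 428 556))))))))))) (merge (node 462 (merge (leaf 6 429 430) (node 589 (merge (leaf 6 461 494) (node 492 (merge (leaf 7 460 460) (node 524 (merge (leaf 7 492 621) (node 429 (merge (leaf 5 396 397) (leaf 5 428 556))))))))))) (node 428 (merge (leaf 7 428 460) (node 429 (merge (leaf 7 396 396) (node 524 (merge (leaf 5 428 556) (node 492 (merge (leaf 5 396 397) (node 589 (merge (leaf 7 492 621) (node 494 (merge (leaf 6 461 462) (node 495 (merge (leaf 1 491 523) (leaf 0 492 527))))))))))))))))))))) (merge (node 461 (merge (node 460 (merge (leaf 7 428 428) (node 589 (merge (leaf 7 460 492) (node 588 (merge (leaf 5 460 556) (leaf 5 492 620))))))) (merge (node 429 (merge (node 428 (merge (leaf 7 396 396) (leaf 7 428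 460))) (merge (node 398 (merge (leaf 6 397 430) (node 397 (merge (leaf 6 365 366) (node 492 (merge (leaf 5 396 524) (node 460 (merge (leaf 5 364 365) (leaf 7 460 589))))))))) (node 398 (merge (leaf 6 397 430) (node 397 (merge (leaf 6 365 366) (node 396 (merge (leaf 7 364 364) (leaf 7 396 428)))))))))) (merge (node 556 (merge (leaf 5 460 588) (node 429 (merge (leaf 5 428 524) (node 398 (merge (leaf 6 397 430) (node 397 (merge (leaf 6 365 366) (node 396 (merge (leaf 7 364 364) (leaf 7 396 428))))))))))) (node 589 (merge (node 588 (merge (leaf 5 460 556) (leaf 5 492 620))) (merge (node 492 (merge (leaf 7 460 460) (node 621 (merge (leaf 7 492 524) (node 654 (merge (leaf 4 525 622) (node 653 (merge (leaf 4 557 686) (node 652 (merge (leaf 5 524 620) (leaf 5 556 684))))))))))) (node 556 (merge (leaf 5 460 588) (node 524 (merge (leaf 5 428 429) (node 621 (merge (leaf 7 492 492) (leaf 7 524 653)))))))))))))) (merge (node 492 (merge (node 589 (merge (leaf 7 460 460) (node 621 (merge (leaf 7 492 524) (node 620 (merge (leaf 5 492 588) (leaf 5 524 652))))))) (merge (node 494 (merge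 (node 462 (merge (leaf 6 461 589) (node 430 (merge (leaf 5 397 398) (leaf 6 429 461))))) (node 491 (merge (node 495 (merge (leaf 0 492 527) (node 523 (merge (leaf 1 490 522) (leaf 1 491 524))))) (merge (node 522 (merge (leaf 1 490 523) (node 490 (merge (leaf 1 489 521) (node 458 (merge (leaf 3 457 457) (leaf 3 458 459))))))) (merge (node 495 (merge (leaf 0 492 527) (node 524 (merge (leaf 1 491 523) (node 490 (merge (leaf 0 489 489) (node 458 (merge (leaf 3 457 457) (leaf 3 458 459))))))))) (node 458 (merge (leaf 3 458 459) (node 490 (merge (leaf 3 457 457) (node 489 (merge (leaf 0 489 524) (node 521 (merge (leaf 1 488 520) (leaf 1 489 522))))))))))))))) (node 494 (merge (node 495 (merge (leaf 0 492 527) (node 460 (merge (leaf 3 459 459) (node 428 (merge (leaf 4 396 396) (leaf 7 428 461))))))) (merge (node 462 (merge (node 430 (merge (leaf 5 397 398) (leaf 6 429 461))) (node 463 (merge (leaf 2 459 491) (node 464 (merge (leaf 1 461 465) (leaf 2 460 495))))))) (merge (node 495 (merge (leaf 0 492 527) (node 463 (merge (leaf 2 460 464) (node 491 (merge (leaf 2 459 462)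 (node 459 (merge (leaf 3 458 458) (leaf 3 459 460))))))))) (node 462 (merge (node 430 (merge (leaf 5 397 398) (leaf 6 429 461))) (node 491 (merge (leaf 2 459 463) (node 522 (merge (leaf 1 490 523) (node 490 (merge (leaf 1 489 521) (node 458 (merge (leaf 3 457 457) (leaf 3 458 459)))))))))))))))))) (merge (node 492 (merge (node 589 (merge (leaf 7 460 460) (node 621 (merge (leaf 7 492 524) (node 620 (merge (leaf 5 492 588) (leaf 5 524 652))))))) (merge (node 494 (merge (node 589 (merge (leaf 7 460 460) (leaf 6 461 462))) (merge (node 495 (merge (leaf 0 492 527) (node 460 (merge (leaf 3 459 459) (leaf 7 460 589))))) (merge (node 495 (merge (leaf 0 492 527) (node 462 (merge (leaf 6 461 589) (node 463 (merge (leaf 2 460 464) (leaf 2 459 491))))))) (node 495 (merge (leaf 0 492 527) (node 463 (merge (leaf 2 460 464) (node 491 (merge (leaf 2 459 462) (node 459 (merge (leaf 3 458 458) (leaf 3 459 460))))))))))))) (merge (node 494 (merge (node 495 (merge (leaf 0 492 527) (node 462 (merge (leaf 6 461 589) (node 463 (merge (leaf 2 460 464) (leaf 2 459 491))))))) (merge (node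 589 (merge (leaf 6 461 462) (node 620 (merge (leaf 5 492 588) (node 621 (merge (leaf 5 524 652) (node 524 (merge (leaf 7 492 492) (node 653 (merge (leaf 7 524 556) (node 654 (merge (leaf 4 525 622) (leaf 4 557 686))))))))))))) (node 491 (merge (node 495 (merge (leaf 0 492 527) (node 523 (merge (leaf 1 490 522) (leaf 1 491 524))))) (merge (node 522 (merge (leaf 1 490 523) (node 490 (merge (leaf 1 489 521) (node 458 (merge (leaf 3 457 457) (leaf 3 458 459))))))) (merge (node 495 (merge (leaf 0 492 527) (node 524 (merge (leaf 1 491 523) (node 490 (merge (leaf 0 489 489) (node 458 (merge (leaf 3 457 457) (leaf 3 458 459))))))))) (node 458 (merge (leaf 3 458 459) (node 490 (merge (leaf 3 457 457) (node 489 (merge (leaf 0 489 524) (node 521 (merge (leaf 1 488 520) (leaf 1 489 522)))))))))))))))) (hyp 0))))) (merge (hyp 1) (hyp 2)))))))))))))))) nP_137 cP_137 17 (by decide +kernel)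
def nP_138 : ℕ := 0x180000001000000000000000000000000000000000000000000000000000000000000000000000000000000000000000000000000000000000000000000000000000000000000
def cP_138 : ℕ := 0x7000000070000000ff000003ffc00003ffe00003fbf80001e7fc0001cffc0000effc0000fffc0000bff8000007e0000007e000000500000000000000000000000000000000000000000000000000000000000000000000000000000000000
theorem lP_138 : S nP_138 cP_138 18 := S_of_chk [(nP_130, cP_130, 12), (nP_131, cP_131, 11), (nP_132, cP_132, 12), (nP_137, cP_137, 17)] ⟨lP_130, lP_131, lP_132, lP_137, trivial⟩ (node 525 (merge (node 526 (merge (node 527 (merge (leaf 0 524 524) (leaf 0 525 561))) (merge (node 561 (merge (leaf 0 525 527) (leaf 3 525 558))) (merge (node 558 (merge (leaf 3 525 561) (node 524 (merge (leaf 0 523 523) (leaf 3 524 557))))) (node 524 (merge (leaf 0 524 527) (node 558 (merge (leaf 0 523 523) (leaf 3 524 557))))))))) (merge (node 561 (merge (node 526 (merge (leaf 0 525 527) (leaf 3 525 558))) (merge (node 562 (merge (node 558 (merge (leaf 3 525 526) (node 594 (merge (leaf 0 558 593) (leaf 0 559 595))))) (merge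 (node 595 (merge (leaf 0 559 594) (node 563 (merge (leaf 0 560 596) (node 531 (merge (leaf 2 527 530) (leaf 2 528 532))))))) (merge (node 531 (merge (leaf 2 527 530) (node 563 (merge (leaf 2 528 532) (node 592 (merge (leaf 1 559 591) (node 593 (merge (leaf 1 560 564) (node 558 (merge (leaf 3 525 526) (leaf 0 558 594))))))))))) (node 531 (merge (leaf 2 527 530) (node 563 (merge (leaf 2 528 532) (node 596 (merge (leaf 0 560 595) (node 564 (merge (leaf 0 561 597) (node 592 (merge (leaf 1 559 591) (leaf 1 560 593))))))))))))))) (node 562 (merge (node 563 (merge (leaf 3 527 527) (node 595 (merge (leaf 0 559 594) (leaf 0 560 596))))) (merge (node 563 (merge (leaf 3 527 527) (node 531 (merge (leaf 2 527 530) (leaf 2 528 532))))) (node 594 (merge (leaf 0 559 595) (node 530 (merge (leaf 2 527 531) (node 626 (merge (node 659 (merge (leaf 4 530 627) (node 658 (merge (leaf 4 562 691) (node 657 (merge (leaf 5 529 625) (leaf 5 561 689))))))) (merge (node 625 (merge (leaf 5 529 657) (node 498 (merge (leaf 5 497 593) (node 467 (merge (leaf 6 466 499) (node 466 (merge (leaf 6 434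 435) (node 465 (merge (leaf 7 433 433) (leaf 7 465 497))))))))))) (merge (node 659 (merge (leaf 4 530 627) (node 658 (merge (leaf 4 562 691) (node 593 (merge (leaf 7 561 690) (node 498 (merge (leaf 5 465 466) (leaf 5 497 625))))))))) (node 659 (merge (leaf 4 530 627) (node 658 (merge (leaf 4 562 691) (node 690 (merge (leaf 7 561 593) (node 689 (merge (leaf 5 561 657) (leaf 5 593 721))))))))))))))))))))))) (merge (hyp 0) (merge (node 557 (merge (node 558 (merge (leaf 3 524 524) (node 561 (merge (leaf 3 525 526) (node 593 (merge (leaf 0 557 592) (leaf 0 558 594))))))) (merge (node 558 (merge (leaf 3 524 524) (node 588 (merge (leaf 1 556 589) (node 556 (merge (leaf 1 555 587) (node 592 (merge (leaf 0 556 591) (leaf 0 557 593))))))))) (merge (node 558 (merge (node 561 (merge (leaf 3 525 526) (node 593 (merge (leaf 0 557 592) (leaf 0 558 594))))) (merge (node 588 (merge (leaf 1 556 589) (node 556 (merge (leaf 1 555 587) (node 592 (merge (leaf 0 556 591) (leaf 0 557 593))))))) (node 589 (merge (leaf 1 556 588) (node 526 (merge (leaf 3 525 561) (node 494 (merge (leaf 5 461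 462) (leaf 6 493 621)))))))))) (hyp 1))))) (merge (node 524 (merge (node 526 (merge (leaf 0 524 527) (node 523 (merge (leaf 0 523 558) (node 554 (merge (leaf 1 522 555) (node 522 (merge (leaf 1 521 553) (node 490 (merge (leaf 3 489 489) (leaf 3 490 491))))))))))) (merge (node 557 (merge (leaf 3 524 558) (node 493 (merge (node 461 (merge (node 428 (merge (leaf 7 428 460) (node 429 (merge (leaf 7 396 396) (node 556 (merge (leaf 5 428 524) (leaf 5 460 588))))))) (merge (node 462 (merge (leaf 6 429 430) (node 589 (merge (leaf 6 461 494) (node 588 (merge (leaf 5 460 556) (leaf 5 492 620))))))) (node 430 (merge (leaf 6 429 462) (node 429 (merge (leaf 6 397 398) (node 428 (merge (leaf 7 396 396) (leaf 7 428 460)))))))))) (merge (node 461 (merge (node 556 (merge (leaf 5 428 429) (leaf 5 460 588))) (merge (node 462 (merge (leaf 6 429 430) (node 589 (merge (leaf 6 461 494) (node 621 (merge (leaf 7 492 492) (node 620 (merge (leaf 5 492 588) (leaf 5 524 652))))))))) (node 429 (merge (leaf 5 428 556) (node 398 (merge (leaf 6 397 430) (node 397 (merge (leaf 6 365 366) (leaf 5 396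 492)))))))))) (merge (node 589 (merge (node 492 (merge (leaf 7 492 621) (node 460 (merge (leaf 4 428 428) (leaf 7 460 493))))) (merge (node 494 (merge (leaf 6 461 462) (node 492 (merge (leaf 7 460 460) (node 523 (merge (leaf 1 491 495) (leaf 2 490 522))))))) (node 620 (merge (leaf 5 492 588) (node 621 (merge (leaf 5 524 652) (node 653 (merge (leaf 7 524 556) (node 654 (merge (leaf 4 525 622) (leaf 4 557 686)))))))))))) (merge (node 492 (merge (node 589 (merge (leaf 7 492 621) (node 460 (merge (leaf 7 460 493) (leaf 4 460 556))))) (merge (node 589 (merge (leaf 7 492 621) (node 494 (merge (leaf 6 461 462) (node 523 (merge (leaf 1 491 495) (leaf 2 490 522))))))) (node 461 (merge (node 462 (merge (leaf 6 429 430) (node 460 (merge (leaf 7 428 428) (node 491 (merge (leaf 1 459 463) (leaf 2 458 490))))))) (merge (node 428 (merge (leaf 7 428 460) (node 429 (merge (leaf 7 396 396) (node 524 (merge (leaf 5 396 397) (leaf 5 428 556))))))) (node 430 (merge (leaf 6 429 462) (node 429 (merge (leaf 6 397 398) (node 524 (merge (leaf 5 396 397) (leaf 5 428 556))))))))))))) (merge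 (node 462 (merge (node 430 (merge (leaf 6 429 461) (node 494 (merge (leaf 5 397 398) (leaf 6 461 589))))) (merge (node 589 (merge (leaf 6 461 494) (node 492 (merge (leaf 7 460 460) (node 621 (merge (leaf 7 492 524) (node 620 (merge (leaf 5 492 588) (leaf 5 524 652))))))))) (merge (node 461 (merge (leaf 6 429 430) (node 460 (merge (leaf 7 428 428) (node 492 (merge (leaf 7 460 589) (node 463 (merge (leaf 1 460 464) (leaf 1 459 491))))))))) (node 461 (merge (leaf 6 429 430) (node 428 (merge (leaf 7 428 460) (node 429 (merge (leaf 7 396 396) (node 397 (merge (leaf 5 396 492) (node 366 (merge (leaf 6 365 398) (node 365 (merge (leaf 6 333 334) (leaf 4 365 494))))))))))))))))) (merge (node 461 (merge (node 460 (merge (leaf 7 428 428) (node 589 (merge (leaf 7 460 492) (node 588 (merge (leaf 5 460 556) (leaf 5 492 620))))))) (merge (node 429 (merge (node 428 (merge (leaf 7 396 396) (leaf 7 428 460))) (merge (node 398 (merge (leaf 6 397 430) (node 397 (merge (leaf 6 365 366) (node 492 (merge (leaf 5 396 524) (node 460 (merge (leaf 5 364 365) (leaf 7 460 589))))))))) (node 398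 (merge (leaf 6 397 430) (node 397 (merge (leaf 6 365 366) (node 396 (merge (leaf 7 364 364) (leaf 7 396 428)))))))))) (merge (node 556 (merge (leaf 5 460 588) (node 429 (merge (leaf 5 428 524) (node 398 (merge (leaf 6 397 430) (node 397 (merge (leaf 6 365 366) (node 396 (merge (leaf 7 364 364) (leaf 7 396 428))))))))))) (node 589 (merge (node 588 (merge (leaf 5 460 556) (leaf 5 492 620))) (merge (node 492 (merge (leaf 7 460 460) (node 621 (merge (leaf 7 492 524) (node 654 (merge (leaf 4 525 622) (node 653 (merge (leaf 4 557 686) (node 652 (merge (leaf 5 524 620) (leaf 5 556 684))))))))))) (node 556 (merge (leaf 5 460 588) (node 524 (merge (leaf 5 428 429) (node 621 (merge (leaf 7 492 492) (leaf 7 524 653)))))))))))))) (node 492 (merge (node 461 (merge (node 556 (merge (leaf 5 428 429) (leaf 5 460 588))) (node 462 (merge (leaf 6 429 430) (node 463 (merge (leaf 1 460 464) (node 491 (merge (leaf 2 458 490) (leaf 2 459 494))))))))) (merge (node 556 (merge (node 588 (merge (leaf 6 460 461) (leaf 6 492 620))) (merge (node 588 (merge (leaf 6 492 620) (node 460 (merge (leaf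 4 428 428) (node 587 (merge (leaf 5 459 555) (leaf 5 491 619))))))) (node 460 (merge (leaf 4 428 428) (node 461 (merge (leaf 6 428 429) (node 459 (merge (leaf 7 427 427) (node 458 (merge (leaf 0 457 457) (leaf 0 458 494)))))))))))) (merge (node 461 (merge (node 428 (merge (leaf 7 428 460) (node 429 (merge (leaf 7 396 396) (leaf 5 396 397))))) (node 462 (merge (leaf 6 429 430) (node 463 (merge (leaf 1 460 464) (node 491 (merge (leaf 2 458 490) (leaf 2 459 494))))))))) (merge (node 461 (merge (node 462 (merge (leaf 6 429 430) (node 460 (merge (leaf 7 428 428) (node 491 (merge (leaf 1 459 463) (leaf 2 458 490))))))) (merge (node 428 (merge (leaf 7 428 460) (node 429 (merge (leaf 7 396 396) (node 524 (merge (leaf 5 396 397) (leaf 5 428 556))))))) (node 430 (merge (leaf 6 429 462) (node 429 (merge (leaf 6 397 398) (node 524 (merge (leaf 5 396 397) (leaf 5 428 556)))))))))) (node 556 (merge (node 588 (merge (leaf 6 492 620) (node 459 (merge (leaf 7 459 491) (node 460 (merge (leaf 7 427 427) (leaf 4 428 428))))))) (merge (node 588 (merge (leaf 6 492 620) (node 460 (merge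 (leaf 4 428 428) (node 587 (merge (leaf 5 459 555) (leaf 5 491 619))))))) (merge (node 460 (merge (leaf 4 428 428) (node 459 (merge (leaf 7 427 427) (node 458 (merge (leaf 0 457 457) (node 494 (merge (leaf 3 458 491) (leaf 3 459 495))))))))) (node 588 (merge (leaf 6 492 620) (node 491 (merge (leaf 7 459 459) (node 490 (merge (leaf 0 489 489) (node 522 (merge (leaf 1 489 521) (node 523 (merge (leaf 1 490 494) (node 458 (merge (leaf 3 457 457) (node 587 (merge (leaf 7 458 555) (leaf 5 491 619))))))))))))))))))))))))))))))))) (merge (node 557 (merge (leaf 3 524 558) (node 527 (merge (leaf 0 524 526) (node 495 (merge (node 592 (merge (leaf 4 463 463) (leaf 7 495 624))) (node 493 (merge (node 492 (merge (leaf 0 492 494) (node 460 (merge (leaf 7 460 589) (node 428 (merge (leaf 4 396 396) (leaf 4 428 524))))))) (merge (node 494 (merge (leaf 0 492 492) (node 462 (merge (leaf 7 462 591) (node 430 (merge (leaf 4 398 398) (leaf 6 429 461))))))) (merge (node 461 (merge (node 460 (merge (leaf 7 428 428) (node 589 (merge (leaf 7 460 492) (node 588 (merge (leaf 5 460 556) (leaf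 5 492 620))))))) (merge (node 430 (merge (leaf 6 429 462) (node 429 (merge (leaf 6 397 398) (node 556 (merge (leaf 5 428 524) (leaf 5 460 588))))))) (node 430 (merge (leaf 6 429 462) (node 429 (merge (leaf 6 397 398) (node 428 (merge (leaf 7 396 396) (leaf 7 428 460)))))))))) (node 461 (merge (node 428 (merge (leaf 7 428 460) (node 429 (merge (leaf 7 396 396) (node 556 (merge (leaf 5 428 524) (leaf 5 460 588))))))) (merge (node 462 (merge (leaf 6 429 430) (node 589 (merge (leaf 6 461 494) (node 588 (merge (leaf 5 460 556) (leaf 5 492 620))))))) (node 430 (merge (leaf 6 429 462) (node 429 (merge (leaf 6 397 398) (node 428 (merge (leaf 7 396 396) (leaf 7 428 460)))))))))))))))))))) (hyp 2))))) (hyp 3))))))) nP_138 cP_138 18 (by decide +kernel)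
def nP_139 : ℕ := 0x10000000000000001a0000001000000000000000000000000000000000000000000000000000000000000000000000000000000000000000000000000000000000000000000000000000000000000
def cP_139 : ℕ := 0xc0000000f000001ff800000ef800000efc00000040000000f0000000f0000001f0000001f00000005000000000000000000000000000000000000000000000000000000000000000000000000000000000000000000000000000
theorem lP_139 : S nP_139 cP_139 11 := S_of_chk [] trivial (node 623 (merge (node 591 (merge (leaf 6 527 655) (node 527 (merge (leaf 4 527 656) (node 494 (merge (leaf 7 494 526) (node 495 (merge (leaf 7 462 462) (node 622 (merge (leaf 5 494 590) (leaf 5 526 654))))))))))) (merge (node 622 (merge (node 591 (merge (leaf 6 527 655) (node 527 (merge (leaf 5 526 654) (leaf 4 527 656))))) (merge (node 621 (merge (node 657 (merge (leaf 0 621 656) (node 625 (merge (leaf 0 622 658) (node 653 (merge (leaf 1 620 652) (leaf 1 621 654))))))) (merge (node 589 (merge (leaf 3 588 588) (node 525 (merge (leaf 4 525 654) (node 524 (merge (leaf 7 492 492) (leaf 3 524 558))))))) (node 652 (merge (leaf 1 620 653)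 (node 620 (merge (leaf 1 619 651) (node 588 (merge (leaf 3 587 587) (leaf 3 588 589)))))))))) (merge (node 591 (merge (leaf 6 527 655) (node 654 (merge (leaf 5 526 527) (node 653 (merge (leaf 1 621 625) (node 652 (merge (leaf 1 620 621) (leaf 2 619 651))))))))) (node 591 (merge (leaf 6 527 655) (node 656 (merge (leaf 4 527 527) (node 657 (merge (leaf 0 621 621) (node 658 (merge (leaf 0 622 625) (leaf 3 623 659))))))))))))) (merge (node 622 (merge (node 625 (merge (node 658 (merge (leaf 0 622 657) (node 626 (merge (leaf 0 623 659) (node 594 (merge (leaf 2 590 593) (leaf 2 591 595))))))) (merge (node 657 (merge (leaf 0 622 658) (node 621 (merge (leaf 0 621 656) (node 589 (merge (leaf 3 588 588) (leaf 3 589 590))))))) (node 594 (merge (leaf 2 590 593) (node 626 (merge (leaf 2 591 595) (node 590 (merge (leaf 3 589 589) (leaf 3 590 591)))))))))) (merge (node 625 (merge (node 658 (merge (leaf 0 622 657) (node 626 (merge (leaf 0 623 659) (node 594 (merge (leaf 2 590 593) (leaf 2 591 595))))))) (merge (node 657 (merge (leaf 0 622 658) (node 621 (merge (leaf 0 621 656) (node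 653 (merge (leaf 1 620 652) (leaf 1 621 654))))))) (node 654 (merge (leaf 1 621 653) (node 594 (merge (leaf 2 590 593) (node 626 (merge (leaf 2 591 595) (node 591 (merge (leaf 5 526 527) (leaf 3 590 590)))))))))))) (merge (node 625 (merge (node 654 (merge (leaf 1 621 653) (node 590 (merge (leaf 3 589 589) (node 527 (merge (leaf 6 526 558) (leaf 5 526 591))))))) (node 658 (merge (leaf 0 622 657) (node 626 (merge (leaf 0 623 659) (node 594 (merge (leaf 2 590 593) (leaf 2 591 595))))))))) (merge (node 625 (merge (node 594 (merge (leaf 2 590 593) (node 626 (merge (leaf 2 591 595) (node 590 (merge (leaf 3 589 589) (leaf 3 590 591))))))) (merge (node 654 (merge (leaf 1 621 653) (node 594 (merge (leaf 2 590 593) (node 626 (merge (leaf 2 591 595) (node 591 (merge (leaf 5 526 527) (leaf 3 590 590))))))))) (node 653 (merge (leaf 1 621 654) (node 621 (merge (leaf 1 620 652) (node 589 (merge (leaf 3 588 588) (node 526 (merge (leaf 6 525 558) (node 525 (merge (leaf 6 493 494) (node 524 (merge (leaf 7 492 492) (leaf 0 524 527)))))))))))))))) (merge (node 621 (merge (node 657 (merge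 (leaf 0 621 656) (node 625 (merge (leaf 0 622 658) (node 653 (merge (leaf 1 620 652) (leaf 1 621 654))))))) (merge (node 589 (merge (leaf 3 588 588) (node 525 (merge (leaf 4 525 654) (node 524 (merge (leaf 7 492 492) (leaf 3 524 558))))))) (node 652 (merge (leaf 1 620 653) (node 620 (merge (leaf 1 619 651) (node 588 (merge (leaf 3 587 587) (leaf 3 588 589)))))))))) (node 621 (merge (node 589 (merge (leaf 3 588 588) (node 525 (merge (leaf 4 525 654) (node 524 (merge (leaf 7 492 492) (leaf 3 524 558))))))) (merge (node 656 (merge (leaf 0 621 657) (node 652 (merge (leaf 1 620 653) (node 620 (merge (leaf 1 619 651) (node 591 (merge (leaf 4 527 527) (node 590 (merge (leaf 2 587 619) (node 525 (merge (leaf 5 524 589) (node 558 (merge (leaf 3 524 524) (leaf 7 525 654))))))))))))))) (node 656 (merge (leaf 0 621 657) (node 652 (merge (leaf 1 620 653) (node 620 (merge (leaf 1 619 651) (node 587 (merge (leaf 3 587 588) (node 619 (merge (leaf 3 586 586) (node 591 (merge (leaf 4 527 527) (leaf 2 587 590)))))))))))))))))))))) (merge (node 622 (merge (node 625 (merge (node 658 (merge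 (leaf 0 622 657) (node 626 (merge (leaf 0 623 659) (node 594 (merge (leaf 2 590 593) (leaf 2 591 595))))))) (merge (node 657 (merge (leaf 0 622 658) (node 621 (merge (leaf 0 621 656) (node 589 (merge (leaf 3 588 588) (leaf 3 589 590))))))) (node 594 (merge (leaf 2 590 593) (node 626 (merge (leaf 2 591 595) (node 590 (merge (leaf 3 589 589) (leaf 3 590 591)))))))))) (merge (node 625 (merge (node 658 (merge (leaf 0 622 657) (node 626 (merge (leaf 0 623 659) (node 594 (merge (leaf 2 590 593) (leaf 2 591 595))))))) (merge (node 657 (merge (leaf 0 622 658) (node 621 (merge (leaf 0 621 656) (node 653 (merge (leaf 1 620 652) (leaf 1 621 654))))))) (node 654 (merge (leaf 1 621 653) (node 626 (merge (leaf 1 622 655) (node 594 (merge (leaf 2 590 593) (leaf 2 591 595)))))))))) (merge (node 653 (merge (node 652 (merge (leaf 1 620 621) (node 654 (merge (leaf 2 619 651) (leaf 2 620 655))))) (merge (node 591 (merge (leaf 6 527 655) (node 625 (merge (leaf 1 621 654) (node 590 (merge (leaf 3 589 589) (leaf 3 590 626))))))) (node 621 (merge (leaf 1 620 652) (node 589 (merge (leaf 3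 588 588) (node 590 (merge (leaf 3 589 625) (node 558 (merge (leaf 5 525 526) (leaf 6 557 685)))))))))))) (merge (node 621 (merge (node 589 (merge (leaf 3 588 588) (node 525 (merge (leaf 4 525 654) (node 524 (merge (leaf 7 492 492) (leaf 3 524 558))))))) (node 656 (merge (leaf 0 621 657) (node 620 (merge (leaf 0 620 655) (node 652 (merge (leaf 1 619 651) (leaf 1 620 653))))))))) (node 590 (merge (node 655 (merge (leaf 6 527 591) (node 558 (merge (leaf 4 526 526) (node 687 (merge (leaf 4 558 654) (leaf 7 590 719))))))) (node 625 (merge (leaf 3 589 589) (node 658 (merge (leaf 0 622 657) (node 626 (merge (leaf 0 623 659) (node 594 (merge (leaf 2 590 593) (leaf 2 591 595)))))))))))))))) (merge (node 591 (merge (leaf 6 527 655) (node 622 (merge (node 654 (merge (leaf 5 526 527) (node 686 (merge (leaf 6 558 590) (leaf 6 590 718))))) (merge (node 654 (merge (leaf 5 526 527) (node 653 (merge (leaf 1 621 625) (node 652 (merge (leaf 1 620 621) (leaf 2 619 651))))))) (merge (node 590 (merge (node 589 (merge (leaf 3 589 625) (node 588 (merge (leaf 0 587 587) (leaf 3 588 621)))))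 (node 527 (merge (leaf 5 494 495) (node 526 (merge (leaf 7 494 494) (node 525 (merge (leaf 0 524 524) (node 493 (merge (leaf 3 492 492) (leaf 7 493 558))))))))))) (node 589 (merge (node 588 (merge (leaf 3 588 621) (node 590 (merge (leaf 0 587 587) (leaf 0 588 591))))) (merge (node 625 (merge (leaf 3 589 590) (node 658 (merge (leaf 0 622 657) (node 626 (merge (leaf 0 623 659) (node 594 (merge (leaf 2 590 593) (leaf 2 591 595))))))))) (node 621 (merge (leaf 3 588 588) (node 653 (merge (leaf 1 620 652) (node 654 (merge (leaf 1 621 625) (node 557 (merge (leaf 4 525 525) (leaf 4 557 686)))))))))))))))))) (merge (node 622 (merge (node 621 (merge (node 652 (merge (leaf 1 620 653) (node 620 (merge (leaf 1 619 651) (node 589 (merge (leaf 5 524 525) (leaf 3 588 588))))))) (merge (node 657 (merge (leaf 0 621 656) (node 625 (merge (leaf 0 622 658) (node 589 (merge (leaf 3 588 588) (leaf 3 589 590))))))) (node 657 (merge (leaf 0 621 656) (node 625 (merge (leaf 0 622 658) (node 653 (merge (leaf 1 620 652) (leaf 1 621 654)))))))))) (merge (node 625 (merge (node 658 (merge (leaf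 0 622 657) (node 626 (merge (leaf 0 623 659) (node 594 (merge (leaf 2 590 593) (leaf 2 591 595))))))) (merge (node 657 (merge (leaf 0 622 658) (node 621 (merge (leaf 0 621 656) (node 653 (merge (leaf 1 620 652) (leaf 1 621 654))))))) (node 654 (merge (leaf 1 621 653) (node 626 (merge (leaf 1 622 655) (node 594 (merge (leaf 2 590 593) (leaf 2 591 595)))))))))) (merge (node 625 (merge (node 658 (merge (leaf 0 622 657) (node 626 (merge (leaf 0 623 659) (node 594 (merge (leaf 2 590 593) (leaf 2 591 595))))))) (merge (node 657 (merge (leaf 0 622 658) (node 621 (merge (leaf 0 621 656) (node 589 (merge (leaf 3 588 588) (leaf 3 589 590))))))) (merge (node 594 (merge (leaf 2 590 593) (node 626 (merge (leaf 2 591 595) (node 659 (merge (leaf 0 623 658) (node 627 (merge (leaf 0 624 660) (node 655 (merge (leaf 1 622 654) (leaf 1 623 656))))))))))) (node 594 (merge (leaf 2 590 593) (node 626 (merge (leaf 2 591 595) (node 655 (merge (leaf 1 622 654) (node 656 (merge (leaf 1 623 627) (node 621 (merge (leaf 0 620 620) (leaf 0 621 657))))))))))))))) (merge (node 621 (merge (node 589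 (merge (leaf 3 588 588) (node 525 (merge (leaf 4 525 654) (node 524 (merge (leaf 7 492 492) (leaf 3 524 558))))))) (node 656 (merge (leaf 0 621 657) (node 620 (merge (leaf 0 620 655) (node 652 (merge (leaf 1 619 651) (leaf 1 620 653))))))))) (merge (node 589 (merge (node 588 (merge (leaf 3 588 621) (node 590 (merge (leaf 0 587 587) (leaf 3 589 625))))) (merge (node 625 (merge (leaf 3 589 590) (node 658 (merge (leaf 0 622 657) (node 626 (merge (leaf 0 623 659) (node 594 (merge (leaf 2 590 593) (leaf 2 591 595))))))))) (node 621 (merge (leaf 3 588 588) (node 656 (merge (leaf 0 621 657) (node 620 (merge (leaf 0 620 655) (node 652 (merge (leaf 1 619 651) (leaf 1 620 653)))))))))))) (merge (node 589 (merge (node 588 (merge (leaf 3 588 621) (node 590 (merge (leaf 0 587 587) (leaf 3 589 625))))) (merge (node 625 (merge (leaf 3 589 590) (node 654 (merge (leaf 1 621 653) (node 626 (merge (leaf 1 622 655) (node 594 (merge (leaf 2 590 593) (leaf 2 591 595))))))))) (merge (node 621 (merge (leaf 3 588 588) (node 653 (merge (leaf 1 620 652) (node 654 (merge (leaf 1 621 625) (node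 557 (merge (leaf 4 525 525) (leaf 4 557 686))))))))) (node 588 (merge (leaf 3 588 621) (node 590 (merge (leaf 0 587 587) (node 558 (merge (leaf 1 556 557) (node 527 (merge (leaf 6 526 654) (node 526 (merge (leaf 6 494 495) (leaf 4 526 655))))))))))))))) (node 590 (merge (node 625 (merge (leaf 3 589 589) (node 658 (merge (leaf 0 622 657) (node 626 (merge (leaf 0 623 659) (node 594 (merge (leaf 2 590 593) (leaf 2 591 595))))))))) (node 558 (merge (node 527 (merge (leaf 6 526 654) (node 495 (merge (leaf 5 462 463) (leaf 6 494 526))))) (merge (node 655 (merge (leaf 4 526 526) (node 687 (merge (leaf 4 558 654) (leaf 7 590 719))))) (merge (node 526 (merge (leaf 4 526 655) (node 527 (merge (leaf 6 494 495) (node 525 (merge (leaf 7 493 493) (leaf 0 524 524))))))) (node 654 (merge (leaf 6 526 527) (node 655 (merge (leaf 4 558 687) (node 653 (merge (leaf 2 620 652) (leaf 5 557 685)))))))))))))))))))) (node 525 (merge (node 591 (merge (leaf 6 527 655) (node 527 (merge (leaf 4 527 656) (node 526 (merge (leaf 7 494 494) (leaf 0 524 524))))))) (merge (node 589 (merge (node 558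 (merge (leaf 3 524 524) (leaf 1 556 588))) (merge (node 591 (merge (leaf 6 527 655) (node 588 (merge (leaf 2 556 590) (node 620 (merge (leaf 5 492 493) (node 652 (merge (leaf 5 524 621) (leaf 6 556 684))))))))) (node 524 (merge (leaf 3 524 558) (node 492 (merge (leaf 7 492 621) (node 460 (merge (leaf 4 428 428) (leaf 7 460 493)))))))))) (merge (node 591 (merge (leaf 6 527 655) (node 527 (merge (leaf 4 527 656) (node 494 (merge (leaf 7 494 526) (node 462 (merge (leaf 7 462 495) (node 493 (merge (leaf 6 461 589) (node 430 (merge (leaf 5 397 398) (leaf 6 429 461))))))))))))) (node 493 (merge (node 558 (merge (leaf 3 524 524) (node 461 (merge (leaf 4 461 590) (node 430 (merge (leaf 6 429 462) (node 429 (merge (leaf 6 397 398) (leaf 4 429 526))))))))) (merge (node 558 (merge (leaf 3 524 524) (node 589 (merge (leaf 1 556 588) (node 462 (merge (leaf 6 461 494) (node 461 (merge (leaf 6 429 430) (node 460 (merge (leaf 7 428 428) (leaf 7 460 492))))))))))) (merge (node 492 (merge (node 460 (merge (leaf 7 460 589) (node 428 (merge (leaf 4 396 396) (leaf 7 428 461))))) (merge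 (node 589 (merge (leaf 7 460 460) (node 494 (merge (leaf 6 461 462) (node 527 (merge (leaf 0 492 495) (leaf 3 492 526))))))) (node 527 (merge (leaf 3 492 526) (node 495 (merge (leaf 0 492 494) (node 463 (merge (leaf 4 431 431) (node 464 (merge (leaf 6 431 432) (node 462 (merge (leaf 7 430 430) (leaf 1 460 461)))))))))))))) (node 558 (merge (leaf 3 524 524) (node 589 (merge (leaf 1 556 588) (node 492 (merge (leaf 7 460 460) (node 526 (merge (leaf 3 492 527) (node 621 (merge (leaf 6 493 494) (leaf 6 525 653)))))))))))))))))))))))))) nP_139 cP_139 11 (by decide +kernel)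
def nP_140 : ℕ := 0x1a0000001000000000000000000000000000000000000000000000000000000000000000000000000000000000000000000000000000000000000000000000000000000000000
def cP_140 : ℕ := 0x280000003c0000003f000001ff800001ff800003ffc00000040000000f0000000f0000001f0000001f00000005000000000000000000000000000000000000000000000000000000000000000000000000000000000000000000000000000
theorem lP_140 : S nP_140 cP_140 12 := S_of_chk [(nP_139, cP_139, 11)] ⟨lP_139, trivial⟩ (node 624 (merge (node 623 (merge (node 655 (merge (leaf 6 527 591) (leaf 5 527 592))) (merge (node 592 (merge (leaf 5 527 655) (node 527 (merge (leaf 7 495 495) (leaf 7 527 656))))) (merge (node 591 (merge (leaf 6 527 655) (node 527 (merge (leaf 4 527 656) (node 622 (merge (leaf 5 526 654) (node 590 (merge (leaf 5 494 495) (node 589 (merge (leaf 0 588 588) (leaf 3 589 625))))))))))) (node 527 (merge (node 656 (merge (leaf 4 527 591) (leaf 7 527 592))) (merge (node 592 (merge (leaf 7 495 495) (leaf 7 527 656))) (merge (node 591 (merge (leaf 4 527 656) (node 622 (merge (leaf 5 526 654) (node 590 (merge (leaf 5 494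 495) (node 625 (merge (leaf 3 589 589) (leaf 3 590 626))))))))) (node 495 (merge (leaf 7 495 592) (node 463 (merge (leaf 4 431 431) (node 590 (merge (leaf 5 462 558) (node 622 (merge (leaf 5 494 591) (node 589 (merge (leaf 3 589 625) (node 588 (merge (leaf 0 587 587) (leaf 3 588 621))))))))))))))))))))) (merge (node 592 (merge (node 527 (merge (leaf 7 495 495) (leaf 7 527 656))) (merge (node 657 (merge (leaf 4 528 625) (node 656 (merge (leaf 4 560 689) (node 655 (merge (leaf 5 527 623) (leaf 5 559 687))))))) (node 625 (merge (leaf 4 528 657) (node 593 (merge (node 594 (merge (leaf 3 559 595) (node 558 (merge (leaf 0 557 557) (leaf 3 558 591))))) (merge (node 594 (merge (leaf 3 559 595) (node 623 (merge (leaf 5 527 655) (node 622 (merge (leaf 2 589 621) (leaf 2 590 625))))))) (node 527 (merge (leaf 7 495 495) (node 623 (merge (leaf 5 527 655) (node 622 (merge (leaf 2 589 621) (node 654 (merge (leaf 5 526 591) (leaf 1 621 653))))))))))))))))) (merge (node 592 (merge (node 527 (merge (leaf 7 495 495) (leaf 7 527 656))) (node 625 (merge (leaf 4 528 657) (node 626 (merge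 (node 591 (merge (leaf 3 591 627) (node 590 (merge (leaf 0 589 589) (leaf 0 590 593))))) (merge (node 623 (merge (leaf 5 527 655) (node 594 (merge (leaf 2 591 595) (node 622 (merge (leaf 2 590 593) (node 590 (merge (leaf 3 589 589) (leaf 3 590 591))))))))) (node 623 (merge (leaf 5 527 655) (node 659 (merge (leaf 0 623 658) (node 627 (merge (leaf 0 624 660) (node 595 (merge (leaf 2 591 594) (leaf 2 592 596)))))))))))))))) (merge (node 558 (merge (node 592 (merge (leaf 0 557 593) (node 527 (merge (leaf 7 495 495) (leaf 7 527 656))))) (node 525 (merge (leaf 3 524 524) (node 622 (merge (node 590 (merge (leaf 7 525 654) (node 493 (merge (leaf 4 461 461) (leaf 7 493 526))))) (merge (node 589 (merge (leaf 1 556 588) (node 654 (merge (leaf 7 525 590) (leaf 4 525 621))))) (merge (node 589 (merge (leaf 1 556 588) (node 621 (merge (leaf 4 525 654) (node 526 (merge (leaf 6 493 494) (leaf 6 525 653))))))) (node 589 (merge (leaf 1 556 588) (node 493 (merge (leaf 4 493 590) (node 494 (merge (leaf 6 461 462) (node 526 (merge (leaf 6 493 621) (node 460 (merge (leaf 7 460 492) (node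 461 (merge (leaf 7 428 428) (leaf 4 429 429))))))))))))))))))))) (merge (node 592 (merge (node 657 (merge (leaf 4 528 625) (node 656 (merge (leaf 4 560 689) (node 655 (merge (leaf 5 527 623) (leaf 5 559 687))))))) (merge (node 655 (merge (leaf 5 527 623) (node 656 (merge (leaf 5 559 687) (node 688 (merge (leaf 7 559 591) (node 689 (merge (leaf 4 560 657) (leaf 4 592 721))))))))) (merge (node 625 (merge (leaf 4 528 657) (node 626 (merge (node 591 (merge (leaf 3 591 627) (node 590 (merge (leaf 0 589 589) (leaf 0 590 593))))) (merge (node 623 (merge (leaf 5 527 655) (node 594 (merge (leaf 2 591 595) (node 622 (merge (leaf 2 590 593) (node 590 (merge (leaf 3 589 589) (leaf 3 590 591))))))))) (node 623 (merge (leaf 5 527 655) (node 659 (merge (leaf 0 623 658) (node 627 (merge (leaf 0 624 660) (node 595 (merge (leaf 2 591 594) (leaf 2 592 596)))))))))))))) (merge (node 656 (merge (node 657 (merge (leaf 4 528 625) (leaf 4 560 689))) (merge (node 688 (merge (leaf 7 559 591) (node 625 (merge (leaf 4 528 657) (node 720 (merge (leaf 6 592 593) (node 719 (merge (leaf 5 591 687)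 (leaf 5 623 751))))))))) (node 688 (merge (leaf 7 559 591) (node 721 (merge (leaf 4 592 689) (node 720 (merge (leaf 4 624 753) (node 719 (merge (leaf 5 591 687) (leaf 5 623 751)))))))))))) (node 593 (merge (node 594 (merge (leaf 3 559 595) (node 558 (merge (leaf 0 557 557) (leaf 3 558 591))))) (merge (node 594 (merge (leaf 3 559 595) (node 623 (merge (leaf 5 527 655) (node 622 (merge (leaf 2 589 621) (leaf 2 590 625))))))) (node 655 (merge (leaf 5 527 623) (node 656 (merge (leaf 5 559 687) (node 688 (merge (leaf 7 559 591) (node 720 (merge (leaf 6 592 625) (node 721 (merge (leaf 4 592 689) (leaf 4 624 753))))))))))))))))))) (merge (node 589 (merge (node 558 (merge (leaf 1 556 588) (node 592 (merge (leaf 0 557 593) (node 527 (merge (leaf 7 495 495) (leaf 7 527 656))))))) (merge (node 558 (merge (leaf 1 556 588) (node 592 (merge (leaf 0 557 593) (node 657 (merge (leaf 4 528 625) (node 656 (merge (leaf 4 560 689) (node 655 (merge (leaf 5 527 623) (leaf 5 559 687))))))))))) (merge (node 588 (merge (leaf 1 556 558) (node 591 (merge (leaf 2 556 590) (node 623 (merge (leaf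 6 527 655) (node 527 (merge (leaf 4 527 656) (node 526 (merge (leaf 7 494 494) (node 525 (merge (leaf 0 524 524) (node 493 (merge (leaf 3 492 492) (leaf 5 492 620))))))))))))))) (merge (node 591 (merge (node 590 (merge (leaf 2 556 588) (node 592 (merge (leaf 0 589 625) (node 527 (merge (leaf 7 495 495) (leaf 7 527 656))))))) (merge (node 623 (merge (leaf 6 527 655) (node 656 (merge (leaf 4 527 527) (node 688 (merge (leaf 7 559 592) (leaf 7 591 720))))))) (merge (node 623 (merge (leaf 6 527 655) (node 590 (merge (leaf 0 588 588) (node 625 (merge (leaf 0 589 592) (leaf 3 590 626))))))) (node 623 (merge (leaf 6 527 655) (node 588 (merge (leaf 0 588 590) (node 527 (merge (leaf 4 527 656) (node 526 (merge (leaf 7 494 494) (node 525 (merge (leaf 0 524 524) (node 493 (merge (leaf 3 492 492) (leaf 5 492 620))))))))))))))))) (merge (node 623 (merge (node 655 (merge (leaf 6 527 591) (leaf 5 527 592))) (node 525 (merge (node 558 (merge (leaf 3 524 524) (leaf 1 556 588))) (merge (node 588 (merge (leaf 1 556 558) (node 620 (merge (leaf 5 492 493) (node 652 (merge (leaf 5 524 621)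 (leaf 6 556 684))))))) (merge (node 524 (merge (leaf 3 524 558) (node 492 (merge (leaf 7 492 621) (node 460 (merge (leaf 4 428 428) (leaf 7 460 493))))))) (node 621 (merge (node 526 (merge (leaf 6 493 494) (node 524 (merge (leaf 7 492 492) (leaf 0 524 527))))) (merge (node 492 (merge (leaf 7 492 524) (node 493 (merge (leaf 7 460 460) (node 620 (merge (leaf 5 492 588) (leaf 5 524 652))))))) (node 494 (merge (leaf 6 493 526) (node 493 (merge (leaf 6 461 462) (node 620 (merge (leaf 5 492 588) (leaf 5 524 652)))))))))))))))) (node 525 (merge (node 524 (merge (leaf 3 524 558) (node 526 (merge (leaf 0 524 527) (node 621 (merge (leaf 7 492 492) (leaf 6 493 494))))))) (merge (node 558 (merge (leaf 3 524 524) (node 592 (merge (leaf 0 557 593) (node 657 (merge (leaf 4 528 625) (node 656 (merge (leaf 4 560 689) (node 655 (merge (leaf 5 527 623) (leaf 5 559 687))))))))))) (merge (node 621 (merge (node 494 (merge (leaf 6 493 526) (node 493 (merge (leaf 6 461 462) (node 492 (merge (leaf 7 460 460) (leaf 7 492 524))))))) (merge (node 524 (merge (leaf 7 492 492) (node 527 (merge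 (leaf 0 524 526) (node 592 (merge (leaf 7 495 495) (leaf 7 527 656))))))) (merge (node 526 (merge (leaf 6 493 494) (node 527 (merge (leaf 0 524 524) (node 592 (merge (leaf 7 495 495) (leaf 7 527 656))))))) (merge (node 652 (merge (leaf 5 524 620) (node 653 (merge (leaf 5 556 684) (node 654 (merge (leaf 4 557 686) (node 655 (merge (leaf 2 620 623) (node 687 (merge (leaf 0 652 688) (node 656 (merge (leaf 5 559 592) (leaf 2 621 625))))))))))))) (node 652 (merge (leaf 5 524 620) (node 653 (merge (leaf 5 556 684) (node 654 (merge (leaf 4 557 686) (node 655 (merge (leaf 2 620 623) (node 687 (merge (leaf 0 652 688) (node 656 (merge (leaf 5 559 592) (leaf 2 621 625)))))))))))))))))) (node 494 (merge (node 462 (merge (leaf 6 461 493) (node 526 (merge (leaf 5 429 430) (leaf 6 493 621))))) (merge (node 493 (merge (leaf 6 461 462) (node 492 (merge (leaf 7 460 460) (node 527 (merge (leaf 0 492 495) (node 592 (merge (leaf 7 527 656) (node 558 (merge (leaf 0 557 593) (node 590 (merge (leaf 4 461 461) (node 625 (merge (leaf 0 589 591) (leaf 4 528 657))))))))))))))) (node 621 (merge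 (leaf 6 493 526) (node 652 (merge (leaf 5 524 620) (node 653 (merge (leaf 5 556 684) (node 654 (merge (leaf 4 557 686) (node 655 (merge (leaf 2 620 623) (node 687 (merge (leaf 0 652 688) (node 656 (merge (leaf 5 559 592) (leaf 2 621 625)))))))))))))))))))))))))))) (merge (node 623 (merge (node 655 (merge (leaf 6 527 591) (leaf 5 527 592))) (merge (node 592 (merge (leaf 5 527 655) (node 625 (merge (leaf 4 528 657) (node 626 (merge (node 659 (merge (leaf 0 623 658) (node 627 (merge (leaf 0 624 660) (node 595 (merge (leaf 2 591 594) (leaf 2 592 596))))))) (merge (node 594 (merge (leaf 2 591 595) (node 622 (merge (leaf 2 590 593) (node 653 (merge (leaf 1 621 654) (node 621 (merge (leaf 1 620 652) (node 589 (merge (leaf 3 588 588) (leaf 3 589 590))))))))))) (merge (node 659 (merge (leaf 0 623 658) (node 627 (merge (leaf 0 624 660) (node 593 (merge (leaf 3 592 628) (node 622 (merge (leaf 2 590 594) (leaf 2 589 621))))))))) (node 659 (merge (leaf 0 623 658) (node 627 (merge (leaf 0 624 660) (node 596 (merge (leaf 2 592 595) (node 628 (merge (leaf 3 592 593) (leaf 2 593 597)))))))))))))))))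 (merge (node 591 (merge (leaf 6 527 655) (node 622 (merge (node 654 (merge (leaf 5 526 527) (node 686 (merge (leaf 6 558 590) (leaf 6 590 718))))) (merge (node 654 (merge (leaf 5 526 527) (node 653 (merge (leaf 1 621 625) (node 652 (merge (leaf 1 620 621) (leaf 2 619 651))))))) (merge (node 590 (merge (node 589 (merge (leaf 3 589 625) (node 588 (merge (leaf 0 587 587) (leaf 3 588 621))))) (node 527 (merge (leaf 5 494 495) (node 526 (merge (leaf 7 494 494) (node 525 (merge (leaf 0 524 524) (node 493 (merge (leaf 3 492 492) (leaf 7 493 558))))))))))) (node 589 (merge (node 588 (merge (leaf 3 588 621) (node 590 (merge (leaf 0 587 587) (leaf 0 588 591))))) (merge (node 625 (merge (leaf 3 589 590) (node 658 (merge (leaf 0 622 657) (node 626 (merge (leaf 0 623 659) (node 594 (merge (leaf 2 590 593) (leaf 2 591 595))))))))) (node 621 (merge (leaf 3 588 588) (node 653 (merge (leaf 1 620 652) (node 654 (merge (leaf 1 621 625) (node 557 (merge (leaf 4 525 525) (leaf 4 557 686)))))))))))))))))) (node 589 (merge (node 558 (merge (leaf 1 556 588) (node 592 (merge (leaf 0 557 593)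 (node 525 (merge (leaf 3 524 524) (node 625 (merge (leaf 4 528 657) (node 590 (merge (leaf 0 589 591) (node 622 (merge (leaf 4 493 493) (leaf 3 589 623))))))))))))) (merge (node 525 (merge (node 558 (merge (leaf 3 524 524) (leaf 1 556 588))) (merge (node 588 (merge (leaf 1 556 558) (node 620 (merge (leaf 5 492 493) (node 652 (merge (leaf 5 524 621) (leaf 6 556 684))))))) (merge (node 524 (merge (leaf 3 524 558) (node 492 (merge (leaf 7 492 621) (node 460 (merge (leaf 4 428 428) (leaf 7 460 493))))))) (node 621 (merge (node 526 (merge (leaf 6 493 494) (node 524 (merge (leaf 7 492 492) (leaf 0 524 527))))) (merge (node 492 (merge (leaf 7 492 524) (node 493 (merge (leaf 7 460 460) (node 620 (merge (leaf 5 492 588) (leaf 5 524 652))))))) (node 494 (merge (leaf 6 493 526) (node 493 (merge (leaf 6 461 462) (node 620 (merge (leaf 5 492 588) (leaf 5 524 652)))))))))))))) (merge (node 525 (merge (node 524 (merge (leaf 3 524 558) (node 492 (merge (leaf 7 492 621) (node 460 (merge (leaf 4 428 428) (leaf 7 460 493))))))) (merge (node 621 (merge (node 622 (merge (leaf 4 525 654)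 (node 590 (merge (leaf 4 493 493) (leaf 3 589 625))))) (node 526 (merge (leaf 6 493 494) (node 653 (merge (leaf 6 525 558) (node 652 (merge (leaf 5 524 620) (leaf 5 556 684))))))))) (merge (node 621 (merge (node 622 (merge (leaf 4 525 654) (node 652 (merge (leaf 5 524 620) (leaf 1 620 653))))) (node 526 (merge (leaf 6 493 494) (node 524 (merge (leaf 7 492 492) (leaf 0 524 527))))))) (node 524 (merge (leaf 3 524 558) (node 527 (merge (leaf 0 524 526) (node 495 (merge (leaf 7 495 592) (node 463 (merge (leaf 4 431 431) (node 462 (merge (leaf 7 430 430) (node 591 (merge (leaf 7 462 494) (node 622 (merge (leaf 5 494 590) (leaf 5 526 654))))))))))))))))))) (node 590 (merge (node 591 (merge (leaf 0 588 588) (node 625 (merge (leaf 0 589 592) (leaf 3 590 626))))) (merge (node 588 (merge (leaf 0 588 591) (node 622 (merge (leaf 0 587 587) (leaf 3 588 621))))) (merge (node 622 (merge (leaf 3 589 625) (node 588 (merge (leaf 0 587 587) (leaf 3 588 621))))) (node 625 (merge (leaf 3 589 622) (node 626 (merge (leaf 3 590 591) (node 659 (merge (leaf 0 623 658) (node 627 (merge (leaf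 0 624 660) (node 595 (merge (leaf 2 591 594) (leaf 2 592 596))))))))))))))))))))))) (hyp 0))))))))) nP_140 cP_140 12 (by decide +kernel)
def nP_141 : ℕ := 0x1a0000001800000000000000040000000400000000000000000000000000000000000000000000000000000000000000000000000000000000000000000000000000000000000
def cP_141 : ℕ := 0x18000000780000003e000003bc000003be000003fc000003fc000001f80000000000000000000000000000000000000000000000000000000000000000000000000000000000
theorem lP_141 : S nP_141 cP_141 14 := S_of_chk [] trivial (node 461 (merge (node 525 (merge (leaf 6 429 493) (node 526 (merge (leaf 0 524 524) (leaf 1 524 556))))) (merge (node 460 (merge (node 431 (merge (leaf 2 427 459) (node 432 (merge (leaf 1 429 433) (leaf 2 428 463))))) (merge (node 459 (merge (leaf 2 427 431) (node 490 (merge (leaf 1 458 491) (node 458 (merge (leaf 2 426 429) (leaf 1 457 489))))))) (merge (node 459 (merge (node 490 (merge (leaf 1 458 491) (node 458 (merge (leaf 2 426 429) (leaf 1 457 489))))) (merge (node 458 (merge (leaf 2 426 429) (node 426 (merge (leaf 3 425 425) (leaf 3 426 427))))) (node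 491 (merge (leaf 1 458 490) (node 463 (merge (leaf 1 459 492) (node 427 (merge (leaf 3 426 426) (leaf 3 427 428)))))))))) (node 428 (merge (node 427 (merge (leaf 3 427 463) (node 426 (merge (leaf 0 425 425) (leaf 0 426 429))))) (merge (node 463 (merge (leaf 3 427 427) (node 492 (merge (leaf 1 459 491) (node 464 (merge (leaf 1 460 493) (node 432 (merge (leaf 2 428 431) (leaf 2 429 433))))))))) (merge (node 429 (merge (node 427 (merge (leaf 0 426 426) (node 431 (merge (leaf 1 428 432) (node 395 (merge (leaf 3 394 394) (leaf 3 395 396))))))) (merge (node 427 (merge (leaf 0 426 426) (node 431 (merge (leaf 1 428 432) (node 399 (merge (leaf 2 395 398) (leaf 2 396 400))))))) (merge (node 427 (merge (leaf 0 426 426) (node 395 (merge (leaf 3 394 394) (node 492 (merge (leaf 7 395 524) (node 363 (merge (leaf 4 331 331) (leaf 7 363 396))))))))) (node 431 (merge (leaf 1 428 432) (node 399 (merge (leaf 2 396 400) (node 396 (merge (leaf 3 395 395) (node 364 (merge (leaf 4 332 332) (node 365 (merge (leaf 6 332 333) (node 397 (merge (leaf 6 364 492) (node 363 (merge (leaf 7 331 331)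 (leaf 3 363 398))))))))))))))))))) (node 429 (merge (node 463 (merge (leaf 3 428 464) (node 492 (merge (leaf 1 459 491) (node 524 (merge (leaf 6 396 397) (leaf 6 428 556))))))) (merge (node 431 (merge (leaf 1 428 432) (node 396 (merge (leaf 3 395 395) (node 364 (merge (leaf 4 332 332) (leaf 4 364 493))))))) (node 431 (merge (leaf 1 428 432) (node 399 (merge (leaf 2 396 400) (node 396 (merge (leaf 3 395 395) (node 364 (merge (leaf 4 332 332) (node 365 (merge (leaf 6 332 333) (node 397 (merge (leaf 6 364 492) (node 363 (merge (leaf 7 331 331) (leaf 3 363 398)))))))))))))))))))))))))) (merge (node 460 (merge (node 431 (merge (leaf 2 427 459) (node 432 (merge (leaf 1 429 433) (leaf 2 428 463))))) (merge (node 459 (merge (leaf 2 427 431) (node 490 (merge (leaf 1 458 491) (node 458 (merge (leaf 2 426 429) (leaf 1 457 489))))))) (merge (node 459 (merge (node 490 (merge (leaf 1 458 491) (node 458 (merge (leaf 2 426 429) (leaf 1 457 489))))) (merge (node 458 (merge (leaf 2 426 429) (node 426 (merge (leaf 3 425 425) (leaf 3 426 427))))) (node 491 (merge (leaf 1 458 490) (node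 463 (merge (leaf 1 459 492) (node 427 (merge (leaf 3 426 426) (leaf 3 427 428)))))))))) (node 428 (merge (node 463 (merge (leaf 3 427 427) (node 432 (merge (leaf 2 428 431) (node 464 (merge (leaf 3 428 429) (leaf 2 429 433))))))) (merge (node 492 (merge (node 463 (merge (leaf 3 427 427) (leaf 1 459 491))) (merge (node 427 (merge (leaf 3 427 463) (node 524 (merge (leaf 7 395 395) (leaf 4 428 525))))) (merge (node 491 (merge (leaf 1 459 463) (node 524 (merge (leaf 4 428 525) (node 523 (merge (leaf 5 395 396) (leaf 5 427 555))))))) (node 524 (merge (leaf 4 428 525) (node 395 (merge (leaf 7 395 427) (node 396 (merge (leaf 7 363 363) (node 523 (merge (leaf 5 395 491) (leaf 5 427 555))))))))))))) (merge (node 429 (merge (node 427 (merge (leaf 0 426 426) (node 431 (merge (leaf 1 428 432) (node 395 (merge (leaf 3 394 394) (leaf 3 395 396))))))) (merge (node 427 (merge (leaf 0 426 426) (node 431 (merge (leaf 1 428 432) (node 399 (merge (leaf 2 395 398) (leaf 2 396 400))))))) (merge (node 427 (merge (leaf 0 426 426) (node 395 (merge (leaf 3 394 394) (node 492 (merge (leaf 7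 395 524) (node 363 (merge (leaf 4 331 331) (leaf 7 363 396))))))))) (node 431 (merge (leaf 1 428 432) (node 399 (merge (leaf 2 396 400) (node 396 (merge (leaf 3 395 395) (node 364 (merge (leaf 4 332 332) (node 365 (merge (leaf 6 332 333) (node 397 (merge (leaf 6 364 492) (node 363 (merge (leaf 7 331 331) (leaf 3 363 398))))))))))))))))))) (node 429 (merge (node 463 (merge (leaf 3 428 464) (node 492 (merge (leaf 1 459 491) (node 397 (merge (leaf 5 364 365) (leaf 6 396 524))))))) (merge (node 431 (merge (leaf 1 428 432) (node 399 (merge (leaf 2 396 400) (node 396 (merge (leaf 3 395 395) (node 364 (merge (leaf 4 332 332) (node 365 (merge (leaf 6 332 333) (node 397 (merge (leaf 6 364 492) (node 363 (merge (leaf 7 331 331) (leaf 3 363 398))))))))))))))) (merge (node 463 (merge (leaf 3 428 464) (node 492 (merge (leaf 1 459 491) (node 524 (merge (leaf 4 428 525) (leaf 6 428 556))))))) (node 431 (merge (leaf 1 428 432) (node 463 (merge (leaf 0 428 464) (node 399 (merge (leaf 2 396 400) (node 396 (merge (leaf 3 395 395) (node 332 (merge (leaf 4 332 364) (node 367 (merge (leaf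 5 334 335) (node 368 (merge (leaf 6 335 336) (node 366 (merge (leaf 7 334 334) (node 365 (merge (leaf 3 332 333) (leaf 1 364 397))))))))))))))))))))))))))))))) (node 460 (merge (node 431 (merge (leaf 2 427 459) (node 432 (merge (leaf 1 429 433) (leaf 2 428 463))))) (merge (node 459 (merge (leaf 2 427 431) (node 490 (merge (leaf 1 458 491) (node 458 (merge (leaf 2 426 429) (leaf 1 457 489))))))) (merge (node 459 (merge (node 490 (merge (leaf 1 458 491) (node 458 (merge (leaf 2 426 429) (leaf 1 457 489))))) (merge (node 458 (merge (leaf 2 426 429) (node 426 (merge (leaf 3 425 425) (leaf 3 426 427))))) (node 491 (merge (leaf 1 458 490) (node 463 (merge (leaf 1 459 492) (node 427 (merge (leaf 3 426 426) (leaf 3 427 428)))))))))) (node 398 (merge (node 493 (merge (leaf 5 365 366) (leaf 6 429 525))) (merge (node 428 (merge (node 427 (merge (leaf 3 427 463) (node 426 (merge (leaf 0 425 425) (leaf 0 426 429))))) (merge (node 463 (merge (leaf 3 427 427) (node 492 (merge (leaf 1 459 491) (node 464 (merge (leaf 1 460 493) (node 432 (merge (leaf 2 428 431) (leaf 2 429 433)))))))))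 (merge (node 431 (merge (node 432 (merge (leaf 1 429 433) (leaf 2 428 463))) (node 493 (merge (leaf 6 429 525) (node 396 (merge (leaf 4 364 364) (node 395 (merge (leaf 0 395 397) (leaf 3 395 429))))))))) (node 429 (merge (node 427 (merge (leaf 2 395 399) (leaf 0 426 426))) (merge (node 427 (merge (leaf 0 426 426) (node 431 (merge (leaf 1 428 432) (node 395 (merge (leaf 3 394 394) (leaf 3 395 396))))))) (node 431 (merge (leaf 1 428 432) (node 399 (merge (leaf 2 396 400) (node 396 (merge (leaf 3 395 395) (node 364 (merge (leaf 4 332 332) (node 365 (merge (leaf 6 332 333) (node 397 (merge (leaf 6 364 492) (node 363 (merge (leaf 7 331 331) (leaf 3 363 398)))))))))))))))))))))) (node 429 (merge (node 366 (merge (leaf 5 333 334) (node 365 (merge (leaf 7 333 333) (node 397 (merge (leaf 5 364 492) (node 364 (merge (leaf 7 332 332) (node 363 (merge (leaf 0 362 362) (leaf 0 363 399))))))))))) (merge (node 366 (merge (leaf 5 333 334) (node 367 (merge (leaf 6 334 335) (node 365 (merge (leaf 7 333 333) (node 397 (merge (leaf 5 364 492) (node 368 (merge (leaf 1 365 369) (leaf 1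 364 396))))))))))) (merge (node 399 (merge (node 400 (merge (leaf 1 397 401) (node 428 (merge (leaf 2 395 427) (leaf 2 396 431))))) (merge (node 400 (merge (leaf 1 397 401) (node 366 (merge (leaf 5 333 334) (node 367 (merge (leaf 6 334 335) (node 365 (merge (leaf 7 333 333) (leaf 0 364 364))))))))) (node 428 (merge (leaf 2 395 427) (node 366 (merge (leaf 5 333 334) (node 367 (merge (leaf 6 334 335) (node 365 (merge (leaf 7 333 333) (node 364 (merge (leaf 0 363 363) (node 396 (merge (leaf 4 332 332) (leaf 1 363 395)))))))))))))))) (merge (node 431 (merge (node 432 (merge (leaf 1 429 433) (node 464 (merge (leaf 0 429 465) (node 428 (merge (leaf 0 428 463) (node 396 (merge (leaf 3 395 395) (leaf 3 396 397))))))))) (merge (node 432 (merge (leaf 1 429 433) (node 464 (merge (leaf 0 429 465) (node 428 (merge (leaf 0 428 463) (node 400 (merge (leaf 2 396 399) (leaf 2 397 401))))))))) (merge (node 428 (merge (node 463 (merge (leaf 0 427 427) (leaf 0 428 464))) (node 399 (merge (leaf 2 396 400) (node 396 (merge (leaf 3 395 395) (node 364 (merge (leaf 4 332 332) (node 397 (merge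 (leaf 3 363 363) (node 367 (merge (leaf 5 334 335) (leaf 2 364 368))))))))))))) (node 432 (merge (leaf 1 429 433) (node 400 (merge (leaf 2 397 401) (node 397 (merge (leaf 3 396 396) (node 365 (merge (leaf 4 333 333) (node 364 (merge (leaf 7 332 332) (leaf 3 364 399))))))))))))))) (node 463 (merge (node 464 (merge (leaf 3 428 428) (leaf 3 429 465))) (merge (node 432 (merge (leaf 1 428 431) (node 464 (merge (leaf 2 429 433) (leaf 3 429 465))))) (node 428 (merge (leaf 0 427 427) (node 431 (merge (leaf 1 428 432) (node 399 (merge (leaf 2 396 400) (node 396 (merge (leaf 3 395 395) (node 367 (merge (leaf 5 334 335) (node 368 (merge (leaf 6 335 336) (leaf 2 364 397)))))))))))))))))))))))))))))))) nP_141 cP_141 14 (by decide +kernel)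
def nP_142 : ℕ := 0x80000000800000000000000040000000400000000000000000000000000000000000000000000000000000000000000000000000000000000000000000000000000000000000
def cP_142 : ℕ := 0x18000000580000007c000003be000003be000003fc000003fe000001f8000000e0000000e0000000a00000000000000000000000000000000000000000000000000000000000
theorem lP_142 : S nP_142 cP_142 13 := S_of_chk [] trivial (node 398 (merge (node 494 (merge (leaf 4 430 526) (node 367 (merge (leaf 6 366 399) (node 366 (merge (leaf 6 334 335) (node 365 (merge (leaf 7 333 333) (leaf 7 365 397))))))))) (merge (node 366 (merge (node 367 (merge (leaf 6 334 335) (node 494 (merge (leaf 6 366 399) (leaf 4 430 526))))) (merge (node 335 (merge (leaf 6 334 367) (node 334 (merge (leaf 6 302 303) (node 461 (merge (leaf 5 333 429) (leaf 5 365 493))))))) (node 461 (merge (leaf 5 365 493) (node 334 (merge (leaf 5 333 429) (node 431 (merge (leaf 4 334 463) (node 302 (merge (leaf 4 302 399) (node 271 (merge (leaf 6 270 303) (node 270 (merge (leaf 6 238 239) (node 269 (merge (leaf 7 237 237) (leaf 7 269 301)))))))))))))))))) (merge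 (node 494 (merge (leaf 4 430 526) (node 365 (merge (leaf 7 365 397) (node 366 (merge (leaf 7 333 333) (node 335 (merge (leaf 6 334 367) (node 334 (merge (leaf 6 302 303) (node 461 (merge (leaf 5 333 429) (leaf 5 365 493))))))))))))) (merge (node 494 (merge (leaf 4 430 526) (node 365 (merge (leaf 7 365 397) (node 366 (merge (leaf 7 333 333) (node 461 (merge (leaf 5 365 493) (node 334 (merge (leaf 5 333 429) (node 303 (merge (leaf 6 302 335) (node 302 (merge (leaf 6 270 271) (node 431 (merge (leaf 4 302 399) (leaf 4 334 463))))))))))))))))) (merge (node 494 (merge (leaf 4 430 526) (node 399 (merge (leaf 6 366 367) (node 365 (merge (leaf 7 365 397) (node 366 (merge (leaf 7 333 333) (node 461 (merge (leaf 5 365 493) (node 334 (merge (leaf 5 333 429) (node 431 (merge (leaf 4 302 302) (leaf 4 334 463))))))))))))))) (merge (node 397 (merge (node 494 (merge (leaf 7 365 365) (leaf 4 430 526))) (merge (node 396 (merge (node 431 (merge (leaf 0 395 395) (node 432 (merge (leaf 3 396 429) (leaf 3 397 433))))) (merge (node 431 (merge (leaf 0 395 395) (node 432 (merge (leaf 0 396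 399) (leaf 3 397 433))))) (merge (node 494 (merge (leaf 4 430 526) (node 399 (merge (leaf 6 366 367) (node 428 (merge (leaf 1 395 427) (node 429 (merge (leaf 1 396 400) (node 395 (merge (leaf 0 394 394) (node 363 (merge (leaf 3 362 362) (leaf 3 363 364))))))))))))) (node 494 (merge (leaf 4 430 526) (node 399 (merge (leaf 6 366 367) (node 432 (merge (leaf 0 396 431) (node 400 (merge (leaf 0 397 433) (node 428 (merge (leaf 1 395 427) (leaf 1 396 429))))))))))))))) (node 396 (merge (node 431 (merge (leaf 0 395 395) (node 432 (merge (leaf 3 396 429) (leaf 3 397 433))))) (merge (node 431 (merge (leaf 0 395 395) (node 432 (merge (leaf 0 396 399) (leaf 3 397 433))))) (merge (node 395 (merge (node 394 (merge (leaf 0 394 429) (node 426 (merge (leaf 1 393 425) (leaf 1 394 427))))) (merge (node 394 (merge (leaf 0 394 429) (node 362 (merge (leaf 3 361 361) (leaf 3 362 363))))) (node 427 (merge (leaf 1 394 426) (node 399 (merge (leaf 1 395 428) (node 363 (merge (leaf 3 362 362) (leaf 3 363 364)))))))))) (node 399 (merge (node 431 (merge (leaf 0 396 432) (node 367 (merge (leaf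 5 334 335) (leaf 2 364 368))))) (node 428 (merge (leaf 1 395 427) (node 400 (merge (leaf 1 396 429) (node 364 (merge (leaf 3 363 363) (leaf 3 364 365)))))))))))))))) (node 429 (merge (node 428 (merge (node 427 (merge (leaf 2 395 399) (leaf 0 427 463))) (merge (node 399 (merge (leaf 2 395 427) (node 400 (merge (leaf 1 397 401) (leaf 2 396 431))))) (merge (node 463 (merge (leaf 0 427 427) (node 464 (merge (leaf 0 428 431) (leaf 3 429 465))))) (node 431 (merge (node 464 (merge (leaf 0 428 463) (node 432 (merge (leaf 0 429 465) (node 396 (merge (leaf 3 395 395) (leaf 3 396 397))))))) (merge (node 464 (merge (leaf 0 428 463) (node 432 (merge (leaf 0 429 465) (node 400 (merge (leaf 2 396 399) (leaf 2 397 401))))))) (merge (node 400 (merge (leaf 2 396 399) (node 432 (merge (leaf 2 397 401) (node 396 (merge (leaf 3 395 395) (leaf 3 396 397))))))) (node 463 (merge (leaf 0 428 464) (node 399 (merge (leaf 2 396 400) (node 396 (merge (leaf 3 395 395) (node 367 (merge (leaf 5 334 335) (node 368 (merge (leaf 6 335 336) (leaf 2 364 397))))))))))))))))))) (merge (node 461 (merge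 (node 366 (merge (leaf 5 333 334) (leaf 5 365 493))) (node 460 (merge (node 431 (merge (leaf 2 427 459) (node 432 (merge (leaf 1 428 429) (leaf 1 429 433))))) (merge (node 459 (merge (leaf 2 426 458) (node 491 (merge (leaf 1 458 490) (node 463 (merge (leaf 1 459 492) (node 464 (merge (leaf 3 428 428) (leaf 3 429 465))))))))) (node 463 (merge (node 492 (merge (leaf 1 459 491) (node 524 (merge (leaf 6 428 556) (node 397 (merge (leaf 5 364 365) (leaf 6 396 428))))))) (node 432 (merge (leaf 1 428 431) (node 464 (merge (leaf 2 429 433) (leaf 3 429 465)))))))))))) (merge (node 461 (merge (node 366 (merge (leaf 5 333 334) (leaf 5 365 493))) (node 460 (merge (node 459 (merge (leaf 2 426 458) (node 491 (merge (leaf 1 458 490) (node 463 (merge (leaf 1 459 492) (node 464 (merge (leaf 3 428 428) (leaf 3 429 465))))))))) (merge (node 459 (merge (leaf 2 426 458) (node 427 (merge (leaf 3 426 426) (node 428 (merge (leaf 0 427 463) (node 395 (merge (leaf 3 394 394) (node 363 (merge (leaf 4 331 331) (leaf 4 363 492))))))))))) (merge (node 459 (merge (leaf 2 426 458) (node 491 (merge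 (leaf 1 458 490) (node 492 (merge (leaf 1 459 463) (node 524 (merge (leaf 6 428 556) (node 427 (merge (leaf 4 395 395) (leaf 3 426 426))))))))))) (merge (node 428 (merge (node 463 (merge (leaf 0 427 427) (leaf 3 428 464))) (merge (node 463 (merge (leaf 3 428 464) (node 492 (merge (leaf 1 459 491) (node 397 (merge (leaf 5 364 365) (leaf 6 396 524))))))) (node 427 (merge (leaf 0 426 426) (node 395 (merge (leaf 3 394 394) (node 492 (merge (leaf 7 395 524) (node 363 (merge (leaf 4 331 331) (leaf 7 363 396)))))))))))) (merge (node 459 (merge (leaf 2 426 458) (node 491 (merge (leaf 1 458 490) (node 427 (merge (leaf 3 426 426) (node 428 (merge (leaf 0 427 463) (node 396 (merge (leaf 5 363 364) (leaf 6 395 523))))))))))) (node 428 (merge (node 459 (merge (leaf 2 426 458) (node 491 (merge (leaf 1 458 490) (node 523 (merge (leaf 6 427 555) (node 396 (merge (leaf 5 363 364) (leaf 5 395 492))))))))) (merge (node 427 (merge (leaf 0 426 426) (node 459 (merge (leaf 1 426 458) (node 395 (merge (leaf 3 394 394) (node 492 (merge (leaf 4 363 363) (leaf 7 395 524))))))))) (merge (node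 427 (merge (leaf 0 426 426) (node 459 (merge (leaf 1 426 458) (node 491 (merge (leaf 1 458 490) (node 396 (merge (leaf 5 363 364) (leaf 6 395 523))))))))) (node 427 (merge (leaf 0 426 426) (node 395 (merge (leaf 3 394 394) (node 492 (merge (leaf 7 395 524) (node 363 (merge (leaf 4 331 331) (leaf 7 363 396))))))))))))))))))))) (merge (node 461 (merge (node 366 (merge (leaf 5 333 334) (leaf 5 365 493))) (node 428 (merge (node 427 (merge (leaf 2 395 399) (leaf 0 426 426))) (merge (node 427 (merge (leaf 0 426 426) (node 459 (merge (leaf 1 426 458) (node 431 (merge (leaf 1 427 460) (node 395 (merge (leaf 3 394 394) (leaf 3 395 396))))))))) (node 460 (merge (node 459 (merge (leaf 1 427 431) (node 458 (merge (leaf 2 425 457) (leaf 2 426 461))))) (merge (node 459 (merge (leaf 2 426 458) (node 491 (merge (leaf 1 458 490) (node 523 (merge (leaf 6 427 555) (node 396 (merge (leaf 5 363 364) (leaf 5 395 492))))))))) (node 431 (merge (leaf 1 428 432) (node 399 (merge (leaf 2 396 400) (node 396 (merge (leaf 3 395 395) (node 364 (merge (leaf 4 332 332) (node 365 (merge (leaf 6 332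 333) (node 397 (merge (leaf 6 364 492) (node 363 (merge (leaf 7 331 331) (leaf 3 363 398))))))))))))))))))))))) (merge (node 428 (merge (node 427 (merge (leaf 2 395 399) (leaf 0 427 463))) (merge (node 399 (merge (leaf 2 395 427) (node 400 (merge (leaf 1 397 401) (leaf 2 396 431))))) (merge (node 463 (merge (leaf 0 427 427) (node 464 (merge (leaf 0 428 431) (leaf 3 429 465))))) (node 431 (merge (node 464 (merge (leaf 0 428 463) (node 432 (merge (leaf 0 429 465) (node 400 (merge (leaf 2 396 399) (leaf 2 397 401))))))) (merge (node 464 (merge (leaf 0 428 463) (node 432 (merge (leaf 0 429 465) (node 460 (merge (leaf 1 427 459) (leaf 1 428 461))))))) (merge (node 460 (merge (leaf 1 427 459) (node 461 (merge (leaf 1 428 432) (node 366 (merge (leaf 5 333 334) (leaf 5 365 493))))))) (node 463 (merge (leaf 0 428 464) (node 399 (merge (leaf 2 396 400) (node 396 (merge (leaf 3 395 395) (node 366 (merge (leaf 4 334 334) (node 365 (merge (leaf 7 333 333) (node 364 (merge (leaf 0 363 363) (node 461 (merge (leaf 4 332 332) (leaf 5 365 493))))))))))))))))))))))) (node 461 (merge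 (node 366 (merge (leaf 5 333 334) (leaf 5 365 493))) (merge (node 397 (merge (node 365 (merge (leaf 4 333 333) (node 460 (merge (leaf 5 364 492) (node 431 (merge (leaf 1 428 432) (leaf 2 427 459))))))) (merge (node 365 (merge (leaf 4 333 333) (node 364 (merge (leaf 7 332 332) (node 363 (merge (leaf 0 362 362) (node 399 (merge (leaf 3 363 396) (leaf 3 364 400))))))))) (node 431 (merge (node 460 (merge (leaf 1 428 432) (leaf 2 427 459))) (merge (node 396 (merge (leaf 0 395 395) (leaf 3 396 432))) (node 396 (merge (leaf 0 395 395) (node 493 (merge (leaf 7 364 364) (node 460 (merge (leaf 2 427 459) (node 492 (merge (leaf 5 396 524) (node 463 (merge (leaf 1 460 464) (leaf 1 459 491))))))))))))))))) (node 397 (merge (node 366 (merge (leaf 5 333 334) (node 367 (merge (leaf 6 334 335) (node 368 (merge (leaf 1 365 369) (node 396 (merge (leaf 1 364 365) (leaf 2 363 395))))))))) (merge (node 365 (merge (leaf 4 333 333) (node 366 (merge (leaf 6 333 334) (node 364 (merge (leaf 7 332 332) (node 363 (merge (leaf 0 362 362) (leaf 0 363 399))))))))) (merge (node 366 (merge (leaf 5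 333 334) (node 367 (merge (leaf 6 334 335) (node 368 (merge (leaf 1 365 369) (node 396 (merge (leaf 2 363 395) (leaf 2 364 399))))))))) (node 365 (merge (leaf 4 333 333) (node 364 (merge (leaf 7 332 332) (node 363 (merge (leaf 0 362 362) (node 396 (merge (leaf 3 363 399) (node 395 (merge (leaf 0 394 394) (leaf 0 395 431))))))))))))))))))))))))))))))) nP_142 cP_142 13 (by decide +kernel)
def nP_143 : ℕ := 0x20000000000000000000000040000000400000000000000000000000000000000000000000000000000000000000000000000000000000000000000000000000000000000000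
def cP_143 : ℕ := 0x18000000380000007c000003be00000fbe000007fc00000ffe000001f8000000f0000000e0000000a00000000000000000000000000000000000000000000000000000000000
theorem lP_143 : S nP_143 cP_143 13 := S_of_chk [] trivial (node 398 (merge (node 367 (merge (node 399 (merge (leaf 6 366 494) (node 335 (merge (leaf 5 302 303) (leaf 5 334 431))))) (merge (node 335 (merge (leaf 6 334 366) (node 399 (merge (leaf 5 302 303) (leaf 5 334 431))))) (merge (node 366 (merge (leaf 6 334 335) (node 365 (merge (leaf 7 333 333) (node 494 (merge (leaf 7 365 397) (node 493 (merge (leaf 5 365 461) (leaf 5 397 525))))))))) (node 494 (merge (leaf 6 366 399) (node 365 (merge (leaf 7 365 397) (node 366 (merge (leaf 7 333 333) (node 493 (merge (leaf 5 365 461) (leaf 5 397 525))))))))))))) (merge (node 366 (merge (node 335 (merge (leaf 6 334 367) (node 334 (merge (leaf 6 302 303) (node 461 (merge (leaf 5 333 429) (leaf 5 365 493))))))) (merge (node 365 (merge (leaf 7 333 333) (node 494 (merge (leaf 7 365 397) (node 493 (merge (leaf 5 365 461) (leaf 5 397 525))))))) (node 335 (merge (leaf 6 334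 367) (node 334 (merge (leaf 6 302 303) (node 333 (merge (leaf 7 301 301) (leaf 7 333 365)))))))))) (merge (node 366 (merge (node 335 (merge (leaf 6 334 367) (node 334 (merge (leaf 6 302 303) (node 461 (merge (leaf 5 333 429) (leaf 5 365 493))))))) (merge (node 367 (merge (leaf 6 334 335) (node 494 (merge (leaf 6 366 399) (node 493 (merge (leaf 5 365 461) (leaf 5 397 525))))))) (merge (node 335 (merge (leaf 6 334 367) (node 334 (merge (leaf 6 302 303) (node 301 (merge (leaf 7 301 333) (node 302 (merge (leaf 7 269 269) (node 431 (merge (leaf 4 302 399) (leaf 4 334 463))))))))))) (node 461 (merge (leaf 5 365 493) (node 334 (merge (leaf 5 333 429) (node 301 (merge (leaf 7 301 333) (node 302 (merge (leaf 7 269 269) (node 431 (merge (leaf 4 302 399) (leaf 4 334 463))))))))))))))) (merge (node 366 (merge (node 365 (merge (leaf 7 333 333) (node 494 (merge (leaf 7 365 397) (node 493 (merge (leaf 5 365 461) (leaf 5 397 525))))))) (merge (node 333 (merge (leaf 7 333 365) (node 334 (merge (leaf 7 301 301) (node 303 (merge (leaf 6 302 335) (node 302 (merge (leaf 6 270 271) (node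 431 (merge (leaf 4 302 399) (leaf 4 334 463))))))))))) (node 461 (merge (leaf 5 365 493) (node 334 (merge (leaf 5 333 429) (node 431 (merge (leaf 4 334 463) (node 302 (merge (leaf 4 302 399) (node 271 (merge (leaf 6 270 303) (node 270 (merge (leaf 6 238 239) (node 269 (merge (leaf 7 237 237) (leaf 7 269 301)))))))))))))))))) (merge (node 366 (merge (node 335 (merge (leaf 6 334 367) (node 334 (merge (leaf 6 302 303) (node 461 (merge (leaf 5 333 429) (leaf 5 365 493))))))) (merge (node 367 (merge (leaf 6 334 335) (node 494 (merge (leaf 6 366 399) (node 493 (merge (leaf 5 365 461) (leaf 5 397 525))))))) (merge (node 335 (merge (leaf 6 334 367) (node 334 (merge (leaf 6 302 303) (node 431 (merge (leaf 4 334 463) (node 302 (merge (leaf 4 302 399) (node 397 (merge (leaf 5 301 429) (node 365 (merge (leaf 5 269 270) (leaf 7 365 494))))))))))))) (node 461 (merge (leaf 5 365 493) (node 334 (merge (leaf 5 333 429) (node 431 (merge (leaf 4 334 463) (node 302 (merge (leaf 4 302 399) (node 271 (merge (leaf 6 270 303) (node 270 (merge (leaf 6 238 239) (node 269 (merge (leaf 7 237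 237) (leaf 7 269 301))))))))))))))))))) (merge (node 399 (merge (node 367 (merge (leaf 6 366 494) (node 335 (merge (leaf 5 302 303) (leaf 5 334 431))))) (merge (node 397 (merge (node 365 (merge (leaf 7 365 494) (node 333 (merge (leaf 4 301 301) (leaf 4 333 429))))) (merge (node 365 (merge (node 333 (merge (leaf 4 301 301) (leaf 4 333 429))) (node 364 (merge (leaf 3 364 400) (node 363 (merge (leaf 0 362 362) (leaf 3 363 396))))))) (node 367 (merge (leaf 6 366 494) (node 368 (merge (leaf 2 364 396) (node 369 (merge (leaf 1 366 370) (leaf 2 365 400)))))))))) (merge (node 397 (merge (node 365 (merge (leaf 7 365 494) (node 333 (merge (leaf 4 301 301) (leaf 4 333 429))))) (merge (node 365 (merge (leaf 7 365 494) (node 364 (merge (leaf 3 364 400) (node 363 (merge (leaf 0 362 362) (leaf 3 363 396))))))) (node 428 (merge (node 427 (merge (leaf 1 395 396) (leaf 2 395 429))) (merge (node 429 (merge (leaf 2 395 427) (node 400 (merge (leaf 1 396 397) (leaf 2 396 431))))) (merge (node 396 (merge (leaf 1 395 427) (node 431 (merge (leaf 0 395 395) (leaf 0 396 432))))) (node 400 (merge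 (leaf 1 396 429) (node 432 (merge (leaf 0 397 433) (node 431 (merge (leaf 0 396 396) (node 401 (merge (leaf 1 398 402) (node 369 (merge (leaf 2 365 368) (leaf 2 366 370)))))))))))))))))) (node 400 (merge (node 429 (merge (leaf 1 397 401) (node 428 (merge (leaf 2 395 427) (leaf 2 396 431))))) (merge (node 429 (merge (leaf 1 397 401) (node 428 (merge (leaf 1 396 397) (leaf 2 395 427))))) (merge (node 401 (merge (node 434 (merge (leaf 0 398 433) (node 402 (merge (leaf 1 398 431) (leaf 0 399 435))))) (merge (node 402 (merge (leaf 1 398 431) (node 370 (merge (leaf 2 366 369) (leaf 2 367 371))))) (node 433 (merge (leaf 0 398 434) (node 397 (merge (leaf 0 397 432) (node 369 (merge (leaf 2 365 368) (leaf 2 366 370)))))))))) (node 397 (merge (node 429 (merge (leaf 1 396 428) (node 365 (merge (leaf 4 333 333) (leaf 3 364 364))))) (merge (node 428 (merge (leaf 1 396 429) (node 396 (merge (leaf 1 395 427) (node 368 (merge (leaf 2 364 367) (leaf 2 365 369))))))) (node 432 (merge (leaf 0 397 433) (node 396 (merge (leaf 0 396 431) (node 368 (merge (leaf 2 364 367) (leaf 2 365 369))))))))))))))))))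 (merge (node 397 (merge (node 365 (merge (leaf 7 365 494) (node 333 (merge (leaf 4 301 301) (leaf 7 333 366))))) (merge (node 396 (merge (node 431 (merge (leaf 0 395 395) (node 432 (merge (leaf 3 396 429) (leaf 3 397 433))))) (merge (node 431 (merge (leaf 0 395 395) (node 432 (merge (leaf 0 396 399) (leaf 3 397 433))))) (merge (node 395 (merge (node 394 (merge (leaf 0 394 429) (node 426 (merge (leaf 1 393 425) (leaf 1 394 427))))) (merge (node 394 (merge (leaf 0 394 429) (node 362 (merge (leaf 3 361 361) (leaf 3 362 363))))) (node 427 (merge (leaf 1 394 426) (node 399 (merge (leaf 1 395 428) (node 363 (merge (leaf 3 362 362) (leaf 3 363 364)))))))))) (node 493 (merge (node 525 (merge (leaf 6 429 461) (leaf 5 397 494))) (merge (node 494 (merge (leaf 5 397 525) (node 399 (merge (leaf 6 366 367) (node 432 (merge (leaf 0 396 431) (node 400 (merge (leaf 0 397 433) (node 428 (merge (leaf 1 395 427) (leaf 1 396 429))))))))))) (node 461 (merge (leaf 5 365 366) (node 429 (merge (leaf 7 364 364) (node 431 (merge (leaf 3 396 432) (node 460 (merge (leaf 2 427 459) (node 492 (merge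 (leaf 5 396 524) (node 463 (merge (leaf 1 460 464) (leaf 1 459 491)))))))))))))))))))) (node 396 (merge (node 431 (merge (leaf 0 395 395) (node 432 (merge (leaf 3 396 429) (leaf 3 397 433))))) (merge (node 431 (merge (leaf 0 395 395) (node 432 (merge (leaf 0 396 399) (leaf 3 397 433))))) (merge (node 395 (merge (node 394 (merge (leaf 0 394 429) (node 426 (merge (leaf 1 393 425) (leaf 1 394 427))))) (merge (node 394 (merge (leaf 0 394 429) (node 362 (merge (leaf 3 361 361) (leaf 3 362 363))))) (node 427 (merge (leaf 1 394 426) (node 399 (merge (leaf 1 395 428) (node 363 (merge (leaf 3 362 362) (leaf 3 363 364)))))))))) (node 428 (merge (node 427 (merge (leaf 1 395 399) (node 426 (merge (leaf 2 393 425) (leaf 2 394 429))))) (merge (node 399 (merge (leaf 1 395 427) (node 432 (merge (leaf 0 396 431) (node 400 (merge (leaf 0 397 433) (node 368 (merge (leaf 2 364 367) (leaf 2 365 369))))))))) (merge (node 429 (merge (node 427 (merge (leaf 2 394 426) (leaf 0 427 463))) (node 431 (merge (leaf 3 396 432) (node 460 (merge (leaf 1 427 459) (node 365 (merge (leaf 4 333 333) (leaf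 6 364 492))))))))) (node 429 (merge (node 431 (merge (leaf 3 396 432) (node 460 (merge (leaf 1 427 459) (node 492 (merge (leaf 6 364 365) (leaf 6 396 524))))))) (merge (node 399 (merge (leaf 1 396 400) (node 364 (merge (leaf 3 363 363) (node 332 (merge (leaf 4 300 300) (leaf 4 332 461))))))) (node 399 (merge (leaf 1 396 400) (node 364 (merge (leaf 3 363 363) (node 332 (merge (leaf 4 300 300) (leaf 4 332 461))))))))))))))))))))) (node 429 (merge (node 428 (merge (node 427 (merge (leaf 2 395 399) (leaf 0 427 463))) (merge (node 399 (merge (leaf 2 395 427) (node 400 (merge (leaf 1 397 401) (leaf 2 396 431))))) (merge (node 463 (merge (leaf 0 427 427) (node 464 (merge (leaf 0 428 431) (leaf 3 429 465))))) (node 431 (merge (node 464 (merge (leaf 0 428 463) (node 432 (merge (leaf 0 429 465) (node 396 (merge (leaf 3 395 395) (leaf 3 396 397))))))) (merge (node 464 (merge (leaf 0 428 463) (node 432 (merge (leaf 0 429 465) (node 400 (merge (leaf 2 396 399) (leaf 2 397 401))))))) (merge (node 400 (merge (leaf 2 396 399) (node 432 (merge (leaf 2 397 401) (node 396 (merge (leaf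 3 395 395) (leaf 3 396 397))))))) (node 463 (merge (leaf 0 428 464) (node 399 (merge (leaf 2 396 400) (node 396 (merge (leaf 3 395 395) (node 367 (merge (leaf 5 334 335) (node 368 (merge (leaf 6 335 336) (leaf 2 364 397))))))))))))))))))) (merge (node 461 (merge (node 366 (merge (leaf 5 333 334) (leaf 5 365 493))) (node 460 (merge (node 431 (merge (leaf 2 427 459) (node 432 (merge (leaf 1 428 429) (leaf 1 429 433))))) (merge (node 459 (merge (leaf 2 426 458) (node 491 (merge (leaf 1 458 490) (node 463 (merge (leaf 1 459 492) (node 464 (merge (leaf 3 428 428) (leaf 3 429 465))))))))) (node 463 (merge (node 492 (merge (leaf 1 459 491) (node 524 (merge (leaf 6 428 556) (node 397 (merge (leaf 5 364 365) (leaf 6 396 428))))))) (node 432 (merge (leaf 1 428 431) (node 464 (merge (leaf 2 429 433) (leaf 3 429 465)))))))))))) (merge (node 461 (merge (node 366 (merge (leaf 5 333 334) (leaf 5 365 493))) (node 460 (merge (node 459 (merge (leaf 2 426 458) (node 491 (merge (leaf 1 458 490) (node 463 (merge (leaf 1 459 492) (node 464 (merge (leaf 3 428 428) (leaf 3 429 465)))))))))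 (merge (node 459 (merge (leaf 2 426 458) (node 427 (merge (leaf 3 426 426) (node 428 (merge (leaf 0 427 463) (node 395 (merge (leaf 3 394 394) (node 363 (merge (leaf 4 331 331) (leaf 4 363 492))))))))))) (merge (node 459 (merge (leaf 2 426 458) (node 491 (merge (leaf 1 458 490) (node 492 (merge (leaf 1 459 463) (node 524 (merge (leaf 6 428 556) (node 427 (merge (leaf 4 395 395) (leaf 3 426 426))))))))))) (merge (node 428 (merge (node 463 (merge (leaf 0 427 427) (leaf 3 428 464))) (merge (node 463 (merge (leaf 3 428 464) (node 492 (merge (leaf 1 459 491) (node 397 (merge (leaf 5 364 365) (leaf 6 396 524))))))) (node 427 (merge (leaf 0 426 426) (node 395 (merge (leaf 3 394 394) (node 492 (merge (leaf 7 395 524) (node 363 (merge (leaf 4 331 331) (leaf 7 363 396)))))))))))) (merge (node 459 (merge (leaf 2 426 458) (node 491 (merge (leaf 1 458 490) (node 427 (merge (leaf 3 426 426) (node 428 (merge (leaf 0 427 463) (node 396 (merge (leaf 5 363 364) (leaf 6 395 523))))))))))) (node 428 (merge (node 459 (merge (leaf 2 426 458) (node 491 (merge (leaf 1 458 490) (node 523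 (merge (leaf 6 427 555) (node 396 (merge (leaf 5 363 364) (leaf 5 395 492))))))))) (merge (node 427 (merge (leaf 0 426 426) (node 459 (merge (leaf 1 426 458) (node 395 (merge (leaf 3 394 394) (node 492 (merge (leaf 4 363 363) (leaf 7 395 524))))))))) (merge (node 427 (merge (leaf 0 426 426) (node 459 (merge (leaf 1 426 458) (node 491 (merge (leaf 1 458 490) (node 396 (merge (leaf 5 363 364) (leaf 6 395 523))))))))) (node 427 (merge (leaf 0 426 426) (node 395 (merge (leaf 3 394 394) (node 492 (merge (leaf 7 395 524) (node 363 (merge (leaf 4 331 331) (leaf 7 363 396))))))))))))))))))))) (merge (node 461 (merge (node 366 (merge (leaf 5 333 334) (leaf 5 365 493))) (node 428 (merge (node 427 (merge (leaf 2 395 399) (leaf 0 426 426))) (merge (node 427 (merge (leaf 0 426 426) (node 459 (merge (leaf 1 426 458) (node 431 (merge (leaf 1 427 460) (node 395 (merge (leaf 3 394 394) (leaf 3 395 396))))))))) (node 460 (merge (node 459 (merge (leaf 1 427 431) (node 458 (merge (leaf 2 425 457) (leaf 2 426 461))))) (merge (node 459 (merge (leaf 2 426 458) (node 491 (merge (leaf 1 458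 490) (node 523 (merge (leaf 6 427 555) (node 396 (merge (leaf 5 363 364) (leaf 5 395 492))))))))) (node 431 (merge (leaf 1 428 432) (node 399 (merge (leaf 2 396 400) (node 396 (merge (leaf 3 395 395) (node 364 (merge (leaf 4 332 332) (node 365 (merge (leaf 6 332 333) (node 397 (merge (leaf 6 364 492) (node 363 (merge (leaf 7 331 331) (leaf 3 363 398))))))))))))))))))))))) (merge (node 428 (merge (node 427 (merge (leaf 2 395 399) (leaf 0 427 463))) (merge (node 399 (merge (leaf 2 395 427) (node 400 (merge (leaf 1 397 401) (leaf 2 396 431))))) (merge (node 463 (merge (leaf 0 427 427) (node 464 (merge (leaf 0 428 431) (leaf 3 429 465))))) (node 431 (merge (node 464 (merge (leaf 0 428 463) (node 432 (merge (leaf 0 429 465) (node 400 (merge (leaf 2 396 399) (leaf 2 397 401))))))) (merge (node 464 (merge (leaf 0 428 463) (node 432 (merge (leaf 0 429 465) (node 460 (merge (leaf 1 427 459) (leaf 1 428 461))))))) (merge (node 460 (merge (leaf 1 427 459) (node 461 (merge (leaf 1 428 432) (node 366 (merge (leaf 5 333 334) (leaf 5 365 493))))))) (node 463 (merge (leaf 0 428 464)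 (node 399 (merge (leaf 2 396 400) (node 396 (merge (leaf 3 395 395) (node 366 (merge (leaf 4 334 334) (node 365 (merge (leaf 7 333 333) (node 364 (merge (leaf 0 363 363) (node 461 (merge (leaf 4 332 332) (leaf 5 365 493))))))))))))))))))))))) (node 461 (merge (node 366 (merge (leaf 5 333 334) (leaf 5 365 493))) (merge (node 397 (merge (node 365 (merge (leaf 4 333 333) (node 460 (merge (leaf 5 364 492) (node 431 (merge (leaf 1 428 432) (leaf 2 427 459))))))) (merge (node 365 (merge (leaf 4 333 333) (node 364 (merge (leaf 7 332 332) (node 363 (merge (leaf 0 362 362) (node 399 (merge (leaf 3 363 396) (leaf 3 364 400))))))))) (node 431 (merge (node 460 (merge (leaf 1 428 432) (leaf 2 427 459))) (merge (node 396 (merge (leaf 0 395 395) (leaf 3 396 432))) (node 396 (merge (leaf 0 395 395) (node 493 (merge (leaf 7 364 364) (node 460 (merge (leaf 2 427 459) (node 492 (merge (leaf 5 396 524) (node 463 (merge (leaf 1 460 464) (leaf 1 459 491))))))))))))))))) (node 397 (merge (node 366 (merge (leaf 5 333 334) (node 367 (merge (leaf 6 334 335) (node 368 (merge (leaf 1 365 369)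 (node 396 (merge (leaf 1 364 365) (leaf 2 363 395))))))))) (merge (node 365 (merge (leaf 4 333 333) (node 366 (merge (leaf 6 333 334) (node 364 (merge (leaf 7 332 332) (node 363 (merge (leaf 0 362 362) (leaf 0 363 399))))))))) (merge (node 366 (merge (leaf 5 333 334) (node 367 (merge (leaf 6 334 335) (node 368 (merge (leaf 1 365 369) (node 396 (merge (leaf 2 363 395) (leaf 2 364 399))))))))) (node 365 (merge (leaf 4 333 333) (node 364 (merge (leaf 7 332 332) (node 363 (merge (leaf 0 362 362) (node 396 (merge (leaf 3 363 399) (node 395 (merge (leaf 0 394 394) (leaf 0 395 431)))))))))))))))))))))))))))))))) nP_143 cP_143 13 (by decide +kernel)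
def nP_144 : ℕ := 0x1a0000001000000000000000000000000000000000000000000000000000000000000000000000000000000000000000000000000000000000000000000000000000000000000
def cP_144 : ℕ := 0x50000003f000000ffc00000ff000000018000000fe000000ff000003ff80000ffe000007fc00000ffe000001f8000000f0000000e0000000a00000000000000000000000000000000000000000000000000000000000
theorem lP_144 : S nP_144 cP_144 17 := S_of_chk [(nP_20, cP_20, 10), (nP_141, cP_141, 14), (nP_142, cP_142, 13), (nP_143, cP_143, 13)] ⟨lP_20, lP_141, lP_142, lP_143, trivial⟩ (node 527 (merge (node 591 (merge (node 623 (merge (leaf 6 527 655) (node 526 (merge (leaf 7 494 494) (node 525 (merge (leaf 0 524 524) (leaf 1 524 556))))))) (merge (node 623 (merge (leaf 6 527 655) (node 622 (merge (leaf 5 526 654) (node 495 (merge (leaf 5 494 590) (node 463 (merge (leaf 4 431 431) (leaf 4 463 592))))))))) (node 495 (merge (node 463 (merge (leaf 4 431 431) (leaf 4 463 592))) (merge (node 463 (merge (leaf 4 431 431) (node 462 (merge (leaf 7 430 430) (leaf 7 462 494))))) (node 494 (merge (leaf 7 462 462) (node 492 (merge (leaf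 0 492 493) (node 590 (merge (leaf 5 494 622) (node 589 (merge (leaf 2 556 588) (node 592 (merge (leaf 3 556 556) (node 621 (merge (leaf 1 588 620) (node 525 (merge (leaf 7 492 524) (leaf 6 493 526))))))))))))))))))))) (merge (node 591 (merge (node 623 (merge (leaf 6 527 655) (node 622 (merge (leaf 5 526 654) (node 495 (merge (leaf 5 494 590) (node 463 (merge (leaf 4 431 431) (leaf 4 463 592))))))))) (merge (node 623 (merge (leaf 6 527 655) (node 624 (merge (leaf 4 527 656) (node 592 (merge (leaf 7 495 495) (node 625 (merge (leaf 4 528 657) (node 626 (merge (leaf 3 590 590) (leaf 3 591 627))))))))))) (merge (node 623 (merge (leaf 6 527 655) (node 624 (merge (leaf 4 527 656) (node 622 (merge (leaf 5 526 654) (node 590 (merge (leaf 5 494 495) (node 625 (merge (leaf 3 589 589) (leaf 3 590 626))))))))))) (merge (node 592 (merge (node 624 (merge (leaf 7 495 495) (leaf 7 527 656))) (merge (node 495 (merge (leaf 4 463 463) (node 590 (merge (leaf 5 494 622) (node 589 (merge (leaf 3 556 556) (leaf 2 556 588))))))) (node 624 (merge (leaf 7 527 656) (node 625 (merge (leaf 4 528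 657) (node 590 (merge (leaf 0 589 589) (node 626 (merge (leaf 0 590 593) (leaf 3 591 627)))))))))))) (merge (node 623 (merge (leaf 6 527 655) (node 624 (merge (leaf 4 527 656) (node 592 (merge (leaf 7 495 495) (node 625 (merge (leaf 4 528 657) (node 626 (merge (leaf 3 591 627) (node 594 (merge (leaf 2 591 595) (node 622 (merge (leaf 1 590 593) (leaf 5 526 654))))))))))))))) (node 592 (merge (node 623 (merge (leaf 6 527 655) (node 622 (merge (leaf 5 526 654) (node 593 (merge (leaf 1 590 594) (node 621 (merge (leaf 1 589 590) (leaf 2 588 620))))))))) (merge (node 624 (merge (leaf 7 527 656) (node 625 (merge (leaf 4 528 657) (node 590 (merge (leaf 0 589 589) (node 626 (merge (leaf 0 590 593) (leaf 3 591 627))))))))) (merge (node 623 (merge (leaf 6 527 655) (node 624 (merge (leaf 7 527 656) (node 622 (merge (leaf 5 526 654) (node 621 (merge (leaf 2 589 593) (leaf 2 588 620))))))))) (node 623 (merge (leaf 6 527 655) (node 624 (merge (leaf 7 527 656) (node 625 (merge (leaf 4 528 657) (node 626 (merge (leaf 3 590 590) (leaf 3 591 627))))))))))))))))))) (merge (node 591 (merge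 (node 623 (merge (leaf 6 527 655) (node 526 (merge (leaf 7 494 494) (node 525 (merge (leaf 0 524 524) (leaf 1 524 556))))))) (merge (node 623 (merge (leaf 6 527 655) (node 622 (merge (leaf 5 526 654) (node 495 (merge (leaf 5 494 590) (node 463 (merge (leaf 4 431 431) (leaf 4 463 592))))))))) (node 592 (merge (node 624 (merge (leaf 7 495 495) (leaf 7 527 656))) (merge (node 624 (merge (leaf 7 527 656) (node 625 (merge (leaf 4 528 657) (node 590 (merge (leaf 0 589 589) (node 626 (merge (leaf 0 590 593) (leaf 3 591 627))))))))) (node 495 (merge (leaf 4 463 463) (node 494 (merge (leaf 7 462 462) (node 492 (merge (leaf 0 492 493) (node 590 (merge (leaf 5 494 622) (node 589 (merge (leaf 3 556 556) (node 621 (merge (leaf 1 588 620) (node 525 (merge (leaf 7 492 524) (leaf 6 493 526))))))))))))))))))))) (merge (node 591 (merge (node 623 (merge (leaf 6 527 655) (node 494 (merge (leaf 7 494 526) (node 622 (merge (leaf 5 526 654) (node 495 (merge (leaf 7 462 462) (leaf 5 494 590))))))))) (merge (node 495 (merge (node 592 (merge (leaf 4 463 463) (leaf 7 495 624))) (merge (node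 463 (merge (leaf 4 431 431) (node 462 (merge (leaf 7 430 430) (leaf 7 462 494))))) (node 624 (merge (leaf 7 495 592) (node 623 (merge (leaf 4 527 656) (node 494 (merge (leaf 7 462 462) (leaf 7 494 526)))))))))) (merge (node 592 (merge (node 623 (merge (leaf 6 527 655) (node 622 (merge (leaf 5 526 654) (node 593 (merge (leaf 1 590 594) (node 621 (merge (leaf 1 589 590) (leaf 2 588 620))))))))) (merge (node 624 (merge (leaf 7 527 656) (node 625 (merge (leaf 4 528 657) (node 590 (merge (leaf 0 589 589) (node 626 (merge (leaf 0 590 593) (leaf 3 591 627))))))))) (merge (node 623 (merge (leaf 6 527 655) (node 624 (merge (leaf 7 527 656) (node 622 (merge (leaf 5 526 654) (node 621 (merge (leaf 2 589 593) (leaf 2 588 620))))))))) (node 623 (merge (leaf 6 527 655) (node 624 (merge (leaf 7 527 656) (node 625 (merge (leaf 4 528 657) (node 626 (merge (leaf 3 590 590) (leaf 3 591 627))))))))))))) (node 592 (merge (node 624 (merge (leaf 7 495 495) (leaf 7 527 656))) (merge (node 624 (merge (leaf 7 527 656) (node 625 (merge (leaf 4 528 657) (node 590 (merge (leaf 0 589 589) (node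 626 (merge (leaf 0 590 593) (leaf 3 591 627))))))))) (node 495 (merge (leaf 4 463 463) (node 494 (merge (leaf 7 462 462) (node 492 (merge (leaf 0 492 493) (node 590 (merge (leaf 5 494 622) (node 589 (merge (leaf 2 556 588) (node 621 (merge (leaf 1 588 620) (node 525 (merge (leaf 7 492 524) (leaf 6 493 526)))))))))))))))))))))) (merge (hyp 0) (merge (node 591 (merge (node 623 (merge (leaf 6 527 655) (node 526 (merge (leaf 7 494 494) (node 525 (merge (leaf 0 524 524) (leaf 1 524 556))))))) (merge (node 623 (merge (leaf 6 527 655) (node 624 (merge (leaf 4 527 656) (node 622 (merge (leaf 5 526 654) (node 590 (merge (leaf 5 494 495) (node 625 (merge (leaf 3 589 589) (leaf 3 590 626))))))))))) (node 525 (merge (node 526 (merge (leaf 0 524 524) (leaf 1 524 556))) (merge (node 493 (merge (node 526 (merge (leaf 3 492 492) (leaf 1 524 556))) (merge (node 556 (merge (leaf 1 524 526) (node 461 (merge (leaf 5 460 588) (node 430 (merge (leaf 6 429 462) (node 429 (merge (leaf 6 397 398) (node 428 (merge (leaf 7 396 396) (leaf 7 428 460))))))))))) (node 589 (merge (node 622 (merge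 (leaf 4 493 590) (node 621 (merge (leaf 4 525 654) (node 620 (merge (leaf 5 492 588) (leaf 5 524 652))))))) (node 462 (merge (leaf 6 461 494) (node 461 (merge (leaf 6 429 430) (node 460 (merge (leaf 7 428 428) (leaf 7 460 492)))))))))))) (merge (node 589 (merge (node 526 (merge (leaf 0 524 524) (node 494 (merge (leaf 6 493 621) (node 462 (merge (leaf 4 430 430) (leaf 6 461 493))))))) (merge (node 493 (merge (node 590 (merge (leaf 4 493 622) (node 588 (merge (leaf 2 556 591) (leaf 5 492 620))))) (node 462 (merge (leaf 6 461 494) (node 461 (merge (leaf 6 429 430) (node 460 (merge (leaf 7 428 428) (leaf 7 460 492))))))))) (node 524 (merge (leaf 0 524 526) (node 621 (merge (leaf 7 492 492) (node 654 (merge (leaf 4 525 622) (node 653 (merge (leaf 4 557 686) (node 652 (merge (leaf 5 524 620) (leaf 5 556 684)))))))))))))) (node 589 (merge (node 590 (merge (leaf 2 556 588) (node 622 (merge (leaf 5 494 495) (node 654 (merge (leaf 4 525 621) (leaf 6 558 686))))))) (merge (node 493 (merge (node 494 (merge (leaf 6 461 462) (node 492 (merge (leaf 7 460 460) (leaf 0 492 495)))))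 (merge (node 462 (merge (leaf 6 461 494) (node 461 (merge (leaf 6 429 430) (node 588 (merge (leaf 5 460 556) (leaf 5 492 620))))))) (node 492 (merge (leaf 7 460 460) (node 621 (merge (leaf 7 492 524) (node 620 (merge (leaf 5 492 588) (leaf 5 524 652)))))))))) (merge (node 493 (merge (node 590 (merge (leaf 4 493 622) (node 588 (merge (leaf 2 556 591) (leaf 5 492 620))))) (node 462 (merge (leaf 6 461 494) (node 461 (merge (leaf 6 429 430) (node 460 (merge (leaf 7 428 428) (leaf 7 460 492))))))))) (node 622 (merge (node 590 (merge (leaf 4 493 493) (node 654 (merge (leaf 4 525 621) (leaf 7 557 686))))) (merge (node 493 (merge (leaf 4 493 590) (node 462 (merge (leaf 6 461 494) (node 461 (merge (leaf 6 429 430) (node 460 (merge (leaf 7 428 428) (leaf 7 460 492))))))))) (node 621 (merge (leaf 4 525 654) (node 524 (merge (leaf 7 492 492) (node 653 (merge (leaf 7 524 556) (node 652 (merge (leaf 5 524 620) (leaf 5 556 684))))))))))))))))))))))) (merge (node 525 (merge (node 526 (merge (leaf 0 524 524) (leaf 1 524 556))) (merge (node 493 (merge (node 526 (merge (leaf 3 492 492)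 (leaf 1 524 556))) (merge (node 556 (merge (leaf 1 524 526) (node 461 (merge (leaf 5 460 588) (node 430 (merge (leaf 6 429 462) (node 429 (merge (leaf 6 397 398) (node 428 (merge (leaf 7 396 396) (leaf 7 428 460))))))))))) (node 589 (merge (node 622 (merge (leaf 4 493 590) (node 621 (merge (leaf 4 525 654) (node 620 (merge (leaf 5 492 588) (leaf 5 524 652))))))) (node 462 (merge (leaf 6 461 494) (node 461 (merge (leaf 6 429 430) (node 460 (merge (leaf 7 428 428) (leaf 7 460 492)))))))))))) (merge (node 589 (merge (node 526 (merge (leaf 0 524 524) (node 494 (merge (leaf 6 493 621) (node 462 (merge (leaf 4 430 430) (leaf 6 461 493))))))) (merge (node 493 (merge (node 590 (merge (leaf 4 493 622) (node 588 (merge (leaf 2 556 591) (leaf 5 492 620))))) (node 462 (merge (leaf 6 461 494) (node 461 (merge (leaf 6 429 430) (node 460 (merge (leaf 7 428 428) (leaf 7 460 492))))))))) (node 524 (merge (leaf 0 524 526) (node 621 (merge (leaf 7 492 492) (node 654 (merge (leaf 4 525 622) (node 653 (merge (leaf 4 557 686) (node 652 (merge (leaf 5 524 620) (leaf 5 556 684))))))))))))))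 (node 589 (merge (node 493 (merge (node 590 (merge (leaf 4 493 622) (node 588 (merge (leaf 2 556 591) (leaf 5 492 620))))) (node 462 (merge (leaf 6 461 494) (node 461 (merge (leaf 6 429 430) (node 460 (merge (leaf 7 428 428) (leaf 7 460 492))))))))) (merge (node 493 (merge (node 462 (merge (leaf 6 461 494) (node 461 (merge (leaf 6 429 430) (node 588 (merge (leaf 5 460 556) (leaf 5 492 620))))))) (merge (node 492 (merge (leaf 7 460 460) (node 621 (merge (leaf 7 492 524) (node 620 (merge (leaf 5 492 588) (leaf 5 524 652))))))) (node 462 (merge (leaf 6 461 494) (node 461 (merge (leaf 6 429 430) (node 460 (merge (leaf 7 428 428) (leaf 7 460 492)))))))))) (merge (node 493 (merge (node 462 (merge (leaf 6 461 494) (node 461 (merge (leaf 6 429 430) (node 460 (merge (leaf 7 428 428) (leaf 7 460 492))))))) (merge (node 492 (merge (leaf 7 460 460) (node 621 (merge (leaf 7 492 524) (node 622 (merge (leaf 4 493 590) (leaf 4 525 654))))))) (node 462 (merge (leaf 6 461 494) (node 461 (merge (leaf 6 429 430) (node 590 (merge (leaf 4 493 622) (node 588 (merge (leaf 5 460 556) (leaf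 2 556 591)))))))))))) (merge (node 622 (merge (node 590 (merge (leaf 4 493 493) (node 654 (merge (leaf 4 525 621) (leaf 7 557 686))))) (merge (node 493 (merge (leaf 4 493 590) (node 462 (merge (leaf 6 461 494) (node 461 (merge (leaf 6 429 430) (node 460 (merge (leaf 7 428 428) (leaf 7 460 492))))))))) (node 621 (merge (leaf 4 525 654) (node 524 (merge (leaf 7 492 492) (node 653 (merge (leaf 7 524 556) (node 652 (merge (leaf 5 524 620) (leaf 5 556 684)))))))))))) (merge (node 620 (merge (node 588 (merge (leaf 5 492 493) (node 652 (merge (leaf 6 524 556) (leaf 6 556 684))))) (merge (node 652 (merge (leaf 5 524 621) (node 588 (merge (leaf 6 524 556) (leaf 6 556 684))))) (merge (node 621 (merge (leaf 5 524 652) (node 622 (merge (leaf 4 525 654) (node 590 (merge (leaf 4 493 493) (node 619 (merge (leaf 2 587 591) (leaf 2 586 618))))))))) (node 588 (merge (leaf 5 492 493) (node 591 (merge (leaf 2 556 590) (node 623 (merge (leaf 6 527 655) (node 624 (merge (leaf 4 527 656) (node 622 (merge (leaf 3 588 621) (leaf 5 526 654))))))))))))))) (node 591 (merge (node 590 (merge (leaf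 2 556 588) (node 592 (merge (leaf 3 556 556) (node 624 (merge (leaf 0 589 625) (leaf 7 527 656))))))) (merge (node 623 (merge (leaf 6 527 655) (node 588 (merge (leaf 2 556 590) (node 624 (merge (leaf 4 527 656) (node 622 (merge (leaf 3 588 621) (leaf 5 526 654))))))))) (merge (node 623 (merge (leaf 6 527 655) (node 590 (merge (leaf 2 556 588) (node 592 (merge (leaf 3 556 556) (node 621 (merge (leaf 1 588 620) (node 622 (merge (leaf 1 589 593) (leaf 5 526 654))))))))))) (merge (node 592 (merge (node 590 (merge (leaf 3 556 556) (node 621 (merge (leaf 1 588 620) (node 622 (merge (leaf 1 589 593) (leaf 4 525 654))))))) (merge (node 624 (merge (leaf 7 527 656) (node 625 (merge (leaf 4 528 657) (node 590 (merge (leaf 0 589 589) (node 626 (merge (leaf 0 590 593) (leaf 3 591 627))))))))) (merge (node 623 (merge (leaf 6 527 655) (node 624 (merge (leaf 7 527 656) (node 622 (merge (leaf 5 526 654) (node 621 (merge (leaf 2 589 593) (leaf 2 588 620))))))))) (node 624 (merge (leaf 7 527 656) (node 625 (merge (leaf 4 528 657) (node 590 (merge (leaf 0 589 591) (node 623 (merge (leaf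 3 589 622) (leaf 5 527 655))))))))))))) (node 622 (merge (node 623 (merge (leaf 5 526 654) (leaf 6 527 655))) (merge (node 623 (merge (leaf 6 527 655) (node 624 (merge (leaf 4 527 656) (node 621 (merge (leaf 3 588 588) (node 592 (merge (leaf 2 589 593) (leaf 2 588 620))))))))) (node 621 (merge (leaf 4 525 654) (node 524 (merge (leaf 7 492 492) (node 653 (merge (leaf 7 524 556) (node 652 (merge (leaf 5 524 620) (leaf 5 556 684))))))))))))))))))))))))))) (merge (node 525 (merge (node 526 (merge (leaf 0 524 524) (leaf 1 524 556))) (merge (node 493 (merge (node 526 (merge (leaf 3 492 492) (leaf 1 524 556))) (merge (node 556 (merge (leaf 1 524 526) (node 461 (merge (leaf 5 460 588) (node 430 (merge (leaf 6 429 462) (node 429 (merge (leaf 6 397 398) (node 428 (merge (leaf 7 396 396) (leaf 7 428 460))))))))))) (node 589 (merge (node 622 (merge (leaf 4 493 590) (node 621 (merge (leaf 4 525 654) (node 620 (merge (leaf 5 492 588) (leaf 5 524 652))))))) (node 462 (merge (leaf 6 461 494) (node 461 (merge (leaf 6 429 430) (node 460 (merge (leaf 7 428 428) (leaf 7 460 492))))))))))))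 (merge (node 589 (merge (node 526 (merge (leaf 0 524 524) (node 494 (merge (leaf 6 493 621) (node 462 (merge (leaf 4 430 430) (leaf 6 461 493))))))) (merge (node 493 (merge (node 494 (merge (leaf 6 461 462) (node 492 (merge (leaf 7 460 460) (leaf 0 492 495))))) (node 622 (merge (leaf 4 493 590) (node 621 (merge (leaf 4 525 654) (node 620 (merge (leaf 5 492 588) (leaf 5 524 652))))))))) (merge (node 524 (merge (leaf 0 524 526) (node 621 (merge (leaf 7 492 492) (node 654 (merge (leaf 4 525 622) (node 653 (merge (leaf 4 557 686) (node 652 (merge (leaf 5 524 620) (leaf 5 556 684))))))))))) (node 526 (merge (leaf 0 524 524) (node 493 (merge (leaf 3 492 492) (node 462 (merge (leaf 6 461 494) (node 461 (merge (leaf 6 429 430) (node 428 (merge (leaf 7 428 460) (node 429 (merge (leaf 7 396 396) (node 463 (merge (leaf 3 428 464) (node 495 (merge (leaf 4 431 431) (leaf 4 463 592))))))))))))))))))))) (node 493 (merge (node 495 (merge (node 592 (merge (leaf 4 463 463) (leaf 7 495 624))) (node 492 (merge (leaf 0 492 494) (node 460 (merge (leaf 7 460 589) (node 428 (merge (leaf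 4 396 396) (leaf 4 428 524))))))))) (merge (node 461 (merge (node 428 (merge (leaf 7 428 460) (node 429 (merge (leaf 7 396 396) (node 556 (merge (leaf 5 428 524) (leaf 5 460 588))))))) (merge (node 462 (merge (leaf 6 429 430) (node 589 (merge (leaf 6 461 494) (node 588 (merge (leaf 5 460 556) (leaf 5 492 620))))))) (node 430 (merge (leaf 6 429 462) (node 429 (merge (leaf 6 397 398) (node 428 (merge (leaf 7 396 396) (leaf 7 428 460)))))))))) (merge (node 589 (merge (node 622 (merge (leaf 4 493 590) (node 621 (merge (leaf 4 525 654) (node 620 (merge (leaf 5 492 588) (leaf 5 524 652))))))) (node 494 (merge (leaf 6 461 462) (node 495 (merge (leaf 0 492 492) (node 463 (merge (leaf 4 431 431) (leaf 4 463 592))))))))) (merge (node 589 (merge (node 622 (merge (leaf 4 493 590) (node 621 (merge (leaf 4 525 654) (node 620 (merge (leaf 5 492 588) (leaf 5 524 652))))))) (merge (node 492 (merge (leaf 7 460 460) (node 621 (merge (leaf 7 492 524) (node 622 (merge (leaf 4 493 590) (leaf 4 525 654))))))) (node 460 (merge (leaf 7 460 492) (node 461 (merge (leaf 7 428 428) (node 430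 (merge (leaf 6 429 462) (node 429 (merge (leaf 6 397 398) (node 556 (merge (leaf 5 428 524) (leaf 5 460 588)))))))))))))) (node 492 (merge (node 495 (merge (leaf 0 492 494) (node 463 (merge (leaf 4 431 431) (leaf 4 463 592))))) (merge (node 461 (merge (node 462 (merge (leaf 6 429 430) (node 460 (merge (leaf 7 428 428) (node 463 (merge (leaf 1 460 464) (leaf 1 459 491))))))) (merge (node 428 (merge (leaf 7 428 460) (node 429 (merge (leaf 7 396 396) (node 556 (merge (leaf 5 428 524) (leaf 5 460 588))))))) (node 430 (merge (leaf 6 429 462) (node 429 (merge (leaf 6 397 398) (node 556 (merge (leaf 5 428 524) (leaf 5 460 588)))))))))) (node 459 (merge (node 494 (merge (leaf 0 492 495) (node 458 (merge (leaf 3 458 491) (node 460 (merge (leaf 0 457 457) (leaf 0 458 461))))))) (merge (node 461 (merge (node 430 (merge (leaf 6 429 462) (node 429 (merge (leaf 6 397 398) (node 556 (merge (leaf 5 428 524) (leaf 5 460 588))))))) (merge (node 430 (merge (leaf 6 429 462) (node 429 (merge (leaf 6 397 398) (node 428 (merge (leaf 7 396 396) (leaf 7 428 460))))))) (merge (node 460 (merge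 (leaf 7 428 428) (node 556 (merge (leaf 5 460 588) (node 524 (merge (leaf 7 427 427) (leaf 6 428 429))))))) (node 462 (merge (leaf 6 429 430) (node 460 (merge (leaf 7 428 428) (node 427 (merge (leaf 3 426 426) (node 556 (merge (leaf 7 427 524) (leaf 5 460 588))))))))))))) (merge (node 494 (merge (leaf 0 492 495) (node 491 (merge (leaf 3 458 458) (node 522 (merge (leaf 1 490 523) (node 490 (merge (leaf 1 489 521) (node 524 (merge (leaf 0 489 489) (node 556 (merge (leaf 7 459 588) (node 461 (merge (leaf 5 428 429) (leaf 2 458 462))))))))))))))) (node 494 (merge (leaf 0 492 495) (node 491 (merge (leaf 3 458 458) (node 522 (merge (leaf 1 490 523) (node 490 (merge (leaf 1 489 521) (node 489 (merge (leaf 0 489 524) (node 488 (merge (leaf 2 456 460) (node 456 (merge (leaf 3 455 455) (leaf 3 456 457))))))))))))))))))))))))))))))) (node 462 (merge (node 526 (merge (node 525 (merge (leaf 0 524 524) (leaf 1 524 556))) (node 494 (merge (leaf 4 430 430) (node 591 (merge (leaf 7 462 495) (leaf 7 494 623))))))) (merge (node 495 (merge (node 592 (merge (leaf 4 463 463) (leaf 7 495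 624))) (node 591 (merge (leaf 7 462 494) (node 623 (merge (leaf 6 527 655) (node 622 (merge (leaf 5 494 590) (leaf 5 526 654))))))))) (merge (node 463 (merge (node 495 (merge (leaf 7 430 430) (leaf 4 463 592))) (merge (node 495 (merge (leaf 4 431 431) (leaf 4 463 592))) (node 461 (merge (node 525 (merge (node 526 (merge (leaf 0 524 524) (leaf 1 524 556))) (merge (node 493 (merge (leaf 6 429 430) (node 526 (merge (leaf 3 492 492) (leaf 1 524 556))))) (merge (node 493 (merge (leaf 6 429 430) (node 526 (merge (leaf 3 492 492) (leaf 0 524 524))))) (node 493 (merge (leaf 6 429 430) (node 464 (merge (leaf 1 460 492) (node 429 (merge (leaf 3 428 428) (node 556 (merge (leaf 5 428 524) (leaf 5 460 588))))))))))))) (merge (node 493 (merge (node 492 (merge (leaf 1 460 464) (node 491 (merge (leaf 1 459 460) (leaf 2 458 490))))) (node 525 (merge (leaf 6 429 430) (node 526 (merge (leaf 0 524 524) (leaf 1 524 556))))))) (merge (node 460 (merge (node 491 (merge (leaf 1 459 492) (node 459 (merge (leaf 1 458 490) (node 427 (merge (leaf 3 426 426) (leaf 3 427 428))))))) (merge (node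 432 (merge (leaf 2 428 431) (node 464 (merge (leaf 2 429 433) (node 428 (merge (leaf 3 427 427) (leaf 3 428 429))))))) (node 491 (merge (leaf 1 459 492) (node 459 (merge (leaf 1 458 490) (node 431 (merge (leaf 2 427 430) (leaf 2 428 432)))))))))) (merge (node 428 (merge (node 460 (merge (leaf 3 427 427) (node 525 (merge (leaf 7 428 493) (node 526 (merge (leaf 0 524 524) (leaf 1 524 556))))))) (merge (node 429 (merge (leaf 3 428 464) (node 427 (merge (leaf 0 426 426) (leaf 0 427 430))))) (node 464 (merge (leaf 3 428 429) (node 432 (merge (leaf 2 429 433) (node 460 (merge (leaf 2 428 431) (node 525 (merge (leaf 7 428 493) (node 526 (merge (leaf 0 524 524) (leaf 1 524 556)))))))))))))) (merge (node 460 (merge (node 491 (merge (leaf 1 459 492) (node 459 (merge (leaf 1 458 490) (node 427 (merge (leaf 3 426 426) (leaf 3 427 428))))))) (merge (node 492 (merge (leaf 1 459 491) (node 464 (merge (leaf 1 460 493) (node 432 (merge (leaf 2 428 431) (leaf 2 429 433))))))) (node 432 (merge (leaf 2 428 431) (node 464 (merge (leaf 2 429 433) (node 428 (merge (leaf 3 427 427) (leaf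 3 428 429)))))))))) (node 525 (merge (node 526 (merge (leaf 0 524 524) (leaf 1 524 556))) (merge (node 493 (merge (leaf 6 429 430) (node 526 (merge (leaf 3 492 492) (leaf 1 524 556))))) (merge (node 493 (merge (leaf 6 429 430) (node 526 (merge (leaf 3 492 492) (leaf 0 524 524))))) (node 493 (merge (leaf 6 429 430) (node 428 (merge (leaf 7 428 460) (node 429 (merge (leaf 7 396 396) (node 556 (merge (leaf 5 428 524) (leaf 5 460 588)))))))))))))))))))))) (node 430 (merge (node 526 (merge (leaf 4 430 494) (node 525 (merge (leaf 0 524 524) (leaf 1 524 556))))) (merge (node 526 (merge (leaf 4 430 494) (node 525 (merge (leaf 0 524 524) (node 493 (merge (leaf 6 429 461) (leaf 3 492 492))))))) (merge (node 526 (merge (leaf 4 430 494) (node 525 (merge (leaf 1 524 556) (node 493 (merge (leaf 6 429 461) (leaf 3 492 492))))))) (merge (hyp 1) (merge (hyp 2) (hyp 3)))))))))))))))))))) nP_144 cP_144 17 (by decide +kernel)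
def nP_145 : ℕ := 0x180000001000000000000000000000000000000000000000000000000000000000000000000000000000000000000000000000000000000000000000000000000000000000000
def cP_145 : ℕ := 0x280000003c0000003f000003ff800001ffc00003ffc00000078000000fe000000ff000003ff80000ffe000007fc00000ffe000001f8000000f0000000e0000000a00000000000000000000000000000000000000000000000000000000000
theorem lP_145 : S nP_145 cP_145 18 := S_of_chk [(nP_20, cP_20, 10), (nP_140, cP_140, 12), (nP_144, cP_144, 17)] ⟨lP_20, lP_140, lP_144, trivial⟩ (node 557 (merge (node 558 (merge (node 588 (merge (leaf 1 556 589) (node 556 (merge (leaf 2 524 527) (leaf 1 555 587))))) (merge (node 524 (merge (leaf 3 524 525) (node 556 (merge (leaf 3 523 523) (leaf 2 524 527))))) (node 525 (merge (leaf 3 524 524) (node 622 (merge (node 590 (merge (leaf 7 525 654) (node 493 (merge (leaf 4 461 461) (leaf 7 493 526))))) (merge (node 589 (merge (leaf 1 556 588) (node 654 (merge (leaf 7 525 590) (leaf 4 525 621))))) (merge (node 589 (merge (leaf 1 556 588) (node 621 (merge (leaf 4 525 654) (node 526 (merge (leaf 6 493 494)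 (leaf 6 525 653))))))) (node 589 (merge (leaf 1 556 588) (node 493 (merge (leaf 4 493 590) (node 494 (merge (leaf 6 461 462) (node 526 (merge (leaf 6 493 621) (node 460 (merge (leaf 7 460 492) (node 461 (merge (leaf 7 428 428) (leaf 4 429 429)))))))))))))))))))))) (merge (node 592 (merge (node 527 (merge (node 495 (merge (leaf 4 463 463) (leaf 7 495 624))) (node 525 (merge (node 558 (merge (leaf 3 524 524) (leaf 2 524 556))) (merge (node 526 (merge (leaf 0 524 524) (leaf 1 524 556))) (merge (node 524 (merge (leaf 0 524 526) (leaf 3 524 558))) (node 556 (merge (leaf 1 524 526) (leaf 2 524 558))))))))) (merge (node 558 (merge (leaf 0 557 593) (node 524 (merge (leaf 3 524 525) (node 556 (merge (leaf 3 523 523) (leaf 0 556 591))))))) (node 624 (merge (node 527 (merge (leaf 7 495 495) (leaf 7 527 656))) (node 625 (merge (leaf 4 528 657) (node 626 (merge (node 591 (merge (leaf 3 591 627) (node 590 (merge (leaf 0 589 589) (leaf 0 590 593))))) (merge (node 623 (merge (leaf 5 527 655) (node 594 (merge (leaf 2 591 595) (node 622 (merge (leaf 2 590 593) (node 590 (merge (leaf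 3 589 589) (leaf 3 590 591))))))))) (node 623 (merge (leaf 5 527 655) (node 659 (merge (leaf 0 623 658) (node 627 (merge (leaf 0 624 660) (node 595 (merge (leaf 2 591 594) (leaf 2 592 596))))))))))))))))))) (merge (node 558 (merge (node 524 (merge (leaf 3 524 525) (node 556 (merge (leaf 3 523 523) (node 592 (merge (leaf 0 556 591) (leaf 0 557 593))))))) (merge (node 588 (merge (leaf 1 556 589) (node 556 (merge (leaf 1 555 587) (node 592 (merge (leaf 0 556 591) (leaf 0 557 593))))))) (node 525 (merge (leaf 3 524 524) (node 622 (merge (node 590 (merge (leaf 7 525 654) (node 493 (merge (leaf 4 461 461) (leaf 7 493 526))))) (merge (node 589 (merge (leaf 1 556 588) (node 654 (merge (leaf 7 525 590) (leaf 4 525 621))))) (merge (node 589 (merge (leaf 1 556 588) (node 621 (merge (leaf 4 525 654) (node 526 (merge (leaf 6 493 494) (leaf 6 525 653))))))) (node 589 (merge (leaf 1 556 588) (node 493 (merge (leaf 4 493 590) (node 494 (merge (leaf 6 461 462) (node 526 (merge (leaf 6 493 621) (node 460 (merge (leaf 7 460 492) (node 461 (merge (leaf 7 428 428) (leaf 4 429 429))))))))))))))))))))))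 (merge (node 592 (merge (node 558 (merge (leaf 0 557 593) (node 527 (merge (leaf 2 524 556) (node 495 (merge (leaf 4 463 463) (leaf 7 495 624))))))) (merge (node 558 (merge (leaf 0 557 593) (node 588 (merge (leaf 1 556 589) (node 556 (merge (leaf 1 555 587) (leaf 0 556 591))))))) (merge (node 624 (merge (node 527 (merge (leaf 7 495 495) (leaf 7 527 656))) (node 625 (merge (leaf 4 528 657) (node 626 (merge (node 591 (merge (leaf 3 591 627) (node 590 (merge (leaf 0 589 589) (leaf 0 590 593))))) (merge (node 623 (merge (leaf 5 527 655) (node 594 (merge (leaf 2 591 595) (node 622 (merge (leaf 2 590 593) (node 590 (merge (leaf 3 589 589) (leaf 3 590 591))))))))) (node 623 (merge (leaf 5 527 655) (node 659 (merge (leaf 0 623 658) (node 627 (merge (leaf 0 624 660) (node 595 (merge (leaf 2 591 594) (leaf 2 592 596)))))))))))))))) (node 624 (merge (node 527 (merge (leaf 7 495 495) (leaf 7 527 656))) (merge (node 657 (merge (leaf 4 528 625) (node 656 (merge (leaf 4 560 689) (node 655 (merge (leaf 5 527 623) (leaf 5 559 687))))))) (node 625 (merge (leaf 4 528 657) (node 626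 (merge (node 623 (merge (leaf 5 527 655) (node 659 (merge (leaf 0 623 658) (node 627 (merge (leaf 0 624 660) (node 595 (merge (leaf 2 591 594) (leaf 2 592 596))))))))) (merge (node 627 (merge (leaf 3 591 591) (node 660 (merge (leaf 0 624 659) (node 628 (merge (leaf 0 625 661) (node 596 (merge (leaf 2 592 595) (leaf 2 593 597))))))))) (node 527 (merge (leaf 7 495 495) (node 623 (merge (leaf 5 527 655) (node 590 (merge (leaf 3 590 591) (node 622 (merge (leaf 3 589 589) (node 654 (merge (leaf 6 526 558) (leaf 1 621 653))))))))))))))))))))))) (merge (node 558 (merge (node 592 (merge (leaf 0 557 593) (node 556 (merge (leaf 2 524 527) (leaf 0 556 591))))) (merge (node 588 (merge (leaf 1 556 589) (node 556 (merge (leaf 2 524 527) (leaf 1 555 587))))) (merge (node 588 (merge (leaf 1 556 589) (node 556 (merge (leaf 1 555 587) (node 592 (merge (leaf 0 556 591) (leaf 0 557 593))))))) (node 592 (merge (leaf 0 557 593) (node 589 (merge (leaf 1 556 588) (node 494 (merge (node 525 (merge (leaf 3 524 524) (node 462 (merge (leaf 6 461 493) (leaf 5 461 526))))) (merge (node 526 (merge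 (leaf 5 461 462) (node 621 (merge (leaf 5 493 590) (leaf 6 525 653))))) (merge (node 525 (merge (leaf 3 524 524) (node 493 (merge (leaf 6 461 462) (node 460 (merge (leaf 7 460 492) (node 461 (merge (leaf 7 428 428) (leaf 4 461 590))))))))) (node 525 (merge (leaf 3 524 524) (node 621 (merge (leaf 6 493 526) (node 620 (merge (leaf 5 524 652) (node 590 (merge (leaf 1 588 591) (node 653 (merge (leaf 6 557 685) (node 493 (merge (leaf 4 461 461) (node 492 (merge (leaf 7 460 460) (node 527 (merge (leaf 0 492 495) (node 656 (merge (leaf 7 527 624) (node 654 (merge (leaf 3 620 655) (leaf 4 557 686))))))))))))))))))))))))))))))))) (merge (node 558 (merge (node 592 (merge (leaf 0 557 593) (node 556 (merge (leaf 2 524 527) (leaf 0 556 591))))) (merge (node 524 (merge (leaf 3 524 525) (node 556 (merge (leaf 3 523 523) (leaf 2 524 527))))) (merge (node 524 (merge (leaf 3 524 525) (node 556 (merge (leaf 3 523 523) (node 592 (merge (leaf 0 556 591) (leaf 0 557 593))))))) (node 592 (merge (leaf 0 557 593) (node 622 (merge (node 525 (merge (leaf 3 524 524) (node 590 (merge (leaf 7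 525 654) (node 493 (merge (leaf 4 461 461) (leaf 7 493 526))))))) (merge (node 527 (merge (node 624 (merge (leaf 7 495 495) (leaf 7 527 656))) (merge (node 590 (merge (leaf 6 526 654) (node 495 (merge (leaf 5 462 463) (leaf 5 494 591))))) (node 654 (merge (leaf 6 526 590) (node 624 (merge (leaf 7 527 656) (node 625 (merge (leaf 4 528 657) (node 623 (merge (leaf 5 526 591) (leaf 1 621 653)))))))))))) (merge (node 623 (merge (node 655 (merge (leaf 6 527 591) (leaf 5 527 624))) (merge (node 624 (merge (leaf 5 527 655) (node 527 (merge (leaf 7 495 495) (leaf 7 527 656))))) (merge (node 591 (merge (leaf 6 527 655) (node 527 (merge (leaf 5 526 654) (node 494 (merge (leaf 7 494 526) (node 495 (merge (leaf 7 462 462) (leaf 4 463 463))))))))) (node 527 (merge (node 624 (merge (leaf 7 495 495) (leaf 7 527 656))) (merge (node 495 (merge (leaf 4 463 463) (node 591 (merge (leaf 5 526 654) (node 494 (merge (leaf 7 462 462) (leaf 7 494 526))))))) (node 624 (merge (leaf 7 527 656) (node 625 (merge (leaf 4 528 657) (node 654 (merge (leaf 5 526 591) (leaf 1 621 653)))))))))))))) (node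 526 (merge (node 525 (merge (leaf 3 524 524) (node 590 (merge (leaf 7 493 493) (node 623 (merge (leaf 4 526 655) (node 591 (merge (leaf 4 494 494) (node 621 (merge (leaf 2 588 620) (leaf 5 525 653))))))))))) (merge (node 527 (merge (node 624 (merge (leaf 7 495 495) (leaf 7 527 656))) (node 525 (merge (leaf 3 524 524) (node 493 (merge (leaf 3 492 492) (node 461 (merge (leaf 4 429 429) (leaf 4 461 590))))))))) (merge (node 624 (merge (node 527 (merge (leaf 7 495 495) (leaf 7 527 656))) (merge (node 655 (merge (leaf 5 527 623) (node 656 (merge (leaf 5 559 687) (node 688 (merge (leaf 7 559 591) (node 689 (merge (leaf 4 560 657) (leaf 4 592 721))))))))) (node 527 (merge (leaf 7 495 495) (node 625 (merge (leaf 4 528 657) (node 623 (merge (leaf 5 527 655) (node 591 (merge (leaf 7 494 494) (node 626 (merge (leaf 3 590 590) (leaf 3 591 627)))))))))))))) (node 494 (merge (node 525 (merge (leaf 3 524 524) (node 462 (merge (leaf 5 429 430) (leaf 4 462 591))))) (merge (node 624 (merge (node 527 (merge (leaf 7 495 495) (leaf 7 527 656))) (merge (node 657 (merge (leaf 4 528 625)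 (node 656 (merge (leaf 4 560 689) (node 655 (merge (leaf 5 527 623) (leaf 5 559 687))))))) (node 527 (merge (leaf 7 495 495) (node 623 (merge (leaf 7 494 591) (leaf 5 527 655)))))))) (node 495 (merge (node 525 (merge (leaf 3 524 524) (node 462 (merge (leaf 5 429 430) (node 463 (merge (leaf 6 430 431) (node 461 (merge (leaf 7 429 429) (node 460 (merge (leaf 0 459 459) (node 428 (merge (leaf 3 427 427) (leaf 7 428 493))))))))))))) (node 624 (merge (leaf 7 495 527) (node 657 (merge (leaf 4 528 625) (node 656 (merge (leaf 4 560 689) (node 623 (merge (leaf 0 621 621) (leaf 5 527 655)))))))))))))))))))))))))))) (merge (node 527 (merge (node 525 (merge (node 558 (merge (leaf 3 524 524) (leaf 2 524 556))) (merge (node 526 (merge (leaf 0 524 524) (leaf 1 524 556))) (merge (node 524 (merge (leaf 0 524 526) (leaf 3 524 558))) (node 556 (merge (leaf 1 524 526) (leaf 2 524 558))))))) (merge (node 558 (merge (leaf 2 524 556) (node 592 (merge (leaf 0 557 593) (node 624 (merge (leaf 7 495 495) (leaf 7 527 656))))))) (merge (hyp 0) (node 525 (merge (node 524 (merge (leaf 0 524 526)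 (leaf 3 524 558))) (merge (node 558 (merge (leaf 3 524 524) (node 592 (merge (leaf 0 557 593) (node 624 (merge (leaf 7 495 495) (leaf 7 527 656))))))) (merge (node 462 (merge (node 526 (merge (leaf 0 524 524) (node 494 (merge (leaf 4 430 430) (node 591 (merge (leaf 7 462 495) (leaf 7 494 623))))))) (merge (node 526 (merge (leaf 0 524 524) (node 493 (merge (leaf 3 492 492) (node 430 (merge (leaf 6 429 461) (leaf 5 429 494))))))) (merge (node 526 (merge (leaf 0 524 524) (node 493 (merge (leaf 3 492 492) (node 494 (merge (leaf 6 461 589) (node 591 (merge (leaf 7 462 495) (leaf 7 494 623))))))))) (merge (node 495 (merge (node 592 (merge (leaf 4 463 463) (leaf 7 495 624))) (node 494 (merge (leaf 7 462 591) (node 493 (merge (leaf 0 492 492) (node 525 (merge (leaf 6 461 589) (node 430 (merge (leaf 4 398 398) (leaf 6 429 461))))))))))) (node 526 (merge (leaf 0 524 524) (node 493 (merge (leaf 3 492 492) (node 461 (merge (leaf 6 429 430) (node 428 (merge (leaf 7 428 460) (node 429 (merge (leaf 7 396 396) (node 463 (merge (leaf 3 428 464) (node 495 (merge (leaf 4 431 431) (leaf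 4 463 592)))))))))))))))))))) (node 589 (merge (node 588 (merge (leaf 1 556 558) (node 620 (merge (leaf 5 492 493) (node 652 (merge (leaf 5 524 621) (leaf 6 556 684))))))) (merge (node 558 (merge (leaf 1 556 588) (node 592 (merge (leaf 0 557 593) (node 624 (merge (leaf 7 495 495) (leaf 7 527 656))))))) (node 493 (merge (node 492 (merge (leaf 3 492 526) (node 460 (merge (leaf 7 460 589) (node 428 (merge (leaf 4 396 396) (leaf 7 428 461))))))) (merge (node 494 (merge (leaf 6 461 462) (node 495 (merge (leaf 0 492 492) (node 463 (merge (leaf 4 431 431) (leaf 4 463 592))))))) (node 494 (merge (leaf 6 461 462) (node 621 (merge (leaf 6 493 526) (node 654 (merge (leaf 4 525 622) (node 653 (merge (leaf 4 557 686) (node 652 (merge (leaf 5 524 620) (leaf 5 556 684))))))))))))))))))))))))) (merge (hyp 1) (hyp 2)))))))))) nP_145 cP_145 18 (by decide +kernel)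

end Crest.Agent.H26Snaky
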