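import Crest.Agent.H26SnP000
import Crest.Agent.H26SnP002
import Crest.Agent.H26SnP008
import Crest.Agent.H26SnP009
import Crest.Agent.H26SnP010

/-! certificate data for S0047, part P 11 (computer generated) -/

set_option autoImplicit false
set_option maxRecDepth 100000

namespace Crest.Agent.H26Snaky

open T

def nP_146 : ℕ := 0x100000001000000000000000000000000000000000000000000000000000000000000000000000000000000000000000000000000000000000000000000000000000000000000
def cP_146 : ℕ := 0x500000007f0000007f000001ffe00003ffe00001ffc00003ffe00003ffe00003fff80001effc0001cffc0000effc0000fffc0001fff80000ffe00000ffe000001f8000000f0000000e0000000a00000000000000000000000000000000000000000000000000000000000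
theorem lP_146 : S nP_146 cP_146 19 := S_of_chk [(nP_106, cP_106, 11), (nP_3, cP_3, 10), (nP_5, cP_5, 10), (nP_107, cP_107, 10), (nP_108, cP_108, 11), (nP_109, cP_109, 12), (nP_110, cP_110, 12), (nP_111, cP_111, 13), (nP_112, cP_112, 15), (nP_113, cP_113, 12), (nP_114, cP_114, 17), (nP_116, cP_116, 17), (nP_117, cP_117, 17), (nP_118, cP_118, 16), (nP_121, cP_121, 15), (nP_36, cP_36, 11), (nP_125, cP_125, 15), (nP_126, cP_126, 16), (nP_129, cP_129, 14), (nP_138, cP_138, 18), (nP_145, cP_145, 18)] ⟨lP_106, lP_3, lP_5, lP_107, lP_108, lP_109, lP_110, lP_111, lP_112, lP_113, lP_114, lP_116, lP_117, lP_118, lP_121, lP_36, lP_125, lP_126, lP_129, lP_138, lP_145, trivial⟩ (node 559 (merge (hyp 0) (merge (node 561 (merge (node 562 (merge (node 563 (merge (leaf 3 527 527) (node 595 (merge (leaf 0 559 594) (leaf 0 560 596))))) (merge (node 563 (merge (leaf 3 527 527) (node 531 (merge (leaf 2 527 530) (leaf 2 528 532))))) (node 594 (merge (leaf 0 559 595) (node 593 (merge (leaf 0 558 558) (node 625 (merge (leaf 7 528 657) (node 530 (merge (leaf 5 497 498) (leaf 2 527 531))))))))))))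 (merge (node 526 (merge (node 525 (merge (leaf 0 525 527) (leaf 3 525 558))) (merge (node 558 (merge (leaf 3 525 525) (node 590 (merge (leaf 1 557 589) (node 591 (merge (leaf 1 558 562) (node 623 (merge (leaf 4 494 494) (leaf 6 527 655))))))))) (node 562 (merge (leaf 3 526 527) (node 591 (merge (leaf 1 558 590) (node 563 (merge (leaf 1 559 592) (node 531 (merge (leaf 2 527 530) (leaf 2 528 532)))))))))))) (merge (node 558 (merge (node 589 (merge (leaf 1 557 590) (node 557 (merge (leaf 1 556 588) (node 593 (merge (leaf 0 557 592) (leaf 0 558 594))))))) (merge (node 525 (merge (leaf 3 525 526) (node 557 (merge (leaf 3 524 524) (node 593 (merge (leaf 0 557 592) (leaf 0 558 594))))))) (node 590 (merge (leaf 1 557 589) (node 591 (merge (leaf 1 558 562) (node 623 (merge (leaf 6 527 655) (node 526 (merge (leaf 4 494 494) (leaf 3 525 525)))))))))))) (merge (node 558 (merge (node 589 (merge (leaf 1 557 590) (node 557 (merge (leaf 1 556 588) (node 593 (merge (leaf 0 557 592) (leaf 0 558 594))))))) (merge (node 525 (merge (leaf 3 525 526) (node 557 (merge (leaf 3 524 524) (node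 593 (merge (leaf 0 557 592) (leaf 0 558 594))))))) (merge (node 589 (merge (leaf 1 557 590) (node 557 (merge (leaf 1 556 588) (node 525 (merge (leaf 3 524 524) (leaf 3 525 526))))))) (node 590 (merge (leaf 1 557 589) (node 591 (merge (node 526 (merge (leaf 3 525 525) (node 494 (merge (leaf 4 462 462) (leaf 4 494 623))))) (merge (node 593 (merge (leaf 0 558 594) (node 623 (merge (leaf 6 527 655) (node 625 (merge (leaf 7 528 657) (node 626 (merge (leaf 0 590 592) (leaf 3 590 624))))))))) (node 593 (merge (leaf 0 558 594) (node 625 (merge (leaf 7 528 657) (node 592 (merge (leaf 0 590 626) (node 622 (merge (leaf 1 589 621) (node 654 (merge (leaf 6 526 527) (leaf 6 558 686)))))))))))))))))))) (node 562 (merge (node 527 (merge (leaf 3 526 526) (leaf 3 527 563))) (node 594 (merge (leaf 0 559 595) (node 530 (merge (leaf 2 527 531) (node 625 (merge (node 657 (merge (leaf 7 528 593) (leaf 5 529 626))) (merge (node 591 (merge (leaf 1 558 590) (node 623 (merge (leaf 6 527 655) (node 626 (merge (leaf 5 529 657) (node 659 (merge (leaf 4 530 627) (node 658 (merge (leaf 0 623 624)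 (leaf 4 562 691))))))))))) (node 498 (merge (leaf 5 497 593) (node 467 (merge (leaf 6 466 499) (node 466 (merge (leaf 6 434 435) (node 465 (merge (leaf 7 433 433) (leaf 7 465 497))))))))))))))))))))))) (merge (node 527 (merge (node 495 (merge (node 592 (merge (leaf 4 463 463) (leaf 7 495 624))) (merge (node 463 (merge (leaf 4 431 431) (node 590 (merge (leaf 5 462 558) (node 591 (merge (leaf 5 494 622) (node 462 (merge (leaf 7 430 430) (leaf 7 462 494))))))))) (node 591 (merge (node 623 (merge (leaf 6 527 655) (node 622 (merge (leaf 5 494 590) (leaf 5 526 654))))) (merge (node 624 (merge (leaf 7 495 592) (node 623 (merge (leaf 6 527 655) (leaf 4 527 656))))) (node 592 (merge (leaf 4 495 624) (node 590 (merge (leaf 5 494 622) (node 589 (merge (leaf 2 557 561) (leaf 2 556 588))))))))))))) (merge (node 558 (merge (node 557 (merge (leaf 2 524 556) (node 592 (merge (leaf 0 557 593) (node 624 (merge (leaf 7 495 495) (leaf 7 527 656))))))) (merge (node 557 (merge (leaf 2 524 556) (node 589 (merge (leaf 1 556 588) (node 561 (merge (leaf 1 557 590) (node 562 (merge (leaf 3 526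 526) (leaf 3 527 563))))))))) (node 561 (merge (node 562 (merge (leaf 3 526 526) (leaf 3 527 563))) (node 590 (merge (leaf 1 557 589) (node 622 (merge (leaf 6 526 654) (node 495 (merge (leaf 5 462 463) (leaf 5 494 591)))))))))))) (merge (node 591 (merge (node 623 (merge (leaf 6 527 655) (node 526 (merge (leaf 7 494 494) (node 561 (merge (leaf 0 525 525) (leaf 3 526 562))))))) (merge (node 623 (merge (leaf 6 527 655) (node 622 (merge (leaf 5 526 654) (node 495 (merge (leaf 5 494 590) (node 463 (merge (leaf 4 431 431) (leaf 4 463 592))))))))) (node 495 (merge (node 592 (merge (leaf 4 463 463) (leaf 7 495 624))) (merge (node 463 (merge (leaf 4 431 431) (node 462 (merge (leaf 7 430 430) (leaf 7 462 494))))) (node 592 (merge (leaf 4 495 624) (node 590 (merge (leaf 5 494 622) (node 561 (merge (leaf 1 558 562) (leaf 2 557 589))))))))))))) (merge (node 591 (merge (node 623 (merge (leaf 6 527 655) (node 526 (merge (leaf 7 494 494) (node 561 (merge (leaf 0 525 525) (leaf 3 526 562))))))) (merge (node 623 (merge (leaf 6 527 655) (node 622 (merge (leaf 5 526 654) (node 495 (merge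 (leaf 5 494 590) (node 463 (merge (leaf 4 431 431) (leaf 4 463 592))))))))) (node 558 (merge (node 557 (merge (leaf 2 524 556) (node 592 (merge (leaf 0 557 593) (node 624 (merge (leaf 7 495 495) (leaf 7 527 656))))))) (merge (node 557 (merge (leaf 2 524 556) (node 525 (merge (leaf 3 524 524) (node 561 (merge (leaf 0 525 526) (node 562 (merge (leaf 3 527 563) (leaf 1 558 590))))))))) (node 495 (merge (node 590 (merge (leaf 5 462 463) (node 622 (merge (leaf 5 494 591) (leaf 6 526 654))))) (merge (node 463 (merge (leaf 4 431 431) (node 462 (merge (leaf 7 430 430) (leaf 7 462 494))))) (node 494 (merge (leaf 7 462 462) (node 493 (merge (leaf 0 492 492) (node 590 (merge (leaf 5 494 622) (node 526 (merge (leaf 7 461 461) (node 561 (merge (leaf 0 525 525) (leaf 1 558 562)))))))))))))))))))) (merge (node 558 (merge (node 557 (merge (leaf 2 524 556) (node 592 (merge (leaf 0 557 593) (node 624 (merge (leaf 7 495 495) (leaf 7 527 656))))))) (merge (node 557 (merge (leaf 2 524 556) (node 589 (merge (leaf 1 556 588) (node 561 (merge (leaf 1 557 590) (node 526 (merge (leaf 3 525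 525) (leaf 3 526 562))))))))) (node 526 (merge (node 561 (merge (leaf 3 525 525) (leaf 3 526 562))) (merge (node 561 (merge (leaf 3 526 562) (node 590 (merge (leaf 1 557 589) (node 495 (merge (leaf 5 462 463) (leaf 6 494 622))))))) (node 525 (merge (leaf 0 524 524) (node 493 (merge (leaf 3 492 492) (node 590 (merge (leaf 7 493 622) (node 461 (merge (leaf 4 429 429) (leaf 7 461 494))))))))))))))) (merge (hyp 1) (merge (node 558 (merge (node 557 (merge (leaf 2 524 556) (node 592 (merge (leaf 0 557 593) (node 495 (merge (leaf 4 463 463) (leaf 7 495 624))))))) (merge (node 526 (merge (node 557 (merge (leaf 2 524 556) (node 589 (merge (leaf 1 556 588) (node 621 (merge (leaf 6 525 653) (node 494 (merge (leaf 5 461 462) (leaf 5 493 590))))))))) (merge (node 525 (merge (leaf 0 524 524) (node 493 (merge (leaf 3 492 492) (node 590 (merge (leaf 7 493 622) (node 461 (merge (leaf 4 429 429) (leaf 7 461 494))))))))) (merge (node 557 (merge (leaf 2 524 556) (node 589 (merge (leaf 1 556 588) (node 621 (merge (leaf 6 525 653) (node 494 (merge (leaf 5 461 462) (leaf 6 493 525)))))))))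 (node 525 (merge (leaf 0 524 524) (node 557 (merge (leaf 1 524 556) (node 493 (merge (leaf 3 492 492) (node 590 (merge (leaf 4 461 461) (leaf 7 493 622))))))))))))) (node 591 (merge (node 623 (merge (leaf 6 527 655) (node 622 (merge (leaf 5 526 654) (node 495 (merge (leaf 5 494 590) (node 463 (merge (leaf 4 431 431) (leaf 4 463 592))))))))) (merge (node 623 (merge (leaf 6 527 655) (node 494 (merge (leaf 7 494 526) (node 495 (merge (leaf 7 462 462) (node 463 (merge (leaf 4 431 431) (leaf 4 463 592))))))))) (merge (node 623 (merge (leaf 6 527 655) (node 526 (merge (leaf 7 494 494) (node 525 (merge (leaf 0 524 524) (node 493 (merge (leaf 3 492 492) (node 622 (merge (leaf 7 493 590) (leaf 5 526 654))))))))))) (node 495 (merge (node 592 (merge (leaf 4 463 463) (leaf 7 495 624))) (merge (node 463 (merge (leaf 4 431 431) (leaf 5 462 590))) (node 494 (merge (leaf 7 462 462) (node 592 (merge (leaf 7 495 624) (node 590 (merge (leaf 5 494 622) (node 589 (merge (leaf 2 556 588) (node 621 (merge (leaf 5 493 526) (leaf 1 588 620))))))))))))))))))))) (merge (hyp 2) (hyp 3))))))))))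 (merge (node 561 (merge (node 526 (merge (node 525 (merge (leaf 0 525 527) (leaf 3 525 558))) (merge (node 558 (merge (leaf 3 525 525) (node 590 (merge (leaf 1 557 589) (node 591 (merge (leaf 1 558 562) (node 623 (merge (leaf 4 494 494) (leaf 6 527 655))))))))) (node 562 (merge (leaf 3 526 527) (node 591 (merge (leaf 1 558 590) (node 563 (merge (leaf 1 559 592) (node 531 (merge (leaf 2 527 530) (leaf 2 528 532)))))))))))) (merge (node 558 (merge (node 589 (merge (leaf 1 557 590) (node 557 (merge (leaf 1 556 588) (node 593 (merge (leaf 0 557 592) (leaf 0 558 594))))))) (merge (node 525 (merge (leaf 3 525 526) (node 557 (merge (leaf 3 524 524) (node 593 (merge (leaf 0 557 592) (leaf 0 558 594))))))) (node 590 (merge (leaf 1 557 589) (node 591 (merge (leaf 1 558 562) (node 623 (merge (leaf 6 527 655) (node 526 (merge (leaf 4 494 494) (leaf 3 525 525)))))))))))) (merge (node 558 (merge (node 589 (merge (leaf 1 557 590) (node 557 (merge (leaf 1 556 588) (node 593 (merge (leaf 0 557 592) (leaf 0 558 594))))))) (merge (node 525 (merge (leaf 3 525 526) (node 557 (merge (leaf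 3 524 524) (node 593 (merge (leaf 0 557 592) (leaf 0 558 594))))))) (merge (node 589 (merge (leaf 1 557 590) (node 557 (merge (leaf 1 556 588) (node 525 (merge (leaf 3 524 524) (leaf 3 525 526))))))) (node 590 (merge (leaf 1 557 589) (node 495 (merge (node 526 (merge (leaf 3 525 525) (node 463 (merge (leaf 6 462 494) (leaf 5 462 527))))) (merge (node 527 (merge (leaf 5 462 463) (node 622 (merge (leaf 5 494 591) (leaf 6 526 654))))) (merge (node 526 (merge (leaf 3 525 525) (node 494 (merge (leaf 6 462 463) (node 461 (merge (leaf 7 461 493) (node 462 (merge (leaf 7 429 429) (leaf 4 462 591))))))))) (node 593 (merge (leaf 0 558 594) (node 657 (merge (leaf 7 528 625) (node 526 (merge (leaf 3 525 525) (node 622 (merge (leaf 6 494 527) (node 621 (merge (leaf 5 525 653) (node 591 (merge (leaf 1 589 592) (node 654 (merge (leaf 6 558 686) (node 655 (merge (leaf 3 621 656) (leaf 4 558 687))))))))))))))))))))))))))) (node 562 (merge (node 563 (merge (leaf 3 527 527) (node 595 (merge (leaf 0 559 594) (leaf 0 560 596))))) (merge (node 563 (merge (leaf 3 527 527) (node 531 (merge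 (leaf 2 527 530) (leaf 2 528 532))))) (node 594 (merge (leaf 0 559 595) (node 530 (merge (leaf 2 527 531) (node 626 (merge (node 659 (merge (leaf 4 530 627) (node 658 (merge (leaf 4 562 691) (node 657 (merge (leaf 5 529 625) (leaf 5 561 689))))))) (merge (node 625 (merge (leaf 5 529 657) (node 498 (merge (leaf 5 497 593) (node 467 (merge (leaf 6 466 499) (node 466 (merge (leaf 6 434 435) (node 465 (merge (leaf 7 433 433) (leaf 7 465 497))))))))))) (merge (node 659 (merge (leaf 4 530 627) (node 658 (merge (leaf 4 562 691) (node 593 (merge (leaf 7 561 690) (node 498 (merge (leaf 5 465 466) (leaf 5 497 625))))))))) (node 659 (merge (leaf 4 530 627) (node 658 (merge (leaf 4 562 691) (node 690 (merge (leaf 7 561 593) (node 689 (merge (leaf 5 561 657) (leaf 5 593 721)))))))))))))))))))))))) (merge (node 561 (merge (node 562 (merge (node 595 (merge (leaf 0 559 594) (node 563 (merge (leaf 0 560 596) (node 531 (merge (leaf 2 527 530) (leaf 2 528 532))))))) (node 590 (merge (leaf 1 558 591) (node 558 (merge (leaf 1 557 589) (node 526 (merge (leaf 3 525 525) (leaf 3 526 527)))))))))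 (merge (node 590 (merge (node 591 (merge (leaf 1 558 562) (node 589 (merge (leaf 2 556 588) (leaf 2 557 592))))) (merge (node 558 (merge (leaf 1 557 589) (node 525 (merge (leaf 3 525 526) (node 557 (merge (leaf 3 524 524) (node 593 (merge (leaf 0 557 592) (leaf 0 558 594))))))))) (node 562 (merge (leaf 1 558 591) (node 594 (merge (leaf 0 559 595) (node 593 (merge (leaf 0 558 558) (node 625 (merge (leaf 7 528 657) (node 530 (merge (leaf 5 497 498) (leaf 2 527 531)))))))))))))) (merge (node 558 (merge (node 589 (merge (leaf 1 557 590) (node 557 (merge (leaf 1 556 588) (node 525 (merge (leaf 3 524 524) (leaf 3 525 526))))))) (merge (node 590 (merge (leaf 1 557 589) (node 526 (merge (leaf 3 525 525) (node 527 (merge (leaf 3 526 562) (node 495 (merge (leaf 5 462 463) (leaf 6 494 622))))))))) (merge (node 526 (merge (leaf 3 525 525) (node 527 (merge (leaf 3 526 562) (node 557 (merge (leaf 2 524 556) (node 592 (merge (leaf 0 557 593) (node 495 (merge (leaf 4 463 463) (leaf 7 495 624))))))))))) (merge (node 589 (merge (leaf 1 557 590) (node 557 (merge (leaf 1 556 588) (node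 527 (merge (leaf 2 524 556) (node 562 (merge (leaf 3 526 526) (leaf 3 527 563))))))))) (node 589 (merge (leaf 1 557 590) (node 557 (merge (leaf 1 556 588) (node 524 (merge (leaf 3 524 525) (node 556 (merge (leaf 3 523 523) (leaf 2 524 527)))))))))))))) (merge (node 558 (merge (node 589 (merge (leaf 1 557 590) (node 557 (merge (leaf 1 556 588) (node 593 (merge (leaf 0 557 592) (leaf 0 558 594))))))) (merge (node 525 (merge (leaf 3 525 526) (node 557 (merge (leaf 3 524 524) (node 593 (merge (leaf 0 557 592) (leaf 0 558 594))))))) (merge (node 589 (merge (leaf 1 557 590) (node 557 (merge (leaf 1 556 588) (node 525 (merge (leaf 3 524 524) (leaf 3 525 526))))))) (node 590 (merge (leaf 1 557 589) (node 495 (merge (node 526 (merge (leaf 3 525 525) (node 463 (merge (leaf 6 462 494) (leaf 5 462 527))))) (merge (node 527 (merge (leaf 5 462 463) (node 622 (merge (leaf 5 494 591) (leaf 6 526 654))))) (merge (node 526 (merge (leaf 3 525 525) (node 494 (merge (leaf 6 462 463) (node 461 (merge (leaf 7 461 493) (node 462 (merge (leaf 7 429 429) (leaf 4 462 591))))))))) (node 593 (merge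 (leaf 0 558 594) (node 657 (merge (leaf 7 528 625) (node 526 (merge (leaf 3 525 525) (node 622 (merge (leaf 6 494 527) (node 621 (merge (leaf 5 525 653) (node 591 (merge (leaf 1 589 592) (node 654 (merge (leaf 6 558 686) (node 655 (merge (leaf 3 621 656) (leaf 4 558 687))))))))))))))))))))))))))) (node 562 (merge (node 563 (merge (leaf 3 527 527) (node 595 (merge (leaf 0 559 594) (leaf 0 560 596))))) (merge (node 563 (merge (leaf 3 527 527) (node 531 (merge (leaf 2 527 530) (leaf 2 528 532))))) (node 594 (merge (leaf 0 559 595) (node 530 (merge (leaf 2 527 531) (node 626 (merge (node 659 (merge (leaf 4 530 627) (node 658 (merge (leaf 4 562 691) (node 657 (merge (leaf 5 529 625) (leaf 5 561 689))))))) (merge (node 625 (merge (leaf 5 529 657) (node 498 (merge (leaf 5 497 593) (node 467 (merge (leaf 6 466 499) (node 466 (merge (leaf 6 434 435) (node 465 (merge (leaf 7 433 433) (leaf 7 465 497))))))))))) (merge (node 659 (merge (leaf 4 530 627) (node 658 (merge (leaf 4 562 691) (node 593 (merge (leaf 7 561 690) (node 498 (merge (leaf 5 465 466) (leaf 5 497 625)))))))))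 (node 659 (merge (leaf 4 530 627) (node 658 (merge (leaf 4 562 691) (node 690 (merge (leaf 7 561 593) (node 689 (merge (leaf 5 561 657) (leaf 5 593 721))))))))))))))))))))))))) (merge (hyp 4) (merge (hyp 5) (merge (hyp 6) (merge (hyp 7) (merge (hyp 8) (merge (hyp 9) (merge (hyp 10) (merge (hyp 11) (merge (hyp 12) (merge (node 558 (merge (node 557 (merge (node 524 (merge (leaf 3 524 525) (node 556 (merge (leaf 3 523 523) (leaf 2 524 527))))) (node 589 (merge (leaf 1 556 588) (node 561 (merge (leaf 1 557 590) (node 593 (merge (leaf 0 557 592) (leaf 0 558 594))))))))) (merge (node 557 (merge (node 588 (merge (leaf 1 556 589) (node 556 (merge (leaf 2 524 527) (leaf 1 555 587))))) (node 525 (merge (leaf 3 524 524) (node 561 (merge (leaf 3 525 526) (node 593 (merge (leaf 0 557 592) (leaf 0 558 594))))))))) (merge (node 557 (merge (node 525 (merge (leaf 3 524 524) (node 561 (merge (leaf 3 525 526) (node 593 (merge (leaf 0 557 592) (leaf 0 558 594))))))) (merge (node 588 (merge (leaf 1 556 589) (node 556 (merge (leaf 1 555 587) (node 524 (merge (leaf 3 523 523) (leaf 3 524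 525))))))) (node 589 (merge (leaf 1 556 588) (node 561 (merge (leaf 1 557 590) (node 593 (merge (leaf 0 557 592) (leaf 0 558 594)))))))))) (merge (node 557 (merge (node 588 (merge (leaf 1 556 589) (node 556 (merge (leaf 2 524 527) (leaf 1 555 587))))) (merge (node 524 (merge (leaf 3 524 525) (node 556 (merge (leaf 3 523 523) (leaf 2 524 527))))) (node 525 (merge (leaf 3 524 524) (node 622 (merge (node 590 (merge (leaf 7 525 654) (node 493 (merge (leaf 4 461 461) (leaf 7 493 526))))) (merge (node 589 (merge (leaf 1 556 588) (node 654 (merge (leaf 7 525 590) (leaf 4 525 621))))) (merge (node 589 (merge (leaf 1 556 588) (node 621 (merge (leaf 4 525 654) (node 526 (merge (leaf 6 493 494) (leaf 6 525 653))))))) (node 589 (merge (leaf 1 556 588) (node 493 (merge (leaf 4 493 590) (node 494 (merge (leaf 6 461 462) (node 526 (merge (leaf 6 493 621) (node 460 (merge (leaf 7 460 492) (node 461 (merge (leaf 7 428 428) (leaf 4 429 429)))))))))))))))))))))) (merge (node 527 (merge (node 557 (merge (leaf 2 524 556) (node 592 (merge (leaf 0 557 593) (node 624 (merge (leaf 7 495 495)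 (leaf 7 527 656))))))) (merge (node 557 (merge (leaf 2 524 556) (node 589 (merge (leaf 1 556 588) (node 561 (merge (leaf 1 557 590) (node 562 (merge (leaf 3 526 526) (leaf 3 527 563))))))))) (node 561 (merge (node 590 (merge (leaf 1 557 589) (node 622 (merge (leaf 6 526 654) (node 495 (merge (leaf 5 462 463) (leaf 6 494 526))))))) (node 562 (merge (leaf 3 527 563) (node 594 (merge (leaf 0 558 593) (leaf 0 559 595)))))))))) (merge (node 527 (merge (node 557 (merge (leaf 2 524 556) (node 592 (merge (leaf 0 557 593) (node 624 (merge (leaf 7 495 495) (leaf 7 527 656))))))) (merge (node 557 (merge (leaf 2 524 556) (node 525 (merge (leaf 3 524 524) (node 526 (merge (leaf 0 525 561) (node 493 (merge (leaf 3 492 492) (node 590 (merge (leaf 4 461 461) (leaf 7 493 622))))))))))) (node 526 (merge (node 561 (merge (leaf 3 525 525) (leaf 3 526 562))) (merge (node 525 (merge (leaf 0 524 524) (node 493 (merge (leaf 3 492 492) (node 590 (merge (leaf 7 493 622) (node 461 (merge (leaf 4 429 429) (leaf 7 461 494))))))))) (node 494 (merge (node 462 (merge (leaf 4 430 430) (node 463 (merge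 (leaf 6 430 431) (node 495 (merge (leaf 6 462 590) (leaf 4 463 592))))))) (merge (node 462 (merge (leaf 4 430 430) (node 461 (merge (leaf 7 429 429) (node 590 (merge (leaf 7 461 493) (node 622 (merge (leaf 6 494 495) (leaf 6 526 654))))))))) (merge (node 462 (merge (leaf 4 430 430) (node 463 (merge (leaf 6 430 431) (node 461 (merge (leaf 7 429 429) (node 493 (merge (leaf 7 461 590) (node 492 (merge (leaf 1 460 464) (leaf 0 491 491))))))))))) (merge (node 462 (merge (leaf 4 430 430) (node 463 (merge (leaf 6 430 431) (node 495 (merge (leaf 4 463 592) (node 464 (merge (leaf 6 431 432) (node 493 (merge (leaf 1 461 465) (leaf 0 492 492))))))))))) (node 592 (merge (node 624 (merge (leaf 7 495 495) (leaf 7 527 656))) (merge (node 495 (merge (leaf 4 463 463) (node 493 (merge (leaf 0 492 492) (node 590 (merge (leaf 7 461 461) (leaf 6 494 622))))))) (node 624 (merge (leaf 7 527 656) (node 561 (merge (leaf 3 526 562) (node 593 (merge (leaf 0 558 594) (node 625 (merge (leaf 7 528 657) (node 623 (merge (leaf 5 527 655) (node 622 (merge (leaf 2 589 621) (node 654 (merge (leaf 6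 526 590) (leaf 1 621 653))))))))))))))))))))))))))))) (hyp 13)))))))) (merge (hyp 14) (merge (node 561 (merge (node 590 (merge (node 589 (merge (leaf 1 557 558) (node 591 (merge (leaf 1 558 562) (leaf 2 556 588))))) (merge (node 562 (merge (leaf 1 558 591) (node 563 (merge (leaf 3 527 527) (node 531 (merge (leaf 2 527 530) (leaf 2 528 532))))))) (merge (node 558 (merge (leaf 1 557 589) (node 526 (merge (leaf 3 525 525) (node 527 (merge (leaf 3 526 562) (node 495 (merge (leaf 5 462 463) (leaf 6 494 622))))))))) (node 558 (merge (leaf 1 557 589) (node 525 (merge (leaf 3 525 526) (node 557 (merge (leaf 3 524 524) (node 556 (merge (leaf 2 524 527) (node 555 (merge (leaf 0 555 591) (node 587 (merge (leaf 1 554 586) (leaf 1 555 588))))))))))))))))) (merge (node 562 (merge (node 563 (merge (leaf 3 527 527) (node 595 (merge (leaf 0 559 594) (leaf 0 560 596))))) (merge (node 563 (merge (leaf 3 527 527) (node 531 (merge (leaf 2 527 530) (leaf 2 528 532))))) (node 594 (merge (leaf 0 559 595) (node 530 (merge (leaf 2 527 531) (node 626 (merge (node 659 (merge (leaf 4 530 627)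 (node 658 (merge (leaf 4 562 691) (node 657 (merge (leaf 5 529 625) (leaf 5 561 689))))))) (merge (node 625 (merge (leaf 5 529 657) (node 498 (merge (leaf 5 497 593) (node 467 (merge (leaf 6 466 499) (node 466 (merge (leaf 6 434 435) (node 465 (merge (leaf 7 433 433) (leaf 7 465 497))))))))))) (merge (node 659 (merge (leaf 4 530 627) (node 658 (merge (leaf 4 562 691) (node 593 (merge (leaf 7 561 690) (node 498 (merge (leaf 5 465 466) (leaf 5 497 625))))))))) (node 659 (merge (leaf 4 530 627) (node 658 (merge (leaf 4 562 691) (node 690 (merge (leaf 7 561 593) (node 689 (merge (leaf 5 561 657) (leaf 5 593 721)))))))))))))))))))) (merge (hyp 15) (hyp 16))))) (merge (node 558 (merge (node 557 (merge (node 525 (merge (leaf 3 524 524) (node 561 (merge (leaf 3 525 526) (node 593 (merge (leaf 0 557 592) (leaf 0 558 594))))))) (merge (node 588 (merge (leaf 1 556 589) (node 556 (merge (leaf 1 555 587) (node 524 (merge (leaf 3 523 523) (leaf 3 524 525))))))) (node 589 (merge (leaf 1 556 588) (node 561 (merge (leaf 1 557 590) (node 593 (merge (leaf 0 557 592) (leaf 0 558 594))))))))))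 (merge (node 557 (merge (node 525 (merge (leaf 3 524 524) (node 561 (merge (leaf 3 525 526) (node 593 (merge (leaf 0 557 592) (leaf 0 558 594))))))) (merge (node 588 (merge (leaf 1 556 589) (node 556 (merge (leaf 1 555 587) (node 592 (merge (leaf 0 556 591) (leaf 0 557 593))))))) (node 588 (merge (leaf 1 556 589) (node 556 (merge (leaf 1 555 587) (node 524 (merge (leaf 3 523 523) (leaf 3 524 525)))))))))) (merge (node 561 (merge (node 589 (merge (leaf 1 557 590) (node 557 (merge (leaf 1 556 588) (node 593 (merge (leaf 0 557 592) (leaf 0 558 594))))))) (merge (node 557 (merge (node 589 (merge (leaf 1 556 588) (leaf 1 557 590))) (merge (node 592 (merge (leaf 0 557 593) (node 591 (merge (leaf 0 556 556) (node 562 (merge (leaf 1 559 563) (leaf 1 558 590))))))) (node 588 (merge (leaf 1 556 589) (node 556 (merge (leaf 1 555 587) (node 592 (merge (leaf 0 556 591) (leaf 0 557 593)))))))))) (merge (node 590 (merge (leaf 1 557 589) (node 562 (merge (leaf 1 558 591) (node 595 (merge (leaf 0 559 594) (node 563 (merge (leaf 0 560 596) (node 531 (merge (leaf 2 527 530) (leaf 2 528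 532))))))))))) (node 562 (merge (node 595 (merge (leaf 0 559 594) (node 563 (merge (leaf 0 560 596) (node 531 (merge (leaf 2 527 530) (leaf 2 528 532))))))) (merge (node 594 (merge (leaf 0 559 595) (node 593 (merge (leaf 0 558 558) (node 625 (merge (leaf 7 528 657) (node 530 (merge (leaf 5 497 498) (leaf 2 527 531))))))))) (merge (node 563 (merge (node 595 (merge (leaf 0 559 594) (leaf 0 560 596))) (merge (node 592 (merge (leaf 1 559 591) (node 593 (merge (leaf 1 560 564) (node 558 (merge (leaf 0 557 557) (leaf 0 558 594))))))) (node 592 (merge (leaf 1 559 591) (node 564 (merge (leaf 1 560 593) (node 596 (merge (leaf 0 560 595) (leaf 0 561 597)))))))))) (merge (node 531 (merge (leaf 2 527 530) (node 563 (merge (leaf 2 528 532) (node 592 (merge (leaf 1 559 591) (node 593 (merge (leaf 1 560 564) (node 558 (merge (leaf 0 557 557) (leaf 0 558 594))))))))))) (node 531 (merge (leaf 2 527 530) (node 563 (merge (leaf 2 528 532) (node 596 (merge (leaf 0 560 595) (node 564 (merge (leaf 0 561 597) (node 592 (merge (leaf 1 559 591) (leaf 1 560 593)))))))))))))))))))) (merge (node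 561 (merge (node 590 (merge (leaf 1 557 589) (node 562 (merge (leaf 1 558 591) (node 594 (merge (leaf 0 558 593) (leaf 0 559 595))))))) (merge (node 525 (merge (leaf 3 525 526) (node 557 (merge (leaf 3 524 524) (node 593 (merge (leaf 0 557 592) (leaf 0 558 594))))))) (node 590 (merge (leaf 1 557 589) (node 591 (merge (leaf 1 558 562) (node 623 (merge (leaf 6 527 655) (node 526 (merge (leaf 4 494 494) (leaf 3 525 525)))))))))))) (merge (node 557 (merge (node 524 (merge (leaf 3 524 525) (node 556 (merge (leaf 3 523 523) (node 592 (merge (leaf 0 556 591) (leaf 0 557 593))))))) (merge (node 588 (merge (leaf 1 556 589) (node 556 (merge (leaf 1 555 587) (node 592 (merge (leaf 0 556 591) (leaf 0 557 593))))))) (node 525 (merge (leaf 3 524 524) (node 622 (merge (node 590 (merge (leaf 7 525 654) (node 493 (merge (leaf 4 461 461) (leaf 7 493 526))))) (merge (node 589 (merge (leaf 1 556 588) (node 654 (merge (leaf 7 525 590) (leaf 4 525 621))))) (merge (node 589 (merge (leaf 1 556 588) (node 621 (merge (leaf 4 525 654) (node 526 (merge (leaf 6 493 494) (leaf 6 525 653)))))))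 (node 589 (merge (leaf 1 556 588) (node 493 (merge (leaf 4 493 590) (node 494 (merge (leaf 6 461 462) (node 526 (merge (leaf 6 493 621) (node 460 (merge (leaf 7 460 492) (node 461 (merge (leaf 7 428 428) (leaf 4 429 429)))))))))))))))))))))) (merge (node 525 (merge (node 524 (merge (leaf 3 524 557) (node 526 (merge (leaf 0 523 523) (leaf 3 525 561))))) (merge (node 557 (merge (leaf 3 524 524) (node 589 (merge (leaf 1 556 588) (node 590 (merge (leaf 1 557 561) (node 493 (merge (leaf 4 461 461) (leaf 4 493 622))))))))) (merge (node 561 (merge (leaf 3 525 526) (node 590 (merge (leaf 1 557 589) (node 562 (merge (leaf 1 558 591) (node 595 (merge (leaf 0 559 594) (node 563 (merge (leaf 0 560 596) (node 531 (merge (leaf 2 527 530) (leaf 2 528 532))))))))))))) (node 557 (merge (leaf 3 524 524) (node 588 (merge (leaf 1 556 589) (node 556 (merge (leaf 1 555 587) (node 591 (merge (leaf 0 556 592) (node 555 (merge (leaf 0 555 590) (node 554 (merge (leaf 2 522 526) (node 522 (merge (leaf 3 521 521) (leaf 3 522 523))))))))))))))))))) (merge (node 590 (merge (node 589 (merge (leaf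 1 557 561) (node 588 (merge (leaf 1 556 557) (leaf 2 555 587))))) (merge (node 526 (merge (node 525 (merge (node 524 (merge (leaf 0 523 523) (leaf 3 524 557))) (node 493 (merge (leaf 7 493 622) (node 461 (merge (leaf 4 429 429) (leaf 7 461 494))))))) (merge (node 589 (merge (node 588 (merge (leaf 2 555 587) (leaf 2 556 591))) (node 621 (merge (leaf 5 493 494) (node 653 (merge (leaf 5 525 622) (leaf 6 557 685))))))) (merge (node 622 (merge (node 525 (merge (leaf 7 493 493) (node 524 (merge (leaf 0 523 523) (leaf 3 524 557))))) (node 655 (merge (leaf 4 526 623) (node 654 (merge (leaf 4 558 687) (node 653 (merge (leaf 5 525 621) (leaf 5 557 685))))))))) (node 494 (merge (node 589 (merge (leaf 5 493 621) (node 588 (merge (leaf 2 555 587) (leaf 2 556 591))))) (node 463 (merge (leaf 6 462 495) (node 462 (merge (leaf 6 430 431) (node 461 (merge (leaf 7 429 429) (leaf 7 461 493))))))))))))) (node 526 (merge (node 525 (merge (leaf 3 525 561) (node 493 (merge (leaf 7 493 622) (node 461 (merge (leaf 4 429 429) (leaf 7 461 494))))))) (merge (node 561 (merge (leaf 3 525 525) (node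 562 (merge (leaf 1 558 591) (node 594 (merge (leaf 0 558 593) (leaf 0 559 595))))))) (node 622 (merge (node 655 (merge (leaf 4 526 623) (node 654 (merge (leaf 4 558 687) (node 653 (merge (leaf 5 525 621) (leaf 5 557 685))))))) (merge (node 623 (merge (leaf 4 526 655) (node 494 (merge (leaf 4 494 591) (node 463 (merge (leaf 6 462 495) (node 462 (merge (leaf 6 430 431) (node 461 (merge (leaf 7 429 429) (leaf 7 461 493))))))))))) (merge (node 653 (merge (leaf 5 525 621) (node 654 (merge (leaf 5 557 685) (node 591 (merge (leaf 6 558 686) (node 494 (merge (leaf 4 462 462) (leaf 4 494 623))))))))) (node 653 (merge (leaf 5 525 621) (node 654 (merge (leaf 5 557 685) (node 686 (merge (leaf 6 558 591) (node 687 (merge (leaf 4 558 655) (leaf 4 590 719))))))))))))))))))) (merge (hyp 17) (hyp 18)))))))))) (merge (hyp 19) (hyp 20))))))))))))))))))))) nP_146 cP_146 19 (by decide +kernel)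
def nP_147 : ℕ := 0x10000000100000001000000000000000000000000000000000000000000000000000000000000000000000000000000000000000000000000000000000000000000000000000000000000
def cP_147 : ℕ := 0x50000000780000007a000001ff000000fe000001ff800001ef000003ef8000000000000000000000000000000000000000000000000000000000000000000000000000000000000000000000000000000000000000000000000000000000000000000
theorem lP_147 : S nP_147 cP_147 13 := S_of_chk [] trivial (node 655 (merge (node 623 (merge (leaf 5 527 624) (node 591 (merge (leaf 6 527 559) (leaf 6 559 687))))) (merge (node 624 (merge (leaf 5 527 623) (node 657 (merge (leaf 4 528 625) (node 656 (merge (leaf 5 559 687) (leaf 4 560 689))))))) (merge (node 591 (merge (node 623 (merge (leaf 6 527 559) (leaf 5 527 624))) (merge (node 624 (merge (leaf 5 527 623) (node 625 (merge (leaf 4 528 657) (node 590 (merge (leaf 0 589 589) (node 626 (merge (leaf 0 590 593) (leaf 3 591 627))))))))) (node 590 (merge (node 561 (merge (leaf 2 557 589) (node 593 (merge (leaf 2 558 562) (node 625 (merge (leaf 0 590 626) (leaf 7 528 657))))))) (merge (node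 589 (merge (leaf 2 557 561) (node 620 (merge (leaf 1 588 621) (node 588 (merge (leaf 2 556 559) (leaf 1 587 619))))))) (merge (node 557 (merge (node 558 (merge (leaf 3 557 593) (node 556 (merge (leaf 0 555 555) (leaf 0 556 559))))) (merge (node 589 (merge (leaf 3 556 556) (node 621 (merge (leaf 1 588 620) (node 593 (merge (leaf 3 557 558) (leaf 1 589 622))))))) (merge (node 589 (merge (leaf 3 556 556) (node 620 (merge (leaf 1 588 621) (node 588 (merge (leaf 2 556 559) (leaf 1 587 619))))))) (node 593 (merge (leaf 3 557 558) (node 626 (merge (leaf 0 590 625) (node 594 (merge (leaf 0 591 627) (node 563 (merge (leaf 2 559 562) (node 595 (merge (leaf 3 559 559) (leaf 2 560 564))))))))))))))) (node 593 (merge (node 625 (merge (leaf 0 590 626) (node 561 (merge (leaf 2 558 562) (leaf 7 528 657))))) (merge (node 558 (merge (leaf 3 557 557) (node 594 (merge (leaf 3 558 559) (node 562 (merge (leaf 2 558 561) (leaf 2 559 563))))))) (merge (node 562 (merge (leaf 2 558 561) (node 594 (merge (leaf 2 559 563) (node 595 (merge (leaf 3 559 559) (node 627 (merge (leaf 0 591 626) (leaf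 0 592 628))))))))) (merge (node 558 (merge (leaf 3 557 557) (node 594 (merge (leaf 3 558 559) (node 627 (merge (leaf 0 591 626) (node 595 (merge (leaf 0 592 628) (node 563 (merge (leaf 2 559 562) (leaf 2 560 564))))))))))) (node 558 (merge (leaf 3 557 557) (node 594 (merge (leaf 3 558 559) (node 627 (merge (leaf 0 591 626) (node 595 (merge (leaf 0 592 628) (node 564 (merge (leaf 2 560 563) (node 596 (merge (leaf 3 560 561) (leaf 2 561 565))))))))))))))))))))))))) (merge (node 591 (merge (node 623 (merge (leaf 6 527 559) (leaf 6 559 687))) (merge (node 590 (merge (node 561 (merge (leaf 2 557 589) (node 593 (merge (leaf 2 558 562) (node 625 (merge (leaf 0 590 626) (leaf 7 528 657))))))) (merge (node 622 (merge (node 687 (merge (leaf 6 559 623) (node 654 (merge (leaf 4 558 558) (node 719 (merge (leaf 4 590 686) (leaf 7 622 751))))))) (node 621 (merge (leaf 1 589 593) (node 620 (merge (leaf 1 588 589) (leaf 2 587 619))))))) (merge (node 622 (merge (node 621 (merge (leaf 1 589 593) (node 620 (merge (leaf 2 587 619) (leaf 2 588 623))))) (merge (node 687 (merge (leaf 6 559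 623) (node 654 (merge (leaf 4 558 558) (node 719 (merge (leaf 4 590 686) (leaf 7 622 751))))))) (node 593 (merge (leaf 1 589 621) (node 625 (merge (leaf 0 590 626) (node 561 (merge (leaf 2 558 562) (leaf 7 528 657)))))))))) (node 589 (merge (leaf 2 557 561) (node 620 (merge (leaf 1 588 621) (node 588 (merge (leaf 1 587 619) (node 556 (merge (leaf 3 555 555) (leaf 3 556 557))))))))))))) (merge (node 590 (merge (node 589 (merge (leaf 2 557 561) (node 620 (merge (leaf 1 588 621) (node 588 (merge (leaf 2 556 559) (leaf 1 587 619))))))) (merge (node 589 (merge (leaf 2 557 561) (node 620 (merge (leaf 1 588 621) (node 588 (merge (leaf 1 587 619) (node 556 (merge (leaf 3 555 555) (leaf 3 556 557))))))))) (merge (node 593 (merge (node 625 (merge (leaf 0 590 626) (node 561 (merge (leaf 2 558 562) (leaf 7 528 657))))) (merge (node 558 (merge (leaf 3 557 557) (node 594 (merge (leaf 3 558 559) (node 562 (merge (leaf 2 558 561) (leaf 2 559 563))))))) (merge (node 562 (merge (leaf 2 558 561) (node 594 (merge (leaf 2 559 563) (node 595 (merge (leaf 3 559 559) (node 627 (merge (leaf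 0 591 626) (leaf 0 592 628))))))))) (merge (node 558 (merge (leaf 3 557 557) (node 594 (merge (leaf 3 558 559) (node 627 (merge (leaf 0 591 626) (node 595 (merge (leaf 0 592 628) (node 563 (merge (leaf 2 559 562) (leaf 2 560 564))))))))))) (node 558 (merge (leaf 3 557 557) (node 594 (merge (leaf 3 558 559) (node 627 (merge (leaf 0 591 626) (node 595 (merge (leaf 0 592 628) (node 564 (merge (leaf 2 560 563) (node 596 (merge (leaf 3 560 561) (leaf 2 561 565)))))))))))))))))) (node 589 (merge (node 620 (merge (leaf 1 588 621) (node 588 (merge (leaf 2 556 559) (leaf 1 587 619))))) (merge (node 621 (merge (leaf 1 588 620) (node 593 (merge (leaf 1 589 622) (node 557 (merge (leaf 3 556 556) (leaf 3 557 558))))))) (merge (node 588 (merge (leaf 2 556 559) (node 556 (merge (leaf 3 555 555) (leaf 3 556 557))))) (node 557 (merge (leaf 3 556 556) (node 593 (merge (leaf 3 557 558) (node 622 (merge (leaf 1 589 621) (node 594 (merge (leaf 1 590 623) (node 563 (merge (leaf 2 559 562) (node 595 (merge (leaf 3 559 559) (leaf 2 560 564))))))))))))))))))))) (node 590 (merge (node 589 (merge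 (leaf 2 557 561) (node 620 (merge (leaf 1 588 621) (node 588 (merge (leaf 2 556 559) (leaf 1 587 619))))))) (merge (node 593 (merge (node 625 (merge (leaf 0 590 626) (node 561 (merge (leaf 2 558 562) (leaf 7 528 657))))) (merge (node 558 (merge (leaf 3 557 557) (node 594 (merge (leaf 3 558 559) (node 562 (merge (leaf 2 558 561) (leaf 2 559 563))))))) (merge (node 562 (merge (leaf 2 558 561) (node 594 (merge (leaf 2 559 563) (node 595 (merge (leaf 3 559 559) (node 627 (merge (leaf 0 591 626) (leaf 0 592 628))))))))) (merge (node 558 (merge (leaf 3 557 557) (node 594 (merge (leaf 3 558 559) (node 627 (merge (leaf 0 591 626) (node 595 (merge (leaf 0 592 628) (node 563 (merge (leaf 2 559 562) (leaf 2 560 564))))))))))) (node 558 (merge (leaf 3 557 557) (node 594 (merge (leaf 3 558 559) (node 627 (merge (leaf 0 591 626) (node 595 (merge (leaf 0 592 628) (node 564 (merge (leaf 2 560 563) (node 596 (merge (leaf 3 560 561) (leaf 2 561 565)))))))))))))))))) (merge (node 557 (merge (node 558 (merge (leaf 3 557 593) (node 556 (merge (leaf 0 555 555) (leaf 0 556 559))))) (merge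 (node 589 (merge (leaf 3 556 556) (node 621 (merge (leaf 1 588 620) (node 593 (merge (leaf 3 557 558) (leaf 1 589 622))))))) (merge (node 589 (merge (leaf 3 556 556) (node 620 (merge (leaf 1 588 621) (node 588 (merge (leaf 2 556 559) (leaf 1 587 619))))))) (node 593 (merge (leaf 3 557 558) (node 626 (merge (leaf 0 590 625) (node 594 (merge (leaf 0 591 627) (node 563 (merge (leaf 2 559 562) (node 595 (merge (leaf 3 559 559) (leaf 2 560 564))))))))))))))) (node 561 (merge (leaf 2 557 589) (node 593 (merge (leaf 2 558 562) (node 657 (merge (leaf 7 528 625) (node 622 (merge (leaf 1 589 621) (node 558 (merge (leaf 3 557 557) (node 654 (merge (leaf 4 558 687) (node 685 (merge (leaf 5 557 653) (node 686 (merge (leaf 1 653 656) (leaf 5 589 717))))))))))))))))))))))))) (node 657 (merge (node 624 (merge (leaf 4 528 625) (node 656 (merge (leaf 5 559 687) (leaf 4 560 689))))) (merge (node 625 (merge (leaf 4 528 624) (node 593 (merge (leaf 7 528 561) (leaf 7 560 689))))) (merge (node 656 (merge (node 624 (merge (leaf 4 528 625) (leaf 5 559 687))) (merge (node 625 (merge (leaf 4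 528 624) (node 654 (merge (leaf 2 622 626) (node 685 (merge (leaf 1 653 686) (node 653 (merge (leaf 1 652 684) (node 621 (merge (leaf 3 620 620) (leaf 3 621 622))))))))))) (merge (node 687 (merge (leaf 5 559 624) (node 658 (merge (leaf 1 654 686) (node 691 (merge (leaf 0 655 690) (node 659 (merge (leaf 1 655 688) (leaf 0 656 692))))))))) (node 626 (merge (node 625 (merge (leaf 2 622 654) (node 658 (merge (leaf 2 623 627) (node 690 (merge (leaf 0 655 691) (node 722 (merge (leaf 7 593 593) (leaf 7 625 754))))))))) (merge (node 654 (merge (leaf 2 622 625) (node 685 (merge (leaf 1 653 686) (node 653 (merge (leaf 1 652 684) (node 621 (merge (leaf 3 620 620) (leaf 3 621 622))))))))) (node 658 (merge (leaf 2 623 627) (node 691 (merge (leaf 0 655 690) (node 659 (merge (leaf 0 656 692) (node 687 (merge (leaf 1 654 686) (leaf 1 655 688)))))))))))))))) (merge (node 656 (merge (node 624 (merge (leaf 5 559 687) (leaf 4 560 689))) (merge (node 687 (merge (leaf 5 559 624) (node 658 (merge (leaf 1 654 686) (node 691 (merge (leaf 0 655 690) (node 659 (merge (leaf 1 655 688) (leaf 0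 656 692))))))))) (merge (node 689 (merge (leaf 4 560 624) (node 654 (merge (leaf 0 654 690) (node 653 (merge (leaf 0 653 688) (node 685 (merge (leaf 1 652 684) (leaf 1 653 686))))))))) (node 690 (merge (node 654 (merge (leaf 0 654 689) (node 685 (merge (leaf 1 653 686) (node 653 (merge (leaf 1 652 684) (node 621 (merge (leaf 3 620 620) (leaf 3 621 622))))))))) (merge (node 658 (merge (leaf 0 655 691) (node 687 (merge (leaf 1 654 686) (node 659 (merge (leaf 1 655 688) (node 627 (merge (leaf 2 623 626) (leaf 2 624 628))))))))) (node 689 (merge (leaf 0 654 654) (node 658 (merge (leaf 0 655 691) (node 626 (merge (leaf 2 623 627) (node 721 (merge (leaf 5 593 594) (leaf 6 625 753)))))))))))))))) (node 656 (merge (node 654 (merge (node 685 (merge (leaf 1 653 686) (node 653 (merge (leaf 1 652 684) (node 621 (merge (leaf 3 620 620) (leaf 3 621 622))))))) (merge (node 690 (merge (leaf 0 654 689) (node 658 (merge (leaf 0 655 691) (node 686 (merge (leaf 1 653 685) (leaf 1 654 687))))))) (node 689 (merge (leaf 0 654 690) (node 653 (merge (leaf 0 653 688) (node 621 (merge (leaf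 3 620 620) (leaf 3 621 622)))))))))) (merge (node 658 (merge (node 691 (merge (leaf 0 655 690) (node 659 (merge (leaf 0 656 692) (node 627 (merge (leaf 2 623 626) (leaf 2 624 628))))))) (merge (node 691 (merge (leaf 0 655 690) (node 659 (merge (leaf 0 656 692) (node 687 (merge (leaf 1 654 686) (leaf 1 655 688))))))) (node 686 (merge (leaf 1 654 687) (node 654 (merge (leaf 1 653 685) (node 626 (merge (leaf 2 622 625) (leaf 2 623 627)))))))))) (merge (node 625 (merge (node 593 (merge (leaf 7 528 561) (leaf 7 560 689))) (merge (node 626 (merge (leaf 2 622 654) (node 627 (merge (leaf 1 624 628) (leaf 2 623 658))))) (node 654 (merge (leaf 2 622 626) (node 690 (merge (leaf 0 654 689) (node 658 (merge (leaf 0 655 691) (node 686 (merge (leaf 1 653 685) (leaf 1 654 687)))))))))))) (merge (node 593 (merge (node 625 (merge (leaf 7 528 561) (leaf 7 560 689))) (merge (node 658 (merge (node 687 (merge (leaf 1 654 686) (node 659 (merge (leaf 1 655 688) (node 627 (merge (leaf 2 623 626) (leaf 2 624 628))))))) (merge (node 691 (merge (leaf 0 655 690) (node 659 (merge (leaf 0 656 692)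 (node 627 (merge (leaf 2 623 626) (leaf 2 624 628))))))) (merge (node 691 (merge (leaf 0 655 690) (node 659 (merge (leaf 0 656 692) (node 687 (merge (leaf 1 654 686) (leaf 1 655 688))))))) (node 690 (merge (leaf 0 655 691) (node 626 (merge (leaf 2 623 627) (node 594 (merge (leaf 7 561 561) (node 595 (merge (leaf 3 559 559) (leaf 6 562 563))))))))))))) (node 658 (merge (node 687 (merge (leaf 1 654 686) (node 659 (merge (leaf 1 655 688) (node 627 (merge (leaf 2 623 626) (leaf 2 624 628))))))) (merge (node 691 (merge (leaf 0 655 690) (node 659 (merge (leaf 0 656 692) (node 627 (merge (leaf 2 623 626) (leaf 2 624 628))))))) (merge (node 691 (merge (leaf 0 655 690) (node 659 (merge (leaf 0 656 692) (node 687 (merge (leaf 1 654 686) (leaf 1 655 688))))))) (node 690 (merge (leaf 0 655 691) (node 625 (merge (leaf 7 560 689) (node 626 (merge (leaf 2 623 627) (leaf 7 593 722)))))))))))))) (merge (node 625 (merge (node 593 (merge (leaf 7 528 561) (leaf 7 560 689))) (merge (node 654 (merge (leaf 2 622 626) (node 689 (merge (leaf 0 654 690) (node 653 (merge (leaf 0 653 688) (node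 685 (merge (leaf 1 652 684) (leaf 1 653 686))))))))) (node 593 (merge (leaf 7 528 561) (node 654 (merge (leaf 2 622 626) (node 685 (merge (leaf 1 653 686) (node 653 (merge (leaf 1 652 684) (node 622 (merge (leaf 3 621 621) (node 558 (merge (leaf 5 557 590) (node 559 (merge (leaf 0 557 557) (node 594 (merge (leaf 3 558 591) (leaf 3 559 595)))))))))))))))))))) (merge (node 654 (merge (node 625 (merge (leaf 2 622 626) (node 593 (merge (leaf 7 528 561) (leaf 7 560 689))))) (merge (node 685 (merge (leaf 1 653 686) (node 653 (merge (leaf 1 652 684) (node 689 (merge (leaf 0 653 688) (node 625 (merge (leaf 7 560 593) (leaf 2 622 626))))))))) (node 686 (merge (leaf 1 653 685) (node 687 (merge (leaf 1 654 658) (node 622 (merge (leaf 3 621 621) (node 719 (merge (leaf 4 590 590) (leaf 7 622 751)))))))))))) (node 626 (merge (node 654 (merge (leaf 2 622 625) (node 689 (merge (leaf 0 654 690) (node 653 (merge (leaf 0 653 688) (node 621 (merge (leaf 3 620 620) (leaf 3 621 622))))))))) (merge (node 625 (merge (leaf 2 622 654) (node 658 (merge (leaf 2 623 627) (node 690 (merge (leaf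 0 655 691) (node 722 (merge (leaf 7 593 593) (leaf 7 625 754))))))))) (merge (node 627 (merge (leaf 2 623 658) (node 625 (merge (leaf 1 624 628) (node 689 (merge (leaf 7 560 593) (node 721 (merge (leaf 6 593 594) (node 754 (merge (leaf 4 625 722) (node 753 (merge (leaf 4 657 786) (node 752 (merge (leaf 5 624 720) (leaf 5 656 784))))))))))))))) (node 658 (merge (leaf 2 623 627) (node 690 (merge (leaf 0 655 691) (node 689 (merge (leaf 0 654 654) (node 721 (merge (leaf 5 593 594) (leaf 6 625 753)))))))))))))))))))))))))))))) nP_147 cP_147 13 (by decide +kernel)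
def nP_148 : ℕ := 0x100000001000000012000000120000001000000000000000000000000000000000000000000000000000000000000000000000000000000000000000000000000000000000000000000000000000000000000
def cP_148 : ℕ := 0x140000000f00000007000000098000002dc0000007c000003fc000003f0000002f00000000000000000000000000000000000000000000000000000000000000000000000000000000000000000000000000000000000
theorem lP_148 : S nP_148 cP_148 12 := S_of_chk [] trivial (node 525 (merge (node 496 (merge (node 465 (merge (leaf 6 464 497) (node 464 (merge (leaf 6 432 433) (node 463 (merge (leaf 7 431 431) (leaf 7 463 495))))))) (merge (node 463 (merge (leaf 7 463 495) (node 464 (merge (leaf 7 431 431) (node 559 (merge (leaf 5 463 591) (node 558 (merge (leaf 3 524 524) (leaf 1 556 588))))))))) (merge (node 465 (merge (leaf 6 464 497) (node 464 (merge (leaf 6 432 433) (node 559 (merge (leaf 5 463 591) (node 558 (merge (leaf 3 524 524) (leaf 1 556 588))))))))) (node 497 (merge (leaf 6 464 465) (node 495 (merge (leaf 7 463 463) (node 494 (merge (leaf 1 493 526) (node 493 (merge (leaf 6 461 462) (leaf 1 492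 524))))))))))))) (merge (node 620 (merge (node 621 (merge (leaf 5 524 652) (node 654 (merge (leaf 4 525 622) (node 653 (merge (leaf 3 620 655) (leaf 4 557 686))))))) (merge (node 493 (merge (leaf 5 492 588) (node 462 (merge (leaf 6 461 494) (node 461 (merge (leaf 6 429 430) (node 460 (merge (leaf 7 428 428) (leaf 7 460 492))))))))) (node 621 (merge (leaf 5 524 652) (node 524 (merge (leaf 7 492 492) (node 653 (merge (leaf 7 524 556) (node 654 (merge (leaf 4 525 622) (leaf 3 620 655)))))))))))) (merge (node 492 (merge (node 524 (merge (leaf 7 492 621) (node 460 (merge (leaf 4 428 428) (leaf 4 460 556))))) (merge (node 621 (merge (leaf 7 492 524) (node 654 (merge (leaf 4 525 622) (node 653 (merge (leaf 4 557 686) (node 620 (merge (leaf 5 524 652) (leaf 3 620 655))))))))) (node 493 (merge (leaf 7 460 460) (node 588 (merge (leaf 5 492 620) (node 559 (merge (leaf 1 556 558) (node 461 (merge (leaf 5 460 556) (node 462 (merge (leaf 6 429 430) (node 464 (merge (leaf 1 460 463) (node 496 (merge (leaf 5 463 591) (node 465 (merge (leaf 6 432 433) (leaf 6 464 497))))))))))))))))))))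 (merge (node 494 (merge (node 621 (merge (leaf 6 493 526) (node 654 (merge (leaf 4 525 622) (node 653 (merge (leaf 4 557 686) (node 620 (merge (leaf 5 524 652) (leaf 3 620 655))))))))) (merge (node 462 (merge (leaf 6 461 493) (node 526 (merge (leaf 5 461 558) (leaf 6 493 621))))) (node 493 (merge (leaf 6 461 462) (node 588 (merge (leaf 5 492 620) (node 559 (merge (leaf 1 556 558) (node 461 (merge (leaf 5 460 556) (node 460 (merge (leaf 7 428 428) (node 496 (merge (leaf 3 460 495) (node 465 (merge (leaf 6 464 497) (node 464 (merge (leaf 6 432 433) (leaf 5 463 591)))))))))))))))))))) (merge (node 494 (merge (node 621 (merge (leaf 6 493 526) (node 654 (merge (leaf 4 525 622) (node 653 (merge (leaf 4 557 686) (node 620 (merge (leaf 5 524 652) (leaf 3 620 655))))))))) (merge (node 493 (merge (leaf 6 461 462) (node 492 (merge (leaf 7 460 460) (node 621 (merge (leaf 7 492 524) (node 654 (merge (leaf 4 525 622) (node 653 (merge (leaf 4 557 686) (node 620 (merge (leaf 5 524 652) (leaf 3 620 655))))))))))))) (node 493 (merge (leaf 6 461 462) (node 460 (merge (leaf 7 460 492)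 (node 461 (merge (leaf 7 428 428) (node 496 (merge (leaf 3 460 495) (node 465 (merge (leaf 6 464 497) (node 464 (merge (leaf 6 432 433) (node 559 (merge (leaf 5 463 591) (node 558 (merge (leaf 3 524 524) (node 526 (merge (leaf 4 429 429) (leaf 3 525 561)))))))))))))))))))))) (node 558 (merge (node 559 (merge (leaf 3 524 524) (node 591 (merge (leaf 0 556 556) (leaf 7 559 688))))) (merge (node 559 (merge (leaf 1 556 588) (node 526 (merge (leaf 3 525 561) (node 621 (merge (leaf 6 493 494) (leaf 6 525 653))))))) (node 621 (merge (node 653 (merge (leaf 6 525 526) (node 524 (merge (leaf 7 492 492) (leaf 7 524 556))))) (merge (node 654 (merge (leaf 4 525 622) (node 653 (merge (leaf 4 557 686) (node 620 (merge (leaf 5 524 652) (leaf 3 620 655))))))) (node 526 (merge (leaf 6 493 494) (node 524 (merge (leaf 7 492 492) (node 523 (merge (leaf 0 522 522) (node 555 (merge (leaf 1 522 554) (node 491 (merge (leaf 3 490 490) (node 620 (merge (leaf 5 524 652) (node 588 (merge (leaf 7 491 556) (leaf 4 491 587))))))))))))))))))))))))))) nP_148 cP_148 12 (by decide +kernel)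
def nP_149 : ℕ := 0x100000001000000012000000100000001000000000000000000000000000000000000000000000000000000000000000000000000000000000000000000000000000000000000000000000000000000000000
def cP_149 : ℕ := 0x40000001f0000001f0000002f00000027000000098000002fc0000007c000003fc000003f0000002f00000000000000000000000000000000000000000000000000000000000000000000000000000000000000000000000000000000000
theorem lP_149 : S nP_149 cP_149 14 := S_of_chk [(nP_148, cP_148, 12)] ⟨lP_148, trivial⟩ (node 557 (merge (node 625 (merge (leaf 4 528 657) (node 653 (merge (node 655 (merge (leaf 2 621 654) (leaf 5 559 687))) (merge (node 621 (merge (node 556 (merge (leaf 7 524 524) (node 685 (merge (leaf 7 556 588) (node 686 (merge (leaf 4 557 654) (leaf 4 589 718))))))) (merge (node 654 (merge (leaf 4 557 686) (node 525 (merge (leaf 4 525 622) (node 652 (merge (leaf 5 524 620) (leaf 5 556 684))))))) (node 556 (merge (leaf 7 524 524) (node 685 (merge (leaf 7 556 588) (node 684 (merge (leaf 5 556 652) (leaf 5 588 716)))))))))) (node 621 (merge (node 652 (merge (leaf 5 556 684) (node 524 (merge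 (leaf 7 524 556) (node 525 (merge (leaf 7 492 492) (leaf 5 524 620))))))) (merge (node 684 (merge (leaf 5 556 652) (node 687 (merge (leaf 5 559 655) (node 685 (merge (leaf 5 588 716) (node 686 (merge (leaf 4 589 718) (node 719 (merge (leaf 5 591 688) (leaf 0 684 720))))))))))) (merge (node 556 (merge (leaf 7 524 524) (node 685 (merge (leaf 7 556 588) (node 686 (merge (leaf 4 589 718) (node 687 (merge (leaf 5 559 655) (node 688 (merge (leaf 3 652 652) (leaf 5 591 719))))))))))) (node 556 (merge (leaf 7 524 524) (node 685 (merge (leaf 7 556 588) (node 686 (merge (leaf 4 589 718) (node 687 (merge (leaf 5 559 655) (node 684 (merge (leaf 5 588 716) (node 719 (merge (leaf 5 591 688) (leaf 0 684 720)))))))))))))))))))))) (merge (node 653 (merge (node 625 (merge (leaf 4 528 657) (node 655 (merge (leaf 2 621 654) (leaf 5 559 687))))) (merge (node 621 (merge (node 526 (merge (leaf 6 525 558) (node 525 (merge (leaf 6 493 494) (node 524 (merge (leaf 7 492 492) (leaf 7 524 556))))))) (merge (node 654 (merge (leaf 4 557 686) (node 525 (merge (leaf 4 525 622) (node 652 (merge (leaf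 5 524 620) (leaf 5 556 684))))))) (node 686 (merge (leaf 4 557 654) (node 685 (merge (leaf 4 589 718) (node 684 (merge (leaf 5 556 652) (leaf 5 588 716)))))))))) (node 621 (merge (node 652 (merge (leaf 5 556 684) (node 526 (merge (leaf 6 525 558) (node 525 (merge (leaf 6 493 494) (leaf 5 524 620))))))) (merge (node 526 (merge (leaf 6 525 558) (node 525 (merge (leaf 6 493 494) (node 524 (merge (leaf 7 492 492) (leaf 7 524 556))))))) (merge (node 652 (merge (leaf 5 556 684) (node 524 (merge (leaf 7 524 556) (node 525 (merge (leaf 7 492 492) (leaf 5 524 620))))))) (node 684 (merge (leaf 5 556 652) (node 687 (merge (leaf 5 559 655) (node 685 (merge (leaf 5 588 716) (node 686 (merge (leaf 4 589 718) (node 688 (merge (leaf 2 653 657) (leaf 5 591 719)))))))))))))))))) (merge (node 653 (merge (node 625 (merge (leaf 4 528 657) (node 655 (merge (leaf 2 621 654) (leaf 5 559 687))))) (merge (node 621 (merge (node 556 (merge (leaf 7 524 524) (node 685 (merge (leaf 7 556 588) (node 686 (merge (leaf 4 557 654) (leaf 4 589 718))))))) (merge (node 558 (merge (leaf 6 525 526) (node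 559 (merge (leaf 1 556 588) (node 556 (merge (leaf 7 524 524) (leaf 0 556 591))))))) (merge (node 558 (merge (leaf 6 525 526) (node 559 (merge (leaf 1 556 588) (node 688 (merge (leaf 7 559 591) (node 686 (merge (leaf 4 557 654) (node 652 (merge (leaf 5 556 684) (node 687 (merge (leaf 3 652 685) (leaf 5 591 719))))))))))))) (node 686 (merge (leaf 4 557 654) (node 685 (merge (leaf 4 589 718) (node 684 (merge (leaf 5 556 652) (leaf 5 588 716))))))))))) (merge (node 625 (merge (leaf 4 528 657) (node 654 (merge (leaf 2 621 655) (node 621 (merge (leaf 4 557 686) (node 556 (merge (leaf 7 524 524) (node 685 (merge (leaf 7 556 588) (node 684 (merge (leaf 5 556 652) (leaf 5 588 716))))))))))))) (node 687 (merge (leaf 5 559 655) (node 688 (merge (leaf 5 591 719) (node 559 (merge (leaf 7 559 591) (node 558 (merge (leaf 1 556 588) (node 621 (merge (leaf 6 525 526) (node 684 (merge (leaf 5 556 652) (node 685 (merge (leaf 5 588 716) (node 686 (merge (leaf 2 653 657) (leaf 4 589 718))))))))))))))))))))) (merge (node 653 (merge (node 625 (merge (leaf 4 528 657) (node 655 (merge (leaf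 2 621 654) (leaf 5 559 687))))) (node 621 (merge (node 526 (merge (leaf 6 525 558) (node 525 (merge (leaf 6 493 494) (node 524 (merge (leaf 7 492 492) (leaf 7 524 556))))))) (merge (node 652 (merge (leaf 5 556 684) (node 526 (merge (leaf 6 525 558) (node 525 (merge (leaf 6 493 494) (leaf 5 524 620))))))) (node 684 (merge (leaf 5 556 652) (node 685 (merge (leaf 5 588 716) (node 588 (merge (leaf 7 556 556) (node 717 (merge (leaf 7 588 620) (node 718 (merge (leaf 4 589 686) (leaf 4 621 750)))))))))))))))) (merge (node 496 (merge (node 465 (merge (leaf 6 464 497) (node 464 (merge (leaf 6 432 433) (node 463 (merge (leaf 7 431 431) (leaf 7 463 495))))))) (merge (node 495 (merge (leaf 7 463 463) (node 687 (merge (leaf 5 559 655) (node 688 (merge (leaf 5 591 719) (node 559 (merge (leaf 7 559 591) (node 558 (merge (leaf 1 556 588) (node 525 (merge (leaf 3 524 524) (node 526 (merge (leaf 3 525 561) (node 494 (merge (leaf 5 461 462) (leaf 1 493 497))))))))))))))))) (merge (node 497 (merge (leaf 6 464 465) (node 687 (merge (leaf 5 559 655) (node 688 (merge (leaf 5 591 719) (node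 559 (merge (leaf 7 559 591) (node 558 (merge (leaf 1 556 588) (node 525 (merge (leaf 3 524 524) (node 526 (merge (leaf 3 525 561) (node 494 (merge (leaf 5 461 462) (leaf 1 493 495))))))))))))))))) (merge (node 655 (merge (leaf 5 559 687) (node 465 (merge (leaf 6 464 497) (node 464 (merge (leaf 6 432 433) (node 463 (merge (leaf 7 431 431) (node 559 (merge (leaf 5 463 591) (node 558 (merge (leaf 1 556 588) (node 525 (merge (leaf 3 524 524) (node 526 (merge (leaf 3 525 561) (node 462 (merge (leaf 5 461 494) (node 429 (merge (leaf 3 429 430) (node 461 (merge (leaf 3 428 428) (leaf 4 429 493))))))))))))))))))))))) (node 655 (merge (leaf 5 559 687) (node 463 (merge (leaf 7 463 495) (node 464 (merge (leaf 7 431 431) (node 465 (merge (leaf 6 432 433) (node 559 (merge (leaf 5 463 591) (node 558 (merge (leaf 1 556 588) (node 525 (merge (leaf 3 524 524) (node 526 (merge (leaf 3 525 561) (node 462 (merge (leaf 5 461 494) (node 429 (merge (leaf 3 429 430) (node 461 (merge (leaf 3 428 428) (leaf 4 429 493)))))))))))))))))))))))))))) (merge (node 525 (merge (node 687 (merge (leaf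 5 559 655) (node 688 (merge (leaf 5 591 719) (node 559 (merge (leaf 7 559 591) (node 558 (merge (leaf 1 556 588) (node 526 (merge (leaf 3 525 561) (node 621 (merge (leaf 6 493 494) (leaf 6 525 653))))))))))))) (merge (node 625 (merge (leaf 4 528 657) (node 655 (merge (leaf 5 559 687) (node 654 (merge (leaf 2 621 653) (node 621 (merge (leaf 4 525 622) (node 494 (merge (leaf 6 493 526) (node 493 (merge (leaf 6 461 462) (node 620 (merge (leaf 5 492 588) (leaf 5 524 652))))))))))))))) (merge (node 657 (merge (leaf 4 528 625) (node 688 (merge (node 687 (merge (leaf 5 559 655) (leaf 5 591 719))) (node 559 (merge (leaf 7 559 591) (node 588 (merge (leaf 1 556 558) (node 493 (merge (leaf 5 492 620) (node 460 (merge (leaf 7 460 492) (node 461 (merge (leaf 7 428 428) (leaf 5 460 556))))))))))))))) (merge (node 657 (merge (leaf 4 528 625) (node 496 (merge (node 465 (merge (leaf 6 464 497) (node 464 (merge (leaf 6 432 433) (node 463 (merge (leaf 7 431 431) (leaf 7 463 495))))))) (merge (node 497 (merge (leaf 6 464 465) (node 495 (merge (leaf 7 463 463) (node 494 (merge (leaf 1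 493 526) (node 462 (merge (leaf 3 461 461) (leaf 6 461 493))))))))) (merge (node 465 (merge (leaf 6 464 497) (node 464 (merge (leaf 6 432 433) (node 559 (merge (leaf 5 463 591) (node 558 (merge (leaf 1 556 588) (node 526 (merge (leaf 3 525 561) (node 621 (merge (leaf 6 493 494) (leaf 6 525 653))))))))))))) (merge (node 463 (merge (leaf 7 463 495) (node 464 (merge (leaf 7 431 431) (node 559 (merge (leaf 5 463 591) (node 558 (merge (leaf 1 556 588) (node 526 (merge (leaf 3 525 561) (node 621 (merge (leaf 6 493 494) (leaf 6 525 653))))))))))))) (node 463 (merge (leaf 7 463 495) (node 464 (merge (leaf 7 431 431) (node 559 (merge (leaf 5 463 591) (node 558 (merge (leaf 1 556 588) (node 526 (merge (leaf 3 525 561) (node 621 (merge (leaf 6 493 494) (leaf 6 525 653)))))))))))))))))))) (node 496 (merge (node 465 (merge (leaf 6 464 497) (node 464 (merge (leaf 6 432 433) (node 463 (merge (leaf 7 431 431) (leaf 7 463 495))))))) (merge (node 495 (merge (leaf 7 463 463) (node 625 (merge (leaf 4 528 657) (node 655 (merge (leaf 5 559 687) (node 654 (merge (leaf 2 621 653) (node 621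 (merge (leaf 4 525 622) (node 494 (merge (leaf 6 493 526) (node 493 (merge (leaf 6 461 462) (node 460 (merge (leaf 3 460 461) (leaf 7 460 492))))))))))))))))) (merge (node 625 (merge (leaf 4 528 657) (node 655 (merge (leaf 5 559 687) (node 654 (merge (leaf 2 621 653) (node 621 (merge (leaf 4 525 622) (node 494 (merge (leaf 6 493 526) (node 493 (merge (leaf 6 461 462) (node 460 (merge (leaf 7 460 492) (node 461 (merge (leaf 7 428 428) (leaf 3 460 495))))))))))))))))) (node 655 (merge (leaf 5 559 687) (node 526 (merge (node 621 (merge (leaf 6 493 494) (node 654 (merge (leaf 4 525 622) (node 620 (merge (leaf 5 524 652) (leaf 3 620 653))))))) (merge (node 625 (merge (leaf 4 528 657) (node 653 (merge (leaf 2 621 654) (node 621 (merge (leaf 6 525 558) (node 652 (merge (leaf 5 524 620) (leaf 5 556 684))))))))) (node 465 (merge (leaf 6 464 497) (node 464 (merge (leaf 6 432 433) (node 463 (merge (leaf 7 431 431) (node 559 (merge (leaf 5 463 591) (node 558 (merge (leaf 3 525 561) (node 462 (merge (leaf 5 461 494) (node 429 (merge (leaf 3 429 430) (node 461 (merge (leaf 3 428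 428) (leaf 4 429 493))))))))))))))))))))))))))))))) (merge (node 657 (merge (leaf 4 528 625) (node 525 (merge (node 496 (merge (node 465 (merge (leaf 6 464 497) (node 464 (merge (leaf 6 432 433) (node 463 (merge (leaf 7 431 431) (leaf 7 463 495))))))) (merge (node 463 (merge (leaf 7 463 495) (node 464 (merge (leaf 7 431 431) (node 559 (merge (leaf 5 463 591) (node 558 (merge (leaf 3 524 524) (leaf 1 556 588))))))))) (merge (node 465 (merge (leaf 6 464 497) (node 464 (merge (leaf 6 432 433) (node 559 (merge (leaf 5 463 591) (node 558 (merge (leaf 3 524 524) (leaf 1 556 588))))))))) (node 497 (merge (leaf 6 464 465) (node 495 (merge (leaf 7 463 463) (node 494 (merge (leaf 1 493 526) (node 493 (merge (leaf 6 461 462) (leaf 1 492 524))))))))))))) (merge (node 620 (merge (node 493 (merge (leaf 5 492 588) (node 462 (merge (leaf 6 461 494) (node 461 (merge (leaf 6 429 430) (node 460 (merge (leaf 7 428 428) (leaf 7 460 492))))))))) (merge (node 621 (merge (leaf 5 524 652) (node 524 (merge (leaf 7 492 492) (node 653 (merge (leaf 7 524 556) (node 654 (merge (leaf 4 525 622)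 (leaf 4 557 686))))))))) (node 588 (merge (leaf 5 492 493) (node 652 (merge (leaf 6 524 556) (leaf 5 524 621)))))))) (merge (node 496 (merge (node 465 (merge (leaf 6 464 497) (node 464 (merge (leaf 6 432 433) (node 463 (merge (leaf 7 431 431) (leaf 7 463 495))))))) (merge (node 497 (merge (leaf 6 464 465) (node 495 (merge (leaf 7 463 463) (node 494 (merge (leaf 1 493 526) (node 462 (merge (leaf 3 461 461) (leaf 6 461 493))))))))) (merge (node 465 (merge (leaf 6 464 497) (node 464 (merge (leaf 6 432 433) (node 559 (merge (leaf 5 463 591) (node 558 (merge (leaf 1 556 588) (node 526 (merge (leaf 3 525 561) (node 621 (merge (leaf 6 493 494) (leaf 6 525 653))))))))))))) (merge (node 463 (merge (leaf 7 463 495) (node 464 (merge (leaf 7 431 431) (node 559 (merge (leaf 5 463 591) (node 558 (merge (leaf 1 556 588) (node 526 (merge (leaf 3 525 561) (node 621 (merge (leaf 6 493 494) (leaf 6 525 653))))))))))))) (node 463 (merge (leaf 7 463 495) (node 464 (merge (leaf 7 431 431) (node 559 (merge (leaf 5 463 591) (node 558 (merge (leaf 1 556 588) (node 526 (merge (leaf 3 525 561)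 (node 621 (merge (leaf 6 493 494) (leaf 6 525 653)))))))))))))))))) (merge (node 496 (merge (node 465 (merge (leaf 6 464 497) (node 464 (merge (leaf 6 432 433) (node 463 (merge (leaf 7 431 431) (leaf 7 463 495))))))) (merge (node 497 (merge (leaf 6 464 465) (node 495 (merge (leaf 7 463 463) (node 494 (merge (leaf 1 493 526) (node 493 (merge (leaf 6 461 462) (leaf 1 492 524))))))))) (merge (node 465 (merge (leaf 6 464 497) (node 464 (merge (leaf 6 432 433) (node 559 (merge (leaf 5 463 591) (node 558 (merge (leaf 3 524 524) (node 526 (merge (leaf 3 525 561) (node 621 (merge (leaf 6 493 494) (leaf 6 525 653))))))))))))) (merge (node 463 (merge (leaf 7 463 495) (node 464 (merge (leaf 7 431 431) (node 559 (merge (leaf 5 463 591) (node 558 (merge (leaf 3 524 524) (node 526 (merge (leaf 3 525 561) (node 621 (merge (leaf 6 493 494) (leaf 6 525 653))))))))))))) (node 463 (merge (leaf 7 463 495) (node 464 (merge (leaf 7 431 431) (node 559 (merge (leaf 5 463 591) (node 558 (merge (leaf 3 524 524) (node 526 (merge (leaf 3 525 561) (node 621 (merge (leaf 6 493 494) (leaf 6 525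 653)))))))))))))))))) (merge (node 492 (merge (node 524 (merge (leaf 7 492 621) (node 460 (merge (leaf 4 428 428) (leaf 4 460 556))))) (merge (node 493 (merge (leaf 7 460 460) (node 621 (merge (leaf 7 492 524) (node 620 (merge (leaf 5 492 588) (leaf 5 524 652))))))) (merge (node 493 (merge (leaf 7 460 460) (node 588 (merge (leaf 5 492 620) (node 559 (merge (leaf 1 556 558) (node 461 (merge (leaf 5 460 556) (node 462 (merge (leaf 6 429 430) (node 464 (merge (leaf 1 460 463) (node 496 (merge (leaf 5 463 591) (node 465 (merge (leaf 6 432 433) (leaf 6 464 497))))))))))))))))) (node 621 (merge (leaf 7 492 524) (node 620 (merge (leaf 5 524 652) (node 588 (merge (leaf 5 492 493) (node 559 (merge (leaf 1 556 558) (node 688 (merge (leaf 7 559 591) (node 687 (merge (leaf 5 591 719) (node 685 (merge (leaf 2 653 686) (node 653 (merge (leaf 7 556 556) (leaf 7 588 717))))))))))))))))))))) (node 558 (merge (node 559 (merge (leaf 3 524 524) (leaf 1 556 588))) (merge (node 559 (merge (leaf 3 524 524) (node 591 (merge (leaf 0 556 556) (leaf 7 559 688))))) (merge (node 559 (merge (leaf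 1 556 588) (node 591 (merge (leaf 0 556 556) (leaf 7 559 688))))) (node 621 (merge (node 653 (merge (leaf 6 525 526) (node 524 (merge (leaf 7 492 492) (leaf 7 524 556))))) (merge (node 526 (merge (leaf 6 493 494) (node 653 (merge (leaf 6 525 558) (node 652 (merge (leaf 5 524 620) (leaf 5 556 684))))))) (merge (node 524 (merge (leaf 7 492 492) (node 653 (merge (leaf 7 524 556) (node 652 (merge (leaf 5 524 620) (leaf 5 556 684))))))) (node 526 (merge (leaf 6 493 494) (node 524 (merge (leaf 7 492 492) (node 523 (merge (leaf 0 522 522) (node 555 (merge (leaf 1 522 554) (node 491 (merge (leaf 3 490 490) (node 620 (merge (leaf 5 524 652) (node 588 (merge (leaf 7 491 556) (leaf 4 491 587))))))))))))))))))))))))))))))) (hyp 0))))))))) nP_149 cP_149 14 (by decide +kernel)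
def nP_150 : ℕ := 0x100000001000000012000000100000001000000000000000000000000000000000000000000000000000000000000000000000000000000000000000000000000000000000000000000000000000000000000
def cP_150 : ℕ := 0x1000000170000002fc0000027c000000dc000002fc0000007c000003fc000003f0000002f00000000000000000000000000000000000000000000000000000000000000000000000000000000000000000000000000000000000
theorem lP_150 : S nP_150 cP_150 13 := S_of_chk [(nP_148, cP_148, 12)] ⟨lP_148, trivial⟩ (node 557 (merge (node 625 (merge (leaf 4 528 657) (node 591 (merge (leaf 0 589 590) (node 559 (merge (leaf 7 559 688) (node 558 (merge (leaf 0 556 556) (leaf 1 556 588))))))))) (merge (node 625 (merge (leaf 4 528 657) (node 591 (merge (leaf 0 589 590) (node 559 (merge (leaf 7 559 688) (node 558 (merge (leaf 0 556 556) (node 525 (merge (leaf 3 524 524) (node 526 (merge (leaf 3 525 561) (node 621 (merge (leaf 6 493 494) (leaf 6 525 653))))))))))))))) (merge (node 559 (merge (node 591 (merge (leaf 7 559 688) (node 590 (merge (leaf 2 557 561) (leaf 0 589 625))))) (merge (node 591 (merge (leaf 7 559 688)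 (node 590 (merge (leaf 2 556 588) (leaf 0 589 625))))) (node 558 (merge (leaf 1 556 588) (node 525 (merge (leaf 3 524 524) (node 526 (merge (leaf 3 525 561) (node 621 (merge (leaf 6 493 494) (leaf 6 525 653)))))))))))) (merge (node 525 (merge (node 625 (merge (leaf 4 528 657) (node 590 (merge (leaf 0 589 591) (node 493 (merge (leaf 4 493 622) (node 494 (merge (leaf 6 461 462) (node 621 (merge (leaf 6 493 526) (node 492 (merge (leaf 7 460 460) (leaf 7 492 524))))))))))))) (merge (node 625 (merge (leaf 4 528 657) (node 590 (merge (leaf 0 589 591) (node 493 (merge (leaf 4 493 622) (node 492 (merge (leaf 7 460 460) (node 621 (merge (leaf 7 492 524) (node 620 (merge (leaf 5 492 588) (leaf 5 524 652))))))))))))) (merge (node 625 (merge (leaf 4 528 657) (node 590 (merge (leaf 0 589 591) (node 493 (merge (leaf 4 493 622) (node 494 (merge (leaf 6 461 462) (node 621 (merge (leaf 6 493 526) (node 620 (merge (leaf 5 492 588) (leaf 5 524 652))))))))))))) (merge (node 625 (merge (leaf 4 528 657) (node 590 (merge (leaf 0 589 591) (node 493 (merge (leaf 4 493 622) (node 461 (merge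 (leaf 4 461 558) (node 588 (merge (leaf 5 460 556) (leaf 5 492 620))))))))))) (merge (node 494 (merge (node 493 (merge (leaf 6 461 462) (node 621 (merge (leaf 6 493 526) (node 620 (merge (leaf 5 492 588) (leaf 5 524 652))))))) (merge (node 621 (merge (leaf 6 493 526) (node 524 (merge (leaf 7 492 492) (node 653 (merge (leaf 7 524 556) (node 652 (merge (leaf 5 524 620) (leaf 5 556 684))))))))) (merge (node 493 (merge (leaf 6 461 462) (node 492 (merge (leaf 7 460 460) (node 621 (merge (leaf 7 492 524) (node 620 (merge (leaf 5 492 588) (leaf 5 524 652))))))))) (node 462 (merge (leaf 6 461 493) (node 526 (merge (leaf 5 429 430) (leaf 5 461 558))))))))) (node 621 (merge (node 524 (merge (leaf 7 492 492) (node 653 (merge (leaf 7 524 556) (node 654 (merge (leaf 4 525 622) (leaf 4 557 686))))))) (merge (node 526 (merge (leaf 6 493 494) (node 653 (merge (leaf 6 525 558) (node 652 (merge (leaf 5 524 620) (leaf 5 556 684))))))) (node 524 (merge (leaf 7 492 492) (node 622 (merge (leaf 4 525 654) (node 620 (merge (leaf 5 524 652) (node 590 (merge (leaf 1 588 591) (node 619 (merge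 (leaf 2 586 618) (node 651 (merge (leaf 1 618 650) (node 587 (merge (leaf 3 586 586) (node 556 (merge (leaf 6 523 555) (leaf 5 523 588)))))))))))))))))))))))))) (merge (node 525 (merge (node 625 (merge (leaf 4 528 657) (node 590 (merge (leaf 0 589 591) (node 493 (merge (leaf 4 493 622) (node 492 (merge (leaf 7 460 460) (node 621 (merge (leaf 7 492 524) (node 620 (merge (leaf 5 492 588) (leaf 5 524 652))))))))))))) (merge (node 625 (merge (leaf 4 528 657) (node 590 (merge (leaf 0 589 591) (node 493 (merge (leaf 4 493 622) (node 494 (merge (leaf 6 461 462) (node 621 (merge (leaf 6 493 526) (node 620 (merge (leaf 5 492 588) (leaf 5 524 652))))))))))))) (merge (node 620 (merge (node 621 (merge (leaf 5 524 652) (node 654 (merge (leaf 4 525 622) (node 653 (merge (leaf 3 620 655) (leaf 4 557 686))))))) (merge (node 493 (merge (leaf 5 492 588) (node 462 (merge (leaf 6 461 494) (node 461 (merge (leaf 6 429 430) (node 460 (merge (leaf 7 428 428) (leaf 7 460 492))))))))) (node 621 (merge (leaf 5 524 652) (node 524 (merge (leaf 7 492 492) (node 653 (merge (leaf 7 524 556) (node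 654 (merge (leaf 4 525 622) (leaf 3 620 655)))))))))))) (merge (node 625 (merge (leaf 4 528 657) (node 591 (merge (leaf 0 589 590) (node 559 (merge (leaf 7 559 688) (node 496 (merge (leaf 5 463 464) (node 497 (merge (leaf 6 464 465) (node 495 (merge (leaf 7 463 463) (node 494 (merge (leaf 1 493 526) (node 493 (merge (leaf 6 461 462) (leaf 1 492 524))))))))))))))))) (node 621 (merge (node 654 (merge (leaf 4 525 622) (node 653 (merge (leaf 4 557 686) (node 620 (merge (leaf 5 524 652) (leaf 3 620 655))))))) (merge (node 524 (merge (leaf 7 492 492) (node 653 (merge (leaf 7 524 556) (node 652 (merge (leaf 5 524 620) (leaf 5 556 684))))))) (merge (node 524 (merge (leaf 7 492 492) (node 653 (merge (leaf 7 524 556) (node 654 (merge (leaf 4 525 622) (leaf 4 557 686))))))) (node 524 (merge (leaf 7 492 492) (node 622 (merge (leaf 4 525 654) (node 620 (merge (leaf 5 524 652) (node 590 (merge (leaf 1 588 591) (node 619 (merge (leaf 2 586 618) (node 651 (merge (leaf 1 618 650) (node 587 (merge (leaf 3 586 586) (node 556 (merge (leaf 6 523 555) (leaf 5 523 588))))))))))))))))))))))))))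 (merge (hyp 0) (node 525 (merge (node 493 (merge (node 492 (merge (leaf 7 460 460) (node 621 (merge (leaf 7 492 524) (node 622 (merge (leaf 4 493 590) (leaf 4 525 654))))))) (merge (node 492 (merge (leaf 7 460 460) (node 621 (merge (leaf 7 492 524) (node 620 (merge (leaf 5 492 588) (leaf 5 524 652))))))) (node 588 (merge (leaf 5 492 620) (node 558 (merge (leaf 1 556 559) (node 461 (merge (leaf 5 460 556) (leaf 4 461 590)))))))))) (merge (node 493 (merge (node 494 (merge (leaf 6 461 462) (node 621 (merge (leaf 6 493 526) (node 622 (merge (leaf 4 493 590) (leaf 4 525 654))))))) (merge (node 494 (merge (leaf 6 461 462) (node 621 (merge (leaf 6 493 526) (node 620 (merge (leaf 5 492 588) (leaf 5 524 652))))))) (node 588 (merge (leaf 5 492 620) (node 558 (merge (leaf 1 556 559) (node 461 (merge (leaf 5 460 556) (leaf 4 461 590)))))))))) (merge (node 492 (merge (node 524 (merge (leaf 7 492 621) (node 460 (merge (leaf 4 428 428) (leaf 4 460 556))))) (merge (node 493 (merge (leaf 7 460 460) (node 588 (merge (leaf 5 492 620) (node 558 (merge (leaf 1 556 559) (node 461 (merge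 (leaf 5 460 556) (leaf 4 461 590))))))))) (node 621 (merge (leaf 7 492 524) (node 526 (merge (leaf 6 493 494) (node 653 (merge (leaf 6 525 558) (node 652 (merge (leaf 5 524 620) (leaf 5 556 684)))))))))))) (merge (node 620 (merge (node 493 (merge (leaf 5 492 588) (node 622 (merge (leaf 4 493 590) (node 621 (merge (leaf 5 524 652) (leaf 4 525 654))))))) (merge (node 493 (merge (leaf 5 492 588) (node 462 (merge (leaf 6 461 494) (node 461 (merge (leaf 6 429 430) (node 460 (merge (leaf 7 428 428) (leaf 7 460 492))))))))) (node 621 (merge (leaf 5 524 652) (node 524 (merge (leaf 7 492 492) (node 653 (merge (leaf 7 524 556) (node 654 (merge (leaf 4 525 622) (leaf 4 557 686)))))))))))) (merge (node 494 (merge (node 493 (merge (leaf 6 461 462) (node 621 (merge (leaf 6 493 526) (node 622 (merge (leaf 4 493 590) (leaf 4 525 654))))))) (merge (node 621 (merge (leaf 6 493 526) (node 524 (merge (leaf 7 492 492) (node 653 (merge (leaf 7 524 556) (node 652 (merge (leaf 5 524 620) (leaf 5 556 684))))))))) (node 493 (merge (leaf 6 461 462) (node 590 (merge (leaf 4 493 622) (node 558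 (merge (leaf 4 461 461) (node 559 (merge (leaf 3 524 524) (leaf 1 557 561)))))))))))) (merge (node 492 (merge (node 524 (merge (leaf 7 492 621) (node 460 (merge (leaf 4 428 428) (leaf 4 460 556))))) (merge (node 493 (merge (leaf 7 460 460) (node 494 (merge (leaf 6 461 462) (node 621 (merge (leaf 6 493 526) (node 622 (merge (leaf 4 493 590) (leaf 4 525 654))))))))) (merge (node 621 (merge (leaf 7 492 524) (node 526 (merge (leaf 6 493 494) (node 653 (merge (leaf 6 525 558) (node 654 (merge (leaf 4 525 622) (leaf 4 557 686))))))))) (node 460 (merge (leaf 7 460 493) (node 524 (merge (leaf 4 428 428) (leaf 4 460 556))))))))) (merge (node 494 (merge (node 493 (merge (leaf 6 461 462) (node 621 (merge (leaf 6 493 526) (node 620 (merge (leaf 5 492 588) (leaf 5 524 652))))))) (merge (node 621 (merge (leaf 6 493 526) (node 524 (merge (leaf 7 492 492) (node 653 (merge (leaf 7 524 556) (node 654 (merge (leaf 4 525 622) (leaf 4 557 686))))))))) (merge (node 493 (merge (leaf 6 461 462) (node 492 (merge (leaf 7 460 460) (node 621 (merge (leaf 7 492 524) (node 620 (merge (leaf 5 492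 588) (leaf 5 524 652))))))))) (node 462 (merge (leaf 6 461 493) (node 526 (merge (leaf 5 429 430) (leaf 5 461 558))))))))) (merge (node 494 (merge (node 493 (merge (leaf 6 461 462) (node 621 (merge (leaf 6 493 526) (node 622 (merge (leaf 4 493 590) (leaf 4 525 654))))))) (merge (node 621 (merge (leaf 6 493 526) (node 654 (merge (leaf 4 525 622) (node 653 (merge (leaf 4 557 686) (node 652 (merge (leaf 5 524 620) (leaf 5 556 684))))))))) (merge (node 493 (merge (leaf 6 461 462) (node 492 (merge (leaf 7 460 460) (node 621 (merge (leaf 7 492 524) (node 620 (merge (leaf 5 492 588) (leaf 5 524 652))))))))) (node 462 (merge (leaf 6 461 493) (node 526 (merge (leaf 5 429 430) (leaf 5 461 558))))))))) (merge (node 558 (merge (node 559 (merge (leaf 3 524 524) (leaf 1 556 588))) (merge (node 559 (merge (leaf 1 556 588) (node 561 (merge (leaf 3 525 526) (leaf 1 557 590))))) (merge (node 559 (merge (leaf 3 524 524) (node 561 (merge (leaf 3 525 526) (leaf 1 557 590))))) (node 621 (merge (node 653 (merge (leaf 6 525 526) (node 524 (merge (leaf 7 492 492) (leaf 7 524 556))))) (merge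 (node 653 (merge (leaf 6 525 526) (node 654 (merge (leaf 4 557 686) (node 525 (merge (leaf 4 525 622) (node 652 (merge (leaf 5 524 620) (leaf 5 556 684))))))))) (merge (node 524 (merge (leaf 7 492 492) (node 653 (merge (leaf 7 524 556) (node 685 (merge (leaf 6 557 590) (node 684 (merge (leaf 5 556 652) (leaf 5 588 716))))))))) (node 526 (merge (leaf 6 493 494) (node 524 (merge (leaf 7 492 492) (node 523 (merge (leaf 0 522 522) (node 555 (merge (leaf 1 522 554) (node 491 (merge (leaf 3 490 490) (node 620 (merge (leaf 5 524 652) (node 588 (merge (leaf 7 491 556) (leaf 4 491 587))))))))))))))))))))))) (node 558 (merge (node 559 (merge (leaf 3 524 524) (leaf 1 556 588))) (merge (node 559 (merge (leaf 1 556 588) (node 561 (merge (leaf 3 525 526) (leaf 1 557 590))))) (merge (node 559 (merge (leaf 3 524 524) (node 561 (merge (leaf 3 525 526) (leaf 1 557 590))))) (node 493 (merge (node 590 (merge (leaf 4 461 461) (leaf 4 493 622))) (merge (node 461 (merge (leaf 4 461 590) (node 588 (merge (leaf 5 460 556) (leaf 5 492 620))))) (merge (node 461 (merge (leaf 4 461 590) (node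 588 (merge (leaf 5 460 556) (leaf 5 492 620))))) (merge (node 492 (merge (leaf 7 460 460) (node 590 (merge (leaf 4 493 622) (node 588 (merge (leaf 5 492 620) (node 587 (merge (leaf 2 554 586) (node 619 (merge (leaf 1 586 618) (node 555 (merge (leaf 3 554 554) (node 524 (merge (leaf 6 491 523) (leaf 5 491 556))))))))))))))) (node 462 (merge (leaf 6 461 494) (node 461 (merge (leaf 6 429 430) (node 460 (merge (leaf 7 428 428) (leaf 7 460 492))))))))))))))))))))))))))))))))) nP_150 cP_150 13 (by decide +kernel)
def nP_151 : ℕ := 0x100000001000000012000000100000001000000000000000000000000000000000000000000000000000000000000000000000000000000000000000000000000000000000000000000000000000000000000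
def cP_151 : ℕ := 0xb0000001f00000027c0000027c000000dc000002fc0000007c000003fc000003f0000002d00000000000000000000000000000000000000000000000000000000000000000000000000000000000000000000000000000000000
theorem lP_151 : S nP_151 cP_151 13 := S_of_chk [] trivial (node 557 (merge (node 625 (merge (leaf 4 528 657) (node 591 (merge (leaf 0 589 590) (node 559 (merge (leaf 7 559 688) (node 558 (merge (leaf 0 556 556) (leaf 1 556 588))))))))) (merge (node 625 (merge (leaf 4 528 657) (node 591 (merge (leaf 0 589 590) (node 559 (merge (leaf 7 559 688) (node 558 (merge (leaf 0 556 556) (node 525 (merge (leaf 3 524 524) (node 526 (merge (leaf 3 525 561) (node 621 (merge (leaf 6 493 494) (leaf 6 525 653))))))))))))))) (merge (node 559 (merge (node 591 (merge (leaf 7 559 688) (node 590 (merge (leaf 2 557 561) (leaf 0 589 625))))) (merge (node 591 (merge (leaf 7 559 688) (node 590 (merge (leaf 2 556 588) (leaf 0 589 625))))) (node 558 (merge (leaf 1 556 588) (node 525 (merge (leaf 3 524 524) (node 526 (merge (leaf 3 525 561) (node 621 (merge (leaf 6 493 494) (leaf 6 525 653))))))))))))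 (merge (node 525 (merge (node 625 (merge (leaf 4 528 657) (node 590 (merge (leaf 0 589 591) (node 493 (merge (leaf 4 493 622) (node 494 (merge (leaf 6 461 462) (node 621 (merge (leaf 6 493 526) (node 492 (merge (leaf 7 460 460) (leaf 7 492 524))))))))))))) (merge (node 625 (merge (leaf 4 528 657) (node 590 (merge (leaf 0 589 591) (node 493 (merge (leaf 4 493 622) (node 492 (merge (leaf 7 460 460) (node 621 (merge (leaf 7 492 524) (node 620 (merge (leaf 5 492 588) (leaf 5 524 652))))))))))))) (merge (node 625 (merge (leaf 4 528 657) (node 590 (merge (leaf 0 589 591) (node 493 (merge (leaf 4 493 622) (node 494 (merge (leaf 6 461 462) (node 621 (merge (leaf 6 493 526) (node 620 (merge (leaf 5 492 588) (leaf 5 524 652))))))))))))) (merge (node 625 (merge (leaf 4 528 657) (node 590 (merge (leaf 0 589 591) (node 493 (merge (leaf 4 493 622) (node 461 (merge (leaf 4 461 558) (node 588 (merge (leaf 5 460 556) (leaf 5 492 620))))))))))) (merge (node 494 (merge (node 493 (merge (leaf 6 461 462) (node 621 (merge (leaf 6 493 526) (node 620 (merge (leaf 5 492 588) (leaf 5 524 652)))))))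 (merge (node 621 (merge (leaf 6 493 526) (node 524 (merge (leaf 7 492 492) (node 653 (merge (leaf 7 524 556) (node 652 (merge (leaf 5 524 620) (leaf 5 556 684))))))))) (merge (node 493 (merge (leaf 6 461 462) (node 492 (merge (leaf 7 460 460) (node 621 (merge (leaf 7 492 524) (node 620 (merge (leaf 5 492 588) (leaf 5 524 652))))))))) (node 462 (merge (leaf 6 461 493) (node 526 (merge (leaf 5 429 430) (leaf 5 461 558))))))))) (node 621 (merge (node 524 (merge (leaf 7 492 492) (node 653 (merge (leaf 7 524 556) (node 654 (merge (leaf 4 525 622) (leaf 4 557 686))))))) (merge (node 526 (merge (leaf 6 493 494) (node 653 (merge (leaf 6 525 558) (node 652 (merge (leaf 5 524 620) (leaf 5 556 684))))))) (node 524 (merge (leaf 7 492 492) (node 622 (merge (leaf 4 525 654) (node 620 (merge (leaf 5 524 652) (node 590 (merge (leaf 1 588 591) (node 619 (merge (leaf 2 586 618) (node 651 (merge (leaf 1 618 650) (node 587 (merge (leaf 3 586 586) (node 556 (merge (leaf 6 523 555) (leaf 5 523 588)))))))))))))))))))))))))) (merge (node 525 (merge (node 625 (merge (leaf 4 528 657) (node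 590 (merge (leaf 0 589 591) (node 493 (merge (leaf 4 493 622) (node 492 (merge (leaf 7 460 460) (node 621 (merge (leaf 7 492 524) (node 620 (merge (leaf 5 492 588) (leaf 5 524 652))))))))))))) (merge (node 625 (merge (leaf 4 528 657) (node 590 (merge (leaf 0 589 591) (node 493 (merge (leaf 4 493 622) (node 494 (merge (leaf 6 461 462) (node 621 (merge (leaf 6 493 526) (node 620 (merge (leaf 5 492 588) (leaf 5 524 652))))))))))))) (merge (node 620 (merge (node 493 (merge (leaf 5 492 588) (node 622 (merge (leaf 4 493 590) (node 621 (merge (leaf 5 524 652) (leaf 4 525 654))))))) (merge (node 493 (merge (leaf 5 492 588) (node 462 (merge (leaf 6 461 494) (node 461 (merge (leaf 6 429 430) (node 460 (merge (leaf 7 428 428) (leaf 7 460 492))))))))) (node 621 (merge (leaf 5 524 652) (node 524 (merge (leaf 7 492 492) (node 653 (merge (leaf 7 524 556) (node 654 (merge (leaf 4 525 622) (leaf 4 557 686)))))))))))) (merge (node 657 (merge (leaf 4 528 625) (node 620 (merge (node 493 (merge (leaf 5 492 588) (node 462 (merge (leaf 6 461 494) (node 461 (merge (leaf 6 429 430) (node 460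 (merge (leaf 7 428 428) (leaf 7 460 492))))))))) (merge (node 621 (merge (leaf 5 524 652) (node 524 (merge (leaf 7 492 492) (node 653 (merge (leaf 7 524 556) (node 654 (merge (leaf 4 525 622) (leaf 4 557 686))))))))) (node 588 (merge (leaf 5 492 493) (node 652 (merge (leaf 6 524 556) (leaf 5 524 621)))))))))) (merge (node 625 (merge (leaf 4 528 657) (node 591 (merge (leaf 0 589 590) (node 559 (merge (leaf 7 559 688) (node 496 (merge (leaf 5 463 464) (node 497 (merge (leaf 6 464 465) (node 495 (merge (leaf 7 463 463) (node 494 (merge (leaf 1 493 526) (node 493 (merge (leaf 6 461 462) (leaf 1 492 524))))))))))))))))) (node 657 (merge (leaf 4 528 625) (node 621 (merge (node 524 (merge (leaf 7 492 492) (node 653 (merge (leaf 7 524 556) (node 654 (merge (leaf 4 525 622) (leaf 4 557 686))))))) (merge (node 524 (merge (leaf 7 492 492) (node 653 (merge (leaf 7 524 556) (node 652 (merge (leaf 5 524 620) (leaf 5 556 684))))))) (merge (node 654 (merge (leaf 4 525 622) (node 686 (merge (leaf 4 557 653) (node 620 (merge (leaf 5 524 652) (node 591 (merge (leaf 1 588 590) (node 688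 (merge (leaf 7 559 559) (node 687 (merge (leaf 2 653 685) (leaf 5 591 719))))))))))))) (node 524 (merge (leaf 7 492 492) (node 622 (merge (leaf 4 525 654) (node 620 (merge (leaf 5 524 652) (node 590 (merge (leaf 1 588 591) (node 619 (merge (leaf 2 586 618) (node 651 (merge (leaf 1 618 650) (node 587 (merge (leaf 3 586 586) (node 556 (merge (leaf 6 523 555) (leaf 5 523 588))))))))))))))))))))))))))))) (merge (node 657 (merge (leaf 4 528 625) (node 525 (merge (node 496 (merge (node 465 (merge (leaf 6 464 497) (node 464 (merge (leaf 6 432 433) (node 463 (merge (leaf 7 431 431) (leaf 7 463 495))))))) (merge (node 463 (merge (leaf 7 463 495) (node 464 (merge (leaf 7 431 431) (node 559 (merge (leaf 5 463 591) (node 558 (merge (leaf 3 524 524) (leaf 1 556 588))))))))) (merge (node 465 (merge (leaf 6 464 497) (node 464 (merge (leaf 6 432 433) (node 559 (merge (leaf 5 463 591) (node 558 (merge (leaf 3 524 524) (leaf 1 556 588))))))))) (node 497 (merge (leaf 6 464 465) (node 495 (merge (leaf 7 463 463) (node 494 (merge (leaf 1 493 526) (node 493 (merge (leaf 6 461 462) (leaf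 1 492 524))))))))))))) (merge (node 620 (merge (node 493 (merge (leaf 5 492 588) (node 462 (merge (leaf 6 461 494) (node 461 (merge (leaf 6 429 430) (node 460 (merge (leaf 7 428 428) (leaf 7 460 492))))))))) (merge (node 621 (merge (leaf 5 524 652) (node 524 (merge (leaf 7 492 492) (node 653 (merge (leaf 7 524 556) (node 654 (merge (leaf 4 525 622) (leaf 4 557 686))))))))) (node 588 (merge (leaf 5 492 493) (node 652 (merge (leaf 6 524 556) (leaf 5 524 621)))))))) (merge (node 496 (merge (node 465 (merge (leaf 6 464 497) (node 464 (merge (leaf 6 432 433) (node 463 (merge (leaf 7 431 431) (leaf 7 463 495))))))) (merge (node 497 (merge (leaf 6 464 465) (node 495 (merge (leaf 7 463 463) (node 494 (merge (leaf 1 493 526) (node 462 (merge (leaf 3 461 461) (leaf 6 461 493))))))))) (merge (node 465 (merge (leaf 6 464 497) (node 464 (merge (leaf 6 432 433) (node 559 (merge (leaf 5 463 591) (node 558 (merge (leaf 1 556 588) (node 526 (merge (leaf 3 525 561) (node 621 (merge (leaf 6 493 494) (leaf 6 525 653))))))))))))) (merge (node 463 (merge (leaf 7 463 495) (node 464 (merge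 (leaf 7 431 431) (node 559 (merge (leaf 5 463 591) (node 558 (merge (leaf 1 556 588) (node 526 (merge (leaf 3 525 561) (node 621 (merge (leaf 6 493 494) (leaf 6 525 653))))))))))))) (node 463 (merge (leaf 7 463 495) (node 464 (merge (leaf 7 431 431) (node 559 (merge (leaf 5 463 591) (node 558 (merge (leaf 1 556 588) (node 526 (merge (leaf 3 525 561) (node 621 (merge (leaf 6 493 494) (leaf 6 525 653)))))))))))))))))) (merge (node 496 (merge (node 465 (merge (leaf 6 464 497) (node 464 (merge (leaf 6 432 433) (node 463 (merge (leaf 7 431 431) (leaf 7 463 495))))))) (merge (node 497 (merge (leaf 6 464 465) (node 495 (merge (leaf 7 463 463) (node 494 (merge (leaf 1 493 526) (node 493 (merge (leaf 6 461 462) (leaf 1 492 524))))))))) (merge (node 465 (merge (leaf 6 464 497) (node 464 (merge (leaf 6 432 433) (node 559 (merge (leaf 5 463 591) (node 558 (merge (leaf 3 524 524) (node 526 (merge (leaf 3 525 561) (node 621 (merge (leaf 6 493 494) (leaf 6 525 653))))))))))))) (merge (node 463 (merge (leaf 7 463 495) (node 464 (merge (leaf 7 431 431) (node 559 (merge (leaf 5 463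 591) (node 558 (merge (leaf 3 524 524) (node 526 (merge (leaf 3 525 561) (node 621 (merge (leaf 6 493 494) (leaf 6 525 653))))))))))))) (node 463 (merge (leaf 7 463 495) (node 464 (merge (leaf 7 431 431) (node 559 (merge (leaf 5 463 591) (node 558 (merge (leaf 3 524 524) (node 526 (merge (leaf 3 525 561) (node 621 (merge (leaf 6 493 494) (leaf 6 525 653)))))))))))))))))) (merge (node 492 (merge (node 524 (merge (leaf 7 492 621) (node 460 (merge (leaf 4 428 428) (leaf 4 460 556))))) (merge (node 493 (merge (leaf 7 460 460) (node 621 (merge (leaf 7 492 524) (node 620 (merge (leaf 5 492 588) (leaf 5 524 652))))))) (merge (node 493 (merge (leaf 7 460 460) (node 588 (merge (leaf 5 492 620) (node 559 (merge (leaf 1 556 558) (node 461 (merge (leaf 5 460 556) (node 462 (merge (leaf 6 429 430) (node 464 (merge (leaf 1 460 463) (node 496 (merge (leaf 5 463 591) (node 465 (merge (leaf 6 432 433) (leaf 6 464 497))))))))))))))))) (node 621 (merge (leaf 7 492 524) (node 620 (merge (leaf 5 524 652) (node 588 (merge (leaf 5 492 493) (node 559 (merge (leaf 1 556 558) (node 688 (merge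 (leaf 7 559 591) (node 687 (merge (leaf 5 591 719) (node 685 (merge (leaf 2 653 686) (node 653 (merge (leaf 7 556 556) (leaf 7 588 717))))))))))))))))))))) (node 558 (merge (node 559 (merge (leaf 3 524 524) (leaf 1 556 588))) (merge (node 559 (merge (leaf 3 524 524) (node 591 (merge (leaf 0 556 556) (leaf 7 559 688))))) (merge (node 559 (merge (leaf 1 556 588) (node 591 (merge (leaf 0 556 556) (leaf 7 559 688))))) (node 621 (merge (node 653 (merge (leaf 6 525 526) (node 524 (merge (leaf 7 492 492) (leaf 7 524 556))))) (merge (node 526 (merge (leaf 6 493 494) (node 653 (merge (leaf 6 525 558) (node 652 (merge (leaf 5 524 620) (leaf 5 556 684))))))) (merge (node 524 (merge (leaf 7 492 492) (node 653 (merge (leaf 7 524 556) (node 652 (merge (leaf 5 524 620) (leaf 5 556 684))))))) (node 526 (merge (leaf 6 493 494) (node 524 (merge (leaf 7 492 492) (node 523 (merge (leaf 0 522 522) (node 555 (merge (leaf 1 522 554) (node 491 (merge (leaf 3 490 490) (node 620 (merge (leaf 5 524 652) (node 588 (merge (leaf 7 491 556) (leaf 4 491 587))))))))))))))))))))))))))))))) (node 525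 (merge (node 493 (merge (node 492 (merge (leaf 7 460 460) (node 621 (merge (leaf 7 492 524) (node 622 (merge (leaf 4 493 590) (leaf 4 525 654))))))) (merge (node 492 (merge (leaf 7 460 460) (node 621 (merge (leaf 7 492 524) (node 620 (merge (leaf 5 492 588) (leaf 5 524 652))))))) (node 588 (merge (leaf 5 492 620) (node 558 (merge (leaf 1 556 559) (node 461 (merge (leaf 5 460 556) (leaf 4 461 590)))))))))) (merge (node 493 (merge (node 494 (merge (leaf 6 461 462) (node 621 (merge (leaf 6 493 526) (node 622 (merge (leaf 4 493 590) (leaf 4 525 654))))))) (merge (node 494 (merge (leaf 6 461 462) (node 621 (merge (leaf 6 493 526) (node 620 (merge (leaf 5 492 588) (leaf 5 524 652))))))) (node 588 (merge (leaf 5 492 620) (node 558 (merge (leaf 1 556 559) (node 461 (merge (leaf 5 460 556) (leaf 4 461 590)))))))))) (merge (node 492 (merge (node 524 (merge (leaf 7 492 621) (node 460 (merge (leaf 4 428 428) (leaf 4 460 556))))) (merge (node 493 (merge (leaf 7 460 460) (node 588 (merge (leaf 5 492 620) (node 558 (merge (leaf 1 556 559) (node 461 (merge (leaf 5 460 556) (leaf 4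 461 590))))))))) (node 621 (merge (leaf 7 492 524) (node 526 (merge (leaf 6 493 494) (node 653 (merge (leaf 6 525 558) (node 652 (merge (leaf 5 524 620) (leaf 5 556 684)))))))))))) (merge (node 620 (merge (node 493 (merge (leaf 5 492 588) (node 622 (merge (leaf 4 493 590) (node 621 (merge (leaf 5 524 652) (leaf 4 525 654))))))) (merge (node 493 (merge (leaf 5 492 588) (node 462 (merge (leaf 6 461 494) (node 461 (merge (leaf 6 429 430) (node 460 (merge (leaf 7 428 428) (leaf 7 460 492))))))))) (node 621 (merge (leaf 5 524 652) (node 524 (merge (leaf 7 492 492) (node 653 (merge (leaf 7 524 556) (node 654 (merge (leaf 4 525 622) (leaf 4 557 686)))))))))))) (merge (node 494 (merge (node 493 (merge (leaf 6 461 462) (node 621 (merge (leaf 6 493 526) (node 622 (merge (leaf 4 493 590) (leaf 4 525 654))))))) (merge (node 621 (merge (leaf 6 493 526) (node 524 (merge (leaf 7 492 492) (node 653 (merge (leaf 7 524 556) (node 652 (merge (leaf 5 524 620) (leaf 5 556 684))))))))) (node 493 (merge (leaf 6 461 462) (node 590 (merge (leaf 4 493 622) (node 558 (merge (leaf 4 461 461)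 (node 559 (merge (leaf 3 524 524) (leaf 1 557 561)))))))))))) (merge (node 492 (merge (node 524 (merge (leaf 7 492 621) (node 460 (merge (leaf 4 428 428) (leaf 4 460 556))))) (merge (node 493 (merge (leaf 7 460 460) (node 494 (merge (leaf 6 461 462) (node 621 (merge (leaf 6 493 526) (node 622 (merge (leaf 4 493 590) (leaf 4 525 654))))))))) (merge (node 621 (merge (leaf 7 492 524) (node 526 (merge (leaf 6 493 494) (node 653 (merge (leaf 6 525 558) (node 654 (merge (leaf 4 525 622) (leaf 4 557 686))))))))) (node 460 (merge (leaf 7 460 493) (node 524 (merge (leaf 4 428 428) (leaf 4 460 556))))))))) (merge (node 494 (merge (node 493 (merge (leaf 6 461 462) (node 621 (merge (leaf 6 493 526) (node 620 (merge (leaf 5 492 588) (leaf 5 524 652))))))) (merge (node 621 (merge (leaf 6 493 526) (node 524 (merge (leaf 7 492 492) (node 653 (merge (leaf 7 524 556) (node 654 (merge (leaf 4 525 622) (leaf 4 557 686))))))))) (merge (node 493 (merge (leaf 6 461 462) (node 492 (merge (leaf 7 460 460) (node 621 (merge (leaf 7 492 524) (node 620 (merge (leaf 5 492 588) (leaf 5 524 652)))))))))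 (node 462 (merge (leaf 6 461 493) (node 526 (merge (leaf 5 429 430) (leaf 5 461 558))))))))) (merge (node 494 (merge (node 493 (merge (leaf 6 461 462) (node 621 (merge (leaf 6 493 526) (node 622 (merge (leaf 4 493 590) (leaf 4 525 654))))))) (merge (node 621 (merge (leaf 6 493 526) (node 654 (merge (leaf 4 525 622) (node 653 (merge (leaf 4 557 686) (node 652 (merge (leaf 5 524 620) (leaf 5 556 684))))))))) (merge (node 493 (merge (leaf 6 461 462) (node 492 (merge (leaf 7 460 460) (node 621 (merge (leaf 7 492 524) (node 620 (merge (leaf 5 492 588) (leaf 5 524 652))))))))) (node 462 (merge (leaf 6 461 493) (node 526 (merge (leaf 5 429 430) (leaf 5 461 558))))))))) (merge (node 558 (merge (node 559 (merge (leaf 3 524 524) (leaf 1 556 588))) (merge (node 559 (merge (leaf 1 556 588) (node 561 (merge (leaf 3 525 526) (leaf 1 557 590))))) (merge (node 559 (merge (leaf 3 524 524) (node 561 (merge (leaf 3 525 526) (leaf 1 557 590))))) (node 621 (merge (node 653 (merge (leaf 6 525 526) (node 524 (merge (leaf 7 492 492) (leaf 7 524 556))))) (merge (node 653 (merge (leaf 6 525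 526) (node 654 (merge (leaf 4 557 686) (node 525 (merge (leaf 4 525 622) (node 652 (merge (leaf 5 524 620) (leaf 5 556 684))))))))) (merge (node 524 (merge (leaf 7 492 492) (node 653 (merge (leaf 7 524 556) (node 685 (merge (leaf 6 557 590) (node 684 (merge (leaf 5 556 652) (leaf 5 588 716))))))))) (node 526 (merge (leaf 6 493 494) (node 524 (merge (leaf 7 492 492) (node 523 (merge (leaf 0 522 522) (node 555 (merge (leaf 1 522 554) (node 491 (merge (leaf 3 490 490) (node 620 (merge (leaf 5 524 652) (node 588 (merge (leaf 7 491 556) (leaf 4 491 587))))))))))))))))))))))) (node 558 (merge (node 559 (merge (leaf 3 524 524) (leaf 1 556 588))) (merge (node 559 (merge (leaf 1 556 588) (node 561 (merge (leaf 3 525 526) (leaf 1 557 590))))) (merge (node 559 (merge (leaf 3 524 524) (node 561 (merge (leaf 3 525 526) (leaf 1 557 590))))) (node 493 (merge (node 590 (merge (leaf 4 461 461) (leaf 4 493 622))) (merge (node 461 (merge (leaf 4 461 590) (node 588 (merge (leaf 5 460 556) (leaf 5 492 620))))) (merge (node 461 (merge (leaf 4 461 590) (node 588 (merge (leaf 5 460 556) (leaf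 5 492 620))))) (merge (node 492 (merge (leaf 7 460 460) (node 590 (merge (leaf 4 493 622) (node 588 (merge (leaf 5 492 620) (node 587 (merge (leaf 2 554 586) (node 619 (merge (leaf 1 586 618) (node 555 (merge (leaf 3 554 554) (node 524 (merge (leaf 6 491 523) (leaf 5 491 556))))))))))))))) (node 462 (merge (leaf 6 461 494) (node 461 (merge (leaf 6 429 430) (node 460 (merge (leaf 7 428 428) (leaf 7 460 492))))))))))))))))))))))))))))))))) nP_151 cP_151 13 (by decide +kernel)
def nP_152 : ℕ := 0x120000001000000012000000100000001000000000000000000000000000000000000000000000000000000000000000000000000000000000000000000000000000000000000000000000000000000000000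
def cP_152 : ℕ := 0x580000007e000001ff8000025f0000027e0000005e000002fe000000780000007000000070000000000000000000000000000000000000000000000000000000000000000000000000000000000000000000000000000000000000000000
theorem lP_152 : S nP_152 cP_152 12 := S_of_chk [] trivial (node 621 (merge (node 557 (merge (node 556 (merge (leaf 7 524 524) (node 685 (merge (leaf 7 556 588) (node 686 (merge (leaf 4 557 654) (leaf 4 589 718))))))) (merge (node 654 (merge (leaf 4 557 686) (node 525 (merge (leaf 4 525 622) (node 652 (merge (leaf 5 524 620) (leaf 5 556 684))))))) (node 556 (merge (leaf 7 524 524) (node 685 (merge (leaf 7 556 588) (node 684 (merge (leaf 5 556 652) (leaf 5 588 716)))))))))) (merge (node 685 (merge (node 718 (merge (leaf 4 589 686) (node 717 (merge (leaf 4 621 750) (node 716 (merge (leaf 5 588 684) (leaf 5 620 748))))))) (merge (node 588 (merge (leaf 7 556 556) (node 717 (merge (leaf 7 588 620) (node 716 (merge (leaf 5 588 684) (leaf 5 620 748))))))) (node 588 (merge (leaf 7 556 556) (node 686 (merge (leaf 4 589 718) (node 557 (merge (leaf 4 557 654) (node 558 (merge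 (leaf 6 525 526) (leaf 1 556 559)))))))))))) (merge (node 557 (merge (node 558 (merge (leaf 6 525 526) (node 685 (merge (leaf 6 557 590) (node 686 (merge (leaf 4 557 654) (leaf 4 589 718))))))) (merge (node 558 (merge (leaf 6 525 526) (node 685 (merge (leaf 6 557 590) (node 684 (merge (leaf 5 556 652) (leaf 5 588 716))))))) (merge (node 654 (merge (leaf 4 557 686) (node 525 (merge (leaf 4 525 622) (node 652 (merge (leaf 5 524 620) (leaf 5 556 684))))))) (node 654 (merge (leaf 4 557 686) (node 525 (merge (leaf 4 525 622) (node 652 (merge (leaf 5 524 620) (leaf 5 556 684))))))))))) (merge (node 558 (merge (node 590 (merge (leaf 6 557 685) (node 526 (merge (leaf 5 493 494) (leaf 5 525 622))))) (merge (node 685 (merge (leaf 6 557 590) (node 588 (merge (leaf 7 556 556) (node 717 (merge (leaf 7 588 620) (node 718 (merge (leaf 4 589 686) (leaf 4 621 750))))))))) (node 557 (merge (leaf 6 525 526) (node 559 (merge (leaf 1 556 588) (node 524 (merge (leaf 3 524 525) (leaf 7 524 556)))))))))) (merge (node 557 (merge (node 558 (merge (leaf 6 525 526) (node 685 (merge (leaf 6 557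 590) (node 684 (merge (leaf 5 556 652) (leaf 5 588 716))))))) (merge (node 558 (merge (leaf 6 525 526) (node 685 (merge (leaf 6 557 590) (node 588 (merge (leaf 7 556 556) (leaf 1 556 559))))))) (merge (node 556 (merge (leaf 7 524 524) (node 685 (merge (leaf 7 556 588) (node 684 (merge (leaf 5 556 652) (leaf 5 588 716))))))) (node 558 (merge (leaf 6 525 526) (node 559 (merge (leaf 1 556 588) (node 590 (merge (leaf 1 557 561) (node 652 (merge (leaf 5 556 684) (node 525 (merge (leaf 5 524 620) (node 493 (merge (leaf 4 461 461) (leaf 4 493 622))))))))))))))))) (merge (node 685 (merge (node 590 (merge (leaf 6 557 558) (node 717 (merge (leaf 6 589 622) (node 716 (merge (leaf 5 588 684) (leaf 5 620 748))))))) (merge (node 590 (merge (leaf 6 557 558) (node 717 (merge (leaf 6 589 622) (node 718 (merge (leaf 4 589 686) (leaf 4 621 750))))))) (merge (node 686 (merge (leaf 4 589 718) (node 557 (merge (leaf 4 557 654) (node 684 (merge (leaf 5 556 652) (leaf 5 588 716))))))) (node 684 (merge (leaf 5 588 716) (node 557 (merge (leaf 5 556 652) (node 654 (merge (leaf 4 557 686) (node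 525 (merge (leaf 4 525 622) (node 494 (merge (leaf 6 493 526) (node 493 (merge (leaf 6 461 462) (node 492 (merge (leaf 7 460 460) (leaf 7 492 524))))))))))))))))))) (merge (node 657 (merge (leaf 4 528 625) (node 685 (merge (node 590 (merge (leaf 6 557 558) (node 717 (merge (leaf 6 589 622) (node 716 (merge (leaf 5 588 684) (leaf 5 620 748))))))) (merge (node 588 (merge (leaf 7 556 556) (node 717 (merge (leaf 7 588 620) (node 716 (merge (leaf 5 588 684) (leaf 5 620 748))))))) (merge (node 590 (merge (leaf 6 557 558) (node 717 (merge (leaf 6 589 622) (node 718 (merge (leaf 4 589 686) (leaf 4 621 750))))))) (node 686 (merge (leaf 4 589 718) (node 687 (merge (leaf 2 653 688) (node 684 (merge (leaf 5 588 716) (node 651 (merge (leaf 3 651 652) (node 683 (merge (leaf 3 650 650) (node 714 (merge (leaf 1 682 715) (node 682 (merge (leaf 2 650 654) (leaf 1 681 713))))))))))))))))))))) (node 652 (merge (node 684 (merge (leaf 5 556 557) (node 716 (merge (leaf 6 588 620) (leaf 6 620 748))))) (merge (node 557 (merge (leaf 5 556 684) (node 526 (merge (leaf 6 525 558) (node 525 (merge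 (leaf 6 493 494) (node 524 (merge (leaf 7 492 492) (leaf 7 524 556))))))))) (merge (node 651 (merge (node 650 (merge (leaf 2 618 622) (node 681 (merge (leaf 1 649 682) (node 649 (merge (leaf 2 617 620) (leaf 1 648 680))))))) (merge (node 657 (merge (leaf 4 528 625) (node 650 (merge (leaf 2 618 622) (node 682 (merge (leaf 1 649 681) (node 654 (merge (leaf 1 650 683) (node 618 (merge (leaf 3 617 617) (leaf 3 618 619))))))))))) (merge (node 557 (merge (node 524 (merge (leaf 7 524 556) (node 525 (merge (leaf 7 492 492) (leaf 5 524 620))))) (merge (node 654 (merge (leaf 4 557 686) (node 682 (merge (leaf 1 650 683) (node 650 (merge (leaf 1 649 681) (node 618 (merge (leaf 3 617 617) (leaf 3 618 619))))))))) (node 654 (merge (leaf 4 557 686) (node 682 (merge (leaf 1 650 683) (node 650 (merge (leaf 1 649 681) (node 618 (merge (leaf 3 617 617) (leaf 3 618 619)))))))))))) (node 619 (merge (node 654 (merge (leaf 3 618 618) (node 686 (merge (leaf 0 651 687) (node 718 (merge (leaf 7 589 622) (leaf 7 621 750))))))) (merge (node 557 (merge (node 654 (merge (leaf 4 557 686) (node 525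 (merge (leaf 5 524 620) (leaf 4 525 622))))) (merge (node 558 (merge (leaf 6 525 526) (node 588 (merge (leaf 1 556 559) (node 556 (merge (leaf 7 524 524) (node 587 (merge (leaf 2 554 586) (leaf 6 555 683))))))))) (merge (node 654 (merge (leaf 4 557 686) (node 525 (merge (leaf 5 524 620) (leaf 4 525 622))))) (node 556 (merge (leaf 7 524 524) (node 620 (merge (leaf 5 524 525) (node 588 (merge (leaf 5 555 683) (node 555 (merge (leaf 7 523 523) (node 554 (merge (leaf 0 553 553) (leaf 0 554 590))))))))))))))) (node 557 (merge (node 558 (merge (leaf 6 525 526) (node 588 (merge (leaf 1 556 559) (node 556 (merge (leaf 7 524 524) (node 587 (merge (leaf 2 554 586) (leaf 6 555 683))))))))) (merge (node 620 (merge (leaf 5 524 525) (node 618 (merge (leaf 2 586 590) (leaf 0 617 617))))) (merge (node 558 (merge (leaf 6 525 526) (node 559 (merge (leaf 1 556 588) (node 590 (merge (leaf 1 557 561) (node 620 (merge (leaf 5 524 525) (leaf 2 586 618))))))))) (node 556 (merge (leaf 7 524 524) (node 620 (merge (leaf 5 524 525) (node 588 (merge (leaf 5 555 683) (node 555 (merge (leaf 7 523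 523) (node 554 (merge (leaf 0 553 553) (leaf 0 554 590)))))))))))))))))))))) (node 651 (merge (node 650 (merge (leaf 2 618 622) (node 681 (merge (leaf 1 649 682) (node 649 (merge (leaf 2 617 620) (leaf 1 648 680))))))) (merge (node 657 (merge (leaf 4 528 625) (node 650 (merge (leaf 2 618 622) (node 682 (merge (leaf 1 649 681) (node 654 (merge (leaf 1 650 683) (node 618 (merge (leaf 3 617 617) (leaf 3 618 619))))))))))) (merge (node 657 (merge (leaf 4 528 625) (node 650 (merge (leaf 2 618 622) (node 620 (merge (leaf 2 617 649) (node 684 (merge (leaf 6 588 716) (node 618 (merge (leaf 3 617 617) (node 654 (merge (leaf 0 618 619) (node 683 (merge (leaf 1 650 682) (node 715 (merge (leaf 5 587 588) (leaf 6 619 747))))))))))))))))) (merge (node 620 (merge (node 650 (merge (leaf 2 617 649) (node 618 (merge (leaf 3 617 617) (node 619 (merge (leaf 2 586 590) (leaf 0 618 654))))))) (merge (node 657 (merge (leaf 4 528 625) (node 650 (merge (leaf 2 617 649) (node 682 (merge (leaf 1 649 681) (node 654 (merge (leaf 1 650 683) (node 618 (merge (leaf 3 617 617) (leaf 0 618 619)))))))))))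 (merge (node 684 (merge (leaf 6 588 716) (node 650 (merge (leaf 2 617 649) (node 682 (merge (leaf 1 649 681) (node 683 (merge (leaf 1 650 654) (node 715 (merge (leaf 5 587 588) (leaf 6 619 747))))))))))) (merge (node 650 (merge (leaf 2 617 649) (node 682 (merge (leaf 1 649 681) (node 683 (merge (leaf 1 650 654) (node 715 (merge (leaf 6 619 747) (node 618 (merge (leaf 4 586 586) (leaf 3 617 617))))))))))) (merge (node 588 (merge (node 556 (merge (leaf 4 524 524) (leaf 5 555 683))) (merge (node 684 (merge (leaf 6 588 716) (node 683 (merge (leaf 5 587 715) (node 682 (merge (leaf 1 650 654) (leaf 2 649 681))))))) (node 684 (merge (leaf 6 588 716) (node 587 (merge (leaf 7 555 555) (node 586 (merge (leaf 0 585 585) (node 618 (merge (leaf 1 585 617) (node 619 (merge (leaf 1 586 590) (leaf 0 618 654)))))))))))))) (node 650 (merge (leaf 2 617 649) (node 682 (merge (leaf 1 649 681) (node 618 (merge (leaf 3 617 617) (node 619 (merge (leaf 2 586 590) (node 714 (merge (leaf 6 586 587) (node 586 (merge (leaf 3 585 585) (node 715 (merge (leaf 7 586 683) (leaf 4 618 747)))))))))))))))))))))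 (merge (node 683 (merge (node 682 (merge (leaf 1 650 654) (node 681 (merge (leaf 2 648 680) (leaf 2 649 684))))) (merge (node 654 (merge (leaf 1 650 682) (node 686 (merge (leaf 0 651 687) (node 718 (merge (leaf 7 589 622) (leaf 7 621 750))))))) (node 620 (merge (node 715 (merge (leaf 6 619 747) (node 619 (merge (leaf 6 587 588) (node 618 (merge (leaf 2 586 590) (leaf 0 617 617))))))) (merge (node 684 (merge (leaf 6 588 716) (node 588 (merge (leaf 5 555 556) (node 587 (merge (leaf 7 555 555) (node 586 (merge (leaf 0 585 585) (leaf 0 586 622))))))))) (node 716 (merge (leaf 6 588 684) (node 715 (merge (leaf 6 619 747) (node 619 (merge (leaf 4 619 748) (node 618 (merge (leaf 2 586 590) (leaf 0 617 617))))))))))))))) (node 684 (merge (node 716 (merge (leaf 6 588 620) (leaf 6 620 748))) (merge (node 650 (merge (leaf 2 618 622) (node 649 (merge (leaf 2 617 620) (node 648 (merge (leaf 0 648 683) (node 680 (merge (leaf 1 647 679) (leaf 1 648 681))))))))) (node 716 (merge (leaf 6 620 748) (node 650 (merge (leaf 2 618 622) (node 618 (merge (leaf 3 617 617) (node 619 (merge (leaf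 3 618 654) (node 587 (merge (leaf 4 555 555) (leaf 4 587 683)))))))))))))))))))))))))))))))) nP_152 cP_152 12 (by decide +kernel)
def nP_153 : ℕ := 0x100000001000000012000000100000000000000000000000000000000000000000000000000000000000000000000000000000000000000000000000000000000000000000000000000000000000000000000
def cP_153 : ℕ := 0x10000000700000007c000000fc000000fc00000278000000d8000002f8000000700000007000000070000000000000000000000000000000000000000000000000000000000000000000000000000000000000000000000000000000000000000000
theorem lP_153 : S nP_153 cP_153 12 := S_of_chk [] trivial (node 653 (merge (node 655 (merge (leaf 5 559 687) (node 654 (merge (leaf 2 621 625) (node 685 (merge (leaf 1 652 684) (node 621 (merge (leaf 3 620 620) (node 558 (merge (leaf 6 557 590) (node 557 (merge (leaf 6 525 526) (leaf 4 557 686))))))))))))) (merge (node 655 (merge (leaf 5 559 687) (node 654 (merge (leaf 2 621 625) (node 621 (merge (leaf 3 620 620) (node 557 (merge (leaf 4 557 686) (node 556 (merge (leaf 7 524 524) (node 685 (merge (leaf 7 556 588) (node 590 (merge (leaf 6 557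 558) (leaf 3 556 591))))))))))))))) (merge (node 590 (merge (node 591 (merge (leaf 2 557 561) (leaf 0 589 625))) (merge (node 591 (merge (leaf 2 557 561) (node 588 (merge (leaf 2 556 559) (node 556 (merge (leaf 3 555 555) (leaf 3 556 557))))))) (merge (node 591 (merge (leaf 0 589 625) (node 588 (merge (leaf 2 556 559) (node 556 (merge (leaf 3 555 555) (leaf 3 556 557))))))) (node 655 (merge (leaf 5 559 687) (node 654 (merge (leaf 2 621 625) (node 685 (merge (leaf 1 652 684) (node 558 (merge (leaf 5 557 622) (node 559 (merge (leaf 1 557 561) (node 588 (merge (leaf 1 556 557) (leaf 2 555 587))))))))))))))))) (merge (node 621 (merge (node 685 (merge (node 590 (merge (leaf 6 557 558) (node 717 (merge (leaf 6 589 622) (node 718 (merge (leaf 4 589 686) (leaf 4 621 750))))))) (merge (node 590 (merge (leaf 6 557 558) (node 591 (merge (leaf 1 588 620) (leaf 0 589 625))))) (node 588 (merge (leaf 7 556 556) (node 717 (merge (leaf 7 588 620) (node 718 (merge (leaf 4 589 686) (leaf 4 621 750)))))))))) (merge (node 557 (merge (node 556 (merge (leaf 7 524 524) (node 685 (merge (leaf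 7 556 588) (node 686 (merge (leaf 4 557 654) (leaf 4 589 718))))))) (merge (node 654 (merge (leaf 4 557 686) (node 525 (merge (leaf 4 525 622) (node 652 (merge (leaf 5 524 620) (leaf 5 556 684))))))) (node 556 (merge (leaf 7 524 524) (node 685 (merge (leaf 7 556 588) (node 684 (merge (leaf 5 556 652) (leaf 5 588 716)))))))))) (merge (node 557 (merge (node 558 (merge (leaf 6 525 526) (node 559 (merge (leaf 1 556 588) (node 556 (merge (leaf 7 524 524) (leaf 0 556 591))))))) (node 654 (merge (leaf 4 557 686) (node 525 (merge (leaf 4 525 622) (node 652 (merge (leaf 5 524 620) (leaf 5 556 684))))))))) (merge (node 557 (merge (node 558 (merge (leaf 6 525 526) (node 685 (merge (leaf 6 557 590) (node 686 (merge (leaf 4 557 654) (leaf 4 589 718))))))) (merge (node 558 (merge (leaf 6 525 526) (node 685 (merge (leaf 6 557 590) (node 684 (merge (leaf 5 556 652) (leaf 5 588 716))))))) (merge (node 654 (merge (leaf 4 557 686) (node 525 (merge (leaf 4 525 622) (node 652 (merge (leaf 5 524 620) (leaf 5 556 684))))))) (node 654 (merge (leaf 4 557 686) (node 525 (merge (leaf 4 525 622)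 (node 652 (merge (leaf 5 524 620) (leaf 5 556 684))))))))))) (merge (node 685 (merge (node 718 (merge (leaf 4 589 686) (node 717 (merge (leaf 4 621 750) (node 716 (merge (leaf 5 588 684) (leaf 5 620 748))))))) (merge (node 588 (merge (leaf 7 556 556) (node 717 (merge (leaf 7 588 620) (node 718 (merge (leaf 4 589 686) (leaf 4 621 750))))))) (node 588 (merge (leaf 7 556 556) (node 684 (merge (leaf 5 588 716) (node 557 (merge (leaf 5 556 652) (node 558 (merge (leaf 6 525 526) (leaf 1 556 559)))))))))))) (merge (node 557 (merge (node 558 (merge (leaf 6 525 526) (node 685 (merge (leaf 6 557 590) (node 684 (merge (leaf 5 556 652) (leaf 5 588 716))))))) (merge (node 558 (merge (leaf 6 525 526) (node 685 (merge (leaf 6 557 590) (node 588 (merge (leaf 7 556 556) (leaf 1 556 559))))))) (merge (node 556 (merge (leaf 7 524 524) (node 685 (merge (leaf 7 556 588) (node 684 (merge (leaf 5 556 652) (leaf 5 588 716))))))) (node 558 (merge (leaf 6 525 526) (node 559 (merge (leaf 1 556 588) (node 590 (merge (leaf 1 557 561) (node 652 (merge (leaf 5 556 684) (node 525 (merge (leaf 5 524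 620) (node 493 (merge (leaf 4 461 461) (leaf 4 493 622))))))))))))))))) (node 685 (merge (node 590 (merge (leaf 6 557 558) (node 717 (merge (leaf 6 589 622) (node 716 (merge (leaf 5 588 684) (leaf 5 620 748))))))) (merge (node 590 (merge (leaf 6 557 558) (node 717 (merge (leaf 6 589 622) (node 718 (merge (leaf 4 589 686) (leaf 4 621 750))))))) (merge (node 686 (merge (leaf 4 589 718) (node 557 (merge (leaf 4 557 654) (node 684 (merge (leaf 5 556 652) (leaf 5 588 716))))))) (node 684 (merge (leaf 5 588 716) (node 557 (merge (leaf 5 556 652) (node 654 (merge (leaf 4 557 686) (node 525 (merge (leaf 4 525 622) (node 494 (merge (leaf 6 493 526) (node 493 (merge (leaf 6 461 462) (node 492 (merge (leaf 7 460 460) (leaf 7 492 524)))))))))))))))))))))))))) (merge (node 621 (merge (node 590 (merge (node 591 (merge (leaf 2 557 561) (leaf 0 589 625))) (node 558 (merge (leaf 6 557 685) (node 526 (merge (leaf 5 493 494) (leaf 5 525 622))))))) (merge (node 685 (merge (node 718 (merge (leaf 4 589 686) (node 717 (merge (leaf 4 621 750) (node 716 (merge (leaf 5 588 684) (leaf 5 620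 748))))))) (merge (node 588 (merge (leaf 7 556 556) (node 717 (merge (leaf 7 588 620) (node 718 (merge (leaf 4 589 686) (leaf 4 621 750))))))) (merge (node 588 (merge (leaf 7 556 556) (node 717 (merge (leaf 7 588 620) (node 716 (merge (leaf 5 588 684) (leaf 5 620 748))))))) (node 686 (merge (leaf 4 589 718) (node 687 (merge (leaf 5 559 655) (node 684 (merge (leaf 5 588 716) (node 652 (merge (leaf 5 556 557) (leaf 3 651 651))))))))))))) (node 557 (merge (node 652 (merge (leaf 5 556 684) (node 524 (merge (leaf 7 524 556) (node 525 (merge (leaf 7 492 492) (leaf 5 524 620))))))) (merge (node 558 (merge (leaf 6 525 526) (node 559 (merge (leaf 1 556 588) (node 556 (merge (leaf 7 524 524) (leaf 0 556 591))))))) (node 558 (merge (leaf 6 525 526) (node 559 (merge (leaf 1 556 588) (node 590 (merge (leaf 1 557 561) (node 652 (merge (leaf 5 556 684) (node 525 (merge (leaf 5 524 620) (node 493 (merge (leaf 4 461 461) (leaf 4 493 622))))))))))))))))))) (merge (node 655 (merge (leaf 5 559 687) (node 654 (merge (leaf 2 621 625) (node 621 (merge (leaf 3 620 620) (node 557 (merge (leaf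 4 557 686) (node 524 (merge (leaf 7 524 556) (node 525 (merge (leaf 7 492 492) (leaf 4 525 622))))))))))))) (merge (node 655 (merge (leaf 5 559 687) (node 654 (merge (leaf 2 621 625) (node 685 (merge (leaf 1 652 684) (node 621 (merge (leaf 3 620 620) (node 718 (merge (leaf 4 589 686) (node 717 (merge (leaf 4 621 750) (node 749 (merge (leaf 6 621 622) (node 748 (merge (leaf 5 620 716) (leaf 5 652 780))))))))))))))))) (node 621 (merge (node 557 (merge (node 556 (merge (leaf 7 524 524) (node 685 (merge (leaf 7 556 588) (node 686 (merge (leaf 4 557 654) (leaf 4 589 718))))))) (merge (node 654 (merge (leaf 4 557 686) (node 525 (merge (leaf 4 525 622) (node 652 (merge (leaf 5 524 620) (leaf 5 556 684))))))) (node 556 (merge (leaf 7 524 524) (node 685 (merge (leaf 7 556 588) (node 684 (merge (leaf 5 556 652) (leaf 5 588 716)))))))))) (merge (node 557 (merge (node 558 (merge (leaf 6 525 526) (node 559 (merge (leaf 1 556 588) (node 556 (merge (leaf 7 524 524) (leaf 0 556 591))))))) (node 654 (merge (leaf 4 557 686) (node 525 (merge (leaf 4 525 622) (node 652 (merge (leaf 5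 524 620) (leaf 5 556 684))))))))) (merge (node 685 (merge (node 718 (merge (leaf 4 589 686) (node 717 (merge (leaf 4 621 750) (node 716 (merge (leaf 5 588 684) (leaf 5 620 748))))))) (merge (node 588 (merge (leaf 7 556 556) (node 717 (merge (leaf 7 588 620) (node 716 (merge (leaf 5 588 684) (leaf 5 620 748))))))) (node 588 (merge (leaf 7 556 556) (node 686 (merge (leaf 4 589 718) (node 557 (merge (leaf 4 557 654) (node 558 (merge (leaf 6 525 526) (leaf 1 556 559)))))))))))) (merge (node 557 (merge (node 558 (merge (leaf 6 525 526) (node 685 (merge (leaf 6 557 590) (node 686 (merge (leaf 4 557 654) (leaf 4 589 718))))))) (merge (node 558 (merge (leaf 6 525 526) (node 685 (merge (leaf 6 557 590) (node 684 (merge (leaf 5 556 652) (leaf 5 588 716))))))) (merge (node 654 (merge (leaf 4 557 686) (node 525 (merge (leaf 4 525 622) (node 652 (merge (leaf 5 524 620) (leaf 5 556 684))))))) (node 654 (merge (leaf 4 557 686) (node 525 (merge (leaf 4 525 622) (node 652 (merge (leaf 5 524 620) (leaf 5 556 684))))))))))) (merge (node 558 (merge (node 590 (merge (leaf 6 557 685) (node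 526 (merge (leaf 5 493 494) (leaf 5 525 622))))) (merge (node 685 (merge (leaf 6 557 590) (node 588 (merge (leaf 7 556 556) (node 717 (merge (leaf 7 588 620) (node 718 (merge (leaf 4 589 686) (leaf 4 621 750))))))))) (node 557 (merge (leaf 6 525 526) (node 559 (merge (leaf 1 556 588) (node 524 (merge (leaf 3 524 525) (leaf 7 524 556)))))))))) (merge (node 557 (merge (node 558 (merge (leaf 6 525 526) (node 685 (merge (leaf 6 557 590) (node 684 (merge (leaf 5 556 652) (leaf 5 588 716))))))) (merge (node 558 (merge (leaf 6 525 526) (node 685 (merge (leaf 6 557 590) (node 588 (merge (leaf 7 556 556) (leaf 1 556 559))))))) (merge (node 556 (merge (leaf 7 524 524) (node 685 (merge (leaf 7 556 588) (node 684 (merge (leaf 5 556 652) (leaf 5 588 716))))))) (node 558 (merge (leaf 6 525 526) (node 559 (merge (leaf 1 556 588) (node 590 (merge (leaf 1 557 561) (node 652 (merge (leaf 5 556 684) (node 525 (merge (leaf 5 524 620) (node 493 (merge (leaf 4 461 461) (leaf 4 493 622))))))))))))))))) (merge (node 685 (merge (node 590 (merge (leaf 6 557 558) (node 717 (merge (leaf 6 589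 622) (node 716 (merge (leaf 5 588 684) (leaf 5 620 748))))))) (merge (node 590 (merge (leaf 6 557 558) (node 717 (merge (leaf 6 589 622) (node 718 (merge (leaf 4 589 686) (leaf 4 621 750))))))) (merge (node 686 (merge (leaf 4 589 718) (node 557 (merge (leaf 4 557 654) (node 684 (merge (leaf 5 556 652) (leaf 5 588 716))))))) (node 684 (merge (leaf 5 588 716) (node 557 (merge (leaf 5 556 652) (node 654 (merge (leaf 4 557 686) (node 525 (merge (leaf 4 525 622) (node 494 (merge (leaf 6 493 526) (node 493 (merge (leaf 6 461 462) (node 492 (merge (leaf 7 460 460) (leaf 7 492 524))))))))))))))))))) (node 685 (merge (node 590 (merge (leaf 6 557 558) (node 717 (merge (leaf 6 589 622) (node 716 (merge (leaf 5 588 684) (leaf 5 620 748))))))) (merge (node 588 (merge (leaf 7 556 556) (node 717 (merge (leaf 7 588 620) (node 718 (merge (leaf 4 589 686) (leaf 4 621 750))))))) (node 588 (merge (leaf 7 556 556) (node 686 (merge (leaf 4 589 718) (node 684 (merge (leaf 5 588 716) (node 654 (merge (leaf 1 652 655) (node 683 (merge (leaf 2 650 682) (node 715 (merge (leaf 1 682 714) (node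 651 (merge (leaf 3 650 650) (node 620 (merge (leaf 6 587 619) (leaf 5 587 652)))))))))))))))))))))))))))))))))))) nP_153 cP_153 12 (by decide +kernel)
def nP_154 : ℕ := 0x100000001000000012000000100000001000000000000000000000000000000000000000000000000000000000000000000000000000000000000000000000000000000000000000000000000000000000000
def cP_154 : ℕ := 0x2a0000003f0000003f8000000f00000027800000098000002fc0000007c000003fc000003f0000003f00000020000000000000000000000000000000000000000000000000000000000000000000000000000000000000000000000000000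
theorem lP_154 : S nP_154 cP_154 14 := S_of_chk [(nP_148, cP_148, 12)] ⟨lP_148, trivial⟩ (node 557 (merge (node 559 (merge (node 688 (merge (leaf 7 559 591) (node 721 (merge (leaf 4 592 689) (node 720 (merge (leaf 4 624 753) (node 719 (merge (leaf 5 591 687) (leaf 5 623 751))))))))) (node 558 (merge (leaf 1 556 588) (node 525 (merge (leaf 3 524 524) (node 526 (merge (leaf 3 525 561) (node 621 (merge (leaf 6 493 494) (leaf 6 525 653))))))))))) (merge (node 653 (merge (node 655 (merge (leaf 5 559 687) (node 654 (merge (leaf 2 621 625) (node 621 (merge (leaf 3 620 620) (leaf 4 557 686))))))) (merge (node 687 (merge (leaf 5 559 655) (node 688 (merge (leaf 5 591 719) (node 689 (merge (leaf 4 592 721) (node 686 (merge (leaf 3 653 654) (node 717 (merge (leaf 1 685 718) (node 685 (merge (leaf 3 652 652) (leaf 1 684 716))))))))))))) (merge (node 621 (merge (node 556 (merge (leaf 7 524 524) (node 685 (merge (leaf 7 556 588) (node 686 (merge (leaf 4 557 654) (leaf 4 589 718))))))) (merge (node 654 (merge (leaf 4 557 686) (node 525 (merge (leaf 4 525 622) (node 652 (merge (leaf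 5 524 620) (leaf 5 556 684))))))) (node 556 (merge (leaf 7 524 524) (node 685 (merge (leaf 7 556 588) (node 684 (merge (leaf 5 556 652) (leaf 5 588 716)))))))))) (merge (node 655 (merge (leaf 5 559 687) (node 654 (merge (leaf 2 621 625) (node 684 (merge (leaf 1 652 685) (node 652 (merge (leaf 1 651 683) (node 620 (merge (leaf 6 556 588) (leaf 3 619 619))))))))))) (node 621 (merge (node 526 (merge (leaf 6 525 558) (node 525 (merge (leaf 6 493 494) (node 652 (merge (leaf 5 524 620) (leaf 5 556 684))))))) (merge (node 652 (merge (leaf 5 556 684) (node 620 (merge (leaf 5 524 525) (node 687 (merge (leaf 5 559 655) (node 688 (merge (leaf 5 591 719) (node 685 (merge (leaf 3 652 686) (node 717 (merge (leaf 7 588 588) (leaf 7 620 749))))))))))))) (merge (node 556 (merge (leaf 7 524 524) (node 685 (merge (leaf 7 556 588) (node 686 (merge (leaf 4 589 718) (node 687 (merge (leaf 5 559 655) (node 688 (merge (leaf 3 652 652) (leaf 5 591 719))))))))))) (node 556 (merge (leaf 7 524 524) (node 685 (merge (leaf 7 556 588) (node 686 (merge (leaf 4 589 718) (node 687 (merge (leaf 5 559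 655) (node 684 (merge (leaf 5 588 716) (node 719 (merge (leaf 5 591 688) (leaf 0 684 720)))))))))))))))))))))) (merge (node 653 (merge (node 655 (merge (leaf 5 559 687) (node 654 (merge (leaf 2 621 625) (node 621 (merge (leaf 3 620 620) (leaf 4 557 686))))))) (merge (node 687 (merge (leaf 5 559 655) (node 688 (merge (leaf 5 591 719) (node 689 (merge (leaf 4 592 721) (node 686 (merge (leaf 3 653 654) (node 717 (merge (leaf 1 685 718) (node 685 (merge (leaf 3 652 652) (leaf 1 684 716))))))))))))) (merge (node 621 (merge (node 556 (merge (leaf 7 524 524) (node 685 (merge (leaf 7 556 588) (node 686 (merge (leaf 4 557 654) (leaf 4 589 718))))))) (merge (node 654 (merge (leaf 4 557 686) (node 525 (merge (leaf 4 525 622) (node 652 (merge (leaf 5 524 620) (leaf 5 556 684))))))) (node 556 (merge (leaf 7 524 524) (node 685 (merge (leaf 7 556 588) (node 684 (merge (leaf 5 556 652) (leaf 5 588 716)))))))))) (merge (node 655 (merge (leaf 5 559 687) (node 654 (merge (leaf 2 621 625) (node 684 (merge (leaf 1 652 685) (node 652 (merge (leaf 1 651 683) (node 620 (merge (leaf 6 556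 588) (leaf 3 619 619))))))))))) (node 621 (merge (node 652 (merge (leaf 5 556 684) (node 524 (merge (leaf 7 524 556) (node 525 (merge (leaf 7 492 492) (leaf 5 524 620))))))) (merge (node 556 (merge (leaf 7 524 524) (node 685 (merge (leaf 7 556 588) (node 686 (merge (leaf 4 589 718) (node 687 (merge (leaf 5 559 655) (node 688 (merge (leaf 3 652 652) (leaf 5 591 719))))))))))) (merge (node 556 (merge (leaf 7 524 524) (node 685 (merge (leaf 7 556 588) (node 686 (merge (leaf 4 589 718) (node 687 (merge (leaf 5 559 655) (node 684 (merge (leaf 5 588 716) (node 719 (merge (leaf 5 591 688) (leaf 0 684 720))))))))))))) (node 684 (merge (leaf 5 556 652) (node 687 (merge (leaf 5 559 655) (node 685 (merge (leaf 5 588 716) (node 686 (merge (leaf 4 589 718) (node 719 (merge (leaf 5 591 688) (leaf 0 684 720)))))))))))))))))))) (merge (node 653 (merge (node 655 (merge (leaf 5 559 687) (node 654 (merge (leaf 2 621 625) (node 621 (merge (leaf 3 620 620) (leaf 4 557 686))))))) (merge (node 655 (merge (leaf 5 559 687) (node 654 (merge (leaf 2 621 625) (node 684 (merge (leaf 1 652 685)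 (node 652 (merge (leaf 1 651 683) (node 620 (merge (leaf 6 556 588) (leaf 3 619 619))))))))))) (merge (node 621 (merge (node 556 (merge (leaf 7 524 524) (node 685 (merge (leaf 7 556 588) (node 686 (merge (leaf 4 557 654) (leaf 4 589 718))))))) (merge (node 558 (merge (leaf 6 525 526) (node 559 (merge (leaf 1 556 588) (node 556 (merge (leaf 7 524 524) (leaf 0 556 591))))))) (merge (node 558 (merge (leaf 6 525 526) (node 559 (merge (leaf 1 556 588) (node 688 (merge (leaf 7 559 591) (node 654 (merge (leaf 4 557 686) (node 689 (merge (leaf 0 653 655) (leaf 4 592 721))))))))))) (node 686 (merge (leaf 4 557 654) (node 685 (merge (leaf 4 589 718) (node 684 (merge (leaf 5 556 652) (leaf 5 588 716))))))))))) (merge (node 621 (merge (node 556 (merge (leaf 7 524 524) (node 685 (merge (leaf 7 556 588) (node 686 (merge (leaf 4 557 654) (leaf 4 589 718))))))) (merge (node 558 (merge (leaf 6 525 526) (node 559 (merge (leaf 1 556 588) (node 556 (merge (leaf 7 524 524) (leaf 0 556 591))))))) (merge (node 558 (merge (leaf 6 525 526) (node 559 (merge (leaf 1 556 588) (node 688 (merge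 (leaf 7 559 591) (node 686 (merge (leaf 4 557 654) (node 685 (merge (leaf 4 589 718) (node 687 (merge (leaf 3 652 652) (leaf 5 591 719))))))))))))) (node 686 (merge (leaf 4 557 654) (node 685 (merge (leaf 4 589 718) (node 684 (merge (leaf 5 556 652) (leaf 5 588 716))))))))))) (node 687 (merge (leaf 5 559 655) (node 688 (merge (leaf 5 591 719) (node 559 (merge (leaf 7 559 591) (node 558 (merge (leaf 1 556 588) (node 621 (merge (leaf 6 525 526) (node 721 (merge (leaf 4 592 689) (node 684 (merge (leaf 5 556 652) (node 685 (merge (leaf 5 588 716) (node 686 (merge (leaf 4 589 718) (leaf 0 685 720)))))))))))))))))))))))) (merge (node 653 (merge (node 655 (merge (leaf 5 559 687) (node 654 (merge (leaf 2 621 625) (node 621 (merge (leaf 3 620 620) (leaf 4 557 686))))))) (merge (node 655 (merge (leaf 5 559 687) (node 654 (merge (leaf 2 621 625) (node 684 (merge (leaf 1 652 685) (node 652 (merge (leaf 1 651 683) (node 620 (merge (leaf 6 556 588) (leaf 3 619 619))))))))))) (merge (node 621 (merge (node 654 (merge (leaf 4 557 686) (node 525 (merge (leaf 4 525 622) (node 652 (merge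 (leaf 5 524 620) (leaf 5 556 684))))))) (merge (node 558 (merge (leaf 6 525 526) (node 559 (merge (leaf 1 556 588) (node 688 (merge (leaf 7 559 591) (node 654 (merge (leaf 4 557 686) (node 689 (merge (leaf 0 653 655) (leaf 4 592 721))))))))))) (merge (node 558 (merge (leaf 6 525 526) (node 559 (merge (leaf 1 556 588) (node 688 (merge (leaf 7 559 591) (node 689 (merge (leaf 4 592 721) (node 654 (merge (leaf 0 653 655) (node 525 (merge (leaf 4 525 622) (node 652 (merge (leaf 5 524 620) (leaf 5 556 684))))))))))))))) (node 558 (merge (leaf 6 525 526) (node 559 (merge (leaf 1 556 588) (node 688 (merge (leaf 7 559 591) (node 721 (merge (leaf 4 592 689) (node 720 (merge (leaf 4 624 753) (node 684 (merge (leaf 5 556 652) (node 685 (merge (leaf 5 588 716) (node 718 (merge (leaf 4 589 686) (node 719 (merge (leaf 3 684 717) (leaf 5 623 751))))))))))))))))))))))) (merge (node 688 (merge (node 721 (merge (leaf 4 592 689) (node 720 (merge (leaf 4 624 753) (node 719 (merge (leaf 5 591 687) (leaf 5 623 751))))))) (node 559 (merge (leaf 7 559 591) (node 558 (merge (leaf 1 556 588)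 (node 621 (merge (leaf 6 525 526) (node 654 (merge (leaf 4 557 686) (node 525 (merge (leaf 4 525 622) (node 652 (merge (leaf 5 524 620) (leaf 5 556 684))))))))))))))) (node 496 (merge (node 465 (merge (leaf 6 464 497) (node 464 (merge (leaf 6 432 433) (node 463 (merge (leaf 7 431 431) (leaf 7 463 495))))))) (merge (node 687 (merge (leaf 5 559 655) (node 688 (merge (leaf 5 591 719) (node 559 (merge (leaf 7 559 591) (node 558 (merge (leaf 1 556 588) (node 621 (merge (leaf 6 525 526) (node 721 (merge (leaf 4 592 689) (node 684 (merge (leaf 5 556 652) (node 685 (merge (leaf 5 588 716) (node 686 (merge (leaf 4 589 718) (leaf 0 685 720))))))))))))))))))) (node 687 (merge (leaf 5 559 655) (node 688 (merge (leaf 5 591 719) (node 559 (merge (leaf 7 559 591) (node 558 (merge (leaf 1 556 588) (node 621 (merge (leaf 6 525 526) (node 721 (merge (leaf 4 592 689) (node 684 (merge (leaf 5 556 652) (node 685 (merge (leaf 5 588 716) (node 686 (merge (leaf 4 589 718) (leaf 0 685 720))))))))))))))))))))))))))) (merge (hyp 0) (merge (node 496 (merge (node 465 (merge (leaf 6 464 497) (node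 464 (merge (leaf 6 432 433) (node 463 (merge (leaf 7 431 431) (leaf 7 463 495))))))) (merge (node 495 (merge (leaf 7 463 463) (node 687 (merge (leaf 5 559 655) (node 688 (merge (leaf 5 591 719) (node 559 (merge (leaf 7 559 591) (node 558 (merge (leaf 1 556 588) (node 525 (merge (leaf 3 524 524) (node 526 (merge (leaf 3 525 561) (node 494 (merge (leaf 5 461 462) (leaf 1 493 497))))))))))))))))) (merge (node 497 (merge (leaf 6 464 465) (node 687 (merge (leaf 5 559 655) (node 688 (merge (leaf 5 591 719) (node 559 (merge (leaf 7 559 591) (node 558 (merge (leaf 1 556 588) (node 525 (merge (leaf 3 524 524) (node 526 (merge (leaf 3 525 561) (node 494 (merge (leaf 5 461 462) (leaf 1 493 495))))))))))))))))) (merge (node 655 (merge (leaf 5 559 687) (node 465 (merge (leaf 6 464 497) (node 464 (merge (leaf 6 432 433) (node 463 (merge (leaf 7 431 431) (node 559 (merge (leaf 5 463 591) (node 558 (merge (leaf 1 556 588) (node 525 (merge (leaf 3 524 524) (node 526 (merge (leaf 3 525 561) (node 462 (merge (leaf 5 461 494) (node 429 (merge (leaf 3 429 430) (node 461 (merge (leaf 3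 428 428) (leaf 4 429 493))))))))))))))))))))))) (node 655 (merge (leaf 5 559 687) (node 463 (merge (leaf 7 463 495) (node 464 (merge (leaf 7 431 431) (node 465 (merge (leaf 6 432 433) (node 559 (merge (leaf 5 463 591) (node 558 (merge (leaf 1 556 588) (node 525 (merge (leaf 3 524 524) (node 526 (merge (leaf 3 525 561) (node 462 (merge (leaf 5 461 494) (node 429 (merge (leaf 3 429 430) (node 461 (merge (leaf 3 428 428) (leaf 4 429 493)))))))))))))))))))))))))))) (merge (node 525 (merge (node 687 (merge (leaf 5 559 655) (node 688 (merge (leaf 5 591 719) (node 559 (merge (leaf 7 559 591) (node 524 (merge (leaf 3 524 558) (node 621 (merge (leaf 7 492 492) (node 653 (merge (leaf 7 524 556) (node 652 (merge (leaf 5 524 620) (leaf 5 556 684))))))))))))))) (merge (node 655 (merge (leaf 5 559 687) (node 492 (merge (node 460 (merge (leaf 7 460 493) (node 524 (merge (leaf 4 428 428) (leaf 4 460 556))))) (merge (node 621 (merge (leaf 7 492 524) (node 654 (merge (leaf 4 525 622) (node 653 (merge (leaf 4 557 686) (node 620 (merge (leaf 5 524 652) (leaf 3 620 655))))))))) (node 493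 (merge (leaf 7 460 460) (node 494 (merge (leaf 6 461 462) (node 621 (merge (leaf 6 493 526) (node 654 (merge (leaf 4 525 622) (node 653 (merge (leaf 4 557 686) (node 620 (merge (leaf 5 524 652) (leaf 3 620 655)))))))))))))))))) (merge (node 494 (merge (node 621 (merge (leaf 6 493 526) (node 654 (merge (leaf 4 525 622) (node 653 (merge (leaf 4 557 686) (node 652 (merge (leaf 5 524 620) (leaf 5 556 684))))))))) (merge (node 493 (merge (leaf 6 461 462) (node 492 (merge (leaf 7 460 460) (node 621 (merge (leaf 7 492 524) (node 654 (merge (leaf 4 525 622) (node 653 (merge (leaf 4 557 686) (node 652 (merge (leaf 5 524 620) (leaf 5 556 684))))))))))))) (node 493 (merge (leaf 6 461 462) (node 460 (merge (leaf 7 460 492) (node 461 (merge (leaf 7 428 428) (node 496 (merge (leaf 3 460 495) (node 465 (merge (leaf 6 464 497) (node 464 (merge (leaf 6 432 433) (node 559 (merge (leaf 5 463 591) (node 558 (merge (leaf 3 524 524) (node 526 (merge (leaf 4 429 429) (leaf 3 525 561)))))))))))))))))))))) (merge (node 496 (merge (node 465 (merge (leaf 6 464 497) (node 464 (merge (leaf 6 432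 433) (node 463 (merge (leaf 7 431 431) (leaf 7 463 495))))))) (merge (node 495 (merge (leaf 7 463 463) (node 687 (merge (leaf 5 559 655) (node 688 (merge (leaf 5 591 719) (node 559 (merge (leaf 7 559 591) (node 558 (merge (leaf 3 524 524) (node 526 (merge (leaf 3 525 561) (node 494 (merge (leaf 5 461 462) (leaf 1 493 497))))))))))))))) (merge (node 497 (merge (leaf 6 464 465) (node 687 (merge (leaf 5 559 655) (node 688 (merge (leaf 5 591 719) (node 559 (merge (leaf 7 559 591) (node 558 (merge (leaf 3 524 524) (node 526 (merge (leaf 3 525 561) (node 494 (merge (leaf 5 461 462) (leaf 1 493 495))))))))))))))) (merge (node 687 (merge (leaf 5 559 655) (node 463 (merge (leaf 7 463 495) (node 464 (merge (leaf 7 431 431) (node 433 (merge (leaf 6 432 465) (node 432 (merge (leaf 6 400 401) (node 462 (merge (leaf 2 429 461) (node 494 (merge (leaf 6 461 493) (node 526 (merge (leaf 5 429 430) (leaf 5 461 558))))))))))))))))) (node 655 (merge (leaf 5 559 687) (node 465 (merge (leaf 6 464 497) (node 464 (merge (leaf 6 432 433) (node 463 (merge (leaf 7 431 431) (node 559 (merge (leaf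 5 463 591) (node 558 (merge (leaf 3 524 524) (node 526 (merge (leaf 3 525 561) (node 462 (merge (leaf 5 461 494) (node 429 (merge (leaf 3 429 430) (node 461 (merge (leaf 3 428 428) (leaf 4 429 493)))))))))))))))))))))))))) (node 496 (merge (node 465 (merge (leaf 6 464 497) (node 464 (merge (leaf 6 432 433) (node 463 (merge (leaf 7 431 431) (leaf 7 463 495))))))) (merge (node 655 (merge (leaf 5 559 687) (node 494 (merge (node 621 (merge (leaf 6 493 526) (node 654 (merge (leaf 4 525 622) (node 653 (merge (leaf 2 621 625) (leaf 4 557 686))))))) (node 493 (merge (leaf 6 461 462) (node 460 (merge (leaf 7 460 492) (node 461 (merge (leaf 7 428 428) (leaf 3 460 495))))))))))) (node 526 (merge (node 621 (merge (leaf 6 493 494) (node 654 (merge (leaf 4 525 622) (node 653 (merge (leaf 4 557 686) (node 620 (merge (leaf 5 524 652) (leaf 3 620 655))))))))) (merge (node 653 (merge (node 621 (merge (leaf 6 525 558) (node 652 (merge (leaf 5 524 620) (leaf 5 556 684))))) (merge (node 655 (merge (leaf 5 559 687) (node 654 (merge (leaf 2 621 625) (node 621 (merge (leaf 3 620 620) (leaf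 4 525 622))))))) (node 687 (merge (leaf 5 559 655) (node 688 (merge (leaf 5 591 719) (node 689 (merge (leaf 4 592 721) (node 686 (merge (leaf 3 653 654) (node 717 (merge (leaf 1 685 718) (node 685 (merge (leaf 3 652 652) (leaf 1 684 716)))))))))))))))) (node 719 (merge (node 688 (merge (leaf 5 591 687) (node 721 (merge (leaf 4 592 689) (node 720 (merge (leaf 5 623 751) (leaf 4 624 753))))))) (node 465 (merge (leaf 6 464 497) (node 464 (merge (leaf 6 432 433) (node 463 (merge (leaf 7 431 431) (node 559 (merge (leaf 5 463 591) (node 558 (merge (leaf 3 525 561) (node 462 (merge (leaf 5 461 494) (node 429 (merge (leaf 3 429 430) (node 461 (merge (leaf 3 428 428) (leaf 4 429 493)))))))))))))))))))))))))))))) (node 525 (merge (node 496 (merge (node 465 (merge (leaf 6 464 497) (node 464 (merge (leaf 6 432 433) (node 463 (merge (leaf 7 431 431) (leaf 7 463 495))))))) (merge (node 463 (merge (leaf 7 463 495) (node 464 (merge (leaf 7 431 431) (node 559 (merge (leaf 5 463 591) (node 558 (merge (leaf 3 524 524) (leaf 1 556 588))))))))) (merge (node 465 (merge (leaf 6 464 497)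 (node 464 (merge (leaf 6 432 433) (node 559 (merge (leaf 5 463 591) (node 558 (merge (leaf 3 524 524) (leaf 1 556 588))))))))) (node 497 (merge (leaf 6 464 465) (node 495 (merge (leaf 7 463 463) (node 494 (merge (leaf 1 493 526) (node 493 (merge (leaf 6 461 462) (leaf 1 492 524))))))))))))) (merge (node 620 (merge (node 621 (merge (leaf 5 524 652) (node 654 (merge (leaf 4 525 622) (node 653 (merge (leaf 3 620 655) (leaf 4 557 686))))))) (merge (node 493 (merge (leaf 5 492 588) (node 462 (merge (leaf 6 461 494) (node 461 (merge (leaf 6 429 430) (node 460 (merge (leaf 7 428 428) (leaf 7 460 492))))))))) (node 621 (merge (leaf 5 524 652) (node 524 (merge (leaf 7 492 492) (node 653 (merge (leaf 7 524 556) (node 654 (merge (leaf 4 525 622) (leaf 3 620 655)))))))))))) (merge (node 492 (merge (node 524 (merge (leaf 7 492 621) (node 460 (merge (leaf 4 428 428) (leaf 4 460 556))))) (merge (node 621 (merge (leaf 7 492 524) (node 654 (merge (leaf 4 525 622) (node 653 (merge (leaf 4 557 686) (node 620 (merge (leaf 5 524 652) (leaf 3 620 655))))))))) (node 493 (merge (leaf 7 460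 460) (node 588 (merge (leaf 5 492 620) (node 559 (merge (leaf 1 556 558) (node 461 (merge (leaf 5 460 556) (node 462 (merge (leaf 6 429 430) (node 464 (merge (leaf 1 460 463) (node 496 (merge (leaf 5 463 591) (node 465 (merge (leaf 6 432 433) (leaf 6 464 497)))))))))))))))))))) (merge (node 494 (merge (node 621 (merge (leaf 6 493 526) (node 654 (merge (leaf 4 525 622) (node 653 (merge (leaf 4 557 686) (node 620 (merge (leaf 5 524 652) (leaf 3 620 655))))))))) (merge (node 493 (merge (leaf 6 461 462) (node 492 (merge (leaf 7 460 460) (node 621 (merge (leaf 7 492 524) (node 654 (merge (leaf 4 525 622) (node 653 (merge (leaf 4 557 686) (node 620 (merge (leaf 5 524 652) (leaf 3 620 655))))))))))))) (node 493 (merge (leaf 6 461 462) (node 460 (merge (leaf 7 460 492) (node 461 (merge (leaf 7 428 428) (node 496 (merge (leaf 3 460 495) (node 465 (merge (leaf 6 464 497) (node 464 (merge (leaf 6 432 433) (node 559 (merge (leaf 5 463 591) (node 558 (merge (leaf 3 524 524) (node 526 (merge (leaf 4 429 429) (leaf 3 525 561)))))))))))))))))))))) (merge (node 493 (merge (node 494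 (merge (leaf 6 461 462) (node 621 (merge (leaf 6 493 526) (node 620 (merge (leaf 5 492 588) (leaf 5 524 652))))))) (merge (node 460 (merge (leaf 7 460 492) (node 461 (merge (leaf 7 428 428) (node 588 (merge (leaf 5 460 556) (leaf 5 492 620))))))) (merge (node 494 (merge (leaf 6 461 462) (node 621 (merge (leaf 6 493 526) (node 654 (merge (leaf 4 525 622) (node 653 (merge (leaf 4 557 686) (node 655 (merge (leaf 2 621 625) (leaf 5 559 687))))))))))) (node 620 (merge (leaf 5 492 588) (node 621 (merge (leaf 5 524 652) (node 654 (merge (leaf 4 525 622) (node 653 (merge (leaf 3 620 655) (leaf 4 557 686))))))))))))) (node 655 (merge (leaf 5 559 687) (node 654 (merge (node 621 (merge (leaf 4 525 622) (node 524 (merge (leaf 7 492 492) (node 653 (merge (leaf 7 524 556) (leaf 4 557 686))))))) (merge (node 653 (merge (leaf 2 621 625) (node 684 (merge (leaf 1 652 685) (node 652 (merge (leaf 1 651 683) (node 620 (merge (leaf 6 556 588) (leaf 3 619 619))))))))) (node 621 (merge (leaf 4 525 622) (node 526 (merge (leaf 6 493 494) (node 524 (merge (leaf 7 492 492) (node 558 (merge (leaf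 3 524 559) (node 523 (merge (leaf 0 522 522) (node 555 (merge (leaf 1 522 554) (node 491 (merge (leaf 3 490 490) (node 620 (merge (leaf 5 524 652) (node 588 (merge (leaf 7 491 556) (leaf 4 491 587))))))))))))))))))))))))))))))))))))))) nP_154 cP_154 14 (by decide +kernel)
def nP_155 : ℕ := 0x120000001000000012000000100000000000000000000000000000000000000000000000000000000000000000000000000000000000000000000000000000000000000000000000000000000000000000000
def cP_155 : ℕ := 0x2dc000003fc000003ff8000005f0000007f0000005f000002ff8000007c0000007c00000070000000000000000000000000000000000000000000000000000000000000000000000000000000000000000000000000000000000000000000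
theorem lP_155 : S nP_155 cP_155 13 := S_of_chk [] trivial (node 621 (merge (node 557 (merge (node 556 (merge (leaf 7 524 524) (node 685 (merge (leaf 7 556 588) (node 686 (merge (leaf 4 557 654) (leaf 4 589 718))))))) (merge (node 654 (merge (leaf 4 557 686) (node 525 (merge (leaf 4 525 622) (node 652 (merge (leaf 5 524 620) (leaf 5 556 684))))))) (node 556 (merge (leaf 7 524 524) (node 685 (merge (leaf 7 556 588) (node 684 (merge (leaf 5 556 652) (leaf 5 588 716)))))))))) (merge (node 685 (merge (node 718 (merge (leaf 4 589 686) (node 717 (merge (leaf 4 621 750) (node 716 (merge (leaf 5 588 684) (leaf 5 620 748))))))) (merge (node 588 (merge (leaf 7 556 556) (node 717 (merge (leaf 7 588 620) (node 716 (merge (leaf 5 588 684) (leaf 5 620 748))))))) (node 588 (merge (leaf 7 556 556) (node 686 (merge (leaf 4 589 718) (node 557 (merge (leaf 4 557 654) (node 558 (merge (leaf 6 525 526) (leaf 1 556 559)))))))))))) (merge (node 557 (merge (node 558 (merge (leaf 6 525 526) (node 685 (merge (leaf 6 557 590) (node 686 (merge (leaf 4 557 654) (leaf 4 589 718))))))) (merge (node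 558 (merge (leaf 6 525 526) (node 685 (merge (leaf 6 557 590) (node 684 (merge (leaf 5 556 652) (leaf 5 588 716))))))) (merge (node 654 (merge (leaf 4 557 686) (node 525 (merge (leaf 4 525 622) (node 652 (merge (leaf 5 524 620) (leaf 5 556 684))))))) (node 654 (merge (leaf 4 557 686) (node 525 (merge (leaf 4 525 622) (node 652 (merge (leaf 5 524 620) (leaf 5 556 684))))))))))) (merge (node 558 (merge (node 590 (merge (leaf 6 557 685) (node 526 (merge (leaf 5 493 494) (leaf 5 525 622))))) (merge (node 685 (merge (leaf 6 557 590) (node 588 (merge (leaf 7 556 556) (node 717 (merge (leaf 7 588 620) (node 718 (merge (leaf 4 589 686) (leaf 4 621 750))))))))) (node 557 (merge (leaf 6 525 526) (node 559 (merge (leaf 1 556 588) (node 524 (merge (leaf 3 524 525) (leaf 7 524 556)))))))))) (merge (node 557 (merge (node 558 (merge (leaf 6 525 526) (node 685 (merge (leaf 6 557 590) (node 684 (merge (leaf 5 556 652) (leaf 5 588 716))))))) (merge (node 558 (merge (leaf 6 525 526) (node 685 (merge (leaf 6 557 590) (node 588 (merge (leaf 7 556 556) (leaf 1 556 559))))))) (merge (node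 556 (merge (leaf 7 524 524) (node 685 (merge (leaf 7 556 588) (node 684 (merge (leaf 5 556 652) (leaf 5 588 716))))))) (node 558 (merge (leaf 6 525 526) (node 559 (merge (leaf 1 556 588) (node 590 (merge (leaf 1 557 561) (node 652 (merge (leaf 5 556 684) (node 525 (merge (leaf 5 524 620) (node 493 (merge (leaf 4 461 461) (leaf 4 493 622))))))))))))))))) (merge (node 685 (merge (node 590 (merge (leaf 6 557 558) (node 717 (merge (leaf 6 589 622) (node 716 (merge (leaf 5 588 684) (leaf 5 620 748))))))) (merge (node 590 (merge (leaf 6 557 558) (node 717 (merge (leaf 6 589 622) (node 718 (merge (leaf 4 589 686) (leaf 4 621 750))))))) (merge (node 686 (merge (leaf 4 589 718) (node 557 (merge (leaf 4 557 654) (node 684 (merge (leaf 5 556 652) (leaf 5 588 716))))))) (node 684 (merge (leaf 5 588 716) (node 557 (merge (leaf 5 556 652) (node 654 (merge (leaf 4 557 686) (node 525 (merge (leaf 4 525 622) (node 494 (merge (leaf 6 493 526) (node 493 (merge (leaf 6 461 462) (node 492 (merge (leaf 7 460 460) (leaf 7 492 524))))))))))))))))))) (merge (node 588 (merge (node 685 (merge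 (leaf 7 556 556) (node 717 (merge (leaf 7 588 620) (node 718 (merge (leaf 4 589 686) (leaf 4 621 750))))))) (merge (node 685 (merge (leaf 7 556 556) (node 718 (merge (leaf 4 589 686) (node 717 (merge (leaf 4 621 750) (node 716 (merge (leaf 5 588 684) (leaf 5 620 748))))))))) (merge (node 587 (merge (node 586 (merge (leaf 0 586 622) (node 617 (merge (leaf 1 585 618) (node 585 (merge (leaf 1 584 616) (node 553 (merge (leaf 3 552 552) (leaf 3 553 554))))))))) (merge (node 685 (merge (node 717 (merge (leaf 7 588 620) (node 718 (merge (leaf 4 589 686) (leaf 4 621 750))))) (merge (node 590 (merge (leaf 6 557 558) (node 619 (merge (leaf 1 586 618) (node 555 (merge (leaf 3 554 554) (node 684 (merge (leaf 5 588 716) (node 652 (merge (leaf 7 555 620) (leaf 4 555 651))))))))))) (node 718 (merge (leaf 4 589 686) (node 717 (merge (leaf 4 621 750) (node 716 (merge (leaf 5 588 684) (leaf 5 620 748)))))))))) (merge (node 586 (merge (leaf 0 586 622) (node 620 (merge (leaf 0 585 585) (node 685 (merge (leaf 7 588 717) (node 554 (merge (leaf 3 553 553) (node 684 (merge (leaf 5 588 716)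 (node 652 (merge (leaf 7 555 555) (node 683 (merge (leaf 5 587 715) (node 651 (merge (leaf 7 554 619) (node 650 (merge (leaf 0 649 649) (leaf 0 650 686))))))))))))))))))) (node 586 (merge (leaf 0 586 622) (node 620 (merge (leaf 0 585 585) (node 618 (merge (leaf 1 585 617) (node 619 (merge (leaf 0 618 654) (node 650 (merge (leaf 1 617 649) (node 682 (merge (leaf 6 554 555) (leaf 6 586 714))))))))))))))))) (node 587 (merge (node 586 (merge (leaf 0 586 622) (node 617 (merge (leaf 1 585 618) (node 585 (merge (leaf 1 584 616) (node 553 (merge (leaf 3 552 552) (leaf 3 553 554))))))))) (merge (node 554 (merge (node 586 (merge (leaf 3 553 553) (leaf 0 586 622))) (merge (node 555 (merge (leaf 3 554 590) (node 553 (merge (leaf 0 552 552) (leaf 0 553 556))))) (node 590 (merge (leaf 3 554 555) (node 558 (merge (leaf 2 555 559) (node 526 (merge (leaf 5 493 494) (leaf 5 525 622)))))))))) (merge (node 586 (merge (leaf 0 586 622) (node 620 (merge (leaf 0 585 585) (node 618 (merge (leaf 1 585 617) (node 590 (merge (leaf 1 586 619) (node 555 (merge (leaf 3 554 554) (node 652 (merge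 (leaf 7 555 684) (node 523 (merge (leaf 4 491 491) (leaf 7 523 556))))))))))))))) (merge (node 556 (merge (node 524 (merge (leaf 4 492 492) (leaf 4 524 620))) (merge (node 586 (merge (leaf 0 586 622) (node 585 (merge (leaf 0 585 620) (node 584 (merge (leaf 2 552 555) (node 552 (merge (leaf 3 551 551) (leaf 3 552 553))))))))) (node 586 (merge (leaf 0 586 622) (node 618 (merge (leaf 1 585 617) (node 619 (merge (leaf 1 586 590) (node 651 (merge (leaf 6 555 683) (node 524 (merge (leaf 4 492 492) (leaf 6 523 555)))))))))))))) (merge (node 618 (merge (node 619 (merge (leaf 1 586 590) (node 617 (merge (leaf 2 584 616) (leaf 2 585 620))))) (merge (node 586 (merge (leaf 1 585 617) (node 590 (merge (leaf 1 586 619) (node 554 (merge (leaf 3 553 553) (leaf 3 554 555))))))) (merge (node 586 (merge (leaf 1 585 617) (node 554 (merge (leaf 3 553 553) (node 555 (merge (leaf 3 554 590) (node 650 (merge (leaf 6 522 523) (leaf 6 554 682))))))))) (merge (node 619 (merge (leaf 1 586 590) (node 620 (merge (leaf 0 618 654) (node 586 (merge (leaf 0 585 585) (node 650 (merge (leaf 1 617 649)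 (node 682 (merge (leaf 6 554 555) (node 554 (merge (leaf 3 553 553) (node 683 (merge (leaf 7 554 651) (leaf 4 586 715))))))))))))))) (node 586 (merge (leaf 1 585 617) (node 620 (merge (leaf 0 585 585) (node 619 (merge (leaf 0 618 654) (node 650 (merge (leaf 1 617 649) (node 682 (merge (leaf 6 554 555) (node 554 (merge (leaf 3 553 553) (node 683 (merge (leaf 7 554 651) (leaf 4 586 715)))))))))))))))))))) (node 555 (merge (node 554 (merge (leaf 3 554 590) (node 553 (merge (leaf 0 552 552) (leaf 0 553 556))))) (merge (node 590 (merge (leaf 3 554 554) (node 558 (merge (leaf 2 555 559) (node 526 (merge (leaf 5 493 494) (leaf 5 525 622))))))) (merge (node 620 (merge (node 652 (merge (leaf 7 555 684) (node 523 (merge (leaf 4 491 491) (leaf 4 523 619))))) (merge (node 523 (merge (leaf 4 491 491) (node 524 (merge (leaf 4 524 556) (node 619 (merge (leaf 6 491 492) (node 522 (merge (leaf 7 490 490) (node 651 (merge (leaf 7 522 554) (node 650 (merge (leaf 5 522 618) (leaf 1 618 622))))))))))))) (node 652 (merge (leaf 7 555 684) (node 556 (merge (leaf 4 524 524) (node 651 (merge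 (leaf 5 555 683) (node 650 (merge (leaf 2 618 622) (leaf 2 617 649)))))))))))) (node 620 (merge (node 652 (merge (leaf 7 555 684) (node 523 (merge (leaf 4 491 491) (leaf 4 523 619))))) (merge (node 523 (merge (leaf 4 491 491) (node 524 (merge (leaf 4 524 556) (node 619 (merge (leaf 6 491 492) (node 618 (merge (leaf 1 586 590) (leaf 0 618 654))))))))) (node 652 (merge (leaf 7 555 684) (node 556 (merge (leaf 4 524 524) (node 651 (merge (leaf 5 555 683) (node 650 (merge (leaf 2 618 622) (leaf 2 617 649)))))))))))))))))))))))))) (node 652 (merge (node 684 (merge (leaf 5 556 557) (node 716 (merge (leaf 6 588 620) (leaf 6 620 748))))) (merge (node 557 (merge (leaf 5 556 684) (node 526 (merge (leaf 6 525 558) (node 525 (merge (leaf 6 493 494) (node 524 (merge (leaf 7 492 492) (leaf 7 524 556))))))))) (merge (node 651 (merge (node 650 (merge (leaf 2 618 622) (node 681 (merge (leaf 1 649 682) (node 649 (merge (leaf 2 617 620) (leaf 1 648 680))))))) (merge (node 688 (merge (node 721 (merge (leaf 4 592 689) (node 720 (merge (leaf 4 624 753) (node 719 (merge (leaf 5 591 687) (leaf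 5 623 751))))))) (merge (node 650 (merge (leaf 2 618 622) (node 682 (merge (leaf 1 649 681) (node 654 (merge (leaf 1 650 683) (node 618 (merge (leaf 3 617 617) (leaf 3 618 619))))))))) (node 650 (merge (leaf 2 618 622) (node 682 (merge (leaf 1 649 681) (node 654 (merge (leaf 1 650 683) (node 687 (merge (leaf 0 651 686) (leaf 5 591 719)))))))))))) (merge (node 557 (merge (node 524 (merge (leaf 7 524 556) (node 525 (merge (leaf 7 492 492) (leaf 5 524 620))))) (merge (node 654 (merge (leaf 4 557 686) (node 682 (merge (leaf 1 650 683) (node 650 (merge (leaf 1 649 681) (node 618 (merge (leaf 3 617 617) (leaf 3 618 619))))))))) (node 654 (merge (leaf 4 557 686) (node 682 (merge (leaf 1 650 683) (node 650 (merge (leaf 1 649 681) (node 618 (merge (leaf 3 617 617) (leaf 3 618 619)))))))))))) (node 619 (merge (node 654 (merge (leaf 3 618 618) (node 686 (merge (leaf 0 651 687) (node 718 (merge (leaf 7 589 622) (leaf 7 621 750))))))) (merge (node 557 (merge (node 654 (merge (leaf 4 557 686) (node 525 (merge (leaf 5 524 620) (leaf 4 525 622))))) (merge (node 558 (merge (leaf 6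 525 526) (node 588 (merge (leaf 1 556 559) (node 556 (merge (leaf 7 524 524) (node 587 (merge (leaf 2 554 586) (leaf 6 555 683))))))))) (merge (node 654 (merge (leaf 4 557 686) (node 525 (merge (leaf 5 524 620) (leaf 4 525 622))))) (node 556 (merge (leaf 7 524 524) (node 620 (merge (leaf 5 524 525) (node 588 (merge (leaf 5 555 683) (node 555 (merge (leaf 7 523 523) (node 554 (merge (leaf 0 553 553) (leaf 0 554 590))))))))))))))) (node 557 (merge (node 558 (merge (leaf 6 525 526) (node 588 (merge (leaf 1 556 559) (node 556 (merge (leaf 7 524 524) (node 587 (merge (leaf 2 554 586) (leaf 6 555 683))))))))) (merge (node 620 (merge (leaf 5 524 525) (node 618 (merge (leaf 2 586 590) (leaf 0 617 617))))) (merge (node 558 (merge (leaf 6 525 526) (node 559 (merge (leaf 1 556 588) (node 590 (merge (leaf 1 557 561) (node 620 (merge (leaf 5 524 525) (leaf 2 586 618))))))))) (node 556 (merge (leaf 7 524 524) (node 620 (merge (leaf 5 524 525) (node 588 (merge (leaf 5 555 683) (node 555 (merge (leaf 7 523 523) (node 554 (merge (leaf 0 553 553) (leaf 0 554 590))))))))))))))))))))))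 (node 651 (merge (node 650 (merge (leaf 2 618 622) (node 681 (merge (leaf 1 649 682) (node 649 (merge (leaf 2 617 620) (leaf 1 648 680))))))) (merge (node 688 (merge (node 721 (merge (leaf 4 592 689) (node 720 (merge (leaf 4 624 753) (node 719 (merge (leaf 5 591 687) (leaf 5 623 751))))))) (merge (node 650 (merge (leaf 2 618 622) (node 682 (merge (leaf 1 649 681) (node 654 (merge (leaf 1 650 683) (node 618 (merge (leaf 3 617 617) (leaf 3 618 619))))))))) (node 650 (merge (leaf 2 618 622) (node 682 (merge (leaf 1 649 681) (node 654 (merge (leaf 1 650 683) (node 687 (merge (leaf 0 651 686) (leaf 5 591 719)))))))))))) (merge (node 684 (merge (node 716 (merge (leaf 6 588 620) (leaf 6 620 748))) (merge (node 650 (merge (leaf 2 618 622) (node 649 (merge (leaf 2 617 620) (node 683 (merge (leaf 0 648 648) (node 654 (merge (leaf 1 650 682) (node 618 (merge (leaf 3 617 617) (leaf 3 618 619))))))))))) (node 716 (merge (leaf 6 620 748) (node 650 (merge (leaf 2 618 622) (node 618 (merge (leaf 3 617 617) (node 619 (merge (leaf 3 618 654) (node 587 (merge (leaf 4 555 555) (leaf 4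 587 683)))))))))))))) (merge (node 683 (merge (node 682 (merge (leaf 1 650 654) (node 681 (merge (leaf 2 648 680) (leaf 2 649 684))))) (merge (node 654 (merge (leaf 1 650 682) (node 686 (merge (leaf 0 651 687) (node 718 (merge (leaf 7 589 622) (leaf 7 621 750))))))) (node 620 (merge (node 715 (merge (leaf 6 619 747) (node 619 (merge (leaf 6 587 588) (node 618 (merge (leaf 2 586 590) (leaf 0 617 617))))))) (merge (node 684 (merge (leaf 6 588 716) (node 588 (merge (leaf 5 555 556) (node 587 (merge (leaf 7 555 555) (node 586 (merge (leaf 0 585 585) (leaf 0 586 622))))))))) (node 716 (merge (leaf 6 588 684) (node 715 (merge (leaf 6 619 747) (node 619 (merge (leaf 4 619 748) (node 618 (merge (leaf 2 586 590) (leaf 0 617 617))))))))))))))) (merge (node 684 (merge (node 716 (merge (leaf 6 588 620) (leaf 6 620 748))) (merge (node 650 (merge (leaf 2 618 622) (node 649 (merge (leaf 2 617 620) (node 648 (merge (leaf 0 648 683) (node 680 (merge (leaf 1 647 679) (leaf 1 648 681))))))))) (node 716 (merge (leaf 6 620 748) (node 650 (merge (leaf 2 618 622) (node 618 (merge (leaf 3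 617 617) (node 619 (merge (leaf 3 618 654) (node 587 (merge (leaf 4 555 555) (leaf 4 587 683)))))))))))))) (node 620 (merge (node 650 (merge (leaf 2 617 649) (node 618 (merge (leaf 3 617 617) (node 619 (merge (leaf 2 586 590) (leaf 0 618 654))))))) (merge (node 684 (merge (leaf 6 588 716) (node 650 (merge (leaf 2 617 649) (node 682 (merge (leaf 1 649 681) (node 683 (merge (leaf 1 650 654) (node 715 (merge (leaf 5 587 588) (leaf 6 619 747))))))))))) (merge (node 650 (merge (leaf 2 617 649) (node 682 (merge (leaf 1 649 681) (node 683 (merge (leaf 1 650 654) (node 715 (merge (leaf 6 619 747) (node 618 (merge (leaf 4 586 586) (leaf 3 617 617))))))))))) (merge (node 588 (merge (node 556 (merge (leaf 4 524 524) (leaf 5 555 683))) (merge (node 684 (merge (leaf 6 588 716) (node 683 (merge (leaf 5 587 715) (node 682 (merge (leaf 1 650 654) (leaf 2 649 681))))))) (node 684 (merge (leaf 6 588 716) (node 587 (merge (leaf 7 555 555) (node 586 (merge (leaf 0 585 585) (node 618 (merge (leaf 1 585 617) (node 619 (merge (leaf 1 586 590) (leaf 0 618 654)))))))))))))) (merge (node 650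 (merge (leaf 2 617 649) (node 682 (merge (leaf 1 649 681) (node 618 (merge (leaf 3 617 617) (node 619 (merge (leaf 2 586 590) (node 714 (merge (leaf 6 586 587) (node 586 (merge (leaf 3 585 585) (node 715 (merge (leaf 7 586 683) (leaf 4 618 747))))))))))))))) (node 619 (merge (node 618 (merge (leaf 2 586 590) (leaf 0 617 617))) (node 650 (merge (leaf 2 617 649) (node 682 (merge (leaf 1 649 681) (node 714 (merge (leaf 6 618 746) (node 683 (merge (leaf 5 586 587) (leaf 1 650 654))))))))))))))))))))))))))))))))))) nP_155 cP_155 13 (by decide +kernel)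
def nP_156 : ℕ := 0x100000001000000012000000100000000000000000000000000000000000000000000000000000000000000000000000000000000000000000000000000000000000000000000000000000000000000000000
def cP_156 : ℕ := 0x50000002fc000003fc000003ff800000ff0000027f0000005f000002ff8000007c0000007c00000070000000000000000000000000000000000000000000000000000000000000000000000000000000000000000000000000000000000000000000
theorem lP_156 : S nP_156 cP_156 14 := S_of_chk [(nP_155, cP_155, 13)] ⟨lP_155, trivial⟩ (node 653 (merge (node 687 (merge (leaf 5 559 655) (node 688 (merge (leaf 5 591 719) (node 689 (merge (leaf 4 592 721) (node 686 (merge (leaf 3 653 654) (node 717 (merge (leaf 1 685 718) (node 685 (merge (leaf 3 652 652) (leaf 1 684 716))))))))))))) (merge (node 655 (merge (leaf 5 559 687) (node 654 (merge (leaf 2 621 625) (node 685 (merge (leaf 1 652 684) (node 621 (merge (leaf 3 620 620) (node 590 (merge (leaf 6 557 558) (node 717 (merge (leaf 6 589 622) (node 750 (merge (leaf 4 621 718) (node 749 (merge (leaf 4 653 782) (node 748 (merge (leaf 5 620 716) (leaf 5 652 780)))))))))))))))))))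 (merge (node 655 (merge (leaf 5 559 687) (node 654 (merge (leaf 2 621 625) (node 621 (merge (leaf 3 620 620) (node 557 (merge (leaf 4 557 686) (node 524 (merge (leaf 7 524 556) (node 525 (merge (leaf 7 492 492) (leaf 4 525 622))))))))))))) (merge (node 685 (merge (node 687 (merge (leaf 5 559 655) (node 688 (merge (leaf 5 591 719) (node 721 (merge (leaf 4 592 689) (node 720 (merge (leaf 0 685 686) (leaf 4 624 753))))))))) (merge (node 621 (merge (node 590 (merge (leaf 6 557 558) (node 717 (merge (leaf 6 589 622) (node 716 (merge (leaf 5 588 684) (leaf 5 620 748))))))) (merge (node 588 (merge (leaf 7 556 556) (node 717 (merge (leaf 7 588 620) (node 718 (merge (leaf 4 589 686) (leaf 4 621 750))))))) (node 557 (merge (node 558 (merge (leaf 6 525 526) (node 685 (merge (leaf 6 557 590) (node 684 (merge (leaf 5 556 652) (leaf 5 588 716))))))) (merge (node 558 (merge (leaf 6 525 526) (node 685 (merge (leaf 6 557 590) (node 588 (merge (leaf 7 556 556) (leaf 1 556 559))))))) (merge (node 556 (merge (leaf 7 524 524) (node 685 (merge (leaf 7 556 588) (node 684 (merge (leaf 5 556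 652) (leaf 5 588 716))))))) (node 558 (merge (leaf 6 525 526) (node 559 (merge (leaf 1 556 588) (node 590 (merge (leaf 1 557 561) (node 652 (merge (leaf 5 556 684) (node 525 (merge (leaf 5 524 620) (node 493 (merge (leaf 4 461 461) (leaf 4 493 622)))))))))))))))))))) (node 621 (merge (node 590 (merge (leaf 6 557 558) (node 717 (merge (leaf 6 589 622) (node 716 (merge (leaf 5 588 684) (leaf 5 620 748))))))) (merge (node 588 (merge (leaf 7 556 556) (node 717 (merge (leaf 7 588 620) (node 716 (merge (leaf 5 588 684) (leaf 5 620 748))))))) (merge (node 590 (merge (leaf 6 557 558) (node 717 (merge (leaf 6 589 622) (node 620 (merge (leaf 7 588 588) (node 749 (merge (leaf 7 620 652) (node 748 (merge (leaf 5 620 716) (leaf 5 652 780))))))))))) (merge (node 557 (merge (node 558 (merge (leaf 6 525 526) (node 685 (merge (leaf 6 557 590) (node 684 (merge (leaf 5 556 652) (leaf 5 588 716))))))) (merge (node 558 (merge (leaf 6 525 526) (node 685 (merge (leaf 6 557 590) (node 588 (merge (leaf 7 556 556) (leaf 1 556 559))))))) (merge (node 556 (merge (leaf 7 524 524) (node 685 (merge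 (leaf 7 556 588) (node 684 (merge (leaf 5 556 652) (leaf 5 588 716))))))) (node 558 (merge (leaf 6 525 526) (node 559 (merge (leaf 1 556 588) (node 590 (merge (leaf 1 557 561) (node 652 (merge (leaf 5 556 684) (node 525 (merge (leaf 5 524 620) (node 493 (merge (leaf 4 461 461) (leaf 4 493 622))))))))))))))))) (node 590 (merge (leaf 6 557 558) (node 717 (merge (leaf 6 589 622) (node 588 (merge (leaf 7 556 556) (leaf 7 588 620))))))))))))))) (merge (node 621 (merge (node 557 (merge (node 558 (merge (leaf 6 525 526) (node 685 (merge (leaf 6 557 590) (node 686 (merge (leaf 4 557 654) (leaf 4 589 718))))))) (merge (node 558 (merge (leaf 6 525 526) (node 685 (merge (leaf 6 557 590) (node 684 (merge (leaf 5 556 652) (leaf 5 588 716))))))) (merge (node 654 (merge (leaf 4 557 686) (node 525 (merge (leaf 4 525 622) (node 652 (merge (leaf 5 524 620) (leaf 5 556 684))))))) (node 654 (merge (leaf 4 557 686) (node 525 (merge (leaf 4 525 622) (node 652 (merge (leaf 5 524 620) (leaf 5 556 684))))))))))) (merge (node 558 (merge (node 590 (merge (leaf 6 557 685) (node 526 (merge (leaf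 5 493 494) (leaf 5 525 622))))) (merge (node 685 (merge (leaf 6 557 590) (node 588 (merge (leaf 7 556 556) (node 717 (merge (leaf 7 588 620) (node 718 (merge (leaf 4 589 686) (leaf 4 621 750))))))))) (node 557 (merge (leaf 6 525 526) (node 559 (merge (leaf 1 556 588) (node 524 (merge (leaf 3 524 525) (leaf 7 524 556)))))))))) (merge (node 557 (merge (node 558 (merge (leaf 6 525 526) (node 685 (merge (leaf 6 557 590) (node 684 (merge (leaf 5 556 652) (leaf 5 588 716))))))) (merge (node 558 (merge (leaf 6 525 526) (node 685 (merge (leaf 6 557 590) (node 588 (merge (leaf 7 556 556) (leaf 1 556 559))))))) (merge (node 556 (merge (leaf 7 524 524) (node 685 (merge (leaf 7 556 588) (node 684 (merge (leaf 5 556 652) (leaf 5 588 716))))))) (node 558 (merge (leaf 6 525 526) (node 559 (merge (leaf 1 556 588) (node 590 (merge (leaf 1 557 561) (node 652 (merge (leaf 5 556 684) (node 525 (merge (leaf 5 524 620) (node 493 (merge (leaf 4 461 461) (leaf 4 493 622))))))))))))))))) (merge (node 685 (merge (node 590 (merge (leaf 6 557 558) (node 717 (merge (leaf 6 589 622) (node 716 (merge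 (leaf 5 588 684) (leaf 5 620 748))))))) (merge (node 590 (merge (leaf 6 557 558) (node 717 (merge (leaf 6 589 622) (node 718 (merge (leaf 4 589 686) (leaf 4 621 750))))))) (merge (node 686 (merge (leaf 4 589 718) (node 557 (merge (leaf 4 557 654) (node 684 (merge (leaf 5 556 652) (leaf 5 588 716))))))) (node 684 (merge (leaf 5 588 716) (node 557 (merge (leaf 5 556 652) (node 654 (merge (leaf 4 557 686) (node 525 (merge (leaf 4 525 622) (node 494 (merge (leaf 6 493 526) (node 493 (merge (leaf 6 461 462) (node 492 (merge (leaf 7 460 460) (leaf 7 492 524))))))))))))))))))) (merge (node 685 (merge (node 718 (merge (leaf 4 589 686) (node 717 (merge (leaf 4 621 750) (node 716 (merge (leaf 5 588 684) (leaf 5 620 748))))))) (merge (node 588 (merge (leaf 7 556 556) (node 717 (merge (leaf 7 588 620) (node 718 (merge (leaf 4 589 686) (leaf 4 621 750))))))) (merge (node 588 (merge (leaf 7 556 556) (node 717 (merge (leaf 7 588 620) (node 716 (merge (leaf 5 588 684) (leaf 5 620 748))))))) (node 588 (merge (leaf 7 556 556) (node 686 (merge (leaf 4 589 718) (node 684 (merge (leaf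 5 588 716) (node 654 (merge (leaf 1 652 655) (node 683 (merge (leaf 2 650 682) (node 715 (merge (leaf 1 682 714) (node 651 (merge (leaf 3 650 650) (node 620 (merge (leaf 6 587 619) (leaf 5 587 652))))))))))))))))))))) (node 652 (merge (node 684 (merge (leaf 5 556 557) (node 716 (merge (leaf 6 588 620) (leaf 6 620 748))))) (merge (node 557 (merge (leaf 5 556 684) (node 526 (merge (leaf 6 525 558) (node 525 (merge (leaf 6 493 494) (node 524 (merge (leaf 7 492 492) (leaf 7 524 556))))))))) (merge (node 557 (merge (node 526 (merge (leaf 6 525 558) (node 525 (merge (leaf 6 493 494) (leaf 5 524 620))))) (merge (node 524 (merge (leaf 7 524 556) (node 525 (merge (leaf 7 492 492) (leaf 5 524 620))))) (merge (node 526 (merge (leaf 6 525 558) (node 525 (merge (leaf 6 493 494) (node 524 (merge (leaf 7 492 492) (leaf 7 524 556))))))) (node 654 (merge (leaf 4 557 686) (node 655 (merge (leaf 3 620 620) (leaf 2 621 625))))))))) (node 651 (merge (node 650 (merge (leaf 2 618 622) (node 681 (merge (leaf 1 649 682) (node 649 (merge (leaf 2 617 620) (leaf 1 648 680))))))) (merge (node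 650 (merge (leaf 2 618 622) (node 618 (merge (leaf 3 617 617) (node 654 (merge (leaf 3 618 619) (node 655 (merge (leaf 3 620 620) (leaf 2 621 625))))))))) (merge (node 650 (merge (leaf 2 618 622) (node 618 (merge (leaf 3 617 617) (node 654 (merge (leaf 3 618 619) (node 683 (merge (leaf 1 650 682) (node 655 (merge (leaf 2 621 625) (leaf 1 651 684))))))))))) (merge (node 683 (merge (node 654 (merge (leaf 1 650 682) (node 655 (merge (leaf 3 620 620) (leaf 2 621 625))))) (merge (node 682 (merge (leaf 1 650 654) (node 681 (merge (leaf 2 648 680) (leaf 2 649 684))))) (node 620 (merge (node 715 (merge (leaf 6 619 747) (node 619 (merge (leaf 6 587 588) (node 618 (merge (leaf 2 586 590) (leaf 0 617 617))))))) (merge (node 684 (merge (leaf 6 588 716) (node 588 (merge (leaf 5 555 556) (node 587 (merge (leaf 7 555 555) (node 586 (merge (leaf 0 585 585) (leaf 0 586 622))))))))) (node 716 (merge (leaf 6 588 684) (node 715 (merge (leaf 6 619 747) (node 619 (merge (leaf 4 619 748) (node 618 (merge (leaf 2 586 590) (leaf 0 617 617))))))))))))))) (node 620 (merge (node 650 (merge (leaf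 2 617 649) (node 618 (merge (leaf 3 617 617) (node 619 (merge (leaf 2 586 590) (leaf 0 618 654))))))) (merge (node 684 (merge (leaf 6 588 716) (node 650 (merge (leaf 2 617 649) (node 682 (merge (leaf 1 649 681) (node 683 (merge (leaf 1 650 654) (node 715 (merge (leaf 5 587 588) (leaf 6 619 747))))))))))) (merge (node 650 (merge (leaf 2 617 649) (node 682 (merge (leaf 1 649 681) (node 683 (merge (leaf 1 650 654) (node 715 (merge (leaf 6 619 747) (node 618 (merge (leaf 4 586 586) (leaf 3 617 617))))))))))) (merge (node 588 (merge (node 556 (merge (leaf 4 524 524) (leaf 5 555 683))) (merge (node 684 (merge (leaf 6 588 716) (node 683 (merge (leaf 5 587 715) (node 682 (merge (leaf 1 650 654) (leaf 2 649 681))))))) (node 684 (merge (leaf 6 588 716) (node 587 (merge (leaf 7 555 555) (node 586 (merge (leaf 0 585 585) (node 618 (merge (leaf 1 585 617) (node 619 (merge (leaf 1 586 590) (leaf 0 618 654)))))))))))))) (merge (node 650 (merge (leaf 2 617 649) (node 682 (merge (leaf 1 649 681) (node 618 (merge (leaf 3 617 617) (node 619 (merge (leaf 2 586 590) (node 714 (merge (leaf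 6 586 587) (node 586 (merge (leaf 3 585 585) (node 715 (merge (leaf 7 586 683) (leaf 4 618 747))))))))))))))) (node 619 (merge (node 618 (merge (leaf 2 586 590) (leaf 0 617 617))) (node 650 (merge (leaf 2 617 649) (node 682 (merge (leaf 1 649 681) (node 714 (merge (leaf 6 618 746) (node 683 (merge (leaf 5 586 587) (leaf 1 650 654)))))))))))))))))))))))))))))))) (hyp 0))))))) nP_156 cP_156 14 (by decide +kernel)
def nP_157 : ℕ := 0x100000001000000010000000100000001000000000000000000000000000000000000000000000000000000000000000000000000000000000000000000000000000000000000000000000000000000000000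
def cP_157 : ℕ := 0x50000002fc000003fc000003ff800000ff0000027f000000ff000002ff8000007c000003fc000003f0000003f00000024000000000000000000000000000000000000000000000000000000000000000000000000000000000000000000000000000
theorem lP_157 : S nP_157 cP_157 15 := S_of_chk [(nP_153, cP_153, 12), (nP_154, cP_154, 14), (nP_156, cP_156, 14)] ⟨lP_153, lP_154, lP_156, trivial⟩ (node 589 (merge (node 591 (merge (node 590 (merge (leaf 2 557 561) (leaf 0 589 625))) (node 688 (merge (leaf 7 559 559) (node 721 (merge (leaf 4 592 689) (node 720 (merge (leaf 4 624 753) (node 719 (merge (leaf 5 591 687) (leaf 5 623 751))))))))))) (merge (node 687 (merge (leaf 5 559 655) (node 688 (merge (leaf 5 591 719) (node 591 (merge (leaf 7 559 559) (node 590 (merge (leaf 2 557 561) (node 620 (merge (leaf 1 588 621) (node 588 (merge (leaf 1 587 619) (node 556 (merge (leaf 3 555 555) (leaf 3 556 557))))))))))))))) (merge (node 687 (merge (leaf 5 559 655) (node 688 (merge (leaf 5 591 719) (node 591 (merge (leaf 7 559 559) (node 590 (merge (leaf 0 589 625) (node 621 (merge (leaf 1 588 620) (node 557 (merge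 (leaf 3 556 556) (node 721 (merge (leaf 4 592 689) (node 720 (merge (leaf 4 624 753) (node 685 (merge (leaf 0 685 686) (node 653 (merge (leaf 6 557 558) (node 684 (merge (leaf 5 556 652) (leaf 5 588 716))))))))))))))))))))))) (merge (node 496 (merge (node 465 (merge (leaf 6 464 497) (node 464 (merge (leaf 6 432 433) (node 463 (merge (leaf 7 431 431) (leaf 7 463 495))))))) (merge (node 463 (merge (leaf 7 463 495) (node 464 (merge (leaf 7 431 431) (node 591 (merge (leaf 5 463 559) (node 590 (merge (leaf 2 557 561) (leaf 0 589 625))))))))) (merge (node 465 (merge (leaf 6 464 497) (node 464 (merge (leaf 6 432 433) (node 591 (merge (leaf 5 463 559) (node 590 (merge (leaf 2 557 561) (leaf 0 589 625))))))))) (node 497 (merge (leaf 6 464 465) (node 525 (merge (node 495 (merge (leaf 7 463 463) (node 494 (merge (leaf 1 493 526) (node 493 (merge (leaf 1 492 524) (node 461 (merge (leaf 3 460 460) (leaf 3 461 462))))))))) (merge (node 559 (merge (node 591 (merge (leaf 7 559 688) (node 590 (merge (leaf 2 557 561) (leaf 0 589 625))))) (merge (node 591 (merge (leaf 7 559 688) (node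 590 (merge (leaf 2 556 588) (leaf 0 589 625))))) (node 495 (merge (leaf 7 463 463) (node 526 (merge (leaf 1 493 494) (node 558 (merge (leaf 3 525 561) (node 557 (merge (leaf 3 524 524) (leaf 1 556 588)))))))))))) (merge (node 590 (merge (node 591 (merge (leaf 2 557 561) (leaf 0 589 625))) (node 495 (merge (leaf 7 463 463) (node 494 (merge (leaf 1 493 526) (node 461 (merge (leaf 3 461 462) (node 493 (merge (leaf 3 460 460) (node 557 (merge (leaf 4 461 558) (leaf 4 493 622))))))))))))) (merge (node 493 (merge (node 495 (merge (leaf 7 463 463) (node 494 (merge (leaf 1 492 524) (node 461 (merge (leaf 3 460 460) (leaf 3 461 462))))))) (merge (node 590 (merge (node 591 (merge (leaf 2 557 561) (leaf 0 589 625))) (node 557 (merge (leaf 4 493 622) (node 461 (merge (leaf 4 461 558) (node 588 (merge (leaf 5 460 556) (leaf 5 492 620))))))))) (merge (node 495 (merge (leaf 7 463 463) (node 494 (merge (leaf 1 492 524) (node 462 (merge (leaf 3 461 461) (leaf 6 461 557))))))) (node 495 (merge (leaf 7 463 463) (node 494 (merge (leaf 1 492 524) (node 557 (merge (leaf 6 461 462) (node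 588 (merge (leaf 5 492 620) (node 559 (merge (leaf 1 556 558) (node 591 (merge (leaf 2 556 590) (leaf 7 559 688))))))))))))))))) (node 557 (merge (node 591 (merge (node 590 (merge (leaf 2 557 561) (leaf 0 589 625))) (node 559 (merge (leaf 7 559 688) (node 558 (merge (leaf 0 556 556) (leaf 1 556 588))))))) (merge (node 590 (merge (node 591 (merge (leaf 3 556 556) (leaf 2 557 561))) (node 493 (merge (leaf 4 493 622) (node 492 (merge (leaf 7 460 460) (node 621 (merge (leaf 7 492 524) (node 620 (merge (leaf 5 492 588) (leaf 5 524 652))))))))))) (merge (node 621 (merge (node 524 (merge (leaf 7 492 492) (node 653 (merge (leaf 7 524 556) (node 558 (merge (leaf 6 525 526) (leaf 3 524 559))))))) (merge (node 654 (merge (leaf 4 525 622) (node 653 (merge (leaf 4 557 686) (node 620 (merge (leaf 5 524 652) (leaf 3 620 655))))))) (node 622 (merge (leaf 4 525 654) (node 493 (merge (leaf 4 493 590) (node 620 (merge (leaf 5 492 588) (leaf 5 524 652)))))))))) (merge (node 590 (merge (node 591 (merge (leaf 2 557 561) (leaf 0 589 625))) (node 493 (merge (leaf 4 493 622) (node 492 (merge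 (leaf 7 460 460) (node 621 (merge (leaf 7 492 524) (node 558 (merge (leaf 4 461 461) (node 653 (merge (leaf 6 525 526) (leaf 6 557 685))))))))))))) (node 620 (merge (node 621 (merge (leaf 5 524 652) (node 524 (merge (leaf 7 492 492) (node 653 (merge (leaf 7 524 556) (node 654 (merge (leaf 4 525 622) (leaf 3 620 655))))))))) (merge (node 588 (merge (leaf 5 492 493) (node 652 (merge (leaf 6 524 556) (leaf 5 524 621))))) (merge (node 493 (merge (leaf 5 492 588) (node 460 (merge (leaf 7 460 492) (node 461 (merge (leaf 7 428 428) (node 430 (merge (leaf 6 429 462) (node 429 (merge (leaf 6 397 398) (node 558 (merge (leaf 4 429 526) (node 524 (merge (leaf 5 428 556) (leaf 3 524 559))))))))))))))) (node 621 (merge (leaf 5 524 652) (node 654 (merge (leaf 4 525 622) (node 653 (merge (leaf 3 620 655) (leaf 4 557 686))))))))))))))))))))))))))) (merge (node 653 (merge (node 687 (merge (leaf 5 559 655) (node 688 (merge (leaf 5 591 719) (node 689 (merge (leaf 4 592 721) (node 686 (merge (leaf 3 653 654) (node 717 (merge (leaf 1 685 718) (node 685 (merge (leaf 3 652 652) (leaf 1 684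 716))))))))))))) (merge (node 590 (merge (node 591 (merge (leaf 2 557 561) (leaf 0 589 625))) (node 687 (merge (leaf 5 559 655) (node 688 (merge (leaf 5 591 719) (node 721 (merge (leaf 4 592 689) (node 720 (merge (leaf 4 624 753) (node 685 (merge (leaf 0 685 686) (node 621 (merge (leaf 6 557 558) (node 717 (merge (leaf 6 589 622) (node 588 (merge (leaf 7 556 556) (leaf 7 588 620))))))))))))))))))) (merge (node 655 (merge (leaf 5 559 687) (node 654 (merge (leaf 2 621 625) (node 685 (merge (leaf 1 652 684) (node 621 (merge (leaf 3 620 620) (node 590 (merge (leaf 6 557 558) (node 717 (merge (leaf 6 589 622) (node 750 (merge (leaf 4 621 718) (node 749 (merge (leaf 4 653 782) (node 748 (merge (leaf 5 620 716) (leaf 5 652 780))))))))))))))))))) (merge (node 621 (merge (node 590 (merge (node 591 (merge (leaf 2 557 561) (leaf 0 589 625))) (node 558 (merge (leaf 6 557 685) (node 526 (merge (leaf 5 493 494) (leaf 5 525 622))))))) (merge (node 557 (merge (node 556 (merge (leaf 7 524 524) (node 685 (merge (leaf 7 556 588) (node 686 (merge (leaf 4 557 654) (leaf 4 589 718)))))))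 (merge (node 654 (merge (leaf 4 557 686) (node 525 (merge (leaf 4 525 622) (node 652 (merge (leaf 5 524 620) (leaf 5 556 684))))))) (node 556 (merge (leaf 7 524 524) (node 685 (merge (leaf 7 556 588) (node 684 (merge (leaf 5 556 652) (leaf 5 588 716)))))))))) (merge (node 685 (merge (node 588 (merge (leaf 7 556 556) (node 717 (merge (leaf 7 588 620) (node 718 (merge (leaf 4 589 686) (leaf 4 621 750))))))) (merge (node 588 (merge (leaf 7 556 556) (node 717 (merge (leaf 7 588 620) (node 716 (merge (leaf 5 588 684) (leaf 5 620 748))))))) (node 686 (merge (leaf 4 589 718) (node 557 (merge (leaf 4 557 654) (node 684 (merge (leaf 5 556 652) (leaf 5 588 716)))))))))) (node 590 (merge (node 591 (merge (leaf 2 557 561) (leaf 0 589 625))) (node 557 (merge (node 654 (merge (leaf 4 557 686) (node 525 (merge (leaf 4 525 622) (node 652 (merge (leaf 5 524 620) (leaf 5 556 684))))))) (merge (node 526 (merge (leaf 6 525 558) (node 525 (merge (leaf 6 493 494) (node 622 (merge (leaf 4 493 493) (leaf 4 525 654))))))) (merge (node 524 (merge (leaf 7 524 556) (node 525 (merge (leaf 7 492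 492) (node 652 (merge (leaf 5 524 620) (leaf 5 556 684))))))) (node 558 (merge (leaf 6 525 526) (node 556 (merge (leaf 7 524 524) (node 555 (merge (leaf 0 554 554) (node 587 (merge (leaf 1 554 586) (node 523 (merge (leaf 3 522 522) (node 652 (merge (leaf 5 556 684) (node 620 (merge (leaf 7 523 588) (leaf 4 523 619))))))))))))))))))))))))) (node 655 (merge (leaf 5 559 687) (node 654 (merge (leaf 2 621 625) (node 621 (merge (leaf 3 620 620) (node 557 (merge (leaf 4 557 686) (node 524 (merge (leaf 7 524 556) (node 525 (merge (leaf 7 492 492) (leaf 4 525 622)))))))))))))))))) (merge (hyp 0) (merge (hyp 1) (hyp 2))))))))) nP_157 cP_157 15 (by decide +kernel)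
def nP_158 : ℕ := 0x10000000100000001000000000000000000000000000000000000000000000000000000000000000000000000000000000000000000000000000000000000000000000000000000000000
def cP_158 : ℕ := 0x50000002fc000003fe000003ff800003ff00000fff000000ff000006ff8000007c000003fc000003f0000003f00000025000000000000000000000000000000000000000000000000000000000000000000000000000000000000000000000000000
theorem lP_158 : S nP_158 cP_158 17 := S_of_chk [(nP_149, cP_149, 14), (nP_150, cP_150, 13), (nP_151, cP_151, 13), (nP_152, cP_152, 12), (nP_157, cP_157, 15)] ⟨lP_149, lP_150, lP_151, lP_152, lP_157, trivial⟩ (node 624 (merge (node 657 (merge (leaf 4 528 625) (node 656 (merge (leaf 4 560 689) (node 655 (merge (leaf 5 527 623) (leaf 5 559 687))))))) (merge (node 623 (merge (leaf 5 527 655) (node 496 (merge (leaf 5 495 591) (node 465 (merge (leaf 6 464 497) (node 464 (merge (leaf 6 432 433) (node 463 (merge (leaf 7 431 431) (leaf 7 463 495))))))))))) (merge (node 591 (merge (node 625 (merge (leaf 4 528 657) (node 626 (merge (leaf 3 591 627) (node 590 (merge (leaf 0 589 589) (leaf 3 590 623)))))))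 (merge (node 496 (merge (leaf 5 495 623) (node 464 (merge (leaf 5 463 559) (node 463 (merge (leaf 7 431 431) (leaf 7 463 495))))))) (node 656 (merge (node 657 (merge (leaf 4 528 625) (leaf 4 560 689))) (merge (node 688 (merge (leaf 7 559 559) (node 721 (merge (leaf 4 592 689) (node 720 (merge (leaf 4 624 753) (node 719 (merge (leaf 5 591 687) (leaf 5 623 751))))))))) (node 559 (merge (leaf 7 559 688) (node 525 (merge (node 496 (merge (leaf 5 463 464) (node 497 (merge (leaf 6 464 465) (node 495 (merge (leaf 7 463 463) (node 494 (merge (leaf 1 493 526) (node 493 (merge (leaf 1 492 524) (node 461 (merge (leaf 3 460 460) (leaf 3 461 462))))))))))))) (merge (node 625 (merge (leaf 4 528 657) (node 590 (merge (leaf 0 589 589) (node 561 (merge (leaf 1 558 562) (node 558 (merge (leaf 3 525 526) (node 557 (merge (leaf 3 524 524) (leaf 0 556 556))))))))))) (merge (node 496 (merge (leaf 5 463 464) (node 497 (merge (leaf 6 464 465) (node 495 (merge (leaf 7 463 463) (node 494 (merge (leaf 1 493 526) (node 462 (merge (leaf 3 461 461) (node 625 (merge (leaf 4 528 657) (node 589 (merge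 (leaf 0 589 590) (node 557 (merge (leaf 6 461 493) (node 558 (merge (leaf 0 556 556) (leaf 1 556 588))))))))))))))))))) (node 557 (merge (node 558 (merge (leaf 3 524 524) (leaf 0 556 556))) (merge (node 558 (merge (leaf 3 524 524) (node 589 (merge (leaf 1 556 588) (node 590 (merge (leaf 1 557 561) (leaf 0 589 625))))))) (merge (node 496 (merge (leaf 5 463 464) (node 558 (merge (leaf 0 556 556) (node 589 (merge (leaf 1 556 588) (node 590 (merge (leaf 1 557 561) (leaf 0 589 625))))))))) (node 493 (merge (node 496 (merge (leaf 5 463 464) (node 495 (merge (leaf 7 463 463) (node 494 (merge (leaf 1 492 524) (node 461 (merge (leaf 3 460 460) (node 462 (merge (leaf 6 429 430) (leaf 3 461 497))))))))))) (merge (node 625 (merge (leaf 4 528 657) (node 589 (merge (leaf 0 589 590) (node 492 (merge (leaf 7 460 460) (node 621 (merge (leaf 7 492 524) (node 620 (merge (leaf 5 492 588) (leaf 5 524 652))))))))))) (merge (node 625 (merge (leaf 4 528 657) (node 589 (merge (leaf 0 589 590) (node 462 (merge (leaf 6 461 494) (node 461 (merge (leaf 6 429 430) (node 492 (merge (leaf 7 460 460)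 (node 464 (merge (leaf 1 460 463) (leaf 5 463 496))))))))))))) (node 625 (merge (leaf 4 528 657) (node 589 (merge (leaf 0 589 590) (node 462 (merge (leaf 6 461 494) (node 461 (merge (leaf 6 429 430) (node 556 (merge (leaf 5 460 588) (node 429 (merge (leaf 5 428 524) (node 428 (merge (leaf 7 396 396) (node 464 (merge (leaf 3 428 463) (leaf 5 463 496))))))))))))))))))))))))))))))))))))) (node 656 (merge (node 657 (merge (leaf 4 528 625) (leaf 4 560 689))) (merge (node 689 (merge (leaf 4 560 657) (node 688 (merge (leaf 4 592 721) (node 687 (merge (leaf 5 559 655) (leaf 5 591 719))))))) (merge (node 589 (merge (node 625 (merge (leaf 4 528 657) (node 591 (merge (leaf 0 589 590) (node 688 (merge (leaf 7 559 559) (node 687 (merge (leaf 5 559 655) (leaf 5 591 719))))))))) (merge (node 655 (merge (leaf 5 559 687) (node 654 (merge (node 625 (merge (leaf 2 621 653) (leaf 4 528 657))) (merge (node 653 (merge (leaf 2 621 625) (node 684 (merge (leaf 1 652 685) (node 652 (merge (leaf 1 651 683) (node 620 (merge (leaf 3 619 619) (leaf 3 620 621))))))))) (merge (node 590 (merge (node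 591 (merge (leaf 2 557 561) (leaf 0 589 625))) (merge (node 657 (merge (leaf 4 528 625) (node 686 (merge (leaf 1 653 685) (node 622 (merge (leaf 7 557 557) (leaf 3 621 621))))))) (node 591 (merge (leaf 2 557 561) (node 620 (merge (leaf 1 588 621) (node 588 (merge (leaf 1 587 619) (node 556 (merge (leaf 3 555 555) (leaf 3 556 557)))))))))))) (node 621 (merge (node 620 (merge (leaf 3 620 653) (node 622 (merge (leaf 0 619 619) (leaf 3 621 657))))) (merge (node 622 (merge (leaf 3 621 657) (node 686 (merge (leaf 7 589 718) (node 557 (merge (leaf 4 525 525) (leaf 7 557 590))))))) (node 653 (merge (leaf 3 620 620) (node 685 (merge (leaf 1 652 684) (node 556 (merge (leaf 7 556 588) (node 557 (merge (leaf 7 524 524) (leaf 4 557 686)))))))))))))))))) (merge (node 687 (merge (leaf 5 559 655) (node 688 (merge (leaf 5 591 719) (node 591 (merge (leaf 7 559 559) (node 590 (merge (leaf 2 557 561) (node 620 (merge (leaf 1 588 621) (node 588 (merge (leaf 1 587 619) (node 556 (merge (leaf 3 555 555) (leaf 3 556 557))))))))))))))) (merge (hyp 0) (merge (hyp 1) (merge (hyp 2) (node 653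 (merge (node 625 (merge (leaf 4 528 657) (node 655 (merge (leaf 2 621 654) (leaf 5 559 687))))) (merge (node 655 (merge (leaf 5 559 687) (node 654 (merge (leaf 2 621 625) (node 685 (merge (leaf 1 652 684) (node 621 (merge (leaf 3 620 620) (node 558 (merge (leaf 6 557 590) (node 557 (merge (leaf 6 525 526) (leaf 4 557 686))))))))))))) (merge (node 685 (merge (node 687 (merge (leaf 5 559 655) (node 688 (merge (leaf 5 591 719) (node 686 (merge (leaf 3 652 652) (leaf 2 653 657))))))) (merge (node 621 (merge (node 590 (merge (leaf 6 557 558) (node 717 (merge (leaf 6 589 622) (node 716 (merge (leaf 5 588 684) (leaf 5 620 748))))))) (merge (node 588 (merge (leaf 7 556 556) (node 717 (merge (leaf 7 588 620) (node 718 (merge (leaf 4 589 686) (leaf 4 621 750))))))) (node 557 (merge (node 558 (merge (leaf 6 525 526) (node 685 (merge (leaf 6 557 590) (node 684 (merge (leaf 5 556 652) (leaf 5 588 716))))))) (merge (node 558 (merge (leaf 6 525 526) (node 685 (merge (leaf 6 557 590) (node 588 (merge (leaf 7 556 556) (leaf 1 556 559))))))) (merge (node 556 (merge (leaf 7 524 524)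 (node 685 (merge (leaf 7 556 588) (node 684 (merge (leaf 5 556 652) (leaf 5 588 716))))))) (node 558 (merge (leaf 6 525 526) (node 559 (merge (leaf 1 556 588) (node 590 (merge (leaf 1 557 561) (node 652 (merge (leaf 5 556 684) (node 525 (merge (leaf 5 524 620) (node 493 (merge (leaf 4 461 461) (leaf 4 493 622)))))))))))))))))))) (merge (node 687 (merge (leaf 5 559 655) (node 688 (merge (leaf 5 591 719) (node 686 (merge (leaf 2 653 657) (node 717 (merge (leaf 1 684 716) (node 621 (merge (leaf 4 589 718) (node 588 (merge (leaf 7 556 556) (leaf 7 588 620))))))))))))) (node 621 (merge (node 590 (merge (leaf 6 557 558) (node 717 (merge (leaf 6 589 622) (node 716 (merge (leaf 5 588 684) (leaf 5 620 748))))))) (merge (node 588 (merge (leaf 7 556 556) (node 717 (merge (leaf 7 588 620) (node 716 (merge (leaf 5 588 684) (leaf 5 620 748))))))) (merge (node 590 (merge (leaf 6 557 558) (node 717 (merge (leaf 6 589 622) (node 620 (merge (leaf 7 588 588) (node 749 (merge (leaf 7 620 652) (node 748 (merge (leaf 5 620 716) (leaf 5 652 780))))))))))) (merge (node 557 (merge (node 558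 (merge (leaf 6 525 526) (node 685 (merge (leaf 6 557 590) (node 684 (merge (leaf 5 556 652) (leaf 5 588 716))))))) (merge (node 558 (merge (leaf 6 525 526) (node 685 (merge (leaf 6 557 590) (node 588 (merge (leaf 7 556 556) (leaf 1 556 559))))))) (merge (node 556 (merge (leaf 7 524 524) (node 685 (merge (leaf 7 556 588) (node 684 (merge (leaf 5 556 652) (leaf 5 588 716))))))) (node 558 (merge (leaf 6 525 526) (node 559 (merge (leaf 1 556 588) (node 590 (merge (leaf 1 557 561) (node 652 (merge (leaf 5 556 684) (node 525 (merge (leaf 5 524 620) (node 493 (merge (leaf 4 461 461) (leaf 4 493 622))))))))))))))))) (node 590 (merge (leaf 6 557 558) (node 717 (merge (leaf 6 589 622) (node 588 (merge (leaf 7 556 556) (leaf 7 588 620)))))))))))))))) (merge (node 621 (merge (node 625 (merge (leaf 4 528 657) (node 654 (merge (leaf 2 621 655) (node 557 (merge (leaf 4 557 686) (node 556 (merge (leaf 7 524 524) (node 685 (merge (leaf 7 556 588) (node 684 (merge (leaf 5 556 652) (leaf 5 588 716))))))))))))) (merge (node 625 (merge (leaf 4 528 657) (node 654 (merge (leaf 2 621 655)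 (node 557 (merge (leaf 4 557 686) (node 558 (merge (leaf 6 525 526) (node 685 (merge (leaf 6 557 590) (node 684 (merge (leaf 5 556 652) (leaf 5 588 716))))))))))))) (merge (node 557 (merge (node 558 (merge (leaf 6 525 526) (node 685 (merge (leaf 6 557 590) (node 684 (merge (leaf 5 556 652) (leaf 5 588 716))))))) (merge (node 558 (merge (leaf 6 525 526) (node 685 (merge (leaf 6 557 590) (node 588 (merge (leaf 7 556 556) (leaf 1 556 559))))))) (merge (node 556 (merge (leaf 7 524 524) (node 685 (merge (leaf 7 556 588) (node 684 (merge (leaf 5 556 652) (leaf 5 588 716))))))) (node 558 (merge (leaf 6 525 526) (node 559 (merge (leaf 1 556 588) (node 590 (merge (leaf 1 557 561) (node 652 (merge (leaf 5 556 684) (node 525 (merge (leaf 5 524 620) (node 493 (merge (leaf 4 461 461) (leaf 4 493 622))))))))))))))))) (merge (node 625 (merge (leaf 4 528 657) (node 654 (merge (leaf 2 621 655) (node 557 (merge (leaf 4 557 686) (node 525 (merge (leaf 4 525 622) (node 652 (merge (leaf 5 524 620) (leaf 5 556 684))))))))))) (merge (node 558 (merge (node 590 (merge (leaf 6 557 685) (node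 526 (merge (leaf 5 493 494) (leaf 5 525 622))))) (merge (node 685 (merge (leaf 6 557 590) (node 588 (merge (leaf 7 556 556) (node 717 (merge (leaf 7 588 620) (node 718 (merge (leaf 4 589 686) (leaf 4 621 750))))))))) (node 557 (merge (leaf 6 525 526) (node 559 (merge (leaf 1 556 588) (node 524 (merge (leaf 3 524 525) (leaf 7 524 556)))))))))) (node 685 (merge (node 590 (merge (leaf 6 557 558) (node 717 (merge (leaf 6 589 622) (node 716 (merge (leaf 5 588 684) (leaf 5 620 748))))))) (merge (node 588 (merge (leaf 7 556 556) (node 717 (merge (leaf 7 588 620) (node 718 (merge (leaf 4 589 686) (leaf 4 621 750))))))) (node 588 (merge (leaf 7 556 556) (node 686 (merge (leaf 4 589 718) (node 684 (merge (leaf 5 588 716) (node 654 (merge (leaf 1 652 655) (node 683 (merge (leaf 2 650 682) (node 715 (merge (leaf 1 682 714) (node 651 (merge (leaf 3 650 650) (node 620 (merge (leaf 6 587 619) (leaf 5 587 652)))))))))))))))))))))))))) (hyp 3))))))))))))) (hyp 4))))))))) nP_158 cP_158 17 (by decide +kernel)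

end Crest.Agent.H26Snaky
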