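import Crest.Agent.H26SnakyTree

/-! certificate data for S0047, part P 12 (computer generated) -/

set_option autoImplicit false
set_option maxRecDepth 100000

namespace Crest.Agent.H26Snaky

open T

def nP_159 : ℕ := 0x100000001800000090000000100000001000000000000000000000000000000000000000000000000000000000000000000000000000000000000000000000000000000000000000000000000000000000000
def cP_159 : ℕ := 0x180000001d0000007c0000007c000000760000007e8000007c0000007f8000001f8000001e800000000000000000000000000000000000000000000000000000000000000000000000000000000000000000000000000000000000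
theorem lP_159 : S nP_159 cP_159 12 := S_of_chk [] trivial (node 563 (merge (node 593 (merge (leaf 1 591 594) (node 561 (merge (leaf 6 560 688) (node 562 (merge (leaf 1 560 564) (leaf 0 560 596))))))) (merge (node 593 (merge (leaf 1 591 594) (node 561 (merge (leaf 6 560 688) (node 562 (merge (leaf 1 560 564) (node 531 (merge (leaf 2 528 532) (node 530 (merge (leaf 2 527 559) (node 627 (merge (leaf 7 498 498) (leaf 7 530 659))))))))))))) (merge (node 593 (merge (leaf 1 591 594) (node 561 (merge (leaf 6 560 688) (node 562 (merge (leaf 0 560 596) (node 531 (merge (leaf 2 528 532) (node 530 (merge (leaf 2 527 559) (node 627 (merge (leaf 7 498 498) (leaf 7 530 659))))))))))))) (merge (node 531 (merge (node 594 (merge (leaf 1 591 593) (node 499 (merge (leaf 5 498 626) (node 498 (merge (leaf 7 466 466) (node 627 (merge (leaf 7 498 530) (node 628 (merge (leaf 4 499 596) (leaf 4 531 660))))))))))) (merge (node 594 (merge (leaf 1 591 593) (node 499 (merge (leaf 5 498 626) (node 500 (merge (leaf 6 467 468) (node 627 (merge (leaf 6 499 532) (node 628 (merge (leaf 4 499 596) (leaf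 4 531 660))))))))))) (merge (node 594 (merge (leaf 1 591 593) (node 626 (merge (leaf 5 498 499) (node 658 (merge (leaf 6 530 562) (leaf 5 530 627))))))) (merge (node 499 (merge (node 500 (merge (leaf 6 467 468) (node 627 (merge (leaf 6 499 532) (node 628 (merge (leaf 4 499 596) (leaf 4 531 660))))))) (merge (node 498 (merge (leaf 7 466 466) (node 627 (merge (leaf 7 498 530) (node 628 (merge (leaf 4 499 596) (leaf 4 531 660))))))) (merge (node 498 (merge (leaf 7 466 466) (node 627 (merge (leaf 7 498 530) (node 532 (merge (leaf 6 499 500) (node 659 (merge (leaf 6 531 564) (node 658 (merge (leaf 5 530 626) (leaf 5 562 690))))))))))) (node 468 (merge (leaf 6 467 500) (node 467 (merge (leaf 6 435 436) (node 466 (merge (leaf 7 434 434) (leaf 7 466 498))))))))))) (merge (node 594 (merge (leaf 1 591 593) (node 499 (merge (leaf 5 498 626) (node 468 (merge (leaf 6 467 500) (node 467 (merge (leaf 6 435 436) (node 466 (merge (leaf 7 434 434) (leaf 7 466 498))))))))))) (merge (node 627 (merge (node 532 (merge (leaf 6 499 500) (node 659 (merge (leaf 6 531 564) (node 660 (merge (leaf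 4 531 628) (leaf 4 563 692))))))) (merge (node 530 (merge (leaf 7 498 498) (node 659 (merge (leaf 7 530 562) (node 564 (merge (leaf 6 531 532) (node 691 (merge (leaf 6 563 596) (node 692 (merge (leaf 4 563 660) (leaf 4 595 724))))))))))) (merge (node 500 (merge (leaf 6 499 532) (node 499 (merge (leaf 6 467 468) (node 628 (merge (leaf 4 499 596) (leaf 4 531 660))))))) (merge (node 498 (merge (leaf 7 498 530) (node 499 (merge (leaf 7 466 466) (node 628 (merge (leaf 4 499 596) (leaf 4 531 660))))))) (node 500 (merge (leaf 6 499 532) (node 499 (merge (leaf 6 467 468) (node 498 (merge (leaf 7 466 466) (leaf 7 498 530)))))))))))) (node 627 (merge (node 530 (merge (leaf 7 498 498) (node 659 (merge (leaf 7 530 562) (node 658 (merge (leaf 5 530 626) (leaf 5 562 690))))))) (merge (node 532 (merge (leaf 6 499 500) (node 659 (merge (leaf 6 531 564) (node 658 (merge (leaf 5 530 626) (leaf 5 562 690))))))) (merge (node 532 (merge (leaf 6 499 500) (node 659 (merge (leaf 6 531 564) (node 660 (merge (leaf 4 531 628) (leaf 4 563 692))))))) (node 532 (merge (leaf 6 499 500) (node 594 (merge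 (leaf 1 591 593) (node 628 (merge (leaf 4 531 660) (node 629 (merge (leaf 3 594 630) (node 626 (merge (leaf 5 530 658) (node 661 (merge (leaf 0 626 662) (node 564 (merge (leaf 4 532 596) (node 565 (merge (leaf 1 562 566) (leaf 7 532 597)))))))))))))))))))))))))))) (merge (node 531 (merge (node 594 (merge (leaf 1 591 593) (node 499 (merge (leaf 5 498 626) (node 498 (merge (leaf 7 466 466) (node 627 (merge (leaf 7 498 530) (node 628 (merge (leaf 4 499 596) (leaf 4 531 660))))))))))) (merge (node 594 (merge (leaf 1 591 593) (node 499 (merge (leaf 5 498 626) (node 500 (merge (leaf 6 467 468) (node 627 (merge (leaf 6 499 532) (node 628 (merge (leaf 4 499 596) (leaf 4 531 660))))))))))) (merge (node 593 (merge (leaf 1 591 594) (node 561 (merge (leaf 6 560 688) (node 496 (merge (leaf 4 464 464) (node 497 (merge (leaf 6 464 465) (node 495 (merge (leaf 7 463 463) (node 498 (merge (leaf 0 495 530) (node 499 (merge (leaf 7 466 466) (leaf 0 496 532))))))))))))))) (merge (node 499 (merge (node 500 (merge (leaf 6 467 468) (node 627 (merge (leaf 6 499 532) (node 628 (merge (leaf 4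 499 596) (leaf 4 531 660))))))) (merge (node 498 (merge (leaf 7 466 466) (node 627 (merge (leaf 7 498 530) (node 628 (merge (leaf 4 499 596) (leaf 4 531 660))))))) (merge (node 498 (merge (leaf 7 466 466) (node 627 (merge (leaf 7 498 530) (node 532 (merge (leaf 6 499 500) (node 659 (merge (leaf 6 531 564) (node 658 (merge (leaf 5 530 626) (leaf 5 562 690))))))))))) (node 468 (merge (leaf 6 467 500) (node 467 (merge (leaf 6 435 436) (node 466 (merge (leaf 7 434 434) (leaf 7 466 498))))))))))) (node 627 (merge (node 532 (merge (leaf 6 499 500) (node 659 (merge (leaf 6 531 564) (node 660 (merge (leaf 4 531 628) (leaf 4 563 692))))))) (merge (node 532 (merge (leaf 6 499 500) (node 659 (merge (leaf 6 531 564) (node 658 (merge (leaf 5 530 626) (leaf 5 562 690))))))) (merge (node 660 (merge (leaf 4 531 628) (node 659 (merge (leaf 4 563 692) (node 658 (merge (leaf 5 530 626) (leaf 5 562 690))))))) (node 532 (merge (leaf 6 499 500) (node 594 (merge (leaf 1 591 593) (node 628 (merge (leaf 4 531 660) (node 629 (merge (leaf 3 594 630) (node 626 (merge (leaf 5 530 658) (node 661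 (merge (leaf 0 626 662) (node 564 (merge (leaf 4 532 596) (node 565 (merge (leaf 1 562 566) (leaf 7 532 597)))))))))))))))))))))))))) (merge (node 531 (merge (node 496 (merge (node 465 (merge (leaf 6 464 497) (node 464 (merge (leaf 6 432 433) (node 463 (merge (leaf 7 431 431) (leaf 7 463 495))))))) (merge (node 463 (merge (leaf 7 463 495) (node 464 (merge (leaf 7 431 431) (node 561 (merge (leaf 4 464 593) (node 562 (merge (leaf 2 528 532) (leaf 0 560 596))))))))) (merge (node 465 (merge (leaf 6 464 497) (node 464 (merge (leaf 6 432 433) (node 561 (merge (leaf 4 464 593) (node 562 (merge (leaf 2 528 532) (leaf 0 560 596))))))))) (node 497 (merge (leaf 6 464 465) (node 495 (merge (leaf 7 463 463) (node 498 (merge (leaf 0 495 530) (node 499 (merge (leaf 7 466 466) (leaf 0 496 532))))))))))))) (merge (node 532 (merge (node 627 (merge (leaf 6 499 500) (node 659 (merge (leaf 6 531 564) (node 658 (merge (leaf 5 530 626) (leaf 5 562 690))))))) (node 561 (merge (leaf 2 528 562) (node 593 (merge (leaf 6 560 688) (node 496 (merge (leaf 4 464 464) (node 497 (merge (leaf 6 464 465)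 (node 498 (merge (leaf 0 496 499) (node 495 (merge (leaf 7 463 463) (leaf 0 495 530))))))))))))))) (merge (node 499 (merge (node 500 (merge (leaf 6 467 468) (node 627 (merge (leaf 6 499 532) (node 628 (merge (leaf 4 499 596) (leaf 4 531 660))))))) (merge (node 498 (merge (leaf 7 466 466) (node 627 (merge (leaf 7 498 530) (node 628 (merge (leaf 4 499 596) (leaf 4 531 660))))))) (merge (node 498 (merge (leaf 7 466 466) (node 627 (merge (leaf 7 498 530) (node 532 (merge (leaf 6 499 500) (node 659 (merge (leaf 6 531 564) (node 658 (merge (leaf 5 530 626) (leaf 5 562 690))))))))))) (node 468 (merge (leaf 6 467 500) (node 467 (merge (leaf 6 435 436) (node 466 (merge (leaf 7 434 434) (leaf 7 466 498))))))))))) (merge (node 500 (merge (node 627 (merge (leaf 6 499 532) (node 660 (merge (leaf 4 531 628) (node 659 (merge (leaf 4 563 692) (node 658 (merge (leaf 5 530 626) (leaf 5 562 690))))))))) (merge (node 499 (merge (leaf 6 467 468) (node 596 (merge (leaf 4 499 628) (node 561 (merge (leaf 0 560 562) (node 593 (merge (leaf 6 560 688) (node 464 (merge (leaf 4 464 496) (node 467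 (merge (leaf 4 467 564) (node 466 (merge (leaf 7 434 434) (leaf 0 464 465))))))))))))))) (node 468 (merge (leaf 6 467 499) (node 532 (merge (leaf 5 467 564) (leaf 6 499 627)))))))) (merge (node 500 (merge (node 499 (merge (leaf 6 467 468) (node 627 (merge (leaf 6 499 532) (node 628 (merge (leaf 4 499 596) (leaf 4 531 660))))))) (merge (node 627 (merge (leaf 6 499 532) (node 660 (merge (leaf 4 531 628) (node 659 (merge (leaf 4 563 692) (node 658 (merge (leaf 5 530 626) (leaf 5 562 690))))))))) (merge (node 627 (merge (leaf 6 499 532) (node 658 (merge (leaf 5 530 626) (node 659 (merge (leaf 5 562 690) (node 562 (merge (leaf 7 530 530) (node 561 (merge (leaf 0 560 596) (node 593 (merge (leaf 1 560 564) (leaf 6 560 688))))))))))))) (node 499 (merge (leaf 6 467 468) (node 596 (merge (leaf 4 499 628) (node 561 (merge (leaf 0 560 562) (node 593 (merge (leaf 6 560 688) (node 464 (merge (leaf 4 464 496) (node 467 (merge (leaf 4 467 564) (node 466 (merge (leaf 7 434 434) (leaf 0 464 465))))))))))))))))))) (merge (node 627 (merge (node 530 (merge (leaf 7 498 498) (node 659 (merge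 (leaf 7 530 562) (node 660 (merge (leaf 4 531 628) (leaf 4 563 692))))))) (merge (node 530 (merge (leaf 7 498 498) (node 659 (merge (leaf 7 530 562) (node 658 (merge (leaf 5 530 626) (leaf 5 562 690))))))) (merge (node 628 (merge (leaf 4 531 660) (node 499 (merge (leaf 4 499 596) (node 468 (merge (leaf 6 467 500) (node 467 (merge (leaf 6 435 436) (node 466 (merge (leaf 7 434 434) (leaf 7 466 498))))))))))) (node 628 (merge (leaf 4 531 660) (node 596 (merge (leaf 4 499 499) (node 562 (merge (leaf 0 560 561) (node 659 (merge (leaf 7 530 530) (node 691 (merge (leaf 6 563 564) (leaf 6 595 723))))))))))))))) (node 627 (merge (node 530 (merge (leaf 7 498 498) (node 659 (merge (leaf 7 530 562) (node 660 (merge (leaf 4 531 628) (leaf 4 563 692))))))) (merge (node 532 (merge (leaf 6 499 500) (node 659 (merge (leaf 6 531 564) (node 658 (merge (leaf 5 530 626) (leaf 5 562 690))))))) (node 532 (merge (leaf 6 499 500) (node 530 (merge (leaf 7 498 498) (node 562 (merge (leaf 2 528 561) (node 533 (merge (leaf 1 530 534) (node 565 (merge (leaf 0 530 566) (node 501 (merge (leaf 2 498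 502) (node 628 (merge (leaf 4 531 660) (node 596 (merge (leaf 6 500 564) (leaf 5 500 597))))))))))))))))))))))))))) (node 531 (merge (node 499 (merge (node 498 (merge (leaf 7 466 466) (node 627 (merge (leaf 7 498 530) (node 626 (merge (leaf 5 498 594) (leaf 5 530 658))))))) (merge (node 498 (merge (leaf 7 466 466) (node 627 (merge (leaf 7 498 530) (node 628 (merge (leaf 4 499 596) (leaf 4 531 660))))))) (node 596 (merge (leaf 4 499 628) (node 467 (merge (leaf 4 467 564) (node 594 (merge (leaf 5 466 562) (leaf 5 498 626)))))))))) (merge (node 628 (merge (node 596 (merge (leaf 4 499 499) (node 660 (merge (leaf 7 531 564) (leaf 7 563 692))))) (merge (node 627 (merge (leaf 4 531 660) (node 532 (merge (leaf 6 499 500) (node 659 (merge (leaf 6 531 564) (node 562 (merge (leaf 7 530 530) (leaf 2 528 561))))))))) (node 499 (merge (leaf 4 499 596) (node 468 (merge (leaf 6 467 500) (node 467 (merge (leaf 6 435 436) (node 466 (merge (leaf 7 434 434) (leaf 7 466 498)))))))))))) (merge (node 499 (merge (node 498 (merge (leaf 7 466 466) (node 627 (merge (leaf 7 498 530) (node 626 (merge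 (leaf 5 498 594) (leaf 5 530 658))))))) (merge (node 500 (merge (leaf 6 467 468) (node 627 (merge (leaf 6 499 532) (node 626 (merge (leaf 5 498 594) (leaf 5 530 658))))))) (merge (node 498 (merge (leaf 7 466 466) (node 627 (merge (leaf 7 498 530) (node 532 (merge (leaf 6 499 500) (node 659 (merge (leaf 6 531 564) (node 660 (merge (leaf 4 531 628) (leaf 4 563 692))))))))))) (node 594 (merge (leaf 5 498 626) (node 562 (merge (leaf 5 466 467) (node 561 (merge (leaf 2 528 532) (leaf 0 559 559))))))))))) (merge (node 499 (merge (node 498 (merge (leaf 7 466 466) (node 627 (merge (leaf 7 498 530) (node 626 (merge (leaf 5 498 594) (leaf 5 530 658))))))) (merge (node 500 (merge (leaf 6 467 468) (node 627 (merge (leaf 6 499 532) (node 628 (merge (leaf 4 499 596) (leaf 4 531 660))))))) (node 594 (merge (leaf 5 498 626) (node 562 (merge (leaf 5 466 467) (node 561 (merge (leaf 0 559 559) (leaf 0 560 596)))))))))) (merge (node 627 (merge (node 532 (merge (leaf 6 499 500) (node 659 (merge (leaf 6 531 564) (node 660 (merge (leaf 4 531 628) (leaf 4 563 692))))))) (merge (node 532 (merge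 (leaf 6 499 500) (node 659 (merge (leaf 6 531 564) (node 658 (merge (leaf 5 530 626) (leaf 5 562 690))))))) (merge (node 628 (merge (leaf 4 531 660) (node 499 (merge (leaf 4 499 596) (node 626 (merge (leaf 5 498 594) (leaf 5 530 658))))))) (node 626 (merge (leaf 5 530 658) (node 499 (merge (leaf 5 498 594) (node 596 (merge (leaf 4 499 628) (node 562 (merge (leaf 0 560 561) (node 530 (merge (leaf 7 530 659) (node 467 (merge (leaf 5 434 435) (leaf 4 467 564))))))))))))))))) (merge (node 627 (merge (node 532 (merge (leaf 6 499 500) (node 659 (merge (leaf 6 531 564) (node 660 (merge (leaf 4 531 628) (leaf 4 563 692))))))) (merge (node 532 (merge (leaf 6 499 500) (node 659 (merge (leaf 6 531 564) (node 658 (merge (leaf 5 530 626) (leaf 5 562 690))))))) (merge (node 628 (merge (leaf 4 531 660) (node 499 (merge (leaf 4 499 596) (node 626 (merge (leaf 5 498 594) (leaf 5 530 658))))))) (node 498 (merge (leaf 7 498 530) (node 499 (merge (leaf 7 466 466) (node 626 (merge (leaf 5 498 594) (leaf 5 530 658))))))))))) (merge (node 499 (merge (node 498 (merge (leaf 7 466 466) (node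 627 (merge (leaf 7 498 530) (node 626 (merge (leaf 5 498 594) (leaf 5 530 658))))))) (merge (node 500 (merge (leaf 6 467 468) (node 627 (merge (leaf 6 499 532) (node 626 (merge (leaf 5 498 594) (leaf 5 530 658))))))) (node 468 (merge (leaf 6 467 500) (node 467 (merge (leaf 6 435 436) (node 466 (merge (leaf 7 434 434) (leaf 7 466 498)))))))))) (merge (node 499 (merge (node 500 (merge (leaf 6 467 468) (node 627 (merge (leaf 6 499 532) (node 626 (merge (leaf 5 498 594) (leaf 5 530 658))))))) (merge (node 500 (merge (leaf 6 467 468) (node 627 (merge (leaf 6 499 532) (node 628 (merge (leaf 4 499 596) (leaf 4 531 660))))))) (merge (node 596 (merge (leaf 4 499 628) (node 467 (merge (leaf 4 467 564) (node 594 (merge (leaf 5 466 562) (leaf 5 498 626))))))) (node 466 (merge (leaf 7 466 498) (node 467 (merge (leaf 7 434 434) (node 594 (merge (leaf 5 466 562) (leaf 5 498 626))))))))))) (merge (node 562 (merge (node 561 (merge (leaf 2 528 532) (leaf 0 560 596))) (merge (node 561 (merge (leaf 2 528 532) (node 559 (merge (leaf 2 527 530) (leaf 0 559 594))))) (merge (node 561 (merge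 (leaf 0 560 596) (node 559 (merge (leaf 2 527 530) (leaf 0 559 594))))) (node 499 (merge (node 594 (merge (leaf 5 466 467) (leaf 5 498 626))) (merge (node 596 (merge (leaf 4 499 628) (node 467 (merge (leaf 4 467 564) (node 594 (merge (leaf 5 466 562) (leaf 5 498 626))))))) (merge (node 466 (merge (leaf 7 466 498) (node 467 (merge (leaf 7 434 434) (node 596 (merge (leaf 4 467 564) (leaf 4 499 628))))))) (node 500 (merge (leaf 6 467 468) (node 596 (merge (leaf 4 499 628) (node 597 (merge (leaf 3 562 598) (node 594 (merge (leaf 5 498 626) (node 629 (merge (leaf 0 594 630) (node 565 (merge (leaf 2 562 566) (node 532 (merge (leaf 7 500 533) (leaf 4 500 564))))))))))))))))))))))) (merge (node 627 (merge (node 530 (merge (leaf 7 498 498) (node 659 (merge (leaf 7 530 562) (node 660 (merge (leaf 4 531 628) (leaf 4 563 692))))))) (merge (node 532 (merge (leaf 6 499 500) (node 659 (merge (leaf 6 531 564) (node 658 (merge (leaf 5 530 626) (leaf 5 562 690))))))) (node 532 (merge (leaf 6 499 500) (node 530 (merge (leaf 7 498 498) (node 562 (merge (leaf 2 528 561) (node 533 (merge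 (leaf 1 530 534) (node 565 (merge (leaf 0 530 566) (node 501 (merge (leaf 2 498 502) (node 628 (merge (leaf 4 531 660) (node 596 (merge (leaf 6 500 564) (leaf 5 500 597)))))))))))))))))))) (node 498 (merge (node 499 (merge (leaf 7 466 466) (node 627 (merge (leaf 7 498 530) (node 626 (merge (leaf 5 498 594) (leaf 5 530 658))))))) (merge (node 499 (merge (leaf 7 466 466) (node 627 (merge (leaf 7 498 530) (node 628 (merge (leaf 4 499 596) (leaf 4 531 660))))))) (merge (node 627 (merge (leaf 7 498 530) (node 660 (merge (leaf 4 531 628) (node 659 (merge (leaf 4 563 692) (node 658 (merge (leaf 5 530 626) (leaf 5 562 690))))))))) (node 499 (merge (leaf 7 466 466) (node 596 (merge (leaf 4 499 628) (node 467 (merge (leaf 4 467 564) (node 594 (merge (leaf 5 466 562) (leaf 5 498 626))))))))))))))))))))))))))))))) nP_159 cP_159 12 (by decide +kernel)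
def nP_160 : ℕ := 0x100000001000000090000000100000001000000000000000000000000000000000000000000000000000000000000000000000000000000000000000000000000000000000000000000000000000000000000
def cP_160 : ℕ := 0x40000001f0000003f0000001e8000003c800000320000007e8000007c0000007f8000001f8000001f800000008000000000000000000000000000000000000000000000000000000000000000000000000000000000000000000000000000
theorem lP_160 : S nP_160 cP_160 14 := S_of_chk [] trivial (node 563 (merge (node 561 (merge (node 689 (merge (leaf 4 560 657) (node 688 (merge (leaf 6 560 593) (leaf 4 592 721))))) (merge (node 562 (merge (leaf 0 560 596) (node 564 (merge (leaf 1 560 593) (node 532 (merge (leaf 2 528 531) (leaf 2 529 533))))))) (node 562 (merge (leaf 0 560 596) (node 532 (merge (leaf 2 528 531) (node 564 (merge (leaf 2 529 533) (node 659 (merge (leaf 6 531 627) (node 657 (merge (leaf 4 560 689) (node 623 (merge (leaf 5 527 655) (leaf 3 623 658)))))))))))))))) (merge (node 623 (merge (leaf 5 527 655) (node 659 (merge (node 657 (merge (leaf 3 623 658) (leaf 4 560 689))) (merge (node 627 (merge (node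 564 (merge (leaf 6 531 532) (node 691 (merge (leaf 6 563 596) (node 692 (merge (leaf 4 563 660) (leaf 4 595 724))))))) (merge (node 564 (merge (leaf 6 531 532) (node 691 (merge (leaf 6 563 596) (node 690 (merge (leaf 5 562 658) (leaf 5 594 722))))))) (merge (node 660 (merge (leaf 4 563 692) (node 531 (merge (leaf 4 531 628) (node 658 (merge (leaf 5 530 626) (leaf 5 562 690))))))) (node 658 (merge (leaf 5 562 690) (node 531 (merge (leaf 5 530 626) (node 628 (merge (leaf 4 531 660) (node 499 (merge (leaf 4 499 596) (node 468 (merge (leaf 6 467 500) (node 467 (merge (leaf 6 435 436) (node 466 (merge (leaf 7 434 434) (leaf 7 466 498))))))))))))))))))) (node 627 (merge (node 692 (merge (leaf 4 563 660) (node 691 (merge (leaf 4 595 724) (node 596 (merge (leaf 6 563 564) (node 723 (merge (leaf 6 595 628) (node 722 (merge (leaf 5 594 690) (leaf 5 626 754))))))))))) (merge (node 564 (merge (leaf 6 531 532) (node 691 (merge (leaf 6 563 596) (node 689 (merge (leaf 4 560 657) (node 688 (merge (leaf 4 592 721) (node 690 (merge (leaf 2 656 660) (leaf 5 594 722))))))))))) (merge (node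 564 (merge (leaf 6 531 532) (node 691 (merge (leaf 6 563 596) (node 689 (merge (leaf 4 560 657) (node 721 (merge (leaf 4 592 688) (node 692 (merge (leaf 4 595 724) (node 690 (merge (leaf 1 688 720) (leaf 5 594 722))))))))))))) (node 660 (merge (leaf 4 563 692) (node 531 (merge (leaf 4 531 628) (node 500 (merge (leaf 6 499 532) (node 499 (merge (leaf 6 467 468) (node 498 (merge (leaf 7 466 466) (leaf 7 498 530)))))))))))))))))))) (merge (node 659 (merge (node 657 (merge (leaf 4 560 689) (node 623 (merge (leaf 5 527 655) (leaf 3 623 658))))) (merge (node 627 (merge (node 564 (merge (leaf 6 531 532) (node 691 (merge (leaf 6 563 596) (node 692 (merge (leaf 4 563 660) (leaf 4 595 724))))))) (merge (node 564 (merge (leaf 6 531 532) (node 562 (merge (leaf 7 530 530) (node 561 (merge (leaf 1 560 593) (leaf 0 560 596))))))) (merge (node 692 (merge (leaf 4 563 660) (node 691 (merge (leaf 4 595 724) (node 690 (merge (leaf 5 562 658) (leaf 5 594 722))))))) (node 692 (merge (leaf 4 563 660) (node 691 (merge (leaf 4 595 724) (node 690 (merge (leaf 5 562 658) (leaf 5 594 722)))))))))))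 (node 689 (merge (leaf 4 560 657) (node 688 (merge (leaf 4 592 721) (node 561 (merge (leaf 6 560 593) (node 562 (merge (leaf 0 560 596) (node 627 (merge (leaf 7 530 530) (node 692 (merge (leaf 4 563 660) (node 691 (merge (leaf 4 595 724) (node 690 (merge (leaf 3 655 655) (leaf 5 594 722)))))))))))))))))))) (merge (node 659 (merge (node 657 (merge (leaf 4 560 689) (node 658 (merge (leaf 3 623 623) (node 627 (merge (leaf 2 624 628) (leaf 5 562 690))))))) (merge (node 627 (merge (node 564 (merge (leaf 6 531 532) (node 691 (merge (leaf 6 563 596) (node 692 (merge (leaf 4 563 660) (leaf 4 595 724))))))) (merge (node 564 (merge (leaf 6 531 532) (node 562 (merge (leaf 7 530 530) (node 561 (merge (leaf 1 560 593) (leaf 0 560 596))))))) (merge (node 692 (merge (leaf 4 563 660) (node 691 (merge (leaf 4 595 724) (node 690 (merge (leaf 5 562 658) (leaf 5 594 722))))))) (node 692 (merge (leaf 4 563 660) (node 691 (merge (leaf 4 595 724) (node 690 (merge (leaf 5 562 658) (leaf 5 594 722))))))))))) (merge (node 657 (merge (leaf 4 560 689) (node 658 (merge (leaf 3 623 623) (node 692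 (merge (leaf 0 656 691) (node 660 (merge (leaf 0 657 693) (node 628 (merge (leaf 7 563 596) (leaf 2 625 629))))))))))) (node 627 (merge (node 564 (merge (leaf 6 531 532) (node 562 (merge (leaf 7 530 530) (node 561 (merge (leaf 1 560 593) (leaf 0 560 596))))))) (merge (node 562 (merge (leaf 7 530 530) (node 660 (merge (leaf 4 563 692) (node 531 (merge (leaf 4 531 628) (node 532 (merge (leaf 6 499 500) (leaf 2 528 561))))))))) (node 692 (merge (leaf 4 563 660) (node 691 (merge (leaf 4 595 724) (node 596 (merge (leaf 6 563 564) (node 723 (merge (leaf 6 595 628) (node 722 (merge (leaf 5 594 690) (leaf 5 626 754)))))))))))))))))) (merge (node 623 (merge (leaf 5 527 655) (node 531 (merge (node 496 (merge (node 465 (merge (leaf 6 464 497) (node 464 (merge (leaf 6 432 433) (node 463 (merge (leaf 7 431 431) (leaf 7 463 495))))))) (merge (node 463 (merge (leaf 7 463 495) (node 464 (merge (leaf 7 431 431) (node 561 (merge (leaf 4 464 593) (node 562 (merge (leaf 2 528 532) (leaf 0 560 596))))))))) (merge (node 465 (merge (leaf 6 464 497) (node 464 (merge (leaf 6 432 433) (node 561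 (merge (leaf 4 464 593) (node 562 (merge (leaf 2 528 532) (leaf 0 560 596))))))))) (node 497 (merge (leaf 6 464 465) (node 495 (merge (leaf 7 463 463) (node 498 (merge (leaf 0 495 530) (node 499 (merge (leaf 7 466 466) (leaf 0 496 532))))))))))))) (merge (node 532 (merge (node 627 (merge (leaf 6 499 500) (node 659 (merge (leaf 6 531 564) (node 658 (merge (leaf 5 530 626) (leaf 5 562 690))))))) (node 561 (merge (leaf 2 528 562) (node 593 (merge (leaf 6 560 688) (node 496 (merge (leaf 4 464 464) (node 497 (merge (leaf 6 464 465) (node 498 (merge (leaf 0 496 499) (node 495 (merge (leaf 7 463 463) (leaf 0 495 530))))))))))))))) (merge (node 499 (merge (node 500 (merge (leaf 6 467 468) (node 627 (merge (leaf 6 499 532) (node 628 (merge (leaf 4 499 596) (leaf 4 531 660))))))) (merge (node 498 (merge (leaf 7 466 466) (node 627 (merge (leaf 7 498 530) (node 628 (merge (leaf 4 499 596) (leaf 4 531 660))))))) (merge (node 498 (merge (leaf 7 466 466) (node 627 (merge (leaf 7 498 530) (node 532 (merge (leaf 6 499 500) (node 659 (merge (leaf 6 531 564) (node 658 (merge (leaf 5 530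 626) (leaf 5 562 690))))))))))) (node 468 (merge (leaf 6 467 500) (node 467 (merge (leaf 6 435 436) (node 466 (merge (leaf 7 434 434) (leaf 7 466 498))))))))))) (merge (node 500 (merge (node 627 (merge (leaf 6 499 532) (node 660 (merge (leaf 4 531 628) (node 659 (merge (leaf 4 563 692) (node 658 (merge (leaf 5 530 626) (leaf 5 562 690))))))))) (merge (node 499 (merge (leaf 6 467 468) (node 596 (merge (leaf 4 499 628) (node 561 (merge (leaf 0 560 562) (node 593 (merge (leaf 6 560 688) (node 464 (merge (leaf 4 464 496) (node 467 (merge (leaf 4 467 564) (node 466 (merge (leaf 7 434 434) (leaf 0 464 465))))))))))))))) (node 468 (merge (leaf 6 467 499) (node 532 (merge (leaf 5 467 564) (leaf 6 499 627)))))))) (merge (node 500 (merge (node 499 (merge (leaf 6 467 468) (node 627 (merge (leaf 6 499 532) (node 628 (merge (leaf 4 499 596) (leaf 4 531 660))))))) (merge (node 627 (merge (leaf 6 499 532) (node 660 (merge (leaf 4 531 628) (node 659 (merge (leaf 4 563 692) (node 658 (merge (leaf 5 530 626) (leaf 5 562 690))))))))) (merge (node 627 (merge (leaf 6 499 532) (node 658 (merge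 (leaf 5 530 626) (node 659 (merge (leaf 5 562 690) (node 562 (merge (leaf 7 530 530) (node 561 (merge (leaf 0 560 596) (node 593 (merge (leaf 1 560 564) (leaf 6 560 688))))))))))))) (node 499 (merge (leaf 6 467 468) (node 596 (merge (leaf 4 499 628) (node 561 (merge (leaf 0 560 562) (node 593 (merge (leaf 6 560 688) (node 464 (merge (leaf 4 464 496) (node 467 (merge (leaf 4 467 564) (node 466 (merge (leaf 7 434 434) (leaf 0 464 465))))))))))))))))))) (merge (node 627 (merge (node 530 (merge (leaf 7 498 498) (node 659 (merge (leaf 7 530 562) (node 660 (merge (leaf 4 531 628) (leaf 4 563 692))))))) (merge (node 530 (merge (leaf 7 498 498) (node 659 (merge (leaf 7 530 562) (node 658 (merge (leaf 5 530 626) (leaf 5 562 690))))))) (merge (node 628 (merge (leaf 4 531 660) (node 499 (merge (leaf 4 499 596) (node 468 (merge (leaf 6 467 500) (node 467 (merge (leaf 6 435 436) (node 466 (merge (leaf 7 434 434) (leaf 7 466 498))))))))))) (node 628 (merge (leaf 4 531 660) (node 596 (merge (leaf 4 499 499) (node 562 (merge (leaf 0 560 561) (node 659 (merge (leaf 7 530 530) (node 691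 (merge (leaf 6 563 564) (leaf 6 595 723))))))))))))))) (node 627 (merge (node 530 (merge (leaf 7 498 498) (node 659 (merge (leaf 7 530 562) (node 660 (merge (leaf 4 531 628) (leaf 4 563 692))))))) (merge (node 532 (merge (leaf 6 499 500) (node 659 (merge (leaf 6 531 564) (node 658 (merge (leaf 5 530 626) (leaf 5 562 690))))))) (node 532 (merge (leaf 6 499 500) (node 530 (merge (leaf 7 498 498) (node 562 (merge (leaf 2 528 561) (node 533 (merge (leaf 1 530 534) (node 565 (merge (leaf 0 530 566) (node 501 (merge (leaf 2 498 502) (node 628 (merge (leaf 4 531 660) (node 596 (merge (leaf 6 500 564) (leaf 5 500 597))))))))))))))))))))))))))))) (merge (node 623 (merge (leaf 5 527 655) (node 531 (merge (node 689 (merge (leaf 4 560 657) (node 688 (merge (leaf 4 592 721) (node 561 (merge (leaf 6 560 593) (node 562 (merge (leaf 0 560 596) (node 530 (merge (leaf 2 527 559) (node 627 (merge (leaf 7 498 498) (leaf 7 530 659))))))))))))) (merge (node 657 (merge (leaf 4 560 689) (node 658 (merge (leaf 3 623 659) (node 627 (merge (leaf 5 530 626) (node 498 (merge (leaf 7 498 530) (node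 499 (merge (leaf 7 466 466) (node 628 (merge (leaf 4 499 596) (leaf 4 531 660))))))))))))) (merge (node 689 (merge (leaf 4 560 657) (node 688 (merge (leaf 4 592 721) (node 561 (merge (leaf 6 560 593) (node 596 (merge (leaf 0 560 562) (node 499 (merge (leaf 4 499 628) (node 468 (merge (leaf 6 467 500) (node 467 (merge (leaf 6 435 436) (leaf 4 467 564))))))))))))))) (merge (node 627 (merge (node 530 (merge (leaf 7 498 498) (node 659 (merge (leaf 7 530 562) (node 660 (merge (leaf 4 531 628) (leaf 4 563 692))))))) (merge (node 530 (merge (leaf 7 498 498) (node 659 (merge (leaf 7 530 562) (node 658 (merge (leaf 5 530 626) (leaf 5 562 690))))))) (merge (node 628 (merge (leaf 4 531 660) (node 499 (merge (leaf 4 499 596) (node 468 (merge (leaf 6 467 500) (node 467 (merge (leaf 6 435 436) (node 466 (merge (leaf 7 434 434) (leaf 7 466 498))))))))))) (node 628 (merge (leaf 4 531 660) (node 596 (merge (leaf 4 499 499) (node 562 (merge (leaf 0 560 561) (node 659 (merge (leaf 7 530 530) (node 691 (merge (leaf 6 563 564) (leaf 6 595 723))))))))))))))) (node 496 (merge (node 465 (merge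 (leaf 6 464 497) (node 464 (merge (leaf 6 432 433) (node 463 (merge (leaf 7 431 431) (leaf 7 463 495))))))) (merge (node 657 (merge (leaf 4 560 689) (node 498 (merge (node 627 (merge (leaf 7 498 530) (node 658 (merge (leaf 5 530 626) (node 659 (merge (leaf 3 623 623) (leaf 2 624 628))))))) (node 499 (merge (leaf 7 466 466) (node 468 (merge (leaf 6 467 500) (node 467 (merge (leaf 6 435 436) (leaf 2 464 497))))))))))) (node 530 (merge (node 657 (merge (leaf 4 560 689) (node 627 (merge (leaf 7 498 498) (node 658 (merge (leaf 5 530 626) (node 659 (merge (leaf 3 623 623) (leaf 2 624 628))))))))) (merge (node 657 (merge (leaf 4 560 689) (node 659 (merge (leaf 3 623 658) (node 627 (merge (leaf 7 530 562) (node 660 (merge (leaf 4 531 628) (leaf 4 563 692))))))))) (node 463 (merge (leaf 7 463 495) (node 464 (merge (leaf 7 431 431) (node 465 (merge (leaf 6 432 433) (node 561 (merge (leaf 4 464 593) (node 562 (merge (leaf 2 527 559) (node 466 (merge (leaf 4 466 498) (node 435 (merge (leaf 2 431 434) (node 467 (merge (leaf 2 432 436) (leaf 5 434 499))))))))))))))))))))))))))))))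 (merge (node 496 (merge (node 465 (merge (leaf 6 464 497) (node 464 (merge (leaf 6 432 433) (node 463 (merge (leaf 7 431 431) (leaf 7 463 495))))))) (merge (node 495 (merge (leaf 7 463 463) (node 689 (merge (leaf 4 560 657) (node 688 (merge (leaf 4 592 721) (node 561 (merge (leaf 6 560 593) (node 562 (merge (leaf 0 560 596) (node 531 (merge (leaf 2 528 532) (node 530 (merge (leaf 2 527 559) (node 498 (merge (leaf 4 466 466) (leaf 0 495 497))))))))))))))))) (merge (node 497 (merge (leaf 6 464 465) (node 689 (merge (leaf 4 560 657) (node 688 (merge (leaf 4 592 721) (node 561 (merge (leaf 6 560 593) (node 562 (merge (leaf 0 560 596) (node 531 (merge (leaf 2 528 532) (node 530 (merge (leaf 2 527 559) (node 498 (merge (leaf 4 466 466) (leaf 0 495 495))))))))))))))))) (merge (node 657 (merge (leaf 4 560 689) (node 465 (merge (leaf 6 464 497) (node 464 (merge (leaf 6 432 433) (node 463 (merge (leaf 7 431 431) (node 561 (merge (leaf 4 464 593) (node 562 (merge (leaf 0 560 596) (node 531 (merge (leaf 2 528 532) (node 530 (merge (leaf 2 527 559) (node 466 (merge (leaf 4 466 498)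 (node 435 (merge (leaf 2 431 434) (node 467 (merge (leaf 2 432 436) (leaf 5 434 499))))))))))))))))))))))) (node 657 (merge (leaf 4 560 689) (node 463 (merge (leaf 7 463 495) (node 464 (merge (leaf 7 431 431) (node 465 (merge (leaf 6 432 433) (node 561 (merge (leaf 4 464 593) (node 562 (merge (leaf 0 560 596) (node 531 (merge (leaf 2 528 532) (node 530 (merge (leaf 2 527 559) (node 466 (merge (leaf 4 466 498) (node 435 (merge (leaf 2 431 434) (node 467 (merge (leaf 2 432 436) (leaf 5 434 499)))))))))))))))))))))))))))) (node 623 (merge (leaf 5 527 655) (node 531 (merge (node 657 (merge (leaf 4 560 689) (node 658 (merge (leaf 3 623 659) (node 627 (merge (leaf 5 530 626) (node 500 (merge (leaf 6 499 532) (node 499 (merge (leaf 6 467 468) (node 498 (merge (leaf 7 466 466) (leaf 7 498 530))))))))))))) (merge (node 689 (merge (leaf 4 560 657) (node 688 (merge (leaf 4 592 721) (node 561 (merge (leaf 6 560 593) (node 532 (merge (leaf 2 528 562) (node 627 (merge (leaf 6 499 500) (node 659 (merge (leaf 6 531 564) (node 658 (merge (leaf 5 530 626) (leaf 5 562 690)))))))))))))))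 (merge (node 532 (merge (node 627 (merge (leaf 6 499 500) (node 659 (merge (leaf 6 531 564) (node 658 (merge (leaf 5 530 626) (leaf 5 562 690))))))) (node 561 (merge (leaf 2 528 562) (node 593 (merge (leaf 6 560 688) (node 496 (merge (leaf 4 464 464) (node 497 (merge (leaf 6 464 465) (node 498 (merge (leaf 0 496 499) (node 495 (merge (leaf 7 463 463) (leaf 0 495 530))))))))))))))) (merge (node 496 (merge (node 465 (merge (leaf 6 464 497) (node 464 (merge (leaf 6 432 433) (node 463 (merge (leaf 7 431 431) (leaf 7 463 495))))))) (merge (node 657 (merge (leaf 4 560 689) (node 498 (merge (node 627 (merge (leaf 7 498 530) (node 658 (merge (leaf 5 530 626) (node 659 (merge (leaf 3 623 623) (leaf 2 624 628))))))) (node 499 (merge (leaf 7 466 466) (node 468 (merge (leaf 6 467 500) (node 467 (merge (leaf 6 435 436) (leaf 2 464 497))))))))))) (node 530 (merge (node 657 (merge (leaf 4 560 689) (node 627 (merge (leaf 7 498 498) (node 658 (merge (leaf 5 530 626) (node 659 (merge (leaf 3 623 623) (leaf 2 624 628))))))))) (merge (node 657 (merge (leaf 4 560 689) (node 659 (merge (leaf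 3 623 658) (node 627 (merge (leaf 7 530 562) (node 660 (merge (leaf 4 531 628) (leaf 4 563 692))))))))) (node 463 (merge (leaf 7 463 495) (node 464 (merge (leaf 7 431 431) (node 465 (merge (leaf 6 432 433) (node 561 (merge (leaf 4 464 593) (node 562 (merge (leaf 2 527 559) (node 466 (merge (leaf 4 466 498) (node 435 (merge (leaf 2 431 434) (node 467 (merge (leaf 2 432 436) (leaf 5 434 499))))))))))))))))))))))) (node 496 (merge (node 465 (merge (leaf 6 464 497) (node 464 (merge (leaf 6 432 433) (node 463 (merge (leaf 7 431 431) (leaf 7 463 495))))))) (merge (node 465 (merge (leaf 6 464 497) (node 464 (merge (leaf 6 432 433) (node 431 (merge (leaf 7 431 463) (node 432 (merge (leaf 7 399 399) (node 466 (merge (leaf 3 431 467) (node 498 (merge (leaf 7 466 499) (node 530 (merge (leaf 4 434 434) (leaf 4 466 562))))))))))))))) (merge (node 463 (merge (leaf 7 463 495) (node 464 (merge (leaf 7 431 431) (node 465 (merge (leaf 6 432 433) (node 561 (merge (leaf 4 464 593) (node 562 (merge (leaf 2 528 532) (node 530 (merge (leaf 2 527 559) (node 466 (merge (leaf 4 466 498) (node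 435 (merge (leaf 2 431 434) (node 467 (merge (leaf 2 432 436) (leaf 5 434 499))))))))))))))))))) (merge (node 495 (merge (leaf 7 463 463) (node 689 (merge (leaf 4 560 657) (node 688 (merge (leaf 4 592 721) (node 561 (merge (leaf 6 560 593) (node 562 (merge (leaf 2 528 532) (node 530 (merge (leaf 2 527 559) (node 498 (merge (leaf 4 466 466) (leaf 0 495 497))))))))))))))) (node 497 (merge (leaf 6 464 465) (node 689 (merge (leaf 4 560 657) (node 688 (merge (leaf 4 592 721) (node 561 (merge (leaf 6 560 593) (node 562 (merge (leaf 2 528 532) (node 530 (merge (leaf 2 527 559) (node 498 (merge (leaf 4 466 466) (leaf 0 495 495))))))))))))))))))))))))))))))))))) nP_160 cP_160 14 (by decide +kernel)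
def nP_161 : ℕ := 0x800000000000000080000000100000000000000000000000000000000000000000000000000000000000000000000000000000000000000000000000000000000000000000000000000000000000000000000
def cP_161 : ℕ := 0x340000003c000001ff000000f4000001fc000000f4000001fe8000007c0000007c0000001400000000000000000000000000000000000000000000000000000000000000000000000000000000000000000000000000000000000000000000
theorem lP_161 : S nP_161 cP_161 13 := S_of_chk [] trivial (node 627 (merge (node 563 (merge (node 562 (merge (leaf 7 530 530) (node 691 (merge (leaf 7 562 594) (node 692 (merge (leaf 4 563 660) (leaf 4 595 724))))))) (merge (node 532 (merge (leaf 6 531 564) (node 531 (merge (leaf 6 499 500) (node 562 (merge (leaf 7 530 530) (leaf 2 528 561))))))) (node 564 (merge (leaf 6 531 532) (node 691 (merge (leaf 6 563 596) (node 692 (merge (leaf 4 563 660) (leaf 4 595 724)))))))))) (merge (node 563 (merge (node 562 (merge (leaf 7 530 530) (node 691 (merge (leaf 7 562 594) (node 692 (merge (leaf 4 563 660) (leaf 4 595 724))))))) (merge (node 562 (merge (leaf 7 530 530) (node 691 (merge (leaf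 7 562 594) (node 690 (merge (leaf 5 562 658) (leaf 5 594 722))))))) (merge (node 692 (merge (leaf 4 563 660) (node 691 (merge (leaf 4 595 724) (node 690 (merge (leaf 5 562 658) (leaf 5 594 722))))))) (node 660 (merge (leaf 4 563 692) (node 531 (merge (leaf 4 531 628) (node 658 (merge (leaf 5 530 626) (leaf 5 562 690))))))))))) (merge (node 690 (merge (node 722 (merge (leaf 5 594 691) (node 658 (merge (leaf 6 594 626) (leaf 6 626 754))))) (merge (node 563 (merge (leaf 5 562 658) (node 532 (merge (leaf 6 531 564) (node 531 (merge (leaf 6 499 500) (node 562 (merge (leaf 7 530 530) (leaf 2 528 561))))))))) (node 691 (merge (leaf 5 594 722) (node 596 (merge (leaf 6 563 564) (node 723 (merge (leaf 6 595 628) (node 594 (merge (leaf 7 562 562) (leaf 7 594 626)))))))))))) (merge (node 691 (merge (node 596 (merge (leaf 6 563 564) (node 723 (merge (leaf 6 595 628) (node 722 (merge (leaf 5 594 690) (leaf 5 626 754))))))) (merge (node 692 (merge (leaf 4 595 724) (node 660 (merge (leaf 4 563 563) (node 690 (merge (leaf 5 594 722) (node 689 (merge (leaf 2 657 661) (leaf 2 656 688)))))))))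 (node 596 (merge (leaf 6 563 564) (node 723 (merge (leaf 6 595 628) (node 724 (merge (leaf 4 595 692) (leaf 4 627 756)))))))))) (merge (node 563 (merge (node 564 (merge (leaf 6 531 532) (node 691 (merge (leaf 6 563 596) (node 692 (merge (leaf 4 563 660) (leaf 4 595 724))))))) (merge (node 564 (merge (leaf 6 531 532) (node 691 (merge (leaf 6 563 596) (node 690 (merge (leaf 5 562 658) (leaf 5 594 722))))))) (merge (node 660 (merge (leaf 4 563 692) (node 531 (merge (leaf 4 531 628) (node 500 (merge (leaf 6 499 532) (node 499 (merge (leaf 6 467 468) (node 498 (merge (leaf 7 466 466) (leaf 7 498 530))))))))))) (node 658 (merge (leaf 5 562 690) (node 531 (merge (leaf 5 530 626) (node 628 (merge (leaf 4 531 660) (node 596 (merge (leaf 4 499 499) (node 691 (merge (leaf 6 563 564) (leaf 6 595 723))))))))))))))) (merge (node 596 (merge (node 564 (merge (leaf 6 563 691) (node 532 (merge (leaf 5 499 500) (leaf 5 531 628))))) (merge (node 691 (merge (leaf 6 563 564) (node 594 (merge (leaf 7 562 562) (node 723 (merge (leaf 7 594 626) (node 724 (merge (leaf 4 595 692) (leaf 4 627 756)))))))))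 (merge (node 597 (merge (node 598 (merge (leaf 1 594 626) (node 599 (merge (leaf 1 595 628) (node 567 (merge (leaf 2 563 566) (leaf 2 564 568))))))) (merge (node 598 (merge (leaf 1 594 626) (node 631 (merge (leaf 0 595 630) (node 599 (merge (leaf 1 595 628) (leaf 0 596 632))))))) (merge (node 598 (merge (leaf 1 594 626) (node 631 (merge (leaf 0 595 630) (node 599 (merge (leaf 0 596 632) (node 567 (merge (leaf 2 563 566) (leaf 2 564 568))))))))) (merge (node 691 (merge (node 723 (merge (leaf 6 595 628) (node 722 (merge (leaf 5 594 690) (leaf 5 626 754))))) (merge (node 723 (merge (leaf 6 595 628) (node 724 (merge (leaf 4 595 692) (leaf 4 627 756))))) (merge (node 594 (merge (leaf 7 562 562) (node 723 (merge (leaf 7 594 626) (node 722 (merge (leaf 5 594 690) (leaf 5 626 754))))))) (node 594 (merge (leaf 7 562 562) (node 629 (merge (leaf 0 594 630) (node 565 (merge (leaf 2 562 566) (node 692 (merge (leaf 4 595 724) (node 660 (merge (leaf 6 564 628) (leaf 5 564 661))))))))))))))) (node 598 (merge (node 631 (merge (leaf 0 595 630) (node 599 (merge (leaf 1 595 628) (leaf 0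 596 632))))) (merge (node 566 (merge (leaf 2 563 567) (node 594 (merge (leaf 2 562 565) (node 691 (merge (leaf 7 562 562) (node 723 (merge (leaf 6 595 628) (node 722 (merge (leaf 5 594 690) (leaf 5 626 754))))))))))) (node 630 (merge (leaf 0 595 631) (node 594 (merge (leaf 0 594 629) (node 566 (merge (leaf 2 562 565) (leaf 2 563 567))))))))))))))) (node 597 (merge (node 598 (merge (leaf 1 594 626) (node 599 (merge (leaf 1 595 628) (node 567 (merge (leaf 2 563 566) (leaf 2 564 568))))))) (merge (node 598 (merge (leaf 1 594 626) (node 631 (merge (leaf 0 595 630) (node 599 (merge (leaf 1 595 628) (leaf 0 596 632))))))) (merge (node 598 (merge (leaf 1 594 626) (node 630 (merge (leaf 0 595 631) (node 594 (merge (leaf 0 594 629) (node 566 (merge (leaf 2 562 565) (leaf 2 563 567))))))))) (merge (node 630 (merge (node 594 (merge (leaf 0 594 629) (node 598 (merge (leaf 0 595 631) (node 566 (merge (leaf 2 562 565) (leaf 2 563 567))))))) (merge (node 598 (merge (leaf 0 595 631) (node 599 (merge (leaf 1 595 628) (node 567 (merge (leaf 2 563 566) (leaf 2 564 568))))))) (merge (node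 629 (merge (leaf 0 594 594) (node 628 (merge (leaf 3 595 631) (leaf 1 626 658))))) (node 629 (merge (leaf 0 594 594) (node 628 (merge (leaf 1 626 658) (node 662 (merge (leaf 0 627 663) (node 598 (merge (leaf 1 595 599) (node 694 (merge (leaf 7 565 565) (node 566 (merge (leaf 2 563 567) (node 693 (merge (leaf 6 565 661) (leaf 5 597 725))))))))))))))))))) (node 565 (merge (node 566 (merge (leaf 2 562 594) (node 567 (merge (leaf 1 563 564) (leaf 1 564 568))))) (merge (node 594 (merge (leaf 2 562 566) (node 562 (merge (leaf 3 561 561) (node 530 (merge (leaf 4 498 498) (leaf 4 530 626))))))) (merge (node 628 (merge (node 660 (merge (leaf 6 564 692) (node 533 (merge (leaf 5 500 501) (leaf 5 532 629))))) (merge (node 533 (merge (leaf 5 500 501) (node 532 (merge (leaf 5 531 564) (node 629 (merge (leaf 7 500 500) (node 534 (merge (leaf 6 501 502) (node 661 (merge (leaf 6 533 566) (node 662 (merge (leaf 0 626 626) (leaf 4 533 630))))))))))))) (node 660 (merge (leaf 6 564 692) (node 564 (merge (leaf 5 531 532) (node 661 (merge (leaf 4 564 693) (node 662 (merge (leaf 3 626 626)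 (leaf 3 627 663)))))))))))) (node 628 (merge (node 660 (merge (leaf 6 564 692) (node 533 (merge (leaf 5 500 501) (leaf 5 532 629))))) (merge (node 533 (merge (leaf 5 500 501) (node 532 (merge (leaf 5 531 564) (node 629 (merge (leaf 7 500 500) (node 630 (merge (leaf 0 594 594) (leaf 1 626 658))))))))) (node 660 (merge (leaf 6 564 692) (node 564 (merge (leaf 5 531 532) (node 661 (merge (leaf 4 564 693) (node 662 (merge (leaf 3 626 626) (leaf 3 627 663))))))))))))))))))))))))) (node 660 (merge (node 563 (merge (leaf 4 563 692) (node 531 (merge (leaf 4 531 628) (node 658 (merge (leaf 5 530 626) (leaf 5 562 690))))))) (merge (node 563 (merge (leaf 4 563 692) (node 532 (merge (leaf 6 531 564) (node 562 (merge (leaf 7 530 530) (node 561 (merge (leaf 2 528 531) (leaf 0 560 596))))))))) (merge (node 661 (merge (node 662 (merge (leaf 3 626 626) (node 695 (merge (leaf 0 659 694) (node 663 (merge (leaf 3 627 628) (leaf 0 660 696))))))) (merge (node 662 (merge (leaf 3 626 626) (node 631 (merge (leaf 2 627 630) (node 663 (merge (leaf 3 627 628) (leaf 2 628 632))))))) (merge (node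 662 (merge (leaf 3 626 626) (node 694 (merge (leaf 0 659 695) (node 658 (merge (leaf 0 658 693) (node 630 (merge (leaf 2 626 629) (leaf 2 627 631))))))))) (merge (node 662 (merge (node 695 (merge (leaf 0 659 694) (node 663 (merge (leaf 3 627 628) (leaf 0 660 696))))) (merge (node 631 (merge (leaf 2 627 630) (node 663 (merge (leaf 3 627 628) (leaf 2 628 632))))) (node 694 (merge (leaf 0 659 695) (node 658 (merge (leaf 0 658 693) (node 630 (merge (leaf 2 626 629) (leaf 2 627 631)))))))))) (node 693 (merge (node 694 (merge (leaf 0 658 658) (node 695 (merge (leaf 3 659 692) (leaf 3 660 696))))) (merge (node 658 (merge (leaf 0 658 694) (node 690 (merge (leaf 1 657 689) (node 722 (merge (leaf 6 594 626) (leaf 6 626 754))))))) (node 628 (merge (node 725 (merge (leaf 7 628 757) (node 629 (merge (leaf 7 596 596) (node 630 (merge (leaf 3 594 594) (leaf 1 627 631))))))) (merge (node 692 (merge (leaf 7 595 724) (node 596 (merge (leaf 4 564 564) (node 597 (merge (leaf 6 564 565) (node 598 (merge (leaf 1 595 599) (leaf 1 594 626))))))))) (node 724 (merge (leaf 7 595 692) (node 725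 (merge (leaf 7 628 757) (node 629 (merge (leaf 5 628 756) (node 630 (merge (leaf 3 594 594) (leaf 1 627 631)))))))))))))))))))) (node 661 (merge (node 662 (merge (leaf 3 626 626) (node 695 (merge (leaf 0 659 694) (node 663 (merge (leaf 3 627 628) (leaf 0 660 696))))))) (merge (node 662 (merge (leaf 3 626 626) (node 694 (merge (leaf 0 659 695) (node 658 (merge (leaf 0 658 693) (node 630 (merge (leaf 2 626 629) (leaf 2 627 631))))))))) (merge (node 662 (merge (node 695 (merge (leaf 0 659 694) (node 663 (merge (leaf 3 627 628) (leaf 0 660 696))))) (merge (node 631 (merge (leaf 2 627 630) (node 663 (merge (leaf 3 627 628) (leaf 2 628 632))))) (node 694 (merge (leaf 0 659 695) (node 658 (merge (leaf 0 658 693) (node 630 (merge (leaf 2 626 629) (leaf 2 627 631)))))))))) (node 629 (merge (node 630 (merge (leaf 2 626 658) (node 628 (merge (leaf 3 594 594) (leaf 1 627 631))))) (merge (node 658 (merge (leaf 2 626 630) (node 690 (merge (leaf 1 657 689) (node 722 (merge (leaf 6 594 626) (leaf 6 626 754))))))) (merge (node 628 (merge (node 630 (merge (leaf 3 594 594) (leaf 1 627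 631))) (merge (node 563 (merge (leaf 4 531 531) (node 564 (merge (leaf 6 531 532) (node 596 (merge (leaf 4 564 693) (node 565 (merge (leaf 6 532 533) (node 566 (merge (leaf 1 563 567) (leaf 1 562 594))))))))))) (node 630 (merge (leaf 1 627 631) (node 598 (merge (leaf 2 595 599) (node 693 (merge (leaf 6 597 725) (node 597 (merge (leaf 6 565 566) (leaf 2 594 626)))))))))))) (node 563 (merge (node 531 (merge (leaf 4 531 628) (node 658 (merge (leaf 5 530 626) (leaf 5 562 690))))) (merge (node 531 (merge (leaf 4 531 628) (node 658 (merge (leaf 5 530 626) (leaf 5 562 690))))) (merge (node 562 (merge (leaf 7 530 530) (node 561 (merge (leaf 0 560 596) (node 594 (merge (leaf 0 559 559) (node 531 (merge (leaf 2 528 532) (node 626 (merge (leaf 5 498 499) (leaf 6 530 658))))))))))) (node 564 (merge (leaf 6 531 532) (node 562 (merge (leaf 7 530 530) (node 561 (merge (leaf 0 560 596) (node 594 (merge (leaf 0 559 559) (node 565 (merge (leaf 1 562 566) (node 597 (merge (leaf 0 562 598) (node 533 (merge (leaf 2 530 534) (leaf 5 532 628)))))))))))))))))))))))))))))))))))))) nP_161 cP_161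 13 (by decide +kernel)
def nP_162 : ℕ := 0x100000001000000090000000100000001000000000000000000000000000000000000000000000000000000000000000000000000000000000000000000000000000000000000000000000000000000000000
def cP_162 : ℕ := 0x100000001e8000001f8000003f8000001e0000003c800000320000007e8000007c0000007f8000001f8000001f800000148000000000000000000000000000000000000000000000000000000000000000000000000000000000000000000000000000
theorem lP_162 : S nP_162 cP_162 14 := S_of_chk [] trivial (node 563 (merge (node 659 (merge (node 657 (merge (leaf 4 560 689) (node 658 (merge (leaf 3 623 623) (node 627 (merge (leaf 2 624 628) (leaf 5 562 690))))))) (merge (node 627 (merge (node 564 (merge (leaf 6 531 532) (node 691 (merge (leaf 6 563 596) (node 692 (merge (leaf 4 563 660) (leaf 4 595 724))))))) (merge (node 564 (merge (leaf 6 531 532) (node 562 (merge (leaf 7 530 530) (node 561 (merge (leaf 1 560 593) (leaf 0 560 596))))))) (merge (node 692 (merge (leaf 4 563 660) (node 691 (merge (leaf 4 595 724) (node 690 (merge (leaf 5 562 658) (leaf 5 594 722))))))) (node 692 (merge (leaf 4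 563 660) (node 691 (merge (leaf 4 595 724) (node 690 (merge (leaf 5 562 658) (leaf 5 594 722))))))))))) (merge (node 657 (merge (leaf 4 560 689) (node 658 (merge (leaf 3 623 623) (node 692 (merge (leaf 0 656 691) (node 660 (merge (leaf 0 657 693) (node 628 (merge (leaf 7 563 596) (leaf 2 625 629))))))))))) (node 627 (merge (node 564 (merge (leaf 6 531 532) (node 562 (merge (leaf 7 530 530) (node 561 (merge (leaf 1 560 593) (leaf 0 560 596))))))) (merge (node 562 (merge (leaf 7 530 530) (node 660 (merge (leaf 4 563 692) (node 531 (merge (leaf 4 531 628) (node 532 (merge (leaf 6 499 500) (leaf 2 528 561))))))))) (node 692 (merge (leaf 4 563 660) (node 691 (merge (leaf 4 595 724) (node 596 (merge (leaf 6 563 564) (node 723 (merge (leaf 6 595 628) (node 722 (merge (leaf 5 594 690) (leaf 5 626 754)))))))))))))))))) (merge (node 659 (merge (node 657 (merge (leaf 4 560 689) (node 658 (merge (leaf 3 623 623) (node 627 (merge (leaf 2 624 628) (leaf 5 562 690))))))) (merge (node 627 (merge (node 564 (merge (leaf 6 531 532) (node 691 (merge (leaf 6 563 596) (node 692 (merge (leaf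 4 563 660) (leaf 4 595 724))))))) (merge (node 564 (merge (leaf 6 531 532) (node 562 (merge (leaf 7 530 530) (node 561 (merge (leaf 1 560 593) (leaf 0 560 596))))))) (merge (node 692 (merge (leaf 4 563 660) (node 691 (merge (leaf 4 595 724) (node 690 (merge (leaf 5 562 658) (leaf 5 594 722))))))) (node 692 (merge (leaf 4 563 660) (node 691 (merge (leaf 4 595 724) (node 690 (merge (leaf 5 562 658) (leaf 5 594 722))))))))))) (merge (node 657 (merge (leaf 4 560 689) (node 658 (merge (leaf 3 623 623) (node 692 (merge (leaf 0 656 691) (node 660 (merge (leaf 0 657 693) (node 628 (merge (leaf 7 563 596) (leaf 2 625 629))))))))))) (node 689 (merge (leaf 4 560 657) (node 688 (merge (leaf 4 592 721) (node 561 (merge (leaf 6 560 593) (node 562 (merge (leaf 0 560 596) (node 627 (merge (leaf 7 530 530) (node 692 (merge (leaf 4 563 660) (node 691 (merge (leaf 4 595 724) (node 719 (merge (leaf 5 591 687) (node 690 (merge (leaf 1 687 720) (leaf 5 594 722))))))))))))))))))))))) (merge (node 561 (merge (node 688 (merge (leaf 6 560 593) (node 721 (merge (leaf 4 592 689) (node 720 (merge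 (leaf 4 624 753) (node 719 (merge (leaf 5 591 687) (leaf 5 623 751))))))))) (node 562 (merge (leaf 0 560 596) (node 531 (merge (leaf 2 528 532) (node 530 (merge (leaf 2 527 559) (node 627 (merge (leaf 7 498 498) (leaf 7 530 659))))))))))) (merge (node 689 (merge (leaf 4 560 657) (node 688 (merge (leaf 4 592 721) (node 561 (merge (leaf 6 560 593) (node 562 (merge (leaf 0 560 596) (node 532 (merge (leaf 2 528 531) (node 564 (merge (leaf 2 529 533) (node 659 (merge (leaf 6 531 627) (node 687 (merge (leaf 5 591 719) (node 690 (merge (leaf 2 655 658) (node 723 (merge (leaf 0 687 722) (node 691 (merge (leaf 2 656 660) (leaf 0 688 724))))))))))))))))))))))) (merge (node 659 (merge (node 657 (merge (leaf 4 560 689) (node 658 (merge (leaf 3 623 623) (node 627 (merge (leaf 2 624 628) (leaf 5 562 690))))))) (merge (node 689 (merge (leaf 4 560 657) (node 688 (merge (leaf 4 592 721) (node 687 (merge (leaf 5 591 719) (node 690 (merge (leaf 2 655 658) (node 723 (merge (leaf 0 687 722) (node 691 (merge (leaf 2 656 660) (leaf 0 688 724))))))))))))) (merge (node 627 (merge (node 564 (merge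 (leaf 6 531 532) (node 691 (merge (leaf 6 563 596) (node 692 (merge (leaf 4 563 660) (leaf 4 595 724))))))) (merge (node 564 (merge (leaf 6 531 532) (node 691 (merge (leaf 6 563 596) (node 690 (merge (leaf 5 562 658) (leaf 5 594 722))))))) (node 660 (merge (leaf 4 563 692) (node 531 (merge (leaf 4 531 628) (node 658 (merge (leaf 5 530 626) (leaf 5 562 690)))))))))) (merge (node 657 (merge (leaf 4 560 689) (node 658 (merge (leaf 3 623 623) (node 692 (merge (leaf 0 656 691) (node 660 (merge (leaf 0 657 693) (node 628 (merge (leaf 7 563 596) (leaf 2 625 629))))))))))) (node 688 (merge (node 721 (merge (leaf 4 592 689) (node 720 (merge (leaf 4 624 753) (node 719 (merge (leaf 5 591 687) (leaf 5 623 751))))))) (merge (node 627 (merge (node 692 (merge (leaf 4 563 660) (node 691 (merge (leaf 4 595 724) (node 596 (merge (leaf 6 563 564) (node 723 (merge (leaf 6 595 628) (node 722 (merge (leaf 5 594 690) (leaf 5 626 754))))))))))) (merge (node 564 (merge (leaf 6 531 532) (node 691 (merge (leaf 6 563 596) (node 724 (merge (leaf 4 595 692) (node 723 (merge (leaf 4 627 756) (node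 722 (merge (leaf 5 594 690) (leaf 5 626 754))))))))))) (merge (node 564 (merge (leaf 6 531 532) (node 691 (merge (leaf 6 563 596) (node 689 (merge (leaf 4 560 657) (node 690 (merge (leaf 2 656 660) (leaf 5 594 722))))))))) (node 660 (merge (leaf 4 563 692) (node 531 (merge (leaf 4 531 628) (node 500 (merge (leaf 6 499 532) (node 499 (merge (leaf 6 467 468) (node 498 (merge (leaf 7 466 466) (leaf 7 498 530))))))))))))))) (node 627 (merge (node 692 (merge (leaf 4 563 660) (node 691 (merge (leaf 4 595 724) (node 596 (merge (leaf 6 563 564) (node 723 (merge (leaf 6 595 628) (node 722 (merge (leaf 5 594 690) (leaf 5 626 754))))))))))) (merge (node 660 (merge (leaf 4 563 692) (node 531 (merge (leaf 4 531 628) (node 500 (merge (leaf 6 499 532) (node 499 (merge (leaf 6 467 468) (node 498 (merge (leaf 7 466 466) (leaf 7 498 530))))))))))) (node 564 (merge (leaf 6 531 532) (node 691 (merge (leaf 6 563 596) (node 719 (merge (leaf 5 591 687) (node 722 (merge (leaf 5 594 690) (node 720 (merge (leaf 5 623 751) (node 723 (merge (leaf 5 626 754) (node 756 (merge (leaf 4 627 724) (node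 755 (merge (leaf 0 720 721) (leaf 4 659 788)))))))))))))))))))))))))))) (merge (node 659 (merge (node 657 (merge (leaf 4 560 689) (node 658 (merge (leaf 3 623 623) (node 627 (merge (leaf 2 624 628) (leaf 5 562 690))))))) (merge (node 689 (merge (leaf 4 560 657) (node 688 (merge (leaf 4 592 721) (node 687 (merge (leaf 5 591 719) (node 690 (merge (leaf 2 655 658) (node 723 (merge (leaf 0 687 722) (node 691 (merge (leaf 2 656 660) (leaf 0 688 724))))))))))))) (merge (node 657 (merge (leaf 4 560 689) (node 658 (merge (leaf 3 623 623) (node 692 (merge (leaf 0 656 691) (node 660 (merge (leaf 0 657 693) (node 628 (merge (leaf 7 563 596) (leaf 2 625 629))))))))))) (merge (node 627 (merge (node 564 (merge (leaf 6 531 532) (node 691 (merge (leaf 6 563 596) (node 692 (merge (leaf 4 563 660) (leaf 4 595 724))))))) (merge (node 564 (merge (leaf 6 531 532) (node 691 (merge (leaf 6 563 596) (node 690 (merge (leaf 5 562 658) (leaf 5 594 722))))))) (merge (node 660 (merge (leaf 4 563 692) (node 531 (merge (leaf 4 531 628) (node 658 (merge (leaf 5 530 626) (leaf 5 562 690))))))) (node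 658 (merge (leaf 5 562 690) (node 531 (merge (leaf 5 530 626) (node 628 (merge (leaf 4 531 660) (node 499 (merge (leaf 4 499 596) (node 468 (merge (leaf 6 467 500) (node 467 (merge (leaf 6 435 436) (node 466 (merge (leaf 7 434 434) (leaf 7 466 498))))))))))))))))))) (node 627 (merge (node 692 (merge (leaf 4 563 660) (node 691 (merge (leaf 4 595 724) (node 596 (merge (leaf 6 563 564) (node 723 (merge (leaf 6 595 628) (node 722 (merge (leaf 5 594 690) (leaf 5 626 754))))))))))) (merge (node 564 (merge (leaf 6 531 532) (node 691 (merge (leaf 6 563 596) (node 689 (merge (leaf 4 560 657) (node 688 (merge (leaf 4 592 721) (node 690 (merge (leaf 2 656 660) (leaf 5 594 722))))))))))) (merge (node 660 (merge (leaf 4 563 692) (node 531 (merge (leaf 4 531 628) (node 500 (merge (leaf 6 499 532) (node 499 (merge (leaf 6 467 468) (node 498 (merge (leaf 7 466 466) (leaf 7 498 530))))))))))) (node 564 (merge (leaf 6 531 532) (node 691 (merge (leaf 6 563 596) (node 689 (merge (leaf 4 560 657) (node 721 (merge (leaf 4 592 688) (node 692 (merge (leaf 4 595 724) (node 690 (merge (leaf 1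 688 720) (leaf 5 594 722)))))))))))))))))))))) (merge (node 659 (merge (node 657 (merge (leaf 4 560 689) (node 658 (merge (leaf 3 623 623) (node 627 (merge (leaf 2 624 628) (leaf 5 562 690))))))) (merge (node 657 (merge (leaf 4 560 689) (node 658 (merge (leaf 3 623 623) (node 692 (merge (leaf 0 656 691) (node 660 (merge (leaf 0 657 693) (node 628 (merge (leaf 7 563 596) (leaf 2 625 629))))))))))) (merge (node 561 (merge (node 688 (merge (leaf 6 560 593) (node 721 (merge (leaf 4 592 689) (node 720 (merge (leaf 4 624 753) (node 719 (merge (leaf 5 591 687) (leaf 5 623 751))))))))) (node 562 (merge (leaf 0 560 596) (node 627 (merge (leaf 7 530 530) (node 660 (merge (leaf 4 563 692) (node 531 (merge (leaf 4 531 628) (node 658 (merge (leaf 5 530 626) (leaf 5 562 690))))))))))))) (merge (node 627 (merge (node 658 (merge (leaf 5 562 690) (node 628 (merge (leaf 2 624 657) (node 531 (merge (leaf 5 530 626) (leaf 4 531 660))))))) (merge (node 562 (merge (leaf 7 530 530) (node 561 (merge (leaf 0 560 596) (node 688 (merge (leaf 6 560 593) (node 660 (merge (leaf 4 563 692) (node 531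 (merge (leaf 4 531 628) (node 658 (merge (leaf 5 530 626) (node 687 (merge (leaf 1 655 657) (leaf 5 591 719))))))))))))))) (merge (node 562 (merge (leaf 7 530 530) (node 561 (merge (leaf 0 560 596) (node 688 (merge (leaf 6 560 593) (node 658 (merge (leaf 5 562 690) (node 687 (merge (leaf 1 655 657) (leaf 5 591 719))))))))))) (node 562 (merge (leaf 7 530 530) (node 561 (merge (leaf 0 560 596) (node 688 (merge (leaf 6 560 593) (node 692 (merge (leaf 4 563 660) (node 691 (merge (leaf 4 595 724) (node 719 (merge (leaf 5 591 687) (node 722 (merge (leaf 5 594 690) (node 720 (merge (leaf 5 623 751) (node 721 (merge (leaf 2 688 723) (leaf 4 624 753))))))))))))))))))))))) (node 496 (merge (node 465 (merge (leaf 6 464 497) (node 464 (merge (leaf 6 432 433) (node 463 (merge (leaf 7 431 431) (leaf 7 463 495))))))) (merge (node 689 (merge (leaf 4 560 657) (node 688 (merge (leaf 4 592 721) (node 561 (merge (leaf 6 560 593) (node 562 (merge (leaf 0 560 596) (node 627 (merge (leaf 7 530 530) (node 692 (merge (leaf 4 563 660) (node 691 (merge (leaf 4 595 724) (node 719 (merge (leaf 5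 591 687) (node 690 (merge (leaf 1 687 720) (leaf 5 594 722))))))))))))))))))) (node 689 (merge (leaf 4 560 657) (node 688 (merge (leaf 4 592 721) (node 561 (merge (leaf 6 560 593) (node 562 (merge (leaf 0 560 596) (node 627 (merge (leaf 7 530 530) (node 692 (merge (leaf 4 563 660) (node 691 (merge (leaf 4 595 724) (node 719 (merge (leaf 5 591 687) (node 690 (merge (leaf 1 687 720) (leaf 5 594 722))))))))))))))))))))))))))) (merge (node 496 (merge (node 465 (merge (leaf 6 464 497) (node 464 (merge (leaf 6 432 433) (node 463 (merge (leaf 7 431 431) (leaf 7 463 495))))))) (merge (node 495 (merge (leaf 7 463 463) (node 689 (merge (leaf 4 560 657) (node 688 (merge (leaf 4 592 721) (node 561 (merge (leaf 6 560 593) (node 562 (merge (leaf 0 560 596) (node 531 (merge (leaf 2 528 532) (node 530 (merge (leaf 2 527 559) (node 498 (merge (leaf 4 466 466) (leaf 0 495 497))))))))))))))))) (merge (node 497 (merge (leaf 6 464 465) (node 689 (merge (leaf 4 560 657) (node 688 (merge (leaf 4 592 721) (node 561 (merge (leaf 6 560 593) (node 562 (merge (leaf 0 560 596) (node 531 (merge (leaf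 2 528 532) (node 530 (merge (leaf 2 527 559) (node 498 (merge (leaf 4 466 466) (leaf 0 495 495))))))))))))))))) (merge (node 657 (merge (leaf 4 560 689) (node 465 (merge (leaf 6 464 497) (node 464 (merge (leaf 6 432 433) (node 463 (merge (leaf 7 431 431) (node 561 (merge (leaf 4 464 593) (node 562 (merge (leaf 0 560 596) (node 531 (merge (leaf 2 528 532) (node 530 (merge (leaf 2 527 559) (node 466 (merge (leaf 4 466 498) (node 435 (merge (leaf 2 431 434) (node 467 (merge (leaf 2 432 436) (leaf 5 434 499))))))))))))))))))))))) (node 657 (merge (leaf 4 560 689) (node 463 (merge (leaf 7 463 495) (node 464 (merge (leaf 7 431 431) (node 465 (merge (leaf 6 432 433) (node 561 (merge (leaf 4 464 593) (node 562 (merge (leaf 0 560 596) (node 531 (merge (leaf 2 528 532) (node 530 (merge (leaf 2 527 559) (node 466 (merge (leaf 4 466 498) (node 435 (merge (leaf 2 431 434) (node 467 (merge (leaf 2 432 436) (leaf 5 434 499)))))))))))))))))))))))))))) (merge (node 531 (merge (node 657 (merge (leaf 4 560 689) (node 500 (merge (node 468 (merge (leaf 6 467 499) (node 532 (merge (leaf 5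 435 436) (leaf 5 467 564))))) (merge (node 627 (merge (leaf 6 499 532) (node 658 (merge (leaf 5 530 626) (node 659 (merge (leaf 3 623 623) (leaf 2 624 628))))))) (node 499 (merge (leaf 6 467 468) (node 498 (merge (leaf 7 466 466) (node 627 (merge (leaf 7 498 530) (node 658 (merge (leaf 5 530 626) (node 659 (merge (leaf 3 623 623) (leaf 2 624 628)))))))))))))))) (merge (node 689 (merge (leaf 4 560 657) (node 688 (merge (leaf 4 592 721) (node 561 (merge (leaf 6 560 593) (node 532 (merge (leaf 2 528 562) (node 627 (merge (leaf 6 499 500) (node 659 (merge (leaf 6 531 564) (node 658 (merge (leaf 5 530 626) (leaf 5 562 690))))))))))))))) (merge (node 532 (merge (node 627 (merge (leaf 6 499 500) (node 659 (merge (leaf 6 531 564) (node 658 (merge (leaf 5 530 626) (leaf 5 562 690))))))) (node 561 (merge (leaf 2 528 562) (node 593 (merge (leaf 6 560 688) (node 496 (merge (leaf 4 464 464) (node 497 (merge (leaf 6 464 465) (node 498 (merge (leaf 0 496 499) (node 495 (merge (leaf 7 463 463) (leaf 0 495 530))))))))))))))) (merge (node 496 (merge (node 465 (merge (leaf 6 464 497) (node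 464 (merge (leaf 6 432 433) (node 463 (merge (leaf 7 431 431) (leaf 7 463 495))))))) (merge (node 495 (merge (leaf 7 463 463) (node 689 (merge (leaf 4 560 657) (node 688 (merge (leaf 4 592 721) (node 561 (merge (leaf 6 560 593) (node 562 (merge (leaf 2 528 532) (node 530 (merge (leaf 2 527 559) (node 498 (merge (leaf 4 466 466) (leaf 0 495 497))))))))))))))) (merge (node 497 (merge (leaf 6 464 465) (node 689 (merge (leaf 4 560 657) (node 688 (merge (leaf 4 592 721) (node 561 (merge (leaf 6 560 593) (node 562 (merge (leaf 2 528 532) (node 530 (merge (leaf 2 527 559) (node 498 (merge (leaf 4 466 466) (leaf 0 495 495))))))))))))))) (merge (node 657 (merge (leaf 4 560 689) (node 463 (merge (leaf 7 463 495) (node 464 (merge (leaf 7 431 431) (node 465 (merge (leaf 6 432 433) (node 561 (merge (leaf 4 464 593) (node 562 (merge (leaf 2 528 532) (node 530 (merge (leaf 2 527 559) (node 466 (merge (leaf 4 466 498) (node 435 (merge (leaf 2 431 434) (node 467 (merge (leaf 2 432 436) (leaf 5 434 499))))))))))))))))))))) (node 688 (merge (node 689 (merge (leaf 4 560 657) (leaf 4 592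 721))) (node 465 (merge (leaf 6 464 497) (node 464 (merge (leaf 6 432 433) (node 431 (merge (leaf 7 431 463) (node 432 (merge (leaf 7 399 399) (node 466 (merge (leaf 3 431 467) (node 498 (merge (leaf 7 466 499) (node 530 (merge (leaf 4 434 434) (leaf 4 466 562)))))))))))))))))))))) (node 496 (merge (node 465 (merge (leaf 6 464 497) (node 464 (merge (leaf 6 432 433) (node 463 (merge (leaf 7 431 431) (leaf 7 463 495))))))) (merge (node 657 (merge (leaf 4 560 689) (node 498 (merge (node 627 (merge (leaf 7 498 530) (node 658 (merge (leaf 5 530 626) (node 659 (merge (leaf 3 623 623) (leaf 2 624 628))))))) (node 499 (merge (leaf 7 466 466) (node 468 (merge (leaf 6 467 500) (node 467 (merge (leaf 6 435 436) (leaf 2 464 497))))))))))) (node 530 (merge (node 657 (merge (leaf 4 560 689) (node 627 (merge (leaf 7 498 498) (node 658 (merge (leaf 5 530 626) (node 659 (merge (leaf 3 623 623) (leaf 2 624 628))))))))) (merge (node 463 (merge (leaf 7 463 495) (node 464 (merge (leaf 7 431 431) (node 465 (merge (leaf 6 432 433) (node 561 (merge (leaf 4 464 593) (node 562 (merge (leaf 2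 527 559) (node 466 (merge (leaf 4 466 498) (node 435 (merge (leaf 2 431 434) (node 467 (merge (leaf 2 432 436) (leaf 5 434 499))))))))))))))))) (node 659 (merge (node 627 (merge (leaf 7 530 562) (node 660 (merge (leaf 4 531 628) (leaf 4 563 692))))) (merge (node 657 (merge (leaf 4 560 689) (node 658 (merge (leaf 3 623 623) (node 627 (merge (leaf 5 530 626) (leaf 2 624 628))))))) (node 689 (merge (leaf 4 560 657) (node 688 (merge (leaf 4 592 721) (node 687 (merge (leaf 5 591 719) (node 690 (merge (leaf 2 655 658) (node 723 (merge (leaf 0 687 722) (node 691 (merge (leaf 2 656 660) (leaf 0 688 724))))))))))))))))))))))))))) (node 531 (merge (node 561 (merge (node 562 (merge (leaf 2 528 532) (leaf 0 560 596))) (node 593 (merge (leaf 6 560 688) (node 496 (merge (leaf 4 464 464) (node 497 (merge (leaf 6 464 465) (node 495 (merge (leaf 7 463 463) (node 498 (merge (leaf 0 495 530) (node 466 (merge (leaf 2 463 467) (leaf 7 466 499))))))))))))))) (merge (node 532 (merge (node 627 (merge (leaf 6 499 500) (node 659 (merge (leaf 6 531 564) (node 658 (merge (leaf 5 530 626) (leaf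 5 562 690))))))) (node 561 (merge (leaf 2 528 562) (node 593 (merge (leaf 6 560 688) (node 496 (merge (leaf 4 464 464) (node 497 (merge (leaf 6 464 465) (node 498 (merge (leaf 0 496 499) (node 495 (merge (leaf 7 463 463) (leaf 0 495 530))))))))))))))) (merge (node 627 (merge (node 532 (merge (leaf 6 499 500) (node 659 (merge (leaf 6 531 564) (node 658 (merge (leaf 5 530 626) (leaf 5 562 690))))))) (merge (node 532 (merge (leaf 6 499 500) (node 659 (merge (leaf 6 531 564) (node 660 (merge (leaf 4 531 628) (leaf 4 563 692))))))) (merge (node 628 (merge (leaf 4 531 660) (node 499 (merge (leaf 4 499 596) (node 468 (merge (leaf 6 467 500) (node 467 (merge (leaf 6 435 436) (node 466 (merge (leaf 7 434 434) (leaf 7 466 498))))))))))) (node 659 (merge (node 658 (merge (leaf 5 562 690) (node 628 (merge (leaf 2 624 657) (node 531 (merge (leaf 5 530 626) (leaf 4 531 660))))))) (merge (node 564 (merge (leaf 6 531 532) (node 691 (merge (leaf 6 563 596) (node 692 (merge (leaf 4 563 660) (leaf 4 595 724))))))) (node 564 (merge (leaf 6 531 532) (node 691 (merge (leaf 6 563 596) (node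 690 (merge (leaf 5 562 658) (leaf 5 594 722)))))))))))))) (merge (node 562 (merge (node 561 (merge (leaf 2 528 532) (leaf 0 560 596))) (merge (node 561 (merge (node 593 (merge (leaf 1 560 564) (leaf 6 560 688))) (node 531 (merge (leaf 2 528 532) (node 530 (merge (leaf 2 527 559) (node 627 (merge (leaf 7 498 498) (leaf 7 530 659))))))))) (node 628 (merge (node 627 (merge (leaf 4 531 660) (node 658 (merge (leaf 5 530 626) (node 659 (merge (leaf 2 624 657) (leaf 5 562 690))))))) (node 499 (merge (leaf 4 499 596) (node 466 (merge (leaf 7 466 498) (node 467 (merge (leaf 7 434 434) (node 436 (merge (leaf 6 435 468) (node 435 (merge (leaf 6 403 404) (leaf 5 434 530)))))))))))))))) (merge (node 496 (merge (node 465 (merge (leaf 6 464 497) (node 464 (merge (leaf 6 432 433) (node 463 (merge (leaf 7 431 431) (leaf 7 463 495))))))) (merge (node 497 (merge (leaf 6 464 465) (node 495 (merge (leaf 7 463 463) (node 498 (merge (leaf 0 495 530) (node 466 (merge (leaf 2 463 467) (leaf 7 466 499))))))))) (merge (node 465 (merge (leaf 6 464 497) (node 464 (merge (leaf 6 432 433) (node 561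 (merge (leaf 4 464 593) (node 562 (merge (leaf 0 560 596) (node 530 (merge (leaf 2 527 559) (node 498 (merge (leaf 4 466 466) (leaf 7 498 627))))))))))))) (merge (node 463 (merge (leaf 7 463 495) (node 464 (merge (leaf 7 431 431) (node 561 (merge (leaf 4 464 593) (node 562 (merge (leaf 0 560 596) (node 530 (merge (leaf 2 527 559) (node 498 (merge (leaf 4 466 466) (leaf 7 498 627))))))))))))) (merge (node 463 (merge (leaf 7 463 495) (node 464 (merge (leaf 7 431 431) (node 561 (merge (leaf 4 464 593) (node 562 (merge (leaf 0 560 596) (node 530 (merge (leaf 2 527 559) (node 498 (merge (leaf 4 466 466) (leaf 7 498 627))))))))))))) (node 465 (merge (leaf 6 464 497) (node 464 (merge (leaf 6 432 433) (node 561 (merge (leaf 4 464 593) (node 562 (merge (leaf 0 560 596) (node 530 (merge (leaf 2 527 559) (node 498 (merge (leaf 4 466 466) (leaf 7 498 627))))))))))))))))))) (merge (node 628 (merge (node 596 (merge (leaf 4 499 499) (node 660 (merge (leaf 7 531 564) (leaf 7 563 692))))) (merge (node 627 (merge (leaf 4 531 660) (node 658 (merge (leaf 5 530 626) (node 659 (merge (leaf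 2 624 657) (leaf 5 562 690))))))) (node 499 (merge (leaf 4 499 596) (node 468 (merge (leaf 6 467 500) (node 467 (merge (leaf 6 435 436) (node 434 (merge (leaf 7 434 466) (node 435 (merge (leaf 7 402 402) (node 532 (merge (leaf 4 435 564) (node 562 (merge (leaf 5 434 530) (leaf 2 528 561)))))))))))))))))) (node 562 (merge (node 561 (merge (leaf 2 528 532) (leaf 0 560 596))) (merge (node 561 (merge (leaf 0 560 596) (node 530 (merge (leaf 2 527 559) (node 627 (merge (leaf 7 498 498) (leaf 7 530 659))))))) (merge (node 561 (merge (node 593 (merge (leaf 1 560 564) (leaf 6 560 688))) (node 531 (merge (leaf 2 528 532) (node 530 (merge (leaf 2 527 559) (node 627 (merge (leaf 7 498 498) (leaf 7 530 659))))))))) (node 627 (merge (node 532 (merge (leaf 6 499 500) (node 659 (merge (leaf 6 531 564) (node 660 (merge (leaf 4 531 628) (leaf 4 563 692))))))) (merge (node 530 (merge (leaf 7 498 498) (node 659 (merge (leaf 7 530 562) (node 658 (merge (leaf 5 530 626) (leaf 5 562 690))))))) (node 532 (merge (leaf 6 499 500) (node 533 (merge (leaf 1 530 534) (node 530 (merge (leaf 7 498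 498) (node 565 (merge (leaf 0 530 566) (node 501 (merge (leaf 2 498 502) (node 628 (merge (leaf 4 531 660) (node 596 (merge (leaf 6 500 564) (leaf 5 500 597))))))))))))))))))))))))))))))))))))))) nP_162 cP_162 14 (by decide +kernel)
def nP_163 : ℕ := 0x100000001000000010000000100000001000000000000000000000000000000000000000000000000000000000000000000000000000000000000000000000000000000000000000000000000000000000000
def cP_163 : ℕ := 0x140000003e8000007f800001ff800000fe000001fc800000fe000001fe8000007c0000007f8000003f8000001f800000148000000000000000000000000000000000000000000000000000000000000000000000000000000000000000000000000000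
theorem lP_163 : S nP_163 cP_163 15 := S_of_chk [(nP_161, cP_161, 13), (nP_162, cP_162, 14)] ⟨lP_161, lP_162, trivial⟩ (node 595 (merge (node 593 (merge (node 594 (merge (leaf 3 559 559) (leaf 1 591 623))) (node 688 (merge (leaf 6 560 561) (node 721 (merge (leaf 4 592 689) (node 720 (merge (leaf 4 624 753) (node 719 (merge (leaf 5 591 687) (leaf 5 623 751))))))))))) (merge (node 689 (merge (leaf 4 560 657) (node 688 (merge (leaf 4 592 721) (node 593 (merge (leaf 6 560 561) (node 594 (merge (leaf 3 559 559) (node 628 (merge (leaf 0 592 627) (node 596 (merge (leaf 0 593 629) (node 564 (merge (leaf 2 560 563) (leaf 2 561 565))))))))))))))) (merge (node 689 (merge (leaf 4 560 657) (node 688 (merge (leaf 4 592 721) (node 593 (merge (leaf 6 560 561) (node 594 (merge (leaf 1 591 623) (node 627 (merge (leaf 0 592 628) (node 563 (merge (leaf 2 560 564) (node 719 (merge (leaf 5 591 687) (node 720 (merge (leaf 5 623 751) (node 691 (merge (leaf 1 687 690) (node 659 (merge (leaf 7 562 562) (node 692 (merge (leaf 4 563 660) (leaf 4 595 724))))))))))))))))))))))) (merge (node 496 (merge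 (node 465 (merge (leaf 6 464 497) (node 464 (merge (leaf 6 432 433) (node 463 (merge (leaf 7 431 431) (leaf 7 463 495))))))) (merge (node 463 (merge (leaf 7 463 495) (node 464 (merge (leaf 7 431 431) (node 593 (merge (leaf 4 464 561) (node 594 (merge (leaf 3 559 559) (leaf 1 591 623))))))))) (merge (node 465 (merge (leaf 6 464 497) (node 464 (merge (leaf 6 432 433) (node 593 (merge (leaf 4 464 561) (node 594 (merge (leaf 3 559 559) (leaf 1 591 623))))))))) (node 497 (merge (leaf 6 464 465) (node 498 (merge (node 495 (merge (leaf 7 463 463) (node 531 (merge (leaf 0 495 530) (node 499 (merge (leaf 0 496 532) (node 467 (merge (leaf 2 463 466) (leaf 2 464 468))))))))) (merge (node 495 (merge (leaf 7 463 463) (node 530 (merge (leaf 0 495 531) (node 466 (merge (leaf 2 463 467) (node 562 (merge (leaf 4 466 563) (node 594 (merge (leaf 4 498 627) (node 559 (merge (leaf 0 559 561) (leaf 3 559 593))))))))))))) (merge (node 594 (merge (node 593 (merge (leaf 3 559 559) (leaf 1 591 623))) (node 495 (merge (leaf 7 463 463) (node 467 (merge (leaf 2 463 466) (node 499 (merge (leaf 2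 464 468) (node 531 (merge (leaf 0 496 532) (node 563 (merge (leaf 5 466 562) (leaf 5 498 626))))))))))))) (merge (node 495 (merge (leaf 7 463 463) (node 531 (merge (leaf 0 495 530) (node 499 (merge (leaf 0 496 532) (node 563 (merge (leaf 7 466 466) (node 594 (merge (leaf 5 498 626) (node 593 (merge (leaf 2 560 564) (leaf 1 591 623))))))))))))) (merge (node 495 (merge (leaf 7 463 463) (node 531 (merge (leaf 0 495 530) (node 499 (merge (leaf 0 496 532) (node 468 (merge (leaf 2 464 467) (node 563 (merge (leaf 6 467 500) (node 594 (merge (leaf 5 498 626) (node 593 (merge (leaf 2 560 564) (leaf 1 591 623))))))))))))))) (merge (node 594 (merge (node 593 (merge (leaf 3 559 559) (leaf 1 591 623))) (merge (node 593 (merge (leaf 1 591 623) (node 564 (merge (leaf 2 560 563) (node 596 (merge (leaf 3 560 561) (leaf 2 561 565))))))) (node 495 (merge (leaf 7 463 463) (node 467 (merge (leaf 2 463 466) (node 499 (merge (leaf 2 464 468) (node 562 (merge (leaf 6 466 530) (node 561 (merge (leaf 0 559 559) (node 596 (merge (leaf 0 560 563) (leaf 3 561 597)))))))))))))))) (node 499 (merge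 (node 532 (merge (leaf 0 496 531) (node 500 (merge (leaf 0 497 533) (node 468 (merge (leaf 2 464 467) (leaf 2 465 469))))))) (merge (node 531 (merge (leaf 0 496 532) (node 563 (merge (leaf 7 466 466) (node 627 (merge (leaf 7 498 530) (node 626 (merge (leaf 5 498 594) (leaf 5 530 658))))))))) (merge (node 468 (merge (leaf 2 464 467) (node 500 (merge (leaf 2 465 469) (node 532 (merge (leaf 0 497 533) (node 564 (merge (leaf 5 467 563) (node 597 (merge (leaf 4 468 565) (node 596 (merge (leaf 5 499 627) (leaf 4 500 629))))))))))))) (node 594 (merge (node 593 (merge (leaf 3 559 559) (leaf 1 591 623))) (merge (node 467 (merge (leaf 2 464 468) (node 562 (merge (leaf 6 466 530) (node 561 (merge (leaf 0 559 559) (node 563 (merge (leaf 5 466 531) (leaf 0 560 596))))))))) (node 593 (merge (leaf 1 591 623) (node 563 (merge (leaf 2 560 564) (node 531 (merge (leaf 7 466 466) (leaf 5 498 626))))))))))))))))))))))))))) (merge (node 659 (merge (node 657 (merge (leaf 4 560 689) (node 658 (merge (leaf 3 623 623) (node 691 (merge (leaf 0 656 692) (node 627 (merge (leaf 2 624 628) (node 564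 (merge (leaf 6 563 596) (node 563 (merge (leaf 6 531 532) (leaf 5 562 690))))))))))))) (merge (node 657 (merge (leaf 4 560 689) (node 658 (merge (leaf 3 623 623) (node 627 (merge (leaf 2 624 628) (node 563 (merge (leaf 5 562 690) (node 532 (merge (leaf 6 531 564) (node 531 (merge (leaf 6 499 500) (leaf 5 530 626))))))))))))) (merge (node 594 (merge (node 593 (merge (leaf 3 559 559) (leaf 1 591 623))) (merge (node 593 (merge (leaf 3 559 559) (node 564 (merge (leaf 2 560 563) (node 596 (merge (leaf 3 560 561) (leaf 2 561 565))))))) (merge (node 593 (merge (leaf 1 591 623) (node 564 (merge (leaf 2 560 563) (node 596 (merge (leaf 3 560 561) (leaf 2 561 565))))))) (node 657 (merge (leaf 4 560 689) (node 658 (merge (leaf 3 623 623) (node 691 (merge (leaf 0 656 692) (node 562 (merge (leaf 4 562 626) (node 561 (merge (leaf 0 559 559) (node 596 (merge (leaf 0 560 563) (leaf 3 561 597))))))))))))))))) (merge (node 657 (merge (leaf 4 560 689) (node 658 (merge (leaf 3 623 623) (node 691 (merge (leaf 0 656 692) (node 627 (merge (leaf 2 624 628) (node 594 (merge (leaf 7 562 562) (node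 723 (merge (leaf 7 594 626) (node 722 (merge (leaf 5 594 690) (leaf 5 626 754))))))))))))))) (merge (node 627 (merge (node 594 (merge (node 593 (merge (leaf 3 559 559) (leaf 1 591 623))) (node 562 (merge (leaf 7 562 691) (node 530 (merge (leaf 4 498 498) (leaf 4 530 626))))))) (merge (node 563 (merge (node 564 (merge (leaf 6 531 532) (node 562 (merge (leaf 7 530 530) (node 561 (merge (leaf 1 560 593) (leaf 0 560 596))))))) (merge (node 660 (merge (leaf 4 563 692) (node 531 (merge (leaf 4 531 628) (node 658 (merge (leaf 5 530 626) (leaf 5 562 690))))))) (node 660 (merge (leaf 4 563 692) (node 531 (merge (leaf 4 531 628) (node 658 (merge (leaf 5 530 626) (leaf 5 562 690)))))))))) (merge (node 594 (merge (node 593 (merge (leaf 3 559 559) (leaf 1 591 623))) (node 691 (merge (leaf 7 562 562) (node 596 (merge (leaf 6 563 564) (node 723 (merge (leaf 6 595 628) (node 724 (merge (leaf 4 595 692) (leaf 4 627 756))))))))))) (node 563 (merge (node 564 (merge (leaf 6 531 532) (node 691 (merge (leaf 6 563 596) (node 692 (merge (leaf 4 563 660) (leaf 4 595 724))))))) (merge (node 564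 (merge (leaf 6 531 532) (node 691 (merge (leaf 6 563 596) (node 690 (merge (leaf 5 562 658) (leaf 5 594 722))))))) (merge (node 660 (merge (leaf 4 563 692) (node 531 (merge (leaf 4 531 628) (node 500 (merge (leaf 6 499 532) (node 499 (merge (leaf 6 467 468) (node 498 (merge (leaf 7 466 466) (leaf 7 498 530))))))))))) (node 658 (merge (leaf 5 562 690) (node 531 (merge (leaf 5 530 626) (node 628 (merge (leaf 4 531 660) (node 596 (merge (leaf 4 499 499) (node 691 (merge (leaf 6 563 564) (leaf 6 595 723))))))))))))))))))) (merge (node 627 (merge (node 594 (merge (node 593 (merge (leaf 3 559 559) (leaf 1 591 623))) (node 562 (merge (leaf 7 562 691) (node 530 (merge (leaf 4 498 498) (leaf 4 530 626))))))) (merge (node 563 (merge (node 562 (merge (leaf 7 530 530) (node 691 (merge (leaf 7 562 594) (node 692 (merge (leaf 4 563 660) (leaf 4 595 724))))))) (merge (node 532 (merge (leaf 6 531 564) (node 531 (merge (leaf 6 499 500) (node 562 (merge (leaf 7 530 530) (leaf 2 528 561))))))) (node 564 (merge (leaf 6 531 532) (node 691 (merge (leaf 6 563 596) (node 692 (merge (leaf 4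 563 660) (leaf 4 595 724)))))))))) (merge (node 594 (merge (node 593 (merge (leaf 3 559 559) (leaf 1 591 623))) (node 691 (merge (leaf 7 562 562) (node 596 (merge (leaf 6 563 564) (node 723 (merge (leaf 6 595 628) (node 724 (merge (leaf 4 595 692) (leaf 4 627 756))))))))))) (merge (node 563 (merge (node 660 (merge (leaf 4 563 692) (node 532 (merge (leaf 6 531 564) (node 531 (merge (leaf 6 499 500) (leaf 4 531 628))))))) (merge (node 564 (merge (leaf 6 531 532) (node 562 (merge (leaf 7 530 530) (node 561 (merge (leaf 1 560 593) (leaf 0 560 596))))))) (merge (node 562 (merge (leaf 7 530 530) (node 660 (merge (leaf 4 563 692) (node 531 (merge (leaf 4 531 628) (node 532 (merge (leaf 6 499 500) (leaf 2 528 561))))))))) (node 660 (merge (leaf 4 563 692) (node 531 (merge (leaf 4 531 628) (node 498 (merge (leaf 7 498 530) (node 499 (merge (leaf 7 466 466) (node 594 (merge (leaf 5 498 626) (node 593 (merge (leaf 2 560 564) (leaf 1 591 623))))))))))))))))) (merge (node 657 (merge (leaf 4 560 689) (node 564 (merge (node 563 (merge (leaf 6 531 532) (node 562 (merge (leaf 7 530 530)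 (node 561 (merge (leaf 1 560 593) (leaf 0 560 596))))))) (merge (node 563 (merge (leaf 6 531 532) (node 530 (merge (leaf 7 530 562) (node 531 (merge (leaf 7 498 498) (node 660 (merge (leaf 4 531 628) (leaf 4 563 692))))))))) (node 691 (merge (leaf 6 563 596) (node 724 (merge (leaf 4 595 692) (node 723 (merge (leaf 4 627 756) (node 722 (merge (leaf 5 594 690) (leaf 5 626 754)))))))))))))) (node 692 (merge (node 724 (merge (leaf 4 595 691) (node 660 (merge (leaf 7 595 628) (leaf 7 627 756))))) (merge (node 691 (merge (leaf 4 595 724) (node 596 (merge (leaf 6 563 564) (node 723 (merge (leaf 6 595 628) (node 722 (merge (leaf 5 594 690) (leaf 5 626 754))))))))) (merge (node 689 (merge (leaf 4 560 657) (node 660 (merge (leaf 4 563 563) (node 691 (merge (leaf 4 595 724) (node 690 (merge (leaf 2 657 661) (leaf 5 594 722))))))))) (node 563 (merge (leaf 4 563 660) (node 532 (merge (leaf 6 531 564) (node 531 (merge (leaf 6 499 500) (node 498 (merge (leaf 7 498 530) (node 499 (merge (leaf 7 466 466) (node 594 (merge (leaf 5 498 626) (node 593 (merge (leaf 1 591 623) (leaf 0 592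 628))))))))))))))))))))))))) (node 627 (merge (node 657 (merge (leaf 4 560 689) (node 658 (merge (leaf 2 624 628) (node 691 (merge (leaf 0 656 692) (node 564 (merge (leaf 6 563 596) (node 563 (merge (leaf 6 531 532) (leaf 5 562 690))))))))))) (merge (node 657 (merge (leaf 4 560 689) (node 658 (merge (leaf 2 624 628) (node 691 (merge (leaf 0 656 692) (node 562 (merge (leaf 7 562 594) (node 563 (merge (leaf 7 530 530) (leaf 5 562 690))))))))))) (merge (node 657 (merge (leaf 4 560 689) (node 658 (merge (leaf 2 624 628) (node 563 (merge (leaf 5 562 690) (node 532 (merge (leaf 6 531 564) (node 562 (merge (leaf 7 530 530) (node 561 (merge (leaf 2 528 531) (leaf 0 560 596))))))))))))) (merge (node 563 (merge (node 562 (merge (leaf 7 530 530) (node 691 (merge (leaf 7 562 594) (node 692 (merge (leaf 4 563 660) (leaf 4 595 724))))))) (merge (node 532 (merge (leaf 6 531 564) (node 531 (merge (leaf 6 499 500) (node 562 (merge (leaf 7 530 530) (leaf 2 528 561))))))) (node 564 (merge (leaf 6 531 532) (node 691 (merge (leaf 6 563 596) (node 692 (merge (leaf 4 563 660) (leaf 4 595 724))))))))))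 (node 691 (merge (node 594 (merge (leaf 7 562 562) (node 723 (merge (leaf 7 594 626) (node 724 (merge (leaf 4 595 692) (leaf 4 627 756))))))) (merge (node 596 (merge (leaf 6 563 564) (node 723 (merge (leaf 6 595 628) (node 722 (merge (leaf 5 594 690) (leaf 5 626 754))))))) (node 596 (merge (leaf 6 563 564) (node 594 (merge (leaf 7 562 562) (node 692 (merge (leaf 4 595 724) (node 658 (merge (leaf 0 656 657) (node 693 (merge (leaf 3 658 694) (node 690 (merge (leaf 5 594 722) (node 725 (merge (leaf 0 690 726) (node 661 (merge (leaf 2 658 662) (node 629 (merge (leaf 7 596 628) (node 630 (merge (leaf 0 594 597) (leaf 6 597 598)))))))))))))))))))))))))))))))))))) (merge (node 659 (merge (node 689 (merge (leaf 4 560 657) (node 688 (merge (leaf 4 592 721) (node 687 (merge (leaf 5 591 719) (node 690 (merge (leaf 2 655 658) (node 723 (merge (leaf 0 687 722) (node 691 (merge (leaf 2 656 660) (leaf 0 688 724))))))))))))) (merge (node 657 (merge (leaf 4 560 689) (node 658 (merge (leaf 3 623 623) (node 627 (merge (leaf 2 624 628) (node 563 (merge (leaf 5 562 690) (node 532 (merge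 (leaf 6 531 564) (node 531 (merge (leaf 6 499 500) (leaf 5 530 626))))))))))))) (merge (node 657 (merge (leaf 4 560 689) (node 658 (merge (leaf 3 623 623) (node 691 (merge (leaf 0 656 692) (node 627 (merge (leaf 2 624 628) (node 594 (merge (leaf 7 562 562) (node 723 (merge (leaf 7 594 626) (node 756 (merge (leaf 4 627 724) (node 755 (merge (leaf 4 659 788) (node 754 (merge (leaf 5 626 722) (leaf 5 658 786))))))))))))))))))) (merge (node 627 (merge (node 594 (merge (node 593 (merge (leaf 3 559 559) (leaf 1 591 623))) (node 562 (merge (leaf 7 562 691) (node 530 (merge (leaf 4 498 498) (leaf 4 530 626))))))) (merge (node 594 (merge (node 593 (merge (leaf 3 559 559) (leaf 1 591 623))) (node 691 (merge (leaf 7 562 562) (node 596 (merge (leaf 6 563 564) (node 723 (merge (leaf 6 595 628) (node 724 (merge (leaf 4 595 692) (leaf 4 627 756))))))))))) (merge (node 563 (merge (node 564 (merge (leaf 6 531 532) (node 691 (merge (leaf 6 563 596) (node 692 (merge (leaf 4 563 660) (leaf 4 595 724))))))) (merge (node 564 (merge (leaf 6 531 532) (node 691 (merge (leaf 6 563 596) (node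 690 (merge (leaf 5 562 658) (leaf 5 594 722))))))) (merge (node 660 (merge (leaf 4 563 692) (node 531 (merge (leaf 4 531 628) (node 500 (merge (leaf 6 499 532) (node 499 (merge (leaf 6 467 468) (node 498 (merge (leaf 7 466 466) (leaf 7 498 530))))))))))) (node 658 (merge (leaf 5 562 690) (node 531 (merge (leaf 5 530 626) (node 628 (merge (leaf 4 531 660) (node 596 (merge (leaf 4 499 499) (node 691 (merge (leaf 6 563 564) (leaf 6 595 723))))))))))))))) (node 594 (merge (node 593 (merge (leaf 3 559 559) (leaf 1 591 623))) (merge (node 593 (merge (leaf 3 559 559) (leaf 0 592 628))) (node 658 (merge (node 657 (merge (leaf 3 623 623) (leaf 2 624 628))) (node 563 (merge (leaf 5 562 690) (node 532 (merge (leaf 6 531 564) (node 531 (merge (leaf 6 499 500) (leaf 5 530 626)))))))))))))))) (merge (node 594 (merge (node 593 (merge (leaf 3 559 559) (leaf 1 591 623))) (node 689 (merge (leaf 4 560 657) (node 688 (merge (leaf 4 592 721) (node 719 (merge (leaf 5 591 687) (node 720 (merge (leaf 5 623 751) (node 691 (merge (leaf 1 687 690) (node 627 (merge (leaf 7 562 562) (node 564 (merge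 (leaf 6 563 596) (node 563 (merge (leaf 6 531 532) (node 692 (merge (leaf 4 563 660) (leaf 4 595 724))))))))))))))))))))) (node 627 (merge (node 594 (merge (node 593 (merge (leaf 3 559 559) (leaf 1 591 623))) (node 562 (merge (leaf 7 562 691) (node 530 (merge (leaf 4 498 498) (leaf 4 530 626))))))) (merge (node 594 (merge (node 593 (merge (leaf 3 559 559) (leaf 1 591 623))) (node 691 (merge (leaf 7 562 562) (node 596 (merge (leaf 6 563 564) (node 723 (merge (leaf 6 595 628) (node 724 (merge (leaf 4 595 692) (leaf 4 627 756))))))))))) (merge (node 563 (merge (node 564 (merge (leaf 6 531 532) (node 691 (merge (leaf 6 563 596) (node 692 (merge (leaf 4 563 660) (leaf 4 595 724))))))) (merge (node 564 (merge (leaf 6 531 532) (node 691 (merge (leaf 6 563 596) (node 690 (merge (leaf 5 562 658) (leaf 5 594 722))))))) (merge (node 660 (merge (leaf 4 563 692) (node 531 (merge (leaf 4 531 628) (node 500 (merge (leaf 6 499 532) (node 499 (merge (leaf 6 467 468) (node 498 (merge (leaf 7 466 466) (leaf 7 498 530))))))))))) (node 658 (merge (leaf 5 562 690) (node 531 (merge (leaf 5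 530 626) (node 628 (merge (leaf 4 531 660) (node 596 (merge (leaf 4 499 499) (node 691 (merge (leaf 6 563 564) (leaf 6 595 723))))))))))))))) (node 660 (merge (node 692 (merge (leaf 4 563 563) (node 724 (merge (leaf 7 595 628) (leaf 7 627 756))))) (merge (node 593 (merge (node 594 (merge (leaf 3 559 559) (leaf 1 591 623))) (node 563 (merge (leaf 4 563 692) (node 532 (merge (leaf 6 531 564) (node 531 (merge (leaf 6 499 500) (node 658 (merge (leaf 5 530 626) (leaf 5 562 690))))))))))) (merge (node 661 (merge (node 662 (merge (leaf 3 626 626) (node 695 (merge (leaf 0 659 694) (node 663 (merge (leaf 3 627 628) (leaf 0 660 696))))))) (merge (node 662 (merge (leaf 3 626 626) (node 631 (merge (leaf 2 627 630) (node 663 (merge (leaf 3 627 628) (leaf 2 628 632))))))) (merge (node 662 (merge (leaf 3 626 626) (node 694 (merge (leaf 0 659 695) (node 658 (merge (leaf 0 658 693) (node 630 (merge (leaf 2 626 629) (leaf 2 627 631))))))))) (merge (node 662 (merge (node 695 (merge (leaf 0 659 694) (node 663 (merge (leaf 3 627 628) (leaf 0 660 696))))) (merge (node 631 (merge (leaf 2 627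 630) (node 663 (merge (leaf 3 627 628) (leaf 2 628 632))))) (node 694 (merge (leaf 0 659 695) (node 658 (merge (leaf 0 658 693) (node 630 (merge (leaf 2 626 629) (leaf 2 627 631)))))))))) (node 563 (merge (node 532 (merge (leaf 6 531 564) (node 531 (merge (leaf 6 499 500) (leaf 4 531 628))))) (merge (node 531 (merge (leaf 4 531 628) (node 658 (merge (leaf 5 530 626) (leaf 5 562 690))))) (node 564 (merge (leaf 6 531 532) (node 562 (merge (leaf 7 530 530) (node 658 (merge (leaf 5 562 690) (node 693 (merge (leaf 0 658 694) (node 629 (merge (leaf 2 626 630) (node 597 (merge (leaf 7 564 596) (node 598 (merge (leaf 0 562 565) (leaf 6 565 566))))))))))))))))))))))) (node 661 (merge (node 662 (merge (leaf 3 626 626) (node 695 (merge (leaf 0 659 694) (node 663 (merge (leaf 3 627 628) (leaf 0 660 696))))))) (merge (node 662 (merge (leaf 3 626 626) (node 631 (merge (leaf 2 627 630) (node 663 (merge (leaf 3 627 628) (leaf 2 628 632))))))) (merge (node 662 (merge (leaf 3 626 626) (node 694 (merge (leaf 0 659 695) (node 658 (merge (leaf 0 658 693) (node 630 (merge (leaf 2 626 629)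 (leaf 2 627 631))))))))) (merge (node 662 (merge (node 695 (merge (leaf 0 659 694) (node 663 (merge (leaf 3 627 628) (leaf 0 660 696))))) (merge (node 631 (merge (leaf 2 627 630) (node 663 (merge (leaf 3 627 628) (leaf 2 628 632))))) (node 694 (merge (leaf 0 659 695) (node 658 (merge (leaf 0 658 693) (node 630 (merge (leaf 2 626 629) (leaf 2 627 631)))))))))) (node 693 (merge (node 694 (merge (leaf 0 658 658) (node 695 (merge (leaf 3 659 692) (leaf 3 660 696))))) (merge (node 658 (merge (leaf 0 658 694) (node 690 (merge (leaf 1 657 689) (node 722 (merge (leaf 6 594 626) (leaf 6 626 754))))))) (node 628 (merge (node 725 (merge (leaf 7 628 757) (node 629 (merge (leaf 7 596 596) (node 630 (merge (leaf 3 594 594) (leaf 1 627 631))))))) (merge (node 692 (merge (leaf 7 595 724) (node 596 (merge (leaf 4 564 564) (node 597 (merge (leaf 6 564 565) (node 598 (merge (leaf 1 595 599) (leaf 1 594 626))))))))) (node 724 (merge (leaf 7 595 692) (node 725 (merge (leaf 7 628 757) (node 629 (merge (leaf 5 628 756) (node 630 (merge (leaf 3 594 594) (leaf 1 627 631))))))))))))))))))))))))))))))))))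 (merge (node 659 (merge (node 689 (merge (leaf 4 560 657) (node 688 (merge (leaf 4 592 721) (node 687 (merge (leaf 5 591 719) (node 690 (merge (leaf 2 655 658) (node 723 (merge (leaf 0 687 722) (node 691 (merge (leaf 2 656 660) (leaf 0 688 724))))))))))))) (merge (node 657 (merge (leaf 4 560 689) (node 658 (merge (leaf 3 623 623) (node 627 (merge (leaf 2 624 628) (node 563 (merge (leaf 5 562 690) (node 532 (merge (leaf 6 531 564) (node 531 (merge (leaf 6 499 500) (leaf 5 530 626))))))))))))) (merge (node 657 (merge (leaf 4 560 689) (node 658 (merge (leaf 3 623 623) (node 691 (merge (leaf 0 656 692) (node 627 (merge (leaf 2 624 628) (node 594 (merge (leaf 7 562 562) (node 723 (merge (leaf 7 594 626) (node 756 (merge (leaf 4 627 724) (node 755 (merge (leaf 4 659 788) (node 754 (merge (leaf 5 626 722) (leaf 5 658 786))))))))))))))))))) (merge (node 691 (merge (node 689 (merge (leaf 4 560 657) (node 688 (merge (leaf 4 592 721) (node 719 (merge (leaf 5 591 687) (node 720 (merge (leaf 1 687 690) (leaf 5 623 751))))))))) (node 627 (merge (node 594 (merge (leaf 7 562 562) (node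 723 (merge (leaf 7 594 626) (node 724 (merge (leaf 4 595 692) (leaf 4 627 756))))))) (merge (node 596 (merge (leaf 6 563 564) (node 723 (merge (leaf 6 595 628) (node 724 (merge (leaf 4 595 692) (leaf 4 627 756))))))) (merge (node 594 (merge (leaf 7 562 562) (node 723 (merge (leaf 7 594 626) (node 628 (merge (leaf 6 595 596) (node 755 (merge (leaf 6 627 660) (node 754 (merge (leaf 5 626 722) (leaf 5 658 786))))))))))) (node 596 (merge (leaf 6 563 564) (node 692 (merge (leaf 4 595 724) (node 563 (merge (leaf 4 563 660) (node 562 (merge (leaf 7 530 530) (leaf 0 560 561))))))))))))))) (merge (node 627 (merge (node 563 (merge (node 562 (merge (leaf 7 530 530) (node 691 (merge (leaf 7 562 594) (node 692 (merge (leaf 4 563 660) (leaf 4 595 724))))))) (merge (node 532 (merge (leaf 6 531 564) (node 531 (merge (leaf 6 499 500) (node 562 (merge (leaf 7 530 530) (leaf 2 528 561))))))) (node 564 (merge (leaf 6 531 532) (node 691 (merge (leaf 6 563 596) (node 692 (merge (leaf 4 563 660) (leaf 4 595 724)))))))))) (merge (node 563 (merge (node 562 (merge (leaf 7 530 530) (node 691 (merge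 (leaf 7 562 594) (node 692 (merge (leaf 4 563 660) (leaf 4 595 724))))))) (merge (node 562 (merge (leaf 7 530 530) (node 691 (merge (leaf 7 562 594) (node 690 (merge (leaf 5 562 658) (leaf 5 594 722))))))) (merge (node 692 (merge (leaf 4 563 660) (node 691 (merge (leaf 4 595 724) (node 690 (merge (leaf 5 562 658) (leaf 5 594 722))))))) (node 660 (merge (leaf 4 563 692) (node 531 (merge (leaf 4 531 628) (node 658 (merge (leaf 5 530 626) (leaf 5 562 690))))))))))) (merge (node 563 (merge (node 658 (merge (leaf 5 562 690) (node 628 (merge (leaf 2 624 657) (node 531 (merge (leaf 5 530 626) (leaf 4 531 660))))))) (merge (node 532 (merge (leaf 6 531 564) (node 531 (merge (leaf 6 499 500) (node 562 (merge (leaf 7 530 530) (leaf 2 528 561))))))) (node 658 (merge (leaf 5 562 690) (node 657 (merge (leaf 3 623 623) (leaf 2 624 628)))))))) (merge (node 563 (merge (node 564 (merge (leaf 6 531 532) (node 691 (merge (leaf 6 563 596) (node 692 (merge (leaf 4 563 660) (leaf 4 595 724))))))) (merge (node 564 (merge (leaf 6 531 532) (node 691 (merge (leaf 6 563 596) (node 690 (merge (leaf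 5 562 658) (leaf 5 594 722))))))) (merge (node 660 (merge (leaf 4 563 692) (node 531 (merge (leaf 4 531 628) (node 500 (merge (leaf 6 499 532) (node 499 (merge (leaf 6 467 468) (node 498 (merge (leaf 7 466 466) (leaf 7 498 530))))))))))) (node 658 (merge (leaf 5 562 690) (node 531 (merge (leaf 5 530 626) (node 628 (merge (leaf 4 531 660) (node 596 (merge (leaf 4 499 499) (node 691 (merge (leaf 6 563 564) (leaf 6 595 723))))))))))))))) (node 691 (merge (node 594 (merge (leaf 7 562 562) (node 723 (merge (leaf 7 594 626) (node 724 (merge (leaf 4 595 692) (leaf 4 627 756))))))) (merge (node 596 (merge (leaf 6 563 564) (node 723 (merge (leaf 6 595 628) (node 722 (merge (leaf 5 594 690) (leaf 5 626 754))))))) (node 596 (merge (leaf 6 563 564) (node 594 (merge (leaf 7 562 562) (node 692 (merge (leaf 4 595 724) (node 658 (merge (leaf 0 656 657) (node 693 (merge (leaf 3 658 694) (node 690 (merge (leaf 5 594 722) (node 725 (merge (leaf 0 690 726) (node 661 (merge (leaf 2 658 662) (node 629 (merge (leaf 7 596 628) (node 630 (merge (leaf 0 594 597) (leaf 6 597 598)))))))))))))))))))))))))))))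 (hyp 0))))))) (hyp 1))))))))) nP_163 cP_163 15 (by decide +kernel)
def nP_164 : ℕ := 0x10000000100000001000000000000000000000000000000000000000000000000000000000000000000000000000000000000000000000000000000000000000000000000000000000000
def cP_164 : ℕ := 0x140000003e8000007f800001ff800000ff800001ff800000fe000001fe8000007c0000007f8000003f8000001f800000148000000000000000000000000000000000000000000000000000000000000000000000000000000000000000000000000000
theorem lP_164 : S nP_164 cP_164 17 := S_of_chk [(nP_159, cP_159, 12), (nP_160, cP_160, 14), (nP_161, cP_161, 13), (nP_163, cP_163, 15)] ⟨lP_159, lP_160, lP_161, lP_163, trivial⟩ (node 624 (merge (node 657 (merge (leaf 4 528 625) (node 656 (merge (leaf 4 560 689) (node 655 (merge (leaf 5 527 623) (leaf 5 559 687))))))) (merge (node 625 (merge (leaf 4 528 657) (node 496 (merge (leaf 4 496 593) (node 465 (merge (leaf 6 464 497) (node 464 (merge (leaf 6 432 433) (node 463 (merge (leaf 7 431 431) (leaf 7 463 495))))))))))) (merge (node 496 (merge (node 465 (merge (leaf 6 464 497) (node 464 (merge (leaf 6 432 433) (node 463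 (merge (leaf 7 431 431) (leaf 7 463 495))))))) (merge (node 593 (merge (leaf 4 496 625) (node 463 (merge (leaf 7 463 495) (node 464 (merge (leaf 7 431 431) (leaf 4 464 561))))))) (merge (node 593 (merge (leaf 4 496 625) (node 465 (merge (leaf 6 464 497) (node 464 (merge (leaf 6 432 433) (leaf 4 464 561))))))) (node 593 (merge (leaf 4 496 625) (node 497 (merge (leaf 6 464 465) (node 498 (merge (node 495 (merge (leaf 7 463 463) (node 530 (merge (leaf 0 495 531) (node 466 (merge (leaf 2 463 467) (node 561 (merge (leaf 5 465 562) (node 656 (merge (leaf 6 560 688) (node 655 (merge (leaf 5 527 623) (leaf 5 559 687))))))))))))) (merge (node 495 (merge (leaf 7 463 463) (node 595 (merge (node 594 (merge (leaf 3 559 559) (leaf 1 591 623))) (merge (node 594 (merge (leaf 3 559 559) (node 564 (merge (leaf 2 560 563) (node 596 (merge (leaf 3 560 561) (leaf 2 561 565))))))) (node 466 (merge (leaf 2 463 467) (node 655 (merge (leaf 5 527 623) (node 656 (merge (leaf 5 559 687) (node 561 (merge (leaf 6 560 688) (node 562 (merge (leaf 5 465 530) (node 563 (merge (leaf 1 560 564) (leaf 0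 560 596)))))))))))))))))) (merge (node 495 (merge (leaf 7 463 463) (node 530 (merge (leaf 0 495 531) (node 655 (merge (leaf 5 527 623) (node 656 (merge (leaf 5 559 687) (node 561 (merge (leaf 6 560 688) (node 562 (merge (leaf 5 465 466) (node 563 (merge (leaf 1 560 564) (node 595 (merge (leaf 0 560 596) (node 627 (merge (leaf 4 498 594) (leaf 7 530 659))))))))))))))))))) (merge (node 495 (merge (leaf 7 463 463) (node 531 (merge (leaf 0 495 530) (node 499 (merge (leaf 0 496 532) (node 468 (merge (leaf 2 464 467) (node 500 (merge (leaf 2 465 469) (node 595 (merge (leaf 6 467 563) (node 594 (merge (leaf 3 559 559) (node 628 (merge (leaf 0 592 627) (node 596 (merge (leaf 3 560 561) (leaf 0 593 629))))))))))))))))))) (merge (node 499 (merge (node 495 (merge (leaf 7 463 463) (node 467 (merge (leaf 2 463 466) (leaf 2 464 468))))) (merge (node 532 (merge (leaf 0 496 531) (node 500 (merge (leaf 0 497 533) (node 468 (merge (leaf 2 464 467) (leaf 2 465 469))))))) (merge (node 531 (merge (leaf 0 496 532) (node 495 (merge (leaf 7 463 463) (node 466 (merge (leaf 2 463 467) (node 595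 (merge (leaf 7 466 563) (node 594 (merge (leaf 3 559 559) (leaf 1 591 623))))))))))) (node 532 (merge (leaf 0 496 531) (node 500 (merge (leaf 0 497 533) (node 468 (merge (leaf 2 465 469) (node 623 (merge (leaf 5 527 655) (node 595 (merge (leaf 1 591 594) (node 564 (merge (leaf 5 467 563) (node 597 (merge (leaf 4 468 565) (node 596 (merge (leaf 5 499 627) (leaf 4 500 629))))))))))))))))))))) (node 499 (merge (node 532 (merge (leaf 0 496 531) (node 500 (merge (leaf 0 497 533) (node 468 (merge (leaf 2 464 467) (leaf 2 465 469))))))) (merge (node 531 (merge (leaf 0 496 532) (node 623 (merge (leaf 5 527 655) (node 595 (merge (leaf 1 591 594) (node 563 (merge (leaf 7 466 466) (node 627 (merge (leaf 7 498 530) (node 628 (merge (leaf 4 499 596) (leaf 4 531 660))))))))))))) (merge (node 467 (merge (leaf 2 464 468) (node 623 (merge (leaf 5 527 655) (node 594 (merge (leaf 1 591 595) (node 562 (merge (leaf 6 466 530) (node 563 (merge (leaf 5 466 531) (node 564 (merge (leaf 1 560 561) (leaf 1 561 565))))))))))))) (node 468 (merge (leaf 2 464 467) (node 500 (merge (leaf 2 465 469)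 (node 532 (merge (leaf 0 497 533) (node 623 (merge (leaf 5 527 655) (node 595 (merge (leaf 1 591 594) (node 564 (merge (leaf 5 467 563) (node 597 (merge (leaf 4 468 565) (node 596 (merge (leaf 5 499 627) (leaf 4 500 629))))))))))))))))))))))))))))))))))) (node 656 (merge (node 655 (merge (leaf 5 527 623) (leaf 5 559 687))) (merge (node 689 (merge (leaf 4 560 657) (node 688 (merge (leaf 4 592 721) (node 687 (merge (leaf 5 559 655) (leaf 5 591 719))))))) (merge (node 595 (merge (node 623 (merge (leaf 5 527 655) (node 593 (merge (leaf 1 591 594) (node 689 (merge (leaf 4 560 657) (node 688 (merge (leaf 6 560 561) (leaf 4 592 721))))))))) (merge (node 657 (merge (leaf 4 560 689) (node 658 (merge (node 623 (merge (leaf 5 527 655) (leaf 3 623 659))) (merge (node 659 (merge (leaf 3 623 623) (node 692 (merge (leaf 0 656 691) (node 660 (merge (leaf 0 657 693) (node 628 (merge (leaf 2 624 627) (leaf 2 625 629))))))))) (merge (node 594 (merge (node 593 (merge (leaf 3 559 559) (leaf 1 591 623))) (merge (node 655 (merge (leaf 5 527 623) (node 690 (merge (leaf 0 655 691) (node 626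 (merge (leaf 6 562 563) (leaf 2 623 627))))))) (node 593 (merge (leaf 3 559 559) (node 628 (merge (leaf 0 592 627) (node 596 (merge (leaf 0 593 629) (node 564 (merge (leaf 2 560 563) (leaf 2 561 565)))))))))))) (node 627 (merge (node 626 (merge (leaf 2 623 655) (node 628 (merge (leaf 1 625 629) (leaf 2 624 659))))) (merge (node 659 (merge (leaf 2 624 628) (node 691 (merge (leaf 0 656 692) (node 564 (merge (leaf 6 563 596) (node 563 (merge (leaf 6 531 532) (leaf 5 562 690))))))))) (merge (node 655 (merge (leaf 2 623 626) (node 691 (merge (leaf 0 655 690) (node 659 (merge (leaf 0 656 692) (node 564 (merge (leaf 6 563 596) (node 594 (merge (leaf 7 562 562) (node 593 (merge (leaf 3 559 559) (leaf 2 560 563))))))))))))) (node 626 (merge (leaf 2 623 655) (node 690 (merge (leaf 6 594 722) (node 594 (merge (leaf 6 562 563) (node 593 (merge (leaf 3 559 559) (leaf 0 592 628))))))))))))))))))) (merge (node 689 (merge (leaf 4 560 657) (node 688 (merge (leaf 4 592 721) (node 593 (merge (leaf 6 560 561) (node 594 (merge (leaf 3 559 559) (node 628 (merge (leaf 0 592 627) (node 596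 (merge (leaf 0 593 629) (node 564 (merge (leaf 2 560 563) (leaf 2 561 565))))))))))))))) (merge (node 623 (merge (leaf 5 527 655) (hyp 0))) (merge (hyp 1) (node 659 (merge (node 657 (merge (leaf 4 560 689) (node 623 (merge (leaf 5 527 655) (leaf 3 623 658))))) (merge (node 691 (merge (node 689 (merge (leaf 4 560 657) (node 688 (merge (leaf 4 592 721) (node 690 (merge (leaf 3 655 655) (leaf 2 656 660))))))) (merge (node 627 (merge (node 594 (merge (leaf 7 562 562) (node 723 (merge (leaf 7 594 626) (node 724 (merge (leaf 4 595 692) (leaf 4 627 756))))))) (merge (node 596 (merge (leaf 6 563 564) (node 723 (merge (leaf 6 595 628) (node 724 (merge (leaf 4 595 692) (leaf 4 627 756))))))) (merge (node 594 (merge (leaf 7 562 562) (node 723 (merge (leaf 7 594 626) (node 628 (merge (leaf 6 595 596) (node 755 (merge (leaf 6 627 660) (node 754 (merge (leaf 5 626 722) (leaf 5 658 786))))))))))) (node 596 (merge (leaf 6 563 564) (node 692 (merge (leaf 4 595 724) (node 563 (merge (leaf 4 563 660) (node 562 (merge (leaf 7 530 530) (leaf 0 560 561))))))))))))) (node 689 (merge (leaf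 4 560 657) (node 688 (merge (leaf 4 592 721) (node 690 (merge (leaf 3 655 655) (node 723 (merge (leaf 0 688 724) (node 627 (merge (leaf 5 594 722) (node 594 (merge (leaf 7 562 562) (leaf 7 594 626)))))))))))))))) (merge (node 627 (merge (node 563 (merge (node 562 (merge (leaf 7 530 530) (node 691 (merge (leaf 7 562 594) (node 692 (merge (leaf 4 563 660) (leaf 4 595 724))))))) (merge (node 532 (merge (leaf 6 531 564) (node 531 (merge (leaf 6 499 500) (node 562 (merge (leaf 7 530 530) (leaf 2 528 561))))))) (node 564 (merge (leaf 6 531 532) (node 691 (merge (leaf 6 563 596) (node 692 (merge (leaf 4 563 660) (leaf 4 595 724)))))))))) (merge (node 563 (merge (node 562 (merge (leaf 7 530 530) (node 691 (merge (leaf 7 562 594) (node 692 (merge (leaf 4 563 660) (leaf 4 595 724))))))) (merge (node 562 (merge (leaf 7 530 530) (node 691 (merge (leaf 7 562 594) (node 690 (merge (leaf 5 562 658) (leaf 5 594 722))))))) (merge (node 692 (merge (leaf 4 563 660) (node 691 (merge (leaf 4 595 724) (node 690 (merge (leaf 5 562 658) (leaf 5 594 722))))))) (node 660 (merge (leaf 4 563 692)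 (node 531 (merge (leaf 4 531 628) (node 658 (merge (leaf 5 530 626) (leaf 5 562 690))))))))))) (merge (node 563 (merge (node 658 (merge (leaf 5 562 690) (node 628 (merge (leaf 2 624 657) (node 531 (merge (leaf 5 530 626) (leaf 4 531 660))))))) (merge (node 532 (merge (leaf 6 531 564) (node 531 (merge (leaf 6 499 500) (node 562 (merge (leaf 7 530 530) (leaf 2 528 561))))))) (node 658 (merge (leaf 5 562 690) (node 657 (merge (leaf 3 623 623) (leaf 2 624 628)))))))) (merge (node 563 (merge (node 564 (merge (leaf 6 531 532) (node 691 (merge (leaf 6 563 596) (node 692 (merge (leaf 4 563 660) (leaf 4 595 724))))))) (merge (node 564 (merge (leaf 6 531 532) (node 691 (merge (leaf 6 563 596) (node 690 (merge (leaf 5 562 658) (leaf 5 594 722))))))) (merge (node 660 (merge (leaf 4 563 692) (node 531 (merge (leaf 4 531 628) (node 500 (merge (leaf 6 499 532) (node 499 (merge (leaf 6 467 468) (node 498 (merge (leaf 7 466 466) (leaf 7 498 530))))))))))) (node 658 (merge (leaf 5 562 690) (node 531 (merge (leaf 5 530 626) (node 628 (merge (leaf 4 531 660) (node 596 (merge (leaf 4 499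 499) (node 691 (merge (leaf 6 563 564) (leaf 6 595 723))))))))))))))) (node 691 (merge (node 594 (merge (leaf 7 562 562) (node 723 (merge (leaf 7 594 626) (node 724 (merge (leaf 4 595 692) (leaf 4 627 756))))))) (merge (node 596 (merge (leaf 6 563 564) (node 723 (merge (leaf 6 595 628) (node 722 (merge (leaf 5 594 690) (leaf 5 626 754))))))) (node 596 (merge (leaf 6 563 564) (node 594 (merge (leaf 7 562 562) (node 692 (merge (leaf 4 595 724) (node 658 (merge (leaf 0 656 657) (node 693 (merge (leaf 3 658 694) (node 690 (merge (leaf 5 594 722) (node 725 (merge (leaf 0 690 726) (node 661 (merge (leaf 2 658 662) (node 629 (merge (leaf 7 596 628) (node 630 (merge (leaf 0 594 597) (leaf 6 597 598))))))))))))))))))))))))))))) (hyp 2))))))))))) (hyp 3))))))))) nP_164 cP_164 17 (by decide +kernel)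
def nP_165 : ℕ := 0x10000000300000001000000010000000000000000000000000000000000000000000000000000000000000000000000000000000000000000000000000000000000000000000000000000
def cP_165 : ℕ := 0x1c0000001c0000003ef000001ce000001c7000007e800000fe8000007c000000fc0000001000000000000000000000000000000000000000000000000000000000000000000000000000000000000000000000
theorem lP_165 : S nP_165 cP_165 13 := S_of_chk [] trivial (node 531 (merge (node 497 (merge (leaf 6 464 465) (node 495 (merge (leaf 7 463 463) (node 498 (merge (leaf 0 495 530) (node 499 (merge (leaf 0 496 532) (node 467 (merge (leaf 2 463 466) (leaf 2 464 468))))))))))) (merge (node 562 (merge (node 559 (merge (leaf 2 527 530) (node 595 (merge (leaf 0 559 594) (node 563 (merge (leaf 2 528 532) (leaf 0 560 596))))))) (merge (node 563 (merge (leaf 2 528 532) (node 564 (merge (leaf 1 560 593) (node 596 (merge (leaf 0 560 595) (leaf 0 561 597))))))) (merge (node 559 (merge (leaf 2 527 530) (node 563 (merge (leaf 2 528 532) (node 593 (merge (leaf 1 560 564) (node 558 (merge (leaf 0 557 557) (leaf 0 558 594))))))))) (node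 559 (merge (leaf 2 527 530) (node 594 (merge (leaf 0 559 595) (node 558 (merge (leaf 0 558 593) (node 589 (merge (leaf 1 557 590) (node 557 (merge (leaf 1 556 588) (node 525 (merge (leaf 3 524 524) (leaf 3 525 526))))))))))))))))) (merge (node 497 (merge (leaf 6 464 465) (node 495 (merge (leaf 7 463 463) (node 530 (merge (leaf 0 495 498) (node 562 (merge (leaf 2 527 559) (node 563 (merge (leaf 1 559 591) (node 595 (merge (leaf 0 560 596) (node 627 (merge (leaf 7 530 659) (node 626 (merge (leaf 5 530 658) (node 499 (merge (leaf 6 498 594) (node 468 (merge (leaf 6 467 500) (node 467 (merge (leaf 5 434 435) (leaf 6 435 436))))))))))))))))))))))) (node 499 (merge (node 497 (merge (leaf 6 464 465) (node 498 (merge (leaf 0 496 532) (node 495 (merge (leaf 7 463 463) (node 467 (merge (leaf 2 463 466) (leaf 2 464 468))))))))) (merge (node 563 (merge (node 562 (merge (leaf 2 528 532) (node 596 (merge (leaf 0 560 595) (node 564 (merge (leaf 1 560 593) (leaf 0 561 597))))))) (merge (node 562 (merge (leaf 2 528 532) (node 564 (merge (leaf 1 560 593) (node 467 (merge (leaf 5 466 594)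 (leaf 4 467 596))))))) (merge (node 562 (merge (node 564 (merge (leaf 1 560 593) (node 596 (merge (leaf 0 560 595) (leaf 0 561 597))))) (merge (node 467 (merge (leaf 5 466 594) (node 468 (merge (leaf 6 435 436) (node 595 (merge (leaf 6 467 500) (node 466 (merge (leaf 7 434 434) (leaf 7 466 498))))))))) (node 564 (merge (leaf 1 560 593) (node 467 (merge (leaf 5 466 594) (leaf 4 467 596)))))))) (merge (node 562 (merge (leaf 2 528 532) (node 467 (merge (leaf 5 466 594) (node 468 (merge (leaf 6 435 436) (node 595 (merge (leaf 6 467 500) (node 466 (merge (leaf 7 434 434) (leaf 7 466 498))))))))))) (node 595 (merge (node 596 (merge (leaf 4 499 628) (node 594 (merge (leaf 3 560 593) (leaf 5 498 626))))) (merge (node 500 (merge (leaf 6 467 468) (node 627 (merge (leaf 6 499 532) (node 628 (merge (leaf 4 499 596) (leaf 4 531 660))))))) (node 500 (merge (leaf 6 467 468) (node 627 (merge (leaf 6 499 532) (node 626 (merge (leaf 5 498 594) (leaf 5 530 658))))))))))))))) (merge (node 563 (merge (node 497 (merge (leaf 6 464 465) (node 532 (merge (leaf 0 496 498) (leaf 2 528 562)))))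 (merge (node 562 (merge (leaf 2 528 532) (node 596 (merge (leaf 0 560 595) (node 564 (merge (leaf 1 560 593) (leaf 0 561 597))))))) (merge (node 562 (merge (node 564 (merge (leaf 1 560 593) (node 596 (merge (leaf 0 560 595) (leaf 0 561 597))))) (merge (node 564 (merge (leaf 1 560 593) (node 467 (merge (leaf 5 466 594) (leaf 4 467 596))))) (node 497 (merge (leaf 6 464 465) (node 467 (merge (leaf 5 466 594) (node 468 (merge (leaf 6 435 436) (leaf 2 464 498)))))))))) (node 497 (merge (leaf 6 464 465) (node 498 (merge (leaf 0 496 532) (node 467 (merge (leaf 2 464 468) (node 596 (merge (leaf 4 467 564) (node 595 (merge (leaf 4 499 628) (node 594 (merge (leaf 3 560 593) (leaf 5 498 626))))))))))))))))) (merge (node 563 (merge (node 497 (merge (leaf 6 464 465) (node 532 (merge (leaf 0 496 498) (leaf 2 528 562))))) (merge (node 562 (merge (leaf 2 528 532) (node 596 (merge (leaf 0 560 595) (node 564 (merge (leaf 1 560 593) (leaf 0 561 597))))))) (merge (node 497 (merge (leaf 6 464 465) (node 498 (merge (leaf 0 496 532) (node 595 (merge (leaf 7 466 466) (node 596 (merge (leaf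 4 499 628) (node 594 (merge (leaf 3 560 593) (leaf 5 498 626))))))))))) (node 595 (merge (node 596 (merge (leaf 0 560 562) (leaf 4 499 628))) (node 594 (merge (leaf 5 498 626) (node 593 (merge (leaf 3 559 559) (leaf 2 560 564))))))))))) (merge (node 563 (merge (node 562 (merge (leaf 2 528 532) (node 596 (merge (leaf 0 560 595) (node 564 (merge (leaf 1 560 593) (leaf 0 561 597))))))) (merge (node 562 (merge (leaf 2 528 532) (node 564 (merge (leaf 1 560 593) (node 467 (merge (leaf 5 466 594) (leaf 4 467 596))))))) (merge (node 595 (merge (node 596 (merge (leaf 0 560 562) (leaf 4 499 628))) (merge (node 594 (merge (leaf 5 498 626) (node 562 (merge (leaf 5 466 467) (leaf 0 559 559))))) (node 596 (merge (leaf 4 499 628) (node 594 (merge (leaf 3 560 593) (leaf 5 498 626)))))))) (merge (node 595 (merge (node 596 (merge (leaf 4 499 628) (node 594 (merge (leaf 3 560 593) (leaf 5 498 626))))) (merge (node 500 (merge (leaf 6 467 468) (node 627 (merge (leaf 6 499 532) (node 628 (merge (leaf 4 499 596) (leaf 4 531 660))))))) (node 500 (merge (leaf 6 467 468) (node 627 (merge (leaf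 6 499 532) (node 626 (merge (leaf 5 498 594) (leaf 5 530 658)))))))))) (node 495 (merge (leaf 7 463 463) (node 562 (merge (leaf 2 528 532) (node 467 (merge (leaf 5 466 594) (node 468 (merge (leaf 6 435 436) (node 500 (merge (leaf 6 467 595) (node 466 (merge (leaf 7 434 434) (node 501 (merge (leaf 0 465 465) (leaf 3 466 502)))))))))))))))))))) (merge (node 467 (merge (node 497 (merge (leaf 6 464 465) (node 495 (merge (leaf 7 463 463) (node 498 (merge (leaf 2 463 466) (leaf 2 464 468))))))) (merge (node 497 (merge (leaf 6 464 465) (node 468 (merge (leaf 2 464 498) (node 563 (merge (leaf 6 435 436) (node 595 (merge (leaf 6 467 500) (node 594 (merge (leaf 5 466 562) (leaf 5 498 626))))))))))) (merge (node 436 (merge (node 404 (merge (leaf 6 403 435) (node 468 (merge (leaf 5 371 372) (leaf 5 403 500))))) (merge (node 563 (merge (leaf 6 435 468) (node 564 (merge (leaf 4 467 596) (node 562 (merge (leaf 1 560 593) (leaf 5 466 594))))))) (node 435 (merge (leaf 6 403 404) (node 434 (merge (leaf 7 402 402) (node 563 (merge (leaf 7 434 466) (node 564 (merge (leaf 4 467 596) (node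 562 (merge (leaf 1 560 593) (leaf 5 466 594)))))))))))))) (node 497 (merge (leaf 6 464 465) (node 495 (merge (leaf 7 463 463) (node 466 (merge (leaf 2 463 498) (node 563 (merge (leaf 7 434 434) (node 564 (merge (leaf 4 467 596) (node 562 (merge (leaf 1 560 593) (leaf 5 466 594))))))))))))))))) (node 467 (merge (node 497 (merge (leaf 6 464 465) (node 498 (merge (leaf 0 496 532) (node 495 (merge (leaf 7 463 463) (leaf 2 463 466))))))) (merge (node 563 (merge (node 562 (merge (leaf 2 528 532) (leaf 5 466 594))) (merge (node 466 (merge (leaf 7 434 434) (node 595 (merge (leaf 7 466 498) (node 596 (merge (leaf 0 560 562) (leaf 4 467 564))))))) (node 466 (merge (leaf 7 434 434) (node 595 (merge (leaf 7 466 498) (node 596 (merge (leaf 4 467 564) (leaf 4 499 628)))))))))) (merge (node 497 (merge (leaf 6 464 465) (node 495 (merge (leaf 7 463 463) (node 466 (merge (leaf 2 463 498) (node 563 (merge (leaf 7 434 434) (node 564 (merge (leaf 4 467 596) (node 562 (merge (leaf 1 560 593) (leaf 5 466 594))))))))))))) (merge (node 497 (merge (leaf 6 464 465) (node 532 (merge (leaf 0 496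 498) (node 435 (merge (leaf 4 435 564) (node 404 (merge (leaf 6 403 436) (node 403 (merge (leaf 6 371 372) (leaf 4 403 500))))))))))) (node 434 (merge (node 563 (merge (leaf 7 434 466) (node 562 (merge (leaf 2 528 532) (leaf 5 466 594))))) (merge (node 563 (merge (leaf 7 434 466) (node 564 (merge (leaf 4 467 596) (node 562 (merge (leaf 1 560 593) (leaf 5 466 594))))))) (merge (node 435 (merge (leaf 7 402 402) (node 564 (merge (leaf 4 435 532) (node 563 (merge (leaf 4 467 596) (node 562 (merge (leaf 1 560 593) (leaf 5 466 594))))))))) (node 465 (merge (leaf 6 464 497) (node 435 (merge (leaf 7 402 402) (node 436 (merge (leaf 6 403 404) (node 437 (merge (leaf 1 433 466) (node 470 (merge (leaf 0 434 469) (node 438 (merge (leaf 0 435 471) (node 406 (merge (leaf 2 402 405) (leaf 2 403 407))))))))))))))))))))))))))))))))))) nP_165 cP_165 13 (by decide +kernel)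
def nP_166 : ℕ := 0x80000000000000010000000700000000000000000000000000000000000000000000000000000000000000000000000000000000000000000000000000000000000000000000000000000000000000000000
def cP_166 : ℕ := 0x80000000e0000000e0000002e000001ffc00000f7800000d7800000ee0000000f0000000700000006000000000000000000000000000000000000000000000000000000000000000000000000000000000000000000000000000000000000000000000000000
theorem lP_166 : S nP_166 cP_166 14 := S_of_chk [] trivial (node 656 (merge (node 591 (merge (node 590 (merge (leaf 1 558 559) (leaf 2 557 589))) (merge (node 590 (merge (leaf 2 557 589) (leaf 2 558 593))) (node 624 (merge (leaf 5 559 687) (node 688 (merge (leaf 7 559 559) (leaf 6 560 593)))))))) (merge (node 657 (merge (node 624 (merge (leaf 5 559 687) (leaf 4 560 689))) (merge (node 689 (merge (leaf 4 560 624) (node 654 (merge (leaf 0 654 690) (node 653 (merge (leaf 0 653 688) (node 685 (merge (leaf 1 652 684) (leaf 1 653 686))))))))) (merge (node 654 (merge (node 685 (merge (leaf 1 653 686) (node 653 (merge (leaf 1 652 684) (node 621 (merge (leaf 3 620 620) (leaf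 3 621 622))))))) (merge (node 690 (merge (leaf 0 654 689) (node 658 (merge (leaf 0 655 691) (node 686 (merge (leaf 1 653 685) (leaf 1 654 687))))))) (node 689 (merge (leaf 0 654 690) (node 653 (merge (leaf 0 653 688) (node 621 (merge (leaf 3 620 620) (leaf 3 621 622)))))))))) (node 687 (merge (leaf 5 559 624) (node 658 (merge (leaf 1 654 686) (node 691 (merge (leaf 0 655 690) (node 659 (merge (leaf 1 655 688) (leaf 0 656 692))))))))))))) (merge (node 657 (merge (node 624 (merge (leaf 5 559 687) (leaf 4 560 689))) (merge (node 689 (merge (leaf 4 560 624) (node 654 (merge (leaf 0 654 690) (node 685 (merge (leaf 1 653 686) (node 653 (merge (leaf 1 652 684) (node 621 (merge (leaf 3 620 620) (leaf 3 621 622))))))))))) (merge (node 687 (merge (leaf 5 559 624) (node 658 (merge (leaf 1 654 686) (node 691 (merge (leaf 0 655 690) (node 626 (merge (leaf 2 623 627) (node 594 (merge (leaf 4 562 659) (node 559 (merge (leaf 0 559 595) (node 558 (merge (leaf 0 558 593) (node 591 (merge (leaf 1 558 590) (node 557 (merge (leaf 0 556 556) (node 525 (merge (leaf 3 524 524) (leaf 3 525 526)))))))))))))))))))))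 (node 658 (merge (node 690 (merge (leaf 0 655 691) (node 626 (merge (leaf 2 623 627) (node 594 (merge (leaf 7 561 593) (leaf 5 561 689))))))) (merge (node 690 (merge (leaf 0 655 691) (node 654 (merge (leaf 0 654 689) (node 685 (merge (leaf 1 653 686) (node 653 (merge (leaf 1 652 684) (node 622 (merge (leaf 3 621 621) (node 590 (merge (leaf 5 557 558) (node 591 (merge (leaf 1 558 559) (leaf 2 557 589))))))))))))))) (merge (node 686 (merge (leaf 1 654 687) (node 654 (merge (leaf 1 653 685) (node 689 (merge (leaf 0 654 690) (node 626 (merge (leaf 5 561 594) (leaf 2 623 627))))))))) (merge (node 626 (merge (leaf 2 623 627) (node 594 (merge (leaf 5 561 689) (node 559 (merge (leaf 0 559 595) (node 558 (merge (leaf 0 558 593) (node 591 (merge (leaf 1 558 590) (node 557 (merge (leaf 0 556 556) (node 525 (merge (leaf 3 524 524) (leaf 3 525 526))))))))))))))) (node 691 (merge (leaf 0 655 690) (node 626 (merge (leaf 2 623 627) (node 594 (merge (leaf 4 562 659) (node 559 (merge (leaf 0 559 595) (node 558 (merge (leaf 0 558 593) (node 591 (merge (leaf 1 558 590) (node 557 (merge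 (leaf 0 556 556) (node 525 (merge (leaf 3 524 524) (leaf 3 525 526)))))))))))))))))))))))))) (merge (node 654 (merge (node 590 (merge (node 591 (merge (leaf 1 558 559) (leaf 2 557 589))) (node 689 (merge (node 657 (merge (leaf 4 560 624) (leaf 0 654 690))) (merge (node 688 (merge (leaf 0 653 653) (node 624 (merge (leaf 6 560 593) (leaf 4 592 721))))) (node 653 (merge (leaf 0 653 688) (node 657 (merge (leaf 0 654 690) (node 621 (merge (leaf 3 620 620) (leaf 3 621 622)))))))))))) (merge (node 590 (merge (node 591 (merge (leaf 1 558 559) (leaf 2 557 589))) (node 689 (merge (node 657 (merge (leaf 4 560 624) (leaf 0 654 690))) (merge (node 688 (merge (leaf 0 653 653) (node 624 (merge (leaf 6 560 593) (leaf 4 592 721))))) (node 653 (merge (leaf 0 653 688) (node 657 (merge (leaf 0 654 690) (node 685 (merge (leaf 1 652 684) (leaf 1 653 686)))))))))))) (merge (node 653 (merge (node 689 (merge (leaf 0 653 688) (node 657 (merge (leaf 0 654 690) (node 621 (merge (leaf 3 620 620) (leaf 3 621 622))))))) (merge (node 684 (merge (leaf 1 652 685) (node 652 (merge (leaf 1 651 683) (node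 620 (merge (leaf 3 619 619) (leaf 3 620 621))))))) (node 689 (merge (leaf 0 653 688) (node 657 (merge (leaf 0 654 690) (node 685 (merge (leaf 1 652 684) (leaf 1 653 686)))))))))) (merge (node 653 (merge (node 684 (merge (leaf 1 652 685) (node 652 (merge (leaf 1 651 683) (node 620 (merge (leaf 3 619 619) (leaf 3 620 621))))))) (merge (node 590 (merge (node 591 (merge (leaf 2 557 589) (leaf 2 558 593))) (merge (node 591 (merge (leaf 1 558 559) (leaf 2 558 593))) (node 621 (merge (leaf 3 620 620) (node 622 (merge (leaf 3 621 657) (node 558 (merge (leaf 5 525 526) (node 589 (merge (leaf 1 557 559) (node 557 (merge (leaf 7 525 525) (leaf 7 557 686)))))))))))))) (node 590 (merge (node 591 (merge (leaf 2 557 589) (leaf 2 558 593))) (merge (node 591 (merge (leaf 1 558 559) (leaf 2 558 593))) (merge (node 591 (merge (leaf 1 558 559) (leaf 2 557 589))) (node 685 (merge (leaf 1 652 684) (node 558 (merge (leaf 5 557 622) (node 559 (merge (leaf 1 557 589) (node 594 (merge (leaf 0 558 593) (leaf 0 559 595)))))))))))))))) (merge (node 590 (merge (node 591 (merge (leaf 2 557 589) (leaf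 2 558 593))) (merge (node 591 (merge (leaf 1 558 559) (leaf 2 558 593))) (merge (node 591 (merge (leaf 1 558 559) (leaf 2 557 589))) (node 558 (merge (node 559 (merge (leaf 1 557 589) (node 593 (merge (leaf 0 557 557) (leaf 0 558 594))))) (merge (node 559 (merge (leaf 1 557 589) (node 594 (merge (leaf 0 558 593) (leaf 0 559 595))))) (merge (node 622 (merge (node 525 (merge (leaf 7 525 557) (node 526 (merge (leaf 7 493 493) (leaf 3 525 559))))) (node 657 (merge (leaf 3 621 621) (node 689 (merge (leaf 4 560 624) (leaf 0 654 690))))))) (node 657 (merge (node 689 (merge (leaf 4 560 624) (leaf 0 654 690))) (node 686 (merge (leaf 1 653 685) (node 622 (merge (leaf 3 621 621) (node 557 (merge (leaf 7 525 525) (leaf 7 557 589))))))))))))))))) (node 653 (merge (node 684 (merge (leaf 1 652 685) (node 652 (merge (leaf 1 651 683) (node 620 (merge (leaf 3 619 619) (leaf 3 620 621))))))) (merge (node 688 (merge (leaf 0 653 689) (node 593 (merge (leaf 6 560 624) (node 685 (merge (leaf 1 652 684) (node 590 (merge (leaf 2 558 591) (node 622 (merge (leaf 5 557 558) (node 717 (merge (leaf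 5 589 686) (leaf 6 621 749))))))))))))) (node 688 (merge (leaf 0 653 689) (node 624 (merge (leaf 6 560 593) (node 591 (merge (leaf 7 559 559) (node 589 (merge (leaf 2 557 590) (node 621 (merge (leaf 3 620 620) (node 557 (merge (leaf 4 557 686) (node 526 (merge (leaf 6 525 558) (node 525 (merge (leaf 6 493 494) (leaf 4 525 622)))))))))))))))))))))))))) (node 654 (merge (node 590 (merge (node 591 (merge (leaf 1 558 559) (leaf 2 557 589))) (node 622 (merge (node 687 (merge (leaf 4 558 558) (node 719 (merge (leaf 4 590 686) (leaf 7 622 751))))) (node 621 (merge (leaf 3 621 657) (node 620 (merge (leaf 0 619 619) (leaf 3 620 653))))))))) (merge (node 653 (merge (node 689 (merge (leaf 0 653 688) (node 657 (merge (leaf 0 654 690) (node 621 (merge (leaf 3 620 620) (leaf 3 621 622))))))) (merge (node 684 (merge (leaf 1 652 685) (node 652 (merge (leaf 1 651 683) (node 620 (merge (leaf 3 619 619) (leaf 3 620 621))))))) (node 689 (merge (leaf 0 653 688) (node 657 (merge (leaf 0 654 690) (node 685 (merge (leaf 1 652 684) (leaf 1 653 686)))))))))) (merge (node 653 (merge (node 688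 (merge (leaf 0 653 689) (node 652 (merge (leaf 0 652 687) (node 684 (merge (leaf 1 651 683) (leaf 1 652 685))))))) (merge (node 689 (merge (leaf 0 653 688) (node 657 (merge (leaf 0 654 690) (node 621 (merge (leaf 3 620 620) (leaf 3 621 622))))))) (node 684 (merge (leaf 1 652 685) (node 652 (merge (leaf 1 651 683) (node 620 (merge (leaf 3 619 619) (leaf 3 620 621)))))))))) (merge (node 653 (merge (node 689 (merge (leaf 0 653 688) (node 657 (merge (leaf 0 654 690) (node 685 (merge (leaf 1 652 684) (leaf 1 653 686))))))) (merge (node 684 (merge (leaf 1 652 685) (node 652 (merge (leaf 1 651 683) (node 620 (merge (leaf 3 619 619) (leaf 3 620 621))))))) (node 688 (merge (leaf 0 653 689) (node 652 (merge (leaf 0 652 687) (node 620 (merge (leaf 3 619 619) (leaf 3 620 621)))))))))) (merge (node 657 (merge (node 689 (merge (leaf 0 654 690) (node 653 (merge (leaf 0 653 688) (node 685 (merge (leaf 1 652 684) (leaf 1 653 686))))))) (merge (node 690 (merge (leaf 0 654 689) (node 658 (merge (leaf 0 655 691) (node 626 (merge (leaf 2 623 627) (node 594 (merge (leaf 7 561 593) (node 559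 (merge (leaf 0 559 595) (node 590 (merge (leaf 1 558 591) (node 558 (merge (leaf 1 557 589) (node 525 (merge (leaf 3 525 526) (node 622 (merge (leaf 7 525 557) (leaf 4 558 687))))))))))))))))))) (merge (node 686 (merge (leaf 1 653 685) (node 658 (merge (leaf 1 654 687) (node 690 (merge (leaf 0 655 691) (node 626 (merge (leaf 2 623 627) (node 594 (merge (leaf 7 561 593) (node 559 (merge (leaf 0 559 595) (node 590 (merge (leaf 1 558 591) (node 558 (merge (leaf 1 557 589) (node 525 (merge (leaf 3 525 526) (node 557 (merge (leaf 3 524 524) (leaf 7 525 622))))))))))))))))))))) (node 686 (merge (leaf 1 653 685) (node 658 (merge (leaf 1 654 687) (node 626 (merge (leaf 2 623 627) (node 594 (merge (leaf 5 561 689) (node 559 (merge (leaf 0 559 595) (node 590 (merge (leaf 1 558 591) (node 558 (merge (leaf 1 557 589) (node 525 (merge (leaf 3 525 526) (node 557 (merge (leaf 3 524 524) (leaf 7 525 622))))))))))))))))))))))) (merge (node 590 (merge (node 591 (merge (leaf 2 557 589) (leaf 2 558 593))) (merge (node 591 (merge (leaf 1 558 559) (leaf 2 558 593))) (node 653 (merge (node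 688 (merge (leaf 0 653 689) (node 652 (merge (leaf 0 652 687) (node 684 (merge (leaf 1 651 683) (leaf 1 652 685))))))) (merge (node 685 (merge (leaf 1 652 684) (node 621 (merge (leaf 3 620 620) (node 589 (merge (leaf 6 557 558) (node 686 (merge (leaf 4 557 557) (leaf 4 589 718))))))))) (merge (node 688 (merge (leaf 0 653 689) (node 687 (merge (leaf 0 652 652) (node 621 (merge (leaf 3 620 620) (node 558 (merge (leaf 4 558 622) (node 589 (merge (leaf 1 557 559) (leaf 6 557 685))))))))))) (node 620 (merge (leaf 3 620 621) (node 652 (merge (leaf 3 619 619) (node 687 (merge (leaf 0 652 688) (node 651 (merge (leaf 0 651 686) (node 683 (merge (leaf 1 650 682) (leaf 1 651 684)))))))))))))))))) (node 686 (merge (node 685 (merge (leaf 1 653 657) (node 684 (merge (leaf 2 651 683) (leaf 2 652 687))))) (merge (node 590 (merge (node 591 (merge (leaf 1 558 559) (leaf 2 558 593))) (node 622 (merge (node 685 (merge (leaf 5 589 717) (node 684 (merge (leaf 2 651 683) (leaf 2 652 687))))) (merge (node 589 (merge (leaf 7 557 557) (node 718 (merge (leaf 7 589 621) (node 719 (merge (leaf 4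 590 687) (leaf 4 622 751))))))) (node 589 (merge (leaf 7 557 557) (node 718 (merge (leaf 7 589 621) (node 717 (merge (leaf 5 589 685) (leaf 5 621 749)))))))))))) (merge (node 657 (merge (leaf 1 653 685) (node 690 (merge (leaf 0 654 689) (node 658 (merge (leaf 0 655 691) (node 626 (merge (leaf 2 623 627) (node 594 (merge (leaf 7 561 593) (node 559 (merge (leaf 0 559 595) (node 590 (merge (leaf 1 558 591) (node 589 (merge (leaf 1 557 558) (node 622 (merge (leaf 7 557 557) (leaf 3 621 621))))))))))))))))))) (node 622 (merge (node 657 (merge (leaf 3 621 621) (node 690 (merge (leaf 0 654 689) (node 658 (merge (leaf 1 654 687) (leaf 0 655 691))))))) (merge (node 621 (merge (leaf 3 621 657) (node 718 (merge (leaf 7 589 589) (node 751 (merge (leaf 4 622 719) (node 750 (merge (leaf 4 654 783) (node 749 (merge (leaf 5 621 717) (leaf 5 653 781))))))))))) (node 718 (merge (node 719 (merge (leaf 4 622 751) (node 590 (merge (leaf 4 590 687) (node 589 (merge (leaf 7 557 557) (leaf 2 557 591))))))) (merge (node 751 (merge (leaf 4 622 719) (node 750 (merge (leaf 4 654 783) (node 749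 (merge (leaf 5 621 717) (leaf 5 653 781))))))) (merge (node 749 (merge (leaf 5 621 717) (node 750 (merge (leaf 5 653 781) (node 687 (merge (leaf 6 654 782) (node 590 (merge (leaf 4 558 558) (leaf 4 590 719))))))))) (node 749 (merge (leaf 5 621 717) (node 750 (merge (leaf 5 653 781) (node 782 (merge (leaf 6 654 687) (node 783 (merge (leaf 4 654 751) (leaf 4 686 815)))))))))))))))))))))))))))))))) nP_166 cP_166 14 (by decide +kernel)
def nP_167 : ℕ := 0x14000000300000001000000000000000000000000000000000000000000000000000000000000000000000000000000000000000000000000000000000000000000000000000000000000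
def cP_167 : ℕ := 0x2a000001ff800000ff800001df800001e80000018e000000870000003e0000003f0000002a00000000000000000000000000000000000000000000000000000000000000000000000000000000000000000000000000000000000
theorem lP_167 : S nP_167 cP_167 13 := S_of_chk [] trivial (node 558 (merge (node 623 (merge (node 655 (merge (leaf 5 527 624) (node 622 (merge (leaf 4 526 526) (node 687 (merge (leaf 4 558 654) (leaf 7 590 719))))))) (node 496 (merge (leaf 5 495 591) (node 465 (merge (leaf 6 464 497) (node 464 (merge (leaf 6 432 433) (node 463 (merge (leaf 7 431 431) (leaf 7 463 495))))))))))) (merge (node 593 (merge (node 557 (merge (leaf 0 557 559) (leaf 3 557 591))) (merge (node 559 (merge (leaf 0 557 557) (leaf 0 558 594))) (merge (node 591 (merge (leaf 3 557 557) (node 622 (merge (leaf 1 589 621) (node 594 (merge (leaf 1 590 623) (node 627 (merge (leaf 0 591 626) (node 595 (merge (leaf 3 560 596) (leaf 0 592 628))))))))))) (node 594 (merge (leaf 0 558 559) (node 595 (merge (leaf 3 560 596) (node 627 (merge (leaf 0 592 628) (node 626 (merge (leaf 0 591 591) (node 658 (merge (leaf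 7 561 690) (node 563 (merge (leaf 5 530 531) (leaf 2 560 564))))))))))))))))) (merge (node 496 (merge (node 464 (merge (leaf 4 464 593) (node 465 (merge (leaf 6 432 433) (leaf 6 464 497))))) (merge (node 464 (merge (leaf 4 464 593) (node 463 (merge (leaf 7 431 431) (leaf 7 463 495))))) (merge (node 465 (merge (leaf 6 464 497) (node 464 (merge (leaf 6 432 433) (node 463 (merge (leaf 7 431 431) (leaf 7 463 495))))))) (node 494 (merge (node 497 (merge (leaf 6 464 465) (node 495 (merge (leaf 7 463 463) (node 461 (merge (leaf 3 461 462) (node 493 (merge (leaf 3 460 460) (leaf 7 461 526))))))))) (merge (node 559 (merge (node 593 (merge (leaf 0 557 557) (leaf 0 558 594))) (node 526 (merge (leaf 3 525 525) (node 461 (merge (leaf 7 461 493) (node 462 (merge (leaf 7 429 429) (leaf 4 462 591))))))))) (merge (node 526 (merge (node 495 (merge (leaf 6 462 463) (node 497 (merge (leaf 6 464 465) (leaf 1 493 525))))) (merge (node 559 (merge (leaf 3 525 525) (node 593 (merge (leaf 0 557 557) (leaf 0 558 594))))) (node 463 (merge (leaf 6 462 495) (node 462 (merge (leaf 6 430 431) (node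 559 (merge (leaf 4 462 591) (node 593 (merge (leaf 0 557 557) (leaf 0 558 594)))))))))))) (merge (node 497 (merge (leaf 6 464 465) (node 495 (merge (leaf 7 463 463) (node 461 (merge (leaf 3 461 462) (node 493 (merge (leaf 3 460 460) (node 525 (merge (leaf 1 492 524) (leaf 4 461 557))))))))))) (node 497 (merge (leaf 6 464 465) (node 495 (merge (leaf 7 463 463) (node 525 (merge (leaf 1 493 526) (node 493 (merge (leaf 1 492 524) (node 461 (merge (leaf 3 460 460) (leaf 4 461 557)))))))))))))))))))) (node 463 (merge (node 496 (merge (leaf 7 463 495) (node 464 (merge (leaf 7 431 431) (leaf 4 464 593))))) (merge (node 495 (merge (leaf 7 463 496) (node 526 (merge (leaf 6 462 494) (node 525 (merge (leaf 3 525 559) (node 493 (merge (leaf 7 493 622) (node 461 (merge (leaf 4 429 429) (leaf 4 461 557))))))))))) (merge (node 559 (merge (node 593 (merge (leaf 0 557 557) (leaf 0 558 594))) (node 526 (merge (leaf 3 525 525) (node 494 (merge (leaf 6 462 495) (node 462 (merge (leaf 6 430 431) (node 461 (merge (leaf 7 429 429) (leaf 7 461 493))))))))))) (node 655 (merge (node 623 (merge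 (leaf 5 527 624) (node 622 (merge (leaf 4 526 526) (node 687 (merge (leaf 4 558 654) (leaf 7 590 719))))))) (merge (node 624 (merge (leaf 5 527 623) (node 656 (merge (leaf 5 559 687) (node 688 (merge (leaf 6 560 593) (node 689 (merge (leaf 4 560 657) (leaf 4 592 721))))))))) (merge (node 623 (merge (leaf 5 527 624) (node 526 (merge (leaf 4 526 622) (node 559 (merge (leaf 3 525 525) (node 593 (merge (leaf 0 557 557) (leaf 0 558 594))))))))) (merge (node 559 (merge (node 593 (merge (leaf 0 557 557) (leaf 0 558 594))) (node 526 (merge (leaf 3 525 525) (node 622 (merge (leaf 4 526 623) (node 654 (merge (leaf 4 558 687) (node 653 (merge (leaf 5 525 621) (leaf 5 557 685))))))))))) (node 656 (merge (node 624 (merge (leaf 5 559 687) (node 688 (merge (leaf 6 560 593) (node 689 (merge (leaf 4 560 657) (leaf 4 592 721))))))) (merge (node 624 (merge (leaf 5 559 687) (node 593 (merge (leaf 6 560 688) (node 559 (merge (leaf 0 557 557) (leaf 0 558 594))))))) (merge (node 654 (merge (node 624 (merge (leaf 5 559 687) (node 689 (merge (leaf 4 560 657) (node 688 (merge (leaf 0 653 653)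 (leaf 4 592 721))))))) (merge (node 622 (merge (node 525 (merge (leaf 7 525 557) (node 526 (merge (leaf 7 493 493) (leaf 3 525 559))))) (node 657 (merge (leaf 3 621 621) (node 689 (merge (leaf 4 560 624) (leaf 0 654 690))))))) (node 622 (merge (leaf 4 558 687) (node 653 (merge (leaf 5 557 685) (node 621 (merge (leaf 5 525 526) (leaf 3 620 620)))))))))) (merge (node 654 (merge (node 622 (merge (node 525 (merge (leaf 7 525 557) (node 526 (merge (leaf 7 493 493) (leaf 3 525 559))))) (node 657 (merge (leaf 3 621 621) (node 689 (merge (leaf 4 560 624) (leaf 0 654 690))))))) (merge (node 689 (merge (node 657 (merge (leaf 4 560 624) (leaf 0 654 690))) (merge (node 688 (merge (leaf 0 653 653) (node 624 (merge (leaf 6 560 593) (leaf 4 592 721))))) (node 653 (merge (leaf 0 653 688) (node 657 (merge (leaf 0 654 690) (node 685 (merge (leaf 1 652 684) (leaf 1 653 686)))))))))) (node 653 (merge (node 622 (merge (leaf 5 557 685) (node 525 (merge (leaf 7 525 557) (node 526 (merge (leaf 7 493 493) (leaf 3 525 559))))))) (merge (node 684 (merge (leaf 1 652 685) (node 652 (merge (leaf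 1 651 683) (node 620 (merge (leaf 3 619 619) (leaf 3 620 621))))))) (node 621 (merge (leaf 3 620 620) (node 526 (merge (leaf 5 525 622) (node 559 (merge (leaf 3 525 525) (node 593 (merge (leaf 0 557 557) (leaf 0 558 594))))))))))))))) (merge (node 654 (merge (node 622 (merge (leaf 4 558 687) (node 685 (merge (leaf 5 557 653) (node 686 (merge (leaf 1 653 657) (leaf 5 589 717))))))) (merge (node 622 (merge (leaf 4 558 687) (node 621 (merge (leaf 3 621 657) (node 653 (merge (leaf 5 525 526) (leaf 3 620 620))))))) (merge (node 653 (merge (node 622 (merge (leaf 5 557 685) (node 525 (merge (leaf 7 525 557) (node 526 (merge (leaf 7 493 493) (leaf 3 525 559))))))) (merge (node 684 (merge (leaf 1 652 685) (node 652 (merge (leaf 1 651 683) (node 620 (merge (leaf 3 619 619) (leaf 3 620 621))))))) (node 621 (merge (leaf 3 620 620) (node 526 (merge (leaf 5 525 622) (node 559 (merge (leaf 3 525 525) (node 593 (merge (leaf 0 557 557) (leaf 0 558 594)))))))))))) (merge (node 653 (merge (node 684 (merge (leaf 1 652 685) (node 652 (merge (leaf 1 651 683) (node 620 (merge (leaf 3 619 619)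 (leaf 3 620 621))))))) (merge (node 689 (merge (leaf 0 653 688) (node 657 (merge (leaf 0 654 690) (node 685 (merge (leaf 1 652 684) (leaf 1 653 686))))))) (merge (node 688 (merge (leaf 0 653 689) (node 652 (merge (leaf 0 652 687) (node 620 (merge (leaf 3 619 619) (leaf 3 620 621))))))) (node 620 (merge (leaf 3 620 621) (node 652 (merge (leaf 3 619 619) (node 687 (merge (leaf 0 652 688) (node 686 (merge (leaf 0 651 651) (node 657 (merge (leaf 1 654 658) (leaf 1 653 685))))))))))))))) (node 622 (merge (leaf 4 558 687) (node 557 (merge (leaf 7 525 525) (node 593 (merge (leaf 0 557 559) (node 657 (merge (leaf 3 621 621) (node 690 (merge (leaf 0 654 689) (node 658 (merge (leaf 0 655 691) (node 626 (merge (leaf 7 561 594) (leaf 2 623 627)))))))))))))))))))) (node 657 (merge (node 624 (merge (leaf 5 559 687) (leaf 4 560 689))) (merge (node 687 (merge (leaf 5 559 624) (node 658 (merge (leaf 1 654 686) (node 691 (merge (leaf 0 655 690) (node 659 (merge (leaf 0 656 692) (node 627 (merge (leaf 2 623 626) (leaf 2 624 628))))))))))) (merge (node 689 (merge (leaf 4 560 624) (node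 654 (merge (leaf 0 654 690) (node 685 (merge (leaf 1 653 686) (node 622 (merge (leaf 3 621 621) (leaf 5 557 653))))))))) (node 654 (merge (node 686 (merge (leaf 1 653 685) (node 658 (merge (leaf 1 654 687) (node 691 (merge (leaf 0 655 690) (node 659 (merge (leaf 0 656 692) (node 627 (merge (leaf 2 623 626) (leaf 2 624 628))))))))))) (merge (node 622 (merge (leaf 4 558 687) (node 621 (merge (leaf 3 621 657) (node 653 (merge (leaf 5 525 526) (leaf 3 620 620))))))) (node 690 (merge (leaf 0 654 689) (node 658 (merge (leaf 0 655 691) (node 626 (merge (leaf 2 623 627) (node 593 (merge (leaf 7 561 594) (node 557 (merge (leaf 0 557 559) (node 622 (merge (leaf 7 525 525) (leaf 3 621 621))))))))))))))))))))))))))))))))))))))) nP_167 cP_167 13 (by decide +kernel)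
def nP_168 : ℕ := 0x80000000000000014000000300000001000000000000000000000000000000000000000000000000000000000000000000000000000000000000000000000000000000000000000000000000000000000000
def cP_168 : ℕ := 0x22000001f7c00000f7800001df800000620000000e000000070000003e0000003e0000002a00000000000000000000000000000000000000000000000000000000000000000000000000000000000000000000000000000000000
theorem lP_168 : S nP_168 cP_168 13 := S_of_chk [] trivial (node 656 (merge (node 624 (merge (leaf 5 527 623) (node 689 (merge (leaf 4 560 657) (node 688 (merge (leaf 6 560 593) (leaf 4 592 721))))))) (merge (node 558 (merge (node 559 (merge (leaf 1 557 589) (node 593 (merge (leaf 0 557 557) (leaf 0 558 594))))) (merge (node 559 (merge (leaf 1 557 589) (node 526 (merge (leaf 3 525 525) (node 623 (merge (leaf 4 526 622) (leaf 5 527 624))))))) (merge (node 623 (merge (leaf 5 527 624) (node 526 (merge (leaf 4 526 622) (node 559 (merge (leaf 3 525 525) (node 593 (merge (leaf 0 557 557) (leaf 0 558 594))))))))) (node 623 (merge (leaf 5 527 624) (node 622 (merge (leaf 4 526 526) (node 657 (merge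 (leaf 3 622 658) (node 654 (merge (leaf 3 621 621) (node 557 (merge (leaf 7 525 525) (node 686 (merge (leaf 7 557 589) (leaf 1 653 685))))))))))))))))) (merge (node 657 (merge (node 624 (merge (leaf 5 527 623) (leaf 4 560 689))) (merge (node 689 (merge (leaf 4 560 624) (node 690 (merge (leaf 0 654 654) (node 691 (merge (leaf 0 655 658) (leaf 3 655 688))))))) (merge (node 623 (merge (leaf 5 527 624) (node 658 (merge (leaf 3 622 622) (node 691 (merge (leaf 0 655 690) (node 659 (merge (leaf 0 656 692) (node 627 (merge (leaf 2 623 626) (leaf 2 624 628))))))))))) (node 654 (merge (node 685 (merge (leaf 1 653 686) (node 653 (merge (leaf 1 652 684) (node 621 (merge (leaf 3 620 620) (leaf 3 621 622))))))) (merge (node 689 (merge (leaf 0 654 690) (node 653 (merge (leaf 0 653 688) (node 685 (merge (leaf 1 652 684) (leaf 1 653 686))))))) (node 690 (merge (leaf 0 654 689) (node 658 (merge (leaf 0 655 691) (node 622 (merge (leaf 3 621 621) (leaf 3 622 623)))))))))))))) (merge (node 558 (merge (node 559 (merge (leaf 1 557 589) (node 593 (merge (leaf 0 557 557) (leaf 0 558 594)))))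 (merge (node 559 (merge (leaf 1 557 589) (node 526 (merge (leaf 3 525 525) (node 623 (merge (leaf 4 526 622) (leaf 5 527 624))))))) (node 496 (merge (node 593 (merge (leaf 4 464 464) (node 624 (merge (leaf 5 527 623) (leaf 6 560 688))))) (merge (node 465 (merge (leaf 6 464 497) (node 464 (merge (leaf 6 432 433) (node 463 (merge (leaf 7 431 431) (leaf 7 463 495))))))) (merge (node 593 (merge (leaf 4 464 464) (node 624 (merge (leaf 5 527 623) (leaf 6 560 688))))) (node 497 (merge (leaf 6 464 465) (node 495 (merge (leaf 7 463 463) (node 623 (merge (leaf 5 527 624) (node 526 (merge (leaf 4 526 622) (node 494 (merge (leaf 1 493 525) (node 461 (merge (leaf 3 461 462) (leaf 7 461 493)))))))))))))))))))) (merge (node 558 (merge (node 559 (merge (leaf 1 557 589) (node 593 (merge (leaf 0 557 557) (leaf 0 558 594))))) (merge (node 526 (merge (node 559 (merge (leaf 3 525 525) (leaf 1 557 589))) (merge (node 525 (merge (leaf 3 525 559) (node 622 (merge (leaf 7 493 493) (leaf 4 526 623))))) (node 621 (merge (node 622 (merge (leaf 4 526 623) (leaf 5 525 653))) (node 494 (merge (leaf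 5 493 589) (node 463 (merge (leaf 6 462 495) (node 462 (merge (leaf 6 430 431) (node 461 (merge (leaf 7 429 429) (leaf 7 461 493)))))))))))))) (merge (node 622 (merge (node 496 (merge (node 465 (merge (leaf 6 464 497) (node 464 (merge (leaf 6 432 433) (leaf 4 464 593))))) (merge (node 463 (merge (leaf 7 463 495) (node 464 (merge (leaf 7 431 431) (leaf 4 464 593))))) (node 497 (merge (leaf 6 464 465) (node 495 (merge (leaf 7 463 463) (node 526 (merge (leaf 4 526 623) (node 525 (merge (leaf 7 493 493) (leaf 1 493 494)))))))))))) (merge (node 654 (merge (node 621 (merge (leaf 3 621 657) (node 653 (merge (leaf 3 620 620) (leaf 5 557 685))))) (merge (node 557 (merge (leaf 7 525 525) (node 686 (merge (leaf 7 557 589) (node 685 (merge (leaf 1 653 657) (leaf 5 589 717))))))) (merge (node 557 (merge (leaf 7 525 525) (node 686 (merge (leaf 7 557 589) (node 685 (merge (leaf 5 557 653) (leaf 5 589 717))))))) (node 621 (merge (leaf 3 621 657) (node 653 (merge (leaf 5 525 526) (leaf 3 620 620))))))))) (merge (node 654 (merge (node 557 (merge (leaf 7 525 525) (node 686 (merge (leaf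 7 557 589) (node 685 (merge (leaf 5 557 653) (leaf 5 589 717))))))) (node 657 (merge (leaf 3 621 621) (node 690 (merge (leaf 0 654 689) (node 658 (merge (leaf 3 622 623) (leaf 0 655 691))))))))) (node 623 (merge (leaf 4 526 526) (node 657 (merge (leaf 3 622 658) (node 654 (merge (leaf 3 621 621) (node 689 (merge (leaf 0 654 690) (node 653 (merge (leaf 5 557 685) (leaf 0 653 688))))))))))))))) (node 622 (merge (node 526 (merge (leaf 4 526 623) (node 525 (merge (leaf 7 493 493) (leaf 3 525 559))))) (merge (node 623 (merge (leaf 4 526 526) (node 657 (merge (leaf 3 622 658) (node 654 (merge (leaf 3 621 621) (node 689 (merge (leaf 0 654 690) (node 653 (merge (leaf 5 557 685) (leaf 0 653 688))))))))))) (merge (node 654 (merge (node 621 (merge (leaf 3 621 657) (node 653 (merge (leaf 3 620 620) (leaf 5 557 685))))) (merge (node 653 (merge (leaf 5 557 685) (node 526 (merge (leaf 5 525 621) (node 525 (merge (leaf 7 493 493) (leaf 3 525 559))))))) (merge (node 621 (merge (leaf 3 621 657) (node 653 (merge (leaf 5 525 526) (leaf 3 620 620))))) (merge (node 685 (merge (leaf 5 557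 653) (node 686 (merge (leaf 1 653 657) (leaf 5 589 717))))) (node 557 (merge (leaf 7 525 525) (node 593 (merge (leaf 0 557 559) (node 657 (merge (leaf 3 621 621) (node 690 (merge (leaf 0 654 689) (node 658 (merge (leaf 0 655 691) (node 626 (merge (leaf 7 561 594) (leaf 2 623 627)))))))))))))))))) (node 654 (merge (node 657 (merge (leaf 3 621 621) (node 690 (merge (leaf 0 654 689) (node 658 (merge (leaf 3 622 623) (leaf 0 655 691))))))) (merge (node 685 (merge (leaf 5 557 653) (node 686 (merge (leaf 1 653 657) (leaf 5 589 717))))) (node 653 (merge (leaf 5 557 685) (node 620 (merge (leaf 3 620 621) (node 652 (merge (leaf 3 619 619) (node 683 (merge (leaf 1 651 684) (node 651 (merge (leaf 2 619 623) (leaf 1 650 682)))))))))))))))))))))) (node 558 (merge (node 559 (merge (leaf 1 557 589) (node 593 (merge (leaf 0 557 557) (leaf 0 558 594))))) (merge (node 654 (merge (node 622 (merge (node 525 (merge (leaf 7 525 557) (node 526 (merge (leaf 7 493 493) (leaf 3 525 559))))) (node 657 (merge (leaf 3 621 621) (node 689 (merge (leaf 4 560 624) (leaf 0 654 690))))))) (merge (node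 689 (merge (node 657 (merge (leaf 4 560 624) (leaf 0 654 690))) (merge (node 688 (merge (leaf 0 653 653) (node 624 (merge (leaf 6 560 593) (leaf 4 592 721))))) (node 653 (merge (leaf 0 653 688) (node 657 (merge (leaf 0 654 690) (node 685 (merge (leaf 1 652 684) (leaf 1 653 686)))))))))) (node 653 (merge (node 622 (merge (leaf 5 557 685) (node 525 (merge (leaf 7 525 557) (node 526 (merge (leaf 7 493 493) (leaf 3 525 559))))))) (merge (node 684 (merge (leaf 1 652 685) (node 652 (merge (leaf 1 651 683) (node 620 (merge (leaf 3 619 619) (leaf 3 620 621))))))) (node 621 (merge (leaf 3 620 620) (node 526 (merge (leaf 5 525 622) (node 559 (merge (leaf 3 525 525) (node 593 (merge (leaf 0 557 557) (leaf 0 558 594))))))))))))))) (merge (node 653 (merge (node 559 (merge (leaf 1 557 589) (node 526 (merge (leaf 3 525 525) (node 621 (merge (leaf 5 525 622) (node 654 (merge (leaf 3 620 620) (node 689 (merge (leaf 0 653 688) (node 657 (merge (leaf 4 560 624) (leaf 0 654 690))))))))))))) (merge (node 589 (merge (leaf 1 557 559) (node 685 (merge (leaf 6 557 621) (node 654 (merge (leaf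 1 652 684) (node 689 (merge (leaf 0 653 688) (node 657 (merge (leaf 1 653 686) (leaf 0 654 690))))))))))) (merge (node 654 (merge (node 621 (merge (leaf 3 620 620) (node 526 (merge (leaf 5 525 622) (node 589 (merge (leaf 5 493 494) (leaf 6 525 557))))))) (node 689 (merge (leaf 0 653 688) (node 657 (merge (leaf 0 654 690) (node 685 (merge (leaf 1 652 684) (leaf 1 653 686))))))))) (merge (node 559 (merge (leaf 1 557 589) (node 525 (merge (leaf 3 525 526) (node 557 (merge (leaf 3 524 524) (node 654 (merge (leaf 7 525 622) (node 689 (merge (leaf 0 653 688) (node 657 (merge (leaf 0 654 690) (node 685 (merge (leaf 1 652 684) (leaf 1 653 686))))))))))))))) (merge (node 654 (merge (node 622 (merge (leaf 5 557 685) (node 525 (merge (leaf 7 525 557) (node 526 (merge (leaf 7 493 493) (leaf 3 525 559))))))) (merge (node 684 (merge (leaf 1 652 685) (node 652 (merge (leaf 1 651 683) (node 620 (merge (leaf 3 619 619) (leaf 3 620 621))))))) (node 689 (merge (leaf 0 653 688) (node 657 (merge (leaf 4 560 624) (leaf 0 654 690)))))))) (node 589 (merge (leaf 1 557 559) (node 621 (merge (leaf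 6 557 685) (node 526 (merge (leaf 6 525 557) (leaf 5 525 622))))))))))))) (merge (node 654 (merge (node 657 (merge (node 689 (merge (leaf 4 560 624) (leaf 0 654 690))) (node 686 (merge (leaf 1 653 685) (node 622 (merge (leaf 3 621 621) (node 557 (merge (leaf 7 525 525) (leaf 7 557 589))))))))) (merge (node 689 (merge (node 657 (merge (leaf 4 560 624) (leaf 0 654 690))) (merge (node 688 (merge (leaf 0 653 653) (node 624 (merge (leaf 6 560 593) (leaf 4 592 721))))) (node 653 (merge (leaf 0 653 688) (node 657 (merge (leaf 0 654 690) (node 621 (merge (leaf 3 620 620) (leaf 3 621 622)))))))))) (merge (node 622 (merge (node 653 (merge (leaf 5 557 685) (node 621 (merge (leaf 5 525 526) (leaf 3 620 620))))) (merge (node 557 (merge (leaf 7 525 525) (node 686 (merge (leaf 7 557 589) (node 685 (merge (leaf 1 653 657) (leaf 5 589 717))))))) (node 621 (merge (leaf 3 621 657) (node 653 (merge (leaf 5 525 526) (leaf 3 620 620)))))))) (merge (node 689 (merge (node 657 (merge (leaf 4 560 624) (leaf 0 654 690))) (merge (node 688 (merge (leaf 0 653 653) (node 624 (merge (leaf 6 560 593)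 (leaf 4 592 721))))) (node 653 (merge (leaf 0 653 688) (node 657 (merge (leaf 0 654 690) (node 685 (merge (leaf 1 652 684) (leaf 1 653 686)))))))))) (node 653 (merge (node 621 (merge (leaf 3 620 620) (node 526 (merge (leaf 5 525 622) (node 589 (merge (leaf 5 493 494) (leaf 6 525 557))))))) (merge (node 684 (merge (leaf 1 652 685) (node 652 (merge (leaf 1 651 683) (node 620 (merge (leaf 3 619 619) (leaf 3 620 621))))))) (node 688 (merge (leaf 0 653 689) (node 593 (merge (leaf 6 560 624) (node 496 (merge (leaf 4 464 464) (node 497 (merge (leaf 6 464 465) (node 495 (merge (leaf 7 463 463) (node 622 (merge (leaf 5 557 685) (node 525 (merge (leaf 7 525 557) (node 526 (merge (leaf 7 493 493) (leaf 1 493 494))))))))))))))))))))))))) (node 526 (merge (node 559 (merge (leaf 3 525 525) (leaf 1 557 589))) (merge (node 589 (merge (leaf 1 557 559) (node 494 (merge (leaf 5 493 621) (node 463 (merge (leaf 6 462 495) (node 462 (merge (leaf 6 430 431) (node 461 (merge (leaf 7 429 429) (leaf 7 461 493))))))))))) (merge (node 525 (merge (leaf 3 525 559) (node 622 (merge (leaf 7 493 493)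 (node 621 (merge (leaf 5 525 653) (node 657 (merge (leaf 3 621 654) (node 624 (merge (leaf 4 560 689) (node 593 (merge (leaf 6 560 688) (node 496 (merge (leaf 4 464 464) (node 497 (merge (leaf 6 464 465) (node 495 (merge (leaf 7 463 463) (leaf 1 493 494))))))))))))))))))) (node 621 (merge (node 653 (merge (leaf 5 525 622) (node 685 (merge (leaf 6 557 589) (node 654 (merge (leaf 3 620 620) (leaf 1 652 684))))))) (merge (node 494 (merge (leaf 5 493 589) (node 463 (merge (leaf 6 462 495) (node 462 (merge (leaf 6 430 431) (node 461 (merge (leaf 7 429 429) (leaf 7 461 493))))))))) (node 622 (merge (leaf 5 525 653) (node 525 (merge (leaf 7 493 493) (node 657 (merge (leaf 3 621 654) (node 624 (merge (leaf 4 560 689) (node 593 (merge (leaf 6 560 688) (node 496 (merge (leaf 4 464 464) (node 497 (merge (leaf 6 464 465) (node 495 (merge (leaf 7 463 463) (leaf 1 493 494))))))))))))))))))))))))))))))))))) nP_168 cP_168 13 (by decide +kernel)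
def nP_169 : ℕ := 0x80000000000000014000000300000001000000000000000000000000000000000000000000000000000000000000000000000000000000000000000000000000000000000000000000000000000000000000
def cP_169 : ℕ := 0x70000000fc000002f000001ffc00000f7c00001d7e00000620000000e000000070000003e0000003e0000000a00000000000000000000000000000000000000000000000000000000000000000000000000000000000000000000000000000000000
theorem lP_169 : S nP_169 cP_169 14 := S_of_chk [] trivial (node 656 (merge (node 624 (merge (leaf 5 559 687) (node 688 (merge (leaf 6 560 593) (node 689 (merge (leaf 4 560 657) (leaf 4 592 721))))))) (merge (node 657 (merge (node 624 (merge (leaf 5 559 687) (leaf 4 560 689))) (merge (node 689 (merge (leaf 4 560 624) (node 654 (merge (leaf 0 654 690) (node 653 (merge (leaf 0 653 688) (node 685 (merge (leaf 1 652 684) (leaf 1 653 686))))))))) (merge (node 654 (merge (node 685 (merge (leaf 1 653 686) (node 653 (merge (leaf 1 652 684) (node 621 (merge (leaf 3 620 620) (leaf 3 621 622))))))) (merge (node 690 (merge (leaf 0 654 689) (node 658 (merge (leaf 0 655 691) (node 686 (merge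 (leaf 1 653 685) (leaf 1 654 687))))))) (node 689 (merge (leaf 0 654 690) (node 653 (merge (leaf 0 653 688) (node 621 (merge (leaf 3 620 620) (leaf 3 621 622)))))))))) (node 687 (merge (leaf 5 559 624) (node 658 (merge (leaf 1 654 686) (node 691 (merge (leaf 0 655 690) (node 659 (merge (leaf 1 655 688) (leaf 0 656 692))))))))))))) (merge (node 657 (merge (node 624 (merge (leaf 5 559 687) (leaf 4 560 689))) (merge (node 687 (merge (leaf 5 559 624) (node 686 (merge (leaf 1 654 658) (node 685 (merge (leaf 1 653 654) (leaf 2 652 684))))))) (merge (node 689 (merge (leaf 4 560 624) (node 654 (merge (leaf 0 654 690) (node 685 (merge (leaf 1 653 686) (node 653 (merge (leaf 1 652 684) (node 621 (merge (leaf 3 620 620) (leaf 3 621 622))))))))))) (node 654 (merge (node 685 (merge (leaf 1 653 686) (node 653 (merge (leaf 1 652 684) (node 621 (merge (leaf 3 620 620) (leaf 3 621 622))))))) (merge (node 690 (merge (leaf 0 654 689) (node 658 (merge (leaf 0 655 691) (node 686 (merge (leaf 1 653 685) (leaf 1 654 687))))))) (node 622 (merge (leaf 3 621 621) (node 558 (merge (leaf 4 558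 687) (node 559 (merge (leaf 1 557 589) (node 557 (merge (leaf 7 525 525) (leaf 0 557 593)))))))))))))))) (merge (node 654 (merge (node 622 (merge (node 687 (merge (leaf 4 558 558) (node 719 (merge (leaf 4 590 686) (leaf 7 622 751))))) (node 621 (merge (leaf 3 621 657) (node 620 (merge (leaf 0 619 619) (leaf 3 620 653))))))) (merge (node 653 (merge (node 689 (merge (leaf 0 653 688) (node 657 (merge (leaf 0 654 690) (node 621 (merge (leaf 3 620 620) (leaf 3 621 622))))))) (merge (node 684 (merge (leaf 1 652 685) (node 652 (merge (leaf 1 651 683) (node 620 (merge (leaf 3 619 619) (leaf 3 620 621))))))) (node 689 (merge (leaf 0 653 688) (node 657 (merge (leaf 0 654 690) (node 685 (merge (leaf 1 652 684) (leaf 1 653 686)))))))))) (merge (node 653 (merge (node 688 (merge (leaf 0 653 689) (node 652 (merge (leaf 0 652 687) (node 684 (merge (leaf 1 651 683) (leaf 1 652 685))))))) (merge (node 689 (merge (leaf 0 653 688) (node 657 (merge (leaf 0 654 690) (node 621 (merge (leaf 3 620 620) (leaf 3 621 622))))))) (node 684 (merge (leaf 1 652 685) (node 652 (merge (leaf 1 651 683)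 (node 620 (merge (leaf 3 619 619) (leaf 3 620 621)))))))))) (merge (node 653 (merge (node 689 (merge (leaf 0 653 688) (node 657 (merge (leaf 0 654 690) (node 685 (merge (leaf 1 652 684) (leaf 1 653 686))))))) (merge (node 684 (merge (leaf 1 652 685) (node 652 (merge (leaf 1 651 683) (node 620 (merge (leaf 3 619 619) (leaf 3 620 621))))))) (node 688 (merge (leaf 0 653 689) (node 652 (merge (leaf 0 652 687) (node 620 (merge (leaf 3 619 619) (leaf 3 620 621)))))))))) (merge (node 685 (merge (node 686 (merge (leaf 1 653 657) (node 684 (merge (leaf 2 651 683) (leaf 2 652 687))))) (merge (node 653 (merge (leaf 1 652 684) (node 558 (merge (leaf 5 557 622) (node 559 (merge (leaf 1 557 589) (node 593 (merge (leaf 0 557 557) (leaf 0 558 594))))))))) (node 657 (merge (leaf 1 653 686) (node 689 (merge (leaf 0 654 690) (node 653 (merge (leaf 0 653 688) (node 558 (merge (leaf 5 557 622) (node 559 (merge (leaf 1 557 589) (node 593 (merge (leaf 0 557 557) (leaf 0 558 594)))))))))))))))) (merge (node 622 (merge (node 687 (merge (leaf 4 558 558) (node 719 (merge (leaf 4 590 686) (leaf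 7 622 751))))) (merge (node 558 (merge (leaf 4 558 687) (node 559 (merge (leaf 1 557 589) (node 593 (merge (leaf 0 557 557) (leaf 0 558 594))))))) (merge (node 657 (merge (leaf 3 621 621) (node 686 (merge (leaf 1 653 685) (node 687 (merge (leaf 1 654 658) (leaf 4 590 719))))))) (node 657 (merge (leaf 3 621 621) (node 690 (merge (leaf 0 654 689) (node 658 (merge (leaf 0 655 691) (node 686 (merge (leaf 1 653 685) (node 557 (merge (leaf 7 557 589) (node 558 (merge (leaf 7 525 525) (node 593 (merge (leaf 0 557 559) (node 626 (merge (leaf 7 561 594) (leaf 2 623 627))))))))))))))))))))) (node 653 (merge (node 688 (merge (leaf 0 653 689) (node 652 (merge (leaf 0 652 687) (node 684 (merge (leaf 1 651 683) (leaf 1 652 685))))))) (merge (node 685 (merge (leaf 1 652 684) (node 621 (merge (leaf 3 620 620) (node 589 (merge (leaf 6 557 558) (node 686 (merge (leaf 4 557 557) (leaf 4 589 718))))))))) (merge (node 688 (merge (leaf 0 653 689) (node 687 (merge (leaf 0 652 652) (node 621 (merge (leaf 3 620 620) (node 558 (merge (leaf 4 558 622) (node 589 (merge (leaf 1 557 559) (leaf 6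 557 685))))))))))) (node 620 (merge (leaf 3 620 621) (node 652 (merge (leaf 3 619 619) (node 687 (merge (leaf 0 652 688) (node 651 (merge (leaf 0 651 686) (node 683 (merge (leaf 1 650 682) (leaf 1 651 684)))))))))))))))))))))) (merge (node 654 (merge (node 687 (merge (leaf 5 559 624) (node 622 (merge (leaf 4 558 558) (node 719 (merge (leaf 4 590 686) (leaf 7 622 751))))))) (merge (node 624 (merge (leaf 5 559 687) (node 688 (merge (leaf 6 560 593) (node 689 (merge (leaf 0 653 653) (leaf 4 592 721))))))) (merge (node 653 (merge (node 688 (merge (leaf 0 653 689) (node 652 (merge (leaf 0 652 687) (node 684 (merge (leaf 1 651 683) (leaf 1 652 685))))))) (merge (node 685 (merge (leaf 1 652 684) (node 621 (merge (leaf 3 620 620) (node 589 (merge (leaf 6 557 558) (node 686 (merge (leaf 4 557 557) (leaf 4 589 718))))))))) (merge (node 688 (merge (leaf 0 653 689) (node 687 (merge (leaf 0 652 652) (node 621 (merge (leaf 3 620 620) (node 558 (merge (leaf 4 558 622) (node 589 (merge (leaf 1 557 559) (leaf 6 557 685))))))))))) (node 620 (merge (leaf 3 620 621) (node 652 (merge (leaf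 3 619 619) (node 687 (merge (leaf 0 652 688) (node 651 (merge (leaf 0 651 686) (node 683 (merge (leaf 1 650 682) (leaf 1 651 684))))))))))))))) (node 558 (merge (node 559 (merge (leaf 1 557 589) (node 593 (merge (leaf 0 557 557) (leaf 0 558 594))))) (merge (node 559 (merge (leaf 1 557 589) (node 525 (merge (leaf 3 525 526) (node 557 (merge (leaf 3 524 524) (leaf 7 525 622))))))) (merge (node 559 (merge (node 593 (merge (leaf 0 557 557) (leaf 0 558 594))) (merge (node 525 (merge (leaf 3 525 526) (node 557 (merge (leaf 3 524 524) (leaf 7 525 622))))) (node 593 (merge (leaf 0 558 594) (node 688 (merge (leaf 6 560 624) (node 653 (merge (leaf 0 653 689) (node 526 (merge (leaf 3 525 525) (node 622 (merge (leaf 5 525 621) (leaf 5 557 685)))))))))))))) (merge (node 559 (merge (leaf 1 557 589) (node 593 (merge (leaf 0 558 594) (node 688 (merge (leaf 6 560 624) (node 653 (merge (leaf 0 653 689) (node 526 (merge (leaf 3 525 525) (node 622 (merge (leaf 5 525 621) (leaf 5 557 685))))))))))))) (node 653 (merge (node 621 (merge (leaf 3 620 620) (node 526 (merge (leaf 5 525 622) (node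 589 (merge (leaf 5 493 494) (leaf 6 525 557))))))) (merge (node 684 (merge (leaf 1 652 685) (node 652 (merge (leaf 1 651 683) (node 620 (merge (leaf 3 619 619) (leaf 3 620 621))))))) (node 688 (merge (leaf 0 653 689) (node 593 (merge (leaf 6 560 624) (node 496 (merge (leaf 4 464 464) (node 497 (merge (leaf 6 464 465) (node 495 (merge (leaf 7 463 463) (node 622 (merge (leaf 5 557 685) (node 525 (merge (leaf 7 525 557) (node 526 (merge (leaf 7 493 493) (leaf 1 493 494))))))))))))))))))))))))))))) (merge (node 558 (merge (node 559 (merge (leaf 1 557 589) (node 593 (merge (leaf 0 557 557) (leaf 0 558 594))))) (merge (node 654 (merge (node 622 (merge (node 525 (merge (leaf 7 525 557) (node 526 (merge (leaf 7 493 493) (leaf 3 525 559))))) (node 657 (merge (leaf 3 621 621) (node 689 (merge (leaf 4 560 624) (leaf 0 654 690))))))) (merge (node 689 (merge (node 657 (merge (leaf 4 560 624) (leaf 0 654 690))) (merge (node 688 (merge (leaf 0 653 653) (node 624 (merge (leaf 6 560 593) (leaf 4 592 721))))) (node 653 (merge (leaf 0 653 688) (node 657 (merge (leaf 0 654 690) (node 685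 (merge (leaf 1 652 684) (leaf 1 653 686)))))))))) (node 653 (merge (node 622 (merge (leaf 5 557 685) (node 525 (merge (leaf 7 525 557) (node 526 (merge (leaf 7 493 493) (leaf 3 525 559))))))) (merge (node 684 (merge (leaf 1 652 685) (node 652 (merge (leaf 1 651 683) (node 620 (merge (leaf 3 619 619) (leaf 3 620 621))))))) (node 621 (merge (leaf 3 620 620) (node 526 (merge (leaf 5 525 622) (node 559 (merge (leaf 3 525 525) (node 593 (merge (leaf 0 557 557) (leaf 0 558 594))))))))))))))) (merge (node 653 (merge (node 559 (merge (leaf 1 557 589) (node 526 (merge (leaf 3 525 525) (node 621 (merge (leaf 5 525 622) (node 654 (merge (leaf 3 620 620) (node 689 (merge (leaf 0 653 688) (node 657 (merge (leaf 4 560 624) (leaf 0 654 690))))))))))))) (merge (node 589 (merge (leaf 1 557 559) (node 685 (merge (leaf 6 557 621) (node 654 (merge (leaf 1 652 684) (node 689 (merge (leaf 0 653 688) (node 657 (merge (leaf 1 653 686) (leaf 0 654 690))))))))))) (merge (node 654 (merge (node 621 (merge (leaf 3 620 620) (node 526 (merge (leaf 5 525 622) (node 589 (merge (leaf 5 493 494) (leaf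 6 525 557))))))) (node 689 (merge (leaf 0 653 688) (node 657 (merge (leaf 0 654 690) (node 685 (merge (leaf 1 652 684) (leaf 1 653 686))))))))) (merge (node 559 (merge (leaf 1 557 589) (node 525 (merge (leaf 3 525 526) (node 557 (merge (leaf 3 524 524) (node 654 (merge (leaf 7 525 622) (node 689 (merge (leaf 0 653 688) (node 657 (merge (leaf 0 654 690) (node 685 (merge (leaf 1 652 684) (leaf 1 653 686))))))))))))))) (merge (node 654 (merge (node 622 (merge (leaf 5 557 685) (node 525 (merge (leaf 7 525 557) (node 526 (merge (leaf 7 493 493) (leaf 3 525 559))))))) (merge (node 684 (merge (leaf 1 652 685) (node 652 (merge (leaf 1 651 683) (node 620 (merge (leaf 3 619 619) (leaf 3 620 621))))))) (node 689 (merge (leaf 0 653 688) (node 657 (merge (leaf 4 560 624) (leaf 0 654 690)))))))) (node 589 (merge (leaf 1 557 559) (node 621 (merge (leaf 6 557 685) (node 526 (merge (leaf 6 525 557) (leaf 5 525 622))))))))))))) (merge (node 654 (merge (node 657 (merge (node 689 (merge (leaf 4 560 624) (leaf 0 654 690))) (node 686 (merge (leaf 1 653 685) (node 622 (merge (leaf 3 621 621)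 (node 557 (merge (leaf 7 525 525) (leaf 7 557 589))))))))) (merge (node 689 (merge (node 657 (merge (leaf 4 560 624) (leaf 0 654 690))) (merge (node 688 (merge (leaf 0 653 653) (node 624 (merge (leaf 6 560 593) (leaf 4 592 721))))) (node 653 (merge (leaf 0 653 688) (node 657 (merge (leaf 0 654 690) (node 621 (merge (leaf 3 620 620) (leaf 3 621 622)))))))))) (merge (node 622 (merge (node 653 (merge (leaf 5 557 685) (node 621 (merge (leaf 5 525 526) (leaf 3 620 620))))) (merge (node 557 (merge (leaf 7 525 525) (node 686 (merge (leaf 7 557 589) (node 685 (merge (leaf 1 653 657) (leaf 5 589 717))))))) (node 621 (merge (leaf 3 621 657) (node 653 (merge (leaf 5 525 526) (leaf 3 620 620)))))))) (merge (node 689 (merge (node 657 (merge (leaf 4 560 624) (leaf 0 654 690))) (merge (node 688 (merge (leaf 0 653 653) (node 624 (merge (leaf 6 560 593) (leaf 4 592 721))))) (node 653 (merge (leaf 0 653 688) (node 657 (merge (leaf 0 654 690) (node 685 (merge (leaf 1 652 684) (leaf 1 653 686)))))))))) (node 653 (merge (node 621 (merge (leaf 3 620 620) (node 526 (merge (leaf 5 525 622)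 (node 589 (merge (leaf 5 493 494) (leaf 6 525 557))))))) (merge (node 684 (merge (leaf 1 652 685) (node 652 (merge (leaf 1 651 683) (node 620 (merge (leaf 3 619 619) (leaf 3 620 621))))))) (node 688 (merge (leaf 0 653 689) (node 593 (merge (leaf 6 560 624) (node 496 (merge (leaf 4 464 464) (node 497 (merge (leaf 6 464 465) (node 495 (merge (leaf 7 463 463) (node 622 (merge (leaf 5 557 685) (node 525 (merge (leaf 7 525 557) (node 526 (merge (leaf 7 493 493) (leaf 1 493 494))))))))))))))))))))))))) (node 526 (merge (node 559 (merge (leaf 3 525 525) (leaf 1 557 589))) (merge (node 589 (merge (leaf 1 557 559) (node 494 (merge (leaf 5 493 621) (node 463 (merge (leaf 6 462 495) (node 462 (merge (leaf 6 430 431) (node 461 (merge (leaf 7 429 429) (leaf 7 461 493))))))))))) (merge (node 525 (merge (leaf 3 525 559) (node 622 (merge (leaf 7 493 493) (node 621 (merge (leaf 5 525 653) (node 657 (merge (leaf 3 621 654) (node 624 (merge (leaf 4 560 689) (node 593 (merge (leaf 6 560 688) (node 496 (merge (leaf 4 464 464) (node 497 (merge (leaf 6 464 465) (node 495 (merge (leaf 7 463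 463) (leaf 1 493 494))))))))))))))))))) (node 621 (merge (node 653 (merge (leaf 5 525 622) (node 685 (merge (leaf 6 557 589) (node 654 (merge (leaf 3 620 620) (leaf 1 652 684))))))) (merge (node 494 (merge (leaf 5 493 589) (node 463 (merge (leaf 6 462 495) (node 462 (merge (leaf 6 430 431) (node 461 (merge (leaf 7 429 429) (leaf 7 461 493))))))))) (node 622 (merge (leaf 5 525 653) (node 525 (merge (leaf 7 493 493) (node 657 (merge (leaf 3 621 654) (node 624 (merge (leaf 4 560 689) (node 593 (merge (leaf 6 560 688) (node 496 (merge (leaf 4 464 464) (node 497 (merge (leaf 6 464 465) (node 495 (merge (leaf 7 463 463) (leaf 1 493 494))))))))))))))))))))))))))))) (node 687 (merge (leaf 5 559 624) (node 654 (merge (node 622 (merge (leaf 4 558 558) (node 719 (merge (leaf 4 590 686) (leaf 7 622 751))))) (merge (node 558 (merge (leaf 4 558 622) (node 559 (merge (leaf 1 557 589) (node 593 (merge (leaf 0 557 557) (leaf 0 558 594))))))) (merge (node 621 (merge (node 620 (merge (leaf 3 620 653) (node 622 (merge (leaf 0 619 619) (leaf 3 621 657))))) (merge (node 653 (merge (leaf 3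 620 620) (node 685 (merge (leaf 1 652 684) (node 686 (merge (leaf 1 653 657) (node 718 (merge (leaf 4 589 589) (leaf 7 621 750))))))))) (merge (node 657 (merge (leaf 3 621 622) (node 686 (merge (leaf 1 653 685) (node 658 (merge (leaf 1 654 687) (node 691 (merge (leaf 0 655 690) (node 659 (merge (leaf 0 656 692) (node 627 (merge (leaf 2 623 626) (leaf 2 624 628))))))))))))) (node 653 (merge (leaf 3 620 620) (node 684 (merge (leaf 1 652 685) (node 652 (merge (leaf 1 651 683) (node 651 (merge (leaf 0 651 686) (node 650 (merge (leaf 2 618 622) (node 618 (merge (leaf 3 617 617) (leaf 3 618 619))))))))))))))))) (node 653 (merge (node 684 (merge (leaf 1 652 685) (node 652 (merge (leaf 1 651 683) (node 620 (merge (leaf 3 619 619) (leaf 3 620 621))))))) (merge (node 620 (merge (leaf 3 620 621) (node 652 (merge (leaf 3 619 619) (node 686 (merge (leaf 0 651 651) (node 657 (merge (leaf 1 654 658) (leaf 1 653 685))))))))) (merge (node 620 (merge (leaf 3 620 621) (node 652 (merge (leaf 3 619 619) (node 651 (merge (leaf 0 651 686) (node 683 (merge (leaf 1 650 682) (leaf 1 651 684)))))))))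 (merge (node 684 (merge (leaf 1 652 685) (node 652 (merge (leaf 1 651 683) (node 651 (merge (leaf 0 651 686) (node 619 (merge (leaf 3 618 618) (leaf 3 619 620))))))))) (merge (node 685 (merge (leaf 1 652 684) (node 621 (merge (leaf 3 620 620) (node 589 (merge (leaf 6 557 558) (node 686 (merge (leaf 4 557 557) (leaf 4 589 718))))))))) (node 688 (merge (leaf 0 652 652) (node 685 (merge (leaf 1 652 684) (node 686 (merge (leaf 1 653 657) (node 717 (merge (leaf 1 684 716) (node 749 (merge (leaf 6 653 781) (node 750 (merge (leaf 4 653 782) (node 718 (merge (leaf 7 621 621) (node 748 (merge (leaf 5 652 780) (node 747 (merge (leaf 2 715 719) (leaf 2 714 746)))))))))))))))))))))))))))))))))))))) nP_169 cP_169 14 (by decide +kernel)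
def nP_170 : ℕ := 0x80000000000000014000000100000001000000000000000000000000000000000000000000000000000000000000000000000000000000000000000000000000000000000000000000000000000000000000
def cP_170 : ℕ := 0x1c0000001e0000001f000000ff8000007f800001ffc00000f78000001f80000002000000060000000400000000000000000000000000000000000000000000000000000000000000000000000000000000000000000000000000000000000000000000000000000000000
theorem lP_170 : S nP_170 cP_170 14 := S_of_chk [] trivial (node 687 (merge (node 624 (merge (leaf 5 527 623) (leaf 5 559 656))) (merge (node 623 (merge (leaf 5 527 624) (node 622 (merge (leaf 7 590 719) (node 558 (merge (leaf 4 526 526) (leaf 4 558 654))))))) (merge (node 686 (merge (node 656 (merge (leaf 5 559 624) (node 657 (merge (leaf 1 654 658) (node 685 (merge (leaf 1 653 654) (leaf 2 652 684))))))) (merge (node 656 (merge (leaf 5 559 624) (node 685 (merge (leaf 2 652 684) (node 688 (merge (leaf 2 653 657) (node 721 (merge (leaf 0 685 720) (node 689 (merge (leaf 0 686 722) (node 717 (merge (leaf 1 684 716) (leaf 1 685 718))))))))))))) (merge (node 688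 (merge (node 654 (merge (node 622 (merge (leaf 4 558 558) (leaf 4 590 719))) (node 689 (merge (leaf 3 653 653) (leaf 3 654 690))))) (merge (node 656 (merge (leaf 5 559 624) (node 685 (merge (leaf 2 652 684) (node 717 (merge (leaf 1 684 716) (node 653 (merge (leaf 3 652 652) (node 621 (merge (leaf 6 589 622) (node 589 (merge (leaf 6 557 558) (leaf 4 589 718))))))))))))) (merge (node 656 (merge (leaf 5 559 624) (node 685 (merge (leaf 2 652 684) (node 721 (merge (leaf 0 685 720) (node 689 (merge (leaf 0 686 722) (node 653 (merge (leaf 3 652 652) (leaf 0 653 654))))))))))) (node 656 (merge (leaf 5 559 624) (node 685 (merge (leaf 2 652 684) (node 721 (merge (leaf 0 685 720) (node 689 (merge (leaf 0 686 722) (node 717 (merge (leaf 1 684 716) (leaf 1 685 718))))))))))))))) (merge (node 654 (merge (node 622 (merge (leaf 4 558 558) (node 719 (merge (leaf 4 590 686) (leaf 7 622 751))))) (merge (node 622 (merge (leaf 4 558 558) (node 589 (merge (leaf 7 557 557) (node 718 (merge (leaf 7 589 621) (node 717 (merge (leaf 5 589 685) (leaf 5 621 749))))))))) (node 685 (merge (node 684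 (merge (leaf 2 651 683) (node 716 (merge (leaf 1 683 715) (node 688 (merge (leaf 1 684 717) (node 652 (merge (leaf 3 651 651) (leaf 0 652 653))))))))) (merge (node 684 (merge (leaf 2 651 683) (node 720 (merge (leaf 0 684 719) (node 688 (merge (leaf 0 685 721) (node 652 (merge (leaf 3 651 651) (leaf 0 652 653))))))))) (merge (node 684 (merge (leaf 2 651 683) (node 720 (merge (leaf 0 684 719) (node 688 (merge (leaf 0 685 721) (node 716 (merge (leaf 1 683 715) (leaf 1 684 717))))))))) (merge (node 684 (merge (leaf 2 651 683) (node 719 (merge (leaf 0 684 720) (node 716 (merge (leaf 1 683 715) (node 751 (merge (leaf 7 654 783) (node 652 (merge (leaf 3 651 651) (node 752 (merge (leaf 4 655 784) (node 750 (merge (leaf 5 654 782) (node 749 (merge (leaf 3 716 717) (node 781 (merge (leaf 4 652 748) (leaf 1 748 780))))))))))))))))))) (node 688 (merge (node 689 (merge (leaf 3 653 653) (leaf 3 654 690))) (merge (node 653 (merge (leaf 0 652 652) (node 717 (merge (leaf 1 684 716) (node 749 (merge (leaf 6 653 781) (node 750 (merge (leaf 4 653 782) (node 718 (merge (leaf 7 621 621) (node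 748 (merge (leaf 5 652 780) (node 719 (merge (leaf 1 716 720) (leaf 2 715 747))))))))))))))) (node 721 (merge (leaf 0 685 720) (node 689 (merge (leaf 3 654 690) (leaf 0 686 722)))))))))))))))) (node 654 (merge (node 622 (merge (leaf 4 558 558) (node 719 (merge (leaf 4 590 686) (leaf 7 622 751))))) (merge (node 622 (merge (leaf 4 558 558) (node 656 (merge (leaf 5 559 624) (node 657 (merge (leaf 3 621 621) (node 658 (merge (leaf 1 654 686) (node 691 (merge (leaf 0 655 690) (node 659 (merge (leaf 1 655 688) (leaf 0 656 692))))))))))))) (node 656 (merge (leaf 5 559 624) (node 657 (merge (leaf 1 654 658) (node 689 (merge (leaf 0 654 690) (node 688 (merge (leaf 0 653 653) (node 721 (merge (leaf 0 686 722) (node 718 (merge (leaf 1 685 717) (node 750 (merge (leaf 6 654 782) (node 751 (merge (leaf 4 654 783) (node 749 (merge (leaf 5 653 781) (node 720 (merge (leaf 1 717 719) (leaf 2 717 752))))))))))))))))))))))))))))) (node 719 (merge (node 622 (merge (leaf 7 590 623) (node 654 (merge (leaf 4 558 558) (leaf 4 590 686))))) (merge (node 623 (merge (leaf 7 590 622) (node 752 (merge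 (leaf 4 623 720) (node 751 (merge (leaf 4 655 784) (node 750 (merge (leaf 5 622 718) (leaf 5 654 782))))))))) (merge (node 718 (merge (node 750 (merge (leaf 5 622 623) (node 782 (merge (leaf 6 654 686) (leaf 6 686 814))))) (merge (node 750 (merge (leaf 5 622 623) (node 782 (merge (leaf 5 654 751) (leaf 6 686 814))))) (merge (node 720 (merge (node 752 (merge (leaf 4 623 623) (node 784 (merge (leaf 4 655 751) (leaf 7 687 816))))) (node 689 (merge (node 688 (merge (leaf 1 686 690) (node 717 (merge (leaf 2 684 716) (leaf 2 685 720))))) (merge (node 721 (merge (leaf 2 686 690) (node 754 (merge (leaf 0 718 753) (node 722 (merge (leaf 3 686 686) (leaf 0 719 755))))))) (node 717 (merge (leaf 2 685 688) (node 749 (merge (leaf 1 716 748) (node 685 (merge (leaf 3 684 684) (node 686 (merge (leaf 3 685 721) (node 781 (merge (leaf 6 653 654) (leaf 6 685 813)))))))))))))))) (node 751 (merge (node 784 (merge (leaf 4 655 752) (node 783 (merge (leaf 4 687 816) (node 815 (merge (leaf 7 686 686) (node 814 (merge (leaf 5 686 782) (leaf 5 718 846))))))))) (merge (node 782 (merge (leaf 5 654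 750) (node 783 (merge (leaf 5 686 814) (node 815 (merge (leaf 7 686 686) (node 720 (merge (leaf 6 687 688) (node 752 (merge (leaf 6 719 847) (node 753 (merge (leaf 0 717 717) (leaf 1 750 754))))))))))))) (merge (node 782 (merge (leaf 5 654 750) (node 783 (merge (leaf 5 686 814) (node 686 (merge (leaf 7 654 654) (node 815 (merge (leaf 7 686 718) (node 816 (merge (leaf 4 687 784) (leaf 4 719 848))))))))))) (node 752 (merge (leaf 4 655 784) (node 717 (merge (leaf 0 716 716) (node 753 (merge (leaf 0 717 720) (leaf 3 717 750))))))))))))))) (node 654 (merge (node 622 (merge (leaf 4 558 558) (leaf 4 590 686))) (merge (node 622 (merge (leaf 4 558 558) (leaf 7 622 751))) (node 653 (merge (node 652 (merge (leaf 0 652 688) (node 684 (merge (leaf 1 651 683) (node 656 (merge (leaf 1 652 685) (node 620 (merge (leaf 3 619 619) (leaf 3 620 621))))))))) (merge (node 652 (merge (leaf 0 652 688) (node 686 (merge (leaf 0 651 651) (node 620 (merge (leaf 3 619 619) (node 656 (merge (leaf 3 620 621) (node 657 (merge (leaf 1 654 658) (leaf 1 653 685))))))))))) (merge (node 652 (merge (leaf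 0 652 688) (node 651 (merge (leaf 0 651 686) (node 683 (merge (leaf 1 650 682) (leaf 1 651 684))))))) (merge (node 652 (merge (leaf 0 652 688) (node 686 (merge (leaf 0 651 651) (node 684 (merge (leaf 1 651 683) (node 685 (merge (leaf 0 684 720) (node 716 (merge (leaf 1 683 715) (node 748 (merge (leaf 6 620 621) (node 620 (merge (leaf 3 619 619) (node 749 (merge (leaf 7 620 717) (leaf 4 652 781))))))))))))))))) (merge (node 652 (merge (node 684 (merge (leaf 1 651 683) (node 656 (merge (leaf 1 652 685) (node 620 (merge (leaf 3 619 619) (leaf 3 620 621))))))) (merge (node 686 (merge (leaf 0 651 651) (node 620 (merge (leaf 3 619 619) (node 656 (merge (leaf 3 620 621) (node 657 (merge (leaf 1 654 658) (leaf 1 653 685))))))))) (merge (node 651 (merge (leaf 0 651 686) (node 683 (merge (leaf 1 650 682) (leaf 1 651 684))))) (merge (node 686 (merge (leaf 0 651 651) (node 684 (merge (leaf 1 651 683) (node 685 (merge (leaf 1 652 656) (leaf 0 684 720))))))) (merge (node 686 (merge (leaf 0 651 651) (node 684 (merge (leaf 1 651 683) (node 685 (merge (leaf 0 684 720) (node 716 (merge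 (leaf 1 683 715) (node 748 (merge (leaf 6 620 621) (node 620 (merge (leaf 3 619 619) (node 749 (merge (leaf 7 620 717) (leaf 4 652 781))))))))))))))) (node 686 (merge (leaf 0 651 651) (node 684 (merge (leaf 1 651 683) (node 685 (merge (leaf 1 652 656) (leaf 0 684 720))))))))))))) (merge (node 652 (merge (leaf 0 652 688) (node 686 (merge (leaf 0 651 651) (node 684 (merge (leaf 1 651 683) (node 685 (merge (leaf 1 652 656) (leaf 0 684 720))))))))) (node 686 (merge (node 751 (merge (leaf 7 654 783) (node 752 (merge (leaf 4 655 784) (node 750 (merge (leaf 5 654 782) (node 718 (merge (leaf 7 621 621) (node 753 (merge (leaf 3 717 717) (leaf 3 718 754))))))))))) (merge (node 751 (merge (leaf 7 654 783) (node 750 (merge (leaf 5 654 782) (node 718 (merge (leaf 7 621 621) (node 749 (merge (leaf 5 653 781) (node 748 (merge (leaf 2 716 720) (leaf 2 715 747))))))))))) (merge (node 685 (merge (node 684 (merge (leaf 1 652 656) (leaf 0 684 720))) (merge (node 656 (merge (leaf 1 652 684) (node 689 (merge (leaf 0 653 688) (node 657 (merge (leaf 1 653 686) (leaf 0 654 690))))))) (merge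 (node 688 (merge (leaf 3 653 689) (node 720 (merge (leaf 0 685 721) (node 717 (merge (leaf 1 684 716) (node 749 (merge (leaf 6 653 781) (node 748 (merge (leaf 1 716 718) (leaf 5 652 780))))))))))) (node 684 (merge (leaf 2 651 683) (leaf 0 684 720))))))) (node 685 (merge (node 684 (merge (leaf 1 652 656) (leaf 0 684 720))) (merge (node 656 (merge (leaf 1 652 684) (node 689 (merge (leaf 0 653 688) (node 657 (merge (leaf 1 653 686) (leaf 0 654 690))))))) (merge (node 751 (merge (leaf 7 654 783) (node 688 (merge (leaf 3 653 689) (node 717 (merge (leaf 1 684 716) (node 749 (merge (leaf 6 653 781) (node 750 (merge (leaf 4 653 782) (node 748 (merge (leaf 2 716 720) (leaf 5 652 780))))))))))))) (node 684 (merge (leaf 2 651 683) (leaf 0 684 720))))))))))))))))))))))))))))) nP_170 cP_170 14 (by decide +kernel)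
def nP_171 : ℕ := 0x10000000300000009000000010000000000000000000000000000000000000000000000000000000000000000000000000000000000000000000000000000000000000000000000000000
def cP_171 : ℕ := 0x280000003c0000003c0000003c000000fc000003fc800001f4000001fe000000ff8000007f8000003c8000001000000000000000000000000000000000000000000000000000000000000000000000000000000000000000000000
theorem lP_171 : S nP_171 cP_171 13 := S_of_chk [] trivial (node 532 (merge (node 562 (merge (leaf 2 528 563) (node 530 (merge (leaf 1 529 533) (leaf 2 527 559))))) (merge (node 563 (merge (leaf 2 528 562) (node 595 (merge (node 500 (merge (leaf 6 499 627) (node 468 (merge (leaf 5 435 436) (leaf 5 467 564))))) (merge (node 627 (merge (leaf 6 499 500) (node 660 (merge (leaf 4 531 628) (node 659 (merge (leaf 4 563 692) (node 658 (merge (leaf 5 530 626) (leaf 5 562 690))))))))) (merge (node 627 (merge (node 659 (merge (leaf 6 531 564) (node 658 (merge (leaf 5 530 626) (leaf 5 562 690))))) (merge (node 659 (merge (leaf 6 531 564) (node 660 (merge (leaf 4 531 628) (leaf 4 563 692))))) (node 628 (merge (leaf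 4 531 660) (node 499 (merge (leaf 4 499 596) (node 626 (merge (leaf 5 498 594) (leaf 5 530 658)))))))))) (node 499 (merge (node 498 (merge (leaf 7 466 466) (leaf 0 496 497))) (node 500 (merge (leaf 6 467 468) (node 596 (merge (leaf 4 499 628) (node 564 (merge (leaf 7 467 467) (node 597 (merge (leaf 4 500 629) (node 598 (merge (leaf 3 563 599) (node 566 (merge (leaf 2 563 567) (node 594 (merge (leaf 1 562 565) (leaf 5 498 626))))))))))))))))))))))) (merge (node 530 (merge (node 562 (merge (leaf 1 529 533) (leaf 2 527 559))) (merge (node 497 (merge (leaf 6 464 465) (node 498 (merge (leaf 0 496 499) (leaf 3 497 533))))) (node 465 (merge (leaf 6 464 497) (node 464 (merge (leaf 6 432 433) (node 431 (merge (leaf 7 431 463) (node 432 (merge (leaf 7 399 399) (node 562 (merge (leaf 2 527 559) (node 467 (merge (leaf 3 431 466) (node 499 (merge (leaf 5 434 435) (node 594 (merge (leaf 6 466 498) (leaf 6 498 626)))))))))))))))))))) (merge (node 564 (merge (node 497 (merge (leaf 6 464 465) (node 499 (merge (leaf 0 496 498) (node 596 (merge (leaf 7 499 628) (node 467 (merge (leaf 4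 435 435) (leaf 4 467 563))))))))) (merge (node 497 (merge (leaf 6 464 465) (node 499 (merge (leaf 0 496 498) (node 563 (merge (leaf 2 528 562) (node 467 (merge (leaf 4 435 435) (node 468 (merge (leaf 6 435 436) (node 595 (merge (leaf 6 467 500) (node 627 (merge (leaf 6 531 659) (node 626 (merge (leaf 5 498 594) (leaf 5 530 658))))))))))))))))) (merge (node 596 (merge (node 628 (merge (leaf 7 499 499) (node 533 (merge (leaf 6 500 501) (node 660 (merge (leaf 6 532 565) (node 659 (merge (leaf 5 531 627) (leaf 5 563 691))))))))) (merge (node 563 (merge (leaf 2 528 562) (node 628 (merge (leaf 7 531 660) (node 629 (merge (leaf 4 532 661) (node 500 (merge (leaf 4 500 597) (node 468 (merge (leaf 5 435 436) (leaf 5 467 595))))))))))) (merge (node 500 (merge (node 563 (merge (leaf 2 528 562) (node 595 (merge (leaf 5 467 468) (leaf 6 499 627))))) (merge (node 499 (merge (leaf 7 467 467) (node 597 (merge (leaf 4 500 629) (node 468 (merge (leaf 4 468 565) (node 436 (merge (leaf 5 403 404) (leaf 5 435 563))))))))) (merge (node 562 (merge (leaf 2 528 563) (node 597 (merge (leaf 4 500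 629) (node 595 (merge (leaf 3 561 594) (leaf 5 499 627))))))) (node 597 (merge (leaf 4 500 629) (node 565 (merge (leaf 4 468 468) (node 566 (merge (leaf 3 531 567) (node 595 (merge (leaf 2 562 594) (leaf 5 499 627))))))))))))) (node 628 (merge (leaf 7 499 499) (node 660 (merge (leaf 7 531 563) (node 565 (merge (leaf 6 532 533) (node 692 (merge (leaf 6 564 597) (node 691 (merge (leaf 5 563 659) (leaf 5 595 723))))))))))))))) (merge (node 497 (merge (leaf 6 464 465) (node 499 (merge (leaf 0 496 498) (node 596 (merge (leaf 7 499 628) (node 500 (merge (leaf 7 467 467) (node 597 (merge (leaf 4 500 629) (node 565 (merge (leaf 4 468 468) (node 566 (merge (leaf 3 531 567) (node 595 (merge (leaf 2 562 594) (leaf 5 499 627))))))))))))))))) (merge (node 500 (merge (node 563 (merge (leaf 2 528 562) (node 595 (merge (leaf 5 467 468) (leaf 6 499 627))))) (merge (node 497 (merge (leaf 6 464 465) (node 499 (merge (leaf 0 496 498) (node 596 (merge (leaf 7 499 628) (node 597 (merge (leaf 4 500 629) (node 565 (merge (leaf 4 468 468) (node 566 (merge (leaf 3 531 567) (node 595 (merge (leaf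 2 562 594) (leaf 5 499 627))))))))))))))) (merge (node 497 (merge (leaf 6 464 465) (node 499 (merge (leaf 0 496 498) (node 596 (merge (leaf 7 499 628) (node 562 (merge (leaf 2 528 563) (node 597 (merge (leaf 4 500 629) (node 595 (merge (leaf 3 561 594) (leaf 5 499 627))))))))))))) (node 497 (merge (leaf 6 464 465) (node 499 (merge (leaf 0 496 498) (node 596 (merge (leaf 7 499 628) (node 501 (merge (leaf 6 468 469) (node 502 (merge (leaf 1 499 503) (node 534 (merge (leaf 0 499 535) (node 470 (merge (leaf 2 467 471) (node 597 (merge (leaf 4 500 629) (node 565 (merge (leaf 4 468 468) (leaf 5 469 566))))))))))))))))))))))) (node 596 (merge (node 563 (merge (leaf 2 528 562) (node 628 (merge (leaf 7 531 660) (node 629 (merge (leaf 4 532 661) (node 500 (merge (leaf 4 500 597) (node 468 (merge (leaf 5 435 436) (leaf 5 467 595))))))))))) (merge (node 465 (merge (leaf 6 464 497) (node 563 (merge (leaf 2 528 562) (node 628 (merge (leaf 7 531 660) (node 501 (merge (leaf 6 500 533) (node 500 (merge (leaf 6 468 469) (node 627 (merge (leaf 6 499 595) (leaf 5 531 659))))))))))))) (merge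 (node 595 (merge (node 562 (merge (leaf 0 560 563) (node 594 (merge (leaf 0 559 559) (leaf 3 561 597))))) (merge (node 465 (merge (leaf 6 464 497) (node 500 (merge (leaf 5 499 627) (node 501 (merge (leaf 6 468 469) (node 468 (merge (leaf 5 467 563) (node 467 (merge (leaf 7 435 435) (leaf 0 465 466))))))))))) (node 465 (merge (leaf 6 464 497) (node 500 (merge (leaf 5 499 627) (node 501 (merge (leaf 6 468 469) (node 597 (merge (leaf 4 500 629) (node 468 (merge (leaf 4 468 565) (node 467 (merge (leaf 7 435 435) (leaf 0 465 466)))))))))))))))) (merge (node 497 (merge (leaf 6 464 465) (node 563 (merge (leaf 2 528 562) (node 628 (merge (leaf 7 531 660) (node 533 (merge (leaf 6 500 501) (node 534 (merge (leaf 1 531 535) (node 566 (merge (leaf 0 531 567) (node 502 (merge (leaf 2 499 503) (node 629 (merge (leaf 4 532 661) (node 597 (merge (leaf 6 501 565) (leaf 5 501 598))))))))))))))))))) (merge (node 500 (merge (node 501 (merge (leaf 6 468 469) (node 628 (merge (leaf 6 500 533) (node 629 (merge (leaf 4 500 597) (leaf 4 532 661))))))) (merge (node 501 (merge (leaf 6 468 469)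 (node 628 (merge (leaf 6 500 533) (node 627 (merge (leaf 5 499 595) (leaf 5 531 659))))))) (node 465 (merge (leaf 6 464 497) (node 464 (merge (leaf 6 432 433) (node 431 (merge (leaf 7 431 463) (node 432 (merge (leaf 7 399 399) (node 467 (merge (leaf 3 431 466) (node 468 (merge (leaf 7 435 435) (node 597 (merge (leaf 4 468 565) (leaf 4 500 629)))))))))))))))))) (merge (node 563 (merge (leaf 2 528 562) (node 628 (merge (leaf 7 531 660) (node 629 (merge (leaf 4 532 661) (node 500 (merge (leaf 4 500 597) (node 627 (merge (leaf 6 499 595) (leaf 5 531 659))))))))))) (node 628 (merge (node 660 (merge (leaf 7 531 563) (node 659 (merge (leaf 5 531 627) (leaf 5 563 691))))) (merge (node 533 (merge (leaf 6 500 501) (node 660 (merge (leaf 6 532 565) (node 659 (merge (leaf 5 531 627) (leaf 5 563 691))))))) (merge (node 660 (merge (leaf 7 531 563) (node 565 (merge (leaf 6 532 533) (node 692 (merge (leaf 6 564 597) (node 693 (merge (leaf 4 564 661) (leaf 4 596 725))))))))) (node 501 (merge (leaf 6 500 533) (node 500 (merge (leaf 6 468 469) (node 627 (merge (leaf 5 499 595) (leaf 5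 531 659)))))))))))))))))))))))) (node 499 (merge (node 497 (merge (leaf 6 464 465) (leaf 0 496 498))) (merge (node 465 (merge (leaf 6 464 497) (node 464 (merge (leaf 6 432 433) (node 431 (merge (leaf 7 431 463) (node 432 (merge (leaf 7 399 399) (node 467 (merge (leaf 3 431 466) (node 435 (merge (leaf 4 435 564) (node 404 (merge (leaf 6 403 436) (node 403 (merge (leaf 6 371 372) (leaf 4 403 500))))))))))))))))) (merge (node 533 (merge (node 498 (merge (leaf 3 498 534) (node 497 (merge (leaf 0 496 496) (leaf 0 497 500))))) (merge (node 534 (merge (leaf 3 498 498) (node 566 (merge (leaf 0 531 567) (node 530 (merge (leaf 0 530 565) (node 502 (merge (leaf 2 498 501) (leaf 2 499 503))))))))) (merge (node 534 (merge (node 503 (merge (leaf 2 499 502) (node 535 (merge (leaf 3 499 500) (leaf 2 500 504))))) (merge (node 566 (merge (leaf 0 531 567) (node 530 (merge (leaf 0 530 565) (node 502 (merge (leaf 2 498 501) (leaf 2 499 503))))))) (node 535 (merge (leaf 3 499 500) (node 568 (merge (leaf 0 532 567) (node 536 (merge (leaf 0 533 569) (node 564 (merge (leaf 1 531 563) (leaf 1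 532 565)))))))))))) (node 563 (merge (node 498 (merge (leaf 0 496 497) (node 595 (merge (leaf 7 466 466) (node 627 (merge (leaf 6 499 500) (leaf 7 498 530))))))) (merge (node 596 (merge (node 564 (merge (leaf 7 499 628) (node 467 (merge (leaf 4 435 435) (leaf 4 467 563))))) (merge (node 498 (merge (leaf 0 496 497) (node 595 (merge (leaf 7 466 466) (leaf 4 499 628))))) (node 467 (merge (leaf 4 467 564) (node 436 (merge (leaf 6 435 468) (node 435 (merge (leaf 6 403 404) (node 434 (merge (leaf 7 402 402) (leaf 7 434 466)))))))))))) (merge (node 595 (merge (node 627 (merge (leaf 6 499 500) (node 626 (merge (leaf 5 498 594) (leaf 5 530 658))))) (merge (node 627 (merge (leaf 6 499 500) (node 659 (merge (leaf 6 531 564) (node 660 (merge (leaf 4 531 628) (leaf 4 563 692))))))) (node 596 (merge (leaf 4 499 628) (node 467 (merge (leaf 4 467 564) (node 436 (merge (leaf 6 435 468) (node 435 (merge (leaf 6 403 404) (node 434 (merge (leaf 7 402 402) (leaf 7 434 466)))))))))))))) (merge (node 596 (merge (node 564 (merge (leaf 4 467 467) (leaf 7 499 628))) (merge (node 498 (merge (leaf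 0 496 497) (node 467 (merge (leaf 4 467 564) (node 468 (merge (leaf 6 435 436) (node 595 (merge (leaf 6 467 500) (node 627 (merge (leaf 7 498 530) (node 626 (merge (leaf 5 498 594) (leaf 5 530 658))))))))))))) (node 595 (merge (leaf 4 499 628) (node 627 (merge (leaf 6 499 500) (node 626 (merge (leaf 5 498 594) (leaf 5 530 658)))))))))) (node 467 (merge (node 564 (merge (leaf 4 435 435) (leaf 4 467 596))) (merge (node 468 (merge (leaf 6 435 436) (node 498 (merge (leaf 0 496 497) (node 466 (merge (leaf 7 434 434) (node 469 (merge (leaf 1 466 470) (node 437 (merge (leaf 2 434 438) (node 564 (merge (leaf 5 436 501) (leaf 4 467 596))))))))))))) (node 436 (merge (leaf 6 435 468) (node 435 (merge (leaf 6 403 404) (node 434 (merge (leaf 7 402 402) (leaf 7 434 466))))))))))))))))))) (node 533 (merge (node 534 (merge (leaf 3 498 498) (node 567 (merge (leaf 0 531 566) (node 535 (merge (leaf 3 499 500) (leaf 0 532 568))))))) (merge (node 534 (merge (leaf 3 498 498) (node 503 (merge (leaf 2 499 502) (node 535 (merge (leaf 3 499 500) (leaf 2 500 504))))))) (merge (node 534 (merge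 (leaf 3 498 498) (node 566 (merge (leaf 0 531 567) (node 530 (merge (leaf 0 530 565) (node 502 (merge (leaf 2 498 501) (leaf 2 499 503))))))))) (merge (node 534 (merge (node 503 (merge (leaf 2 499 502) (node 535 (merge (leaf 3 499 500) (leaf 2 500 504))))) (merge (node 566 (merge (leaf 0 531 567) (node 530 (merge (leaf 0 530 565) (node 502 (merge (leaf 2 498 501) (leaf 2 499 503))))))) (node 535 (merge (leaf 3 499 500) (node 568 (merge (leaf 0 532 567) (node 536 (merge (leaf 0 533 569) (node 564 (merge (leaf 1 531 563) (leaf 1 532 565)))))))))))) (node 467 (merge (node 564 (merge (leaf 4 435 435) (node 596 (merge (leaf 7 467 500) (leaf 4 467 563))))) (merge (node 435 (merge (leaf 4 435 564) (node 436 (merge (leaf 6 403 404) (node 563 (merge (leaf 6 435 468) (node 434 (merge (leaf 7 402 402) (leaf 7 434 466))))))))) (merge (node 435 (merge (leaf 4 435 564) (node 436 (merge (leaf 6 403 404) (node 434 (merge (leaf 7 402 402) (node 500 (merge (leaf 4 403 403) (node 468 (merge (leaf 4 436 565) (node 469 (merge (leaf 0 433 433) (leaf 3 434 470))))))))))))) (merge (node 468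 (merge (node 436 (merge (leaf 6 435 563) (node 404 (merge (leaf 5 371 372) (leaf 5 403 500))))) (merge (node 563 (merge (leaf 6 435 436) (node 466 (merge (leaf 7 434 434) (node 595 (merge (leaf 7 466 498) (node 596 (merge (leaf 4 467 564) (leaf 4 499 628))))))))) (merge (node 500 (merge (node 563 (merge (leaf 6 467 595) (node 466 (merge (leaf 7 434 434) (node 501 (merge (leaf 0 465 465) (leaf 3 466 502))))))) (node 564 (merge (leaf 7 467 596) (node 565 (merge (leaf 4 468 597) (node 566 (merge (leaf 0 530 530) (leaf 3 531 567))))))))) (node 500 (merge (node 436 (merge (leaf 5 403 404) (leaf 4 436 565))) (merge (node 564 (merge (leaf 7 467 596) (node 565 (merge (leaf 4 468 597) (node 566 (merge (leaf 0 530 530) (leaf 3 531 567))))))) (node 564 (merge (leaf 7 467 596) (node 437 (merge (leaf 6 436 469) (node 436 (merge (leaf 5 403 404) (leaf 6 404 405)))))))))))))) (node 563 (merge (node 466 (merge (leaf 7 434 434) (node 595 (merge (leaf 7 466 498) (node 628 (merge (leaf 4 499 596) (node 627 (merge (leaf 4 531 660) (node 626 (merge (leaf 5 498 594) (leaf 5 530 658)))))))))))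 (merge (node 468 (merge (leaf 6 435 436) (node 595 (merge (leaf 6 467 500) (node 628 (merge (leaf 4 499 596) (node 627 (merge (leaf 4 531 660) (node 626 (merge (leaf 5 498 594) (leaf 5 530 658))))))))))) (merge (node 468 (merge (leaf 6 435 436) (node 595 (merge (leaf 6 467 500) (node 628 (merge (leaf 4 499 596) (node 627 (merge (leaf 4 531 660) (node 626 (merge (leaf 5 498 594) (leaf 5 530 658))))))))))) (node 436 (merge (leaf 6 435 468) (node 435 (merge (leaf 6 403 404) (node 434 (merge (leaf 7 402 402) (leaf 7 434 466)))))))))))))))))))))))))))))) nP_171 cP_171 13 (by decide +kernel)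

end Crest.Agent.H26Snaky
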