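import Crest.Agent.H26SnP012

/-! certificate data for S0047, part P 13 (computer generated) -/

set_option autoImplicit false
set_option maxRecDepth 100000

namespace Crest.Agent.H26Snaky

open T

def nP_172 : ℕ := 0x38000000010000000000000000000000000000000000000000000000000000000000000000000000000000000000000000000000000000000000000000000000000000
def cP_172 : ℕ := 0x1000000070000000f0000003f0000007f0000003c0000007fe000000fc000001fc000000740000005000000000000000000000000000000000000000000000000000000000000000000000000000000000000000000000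
theorem lP_172 : S nP_172 cP_172 12 := S_of_chk [] trivial (node 501 (merge (node 534 (merge (node 566 (merge (leaf 0 531 567) (node 598 (merge (leaf 7 501 630) (node 502 (merge (leaf 7 469 469) (leaf 2 499 503))))))) (merge (node 567 (merge (leaf 0 531 566) (node 535 (merge (leaf 0 532 568) (node 499 (merge (leaf 3 498 498) (leaf 3 499 500))))))) (node 503 (merge (leaf 2 499 502) (node 535 (merge (leaf 2 500 504) (node 499 (merge (leaf 3 498 498) (leaf 3 499 500)))))))))) (merge (node 469 (merge (node 437 (merge (leaf 5 436 564) (node 436 (merge (leaf 7 404 404) (node 565 (merge (leaf 7 436 468) (node 566 (merge (leaf 4 437 534) (leaf 4 469 598))))))))) (merge (node 437 (merge (leaf 5 436 564) (node 438 (merge (leaf 6 405 406) (node 565 (merge (leaf 6 437 470) (node 566 (merge (leaf 4 437 534) (leaf 4 469 598))))))))) (merge (node 437 (merge (leaf 5 436 564) (node 534 (merge (leaf 4 437 566) (node 502 (merge (leaf 4 405 405) (leaf 2 499 503))))))) (merge (node 565 (merge (node 566 (merge (leaf 4 469 598) (node 564 (merge (leaf 3 531 567) (leaf 5 468 596))))) (merge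 (node 470 (merge (leaf 6 437 438) (node 597 (merge (leaf 6 469 502) (node 596 (merge (leaf 5 468 564) (leaf 5 500 628))))))) (node 470 (merge (leaf 6 437 438) (node 597 (merge (leaf 6 469 502) (node 598 (merge (leaf 4 469 566) (leaf 4 501 630)))))))))) (merge (node 437 (merge (node 436 (merge (leaf 7 404 404) (node 565 (merge (leaf 7 436 468) (node 566 (merge (leaf 4 437 534) (leaf 4 469 598))))))) (merge (node 438 (merge (leaf 6 405 406) (node 565 (merge (leaf 6 437 470) (node 566 (merge (leaf 4 437 534) (leaf 4 469 598))))))) (merge (node 534 (merge (leaf 4 437 566) (node 502 (merge (leaf 4 405 405) (leaf 2 499 503))))) (node 436 (merge (leaf 7 404 404) (node 565 (merge (leaf 7 436 468) (node 470 (merge (leaf 6 437 438) (node 597 (merge (leaf 6 469 502) (node 630 (merge (leaf 4 501 598) (node 629 (merge (leaf 4 533 662) (node 628 (merge (leaf 5 500 596) (leaf 5 532 660))))))))))))))))))) (node 564 (merge (leaf 5 436 437) (node 596 (merge (leaf 5 468 565) (leaf 6 500 628))))))))))) (merge (node 469 (merge (node 437 (merge (leaf 5 436 564) (node 406 (merge (leaf 6 405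 438) (node 405 (merge (leaf 6 373 374) (leaf 5 404 500))))))) (merge (node 565 (merge (node 566 (merge (leaf 4 469 598) (node 564 (merge (leaf 3 531 567) (leaf 5 468 596))))) (merge (node 470 (merge (leaf 6 437 438) (node 597 (merge (leaf 6 469 502) (node 596 (merge (leaf 5 468 564) (leaf 5 500 628))))))) (node 470 (merge (leaf 6 437 438) (node 597 (merge (leaf 6 469 502) (node 598 (merge (leaf 4 469 566) (leaf 4 501 630)))))))))) (merge (node 437 (merge (leaf 5 436 564) (node 438 (merge (leaf 6 405 406) (node 565 (merge (leaf 6 437 470) (node 500 (merge (leaf 5 404 405) (node 597 (merge (leaf 7 468 468) (leaf 7 500 629))))))))))) (merge (node 437 (merge (node 406 (merge (leaf 6 405 438) (node 405 (merge (leaf 6 373 374) (leaf 5 404 500))))) (merge (node 436 (merge (leaf 7 404 404) (node 565 (merge (leaf 7 436 468) (node 470 (merge (leaf 6 437 438) (node 597 (merge (leaf 6 469 502) (node 598 (merge (leaf 4 469 566) (leaf 4 501 630))))))))))) (merge (node 438 (merge (leaf 6 405 406) (node 565 (merge (leaf 6 437 470) (node 500 (merge (leaf 5 404 405) (node 597 (merge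 (leaf 7 468 468) (leaf 7 500 629))))))))) (node 436 (merge (leaf 7 404 404) (node 565 (merge (leaf 7 436 468) (node 500 (merge (leaf 5 404 405) (node 502 (merge (leaf 1 499 503) (node 597 (merge (leaf 6 469 470) (leaf 7 500 629))))))))))))))) (node 437 (merge (leaf 5 436 564) (node 436 (merge (leaf 7 404 404) (node 565 (merge (leaf 7 436 468) (node 500 (merge (leaf 5 404 405) (node 502 (merge (leaf 1 499 503) (node 597 (merge (leaf 6 469 470) (leaf 7 500 629)))))))))))))))))) (merge (node 469 (merge (node 437 (merge (leaf 5 436 564) (node 406 (merge (leaf 6 405 438) (node 405 (merge (leaf 6 373 374) (leaf 5 404 500))))))) (merge (node 437 (merge (leaf 5 436 564) (node 436 (merge (leaf 7 404 404) (node 565 (merge (leaf 7 436 468) (node 566 (merge (leaf 4 437 534) (leaf 4 469 598))))))))) (merge (node 437 (merge (leaf 5 436 564) (node 438 (merge (leaf 6 405 406) (node 565 (merge (leaf 6 437 470) (node 566 (merge (leaf 4 437 534) (leaf 4 469 598))))))))) (merge (node 565 (merge (node 468 (merge (leaf 7 436 436) (node 597 (merge (leaf 7 468 500) (node 598 (merge (leaf 4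 469 566) (leaf 4 501 630))))))) (merge (node 566 (merge (leaf 4 469 598) (node 564 (merge (leaf 3 531 567) (leaf 5 468 596))))) (node 468 (merge (leaf 7 436 436) (node 597 (merge (leaf 7 468 500) (node 596 (merge (leaf 5 468 564) (leaf 5 500 628)))))))))) (node 437 (merge (node 436 (merge (leaf 7 404 404) (node 565 (merge (leaf 7 436 468) (node 566 (merge (leaf 4 437 534) (leaf 4 469 598))))))) (merge (node 438 (merge (leaf 6 405 406) (node 565 (merge (leaf 6 437 470) (node 566 (merge (leaf 4 437 534) (leaf 4 469 598))))))) (merge (node 436 (merge (leaf 7 404 404) (node 565 (merge (leaf 7 436 468) (node 470 (merge (leaf 6 437 438) (node 597 (merge (leaf 6 469 502) (node 629 (merge (leaf 7 500 500) (node 628 (merge (leaf 5 500 596) (leaf 5 532 660))))))))))))) (node 534 (merge (leaf 4 437 566) (node 500 (merge (leaf 5 404 405) (node 535 (merge (leaf 3 499 499) (leaf 3 500 536)))))))))))))))) (merge (node 469 (merge (node 564 (merge (leaf 5 436 437) (node 596 (merge (leaf 6 468 500) (leaf 6 500 628))))) (merge (node 437 (merge (leaf 5 436 564) (node 436 (merge (leaf 7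 404 404) (node 565 (merge (leaf 7 436 468) (node 566 (merge (leaf 4 437 534) (leaf 4 469 598))))))))) (merge (node 437 (merge (node 436 (merge (leaf 7 404 404) (node 565 (merge (leaf 7 436 468) (node 566 (merge (leaf 4 437 534) (leaf 4 469 598))))))) (merge (node 438 (merge (leaf 6 405 406) (node 565 (merge (leaf 6 437 470) (node 566 (merge (leaf 4 437 534) (leaf 4 469 598))))))) (merge (node 436 (merge (leaf 7 404 404) (node 565 (merge (leaf 7 436 468) (node 470 (merge (leaf 6 437 438) (node 597 (merge (leaf 6 469 502) (node 629 (merge (leaf 7 500 500) (node 628 (merge (leaf 5 500 596) (leaf 5 532 660))))))))))))) (node 534 (merge (leaf 4 437 566) (node 500 (merge (leaf 5 404 405) (node 535 (merge (leaf 3 499 499) (leaf 3 500 536))))))))))) (node 499 (merge (node 498 (merge (leaf 0 496 497) (leaf 3 498 534))) (merge (node 498 (merge (leaf 0 496 497) (node 470 (merge (leaf 2 466 500) (node 565 (merge (leaf 6 437 438) (node 468 (merge (leaf 7 436 436) (leaf 1 466 467))))))))) (node 565 (merge (node 468 (merge (leaf 7 436 436) (node 597 (merge (leaf 7 468 500) (node 596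 (merge (leaf 5 468 564) (leaf 5 500 628))))))) (merge (node 470 (merge (leaf 6 437 438) (node 597 (merge (leaf 6 469 502) (node 596 (merge (leaf 5 468 564) (leaf 5 500 628))))))) (merge (node 470 (merge (leaf 6 437 438) (node 597 (merge (leaf 6 469 502) (node 629 (merge (leaf 7 500 500) (node 661 (merge (leaf 7 532 564) (node 660 (merge (leaf 5 532 628) (leaf 5 564 692))))))))))) (node 470 (merge (leaf 6 437 438) (node 468 (merge (leaf 7 436 436) (node 471 (merge (leaf 1 467 500) (node 503 (merge (leaf 0 468 504) (node 439 (merge (leaf 2 436 440) (node 534 (merge (leaf 2 499 502) (node 566 (merge (leaf 5 438 535) (leaf 4 469 598)))))))))))))))))))))))))) (merge (node 469 (merge (node 437 (merge (leaf 5 436 564) (node 406 (merge (leaf 6 405 438) (node 405 (merge (leaf 6 373 374) (leaf 5 404 500))))))) (merge (node 437 (merge (leaf 5 436 564) (node 436 (merge (leaf 7 404 404) (node 565 (merge (leaf 7 436 468) (node 566 (merge (leaf 4 437 534) (leaf 4 469 598))))))))) (merge (node 437 (merge (leaf 5 436 564) (node 438 (merge (leaf 6 405 406) (node 565 (merge (leaf 6 437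 470) (node 566 (merge (leaf 4 437 534) (leaf 4 469 598))))))))) (merge (node 565 (merge (node 468 (merge (leaf 7 436 436) (node 597 (merge (leaf 7 468 500) (node 598 (merge (leaf 4 469 566) (leaf 4 501 630))))))) (merge (node 566 (merge (leaf 4 469 598) (node 564 (merge (leaf 3 531 567) (leaf 5 468 596))))) (node 468 (merge (leaf 7 436 436) (node 597 (merge (leaf 7 468 500) (node 596 (merge (leaf 5 468 564) (leaf 5 500 628)))))))))) (node 534 (merge (node 566 (merge (leaf 0 531 567) (node 598 (merge (leaf 7 501 630) (node 469 (merge (leaf 4 437 437) (leaf 4 469 565))))))) (merge (node 499 (merge (leaf 3 498 498) (node 535 (merge (leaf 3 499 500) (node 568 (merge (leaf 0 532 567) (node 536 (merge (leaf 0 533 569) (node 504 (merge (leaf 2 500 503) (leaf 2 501 505))))))))))) (node 437 (merge (leaf 4 437 566) (node 500 (merge (leaf 5 404 405) (node 535 (merge (leaf 3 499 499) (leaf 3 500 536))))))))))))))) (merge (node 469 (merge (node 564 (merge (leaf 5 436 437) (node 596 (merge (leaf 6 468 500) (leaf 6 500 628))))) (merge (node 437 (merge (leaf 5 436 564) (node 534 (merge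 (leaf 4 437 566) (node 502 (merge (leaf 4 405 405) (leaf 2 499 503))))))) (merge (node 534 (merge (node 567 (merge (leaf 0 531 566) (node 535 (merge (leaf 0 532 568) (node 499 (merge (leaf 3 498 498) (leaf 3 499 500))))))) (merge (node 503 (merge (leaf 2 499 502) (node 535 (merge (leaf 2 500 504) (node 499 (merge (leaf 3 498 498) (leaf 3 499 500))))))) (node 502 (merge (leaf 2 499 503) (node 437 (merge (leaf 4 405 405) (leaf 4 437 566)))))))) (node 468 (merge (node 436 (merge (leaf 7 436 565) (node 404 (merge (leaf 4 372 372) (leaf 4 404 500))))) (merge (node 565 (merge (leaf 7 436 436) (node 470 (merge (leaf 6 437 438) (node 597 (merge (leaf 6 469 502) (node 596 (merge (leaf 5 468 564) (leaf 5 500 628))))))))) (node 534 (merge (node 503 (merge (leaf 2 499 502) (node 535 (merge (leaf 2 500 504) (node 568 (merge (leaf 0 532 567) (node 536 (merge (leaf 3 500 500) (leaf 0 533 569))))))))) (merge (node 499 (merge (leaf 3 498 498) (node 535 (merge (leaf 3 499 500) (node 568 (merge (leaf 0 532 567) (node 536 (merge (leaf 0 533 569) (node 504 (merge (leaf 2 500 503) (leaf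 2 501 505))))))))))) (merge (node 502 (merge (leaf 2 499 503) (node 467 (merge (leaf 0 466 466) (node 499 (merge (leaf 3 498 498) (node 435 (merge (leaf 4 435 564) (node 434 (merge (leaf 7 402 402) (leaf 3 434 470))))))))))) (node 499 (merge (leaf 3 498 498) (node 535 (merge (leaf 3 499 500) (node 568 (merge (leaf 0 532 567) (node 536 (merge (leaf 0 533 569) (node 505 (merge (leaf 2 501 504) (node 537 (merge (leaf 3 501 502) (leaf 2 502 506)))))))))))))))))))))))) (merge (node 469 (merge (node 564 (merge (leaf 5 436 437) (node 596 (merge (leaf 6 468 500) (leaf 6 500 628))))) (merge (node 564 (merge (leaf 5 436 437) (node 596 (merge (leaf 5 468 565) (leaf 6 500 628))))) (merge (node 534 (merge (node 502 (merge (leaf 2 499 503) (node 437 (merge (leaf 4 405 405) (node 438 (merge (leaf 6 405 406) (node 565 (merge (leaf 6 437 470) (node 436 (merge (leaf 7 404 404) (leaf 7 436 468))))))))))) (merge (node 499 (merge (leaf 3 498 498) (node 535 (merge (leaf 3 499 500) (node 568 (merge (leaf 0 532 567) (node 536 (merge (leaf 0 533 569) (node 504 (merge (leaf 2 500 503) (leaf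 2 501 505))))))))))) (node 499 (merge (leaf 3 498 498) (node 535 (merge (leaf 3 499 500) (node 568 (merge (leaf 0 532 567) (node 536 (merge (leaf 0 533 569) (node 505 (merge (leaf 2 501 504) (node 537 (merge (leaf 3 501 502) (leaf 2 502 506)))))))))))))))) (node 468 (merge (node 436 (merge (leaf 7 436 565) (node 404 (merge (leaf 4 372 372) (leaf 4 404 500))))) (merge (node 565 (merge (leaf 7 436 436) (node 470 (merge (leaf 6 437 438) (node 597 (merge (leaf 6 469 502) (node 596 (merge (leaf 5 468 564) (leaf 5 500 628))))))))) (node 534 (merge (node 503 (merge (leaf 2 499 502) (node 535 (merge (leaf 2 500 504) (node 568 (merge (leaf 0 532 567) (node 536 (merge (leaf 3 500 500) (leaf 0 533 569))))))))) (merge (node 499 (merge (leaf 3 498 498) (node 535 (merge (leaf 3 499 500) (node 568 (merge (leaf 0 532 567) (node 536 (merge (leaf 0 533 569) (node 504 (merge (leaf 2 500 503) (leaf 2 501 505))))))))))) (merge (node 502 (merge (leaf 2 499 503) (node 467 (merge (leaf 0 466 466) (node 499 (merge (leaf 3 498 498) (node 435 (merge (leaf 4 435 564) (node 434 (merge (leaf 7 402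 402) (leaf 3 434 470))))))))))) (node 499 (merge (leaf 3 498 498) (node 535 (merge (leaf 3 499 500) (node 568 (merge (leaf 0 532 567) (node 536 (merge (leaf 0 533 569) (node 505 (merge (leaf 2 501 504) (node 537 (merge (leaf 3 501 502) (leaf 2 502 506)))))))))))))))))))))))) (node 534 (merge (node 567 (merge (leaf 0 531 566) (node 535 (merge (leaf 0 532 568) (node 499 (merge (leaf 3 498 498) (leaf 3 499 500))))))) (merge (node 503 (merge (leaf 2 499 502) (node 535 (merge (leaf 2 500 504) (node 499 (merge (leaf 3 498 498) (leaf 3 499 500))))))) (merge (node 566 (merge (leaf 0 531 567) (node 598 (merge (leaf 7 501 630) (node 502 (merge (leaf 2 499 503) (node 599 (merge (leaf 4 502 631) (node 597 (merge (leaf 5 501 629) (node 565 (merge (leaf 6 469 470) (node 600 (merge (leaf 3 564 564) (leaf 3 565 601))))))))))))))) (node 503 (merge (leaf 2 499 502) (node 535 (merge (leaf 2 500 504) (node 536 (merge (leaf 3 500 500) (node 569 (merge (leaf 0 533 568) (node 537 (merge (leaf 0 534 570) (node 565 (merge (leaf 1 532 564) (leaf 1 533 566)))))))))))))))))))))))))) nP_172 cP_172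 12 (by decide +kernel)
def nP_173 : ℕ := 0x10000000100000019000000010000000000000000000000000000000000000000000000000000000000000000000000000000000000000000000000000000000000000000000000000000
def cP_173 : ℕ := 0x3000000078000000f8000003f8000007f8000003e4000007fe800001fc800001fc0000007c0000005000000000000000000000000000000000000000000000000000000000000000000000000000000000000000000000
theorem lP_173 : S nP_173 cP_173 13 := S_of_chk [(nP_172, cP_172, 12)] ⟨lP_172, trivial⟩ (node 533 (merge (node 566 (merge (node 565 (merge (leaf 0 530 530) (node 567 (merge (leaf 3 531 564) (leaf 3 532 568))))) (merge (node 567 (merge (leaf 0 531 534) (node 565 (merge (leaf 3 531 564) (leaf 3 532 568))))) (merge (node 534 (merge (leaf 0 531 567) (node 502 (merge (leaf 2 499 503) (node 501 (merge (leaf 2 498 530) (node 598 (merge (leaf 7 469 469) (leaf 7 501 630))))))))) (node 530 (merge (leaf 0 530 565) (node 502 (merge (leaf 2 498 501) (node 534 (merge (leaf 2 499 503) (node 498 (merge (leaf 3 497 497) (leaf 3 498 499))))))))))))) (merge (node 534 (merge (node 567 (merge (leaf 0 531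 566) (node 535 (merge (leaf 0 532 568) (node 503 (merge (leaf 2 499 502) (leaf 2 500 504))))))) (merge (node 567 (merge (leaf 0 531 566) (node 535 (merge (leaf 0 532 568) (node 499 (merge (leaf 3 498 498) (leaf 3 499 500))))))) (merge (node 503 (merge (leaf 2 499 502) (node 535 (merge (leaf 2 500 504) (node 499 (merge (leaf 3 498 498) (leaf 3 499 500))))))) (node 566 (merge (leaf 0 531 567) (node 502 (merge (leaf 2 499 503) (node 501 (merge (leaf 2 498 530) (node 598 (merge (leaf 7 469 469) (leaf 7 501 630))))))))))))) (merge (node 534 (merge (node 567 (merge (leaf 0 531 566) (node 535 (merge (leaf 0 532 568) (node 503 (merge (leaf 2 499 502) (leaf 2 500 504))))))) (merge (node 567 (merge (leaf 0 531 566) (node 535 (merge (leaf 0 532 568) (node 499 (merge (leaf 3 498 498) (leaf 3 499 500))))))) (merge (node 503 (merge (leaf 2 499 502) (node 535 (merge (leaf 2 500 504) (node 499 (merge (leaf 3 498 498) (leaf 3 499 500))))))) (node 566 (merge (leaf 0 531 567) (node 565 (merge (leaf 0 530 530) (node 502 (merge (leaf 2 499 503) (node 597 (merge (leaf 5 469 470) (leaf 6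 501 629))))))))))))) (merge (node 534 (merge (node 502 (merge (leaf 2 499 503) (node 530 (merge (leaf 2 498 501) (node 498 (merge (leaf 3 497 497) (leaf 3 498 499))))))) (merge (node 499 (merge (leaf 3 498 498) (node 535 (merge (leaf 3 499 500) (node 568 (merge (leaf 0 532 567) (node 536 (merge (leaf 0 533 569) (node 564 (merge (leaf 1 531 563) (leaf 1 532 565))))))))))) (node 503 (merge (leaf 2 499 502) (node 535 (merge (leaf 2 500 504) (node 568 (merge (leaf 0 532 567) (node 536 (merge (leaf 0 533 569) (node 564 (merge (leaf 1 531 563) (leaf 1 532 565)))))))))))))) (merge (node 534 (merge (node 566 (merge (leaf 0 531 567) (node 530 (merge (leaf 0 530 565) (node 498 (merge (leaf 3 497 497) (leaf 3 498 499))))))) (merge (node 567 (merge (leaf 0 531 566) (node 535 (merge (leaf 0 532 568) (node 499 (merge (leaf 3 498 498) (leaf 3 499 500))))))) (merge (node 567 (merge (leaf 0 531 566) (node 535 (merge (leaf 0 532 568) (node 564 (merge (leaf 1 531 563) (node 536 (merge (leaf 1 532 565) (node 505 (merge (leaf 2 501 504) (node 537 (merge (leaf 2 502 506) (node 501 (merge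 (leaf 3 500 500) (leaf 3 501 502))))))))))))))) (node 499 (merge (leaf 3 498 498) (node 535 (merge (leaf 3 499 500) (node 564 (merge (leaf 1 531 563) (node 536 (merge (leaf 1 532 565) (node 569 (merge (leaf 0 533 568) (node 537 (merge (leaf 0 534 570) (node 505 (merge (leaf 2 501 504) (leaf 2 502 506))))))))))))))))))) (merge (node 501 (merge (node 502 (merge (leaf 2 498 530) (node 503 (merge (leaf 1 499 500) (leaf 1 500 504))))) (merge (node 469 (merge (node 437 (merge (leaf 5 436 564) (node 406 (merge (leaf 6 405 438) (node 405 (merge (leaf 6 373 374) (leaf 5 404 500))))))) (merge (node 437 (merge (leaf 5 436 564) (node 438 (merge (leaf 6 405 406) (node 565 (merge (leaf 6 437 470) (node 566 (merge (leaf 0 530 530) (leaf 4 469 598))))))))) (merge (node 565 (merge (node 566 (merge (leaf 0 530 530) (node 567 (merge (leaf 3 531 564) (leaf 3 532 568))))) (merge (node 468 (merge (leaf 7 436 436) (node 597 (merge (leaf 7 468 500) (node 596 (merge (leaf 5 468 564) (leaf 5 500 628))))))) (node 468 (merge (leaf 7 436 436) (node 597 (merge (leaf 7 468 500) (node 598 (merge (leaf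 4 469 566) (leaf 4 501 630)))))))))) (node 436 (merge (node 565 (merge (leaf 7 436 468) (node 566 (merge (leaf 0 530 530) (leaf 4 469 598))))) (merge (node 437 (merge (leaf 7 404 404) (node 438 (merge (leaf 6 405 406) (node 500 (merge (leaf 5 404 405) (node 468 (merge (leaf 5 435 563) (node 435 (merge (leaf 7 403 403) (node 471 (merge (leaf 0 435 470) (node 439 (merge (leaf 1 435 467) (leaf 0 436 472))))))))))))))) (node 437 (merge (leaf 7 404 404) (node 438 (merge (leaf 6 405 406) (node 565 (merge (leaf 6 437 470) (node 566 (merge (leaf 0 530 530) (leaf 4 469 598)))))))))))))))) (merge (node 469 (merge (node 437 (merge (leaf 5 436 564) (node 406 (merge (leaf 6 405 438) (node 405 (merge (leaf 6 373 374) (leaf 5 404 500))))))) (merge (node 565 (merge (node 566 (merge (leaf 4 469 598) (node 564 (merge (leaf 3 531 567) (leaf 5 468 596))))) (merge (node 470 (merge (leaf 6 437 438) (node 597 (merge (leaf 6 469 502) (node 596 (merge (leaf 5 468 564) (leaf 5 500 628))))))) (node 470 (merge (leaf 6 437 438) (node 597 (merge (leaf 6 469 502) (node 598 (merge (leaf 4 469 566)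 (leaf 4 501 630)))))))))) (merge (node 437 (merge (leaf 5 436 564) (node 438 (merge (leaf 6 405 406) (node 565 (merge (leaf 6 437 470) (node 500 (merge (leaf 5 404 405) (node 597 (merge (leaf 7 468 468) (leaf 7 500 629))))))))))) (merge (node 437 (merge (node 406 (merge (leaf 6 405 438) (node 405 (merge (leaf 6 373 374) (leaf 5 404 500))))) (merge (node 436 (merge (leaf 7 404 404) (node 565 (merge (leaf 7 436 468) (node 470 (merge (leaf 6 437 438) (node 597 (merge (leaf 6 469 502) (node 598 (merge (leaf 4 469 566) (leaf 4 501 630))))))))))) (merge (node 438 (merge (leaf 6 405 406) (node 565 (merge (leaf 6 437 470) (node 500 (merge (leaf 5 404 405) (node 597 (merge (leaf 7 468 468) (leaf 7 500 629))))))))) (node 436 (merge (leaf 7 404 404) (node 565 (merge (leaf 7 436 468) (node 500 (merge (leaf 5 404 405) (node 502 (merge (leaf 1 499 503) (node 597 (merge (leaf 6 469 470) (leaf 7 500 629))))))))))))))) (node 437 (merge (leaf 5 436 564) (node 436 (merge (leaf 7 404 404) (node 565 (merge (leaf 7 436 468) (node 500 (merge (leaf 5 404 405) (node 502 (merge (leaf 1 499 503)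 (node 597 (merge (leaf 6 469 470) (leaf 7 500 629)))))))))))))))))) (node 565 (merge (node 530 (merge (leaf 2 498 502) (leaf 0 530 566))) (merge (node 566 (merge (leaf 0 530 530) (node 567 (merge (leaf 3 531 564) (leaf 3 532 568))))) (merge (node 596 (merge (node 628 (merge (leaf 6 500 564) (leaf 5 500 597))) (merge (node 564 (merge (leaf 6 500 628) (node 469 (merge (leaf 5 436 437) (leaf 5 468 565))))) (merge (node 469 (merge (leaf 5 468 564) (node 470 (merge (leaf 6 437 438) (node 597 (merge (leaf 6 469 502) (node 598 (merge (leaf 4 469 566) (leaf 4 501 630))))))))) (node 597 (merge (leaf 5 500 628) (node 598 (merge (leaf 4 501 630) (node 566 (merge (leaf 4 469 469) (node 567 (merge (leaf 1 564 568) (leaf 2 563 595))))))))))))) (node 463 (merge (leaf 7 463 495) (node 502 (merge (leaf 2 498 530) (node 597 (merge (leaf 6 469 470) (node 598 (merge (leaf 4 501 630) (node 596 (merge (leaf 5 500 628) (node 564 (merge (leaf 5 468 469) (node 599 (merge (leaf 3 563 563) (leaf 3 564 600))))))))))))))))))))))) (merge (node 501 (merge (node 502 (merge (leaf 2 498 530) (node 503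 (merge (leaf 1 500 504) (leaf 2 499 534))))) (merge (node 502 (merge (leaf 2 498 530) (node 503 (merge (leaf 1 499 500) (leaf 1 500 504))))) (merge (node 469 (merge (node 437 (merge (leaf 5 436 564) (node 406 (merge (leaf 6 405 438) (node 405 (merge (leaf 6 373 374) (leaf 5 404 500))))))) (merge (node 437 (merge (leaf 5 436 564) (node 436 (merge (leaf 7 404 404) (node 565 (merge (leaf 7 436 468) (node 566 (merge (leaf 0 530 530) (leaf 4 469 598))))))))) (merge (node 437 (merge (leaf 5 436 564) (node 438 (merge (leaf 6 405 406) (node 565 (merge (leaf 6 437 470) (node 566 (merge (leaf 0 530 530) (leaf 4 469 598))))))))) (node 498 (merge (node 499 (merge (leaf 0 496 497) (leaf 3 498 534))) (merge (node 530 (merge (leaf 3 497 497) (node 565 (merge (leaf 0 530 566) (node 468 (merge (leaf 7 436 436) (node 597 (merge (leaf 7 468 500) (node 630 (merge (leaf 4 501 598) (node 629 (merge (leaf 4 533 662) (node 628 (merge (leaf 5 500 596) (leaf 5 532 660))))))))))))))) (node 499 (merge (leaf 3 498 534) (node 470 (merge (leaf 2 466 500) (node 565 (merge (leaf 6 437 438) (node 468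 (merge (leaf 7 436 436) (leaf 1 466 467)))))))))))))))) (node 469 (merge (node 437 (merge (leaf 5 436 564) (node 406 (merge (leaf 6 405 438) (node 405 (merge (leaf 6 373 374) (leaf 5 404 500))))))) (merge (node 437 (merge (leaf 5 436 564) (node 436 (merge (leaf 7 404 404) (node 565 (merge (leaf 7 436 468) (node 566 (merge (leaf 4 437 534) (leaf 4 469 598))))))))) (merge (node 437 (merge (leaf 5 436 564) (node 438 (merge (leaf 6 405 406) (node 565 (merge (leaf 6 437 470) (node 566 (merge (leaf 4 437 534) (leaf 4 469 598))))))))) (merge (node 437 (merge (node 436 (merge (leaf 7 404 404) (node 565 (merge (leaf 7 436 468) (node 566 (merge (leaf 4 437 534) (leaf 4 469 598))))))) (merge (node 438 (merge (leaf 6 405 406) (node 565 (merge (leaf 6 437 470) (node 566 (merge (leaf 4 437 534) (leaf 4 469 598))))))) (node 438 (merge (leaf 6 405 406) (node 436 (merge (leaf 7 404 404) (node 500 (merge (leaf 5 404 405) (node 468 (merge (leaf 5 435 563) (node 435 (merge (leaf 7 403 403) (node 471 (merge (leaf 0 435 470) (node 439 (merge (leaf 1 435 467) (leaf 0 436 472))))))))))))))))))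 (node 499 (merge (node 498 (merge (leaf 0 496 497) (leaf 3 498 534))) (merge (node 498 (merge (leaf 0 496 497) (node 470 (merge (leaf 2 466 500) (node 565 (merge (leaf 6 437 438) (node 468 (merge (leaf 7 436 436) (leaf 1 466 467))))))))) (node 565 (merge (node 468 (merge (leaf 7 436 436) (node 597 (merge (leaf 7 468 500) (node 596 (merge (leaf 5 468 564) (leaf 5 500 628))))))) (merge (node 470 (merge (leaf 6 437 438) (node 597 (merge (leaf 6 469 502) (node 596 (merge (leaf 5 468 564) (leaf 5 500 628))))))) (merge (node 470 (merge (leaf 6 437 438) (node 597 (merge (leaf 6 469 502) (node 629 (merge (leaf 7 500 500) (node 661 (merge (leaf 7 532 564) (node 660 (merge (leaf 5 532 628) (leaf 5 564 692))))))))))) (node 470 (merge (leaf 6 437 438) (node 468 (merge (leaf 7 436 436) (node 471 (merge (leaf 1 467 500) (node 503 (merge (leaf 0 468 504) (node 439 (merge (leaf 2 436 440) (node 534 (merge (leaf 2 499 502) (node 566 (merge (leaf 5 438 535) (leaf 4 469 598))))))))))))))))))))))))))))))) (merge (node 534 (merge (node 566 (merge (leaf 0 531 567) (node 530 (merge (leaf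 0 530 565) (node 498 (merge (leaf 3 497 497) (leaf 3 498 499))))))) (merge (node 567 (merge (leaf 0 531 566) (node 535 (merge (leaf 0 532 568) (node 504 (merge (leaf 2 500 503) (node 536 (merge (leaf 2 501 505) (node 500 (merge (leaf 3 499 499) (leaf 3 500 501))))))))))) (merge (node 499 (merge (leaf 3 498 498) (node 535 (merge (leaf 3 499 500) (node 568 (merge (leaf 0 532 567) (node 536 (merge (leaf 0 533 569) (node 564 (merge (leaf 1 531 563) (leaf 1 532 565))))))))))) (merge (node 463 (merge (leaf 7 463 495) (node 567 (merge (leaf 0 531 566) (node 535 (merge (leaf 0 532 568) (node 564 (merge (leaf 1 531 563) (node 536 (merge (leaf 1 532 565) (node 504 (merge (leaf 2 500 503) (leaf 2 501 505))))))))))))) (node 500 (merge (node 499 (merge (leaf 3 499 535) (leaf 3 498 498))) (merge (node 498 (merge (leaf 3 498 499) (node 530 (merge (leaf 3 497 497) (node 565 (merge (leaf 0 530 566) (node 597 (merge (leaf 7 500 629) (node 468 (merge (leaf 7 468 501) (leaf 4 468 564))))))))))) (node 564 (merge (node 535 (merge (leaf 1 531 563) (node 536 (merge (leaf 3 500 501) (leaf 1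 532 565))))) (merge (node 563 (merge (leaf 1 531 535) (node 595 (merge (leaf 6 499 627) (node 468 (merge (leaf 5 435 436) (leaf 5 467 564))))))) (node 596 (merge (node 628 (merge (leaf 6 500 501) (node 627 (merge (leaf 5 499 595) (leaf 5 531 659))))) (merge (node 628 (merge (leaf 6 500 501) (node 660 (merge (leaf 6 532 565) (node 661 (merge (leaf 4 532 629) (leaf 4 564 693))))))) (node 597 (merge (leaf 4 500 629) (node 468 (merge (leaf 4 468 565) (node 437 (merge (leaf 6 436 469) (node 436 (merge (leaf 6 404 405) (node 435 (merge (leaf 7 403 403) (leaf 7 435 467))))))))))))))))))))))))) (hyp 0)))))))))) nP_173 cP_173 13 (by decide +kernel)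
def nP_174 : ℕ := 0x10000000300000009000000010000000000000000000000000000000000000000000000000000000000000000000000000000000000000000000000000000000000000000000000000000
def cP_174 : ℕ := 0x340000007c000000fc000003fc000007fc800003f4000007fe800001fd800001fc8000007c0000005000000000000000000000000000000000000000000000000000000000000000000000000000000000000000000000
theorem lP_174 : S nP_174 cP_174 14 := S_of_chk [(nP_172, cP_172, 12), (nP_173, cP_173, 13)] ⟨lP_172, lP_173, trivial⟩ (node 532 (merge (node 562 (merge (leaf 2 528 563) (node 530 (merge (leaf 1 529 533) (leaf 2 527 559))))) (merge (node 563 (merge (leaf 2 528 562) (node 595 (merge (node 500 (merge (leaf 6 499 627) (node 468 (merge (leaf 5 435 436) (leaf 5 467 564))))) (merge (node 627 (merge (leaf 6 499 500) (node 660 (merge (leaf 4 531 628) (node 659 (merge (leaf 4 563 692) (node 658 (merge (leaf 5 530 626) (leaf 5 562 690))))))))) (merge (node 627 (merge (node 659 (merge (leaf 6 531 564) (node 658 (merge (leaf 5 530 626) (leaf 5 562 690))))) (merge (node 659 (merge (leaf 6 531 564) (node 660 (merge (leaf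 4 531 628) (leaf 4 563 692))))) (node 628 (merge (leaf 4 531 660) (node 499 (merge (leaf 4 499 596) (node 626 (merge (leaf 5 498 594) (leaf 5 530 658)))))))))) (node 499 (merge (node 498 (merge (leaf 7 466 466) (leaf 0 496 497))) (node 500 (merge (leaf 6 467 468) (node 596 (merge (leaf 4 499 628) (node 564 (merge (leaf 7 467 467) (node 597 (merge (leaf 4 500 629) (node 598 (merge (leaf 3 563 599) (node 566 (merge (leaf 2 563 567) (node 594 (merge (leaf 1 562 565) (leaf 5 498 626))))))))))))))))))))))) (merge (node 563 (merge (leaf 2 528 562) (node 499 (merge (node 498 (merge (leaf 0 496 497) (node 595 (merge (leaf 7 466 466) (node 627 (merge (leaf 6 499 500) (node 626 (merge (leaf 5 498 594) (leaf 5 530 658))))))))) (merge (node 596 (merge (node 564 (merge (leaf 7 499 628) (node 467 (merge (leaf 4 435 435) (leaf 4 467 563))))) (merge (node 498 (merge (leaf 0 496 497) (node 595 (merge (leaf 7 466 466) (leaf 4 499 628))))) (node 467 (merge (leaf 4 467 564) (node 436 (merge (leaf 6 435 468) (node 435 (merge (leaf 6 403 404) (node 434 (merge (leaf 7 402 402) (leaf 7 434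 466)))))))))))) (merge (node 431 (merge (node 463 (merge (leaf 7 431 464) (leaf 7 463 495))) (node 596 (merge (node 467 (merge (leaf 4 467 564) (node 436 (merge (leaf 6 435 468) (node 435 (merge (leaf 6 403 404) (node 434 (merge (leaf 7 402 402) (leaf 7 434 466))))))))) (merge (node 595 (merge (leaf 4 499 628) (node 500 (merge (leaf 6 467 468) (node 627 (merge (leaf 6 499 532) (node 626 (merge (leaf 5 498 594) (leaf 5 530 658))))))))) (node 564 (merge (leaf 4 467 467) (node 628 (merge (leaf 7 499 532) (leaf 4 499 595)))))))))) (merge (node 431 (merge (node 463 (merge (leaf 7 431 464) (leaf 7 463 495))) (node 467 (merge (node 564 (merge (leaf 4 435 435) (leaf 4 467 596))) (merge (node 436 (merge (leaf 6 435 468) (node 435 (merge (leaf 6 403 404) (node 434 (merge (leaf 7 402 402) (leaf 7 434 466))))))) (node 468 (merge (leaf 6 435 436) (node 498 (merge (leaf 0 496 497) (node 466 (merge (leaf 7 434 434) (node 469 (merge (leaf 1 466 470) (node 437 (merge (leaf 2 434 438) (node 564 (merge (leaf 6 436 500) (leaf 4 467 596)))))))))))))))))) (node 500 (merge (node 468 (merge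 (leaf 5 435 436) (leaf 6 467 595))) (merge (node 595 (merge (leaf 6 499 627) (node 596 (merge (leaf 4 499 628) (node 564 (merge (leaf 7 467 467) (node 597 (merge (leaf 4 500 629) (node 598 (merge (leaf 3 563 599) (node 566 (merge (leaf 2 563 567) (node 594 (merge (leaf 1 562 565) (leaf 5 498 626))))))))))))))) (node 468 (merge (leaf 5 435 436) (node 501 (merge (node 498 (merge (leaf 0 496 497) (node 469 (merge (leaf 2 466 470) (node 564 (merge (leaf 6 436 437) (leaf 6 468 596))))))) (merge (node 498 (merge (leaf 0 496 497) (node 469 (merge (leaf 2 466 470) (node 564 (merge (leaf 6 436 437) (leaf 6 468 596))))))) (merge (node 502 (merge (leaf 1 499 503) (node 534 (merge (leaf 0 499 535) (node 533 (merge (leaf 0 498 498) (node 566 (merge (leaf 0 531 567) (node 597 (merge (leaf 7 468 565) (node 598 (merge (leaf 7 469 469) (leaf 5 501 629))))))))))))) (merge (node 502 (merge (leaf 1 499 503) (node 534 (merge (leaf 0 499 535) (node 533 (merge (leaf 0 498 498) (node 566 (merge (leaf 0 531 567) (node 597 (merge (leaf 7 468 565) (node 598 (merge (leaf 5 501 629) (leaf 7 501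 630))))))))))))) (node 467 (merge (node 564 (merge (leaf 7 435 435) (leaf 7 467 596))) (merge (node 502 (merge (leaf 1 499 503) (node 470 (merge (leaf 2 467 471) (node 435 (merge (leaf 4 403 403) (node 434 (merge (leaf 7 402 402) (leaf 3 434 469))))))))) (node 564 (merge (leaf 7 467 596) (node 469 (merge (leaf 6 436 437) (node 565 (merge (leaf 4 468 597) (node 566 (merge (leaf 3 531 567) (node 598 (merge (leaf 4 469 533) (leaf 0 563 599))))))))))))))))))))))))))))))) (merge (node 533 (merge (node 530 (merge (leaf 1 529 562) (node 566 (merge (leaf 0 530 565) (node 534 (merge (leaf 0 531 567) (node 498 (merge (leaf 3 497 497) (leaf 3 498 499))))))))) (merge (node 530 (merge (leaf 1 529 562) (node 566 (merge (leaf 0 530 565) (node 534 (merge (leaf 0 531 567) (node 502 (merge (leaf 2 498 501) (leaf 2 499 503))))))))) (merge (node 530 (merge (leaf 1 529 562) (node 502 (merge (leaf 2 498 501) (node 534 (merge (leaf 2 499 503) (node 498 (merge (leaf 3 497 497) (leaf 3 498 499))))))))) (merge (node 501 (merge (node 530 (merge (leaf 2 498 502) (leaf 1 529 562))) (merge (node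 469 (merge (node 437 (merge (leaf 5 436 564) (node 406 (merge (leaf 6 405 438) (node 405 (merge (leaf 6 373 374) (leaf 5 404 500))))))) (merge (node 565 (merge (node 566 (merge (leaf 4 469 598) (node 564 (merge (leaf 3 531 567) (leaf 5 468 596))))) (merge (node 470 (merge (leaf 6 437 438) (node 597 (merge (leaf 6 469 502) (node 596 (merge (leaf 5 468 564) (leaf 5 500 628))))))) (node 470 (merge (leaf 6 437 438) (node 597 (merge (leaf 6 469 502) (node 598 (merge (leaf 4 469 566) (leaf 4 501 630)))))))))) (merge (node 437 (merge (leaf 5 436 564) (node 438 (merge (leaf 6 405 406) (node 565 (merge (leaf 6 437 470) (node 500 (merge (leaf 5 404 405) (node 597 (merge (leaf 7 468 468) (leaf 7 500 629))))))))))) (merge (node 437 (merge (node 406 (merge (leaf 6 405 438) (node 405 (merge (leaf 6 373 374) (leaf 5 404 500))))) (merge (node 436 (merge (leaf 7 404 404) (node 565 (merge (leaf 7 436 468) (node 470 (merge (leaf 6 437 438) (node 597 (merge (leaf 6 469 502) (node 598 (merge (leaf 4 469 566) (leaf 4 501 630))))))))))) (merge (node 438 (merge (leaf 6 405 406) (node 565 (merge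 (leaf 6 437 470) (node 500 (merge (leaf 5 404 405) (node 597 (merge (leaf 7 468 468) (leaf 7 500 629))))))))) (node 436 (merge (leaf 7 404 404) (node 565 (merge (leaf 7 436 468) (node 500 (merge (leaf 5 404 405) (node 502 (merge (leaf 1 499 503) (node 597 (merge (leaf 6 469 470) (leaf 7 500 629))))))))))))))) (node 437 (merge (leaf 5 436 564) (node 436 (merge (leaf 7 404 404) (node 565 (merge (leaf 7 436 468) (node 500 (merge (leaf 5 404 405) (node 502 (merge (leaf 1 499 503) (node 597 (merge (leaf 6 469 470) (leaf 7 500 629)))))))))))))))))) (node 596 (merge (node 564 (merge (leaf 6 500 628) (node 469 (merge (leaf 5 436 437) (leaf 5 468 565))))) (merge (node 530 (merge (leaf 1 529 562) (node 565 (merge (leaf 0 530 566) (node 597 (merge (leaf 5 500 628) (node 629 (merge (leaf 7 500 500) (node 630 (merge (leaf 4 501 598) (leaf 4 533 662))))))))))) (merge (node 564 (merge (leaf 6 500 628) (node 500 (merge (leaf 6 468 469) (node 562 (merge (leaf 1 529 530) (node 597 (merge (leaf 4 500 629) (node 595 (merge (leaf 3 561 594) (leaf 5 499 627))))))))))) (node 530 (merge (leaf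 1 529 562) (node 565 (merge (leaf 0 530 566) (node 498 (merge (leaf 3 497 497) (node 469 (merge (leaf 5 468 564) (node 470 (merge (leaf 6 437 438) (node 468 (merge (leaf 7 436 436) (node 500 (merge (leaf 2 466 499) (leaf 7 468 597)))))))))))))))))))))) (hyp 0)))))) (hyp 1)))))) nP_174 cP_174 14 (by decide +kernel)
def nP_175 : ℕ := 0x10000000300000001000000000000000000000000000000000000000000000000000000000000000000000000000000000000000000000000000000000000000000000000000000000000
def cP_175 : ℕ := 0x2a0000003f8000007f800000fd800003fe700007fce00003fc700007ff800001ff800001ff800000fe8000005000000000000000000000000000000000000000000000000000000000000000000000000000000000000000000000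
theorem lP_175 : S nP_175 cP_175 16 := S_of_chk [(nP_171, cP_171, 13), (nP_174, cP_174, 14)] ⟨lP_171, lP_174, trivial⟩ (node 531 (merge (node 496 (merge (node 465 (merge (leaf 6 464 497) (node 464 (merge (leaf 6 432 433) (leaf 4 464 593))))) (merge (node 463 (merge (leaf 7 463 495) (node 464 (merge (leaf 7 431 431) (leaf 4 464 593))))) (node 497 (merge (leaf 6 464 465) (node 495 (merge (leaf 7 463 463) (node 498 (merge (leaf 0 495 530) (node 499 (merge (leaf 0 496 532) (node 467 (merge (leaf 2 463 466) (leaf 2 464 468)))))))))))))) (merge (node 562 (merge (node 559 (merge (leaf 2 527 530) (node 595 (merge (leaf 0 559 594) (node 563 (merge (leaf 2 528 532) (leaf 0 560 596))))))) (merge (node 563 (merge (leaf 2 528 532) (node 564 (merge (leaf 1 560 593) (node 596 (merge (leaf 0 560 595) (leaf 0 561 597))))))) (merge (node 559 (merge (leaf 2 527 530) (node 563 (merge (leaf 2 528 532) (node 593 (merge (leaf 1 560 564) (node 558 (merge (leaf 0 557 557) (leaf 0 558 594))))))))) (node 559 (merge (leaf 2 527 530) (node 594 (merge (leaf 0 559 595) (node 558 (merge (leaf 0 558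 593) (node 589 (merge (leaf 1 557 590) (node 557 (merge (leaf 1 556 588) (node 525 (merge (leaf 3 524 524) (leaf 3 525 526))))))))))))))))) (merge (node 496 (merge (node 465 (merge (leaf 6 464 497) (node 464 (merge (leaf 6 432 433) (leaf 4 464 593))))) (merge (node 463 (merge (leaf 7 463 495) (node 464 (merge (leaf 7 431 431) (leaf 4 464 593))))) (merge (node 465 (merge (leaf 6 464 497) (node 464 (merge (leaf 6 432 433) (node 463 (merge (leaf 7 431 431) (leaf 7 463 495))))))) (node 499 (merge (node 497 (merge (leaf 6 464 465) (node 498 (merge (leaf 0 496 532) (node 495 (merge (leaf 7 463 463) (node 467 (merge (leaf 2 463 466) (leaf 2 464 468))))))))) (merge (node 563 (merge (node 562 (merge (leaf 2 528 532) (node 596 (merge (leaf 0 560 595) (node 564 (merge (leaf 1 560 593) (leaf 0 561 597))))))) (merge (node 562 (merge (leaf 2 528 532) (node 564 (merge (leaf 1 560 593) (node 467 (merge (leaf 5 466 594) (leaf 4 467 596))))))) (merge (node 562 (merge (node 564 (merge (leaf 1 560 593) (node 596 (merge (leaf 0 560 595) (leaf 0 561 597))))) (merge (node 467 (merge (leaf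 5 466 594) (node 468 (merge (leaf 6 435 436) (node 595 (merge (leaf 6 467 500) (node 466 (merge (leaf 7 434 434) (leaf 7 466 498))))))))) (node 564 (merge (leaf 1 560 593) (node 467 (merge (leaf 5 466 594) (leaf 4 467 596)))))))) (merge (node 562 (merge (leaf 2 528 532) (node 467 (merge (leaf 5 466 594) (node 468 (merge (leaf 6 435 436) (node 595 (merge (leaf 6 467 500) (node 466 (merge (leaf 7 434 434) (leaf 7 466 498))))))))))) (node 595 (merge (node 596 (merge (leaf 4 499 628) (node 594 (merge (leaf 3 560 593) (leaf 5 498 626))))) (merge (node 500 (merge (leaf 6 467 468) (node 627 (merge (leaf 6 499 532) (node 628 (merge (leaf 4 499 596) (leaf 4 531 660))))))) (node 500 (merge (leaf 6 467 468) (node 627 (merge (leaf 6 499 532) (node 626 (merge (leaf 5 498 594) (leaf 5 530 658))))))))))))))) (merge (node 563 (merge (node 497 (merge (leaf 6 464 465) (node 532 (merge (leaf 0 496 498) (leaf 2 528 562))))) (merge (node 562 (merge (leaf 2 528 532) (node 596 (merge (leaf 0 560 595) (node 564 (merge (leaf 1 560 593) (leaf 0 561 597))))))) (merge (node 562 (merge (node 564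 (merge (leaf 1 560 593) (node 596 (merge (leaf 0 560 595) (leaf 0 561 597))))) (merge (node 564 (merge (leaf 1 560 593) (node 467 (merge (leaf 5 466 594) (leaf 4 467 596))))) (node 497 (merge (leaf 6 464 465) (node 467 (merge (leaf 5 466 594) (node 468 (merge (leaf 6 435 436) (leaf 2 464 498)))))))))) (node 497 (merge (leaf 6 464 465) (node 498 (merge (leaf 0 496 532) (node 467 (merge (leaf 2 464 468) (node 596 (merge (leaf 4 467 564) (node 595 (merge (leaf 4 499 628) (node 594 (merge (leaf 3 560 593) (leaf 5 498 626))))))))))))))))) (merge (node 563 (merge (node 497 (merge (leaf 6 464 465) (node 532 (merge (leaf 0 496 498) (leaf 2 528 562))))) (merge (node 562 (merge (leaf 2 528 532) (node 596 (merge (leaf 0 560 595) (node 564 (merge (leaf 1 560 593) (leaf 0 561 597))))))) (merge (node 497 (merge (leaf 6 464 465) (node 498 (merge (leaf 0 496 532) (node 595 (merge (leaf 7 466 466) (node 596 (merge (leaf 4 499 628) (node 594 (merge (leaf 3 560 593) (leaf 5 498 626))))))))))) (node 595 (merge (node 596 (merge (leaf 0 560 562) (leaf 4 499 628))) (node 594 (merge (leaf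 5 498 626) (node 593 (merge (leaf 3 559 559) (leaf 2 560 564))))))))))) (merge (node 563 (merge (node 562 (merge (leaf 2 528 532) (node 596 (merge (leaf 0 560 595) (node 564 (merge (leaf 1 560 593) (leaf 0 561 597))))))) (merge (node 562 (merge (leaf 2 528 532) (node 564 (merge (leaf 1 560 593) (node 467 (merge (leaf 5 466 594) (leaf 4 467 596))))))) (merge (node 595 (merge (node 596 (merge (leaf 0 560 562) (leaf 4 499 628))) (merge (node 594 (merge (leaf 5 498 626) (node 562 (merge (leaf 5 466 467) (leaf 0 559 559))))) (node 596 (merge (leaf 4 499 628) (node 594 (merge (leaf 3 560 593) (leaf 5 498 626)))))))) (merge (node 595 (merge (node 596 (merge (leaf 4 499 628) (node 594 (merge (leaf 3 560 593) (leaf 5 498 626))))) (merge (node 500 (merge (leaf 6 467 468) (node 627 (merge (leaf 6 499 532) (node 628 (merge (leaf 4 499 596) (leaf 4 531 660))))))) (node 500 (merge (leaf 6 467 468) (node 627 (merge (leaf 6 499 532) (node 626 (merge (leaf 5 498 594) (leaf 5 530 658)))))))))) (node 495 (merge (leaf 7 463 463) (node 562 (merge (leaf 2 528 532) (node 467 (merge (leaf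 5 466 594) (node 468 (merge (leaf 6 435 436) (node 500 (merge (leaf 6 467 595) (node 466 (merge (leaf 7 434 434) (node 501 (merge (leaf 0 465 465) (leaf 3 466 502)))))))))))))))))))) (merge (node 467 (merge (node 497 (merge (leaf 6 464 465) (node 495 (merge (leaf 7 463 463) (node 498 (merge (leaf 2 463 466) (leaf 2 464 468))))))) (merge (node 497 (merge (leaf 6 464 465) (node 468 (merge (leaf 2 464 498) (node 563 (merge (leaf 6 435 436) (node 595 (merge (leaf 6 467 500) (node 594 (merge (leaf 5 466 562) (leaf 5 498 626))))))))))) (merge (node 436 (merge (node 404 (merge (leaf 6 403 435) (node 468 (merge (leaf 5 371 372) (leaf 5 403 500))))) (merge (node 563 (merge (leaf 6 435 468) (node 564 (merge (leaf 4 467 596) (node 562 (merge (leaf 1 560 593) (leaf 5 466 594))))))) (node 435 (merge (leaf 6 403 404) (node 434 (merge (leaf 7 402 402) (node 563 (merge (leaf 7 434 466) (node 564 (merge (leaf 4 467 596) (node 562 (merge (leaf 1 560 593) (leaf 5 466 594)))))))))))))) (node 497 (merge (leaf 6 464 465) (node 495 (merge (leaf 7 463 463) (node 466 (merge (leaf 2 463 498)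 (node 563 (merge (leaf 7 434 434) (node 564 (merge (leaf 4 467 596) (node 562 (merge (leaf 1 560 593) (leaf 5 466 594))))))))))))))))) (node 467 (merge (node 497 (merge (leaf 6 464 465) (node 498 (merge (leaf 0 496 532) (node 495 (merge (leaf 7 463 463) (leaf 2 463 466))))))) (merge (node 563 (merge (node 562 (merge (leaf 2 528 532) (leaf 5 466 594))) (merge (node 466 (merge (leaf 7 434 434) (node 595 (merge (leaf 7 466 498) (node 596 (merge (leaf 0 560 562) (leaf 4 467 564))))))) (node 466 (merge (leaf 7 434 434) (node 595 (merge (leaf 7 466 498) (node 596 (merge (leaf 4 467 564) (leaf 4 499 628)))))))))) (merge (node 497 (merge (leaf 6 464 465) (node 495 (merge (leaf 7 463 463) (node 466 (merge (leaf 2 463 498) (node 563 (merge (leaf 7 434 434) (node 564 (merge (leaf 4 467 596) (node 562 (merge (leaf 1 560 593) (leaf 5 466 594))))))))))))) (merge (node 497 (merge (leaf 6 464 465) (node 532 (merge (leaf 0 496 498) (node 435 (merge (leaf 4 435 564) (node 404 (merge (leaf 6 403 436) (node 403 (merge (leaf 6 371 372) (leaf 4 403 500))))))))))) (node 434 (merge (node 563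 (merge (leaf 7 434 466) (node 562 (merge (leaf 2 528 532) (leaf 5 466 594))))) (merge (node 563 (merge (leaf 7 434 466) (node 564 (merge (leaf 4 467 596) (node 562 (merge (leaf 1 560 593) (leaf 5 466 594))))))) (merge (node 435 (merge (leaf 7 402 402) (node 564 (merge (leaf 4 435 532) (node 563 (merge (leaf 4 467 596) (node 562 (merge (leaf 1 560 593) (leaf 5 466 594))))))))) (node 465 (merge (leaf 6 464 497) (node 435 (merge (leaf 7 402 402) (node 436 (merge (leaf 6 403 404) (node 437 (merge (leaf 1 433 466) (node 470 (merge (leaf 0 434 469) (node 438 (merge (leaf 0 435 471) (node 406 (merge (leaf 2 402 405) (leaf 2 403 407))))))))))))))))))))))))))))))))))) (merge (node 594 (merge (node 595 (merge (node 593 (merge (leaf 3 559 559) (leaf 3 560 596))) (merge (node 559 (merge (leaf 0 559 562) (leaf 3 559 593))) (merge (node 562 (merge (leaf 0 559 559) (node 596 (merge (leaf 0 560 563) (leaf 3 561 597))))) (node 596 (merge (leaf 3 560 593) (node 597 (merge (leaf 3 561 562) (node 630 (merge (leaf 0 594 629) (node 598 (merge (leaf 0 595 631) (node 566 (merge (leaf 2 562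 565) (leaf 2 563 567))))))))))))))) (merge (node 496 (merge (node 463 (merge (leaf 7 463 495) (node 464 (merge (leaf 7 431 431) (leaf 4 464 593))))) (merge (node 465 (merge (leaf 6 464 497) (node 464 (merge (leaf 6 432 433) (leaf 4 464 593))))) (merge (node 465 (merge (leaf 6 464 497) (node 464 (merge (leaf 6 432 433) (node 463 (merge (leaf 7 431 431) (leaf 7 463 495))))))) (node 497 (merge (leaf 6 464 465) (node 495 (merge (leaf 7 463 463) (node 530 (merge (leaf 0 495 498) (node 559 (merge (leaf 2 527 562) (node 558 (merge (leaf 0 558 593) (node 589 (merge (leaf 1 557 590) (node 557 (merge (leaf 1 556 588) (node 525 (merge (leaf 3 524 524) (leaf 3 525 526))))))))))))))))))))) (merge (node 496 (merge (node 465 (merge (leaf 6 464 497) (node 464 (merge (leaf 6 432 433) (node 463 (merge (leaf 7 431 431) (leaf 7 463 495))))))) (merge (node 593 (merge (leaf 4 464 464) (node 595 (merge (leaf 3 560 596) (node 627 (merge (leaf 0 592 628) (node 563 (merge (leaf 2 560 564) (node 498 (merge (leaf 7 498 530) (node 499 (merge (leaf 7 466 466) (leaf 5 498 626))))))))))))) (merge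 (node 593 (merge (leaf 4 464 464) (node 595 (merge (leaf 3 560 596) (node 627 (merge (leaf 0 592 628) (node 563 (merge (leaf 2 560 564) (node 498 (merge (leaf 7 498 530) (node 499 (merge (leaf 7 466 466) (leaf 5 498 626))))))))))))) (node 497 (merge (leaf 6 464 465) (node 495 (merge (leaf 7 463 463) (node 498 (merge (leaf 0 495 530) (node 467 (merge (leaf 2 463 466) (node 499 (merge (leaf 2 464 468) (node 563 (merge (leaf 5 466 562) (node 596 (merge (leaf 4 467 564) (node 595 (merge (leaf 3 560 593) (leaf 5 498 626))))))))))))))))))))) (merge (node 496 (merge (node 463 (merge (leaf 7 463 495) (node 464 (merge (leaf 7 431 431) (leaf 4 464 593))))) (merge (node 465 (merge (leaf 6 464 497) (node 464 (merge (leaf 6 432 433) (leaf 4 464 593))))) (merge (node 465 (merge (leaf 6 464 497) (node 464 (merge (leaf 6 432 433) (node 463 (merge (leaf 7 431 431) (leaf 7 463 495))))))) (node 595 (merge (node 593 (merge (leaf 3 559 559) (leaf 3 560 596))) (merge (node 497 (merge (leaf 6 464 465) (node 495 (merge (leaf 7 463 463) (node 498 (merge (leaf 0 495 530) (node 467 (merge (leaf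 2 463 466) (node 499 (merge (leaf 2 464 468) (node 563 (merge (leaf 5 498 626) (node 596 (merge (leaf 4 467 564) (leaf 4 499 628))))))))))))))) (node 593 (merge (leaf 3 559 559) (node 627 (merge (leaf 0 592 628) (node 624 (merge (leaf 1 591 623) (node 656 (merge (leaf 6 560 688) (node 563 (merge (leaf 2 560 564) (node 657 (merge (leaf 4 560 689) (node 655 (merge (leaf 5 559 687) (node 658 (merge (leaf 2 623 626) (node 690 (merge (leaf 5 562 659) (leaf 0 655 691)))))))))))))))))))))))))) (node 562 (merge (node 559 (merge (leaf 2 527 530) (leaf 0 559 595))) (merge (node 595 (merge (leaf 0 559 559) (node 596 (merge (leaf 0 560 563) (leaf 3 561 597))))) (merge (node 530 (merge (leaf 2 527 559) (node 626 (merge (leaf 6 498 499) (node 658 (merge (leaf 6 530 563) (node 659 (merge (leaf 4 530 627) (leaf 4 562 691))))))))) (node 465 (merge (node 496 (merge (leaf 6 464 497) (node 464 (merge (leaf 6 432 433) (node 463 (merge (leaf 7 431 431) (leaf 7 463 495))))))) (merge (node 530 (merge (node 498 (merge (leaf 7 465 497) (node 595 (merge (leaf 4 498 627) (node 563 (merge (leaf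 4 466 466) (leaf 0 560 596))))))) (merge (node 498 (merge (leaf 7 465 497) (node 499 (merge (leaf 6 466 467) (node 626 (merge (leaf 6 498 531) (node 627 (merge (leaf 4 498 595) (leaf 4 530 659))))))))) (node 626 (merge (leaf 6 498 499) (node 658 (merge (leaf 6 530 563) (node 691 (merge (leaf 4 562 659) (node 690 (merge (leaf 4 594 723) (node 689 (merge (leaf 5 561 657) (leaf 5 593 721)))))))))))))) (node 464 (merge (node 496 (merge (leaf 6 432 433) (node 463 (merge (leaf 7 431 431) (leaf 7 463 495))))) (merge (node 530 (merge (node 433 (merge (leaf 6 432 496) (node 626 (merge (leaf 6 498 499) (node 498 (merge (leaf 7 433 466) (node 627 (merge (leaf 4 498 595) (leaf 4 530 659))))))))) (merge (node 433 (merge (leaf 6 432 496) (node 498 (merge (leaf 7 433 466) (node 595 (merge (leaf 4 498 627) (node 596 (merge (leaf 0 560 563) (leaf 3 561 597))))))))) (node 626 (merge (leaf 6 498 499) (node 658 (merge (leaf 6 530 563) (node 691 (merge (leaf 4 562 659) (node 690 (merge (leaf 4 594 723) (node 689 (merge (leaf 5 561 657) (leaf 5 593 721)))))))))))))) (merge (node 499 (merge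 (node 530 (merge (leaf 6 498 626) (node 498 (merge (leaf 6 466 467) (node 466 (merge (leaf 7 433 433) (leaf 0 463 463))))))) (merge (node 626 (merge (leaf 6 498 530) (node 658 (merge (leaf 6 530 563) (node 691 (merge (leaf 4 562 659) (node 690 (merge (leaf 4 594 723) (node 689 (merge (leaf 5 561 657) (leaf 5 593 721))))))))))) (node 467 (merge (leaf 5 466 563) (node 466 (merge (leaf 0 464 500) (node 436 (merge (leaf 2 432 435) (node 468 (merge (leaf 2 433 437) (node 432 (merge (leaf 3 431 431) (leaf 3 432 433)))))))))))))) (node 499 (merge (node 467 (merge (leaf 5 466 563) (node 466 (merge (leaf 0 464 500) (node 435 (merge (leaf 2 432 436) (node 434 (merge (leaf 7 402 402) (leaf 2 431 463))))))))) (merge (node 626 (merge (leaf 6 498 530) (node 658 (merge (leaf 6 530 563) (node 691 (merge (leaf 4 562 659) (node 690 (merge (leaf 4 594 723) (node 689 (merge (leaf 5 561 657) (leaf 5 593 721))))))))))) (node 530 (merge (leaf 6 498 626) (node 498 (merge (leaf 6 466 467) (node 463 (merge (leaf 0 463 466) (node 496 (merge (leaf 7 431 431) (leaf 7 463 495))))))))))))))))))))))))))))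 (node 496 (merge (node 465 (merge (leaf 6 464 497) (node 464 (merge (leaf 6 432 433) (node 463 (merge (leaf 7 431 431) (leaf 7 463 495))))))) (merge (node 497 (merge (leaf 6 464 465) (node 495 (merge (leaf 7 463 463) (node 530 (merge (leaf 0 495 498) (node 562 (merge (leaf 2 527 559) (node 532 (merge (leaf 1 529 533) (leaf 2 528 563))))))))))) (merge (node 464 (merge (node 463 (merge (leaf 7 431 431) (leaf 7 463 495))) (merge (node 433 (merge (leaf 6 432 465) (node 432 (merge (leaf 6 400 401) (node 431 (merge (leaf 7 399 399) (leaf 7 431 463))))))) (merge (node 467 (merge (node 465 (merge (leaf 6 432 433) (node 495 (merge (leaf 7 463 463) (leaf 1 463 466))))) (node 562 (merge (node 530 (merge (leaf 2 527 559) (node 532 (merge (leaf 1 529 533) (leaf 2 528 563))))) (merge (node 530 (merge (leaf 2 527 559) (node 499 (merge (leaf 5 434 435) (node 594 (merge (leaf 6 466 498) (leaf 6 498 626))))))) (node 563 (merge (leaf 2 528 532) (node 595 (merge (leaf 0 560 596) (node 499 (merge (leaf 5 466 594) (node 468 (merge (leaf 6 435 436) (leaf 6 467 500)))))))))))))) (node 467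 (merge (node 433 (merge (leaf 6 432 465) (node 432 (merge (leaf 6 400 401) (node 431 (merge (leaf 7 399 399) (node 434 (merge (leaf 0 431 466) (node 435 (merge (leaf 0 432 468) (node 403 (merge (leaf 2 399 402) (leaf 2 400 404))))))))))))) (merge (node 465 (merge (leaf 6 432 433) (node 466 (merge (leaf 1 463 495) (node 499 (merge (leaf 0 464 500) (node 563 (merge (leaf 7 434 434) (node 595 (merge (leaf 7 466 498) (node 594 (merge (leaf 5 466 562) (leaf 5 498 626))))))))))))) (node 562 (merge (node 530 (merge (leaf 2 527 559) (node 532 (merge (leaf 1 529 533) (leaf 2 528 563))))) (merge (node 530 (merge (leaf 2 527 559) (node 499 (merge (leaf 5 434 435) (node 594 (merge (leaf 6 466 498) (leaf 6 498 626))))))) (node 563 (merge (leaf 2 528 532) (node 595 (merge (leaf 0 560 596) (node 499 (merge (leaf 5 466 594) (node 468 (merge (leaf 6 435 436) (leaf 6 467 500))))))))))))))))))) (merge (node 499 (merge (node 497 (merge (leaf 6 464 465) (node 532 (merge (leaf 0 496 498) (node 562 (merge (leaf 2 528 563) (node 530 (merge (leaf 1 529 533) (leaf 2 527 559))))))))) (merge (node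 497 (merge (leaf 6 464 465) (node 498 (merge (leaf 0 496 532) (node 495 (merge (leaf 0 495 530) (node 467 (merge (leaf 2 463 466) (leaf 2 464 468))))))))) (merge (node 497 (merge (leaf 6 464 465) (node 498 (merge (leaf 0 496 532) (node 467 (merge (leaf 2 464 468) (node 466 (merge (leaf 2 463 495) (node 563 (merge (leaf 7 434 434) (leaf 7 466 595))))))))))) (merge (node 562 (merge (node 530 (merge (leaf 2 527 559) (node 594 (merge (leaf 6 498 626) (node 467 (merge (leaf 5 434 435) (leaf 6 466 498))))))) (merge (node 559 (merge (leaf 2 527 530) (node 595 (merge (leaf 0 559 594) (node 563 (merge (leaf 2 528 532) (leaf 0 560 596))))))) (merge (node 563 (merge (leaf 2 528 532) (node 595 (merge (leaf 0 560 596) (node 466 (merge (leaf 7 466 498) (node 467 (merge (leaf 7 434 434) (leaf 5 466 594))))))))) (node 563 (merge (leaf 2 528 532) (node 595 (merge (leaf 0 560 596) (node 498 (merge (leaf 7 466 466) (node 627 (merge (leaf 7 498 530) (node 660 (merge (leaf 4 531 628) (node 659 (merge (leaf 4 563 692) (node 658 (merge (leaf 5 530 626) (leaf 5 562 690))))))))))))))))))) (merge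 (node 530 (merge (node 562 (merge (leaf 2 527 559) (node 594 (merge (leaf 6 498 626) (node 467 (merge (leaf 5 434 435) (leaf 5 466 563))))))) (merge (node 497 (merge (leaf 6 464 465) (node 498 (merge (leaf 0 495 495) (node 562 (merge (leaf 2 527 559) (node 594 (merge (leaf 6 498 626) (node 595 (merge (leaf 4 498 627) (node 563 (merge (leaf 7 466 466) (leaf 0 560 596))))))))))))) (merge (node 562 (merge (leaf 2 527 559) (node 594 (merge (leaf 6 498 626) (node 467 (merge (leaf 5 434 435) (leaf 6 466 498))))))) (merge (node 497 (merge (leaf 6 464 465) (node 498 (merge (leaf 0 495 495) (node 467 (merge (leaf 2 464 468) (node 562 (merge (leaf 5 434 435) (leaf 2 527 559))))))))) (node 497 (merge (leaf 6 464 465) (node 498 (merge (leaf 0 495 495) (node 467 (merge (leaf 2 464 468) (node 435 (merge (leaf 5 402 403) (node 434 (merge (leaf 7 402 402) (node 563 (merge (leaf 7 434 466) (node 595 (merge (leaf 7 498 627) (node 596 (merge (leaf 4 467 564) (leaf 4 499 628)))))))))))))))))))))) (node 562 (merge (node 559 (merge (leaf 2 527 530) (node 595 (merge (leaf 0 559 594) (node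 563 (merge (leaf 2 528 532) (leaf 0 560 596))))))) (merge (node 563 (merge (leaf 2 528 532) (node 595 (merge (leaf 0 560 596) (node 468 (merge (leaf 6 467 500) (node 467 (merge (leaf 6 435 436) (leaf 5 466 594))))))))) (merge (node 465 (merge (leaf 6 464 497) (node 464 (merge (leaf 6 432 433) (node 530 (merge (leaf 2 527 559) (node 467 (merge (leaf 5 434 435) (node 466 (merge (leaf 1 463 495) (leaf 0 464 500))))))))))) (merge (node 465 (merge (leaf 6 464 497) (node 464 (merge (leaf 6 432 433) (node 559 (merge (leaf 2 527 530) (node 594 (merge (leaf 0 559 595) (node 467 (merge (leaf 5 466 563) (node 466 (merge (leaf 1 463 495) (leaf 0 464 500))))))))))))) (node 465 (merge (leaf 6 464 497) (node 530 (merge (leaf 2 527 559) (node 563 (merge (leaf 2 528 532) (node 595 (merge (leaf 0 560 596) (node 500 (merge (leaf 6 467 468) (node 467 (merge (leaf 5 434 435) (node 466 (merge (leaf 7 434 434) (leaf 0 464 464)))))))))))))))))))))))))) (merge (hyp 0) (hyp 1)))))))))))) nP_175 cP_175 16 (by decide +kernel)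
def nP_176 : ℕ := 0x10000000100000001000000000000000000000000000000000000000000000000000000000000000000000000000000000000000000000000000000000000000000000000000000000000
def cP_176 : ℕ := 0x1c0000001e0000001f000000ffc00002ff800003ffc00007ffc0000fdfe0003fef00007fef80003fc700007ffe00001fff00001ffa00000fe8000005000000000000000000000000000000000000000000000000000000000000000000000000000000000000000000000
theorem lP_176 : S nP_176 cP_176 17 := S_of_chk [(nP_165, cP_165, 13), (nP_166, cP_166, 14), (nP_167, cP_167, 13), (nP_168, cP_168, 13), (nP_169, cP_169, 14), (nP_170, cP_170, 14), (nP_175, cP_175, 16)] ⟨lP_165, lP_166, lP_167, lP_168, lP_169, lP_170, lP_175, trivial⟩ (node 561 (merge (node 591 (merge (node 562 (merge (leaf 1 559 563) (node 590 (merge (leaf 1 558 559) (leaf 2 557 589))))) (node 623 (merge (leaf 5 495 496) (node 655 (merge (leaf 5 527 624) (leaf 6 559 687))))))) (merge (node 591 (merge (node 562 (merge (leaf 1 559 563) (node 590 (merge (leaf 2 557 589) (leaf 2 558 593))))) (node 623 (merge (leaf 5 495 496) (node 655 (merge (leaf 5 527 624) (leaf 6 559 687)))))))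 (merge (node 591 (merge (node 590 (merge (leaf 2 557 589) (node 562 (merge (leaf 1 558 559) (leaf 2 558 593))))) (node 623 (merge (leaf 5 495 496) (node 655 (merge (leaf 5 527 624) (leaf 6 559 687))))))) (merge (node 496 (merge (node 465 (merge (leaf 6 464 497) (node 464 (merge (leaf 6 432 433) (leaf 4 464 593))))) (merge (node 463 (merge (leaf 7 463 495) (node 464 (merge (leaf 7 431 431) (leaf 4 464 593))))) (merge (node 465 (merge (leaf 6 464 497) (node 464 (merge (leaf 6 432 433) (node 463 (merge (leaf 7 431 431) (leaf 7 463 495))))))) (node 495 (merge (leaf 7 463 463) (node 497 (merge (leaf 6 464 465) (node 498 (merge (node 531 (merge (leaf 0 495 530) (node 499 (merge (leaf 0 496 532) (node 467 (merge (leaf 2 463 466) (leaf 2 464 468))))))) (merge (node 530 (merge (leaf 0 495 531) (node 466 (merge (leaf 2 463 467) (node 562 (merge (leaf 5 465 593) (node 563 (merge (leaf 1 559 591) (leaf 4 466 595))))))))) (merge (node 467 (merge (leaf 2 463 466) (node 499 (merge (leaf 2 464 468) (node 531 (merge (leaf 0 496 532) (node 591 (merge (leaf 5 495 623) (node 563 (merge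 (leaf 1 559 562) (node 596 (merge (leaf 4 467 564) (node 595 (merge (leaf 4 499 628) (node 594 (merge (leaf 3 560 593) (leaf 5 498 626))))))))))))))))) (merge (node 531 (merge (leaf 0 495 530) (node 499 (merge (leaf 0 496 532) (node 591 (merge (leaf 5 495 623) (node 563 (merge (leaf 1 559 562) (node 595 (merge (leaf 7 466 466) (node 596 (merge (leaf 4 499 628) (node 594 (merge (leaf 3 560 593) (leaf 5 498 626))))))))))))))) (merge (node 467 (merge (leaf 2 463 466) (node 499 (merge (leaf 2 464 468) (node 591 (merge (leaf 5 495 623) (node 562 (merge (leaf 1 559 563) (node 594 (merge (leaf 6 466 530) (node 559 (merge (leaf 0 559 595) (node 558 (merge (leaf 0 558 593) (node 557 (merge (leaf 0 556 556) (node 525 (merge (leaf 3 524 524) (leaf 3 525 526))))))))))))))))))) (node 531 (merge (leaf 0 495 530) (node 499 (merge (leaf 0 496 532) (node 468 (merge (leaf 2 464 467) (node 500 (merge (leaf 2 465 469) (node 563 (merge (leaf 6 467 595) (node 562 (merge (leaf 1 559 591) (node 564 (merge (leaf 1 560 593) (node 597 (merge (leaf 0 561 596) (node 565 (merge (leaf 0 562 598)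 (node 533 (merge (leaf 7 468 501) (leaf 2 530 534))))))))))))))))))))))))))))))))))) (merge (node 496 (merge (node 465 (merge (leaf 6 464 497) (node 464 (merge (leaf 6 432 433) (leaf 4 464 593))))) (merge (node 463 (merge (leaf 7 463 495) (node 464 (merge (leaf 7 431 431) (leaf 4 464 593))))) (merge (node 465 (merge (leaf 6 464 497) (node 464 (merge (leaf 6 432 433) (node 463 (merge (leaf 7 431 431) (leaf 7 463 495))))))) (hyp 0))))) (merge (node 562 (merge (node 591 (merge (leaf 1 559 563) (node 590 (merge (leaf 1 558 559) (leaf 2 557 589))))) (merge (node 563 (merge (leaf 1 559 591) (node 564 (merge (leaf 1 560 593) (node 596 (merge (leaf 0 560 595) (leaf 0 561 597))))))) (merge (node 563 (merge (node 564 (merge (leaf 1 560 593) (node 596 (merge (leaf 0 560 595) (leaf 0 561 597))))) (merge (node 595 (merge (leaf 0 560 596) (node 559 (merge (leaf 0 559 594) (node 531 (merge (leaf 2 527 530) (leaf 2 528 532))))))) (node 593 (merge (leaf 1 560 564) (node 531 (merge (leaf 2 528 532) (node 559 (merge (leaf 2 527 530) (node 558 (merge (leaf 0 557 557) (leaf 0 558 594))))))))))))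 (node 655 (merge (node 623 (merge (leaf 5 527 624) (node 591 (merge (leaf 6 527 559) (node 590 (merge (leaf 2 557 589) (leaf 2 558 593))))))) (merge (node 624 (merge (leaf 5 527 623) (node 656 (merge (leaf 5 559 687) (node 689 (merge (leaf 4 560 657) (node 688 (merge (leaf 6 560 593) (leaf 4 592 721))))))))) (merge (node 591 (merge (node 623 (merge (leaf 6 527 559) (leaf 6 559 687))) (node 590 (merge (leaf 2 557 589) (leaf 2 558 593))))) (merge (node 591 (merge (node 623 (merge (leaf 5 527 624) (leaf 6 559 687))) (node 590 (merge (leaf 1 558 559) (leaf 2 557 589))))) (hyp 1)))))))))) (merge (node 590 (merge (node 591 (merge (leaf 2 557 589) (node 496 (merge (leaf 5 495 623) (node 464 (merge (leaf 5 463 559) (leaf 4 464 593))))))) (merge (node 591 (merge (leaf 2 557 589) (node 623 (merge (leaf 5 495 496) (node 655 (merge (leaf 5 527 624) (leaf 6 559 687))))))) (merge (node 591 (merge (leaf 2 557 589) (node 558 (merge (node 557 (merge (leaf 3 557 593) (node 556 (merge (leaf 0 555 555) (leaf 0 556 559))))) (merge (node 623 (merge (node 655 (merge (leaf 5 527 624) (leaf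 6 559 687))) (node 526 (merge (leaf 4 494 494) (node 525 (merge (leaf 3 525 559) (node 622 (merge (leaf 7 493 493) (node 621 (merge (leaf 1 589 593) (leaf 2 588 620))))))))))) (merge (node 623 (merge (node 655 (merge (leaf 5 527 624) (leaf 6 559 687))) (node 526 (merge (leaf 4 494 494) (node 525 (merge (leaf 3 525 559) (node 622 (merge (leaf 7 493 493) (node 654 (merge (leaf 7 525 557) (node 653 (merge (leaf 5 525 621) (leaf 5 557 685))))))))))))) (node 593 (merge (leaf 3 557 557) (node 622 (merge (leaf 1 589 621) (node 594 (merge (leaf 1 590 623) (node 627 (merge (leaf 0 591 626) (node 595 (merge (leaf 3 560 596) (leaf 0 592 628))))))))))))))))) (merge (node 558 (merge (node 589 (merge (leaf 1 557 559) (leaf 2 557 591))) (merge (node 559 (merge (leaf 1 557 589) (node 593 (merge (leaf 0 557 557) (leaf 0 558 594))))) (merge (node 496 (merge (node 464 (merge (leaf 4 464 593) (node 465 (merge (leaf 6 432 433) (leaf 6 464 497))))) (merge (node 464 (merge (leaf 4 464 593) (node 463 (merge (leaf 7 431 431) (leaf 7 463 495))))) (merge (node 465 (merge (leaf 6 464 497) (node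 464 (merge (leaf 6 432 433) (node 463 (merge (leaf 7 431 431) (leaf 7 463 495))))))) (node 494 (merge (node 497 (merge (leaf 6 464 465) (node 495 (merge (leaf 7 463 463) (node 461 (merge (leaf 3 461 462) (node 493 (merge (leaf 3 460 460) (leaf 7 461 526))))))))) (merge (node 559 (merge (node 593 (merge (leaf 0 557 557) (leaf 0 558 594))) (node 526 (merge (leaf 3 525 525) (node 461 (merge (leaf 7 461 493) (node 462 (merge (leaf 7 429 429) (leaf 4 462 591))))))))) (merge (node 526 (merge (node 495 (merge (leaf 6 462 463) (node 497 (merge (leaf 6 464 465) (leaf 1 493 525))))) (merge (node 559 (merge (leaf 3 525 525) (node 593 (merge (leaf 0 557 557) (leaf 0 558 594))))) (node 463 (merge (leaf 6 462 495) (node 462 (merge (leaf 6 430 431) (node 559 (merge (leaf 4 462 591) (node 593 (merge (leaf 0 557 557) (leaf 0 558 594)))))))))))) (merge (node 497 (merge (leaf 6 464 465) (node 495 (merge (leaf 7 463 463) (node 461 (merge (leaf 3 461 462) (node 493 (merge (leaf 3 460 460) (node 525 (merge (leaf 1 492 524) (leaf 4 461 557))))))))))) (node 497 (merge (leaf 6 464 465) (node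 495 (merge (leaf 7 463 463) (node 525 (merge (leaf 1 493 526) (node 493 (merge (leaf 1 492 524) (node 461 (merge (leaf 3 460 460) (leaf 4 461 557)))))))))))))))))))) (node 622 (merge (node 591 (merge (leaf 2 557 589) (node 593 (merge (leaf 3 557 557) (leaf 1 589 621))))) (merge (node 591 (merge (leaf 2 557 589) (node 621 (merge (leaf 1 589 593) (node 653 (merge (leaf 5 525 526) (node 685 (merge (leaf 5 557 654) (leaf 6 589 717))))))))) (merge (node 654 (merge (node 557 (merge (leaf 7 525 525) (node 686 (merge (leaf 7 557 589) (node 687 (merge (leaf 4 558 655) (leaf 4 590 719))))))) (merge (node 557 (merge (leaf 7 525 525) (node 686 (merge (leaf 7 557 589) (node 685 (merge (leaf 5 557 653) (leaf 5 589 717))))))) (node 655 (merge (leaf 4 558 687) (node 653 (merge (leaf 5 557 685) (node 621 (merge (leaf 5 525 526) (node 656 (merge (leaf 3 620 620) (leaf 3 621 657)))))))))))) (merge (node 591 (merge (leaf 2 557 589) (node 557 (merge (leaf 3 557 593) (node 654 (merge (leaf 7 525 525) (node 687 (merge (leaf 4 558 655) (node 686 (merge (leaf 4 590 719) (node 685 (merge (leaf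 5 557 653) (leaf 5 589 717))))))))))))) (node 525 (merge (node 654 (merge (leaf 7 525 557) (node 687 (merge (leaf 4 558 655) (node 686 (merge (leaf 4 590 719) (node 685 (merge (leaf 5 557 653) (leaf 5 589 717))))))))) (merge (node 526 (merge (leaf 7 493 493) (node 621 (merge (leaf 5 525 653) (node 593 (merge (leaf 1 589 591) (node 496 (merge (leaf 4 464 464) (node 497 (merge (leaf 6 464 465) (node 495 (merge (leaf 7 463 463) (leaf 1 493 494))))))))))))) (node 493 (merge (leaf 7 493 526) (node 557 (merge (leaf 4 461 461) (leaf 7 525 654))))))))))))))))) (merge (hyp 2) (node 655 (merge (node 624 (merge (leaf 5 527 623) (node 656 (merge (leaf 5 559 687) (node 689 (merge (leaf 4 560 657) (node 688 (merge (leaf 6 560 593) (leaf 4 592 721))))))))) (merge (node 558 (merge (node 559 (merge (leaf 1 557 589) (node 593 (merge (leaf 0 557 557) (leaf 0 558 594))))) (merge (node 559 (merge (leaf 1 557 589) (node 526 (merge (leaf 3 525 525) (node 622 (merge (leaf 4 526 623) (node 654 (merge (leaf 4 558 687) (node 653 (merge (leaf 5 525 621) (leaf 5 557 685))))))))))) (merge (node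 559 (merge (node 593 (merge (leaf 0 557 557) (leaf 0 558 594))) (node 526 (merge (leaf 3 525 525) (node 622 (merge (leaf 4 526 623) (node 654 (merge (leaf 4 558 687) (node 653 (merge (leaf 5 525 621) (leaf 5 557 685))))))))))) (node 622 (merge (node 525 (merge (node 526 (merge (leaf 7 493 493) (leaf 4 526 623))) (node 654 (merge (leaf 7 525 557) (leaf 4 558 687))))) (merge (node 526 (merge (leaf 4 526 623) (node 654 (merge (leaf 4 558 687) (node 653 (merge (leaf 5 525 621) (leaf 5 557 685))))))) (merge (node 654 (merge (leaf 4 558 687) (node 557 (merge (leaf 7 525 525) (node 686 (merge (leaf 7 557 589) (node 685 (merge (leaf 5 557 653) (leaf 5 589 717))))))))) (node 526 (merge (leaf 4 526 623) (node 493 (merge (leaf 7 493 525) (node 494 (merge (leaf 7 461 461) (node 621 (merge (leaf 5 493 589) (leaf 5 525 653))))))))))))))))) (merge (hyp 3) (merge (hyp 4) (hyp 5)))))))))))) (hyp 6))))))))) nP_176 cP_176 17 (by decide +kernel)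
def nP_177 : ℕ := 0x2000000000000000100000001c0000000000000000000000000000000000000000000000000000000000000000000000000000000000000000000000000000000000000000000000000000000000000000000
def cP_177 : ℕ := 0x100000001c0000001e0000000e0000007ff00001fde00000fd700001cee000000e0000001c0000000c0000000000000000000000000000000000000000000000000000000000000000000000000000000000000000000000000000000000000000000000000000
theorem lP_177 : S nP_177 cP_177 14 := S_of_chk [] trivial (node 656 (merge (node 593 (merge (node 594 (merge (leaf 0 558 561) (leaf 3 559 595))) (merge (node 594 (merge (leaf 3 558 591) (leaf 3 559 595))) (node 624 (merge (leaf 4 560 689) (node 688 (merge (leaf 6 560 561) (leaf 7 559 591)))))))) (merge (node 655 (merge (node 624 (merge (leaf 5 559 687) (leaf 4 560 689))) (merge (node 687 (merge (leaf 5 559 624) (node 686 (merge (leaf 1 654 658) (node 685 (merge (leaf 1 653 654) (leaf 2 652 684))))))) (merge (node 689 (merge (leaf 4 560 624) (node 654 (merge (leaf 0 654 690) (node 653 (merge (leaf 0 653 688) (node 685 (merge (leaf 1 652 684) (leaf 1 653 686)))))))))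 (node 654 (merge (node 685 (merge (leaf 1 653 686) (node 653 (merge (leaf 1 652 684) (node 621 (merge (leaf 3 620 620) (leaf 3 621 622))))))) (merge (node 690 (merge (leaf 0 654 689) (node 658 (merge (leaf 0 655 691) (node 686 (merge (leaf 1 653 685) (leaf 1 654 687))))))) (node 689 (merge (leaf 0 654 690) (node 653 (merge (leaf 0 653 688) (node 621 (merge (leaf 3 620 620) (leaf 3 621 622)))))))))))))) (merge (node 594 (merge (node 593 (merge (leaf 0 558 561) (leaf 3 559 595))) (merge (node 593 (merge (leaf 3 558 591) (leaf 3 559 595))) (merge (node 593 (merge (leaf 0 558 561) (leaf 3 558 591))) (node 658 (merge (node 689 (merge (leaf 4 560 624) (node 626 (merge (leaf 5 561 562) (node 721 (merge (leaf 5 593 690) (leaf 6 625 753))))))) (merge (node 626 (merge (node 689 (merge (leaf 5 561 562) (node 721 (merge (leaf 5 593 690) (leaf 6 625 753))))) (node 627 (merge (leaf 2 623 655) (node 628 (merge (leaf 1 625 629) (leaf 2 624 659))))))) (merge (node 689 (merge (leaf 4 560 624) (node 626 (merge (leaf 5 561 562) (node 627 (merge (leaf 2 623 655) (node 659 (merge (leaf 2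 624 628) (node 691 (merge (leaf 0 656 692) (leaf 7 594 723))))))))))) (merge (node 655 (merge (node 687 (merge (leaf 5 559 624) (node 686 (merge (leaf 1 654 658) (node 685 (merge (leaf 1 653 654) (leaf 2 652 684))))))) (node 691 (merge (leaf 0 655 690) (node 659 (merge (leaf 0 656 692) (node 627 (merge (leaf 2 623 626) (leaf 2 624 628))))))))) (node 562 (merge (node 561 (merge (leaf 0 559 595) (node 591 (merge (leaf 1 559 563) (leaf 1 558 590))))) (node 659 (merge (node 691 (merge (leaf 0 656 692) (node 655 (merge (leaf 0 655 690) (node 624 (merge (leaf 5 559 687) (leaf 4 560 689))))))) (merge (node 692 (merge (leaf 0 656 691) (node 660 (merge (leaf 0 657 693) (node 628 (merge (leaf 2 624 627) (leaf 2 625 629))))))) (merge (node 628 (merge (leaf 2 624 627) (node 660 (merge (leaf 2 625 629) (node 689 (merge (leaf 4 560 624) (node 690 (merge (leaf 1 657 661) (node 655 (merge (leaf 0 654 654) (leaf 0 655 691))))))))))) (node 628 (merge (leaf 2 624 627) (node 660 (merge (leaf 2 625 629) (node 693 (merge (leaf 0 657 692) (node 661 (merge (leaf 0 658 694) (node 689 (merge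 (leaf 4 560 624) (leaf 1 657 690)))))))))))))))))))))))))) (merge (node 658 (merge (node 659 (merge (node 687 (merge (leaf 1 655 688) (node 655 (merge (leaf 1 654 686) (node 627 (merge (leaf 2 623 626) (leaf 2 624 628))))))) (merge (node 692 (merge (leaf 0 656 691) (node 660 (merge (leaf 0 657 693) (node 628 (merge (leaf 2 624 627) (leaf 2 625 629))))))) (node 692 (merge (leaf 0 656 691) (node 660 (merge (leaf 0 657 693) (node 688 (merge (leaf 1 655 687) (leaf 1 656 689)))))))))) (merge (node 594 (merge (node 593 (merge (leaf 0 558 561) (leaf 3 559 595))) (merge (node 593 (merge (leaf 0 558 561) (leaf 3 558 591))) (merge (node 593 (merge (leaf 3 558 591) (leaf 3 559 595))) (node 562 (merge (node 561 (merge (leaf 0 559 595) (node 591 (merge (leaf 1 559 563) (leaf 1 558 590))))) (merge (node 626 (merge (leaf 5 561 689) (node 659 (merge (leaf 4 562 691) (node 627 (merge (leaf 4 530 530) (leaf 2 624 628))))))) (node 626 (merge (leaf 5 561 689) (node 563 (merge (leaf 6 530 531) (node 690 (merge (leaf 6 562 595) (node 691 (merge (leaf 4 562 659) (leaf 4 594 723))))))))))))))))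 (merge (node 659 (merge (node 691 (merge (leaf 0 656 692) (node 655 (merge (leaf 0 655 690) (node 687 (merge (leaf 1 654 686) (leaf 1 655 688))))))) (merge (node 692 (merge (leaf 0 656 691) (node 660 (merge (leaf 0 657 693) (node 628 (merge (leaf 2 624 627) (leaf 2 625 629))))))) (node 687 (merge (leaf 1 655 688) (node 655 (merge (leaf 1 654 686) (node 627 (merge (leaf 2 623 626) (leaf 2 624 628)))))))))) (merge (node 659 (merge (node 691 (merge (leaf 0 656 692) (node 655 (merge (leaf 0 655 690) (node 687 (merge (leaf 1 654 686) (leaf 1 655 688))))))) (merge (node 688 (merge (leaf 1 655 687) (node 660 (merge (leaf 1 656 689) (node 628 (merge (leaf 2 624 627) (leaf 2 625 629))))))) (node 692 (merge (leaf 0 656 691) (node 660 (merge (leaf 0 657 693) (node 628 (merge (leaf 2 624 627) (leaf 2 625 629)))))))))) (merge (node 594 (merge (node 593 (merge (leaf 0 558 561) (leaf 3 559 595))) (merge (node 593 (merge (leaf 0 558 561) (leaf 3 558 591))) (merge (node 593 (merge (leaf 3 558 591) (leaf 3 559 595))) (node 659 (merge (node 691 (merge (leaf 0 656 692) (node 655 (merge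 (leaf 0 655 690) (node 687 (merge (leaf 1 654 686) (leaf 1 655 688))))))) (merge (node 688 (merge (leaf 1 655 687) (node 689 (merge (leaf 1 656 660) (node 626 (merge (leaf 5 561 562) (node 721 (merge (leaf 5 593 690) (leaf 6 625 753))))))))) (node 691 (merge (leaf 0 656 692) (node 562 (merge (leaf 4 562 626) (node 561 (merge (leaf 0 559 595) (node 591 (merge (leaf 1 559 563) (leaf 1 558 590)))))))))))))))) (merge (node 659 (merge (node 687 (merge (leaf 1 655 688) (node 655 (merge (leaf 1 654 686) (node 627 (merge (leaf 2 623 626) (leaf 2 624 628))))))) (merge (node 594 (merge (node 593 (merge (leaf 3 558 591) (leaf 3 559 595))) (node 688 (merge (leaf 1 655 687) (node 689 (merge (leaf 1 656 660) (node 626 (merge (leaf 5 561 562) (node 721 (merge (leaf 5 593 690) (leaf 6 625 753))))))))))) (merge (node 628 (merge (leaf 2 624 627) (node 660 (merge (leaf 2 625 629) (node 693 (merge (leaf 0 657 692) (node 661 (merge (leaf 0 658 694) (node 689 (merge (leaf 1 656 688) (leaf 1 657 690))))))))))) (node 627 (merge (leaf 2 624 628) (node 655 (merge (leaf 2 623 626) (node 686 (merge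 (leaf 1 654 687) (node 654 (merge (leaf 1 653 685) (node 690 (merge (leaf 0 654 689) (node 622 (merge (leaf 3 621 621) (node 590 (merge (leaf 6 558 591) (node 561 (merge (leaf 1 557 589) (node 594 (merge (leaf 0 558 593) (node 595 (merge (leaf 0 559 562) (leaf 5 562 563))))))))))))))))))))))))) (node 626 (merge (node 655 (merge (leaf 2 623 627) (node 690 (merge (leaf 0 655 691) (node 654 (merge (leaf 0 654 689) (node 686 (merge (leaf 1 653 685) (leaf 1 654 687))))))))) (merge (node 594 (merge (node 593 (merge (leaf 0 558 561) (leaf 3 558 591))) (merge (node 593 (merge (leaf 3 558 591) (leaf 3 559 595))) (merge (node 595 (merge (leaf 3 559 593) (node 562 (merge (leaf 0 559 561) (node 563 (merge (leaf 6 530 531) (leaf 6 562 690))))))) (node 562 (merge (leaf 5 561 689) (node 561 (merge (leaf 0 559 595) (node 563 (merge (leaf 6 530 531) (leaf 1 559 591))))))))))) (node 655 (merge (leaf 2 623 627) (node 686 (merge (leaf 1 654 687) (node 654 (merge (leaf 1 653 685) (node 622 (merge (leaf 3 621 621) (node 590 (merge (leaf 6 558 591) (node 561 (merge (leaf 1 557 589) (node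 594 (merge (leaf 0 558 593) (node 562 (merge (leaf 0 559 595) (node 531 (merge (leaf 2 527 530) (leaf 6 530 563))))))))))))))))))))))))))))) (node 594 (merge (node 593 (merge (leaf 0 558 561) (leaf 3 559 595))) (merge (node 593 (merge (leaf 3 558 591) (leaf 3 559 595))) (merge (node 593 (merge (leaf 0 558 561) (leaf 3 558 591))) (node 658 (merge (node 687 (merge (node 655 (merge (leaf 5 559 624) (leaf 1 654 686))) (node 659 (merge (leaf 1 655 688) (node 691 (merge (leaf 0 656 692) (node 627 (merge (leaf 2 624 628) (node 595 (merge (leaf 7 562 562) (node 690 (merge (leaf 5 562 563) (leaf 5 594 722))))))))))))) (merge (node 627 (merge (node 655 (merge (leaf 2 623 626) (node 687 (merge (leaf 5 559 624) (leaf 1 654 686))))) (merge (node 659 (merge (leaf 2 624 628) (node 687 (merge (leaf 1 655 688) (node 655 (merge (leaf 5 559 624) (leaf 1 654 686))))))) (node 628 (merge (leaf 2 624 659) (node 629 (merge (leaf 1 625 626) (node 630 (merge (leaf 3 594 595) (node 663 (merge (leaf 0 627 662) (node 631 (merge (leaf 0 628 664) (node 599 (merge (leaf 2 595 598) (leaf 2 596 600))))))))))))))))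 (merge (node 655 (merge (node 687 (merge (leaf 5 559 624) (leaf 1 654 686))) (node 691 (merge (leaf 0 655 690) (node 659 (merge (leaf 0 656 692) (node 562 (merge (leaf 4 562 626) (node 561 (merge (leaf 0 559 595) (node 591 (merge (leaf 1 559 563) (leaf 1 558 590))))))))))))) (merge (node 562 (merge (node 561 (merge (leaf 0 559 595) (node 591 (merge (leaf 1 559 563) (leaf 1 558 590))))) (merge (node 561 (merge (leaf 0 559 595) (node 590 (merge (leaf 1 557 589) (leaf 1 558 591))))) (merge (node 626 (merge (node 531 (merge (leaf 6 530 563) (node 530 (merge (leaf 6 498 499) (leaf 2 527 561))))) (node 655 (merge (leaf 2 623 627) (node 687 (merge (leaf 5 559 624) (leaf 1 654 686))))))) (node 655 (merge (node 687 (merge (leaf 5 559 624) (leaf 1 654 686))) (node 690 (merge (leaf 0 655 691) (node 626 (merge (leaf 2 623 627) (node 563 (merge (leaf 6 530 531) (leaf 6 562 595))))))))))))) (merge (node 659 (merge (node 627 (merge (leaf 2 624 628) (node 626 (merge (leaf 2 623 655) (node 562 (merge (leaf 4 530 530) (node 595 (merge (leaf 0 559 561) (node 563 (merge (leaf 6 530 531)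 (leaf 6 562 690))))))))))) (merge (node 691 (merge (leaf 0 656 692) (node 627 (merge (leaf 2 624 628) (node 595 (merge (leaf 7 562 562) (node 690 (merge (leaf 5 562 563) (leaf 5 594 722))))))))) (merge (node 691 (merge (leaf 0 656 692) (node 562 (merge (leaf 4 562 626) (node 561 (merge (leaf 0 559 595) (node 591 (merge (leaf 1 559 563) (leaf 1 558 590))))))))) (node 691 (merge (leaf 0 656 692) (node 627 (merge (leaf 2 624 628) (node 723 (merge (leaf 7 594 626) (node 754 (merge (leaf 5 626 722) (node 755 (merge (leaf 5 658 786) (node 787 (merge (leaf 7 658 690) (node 788 (merge (leaf 4 659 756) (leaf 4 691 820))))))))))))))))))) (merge (node 659 (merge (node 691 (merge (leaf 0 656 692) (node 655 (merge (leaf 0 655 690) (node 687 (merge (leaf 1 654 686) (leaf 1 655 688))))))) (merge (node 687 (merge (leaf 1 655 688) (node 655 (merge (leaf 1 654 686) (node 627 (merge (leaf 2 623 626) (leaf 2 624 628))))))) (node 691 (merge (leaf 0 656 692) (node 627 (merge (leaf 2 624 628) (node 723 (merge (leaf 7 594 626) (node 754 (merge (leaf 5 626 722) (node 755 (merge (leaf 5 658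 786) (node 787 (merge (leaf 7 658 690) (node 788 (merge (leaf 4 659 756) (leaf 4 691 820)))))))))))))))))) (node 562 (merge (node 561 (merge (leaf 0 559 595) (node 591 (merge (leaf 1 559 563) (leaf 1 558 590))))) (merge (node 561 (merge (leaf 0 559 595) (node 531 (merge (leaf 2 527 530) (node 563 (merge (leaf 2 528 532) (leaf 6 530 626))))))) (merge (node 531 (merge (node 561 (merge (leaf 2 527 530) (node 591 (merge (leaf 1 559 563) (leaf 1 558 590))))) (merge (node 530 (merge (leaf 2 527 561) (node 626 (merge (leaf 6 498 499) (node 659 (merge (leaf 4 530 627) (leaf 4 562 691))))))) (merge (node 626 (merge (leaf 6 530 563) (node 530 (merge (leaf 6 498 499) (node 659 (merge (leaf 4 530 627) (leaf 4 562 691))))))) (node 563 (merge (leaf 6 530 626) (node 561 (merge (leaf 2 528 532) (leaf 1 559 591))))))))) (merge (node 561 (merge (leaf 0 559 595) (node 591 (merge (leaf 1 558 590) (node 688 (merge (leaf 7 559 624) (node 659 (merge (leaf 1 655 687) (node 530 (merge (leaf 2 527 531) (node 626 (merge (leaf 4 530 627) (leaf 4 562 691))))))))))))) (node 659 (merge (node 627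 (merge (leaf 2 624 628) (node 530 (merge (leaf 4 530 626) (node 595 (merge (leaf 4 498 498) (leaf 7 530 563))))))) (merge (node 692 (merge (leaf 0 656 691) (node 660 (merge (leaf 0 657 693) (node 628 (merge (leaf 2 624 627) (leaf 2 625 629))))))) (node 691 (merge (leaf 0 656 692) (node 626 (merge (leaf 4 562 562) (node 723 (merge (leaf 4 594 690) (leaf 7 626 755))))))))))))))))))))))))))))))) nP_177 cP_177 14 (by decide +kernel)
def nP_178 : ℕ := 0x200000000000000050000000180000001000000000000000000000000000000000000000000000000000000000000000000000000000000000000000000000000000000000000000000000000000000000000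
def cP_178 : ℕ := 0x40000000c0000000c8000007df00001fde00000ff700001d8c000000e0000001c0000000f8000001f8000000a800000000000000000000000000000000000000000000000000000000000000000000000000000000000000000000000000000000000
theorem lP_178 : S nP_178 cP_178 11 := S_of_chk [] trivial (node 656 (merge (node 624 (merge (leaf 4 528 625) (node 688 (merge (leaf 7 559 591) (node 687 (merge (leaf 5 559 655) (leaf 5 591 719))))))) (merge (node 655 (merge (node 624 (merge (leaf 4 528 625) (leaf 5 559 687))) (merge (node 687 (merge (leaf 5 559 624) (node 686 (merge (leaf 1 654 658) (node 685 (merge (leaf 1 653 654) (leaf 2 652 684))))))) (merge (node 625 (merge (leaf 4 528 624) (node 654 (merge (leaf 2 622 626) (node 685 (merge (leaf 1 653 686) (node 653 (merge (leaf 1 652 684) (node 621 (merge (leaf 3 620 620) (leaf 3 621 622))))))))))) (node 658 (merge (node 691 (merge (leaf 0 655 690) (node 659 (merge (leaf 0 656 692) (node 627 (merge (leaf 2 623 626) (leaf 2 624 628))))))) (merge (node 691 (merge (leaf 0 655 690) (node 659 (merge (leaf 0 656 692) (node 687 (merge (leaf 1 654 686)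 (leaf 1 655 688))))))) (node 686 (merge (leaf 1 654 687) (node 654 (merge (leaf 1 653 685) (node 626 (merge (leaf 2 622 625) (leaf 2 623 627)))))))))))))) (merge (node 562 (merge (node 561 (merge (leaf 0 559 595) (node 591 (merge (leaf 1 559 563) (leaf 1 558 590))))) (merge (node 561 (merge (leaf 0 559 595) (node 530 (merge (leaf 2 527 531) (node 625 (merge (leaf 4 528 624) (leaf 5 529 626))))))) (node 496 (merge (node 465 (merge (leaf 6 464 497) (node 464 (merge (leaf 6 432 433) (leaf 5 463 591))))) (merge (node 463 (merge (leaf 7 463 495) (node 464 (merge (leaf 7 431 431) (leaf 5 463 591))))) (node 497 (merge (leaf 6 464 465) (node 495 (merge (leaf 7 463 463) (node 625 (merge (leaf 4 528 624) (node 530 (merge (leaf 5 529 626) (node 498 (merge (leaf 0 495 531) (node 467 (merge (leaf 2 463 466) (leaf 6 466 499))))))))))))))))))) (merge (node 562 (merge (node 561 (merge (leaf 0 559 595) (node 591 (merge (leaf 1 559 563) (leaf 1 558 590))))) (merge (node 530 (merge (node 561 (merge (leaf 2 527 531) (leaf 0 559 595))) (merge (node 496 (merge (node 465 (merge (leaf 6 464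 497) (node 464 (merge (leaf 6 432 433) (leaf 5 463 591))))) (merge (node 463 (merge (leaf 7 463 495) (node 464 (merge (leaf 7 431 431) (leaf 5 463 591))))) (node 497 (merge (leaf 6 464 465) (node 495 (merge (leaf 7 463 463) (node 498 (merge (leaf 0 495 531) (node 467 (merge (leaf 2 463 466) (leaf 6 466 499)))))))))))) (node 595 (merge (leaf 0 559 561) (node 498 (merge (leaf 4 498 627) (node 467 (merge (leaf 6 466 499) (node 466 (merge (leaf 6 434 435) (node 465 (merge (leaf 7 433 433) (leaf 7 465 497)))))))))))))) (merge (node 626 (merge (node 625 (merge (leaf 5 529 530) (node 655 (merge (leaf 2 622 654) (node 658 (merge (leaf 2 623 627) (node 687 (merge (leaf 1 654 686) (node 659 (merge (leaf 1 655 688) (leaf 4 562 691))))))))))) (merge (node 658 (merge (node 627 (merge (leaf 2 623 655) (node 659 (merge (leaf 2 624 628) (leaf 4 562 691))))) (merge (node 563 (merge (leaf 6 530 531) (node 690 (merge (leaf 6 562 595) (node 691 (merge (leaf 0 655 655) (leaf 4 594 723))))))) (merge (node 563 (merge (leaf 6 530 531) (node 690 (merge (leaf 6 562 595) (node 691 (merge (leaf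 4 562 659) (leaf 4 594 723))))))) (node 627 (merge (leaf 2 623 655) (node 659 (merge (leaf 4 530 530) (leaf 2 624 628))))))))) (merge (node 530 (merge (leaf 5 529 625) (node 496 (merge (node 465 (merge (leaf 6 464 497) (node 464 (merge (leaf 6 432 433) (leaf 5 463 591))))) (merge (node 463 (merge (leaf 7 463 495) (node 464 (merge (leaf 7 431 431) (leaf 5 463 591))))) (node 497 (merge (leaf 6 464 465) (node 495 (merge (leaf 7 463 463) (node 498 (merge (leaf 0 495 531) (node 467 (merge (leaf 2 463 466) (leaf 6 466 499)))))))))))))) (node 658 (merge (node 563 (merge (leaf 6 530 531) (node 690 (merge (leaf 6 562 595) (node 691 (merge (leaf 4 562 659) (leaf 4 594 723))))))) (node 655 (merge (leaf 2 623 627) (node 686 (merge (leaf 1 654 687) (node 654 (merge (leaf 2 622 625) (leaf 1 653 685))))))))))))) (merge (node 626 (merge (node 530 (merge (leaf 5 529 625) (node 531 (merge (leaf 6 498 499) (leaf 2 527 561))))) (merge (node 625 (merge (leaf 5 529 530) (node 655 (merge (leaf 2 622 654) (node 658 (merge (leaf 2 623 627) (node 687 (merge (leaf 1 654 686) (node 659 (merge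 (leaf 1 655 688) (leaf 4 562 691))))))))))) (merge (node 658 (merge (node 627 (merge (leaf 2 623 655) (node 659 (merge (leaf 2 624 628) (leaf 4 562 691))))) (merge (node 659 (merge (leaf 4 562 691) (node 530 (merge (leaf 4 530 627) (node 531 (merge (leaf 6 498 499) (leaf 2 527 561))))))) (merge (node 691 (merge (leaf 4 562 659) (node 690 (merge (leaf 0 655 655) (leaf 4 594 723))))) (node 563 (merge (leaf 6 530 531) (node 591 (merge (leaf 1 559 561) (node 655 (merge (leaf 2 623 627) (node 686 (merge (leaf 1 654 687) (node 654 (merge (leaf 1 653 685) (node 622 (merge (leaf 6 558 590) (leaf 3 621 621))))))))))))))))) (node 658 (merge (node 655 (merge (leaf 2 623 627) (node 686 (merge (leaf 1 654 687) (node 654 (merge (leaf 2 622 625) (leaf 1 653 685))))))) (merge (node 691 (merge (leaf 4 562 659) (node 690 (merge (leaf 0 655 655) (leaf 4 594 723))))) (node 659 (merge (leaf 4 562 691) (node 628 (merge (leaf 2 624 627) (node 660 (merge (leaf 2 625 629) (node 693 (merge (leaf 0 657 692) (node 661 (merge (leaf 3 625 625) (leaf 0 658 694)))))))))))))))))) (node 659 (merge (node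 561 (merge (leaf 0 559 595) (node 530 (merge (leaf 2 527 531) (node 626 (merge (leaf 5 529 625) (leaf 4 530 627))))))) (merge (node 626 (merge (node 658 (merge (leaf 4 562 691) (node 627 (merge (leaf 2 624 628) (leaf 2 623 655))))) (node 530 (merge (leaf 5 529 625) (node 531 (merge (leaf 6 498 499) (leaf 2 527 561))))))) (merge (node 595 (merge (leaf 0 559 561) (node 691 (merge (leaf 7 562 627) (node 658 (merge (leaf 0 656 692) (node 655 (merge (leaf 0 655 690) (node 687 (merge (leaf 1 654 686) (leaf 1 655 688))))))))))) (merge (node 561 (merge (leaf 0 559 595) (node 531 (merge (leaf 2 527 530) (node 563 (merge (leaf 2 528 532) (node 658 (merge (leaf 6 530 626) (node 691 (merge (leaf 0 656 692) (node 655 (merge (leaf 0 655 690) (node 687 (merge (leaf 1 654 686) (leaf 1 655 688))))))))))))))) (node 691 (merge (node 658 (merge (leaf 4 562 626) (leaf 0 656 692))) (merge (node 658 (merge (leaf 0 656 692) (node 627 (merge (leaf 7 562 595) (leaf 2 624 628))))) (node 627 (merge (leaf 7 562 595) (node 723 (merge (leaf 7 594 626) (node 628 (merge (leaf 6 595 596) (node 755 (merge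 (leaf 6 627 660) (node 754 (merge (leaf 5 626 722) (leaf 5 658 786)))))))))))))))))))))))) (node 562 (merge (node 561 (merge (leaf 0 559 595) (node 591 (merge (leaf 1 559 563) (leaf 1 558 590))))) (merge (node 530 (merge (node 561 (merge (leaf 2 527 531) (leaf 0 559 595))) (merge (node 496 (merge (node 465 (merge (leaf 6 464 497) (node 464 (merge (leaf 6 432 433) (leaf 5 463 591))))) (merge (node 463 (merge (leaf 7 463 495) (node 464 (merge (leaf 7 431 431) (leaf 5 463 591))))) (node 497 (merge (leaf 6 464 465) (node 495 (merge (leaf 7 463 463) (node 498 (merge (leaf 0 495 531) (node 467 (merge (leaf 2 463 466) (leaf 6 466 499)))))))))))) (node 595 (merge (leaf 0 559 561) (node 498 (merge (leaf 4 498 627) (node 467 (merge (leaf 6 466 499) (node 466 (merge (leaf 6 434 435) (node 465 (merge (leaf 7 433 433) (leaf 7 465 497)))))))))))))) (merge (node 531 (merge (node 561 (merge (leaf 2 527 530) (node 563 (merge (leaf 2 528 532) (leaf 1 559 591))))) (merge (node 530 (merge (leaf 2 527 561) (node 626 (merge (leaf 6 498 499) (node 658 (merge (leaf 6 530 563) (node 659 (merge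 (leaf 4 530 627) (leaf 4 562 691))))))))) (merge (node 496 (merge (node 465 (merge (leaf 6 464 497) (node 464 (merge (leaf 6 432 433) (leaf 5 463 591))))) (merge (node 463 (merge (leaf 7 463 495) (node 464 (merge (leaf 7 431 431) (leaf 5 463 591))))) (node 497 (merge (leaf 6 464 465) (node 495 (merge (leaf 7 463 463) (node 498 (merge (leaf 0 495 530) (node 499 (merge (leaf 0 496 532) (node 467 (merge (leaf 2 463 466) (leaf 2 464 468)))))))))))))) (node 658 (merge (node 563 (merge (leaf 6 530 626) (node 561 (merge (leaf 2 528 532) (leaf 1 559 591))))) (node 687 (merge (node 655 (merge (leaf 5 559 624) (leaf 1 654 686))) (node 659 (merge (leaf 1 655 688) (node 692 (merge (leaf 0 656 691) (node 660 (merge (leaf 0 657 693) (node 628 (merge (leaf 2 624 627) (leaf 2 625 629))))))))))))))))) (merge (node 659 (merge (node 561 (merge (leaf 0 559 595) (node 530 (merge (leaf 2 527 531) (node 627 (merge (leaf 4 530 626) (node 658 (merge (leaf 2 624 628) (node 687 (merge (leaf 1 655 688) (node 655 (merge (leaf 5 559 624) (leaf 1 654 686))))))))))))) (merge (node 595 (merge (leaf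 0 559 561) (node 691 (merge (leaf 7 562 627) (node 658 (merge (leaf 0 656 692) (node 655 (merge (leaf 0 655 690) (node 687 (merge (leaf 1 654 686) (leaf 1 655 688))))))))))) (merge (node 626 (merge (node 658 (merge (leaf 4 562 691) (node 627 (merge (leaf 2 624 628) (leaf 2 623 655))))) (merge (node 530 (merge (leaf 4 530 627) (node 531 (merge (leaf 6 498 499) (leaf 2 527 561))))) (node 658 (merge (leaf 4 562 691) (node 687 (merge (leaf 1 655 688) (node 655 (merge (leaf 5 559 624) (leaf 1 654 686)))))))))) (merge (node 561 (merge (leaf 0 559 595) (node 531 (merge (leaf 2 527 530) (node 563 (merge (leaf 2 528 532) (node 658 (merge (leaf 6 530 626) (node 691 (merge (leaf 0 656 692) (node 655 (merge (leaf 0 655 690) (node 687 (merge (leaf 1 654 686) (leaf 1 655 688))))))))))))))) (merge (node 595 (merge (leaf 0 559 561) (node 627 (merge (leaf 7 562 691) (node 530 (merge (leaf 7 530 563) (leaf 4 530 626))))))) (node 691 (merge (node 658 (merge (leaf 4 562 626) (leaf 0 656 692))) (merge (node 658 (merge (leaf 0 656 692) (node 627 (merge (leaf 7 562 595) (leaf 2 624 628)))))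 (node 627 (merge (leaf 7 562 595) (node 723 (merge (leaf 7 594 626) (node 628 (merge (leaf 6 595 596) (node 755 (merge (leaf 6 627 660) (node 754 (merge (leaf 5 626 722) (leaf 5 658 786)))))))))))))))))))) (node 658 (merge (node 655 (merge (node 687 (merge (leaf 5 559 624) (leaf 1 654 686))) (node 691 (merge (leaf 0 655 690) (node 659 (merge (leaf 4 562 626) (leaf 0 656 692))))))) (merge (node 626 (merge (node 627 (merge (leaf 2 623 655) (node 659 (merge (leaf 2 624 628) (leaf 4 562 691))))) (merge (node 563 (merge (leaf 6 530 531) (node 690 (merge (leaf 6 562 595) (node 691 (merge (leaf 0 655 655) (leaf 4 594 723))))))) (merge (node 563 (merge (leaf 6 530 531) (node 690 (merge (leaf 6 562 595) (node 691 (merge (leaf 4 562 659) (leaf 4 594 723))))))) (node 627 (merge (leaf 2 623 655) (node 659 (merge (leaf 4 530 530) (leaf 2 624 628))))))))) (merge (node 655 (merge (node 687 (merge (leaf 5 559 624) (leaf 1 654 686))) (node 690 (merge (leaf 0 655 691) (node 626 (merge (leaf 2 623 627) (node 563 (merge (leaf 6 530 531) (leaf 6 562 595))))))))) (merge (node 687 (merge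 (node 655 (merge (leaf 5 559 624) (leaf 1 654 686))) (node 659 (merge (leaf 1 655 688) (node 692 (merge (leaf 0 656 691) (node 660 (merge (leaf 0 657 693) (node 628 (merge (leaf 2 624 627) (leaf 2 625 629))))))))))) (merge (node 659 (merge (node 627 (merge (leaf 2 624 628) (node 530 (merge (leaf 4 530 626) (node 595 (merge (leaf 4 498 498) (leaf 7 530 563))))))) (merge (node 692 (merge (leaf 0 656 691) (node 660 (merge (leaf 0 657 693) (node 628 (merge (leaf 2 624 627) (leaf 2 625 629))))))) (node 691 (merge (leaf 0 656 692) (node 626 (merge (leaf 4 562 562) (node 723 (merge (leaf 4 594 690) (leaf 7 626 755)))))))))) (node 627 (merge (node 655 (merge (leaf 2 623 626) (node 687 (merge (leaf 5 559 624) (leaf 1 654 686))))) (merge (node 659 (merge (leaf 2 624 628) (node 687 (merge (leaf 1 655 688) (node 655 (merge (leaf 5 559 624) (leaf 1 654 686))))))) (node 628 (merge (leaf 2 624 659) (node 629 (merge (leaf 1 625 626) (node 630 (merge (leaf 3 594 595) (node 663 (merge (leaf 0 627 662) (node 631 (merge (leaf 0 628 664) (node 599 (merge (leaf 2 595 598) (leaf 2 596 600))))))))))))))))))))))))))))))))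 nP_178 cP_178 11 (by decide +kernel)
def nP_179 : ℕ := 0x200000000000000050000000180000001000000000000000000000000000000000000000000000000000000000000000000000000000000000000000000000000000000000000000000000000000000000000
def cP_179 : ℕ := 0x40000000e0000000e8000007ff00001fde00000fd700001d8c000000e0000001c0000000f8000001f8000000a800000000000000000000000000000000000000000000000000000000000000000000000000000000000000000000000000000000000
theorem lP_179 : S nP_179 cP_179 12 := S_of_chk [] trivial (node 656 (merge (node 624 (merge (leaf 4 560 689) (node 688 (merge (leaf 7 559 591) (node 687 (merge (leaf 5 559 655) (leaf 5 591 719))))))) (merge (node 655 (merge (node 624 (merge (leaf 5 559 687) (leaf 4 560 689))) (merge (node 687 (merge (leaf 5 559 624) (node 686 (merge (leaf 1 654 658) (node 685 (merge (leaf 1 653 654) (leaf 2 652 684))))))) (merge (node 689 (merge (leaf 4 560 624) (node 654 (merge (leaf 0 654 690) (node 653 (merge (leaf 0 653 688) (node 685 (merge (leaf 1 652 684) (leaf 1 653 686))))))))) (node 654 (merge (node 685 (merge (leaf 1 653 686) (node 653 (merge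 (leaf 1 652 684) (node 621 (merge (leaf 3 620 620) (leaf 3 621 622))))))) (merge (node 690 (merge (leaf 0 654 689) (node 658 (merge (leaf 0 655 691) (node 686 (merge (leaf 1 653 685) (leaf 1 654 687))))))) (node 689 (merge (leaf 0 654 690) (node 653 (merge (leaf 0 653 688) (node 621 (merge (leaf 3 620 620) (leaf 3 621 622)))))))))))))) (merge (node 658 (merge (node 626 (merge (node 689 (merge (leaf 5 561 562) (node 721 (merge (leaf 5 593 690) (leaf 6 625 753))))) (node 627 (merge (leaf 2 623 655) (node 628 (merge (leaf 1 625 629) (leaf 2 624 659))))))) (merge (node 659 (merge (node 687 (merge (leaf 1 655 688) (node 655 (merge (leaf 1 654 686) (node 627 (merge (leaf 2 623 626) (leaf 2 624 628))))))) (merge (node 692 (merge (leaf 0 656 691) (node 660 (merge (leaf 0 657 693) (node 628 (merge (leaf 2 624 627) (leaf 2 625 629))))))) (node 692 (merge (leaf 0 656 691) (node 660 (merge (leaf 0 657 693) (node 688 (merge (leaf 1 655 687) (leaf 1 656 689)))))))))) (merge (node 659 (merge (node 691 (merge (leaf 0 656 692) (node 655 (merge (leaf 0 655 690) (node 687 (merge (leaf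 1 654 686) (leaf 1 655 688))))))) (merge (node 692 (merge (leaf 0 656 691) (node 660 (merge (leaf 0 657 693) (node 628 (merge (leaf 2 624 627) (leaf 2 625 629))))))) (node 687 (merge (leaf 1 655 688) (node 655 (merge (leaf 1 654 686) (node 627 (merge (leaf 2 623 626) (leaf 2 624 628)))))))))) (merge (node 659 (merge (node 691 (merge (leaf 0 656 692) (node 655 (merge (leaf 0 655 690) (node 687 (merge (leaf 1 654 686) (leaf 1 655 688))))))) (merge (node 688 (merge (leaf 1 655 687) (node 660 (merge (leaf 1 656 689) (node 628 (merge (leaf 2 624 627) (leaf 2 625 629))))))) (node 692 (merge (leaf 0 656 691) (node 660 (merge (leaf 0 657 693) (node 628 (merge (leaf 2 624 627) (leaf 2 625 629)))))))))) (merge (node 659 (merge (node 691 (merge (leaf 0 656 692) (node 655 (merge (leaf 0 655 690) (node 687 (merge (leaf 1 654 686) (leaf 1 655 688))))))) (merge (node 688 (merge (leaf 1 655 687) (node 689 (merge (leaf 1 656 660) (node 626 (merge (leaf 5 561 562) (node 721 (merge (leaf 5 593 690) (leaf 6 625 753))))))))) (node 691 (merge (leaf 0 656 692) (node 562 (merge (leaf 4 562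 626) (node 561 (merge (leaf 0 559 595) (node 591 (merge (leaf 1 559 563) (leaf 1 558 590)))))))))))) (merge (node 562 (merge (node 561 (merge (leaf 0 559 595) (node 591 (merge (leaf 1 559 563) (leaf 1 558 590))))) (merge (node 626 (merge (leaf 5 561 689) (node 659 (merge (leaf 4 562 691) (node 627 (merge (leaf 4 530 530) (leaf 2 624 628))))))) (node 626 (merge (leaf 5 561 689) (node 563 (merge (leaf 6 530 531) (node 690 (merge (leaf 6 562 595) (node 691 (merge (leaf 4 562 659) (leaf 4 594 723)))))))))))) (node 626 (merge (node 562 (merge (leaf 5 561 689) (node 561 (merge (leaf 0 559 595) (node 563 (merge (leaf 6 530 531) (leaf 1 559 591))))))) (merge (node 655 (merge (leaf 2 623 627) (node 690 (merge (leaf 0 655 691) (node 654 (merge (leaf 0 654 689) (node 686 (merge (leaf 1 653 685) (leaf 1 654 687))))))))) (node 655 (merge (leaf 2 623 627) (node 690 (merge (leaf 0 655 691) (node 563 (merge (leaf 6 562 595) (node 562 (merge (leaf 6 530 531) (node 591 (merge (leaf 1 559 561) (node 686 (merge (leaf 1 654 687) (node 654 (merge (leaf 1 653 685) (node 622 (merge (leaf 6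 558 590) (leaf 3 621 621))))))))))))))))))))))))))) (merge (node 689 (merge (leaf 4 560 624) (node 658 (merge (node 626 (merge (leaf 5 561 562) (node 721 (merge (leaf 5 593 690) (leaf 6 625 753))))) (merge (node 562 (merge (leaf 5 561 626) (node 561 (merge (leaf 0 559 595) (node 591 (merge (leaf 1 559 563) (leaf 1 558 590))))))) (node 659 (merge (node 692 (merge (leaf 0 656 691) (node 660 (merge (leaf 0 657 693) (node 628 (merge (leaf 2 624 627) (leaf 2 625 629))))))) (merge (node 691 (merge (leaf 0 656 692) (node 690 (merge (leaf 0 655 655) (node 627 (merge (leaf 2 624 628) (node 722 (merge (leaf 5 594 595) (leaf 6 626 754))))))))) (merge (node 660 (merge (leaf 1 656 688) (node 693 (merge (leaf 0 657 692) (node 661 (merge (leaf 1 657 690) (leaf 0 658 694))))))) (node 628 (merge (leaf 2 624 627) (node 660 (merge (leaf 2 625 629) (node 690 (merge (leaf 1 657 661) (node 655 (merge (leaf 0 654 654) (leaf 0 655 691)))))))))))))))))) (merge (node 658 (merge (node 689 (merge (leaf 4 560 624) (node 626 (merge (leaf 5 561 562) (node 721 (merge (leaf 5 593 690) (leaf 6 625 753)))))))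 (merge (node 626 (merge (node 689 (merge (leaf 5 561 562) (node 721 (merge (leaf 5 593 690) (leaf 6 625 753))))) (node 627 (merge (leaf 2 623 655) (node 628 (merge (leaf 1 625 629) (leaf 2 624 659))))))) (merge (node 689 (merge (leaf 4 560 624) (node 626 (merge (leaf 5 561 562) (node 627 (merge (leaf 2 623 655) (node 659 (merge (leaf 2 624 628) (node 691 (merge (leaf 0 656 692) (leaf 7 594 723))))))))))) (merge (node 655 (merge (node 687 (merge (leaf 5 559 624) (node 686 (merge (leaf 1 654 658) (node 685 (merge (leaf 1 653 654) (leaf 2 652 684))))))) (node 691 (merge (leaf 0 655 690) (node 659 (merge (leaf 0 656 692) (node 627 (merge (leaf 2 623 626) (leaf 2 624 628))))))))) (node 562 (merge (node 561 (merge (leaf 0 559 595) (node 591 (merge (leaf 1 559 563) (leaf 1 558 590))))) (node 659 (merge (node 691 (merge (leaf 0 656 692) (node 655 (merge (leaf 0 655 690) (node 624 (merge (leaf 5 559 687) (leaf 4 560 689))))))) (merge (node 692 (merge (leaf 0 656 691) (node 660 (merge (leaf 0 657 693) (node 628 (merge (leaf 2 624 627) (leaf 2 625 629))))))) (merge (node 628 (merge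 (leaf 2 624 627) (node 660 (merge (leaf 2 625 629) (node 689 (merge (leaf 4 560 624) (node 690 (merge (leaf 1 657 661) (node 655 (merge (leaf 0 654 654) (leaf 0 655 691))))))))))) (node 628 (merge (leaf 2 624 627) (node 660 (merge (leaf 2 625 629) (node 693 (merge (leaf 0 657 692) (node 661 (merge (leaf 0 658 694) (node 689 (merge (leaf 4 560 624) (leaf 1 657 690)))))))))))))))))))))) (merge (node 658 (merge (node 689 (merge (leaf 4 560 624) (node 626 (merge (leaf 5 561 562) (node 721 (merge (leaf 5 593 690) (leaf 6 625 753))))))) (merge (node 624 (merge (leaf 4 560 689) (node 688 (merge (leaf 7 559 591) (node 687 (merge (leaf 1 655 659) (leaf 5 591 719))))))) (merge (node 562 (merge (node 561 (merge (leaf 0 559 595) (node 591 (merge (leaf 1 559 563) (leaf 1 558 590))))) (merge (node 626 (merge (leaf 5 561 689) (node 659 (merge (leaf 4 562 691) (node 627 (merge (leaf 4 530 530) (leaf 2 624 628))))))) (node 626 (merge (leaf 5 561 689) (node 563 (merge (leaf 6 530 531) (node 690 (merge (leaf 6 562 595) (node 691 (merge (leaf 4 562 659) (leaf 4 594 723)))))))))))) (node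 562 (merge (node 561 (merge (leaf 0 559 595) (node 591 (merge (leaf 1 559 563) (leaf 1 558 590))))) (merge (node 561 (merge (leaf 0 559 595) (node 531 (merge (leaf 2 527 530) (node 563 (merge (leaf 2 528 532) (leaf 6 530 626))))))) (merge (node 531 (merge (node 561 (merge (leaf 2 527 530) (node 591 (merge (leaf 1 559 563) (leaf 1 558 590))))) (merge (node 530 (merge (leaf 2 527 561) (node 626 (merge (leaf 6 498 499) (node 659 (merge (leaf 4 530 627) (leaf 4 562 691))))))) (merge (node 626 (merge (leaf 6 530 563) (node 530 (merge (leaf 6 498 499) (node 659 (merge (leaf 4 530 627) (leaf 4 562 691))))))) (node 563 (merge (leaf 6 530 626) (node 561 (merge (leaf 2 528 532) (leaf 1 559 591))))))))) (merge (node 561 (merge (leaf 0 559 595) (node 591 (merge (leaf 1 558 590) (node 688 (merge (leaf 7 559 624) (node 659 (merge (leaf 1 655 687) (node 530 (merge (leaf 2 527 531) (node 626 (merge (leaf 4 530 627) (leaf 4 562 691))))))))))))) (node 659 (merge (node 627 (merge (leaf 2 624 628) (node 530 (merge (leaf 4 530 626) (node 595 (merge (leaf 4 498 498) (leaf 7 530 563)))))))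 (merge (node 692 (merge (leaf 0 656 691) (node 660 (merge (leaf 0 657 693) (node 628 (merge (leaf 2 624 627) (leaf 2 625 629))))))) (node 691 (merge (leaf 0 656 692) (node 626 (merge (leaf 4 562 562) (node 723 (merge (leaf 4 594 690) (leaf 7 626 755))))))))))))))))))) (node 562 (merge (node 561 (merge (leaf 0 559 595) (node 591 (merge (leaf 1 559 563) (leaf 1 558 590))))) (merge (node 530 (merge (node 561 (merge (leaf 2 527 531) (leaf 0 559 595))) (merge (node 496 (merge (node 465 (merge (leaf 6 464 497) (node 464 (merge (leaf 6 432 433) (leaf 5 463 591))))) (merge (node 463 (merge (leaf 7 463 495) (node 464 (merge (leaf 7 431 431) (leaf 5 463 591))))) (node 497 (merge (leaf 6 464 465) (node 495 (merge (leaf 7 463 463) (node 498 (merge (leaf 0 495 531) (node 467 (merge (leaf 2 463 466) (leaf 6 466 499)))))))))))) (node 595 (merge (leaf 0 559 561) (node 498 (merge (leaf 4 498 627) (node 467 (merge (leaf 6 466 499) (node 466 (merge (leaf 6 434 435) (node 465 (merge (leaf 7 433 433) (leaf 7 465 497)))))))))))))) (merge (node 531 (merge (node 561 (merge (leaf 2 527 530)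 (node 563 (merge (leaf 2 528 532) (leaf 1 559 591))))) (merge (node 530 (merge (leaf 2 527 561) (node 626 (merge (leaf 6 498 499) (node 658 (merge (leaf 6 530 563) (node 659 (merge (leaf 4 530 627) (leaf 4 562 691))))))))) (merge (node 496 (merge (node 465 (merge (leaf 6 464 497) (node 464 (merge (leaf 6 432 433) (leaf 5 463 591))))) (merge (node 463 (merge (leaf 7 463 495) (node 464 (merge (leaf 7 431 431) (leaf 5 463 591))))) (node 497 (merge (leaf 6 464 465) (node 495 (merge (leaf 7 463 463) (node 498 (merge (leaf 0 495 530) (node 499 (merge (leaf 0 496 532) (node 467 (merge (leaf 2 463 466) (leaf 2 464 468)))))))))))))) (node 658 (merge (node 563 (merge (leaf 6 530 626) (node 561 (merge (leaf 2 528 532) (leaf 1 559 591))))) (node 687 (merge (node 655 (merge (leaf 5 559 624) (leaf 1 654 686))) (node 659 (merge (leaf 1 655 688) (node 692 (merge (leaf 0 656 691) (node 660 (merge (leaf 0 657 693) (node 628 (merge (leaf 2 624 627) (leaf 2 625 629))))))))))))))))) (merge (node 659 (merge (node 561 (merge (leaf 0 559 595) (node 530 (merge (leaf 2 527 531) (node 627 (merge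 (leaf 4 530 626) (node 658 (merge (leaf 2 624 628) (node 687 (merge (leaf 1 655 688) (node 655 (merge (leaf 5 559 624) (leaf 1 654 686))))))))))))) (merge (node 595 (merge (leaf 0 559 561) (node 691 (merge (leaf 7 562 627) (node 658 (merge (leaf 0 656 692) (node 655 (merge (leaf 0 655 690) (node 687 (merge (leaf 1 654 686) (leaf 1 655 688))))))))))) (merge (node 626 (merge (node 658 (merge (leaf 4 562 691) (node 627 (merge (leaf 2 624 628) (leaf 2 623 655))))) (merge (node 530 (merge (leaf 4 530 627) (node 531 (merge (leaf 6 498 499) (leaf 2 527 561))))) (node 658 (merge (leaf 4 562 691) (node 687 (merge (leaf 1 655 688) (node 655 (merge (leaf 5 559 624) (leaf 1 654 686)))))))))) (merge (node 561 (merge (leaf 0 559 595) (node 531 (merge (leaf 2 527 530) (node 563 (merge (leaf 2 528 532) (node 658 (merge (leaf 6 530 626) (node 691 (merge (leaf 0 656 692) (node 655 (merge (leaf 0 655 690) (node 687 (merge (leaf 1 654 686) (leaf 1 655 688))))))))))))))) (merge (node 595 (merge (leaf 0 559 561) (node 627 (merge (leaf 7 562 691) (node 530 (merge (leaf 7 530 563) (leaf 4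 530 626))))))) (node 691 (merge (node 658 (merge (leaf 4 562 626) (leaf 0 656 692))) (merge (node 658 (merge (leaf 0 656 692) (node 627 (merge (leaf 7 562 595) (leaf 2 624 628))))) (node 627 (merge (leaf 7 562 595) (node 723 (merge (leaf 7 594 626) (node 628 (merge (leaf 6 595 596) (node 755 (merge (leaf 6 627 660) (node 754 (merge (leaf 5 626 722) (leaf 5 658 786)))))))))))))))))))) (node 658 (merge (node 655 (merge (node 687 (merge (leaf 5 559 624) (leaf 1 654 686))) (node 691 (merge (leaf 0 655 690) (node 659 (merge (leaf 4 562 626) (leaf 0 656 692))))))) (merge (node 626 (merge (node 627 (merge (leaf 2 623 655) (node 659 (merge (leaf 2 624 628) (leaf 4 562 691))))) (merge (node 563 (merge (leaf 6 530 531) (node 690 (merge (leaf 6 562 595) (node 691 (merge (leaf 0 655 655) (leaf 4 594 723))))))) (merge (node 563 (merge (leaf 6 530 531) (node 690 (merge (leaf 6 562 595) (node 691 (merge (leaf 4 562 659) (leaf 4 594 723))))))) (node 627 (merge (leaf 2 623 655) (node 659 (merge (leaf 4 530 530) (leaf 2 624 628))))))))) (merge (node 655 (merge (node 687 (merge (leaf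 5 559 624) (leaf 1 654 686))) (node 690 (merge (leaf 0 655 691) (node 626 (merge (leaf 2 623 627) (node 563 (merge (leaf 6 530 531) (leaf 6 562 595))))))))) (merge (node 687 (merge (node 655 (merge (leaf 5 559 624) (leaf 1 654 686))) (node 659 (merge (leaf 1 655 688) (node 692 (merge (leaf 0 656 691) (node 660 (merge (leaf 0 657 693) (node 628 (merge (leaf 2 624 627) (leaf 2 625 629))))))))))) (merge (node 659 (merge (node 627 (merge (leaf 2 624 628) (node 530 (merge (leaf 4 530 626) (node 595 (merge (leaf 4 498 498) (leaf 7 530 563))))))) (merge (node 692 (merge (leaf 0 656 691) (node 660 (merge (leaf 0 657 693) (node 628 (merge (leaf 2 624 627) (leaf 2 625 629))))))) (node 691 (merge (leaf 0 656 692) (node 626 (merge (leaf 4 562 562) (node 723 (merge (leaf 4 594 690) (leaf 7 626 755)))))))))) (node 627 (merge (node 655 (merge (leaf 2 623 626) (node 687 (merge (leaf 5 559 624) (leaf 1 654 686))))) (merge (node 659 (merge (leaf 2 624 628) (node 687 (merge (leaf 1 655 688) (node 655 (merge (leaf 5 559 624) (leaf 1 654 686))))))) (node 628 (merge (leaf 2 624 659) (node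 629 (merge (leaf 1 625 626) (node 630 (merge (leaf 3 594 595) (node 663 (merge (leaf 0 627 662) (node 631 (merge (leaf 0 628 664) (node 599 (merge (leaf 2 595 598) (leaf 2 596 600)))))))))))))))))))))))))))))))))) nP_179 cP_179 12 (by decide +kernel)
def nP_180 : ℕ := 0x200000000000000050000000100000001000000000000000000000000000000000000000000000000000000000000000000000000000000000000000000000000000000000000000000000000000000000000
def cP_180 : ℕ := 0x7000000078000001fc000003fc000003fc000007fc000003dc000003f000000080000000c00000004000000000000000000000000000000000000000000000000000000000000000000000000000000000000000000000000000000000000000000000000000000000000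
theorem lP_180 : S nP_180 cP_180 14 := S_of_chk [] trivial (node 689 (merge (node 624 (merge (leaf 4 528 625) (leaf 4 560 656))) (merge (node 625 (merge (leaf 4 528 624) (node 626 (merge (leaf 6 593 721) (node 562 (merge (leaf 5 529 530) (leaf 5 561 658))))))) (merge (node 690 (merge (node 656 (merge (leaf 4 560 624) (node 655 (merge (leaf 0 654 654) (node 691 (merge (leaf 0 655 658) (leaf 3 656 692))))))) (merge (node 656 (merge (leaf 4 560 624) (node 691 (merge (leaf 3 656 692) (node 688 (merge (leaf 3 655 655) (node 723 (merge (leaf 0 688 724) (node 659 (merge (leaf 2 656 660) (node 627 (merge (leaf 7 594 626) (node 595 (merge (leaf 7 562 562) (leaf 5 594 722))))))))))))))) (merge (node 688 (merge (node 658 (merge (node 626 (merge (leaf 5 561 562) (leaf 5 593 721))) (node 687 (merge (leaf 2 655 659) (leaf 2 654 686))))) (merge (node 656 (merge (leaf 4 560 624) (node 691 (merge (leaf 3 656 692) (node 723 (merge (leaf 0 688 724) (node 687 (merge (leaf 0 687 722) (node 658 (merge (leaf 1 655 659) (leaf 2 654 686))))))))))) (merge (node 656 (merge (leaf 4 560 624) (node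 691 (merge (leaf 3 656 692) (node 723 (merge (leaf 0 688 724) (node 659 (merge (leaf 2 656 660) (node 627 (merge (leaf 7 594 626) (node 595 (merge (leaf 7 562 562) (leaf 5 594 722))))))))))))) (node 656 (merge (leaf 4 560 624) (node 691 (merge (leaf 3 656 692) (node 723 (merge (leaf 0 688 724) (node 687 (merge (leaf 0 687 722) (node 658 (merge (leaf 4 594 626) (leaf 2 654 686))))))))))))))) (merge (node 658 (merge (node 626 (merge (leaf 5 561 562) (node 721 (merge (leaf 5 593 690) (leaf 6 625 753))))) (merge (node 626 (merge (leaf 5 561 562) (node 595 (merge (leaf 6 562 563) (node 722 (merge (leaf 6 594 627) (node 723 (merge (leaf 4 594 691) (leaf 4 626 755))))))))) (node 691 (merge (node 692 (merge (leaf 3 657 693) (node 724 (merge (leaf 0 689 725) (node 688 (merge (leaf 0 688 723) (node 659 (merge (leaf 1 656 660) (leaf 2 655 687))))))))) (merge (node 692 (merge (leaf 3 657 693) (node 720 (merge (leaf 1 688 721) (node 688 (merge (leaf 1 687 719) (node 659 (merge (leaf 1 656 660) (leaf 2 655 687))))))))) (merge (node 692 (merge (leaf 3 657 693) (node 724 (merge (leaf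 0 689 725) (node 688 (merge (leaf 0 688 723) (node 687 (merge (leaf 2 655 659) (leaf 2 654 686))))))))) (merge (node 688 (merge (node 687 (merge (leaf 2 655 659) (leaf 2 654 686))) (merge (node 719 (merge (leaf 1 687 720) (node 687 (merge (leaf 2 654 686) (leaf 1 686 718))))) (node 723 (merge (leaf 0 688 724) (node 659 (merge (leaf 1 656 660) (node 720 (merge (leaf 1 687 719) (node 755 (merge (leaf 7 658 787) (node 756 (merge (leaf 4 659 788) (node 722 (merge (leaf 0 720 721) (node 754 (merge (leaf 6 626 627) (leaf 6 658 786)))))))))))))))))) (node 692 (merge (leaf 3 657 693) (node 724 (merge (leaf 0 689 725) (node 721 (merge (leaf 1 688 720) (node 753 (merge (leaf 6 657 785) (node 754 (merge (leaf 4 657 786) (node 752 (merge (leaf 5 656 784) (node 723 (merge (leaf 1 720 722) (leaf 2 720 755))))))))))))))))))))))) (node 658 (merge (node 626 (merge (leaf 5 561 562) (node 721 (merge (leaf 5 593 690) (leaf 6 625 753))))) (merge (node 656 (merge (leaf 4 560 624) (node 655 (merge (leaf 0 654 654) (node 626 (merge (leaf 5 561 562) (leaf 2 623 627))))))) (node 656 (merge (leaf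 4 560 624) (node 655 (merge (leaf 0 654 654) (node 687 (merge (leaf 1 654 686) (node 688 (merge (leaf 1 655 659) (node 722 (merge (leaf 0 687 723) (node 719 (merge (leaf 1 686 718) (node 751 (merge (leaf 6 655 783) (node 752 (merge (leaf 4 655 784) (node 750 (merge (leaf 5 654 782) (node 721 (merge (leaf 1 718 720) (leaf 2 718 753))))))))))))))))))))))))))))) (node 721 (merge (node 626 (merge (leaf 6 593 625) (node 658 (merge (leaf 5 561 562) (leaf 5 593 690))))) (merge (node 625 (merge (leaf 6 593 626) (node 754 (merge (leaf 4 625 722) (node 753 (merge (leaf 4 657 786) (node 752 (merge (leaf 5 624 720) (leaf 5 656 784))))))))) (merge (node 720 (merge (node 752 (merge (leaf 5 624 625) (node 784 (merge (leaf 6 656 688) (leaf 6 688 816))))) (merge (node 752 (merge (leaf 5 624 625) (node 784 (merge (leaf 5 656 753) (leaf 6 688 816))))) (merge (node 722 (merge (node 754 (merge (leaf 4 625 625) (node 786 (merge (leaf 4 657 753) (leaf 7 689 818))))) (node 691 (merge (node 690 (merge (leaf 1 688 692) (node 719 (merge (leaf 2 686 718) (leaf 2 687 722))))) (merge (node 723 (merge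 (leaf 2 688 692) (node 756 (merge (leaf 0 720 755) (node 724 (merge (leaf 3 688 688) (leaf 0 721 757))))))) (node 719 (merge (leaf 2 687 690) (node 751 (merge (leaf 1 718 750) (node 687 (merge (leaf 3 686 686) (node 688 (merge (leaf 3 687 723) (node 783 (merge (leaf 6 655 656) (leaf 6 687 815)))))))))))))))) (node 753 (merge (node 754 (merge (leaf 4 657 786) (node 755 (merge (leaf 3 720 756) (node 752 (merge (leaf 3 719 719) (leaf 5 656 784))))))) (merge (node 784 (merge (leaf 5 656 752) (node 785 (merge (leaf 5 688 816) (node 688 (merge (leaf 7 656 656) (node 817 (merge (leaf 7 688 720) (node 818 (merge (leaf 4 689 786) (leaf 4 721 850))))))))))) (merge (node 784 (merge (leaf 5 656 752) (node 785 (merge (leaf 5 688 816) (node 817 (merge (leaf 7 688 688) (node 722 (merge (leaf 6 689 690) (node 754 (merge (leaf 6 721 849) (node 755 (merge (leaf 0 719 719) (leaf 1 752 756))))))))))))) (merge (node 786 (merge (leaf 4 657 754) (node 785 (merge (leaf 4 689 818) (node 688 (merge (leaf 7 656 656) (node 817 (merge (leaf 7 688 720) (node 816 (merge (leaf 5 688 784) (leaf 5 720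 848))))))))))) (node 754 (merge (leaf 4 657 786) (node 719 (merge (leaf 0 718 718) (node 755 (merge (leaf 0 719 722) (leaf 3 719 752)))))))))))))))) (node 658 (merge (node 626 (merge (leaf 5 561 562) (leaf 5 593 690))) (merge (node 626 (merge (leaf 5 561 562) (leaf 6 625 753))) (merge (node 626 (merge (leaf 5 593 690) (leaf 6 625 753))) (node 659 (merge (node 660 (merge (leaf 1 656 688) (node 693 (merge (leaf 0 657 692) (node 661 (merge (leaf 1 657 690) (leaf 0 658 694))))))) (merge (node 660 (merge (leaf 1 656 688) (node 692 (merge (leaf 0 657 693) (node 656 (merge (leaf 0 656 691) (node 628 (merge (leaf 2 624 627) (leaf 2 625 629))))))))) (merge (node 660 (merge (leaf 1 656 688) (node 690 (merge (leaf 1 657 661) (node 628 (merge (leaf 2 625 629) (node 656 (merge (leaf 2 624 627) (node 655 (merge (leaf 0 654 654) (leaf 0 655 691))))))))))) (merge (node 692 (merge (node 656 (merge (leaf 0 656 691) (node 660 (merge (leaf 0 657 693) (node 628 (merge (leaf 2 624 627) (leaf 2 625 629))))))) (merge (node 691 (merge (leaf 0 656 656) (node 693 (merge (leaf 0 657 660) (leaf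 3 657 690))))) (merge (node 691 (merge (leaf 0 656 656) (node 690 (merge (leaf 1 688 720) (node 724 (merge (leaf 0 689 725) (node 660 (merge (leaf 1 657 661) (node 756 (merge (leaf 7 627 627) (node 628 (merge (leaf 2 625 629) (node 755 (merge (leaf 6 627 723) (leaf 5 659 787))))))))))))))) (merge (node 660 (merge (leaf 0 657 693) (node 690 (merge (leaf 1 657 661) (node 691 (merge (leaf 1 688 720) (node 724 (merge (leaf 0 689 725) (node 756 (merge (leaf 7 627 627) (node 628 (merge (leaf 2 625 629) (node 755 (merge (leaf 6 627 723) (leaf 5 659 787))))))))))))))) (merge (node 691 (merge (leaf 0 656 656) (node 690 (merge (leaf 3 657 693) (leaf 1 688 720))))) (node 660 (merge (leaf 0 657 693) (node 628 (merge (leaf 2 625 629) (node 627 (merge (leaf 2 624 656) (node 595 (merge (leaf 4 563 563) (leaf 7 595 724))))))))))))))) (node 656 (merge (node 691 (merge (leaf 0 656 692) (node 690 (merge (leaf 0 655 655) (node 627 (merge (leaf 2 624 628) (node 595 (merge (leaf 7 562 562) (leaf 5 562 563))))))))) (merge (node 688 (merge (leaf 1 655 687) (node 753 (merge (leaf 7 656 785)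 (node 627 (merge (leaf 2 624 628) (node 754 (merge (leaf 4 657 786) (node 722 (merge (leaf 6 626 690) (node 723 (merge (leaf 3 688 724) (node 752 (merge (leaf 2 719 751) (leaf 5 656 784))))))))))))))) (merge (node 691 (merge (leaf 0 656 692) (node 690 (merge (leaf 0 655 655) (node 688 (merge (leaf 1 655 687) (node 723 (merge (leaf 0 688 724) (node 720 (merge (leaf 1 687 719) (node 752 (merge (leaf 6 656 784) (node 751 (merge (leaf 1 719 722) (leaf 5 655 783))))))))))))))) (node 691 (merge (leaf 0 656 692) (node 688 (merge (leaf 1 655 687) (node 753 (merge (leaf 7 656 785) (node 627 (merge (leaf 2 624 628) (node 754 (merge (leaf 4 657 786) (node 723 (merge (leaf 5 626 722) (node 724 (merge (leaf 4 627 756) (node 752 (merge (leaf 2 720 755) (leaf 5 656 784)))))))))))))))))))))))))))))))))))))) nP_180 cP_180 14 (by decide +kernel)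
def nP_181 : ℕ := 0x10000000180000001000000000000000000000000000000000000000000000000000000000000000000000000000000000000000000000000000000000000000000000000000000000000
def cP_181 : ℕ := 0x7000000078000001fc000003fc000003fc000007ff00001ffe00000ff700001def000000e3000001c2000000f8000001f8000000a800000000000000000000000000000000000000000000000000000000000000000000000000000000000000000000000000000000000
theorem lP_181 : S nP_181 cP_181 16 := S_of_chk [(nP_178, cP_178, 11), (nP_179, cP_179, 12), (nP_180, cP_180, 14)] ⟨lP_178, lP_179, lP_180, trivial⟩ (node 594 (merge (node 593 (merge (leaf 3 559 595) (node 625 (merge (leaf 4 496 496) (node 657 (merge (leaf 7 528 561) (leaf 7 560 689))))))) (merge (node 593 (merge (leaf 3 559 595) (node 496 (merge (leaf 4 496 625) (node 465 (merge (leaf 6 464 497) (node 464 (merge (leaf 6 432 433) (leaf 5 463 591))))))))) (merge (node 562 (merge (node 595 (merge (leaf 0 559 561) (leaf 3 559 593))) (merge (node 561 (merge (leaf 0 559 595) (node 591 (merge (leaf 1 559 563) (leaf 1 558 590))))) (merge (node 591 (merge (node 563 (merge (leaf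 1 559 561) (leaf 2 559 593))) (merge (node 561 (merge (leaf 1 559 563) (node 590 (merge (leaf 1 558 559) (leaf 2 557 589))))) (merge (node 590 (merge (leaf 1 558 561) (node 589 (merge (leaf 2 556 588) (node 621 (merge (leaf 1 588 620) (node 593 (merge (leaf 1 589 622) (node 626 (merge (leaf 0 590 625) (leaf 0 591 627))))))))))) (node 593 (merge (leaf 2 559 563) (node 626 (merge (leaf 0 591 627) (node 590 (merge (leaf 0 590 625) (node 621 (merge (leaf 1 589 622) (node 589 (merge (leaf 2 556 588) (leaf 1 588 620))))))))))))))) (node 593 (merge (leaf 3 559 595) (node 591 (merge (leaf 2 559 563) (node 626 (merge (leaf 0 591 627) (node 590 (merge (leaf 0 590 625) (node 621 (merge (leaf 1 589 622) (node 589 (merge (leaf 2 556 588) (leaf 1 588 620))))))))))))))))) (merge (node 562 (merge (node 595 (merge (leaf 0 559 561) (leaf 3 559 593))) (merge (node 561 (merge (leaf 0 559 595) (node 591 (merge (leaf 1 559 563) (leaf 1 558 590))))) (merge (node 626 (merge (node 593 (merge (leaf 3 559 595) (node 591 (merge (leaf 2 559 563) (leaf 0 591 627))))) (merge (node 658 (merge (node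 563 (merge (leaf 6 530 531) (node 690 (merge (leaf 6 562 595) (node 691 (merge (leaf 4 562 659) (leaf 4 594 723))))))) (merge (node 563 (merge (leaf 6 530 531) (node 690 (merge (leaf 6 562 595) (node 689 (merge (leaf 5 561 657) (leaf 5 593 721))))))) (node 659 (merge (leaf 4 562 691) (node 627 (merge (leaf 4 530 530) (node 657 (merge (leaf 5 561 689) (node 656 (merge (leaf 2 624 628) (leaf 2 623 655)))))))))))) (merge (node 593 (merge (leaf 3 559 595) (node 563 (merge (leaf 2 559 591) (node 658 (merge (leaf 6 530 531) (node 691 (merge (leaf 4 562 659) (node 690 (merge (leaf 4 594 723) (node 689 (merge (leaf 5 561 657) (leaf 5 593 721))))))))))))) (merge (node 496 (merge (node 465 (merge (leaf 6 464 497) (node 464 (merge (leaf 6 432 433) (leaf 5 463 591))))) (merge (node 464 (merge (leaf 5 463 591) (node 463 (merge (leaf 7 431 431) (leaf 7 463 495))))) (merge (node 465 (merge (leaf 6 464 497) (node 464 (merge (leaf 6 432 433) (node 463 (merge (leaf 7 431 431) (leaf 7 463 495))))))) (node 497 (merge (leaf 6 464 465) (node 495 (merge (leaf 7 463 463) (node 593 (merge (leaf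 3 559 595) (node 627 (merge (leaf 0 591 591) (node 530 (merge (leaf 4 530 659) (node 531 (merge (leaf 0 495 498) (leaf 6 498 499))))))))))))))))) (node 531 (merge (node 658 (merge (leaf 6 530 563) (node 691 (merge (leaf 4 562 659) (node 690 (merge (leaf 4 594 723) (node 689 (merge (leaf 5 561 657) (leaf 5 593 721))))))))) (merge (node 530 (merge (leaf 6 498 499) (node 627 (merge (leaf 4 530 659) (node 591 (merge (leaf 0 591 593) (node 496 (merge (leaf 5 463 464) (node 497 (merge (leaf 6 464 465) (node 495 (merge (leaf 7 463 463) (leaf 0 495 498))))))))))))) (node 499 (merge (leaf 6 498 530) (node 563 (merge (leaf 5 466 467) (leaf 6 530 658))))))))))))) (node 591 (merge (node 561 (merge (leaf 1 559 563) (node 590 (merge (leaf 1 558 559) (leaf 2 557 589))))) (merge (node 590 (merge (leaf 1 558 561) (node 589 (merge (leaf 2 556 588) (node 621 (merge (leaf 1 588 620) (node 622 (merge (leaf 1 589 593) (node 654 (merge (leaf 6 558 686) (node 557 (merge (leaf 4 525 525) (leaf 3 556 556))))))))))))) (node 626 (merge (node 593 (merge (leaf 2 559 563) (leaf 0 591 627))) (merge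 (node 531 (merge (node 658 (merge (leaf 6 530 563) (node 691 (merge (leaf 4 562 659) (node 690 (merge (leaf 4 594 723) (node 689 (merge (leaf 5 561 657) (leaf 5 593 721))))))))) (node 496 (merge (leaf 5 463 464) (node 497 (merge (leaf 6 464 465) (node 495 (merge (leaf 7 463 463) (node 498 (merge (leaf 0 495 530) (node 499 (merge (leaf 0 496 532) (node 467 (merge (leaf 2 463 466) (leaf 2 464 468))))))))))))))) (node 627 (merge (leaf 0 591 593) (node 530 (merge (leaf 4 530 659) (node 499 (merge (leaf 6 498 531) (node 498 (merge (leaf 6 466 467) (node 465 (merge (leaf 7 465 497) (node 466 (merge (leaf 7 433 433) (node 464 (merge (leaf 0 463 463) (leaf 5 463 496))))))))))))))))))))))))) (merge (node 562 (merge (node 591 (merge (node 563 (merge (leaf 1 559 561) (leaf 2 559 593))) (merge (node 561 (merge (leaf 1 559 563) (node 590 (merge (leaf 1 558 559) (leaf 2 557 589))))) (merge (node 590 (merge (leaf 1 558 561) (node 589 (merge (leaf 2 556 588) (node 621 (merge (leaf 1 588 620) (node 593 (merge (leaf 1 589 622) (node 626 (merge (leaf 0 590 625) (leaf 0 591 627)))))))))))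 (node 593 (merge (leaf 2 559 563) (node 626 (merge (leaf 0 591 627) (node 590 (merge (leaf 0 590 625) (node 621 (merge (leaf 1 589 622) (node 589 (merge (leaf 2 556 588) (leaf 1 588 620))))))))))))))) (merge (node 625 (merge (node 496 (merge (leaf 4 496 593) (node 465 (merge (leaf 6 464 497) (node 464 (merge (leaf 6 432 433) (node 463 (merge (leaf 7 431 431) (leaf 7 463 495))))))))) (node 657 (merge (leaf 4 528 624) (node 626 (merge (leaf 5 529 530) (node 689 (merge (leaf 5 561 658) (leaf 6 593 721))))))))) (merge (node 591 (merge (node 561 (merge (leaf 1 559 563) (node 590 (merge (leaf 1 558 559) (leaf 2 557 589))))) (merge (node 496 (merge (leaf 5 463 464) (node 593 (merge (leaf 2 559 563) (leaf 4 496 625))))) (node 590 (merge (leaf 1 558 561) (node 589 (merge (leaf 2 556 588) (node 621 (merge (leaf 1 588 620) (node 622 (merge (leaf 1 589 593) (node 654 (merge (leaf 6 558 686) (node 557 (merge (leaf 4 525 525) (leaf 3 556 556)))))))))))))))) (merge (node 591 (merge (node 561 (merge (leaf 1 559 563) (node 590 (merge (leaf 1 558 559) (leaf 2 557 589))))) (merge (node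 590 (merge (leaf 1 558 561) (node 589 (merge (leaf 2 556 588) (node 621 (merge (leaf 1 588 620) (node 622 (merge (leaf 1 589 593) (node 654 (merge (leaf 6 558 686) (node 557 (merge (leaf 4 525 525) (leaf 3 556 556))))))))))))) (node 626 (merge (node 593 (merge (leaf 2 559 563) (leaf 0 591 627))) (merge (node 531 (merge (node 658 (merge (leaf 6 530 563) (node 691 (merge (leaf 4 562 659) (node 690 (merge (leaf 4 594 723) (node 689 (merge (leaf 5 561 657) (leaf 5 593 721))))))))) (node 496 (merge (leaf 5 463 464) (node 497 (merge (leaf 6 464 465) (node 495 (merge (leaf 7 463 463) (node 498 (merge (leaf 0 495 530) (node 499 (merge (leaf 0 496 532) (node 467 (merge (leaf 2 463 466) (leaf 2 464 468))))))))))))))) (node 627 (merge (leaf 0 591 593) (node 530 (merge (leaf 4 530 659) (node 499 (merge (leaf 6 498 531) (node 498 (merge (leaf 6 466 467) (node 465 (merge (leaf 7 465 497) (node 466 (merge (leaf 7 433 433) (node 464 (merge (leaf 0 463 463) (leaf 5 463 496))))))))))))))))))))) (node 465 (merge (node 496 (merge (leaf 6 464 497) (node 464 (merge (leaf 6 432 433) (node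 463 (merge (leaf 7 431 431) (leaf 7 463 495))))))) (merge (node 530 (merge (node 561 (merge (leaf 2 527 531) (node 591 (merge (leaf 1 559 563) (leaf 1 558 590))))) (node 498 (merge (leaf 7 465 497) (node 467 (merge (leaf 6 466 499) (node 466 (merge (leaf 7 433 433) (leaf 6 434 435))))))))) (node 657 (merge (node 625 (merge (leaf 4 528 624) (node 626 (merge (leaf 5 529 530) (node 689 (merge (leaf 5 561 658) (leaf 6 593 721))))))) (merge (node 624 (merge (leaf 4 528 625) (node 656 (merge (leaf 4 560 689) (node 688 (merge (leaf 7 559 591) (node 687 (merge (leaf 5 559 655) (leaf 5 591 719))))))))) (merge (node 625 (merge (leaf 4 528 624) (node 530 (merge (leaf 5 529 626) (node 561 (merge (leaf 2 527 531) (node 591 (merge (leaf 1 559 563) (leaf 1 558 590))))))))) (merge (node 561 (merge (node 591 (merge (leaf 1 559 563) (leaf 1 558 590))) (node 530 (merge (leaf 2 527 531) (node 626 (merge (leaf 5 529 625) (node 659 (merge (leaf 4 530 627) (node 658 (merge (leaf 5 561 689) (leaf 4 562 691))))))))))) (node 658 (merge (node 626 (merge (leaf 5 561 689) (node 531 (merge (leaf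 6 530 563) (node 530 (merge (leaf 6 498 499) (leaf 2 527 561))))))) (merge (node 626 (merge (leaf 5 561 689) (node 659 (merge (leaf 4 562 691) (node 627 (merge (leaf 4 530 530) (node 656 (merge (leaf 2 624 628) (leaf 2 623 655))))))))) (merge (node 531 (merge (node 561 (merge (leaf 2 527 530) (node 591 (merge (leaf 1 559 563) (leaf 1 558 590))))) (merge (node 530 (merge (leaf 2 527 561) (node 626 (merge (leaf 6 498 499) (node 659 (merge (leaf 4 530 627) (leaf 4 562 691))))))) (merge (node 626 (merge (leaf 6 530 563) (node 530 (merge (leaf 6 498 499) (node 659 (merge (leaf 4 530 627) (leaf 4 562 691))))))) (node 563 (merge (leaf 6 530 626) (node 561 (merge (leaf 2 528 532) (leaf 1 559 591))))))))) (node 656 (merge (node 624 (merge (leaf 4 560 689) (node 591 (merge (leaf 7 559 688) (node 561 (merge (leaf 1 559 563) (leaf 1 558 590))))))) (merge (node 687 (merge (node 655 (merge (leaf 5 559 624) (leaf 1 654 686))) (node 659 (merge (leaf 1 655 688) (node 692 (merge (leaf 0 656 691) (node 660 (merge (leaf 0 657 693) (node 628 (merge (leaf 2 624 627) (leaf 2 625 629)))))))))))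 (merge (node 659 (merge (node 691 (merge (leaf 0 656 692) (node 655 (merge (leaf 0 655 690) (node 687 (merge (leaf 1 654 686) (leaf 1 655 688))))))) (merge (node 692 (merge (leaf 0 656 691) (node 660 (merge (leaf 0 657 693) (node 628 (merge (leaf 2 624 627) (leaf 2 625 629))))))) (merge (node 628 (merge (leaf 2 624 627) (node 660 (merge (leaf 2 625 629) (node 689 (merge (leaf 1 656 688) (node 690 (merge (leaf 1 657 661) (node 655 (merge (leaf 0 654 654) (leaf 0 655 691))))))))))) (node 628 (merge (leaf 2 624 627) (node 660 (merge (leaf 2 625 629) (node 693 (merge (leaf 0 657 692) (node 661 (merge (leaf 0 658 694) (node 689 (merge (leaf 1 656 688) (leaf 1 657 690))))))))))))))) (node 659 (merge (node 691 (merge (leaf 0 656 692) (node 655 (merge (leaf 0 655 690) (node 624 (merge (leaf 5 559 687) (leaf 4 560 689))))))) (merge (node 692 (merge (leaf 0 656 691) (node 660 (merge (leaf 0 657 693) (node 628 (merge (leaf 2 624 627) (leaf 2 625 629))))))) (merge (node 628 (merge (leaf 2 624 627) (node 660 (merge (leaf 2 625 629) (node 689 (merge (leaf 4 560 624) (node 690 (merge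 (leaf 1 657 661) (node 655 (merge (leaf 0 654 654) (leaf 0 655 691))))))))))) (node 628 (merge (leaf 2 624 627) (node 660 (merge (leaf 2 625 629) (node 693 (merge (leaf 0 657 692) (node 661 (merge (leaf 0 658 694) (node 689 (merge (leaf 4 560 624) (leaf 1 657 690)))))))))))))))))))))))))))))))))))) (node 657 (merge (node 624 (merge (leaf 4 528 625) (node 656 (merge (leaf 4 560 689) (node 688 (merge (leaf 7 559 591) (node 687 (merge (leaf 5 559 655) (leaf 5 591 719))))))))) (merge (node 562 (merge (node 561 (merge (leaf 0 559 595) (node 591 (merge (leaf 1 559 563) (leaf 1 558 590))))) (node 625 (merge (leaf 4 528 624) (node 626 (merge (leaf 5 529 530) (node 689 (merge (leaf 5 561 658) (leaf 6 593 721))))))))) (merge (node 562 (merge (node 561 (merge (leaf 0 559 595) (node 591 (merge (leaf 1 559 563) (leaf 1 558 590))))) (merge (node 561 (merge (leaf 0 559 595) (node 530 (merge (leaf 2 527 531) (node 626 (merge (leaf 5 529 625) (node 659 (merge (leaf 4 530 627) (node 658 (merge (leaf 5 561 689) (leaf 4 562 691))))))))))) (merge (node 561 (merge (node 591 (merge (leaf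 1 559 563) (leaf 1 558 590))) (node 530 (merge (leaf 2 527 531) (node 626 (merge (leaf 5 529 625) (node 659 (merge (leaf 4 530 627) (node 658 (merge (leaf 5 561 689) (leaf 4 562 691))))))))))) (node 626 (merge (node 531 (merge (node 530 (merge (leaf 6 498 499) (leaf 5 529 625))) (node 658 (merge (leaf 6 530 563) (leaf 5 561 689))))) (merge (node 658 (merge (leaf 5 561 689) (node 659 (merge (leaf 4 562 691) (node 627 (merge (leaf 4 530 530) (node 656 (merge (leaf 2 624 628) (leaf 2 623 655))))))))) (merge (node 658 (merge (leaf 5 561 689) (node 563 (merge (leaf 6 530 531) (node 690 (merge (leaf 6 562 595) (node 691 (merge (leaf 4 562 659) (leaf 4 594 723))))))))) (node 530 (merge (leaf 5 529 625) (node 499 (merge (leaf 6 498 531) (node 498 (merge (leaf 6 466 467) (node 627 (merge (leaf 4 498 595) (leaf 4 530 659))))))))))))))))) (merge (hyp 0) (merge (hyp 1) (hyp 2))))))))))))) nP_181 cP_181 16 (by decide +kernel)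
def nP_182 : ℕ := 0x10000000180000001200000000000000000000000000000000000000000000000000000000000000000000000000000000000000000000000000000000000000000000000000000000000
def cP_182 : ℕ := 0x400000007000000370000003fc0000037c000000fc0000027800000010000003f0000003f0000002f00000005000000000000000000000000000000000000000000000000000000000000000000000000000000000000000000000000000
theorem lP_182 : S nP_182 cP_182 13 := S_of_chk [] trivial (node 557 (merge (node 558 (merge (leaf 3 524 524) (node 588 (merge (leaf 1 556 589) (node 556 (merge (leaf 1 555 587) (leaf 0 556 591))))))) (merge (node 558 (merge (leaf 3 524 524) (node 589 (merge (leaf 1 556 588) (node 590 (merge (leaf 1 557 561) (node 622 (merge (leaf 4 493 493) (leaf 7 525 654))))))))) (merge (node 493 (merge (node 496 (merge (node 524 (merge (leaf 3 524 558) (node 495 (merge (leaf 7 463 463) (leaf 1 492 494))))) (node 465 (merge (leaf 6 464 497) (node 464 (merge (leaf 6 432 433) (leaf 5 463 591))))))) (merge (node 496 (merge (node 465 (merge (leaf 6 464 497) (node 464 (merge (leaf 6 432 433) (leaf 5 463 591)))))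 (merge (node 464 (merge (leaf 5 463 591) (node 463 (merge (leaf 7 431 431) (leaf 7 463 495))))) (node 495 (merge (leaf 7 463 463) (node 494 (merge (leaf 1 492 524) (node 461 (merge (leaf 3 460 460) (node 462 (merge (leaf 6 429 430) (leaf 3 461 497)))))))))))) (merge (node 461 (merge (node 430 (merge (leaf 6 429 462) (node 429 (merge (leaf 6 397 398) (node 428 (merge (leaf 7 396 396) (leaf 7 428 460))))))) (merge (node 558 (merge (leaf 4 461 590) (node 556 (merge (leaf 5 460 588) (leaf 0 556 591))))) (node 558 (merge (leaf 4 461 590) (node 556 (merge (leaf 5 460 588) (leaf 0 556 591)))))))) (node 558 (merge (leaf 3 524 524) (node 461 (merge (leaf 4 461 590) (node 430 (merge (leaf 6 429 462) (node 429 (merge (leaf 6 397 398) (node 428 (merge (leaf 7 396 396) (leaf 7 428 460))))))))))))))) (merge (node 589 (merge (node 558 (merge (leaf 1 556 588) (node 590 (merge (leaf 1 557 561) (node 622 (merge (leaf 4 493 493) (leaf 7 525 654))))))) (merge (node 591 (merge (node 590 (merge (leaf 3 556 556) (leaf 2 556 588))) (merge (node 558 (merge (leaf 0 556 556) (leaf 1 556 588)))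 (merge (node 556 (merge (leaf 0 556 558) (leaf 3 556 590))) (node 588 (merge (leaf 1 556 558) (leaf 2 556 590))))))) (merge (node 590 (merge (node 591 (merge (leaf 3 556 556) (leaf 2 557 561))) (node 622 (merge (leaf 4 493 493) (node 654 (merge (leaf 7 525 558) (leaf 4 525 621))))))) (merge (node 588 (merge (leaf 1 556 558) (node 493 (merge (leaf 5 492 620) (node 492 (merge (leaf 7 460 460) (node 461 (merge (leaf 5 460 556) (node 462 (merge (leaf 6 429 430) (node 464 (merge (leaf 1 460 463) (node 496 (merge (leaf 5 463 591) (node 465 (merge (leaf 6 432 433) (leaf 6 464 497))))))))))))))))) (node 590 (merge (node 591 (merge (leaf 2 557 561) (leaf 2 556 588))) (merge (node 591 (merge (leaf 3 556 556) (leaf 2 557 561))) (node 463 (merge (node 496 (merge (leaf 7 463 495) (node 465 (merge (leaf 6 464 497) (node 464 (merge (leaf 7 431 431) (leaf 6 432 433))))))) (merge (node 493 (merge (leaf 4 493 622) (node 462 (merge (leaf 6 461 494) (node 461 (merge (leaf 6 429 430) (node 492 (merge (leaf 7 460 460) (leaf 1 460 464))))))))) (node 493 (merge (leaf 4 493 622) (node 462 (merge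 (leaf 6 461 494) (node 461 (merge (leaf 6 429 430) (node 588 (merge (leaf 5 460 556) (leaf 5 492 620)))))))))))))))))))) (merge (node 589 (merge (node 558 (merge (leaf 3 524 524) (node 590 (merge (leaf 1 557 561) (node 622 (merge (leaf 4 493 493) (leaf 7 525 654))))))) (merge (node 524 (merge (leaf 3 524 558) (node 621 (merge (leaf 7 492 492) (node 653 (merge (leaf 7 524 556) (node 652 (merge (leaf 5 524 620) (leaf 5 556 684))))))))) (merge (node 590 (merge (node 591 (merge (leaf 3 556 556) (leaf 2 557 561))) (node 622 (merge (leaf 4 493 493) (node 654 (merge (leaf 7 525 558) (leaf 4 525 621))))))) (node 621 (merge (node 524 (merge (leaf 7 492 492) (node 653 (merge (leaf 7 524 556) (node 654 (merge (leaf 4 525 622) (leaf 4 557 686))))))) (merge (node 524 (merge (leaf 7 492 492) (node 653 (merge (leaf 7 524 556) (node 652 (merge (leaf 5 524 620) (leaf 5 556 684))))))) (merge (node 622 (merge (leaf 4 525 654) (node 493 (merge (leaf 4 493 590) (node 462 (merge (leaf 6 461 494) (node 461 (merge (leaf 6 429 430) (node 460 (merge (leaf 7 428 428) (leaf 7 460 492)))))))))))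 (node 654 (merge (leaf 4 525 622) (node 653 (merge (leaf 4 557 686) (node 620 (merge (leaf 5 524 652) (node 591 (merge (leaf 1 588 590) (node 656 (merge (leaf 3 620 655) (node 624 (merge (leaf 7 559 688) (node 657 (merge (leaf 4 528 625) (leaf 4 560 689))))))))))))))))))))))) (node 589 (merge (node 590 (merge (node 591 (merge (leaf 2 557 561) (leaf 2 556 588))) (merge (node 493 (merge (leaf 4 493 622) (node 492 (merge (leaf 7 460 460) (node 621 (merge (leaf 7 492 524) (node 620 (merge (leaf 5 492 588) (leaf 5 524 652))))))))) (node 493 (merge (leaf 4 493 622) (node 492 (merge (leaf 7 460 460) (node 621 (merge (leaf 7 492 524) (node 620 (merge (leaf 1 588 591) (leaf 5 524 652)))))))))))) (merge (node 620 (merge (node 652 (merge (leaf 5 524 621) (node 588 (merge (leaf 6 524 556) (leaf 6 556 684))))) (merge (node 493 (merge (leaf 5 492 588) (node 462 (merge (leaf 6 461 494) (node 461 (merge (leaf 6 429 430) (node 460 (merge (leaf 7 428 428) (leaf 7 460 492))))))))) (node 621 (merge (leaf 5 524 652) (node 524 (merge (leaf 7 492 492) (node 653 (merge (leaf 7 524 556) (node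 654 (merge (leaf 4 525 622) (leaf 4 557 686)))))))))))) (merge (node 590 (merge (node 591 (merge (leaf 2 557 561) (leaf 2 556 588))) (merge (node 591 (merge (leaf 3 556 556) (leaf 2 557 561))) (node 463 (merge (node 496 (merge (leaf 7 463 495) (node 465 (merge (leaf 6 464 497) (node 464 (merge (leaf 7 431 431) (leaf 6 432 433))))))) (merge (node 493 (merge (leaf 4 493 622) (node 462 (merge (leaf 6 461 494) (node 461 (merge (leaf 6 429 430) (node 492 (merge (leaf 7 460 460) (leaf 1 460 464))))))))) (node 493 (merge (leaf 4 493 622) (node 462 (merge (leaf 6 461 494) (node 461 (merge (leaf 6 429 430) (node 588 (merge (leaf 5 460 556) (leaf 5 492 620))))))))))))))) (merge (node 621 (merge (node 524 (merge (leaf 7 492 492) (node 653 (merge (leaf 7 524 556) (node 654 (merge (leaf 4 525 622) (leaf 4 557 686))))))) (merge (node 524 (merge (leaf 7 492 492) (node 653 (merge (leaf 7 524 556) (node 652 (merge (leaf 5 524 620) (leaf 5 556 684))))))) (merge (node 622 (merge (leaf 4 525 654) (node 493 (merge (leaf 4 493 590) (node 462 (merge (leaf 6 461 494) (node 461 (merge (leaf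 6 429 430) (node 460 (merge (leaf 7 428 428) (leaf 7 460 492))))))))))) (node 654 (merge (leaf 4 525 622) (node 653 (merge (leaf 4 557 686) (node 620 (merge (leaf 5 524 652) (node 591 (merge (leaf 1 588 590) (node 656 (merge (leaf 3 620 655) (node 624 (merge (leaf 7 559 688) (node 657 (merge (leaf 4 528 625) (leaf 4 560 689))))))))))))))))))) (merge (node 620 (merge (node 652 (merge (leaf 5 524 621) (node 588 (merge (leaf 6 524 556) (leaf 6 556 684))))) (merge (node 493 (merge (leaf 5 492 588) (node 462 (merge (leaf 6 461 494) (node 461 (merge (leaf 6 429 430) (node 460 (merge (leaf 7 428 428) (leaf 7 460 492))))))))) (node 621 (merge (leaf 5 524 652) (node 524 (merge (leaf 7 492 492) (node 653 (merge (leaf 7 524 556) (node 591 (merge (leaf 1 588 590) (node 654 (merge (leaf 4 557 686) (node 656 (merge (leaf 3 620 655) (node 624 (merge (leaf 7 559 688) (node 657 (merge (leaf 4 528 625) (leaf 4 560 689)))))))))))))))))))) (merge (node 621 (merge (node 620 (merge (leaf 5 524 652) (node 590 (merge (leaf 1 588 591) (node 493 (merge (leaf 5 492 588) (leaf 4 493 622)))))))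 (merge (node 622 (merge (leaf 4 525 654) (node 493 (merge (leaf 4 493 590) (node 462 (merge (leaf 6 461 494) (node 461 (merge (leaf 6 429 430) (node 556 (merge (leaf 5 460 588) (node 524 (merge (leaf 5 428 429) (leaf 7 524 653))))))))))))) (merge (node 620 (merge (leaf 5 524 652) (node 591 (merge (leaf 1 588 590) (node 496 (merge (leaf 5 463 464) (node 495 (merge (leaf 7 463 463) (node 493 (merge (leaf 5 492 588) (node 494 (merge (leaf 6 461 462) (leaf 1 492 524))))))))))))) (merge (node 654 (merge (leaf 4 525 622) (node 653 (merge (leaf 4 557 686) (node 620 (merge (leaf 5 524 652) (node 591 (merge (leaf 1 588 590) (node 656 (merge (leaf 3 620 655) (node 624 (merge (leaf 7 559 688) (node 657 (merge (leaf 4 528 625) (leaf 4 560 689))))))))))))))) (node 654 (merge (leaf 4 525 622) (node 653 (merge (leaf 4 557 686) (node 524 (merge (leaf 7 524 556) (node 620 (merge (leaf 5 524 652) (node 493 (merge (leaf 5 492 588) (node 494 (merge (leaf 6 461 462) (node 496 (merge (leaf 1 492 495) (node 465 (merge (leaf 6 464 497) (node 464 (merge (leaf 6 432 433) (leaf 5 463 591))))))))))))))))))))))))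 (merge (node 621 (merge (node 524 (merge (leaf 7 492 492) (node 653 (merge (leaf 7 524 556) (node 654 (merge (leaf 4 525 622) (leaf 4 557 686))))))) (merge (node 524 (merge (leaf 7 492 492) (node 653 (merge (leaf 7 524 556) (node 652 (merge (leaf 5 524 620) (leaf 5 556 684))))))) (merge (node 654 (merge (leaf 4 525 622) (node 653 (merge (leaf 4 557 686) (node 620 (merge (leaf 5 524 652) (node 591 (merge (leaf 1 588 590) (node 656 (merge (leaf 3 620 655) (node 624 (merge (leaf 7 559 688) (node 657 (merge (leaf 4 528 625) (leaf 4 560 689))))))))))))))) (node 524 (merge (leaf 7 492 492) (node 622 (merge (leaf 4 525 654) (node 620 (merge (leaf 5 524 652) (node 590 (merge (leaf 1 588 591) (node 619 (merge (leaf 2 586 618) (node 651 (merge (leaf 1 618 650) (node 587 (merge (leaf 3 586 586) (node 556 (merge (leaf 6 523 555) (leaf 5 523 588))))))))))))))))))))) (node 621 (merge (node 524 (merge (leaf 7 492 492) (node 622 (merge (leaf 4 525 654) (node 493 (merge (leaf 4 493 590) (node 494 (merge (leaf 6 461 462) (node 496 (merge (leaf 1 492 495) (node 465 (merge (leaf 6 464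 497) (node 464 (merge (leaf 6 432 433) (leaf 5 463 591))))))))))))))) (merge (node 524 (merge (leaf 7 492 492) (node 653 (merge (leaf 7 524 556) (node 686 (merge (leaf 4 557 654) (node 685 (merge (leaf 4 589 718) (node 684 (merge (leaf 5 556 652) (leaf 5 588 716))))))))))) (merge (node 524 (merge (leaf 7 492 492) (node 653 (merge (leaf 7 524 556) (node 684 (merge (leaf 5 556 652) (node 685 (merge (leaf 5 588 716) (node 718 (merge (leaf 4 589 686) (node 717 (merge (leaf 4 621 750) (node 590 (merge (leaf 6 589 622) (node 591 (merge (leaf 2 557 561) (leaf 2 556 588))))))))))))))))) (merge (node 622 (merge (leaf 4 525 654) (node 493 (merge (leaf 4 493 590) (node 462 (merge (leaf 6 461 494) (node 461 (merge (leaf 6 429 430) (node 556 (merge (leaf 5 460 588) (node 524 (merge (leaf 5 428 429) (leaf 7 524 653))))))))))))) (node 622 (merge (leaf 4 525 654) (node 590 (merge (leaf 4 493 493) (node 591 (merge (leaf 3 556 556) (leaf 2 556 588)))))))))))))))))))))))))) nP_182 cP_182 13 (by decide +kernel)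
def nP_183 : ℕ := 0x10000000180000001200000012000000000000000000000000000000000000000000000000000000000000000000000000000000000000000000000000000000000000000000000000000
def cP_183 : ℕ := 0x20000007e0000007e0000027f0000005e0000025e000003de0000029e0000001c00000000000000000000000000000000000000000000000000000000000000000000000000000000000000000000000000
theorem lP_183 : S nP_183 cP_183 13 := S_of_chk [] trivial (node 524 (merge (node 558 (merge (leaf 3 524 557) (node 526 (merge (leaf 0 523 523) (leaf 3 525 561))))) (merge (node 492 (merge (node 557 (merge (leaf 3 524 558) (node 589 (merge (leaf 7 460 460) (leaf 7 492 621))))) (merge (node 491 (merge (node 490 (merge (leaf 0 489 489) (leaf 0 490 526))) (node 465 (merge (leaf 6 464 497) (node 464 (merge (leaf 6 432 433) (node 463 (merge (leaf 7 431 431) (node 494 (merge (leaf 1 461 462) (node 459 (merge (leaf 3 458 458) (node 556 (merge (leaf 7 459 588) (node 427 (merge (leaf 4 395 395) (leaf 7 427 460))))))))))))))))) (node 464 (merge (node 465 (merge (leaf 6 432 433) (leaf 6 464 497))) (node 463 (merge (leaf 7 431 431)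 (node 558 (merge (leaf 3 524 557) (node 526 (merge (leaf 3 525 561) (node 491 (merge (leaf 0 490 490) (node 590 (merge (leaf 7 493 622) (node 494 (merge (leaf 2 459 462) (node 589 (merge (leaf 5 493 621) (node 588 (merge (leaf 2 555 587) (node 556 (merge (leaf 7 459 459) (leaf 6 492 620)))))))))))))))))))))))) (merge (node 492 (merge (node 557 (merge (leaf 3 524 558) (node 589 (merge (leaf 7 460 460) (leaf 7 492 621))))) (merge (node 491 (merge (node 465 (merge (leaf 6 464 497) (node 464 (merge (leaf 6 432 433) (node 463 (merge (leaf 7 431 431) (node 494 (merge (leaf 1 461 462) (node 459 (merge (leaf 3 458 458) (node 556 (merge (leaf 7 459 588) (node 427 (merge (leaf 4 395 395) (leaf 7 427 460))))))))))))))) (merge (node 490 (merge (leaf 0 489 489) (node 522 (merge (leaf 1 489 521) (node 523 (merge (leaf 1 490 494) (node 554 (merge (leaf 1 521 553) (node 586 (merge (leaf 6 458 459) (leaf 6 490 618))))))))))) (merge (node 490 (merge (leaf 0 489 489) (node 522 (merge (leaf 1 489 521) (node 523 (merge (leaf 1 490 494) (node 458 (merge (leaf 3 457 457) (node 555 (merge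 (leaf 4 426 426) (leaf 7 458 587))))))))))) (node 427 (merge (node 459 (merge (leaf 4 395 395) (node 556 (merge (leaf 7 427 460) (leaf 4 427 523))))) (merge (node 490 (merge (leaf 0 489 489) (node 522 (merge (leaf 1 489 521) (node 458 (merge (leaf 3 457 457) (node 554 (merge (leaf 6 426 459) (node 553 (merge (leaf 1 521 523) (leaf 5 457 585))))))))))) (merge (node 490 (merge (leaf 0 489 489) (node 522 (merge (leaf 1 489 521) (node 458 (merge (leaf 3 457 457) (node 395 (merge (leaf 6 394 426) (leaf 4 395 459))))))))) (node 490 (merge (leaf 0 489 489) (node 522 (merge (leaf 1 489 521) (node 458 (merge (leaf 3 457 457) (node 426 (merge (leaf 6 394 395) (node 523 (merge (leaf 4 394 394) (leaf 4 426 555))))))))))))))))))) (node 491 (merge (node 465 (merge (leaf 6 464 497) (node 464 (merge (leaf 6 432 433) (node 463 (merge (leaf 7 431 431) (node 494 (merge (leaf 1 461 462) (node 459 (merge (leaf 3 458 458) (node 556 (merge (leaf 7 459 588) (node 427 (merge (leaf 4 395 395) (leaf 4 427 523))))))))))))))) (merge (node 557 (merge (leaf 3 524 558) (node 589 (merge (leaf 7 492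 621) (node 590 (merge (leaf 4 493 622) (node 588 (merge (leaf 5 492 620) (node 556 (merge (leaf 7 459 459) (node 554 (merge (leaf 0 554 555) (node 587 (merge (leaf 5 491 619) (node 586 (merge (leaf 3 553 553) (leaf 2 553 585))))))))))))))))) (node 490 (merge (leaf 0 489 489) (node 522 (merge (leaf 1 489 521) (node 523 (merge (leaf 1 490 494) (node 458 (merge (leaf 3 457 457) (node 555 (merge (leaf 4 426 426) (leaf 7 458 587))))))))))))))))) (merge (node 492 (merge (node 523 (merge (node 522 (merge (leaf 2 490 494) (leaf 2 489 521))) (node 526 (merge (leaf 0 523 558) (node 491 (merge (leaf 0 490 490) (node 555 (merge (leaf 1 522 554) (node 587 (merge (leaf 6 459 460) (leaf 6 491 619))))))))))) (merge (node 491 (merge (node 490 (merge (leaf 0 489 489) (leaf 0 490 526))) (node 465 (merge (leaf 6 464 497) (node 464 (merge (leaf 6 432 433) (node 463 (merge (leaf 7 431 431) (node 494 (merge (leaf 1 461 462) (node 459 (merge (leaf 3 458 458) (node 556 (merge (leaf 7 459 588) (node 427 (merge (leaf 4 395 395) (leaf 4 427 523))))))))))))))))) (merge (node 491 (merge (node 490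 (merge (leaf 0 489 489) (leaf 0 490 526))) (node 465 (merge (leaf 6 464 497) (node 464 (merge (leaf 6 432 433) (node 463 (merge (leaf 7 431 431) (node 494 (merge (leaf 1 461 462) (node 459 (merge (leaf 3 458 458) (node 556 (merge (leaf 7 459 588) (node 427 (merge (leaf 4 395 395) (leaf 7 427 460))))))))))))))))) (merge (node 465 (merge (leaf 6 464 497) (node 464 (merge (leaf 6 432 433) (node 463 (merge (leaf 7 431 431) (node 494 (merge (leaf 1 461 462) (node 523 (merge (leaf 2 490 522) (node 526 (merge (leaf 0 523 558) (node 555 (merge (leaf 1 522 554) (node 587 (merge (leaf 6 491 619) (node 460 (merge (leaf 5 427 428) (leaf 5 459 556))))))))))))))))))) (merge (node 523 (merge (node 526 (merge (leaf 0 523 558) (node 490 (merge (leaf 0 490 491) (node 522 (merge (leaf 3 489 489) (leaf 2 489 521))))))) (merge (node 526 (merge (leaf 0 523 558) (node 491 (merge (leaf 0 490 490) (node 555 (merge (leaf 1 522 554) (node 587 (merge (leaf 6 459 460) (leaf 6 491 619))))))))) (merge (node 522 (merge (leaf 2 489 521) (node 554 (merge (leaf 1 521 553) (node 555 (merge (leaf 1 522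 526) (node 587 (merge (leaf 6 491 619) (node 460 (merge (leaf 5 427 428) (leaf 5 459 556))))))))))) (node 587 (merge (node 555 (merge (leaf 6 491 619) (node 460 (merge (leaf 5 427 428) (leaf 5 459 556))))) (merge (node 522 (merge (leaf 2 489 521) (node 554 (merge (leaf 1 521 553) (node 490 (merge (leaf 3 489 489) (node 458 (merge (leaf 4 458 555) (node 457 (merge (leaf 7 425 425) (leaf 3 457 491))))))))))) (node 522 (merge (leaf 2 489 521) (node 554 (merge (leaf 1 521 553) (node 490 (merge (leaf 3 489 489) (node 586 (merge (leaf 4 490 619) (node 618 (merge (leaf 6 490 491) (node 617 (merge (leaf 5 489 585) (leaf 5 521 649)))))))))))))))))))) (node 491 (merge (node 465 (merge (leaf 6 464 497) (node 464 (merge (leaf 6 432 433) (node 463 (merge (leaf 7 431 431) (node 494 (merge (leaf 1 461 462) (node 459 (merge (leaf 3 458 458) (node 556 (merge (leaf 7 459 588) (node 427 (merge (leaf 4 395 395) (leaf 7 427 460))))))))))))))) (merge (node 490 (merge (leaf 0 489 489) (node 522 (merge (leaf 1 489 521) (node 523 (merge (leaf 1 490 494) (node 554 (merge (leaf 1 521 553) (node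 586 (merge (leaf 6 458 459) (leaf 6 490 618))))))))))) (merge (node 490 (merge (leaf 0 489 489) (node 522 (merge (leaf 1 489 521) (node 523 (merge (leaf 1 490 494) (node 458 (merge (leaf 3 457 457) (node 555 (merge (leaf 4 426 426) (leaf 7 458 587))))))))))) (node 427 (merge (node 459 (merge (leaf 4 395 395) (node 556 (merge (leaf 7 427 460) (leaf 4 427 523))))) (merge (node 490 (merge (leaf 0 489 489) (node 522 (merge (leaf 1 489 521) (node 458 (merge (leaf 3 457 457) (node 554 (merge (leaf 6 426 459) (node 553 (merge (leaf 1 521 523) (leaf 5 457 585))))))))))) (merge (node 490 (merge (leaf 0 489 489) (node 522 (merge (leaf 1 489 521) (node 458 (merge (leaf 3 457 457) (node 395 (merge (leaf 6 394 426) (leaf 4 395 459))))))))) (node 490 (merge (leaf 0 489 489) (node 522 (merge (leaf 1 489 521) (node 458 (merge (leaf 3 457 457) (node 426 (merge (leaf 6 394 395) (node 523 (merge (leaf 4 394 394) (leaf 4 426 555))))))))))))))))))))))))) (node 492 (merge (node 523 (merge (node 522 (merge (leaf 2 490 494) (leaf 2 489 521))) (node 464 (merge (node 465 (merge (leaf 6 432 433)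 (leaf 6 464 497))) (node 555 (merge (node 587 (merge (leaf 6 491 619) (node 460 (merge (leaf 5 427 428) (leaf 6 459 491))))) (merge (node 554 (merge (leaf 1 522 526) (node 553 (merge (leaf 2 520 552) (leaf 2 521 556))))) (node 554 (merge (leaf 1 522 526) (node 553 (merge (leaf 2 520 552) (leaf 2 521 556)))))))))))) (merge (node 491 (merge (node 490 (merge (leaf 0 489 489) (leaf 0 490 526))) (node 465 (merge (leaf 6 464 497) (node 464 (merge (leaf 6 432 433) (node 463 (merge (leaf 7 431 431) (node 494 (merge (leaf 1 461 462) (node 459 (merge (leaf 3 458 458) (node 556 (merge (leaf 7 459 588) (node 427 (merge (leaf 4 395 395) (leaf 4 427 523))))))))))))))))) (merge (node 491 (merge (node 490 (merge (leaf 0 489 489) (leaf 0 490 526))) (node 465 (merge (leaf 6 464 497) (node 464 (merge (leaf 6 432 433) (node 463 (merge (leaf 7 431 431) (node 494 (merge (leaf 1 461 462) (node 459 (merge (leaf 3 458 458) (node 556 (merge (leaf 7 459 588) (node 427 (merge (leaf 4 395 395) (leaf 7 427 460))))))))))))))))) (merge (node 460 (merge (node 557 (merge (leaf 4 428 428) (leaf 7 460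 589))) (merge (node 428 (merge (leaf 4 396 396) (node 523 (merge (leaf 5 427 555) (node 522 (merge (leaf 2 490 494) (leaf 2 489 521))))))) (node 556 (merge (node 588 (merge (leaf 6 492 620) (node 589 (merge (leaf 7 460 557) (leaf 4 492 621))))) (merge (node 588 (merge (leaf 6 492 620) (node 589 (merge (leaf 4 492 621) (node 460 (merge (leaf 7 460 557) (node 587 (merge (leaf 5 459 555) (leaf 5 491 619))))))))) (merge (node 557 (merge (leaf 7 460 589) (node 555 (merge (leaf 5 459 587) (node 554 (merge (leaf 2 522 526) (leaf 2 521 553))))))) (node 555 (merge (leaf 5 459 587) (node 554 (merge (leaf 2 521 553) (node 523 (merge (leaf 1 522 526) (node 522 (merge (leaf 2 490 494) (leaf 2 489 521)))))))))))))))) (merge (node 491 (merge (node 490 (merge (leaf 0 489 489) (leaf 0 490 526))) (node 465 (merge (leaf 6 464 497) (node 464 (merge (leaf 6 432 433) (node 463 (merge (leaf 7 431 431) (node 494 (merge (leaf 1 461 462) (node 523 (merge (leaf 1 490 522) (node 459 (merge (leaf 3 458 458) (node 427 (merge (leaf 4 395 395) (node 428 (merge (leaf 6 395 396) (node 460 (merge (leaf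 6 427 555) (leaf 4 428 557))))))))))))))))))))) (merge (node 491 (merge (node 465 (merge (leaf 6 464 497) (node 464 (merge (leaf 6 432 433) (node 463 (merge (leaf 7 431 431) (node 494 (merge (leaf 1 461 462) (node 459 (merge (leaf 3 458 458) (node 556 (merge (leaf 7 459 588) (node 427 (merge (leaf 4 395 395) (leaf 7 427 460))))))))))))))) (merge (node 490 (merge (leaf 0 489 489) (node 522 (merge (leaf 1 489 521) (node 523 (merge (leaf 1 490 494) (node 554 (merge (leaf 1 521 553) (node 586 (merge (leaf 6 458 459) (leaf 6 490 618))))))))))) (merge (node 490 (merge (leaf 0 489 489) (node 522 (merge (leaf 1 489 521) (node 523 (merge (leaf 1 490 494) (node 458 (merge (leaf 3 457 457) (node 555 (merge (leaf 4 426 426) (leaf 7 458 587))))))))))) (node 427 (merge (node 459 (merge (leaf 4 395 395) (node 556 (merge (leaf 7 427 460) (leaf 4 427 523))))) (merge (node 490 (merge (leaf 0 489 489) (node 522 (merge (leaf 1 489 521) (node 458 (merge (leaf 3 457 457) (node 554 (merge (leaf 6 426 459) (node 553 (merge (leaf 1 521 523) (leaf 5 457 585))))))))))) (merge (node 490 (merge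 (leaf 0 489 489) (node 522 (merge (leaf 1 489 521) (node 458 (merge (leaf 3 457 457) (node 395 (merge (leaf 6 394 426) (leaf 4 395 459))))))))) (node 490 (merge (leaf 0 489 489) (node 522 (merge (leaf 1 489 521) (node 458 (merge (leaf 3 457 457) (node 426 (merge (leaf 6 394 395) (node 523 (merge (leaf 4 394 394) (leaf 4 426 555))))))))))))))))))) (node 556 (merge (node 588 (merge (leaf 6 492 620) (node 491 (merge (leaf 7 459 459) (node 490 (merge (leaf 0 489 489) (leaf 0 490 526))))))) (merge (node 588 (merge (leaf 6 492 620) (node 587 (merge (leaf 5 491 619) (node 460 (merge (leaf 5 459 555) (node 428 (merge (leaf 4 396 396) (leaf 4 428 557))))))))) (node 523 (merge (node 522 (merge (leaf 2 489 521) (node 554 (merge (leaf 1 521 553) (node 555 (merge (leaf 1 522 526) (node 587 (merge (leaf 6 491 619) (node 460 (merge (leaf 5 427 428) (leaf 5 459 556))))))))))) (merge (node 464 (merge (node 465 (merge (leaf 6 432 433) (leaf 6 464 497))) (node 555 (merge (node 587 (merge (leaf 6 491 619) (node 460 (merge (leaf 5 427 428) (leaf 6 459 491))))) (merge (node 554 (merge (leaf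 1 522 526) (node 553 (merge (leaf 2 520 552) (leaf 2 521 556))))) (node 554 (merge (leaf 1 522 526) (node 553 (merge (leaf 2 520 552) (leaf 2 521 556)))))))))) (merge (node 522 (merge (leaf 2 489 521) (node 490 (merge (leaf 3 489 489) (node 491 (merge (leaf 0 490 526) (node 458 (merge (leaf 3 457 457) (node 426 (merge (leaf 4 394 394) (node 427 (merge (leaf 6 394 395) (leaf 4 427 459))))))))))))) (node 587 (merge (node 555 (merge (leaf 6 491 619) (node 460 (merge (leaf 5 427 428) (leaf 5 459 556))))) (merge (node 522 (merge (leaf 2 489 521) (node 554 (merge (leaf 1 521 553) (node 490 (merge (leaf 3 489 489) (node 458 (merge (leaf 4 458 555) (node 457 (merge (leaf 7 425 425) (leaf 3 457 491))))))))))) (node 522 (merge (leaf 2 489 521) (node 554 (merge (leaf 1 521 553) (node 490 (merge (leaf 3 489 489) (node 586 (merge (leaf 4 490 619) (node 618 (merge (leaf 6 490 491) (node 617 (merge (leaf 5 489 585) (leaf 5 521 649))))))))))))))))))))))))))))))))))) nP_183 cP_183 13 (by decide +kernel)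
def nP_184 : ℕ := 0x10000000100000001380000010000000000000000000000000000000000000000000000000000000000000000000000000000000000000000000000000000000000000000000000000000
def cP_184 : ℕ := 0x40000000c0000001e0000001f8000001f800000078000027fc000027f0000003c0000001c00000014000000000000000000000000000000000000000000000000000000000000000000000000000000000000000000
theorem lP_184 : S nP_184 cP_184 10 := S_of_chk [] trivial (node 491 (merge (node 522 (merge (node 493 (merge (leaf 2 490 494) (node 521 (merge (leaf 2 489 492) (node 489 (merge (leaf 3 488 488) (leaf 3 489 490))))))) (merge (node 553 (merge (leaf 1 521 554) (node 521 (merge (leaf 1 520 552) (node 493 (merge (leaf 2 489 492) (leaf 2 490 494))))))) (merge (node 489 (merge (leaf 3 489 490) (node 521 (merge (leaf 3 488 488) (node 552 (merge (leaf 1 520 553) (node 520 (merge (leaf 2 488 492) (leaf 1 519 551))))))))) (node 554 (merge (leaf 1 521 553) (node 586 (merge (leaf 6 490 618) (node 490 (merge (leaf 6 458 459) (leaf 3 489 489))))))))))) (merge (node 459 (merge (node 427 (merge (leaf 4 427 556) (node 426 (merge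 (leaf 7 394 394) (node 555 (merge (leaf 7 426 458) (node 554 (merge (leaf 5 426 522) (leaf 5 458 586))))))))) (merge (node 427 (merge (leaf 4 427 556) (node 396 (merge (leaf 6 395 428) (node 395 (merge (leaf 6 363 364) (leaf 4 395 492))))))) (merge (node 427 (merge (leaf 4 427 556) (node 428 (merge (leaf 6 395 396) (node 555 (merge (leaf 6 427 460) (node 554 (merge (leaf 5 426 522) (leaf 5 458 586))))))))) (merge (node 428 (merge (node 427 (merge (leaf 6 395 396) (node 555 (merge (leaf 6 427 460) (node 554 (merge (leaf 5 426 522) (leaf 5 458 586))))))) (merge (node 427 (merge (leaf 6 395 396) (node 394 (merge (leaf 7 394 426) (node 395 (merge (leaf 7 362 362) (leaf 4 395 492))))))) (node 555 (merge (leaf 6 427 460) (node 554 (merge (leaf 5 458 586) (node 553 (merge (leaf 1 521 522) (leaf 2 520 552)))))))))) (node 555 (merge (node 554 (merge (leaf 5 458 586) (node 553 (merge (leaf 1 521 522) (leaf 2 520 552))))) (merge (node 460 (merge (leaf 6 427 428) (node 587 (merge (leaf 6 459 492) (node 586 (merge (leaf 5 458 554) (leaf 5 490 618))))))) (node 460 (merge (leaf 6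 427 428) (node 587 (merge (leaf 6 459 492) (node 588 (merge (leaf 4 459 556) (leaf 4 491 620))))))))))))))) (merge (node 459 (merge (node 556 (merge (leaf 4 427 427) (node 588 (merge (leaf 7 459 492) (leaf 4 459 555))))) (merge (node 427 (merge (leaf 4 427 556) (node 396 (merge (leaf 6 395 428) (node 395 (merge (leaf 6 363 364) (leaf 4 395 492))))))) (merge (node 465 (merge (leaf 6 464 497) (node 427 (merge (leaf 4 427 556) (node 428 (merge (leaf 6 395 396) (node 555 (merge (leaf 6 427 460) (node 426 (merge (leaf 7 394 394) (leaf 7 426 458))))))))))) (merge (node 522 (merge (node 490 (merge (leaf 3 489 489) (node 427 (merge (leaf 5 394 395) (node 428 (merge (leaf 6 395 396) (node 555 (merge (leaf 6 427 460) (node 426 (merge (leaf 7 394 394) (leaf 7 426 458))))))))))) (merge (node 493 (merge (leaf 2 490 494) (node 521 (merge (leaf 2 489 492) (node 552 (merge (leaf 1 520 553) (node 520 (merge (leaf 1 519 551) (node 488 (merge (leaf 3 487 487) (leaf 3 488 489))))))))))) (node 493 (merge (leaf 2 490 494) (node 521 (merge (leaf 2 489 492) (node 552 (merge (leaf 1 520 553)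 (node 520 (merge (leaf 1 519 551) (node 519 (merge (leaf 2 487 490) (node 487 (merge (leaf 3 486 486) (leaf 3 487 488)))))))))))))))) (node 458 (merge (node 426 (merge (leaf 7 426 555) (node 394 (merge (leaf 4 362 362) (leaf 4 394 490))))) (merge (node 555 (merge (leaf 7 426 426) (node 460 (merge (leaf 6 427 428) (node 587 (merge (leaf 6 459 492) (node 588 (merge (leaf 4 459 556) (leaf 4 491 620))))))))) (node 492 (merge (node 490 (merge (leaf 0 489 489) (node 493 (merge (leaf 3 457 457) (leaf 3 458 494))))) (merge (node 457 (merge (leaf 0 456 456) (node 493 (merge (leaf 0 457 460) (leaf 3 458 494))))) (merge (node 457 (merge (leaf 0 456 456) (node 493 (merge (leaf 0 457 460) (leaf 3 457 490))))) (merge (node 457 (merge (leaf 0 456 456) (node 489 (merge (leaf 0 489 490) (node 460 (merge (leaf 1 456 488) (node 428 (merge (leaf 5 395 396) (leaf 2 425 429))))))))) (node 490 (merge (leaf 0 489 489) (node 556 (merge (leaf 7 459 588) (node 493 (merge (leaf 3 458 494) (node 461 (merge (leaf 5 428 429) (leaf 2 458 462)))))))))))))))))))))) (merge (node 459 (merge (node 556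 (merge (leaf 4 427 427) (node 588 (merge (leaf 7 459 492) (leaf 4 459 555))))) (merge (node 427 (merge (leaf 4 427 556) (node 522 (merge (leaf 5 426 554) (node 490 (merge (leaf 5 394 395) (leaf 3 489 489))))))) (merge (node 428 (merge (node 427 (merge (leaf 6 395 396) (node 555 (merge (leaf 6 427 460) (node 554 (merge (leaf 5 426 522) (leaf 5 458 586))))))) (merge (node 427 (merge (leaf 6 395 396) (node 394 (merge (leaf 7 394 426) (node 395 (merge (leaf 7 362 362) (leaf 4 395 492))))))) (node 555 (merge (leaf 6 427 460) (node 458 (merge (leaf 7 426 426) (node 587 (merge (leaf 7 458 490) (node 586 (merge (leaf 5 458 554) (leaf 5 490 618)))))))))))) (node 458 (merge (node 426 (merge (leaf 7 426 555) (node 394 (merge (leaf 4 362 362) (leaf 4 394 490))))) (merge (node 555 (merge (leaf 7 426 426) (node 460 (merge (leaf 6 427 428) (node 587 (merge (leaf 6 459 492) (node 588 (merge (leaf 4 459 556) (leaf 4 491 620))))))))) (node 492 (merge (node 490 (merge (leaf 0 489 489) (node 493 (merge (leaf 3 457 457) (leaf 3 458 494))))) (merge (node 457 (merge (leaf 0 456 456) (node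 493 (merge (leaf 0 457 460) (leaf 3 458 494))))) (merge (node 457 (merge (leaf 0 456 456) (node 493 (merge (leaf 0 457 460) (leaf 3 457 490))))) (merge (node 457 (merge (leaf 0 456 456) (node 489 (merge (leaf 0 489 490) (node 460 (merge (leaf 1 456 488) (node 428 (merge (leaf 5 395 396) (leaf 2 425 429))))))))) (node 490 (merge (leaf 0 489 489) (node 556 (merge (leaf 7 459 588) (node 493 (merge (leaf 3 458 494) (node 461 (merge (leaf 5 428 429) (leaf 2 458 462))))))))))))))))))))) (merge (node 459 (merge (node 427 (merge (leaf 4 427 556) (node 426 (merge (leaf 7 394 394) (node 555 (merge (leaf 7 426 458) (node 554 (merge (leaf 5 426 522) (leaf 5 458 586))))))))) (merge (node 427 (merge (leaf 4 427 556) (node 428 (merge (leaf 6 395 396) (node 555 (merge (leaf 6 427 460) (node 554 (merge (leaf 5 426 522) (leaf 5 458 586))))))))) (merge (node 465 (merge (leaf 6 464 497) (node 427 (merge (leaf 4 427 556) (node 428 (merge (leaf 6 395 396) (node 555 (merge (leaf 6 427 460) (node 426 (merge (leaf 7 394 394) (leaf 7 426 458))))))))))) (merge (node 427 (merge (leaf 4 427 556)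 (node 522 (merge (leaf 5 426 554) (node 490 (merge (leaf 5 394 395) (leaf 3 489 489))))))) (merge (node 555 (merge (node 458 (merge (leaf 7 426 426) (node 587 (merge (leaf 7 458 490) (node 588 (merge (leaf 4 459 556) (leaf 4 491 620))))))) (node 554 (merge (leaf 5 458 586) (node 553 (merge (leaf 1 521 522) (leaf 2 520 552))))))) (node 522 (merge (node 554 (merge (leaf 1 521 553) (node 586 (merge (leaf 6 490 618) (node 459 (merge (leaf 5 426 427) (leaf 5 458 555))))))) (merge (node 554 (merge (leaf 1 521 553) (node 586 (merge (leaf 6 490 618) (node 490 (merge (leaf 6 458 459) (leaf 3 489 489))))))) (node 490 (merge (leaf 3 489 489) (node 427 (merge (leaf 5 394 395) (node 428 (merge (leaf 6 395 396) (node 555 (merge (leaf 6 427 460) (node 426 (merge (leaf 7 394 394) (leaf 7 426 458)))))))))))))))))))) (merge (node 459 (merge (node 427 (merge (leaf 4 427 556) (node 396 (merge (leaf 6 395 428) (node 395 (merge (leaf 6 363 364) (leaf 4 395 492))))))) (merge (node 465 (merge (leaf 6 464 497) (node 427 (merge (leaf 4 427 556) (node 428 (merge (leaf 6 395 396) (node 555 (merge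 (leaf 6 427 460) (node 426 (merge (leaf 7 394 394) (leaf 7 426 458))))))))))) (merge (node 427 (merge (leaf 4 427 556) (node 426 (merge (leaf 7 394 394) (node 555 (merge (leaf 7 426 458) (node 492 (merge (leaf 4 395 395) (node 587 (merge (leaf 6 459 460) (leaf 6 491 619))))))))))) (merge (node 427 (merge (leaf 4 427 556) (node 428 (merge (leaf 6 395 396) (node 555 (merge (leaf 6 427 460) (node 492 (merge (leaf 4 395 395) (node 490 (merge (leaf 0 489 489) (node 587 (merge (leaf 7 458 458) (leaf 6 491 619))))))))))))) (merge (node 428 (merge (node 427 (merge (leaf 6 395 396) (node 394 (merge (leaf 7 394 426) (node 395 (merge (leaf 7 362 362) (leaf 4 395 492))))))) (merge (node 555 (merge (leaf 6 427 460) (node 458 (merge (leaf 7 426 426) (node 587 (merge (leaf 7 458 490) (node 586 (merge (leaf 5 458 554) (leaf 5 490 618))))))))) (node 396 (merge (leaf 6 395 427) (node 460 (merge (leaf 5 395 492) (leaf 6 427 555)))))))) (node 555 (merge (node 460 (merge (leaf 6 427 428) (node 587 (merge (leaf 6 459 492) (node 586 (merge (leaf 5 458 554) (leaf 5 490 618))))))) (merge (node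 554 (merge (leaf 5 458 586) (node 553 (merge (leaf 2 520 552) (leaf 2 521 556))))) (node 458 (merge (leaf 7 426 426) (node 587 (merge (leaf 7 458 490) (node 619 (merge (leaf 6 491 492) (node 651 (merge (leaf 6 523 556) (node 650 (merge (leaf 5 522 618) (leaf 5 554 682)))))))))))))))))))) (node 522 (merge (node 553 (merge (leaf 1 521 554) (node 521 (merge (leaf 1 520 552) (node 493 (merge (leaf 2 489 492) (leaf 2 490 494))))))) (merge (node 554 (merge (leaf 1 521 553) (node 586 (merge (leaf 6 490 618) (node 490 (merge (leaf 3 489 489) (node 587 (merge (leaf 4 490 619) (node 555 (merge (leaf 7 458 458) (node 585 (merge (leaf 5 489 617) (node 584 (merge (leaf 2 552 556) (leaf 2 551 583))))))))))))))) (merge (node 554 (merge (leaf 1 521 553) (node 586 (merge (leaf 6 490 618) (node 490 (merge (leaf 3 489 489) (node 587 (merge (leaf 4 490 619) (node 555 (merge (leaf 7 458 458) (node 585 (merge (leaf 5 489 617) (node 584 (merge (leaf 2 552 556) (leaf 2 551 583))))))))))))))) (node 493 (merge (leaf 2 490 494) (node 521 (merge (leaf 2 489 492) (node 489 (merge (leaf 3 488 488)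 (leaf 3 489 490)))))))))))))))))) nP_184 cP_184 10 (by decide +kernel)
def nP_185 : ℕ := 0x10000000100000001300000010000000000000000000000000000000000000000000000000000000000000000000000000000000000000000000000000000000000000000000000000000
def cP_185 : ℕ := 0x40000003c0000007e0000007f8000003fc000004f800002ffc000037f0000027f0000007c00000014000000000000000000000000000000000000000000000000000000000000000000000000000000000000000000
theorem lP_185 : S nP_185 cP_185 12 := S_of_chk [(nP_184, cP_184, 10)] ⟨lP_184, trivial⟩ (node 523 (merge (node 522 (merge (node 554 (merge (leaf 1 521 553) (node 526 (merge (leaf 1 522 555) (node 494 (merge (leaf 2 490 493) (leaf 2 491 495))))))) (merge (node 553 (merge (leaf 1 521 554) (node 521 (merge (leaf 1 520 552) (node 489 (merge (leaf 3 488 488) (leaf 3 489 490))))))) (node 494 (merge (leaf 2 490 493) (node 526 (merge (leaf 2 491 495) (node 490 (merge (leaf 3 489 489) (leaf 3 490 491)))))))))) (merge (node 522 (merge (node 554 (merge (leaf 1 521 553) (node 526 (merge (leaf 1 522 555) (node 490 (merge (leaf 3 489 489) (leaf 3 490 491)))))))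 (merge (node 553 (merge (leaf 1 521 554) (node 521 (merge (leaf 1 520 552) (node 493 (merge (leaf 2 489 492) (leaf 2 490 494))))))) (node 494 (merge (leaf 2 490 493) (node 526 (merge (leaf 2 491 495) (node 490 (merge (leaf 3 489 489) (leaf 3 490 491)))))))))) (merge (node 522 (merge (node 494 (merge (leaf 2 490 493) (node 526 (merge (leaf 2 491 495) (node 490 (merge (leaf 3 489 489) (leaf 3 490 491))))))) (merge (node 553 (merge (leaf 1 521 554) (node 521 (merge (leaf 1 520 552) (node 489 (merge (leaf 3 488 488) (leaf 3 489 490))))))) (node 553 (merge (leaf 1 521 554) (node 521 (merge (leaf 1 520 552) (node 493 (merge (leaf 2 489 492) (leaf 2 490 494)))))))))) (merge (node 522 (merge (node 554 (merge (leaf 1 521 553) (node 526 (merge (leaf 1 522 555) (node 490 (merge (leaf 3 489 489) (leaf 3 490 491))))))) (merge (node 553 (merge (leaf 1 521 554) (node 521 (merge (leaf 1 520 552) (node 489 (merge (leaf 3 488 488) (leaf 3 489 490))))))) (merge (node 489 (merge (leaf 3 489 490) (node 521 (merge (leaf 3 488 488) (node 552 (merge (leaf 1 520 553) (node 520 (merge (leaf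 1 519 551) (node 492 (merge (leaf 2 488 491) (leaf 2 489 493))))))))))) (merge (node 553 (merge (leaf 1 521 554) (node 521 (merge (leaf 1 520 552) (node 556 (merge (leaf 0 521 557) (node 520 (merge (leaf 0 520 555) (node 492 (merge (leaf 2 488 491) (leaf 2 489 493))))))))))) (merge (node 489 (merge (leaf 3 489 490) (node 521 (merge (leaf 3 488 488) (node 492 (merge (leaf 2 489 493) (node 520 (merge (leaf 2 488 491) (node 555 (merge (leaf 0 520 556) (node 554 (merge (leaf 0 519 519) (leaf 1 522 526))))))))))))) (node 553 (merge (leaf 1 521 554) (node 521 (merge (leaf 1 520 552) (node 556 (merge (leaf 0 521 557) (node 520 (merge (leaf 0 520 555) (node 491 (merge (leaf 2 488 492) (node 490 (merge (leaf 2 487 519) (leaf 3 490 526))))))))))))))))))) (merge (node 522 (merge (node 554 (merge (leaf 1 521 553) (node 526 (merge (leaf 1 522 555) (node 494 (merge (leaf 2 490 493) (leaf 2 491 495))))))) (merge (node 553 (merge (leaf 1 521 554) (node 521 (merge (leaf 1 520 552) (node 489 (merge (leaf 3 488 488) (leaf 3 489 490))))))) (node 493 (merge (leaf 2 490 494) (node 521 (merge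 (leaf 2 489 492) (node 489 (merge (leaf 3 488 488) (leaf 3 489 490)))))))))) (merge (node 522 (merge (node 494 (merge (leaf 2 490 493) (node 526 (merge (leaf 2 491 495) (node 490 (merge (leaf 3 489 489) (leaf 3 490 491))))))) (merge (node 465 (merge (leaf 6 464 497) (node 493 (merge (leaf 2 490 494) (node 521 (merge (leaf 2 489 492) (node 556 (merge (leaf 0 521 557) (node 520 (merge (leaf 0 520 555) (node 552 (merge (leaf 1 519 551) (leaf 1 520 553))))))))))))) (merge (node 465 (merge (leaf 6 464 497) (node 489 (merge (leaf 3 489 490) (node 521 (merge (leaf 3 488 488) (node 556 (merge (leaf 0 521 557) (node 520 (merge (leaf 0 520 555) (node 552 (merge (leaf 1 519 551) (leaf 1 520 553))))))))))))) (node 493 (merge (leaf 2 490 494) (node 521 (merge (leaf 2 489 492) (node 556 (merge (leaf 0 521 557) (node 520 (merge (leaf 0 520 555) (node 551 (merge (leaf 1 519 552) (node 519 (merge (leaf 1 518 550) (node 487 (merge (leaf 3 486 486) (leaf 3 487 488))))))))))))))))))) (merge (node 433 (merge (node 465 (merge (leaf 6 432 464) (leaf 6 464 497))) (node 492 (merge (node 494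 (merge (node 493 (merge (leaf 1 491 495) (leaf 2 490 522))) (merge (node 526 (merge (leaf 2 491 495) (node 555 (merge (leaf 1 522 554) (node 587 (merge (leaf 6 491 619) (node 460 (merge (leaf 5 427 428) (leaf 5 459 556))))))))) (node 522 (merge (leaf 2 490 493) (node 554 (merge (leaf 1 521 553) (node 555 (merge (leaf 1 522 526) (node 587 (merge (leaf 6 491 619) (node 460 (merge (leaf 5 427 428) (leaf 5 459 556)))))))))))))) (merge (node 522 (merge (node 493 (merge (leaf 2 490 494) (leaf 2 489 521))) (merge (node 554 (merge (leaf 1 521 553) (node 526 (merge (leaf 1 522 555) (node 494 (merge (leaf 2 490 493) (leaf 2 491 495))))))) (node 553 (merge (leaf 1 521 554) (node 521 (merge (leaf 1 520 552) (node 556 (merge (leaf 0 521 557) (node 520 (merge (leaf 2 488 491) (leaf 0 520 555)))))))))))) (merge (node 460 (merge (node 428 (merge (leaf 5 427 555) (leaf 4 428 557))) (merge (node 555 (merge (leaf 5 427 428) (node 587 (merge (leaf 5 459 556) (leaf 6 491 619))))) (merge (node 428 (merge (leaf 4 428 557) (node 429 (merge (leaf 6 396 397) (node 556 (merge (leaf 6 428 461)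 (node 427 (merge (leaf 7 395 395) (leaf 7 427 459))))))))) (node 556 (merge (node 459 (merge (leaf 7 427 427) (node 588 (merge (leaf 7 459 491) (node 589 (merge (leaf 4 460 557) (leaf 4 492 621))))))) (merge (node 459 (merge (leaf 7 427 427) (node 588 (merge (leaf 7 459 491) (node 587 (merge (leaf 5 459 555) (leaf 5 491 619))))))) (merge (node 589 (merge (leaf 4 460 557) (node 588 (merge (leaf 4 492 621) (node 587 (merge (leaf 5 459 555) (leaf 5 491 619))))))) (node 557 (merge (leaf 4 460 589) (node 522 (merge (leaf 0 521 521) (node 554 (merge (leaf 1 521 553) (node 555 (merge (leaf 5 459 587) (node 586 (merge (leaf 1 553 585) (node 618 (merge (leaf 6 490 491) (leaf 6 522 650))))))))))))))))))))) (merge (node 494 (merge (node 493 (merge (leaf 1 491 495) (leaf 2 490 522))) (merge (node 526 (merge (leaf 2 491 495) (node 555 (merge (leaf 1 522 554) (node 587 (merge (leaf 6 491 619) (node 460 (merge (leaf 5 427 428) (leaf 6 459 491))))))))) (node 522 (merge (leaf 2 490 493) (node 554 (merge (leaf 1 521 553) (node 555 (merge (leaf 1 522 526) (node 587 (merge (leaf 6 491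 619) (node 491 (merge (leaf 6 459 460) (node 586 (merge (leaf 5 458 459) (leaf 6 490 618)))))))))))))))) (merge (node 460 (merge (node 428 (merge (leaf 4 428 557) (node 429 (merge (leaf 6 396 397) (node 556 (merge (leaf 6 428 461) (node 427 (merge (leaf 7 395 395) (leaf 7 427 459))))))))) (merge (node 428 (merge (leaf 4 428 557) (node 396 (merge (leaf 5 395 491) (leaf 4 396 493))))) (merge (node 428 (merge (leaf 4 428 557) (node 396 (merge (leaf 5 395 491) (leaf 4 396 493))))) (merge (node 428 (merge (leaf 4 428 557) (node 396 (merge (leaf 5 395 491) (leaf 4 396 493))))) (merge (node 493 (merge (node 494 (merge (leaf 1 491 495) (leaf 2 490 522))) (node 428 (merge (leaf 4 396 396) (node 429 (merge (leaf 6 396 397) (node 556 (merge (leaf 6 428 461) (node 427 (merge (leaf 7 395 395) (leaf 7 427 459))))))))))) (node 556 (merge (node 459 (merge (leaf 7 427 427) (node 588 (merge (leaf 7 459 491) (node 589 (merge (leaf 4 460 557) (leaf 4 492 621))))))) (merge (node 493 (merge (node 588 (merge (leaf 6 460 461) (leaf 6 492 620))) (node 494 (merge (leaf 1 491 495) (leaf 2 490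 522))))) (node 461 (merge (leaf 6 428 429) (node 459 (merge (leaf 7 427 427) (node 557 (merge (leaf 4 460 589) (node 522 (merge (leaf 0 521 521) (node 494 (merge (leaf 2 490 493) (node 495 (merge (leaf 0 459 462) (leaf 2 491 526)))))))))))))))))))))) (node 460 (merge (node 428 (merge (leaf 5 427 555) (leaf 4 428 557))) (merge (node 555 (merge (leaf 5 427 428) (node 587 (merge (leaf 5 459 556) (leaf 6 491 619))))) (merge (node 428 (merge (leaf 4 428 557) (node 396 (merge (leaf 5 395 491) (leaf 4 396 493))))) (node 556 (merge (node 459 (merge (leaf 7 427 427) (node 588 (merge (leaf 7 459 491) (node 589 (merge (leaf 4 460 557) (leaf 4 492 621))))))) (merge (node 589 (merge (leaf 4 460 557) (node 588 (merge (leaf 4 492 621) (node 620 (merge (leaf 7 491 491) (leaf 6 492 493))))))) (merge (node 589 (merge (leaf 4 460 557) (node 588 (merge (leaf 4 492 621) (node 620 (merge (leaf 6 492 493) (node 555 (merge (leaf 5 459 587) (leaf 7 523 652))))))))) (node 459 (merge (leaf 7 427 427) (node 555 (merge (leaf 5 459 587) (node 554 (merge (leaf 2 521 553) (node 491 (merge (leaf 5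 458 586) (node 458 (merge (leaf 7 426 426) (node 493 (merge (leaf 0 457 457) (leaf 3 458 494))))))))))))))))))))))))))))) (merge (node 522 (merge (node 554 (merge (leaf 1 521 553) (node 526 (merge (leaf 1 522 555) (node 490 (merge (leaf 3 489 489) (leaf 3 490 491))))))) (merge (node 553 (merge (leaf 1 521 554) (node 521 (merge (leaf 1 520 552) (node 489 (merge (leaf 3 488 488) (leaf 3 489 490))))))) (merge (node 553 (merge (leaf 1 521 554) (node 521 (merge (leaf 1 520 552) (node 556 (merge (leaf 0 521 557) (node 520 (merge (leaf 0 520 555) (node 491 (merge (leaf 2 488 492) (node 490 (merge (leaf 2 487 519) (leaf 3 490 526))))))))))))) (merge (node 465 (merge (leaf 6 464 497) (node 553 (merge (leaf 1 521 554) (node 521 (merge (leaf 1 520 552) (node 556 (merge (leaf 0 521 557) (node 520 (merge (leaf 0 520 555) (node 488 (merge (leaf 3 487 487) (leaf 3 488 489))))))))))))) (merge (node 465 (merge (leaf 6 464 497) (node 489 (merge (leaf 3 489 490) (node 521 (merge (leaf 3 488 488) (node 556 (merge (leaf 0 521 557) (node 520 (merge (leaf 0 520 555) (node 552 (merge (leaf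 1 519 551) (leaf 1 520 553))))))))))))) (node 491 (merge (node 490 (merge (leaf 3 489 489) (leaf 3 490 526))) (merge (node 556 (merge (node 588 (merge (leaf 7 491 620) (node 459 (merge (leaf 4 427 427) (leaf 4 459 555))))) (merge (node 521 (merge (leaf 0 521 557) (node 520 (merge (leaf 2 488 492) (leaf 0 520 555))))) (merge (node 521 (merge (leaf 0 521 557) (node 520 (merge (leaf 2 488 492) (leaf 0 520 555))))) (node 588 (merge (leaf 7 491 620) (node 459 (merge (leaf 4 427 427) (leaf 7 459 492))))))))) (node 588 (merge (node 556 (merge (leaf 7 491 620) (node 492 (merge (leaf 7 459 459) (node 589 (merge (leaf 4 492 621) (node 460 (merge (leaf 4 460 557) (node 429 (merge (leaf 6 428 461) (node 428 (merge (leaf 5 395 396) (leaf 6 396 397))))))))))))) (merge (node 526 (merge (leaf 3 490 490) (node 555 (merge (leaf 1 522 554) (node 459 (merge (leaf 4 459 556) (node 428 (merge (leaf 6 427 460) (node 427 (merge (leaf 6 395 396) (node 426 (merge (leaf 7 394 394) (leaf 7 426 458))))))))))))) (node 526 (merge (leaf 3 490 490) (node 555 (merge (leaf 1 522 554) (node 587 (merge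 (leaf 4 491 620) (node 619 (merge (leaf 6 491 492) (node 618 (merge (leaf 5 490 586) (leaf 5 522 650))))))))))))))))))))))) (merge (node 555 (merge (node 526 (merge (leaf 1 522 554) (node 494 (merge (leaf 2 491 495) (node 522 (merge (leaf 2 490 493) (node 490 (merge (leaf 3 489 489) (leaf 3 490 491))))))))) (merge (node 526 (merge (leaf 1 522 554) (node 494 (merge (leaf 2 491 495) (node 522 (merge (leaf 2 490 493) (node 489 (merge (leaf 3 489 490) (node 521 (merge (leaf 3 488 488) (node 556 (merge (leaf 0 520 520) (leaf 0 521 557))))))))))))) (merge (node 522 (merge (node 490 (merge (leaf 3 489 489) (node 587 (merge (leaf 7 490 619) (node 491 (merge (leaf 7 458 458) (leaf 3 490 526))))))) (node 493 (merge (leaf 2 490 494) (node 521 (merge (leaf 2 489 492) (node 556 (merge (leaf 0 520 520) (leaf 0 521 557))))))))) (merge (node 460 (merge (node 492 (merge (leaf 5 427 428) (node 587 (merge (leaf 5 459 556) (leaf 6 491 619))))) (merge (node 526 (merge (leaf 1 522 554) (node 491 (merge (leaf 3 490 490) (node 428 (merge (leaf 6 427 459) (leaf 5 427 492))))))) (merge (node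 526 (merge (leaf 1 522 554) (node 491 (merge (leaf 3 490 490) (node 459 (merge (leaf 6 427 428) (node 556 (merge (leaf 4 427 427) (leaf 4 459 588))))))))) (node 526 (merge (leaf 1 522 554) (node 491 (merge (leaf 3 490 490) (node 587 (merge (leaf 6 459 492) (node 588 (merge (leaf 4 491 620) (node 556 (merge (leaf 4 459 459) (node 586 (merge (leaf 5 490 618) (node 585 (merge (leaf 2 553 557) (leaf 2 552 584))))))))))))))))))) (merge (node 522 (merge (node 493 (merge (leaf 2 490 494) (node 521 (merge (leaf 2 489 492) (node 556 (merge (leaf 0 520 520) (leaf 0 521 557))))))) (merge (node 490 (merge (leaf 3 489 489) (node 587 (merge (leaf 7 490 619) (node 458 (merge (leaf 7 458 491) (leaf 4 458 554))))))) (node 490 (merge (leaf 3 489 489) (node 587 (merge (leaf 7 490 619) (node 458 (merge (leaf 4 426 426) (leaf 7 458 491)))))))))) (node 556 (merge (node 526 (merge (leaf 1 522 554) (node 494 (merge (leaf 2 491 495) (node 522 (merge (leaf 2 490 493) (node 521 (merge (leaf 0 520 520) (leaf 0 521 557))))))))) (merge (node 554 (merge (leaf 1 522 526) (node 557 (merge (node 522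 (merge (leaf 0 521 521) (node 586 (merge (leaf 1 553 585) (node 618 (merge (leaf 6 490 491) (leaf 6 522 650))))))) (merge (node 589 (merge (leaf 0 554 590) (node 621 (merge (leaf 7 492 492) (leaf 7 524 653))))) (node 589 (merge (leaf 0 554 590) (node 621 (merge (leaf 7 492 492) (leaf 7 524 653)))))))))) (merge (node 522 (merge (node 521 (merge (leaf 0 520 520) (leaf 0 521 557))) (node 493 (merge (leaf 2 490 494) (node 588 (merge (leaf 6 492 620) (node 492 (merge (leaf 6 460 461) (node 587 (merge (leaf 5 459 460) (leaf 6 491 619))))))))))) (merge (node 526 (merge (leaf 1 522 554) (node 494 (merge (leaf 2 491 495) (node 493 (merge (leaf 2 490 522) (node 588 (merge (leaf 6 492 620) (node 492 (merge (leaf 6 460 461) (node 587 (merge (leaf 5 459 460) (leaf 6 491 619))))))))))))) (node 557 (merge (node 554 (merge (leaf 1 522 526) (node 586 (merge (leaf 1 553 585) (node 618 (merge (leaf 6 522 650) (node 491 (merge (leaf 5 458 459) (leaf 5 490 587))))))))) (merge (node 493 (merge (node 588 (merge (leaf 6 492 620) (node 461 (merge (leaf 5 428 429) (leaf 5 460 557))))) (node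 494 (merge (leaf 1 492 495) (node 589 (merge (leaf 6 461 462) (node 621 (merge (leaf 7 492 492) (leaf 6 493 526))))))))) (node 588 (merge (node 620 (merge (leaf 7 491 491) (leaf 6 524 652))) (merge (node 620 (merge (leaf 6 492 493) (leaf 7 523 652))) (node 493 (merge (leaf 5 460 461) (node 494 (merge (leaf 1 492 495) (node 589 (merge (leaf 6 461 462) (node 590 (merge (leaf 0 554 554) (leaf 4 493 622)))))))))))))))))))))))))) (merge (node 491 (merge (node 490 (merge (leaf 3 490 526) (node 489 (merge (leaf 0 488 488) (leaf 0 489 492))))) (merge (node 459 (merge (node 427 (merge (leaf 4 427 556) (node 396 (merge (leaf 6 395 428) (node 395 (merge (leaf 6 363 364) (leaf 4 395 492))))))) (merge (node 427 (merge (leaf 4 427 556) (node 426 (merge (leaf 7 394 394) (node 555 (merge (leaf 7 426 458) (node 554 (merge (leaf 1 522 526) (leaf 5 458 586))))))))) (merge (node 427 (merge (leaf 4 427 556) (node 428 (merge (leaf 6 395 396) (node 555 (merge (leaf 6 427 460) (node 554 (merge (leaf 1 522 526) (leaf 5 458 586))))))))) (merge (node 555 (merge (node 554 (merge (leaf 1 522 526)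 (node 553 (merge (leaf 2 520 552) (leaf 2 521 556))))) (merge (node 460 (merge (leaf 6 427 428) (node 587 (merge (leaf 6 459 492) (node 586 (merge (leaf 5 458 554) (leaf 5 490 618))))))) (node 460 (merge (leaf 6 427 428) (node 587 (merge (leaf 6 459 492) (node 588 (merge (leaf 4 459 556) (leaf 4 491 620)))))))))) (node 428 (merge (node 555 (merge (leaf 6 427 460) (node 554 (merge (leaf 1 522 526) (leaf 5 458 586))))) (merge (node 427 (merge (leaf 6 395 396) (node 426 (merge (leaf 7 394 394) (node 492 (merge (leaf 4 395 395) (node 460 (merge (leaf 4 428 557) (node 425 (merge (leaf 0 424 424) (leaf 0 425 461))))))))))) (node 427 (merge (leaf 6 395 396) (node 426 (merge (leaf 7 394 394) (node 555 (merge (leaf 7 426 458) (node 554 (merge (leaf 1 522 526) (leaf 5 458 586))))))))))))))))) (merge (node 555 (merge (node 526 (merge (leaf 3 490 490) (leaf 1 522 554))) (merge (node 554 (merge (leaf 1 522 526) (node 553 (merge (leaf 2 520 552) (leaf 2 521 556))))) (merge (node 588 (merge (node 620 (merge (leaf 7 491 556) (leaf 4 491 587))) (merge (node 556 (merge (leaf 7 491 620)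 (node 459 (merge (leaf 4 427 427) (leaf 4 459 555))))) (merge (node 459 (merge (leaf 4 459 556) (node 458 (merge (leaf 7 426 426) (node 587 (merge (leaf 7 458 490) (node 586 (merge (leaf 5 458 554) (leaf 5 490 618))))))))) (node 587 (merge (leaf 4 491 620) (node 586 (merge (leaf 5 490 618) (node 554 (merge (leaf 5 458 459) (node 589 (merge (leaf 3 553 553) (leaf 3 554 590))))))))))))) (node 465 (merge (leaf 6 464 497) (node 490 (merge (leaf 3 490 526) (node 587 (merge (leaf 7 458 458) (node 588 (merge (leaf 4 491 620) (node 556 (merge (leaf 4 459 459) (node 586 (merge (leaf 5 490 618) (node 585 (merge (leaf 2 553 557) (leaf 2 552 584))))))))))))))))))) (node 459 (merge (node 427 (merge (leaf 4 427 556) (node 396 (merge (leaf 6 395 428) (node 395 (merge (leaf 6 363 364) (leaf 4 395 492))))))) (merge (node 465 (merge (leaf 6 464 497) (node 427 (merge (leaf 4 427 556) (node 428 (merge (leaf 6 395 396) (node 555 (merge (leaf 6 427 460) (node 426 (merge (leaf 7 394 394) (leaf 7 426 458))))))))))) (merge (node 427 (merge (leaf 4 427 556) (node 426 (merge (leaf 7 394 394)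 (node 555 (merge (leaf 7 426 458) (node 492 (merge (leaf 4 395 395) (node 587 (merge (leaf 6 459 460) (leaf 6 491 619))))))))))) (merge (node 427 (merge (leaf 4 427 556) (node 428 (merge (leaf 6 395 396) (node 555 (merge (leaf 6 427 460) (node 492 (merge (leaf 4 395 395) (node 490 (merge (leaf 0 489 489) (node 587 (merge (leaf 7 458 458) (leaf 6 491 619))))))))))))) (merge (node 555 (merge (node 460 (merge (leaf 6 427 428) (node 587 (merge (leaf 6 459 492) (node 586 (merge (leaf 5 458 554) (leaf 5 490 618))))))) (merge (node 554 (merge (leaf 5 458 586) (node 553 (merge (leaf 2 520 552) (leaf 2 521 556))))) (node 458 (merge (leaf 7 426 426) (node 587 (merge (leaf 7 458 490) (node 619 (merge (leaf 6 491 492) (node 651 (merge (leaf 6 523 556) (node 650 (merge (leaf 5 522 618) (leaf 5 554 682)))))))))))))) (node 458 (merge (node 555 (merge (leaf 7 426 426) (node 587 (merge (leaf 7 458 490) (node 586 (merge (leaf 5 458 554) (leaf 5 490 618))))))) (merge (node 555 (merge (leaf 7 426 426) (node 460 (merge (leaf 6 427 428) (node 587 (merge (leaf 6 459 492) (node 586 (merge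 (leaf 5 458 554) (leaf 5 490 618))))))))) (merge (node 492 (merge (node 457 (merge (leaf 0 456 456) (node 493 (merge (leaf 0 457 460) (leaf 3 458 494))))) (merge (node 490 (merge (leaf 0 489 489) (node 493 (merge (leaf 3 457 457) (leaf 3 458 494))))) (merge (node 457 (merge (leaf 0 456 456) (node 489 (merge (leaf 0 489 490) (node 460 (merge (leaf 1 456 488) (node 428 (merge (leaf 2 425 429) (leaf 4 428 557))))))))) (merge (node 457 (merge (leaf 0 456 456) (node 493 (merge (leaf 0 457 460) (leaf 3 457 490))))) (node 490 (merge (leaf 0 489 489) (node 493 (merge (leaf 3 458 494) (node 461 (merge (leaf 2 458 462) (node 429 (merge (leaf 5 396 397) (node 430 (merge (leaf 6 397 398) (leaf 2 426 460)))))))))))))))) (node 492 (merge (node 457 (merge (leaf 0 456 456) (node 493 (merge (leaf 0 457 460) (leaf 3 458 494))))) (merge (node 490 (merge (leaf 0 489 489) (node 493 (merge (leaf 3 457 457) (leaf 3 458 494))))) (merge (node 457 (merge (leaf 0 456 456) (node 489 (merge (leaf 0 489 490) (node 460 (merge (leaf 1 456 488) (node 428 (merge (leaf 2 425 429) (leaf 6 427 555)))))))))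 (merge (node 457 (merge (leaf 0 456 456) (node 493 (merge (leaf 0 457 460) (leaf 3 457 490))))) (node 490 (merge (leaf 0 489 489) (node 493 (merge (leaf 3 458 494) (node 461 (merge (leaf 2 458 462) (node 429 (merge (leaf 5 396 397) (node 430 (merge (leaf 6 397 398) (leaf 2 426 460)))))))))))))))))))))))))))))) (hyp 0)))))))))))) nP_185 cP_185 12 (by decide +kernel)

end Crest.Agent.H26Snaky
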