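import Crest.Agent.H26SnP013

/-! certificate data for S0047, part P 14 (computer generated) -/

set_option autoImplicit false
set_option maxRecDepth 100000

namespace Crest.Agent.H26Snaky

open T

def nP_186 : ℕ := 0x10000000180000001200000000000000000000000000000000000000000000000000000000000000000000000000000000000000000000000000000000000000000000000000000000000
def cP_186 : ℕ := 0x440000007e0000007e0000007f8000027fc000005f800003ffc00003ff000003ff000002fc00000074000000000000000000000000000000000000000000000000000000000000000000000000000000000000000000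
theorem lP_186 : S nP_186 cP_186 15 := S_of_chk [(nP_183, cP_183, 13), (nP_184, cP_184, 10), (nP_185, cP_185, 12)] ⟨lP_183, lP_184, lP_185, trivial⟩ (node 496 (merge (node 465 (merge (leaf 6 464 497) (node 464 (merge (leaf 6 432 433) (node 463 (merge (leaf 7 431 431) (leaf 7 463 495))))))) (merge (node 497 (merge (leaf 6 464 465) (node 495 (merge (leaf 7 463 463) (node 526 (merge (leaf 1 493 494) (node 558 (merge (leaf 3 525 561) (node 524 (merge (leaf 0 523 523) (leaf 3 524 557))))))))))) (merge (node 493 (merge (node 495 (merge (leaf 7 463 463) (node 524 (merge (leaf 1 492 494) (node 558 (merge (leaf 3 524 557) (node 526 (merge (leaf 0 523 523) (leaf 3 525 561))))))))) (merge (node 495 (merge (leaf 7 463 463) (node 494 (merge (leaf 1 492 524) (node 497 (merge (leaf 1 493 526) (node 461 (merge (leaf 3 460 460) (leaf 3 461 462))))))))) (merge (node 495 (merge (leaf 7 463 463) (node 494 (merge (leaf 1 492 524) (node 461 (merge (leaf 3 460 460) (node 462 (merge (leaf 3 461 497) (node 557 (merge (leaf 6 429 430) (leaf 6 461 589))))))))))) (merge (node 558 (merge (node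 526 (merge (leaf 3 525 561) (node 590 (merge (leaf 7 493 622) (node 461 (merge (leaf 4 429 429) (leaf 7 461 494))))))) (merge (node 557 (merge (leaf 3 524 524) (node 589 (merge (leaf 1 556 588) (node 561 (merge (leaf 3 525 526) (leaf 1 557 590))))))) (merge (node 557 (merge (leaf 3 524 524) (node 461 (merge (leaf 4 461 590) (node 462 (merge (leaf 6 429 430) (node 589 (merge (leaf 6 461 494) (node 460 (merge (leaf 7 428 428) (leaf 7 460 492))))))))))) (node 557 (merge (leaf 3 524 524) (node 589 (merge (leaf 1 556 588) (node 462 (merge (leaf 6 461 494) (node 461 (merge (leaf 6 429 430) (node 460 (merge (leaf 7 428 428) (leaf 7 460 492))))))))))))))) (merge (node 558 (merge (node 557 (merge (leaf 3 524 524) (node 589 (merge (leaf 1 556 588) (node 561 (merge (leaf 3 525 526) (leaf 1 557 590))))))) (merge (node 557 (merge (leaf 3 524 524) (node 461 (merge (leaf 4 461 590) (node 430 (merge (leaf 6 429 462) (node 429 (merge (leaf 6 397 398) (node 428 (merge (leaf 7 396 396) (leaf 7 428 460))))))))))) (merge (node 463 (merge (leaf 7 463 495) (node 464 (merge (leaf 7 431 431)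 (node 561 (merge (leaf 3 525 526) (node 590 (merge (leaf 1 557 589) (node 461 (merge (leaf 4 461 557) (node 462 (merge (leaf 1 460 492) (leaf 0 461 497))))))))))))) (merge (node 557 (merge (leaf 3 524 524) (node 589 (merge (leaf 1 556 588) (node 460 (merge (leaf 7 460 492) (node 461 (merge (leaf 7 428 428) (node 462 (merge (leaf 6 429 430) (node 463 (merge (leaf 0 460 495) (node 464 (merge (leaf 7 431 431) (leaf 0 461 497))))))))))))))) (node 463 (merge (leaf 7 463 495) (node 464 (merge (leaf 7 431 431) (node 526 (merge (leaf 3 525 561) (node 461 (merge (leaf 4 429 429) (node 462 (merge (leaf 1 460 492) (leaf 0 461 497)))))))))))))))) (node 495 (merge (leaf 7 463 463) (node 526 (merge (node 558 (merge (leaf 3 525 561) (node 590 (merge (leaf 7 493 622) (node 461 (merge (leaf 4 429 429) (leaf 4 461 557))))))) (merge (node 494 (merge (leaf 1 493 497) (node 558 (merge (leaf 3 525 561) (node 590 (merge (leaf 7 493 622) (node 589 (merge (leaf 5 493 621) (node 557 (merge (leaf 6 461 462) (leaf 1 556 588))))))))))) (merge (node 494 (merge (leaf 1 493 497) (node 461 (merge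 (leaf 3 460 460) (node 558 (merge (leaf 4 429 429) (leaf 3 525 561))))))) (node 494 (merge (leaf 1 493 497) (node 461 (merge (leaf 3 460 460) (node 429 (merge (leaf 4 397 397) (node 430 (merge (leaf 6 397 398) (node 557 (merge (leaf 6 429 462) (node 589 (merge (leaf 6 493 621) (node 588 (merge (leaf 5 460 556) (leaf 5 492 620))))))))))))))))))))))))))) (merge (node 493 (merge (node 465 (merge (leaf 6 464 497) (node 464 (merge (leaf 6 432 433) (node 463 (merge (leaf 7 431 431) (node 462 (merge (leaf 1 461 494) (node 461 (merge (leaf 1 460 492) (node 429 (merge (leaf 3 428 428) (leaf 3 429 430))))))))))))) (merge (node 558 (merge (node 526 (merge (leaf 3 525 561) (node 590 (merge (leaf 7 493 622) (node 461 (merge (leaf 4 429 429) (leaf 7 461 494))))))) (merge (node 557 (merge (leaf 3 524 524) (node 589 (merge (leaf 1 556 588) (node 561 (merge (leaf 3 525 526) (leaf 1 557 590))))))) (merge (node 557 (merge (leaf 3 524 524) (node 461 (merge (leaf 4 461 590) (node 462 (merge (leaf 6 429 430) (node 589 (merge (leaf 6 461 494) (node 460 (merge (leaf 7 428 428) (leaf 7 460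 492))))))))))) (node 557 (merge (leaf 3 524 524) (node 589 (merge (leaf 1 556 588) (node 462 (merge (leaf 6 461 494) (node 461 (merge (leaf 6 429 430) (node 460 (merge (leaf 7 428 428) (leaf 7 460 492))))))))))))))) (merge (node 465 (merge (leaf 6 464 497) (node 464 (merge (leaf 6 432 433) (node 463 (merge (leaf 7 431 431) (node 462 (merge (leaf 1 461 494) (node 430 (merge (leaf 3 429 429) (node 557 (merge (leaf 6 429 461) (node 558 (merge (leaf 3 524 524) (node 589 (merge (leaf 1 556 588) (node 561 (merge (leaf 3 525 526) (leaf 1 557 590))))))))))))))))))) (merge (node 465 (merge (leaf 6 464 497) (node 464 (merge (leaf 6 432 433) (node 463 (merge (leaf 7 431 431) (node 462 (merge (leaf 1 461 494) (node 461 (merge (leaf 1 460 492) (node 557 (merge (leaf 6 429 430) (node 558 (merge (leaf 3 524 524) (leaf 4 461 590))))))))))))))) (merge (node 524 (merge (node 558 (merge (leaf 3 524 557) (node 526 (merge (leaf 0 523 523) (leaf 3 525 561))))) (node 465 (merge (leaf 6 464 497) (node 464 (merge (leaf 6 432 433) (node 431 (merge (leaf 7 431 463) (node 432 (merge (leaf 7 399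 399) (node 429 (merge (leaf 0 429 430) (node 461 (merge (leaf 5 428 556) (node 396 (merge (leaf 7 396 428) (node 397 (merge (leaf 7 364 364) (leaf 5 396 492))))))))))))))))))) (hyp 0))))))) (merge (node 524 (merge (node 558 (merge (leaf 3 524 557) (node 526 (merge (leaf 0 523 523) (leaf 3 525 561))))) (merge (node 557 (merge (leaf 3 524 558) (node 589 (merge (node 621 (merge (leaf 7 492 492) (node 653 (merge (leaf 7 524 556) (node 654 (merge (leaf 4 525 622) (leaf 4 557 686))))))) (merge (node 621 (merge (node 653 (merge (leaf 7 524 556) (node 654 (merge (leaf 4 525 622) (leaf 4 557 686))))) (node 620 (merge (leaf 5 524 652) (node 493 (merge (leaf 5 492 588) (node 494 (merge (leaf 6 461 462) (leaf 1 492 495))))))))) (merge (node 621 (merge (leaf 7 492 492) (node 620 (merge (leaf 5 524 652) (node 493 (merge (leaf 5 492 588) (node 494 (merge (leaf 6 461 462) (leaf 1 492 495))))))))) (node 493 (merge (node 494 (merge (leaf 6 461 462) (leaf 1 492 495))) (node 492 (merge (leaf 7 460 460) (node 590 (merge (leaf 4 493 622) (node 588 (merge (leaf 5 492 620) (node 556 (merge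 (leaf 6 460 461) (node 554 (merge (leaf 0 554 555) (node 587 (merge (leaf 5 491 619) (node 586 (merge (leaf 3 553 553) (leaf 2 553 585))))))))))))))))))))))) (merge (node 526 (merge (node 558 (merge (leaf 0 523 523) (leaf 3 525 561))) (merge (node 495 (merge (leaf 7 463 463) (node 523 (merge (leaf 2 491 494) (node 554 (merge (leaf 1 522 555) (node 522 (merge (leaf 1 521 553) (node 490 (merge (leaf 3 489 489) (leaf 3 490 491))))))))))) (node 463 (merge (leaf 7 463 495) (node 464 (merge (leaf 7 431 431) (node 433 (merge (leaf 6 432 465) (node 432 (merge (leaf 6 400 401) (node 461 (merge (leaf 2 429 462) (node 558 (merge (leaf 3 525 561) (node 493 (merge (leaf 4 429 429) (node 590 (merge (leaf 7 461 494) (leaf 7 493 622)))))))))))))))))))) (node 493 (merge (node 495 (merge (leaf 7 463 463) (leaf 1 492 494))) (merge (node 463 (merge (leaf 7 463 495) (node 464 (merge (leaf 7 431 431) (node 433 (merge (leaf 6 432 465) (node 432 (merge (leaf 6 400 401) (node 461 (merge (leaf 2 429 462) (node 429 (merge (leaf 5 428 556) (node 398 (merge (leaf 6 397 430) (node 397 (merge (leaf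 6 365 366) (leaf 5 396 492))))))))))))))))) (merge (node 461 (merge (node 556 (merge (leaf 5 428 429) (node 588 (merge (leaf 6 460 492) (leaf 5 460 557))))) (merge (node 429 (merge (leaf 5 428 556) (node 398 (merge (leaf 6 397 430) (node 397 (merge (leaf 6 365 366) (leaf 5 396 492))))))) (merge (node 556 (merge (leaf 5 428 429) (node 588 (merge (leaf 5 460 557) (leaf 6 492 620))))) (merge (node 464 (merge (node 433 (merge (leaf 6 432 465) (node 432 (merge (leaf 6 400 401) (node 431 (merge (leaf 7 399 399) (leaf 7 431 463))))))) (merge (node 463 (merge (leaf 7 431 431) (node 462 (merge (leaf 1 460 492) (node 557 (merge (leaf 6 429 430) (node 589 (merge (leaf 6 461 494) (node 622 (merge (leaf 4 493 590) (node 621 (merge (leaf 4 525 654) (node 620 (merge (leaf 5 492 588) (leaf 5 524 652))))))))))))))) (merge (node 433 (merge (leaf 6 432 465) (node 432 (merge (leaf 6 400 401) (node 462 (merge (leaf 2 429 463) (node 557 (merge (leaf 6 429 430) (node 589 (merge (leaf 6 461 494) (node 460 (merge (leaf 7 428 428) (leaf 7 460 492))))))))))))) (node 433 (merge (leaf 6 432 465)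 (node 432 (merge (leaf 6 400 401) (node 431 (merge (leaf 7 399 399) (node 430 (merge (leaf 1 429 462) (node 429 (merge (leaf 6 397 398) (leaf 1 428 460))))))))))))))) (node 460 (merge (node 428 (merge (leaf 7 428 557) (node 396 (merge (leaf 4 364 364) (leaf 4 396 492))))) (merge (node 557 (merge (leaf 7 428 428) (node 462 (merge (leaf 6 429 430) (node 589 (merge (leaf 6 461 494) (node 588 (merge (leaf 5 460 556) (leaf 5 492 620))))))))) (merge (node 492 (merge (node 556 (merge (leaf 6 460 588) (node 459 (merge (leaf 7 427 427) (node 458 (merge (leaf 0 457 457) (leaf 0 458 494))))))) (node 557 (merge (leaf 7 460 589) (node 462 (merge (leaf 6 429 430) (node 491 (merge (leaf 1 459 463) (leaf 2 458 490))))))))) (node 492 (merge (node 556 (merge (leaf 6 460 588) (node 459 (merge (leaf 7 427 427) (node 458 (merge (leaf 0 457 457) (leaf 0 458 494))))))) (merge (node 428 (merge (leaf 4 396 396) (node 523 (merge (leaf 5 427 555) (node 522 (merge (leaf 2 490 494) (leaf 2 489 521))))))) (merge (node 428 (merge (leaf 4 396 396) (node 427 (merge (leaf 7 395 395) (node 556 (merge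 (leaf 7 427 459) (node 555 (merge (leaf 5 427 523) (leaf 5 459 587))))))))) (node 428 (merge (leaf 4 396 396) (node 523 (merge (leaf 5 427 555) (node 522 (merge (leaf 2 490 494) (leaf 2 489 521)))))))))))))))))))) (node 461 (merge (node 556 (merge (leaf 5 428 429) (node 588 (merge (leaf 6 460 492) (leaf 5 460 557))))) (merge (node 429 (merge (leaf 5 428 556) (node 398 (merge (leaf 6 397 430) (node 397 (merge (leaf 6 365 366) (leaf 5 396 492))))))) (merge (node 556 (merge (leaf 5 428 429) (node 588 (merge (leaf 5 460 557) (leaf 6 492 620))))) (merge (node 557 (merge (node 462 (merge (leaf 6 429 430) (node 589 (merge (leaf 6 461 494) (node 588 (merge (leaf 5 460 556) (leaf 5 492 620))))))) (merge (node 494 (merge (leaf 1 492 495) (node 589 (merge (leaf 6 461 462) (node 621 (merge (leaf 7 492 492) (leaf 6 493 526))))))) (merge (node 460 (merge (leaf 7 428 428) (node 589 (merge (leaf 7 460 492) (node 588 (merge (leaf 5 460 556) (leaf 5 492 620))))))) (node 462 (merge (leaf 6 429 430) (node 460 (merge (leaf 7 428 428) (node 494 (merge (leaf 1 492 495) (node 459 (merge (leaf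 0 458 458) (node 427 (merge (leaf 3 426 426) (node 556 (merge (leaf 7 427 492) (leaf 5 460 588))))))))))))))))) (node 429 (merge (node 398 (merge (leaf 6 397 430) (node 397 (merge (leaf 6 365 366) (leaf 5 396 492))))) (merge (node 494 (merge (leaf 1 492 495) (node 397 (merge (leaf 5 396 492) (leaf 4 397 526))))) (merge (node 494 (merge (leaf 1 492 495) (node 397 (merge (leaf 5 396 492) (leaf 4 397 526))))) (merge (node 428 (merge (leaf 7 396 396) (node 557 (merge (leaf 7 428 460) (node 462 (merge (leaf 6 429 430) (node 589 (merge (leaf 6 461 494) (node 622 (merge (leaf 4 493 590) (node 621 (merge (leaf 4 525 654) (node 620 (merge (leaf 5 492 588) (leaf 5 524 652))))))))))))))) (merge (node 428 (merge (leaf 7 396 396) (node 557 (merge (leaf 7 428 460) (node 397 (merge (leaf 5 396 492) (node 494 (merge (leaf 4 397 526) (node 462 (merge (leaf 4 365 365) (leaf 6 461 589))))))))))) (node 398 (merge (leaf 6 397 430) (node 397 (merge (leaf 6 365 366) (leaf 5 396 492)))))))))))))))))))))))) (node 524 (merge (node 558 (merge (leaf 3 524 557) (node 526 (merge (leaf 0 523 523)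 (leaf 3 525 561))))) (merge (node 557 (merge (leaf 3 524 558) (node 589 (merge (node 621 (merge (leaf 7 492 492) (node 653 (merge (leaf 7 524 556) (node 654 (merge (leaf 4 525 622) (leaf 4 557 686))))))) (merge (node 621 (merge (node 653 (merge (leaf 7 524 556) (node 654 (merge (leaf 4 525 622) (leaf 4 557 686))))) (node 620 (merge (leaf 5 524 652) (node 493 (merge (leaf 5 492 588) (node 494 (merge (leaf 6 461 462) (leaf 1 492 495))))))))) (merge (node 621 (merge (leaf 7 492 492) (node 620 (merge (leaf 5 524 652) (node 493 (merge (leaf 5 492 588) (node 494 (merge (leaf 6 461 462) (leaf 1 492 495))))))))) (node 493 (merge (node 494 (merge (leaf 6 461 462) (leaf 1 492 495))) (node 492 (merge (leaf 7 460 460) (node 590 (merge (leaf 4 493 622) (node 588 (merge (leaf 5 492 620) (node 556 (merge (leaf 6 460 461) (node 554 (merge (leaf 0 554 555) (node 587 (merge (leaf 5 491 619) (node 586 (merge (leaf 3 553 553) (leaf 2 553 585))))))))))))))))))))))) (merge (node 523 (merge (node 526 (merge (leaf 0 523 558) (node 554 (merge (leaf 1 522 555) (node 522 (merge (leaf 1 521 553)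 (node 490 (merge (leaf 3 489 489) (leaf 3 490 491))))))))) (merge (node 526 (merge (leaf 0 523 558) (node 554 (merge (leaf 1 522 555) (node 522 (merge (leaf 1 521 553) (node 494 (merge (leaf 2 490 493) (leaf 2 491 495))))))))) (merge (node 465 (merge (leaf 6 464 497) (node 526 (merge (leaf 0 523 558) (node 494 (merge (leaf 2 491 495) (node 522 (merge (leaf 2 490 493) (node 490 (merge (leaf 3 489 489) (leaf 3 490 491))))))))))) (merge (node 491 (merge (node 526 (merge (leaf 3 490 490) (leaf 0 523 558))) (merge (node 588 (merge (node 556 (merge (leaf 7 491 620) (node 459 (merge (leaf 4 427 427) (leaf 4 459 555))))) (merge (node 526 (merge (leaf 0 523 558) (node 555 (merge (leaf 1 522 554) (node 587 (merge (leaf 4 491 620) (node 619 (merge (leaf 6 491 492) (node 618 (merge (leaf 5 490 586) (leaf 5 522 650))))))))))) (merge (node 558 (merge (leaf 0 523 526) (node 556 (merge (leaf 7 491 620) (node 492 (merge (leaf 7 459 459) (node 589 (merge (leaf 4 492 621) (node 587 (merge (leaf 2 555 590) (leaf 5 491 619))))))))))) (node 526 (merge (leaf 0 523 558) (node 555 (merge (leaf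 1 522 554) (node 494 (merge (leaf 2 491 495) (node 459 (merge (leaf 4 459 556) (node 460 (merge (leaf 6 427 428) (node 458 (merge (leaf 7 426 426) (node 493 (merge (leaf 0 458 461) (leaf 3 458 492))))))))))))))))))) (node 459 (merge (node 427 (merge (leaf 4 427 556) (node 396 (merge (leaf 6 395 428) (node 395 (merge (leaf 6 363 364) (leaf 4 395 492))))))) (merge (node 465 (merge (leaf 6 464 497) (node 427 (merge (leaf 4 427 556) (node 428 (merge (leaf 6 395 396) (node 555 (merge (leaf 6 427 460) (node 426 (merge (leaf 7 394 394) (leaf 7 426 458))))))))))) (merge (node 427 (merge (leaf 4 427 556) (node 426 (merge (leaf 7 394 394) (node 555 (merge (leaf 7 426 458) (node 492 (merge (leaf 4 395 395) (node 587 (merge (leaf 6 459 460) (leaf 6 491 619))))))))))) (merge (node 427 (merge (leaf 4 427 556) (node 428 (merge (leaf 6 395 396) (node 555 (merge (leaf 6 427 460) (node 492 (merge (leaf 4 395 395) (node 490 (merge (leaf 0 489 489) (node 587 (merge (leaf 7 458 458) (leaf 6 491 619))))))))))))) (merge (node 428 (merge (node 427 (merge (leaf 6 395 396) (node 394 (merge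 (leaf 7 394 426) (node 395 (merge (leaf 7 362 362) (leaf 4 395 492))))))) (merge (node 555 (merge (leaf 6 427 460) (node 458 (merge (leaf 7 426 426) (node 587 (merge (leaf 7 458 490) (node 586 (merge (leaf 5 458 554) (leaf 5 490 618))))))))) (node 396 (merge (leaf 6 395 427) (node 460 (merge (leaf 5 395 492) (leaf 6 427 555)))))))) (node 555 (merge (node 460 (merge (leaf 6 427 428) (node 587 (merge (leaf 6 459 492) (node 586 (merge (leaf 5 458 554) (leaf 5 490 618))))))) (merge (node 554 (merge (leaf 5 458 586) (node 553 (merge (leaf 2 520 552) (leaf 2 521 556))))) (node 458 (merge (leaf 7 426 426) (node 587 (merge (leaf 7 458 490) (node 619 (merge (leaf 6 491 492) (node 651 (merge (leaf 6 523 556) (node 650 (merge (leaf 5 522 618) (leaf 5 554 682))))))))))))))))))))))) (hyp 1)))))) (hyp 2))))))))))) nP_186 cP_186 15 (by decide +kernel)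
def nP_187 : ℕ := 0x10000000100000001000000000000000000000000000000000000000000000000000000000000000000000000000000000000000000000000000000000000000000000000000000000000
def cP_187 : ℕ := 0x7000000178000001fc000003fc000003ff000007ff40001fffe0000ff7e0001deff80001effc0001c7f80000fffc0001fff00000fff000002fc00000074000000000000000000000000000000000000000000000000000000000000000000000000000000000000000000
theorem lP_187 : S nP_187 cP_187 17 := S_of_chk [(nP_177, cP_177, 14), (nP_181, cP_181, 16), (nP_182, cP_182, 13), (nP_186, cP_186, 15)] ⟨lP_177, lP_181, lP_182, lP_186, trivial⟩ (node 559 (merge (node 593 (merge (node 594 (merge (leaf 3 559 595) (node 558 (merge (leaf 0 557 557) (leaf 0 558 561))))) (node 625 (merge (leaf 4 496 496) (node 657 (merge (leaf 4 528 624) (leaf 7 560 689))))))) (merge (node 593 (merge (node 594 (merge (leaf 3 559 595) (node 558 (merge (leaf 0 557 557) (leaf 3 558 591))))) (node 625 (merge (leaf 4 496 496) (node 657 (merge (leaf 4 528 624) (leaf 7 560 689))))))) (merge (node 593 (merge (node 594 (merge (leaf 3 559 595) (node 558 (merge (leaf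 0 558 561) (leaf 3 558 591))))) (node 625 (merge (leaf 4 496 496) (node 657 (merge (leaf 4 528 624) (leaf 7 560 689))))))) (merge (node 496 (merge (node 465 (merge (leaf 6 464 497) (node 464 (merge (leaf 6 432 433) (leaf 5 463 591))))) (merge (node 464 (merge (leaf 5 463 591) (node 463 (merge (leaf 7 431 431) (leaf 7 463 495))))) (merge (node 465 (merge (leaf 6 464 497) (node 464 (merge (leaf 6 432 433) (node 463 (merge (leaf 7 431 431) (leaf 7 463 495))))))) (node 497 (merge (leaf 6 464 465) (node 495 (merge (leaf 7 463 463) (node 494 (merge (node 525 (merge (leaf 1 493 526) (node 493 (merge (leaf 1 492 524) (node 461 (merge (leaf 3 460 460) (leaf 3 461 462))))))) (merge (node 526 (merge (leaf 1 493 525) (node 462 (merge (leaf 3 461 461) (node 558 (merge (leaf 4 462 591) (node 557 (merge (leaf 5 461 589) (leaf 0 557 593))))))))) (merge (node 461 (merge (leaf 3 461 462) (node 493 (merge (leaf 3 460 460) (node 525 (merge (leaf 1 492 524) (node 593 (merge (leaf 4 496 625) (node 557 (merge (leaf 0 557 558) (node 588 (merge (leaf 5 460 556) (node 589 (merge (leaf 5 492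 620) (node 590 (merge (leaf 2 556 591) (leaf 4 493 622))))))))))))))))) (merge (node 525 (merge (leaf 1 493 526) (node 493 (merge (leaf 1 492 524) (node 593 (merge (leaf 4 496 625) (node 557 (merge (leaf 0 557 558) (node 589 (merge (leaf 6 461 462) (node 590 (merge (leaf 4 493 622) (node 588 (merge (leaf 2 556 591) (leaf 5 492 620))))))))))))))) (merge (node 461 (merge (leaf 3 461 462) (node 493 (merge (leaf 3 460 460) (node 593 (merge (leaf 4 496 625) (node 558 (merge (leaf 0 557 557) (node 590 (merge (leaf 7 461 526) (node 561 (merge (leaf 1 557 589) (node 562 (merge (leaf 1 558 591) (node 563 (merge (leaf 1 560 564) (node 531 (merge (leaf 2 527 530) (leaf 2 528 532))))))))))))))))))) (node 525 (merge (leaf 1 493 526) (node 493 (merge (leaf 1 492 524) (node 460 (merge (leaf 3 460 461) (node 492 (merge (leaf 3 459 459) (node 557 (merge (leaf 7 460 589) (node 558 (merge (leaf 0 557 593) (node 556 (merge (leaf 0 556 591) (node 587 (merge (leaf 1 555 588) (node 555 (merge (leaf 1 554 586) (node 523 (merge (leaf 6 459 491) (leaf 3 522 522)))))))))))))))))))))))))))))))))))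 (merge (node 558 (merge (node 593 (merge (leaf 0 557 557) (node 594 (merge (leaf 3 558 591) (leaf 3 559 595))))) (merge (node 593 (merge (leaf 0 557 557) (node 594 (merge (leaf 0 558 561) (leaf 3 559 595))))) (merge (node 557 (merge (node 588 (merge (leaf 1 556 589) (node 556 (merge (leaf 1 555 587) (leaf 0 556 591))))) (merge (node 524 (merge (leaf 3 524 525) (node 556 (merge (leaf 3 523 523) (leaf 0 556 591))))) (node 589 (merge (leaf 1 556 588) (node 561 (merge (leaf 1 557 590) (node 525 (merge (leaf 3 524 524) (leaf 3 525 526)))))))))) (node 463 (merge (node 496 (merge (leaf 7 463 495) (node 465 (merge (leaf 6 464 497) (node 464 (merge (leaf 7 431 431) (leaf 6 432 433))))))) (merge (node 496 (merge (leaf 7 463 495) (node 465 (merge (leaf 6 464 497) (node 464 (merge (leaf 6 432 433) (leaf 5 463 591))))))) (merge (node 526 (merge (node 561 (merge (leaf 3 525 525) (node 590 (merge (leaf 1 557 589) (node 494 (merge (leaf 6 462 495) (node 462 (merge (leaf 6 430 431) (node 461 (merge (leaf 7 429 429) (leaf 7 461 493))))))))))) (merge (node 561 (merge (leaf 3 525 525)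 (node 594 (merge (leaf 0 558 593) (node 562 (merge (leaf 0 559 595) (node 563 (merge (leaf 1 559 591) (node 531 (merge (leaf 2 527 530) (leaf 2 528 532))))))))))) (node 494 (merge (node 431 (merge (leaf 6 430 462) (node 495 (merge (leaf 5 398 399) (leaf 6 462 590))))) (merge (node 590 (merge (leaf 6 462 495) (node 589 (merge (leaf 5 493 621) (node 588 (merge (leaf 2 555 587) (leaf 2 556 591))))))) (node 462 (merge (leaf 4 462 591) (node 431 (merge (leaf 6 430 463) (node 430 (merge (leaf 6 398 399) (node 429 (merge (leaf 7 397 397) (leaf 7 429 461))))))))))))))) (node 464 (merge (node 496 (merge (leaf 7 431 431) (leaf 5 463 591))) (merge (node 496 (merge (leaf 5 463 591) (node 465 (merge (leaf 6 432 433) (leaf 6 464 497))))) (merge (node 496 (merge (leaf 7 431 431) (node 465 (merge (leaf 6 432 433) (leaf 6 464 497))))) (node 462 (merge (node 465 (merge (node 494 (merge (leaf 1 461 493) (node 526 (merge (leaf 6 430 431) (leaf 4 462 591))))) (node 498 (merge (leaf 0 462 497) (node 466 (merge (leaf 0 463 499) (node 434 (merge (leaf 2 430 433) (leaf 2 431 435))))))))) (merge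 (node 526 (merge (node 494 (merge (leaf 6 430 431) (leaf 4 462 591))) (merge (node 561 (merge (leaf 3 525 525) (node 594 (merge (leaf 0 558 593) (node 562 (merge (leaf 0 559 595) (node 590 (merge (leaf 1 557 589) (leaf 1 558 591))))))))) (node 494 (merge (leaf 6 430 431) (node 461 (merge (leaf 7 429 429) (node 590 (merge (leaf 7 461 493) (node 589 (merge (leaf 1 557 561) (leaf 5 493 621)))))))))))) (merge (node 465 (merge (node 493 (merge (leaf 1 461 494) (node 461 (merge (leaf 1 460 492) (node 433 (merge (leaf 2 429 432) (leaf 2 430 434))))))) (merge (node 498 (merge (leaf 0 462 497) (node 466 (merge (leaf 0 463 499) (node 434 (merge (leaf 2 430 433) (leaf 2 431 435))))))) (node 498 (merge (leaf 0 462 497) (node 499 (merge (leaf 0 463 466) (node 494 (merge (leaf 1 461 493) (node 526 (merge (leaf 4 462 591) (node 561 (merge (leaf 3 525 525) (node 594 (merge (leaf 0 558 593) (node 562 (merge (leaf 0 559 595) (node 530 (merge (leaf 6 466 467) (leaf 2 527 531)))))))))))))))))))) (merge (node 526 (merge (node 494 (merge (leaf 6 430 431) (leaf 4 462 591))) (merge (node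 561 (merge (leaf 3 525 525) (node 594 (merge (leaf 0 558 593) (node 562 (merge (leaf 0 559 595) (node 590 (merge (leaf 1 557 589) (leaf 1 558 591))))))))) (node 494 (merge (leaf 6 430 431) (node 465 (merge (leaf 1 461 493) (node 498 (merge (leaf 0 462 497) (node 466 (merge (leaf 0 463 499) (node 433 (merge (leaf 2 430 434) (node 562 (merge (leaf 7 433 530) (node 561 (merge (leaf 3 525 525) (node 594 (merge (leaf 0 558 593) (leaf 0 559 595)))))))))))))))))))) (merge (node 465 (merge (node 498 (merge (leaf 0 462 497) (node 466 (merge (leaf 0 463 499) (node 430 (merge (leaf 3 429 429) (leaf 3 430 431))))))) (merge (node 433 (merge (leaf 2 430 434) (node 461 (merge (leaf 2 429 432) (node 429 (merge (leaf 3 428 428) (leaf 3 429 430))))))) (merge (node 498 (merge (leaf 0 462 497) (node 433 (merge (leaf 2 430 434) (node 461 (merge (leaf 2 429 432) (node 429 (merge (leaf 3 428 428) (node 526 (merge (leaf 7 429 494) (node 561 (merge (leaf 3 525 525) (node 590 (merge (leaf 1 557 589) (node 562 (merge (leaf 1 558 591) (node 530 (merge (leaf 7 433 466) (leaf 2 527 531)))))))))))))))))))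 (node 498 (merge (leaf 0 462 497) (node 466 (merge (leaf 0 463 499) (node 433 (merge (leaf 2 430 434) (node 562 (merge (leaf 7 433 530) (node 431 (merge (leaf 3 430 430) (node 526 (merge (leaf 6 430 494) (node 561 (merge (leaf 3 525 525) (node 591 (merge (leaf 1 559 563) (leaf 1 558 590))))))))))))))))))))) (node 433 (merge (node 461 (merge (leaf 2 429 432) (node 492 (merge (leaf 1 460 493) (node 460 (merge (leaf 1 459 491) (node 428 (merge (leaf 3 427 427) (leaf 3 428 429))))))))) (merge (node 465 (merge (leaf 2 430 434) (node 498 (merge (leaf 0 462 497) (node 466 (merge (leaf 0 463 499) (node 430 (merge (leaf 3 429 429) (leaf 3 430 431))))))))) (node 432 (merge (leaf 2 429 461) (node 434 (merge (leaf 1 430 431) (leaf 2 430 465)))))))))))))))))))))))))) (merge (node 657 (merge (node 625 (merge (leaf 4 528 624) (node 593 (merge (leaf 7 528 561) (leaf 7 560 689))))) (merge (node 624 (merge (leaf 4 528 625) (node 656 (merge (leaf 4 560 689) (node 688 (merge (leaf 7 559 591) (node 687 (merge (leaf 5 559 655) (leaf 5 591 719))))))))) (merge (node 625 (merge (leaf 4 528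 624) (node 593 (merge (leaf 7 528 561) (node 594 (merge (leaf 3 559 595) (node 591 (merge (leaf 3 558 558) (node 562 (merge (leaf 2 559 563) (node 530 (merge (leaf 5 497 498) (leaf 5 529 626))))))))))))) (merge (node 593 (merge (node 625 (merge (leaf 7 528 561) (leaf 7 560 689))) (merge (node 558 (merge (leaf 0 557 557) (node 594 (merge (leaf 0 558 561) (leaf 3 558 591))))) (node 689 (merge (leaf 7 560 625) (node 594 (merge (leaf 3 559 595) (node 591 (merge (leaf 3 558 558) (node 626 (merge (leaf 0 591 627) (node 562 (merge (leaf 2 559 563) (leaf 5 561 658)))))))))))))) (node 558 (merge (node 557 (merge (leaf 0 557 593) (node 556 (merge (leaf 0 556 591) (node 588 (merge (leaf 1 555 587) (leaf 1 556 589))))))) (merge (node 557 (merge (leaf 0 557 593) (node 589 (merge (leaf 1 556 588) (node 561 (merge (leaf 1 557 590) (node 525 (merge (leaf 3 524 524) (leaf 3 525 526))))))))) (merge (node 557 (merge (leaf 0 557 593) (node 591 (merge (leaf 0 556 556) (node 525 (merge (leaf 3 524 524) (node 561 (merge (leaf 3 525 526) (node 562 (merge (leaf 1 559 563) (leaf 1 558 590)))))))))))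 (merge (node 557 (merge (node 588 (merge (leaf 1 556 589) (node 556 (merge (leaf 1 555 587) (leaf 0 556 591))))) (merge (node 524 (merge (leaf 3 524 525) (node 556 (merge (leaf 3 523 523) (leaf 0 556 591))))) (node 589 (merge (leaf 1 556 588) (node 561 (merge (leaf 1 557 590) (node 525 (merge (leaf 3 524 524) (leaf 3 525 526)))))))))) (merge (node 557 (merge (leaf 0 557 593) (node 591 (merge (leaf 0 556 556) (node 589 (merge (leaf 1 556 588) (node 590 (merge (leaf 1 557 561) (node 621 (merge (leaf 1 588 620) (node 653 (merge (leaf 6 525 526) (leaf 6 557 685))))))))))))) (hyp 0)))))))))))) (merge (hyp 1) (node 525 (merge (node 496 (merge (node 465 (merge (leaf 6 464 497) (node 464 (merge (leaf 6 432 433) (leaf 5 463 591))))) (merge (node 464 (merge (leaf 5 463 591) (node 463 (merge (leaf 7 431 431) (leaf 7 463 495))))) (node 497 (merge (leaf 6 464 465) (node 495 (merge (leaf 7 463 463) (node 494 (merge (leaf 1 493 526) (node 493 (merge (leaf 1 492 524) (node 461 (merge (leaf 3 460 460) (leaf 3 461 462)))))))))))))) (merge (node 558 (merge (node 524 (merge (leaf 3 524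 557) (node 526 (merge (leaf 0 523 523) (leaf 3 525 561))))) (merge (node 557 (merge (leaf 3 524 524) (node 588 (merge (leaf 1 556 589) (node 556 (merge (leaf 1 555 587) (leaf 0 556 591))))))) (node 561 (merge (leaf 3 525 526) (node 590 (merge (leaf 1 557 589) (node 562 (merge (leaf 1 558 591) (node 595 (merge (leaf 0 559 594) (node 563 (merge (leaf 0 560 596) (node 531 (merge (leaf 2 527 530) (leaf 2 528 532)))))))))))))))) (merge (node 496 (merge (node 465 (merge (leaf 6 464 497) (node 464 (merge (leaf 6 432 433) (leaf 5 463 591))))) (merge (node 464 (merge (leaf 5 463 591) (node 463 (merge (leaf 7 431 431) (leaf 7 463 495))))) (merge (node 465 (merge (leaf 6 464 497) (node 464 (merge (leaf 6 432 433) (node 463 (merge (leaf 7 431 431) (leaf 7 463 495))))))) (node 557 (merge (node 497 (merge (leaf 6 464 465) (node 495 (merge (leaf 7 463 463) (node 494 (merge (leaf 1 493 526) (node 461 (merge (leaf 3 461 462) (node 493 (merge (leaf 3 460 460) (node 588 (merge (leaf 5 460 556) (node 589 (merge (leaf 1 556 558) (leaf 5 492 620))))))))))))))) (merge (node 497 (merge (leaf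 6 464 465) (node 495 (merge (leaf 7 463 463) (node 494 (merge (leaf 1 493 526) (node 461 (merge (leaf 3 461 462) (node 493 (merge (leaf 3 460 460) (node 558 (merge (leaf 4 461 590) (node 556 (merge (leaf 5 460 588) (leaf 0 556 591))))))))))))))) (merge (node 497 (merge (leaf 6 464 465) (node 495 (merge (leaf 7 463 463) (node 526 (merge (leaf 1 493 494) (node 558 (merge (leaf 3 525 561) (node 591 (merge (leaf 0 556 556) (node 589 (merge (leaf 1 556 588) (node 621 (merge (leaf 6 525 653) (node 620 (merge (leaf 1 588 590) (leaf 5 524 652))))))))))))))))) (merge (node 497 (merge (leaf 6 464 465) (node 495 (merge (leaf 7 463 463) (node 494 (merge (leaf 1 493 526) (node 461 (merge (leaf 3 461 462) (node 493 (merge (leaf 3 460 460) (node 588 (merge (leaf 5 460 556) (node 589 (merge (leaf 5 492 620) (node 590 (merge (leaf 2 556 591) (leaf 4 493 622))))))))))))))))) (merge (node 497 (merge (leaf 6 464 465) (node 495 (merge (leaf 7 463 463) (node 494 (merge (leaf 1 493 526) (node 461 (merge (leaf 3 461 462) (node 493 (merge (leaf 3 460 460) (node 590 (merge (leaf 4 461 558)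 (node 589 (merge (leaf 4 493 622) (node 588 (merge (leaf 2 556 591) (leaf 5 492 620))))))))))))))))) (merge (node 497 (merge (leaf 6 464 465) (node 495 (merge (leaf 7 463 463) (node 494 (merge (leaf 1 493 526) (node 461 (merge (leaf 3 461 462) (node 493 (merge (leaf 3 460 460) (node 590 (merge (leaf 4 461 558) (node 589 (merge (leaf 4 493 622) (node 591 (merge (leaf 3 556 556) (leaf 2 557 561))))))))))))))))) (merge (node 589 (merge (node 588 (merge (leaf 1 556 558) (node 493 (merge (leaf 5 492 620) (node 462 (merge (leaf 6 461 494) (node 461 (merge (leaf 6 429 430) (leaf 5 460 556))))))))) (merge (node 590 (merge (node 591 (merge (leaf 3 556 556) (leaf 2 557 561))) (node 622 (merge (leaf 4 493 493) (node 654 (merge (leaf 7 525 558) (leaf 4 525 621))))))) (merge (node 497 (merge (leaf 6 464 465) (node 558 (merge (leaf 1 556 588) (node 591 (merge (leaf 0 556 556) (node 590 (merge (leaf 1 557 561) (node 654 (merge (leaf 7 525 622) (node 621 (merge (leaf 1 588 620) (node 653 (merge (leaf 6 557 685) (leaf 4 557 686))))))))))))))) (node 497 (merge (leaf 6 464 465) (node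 620 (merge (node 493 (merge (leaf 5 492 588) (node 462 (merge (leaf 6 461 494) (node 461 (merge (leaf 6 429 430) (node 460 (merge (leaf 7 428 428) (leaf 7 460 492))))))))) (node 621 (merge (leaf 5 524 652) (node 591 (merge (leaf 1 588 590) (node 654 (merge (leaf 4 525 622) (node 653 (merge (leaf 4 557 686) (node 656 (merge (leaf 3 620 655) (node 624 (merge (leaf 7 559 688) (node 657 (merge (leaf 4 528 625) (leaf 4 560 689))))))))))))))))))))))) (node 558 (merge (node 588 (merge (leaf 1 556 589) (node 556 (merge (leaf 1 555 587) (leaf 0 556 591))))) (merge (node 589 (merge (leaf 1 556 588) (node 561 (merge (leaf 3 525 526) (leaf 1 557 590))))) (merge (node 556 (merge (leaf 0 556 591) (node 587 (merge (leaf 1 555 588) (node 555 (merge (leaf 1 554 586) (node 554 (merge (leaf 2 522 526) (node 522 (merge (leaf 3 521 521) (leaf 3 522 523))))))))))) (node 561 (merge (leaf 3 525 526) (node 590 (merge (leaf 1 557 589) (node 562 (merge (leaf 1 558 591) (node 595 (merge (leaf 0 559 594) (node 563 (merge (leaf 0 560 596) (node 531 (merge (leaf 2 527 530) (leaf 2 528 532)))))))))))))))))))))))))))))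 (merge (hyp 2) (hyp 3)))))))))))))) nP_187 cP_187 17 (by decide +kernel)
def nP_188 : ℕ := 0x100000001000000000000000080000000000000000000000000000000000000000000000000000000000000000000000000000000000000000000000000000000000000000000
def cP_188 : ℕ := 0xe000001ff800001f7800003ffc00000ff000000ff8000003400000000000000000000000000000000000000000000000000000000000000000000000000000000000
theorem lP_188 : S nP_188 cP_188 13 := S_of_chk [] trivial (node 431 (merge (node 495 (merge (leaf 4 431 527) (node 496 (merge (leaf 4 399 399) (leaf 7 431 464))))) (merge (node 464 (merge (leaf 7 431 496) (node 465 (merge (node 430 (merge (leaf 3 430 466) (node 429 (merge (leaf 0 428 428) (leaf 3 429 462))))) (merge (node 466 (merge (leaf 3 430 430) (node 435 (merge (leaf 2 431 434) (node 467 (merge (leaf 3 431 432) (leaf 2 432 436))))))) (merge (node 462 (merge (node 494 (merge (leaf 1 461 493) (node 430 (merge (leaf 3 429 429) (node 399 (merge (leaf 5 366 367) (leaf 6 398 526))))))) (merge (node 433 (merge (leaf 2 430 434) (node 461 (merge (leaf 2 429 432) (node 429 (merge (leaf 3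 428 428) (leaf 3 429 430))))))) (node 493 (merge (leaf 1 461 494) (node 461 (merge (leaf 1 460 492) (node 433 (merge (leaf 2 429 432) (leaf 2 430 434)))))))))) (node 466 (merge (node 499 (merge (leaf 0 463 498) (node 467 (merge (leaf 0 464 500) (node 435 (merge (leaf 2 431 434) (leaf 2 432 436))))))) (merge (node 498 (merge (leaf 0 463 499) (node 462 (merge (leaf 0 462 497) (node 434 (merge (leaf 2 430 433) (leaf 2 431 435))))))) (merge (node 467 (merge (node 435 (merge (leaf 2 431 434) (leaf 2 432 436))) (merge (node 432 (merge (leaf 3 431 431) (node 433 (merge (leaf 3 432 468) (node 462 (merge (leaf 2 430 434) (leaf 2 429 461))))))) (node 436 (merge (leaf 2 432 435) (node 468 (merge (leaf 2 433 437) (node 432 (merge (leaf 3 431 431) (leaf 3 432 433)))))))))) (merge (node 499 (merge (leaf 0 463 498) (node 467 (merge (leaf 0 464 500) (node 436 (merge (leaf 2 432 435) (node 468 (merge (leaf 2 433 437) (node 432 (merge (leaf 3 431 431) (leaf 3 432 433))))))))))) (node 498 (merge (leaf 0 463 499) (node 462 (merge (leaf 0 462 497) (node 433 (merge (leaf 2 430 434) (node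 432 (merge (leaf 2 429 461) (node 467 (merge (leaf 3 431 431) (leaf 3 432 468)))))))))))))))))))))) (merge (node 464 (merge (leaf 7 431 496) (node 462 (merge (node 461 (merge (node 432 (merge (leaf 2 429 433) (leaf 2 428 460))) (merge (node 492 (merge (leaf 1 460 493) (node 460 (merge (leaf 1 459 491) (node 430 (merge (leaf 2 427 459) (node 465 (merge (leaf 3 429 429) (leaf 3 430 466))))))))) (node 433 (merge (leaf 2 429 432) (node 465 (merge (leaf 2 430 434) (node 430 (merge (leaf 3 429 429) (leaf 3 430 466)))))))))) (merge (node 461 (merge (node 432 (merge (leaf 2 429 433) (leaf 2 428 460))) (merge (node 492 (merge (leaf 1 460 493) (node 460 (merge (leaf 1 459 491) (node 428 (merge (leaf 3 427 427) (leaf 3 428 429))))))) (node 432 (merge (leaf 2 429 433) (node 429 (merge (leaf 3 428 428) (node 465 (merge (leaf 0 429 430) (node 498 (merge (leaf 0 462 497) (node 466 (merge (leaf 3 431 467) (leaf 0 463 499)))))))))))))) (merge (node 461 (merge (node 492 (merge (leaf 1 460 493) (node 460 (merge (leaf 1 459 491) (node 428 (merge (leaf 3 427 427) (leaf 3 428 429)))))))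 (merge (node 429 (merge (leaf 3 428 428) (node 465 (merge (leaf 3 429 430) (node 498 (merge (leaf 0 462 497) (node 466 (merge (leaf 0 463 499) (node 434 (merge (leaf 2 430 433) (leaf 2 431 435))))))))))) (merge (node 492 (merge (leaf 1 460 493) (node 460 (merge (leaf 1 459 491) (node 430 (merge (leaf 2 427 459) (node 465 (merge (leaf 3 429 429) (leaf 3 430 466))))))))) (node 492 (merge (leaf 1 460 493) (node 460 (merge (leaf 1 459 491) (node 459 (merge (leaf 2 427 430) (node 427 (merge (leaf 3 426 426) (leaf 3 427 428))))))))))))) (merge (node 433 (merge (node 434 (merge (leaf 1 430 432) (leaf 2 430 465))) (merge (node 461 (merge (leaf 2 429 432) (node 492 (merge (leaf 1 460 493) (node 460 (merge (leaf 1 459 491) (node 459 (merge (leaf 2 427 430) (node 427 (merge (leaf 3 426 426) (leaf 3 427 428))))))))))) (node 465 (merge (leaf 2 430 434) (node 498 (merge (leaf 0 462 497) (node 466 (merge (leaf 3 430 430) (leaf 0 463 499)))))))))) (merge (node 461 (merge (node 428 (merge (leaf 3 428 429) (node 460 (merge (leaf 3 427 427) (leaf 2 428 432))))) (merge (node 492 (merge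 (leaf 1 460 493) (node 460 (merge (leaf 1 459 491) (node 430 (merge (leaf 2 427 459) (node 465 (merge (leaf 3 429 429) (leaf 3 430 466))))))))) (merge (node 492 (merge (leaf 1 460 493) (node 460 (merge (leaf 1 459 491) (node 459 (merge (leaf 2 427 430) (node 427 (merge (leaf 3 426 426) (leaf 3 427 428))))))))) (node 429 (merge (leaf 3 428 428) (node 465 (merge (leaf 3 429 430) (node 498 (merge (leaf 0 462 497) (node 466 (merge (leaf 0 463 499) (node 435 (merge (leaf 2 431 434) (node 467 (merge (leaf 3 431 432) (leaf 2 432 436))))))))))))))))) (merge (node 465 (merge (node 498 (merge (leaf 0 462 497) (node 466 (merge (leaf 0 463 499) (node 434 (merge (leaf 2 430 433) (leaf 2 431 435))))))) (merge (node 433 (merge (leaf 2 430 434) (node 461 (merge (leaf 2 429 432) (node 492 (merge (leaf 1 460 493) (node 460 (merge (leaf 1 459 491) (node 428 (merge (leaf 3 427 427) (leaf 3 428 429))))))))))) (merge (node 498 (merge (leaf 0 462 497) (node 466 (merge (leaf 0 463 499) (node 432 (merge (leaf 3 431 467) (node 461 (merge (leaf 2 429 433) (leaf 2 428 460))))))))) (node 498 (merge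 (leaf 0 462 497) (node 466 (merge (leaf 0 463 499) (node 435 (merge (leaf 2 431 434) (node 467 (merge (leaf 3 431 432) (leaf 2 432 436))))))))))))) (merge (node 432 (merge (node 461 (merge (leaf 2 429 433) (leaf 2 428 460))) (merge (node 430 (merge (node 429 (merge (leaf 0 428 428) (node 433 (merge (leaf 1 430 434) (node 401 (merge (leaf 2 397 400) (leaf 2 398 402))))))) (merge (node 433 (merge (leaf 1 430 434) (node 398 (merge (leaf 3 397 397) (node 495 (merge (leaf 4 366 366) (leaf 7 398 527))))))) (node 429 (merge (leaf 0 428 428) (node 400 (merge (leaf 2 397 401) (node 495 (merge (leaf 5 367 368) (leaf 6 399 527)))))))))) (node 400 (merge (node 495 (merge (leaf 5 367 368) (leaf 6 399 527))) (node 461 (merge (leaf 2 428 460) (node 493 (merge (leaf 1 460 492) (node 429 (merge (leaf 3 428 428) (node 430 (merge (leaf 2 397 401) (node 398 (merge (leaf 5 365 366) (leaf 6 397 525)))))))))))))))) (node 430 (merge (node 465 (merge (leaf 3 430 466) (node 429 (merge (leaf 0 428 428) (leaf 3 429 462))))) (merge (node 432 (merge (node 429 (merge (leaf 0 428 428) (node 433 (merge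 (leaf 1 430 434) (node 401 (merge (leaf 2 397 400) (leaf 2 398 402))))))) (merge (node 433 (merge (leaf 1 430 434) (node 398 (merge (leaf 3 397 397) (node 495 (merge (leaf 4 366 366) (leaf 7 398 527))))))) (node 429 (merge (leaf 0 428 428) (node 400 (merge (leaf 2 397 401) (node 495 (merge (leaf 5 367 368) (leaf 6 399 527)))))))))) (node 433 (merge (node 465 (merge (leaf 2 430 434) (leaf 3 430 466))) (merge (node 432 (merge (leaf 1 430 434) (node 398 (merge (leaf 3 397 397) (node 495 (merge (leaf 4 366 366) (leaf 7 398 527))))))) (node 465 (merge (leaf 3 430 466) (node 495 (merge (leaf 4 431 527) (node 398 (merge (leaf 4 366 366) (node 432 (merge (leaf 3 397 397) (node 401 (merge (leaf 2 398 402) (node 369 (merge (leaf 5 336 337) (node 368 (merge (leaf 7 336 336) (leaf 5 367 400))))))))))))))))))))))))))))))) (node 495 (merge (leaf 4 431 527) (node 399 (merge (node 366 (merge (leaf 7 366 398) (node 367 (merge (leaf 7 334 334) (node 494 (merge (leaf 5 366 462) (leaf 5 398 526))))))) (merge (node 368 (merge (leaf 6 367 400) (node 367 (merge (leaf 6 335 336) (node 494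 (merge (leaf 5 366 462) (leaf 5 398 526))))))) (node 398 (merge (leaf 7 366 366) (node 400 (merge (leaf 6 367 368) (node 401 (merge (node 434 (merge (leaf 0 398 433) (node 402 (merge (leaf 0 399 435) (node 370 (merge (leaf 2 366 369) (leaf 2 367 371))))))) (merge (node 433 (merge (leaf 0 398 434) (node 397 (merge (leaf 0 397 432) (node 428 (merge (leaf 1 396 429) (node 396 (merge (leaf 1 395 427) (node 364 (merge (leaf 3 363 363) (leaf 3 364 365))))))))))) (merge (node 370 (merge (leaf 2 366 369) (node 402 (merge (leaf 2 367 371) (node 432 (merge (leaf 1 399 403) (node 397 (merge (leaf 0 396 396) (leaf 0 397 433))))))))) (node 370 (merge (leaf 2 366 369) (node 402 (merge (leaf 2 367 371) (node 435 (merge (leaf 0 399 434) (node 403 (merge (leaf 1 399 432) (leaf 0 400 436)))))))))))))))))))))))))) nP_188 cP_188 13 (by decide +kernel)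
def nP_189 : ℕ := 0x100000001000000000000000080000000000000000000000000000000000000000000000000000000000000000000000000000000000000000000000000000000000000000000
def cP_189 : ℕ := 0xef0000000f0000001f80000077800000ffc000007f8000007fc000003f8000001c000000000000000000000000000000000000000000000000000000000000000000000000000
theorem lP_189 : S nP_189 cP_189 13 := S_of_chk [] trivial (node 431 (merge (node 495 (merge (leaf 4 431 527) (node 496 (merge (leaf 4 399 399) (leaf 7 431 464))))) (merge (node 399 (merge (node 496 (merge (leaf 7 431 464) (leaf 4 399 495))) (node 367 (merge (node 334 (merge (leaf 7 334 366) (node 335 (merge (leaf 7 302 302) (node 462 (merge (leaf 5 334 430) (leaf 5 366 494))))))) (merge (node 336 (merge (leaf 6 335 368) (node 335 (merge (leaf 6 303 304) (node 462 (merge (leaf 5 334 430) (leaf 5 366 494))))))) (node 366 (merge (leaf 7 334 334) (node 365 (merge (node 400 (merge (leaf 0 364 364) (node 401 (merge (leaf 3 365 398) (leaf 3 366 402))))) (merge (node 368 (merge (leaf 6 335 336) (node 400 (merge (leaf 0 364 364) (leaf 0 365 401))))) (merge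 (node 368 (merge (leaf 6 335 336) (node 397 (merge (leaf 1 364 396) (node 398 (merge (leaf 1 365 369) (node 364 (merge (leaf 0 363 363) (node 332 (merge (leaf 3 331 331) (leaf 3 332 333))))))))))) (node 368 (merge (leaf 6 335 336) (node 401 (merge (leaf 0 365 400) (node 369 (merge (leaf 0 366 402) (node 397 (merge (leaf 1 364 396) (leaf 1 365 398)))))))))))))))))))) (merge (node 399 (merge (node 495 (merge (leaf 4 431 527) (node 366 (merge (leaf 7 366 398) (node 367 (merge (leaf 7 334 334) (node 494 (merge (leaf 5 366 462) (leaf 5 398 526))))))))) (merge (node 495 (merge (leaf 4 431 527) (node 368 (merge (leaf 6 367 400) (node 367 (merge (leaf 6 335 336) (node 494 (merge (leaf 5 366 462) (leaf 5 398 526))))))))) (merge (node 367 (merge (node 334 (merge (leaf 7 334 366) (node 335 (merge (leaf 7 302 302) (node 462 (merge (leaf 5 334 430) (leaf 5 366 494))))))) (merge (node 336 (merge (leaf 6 335 368) (node 335 (merge (leaf 6 303 304) (node 462 (merge (leaf 5 334 430) (leaf 5 366 494))))))) (node 366 (merge (leaf 7 334 334) (node 365 (merge (node 400 (merge (leaf 0 364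 364) (node 401 (merge (leaf 3 365 398) (leaf 3 366 402))))) (merge (node 368 (merge (leaf 6 335 336) (node 400 (merge (leaf 0 364 364) (leaf 0 365 401))))) (merge (node 368 (merge (leaf 6 335 336) (node 397 (merge (leaf 1 364 396) (node 398 (merge (leaf 1 365 369) (node 364 (merge (leaf 0 363 363) (node 332 (merge (leaf 3 331 331) (leaf 3 332 333))))))))))) (node 368 (merge (leaf 6 335 336) (node 401 (merge (leaf 0 365 400) (node 369 (merge (leaf 0 366 402) (node 397 (merge (leaf 1 364 396) (leaf 1 365 398)))))))))))))))))) (node 398 (merge (node 495 (merge (leaf 7 366 366) (leaf 4 431 527))) (merge (node 397 (merge (node 432 (merge (leaf 0 396 396) (node 433 (merge (leaf 0 397 400) (leaf 3 398 434))))) (merge (node 432 (merge (leaf 0 396 396) (node 433 (merge (leaf 3 397 430) (leaf 3 398 434))))) (merge (node 495 (merge (leaf 4 431 527) (node 400 (merge (leaf 6 367 368) (node 429 (merge (leaf 1 396 428) (node 430 (merge (leaf 1 397 401) (node 396 (merge (leaf 0 395 395) (node 364 (merge (leaf 3 363 363) (leaf 3 364 365))))))))))))) (node 495 (merge (leaf 4 431 527)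 (node 400 (merge (leaf 6 367 368) (node 433 (merge (leaf 0 397 432) (node 401 (merge (leaf 0 398 434) (node 429 (merge (leaf 1 396 428) (leaf 1 397 430))))))))))))))) (node 397 (merge (node 432 (merge (leaf 0 396 396) (node 433 (merge (leaf 0 397 400) (leaf 3 398 434))))) (merge (node 396 (merge (leaf 0 396 432) (node 395 (merge (leaf 0 395 430) (node 427 (merge (leaf 1 394 426) (leaf 1 395 428))))))) (merge (node 396 (merge (node 395 (merge (leaf 0 395 430) (node 427 (merge (leaf 1 394 426) (leaf 1 395 428))))) (merge (node 395 (merge (leaf 0 395 430) (node 363 (merge (leaf 3 362 362) (leaf 3 363 364))))) (node 428 (merge (leaf 1 395 427) (node 400 (merge (leaf 1 396 429) (node 364 (merge (leaf 3 363 363) (leaf 3 364 365)))))))))) (node 400 (merge (node 432 (merge (leaf 0 397 433) (node 368 (merge (leaf 5 335 336) (leaf 2 365 369))))) (node 429 (merge (leaf 1 396 428) (node 401 (merge (leaf 1 397 430) (node 365 (merge (leaf 3 364 364) (leaf 3 365 366)))))))))))))))))))) (merge (node 464 (merge (leaf 7 431 496) (node 462 (merge (node 433 (merge (node 465 (merge (leaf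 2 430 434) (node 430 (merge (leaf 3 429 429) (leaf 3 430 466))))) (merge (node 432 (merge (leaf 2 429 461) (node 434 (merge (leaf 1 430 431) (leaf 2 430 465))))) (merge (node 432 (merge (leaf 1 430 434) (node 461 (merge (leaf 1 429 430) (leaf 2 429 464))))) (node 461 (merge (leaf 2 429 432) (node 493 (merge (leaf 1 460 492) (node 465 (merge (leaf 1 461 494) (node 430 (merge (leaf 3 429 429) (leaf 3 430 466))))))))))))) (merge (node 527 (merge (leaf 4 431 495) (node 526 (merge (node 561 (merge (leaf 0 525 525) (node 562 (merge (leaf 3 526 559) (leaf 3 527 563))))) (merge (node 494 (merge (leaf 6 430 558) (node 525 (merge (leaf 0 525 561) (node 557 (merge (leaf 5 429 430) (leaf 1 524 556))))))) (node 494 (merge (leaf 6 430 558) (node 430 (merge (leaf 4 430 559) (node 429 (merge (leaf 7 397 397) (node 464 (merge (leaf 0 428 428) (leaf 3 429 465)))))))))))))) (merge (node 461 (merge (node 432 (merge (leaf 2 428 460) (node 433 (merge (leaf 1 430 434) (leaf 2 429 464))))) (merge (node 492 (merge (leaf 1 460 493) (node 460 (merge (leaf 1 459 491) (node 428 (merge (leaf 3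 427 427) (leaf 3 428 429))))))) (node 493 (merge (leaf 1 460 492) (node 465 (merge (leaf 1 461 494) (node 433 (merge (leaf 2 429 432) (leaf 2 430 434)))))))))) (merge (node 432 (merge (node 461 (merge (leaf 2 429 433) (leaf 2 428 460))) (merge (node 430 (merge (node 429 (merge (leaf 0 428 428) (node 433 (merge (leaf 1 430 434) (node 401 (merge (leaf 2 397 400) (leaf 2 398 402))))))) (merge (node 433 (merge (leaf 1 430 434) (node 398 (merge (leaf 3 397 397) (node 495 (merge (leaf 4 366 366) (leaf 7 398 527))))))) (node 429 (merge (leaf 0 428 428) (node 400 (merge (leaf 2 397 401) (node 495 (merge (leaf 5 367 368) (leaf 6 399 527)))))))))) (node 400 (merge (node 495 (merge (leaf 5 367 368) (leaf 6 399 527))) (node 461 (merge (leaf 2 428 460) (node 493 (merge (leaf 1 460 492) (node 429 (merge (leaf 3 428 428) (node 430 (merge (leaf 2 397 401) (node 398 (merge (leaf 5 365 366) (leaf 6 397 525)))))))))))))))) (node 433 (merge (node 434 (merge (leaf 2 430 465) (node 432 (merge (leaf 1 430 431) (leaf 1 431 435))))) (merge (node 465 (merge (leaf 2 430 434) (node 466 (merge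 (leaf 3 430 430) (node 495 (merge (leaf 1 462 494) (leaf 4 431 527))))))) (node 461 (merge (leaf 2 429 432) (node 492 (merge (leaf 1 460 493) (node 460 (merge (leaf 1 459 491) (node 459 (merge (leaf 2 427 430) (node 427 (merge (leaf 3 426 426) (leaf 3 427 428))))))))))))))))))))) (node 464 (merge (leaf 7 431 496) (node 462 (merge (node 433 (merge (node 465 (merge (leaf 2 430 434) (node 430 (merge (leaf 3 429 429) (leaf 3 430 466))))) (merge (node 432 (merge (leaf 2 429 461) (node 434 (merge (leaf 1 430 431) (leaf 2 430 465))))) (merge (node 432 (merge (leaf 1 430 434) (node 461 (merge (leaf 1 429 430) (leaf 2 429 464))))) (node 461 (merge (leaf 2 429 432) (node 493 (merge (leaf 1 460 492) (node 465 (merge (leaf 1 461 494) (node 430 (merge (leaf 3 429 429) (leaf 3 430 466))))))))))))) (merge (node 461 (merge (node 432 (merge (leaf 2 428 460) (node 433 (merge (leaf 1 430 434) (leaf 2 429 464))))) (merge (node 492 (merge (leaf 1 460 493) (node 460 (merge (leaf 1 459 491) (node 428 (merge (leaf 3 427 427) (leaf 3 428 429))))))) (node 493 (merge (leaf 1 460 492) (node 465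 (merge (leaf 1 461 494) (node 433 (merge (leaf 2 429 432) (leaf 2 430 434)))))))))) (merge (node 433 (merge (node 434 (merge (leaf 2 430 465) (node 432 (merge (leaf 1 430 431) (leaf 1 431 435))))) (merge (node 465 (merge (leaf 2 430 434) (node 494 (merge (leaf 1 461 493) (node 526 (merge (leaf 6 430 558) (node 430 (merge (leaf 6 398 399) (leaf 3 430 466))))))))) (node 461 (merge (leaf 2 429 432) (node 492 (merge (leaf 1 460 493) (node 460 (merge (leaf 1 459 491) (node 459 (merge (leaf 2 427 430) (node 427 (merge (leaf 3 426 426) (leaf 3 427 428)))))))))))))) (merge (node 430 (merge (node 465 (merge (leaf 3 430 466) (node 429 (merge (leaf 0 428 428) (leaf 3 429 462))))) (merge (node 465 (merge (leaf 3 430 466) (node 494 (merge (leaf 1 461 493) (node 526 (merge (leaf 6 398 399) (leaf 6 430 558))))))) (node 398 (merge (node 366 (merge (leaf 4 334 334) (node 367 (merge (leaf 6 334 335) (node 494 (merge (leaf 6 366 399) (node 526 (merge (leaf 6 430 558) (node 527 (merge (leaf 4 430 559) (node 525 (merge (leaf 5 429 557) (leaf 0 525 561))))))))))))) (merge (node 366 (merge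 (leaf 4 334 334) (node 365 (merge (leaf 7 333 333) (node 494 (merge (leaf 7 365 397) (node 526 (merge (leaf 6 430 558) (node 527 (merge (leaf 4 430 559) (node 525 (merge (leaf 5 429 557) (leaf 0 525 561))))))))))))) (merge (node 399 (merge (node 367 (merge (leaf 5 334 335) (node 368 (merge (leaf 6 335 336) (node 369 (merge (leaf 1 366 370) (node 397 (merge (leaf 2 364 396) (leaf 2 365 400))))))))) (merge (node 366 (merge (leaf 4 334 334) (node 365 (merge (leaf 7 333 333) (node 364 (merge (leaf 0 363 363) (node 400 (merge (leaf 3 364 397) (leaf 3 365 401))))))))) (merge (node 367 (merge (leaf 5 334 335) (node 368 (merge (leaf 6 335 336) (node 369 (merge (leaf 1 366 370) (node 397 (merge (leaf 1 365 366) (leaf 2 364 396))))))))) (node 366 (merge (leaf 4 334 334) (node 367 (merge (leaf 6 334 335) (node 365 (merge (leaf 7 333 333) (node 364 (merge (leaf 0 363 363) (leaf 0 364 400))))))))))))) (node 399 (merge (node 367 (merge (leaf 6 366 494) (node 335 (merge (leaf 5 302 303) (leaf 5 334 431))))) (merge (node 494 (merge (leaf 6 398 526) (node 397 (merge (leaf 7 365 365)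 (node 396 (merge (leaf 0 395 395) (node 428 (merge (leaf 1 395 427) (node 429 (merge (leaf 1 396 400) (leaf 0 428 464))))))))))) (node 367 (merge (leaf 5 334 335) (node 368 (merge (leaf 6 335 336) (node 369 (merge (leaf 1 366 370) (node 397 (merge (leaf 2 364 396) (leaf 2 365 400))))))))))))))))))) (merge (node 430 (merge (node 429 (merge (leaf 3 429 465) (node 428 (merge (leaf 0 427 427) (leaf 0 428 431))))) (node 398 (merge (node 366 (merge (leaf 4 334 334) (node 367 (merge (leaf 6 334 335) (node 494 (merge (leaf 6 366 399) (node 526 (merge (leaf 6 430 558) (node 527 (merge (leaf 4 430 559) (node 525 (merge (leaf 5 429 557) (leaf 0 525 561))))))))))))) (merge (node 366 (merge (leaf 4 334 334) (node 365 (merge (leaf 7 333 333) (node 494 (merge (leaf 7 365 397) (node 526 (merge (leaf 6 430 558) (node 527 (merge (leaf 4 430 559) (node 525 (merge (leaf 5 429 557) (leaf 0 525 561))))))))))))) (merge (node 494 (merge (node 526 (merge (leaf 6 430 558) (node 525 (merge (leaf 5 429 557) (node 527 (merge (leaf 4 430 559) (leaf 0 525 561))))))) (node 399 (merge (leaf 6 366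 367) (node 397 (merge (leaf 7 365 365) (node 396 (merge (leaf 0 395 395) (leaf 0 396 432))))))))) (node 397 (merge (node 396 (merge (leaf 0 395 395) (node 432 (merge (leaf 0 396 399) (leaf 3 397 433))))) (merge (node 396 (merge (leaf 0 395 395) (node 366 (merge (leaf 4 334 334) (node 367 (merge (leaf 6 334 335) (node 368 (merge (leaf 1 364 365) (leaf 1 365 369))))))))) (node 432 (merge (leaf 3 397 433) (node 366 (merge (leaf 4 334 334) (node 367 (merge (leaf 6 334 335) (node 368 (merge (leaf 1 365 369) (node 336 (merge (leaf 6 335 399) (leaf 5 335 400)))))))))))))))))))) (node 432 (merge (node 461 (merge (leaf 2 429 433) (leaf 2 428 460))) (merge (node 430 (merge (node 429 (merge (leaf 0 428 428) (node 433 (merge (leaf 1 430 434) (node 401 (merge (leaf 2 397 400) (leaf 2 398 402))))))) (merge (node 429 (merge (leaf 0 428 428) (node 433 (merge (leaf 1 430 434) (node 397 (merge (leaf 3 396 396) (leaf 3 397 398))))))) (merge (node 429 (merge (leaf 0 428 428) (node 400 (merge (leaf 2 397 401) (node 397 (merge (leaf 3 396 396) (node 368 (merge (leaf 5 335 336) (node 369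 (merge (leaf 6 336 337) (node 367 (merge (leaf 7 335 335) (node 398 (merge (leaf 1 365 366) (leaf 2 365 399))))))))))))))) (node 433 (merge (leaf 1 430 434) (node 401 (merge (leaf 2 398 402) (node 398 (merge (leaf 3 397 397) (node 366 (merge (leaf 4 334 334) (node 367 (merge (leaf 6 334 335) (node 365 (merge (leaf 7 333 333) (node 400 (merge (leaf 0 365 368) (leaf 3 365 399))))))))))))))))))) (node 429 (merge (node 461 (merge (leaf 3 428 428) (leaf 2 428 460))) (merge (node 430 (merge (leaf 0 428 428) (node 400 (merge (leaf 2 397 401) (node 397 (merge (leaf 3 396 396) (node 368 (merge (leaf 5 335 336) (node 369 (merge (leaf 6 336 337) (node 367 (merge (leaf 7 335 335) (node 398 (merge (leaf 1 365 366) (leaf 2 365 399))))))))))))))) (node 430 (merge (node 461 (merge (leaf 2 428 460) (node 493 (merge (leaf 1 460 492) (node 525 (merge (leaf 6 429 557) (node 398 (merge (leaf 5 365 366) (leaf 6 397 429))))))))) (merge (node 400 (merge (leaf 2 397 401) (node 397 (merge (leaf 3 396 396) (node 368 (merge (leaf 5 335 336) (node 369 (merge (leaf 6 336 337) (node 367 (merge (leaf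 7 335 335) (node 398 (merge (leaf 1 365 366) (leaf 2 365 399))))))))))))) (node 461 (merge (leaf 1 428 460) (node 493 (merge (leaf 1 460 492) (node 525 (merge (leaf 6 429 557) (node 526 (merge (leaf 4 429 558) (node 527 (merge (leaf 0 525 561) (node 524 (merge (leaf 5 428 556) (leaf 0 524 559))))))))))))))))))))))))))))))))))) nP_189 cP_189 13 (by decide +kernel)
def nP_190 : ℕ := 0x100000001000000000000000080000000000000000000000000000000000000000000000000000000000000000000000000000000000000000000000000000000000000000000
def cP_190 : ℕ := 0xee0000004e000001fe000000f4000001ffc00001ff8000007fc000007f80000054000000000000000000000000000000000000000000000000000000000000000000000000000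
theorem lP_190 : S nP_190 cP_190 13 := S_of_chk [] trivial (node 431 (merge (node 495 (merge (leaf 4 431 527) (node 496 (merge (leaf 4 399 399) (leaf 7 431 464))))) (merge (node 464 (merge (leaf 7 431 496) (node 465 (merge (node 430 (merge (leaf 3 430 466) (node 429 (merge (leaf 0 428 428) (leaf 3 429 462))))) (merge (node 466 (merge (leaf 3 430 430) (node 499 (merge (leaf 0 463 498) (node 467 (merge (leaf 3 431 432) (leaf 0 464 500))))))) (merge (node 466 (merge (node 467 (merge (leaf 3 431 432) (node 435 (merge (leaf 2 431 434) (leaf 2 432 436))))) (merge (node 467 (merge (leaf 3 431 432) (node 499 (merge (leaf 0 463 498) (leaf 0 464 500))))) (node 498 (merge (leaf 0 463 499) (node 462 (merge (leaf 0 462 497) (node 434 (merge (leaf 2 430 433) (leaf 2 431 435)))))))))) (node 433 (merge (node 434 (merge (leaf 2 430 462) (node 435 (merge (leaf 1 431 432) (leaf 1 432 436))))) (merge (node 462 (merge (leaf 2 430 434) (node 494 (merge (leaf 1 461 493) (node 526 (merge (leaf 6 430 558) (node 430 (merge (leaf 6 398 399) (leaf 3 429 429))))))))) (merge (node 432 (merge (node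 430 (merge (leaf 0 429 429) (node 434 (merge (leaf 1 431 435) (node 398 (merge (leaf 3 397 397) (leaf 3 398 399))))))) (merge (node 430 (merge (leaf 0 429 429) (node 434 (merge (leaf 1 431 435) (node 402 (merge (leaf 2 398 401) (leaf 2 399 403))))))) (merge (node 430 (merge (leaf 0 429 429) (node 401 (merge (leaf 2 398 402) (node 398 (merge (leaf 3 397 397) (node 369 (merge (leaf 5 336 337) (node 370 (merge (leaf 6 337 338) (node 368 (merge (leaf 7 336 336) (node 399 (merge (leaf 1 366 367) (leaf 2 366 400))))))))))))))) (node 434 (merge (leaf 1 431 435) (node 402 (merge (leaf 2 399 403) (node 399 (merge (leaf 3 398 398) (node 367 (merge (leaf 4 335 335) (node 368 (merge (leaf 6 335 336) (node 497 (merge (leaf 4 368 400) (node 370 (merge (leaf 5 337 338) (leaf 6 369 401))))))))))))))))))) (node 497 (merge (node 462 (merge (leaf 0 462 498) (node 494 (merge (leaf 1 461 493) (node 430 (merge (leaf 3 429 429) (node 399 (merge (leaf 5 366 367) (leaf 6 398 526))))))))) (merge (node 498 (merge (leaf 0 462 462) (node 401 (merge (leaf 4 401 530) (node 370 (merge (leaf 6 369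 402) (node 369 (merge (leaf 6 337 338) (node 368 (merge (leaf 7 336 336) (leaf 7 368 400))))))))))) (merge (node 401 (merge (node 402 (merge (leaf 6 369 370) (node 430 (merge (leaf 2 398 432) (node 429 (merge (leaf 0 428 428) (leaf 3 429 462))))))) (merge (node 370 (merge (leaf 6 369 402) (node 369 (merge (leaf 6 337 338) (node 368 (merge (leaf 7 336 336) (leaf 7 368 400))))))) (merge (node 368 (merge (leaf 7 368 400) (node 369 (merge (leaf 7 336 336) (node 432 (merge (leaf 5 336 337) (node 430 (merge (leaf 2 398 402) (leaf 0 429 429))))))))) (node 368 (merge (leaf 7 368 400) (node 369 (merge (leaf 7 336 336) (node 338 (merge (leaf 6 337 370) (node 337 (merge (leaf 6 305 306) (leaf 5 336 432))))))))))))) (node 401 (merge (node 402 (merge (leaf 6 369 370) (node 432 (merge (leaf 2 398 430) (node 403 (merge (leaf 1 399 400) (leaf 1 400 404))))))) (merge (node 370 (merge (leaf 6 369 402) (node 369 (merge (leaf 6 337 338) (node 368 (merge (leaf 7 336 336) (leaf 7 368 400))))))) (merge (node 368 (merge (leaf 7 368 400) (node 369 (merge (leaf 7 336 336) (node 338 (merge (leaf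 6 337 370) (node 337 (merge (leaf 6 305 306) (leaf 5 336 432))))))))) (merge (node 368 (merge (leaf 7 368 400) (node 369 (merge (leaf 7 336 336) (node 432 (merge (leaf 5 336 337) (node 430 (merge (leaf 2 398 402) (leaf 0 429 429))))))))) (node 370 (merge (leaf 6 369 402) (node 369 (merge (leaf 6 337 338) (node 336 (merge (leaf 7 336 368) (node 337 (merge (leaf 7 304 304) (leaf 5 336 432)))))))))))))))))))))))))))) (merge (node 464 (merge (leaf 7 431 496) (node 430 (merge (node 465 (merge (leaf 3 430 466) (node 429 (merge (leaf 0 428 428) (leaf 3 429 462))))) (merge (node 465 (merge (leaf 3 430 466) (node 429 (merge (leaf 0 428 428) (leaf 0 429 432))))) (merge (node 432 (merge (node 429 (merge (leaf 0 428 428) (node 400 (merge (leaf 2 397 401) (node 495 (merge (leaf 5 367 368) (leaf 6 399 527))))))) (merge (node 429 (merge (leaf 0 428 428) (node 397 (merge (leaf 3 396 396) (node 433 (merge (leaf 3 397 398) (node 434 (merge (leaf 1 431 435) (leaf 1 430 462))))))))) (node 433 (merge (node 398 (merge (leaf 3 397 397) (node 495 (merge (leaf 7 398 527) (node 366 (merge (leaf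 4 334 334) (leaf 4 366 462))))))) (node 434 (merge (leaf 1 431 435) (node 402 (merge (leaf 2 398 401) (leaf 2 399 403)))))))))) (node 462 (merge (node 465 (merge (leaf 3 430 466) (node 494 (merge (leaf 1 461 493) (node 526 (merge (leaf 6 430 558) (node 527 (merge (leaf 4 430 559) (node 525 (merge (leaf 5 429 557) (leaf 0 525 561))))))))))) (merge (node 398 (merge (node 366 (merge (leaf 4 334 334) (leaf 4 366 495))) (node 465 (merge (leaf 3 430 466) (node 494 (merge (leaf 1 461 493) (node 397 (merge (leaf 7 365 365) (node 433 (merge (leaf 3 397 432) (leaf 2 430 434))))))))))) (merge (node 526 (merge (node 494 (merge (leaf 6 430 558) (node 527 (merge (leaf 4 431 495) (leaf 4 430 559))))) (merge (node 527 (merge (leaf 4 431 495) (node 561 (merge (leaf 0 525 525) (node 562 (merge (leaf 3 526 559) (leaf 3 527 563))))))) (merge (node 494 (merge (leaf 6 430 558) (node 525 (merge (leaf 5 429 557) (node 527 (merge (leaf 4 430 559) (leaf 0 525 561))))))) (node 494 (merge (leaf 6 430 558) (node 525 (merge (leaf 5 429 557) (node 398 (merge (leaf 5 397 493) (node 366 (merge (leaf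 4 334 334) (leaf 4 366 495))))))))))))) (node 433 (merge (node 465 (merge (leaf 2 430 434) (node 498 (merge (leaf 0 462 497) (node 466 (merge (leaf 3 430 431) (leaf 0 463 499))))))) (merge (node 432 (merge (leaf 1 430 434) (node 398 (merge (leaf 3 397 397) (node 366 (merge (leaf 4 334 334) (leaf 4 366 495))))))) (node 465 (merge (leaf 3 430 466) (node 495 (merge (leaf 4 431 527) (node 398 (merge (leaf 4 366 366) (node 432 (merge (leaf 3 397 397) (node 401 (merge (leaf 2 398 402) (node 369 (merge (leaf 5 336 337) (node 368 (merge (leaf 7 336 336) (leaf 5 367 400)))))))))))))))))))))))))))) (node 399 (merge (node 495 (merge (leaf 4 431 527) (node 366 (merge (leaf 7 366 398) (node 367 (merge (leaf 7 334 334) (node 494 (merge (leaf 5 366 462) (leaf 5 398 526))))))))) (merge (node 495 (merge (leaf 4 431 527) (node 368 (merge (leaf 6 367 400) (node 367 (merge (leaf 6 335 336) (node 494 (merge (leaf 5 366 462) (leaf 5 398 526))))))))) (merge (node 367 (merge (node 334 (merge (leaf 7 334 366) (node 335 (merge (leaf 7 302 302) (node 462 (merge (leaf 5 334 430) (leaf 5 366 494)))))))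 (merge (node 336 (merge (leaf 6 335 368) (node 335 (merge (leaf 6 303 304) (node 462 (merge (leaf 5 334 430) (leaf 5 366 494))))))) (node 366 (merge (leaf 7 334 334) (node 365 (merge (node 400 (merge (leaf 0 364 364) (node 401 (merge (leaf 3 365 398) (leaf 3 366 402))))) (merge (node 368 (merge (leaf 6 335 336) (node 400 (merge (leaf 0 364 364) (leaf 0 365 401))))) (merge (node 368 (merge (leaf 6 335 336) (node 397 (merge (leaf 1 364 396) (node 398 (merge (leaf 1 365 369) (node 364 (merge (leaf 0 363 363) (node 332 (merge (leaf 3 331 331) (leaf 3 332 333))))))))))) (node 368 (merge (leaf 6 335 336) (node 401 (merge (leaf 0 365 400) (node 369 (merge (leaf 0 366 402) (node 397 (merge (leaf 1 364 396) (leaf 1 365 398)))))))))))))))))) (node 398 (merge (node 495 (merge (leaf 7 366 366) (leaf 4 431 527))) (merge (node 397 (merge (node 432 (merge (leaf 0 396 396) (node 433 (merge (leaf 0 397 400) (leaf 3 398 434))))) (merge (node 432 (merge (leaf 0 396 396) (node 433 (merge (leaf 3 397 430) (leaf 3 398 434))))) (merge (node 495 (merge (leaf 4 431 527) (node 400 (merge (leaf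 6 367 368) (node 429 (merge (leaf 1 396 428) (node 430 (merge (leaf 1 397 401) (node 396 (merge (leaf 0 395 395) (node 364 (merge (leaf 3 363 363) (leaf 3 364 365))))))))))))) (node 495 (merge (leaf 4 431 527) (node 400 (merge (leaf 6 367 368) (node 433 (merge (leaf 0 397 432) (node 401 (merge (leaf 0 398 434) (node 429 (merge (leaf 1 396 428) (leaf 1 397 430))))))))))))))) (node 397 (merge (node 432 (merge (leaf 0 396 396) (node 433 (merge (leaf 0 397 400) (leaf 3 398 434))))) (merge (node 396 (merge (leaf 0 396 432) (node 395 (merge (leaf 0 395 430) (node 427 (merge (leaf 1 394 426) (leaf 1 395 428))))))) (merge (node 396 (merge (node 395 (merge (leaf 0 395 430) (node 427 (merge (leaf 1 394 426) (leaf 1 395 428))))) (merge (node 395 (merge (leaf 0 395 430) (node 363 (merge (leaf 3 362 362) (leaf 3 363 364))))) (node 428 (merge (leaf 1 395 427) (node 400 (merge (leaf 1 396 429) (node 364 (merge (leaf 3 363 363) (leaf 3 364 365)))))))))) (node 400 (merge (node 432 (merge (leaf 0 397 433) (node 368 (merge (leaf 5 335 336) (leaf 2 365 369))))) (node 429 (merge (leaf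 1 396 428) (node 401 (merge (leaf 1 397 430) (node 365 (merge (leaf 3 364 364) (leaf 3 365 366)))))))))))))))))))))))) nP_190 cP_190 13 (by decide +kernel)
def nP_191 : ℕ := 0x1000000010000000000000000c0000000000000000000000000000000000000000000000000000000000000000000000000000000000000000000000000000000000000000000
def cP_191 : ℕ := 0x80000000c000000ef000000ef8000000f0000003e000000000000000e0000000e0000000e0000000000000000000000000000000000000000000000000000000000000000000000000000000000000000000
theorem lP_191 : S nP_191 cP_191 10 := S_of_chk [] trivial (node 527 (merge (node 495 (merge (leaf 4 431 431) (node 430 (merge (leaf 7 430 559) (node 398 (merge (leaf 4 366 366) (leaf 4 398 494))))))) (merge (node 495 (merge (leaf 4 431 431) (node 559 (merge (leaf 7 430 430) (node 558 (merge (leaf 5 462 590) (node 557 (merge (leaf 2 524 556) (node 525 (merge (leaf 3 524 524) (node 561 (merge (leaf 0 525 526) (node 594 (merge (leaf 0 558 593) (node 562 (merge (leaf 3 527 563) (leaf 0 559 595))))))))))))))))) (merge (node 559 (merge (node 430 (merge (leaf 7 430 495) (node 526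 (merge (leaf 4 430 494) (node 525 (merge (leaf 0 524 524) (leaf 0 525 561))))))) (merge (node 495 (merge (leaf 7 430 430) (node 590 (merge (leaf 5 462 558) (node 591 (merge (leaf 7 462 494) (leaf 5 494 622))))))) (merge (node 526 (merge (node 561 (merge (leaf 0 525 525) (leaf 3 526 562))) (node 494 (merge (leaf 4 430 430) (node 591 (merge (leaf 4 462 558) (leaf 7 494 623))))))) (merge (node 591 (merge (node 623 (merge (leaf 6 495 496) (leaf 6 527 655))) (node 495 (merge (leaf 7 462 494) (node 590 (merge (leaf 5 494 622) (node 561 (merge (leaf 1 558 562) (node 589 (merge (leaf 1 557 558) (leaf 2 556 588))))))))))) (node 495 (merge (leaf 7 430 430) (node 558 (merge (leaf 5 462 590) (node 557 (merge (leaf 2 524 556) (node 525 (merge (leaf 3 524 524) (node 561 (merge (leaf 0 525 526) (node 594 (merge (leaf 0 558 593) (node 562 (merge (leaf 3 527 563) (leaf 0 559 595)))))))))))))))))))) (merge (node 559 (merge (node 495 (merge (leaf 4 431 431) (node 591 (merge (leaf 7 462 494) (node 623 (merge (leaf 6 495 496) (leaf 6 527 655))))))) (merge (node 591 (merge (node 623 (merge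 (leaf 6 495 496) (leaf 6 527 655))) (node 495 (merge (leaf 7 462 494) (node 590 (merge (leaf 5 494 622) (node 561 (merge (leaf 1 558 562) (node 589 (merge (leaf 1 557 558) (leaf 2 556 588))))))))))) (merge (node 495 (merge (leaf 4 431 431) (node 558 (merge (leaf 5 462 590) (node 557 (merge (leaf 2 524 556) (node 525 (merge (leaf 3 524 524) (node 561 (merge (leaf 0 525 526) (node 594 (merge (leaf 0 558 593) (node 562 (merge (leaf 3 527 563) (leaf 0 559 595))))))))))))))) (node 558 (merge (node 526 (merge (node 525 (merge (leaf 0 524 524) (leaf 3 525 561))) (node 494 (merge (leaf 6 430 431) (leaf 4 462 591))))) (merge (node 557 (merge (leaf 2 524 556) (node 589 (merge (leaf 1 556 588) (node 561 (merge (leaf 1 557 590) (node 562 (merge (leaf 3 526 526) (leaf 3 527 563))))))))) (merge (node 557 (merge (leaf 2 524 556) (node 589 (merge (leaf 1 556 588) (node 525 (merge (leaf 3 524 524) (node 494 (merge (leaf 6 461 493) (leaf 5 461 526))))))))) (node 557 (merge (leaf 2 524 556) (node 589 (merge (leaf 1 556 588) (node 590 (merge (leaf 1 557 561) (node 525 (merge (leaf 3 524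 524) (node 493 (merge (leaf 6 461 494) (leaf 4 493 622))))))))))))))))))) (merge (node 526 (merge (node 431 (merge (leaf 4 431 495) (node 494 (merge (leaf 6 430 558) (node 399 (merge (leaf 5 366 367) (leaf 6 398 430))))))) (merge (node 525 (merge (leaf 0 525 561) (node 557 (merge (leaf 1 524 556) (node 494 (merge (leaf 5 429 430) (node 558 (merge (leaf 6 430 431) (leaf 5 461 589))))))))) (node 525 (merge (leaf 0 525 561) (node 556 (merge (leaf 1 524 557) (node 524 (merge (leaf 1 523 555) (node 496 (merge (leaf 2 492 495) (leaf 2 493 497)))))))))))) (node 526 (merge (node 561 (merge (leaf 0 525 525) (node 562 (merge (leaf 3 526 559) (leaf 3 527 563))))) (merge (node 525 (merge (leaf 0 525 561) (node 557 (merge (leaf 1 524 556) (node 494 (merge (leaf 5 429 430) (node 558 (merge (leaf 6 430 431) (leaf 5 461 589))))))))) (node 494 (merge (node 431 (merge (leaf 6 430 558) (node 399 (merge (leaf 5 366 367) (leaf 6 398 430))))) (merge (node 559 (merge (leaf 4 430 430) (node 591 (merge (leaf 4 462 558) (leaf 7 494 623))))) (merge (node 558 (merge (leaf 6 430 431) (node 559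 (merge (leaf 4 462 591) (node 557 (merge (leaf 2 524 556) (leaf 5 461 589))))))) (node 430 (merge (leaf 4 430 559) (node 399 (merge (leaf 6 398 431) (node 398 (merge (leaf 6 366 367) (node 397 (merge (leaf 7 365 365) (leaf 7 397 429)))))))))))))))))))))) nP_191 cP_191 10 (by decide +kernel)
def nP_192 : ℕ := 0x1000000010000000000000000c0000000000000000000000000000000000000000000000000000000000000000000000000000000000000000000000000000000000000000000
def cP_192 : ℕ := 0x2c0000002c000000ef000000ef800000cf0000004f800000000000000e0000000e0000000e0000000000000000000000000000000000000000000000000000000000000000000000000000000000000000000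
theorem lP_192 : S nP_192 cP_192 10 := S_of_chk [] trivial (node 527 (merge (node 495 (merge (leaf 4 431 431) (node 430 (merge (leaf 7 430 559) (node 398 (merge (leaf 4 366 366) (leaf 4 398 494))))))) (merge (node 495 (merge (leaf 4 431 431) (node 559 (merge (leaf 7 430 430) (node 558 (merge (leaf 5 462 590) (node 557 (merge (leaf 2 524 556) (node 525 (merge (leaf 3 524 524) (node 561 (merge (leaf 0 525 526) (node 594 (merge (leaf 0 558 593) (node 562 (merge (leaf 3 527 563) (leaf 0 559 595))))))))))))))))) (merge (node 559 (merge (node 430 (merge (leaf 7 430 495) (node 526 (merge (leaf 4 430 494) (node 525 (merge (leaf 0 524 524) (leaf 0 525 561))))))) (merge (node 495 (merge (leaf 7 430 430) (node 590 (merge (leaf 5 462 558) (node 591 (merge (leaf 7 462 494) (leaf 5 494 622))))))) (merge (node 561 (merge (node 562 (merge (leaf 3 526 526) (leaf 3 527 563))) (merge (node 526 (merge (leaf 0 525 525) (node 494 (merge (leaf 4 430 430) (node 591 (merge (leaf 4 462 558) (leaf 7 494 623))))))) (node 562 (merge (leaf 3 527 563) (node 594 (merge (leaf 0 559 595) (node 558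 (merge (leaf 0 558 593) (node 590 (merge (leaf 1 557 589) (leaf 1 558 591)))))))))))) (merge (node 495 (merge (leaf 7 430 430) (node 558 (merge (leaf 5 462 590) (node 557 (merge (leaf 2 524 556) (node 525 (merge (leaf 3 524 524) (node 561 (merge (leaf 0 525 526) (node 594 (merge (leaf 0 558 593) (node 562 (merge (leaf 3 527 563) (leaf 0 559 595))))))))))))))) (node 558 (merge (node 590 (merge (leaf 5 462 495) (node 561 (merge (leaf 1 557 589) (node 562 (merge (leaf 3 526 526) (leaf 1 558 591))))))) (merge (node 557 (merge (leaf 2 524 556) (node 589 (merge (leaf 1 556 588) (node 525 (merge (leaf 3 524 524) (node 526 (merge (leaf 5 461 494) (leaf 0 525 561))))))))) (merge (node 557 (merge (leaf 2 524 556) (node 589 (merge (leaf 1 556 588) (node 525 (merge (leaf 3 524 524) (node 494 (merge (leaf 6 461 493) (node 495 (merge (leaf 5 462 590) (leaf 7 462 591))))))))))) (node 557 (merge (leaf 2 524 556) (node 525 (merge (leaf 3 524 524) (node 561 (merge (leaf 0 525 526) (node 594 (merge (leaf 0 558 593) (node 562 (merge (leaf 3 527 563) (leaf 0 559 595))))))))))))))))))))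 (merge (node 526 (merge (node 561 (merge (leaf 0 525 525) (node 562 (merge (leaf 3 526 559) (leaf 3 527 563))))) (merge (node 525 (merge (leaf 0 525 561) (node 557 (merge (leaf 1 524 556) (node 494 (merge (leaf 5 429 430) (node 558 (merge (leaf 6 430 431) (leaf 5 461 589))))))))) (node 494 (merge (node 431 (merge (leaf 6 430 558) (node 399 (merge (leaf 5 366 367) (leaf 6 398 430))))) (merge (node 559 (merge (leaf 4 430 430) (node 591 (merge (leaf 4 462 558) (leaf 7 494 623))))) (merge (node 558 (merge (leaf 6 430 431) (node 559 (merge (leaf 4 462 591) (node 557 (merge (leaf 2 524 556) (leaf 5 461 589))))))) (node 430 (merge (leaf 4 430 559) (node 399 (merge (leaf 6 398 431) (node 398 (merge (leaf 6 366 367) (node 397 (merge (leaf 7 365 365) (leaf 7 397 429)))))))))))))))) (merge (node 526 (merge (node 431 (merge (leaf 4 431 495) (node 494 (merge (leaf 6 430 558) (node 399 (merge (leaf 5 366 367) (leaf 6 398 430))))))) (node 525 (merge (leaf 0 525 561) (node 556 (merge (leaf 1 524 557) (node 524 (merge (leaf 1 523 555) (node 492 (merge (leaf 3 491 491) (leaf 3 492 493)))))))))))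 (node 559 (merge (node 495 (merge (leaf 4 431 431) (node 591 (merge (leaf 7 462 494) (node 623 (merge (leaf 6 527 655) (node 622 (merge (leaf 5 494 590) (leaf 5 526 654))))))))) (merge (node 495 (merge (leaf 4 431 431) (node 558 (merge (leaf 5 462 590) (node 557 (merge (leaf 2 524 556) (node 525 (merge (leaf 3 524 524) (node 561 (merge (leaf 0 525 526) (node 594 (merge (leaf 0 558 593) (node 562 (merge (leaf 3 527 563) (leaf 0 559 595))))))))))))))) (merge (node 558 (merge (node 590 (merge (leaf 5 462 495) (node 561 (merge (leaf 1 557 589) (node 562 (merge (leaf 3 526 526) (leaf 1 558 591))))))) (merge (node 557 (merge (leaf 2 524 556) (node 589 (merge (leaf 1 556 588) (node 525 (merge (leaf 3 524 524) (node 526 (merge (leaf 5 461 494) (leaf 0 525 561))))))))) (merge (node 557 (merge (leaf 2 524 556) (node 589 (merge (leaf 1 556 588) (node 525 (merge (leaf 3 524 524) (node 494 (merge (leaf 6 461 493) (node 495 (merge (leaf 5 462 590) (leaf 7 462 591))))))))))) (node 557 (merge (leaf 2 524 556) (node 525 (merge (leaf 3 524 524) (node 561 (merge (leaf 0 525 526) (node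 594 (merge (leaf 0 558 593) (node 562 (merge (leaf 3 527 563) (leaf 0 559 595))))))))))))))) (merge (node 558 (merge (node 526 (merge (node 525 (merge (leaf 0 524 524) (leaf 3 525 561))) (node 494 (merge (leaf 6 430 431) (leaf 4 462 591))))) (merge (node 557 (merge (leaf 2 524 556) (node 589 (merge (leaf 1 556 588) (node 561 (merge (leaf 1 557 590) (node 562 (merge (leaf 3 526 526) (leaf 3 527 563))))))))) (merge (node 557 (merge (leaf 2 524 556) (node 589 (merge (leaf 1 556 588) (node 525 (merge (leaf 3 524 524) (node 494 (merge (leaf 6 461 493) (leaf 5 461 526))))))))) (node 557 (merge (leaf 2 524 556) (node 589 (merge (leaf 1 556 588) (node 590 (merge (leaf 1 557 561) (node 525 (merge (leaf 3 524 524) (node 493 (merge (leaf 6 461 494) (leaf 4 493 622))))))))))))))) (node 561 (merge (node 562 (merge (leaf 3 526 526) (leaf 3 527 563))) (merge (node 525 (merge (leaf 0 525 526) (node 495 (merge (leaf 4 431 431) (node 494 (merge (leaf 7 462 591) (node 493 (merge (leaf 0 492 492) (node 557 (merge (leaf 6 461 589) (node 558 (merge (leaf 3 524 524) (leaf 2 524 556)))))))))))))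 (node 562 (merge (leaf 3 527 563) (node 594 (merge (leaf 0 559 595) (node 593 (merge (leaf 0 558 558) (node 625 (merge (leaf 7 528 657) (node 530 (merge (leaf 5 497 498) (leaf 2 527 531))))))))))))))))))))))))) nP_192 cP_192 10 (by decide +kernel)
def nP_193 : ℕ := 0x1000000010000000000000000c0000000000000000000000000000000000000000000000000000000000000000000000000000000000000000000000000000000000000000000
def cP_193 : ℕ := 0x80000000e0000000f000000efc000000f800000ffe0000073c0000037e000000f0000000f0000000a00000000000000000000000000000000000000000000000000000000000000000000000000000000000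
theorem lP_193 : S nP_193 cP_193 11 := S_of_chk [] trivial (node 494 (merge (node 526 (merge (node 527 (merge (node 559 (merge (leaf 4 430 430) (node 591 (merge (leaf 7 462 495) (leaf 7 494 623))))) (merge (node 525 (merge (leaf 0 525 561) (node 557 (merge (leaf 5 429 430) (leaf 1 524 556))))) (node 561 (merge (leaf 0 525 525) (node 562 (merge (leaf 3 526 559) (leaf 3 527 563)))))))) (merge (node 558 (merge (node 590 (merge (leaf 6 462 495) (node 589 (merge (leaf 5 461 557) (leaf 5 493 621))))) (merge (node 590 (merge (leaf 6 462 495) (node 591 (merge (leaf 4 462 559) (leaf 4 494 623))))) (node 559 (merge (leaf 4 462 591) (node 525 (merge (leaf 3 525 561) (node 557 (merge (leaf 3 524 524) (leaf 5 461 589)))))))))) (merge (node 558 (merge (node 590 (merge (leaf 6 462 495) (node 461 (merge (leaf 7 429 429) (leaf 7 461 493))))) (node 557 (merge (leaf 5 461 589) (node 525 (merge (leaf 5 429 430) (node 527 (merge (leaf 1 524 556) (leaf 0 525 561))))))))) (merge (node 558 (merge (node 590 (merge (leaf 6 462 495) (node 461 (merge (leaf 7 429 429) (leaf 7 461 493))))) (node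 559 (merge (leaf 4 462 591) (node 561 (merge (leaf 3 525 525) (node 527 (merge (leaf 4 430 430) (leaf 3 526 562))))))))) (node 558 (merge (node 559 (merge (leaf 4 462 591) (node 527 (merge (leaf 4 430 430) (node 557 (merge (leaf 2 524 556) (leaf 5 461 589))))))) (merge (node 461 (merge (leaf 7 429 429) (node 590 (merge (leaf 7 461 493) (node 591 (merge (leaf 4 462 559) (leaf 4 494 623))))))) (node 461 (merge (leaf 7 429 429) (node 590 (merge (leaf 7 461 493) (node 589 (merge (leaf 5 461 557) (leaf 5 493 621))))))))))))))) (merge (node 464 (merge (node 493 (merge (leaf 1 461 465) (node 492 (merge (leaf 1 460 461) (leaf 2 459 491))))) (merge (node 465 (merge (leaf 1 461 493) (node 498 (merge (leaf 0 462 497) (node 466 (merge (leaf 1 462 495) (leaf 0 463 499))))))) (merge (node 496 (merge (node 559 (merge (leaf 5 463 591) (node 527 (merge (leaf 5 431 432) (node 430 (merge (leaf 7 430 495) (leaf 4 430 526))))))) (node 497 (merge (leaf 0 461 461) (node 498 (merge (leaf 0 462 465) (leaf 3 463 499))))))) (node 461 (merge (node 429 (merge (leaf 3 428 428) (node 526 (merge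 (leaf 7 429 558) (node 397 (merge (leaf 4 365 365) (leaf 4 397 493))))))) (merge (node 460 (merge (node 492 (merge (leaf 1 459 491) (leaf 1 460 493))) (merge (node 459 (merge (leaf 0 459 495) (node 493 (merge (leaf 0 458 458) (leaf 1 460 492))))) (merge (node 459 (merge (leaf 0 459 495) (node 491 (merge (leaf 1 458 490) (leaf 1 459 492))))) (node 459 (merge (leaf 0 459 495) (node 458 (merge (leaf 0 458 493) (node 490 (merge (leaf 1 457 489) (leaf 1 458 491))))))))))) (node 428 (merge (leaf 3 428 429) (node 460 (merge (leaf 3 427 427) (node 459 (merge (leaf 0 459 495) (node 491 (merge (leaf 1 458 490) (leaf 1 459 492)))))))))))))))) (merge (node 464 (merge (node 493 (merge (leaf 1 461 465) (node 492 (merge (leaf 1 460 461) (leaf 2 459 491))))) (merge (node 465 (merge (leaf 1 461 493) (node 498 (merge (leaf 0 462 497) (node 466 (merge (leaf 1 462 495) (leaf 0 463 499))))))) (merge (node 465 (merge (node 498 (merge (leaf 0 462 497) (node 466 (merge (leaf 1 462 495) (leaf 0 463 499))))) (merge (node 497 (merge (leaf 0 462 498) (node 461 (merge (leaf 0 461 496) (node 429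 (merge (leaf 3 428 428) (leaf 3 429 430))))))) (node 496 (merge (leaf 6 432 433) (node 495 (merge (leaf 1 462 466) (node 461 (merge (leaf 0 460 460) (node 429 (merge (leaf 3 428 428) (leaf 3 429 430)))))))))))) (node 461 (merge (node 432 (merge (leaf 2 429 433) (node 460 (merge (node 492 (merge (leaf 1 459 491) (leaf 1 460 493))) (merge (node 459 (merge (leaf 0 459 495) (node 491 (merge (leaf 1 458 490) (leaf 1 459 492))))) (merge (node 459 (merge (leaf 0 459 495) (node 493 (merge (leaf 0 458 458) (leaf 1 460 492))))) (node 459 (merge (leaf 0 459 495) (node 458 (merge (leaf 0 458 493) (node 490 (merge (leaf 1 457 489) (leaf 1 458 491))))))))))))) (merge (node 428 (merge (leaf 3 428 429) (node 460 (merge (leaf 3 427 427) (node 459 (merge (leaf 0 459 495) (node 458 (merge (leaf 0 458 493) (node 490 (merge (leaf 1 457 489) (leaf 1 458 491))))))))))) (merge (node 428 (merge (leaf 3 428 429) (node 460 (merge (leaf 3 427 427) (node 459 (merge (leaf 0 459 495) (node 491 (merge (leaf 1 458 490) (leaf 1 459 492))))))))) (node 493 (merge (leaf 1 460 492) (node 429 (merge (leaf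 3 428 428) (node 397 (merge (leaf 4 365 365) (node 398 (merge (leaf 6 365 366) (node 525 (merge (leaf 6 397 430) (node 557 (merge (leaf 6 461 589) (node 556 (merge (leaf 5 428 524) (leaf 5 460 588))))))))))))))))))))))) (merge (node 526 (merge (node 527 (merge (node 559 (merge (leaf 4 430 430) (node 591 (merge (leaf 7 462 495) (leaf 7 494 623))))) (merge (node 525 (merge (leaf 0 525 561) (node 557 (merge (leaf 5 429 430) (leaf 1 524 556))))) (node 561 (merge (leaf 0 525 525) (node 562 (merge (leaf 3 526 559) (leaf 3 527 563)))))))) (merge (node 558 (merge (node 590 (merge (leaf 6 462 495) (node 589 (merge (leaf 5 461 557) (leaf 5 493 621))))) (merge (node 590 (merge (leaf 6 462 495) (node 591 (merge (leaf 4 462 559) (leaf 4 494 623))))) (node 559 (merge (leaf 4 462 591) (node 525 (merge (leaf 3 525 561) (node 557 (merge (leaf 3 524 524) (leaf 5 461 589)))))))))) (merge (node 430 (merge (node 525 (merge (leaf 5 429 557) (node 527 (merge (leaf 4 430 559) (leaf 0 525 561))))) (node 429 (merge (leaf 7 397 397) (node 461 (merge (leaf 7 429 558) (node 464 (merge (leaf 3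 428 428) (leaf 3 429 465))))))))) (merge (node 430 (merge (node 429 (merge (leaf 7 397 397) (node 428 (merge (leaf 0 427 427) (node 464 (merge (leaf 3 428 461) (leaf 3 429 465))))))) (node 559 (merge (leaf 4 430 527) (node 558 (merge (leaf 4 462 591) (node 590 (merge (leaf 6 462 495) (node 589 (merge (leaf 1 557 561) (leaf 5 493 621))))))))))) (node 430 (merge (node 557 (merge (leaf 5 429 525) (node 558 (merge (leaf 5 461 589) (node 495 (merge (leaf 6 462 590) (node 398 (merge (leaf 4 366 366) (leaf 4 398 527))))))))) (node 429 (merge (leaf 7 397 397) (node 428 (merge (leaf 0 427 427) (node 464 (merge (leaf 3 428 461) (leaf 3 429 465)))))))))))))) (merge (node 526 (merge (node 527 (merge (node 559 (merge (leaf 4 430 430) (node 591 (merge (leaf 4 462 558) (leaf 7 494 623))))) (merge (node 525 (merge (leaf 0 525 561) (node 557 (merge (leaf 5 429 430) (leaf 1 524 556))))) (node 561 (merge (leaf 0 525 525) (node 562 (merge (leaf 3 526 559) (leaf 3 527 563)))))))) (merge (node 558 (merge (node 559 (merge (leaf 4 462 591) (node 557 (merge (leaf 5 461 589) (node 525 (merge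 (leaf 5 429 430) (leaf 3 524 524))))))) (node 461 (merge (leaf 7 429 429) (node 493 (merge (leaf 7 461 590) (node 464 (merge (leaf 1 461 465) (leaf 1 460 492))))))))) (merge (node 558 (merge (node 461 (merge (leaf 7 429 429) (node 493 (merge (leaf 7 461 590) (node 464 (merge (leaf 1 461 465) (leaf 1 460 492))))))) (node 557 (merge (leaf 5 461 589) (node 525 (merge (leaf 5 429 430) (node 527 (merge (leaf 1 524 556) (leaf 0 525 561))))))))) (merge (node 558 (merge (node 559 (merge (leaf 4 462 591) (node 525 (merge (leaf 3 525 561) (node 557 (merge (leaf 3 524 524) (leaf 5 461 589))))))) (node 461 (merge (leaf 7 429 429) (node 493 (merge (leaf 7 461 590) (node 464 (merge (leaf 1 461 465) (leaf 1 460 492))))))))) (merge (node 558 (merge (node 559 (merge (leaf 4 462 591) (node 589 (merge (leaf 5 461 557) (node 590 (merge (leaf 1 557 561) (leaf 5 493 621))))))) (merge (node 461 (merge (leaf 7 429 429) (node 493 (merge (leaf 7 461 590) (node 464 (merge (leaf 1 461 465) (leaf 1 460 492))))))) (node 429 (merge (leaf 7 429 461) (node 430 (merge (leaf 7 397 397) (node 559 (merge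 (leaf 4 430 527) (leaf 4 462 591)))))))))) (merge (node 527 (merge (node 561 (merge (leaf 0 525 525) (node 562 (merge (leaf 3 526 559) (leaf 3 527 563))))) (merge (node 525 (merge (leaf 0 525 561) (node 557 (merge (leaf 5 429 430) (leaf 1 524 556))))) (node 430 (merge (leaf 4 430 559) (node 429 (merge (leaf 7 397 397) (node 428 (merge (leaf 0 427 427) (node 464 (merge (leaf 3 428 461) (leaf 3 429 465)))))))))))) (node 527 (merge (node 559 (merge (leaf 4 430 430) (node 591 (merge (leaf 4 462 558) (leaf 7 494 623))))) (merge (node 561 (merge (leaf 0 525 525) (node 562 (merge (leaf 3 526 559) (leaf 3 527 563))))) (node 525 (merge (leaf 0 525 561) (node 493 (merge (leaf 3 492 492) (node 464 (merge (leaf 1 461 465) (node 430 (merge (leaf 5 397 398) (node 429 (merge (leaf 7 397 397) (node 461 (merge (leaf 3 428 428) (leaf 7 429 558))))))))))))))))))))))) (merge (node 461 (merge (node 460 (merge (node 495 (merge (leaf 0 459 459) (leaf 0 460 496))) (merge (node 491 (merge (leaf 1 459 492) (node 459 (merge (leaf 1 458 490) (node 458 (merge (leaf 0 458 493) (node 426 (merge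 (leaf 3 425 425) (leaf 3 426 427))))))))) (node 495 (merge (leaf 0 460 496) (node 492 (merge (leaf 1 459 491) (node 493 (merge (leaf 2 460 464) (leaf 0 492 527)))))))))) (merge (node 460 (merge (node 459 (merge (leaf 0 459 495) (node 427 (merge (leaf 3 426 426) (leaf 3 427 428))))) (merge (node 459 (merge (leaf 0 459 495) (node 491 (merge (leaf 1 458 490) (leaf 1 459 492))))) (node 492 (merge (leaf 1 459 491) (node 428 (merge (leaf 3 427 427) (node 429 (merge (leaf 3 428 464) (node 397 (merge (leaf 5 364 365) (leaf 6 396 524)))))))))))) (merge (node 526 (merge (node 429 (merge (leaf 7 429 558) (node 397 (merge (leaf 4 365 365) (leaf 4 397 493))))) (merge (node 558 (merge (leaf 7 429 429) (node 590 (merge (leaf 6 462 495) (node 591 (merge (leaf 4 462 559) (leaf 4 494 623))))))) (merge (node 493 (merge (node 492 (merge (leaf 2 459 491) (node 527 (merge (leaf 0 492 495) (leaf 3 492 525))))) (node 464 (merge (leaf 1 461 465) (node 429 (merge (leaf 4 397 397) (leaf 3 428 428))))))) (node 493 (merge (node 464 (merge (leaf 1 461 465) (leaf 1 460 492))) (merge (node 492 (merge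 (leaf 2 459 491) (node 527 (merge (leaf 0 492 495) (leaf 3 492 525))))) (node 558 (merge (leaf 7 461 590) (node 559 (merge (leaf 4 462 591) (node 525 (merge (leaf 3 525 561) (node 557 (merge (leaf 3 524 524) (leaf 6 461 589)))))))))))))))) (merge (node 526 (merge (node 429 (merge (leaf 7 429 558) (node 397 (merge (leaf 4 365 365) (leaf 4 397 493))))) (merge (node 558 (merge (leaf 7 429 429) (node 591 (merge (leaf 4 462 559) (node 590 (merge (leaf 4 494 623) (node 589 (merge (leaf 5 461 557) (leaf 5 493 621))))))))) (merge (node 558 (merge (node 590 (merge (leaf 7 461 493) (node 591 (merge (leaf 4 462 559) (leaf 4 494 623))))) (merge (node 589 (merge (leaf 5 461 557) (node 590 (merge (leaf 7 461 493) (leaf 5 493 621))))) (node 559 (merge (leaf 4 462 591) (node 525 (merge (leaf 3 525 561) (node 557 (merge (leaf 3 524 524) (leaf 5 461 589)))))))))) (node 525 (merge (node 527 (merge (leaf 0 525 561) (node 559 (merge (leaf 0 524 524) (node 591 (merge (leaf 7 462 495) (leaf 7 494 623))))))) (merge (node 527 (merge (leaf 0 525 561) (node 557 (merge (leaf 1 524 556) (node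 589 (merge (leaf 6 461 493) (leaf 6 493 621))))))) (node 493 (merge (node 557 (merge (leaf 6 461 589) (node 460 (merge (leaf 7 428 428) (node 459 (merge (leaf 0 458 458) (leaf 0 459 495))))))) (merge (node 557 (merge (leaf 6 461 589) (node 556 (merge (leaf 5 460 588) (node 429 (merge (leaf 5 428 524) (node 397 (merge (leaf 4 365 365) (leaf 4 397 526))))))))) (node 429 (merge (node 397 (merge (leaf 4 365 365) (leaf 4 397 526))) (node 428 (merge (leaf 7 396 396) (node 427 (merge (leaf 0 426 426) (node 463 (merge (leaf 3 427 460) (leaf 3 428 464))))))))))))))))))) (merge (node 493 (merge (node 492 (merge (leaf 2 459 491) (node 495 (merge (leaf 0 492 527) (node 496 (merge (leaf 3 460 460) (leaf 3 461 497))))))) (merge (node 492 (merge (leaf 2 459 491) (node 527 (merge (leaf 0 492 495) (node 526 (merge (leaf 3 492 525) (node 429 (merge (leaf 4 397 397) (leaf 7 429 558))))))))) (merge (node 460 (merge (node 495 (merge (leaf 0 459 459) (leaf 0 460 496))) (node 428 (merge (leaf 3 427 427) (node 525 (merge (leaf 7 428 557) (node 396 (merge (leaf 4 364 364) (leaf 7 396 429)))))))))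 (node 460 (merge (node 459 (merge (leaf 0 458 458) (node 491 (merge (leaf 1 458 490) (leaf 1 459 492))))) (merge (node 459 (merge (leaf 0 458 458) (node 427 (merge (leaf 3 426 426) (leaf 3 427 428))))) (node 492 (merge (leaf 1 459 491) (node 428 (merge (leaf 3 427 427) (node 525 (merge (leaf 4 396 396) (leaf 7 428 557)))))))))))))) (node 460 (merge (node 491 (merge (leaf 1 459 492) (node 459 (merge (leaf 1 458 490) (node 427 (merge (leaf 3 426 426) (leaf 3 427 428))))))) (merge (node 459 (merge (node 491 (merge (leaf 1 458 490) (leaf 1 459 492))) (merge (node 493 (merge (leaf 0 458 458) (node 464 (merge (leaf 1 461 465) (leaf 1 460 492))))) (node 458 (merge (leaf 0 458 493) (node 490 (merge (leaf 1 457 489) (leaf 1 458 491)))))))) (merge (node 427 (merge (leaf 3 427 428) (node 459 (merge (leaf 3 426 426) (node 493 (merge (leaf 0 458 458) (node 464 (merge (leaf 1 461 465) (leaf 1 460 492))))))))) (merge (node 427 (merge (leaf 3 427 428) (node 459 (merge (leaf 3 426 426) (node 458 (merge (leaf 0 458 493) (node 490 (merge (leaf 1 457 489) (leaf 1 458 491))))))))) (node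 492 (merge (leaf 1 459 491) (node 493 (merge (leaf 1 460 464) (node 428 (merge (leaf 3 427 427) (node 396 (merge (leaf 4 364 364) (leaf 4 396 525)))))))))))))))))))) (merge (node 526 (merge (node 527 (merge (node 559 (merge (leaf 4 430 430) (node 591 (merge (leaf 4 462 558) (leaf 7 494 623))))) (merge (node 525 (merge (leaf 0 525 561) (node 557 (merge (leaf 5 429 430) (leaf 1 524 556))))) (node 561 (merge (leaf 0 525 525) (node 562 (merge (leaf 3 526 559) (leaf 3 527 563)))))))) (merge (node 558 (merge (node 590 (merge (leaf 6 462 495) (node 589 (merge (leaf 5 461 557) (leaf 5 493 621))))) (merge (node 590 (merge (leaf 6 462 495) (node 591 (merge (leaf 4 462 559) (leaf 4 494 623))))) (node 559 (merge (leaf 4 462 591) (node 525 (merge (leaf 3 525 561) (node 557 (merge (leaf 3 524 524) (leaf 5 461 589)))))))))) (merge (node 558 (merge (node 590 (merge (leaf 6 462 495) (node 589 (merge (leaf 5 461 557) (leaf 5 493 621))))) (merge (node 590 (merge (leaf 6 462 495) (node 591 (merge (leaf 4 462 559) (leaf 4 494 623))))) (node 559 (merge (leaf 4 462 591) (node 527 (merge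 (leaf 4 430 430) (node 557 (merge (leaf 2 524 556) (leaf 5 461 589)))))))))) (merge (node 527 (merge (node 559 (merge (leaf 4 430 430) (node 591 (merge (leaf 7 462 495) (leaf 7 494 623))))) (merge (node 561 (merge (leaf 0 525 525) (node 562 (merge (leaf 3 526 559) (leaf 3 527 563))))) (node 525 (merge (leaf 0 525 561) (node 492 (merge (leaf 3 492 493) (node 524 (merge (leaf 3 491 491) (node 555 (merge (leaf 1 523 556) (node 523 (merge (leaf 2 491 495) (leaf 1 522 554)))))))))))))) (node 430 (merge (node 557 (merge (leaf 5 429 525) (node 558 (merge (leaf 5 461 589) (node 495 (merge (leaf 6 462 590) (node 398 (merge (leaf 4 366 366) (leaf 4 398 527))))))))) (merge (node 397 (merge (leaf 7 397 429) (node 398 (merge (leaf 7 365 365) (node 367 (merge (leaf 6 366 399) (node 366 (merge (leaf 6 334 335) (leaf 4 366 495))))))))) (merge (node 525 (merge (leaf 5 429 557) (node 527 (merge (leaf 0 525 561) (node 493 (merge (leaf 5 397 398) (leaf 3 492 492))))))) (node 525 (merge (leaf 5 429 557) (node 527 (merge (leaf 0 525 561) (node 492 (merge (leaf 3 492 493) (node 524 (merge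 (leaf 3 491 491) (node 555 (merge (leaf 1 523 556) (node 523 (merge (leaf 2 491 495) (leaf 1 522 554)))))))))))))))))))))) (node 526 (merge (node 527 (merge (node 559 (merge (leaf 4 430 430) (node 591 (merge (leaf 4 462 558) (leaf 7 494 623))))) (merge (node 525 (merge (leaf 0 525 561) (node 557 (merge (leaf 5 429 430) (leaf 1 524 556))))) (node 561 (merge (leaf 0 525 525) (node 562 (merge (leaf 3 526 559) (leaf 3 527 563)))))))) (merge (node 558 (merge (node 590 (merge (leaf 6 462 495) (node 589 (merge (leaf 5 461 557) (leaf 5 493 621))))) (merge (node 590 (merge (leaf 6 462 495) (node 591 (merge (leaf 4 462 559) (leaf 4 494 623))))) (node 559 (merge (leaf 4 462 591) (node 525 (merge (leaf 3 525 561) (node 557 (merge (leaf 3 524 524) (leaf 5 461 589)))))))))) (merge (node 558 (merge (node 590 (merge (leaf 6 462 495) (node 589 (merge (leaf 5 461 557) (leaf 5 493 621))))) (merge (node 590 (merge (leaf 6 462 495) (node 591 (merge (leaf 4 462 559) (leaf 4 494 623))))) (node 559 (merge (leaf 4 462 591) (node 527 (merge (leaf 4 430 430) (node 557 (merge (leaf 2 524 556)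 (leaf 5 461 589)))))))))) (merge (node 527 (merge (node 525 (merge (leaf 0 525 561) (node 557 (merge (leaf 5 429 430) (leaf 1 524 556))))) (merge (node 561 (merge (leaf 0 525 525) (node 562 (merge (leaf 3 526 559) (leaf 3 527 563))))) (node 430 (merge (leaf 4 430 559) (node 398 (merge (leaf 4 398 495) (node 367 (merge (leaf 6 366 399) (node 366 (merge (leaf 6 334 335) (node 365 (merge (leaf 7 333 333) (leaf 7 365 397)))))))))))))) (merge (node 558 (merge (node 590 (merge (leaf 6 462 495) (node 589 (merge (leaf 5 461 557) (leaf 5 493 621))))) (merge (node 557 (merge (leaf 5 461 589) (node 525 (merge (leaf 5 429 430) (node 527 (merge (leaf 1 524 556) (leaf 0 525 561))))))) (node 590 (merge (leaf 6 462 495) (node 493 (merge (leaf 7 461 461) (node 622 (merge (leaf 7 493 525) (node 623 (merge (leaf 4 494 591) (leaf 4 526 655)))))))))))) (node 527 (merge (node 559 (merge (leaf 4 430 430) (node 591 (merge (leaf 7 462 495) (leaf 7 494 623))))) (merge (node 561 (merge (leaf 0 525 525) (node 562 (merge (leaf 3 526 559) (leaf 3 527 563))))) (node 525 (merge (leaf 0 525 561) (node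 492 (merge (leaf 3 492 493) (node 524 (merge (leaf 3 491 491) (node 555 (merge (leaf 1 523 556) (node 523 (merge (leaf 2 491 495) (leaf 1 522 554)))))))))))))))))))))))))))) nP_193 cP_193 11 (by decide +kernel)
def nP_194 : ℕ := 0x100000001000000000000000080000000000000000000000000000000000000000000000000000000000000000000000000000000000000000000000000000000000000000000
def cP_194 : ℕ := 0x2c0000002e000000ef000000efc00000cf800000ffe0000077c000003fe000000f0000000f0000000b00000000000000000000000000000000000000000000000000000000000000000000000000000000000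
theorem lP_194 : S nP_194 cP_194 12 := S_of_chk [(nP_191, cP_191, 10), (nP_192, cP_192, 10), (nP_193, cP_193, 11)] ⟨lP_191, lP_192, lP_193, trivial⟩ (node 462 (merge (node 496 (merge (node 431 (merge (leaf 7 431 464) (node 495 (merge (leaf 4 399 399) (leaf 4 431 527))))) (merge (node 464 (merge (leaf 7 431 431) (node 497 (merge (leaf 0 461 461) (node 498 (merge (leaf 0 462 465) (leaf 3 463 499))))))) (merge (node 497 (merge (node 461 (merge (leaf 0 461 464) (node 495 (merge (leaf 0 460 460) (leaf 3 461 494))))) (merge (node 464 (merge (leaf 0 461 461) (node 498 (merge (leaf 0 462 465) (leaf 3 463 499))))) (merge (node 495 (merge (leaf 3 462 498) (node 461 (merge (leaf 0 460 460) (leaf 3 461 494))))) (node 498 (merge (leaf 3 462 495) (node 499 (merge (leaf 3 463 464) (leaf 1 495 527))))))))) (node 495 (merge (node 431 (merge (leaf 4 399 399) (leaf 4 431 527))) (node 497 (merge (leaf 3 462 498) (node 461 (merge (leaf 0 460 460) (leaf 3 461 494))))))))))) (merge (hyp 0) (merge (hyp 1) (merge (node 464 (merge (node 496 (merge (leaf 7 431 431) (node 497 (merge (leaf 0 461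 461) (node 498 (merge (leaf 3 462 495) (leaf 3 463 499))))))) (merge (node 494 (merge (node 465 (merge (leaf 1 461 493) (node 496 (merge (leaf 7 431 431) (leaf 6 432 433))))) (merge (node 493 (merge (leaf 1 461 465) (node 492 (merge (leaf 2 459 491) (leaf 2 460 495))))) (node 431 (merge (leaf 7 431 496) (node 526 (merge (leaf 6 430 558) (node 399 (merge (leaf 5 366 367) (leaf 5 398 495)))))))))) (merge (node 461 (merge (node 492 (merge (leaf 1 460 493) (node 460 (merge (leaf 1 459 491) (node 428 (merge (leaf 3 427 427) (leaf 3 428 429))))))) (merge (node 432 (merge (leaf 2 429 433) (node 460 (merge (leaf 2 428 431) (node 428 (merge (leaf 3 427 427) (leaf 3 428 429))))))) (merge (node 492 (merge (leaf 1 460 493) (node 460 (merge (leaf 1 459 491) (node 432 (merge (leaf 2 428 431) (leaf 2 429 433))))))) (node 429 (merge (leaf 3 428 428) (node 432 (merge (leaf 2 429 433) (node 397 (merge (node 494 (merge (leaf 4 365 365) (node 526 (merge (leaf 7 397 430) (leaf 7 429 558))))) (merge (node 493 (merge (leaf 1 460 492) (node 494 (merge (leaf 4 365 365) (leaf 4 397 526)))))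 (node 493 (merge (leaf 1 460 492) (node 398 (merge (leaf 6 365 366) (node 396 (merge (leaf 7 364 364) (node 431 (merge (leaf 0 396 399) (leaf 3 396 430)))))))))))))))))))) (node 461 (merge (node 496 (merge (leaf 0 461 497) (node 460 (merge (leaf 0 460 495) (node 428 (merge (leaf 3 427 427) (leaf 3 428 429))))))) (merge (node 496 (merge (leaf 0 461 497) (node 460 (merge (leaf 0 460 495) (node 492 (merge (leaf 1 459 491) (leaf 1 460 493))))))) (node 493 (merge (leaf 1 460 492) (node 398 (merge (node 430 (merge (leaf 5 365 366) (node 525 (merge (leaf 6 397 429) (leaf 6 429 557))))) (merge (node 430 (merge (leaf 5 365 366) (node 525 (merge (leaf 5 397 494) (leaf 6 429 557))))) (merge (node 429 (merge (leaf 3 428 428) (node 397 (merge (leaf 6 365 366) (node 364 (merge (leaf 7 364 396) (node 365 (merge (leaf 7 332 332) (leaf 4 365 494))))))))) (node 429 (merge (leaf 3 428 428) (node 525 (merge (leaf 6 397 430) (node 556 (merge (leaf 5 428 524) (node 557 (merge (leaf 5 460 588) (node 589 (merge (leaf 6 461 494) (node 590 (merge (leaf 4 461 558) (leaf 4 493 622))))))))))))))))))))))))))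 (merge (node 464 (merge (node 496 (merge (leaf 7 431 431) (node 497 (merge (leaf 0 461 461) (node 498 (merge (leaf 0 462 465) (leaf 3 463 499))))))) (merge (node 496 (merge (leaf 7 431 431) (node 561 (merge (leaf 4 464 593) (node 559 (merge (leaf 5 463 591) (node 527 (merge (leaf 5 431 432) (node 526 (merge (leaf 0 525 525) (leaf 3 526 562))))))))))) (merge (node 497 (merge (node 461 (merge (leaf 0 461 496) (node 492 (merge (leaf 1 460 493) (node 460 (merge (leaf 1 459 491) (node 428 (merge (leaf 3 427 427) (leaf 3 428 429))))))))) (merge (node 465 (merge (leaf 0 462 498) (node 493 (merge (leaf 1 461 494) (node 461 (merge (leaf 1 460 492) (node 429 (merge (leaf 3 428 428) (leaf 3 429 430))))))))) (node 498 (merge (leaf 0 462 465) (node 496 (merge (leaf 3 463 499) (node 561 (merge (leaf 4 464 593) (node 559 (merge (leaf 5 463 591) (node 527 (merge (leaf 5 431 432) (node 526 (merge (leaf 0 525 525) (leaf 3 526 562)))))))))))))))) (node 493 (merge (node 492 (merge (leaf 1 460 461) (node 494 (merge (leaf 1 461 465) (leaf 2 459 491))))) (merge (node 465 (merge (leaf 1 461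 494) (node 498 (merge (leaf 0 462 497) (node 466 (merge (leaf 0 463 499) (node 430 (merge (leaf 3 429 429) (leaf 3 430 431))))))))) (merge (node 461 (merge (leaf 1 460 492) (node 429 (merge (leaf 3 428 428) (node 430 (merge (leaf 3 429 465) (node 398 (merge (leaf 5 365 366) (leaf 6 397 525))))))))) (node 461 (merge (leaf 1 460 492) (node 428 (merge (leaf 3 428 429) (node 460 (merge (leaf 3 427 427) (node 431 (merge (leaf 2 428 432) (node 459 (merge (leaf 2 427 430) (node 458 (merge (leaf 0 458 494) (node 490 (merge (leaf 1 457 489) (leaf 1 458 491))))))))))))))))))))))) (merge (node 495 (merge (node 431 (merge (leaf 4 431 527) (node 496 (merge (leaf 4 399 399) (leaf 7 431 464))))) (merge (node 527 (merge (leaf 4 431 431) (node 559 (merge (leaf 7 430 430) (node 558 (merge (leaf 5 462 590) (node 557 (merge (leaf 2 524 556) (node 525 (merge (leaf 3 524 524) (node 561 (merge (leaf 0 525 526) (node 594 (merge (leaf 0 558 593) (node 562 (merge (leaf 3 527 563) (leaf 0 559 595))))))))))))))))) (merge (node 461 (merge (node 496 (merge (leaf 0 460 460) (node 497 (merge (leaf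 0 461 464) (leaf 3 462 498))))) (merge (node 460 (merge (leaf 0 460 496) (node 491 (merge (leaf 1 459 492) (node 459 (merge (leaf 1 458 490) (node 431 (merge (leaf 2 427 430) (leaf 2 428 432))))))))) (merge (node 464 (merge (node 496 (merge (leaf 7 431 431) (leaf 0 461 497))) (node 493 (merge (leaf 1 460 492) (node 429 (merge (leaf 3 428 428) (node 430 (merge (leaf 3 429 465) (node 398 (merge (leaf 4 366 366) (leaf 6 397 525))))))))))) (node 460 (merge (node 491 (merge (leaf 1 459 492) (node 459 (merge (leaf 1 458 490) (node 427 (merge (leaf 3 426 426) (leaf 3 427 428))))))) (merge (node 492 (merge (leaf 1 459 491) (node 464 (merge (leaf 1 460 493) (node 428 (merge (leaf 3 427 427) (leaf 3 428 429))))))) (merge (node 427 (merge (leaf 3 427 428) (node 459 (merge (leaf 3 426 426) (node 490 (merge (leaf 1 458 491) (node 458 (merge (leaf 1 457 489) (node 430 (merge (leaf 2 426 429) (leaf 2 427 431))))))))))) (merge (node 491 (merge (leaf 1 459 492) (node 459 (merge (leaf 1 458 490) (node 430 (merge (leaf 2 427 431) (node 458 (merge (leaf 2 426 429) (node 426 (merge (leaf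 3 425 425) (leaf 3 426 427))))))))))) (merge (node 492 (merge (leaf 1 459 491) (node 464 (merge (leaf 1 460 493) (node 429 (merge (leaf 3 428 428) (node 430 (merge (leaf 3 429 465) (node 459 (merge (leaf 2 427 431) (leaf 2 426 458))))))))))) (node 427 (merge (leaf 3 427 428) (node 459 (merge (leaf 3 426 426) (node 430 (merge (leaf 2 427 431) (node 429 (merge (leaf 2 426 458) (node 464 (merge (leaf 3 429 465) (node 493 (merge (leaf 1 460 492) (node 398 (merge (leaf 4 366 366) (leaf 6 397 525))))))))))))))))))))))))) (node 461 (merge (node 496 (merge (leaf 0 460 460) (node 497 (merge (leaf 0 461 464) (leaf 3 462 498))))) (merge (node 428 (merge (node 427 (merge (leaf 3 427 460) (node 429 (merge (leaf 0 426 426) (leaf 0 427 430))))) (merge (node 429 (merge (leaf 3 428 464) (node 427 (merge (leaf 0 426 426) (leaf 0 427 430))))) (merge (node 460 (merge (leaf 3 427 427) (node 492 (merge (leaf 1 459 491) (node 493 (merge (leaf 1 460 464) (node 396 (merge (leaf 4 364 364) (leaf 4 396 525))))))))) (node 493 (merge (node 492 (merge (leaf 1 460 464) (node 491 (merge (leaf 1 459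 460) (leaf 2 458 490))))) (merge (node 429 (merge (leaf 3 428 464) (node 396 (merge (leaf 7 396 525) (node 364 (merge (leaf 4 332 332) (leaf 7 364 397))))))) (node 396 (merge (node 364 (merge (leaf 4 364 460) (node 429 (merge (leaf 4 332 332) (leaf 7 364 397))))) (merge (node 460 (merge (leaf 4 364 364) (node 492 (merge (leaf 1 459 491) (leaf 4 396 525))))) (merge (node 429 (merge (leaf 7 396 525) (node 364 (merge (leaf 4 332 332) (leaf 7 364 397))))) (node 525 (merge (leaf 7 396 429) (node 557 (merge (leaf 6 429 430) (leaf 7 428 460)))))))))))))))) (merge (node 464 (merge (node 497 (merge (leaf 0 461 496) (node 465 (merge (leaf 0 462 498) (node 429 (merge (leaf 3 428 428) (leaf 3 429 430))))))) (merge (node 493 (merge (leaf 1 460 492) (node 429 (merge (leaf 3 428 428) (node 430 (merge (leaf 3 429 465) (node 398 (merge (leaf 4 366 366) (leaf 6 397 525))))))))) (node 496 (merge (leaf 0 461 497) (node 561 (merge (leaf 4 464 593) (node 559 (merge (leaf 5 463 591) (node 527 (merge (leaf 5 431 432) (node 526 (merge (leaf 0 525 525) (leaf 3 526 562)))))))))))))) (node 525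 (merge (node 460 (merge (leaf 0 460 496) (node 428 (merge (leaf 3 427 427) (node 493 (merge (leaf 7 428 557) (node 396 (merge (leaf 4 364 364) (leaf 7 396 429))))))))) (merge (node 496 (merge (leaf 0 460 460) (node 497 (merge (leaf 3 462 498) (node 527 (merge (leaf 2 493 526) (node 559 (merge (leaf 7 430 430) (node 591 (merge (leaf 6 495 623) (node 590 (merge (leaf 5 462 558) (leaf 5 494 622))))))))))))) (node 527 (merge (node 526 (merge (leaf 0 525 561) (node 559 (merge (leaf 7 430 430) (leaf 0 524 524))))) (merge (node 559 (merge (leaf 7 430 430) (node 558 (merge (leaf 5 462 590) (node 557 (merge (leaf 3 524 524) (leaf 2 524 556))))))) (merge (node 526 (merge (leaf 0 525 561) (node 557 (merge (leaf 1 524 556) (node 493 (merge (leaf 6 429 430) (node 558 (merge (leaf 4 429 429) (leaf 4 461 590))))))))) (node 526 (merge (leaf 0 525 561) (node 524 (merge (leaf 0 524 559) (node 556 (merge (leaf 1 523 555) (leaf 1 524 557)))))))))))))))))))))) (hyp 2)))))))) nP_194 cP_194 12 (by decide +kernel)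
def nP_195 : ℕ := 0x100000001000000000000000080000000000000000000000000000000000000000000000000000000000000000000000000000000000000000000000000000000000000000000
def cP_195 : ℕ := 0xa0000002e000000ef0000000c000001ffc00000f7800001ff8000007f800000ff0000003e0000000a000000000000000000000000000000000000000000000000000000000000000000000000000
theorem lP_195 : S nP_195 cP_195 13 := S_of_chk [] trivial (node 464 (merge (node 496 (merge (leaf 7 431 431) (node 433 (merge (leaf 6 432 465) (node 432 (merge (leaf 6 400 401) (node 559 (merge (leaf 5 431 527) (leaf 5 463 591))))))))) (merge (node 465 (merge (node 496 (merge (leaf 7 431 431) (leaf 6 432 433))) (merge (node 431 (merge (leaf 7 431 496) (node 495 (merge (leaf 4 431 527) (node 494 (merge (leaf 1 462 466) (node 493 (merge (leaf 1 461 462) (leaf 2 460 492))))))))) (node 466 (merge (node 498 (merge (leaf 0 463 499) (node 462 (merge (leaf 0 462 497) (node 494 (merge (leaf 1 461 493) (leaf 1 462 495))))))) (merge (node 499 (merge (leaf 0 463 498) (node 467 (merge (leaf 0 464 500) (node 435 (merge (leaf 2 431 434) (leaf 2 432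 436))))))) (node 494 (merge (leaf 1 462 495) (node 462 (merge (leaf 1 461 493) (node 434 (merge (leaf 2 430 433) (leaf 2 431 435))))))))))))) (merge (node 496 (merge (leaf 7 431 431) (node 559 (merge (leaf 5 463 591) (node 432 (merge (leaf 5 431 527) (node 401 (merge (leaf 6 400 433) (node 400 (merge (leaf 6 368 369) (node 367 (merge (leaf 7 367 399) (node 368 (merge (leaf 7 335 335) (leaf 5 367 495))))))))))))))) (merge (node 465 (merge (node 431 (merge (leaf 7 431 496) (node 466 (merge (leaf 3 430 430) (node 499 (merge (leaf 0 463 498) (node 467 (merge (leaf 3 431 432) (leaf 0 464 500))))))))) (merge (node 430 (merge (node 429 (merge (leaf 3 429 462) (node 431 (merge (leaf 0 428 428) (leaf 0 429 432))))) (merge (node 431 (merge (leaf 3 430 466) (node 429 (merge (leaf 0 428 428) (leaf 0 429 432))))) (merge (node 462 (merge (leaf 3 429 429) (node 498 (merge (leaf 0 462 497) (node 466 (merge (leaf 0 463 499) (node 494 (merge (leaf 1 461 493) (leaf 1 462 495))))))))) (node 466 (merge (leaf 3 430 431) (node 498 (merge (leaf 0 463 499) (node 462 (merge (leaf 0 462 497)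 (node 494 (merge (leaf 1 461 493) (leaf 1 462 495))))))))))))) (merge (node 494 (merge (node 493 (merge (leaf 1 461 462) (node 495 (merge (leaf 1 462 466) (leaf 2 460 492))))) (merge (node 462 (merge (leaf 1 461 493) (node 497 (merge (leaf 0 462 498) (node 496 (merge (leaf 7 431 431) (leaf 0 461 461))))))) (node 466 (merge (leaf 1 462 495) (node 499 (merge (leaf 0 463 498) (node 467 (merge (leaf 0 464 500) (node 435 (merge (leaf 2 431 434) (leaf 2 432 436)))))))))))) (merge (node 494 (merge (node 493 (merge (leaf 1 461 462) (node 495 (merge (leaf 1 462 466) (leaf 2 460 492))))) (merge (node 466 (merge (leaf 1 462 495) (node 499 (merge (leaf 0 463 498) (node 467 (merge (leaf 0 464 500) (node 435 (merge (leaf 2 431 434) (leaf 2 432 436))))))))) (node 462 (merge (leaf 1 461 493) (node 497 (merge (leaf 0 462 498) (node 461 (merge (leaf 0 461 496) (node 429 (merge (leaf 3 428 428) (leaf 3 429 430)))))))))))) (node 431 (merge (leaf 7 431 496) (node 462 (merge (node 494 (merge (leaf 1 461 493) (node 526 (merge (leaf 6 430 558) (node 399 (merge (leaf 5 366 367) (leaf 5 398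 495))))))) (node 461 (merge (node 429 (merge (leaf 3 428 428) (leaf 3 429 430))) (merge (node 460 (merge (leaf 2 428 432) (node 491 (merge (leaf 1 459 492) (node 459 (merge (leaf 2 427 430) (leaf 1 458 490))))))) (node 460 (merge (leaf 2 428 432) (node 428 (merge (leaf 3 427 427) (leaf 3 428 429))))))))))))))))) (merge (node 496 (merge (node 561 (merge (leaf 4 464 593) (node 559 (merge (leaf 5 463 591) (node 527 (merge (leaf 5 431 432) (node 562 (merge (leaf 3 526 526) (leaf 3 527 563))))))))) (node 498 (merge (node 497 (merge (leaf 3 463 499) (node 462 (merge (leaf 0 461 461) (leaf 3 462 495))))) (merge (node 499 (merge (leaf 3 463 497) (node 465 (merge (leaf 6 432 433) (leaf 0 463 466))))) (merge (node 465 (merge (leaf 6 432 433) (node 466 (merge (leaf 0 463 499) (node 467 (merge (leaf 1 463 495) (node 435 (merge (leaf 2 431 434) (leaf 2 432 436))))))))) (node 465 (merge (leaf 6 432 433) (node 462 (merge (leaf 0 462 497) (node 429 (merge (leaf 3 429 430) (node 461 (merge (leaf 3 428 428) (node 460 (merge (leaf 0 460 495) (node 492 (merge (leaf 1 459 491) (leaf 1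 460 493))))))))))))))))))) (node 462 (merge (node 465 (merge (node 433 (merge (leaf 2 430 434) (node 461 (merge (leaf 2 429 432) (node 429 (merge (leaf 3 428 428) (leaf 3 429 430))))))) (merge (node 498 (merge (leaf 0 462 497) (node 466 (merge (leaf 0 463 499) (node 434 (merge (leaf 2 430 433) (leaf 2 431 435))))))) (node 498 (merge (leaf 0 462 497) (node 466 (merge (leaf 0 463 499) (node 430 (merge (leaf 3 429 429) (leaf 3 430 431)))))))))) (merge (node 465 (merge (node 498 (merge (leaf 0 462 497) (node 466 (merge (leaf 0 463 499) (node 434 (merge (leaf 2 430 433) (leaf 2 431 435))))))) (node 493 (merge (leaf 1 461 494) (node 461 (merge (leaf 1 460 492) (node 429 (merge (leaf 3 428 428) (leaf 3 429 430))))))))) (merge (node 493 (merge (node 492 (merge (leaf 1 460 461) (node 494 (merge (leaf 1 461 465) (leaf 2 459 491))))) (merge (node 461 (merge (leaf 1 460 492) (node 432 (merge (leaf 2 429 433) (node 460 (merge (leaf 2 428 431) (node 428 (merge (leaf 3 427 427) (leaf 3 428 429))))))))) (node 465 (merge (leaf 1 461 494) (node 498 (merge (leaf 0 462 497) (node 466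 (merge (leaf 0 463 499) (node 434 (merge (leaf 2 430 433) (leaf 2 431 435)))))))))))) (merge (node 461 (merge (node 492 (merge (leaf 1 460 493) (node 460 (merge (leaf 1 459 491) (node 428 (merge (leaf 3 427 427) (leaf 3 428 429))))))) (merge (node 432 (merge (leaf 2 429 433) (node 460 (merge (leaf 2 428 431) (node 428 (merge (leaf 3 427 427) (leaf 3 428 429))))))) (merge (node 492 (merge (leaf 1 460 493) (node 460 (merge (leaf 1 459 491) (node 432 (merge (leaf 2 428 431) (leaf 2 429 433))))))) (node 429 (merge (leaf 3 428 428) (node 432 (merge (leaf 2 429 433) (node 397 (merge (node 494 (merge (leaf 4 365 365) (node 526 (merge (leaf 7 397 430) (leaf 7 429 558))))) (merge (node 493 (merge (leaf 1 460 492) (node 494 (merge (leaf 4 365 365) (leaf 4 397 526))))) (node 493 (merge (leaf 1 460 492) (node 398 (merge (leaf 6 365 366) (node 396 (merge (leaf 7 364 364) (node 431 (merge (leaf 0 396 399) (leaf 3 396 430)))))))))))))))))))) (merge (node 494 (merge (node 493 (merge (leaf 1 461 465) (node 492 (merge (leaf 1 460 461) (leaf 2 459 491))))) (node 526 (merge (node 431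 (merge (leaf 6 430 558) (node 495 (merge (leaf 5 398 399) (leaf 4 431 527))))) (merge (node 431 (merge (leaf 6 430 558) (node 399 (merge (leaf 5 366 367) (leaf 6 398 430))))) (merge (node 558 (merge (node 590 (merge (leaf 6 462 495) (node 589 (merge (leaf 5 461 557) (leaf 5 493 621))))) (merge (node 590 (merge (leaf 6 462 495) (node 591 (merge (leaf 4 462 559) (leaf 4 494 623))))) (node 559 (merge (leaf 4 462 591) (node 527 (merge (leaf 4 430 430) (node 557 (merge (leaf 2 524 556) (leaf 5 461 589)))))))))) (node 430 (merge (node 527 (merge (leaf 4 430 559) (node 495 (merge (leaf 4 398 398) (leaf 4 431 431))))) (merge (node 431 (merge (leaf 6 398 399) (node 527 (merge (leaf 4 431 495) (leaf 4 430 559))))) (merge (node 398 (merge (node 399 (merge (leaf 6 366 367) (leaf 6 398 431))) (merge (node 431 (merge (leaf 6 398 399) (node 365 (merge (leaf 7 365 397) (node 366 (merge (leaf 7 333 333) (leaf 4 334 334))))))) (merge (node 367 (merge (leaf 6 366 399) (node 366 (merge (leaf 6 334 335) (node 365 (merge (leaf 7 333 333) (leaf 7 365 397))))))) (node 365 (merge (leaf 7 365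 397) (node 366 (merge (leaf 7 333 333) (node 335 (merge (leaf 6 334 367) (node 334 (merge (leaf 6 302 303) (leaf 4 334 431))))))))))))) (node 527 (merge (leaf 4 430 559) (node 398 (merge (leaf 4 398 495) (node 367 (merge (leaf 6 366 399) (node 366 (merge (leaf 6 334 335) (node 365 (merge (leaf 7 333 333) (leaf 7 365 397))))))))))))))))))))) (node 430 (merge (node 429 (merge (leaf 3 429 465) (node 428 (merge (leaf 0 427 427) (leaf 0 428 431))))) (merge (node 465 (merge (leaf 3 429 429) (node 498 (merge (leaf 0 462 497) (node 466 (merge (leaf 0 463 499) (node 434 (merge (leaf 2 430 433) (leaf 2 431 435))))))))) (merge (node 431 (merge (node 465 (merge (leaf 3 430 466) (node 494 (merge (leaf 1 461 493) (node 526 (merge (leaf 6 398 399) (leaf 6 430 558))))))) (merge (node 399 (merge (node 367 (merge (leaf 5 334 335) (leaf 5 366 494))) (merge (node 495 (merge (leaf 4 431 527) (node 368 (merge (leaf 6 367 400) (node 367 (merge (leaf 5 334 335) (leaf 6 335 336))))))) (node 494 (merge (leaf 6 398 526) (node 495 (merge (leaf 4 431 527) (node 398 (merge (leaf 7 366 366) (node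 397 (merge (leaf 7 365 365) (node 396 (merge (leaf 0 395 395) (leaf 0 396 432)))))))))))))) (node 465 (merge (leaf 3 430 466) (node 433 (merge (leaf 2 430 434) (node 495 (merge (leaf 4 431 527) (node 398 (merge (leaf 4 366 366) (node 432 (merge (leaf 3 397 397) (node 401 (merge (leaf 2 398 402) (node 369 (merge (leaf 5 336 337) (node 368 (merge (leaf 7 336 336) (leaf 5 367 400)))))))))))))))))))) (node 398 (merge (node 495 (merge (leaf 4 366 366) (node 527 (merge (leaf 4 398 494) (leaf 7 430 559))))) (merge (node 366 (merge (leaf 4 366 495) (node 335 (merge (leaf 6 334 367) (node 334 (merge (leaf 6 302 303) (leaf 4 334 431))))))) (merge (node 365 (merge (node 397 (merge (leaf 7 365 494) (node 333 (merge (leaf 4 301 301) (leaf 4 333 429))))) (merge (node 366 (merge (leaf 7 333 333) (node 335 (merge (leaf 6 334 367) (node 334 (merge (leaf 6 302 303) (leaf 4 334 431))))))) (node 494 (merge (leaf 7 365 397) (node 399 (merge (leaf 6 366 367) (node 526 (merge (leaf 6 398 431) (node 559 (merge (leaf 4 430 527) (node 558 (merge (leaf 4 462 591) (node 589 (merge (leaf 5 461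 557) (node 590 (merge (leaf 1 557 561) (leaf 5 493 621)))))))))))))))))) (node 399 (merge (node 367 (merge (leaf 6 366 494) (node 335 (merge (leaf 5 302 303) (leaf 5 334 431))))) (merge (node 494 (merge (leaf 6 366 367) (node 397 (merge (leaf 7 365 365) (node 429 (merge (leaf 7 397 526) (node 428 (merge (leaf 1 396 400) (leaf 0 427 427))))))))) (merge (node 431 (merge (node 429 (merge (leaf 0 428 428) (node 400 (merge (leaf 1 397 401) (node 495 (merge (leaf 6 367 368) (leaf 7 398 527))))))) (node 494 (merge (leaf 6 398 526) (node 397 (merge (leaf 7 365 365) (node 396 (merge (leaf 0 395 395) (leaf 0 396 432))))))))) (node 400 (merge (node 429 (merge (leaf 1 397 401) (node 428 (merge (leaf 1 396 397) (leaf 0 427 427))))) (merge (node 401 (merge (leaf 1 397 429) (node 434 (merge (leaf 0 398 433) (node 402 (merge (leaf 1 398 431) (leaf 0 399 435))))))) (node 495 (merge (node 527 (merge (leaf 7 398 431) (leaf 7 430 559))) (node 368 (merge (leaf 5 367 432) (node 369 (merge (leaf 2 365 397) (node 370 (merge (leaf 1 366 367) (leaf 1 367 371))))))))))))))))))))))))))))))))))))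 nP_195 cP_195 13 (by decide +kernel)
def nP_196 : ℕ := 0x1000000010000000000000000c0000000000000000000000000000000000000000000000000000000000000000000000000000000000000000000000000000000000000000000
def cP_196 : ℕ := 0x80000000e0000002f000000efc00000cf800001ffe00000f3c00001d7e000000f0000000f0000000a00000000000000000000000000000000000000000000000000000000000000000000000000000000000
theorem lP_196 : S nP_196 cP_196 14 := S_of_chk [] trivial (node 494 (merge (node 526 (merge (node 527 (merge (node 559 (merge (leaf 4 430 430) (node 591 (merge (leaf 7 462 495) (leaf 7 494 623))))) (merge (node 525 (merge (leaf 0 525 561) (node 557 (merge (leaf 5 429 430) (leaf 1 524 556))))) (node 561 (merge (leaf 0 525 525) (node 562 (merge (leaf 3 526 559) (leaf 3 527 563)))))))) (merge (node 558 (merge (node 590 (merge (leaf 6 462 495) (node 589 (merge (leaf 5 461 557) (leaf 5 493 621))))) (merge (node 590 (merge (leaf 6 462 495) (node 591 (merge (leaf 4 462 559) (leaf 4 494 623))))) (node 559 (merge (leaf 4 462 591) (node 525 (merge (leaf 3 525 561) (node 557 (merge (leaf 3 524 524)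 (leaf 5 461 589)))))))))) (merge (node 558 (merge (node 590 (merge (leaf 6 462 495) (node 461 (merge (leaf 7 429 429) (leaf 7 461 493))))) (node 557 (merge (leaf 5 461 589) (node 525 (merge (leaf 5 429 430) (node 527 (merge (leaf 1 524 556) (leaf 0 525 561))))))))) (merge (node 558 (merge (node 590 (merge (leaf 6 462 495) (node 461 (merge (leaf 7 429 429) (leaf 7 461 493))))) (node 559 (merge (leaf 4 462 591) (node 561 (merge (leaf 3 525 525) (node 527 (merge (leaf 4 430 430) (leaf 3 526 562))))))))) (node 558 (merge (node 559 (merge (leaf 4 462 591) (node 527 (merge (leaf 4 430 430) (node 557 (merge (leaf 2 524 556) (leaf 5 461 589))))))) (merge (node 461 (merge (leaf 7 429 429) (node 590 (merge (leaf 7 461 493) (node 591 (merge (leaf 4 462 559) (leaf 4 494 623))))))) (node 461 (merge (leaf 7 429 429) (node 590 (merge (leaf 7 461 493) (node 589 (merge (leaf 5 461 557) (leaf 5 493 621))))))))))))))) (merge (node 464 (merge (node 493 (merge (leaf 1 461 465) (node 492 (merge (leaf 1 460 461) (leaf 2 459 491))))) (merge (node 465 (merge (leaf 1 461 493) (node 498 (merge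 (leaf 0 462 497) (node 466 (merge (leaf 1 462 495) (leaf 0 463 499))))))) (merge (node 465 (merge (node 497 (merge (leaf 0 462 498) (node 461 (merge (leaf 0 461 496) (node 429 (merge (leaf 3 428 428) (leaf 3 429 430))))))) (merge (node 495 (merge (leaf 1 462 466) (node 429 (merge (leaf 3 429 430) (node 461 (merge (leaf 3 428 428) (node 496 (merge (leaf 0 460 460) (leaf 0 461 497))))))))) (node 466 (merge (leaf 1 462 495) (node 499 (merge (leaf 0 463 498) (node 467 (merge (leaf 0 464 500) (node 435 (merge (leaf 2 431 434) (leaf 2 432 436)))))))))))) (node 461 (merge (node 429 (merge (leaf 3 428 428) (node 526 (merge (leaf 7 429 558) (node 397 (merge (leaf 4 365 365) (leaf 4 397 493))))))) (merge (node 460 (merge (node 492 (merge (leaf 1 459 491) (leaf 1 460 493))) (merge (node 459 (merge (leaf 0 459 495) (node 493 (merge (leaf 0 458 458) (leaf 1 460 492))))) (merge (node 459 (merge (leaf 0 459 495) (node 491 (merge (leaf 1 458 490) (leaf 1 459 492))))) (node 459 (merge (leaf 0 459 495) (node 458 (merge (leaf 0 458 493) (node 490 (merge (leaf 1 457 489) (leaf 1 458 491)))))))))))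 (node 428 (merge (leaf 3 428 429) (node 460 (merge (leaf 3 427 427) (node 459 (merge (leaf 0 459 495) (node 491 (merge (leaf 1 458 490) (leaf 1 459 492)))))))))))))))) (merge (node 526 (merge (node 527 (merge (node 559 (merge (leaf 4 430 430) (node 591 (merge (leaf 4 462 558) (leaf 7 494 623))))) (merge (node 525 (merge (leaf 0 525 561) (node 557 (merge (leaf 5 429 430) (leaf 1 524 556))))) (node 561 (merge (leaf 0 525 525) (node 562 (merge (leaf 3 526 559) (leaf 3 527 563)))))))) (merge (node 558 (merge (node 559 (merge (leaf 4 462 591) (node 557 (merge (leaf 5 461 589) (node 525 (merge (leaf 5 429 430) (leaf 3 524 524))))))) (node 461 (merge (leaf 7 429 429) (node 493 (merge (leaf 7 461 590) (node 464 (merge (leaf 1 461 465) (leaf 1 460 492))))))))) (merge (node 558 (merge (node 461 (merge (leaf 7 429 429) (node 493 (merge (leaf 7 461 590) (node 464 (merge (leaf 1 461 465) (leaf 1 460 492))))))) (node 557 (merge (leaf 5 461 589) (node 525 (merge (leaf 5 429 430) (node 527 (merge (leaf 1 524 556) (leaf 0 525 561))))))))) (merge (node 558 (merge (node 559 (merge (leaf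 4 462 591) (node 525 (merge (leaf 3 525 561) (node 557 (merge (leaf 3 524 524) (leaf 5 461 589))))))) (node 461 (merge (leaf 7 429 429) (node 493 (merge (leaf 7 461 590) (node 464 (merge (leaf 1 461 465) (leaf 1 460 492))))))))) (merge (node 558 (merge (node 559 (merge (leaf 4 462 591) (node 589 (merge (leaf 5 461 557) (node 590 (merge (leaf 1 557 561) (leaf 5 493 621))))))) (merge (node 461 (merge (leaf 7 429 429) (node 493 (merge (leaf 7 461 590) (node 464 (merge (leaf 1 461 465) (leaf 1 460 492))))))) (node 429 (merge (leaf 7 429 461) (node 430 (merge (leaf 7 397 397) (node 559 (merge (leaf 4 430 527) (leaf 4 462 591)))))))))) (merge (node 527 (merge (node 561 (merge (leaf 0 525 525) (node 562 (merge (leaf 3 526 559) (leaf 3 527 563))))) (merge (node 525 (merge (leaf 0 525 561) (node 557 (merge (leaf 5 429 430) (leaf 1 524 556))))) (node 430 (merge (leaf 4 430 559) (node 429 (merge (leaf 7 397 397) (node 428 (merge (leaf 0 427 427) (node 464 (merge (leaf 3 428 461) (leaf 3 429 465)))))))))))) (node 527 (merge (node 559 (merge (leaf 4 430 430) (node 591 (merge (leaf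 4 462 558) (leaf 7 494 623))))) (merge (node 561 (merge (leaf 0 525 525) (node 562 (merge (leaf 3 526 559) (leaf 3 527 563))))) (node 525 (merge (leaf 0 525 561) (node 493 (merge (leaf 3 492 492) (node 464 (merge (leaf 1 461 465) (node 430 (merge (leaf 5 397 398) (node 429 (merge (leaf 7 397 397) (node 461 (merge (leaf 3 428 428) (leaf 7 429 558))))))))))))))))))))))) (merge (node 526 (merge (node 527 (merge (node 559 (merge (leaf 4 430 430) (node 591 (merge (leaf 7 462 495) (leaf 7 494 623))))) (merge (node 525 (merge (leaf 0 525 561) (node 557 (merge (leaf 5 429 430) (leaf 1 524 556))))) (node 561 (merge (leaf 0 525 525) (node 562 (merge (leaf 3 526 559) (leaf 3 527 563)))))))) (merge (node 558 (merge (node 590 (merge (leaf 6 462 495) (node 589 (merge (leaf 5 461 557) (leaf 5 493 621))))) (merge (node 590 (merge (leaf 6 462 495) (node 591 (merge (leaf 4 462 559) (leaf 4 494 623))))) (node 559 (merge (leaf 4 462 591) (node 525 (merge (leaf 3 525 561) (node 557 (merge (leaf 3 524 524) (leaf 5 461 589)))))))))) (merge (node 430 (merge (node 525 (merge (leaf 5 429 557)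 (node 527 (merge (leaf 4 430 559) (leaf 0 525 561))))) (node 429 (merge (leaf 7 397 397) (node 461 (merge (leaf 7 429 558) (node 464 (merge (leaf 3 428 428) (leaf 3 429 465))))))))) (merge (node 430 (merge (node 429 (merge (leaf 7 397 397) (node 428 (merge (leaf 0 427 427) (node 464 (merge (leaf 3 428 461) (leaf 3 429 465))))))) (node 559 (merge (leaf 4 430 527) (node 558 (merge (leaf 4 462 591) (node 590 (merge (leaf 6 462 495) (node 589 (merge (leaf 1 557 561) (leaf 5 493 621))))))))))) (node 430 (merge (node 557 (merge (leaf 5 429 525) (node 558 (merge (leaf 5 461 589) (node 495 (merge (leaf 6 462 590) (node 398 (merge (leaf 4 366 366) (leaf 4 398 527))))))))) (node 429 (merge (leaf 7 397 397) (node 428 (merge (leaf 0 427 427) (node 464 (merge (leaf 3 428 461) (leaf 3 429 465)))))))))))))) (merge (node 464 (merge (node 493 (merge (leaf 1 461 465) (node 492 (merge (leaf 1 460 461) (leaf 2 459 491))))) (merge (node 465 (merge (leaf 1 461 493) (node 498 (merge (leaf 0 462 497) (node 466 (merge (leaf 1 462 495) (leaf 0 463 499))))))) (merge (node 496 (merge (node 497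 (merge (leaf 0 461 461) (node 498 (merge (leaf 0 462 465) (leaf 3 463 499))))) (merge (node 461 (merge (leaf 0 461 497) (node 460 (merge (leaf 0 460 495) (node 428 (merge (leaf 3 427 427) (leaf 3 428 429))))))) (merge (node 559 (merge (leaf 5 463 591) (node 527 (merge (leaf 5 431 432) (node 430 (merge (leaf 7 430 495) (node 429 (merge (leaf 3 429 465) (node 428 (merge (leaf 0 427 427) (leaf 3 428 461))))))))))) (node 561 (merge (leaf 4 464 593) (node 559 (merge (leaf 5 463 591) (node 527 (merge (leaf 5 431 432) (node 430 (merge (leaf 7 430 495) (node 465 (merge (leaf 3 429 429) (node 498 (merge (leaf 0 462 497) (node 466 (merge (leaf 0 463 499) (node 435 (merge (leaf 2 431 434) (node 562 (merge (leaf 3 527 563) (node 530 (merge (leaf 6 434 467) (leaf 2 527 531))))))))))))))))))))))))) (node 461 (merge (node 460 (merge (node 492 (merge (leaf 1 459 491) (leaf 1 460 493))) (merge (node 459 (merge (leaf 0 459 495) (node 493 (merge (leaf 0 458 458) (leaf 1 460 492))))) (node 459 (merge (leaf 0 459 495) (node 490 (merge (leaf 1 458 491) (node 458 (merge (leaf 1 457 489)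 (node 426 (merge (leaf 3 425 425) (leaf 3 426 427)))))))))))) (merge (node 428 (merge (leaf 3 428 429) (node 460 (merge (leaf 3 427 427) (node 459 (merge (leaf 0 459 495) (node 458 (merge (leaf 0 458 493) (node 490 (merge (leaf 1 457 489) (leaf 1 458 491))))))))))) (merge (node 428 (merge (leaf 3 428 429) (node 460 (merge (leaf 3 427 427) (node 459 (merge (leaf 0 459 495) (node 491 (merge (leaf 1 458 490) (leaf 1 459 492))))))))) (node 493 (merge (leaf 1 460 492) (node 429 (merge (leaf 3 428 428) (node 397 (merge (leaf 4 365 365) (node 398 (merge (leaf 6 365 366) (node 525 (merge (leaf 6 397 430) (node 557 (merge (leaf 6 461 589) (node 556 (merge (leaf 5 428 524) (leaf 5 460 588))))))))))))))))))))))) (merge (node 461 (merge (node 460 (merge (node 495 (merge (leaf 0 459 459) (leaf 0 460 496))) (merge (node 491 (merge (leaf 1 459 492) (node 459 (merge (leaf 1 458 490) (node 458 (merge (leaf 0 458 493) (node 426 (merge (leaf 3 425 425) (leaf 3 426 427))))))))) (node 495 (merge (leaf 0 460 496) (node 492 (merge (leaf 1 459 491) (node 493 (merge (leaf 2 460 464) (leaf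 0 492 527)))))))))) (merge (node 460 (merge (node 459 (merge (leaf 0 459 495) (node 427 (merge (leaf 3 426 426) (leaf 3 427 428))))) (merge (node 459 (merge (leaf 0 459 495) (node 491 (merge (leaf 1 458 490) (leaf 1 459 492))))) (node 492 (merge (leaf 1 459 491) (node 428 (merge (leaf 3 427 427) (node 429 (merge (leaf 3 428 464) (node 397 (merge (leaf 5 364 365) (leaf 6 396 524)))))))))))) (merge (node 526 (merge (node 429 (merge (leaf 7 429 558) (node 397 (merge (leaf 4 365 365) (leaf 4 397 493))))) (merge (node 558 (merge (leaf 7 429 429) (node 590 (merge (leaf 6 462 495) (node 591 (merge (leaf 4 462 559) (leaf 4 494 623))))))) (merge (node 493 (merge (node 492 (merge (leaf 2 459 491) (node 527 (merge (leaf 0 492 495) (leaf 3 492 525))))) (node 464 (merge (leaf 1 461 465) (node 429 (merge (leaf 4 397 397) (leaf 3 428 428))))))) (node 493 (merge (node 464 (merge (leaf 1 461 465) (leaf 1 460 492))) (merge (node 492 (merge (leaf 2 459 491) (node 527 (merge (leaf 0 492 495) (leaf 3 492 525))))) (node 558 (merge (leaf 7 461 590) (node 559 (merge (leaf 4 462 591) (node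 525 (merge (leaf 3 525 561) (node 557 (merge (leaf 3 524 524) (leaf 6 461 589)))))))))))))))) (merge (node 526 (merge (node 429 (merge (leaf 7 429 558) (node 397 (merge (leaf 4 365 365) (leaf 4 397 493))))) (merge (node 558 (merge (leaf 7 429 429) (node 591 (merge (leaf 4 462 559) (node 590 (merge (leaf 4 494 623) (node 589 (merge (leaf 5 461 557) (leaf 5 493 621))))))))) (merge (node 558 (merge (node 590 (merge (leaf 7 461 493) (node 591 (merge (leaf 4 462 559) (leaf 4 494 623))))) (merge (node 589 (merge (leaf 5 461 557) (node 590 (merge (leaf 7 461 493) (leaf 5 493 621))))) (node 559 (merge (leaf 4 462 591) (node 525 (merge (leaf 3 525 561) (node 557 (merge (leaf 3 524 524) (leaf 5 461 589)))))))))) (node 525 (merge (node 527 (merge (leaf 0 525 561) (node 559 (merge (leaf 0 524 524) (node 591 (merge (leaf 7 462 495) (leaf 7 494 623))))))) (merge (node 527 (merge (leaf 0 525 561) (node 557 (merge (leaf 1 524 556) (node 589 (merge (leaf 6 461 493) (leaf 6 493 621))))))) (node 493 (merge (node 557 (merge (leaf 6 461 589) (node 460 (merge (leaf 7 428 428) (node 459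 (merge (leaf 0 458 458) (leaf 0 459 495))))))) (merge (node 557 (merge (leaf 6 461 589) (node 556 (merge (leaf 5 460 588) (node 429 (merge (leaf 5 428 524) (node 397 (merge (leaf 4 365 365) (leaf 4 397 526))))))))) (node 429 (merge (node 397 (merge (leaf 4 365 365) (leaf 4 397 526))) (node 428 (merge (leaf 7 396 396) (node 427 (merge (leaf 0 426 426) (node 463 (merge (leaf 3 427 460) (leaf 3 428 464))))))))))))))))))) (merge (node 493 (merge (node 492 (merge (leaf 2 459 491) (node 495 (merge (leaf 0 492 527) (node 496 (merge (leaf 3 460 460) (leaf 3 461 497))))))) (merge (node 492 (merge (leaf 2 459 491) (node 527 (merge (leaf 0 492 495) (node 526 (merge (leaf 3 492 525) (node 429 (merge (leaf 4 397 397) (leaf 7 429 558))))))))) (merge (node 460 (merge (node 495 (merge (leaf 0 459 459) (leaf 0 460 496))) (node 428 (merge (leaf 3 427 427) (node 525 (merge (leaf 7 428 557) (node 396 (merge (leaf 4 364 364) (leaf 7 396 429))))))))) (node 460 (merge (node 459 (merge (leaf 0 458 458) (node 491 (merge (leaf 1 458 490) (leaf 1 459 492))))) (merge (node 459 (merge (leaf 0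 458 458) (node 427 (merge (leaf 3 426 426) (leaf 3 427 428))))) (node 492 (merge (leaf 1 459 491) (node 428 (merge (leaf 3 427 427) (node 525 (merge (leaf 4 396 396) (leaf 7 428 557)))))))))))))) (node 460 (merge (node 491 (merge (leaf 1 459 492) (node 459 (merge (leaf 1 458 490) (node 427 (merge (leaf 3 426 426) (leaf 3 427 428))))))) (merge (node 459 (merge (node 491 (merge (leaf 1 458 490) (leaf 1 459 492))) (merge (node 493 (merge (leaf 0 458 458) (node 464 (merge (leaf 1 461 465) (leaf 1 460 492))))) (node 458 (merge (leaf 0 458 493) (node 490 (merge (leaf 1 457 489) (leaf 1 458 491)))))))) (merge (node 427 (merge (leaf 3 427 428) (node 459 (merge (leaf 3 426 426) (node 493 (merge (leaf 0 458 458) (node 464 (merge (leaf 1 461 465) (leaf 1 460 492))))))))) (merge (node 427 (merge (leaf 3 427 428) (node 459 (merge (leaf 3 426 426) (node 458 (merge (leaf 0 458 493) (node 490 (merge (leaf 1 457 489) (leaf 1 458 491))))))))) (node 492 (merge (leaf 1 459 491) (node 493 (merge (leaf 1 460 464) (node 428 (merge (leaf 3 427 427) (node 396 (merge (leaf 4 364 364) (leaf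 4 396 525)))))))))))))))))))) (merge (node 526 (merge (node 527 (merge (node 559 (merge (leaf 4 430 430) (node 591 (merge (leaf 4 462 558) (leaf 7 494 623))))) (merge (node 525 (merge (leaf 0 525 561) (node 557 (merge (leaf 5 429 430) (leaf 1 524 556))))) (node 561 (merge (leaf 0 525 525) (node 562 (merge (leaf 3 526 559) (leaf 3 527 563)))))))) (merge (node 558 (merge (node 590 (merge (leaf 6 462 495) (node 589 (merge (leaf 5 461 557) (leaf 5 493 621))))) (merge (node 590 (merge (leaf 6 462 495) (node 591 (merge (leaf 4 462 559) (leaf 4 494 623))))) (node 559 (merge (leaf 4 462 591) (node 525 (merge (leaf 3 525 561) (node 557 (merge (leaf 3 524 524) (leaf 5 461 589)))))))))) (merge (node 558 (merge (node 590 (merge (leaf 6 462 495) (node 589 (merge (leaf 5 461 557) (leaf 5 493 621))))) (merge (node 590 (merge (leaf 6 462 495) (node 591 (merge (leaf 4 462 559) (leaf 4 494 623))))) (node 559 (merge (leaf 4 462 591) (node 527 (merge (leaf 4 430 430) (node 557 (merge (leaf 2 524 556) (leaf 5 461 589)))))))))) (merge (node 527 (merge (node 559 (merge (leaf 4 430 430) (node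 591 (merge (leaf 7 462 495) (leaf 7 494 623))))) (merge (node 561 (merge (leaf 0 525 525) (node 562 (merge (leaf 3 526 559) (leaf 3 527 563))))) (node 525 (merge (leaf 0 525 561) (node 492 (merge (leaf 3 492 493) (node 524 (merge (leaf 3 491 491) (node 555 (merge (leaf 1 523 556) (node 523 (merge (leaf 2 491 495) (leaf 1 522 554)))))))))))))) (node 430 (merge (node 557 (merge (leaf 5 429 525) (node 558 (merge (leaf 5 461 589) (node 495 (merge (leaf 6 462 590) (node 398 (merge (leaf 4 366 366) (leaf 4 398 527))))))))) (merge (node 397 (merge (leaf 7 397 429) (node 398 (merge (leaf 7 365 365) (node 367 (merge (leaf 6 366 399) (node 366 (merge (leaf 6 334 335) (leaf 4 366 495))))))))) (merge (node 525 (merge (leaf 5 429 557) (node 527 (merge (leaf 0 525 561) (node 493 (merge (leaf 5 397 398) (leaf 3 492 492))))))) (node 525 (merge (leaf 5 429 557) (node 527 (merge (leaf 0 525 561) (node 492 (merge (leaf 3 492 493) (node 524 (merge (leaf 3 491 491) (node 555 (merge (leaf 1 523 556) (node 523 (merge (leaf 2 491 495) (leaf 1 522 554)))))))))))))))))))))) (node 526 (merge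 (node 527 (merge (node 559 (merge (leaf 4 430 430) (node 591 (merge (leaf 4 462 558) (leaf 7 494 623))))) (merge (node 525 (merge (leaf 0 525 561) (node 557 (merge (leaf 5 429 430) (leaf 1 524 556))))) (node 561 (merge (leaf 0 525 525) (node 562 (merge (leaf 3 526 559) (leaf 3 527 563)))))))) (merge (node 558 (merge (node 590 (merge (leaf 6 462 495) (node 589 (merge (leaf 5 461 557) (leaf 5 493 621))))) (merge (node 590 (merge (leaf 6 462 495) (node 591 (merge (leaf 4 462 559) (leaf 4 494 623))))) (node 559 (merge (leaf 4 462 591) (node 525 (merge (leaf 3 525 561) (node 557 (merge (leaf 3 524 524) (leaf 5 461 589)))))))))) (merge (node 558 (merge (node 590 (merge (leaf 6 462 495) (node 589 (merge (leaf 5 461 557) (leaf 5 493 621))))) (merge (node 590 (merge (leaf 6 462 495) (node 591 (merge (leaf 4 462 559) (leaf 4 494 623))))) (node 559 (merge (leaf 4 462 591) (node 527 (merge (leaf 4 430 430) (node 557 (merge (leaf 2 524 556) (leaf 5 461 589)))))))))) (merge (node 527 (merge (node 525 (merge (leaf 0 525 561) (node 557 (merge (leaf 5 429 430) (leaf 1 524 556)))))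 (merge (node 561 (merge (leaf 0 525 525) (node 562 (merge (leaf 3 526 559) (leaf 3 527 563))))) (node 430 (merge (leaf 4 430 559) (node 398 (merge (leaf 4 398 495) (node 367 (merge (leaf 6 366 399) (node 366 (merge (leaf 6 334 335) (node 365 (merge (leaf 7 333 333) (leaf 7 365 397)))))))))))))) (merge (node 558 (merge (node 590 (merge (leaf 6 462 495) (node 589 (merge (leaf 5 461 557) (leaf 5 493 621))))) (merge (node 557 (merge (leaf 5 461 589) (node 525 (merge (leaf 5 429 430) (node 527 (merge (leaf 1 524 556) (leaf 0 525 561))))))) (node 590 (merge (leaf 6 462 495) (node 493 (merge (leaf 7 461 461) (node 622 (merge (leaf 7 493 525) (node 623 (merge (leaf 4 494 591) (leaf 4 526 655)))))))))))) (node 527 (merge (node 559 (merge (leaf 4 430 430) (node 591 (merge (leaf 7 462 495) (leaf 7 494 623))))) (merge (node 561 (merge (leaf 0 525 525) (node 562 (merge (leaf 3 526 559) (leaf 3 527 563))))) (node 525 (merge (leaf 0 525 561) (node 492 (merge (leaf 3 492 493) (node 524 (merge (leaf 3 491 491) (node 555 (merge (leaf 1 523 556) (node 523 (merge (leaf 2 491 495) (leaf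 1 522 554)))))))))))))))))))))))))))) nP_196 cP_196 14 (by decide +kernel)
def nP_197 : ℕ := 0x100000001000000000000000080000000000000000000000000000000000000000000000000000000000000000000000000000000000000000000000000000000000000000000
def cP_197 : ℕ := 0x2c0000002e000000ef000000efc00000cf800001ffe00000f7c00001dfe000000f0000000f0000000b00000000000000000000000000000000000000000000000000000000000000000000000000000000000
theorem lP_197 : S nP_197 cP_197 15 := S_of_chk [(nP_191, cP_191, 10), (nP_192, cP_192, 10), (nP_196, cP_196, 14)] ⟨lP_191, lP_192, lP_196, trivial⟩ (node 462 (merge (node 496 (merge (node 431 (merge (leaf 7 431 464) (node 495 (merge (leaf 4 399 399) (leaf 4 431 527))))) (merge (node 464 (merge (leaf 7 431 431) (node 497 (merge (leaf 0 461 461) (node 498 (merge (leaf 0 462 465) (leaf 3 463 499))))))) (merge (node 497 (merge (node 461 (merge (leaf 0 461 464) (node 495 (merge (leaf 0 460 460) (leaf 3 461 494))))) (merge (node 464 (merge (leaf 0 461 461) (node 498 (merge (leaf 0 462 465) (leaf 3 463 499))))) (merge (node 495 (merge (leaf 3 462 498) (node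 461 (merge (leaf 0 460 460) (leaf 3 461 494))))) (node 498 (merge (leaf 3 462 495) (node 499 (merge (leaf 3 463 464) (leaf 1 495 527))))))))) (node 495 (merge (node 431 (merge (leaf 4 399 399) (leaf 4 431 527))) (node 497 (merge (leaf 3 462 498) (node 461 (merge (leaf 0 460 460) (leaf 3 461 494))))))))))) (merge (hyp 0) (merge (hyp 1) (merge (node 464 (merge (node 496 (merge (leaf 7 431 431) (node 497 (merge (leaf 0 461 461) (node 498 (merge (leaf 0 462 465) (leaf 3 463 499))))))) (merge (node 496 (merge (leaf 7 431 431) (node 561 (merge (leaf 4 464 593) (node 559 (merge (leaf 5 463 591) (node 527 (merge (leaf 5 431 432) (node 526 (merge (leaf 0 525 525) (leaf 3 526 562))))))))))) (merge (node 497 (merge (node 461 (merge (leaf 0 461 496) (node 492 (merge (leaf 1 460 493) (node 460 (merge (leaf 1 459 491) (node 428 (merge (leaf 3 427 427) (leaf 3 428 429))))))))) (merge (node 465 (merge (leaf 0 462 498) (node 493 (merge (leaf 1 461 494) (node 461 (merge (leaf 1 460 492) (node 429 (merge (leaf 3 428 428) (leaf 3 429 430))))))))) (node 498 (merge (leaf 0 462 465) (node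 496 (merge (leaf 3 463 499) (node 561 (merge (leaf 4 464 593) (node 559 (merge (leaf 5 463 591) (node 527 (merge (leaf 5 431 432) (node 526 (merge (leaf 0 525 525) (leaf 3 526 562)))))))))))))))) (node 493 (merge (node 492 (merge (leaf 1 460 461) (node 494 (merge (leaf 1 461 465) (leaf 2 459 491))))) (merge (node 465 (merge (leaf 1 461 494) (node 498 (merge (leaf 0 462 497) (node 466 (merge (leaf 0 463 499) (node 430 (merge (leaf 3 429 429) (leaf 3 430 431))))))))) (merge (node 461 (merge (leaf 1 460 492) (node 429 (merge (leaf 3 428 428) (node 430 (merge (leaf 3 429 465) (node 398 (merge (leaf 5 365 366) (leaf 6 397 525))))))))) (node 461 (merge (leaf 1 460 492) (node 428 (merge (leaf 3 428 429) (node 460 (merge (leaf 3 427 427) (node 431 (merge (leaf 2 428 432) (node 459 (merge (leaf 2 427 430) (node 458 (merge (leaf 0 458 494) (node 490 (merge (leaf 1 457 489) (leaf 1 458 491))))))))))))))))))))))) (merge (node 464 (merge (node 496 (merge (leaf 7 431 431) (node 497 (merge (leaf 0 461 461) (node 498 (merge (leaf 3 462 495) (leaf 3 463 499))))))) (merge (node 431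 (merge (leaf 7 431 496) (node 494 (merge (node 493 (merge (leaf 1 461 465) (node 492 (merge (leaf 2 459 491) (leaf 2 460 495))))) (node 526 (merge (leaf 6 430 558) (node 399 (merge (leaf 5 366 367) (leaf 6 398 430))))))))) (merge (node 493 (merge (node 492 (merge (leaf 1 460 461) (node 494 (merge (leaf 1 461 465) (leaf 2 459 491))))) (merge (node 465 (merge (leaf 1 461 494) (node 498 (merge (leaf 0 462 497) (node 466 (merge (leaf 0 463 499) (node 430 (merge (leaf 3 429 429) (leaf 3 430 431))))))))) (merge (node 461 (merge (leaf 1 460 492) (node 429 (merge (leaf 3 428 428) (node 430 (merge (leaf 3 429 465) (node 398 (merge (leaf 5 365 366) (leaf 6 397 525))))))))) (node 461 (merge (leaf 1 460 492) (node 428 (merge (leaf 3 428 429) (node 460 (merge (leaf 3 427 427) (node 431 (merge (leaf 2 428 432) (node 459 (merge (leaf 2 427 430) (node 458 (merge (leaf 0 458 494) (node 490 (merge (leaf 1 457 489) (leaf 1 458 491))))))))))))))))))) (node 494 (merge (node 493 (merge (leaf 1 461 465) (node 492 (merge (leaf 1 460 461) (leaf 2 459 491))))) (merge (node 465 (merge (leaf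 1 461 493) (node 498 (merge (leaf 0 462 497) (node 466 (merge (leaf 1 462 495) (leaf 0 463 499))))))) (merge (node 465 (merge (node 497 (merge (leaf 0 462 498) (node 461 (merge (leaf 0 461 496) (node 429 (merge (leaf 3 428 428) (leaf 3 429 430))))))) (merge (node 495 (merge (leaf 1 462 466) (node 429 (merge (leaf 3 429 430) (node 461 (merge (leaf 3 428 428) (node 496 (merge (leaf 0 460 460) (leaf 0 461 497))))))))) (node 466 (merge (leaf 1 462 495) (node 499 (merge (leaf 0 463 498) (node 467 (merge (leaf 0 464 500) (node 435 (merge (leaf 2 431 434) (leaf 2 432 436)))))))))))) (node 461 (merge (node 429 (merge (leaf 3 428 428) (node 526 (merge (leaf 7 429 558) (node 397 (merge (leaf 4 365 365) (leaf 4 397 493))))))) (merge (node 460 (merge (node 492 (merge (leaf 1 459 491) (leaf 1 460 493))) (merge (node 459 (merge (leaf 0 459 495) (node 493 (merge (leaf 0 458 458) (leaf 1 460 492))))) (merge (node 459 (merge (leaf 0 459 495) (node 491 (merge (leaf 1 458 490) (leaf 1 459 492))))) (node 459 (merge (leaf 0 459 495) (node 458 (merge (leaf 0 458 493) (node 490 (merge (leaf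 1 457 489) (leaf 1 458 491))))))))))) (node 428 (merge (leaf 3 428 429) (node 460 (merge (leaf 3 427 427) (node 459 (merge (leaf 0 459 495) (node 491 (merge (leaf 1 458 490) (leaf 1 459 492)))))))))))))))))))) (merge (node 495 (merge (node 431 (merge (leaf 4 431 527) (node 496 (merge (leaf 4 399 399) (leaf 7 431 464))))) (merge (node 527 (merge (leaf 4 431 431) (node 559 (merge (leaf 7 430 430) (node 558 (merge (leaf 5 462 590) (node 557 (merge (leaf 2 524 556) (node 525 (merge (leaf 3 524 524) (node 561 (merge (leaf 0 525 526) (node 594 (merge (leaf 0 558 593) (node 562 (merge (leaf 3 527 563) (leaf 0 559 595))))))))))))))))) (merge (node 461 (merge (node 496 (merge (leaf 0 460 460) (node 497 (merge (leaf 0 461 464) (leaf 3 462 498))))) (merge (node 460 (merge (leaf 0 460 496) (node 491 (merge (leaf 1 459 492) (node 459 (merge (leaf 1 458 490) (node 431 (merge (leaf 2 427 430) (leaf 2 428 432))))))))) (merge (node 464 (merge (node 496 (merge (leaf 7 431 431) (leaf 0 461 497))) (node 493 (merge (leaf 1 460 492) (node 429 (merge (leaf 3 428 428) (node 430 (merge (leaf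 3 429 465) (node 398 (merge (leaf 4 366 366) (leaf 6 397 525))))))))))) (node 460 (merge (node 491 (merge (leaf 1 459 492) (node 459 (merge (leaf 1 458 490) (node 427 (merge (leaf 3 426 426) (leaf 3 427 428))))))) (merge (node 492 (merge (leaf 1 459 491) (node 464 (merge (leaf 1 460 493) (node 428 (merge (leaf 3 427 427) (leaf 3 428 429))))))) (merge (node 427 (merge (leaf 3 427 428) (node 459 (merge (leaf 3 426 426) (node 490 (merge (leaf 1 458 491) (node 458 (merge (leaf 1 457 489) (node 430 (merge (leaf 2 426 429) (leaf 2 427 431))))))))))) (merge (node 491 (merge (leaf 1 459 492) (node 459 (merge (leaf 1 458 490) (node 430 (merge (leaf 2 427 431) (node 458 (merge (leaf 2 426 429) (node 426 (merge (leaf 3 425 425) (leaf 3 426 427))))))))))) (merge (node 492 (merge (leaf 1 459 491) (node 464 (merge (leaf 1 460 493) (node 429 (merge (leaf 3 428 428) (node 430 (merge (leaf 3 429 465) (node 459 (merge (leaf 2 427 431) (leaf 2 426 458))))))))))) (node 427 (merge (leaf 3 427 428) (node 459 (merge (leaf 3 426 426) (node 430 (merge (leaf 2 427 431) (node 429 (merge (leaf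 2 426 458) (node 464 (merge (leaf 3 429 465) (node 493 (merge (leaf 1 460 492) (node 398 (merge (leaf 4 366 366) (leaf 6 397 525))))))))))))))))))))))))) (node 461 (merge (node 496 (merge (leaf 0 460 460) (node 497 (merge (leaf 0 461 464) (leaf 3 462 498))))) (merge (node 428 (merge (node 427 (merge (leaf 3 427 460) (node 429 (merge (leaf 0 426 426) (leaf 0 427 430))))) (merge (node 429 (merge (leaf 3 428 464) (node 427 (merge (leaf 0 426 426) (leaf 0 427 430))))) (merge (node 460 (merge (leaf 3 427 427) (node 492 (merge (leaf 1 459 491) (node 493 (merge (leaf 1 460 464) (node 396 (merge (leaf 4 364 364) (leaf 4 396 525))))))))) (node 493 (merge (node 492 (merge (leaf 1 460 464) (node 491 (merge (leaf 1 459 460) (leaf 2 458 490))))) (merge (node 429 (merge (leaf 3 428 464) (node 396 (merge (leaf 7 396 525) (node 364 (merge (leaf 4 332 332) (leaf 7 364 397))))))) (node 396 (merge (node 364 (merge (leaf 4 364 460) (node 429 (merge (leaf 4 332 332) (leaf 7 364 397))))) (merge (node 460 (merge (leaf 4 364 364) (node 492 (merge (leaf 1 459 491) (leaf 4 396 525))))) (merge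 (node 429 (merge (leaf 7 396 525) (node 364 (merge (leaf 4 332 332) (leaf 7 364 397))))) (node 525 (merge (leaf 7 396 429) (node 557 (merge (leaf 6 429 430) (leaf 7 428 460)))))))))))))))) (merge (node 464 (merge (node 497 (merge (leaf 0 461 496) (node 465 (merge (leaf 0 462 498) (node 429 (merge (leaf 3 428 428) (leaf 3 429 430))))))) (merge (node 493 (merge (leaf 1 460 492) (node 429 (merge (leaf 3 428 428) (node 430 (merge (leaf 3 429 465) (node 398 (merge (leaf 4 366 366) (leaf 6 397 525))))))))) (node 496 (merge (leaf 0 461 497) (node 561 (merge (leaf 4 464 593) (node 559 (merge (leaf 5 463 591) (node 527 (merge (leaf 5 431 432) (node 526 (merge (leaf 0 525 525) (leaf 3 526 562)))))))))))))) (node 525 (merge (node 460 (merge (leaf 0 460 496) (node 428 (merge (leaf 3 427 427) (node 493 (merge (leaf 7 428 557) (node 396 (merge (leaf 4 364 364) (leaf 7 396 429))))))))) (merge (node 496 (merge (leaf 0 460 460) (node 497 (merge (leaf 3 462 498) (node 527 (merge (leaf 2 493 526) (node 559 (merge (leaf 7 430 430) (node 591 (merge (leaf 6 495 623) (node 590 (merge (leaf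 5 462 558) (leaf 5 494 622))))))))))))) (node 527 (merge (node 526 (merge (leaf 0 525 561) (node 559 (merge (leaf 7 430 430) (leaf 0 524 524))))) (merge (node 559 (merge (leaf 7 430 430) (node 558 (merge (leaf 5 462 590) (node 557 (merge (leaf 3 524 524) (leaf 2 524 556))))))) (merge (node 526 (merge (leaf 0 525 561) (node 557 (merge (leaf 1 524 556) (node 493 (merge (leaf 6 429 430) (node 558 (merge (leaf 4 429 429) (leaf 4 461 590))))))))) (node 526 (merge (leaf 0 525 561) (node 524 (merge (leaf 0 524 559) (node 556 (merge (leaf 1 523 555) (leaf 1 524 557)))))))))))))))))))))) (hyp 2)))))))) nP_197 cP_197 15 (by decide +kernel)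
def nP_198 : ℕ := 0x100000001000000000000000080000000000000000000000000000000000000000000000000000000000000000000000000000000000000000000000000000000000000000000
def cP_198 : ℕ := 0xa0000002e000000ee0000004e000003f7e00001f7c00001ff8000007f0000007f0000007e00000040000000000000000000000000000000000000000000000000000000000000000000000000000
theorem lP_198 : S nP_198 cP_198 14 := S_of_chk [] trivial (node 464 (merge (node 496 (merge (leaf 7 431 431) (node 561 (merge (leaf 4 464 593) (node 559 (merge (leaf 5 463 591) (node 527 (merge (leaf 5 431 432) (node 526 (merge (leaf 0 525 525) (leaf 3 526 562))))))))))) (merge (node 462 (merge (node 496 (merge (leaf 7 431 431) (node 497 (merge (leaf 0 461 461) (node 498 (merge (leaf 0 462 465) (leaf 3 463 499))))))) (merge (node 496 (merge (leaf 7 431 431) (node 465 (merge (leaf 6 432 433) (node 493 (merge (leaf 1 461 494) (node 461 (merge (leaf 1 460 492) (node 429 (merge (leaf 3 428 428) (leaf 3 429 430))))))))))) (merge (node 465 (merge (node 498 (merge (leaf 0 462 497) (node 466 (merge (leaf 0 463 499) (node 434 (merge (leaf 2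 430 433) (leaf 2 431 435))))))) (node 493 (merge (leaf 1 461 494) (node 461 (merge (leaf 1 460 492) (node 429 (merge (leaf 3 428 428) (leaf 3 429 430))))))))) (merge (node 465 (merge (node 433 (merge (leaf 2 430 434) (leaf 6 432 496))) (node 498 (merge (leaf 0 462 497) (node 466 (merge (leaf 0 463 499) (node 430 (merge (leaf 3 429 429) (leaf 3 430 431))))))))) (node 496 (merge (leaf 7 431 431) (node 461 (merge (leaf 0 461 497) (node 492 (merge (leaf 1 460 493) (node 460 (merge (leaf 1 459 491) (node 428 (merge (leaf 3 427 427) (leaf 3 428 429)))))))))))))))) (merge (node 465 (merge (node 496 (merge (leaf 6 432 433) (node 561 (merge (leaf 4 464 593) (node 559 (merge (leaf 5 463 591) (node 527 (merge (leaf 5 431 432) (node 526 (merge (leaf 0 525 525) (leaf 3 526 562))))))))))) (merge (node 462 (merge (node 493 (merge (leaf 1 461 494) (node 461 (merge (leaf 1 460 492) (node 429 (merge (leaf 3 428 428) (leaf 3 429 430))))))) (node 498 (merge (leaf 0 462 497) (node 466 (merge (leaf 0 463 499) (node 434 (merge (leaf 2 430 433) (leaf 2 431 435))))))))) (node 561 (merge (node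 496 (merge (leaf 4 464 593) (node 559 (merge (leaf 5 463 591) (node 527 (merge (leaf 5 431 432) (node 526 (merge (leaf 0 525 525) (leaf 3 526 562))))))))) (merge (node 466 (merge (node 499 (merge (leaf 0 463 498) (node 467 (merge (leaf 0 464 500) (node 435 (merge (leaf 2 431 434) (leaf 2 432 436))))))) (merge (node 498 (merge (leaf 0 463 499) (node 462 (merge (leaf 0 462 497) (node 493 (merge (leaf 1 461 494) (node 461 (merge (leaf 1 460 492) (node 429 (merge (leaf 3 428 428) (leaf 3 429 430))))))))))) (merge (node 435 (merge (leaf 2 431 434) (node 467 (merge (leaf 2 432 436) (node 496 (merge (leaf 4 464 593) (node 497 (merge (leaf 1 464 468) (node 462 (merge (leaf 0 461 461) (leaf 0 462 498))))))))))) (node 435 (merge (leaf 2 431 434) (node 467 (merge (leaf 2 432 436) (node 500 (merge (leaf 0 464 499) (node 468 (merge (leaf 0 465 501) (node 496 (merge (leaf 1 464 497) (leaf 4 464 593))))))))))))))) (node 462 (merge (node 493 (merge (leaf 1 461 494) (node 461 (merge (leaf 1 460 492) (node 429 (merge (leaf 3 428 428) (leaf 3 429 430))))))) (node 498 (merge (leaf 0 462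 497) (node 466 (merge (leaf 0 463 499) (node 435 (merge (leaf 2 431 434) (node 467 (merge (leaf 2 432 436) (node 562 (merge (leaf 6 434 530) (node 527 (merge (leaf 3 527 563) (node 526 (merge (leaf 0 525 525) (leaf 3 526 559))))))))))))))))))))))) (node 462 (merge (node 465 (merge (node 433 (merge (leaf 2 430 434) (node 461 (merge (leaf 2 429 432) (node 429 (merge (leaf 3 428 428) (leaf 3 429 430))))))) (merge (node 498 (merge (leaf 0 462 497) (node 466 (merge (leaf 0 463 499) (node 434 (merge (leaf 2 430 433) (leaf 2 431 435))))))) (node 498 (merge (leaf 0 462 497) (node 466 (merge (leaf 0 463 499) (node 430 (merge (leaf 3 429 429) (leaf 3 430 431)))))))))) (merge (node 465 (merge (node 498 (merge (leaf 0 462 497) (node 466 (merge (leaf 0 463 499) (node 434 (merge (leaf 2 430 433) (leaf 2 431 435))))))) (node 493 (merge (leaf 1 461 494) (node 461 (merge (leaf 1 460 492) (node 429 (merge (leaf 3 428 428) (leaf 3 429 430))))))))) (merge (node 493 (merge (node 492 (merge (leaf 1 460 461) (node 494 (merge (leaf 1 461 465) (leaf 2 459 491))))) (merge (node 461 (merge (leaf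 1 460 492) (node 432 (merge (leaf 2 429 433) (node 460 (merge (leaf 2 428 431) (node 428 (merge (leaf 3 427 427) (leaf 3 428 429))))))))) (node 465 (merge (leaf 1 461 494) (node 498 (merge (leaf 0 462 497) (node 466 (merge (leaf 0 463 499) (node 434 (merge (leaf 2 430 433) (leaf 2 431 435)))))))))))) (merge (node 465 (merge (node 498 (merge (leaf 0 462 497) (node 466 (merge (leaf 0 463 499) (node 434 (merge (leaf 2 430 433) (leaf 2 431 435))))))) (merge (node 493 (merge (leaf 1 461 494) (node 461 (merge (leaf 1 460 492) (node 433 (merge (leaf 2 429 432) (leaf 2 430 434))))))) (merge (node 498 (merge (leaf 0 462 497) (node 466 (merge (leaf 0 463 499) (node 493 (merge (leaf 1 461 494) (node 461 (merge (leaf 1 460 492) (node 432 (merge (leaf 2 429 433) (node 431 (merge (leaf 3 430 430) (leaf 2 428 460))))))))))))) (node 498 (merge (leaf 0 462 497) (node 466 (merge (leaf 0 463 499) (node 435 (merge (leaf 2 431 434) (node 467 (merge (leaf 2 432 436) (node 431 (merge (leaf 3 430 430) (leaf 3 431 432))))))))))))))) (merge (node 493 (merge (node 492 (merge (leaf 1 460 461)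 (node 494 (merge (leaf 1 461 465) (leaf 2 459 491))))) (merge (node 465 (merge (leaf 1 461 494) (node 498 (merge (leaf 0 462 497) (node 466 (merge (leaf 0 463 499) (node 430 (merge (leaf 3 429 429) (leaf 3 430 431))))))))) (merge (node 461 (merge (leaf 1 460 492) (node 429 (merge (leaf 3 428 428) (node 430 (merge (leaf 3 429 465) (node 398 (merge (leaf 5 365 366) (leaf 6 397 525))))))))) (node 461 (merge (leaf 1 460 492) (node 428 (merge (leaf 3 428 429) (node 460 (merge (leaf 3 427 427) (node 431 (merge (leaf 2 428 432) (node 459 (merge (leaf 2 427 430) (node 458 (merge (leaf 0 458 494) (node 490 (merge (leaf 1 457 489) (leaf 1 458 491))))))))))))))))))) (merge (node 461 (merge (node 492 (merge (leaf 1 460 493) (node 460 (merge (leaf 1 459 491) (node 428 (merge (leaf 3 427 427) (leaf 3 428 429))))))) (merge (node 432 (merge (leaf 2 429 433) (node 460 (merge (leaf 2 428 431) (node 428 (merge (leaf 3 427 427) (leaf 3 428 429))))))) (merge (node 492 (merge (leaf 1 460 493) (node 460 (merge (leaf 1 459 491) (node 432 (merge (leaf 2 428 431) (leaf 2 429 433))))))) (node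 429 (merge (leaf 3 428 428) (node 432 (merge (leaf 2 429 433) (node 397 (merge (node 494 (merge (leaf 4 365 365) (node 526 (merge (leaf 7 397 430) (leaf 7 429 558))))) (merge (node 493 (merge (leaf 1 460 492) (node 494 (merge (leaf 4 365 365) (leaf 4 397 526))))) (node 493 (merge (leaf 1 460 492) (node 398 (merge (leaf 6 365 366) (node 396 (merge (leaf 7 364 364) (node 431 (merge (leaf 0 396 399) (leaf 3 396 430)))))))))))))))))))) (node 494 (merge (node 465 (merge (leaf 1 461 493) (node 498 (merge (leaf 0 462 497) (node 466 (merge (leaf 0 463 499) (node 434 (merge (leaf 2 430 433) (leaf 2 431 435))))))))) (merge (node 526 (merge (node 431 (merge (leaf 6 430 558) (node 399 (merge (leaf 5 366 367) (leaf 6 398 430))))) (merge (node 558 (merge (leaf 6 430 431) (node 591 (merge (leaf 4 462 559) (node 590 (merge (leaf 4 494 623) (node 589 (merge (leaf 5 461 557) (leaf 5 493 621))))))))) (merge (node 430 (merge (node 525 (merge (leaf 5 429 557) (node 527 (merge (leaf 4 430 559) (leaf 0 525 561))))) (node 431 (merge (leaf 6 398 399) (node 429 (merge (leaf 7 397 397) (leaf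 0 428 428))))))) (node 430 (merge (node 525 (merge (leaf 5 429 557) (node 527 (merge (leaf 4 430 559) (leaf 0 525 561))))) (merge (node 397 (merge (leaf 7 397 429) (node 398 (merge (leaf 7 365 365) (node 525 (merge (leaf 5 397 493) (leaf 5 429 557))))))) (merge (node 527 (merge (leaf 4 430 559) (node 525 (merge (leaf 0 525 561) (node 493 (merge (leaf 5 397 398) (leaf 3 492 492))))))) (node 559 (merge (leaf 4 430 527) (node 558 (merge (leaf 4 462 591) (node 589 (merge (leaf 5 461 557) (node 590 (merge (leaf 1 557 561) (leaf 5 493 621))))))))))))))))) (node 430 (merge (node 465 (merge (leaf 3 429 429) (node 498 (merge (leaf 0 462 497) (node 466 (merge (leaf 0 463 499) (node 434 (merge (leaf 2 430 433) (leaf 2 431 435))))))))) (merge (node 526 (merge (node 525 (merge (leaf 5 429 557) (node 527 (merge (leaf 4 430 559) (leaf 0 525 561))))) (node 431 (merge (leaf 6 398 399) (node 429 (merge (leaf 7 397 397) (leaf 0 428 428))))))) (node 431 (merge (node 526 (merge (leaf 6 430 558) (node 525 (merge (leaf 5 429 557) (node 527 (merge (leaf 4 430 559) (leaf 0 525 561))))))) (node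 433 (merge (node 465 (merge (leaf 2 430 434) (leaf 3 430 466))) (merge (node 432 (merge (leaf 1 430 434) (node 401 (merge (leaf 2 398 402) (node 398 (merge (leaf 3 397 397) (node 366 (merge (leaf 4 334 334) (node 367 (merge (leaf 6 334 335) (node 365 (merge (leaf 7 333 333) (node 400 (merge (leaf 0 365 368) (leaf 3 365 399))))))))))))))) (node 401 (merge (node 402 (merge (leaf 2 398 432) (node 465 (merge (leaf 3 430 466) (node 497 (merge (leaf 6 369 370) (leaf 0 462 498))))))) (merge (node 432 (merge (leaf 2 398 402) (node 398 (merge (leaf 3 397 397) (node 366 (merge (leaf 4 334 334) (node 367 (merge (leaf 6 334 335) (node 365 (merge (leaf 7 333 333) (node 400 (merge (leaf 0 365 368) (leaf 3 365 399))))))))))))) (merge (node 465 (merge (leaf 3 430 466) (node 497 (merge (leaf 0 462 498) (node 402 (merge (leaf 6 369 370) (node 400 (merge (leaf 7 368 368) (leaf 1 398 399))))))))) (node 465 (merge (leaf 3 430 466) (node 497 (merge (leaf 0 462 498) (node 368 (merge (leaf 7 368 400) (node 369 (merge (leaf 7 336 336) (node 338 (merge (leaf 6 337 370) (node 337 (merge (leaf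 6 305 306) (leaf 5 336 432))))))))))))))))))))))))))))))))))))))) nP_198 cP_198 14 (by decide +kernel)
def nP_199 : ℕ := 0x100000001000000000000000080000000000000000000000000000000000000000000000000000000000000000000000000000000000000000000000000000000000000000000
def cP_199 : ℕ := 0x40000002f000000ef000000cb000007ffe00003f7c00007ffc000007f800000ffc000007f0000000a000000000000000000000000000000000000000000000000000000000000000000000000000
theorem lP_199 : S nP_199 cP_199 14 := S_of_chk [] trivial (node 464 (merge (node 496 (merge (leaf 7 431 431) (node 433 (merge (leaf 6 432 465) (node 432 (merge (leaf 6 400 401) (node 559 (merge (leaf 5 431 527) (leaf 5 463 591))))))))) (merge (node 465 (merge (node 496 (merge (leaf 7 431 431) (leaf 6 432 433))) (merge (node 431 (merge (leaf 7 431 496) (node 495 (merge (leaf 4 431 527) (node 494 (merge (leaf 1 462 466) (node 493 (merge (leaf 1 461 462) (leaf 2 460 492))))))))) (node 466 (merge (node 498 (merge (leaf 0 463 499) (node 462 (merge (leaf 0 462 497) (node 494 (merge (leaf 1 461 493) (leaf 1 462 495))))))) (merge (node 499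 (merge (leaf 0 463 498) (node 467 (merge (leaf 0 464 500) (node 435 (merge (leaf 2 431 434) (leaf 2 432 436))))))) (node 494 (merge (leaf 1 462 495) (node 462 (merge (leaf 1 461 493) (node 434 (merge (leaf 2 430 433) (leaf 2 431 435))))))))))))) (merge (node 496 (merge (leaf 7 431 431) (node 559 (merge (leaf 5 463 591) (node 432 (merge (leaf 5 431 527) (node 401 (merge (leaf 6 400 433) (node 400 (merge (leaf 6 368 369) (node 367 (merge (leaf 7 367 399) (node 368 (merge (leaf 7 335 335) (leaf 5 367 495))))))))))))))) (merge (node 465 (merge (node 433 (merge (leaf 6 432 496) (node 462 (merge (leaf 2 430 434) (node 461 (merge (leaf 2 429 432) (node 429 (merge (leaf 3 428 428) (leaf 3 429 430))))))))) (merge (node 462 (merge (node 497 (merge (leaf 0 462 498) (node 461 (merge (leaf 0 461 496) (node 429 (merge (leaf 3 428 428) (leaf 3 429 430))))))) (merge (node 498 (merge (leaf 0 462 497) (node 466 (merge (leaf 0 463 499) (node 494 (merge (leaf 1 461 493) (leaf 1 462 495))))))) (node 493 (merge (leaf 1 461 494) (node 461 (merge (leaf 1 460 492) (node 429 (merge (leaf 3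 428 428) (leaf 3 429 430)))))))))) (merge (node 462 (merge (node 498 (merge (leaf 0 462 497) (node 466 (merge (leaf 0 463 499) (node 434 (merge (leaf 2 430 433) (leaf 2 431 435))))))) (node 493 (merge (leaf 1 461 494) (node 461 (merge (leaf 1 460 492) (node 429 (merge (leaf 3 428 428) (leaf 3 429 430))))))))) (node 433 (merge (leaf 6 432 496) (node 466 (merge (node 498 (merge (leaf 0 463 499) (node 434 (merge (leaf 2 431 435) (node 401 (merge (leaf 4 369 369) (leaf 7 401 530))))))) (merge (node 467 (merge (node 435 (merge (leaf 2 431 434) (leaf 2 432 436))) (merge (node 468 (merge (leaf 3 432 432) (node 501 (merge (leaf 0 465 500) (node 469 (merge (leaf 3 433 434) (leaf 0 466 502))))))) (node 436 (merge (leaf 2 432 435) (node 468 (merge (leaf 3 432 432) (leaf 2 433 437)))))))) (merge (node 499 (merge (leaf 0 463 498) (node 467 (merge (leaf 0 464 500) (node 436 (merge (leaf 2 432 435) (node 468 (merge (leaf 3 432 432) (leaf 2 433 437))))))))) (node 499 (merge (leaf 0 463 498) (node 467 (merge (leaf 0 464 500) (node 468 (merge (leaf 3 432 432) (node 437 (merge (leaf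 2 433 436) (node 469 (merge (leaf 3 433 434) (leaf 2 434 438))))))))))))))))))))) (merge (node 462 (merge (node 496 (merge (leaf 7 431 431) (node 497 (merge (leaf 0 461 461) (node 498 (merge (leaf 0 462 465) (leaf 3 463 499))))))) (merge (node 496 (merge (leaf 7 431 431) (node 461 (merge (leaf 0 461 497) (node 460 (merge (leaf 0 460 495) (node 492 (merge (leaf 1 459 491) (leaf 1 460 493))))))))) (merge (node 493 (merge (node 494 (merge (leaf 1 461 465) (node 492 (merge (leaf 2 459 491) (leaf 2 460 495))))) (merge (node 492 (merge (leaf 1 460 461) (node 494 (merge (leaf 2 459 491) (leaf 2 460 495))))) (merge (node 461 (merge (leaf 1 460 492) (node 429 (merge (leaf 3 428 428) (node 430 (merge (leaf 3 429 465) (node 398 (merge (leaf 5 365 366) (leaf 6 397 525))))))))) (node 430 (merge (node 429 (merge (leaf 3 429 465) (node 428 (merge (leaf 0 427 427) (leaf 3 428 461))))) (merge (node 494 (merge (leaf 1 461 465) (node 398 (merge (leaf 5 397 525) (node 495 (merge (leaf 4 366 366) (leaf 4 398 527))))))) (node 398 (merge (node 366 (merge (leaf 5 365 461) (leaf 4 366 495)))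 (merge (node 525 (merge (leaf 5 397 494) (node 461 (merge (leaf 6 397 429) (leaf 6 429 557))))) (node 495 (merge (leaf 4 366 366) (node 527 (merge (leaf 4 398 494) (leaf 7 430 559))))))))))))))) (node 496 (merge (leaf 7 431 431) (node 561 (merge (leaf 4 464 593) (node 559 (merge (leaf 5 463 591) (node 527 (merge (leaf 5 431 432) (node 430 (merge (leaf 7 430 495) (node 465 (merge (leaf 3 429 429) (node 498 (merge (leaf 0 462 497) (node 466 (merge (leaf 0 463 499) (node 435 (merge (leaf 2 431 434) (node 562 (merge (leaf 3 527 563) (node 530 (merge (leaf 6 434 467) (leaf 2 527 531))))))))))))))))))))))))))) (node 462 (merge (node 465 (merge (node 433 (merge (leaf 2 430 434) (node 461 (merge (leaf 2 429 432) (node 429 (merge (leaf 3 428 428) (leaf 3 429 430))))))) (merge (node 498 (merge (leaf 0 462 497) (node 466 (merge (leaf 0 463 499) (node 434 (merge (leaf 2 430 433) (leaf 2 431 435))))))) (node 498 (merge (leaf 0 462 497) (node 466 (merge (leaf 0 463 499) (node 430 (merge (leaf 3 429 429) (leaf 3 430 431)))))))))) (merge (node 465 (merge (node 498 (merge (leaf 0 462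 497) (node 466 (merge (leaf 0 463 499) (node 434 (merge (leaf 2 430 433) (leaf 2 431 435))))))) (node 493 (merge (leaf 1 461 494) (node 461 (merge (leaf 1 460 492) (node 429 (merge (leaf 3 428 428) (leaf 3 429 430))))))))) (merge (node 493 (merge (node 492 (merge (leaf 1 460 461) (node 494 (merge (leaf 1 461 465) (leaf 2 459 491))))) (merge (node 461 (merge (leaf 1 460 492) (node 432 (merge (leaf 2 429 433) (node 460 (merge (leaf 2 428 431) (node 428 (merge (leaf 3 427 427) (leaf 3 428 429))))))))) (node 465 (merge (leaf 1 461 494) (node 498 (merge (leaf 0 462 497) (node 466 (merge (leaf 0 463 499) (node 434 (merge (leaf 2 430 433) (leaf 2 431 435)))))))))))) (merge (node 465 (merge (node 498 (merge (leaf 0 462 497) (node 466 (merge (leaf 0 463 499) (node 434 (merge (leaf 2 430 433) (leaf 2 431 435))))))) (merge (node 493 (merge (leaf 1 461 494) (node 461 (merge (leaf 1 460 492) (node 433 (merge (leaf 2 429 432) (leaf 2 430 434))))))) (merge (node 498 (merge (leaf 0 462 497) (node 466 (merge (leaf 0 463 499) (node 493 (merge (leaf 1 461 494) (node 461 (merge (leaf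 1 460 492) (node 432 (merge (leaf 2 429 433) (node 431 (merge (leaf 3 430 430) (leaf 2 428 460))))))))))))) (node 498 (merge (leaf 0 462 497) (node 466 (merge (leaf 0 463 499) (node 435 (merge (leaf 2 431 434) (node 467 (merge (leaf 2 432 436) (node 431 (merge (leaf 3 430 430) (leaf 3 431 432))))))))))))))) (merge (node 493 (merge (node 492 (merge (leaf 1 460 461) (node 494 (merge (leaf 1 461 465) (leaf 2 459 491))))) (merge (node 465 (merge (leaf 1 461 494) (node 498 (merge (leaf 0 462 497) (node 466 (merge (leaf 0 463 499) (node 430 (merge (leaf 3 429 429) (leaf 3 430 431))))))))) (merge (node 461 (merge (leaf 1 460 492) (node 429 (merge (leaf 3 428 428) (node 430 (merge (leaf 3 429 465) (node 398 (merge (leaf 5 365 366) (leaf 6 397 525))))))))) (node 461 (merge (leaf 1 460 492) (node 428 (merge (leaf 3 428 429) (node 460 (merge (leaf 3 427 427) (node 431 (merge (leaf 2 428 432) (node 459 (merge (leaf 2 427 430) (node 458 (merge (leaf 0 458 494) (node 490 (merge (leaf 1 457 489) (leaf 1 458 491))))))))))))))))))) (merge (node 461 (merge (node 492 (merge (leaf 1 460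 493) (node 460 (merge (leaf 1 459 491) (node 432 (merge (leaf 2 428 431) (leaf 2 429 433))))))) (merge (node 432 (merge (leaf 2 429 433) (node 460 (merge (leaf 2 428 431) (node 428 (merge (leaf 3 427 427) (leaf 3 428 429))))))) (node 493 (merge (leaf 1 460 492) (node 398 (merge (node 430 (merge (leaf 5 365 366) (node 525 (merge (leaf 6 397 429) (leaf 6 429 557))))) (merge (node 430 (merge (leaf 5 365 366) (node 525 (merge (leaf 5 397 494) (leaf 6 429 557))))) (merge (node 429 (merge (leaf 3 428 428) (node 397 (merge (leaf 6 365 366) (node 364 (merge (leaf 7 364 396) (node 365 (merge (leaf 7 332 332) (leaf 4 365 494))))))))) (node 429 (merge (leaf 3 428 428) (node 525 (merge (leaf 6 397 430) (node 556 (merge (leaf 5 428 524) (node 557 (merge (leaf 5 460 588) (node 589 (merge (leaf 6 461 494) (node 590 (merge (leaf 4 461 558) (leaf 4 493 622)))))))))))))))))))))) (node 430 (merge (node 429 (merge (leaf 3 429 465) (node 428 (merge (leaf 0 427 427) (leaf 0 428 431))))) (merge (node 465 (merge (leaf 3 429 429) (node 498 (merge (leaf 0 462 497) (node 466 (merge (leaf 0 463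 499) (node 434 (merge (leaf 2 430 433) (leaf 2 431 435))))))))) (merge (node 398 (merge (node 495 (merge (leaf 4 366 366) (node 527 (merge (leaf 7 398 431) (leaf 7 430 559))))) (merge (node 495 (merge (leaf 4 366 366) (node 527 (merge (leaf 4 398 494) (leaf 7 430 559))))) (merge (node 366 (merge (node 333 (merge (leaf 7 333 365) (node 334 (merge (leaf 7 301 301) (leaf 4 334 431))))) (merge (node 335 (merge (leaf 6 334 367) (node 334 (merge (leaf 6 302 303) (leaf 4 334 431))))) (node 367 (merge (leaf 6 334 335) (node 494 (merge (leaf 6 366 399) (node 365 (merge (leaf 7 333 333) (leaf 7 365 397)))))))))) (node 399 (merge (node 367 (merge (leaf 6 366 494) (node 335 (merge (leaf 5 302 303) (leaf 5 334 431))))) (merge (node 494 (merge (leaf 6 366 367) (node 495 (merge (leaf 4 398 527) (node 493 (merge (leaf 5 397 525) (node 492 (merge (leaf 2 460 464) (leaf 2 459 491))))))))) (merge (node 400 (merge (node 429 (merge (leaf 1 397 401) (node 428 (merge (leaf 1 396 397) (leaf 0 427 427))))) (merge (node 401 (merge (leaf 1 397 429) (node 434 (merge (leaf 0 398 433) (node 402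 (merge (leaf 1 398 431) (leaf 0 399 435))))))) (node 495 (merge (node 527 (merge (leaf 7 398 431) (leaf 7 430 559))) (node 368 (merge (leaf 5 367 432) (node 369 (merge (leaf 2 365 397) (node 370 (merge (leaf 1 366 367) (leaf 1 367 371)))))))))))) (node 397 (merge (node 365 (merge (leaf 7 365 494) (node 333 (merge (leaf 4 301 301) (leaf 4 333 429))))) (node 396 (merge (node 427 (merge (leaf 1 395 428) (node 395 (merge (leaf 1 394 426) (node 363 (merge (leaf 3 362 362) (leaf 3 363 364))))))) (node 432 (merge (leaf 0 396 431) (node 400 (merge (leaf 0 397 433) (node 368 (merge (leaf 2 365 369) (leaf 5 367 495))))))))))))))))))) (node 398 (merge (node 495 (merge (leaf 4 366 366) (node 527 (merge (leaf 7 398 431) (leaf 7 430 559))))) (merge (node 495 (merge (leaf 4 366 366) (node 527 (merge (leaf 4 398 494) (leaf 7 430 559))))) (merge (node 366 (merge (node 333 (merge (leaf 7 333 365) (node 334 (merge (leaf 7 301 301) (leaf 4 334 431))))) (merge (node 335 (merge (leaf 6 334 367) (node 334 (merge (leaf 6 302 303) (leaf 4 334 431))))) (node 367 (merge (leaf 6 334 335) (node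 494 (merge (leaf 6 366 399) (node 365 (merge (leaf 7 333 333) (leaf 7 365 397)))))))))) (node 399 (merge (node 367 (merge (leaf 6 366 494) (node 335 (merge (leaf 5 302 303) (leaf 5 334 431))))) (merge (node 494 (merge (leaf 6 366 367) (node 495 (merge (leaf 4 398 527) (node 493 (merge (leaf 5 397 525) (node 492 (merge (leaf 2 460 464) (leaf 2 459 491))))))))) (merge (node 397 (merge (node 494 (merge (leaf 7 365 365) (node 493 (merge (leaf 1 461 465) (leaf 5 397 525))))) (node 396 (merge (node 427 (merge (leaf 1 395 428) (node 395 (merge (leaf 1 394 426) (node 363 (merge (leaf 3 362 362) (leaf 3 363 364))))))) (node 432 (merge (leaf 0 396 431) (node 400 (merge (leaf 0 397 433) (node 368 (merge (leaf 2 365 369) (leaf 5 367 495))))))))))) (node 431 (merge (node 495 (merge (leaf 7 398 527) (node 368 (merge (leaf 6 367 400) (node 367 (merge (leaf 5 334 335) (leaf 6 335 336))))))) (merge (node 465 (merge (leaf 3 430 466) (node 433 (merge (leaf 2 430 434) (node 432 (merge (leaf 3 397 397) (node 401 (merge (leaf 2 398 402) (node 369 (merge (leaf 5 336 337) (node 370 (merge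 (leaf 6 337 338) (leaf 2 366 400))))))))))))) (node 465 (merge (leaf 3 430 466) (node 433 (merge (leaf 2 430 434) (node 397 (merge (leaf 3 397 432) (node 367 (merge (leaf 5 334 335) (node 368 (merge (leaf 6 335 336) (leaf 2 364 396))))))))))))))))))))))))))))))))))))))) nP_199 cP_199 14 (by decide +kernel)
def nP_200 : ℕ := 0x100000001000000000000000080000000800000000000000000000000000000000000000000000000000000000000000000000000000000000000000000000000000000000000
def cP_200 : ℕ := 0x2f8000000f0000000b0000007780000077c000007fc000003fc000003f8000001e000000140000000000000000000000000000000000000000000000000000000000000000000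
theorem lP_200 : S nP_200 cP_200 11 := S_of_chk [] trivial (node 399 (merge (node 367 (merge (node 366 (merge (leaf 7 334 334) (node 495 (merge (leaf 7 366 398) (leaf 4 431 527))))) (merge (node 336 (merge (leaf 6 335 368) (node 335 (merge (leaf 6 303 304) (node 334 (merge (leaf 7 302 302) (leaf 7 334 366))))))) (merge (node 336 (merge (leaf 6 335 368) (node 335 (merge (leaf 6 303 304) (node 495 (merge (leaf 4 431 527) (node 398 (merge (leaf 7 366 366) (node 430 (merge (leaf 5 302 303) (leaf 5 334 462))))))))))) (node 336 (merge (leaf 6 335 368) (node 335 (merge (leaf 6 303 304) (node 302 (merge (leaf 7 302 334) (node 303 (merge (leaf 7 270 270) (node 430 (merge (leaf 5 302 398) (leaf 5 334 462))))))))))))))) (merge (node 367 (merge (node 368 (merge (leaf 6 335 336) (node 495 (merge (leaf 6 367 400) (leaf 4 431 527))))) (merge (node 336 (merge (leaf 6 335 368) (node 335 (merge (leaf 6 303 304) (node 334 (merge (leaf 7 302 302) (leaf 7 334 366))))))) (merge (node 334 (merge (leaf 7 334 366) (node 335 (merge (leaf 7 302 302) (node 432 (merge (leaf 4 335 464) (node 400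 (merge (leaf 4 303 303) (node 495 (merge (leaf 6 367 368) (leaf 6 399 527))))))))))) (node 334 (merge (leaf 7 334 366) (node 335 (merge (leaf 7 302 302) (node 304 (merge (leaf 6 303 336) (node 303 (merge (leaf 6 271 272) (node 432 (merge (leaf 4 303 400) (leaf 4 335 464))))))))))))))) (merge (node 398 (merge (node 495 (merge (leaf 7 366 366) (leaf 4 431 527))) (merge (node 397 (merge (node 432 (merge (leaf 0 396 396) (node 433 (merge (leaf 0 397 400) (leaf 3 398 434))))) (merge (node 432 (merge (leaf 0 396 396) (node 433 (merge (leaf 3 397 430) (leaf 3 398 434))))) (merge (node 495 (merge (leaf 4 431 527) (node 400 (merge (leaf 6 367 368) (node 429 (merge (leaf 1 396 428) (node 430 (merge (leaf 1 397 401) (node 396 (merge (leaf 0 395 395) (node 364 (merge (leaf 3 363 363) (leaf 3 364 365))))))))))))) (node 495 (merge (leaf 4 431 527) (node 400 (merge (leaf 6 367 368) (node 433 (merge (leaf 0 397 432) (node 401 (merge (leaf 0 398 434) (node 429 (merge (leaf 1 396 428) (leaf 1 397 430))))))))))))))) (node 397 (merge (node 432 (merge (leaf 0 396 396) (node 433 (merge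 (leaf 0 397 400) (leaf 3 398 434))))) (merge (node 396 (merge (leaf 0 396 432) (node 395 (merge (leaf 0 395 430) (node 427 (merge (leaf 1 394 426) (leaf 1 395 428))))))) (merge (node 396 (merge (node 395 (merge (leaf 0 395 430) (node 427 (merge (leaf 1 394 426) (leaf 1 395 428))))) (merge (node 395 (merge (leaf 0 395 430) (node 363 (merge (leaf 3 362 362) (leaf 3 363 364))))) (node 428 (merge (leaf 1 395 427) (node 400 (merge (leaf 1 396 429) (node 364 (merge (leaf 3 363 363) (leaf 3 364 365)))))))))) (node 400 (merge (node 432 (merge (leaf 0 397 433) (node 368 (merge (leaf 5 335 336) (leaf 2 365 369))))) (node 429 (merge (leaf 1 396 428) (node 401 (merge (leaf 1 397 430) (node 365 (merge (leaf 3 364 364) (leaf 3 365 366)))))))))))))))) (merge (node 367 (merge (node 336 (merge (leaf 6 335 368) (node 335 (merge (leaf 6 303 304) (node 334 (merge (leaf 7 302 302) (leaf 7 334 366))))))) (merge (node 336 (merge (leaf 6 335 368) (node 335 (merge (leaf 6 303 304) (node 432 (merge (leaf 4 335 464) (node 303 (merge (leaf 4 303 400) (node 430 (merge (leaf 5 302 398) (leaf 5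 334 462))))))))))) (merge (node 334 (merge (leaf 7 334 366) (node 335 (merge (leaf 7 302 302) (node 432 (merge (leaf 4 335 464) (node 303 (merge (leaf 4 303 400) (node 430 (merge (leaf 5 302 398) (leaf 5 334 462))))))))))) (node 366 (merge (leaf 7 334 334) (node 365 (merge (node 400 (merge (leaf 0 364 364) (node 401 (merge (leaf 3 365 398) (leaf 3 366 402))))) (merge (node 368 (merge (leaf 6 335 336) (node 400 (merge (leaf 0 364 364) (leaf 0 365 401))))) (merge (node 368 (merge (leaf 6 335 336) (node 397 (merge (leaf 1 364 396) (node 398 (merge (leaf 1 365 369) (node 364 (merge (leaf 0 363 363) (node 332 (merge (leaf 3 331 331) (leaf 3 332 333))))))))))) (node 368 (merge (leaf 6 335 336) (node 401 (merge (leaf 0 365 400) (node 369 (merge (leaf 0 366 402) (node 397 (merge (leaf 1 364 396) (leaf 1 365 398))))))))))))))))))) (merge (node 430 (merge (node 495 (merge (leaf 4 431 527) (node 400 (merge (leaf 6 367 368) (node 401 (merge (leaf 1 398 402) (node 429 (merge (leaf 2 396 428) (leaf 2 397 432))))))))) (merge (node 495 (merge (leaf 4 431 527) (node 400 (merge (leaf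 6 367 368) (node 398 (merge (leaf 7 366 366) (node 401 (merge (leaf 1 398 402) (leaf 1 397 429))))))))) (merge (node 464 (merge (node 465 (merge (leaf 3 430 466) (node 429 (merge (leaf 0 428 428) (leaf 3 429 462))))) (merge (node 465 (merge (leaf 3 430 466) (node 429 (merge (leaf 0 428 428) (leaf 0 429 432))))) (node 495 (merge (leaf 4 431 527) (node 366 (merge (leaf 7 366 398) (node 367 (merge (leaf 7 334 334) (node 335 (merge (leaf 4 335 432) (leaf 5 334 462)))))))))))) (merge (node 495 (merge (leaf 4 431 527) (node 400 (merge (leaf 6 367 368) (node 366 (merge (leaf 7 366 398) (node 367 (merge (leaf 7 334 334) (node 335 (merge (leaf 5 334 462) (node 432 (merge (leaf 4 303 303) (leaf 4 335 464))))))))))))) (node 429 (merge (node 428 (merge (leaf 2 396 400) (leaf 0 428 464))) (merge (node 464 (merge (leaf 0 428 428) (node 465 (merge (leaf 0 429 432) (leaf 3 430 466))))) (node 397 (merge (node 396 (merge (leaf 3 396 432) (node 395 (merge (leaf 0 394 394) (leaf 0 395 398))))) (merge (node 432 (merge (leaf 3 396 396) (node 461 (merge (leaf 1 428 460) (node 433 (merge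 (leaf 1 429 462) (node 401 (merge (leaf 2 397 400) (leaf 2 398 402))))))))) (merge (node 398 (merge (node 432 (merge (leaf 3 397 433) (node 461 (merge (leaf 1 428 460) (node 493 (merge (leaf 6 365 366) (leaf 6 397 525))))))) (merge (node 400 (merge (leaf 1 397 401) (node 365 (merge (leaf 3 364 364) (node 333 (merge (leaf 4 301 301) (leaf 4 333 462))))))) (node 400 (merge (leaf 1 397 401) (node 365 (merge (leaf 3 364 364) (node 333 (merge (leaf 4 301 301) (leaf 4 333 462)))))))))) (node 398 (merge (node 396 (merge (leaf 0 395 395) (node 400 (merge (leaf 1 397 401) (node 368 (merge (leaf 2 364 367) (leaf 2 365 369))))))) (merge (node 400 (merge (leaf 1 397 401) (node 365 (merge (leaf 3 364 364) (node 333 (merge (leaf 4 301 301) (leaf 4 333 462))))))) (node 396 (merge (leaf 0 395 395) (node 367 (merge (leaf 2 364 368) (node 335 (merge (leaf 5 302 303) (leaf 5 334 462)))))))))))))))))))))) (merge (node 367 (merge (node 366 (merge (leaf 7 334 334) (node 495 (merge (leaf 7 366 398) (leaf 4 431 527))))) (merge (node 334 (merge (leaf 7 334 366) (node 335 (merge (leaf 7 302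 302) (node 304 (merge (leaf 6 303 336) (node 303 (merge (leaf 6 271 272) (node 432 (merge (leaf 4 303 400) (leaf 4 335 464))))))))))) (node 430 (merge (node 335 (merge (leaf 5 334 462) (node 304 (merge (leaf 6 303 336) (node 303 (merge (leaf 6 271 272) (leaf 5 302 398))))))) (merge (node 335 (merge (leaf 5 334 462) (node 304 (merge (leaf 6 303 336) (node 303 (merge (leaf 6 271 272) (node 432 (merge (leaf 4 303 400) (leaf 4 335 464))))))))) (merge (node 429 (merge (node 464 (merge (leaf 0 428 428) (node 465 (merge (leaf 0 429 432) (leaf 3 430 466))))) (merge (node 428 (merge (leaf 0 428 464) (node 427 (merge (leaf 2 395 398) (leaf 0 427 462))))) (merge (node 428 (merge (node 427 (merge (leaf 2 395 398) (leaf 0 427 462))) (node 460 (merge (leaf 1 427 459) (node 432 (merge (leaf 1 428 461) (node 396 (merge (leaf 3 395 395) (leaf 3 396 397))))))))) (node 525 (merge (node 527 (merge (leaf 4 431 495) (node 526 (merge (leaf 0 525 561) (node 524 (merge (leaf 0 524 559) (node 556 (merge (leaf 1 523 555) (leaf 1 524 557))))))))) (merge (node 527 (merge (leaf 4 431 495) (node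 526 (merge (leaf 0 525 561) (node 493 (merge (leaf 3 492 492) (node 461 (merge (leaf 6 397 398) (leaf 4 429 558))))))))) (node 432 (merge (node 465 (merge (leaf 0 429 464) (node 433 (merge (leaf 0 430 466) (node 397 (merge (leaf 3 396 396) (leaf 3 397 398))))))) (merge (node 465 (merge (leaf 0 429 464) (node 433 (merge (leaf 0 430 466) (node 461 (merge (leaf 1 428 460) (leaf 1 429 462))))))) (node 461 (merge (leaf 1 428 460) (node 493 (merge (leaf 6 397 398) (node 397 (merge (leaf 3 396 396) (node 524 (merge (leaf 5 396 492) (leaf 5 428 556))))))))))))))))))) (node 432 (merge (node 464 (merge (leaf 4 335 335) (node 429 (merge (leaf 0 428 428) (leaf 0 429 465))))) (merge (node 335 (merge (leaf 4 335 464) (node 303 (merge (leaf 5 302 398) (leaf 4 303 400))))) (node 401 (merge (node 402 (merge (leaf 1 398 400) (leaf 2 398 433))) (merge (node 433 (merge (leaf 2 398 402) (node 398 (merge (leaf 3 397 397) (leaf 3 398 434))))) (node 429 (merge (leaf 2 397 400) (node 460 (merge (leaf 1 428 461) (node 428 (merge (leaf 1 427 459) (node 396 (merge (leaf 3 395 395) (leaf 3 396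 397)))))))))))))))))))))) (node 430 (merge (node 495 (merge (leaf 4 431 527) (node 400 (merge (leaf 6 367 368) (node 401 (merge (leaf 1 398 402) (node 429 (merge (leaf 2 396 428) (leaf 2 397 432))))))))) (merge (node 495 (merge (leaf 4 431 527) (node 368 (merge (leaf 6 367 400) (node 367 (merge (leaf 6 335 336) (node 335 (merge (leaf 5 334 462) (node 302 (merge (leaf 7 302 334) (node 303 (merge (leaf 7 270 270) (leaf 5 302 398))))))))))))) (merge (node 429 (merge (node 428 (merge (leaf 2 396 400) (leaf 0 428 464))) (merge (node 400 (merge (leaf 2 396 428) (node 401 (merge (leaf 1 398 402) (leaf 2 397 432))))) (merge (node 464 (merge (leaf 0 428 428) (node 465 (merge (leaf 0 429 432) (leaf 3 430 466))))) (node 432 (merge (node 465 (merge (leaf 0 429 464) (node 433 (merge (leaf 0 430 466) (node 461 (merge (leaf 1 428 460) (leaf 1 429 462))))))) (merge (node 461 (merge (leaf 1 428 460) (node 433 (merge (leaf 1 429 462) (node 397 (merge (leaf 3 396 396) (leaf 3 397 398))))))) (node 464 (merge (leaf 0 429 465) (node 400 (merge (leaf 2 397 401) (node 397 (merge (leaf 3 396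 396) (node 368 (merge (leaf 5 335 336) (node 369 (merge (leaf 6 336 337) (leaf 2 365 398)))))))))))))))))) (node 429 (merge (node 464 (merge (leaf 0 428 428) (node 465 (merge (leaf 0 429 432) (leaf 3 430 466))))) (merge (node 428 (merge (leaf 0 428 464) (node 427 (merge (leaf 2 395 398) (leaf 0 427 462))))) (merge (node 428 (merge (node 427 (merge (leaf 2 395 398) (leaf 0 427 462))) (node 460 (merge (leaf 1 427 459) (node 432 (merge (leaf 1 428 461) (node 396 (merge (leaf 3 395 395) (leaf 3 396 397))))))))) (node 525 (merge (node 527 (merge (leaf 4 431 495) (node 526 (merge (leaf 0 525 561) (node 524 (merge (leaf 0 524 559) (node 556 (merge (leaf 1 523 555) (leaf 1 524 557))))))))) (merge (node 527 (merge (leaf 4 431 495) (node 526 (merge (leaf 0 525 561) (node 493 (merge (leaf 3 492 492) (node 461 (merge (leaf 6 397 398) (leaf 4 429 558))))))))) (node 432 (merge (node 465 (merge (leaf 0 429 464) (node 433 (merge (leaf 0 430 466) (node 397 (merge (leaf 3 396 396) (leaf 3 397 398))))))) (merge (node 465 (merge (leaf 0 429 464) (node 433 (merge (leaf 0 430 466) (node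 461 (merge (leaf 1 428 460) (leaf 1 429 462))))))) (node 461 (merge (leaf 1 428 460) (node 493 (merge (leaf 6 397 398) (node 397 (merge (leaf 3 396 396) (node 524 (merge (leaf 5 396 492) (leaf 5 428 556)))))))))))))))))))))))))))))) nP_200 cP_200 11 (by decide +kernel)

end Crest.Agent.H26Snaky
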