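import Crest.Agent.H26SnP014

/-! certificate data for S0047, part P 15 (computer generated) -/

set_option autoImplicit false
set_option maxRecDepth 100000

namespace Crest.Agent.H26Snaky

open T

def nP_201 : ℕ := 0x100000001000000000000000080000000000000000000000000000000000000000000000000000000000000000000000000000000000000000000000000000000000000000000
def cP_201 : ℕ := 0x2f8000000f000000fb800000f7800001ffc000007fc00000ffc000007f8000005e000000140000000000000000000000000000000000000000000000000000000000000000000
theorem lP_201 : S nP_201 cP_201 13 := S_of_chk [(nP_200, cP_200, 11)] ⟨lP_200, trivial⟩ (node 431 (merge (node 495 (merge (leaf 4 431 527) (node 496 (merge (leaf 4 399 399) (leaf 7 431 464))))) (merge (node 495 (merge (leaf 4 431 527) (node 399 (merge (leaf 4 399 496) (node 368 (merge (leaf 6 367 400) (node 367 (merge (leaf 6 335 336) (node 366 (merge (leaf 7 334 334) (leaf 7 366 398))))))))))) (merge (node 464 (merge (leaf 7 431 496) (node 462 (merge (node 461 (merge (node 432 (merge (leaf 2 429 433) (leaf 2 428 460))) (merge (node 492 (merge (leaf 1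 460 493) (node 460 (merge (leaf 1 459 491) (node 430 (merge (leaf 2 427 459) (node 465 (merge (leaf 3 429 429) (leaf 3 430 466))))))))) (node 433 (merge (leaf 2 429 432) (node 465 (merge (leaf 2 430 434) (node 430 (merge (leaf 3 429 429) (leaf 3 430 466)))))))))) (merge (node 461 (merge (node 432 (merge (leaf 2 429 433) (leaf 2 428 460))) (merge (node 492 (merge (leaf 1 460 493) (node 460 (merge (leaf 1 459 491) (node 428 (merge (leaf 3 427 427) (leaf 3 428 429))))))) (node 432 (merge (leaf 2 429 433) (node 429 (merge (leaf 3 428 428) (node 465 (merge (leaf 0 429 430) (node 498 (merge (leaf 0 462 497) (node 466 (merge (leaf 3 431 467) (leaf 0 463 499)))))))))))))) (merge (node 461 (merge (node 492 (merge (leaf 1 460 493) (node 460 (merge (leaf 1 459 491) (node 428 (merge (leaf 3 427 427) (leaf 3 428 429))))))) (merge (node 429 (merge (leaf 3 428 428) (node 465 (merge (leaf 3 429 430) (node 498 (merge (leaf 0 462 497) (node 466 (merge (leaf 0 463 499) (node 434 (merge (leaf 2 430 433) (leaf 2 431 435))))))))))) (merge (node 492 (merge (leaf 1 460 493) (node 460 (merge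 (leaf 1 459 491) (node 430 (merge (leaf 2 427 459) (node 465 (merge (leaf 3 429 429) (leaf 3 430 466))))))))) (node 492 (merge (leaf 1 460 493) (node 460 (merge (leaf 1 459 491) (node 459 (merge (leaf 2 427 430) (node 427 (merge (leaf 3 426 426) (leaf 3 427 428))))))))))))) (merge (node 433 (merge (node 434 (merge (leaf 1 430 432) (leaf 2 430 465))) (merge (node 461 (merge (leaf 2 429 432) (node 492 (merge (leaf 1 460 493) (node 460 (merge (leaf 1 459 491) (node 459 (merge (leaf 2 427 430) (node 427 (merge (leaf 3 426 426) (leaf 3 427 428))))))))))) (node 465 (merge (leaf 2 430 434) (node 498 (merge (leaf 0 462 497) (node 466 (merge (leaf 3 430 430) (leaf 0 463 499)))))))))) (merge (node 461 (merge (node 428 (merge (leaf 3 428 429) (node 460 (merge (leaf 3 427 427) (leaf 2 428 432))))) (merge (node 492 (merge (leaf 1 460 493) (node 460 (merge (leaf 1 459 491) (node 430 (merge (leaf 2 427 459) (node 465 (merge (leaf 3 429 429) (leaf 3 430 466))))))))) (merge (node 492 (merge (leaf 1 460 493) (node 460 (merge (leaf 1 459 491) (node 459 (merge (leaf 2 427 430) (node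 427 (merge (leaf 3 426 426) (leaf 3 427 428))))))))) (node 429 (merge (leaf 3 428 428) (node 465 (merge (leaf 3 429 430) (node 498 (merge (leaf 0 462 497) (node 466 (merge (leaf 0 463 499) (node 435 (merge (leaf 2 431 434) (node 467 (merge (leaf 3 431 432) (leaf 2 432 436))))))))))))))))) (merge (node 465 (merge (node 498 (merge (leaf 0 462 497) (node 466 (merge (leaf 0 463 499) (node 434 (merge (leaf 2 430 433) (leaf 2 431 435))))))) (merge (node 433 (merge (leaf 2 430 434) (node 461 (merge (leaf 2 429 432) (node 492 (merge (leaf 1 460 493) (node 460 (merge (leaf 1 459 491) (node 428 (merge (leaf 3 427 427) (leaf 3 428 429))))))))))) (merge (node 498 (merge (leaf 0 462 497) (node 466 (merge (leaf 0 463 499) (node 432 (merge (leaf 3 431 467) (node 461 (merge (leaf 2 429 433) (leaf 2 428 460))))))))) (node 498 (merge (leaf 0 462 497) (node 466 (merge (leaf 0 463 499) (node 435 (merge (leaf 2 431 434) (node 467 (merge (leaf 3 431 432) (leaf 2 432 436))))))))))))) (merge (node 432 (merge (node 461 (merge (leaf 2 429 433) (leaf 2 428 460))) (merge (node 430 (merge (node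 429 (merge (leaf 0 428 428) (node 433 (merge (leaf 1 430 434) (node 401 (merge (leaf 2 397 400) (leaf 2 398 402))))))) (merge (node 433 (merge (leaf 1 430 434) (node 398 (merge (leaf 3 397 397) (node 495 (merge (leaf 4 366 366) (leaf 7 398 527))))))) (node 429 (merge (leaf 0 428 428) (node 400 (merge (leaf 2 397 401) (node 495 (merge (leaf 5 367 368) (leaf 6 399 527)))))))))) (node 400 (merge (node 495 (merge (leaf 5 367 368) (leaf 6 399 527))) (node 461 (merge (leaf 2 428 460) (node 493 (merge (leaf 1 460 492) (node 429 (merge (leaf 3 428 428) (node 430 (merge (leaf 2 397 401) (node 398 (merge (leaf 5 365 366) (leaf 6 397 525)))))))))))))))) (node 430 (merge (node 465 (merge (leaf 3 430 466) (node 429 (merge (leaf 0 428 428) (leaf 3 429 462))))) (merge (node 432 (merge (node 429 (merge (leaf 0 428 428) (node 433 (merge (leaf 1 430 434) (node 401 (merge (leaf 2 397 400) (leaf 2 398 402))))))) (merge (node 433 (merge (leaf 1 430 434) (node 398 (merge (leaf 3 397 397) (node 495 (merge (leaf 4 366 366) (leaf 7 398 527))))))) (node 429 (merge (leaf 0 428 428) (node 400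 (merge (leaf 2 397 401) (node 495 (merge (leaf 5 367 368) (leaf 6 399 527)))))))))) (node 433 (merge (node 465 (merge (leaf 2 430 434) (leaf 3 430 466))) (merge (node 432 (merge (leaf 1 430 434) (node 398 (merge (leaf 3 397 397) (node 495 (merge (leaf 4 366 366) (leaf 7 398 527))))))) (node 465 (merge (leaf 3 430 466) (node 495 (merge (leaf 4 431 527) (node 398 (merge (leaf 4 366 366) (node 432 (merge (leaf 3 397 397) (node 401 (merge (leaf 2 398 402) (node 369 (merge (leaf 5 336 337) (node 368 (merge (leaf 7 336 336) (leaf 5 367 400))))))))))))))))))))))))))))))) (merge (node 399 (merge (node 496 (merge (leaf 7 431 464) (leaf 4 399 495))) (merge (node 495 (merge (leaf 4 399 496) (node 368 (merge (leaf 6 367 400) (node 367 (merge (leaf 6 335 336) (node 366 (merge (leaf 7 334 334) (leaf 7 366 398))))))))) (merge (node 367 (merge (node 336 (merge (leaf 6 335 368) (node 335 (merge (leaf 6 303 304) (node 334 (merge (leaf 7 302 302) (leaf 7 334 366))))))) (merge (node 368 (merge (leaf 6 335 336) (node 495 (merge (leaf 6 367 400) (node 366 (merge (leaf 7 334 334) (leaf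 7 366 398))))))) (merge (node 336 (merge (leaf 6 335 368) (node 335 (merge (leaf 6 303 304) (node 432 (merge (leaf 4 335 464) (node 303 (merge (leaf 4 303 400) (node 430 (merge (leaf 5 302 398) (leaf 5 334 462))))))))))) (node 334 (merge (leaf 7 334 366) (node 335 (merge (leaf 7 302 302) (node 432 (merge (leaf 4 335 464) (node 303 (merge (leaf 4 303 400) (node 430 (merge (leaf 5 302 398) (leaf 5 334 462))))))))))))))) (node 430 (merge (node 464 (merge (leaf 7 431 496) (node 429 (merge (leaf 0 428 428) (node 465 (merge (leaf 3 429 462) (leaf 3 430 466))))))) (merge (node 464 (merge (leaf 7 431 496) (node 429 (merge (leaf 0 428 428) (node 465 (merge (leaf 0 429 432) (leaf 3 430 466))))))) (merge (node 429 (merge (node 400 (merge (leaf 2 396 428) (node 401 (merge (leaf 1 398 402) (leaf 2 397 432))))) (merge (node 428 (merge (leaf 2 396 400) (node 427 (merge (leaf 2 395 398) (leaf 0 427 462))))) (merge (node 428 (merge (node 427 (merge (leaf 2 395 398) (leaf 0 427 462))) (node 460 (merge (leaf 1 427 459) (node 432 (merge (leaf 1 428 461) (node 396 (merge (leaf 3 395 395)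 (leaf 3 396 397))))))))) (node 397 (merge (node 432 (merge (leaf 3 396 396) (node 461 (merge (leaf 1 428 460) (node 433 (merge (leaf 1 429 462) (node 401 (merge (leaf 2 397 400) (leaf 2 398 402))))))))) (merge (node 398 (merge (node 400 (merge (leaf 1 397 401) (node 432 (merge (leaf 0 397 433) (node 368 (merge (leaf 5 335 336) (leaf 2 365 369))))))) (merge (node 432 (merge (leaf 3 397 433) (node 461 (merge (leaf 1 428 460) (node 366 (merge (leaf 4 334 334) (leaf 6 365 493))))))) (node 400 (merge (leaf 1 397 401) (node 368 (merge (leaf 2 365 369) (node 336 (merge (leaf 5 303 304) (leaf 6 335 367)))))))))) (node 367 (merge (node 336 (merge (leaf 6 335 368) (node 335 (merge (leaf 6 303 304) (leaf 5 334 462))))) (merge (node 334 (merge (leaf 7 334 366) (node 335 (merge (leaf 7 302 302) (leaf 5 334 462))))) (node 368 (merge (leaf 6 335 336) (node 366 (merge (leaf 7 334 334) (node 396 (merge (leaf 1 364 365) (leaf 2 364 398))))))))))))))))) (node 432 (merge (node 433 (merge (node 462 (merge (leaf 1 430 434) (node 461 (merge (leaf 1 429 430) (leaf 2 428 460))))) (node 465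 (merge (leaf 0 430 466) (node 496 (merge (leaf 6 432 464) (node 401 (merge (leaf 2 398 402) (leaf 5 400 497))))))))) (merge (node 433 (merge (node 462 (merge (leaf 1 430 434) (node 461 (merge (leaf 1 429 430) (leaf 2 428 460))))) (merge (node 398 (merge (leaf 3 398 434) (node 397 (merge (leaf 0 396 396) (leaf 0 397 400))))) (node 462 (merge (leaf 1 429 461) (node 401 (merge (leaf 2 398 402) (node 398 (merge (leaf 3 397 397) (node 366 (merge (leaf 4 334 334) (node 365 (merge (leaf 7 333 333) (leaf 3 365 400)))))))))))))) (merge (node 465 (merge (node 466 (merge (leaf 0 430 433) (leaf 3 430 464))) (merge (node 433 (merge (leaf 0 430 466) (node 398 (merge (leaf 3 397 397) (leaf 3 398 434))))) (node 464 (merge (leaf 7 399 496) (node 367 (merge (leaf 4 335 335) (node 368 (merge (leaf 6 335 336) (node 400 (merge (leaf 4 368 497) (node 369 (merge (leaf 6 336 337) (node 370 (merge (leaf 1 367 371) (leaf 1 366 398)))))))))))))))) (node 368 (merge (node 464 (merge (leaf 7 431 496) (node 465 (merge (leaf 3 430 466) (node 400 (merge (leaf 5 335 336) (leaf 4 368 497))))))) (merge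 (node 464 (merge (leaf 7 399 496) (node 465 (merge (leaf 3 430 466) (node 367 (merge (leaf 4 335 335) (node 366 (merge (leaf 7 334 334) (node 400 (merge (leaf 4 368 497) (node 401 (merge (leaf 0 365 365) (leaf 1 398 402))))))))))))) (node 367 (merge (leaf 6 335 336) (node 335 (merge (leaf 5 334 462) (node 302 (merge (leaf 7 302 334) (node 303 (merge (leaf 7 270 270) (leaf 5 302 398)))))))))))))))))))))))) (merge (node 464 (merge (leaf 7 431 496) (node 462 (merge (node 461 (merge (node 432 (merge (leaf 2 429 433) (leaf 2 428 460))) (merge (node 492 (merge (leaf 1 460 493) (node 460 (merge (leaf 1 459 491) (node 430 (merge (leaf 2 427 459) (node 465 (merge (leaf 3 429 429) (leaf 3 430 466))))))))) (node 433 (merge (leaf 2 429 432) (node 465 (merge (leaf 2 430 434) (node 430 (merge (leaf 3 429 429) (leaf 3 430 466)))))))))) (merge (node 461 (merge (node 432 (merge (leaf 2 429 433) (leaf 2 428 460))) (merge (node 492 (merge (leaf 1 460 493) (node 460 (merge (leaf 1 459 491) (node 428 (merge (leaf 3 427 427) (leaf 3 428 429))))))) (node 432 (merge (leaf 2 429 433) (node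 429 (merge (leaf 3 428 428) (node 465 (merge (leaf 0 429 430) (node 498 (merge (leaf 0 462 497) (node 466 (merge (leaf 3 431 467) (leaf 0 463 499)))))))))))))) (merge (node 461 (merge (node 492 (merge (leaf 1 460 493) (node 460 (merge (leaf 1 459 491) (node 428 (merge (leaf 3 427 427) (leaf 3 428 429))))))) (merge (node 429 (merge (leaf 3 428 428) (node 465 (merge (leaf 3 429 430) (node 498 (merge (leaf 0 462 497) (node 466 (merge (leaf 0 463 499) (node 434 (merge (leaf 2 430 433) (leaf 2 431 435))))))))))) (merge (node 492 (merge (leaf 1 460 493) (node 460 (merge (leaf 1 459 491) (node 430 (merge (leaf 2 427 459) (node 465 (merge (leaf 3 429 429) (leaf 3 430 466))))))))) (node 492 (merge (leaf 1 460 493) (node 460 (merge (leaf 1 459 491) (node 459 (merge (leaf 2 427 430) (node 427 (merge (leaf 3 426 426) (leaf 3 427 428))))))))))))) (merge (node 433 (merge (node 434 (merge (leaf 1 430 432) (leaf 2 430 465))) (merge (node 461 (merge (leaf 2 429 432) (node 492 (merge (leaf 1 460 493) (node 460 (merge (leaf 1 459 491) (node 459 (merge (leaf 2 427 430) (node 427 (merge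 (leaf 3 426 426) (leaf 3 427 428))))))))))) (node 465 (merge (leaf 2 430 434) (node 498 (merge (leaf 0 462 497) (node 466 (merge (leaf 3 430 430) (leaf 0 463 499)))))))))) (merge (node 461 (merge (node 428 (merge (leaf 3 428 429) (node 460 (merge (leaf 3 427 427) (leaf 2 428 432))))) (merge (node 492 (merge (leaf 1 460 493) (node 460 (merge (leaf 1 459 491) (node 430 (merge (leaf 2 427 459) (node 465 (merge (leaf 3 429 429) (leaf 3 430 466))))))))) (merge (node 492 (merge (leaf 1 460 493) (node 460 (merge (leaf 1 459 491) (node 459 (merge (leaf 2 427 430) (node 427 (merge (leaf 3 426 426) (leaf 3 427 428))))))))) (node 429 (merge (leaf 3 428 428) (node 465 (merge (leaf 3 429 430) (node 498 (merge (leaf 0 462 497) (node 466 (merge (leaf 0 463 499) (node 435 (merge (leaf 2 431 434) (node 467 (merge (leaf 3 431 432) (leaf 2 432 436))))))))))))))))) (merge (node 465 (merge (node 498 (merge (leaf 0 462 497) (node 466 (merge (leaf 0 463 499) (node 434 (merge (leaf 2 430 433) (leaf 2 431 435))))))) (merge (node 433 (merge (leaf 2 430 434) (node 461 (merge (leaf 2 429 432)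 (node 492 (merge (leaf 1 460 493) (node 460 (merge (leaf 1 459 491) (node 428 (merge (leaf 3 427 427) (leaf 3 428 429))))))))))) (merge (node 498 (merge (leaf 0 462 497) (node 466 (merge (leaf 0 463 499) (node 432 (merge (leaf 3 431 467) (node 461 (merge (leaf 2 429 433) (leaf 2 428 460))))))))) (node 498 (merge (leaf 0 462 497) (node 466 (merge (leaf 0 463 499) (node 435 (merge (leaf 2 431 434) (node 467 (merge (leaf 3 431 432) (leaf 2 432 436))))))))))))) (merge (node 430 (merge (node 465 (merge (leaf 3 430 466) (node 429 (merge (leaf 0 428 428) (leaf 3 429 462))))) (merge (node 432 (merge (node 429 (merge (leaf 0 428 428) (node 433 (merge (leaf 1 430 434) (node 401 (merge (leaf 2 397 400) (leaf 2 398 402))))))) (merge (node 429 (merge (leaf 0 428 428) (node 433 (merge (leaf 1 430 434) (node 397 (merge (leaf 3 396 396) (leaf 3 397 398))))))) (merge (node 429 (merge (leaf 0 428 428) (node 400 (merge (leaf 2 397 401) (node 397 (merge (leaf 3 396 396) (node 368 (merge (leaf 5 335 336) (node 369 (merge (leaf 6 336 337) (node 367 (merge (leaf 7 335 335) (node 398 (merge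 (leaf 1 365 366) (leaf 2 365 399))))))))))))))) (node 433 (merge (leaf 1 430 434) (node 401 (merge (leaf 2 398 402) (node 398 (merge (leaf 3 397 397) (node 366 (merge (leaf 4 334 334) (node 367 (merge (leaf 6 334 335) (node 365 (merge (leaf 7 333 333) (node 400 (merge (leaf 0 365 368) (leaf 3 365 399))))))))))))))))))) (node 433 (merge (node 465 (merge (leaf 2 430 434) (leaf 3 430 466))) (merge (node 432 (merge (leaf 1 430 434) (node 401 (merge (leaf 2 398 402) (node 398 (merge (leaf 3 397 397) (node 366 (merge (leaf 4 334 334) (node 367 (merge (leaf 6 334 335) (node 365 (merge (leaf 7 333 333) (node 400 (merge (leaf 0 365 368) (leaf 3 365 399))))))))))))))) (node 401 (merge (node 402 (merge (leaf 2 398 432) (node 465 (merge (leaf 3 430 466) (node 497 (merge (leaf 6 369 370) (leaf 0 462 498))))))) (merge (node 432 (merge (leaf 2 398 402) (node 398 (merge (leaf 3 397 397) (node 366 (merge (leaf 4 334 334) (node 367 (merge (leaf 6 334 335) (node 365 (merge (leaf 7 333 333) (node 400 (merge (leaf 0 365 368) (leaf 3 365 399))))))))))))) (merge (node 465 (merge (leaf 3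 430 466) (node 497 (merge (leaf 0 462 498) (node 402 (merge (leaf 6 369 370) (node 400 (merge (leaf 7 368 368) (leaf 1 398 399))))))))) (node 465 (merge (leaf 3 430 466) (node 497 (merge (leaf 0 462 498) (node 368 (merge (leaf 7 368 400) (node 369 (merge (leaf 7 336 336) (node 338 (merge (leaf 6 337 370) (node 337 (merge (leaf 6 305 306) (leaf 5 336 432))))))))))))))))))))))) (node 432 (merge (node 461 (merge (leaf 2 429 433) (leaf 2 428 460))) (merge (node 430 (merge (node 429 (merge (leaf 0 428 428) (node 433 (merge (leaf 1 430 434) (node 401 (merge (leaf 2 397 400) (leaf 2 398 402))))))) (merge (node 429 (merge (leaf 0 428 428) (node 433 (merge (leaf 1 430 434) (node 397 (merge (leaf 3 396 396) (leaf 3 397 398))))))) (merge (node 429 (merge (leaf 0 428 428) (node 400 (merge (leaf 2 397 401) (node 397 (merge (leaf 3 396 396) (node 368 (merge (leaf 5 335 336) (node 369 (merge (leaf 6 336 337) (node 367 (merge (leaf 7 335 335) (node 398 (merge (leaf 1 365 366) (leaf 2 365 399))))))))))))))) (node 433 (merge (leaf 1 430 434) (node 401 (merge (leaf 2 398 402) (node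 398 (merge (leaf 3 397 397) (node 366 (merge (leaf 4 334 334) (node 367 (merge (leaf 6 334 335) (node 365 (merge (leaf 7 333 333) (node 400 (merge (leaf 0 365 368) (leaf 3 365 399))))))))))))))))))) (node 429 (merge (node 461 (merge (leaf 3 428 428) (leaf 2 428 460))) (merge (node 430 (merge (leaf 0 428 428) (node 400 (merge (leaf 2 397 401) (node 397 (merge (leaf 3 396 396) (node 368 (merge (leaf 5 335 336) (node 369 (merge (leaf 6 336 337) (node 367 (merge (leaf 7 335 335) (node 398 (merge (leaf 1 365 366) (leaf 2 365 399))))))))))))))) (node 430 (merge (node 461 (merge (leaf 2 428 460) (node 493 (merge (leaf 1 460 492) (node 525 (merge (leaf 6 429 557) (node 398 (merge (leaf 5 365 366) (leaf 6 397 429))))))))) (merge (node 400 (merge (leaf 2 397 401) (node 397 (merge (leaf 3 396 396) (node 368 (merge (leaf 5 335 336) (node 369 (merge (leaf 6 336 337) (node 367 (merge (leaf 7 335 335) (node 398 (merge (leaf 1 365 366) (leaf 2 365 399))))))))))))) (node 461 (merge (leaf 1 428 460) (node 493 (merge (leaf 1 460 492) (node 525 (merge (leaf 6 429 557) (node 526 (merge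 (leaf 4 429 558) (node 527 (merge (leaf 0 525 561) (node 524 (merge (leaf 5 428 556) (leaf 0 524 559)))))))))))))))))))))))))))))))) (hyp 0))))))) nP_201 cP_201 13 (by decide +kernel)
def nP_202 : ℕ := 0x1000000010000000000000000c0000000000000000000000000000000000000000000000000000000000000000000000000000000000000000000000000000000000000000000
def cP_202 : ℕ := 0x28000000680000000e000001ff000000f2000001f000000000000000000000000000000000000000000000000000000000000000000000000000000000000000000000000000000000000
theorem lP_202 : S nP_202 cP_202 9 := S_of_chk [] trivial (node 464 (merge (node 465 (merge (node 498 (merge (leaf 0 462 497) (node 466 (merge (leaf 0 463 499) (node 434 (merge (leaf 2 430 433) (leaf 2 431 435))))))) (merge (node 493 (merge (leaf 1 461 494) (node 461 (merge (leaf 1 460 492) (node 433 (merge (leaf 2 429 432) (leaf 2 430 434))))))) (node 498 (merge (leaf 0 462 497) (node 466 (merge (leaf 0 463 499) (node 494 (merge (leaf 1 461 493) (leaf 1 462 495)))))))))) (merge (node 496 (merge (node 561 (merge (leaf 4 464 593) (node 559 (merge (leaf 5 463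 591) (node 527 (merge (leaf 5 431 432) (node 526 (merge (leaf 0 525 525) (leaf 3 526 562))))))))) (node 461 (merge (leaf 0 461 497) (node 465 (merge (leaf 6 432 433) (node 493 (merge (leaf 1 460 492) (leaf 1 461 494))))))))) (merge (node 496 (merge (node 497 (merge (leaf 0 461 461) (node 498 (merge (leaf 3 462 495) (leaf 3 463 499))))) (node 561 (merge (leaf 4 464 593) (node 559 (merge (leaf 5 463 591) (node 527 (merge (leaf 5 431 432) (node 526 (merge (leaf 0 525 525) (leaf 3 526 562))))))))))) (merge (node 496 (merge (node 561 (merge (leaf 4 464 593) (node 559 (merge (leaf 5 463 591) (node 527 (merge (leaf 5 431 432) (node 526 (merge (leaf 0 525 525) (leaf 3 526 562))))))))) (node 465 (merge (leaf 6 432 433) (node 494 (merge (leaf 1 461 493) (node 466 (merge (leaf 1 462 495) (node 499 (merge (leaf 0 463 498) (node 467 (merge (leaf 0 464 500) (node 435 (merge (leaf 2 431 434) (leaf 2 432 436))))))))))))))) (node 496 (merge (node 497 (merge (leaf 0 461 461) (node 498 (merge (leaf 3 462 495) (leaf 3 463 499))))) (merge (node 461 (merge (leaf 0 461 497) (node 465 (merge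 (leaf 6 432 433) (node 493 (merge (leaf 1 460 492) (leaf 1 461 494))))))) (node 465 (merge (leaf 6 432 433) (node 494 (merge (leaf 1 461 493) (node 466 (merge (leaf 1 462 495) (node 499 (merge (leaf 0 463 498) (node 467 (merge (leaf 0 464 500) (node 435 (merge (leaf 2 431 434) (leaf 2 432 436))))))))))))))))))))) nP_202 cP_202 9 (by decide +kernel)
def nP_203 : ℕ := 0x100000001000000000000000080000000000000000000000000000000000000000000000000000000000000000000000000000000000000000000000000000000000000000000
def cP_203 : ℕ := 0x180000001fc000007fe000003ef000001ef800003cf000001ff000001f7000001fe000001fe0000007e0000007800000000000000000000000000000000000000000000000000000000000000000000000000000000000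
theorem lP_203 : S nP_203 cP_203 15 := S_of_chk [(nP_191, cP_191, 10), (nP_202, cP_202, 9)] ⟨lP_191, lP_202, trivial⟩ (node 462 (merge (node 464 (merge (node 496 (merge (leaf 7 431 431) (node 433 (merge (leaf 6 432 465) (node 432 (merge (leaf 6 400 401) (leaf 2 429 461))))))) (merge (node 496 (merge (leaf 7 431 431) (node 497 (merge (leaf 0 461 461) (node 498 (merge (leaf 3 462 495) (leaf 3 463 499))))))) (merge (node 465 (merge (node 433 (merge (leaf 2 430 434) (leaf 6 432 496))) (node 498 (merge (leaf 0 462 497) (node 466 (merge (leaf 0 463 499) (node 494 (merge (leaf 1 461 493) (leaf 1 462 495))))))))) (node 465 (merge (node 498 (merge (leaf 0 462 497) (node 466 (merge (leaf 0 463 499) (node 494 (merge (leaf 1 461 493) (leaf 1 462 495))))))) (merge (node 493 (merge (leaf 1 461 494) (node 461 (merge (leaf 1 460 492) (node 433 (merge (leaf 2 429 432) (leaf 2 430 434))))))) (node 498 (merge (leaf 0 462 497) (node 466 (merge (leaf 0 463 499) (node 433 (merge (leaf 2 430 434) (node 432 (merge (leaf 2 429 461) (node 467 (merge (leaf 3 431 431) (leaf 3 432 468))))))))))))))))))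 (merge (hyp 0) (merge (node 527 (merge (node 495 (merge (leaf 4 431 431) (node 430 (merge (leaf 7 430 559) (node 398 (merge (leaf 4 366 366) (leaf 4 398 494))))))) (merge (node 495 (merge (leaf 4 431 431) (node 559 (merge (leaf 7 430 430) (node 558 (merge (leaf 5 462 590) (node 557 (merge (leaf 2 524 556) (node 525 (merge (leaf 3 524 524) (node 561 (merge (leaf 0 525 526) (node 594 (merge (leaf 0 558 593) (node 562 (merge (leaf 3 527 563) (leaf 0 559 595))))))))))))))))) (merge (node 559 (merge (node 430 (merge (leaf 7 430 495) (node 526 (merge (leaf 4 430 494) (node 525 (merge (leaf 0 524 524) (leaf 0 525 561))))))) (merge (node 495 (merge (leaf 7 430 430) (node 590 (merge (leaf 5 462 558) (node 591 (merge (leaf 7 462 494) (leaf 5 494 622))))))) (merge (node 526 (merge (node 525 (merge (leaf 0 524 524) (leaf 0 525 561))) (node 494 (merge (leaf 4 430 430) (node 591 (merge (leaf 4 462 558) (leaf 7 494 623))))))) (merge (node 561 (merge (node 562 (merge (leaf 3 527 563) (node 526 (merge (leaf 0 525 525) (leaf 3 526 559))))) (merge (node 495 (merge (leaf 7 430 430) (node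 562 (merge (leaf 3 527 563) (node 590 (merge (leaf 5 462 558) (leaf 1 558 591))))))) (node 525 (merge (leaf 0 525 526) (node 495 (merge (leaf 7 430 430) (node 558 (merge (leaf 5 462 590) (node 557 (merge (leaf 3 524 524) (leaf 2 524 556)))))))))))) (node 558 (merge (node 590 (merge (leaf 5 462 495) (node 561 (merge (leaf 1 557 589) (node 562 (merge (leaf 3 526 526) (leaf 1 558 591))))))) (merge (node 590 (merge (leaf 5 462 495) (node 589 (merge (leaf 1 557 561) (node 557 (merge (leaf 2 524 556) (leaf 1 556 588))))))) (merge (node 557 (merge (leaf 2 524 556) (node 589 (merge (leaf 1 556 588) (node 494 (merge (leaf 5 461 526) (node 495 (merge (leaf 5 462 590) (leaf 7 462 591))))))))) (node 557 (merge (leaf 2 524 556) (node 525 (merge (leaf 3 524 524) (node 561 (merge (leaf 0 525 526) (node 594 (merge (leaf 0 558 593) (node 562 (merge (leaf 3 527 563) (leaf 0 559 595)))))))))))))))))))) (merge (node 559 (merge (node 495 (merge (leaf 4 431 431) (node 591 (merge (leaf 7 462 494) (node 623 (merge (leaf 6 527 655) (node 622 (merge (leaf 5 494 590) (leaf 5 526 654)))))))))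 (merge (node 495 (merge (leaf 4 431 431) (node 558 (merge (leaf 5 462 590) (node 557 (merge (leaf 2 524 556) (node 525 (merge (leaf 3 524 524) (node 561 (merge (leaf 0 525 526) (node 594 (merge (leaf 0 558 593) (node 562 (merge (leaf 3 527 563) (leaf 0 559 595))))))))))))))) (merge (node 558 (merge (node 590 (merge (leaf 5 462 495) (node 561 (merge (leaf 1 557 589) (node 562 (merge (leaf 3 526 526) (leaf 1 558 591))))))) (merge (node 557 (merge (leaf 2 524 556) (node 525 (merge (leaf 3 524 524) (node 561 (merge (leaf 0 525 526) (node 594 (merge (leaf 0 558 593) (node 562 (merge (leaf 3 527 563) (leaf 0 559 595))))))))))) (node 557 (merge (leaf 2 524 556) (node 525 (merge (leaf 3 524 524) (node 590 (merge (leaf 5 462 495) (node 622 (merge (leaf 6 526 654) (node 493 (merge (leaf 4 461 461) (leaf 4 493 589)))))))))))))) (merge (node 558 (merge (node 431 (merge (leaf 4 431 495) (node 526 (merge (leaf 6 430 494) (node 525 (merge (leaf 0 524 524) (leaf 0 525 561))))))) (merge (node 557 (merge (leaf 2 524 556) (node 589 (merge (leaf 1 556 588) (node 495 (merge (leaf 4 431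 431) (node 494 (merge (leaf 5 461 526) (leaf 7 462 591))))))))) (merge (node 557 (merge (leaf 2 524 556) (node 589 (merge (leaf 1 556 588) (node 525 (merge (leaf 3 524 524) (node 526 (merge (leaf 5 461 494) (leaf 0 525 561))))))))) (merge (node 557 (merge (leaf 2 524 556) (node 589 (merge (leaf 1 556 588) (node 525 (merge (leaf 3 524 524) (node 494 (merge (leaf 6 461 493) (node 495 (merge (leaf 4 431 431) (leaf 7 462 591))))))))))) (node 557 (merge (leaf 2 524 556) (node 525 (merge (leaf 3 524 524) (node 561 (merge (leaf 0 525 526) (node 594 (merge (leaf 0 558 593) (node 562 (merge (leaf 3 527 563) (leaf 0 559 595)))))))))))))))) (node 558 (merge (node 526 (merge (node 525 (merge (leaf 0 524 524) (leaf 3 525 561))) (node 494 (merge (leaf 6 430 431) (leaf 4 462 591))))) (merge (node 557 (merge (leaf 2 524 556) (node 589 (merge (leaf 1 556 588) (node 561 (merge (leaf 1 557 590) (node 562 (merge (leaf 3 526 526) (leaf 3 527 563))))))))) (merge (node 557 (merge (leaf 2 524 556) (node 589 (merge (leaf 1 556 588) (node 525 (merge (leaf 3 524 524) (node 494 (merge (leaf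 6 461 493) (leaf 5 461 526))))))))) (node 557 (merge (leaf 2 524 556) (node 589 (merge (leaf 1 556 588) (node 590 (merge (leaf 1 557 561) (node 525 (merge (leaf 3 524 524) (node 493 (merge (leaf 6 461 494) (leaf 4 493 622)))))))))))))))))))) (merge (node 526 (merge (node 561 (merge (leaf 0 525 525) (node 562 (merge (leaf 3 526 559) (leaf 3 527 563))))) (merge (node 525 (merge (leaf 0 525 561) (node 557 (merge (leaf 1 524 556) (node 494 (merge (leaf 5 429 430) (node 558 (merge (leaf 6 430 431) (leaf 5 461 589))))))))) (node 494 (merge (node 431 (merge (leaf 6 430 558) (node 399 (merge (leaf 5 366 367) (leaf 6 398 430))))) (merge (node 559 (merge (leaf 4 430 430) (node 591 (merge (leaf 4 462 558) (leaf 7 494 623))))) (merge (node 558 (merge (leaf 6 430 431) (node 559 (merge (leaf 4 462 591) (node 557 (merge (leaf 2 524 556) (leaf 5 461 589))))))) (node 430 (merge (leaf 4 430 559) (node 399 (merge (leaf 6 398 431) (node 398 (merge (leaf 6 366 367) (node 397 (merge (leaf 7 365 365) (leaf 7 397 429)))))))))))))))) (node 431 (merge (leaf 4 431 495) (node 461 (merge (node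 432 (merge (leaf 2 428 460) (node 433 (merge (leaf 1 430 434) (leaf 2 429 464))))) (node 526 (merge (node 494 (merge (leaf 6 430 558) (node 399 (merge (leaf 5 366 367) (leaf 6 398 430))))) (merge (node 525 (merge (leaf 0 525 561) (node 557 (merge (leaf 1 524 556) (node 493 (merge (leaf 6 429 430) (node 558 (merge (leaf 4 429 429) (leaf 4 461 590))))))))) (merge (node 525 (merge (leaf 0 525 561) (node 557 (merge (leaf 1 524 556) (node 494 (merge (leaf 5 429 430) (node 589 (merge (leaf 6 461 493) (leaf 6 493 621))))))))) (node 494 (merge (leaf 6 430 558) (node 525 (merge (leaf 0 525 561) (node 557 (merge (leaf 1 524 556) (node 589 (merge (leaf 6 461 493) (leaf 6 493 621))))))))))))))))))))))) (merge (node 464 (merge (node 496 (merge (leaf 7 431 431) (node 497 (merge (leaf 0 461 461) (node 465 (merge (leaf 6 432 433) (leaf 0 462 498))))))) (merge (node 496 (merge (leaf 7 431 431) (node 561 (merge (leaf 4 464 593) (node 559 (merge (leaf 5 463 591) (node 527 (merge (leaf 5 431 432) (node 526 (merge (leaf 0 525 525) (leaf 3 526 562))))))))))) (merge (node 496 (merge (node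 497 (merge (leaf 0 461 461) (node 498 (merge (leaf 0 462 465) (leaf 3 463 499))))) (node 561 (merge (leaf 4 464 593) (node 559 (merge (leaf 5 463 591) (node 527 (merge (leaf 5 431 432) (node 526 (merge (leaf 0 525 525) (leaf 3 526 562))))))))))) (node 465 (merge (node 498 (merge (leaf 0 462 497) (node 466 (merge (leaf 0 463 499) (node 434 (merge (leaf 2 430 433) (leaf 2 431 435))))))) (merge (node 493 (merge (leaf 1 461 494) (node 461 (merge (leaf 1 460 492) (node 433 (merge (leaf 2 429 432) (leaf 2 430 434))))))) (merge (node 498 (merge (leaf 0 462 497) (node 466 (merge (leaf 0 463 499) (node 493 (merge (leaf 1 461 494) (node 461 (merge (leaf 1 460 492) (node 432 (merge (leaf 2 429 433) (node 431 (merge (leaf 3 430 430) (leaf 2 428 460))))))))))))) (node 498 (merge (leaf 0 462 497) (node 466 (merge (leaf 0 463 499) (node 435 (merge (leaf 2 431 434) (node 467 (merge (leaf 2 432 436) (node 431 (merge (leaf 3 430 430) (leaf 3 431 432))))))))))))))))))) (merge (hyp 1) (node 464 (merge (node 496 (merge (leaf 7 431 431) (node 497 (merge (leaf 0 461 461) (node 498 (merge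 (leaf 3 462 495) (leaf 3 463 499))))))) (merge (node 496 (merge (leaf 7 431 431) (node 433 (merge (leaf 6 432 465) (node 432 (merge (leaf 6 400 401) (node 559 (merge (leaf 5 431 527) (leaf 5 463 591))))))))) (merge (node 465 (merge (node 498 (merge (leaf 0 462 497) (node 466 (merge (leaf 0 463 499) (node 434 (merge (leaf 2 430 433) (leaf 2 431 435))))))) (merge (node 434 (merge (leaf 2 430 433) (node 466 (merge (leaf 2 431 435) (node 430 (merge (leaf 3 429 429) (leaf 3 430 431))))))) (merge (node 498 (merge (leaf 0 462 497) (node 466 (merge (leaf 0 463 499) (node 430 (merge (leaf 3 429 429) (leaf 3 430 431))))))) (node 497 (merge (leaf 0 462 498) (node 433 (merge (leaf 2 430 434) (node 401 (merge (node 368 (merge (leaf 7 368 400) (node 369 (merge (leaf 7 336 336) (node 432 (merge (leaf 5 336 337) (leaf 2 429 461))))))) (merge (node 370 (merge (leaf 6 369 402) (node 369 (merge (leaf 6 337 338) (node 432 (merge (leaf 5 336 337) (leaf 2 429 461))))))) (merge (node 370 (merge (leaf 6 369 402) (node 369 (merge (leaf 6 337 338) (node 368 (merge (leaf 7 336 336) (leaf 7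 368 400))))))) (node 402 (merge (leaf 6 369 370) (node 400 (merge (leaf 7 368 368) (node 432 (merge (leaf 2 429 461) (node 403 (merge (leaf 1 400 404) (leaf 1 399 431))))))))))))))))))))) (node 561 (merge (node 496 (merge (leaf 4 464 593) (node 462 (merge (node 433 (merge (leaf 6 432 465) (node 432 (merge (leaf 6 400 401) (leaf 2 429 461))))) (merge (node 497 (merge (leaf 0 461 461) (node 498 (merge (leaf 3 462 495) (leaf 3 463 499))))) (node 465 (merge (leaf 6 432 433) (node 498 (merge (leaf 0 462 497) (node 466 (merge (leaf 0 463 499) (node 467 (merge (leaf 1 463 495) (node 435 (merge (leaf 2 431 434) (leaf 2 432 436)))))))))))))))) (merge (node 559 (merge (node 527 (merge (node 432 (merge (leaf 6 431 495) (leaf 5 431 496))) (node 526 (merge (leaf 0 525 525) (leaf 3 526 562))))) (merge (node 591 (merge (leaf 5 463 496) (node 590 (merge (leaf 1 558 562) (node 589 (merge (leaf 1 557 558) (leaf 2 556 588))))))) (merge (node 562 (merge (node 595 (merge (leaf 0 559 594) (node 563 (merge (leaf 0 560 596) (node 531 (merge (leaf 2 527 530) (leaf 2 528 532))))))) (node 590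 (merge (leaf 1 558 591) (node 558 (merge (leaf 1 557 589) (node 526 (merge (leaf 3 525 525) (leaf 3 526 527))))))))) (node 496 (merge (leaf 5 463 591) (node 432 (merge (leaf 5 431 527) (node 401 (merge (leaf 6 400 433) (node 400 (merge (leaf 6 368 369) (node 367 (merge (leaf 7 367 399) (node 368 (merge (leaf 7 335 335) (leaf 5 367 495))))))))))))))))) (node 562 (merge (node 527 (merge (leaf 3 527 563) (node 526 (merge (leaf 0 525 525) (leaf 3 526 559))))) (merge (node 563 (merge (leaf 3 527 527) (node 596 (merge (leaf 0 560 595) (node 564 (merge (leaf 0 561 597) (node 532 (merge (leaf 2 528 531) (leaf 2 529 533))))))))) (merge (node 559 (merge (node 526 (merge (leaf 3 526 527) (node 590 (merge (leaf 1 558 591) (node 558 (merge (leaf 3 525 525) (leaf 1 557 589))))))) (merge (node 594 (merge (leaf 0 559 595) (node 593 (merge (leaf 0 558 558) (node 625 (merge (leaf 7 528 657) (node 530 (merge (leaf 5 497 498) (leaf 2 527 531))))))))) (node 594 (merge (leaf 0 559 595) (node 591 (merge (leaf 1 558 590) (node 623 (merge (leaf 6 527 655) (node 530 (merge (leaf 2 527 531)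 (node 527 (merge (leaf 3 526 526) (node 624 (merge (leaf 4 527 656) (node 622 (merge (leaf 5 526 654) (node 625 (merge (leaf 2 590 593) (node 657 (merge (leaf 5 529 626) (leaf 0 622 658)))))))))))))))))))))) (node 531 (merge (node 530 (merge (leaf 2 527 559) (node 532 (merge (leaf 1 529 533) (leaf 2 528 563))))) (merge (node 559 (merge (leaf 2 527 530) (node 594 (merge (leaf 0 559 595) (node 558 (merge (leaf 0 558 593) (node 590 (merge (leaf 1 557 589) (leaf 1 558 591))))))))) (merge (node 563 (merge (leaf 2 528 532) (node 595 (merge (leaf 0 560 596) (node 594 (merge (leaf 0 559 559) (node 499 (merge (leaf 5 466 467) (leaf 5 498 626))))))))) (node 563 (merge (leaf 2 528 532) (node 595 (merge (leaf 0 560 596) (node 594 (merge (node 626 (merge (leaf 5 498 499) (leaf 6 530 658))) (merge (node 499 (merge (leaf 5 466 467) (node 498 (merge (leaf 7 466 466) (node 627 (merge (leaf 7 498 530) (node 659 (merge (leaf 7 562 691) (node 660 (merge (leaf 4 531 628) (leaf 4 563 692))))))))))) (merge (node 499 (merge (leaf 5 498 626) (node 468 (merge (leaf 6 467 500) (node 467 (merge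 (leaf 6 435 436) (leaf 5 466 562))))))) (node 530 (merge (node 627 (merge (leaf 7 498 498) (leaf 7 530 659))) (merge (node 626 (merge (leaf 6 530 658) (node 498 (merge (leaf 4 466 466) (node 625 (merge (leaf 5 497 593) (leaf 5 529 657))))))) (node 626 (merge (leaf 6 530 658) (node 627 (merge (leaf 7 530 659) (node 628 (merge (leaf 4 531 660) (node 629 (merge (leaf 3 593 593) (leaf 3 594 630))))))))))))))))))))))))))))))))))))))))) nP_203 cP_203 15 (by decide +kernel)
def nP_204 : ℕ := 0x1000000010000000000000001c0000000000000000000000000000000000000000000000000000000000000000000000000000000000000000000000000000000000000000000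
def cP_204 : ℕ := 0xef0000000e0000000c000000030000007fc000007f800000ffc000003f8000001c000000100000000000000000000000000000000000000000000000000000000000000000000
theorem lP_204 : S nP_204 cP_204 11 := S_of_chk [] trivial (node 431 (merge (node 526 (merge (node 527 (merge (leaf 4 431 495) (node 561 (merge (leaf 0 525 525) (node 562 (merge (leaf 3 526 559) (leaf 3 527 563))))))) (node 494 (merge (leaf 6 430 558) (node 399 (merge (leaf 5 366 367) (leaf 6 398 430))))))) (merge (node 527 (merge (leaf 4 431 495) (node 526 (merge (node 561 (merge (leaf 0 525 525) (node 562 (merge (leaf 3 526 559) (leaf 3 527 563))))) (merge (node 494 (merge (leaf 6 430 558) (node 430 (merge (leaf 4 430 559) (node 429 (merge (leaf 7 397 397) (leaf 0 428 428))))))) (node 494 (merge (leaf 6 430 558) (node 525 (merge (leaf 0 525 561) (node 557 (merge (leaf 5 429 430) (leaf 1 524 556)))))))))))) (merge (node 399 (merge (node 494 (merge (leaf 5 366 367) (node 526 (merge (leaf 6 398 430) (leaf 6 430 558))))) (merge (node 367 (merge (node 336 (merge (leaf 6 335 368) (node 335 (merge (leaf 6 303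 304) (leaf 4 335 432))))) (merge (node 334 (merge (leaf 7 334 366) (node 335 (merge (leaf 7 302 302) (leaf 4 335 432))))) (node 368 (merge (leaf 6 335 336) (node 495 (merge (leaf 6 367 400) (node 366 (merge (leaf 7 334 334) (leaf 7 366 398)))))))))) (node 430 (merge (node 398 (merge (node 366 (merge (leaf 4 334 334) (leaf 4 366 495))) (node 494 (merge (leaf 6 398 526) (node 397 (merge (leaf 7 365 365) (node 432 (merge (leaf 0 396 396) (leaf 3 397 433))))))))) (merge (node 400 (merge (node 429 (merge (leaf 0 428 428) (node 401 (merge (leaf 1 397 398) (leaf 1 398 402))))) (node 368 (merge (leaf 6 367 495) (node 336 (merge (leaf 5 303 304) (leaf 5 335 432))))))) (merge (node 432 (merge (node 433 (merge (leaf 1 430 434) (leaf 1 429 461))) (merge (node 429 (merge (leaf 0 428 428) (node 397 (merge (leaf 3 396 396) (node 494 (merge (leaf 7 397 526) (node 365 (merge (leaf 4 333 333) (leaf 4 365 461))))))))) (node 429 (merge (leaf 0 428 428) (node 433 (merge (leaf 1 430 434) (node 401 (merge (leaf 2 397 400) (leaf 2 398 402)))))))))) (node 398 (merge (node 366 (merge (leaf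 4 334 334) (leaf 4 366 495))) (merge (node 494 (merge (leaf 6 398 526) (node 429 (merge (leaf 0 428 428) (node 397 (merge (leaf 7 365 365) (node 400 (merge (leaf 1 397 401) (node 368 (merge (leaf 2 365 369) (leaf 6 367 495))))))))))) (node 494 (merge (leaf 6 398 526) (node 365 (merge (leaf 7 365 397) (node 366 (merge (leaf 7 333 333) (leaf 4 334 334))))))))))))))))) (merge (node 399 (merge (node 495 (merge (leaf 4 431 527) (node 368 (merge (leaf 6 367 400) (node 367 (merge (leaf 6 335 336) (node 366 (merge (leaf 7 334 334) (leaf 7 366 398))))))))) (merge (node 432 (merge (node 433 (merge (leaf 1 430 434) (node 461 (merge (leaf 2 428 460) (leaf 2 429 464))))) (merge (node 433 (merge (leaf 1 430 434) (node 461 (merge (leaf 1 429 430) (leaf 2 428 460))))) (node 495 (merge (leaf 4 431 527) (node 368 (merge (leaf 6 367 400) (node 367 (merge (leaf 6 335 336) (node 335 (merge (leaf 5 334 430) (leaf 4 335 464)))))))))))) (merge (node 495 (merge (leaf 4 431 527) (node 400 (merge (leaf 6 367 368) (node 366 (merge (leaf 7 366 398) (node 367 (merge (leaf 7 334 334) (node 335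 (merge (leaf 5 334 430) (node 432 (merge (leaf 4 303 303) (leaf 4 335 464))))))))))))) (merge (node 495 (merge (leaf 4 431 527) (node 366 (merge (leaf 7 366 398) (node 367 (merge (leaf 7 334 334) (node 336 (merge (leaf 6 335 368) (node 335 (merge (leaf 6 303 304) (leaf 5 334 430))))))))))) (merge (node 495 (merge (leaf 4 431 527) (node 366 (merge (leaf 7 366 398) (node 367 (merge (leaf 7 334 334) (node 335 (merge (leaf 5 334 430) (node 304 (merge (leaf 6 303 336) (node 303 (merge (leaf 6 271 272) (node 432 (merge (leaf 4 303 400) (leaf 4 335 464))))))))))))))) (merge (node 367 (merge (node 336 (merge (leaf 6 335 368) (node 335 (merge (leaf 6 303 304) (node 334 (merge (leaf 7 302 302) (leaf 7 334 366))))))) (merge (node 336 (merge (leaf 6 335 368) (node 335 (merge (leaf 6 303 304) (node 432 (merge (leaf 4 335 464) (node 303 (merge (leaf 4 303 400) (node 430 (merge (leaf 5 302 398) (leaf 5 334 462))))))))))) (merge (node 334 (merge (leaf 7 334 366) (node 335 (merge (leaf 7 302 302) (node 432 (merge (leaf 4 335 464) (node 303 (merge (leaf 4 303 400) (node 430 (merge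 (leaf 5 302 398) (leaf 5 334 462))))))))))) (node 366 (merge (leaf 7 334 334) (node 365 (merge (node 400 (merge (leaf 0 364 364) (node 401 (merge (leaf 3 365 398) (leaf 3 366 402))))) (merge (node 368 (merge (leaf 6 335 336) (node 400 (merge (leaf 0 364 364) (leaf 0 365 401))))) (merge (node 368 (merge (leaf 6 335 336) (node 397 (merge (leaf 1 364 396) (node 398 (merge (leaf 1 365 369) (node 364 (merge (leaf 0 363 363) (node 332 (merge (leaf 3 331 331) (leaf 3 332 333))))))))))) (node 368 (merge (leaf 6 335 336) (node 401 (merge (leaf 0 365 400) (node 369 (merge (leaf 0 366 402) (node 397 (merge (leaf 1 364 396) (leaf 1 365 398))))))))))))))))))) (node 398 (merge (node 495 (merge (leaf 7 366 366) (leaf 4 431 527))) (merge (node 397 (merge (node 432 (merge (leaf 0 396 396) (node 433 (merge (leaf 0 397 400) (leaf 3 398 434))))) (merge (node 432 (merge (leaf 0 396 396) (node 433 (merge (leaf 3 397 430) (leaf 3 398 434))))) (merge (node 495 (merge (leaf 4 431 527) (node 400 (merge (leaf 6 367 368) (node 429 (merge (leaf 1 396 428) (node 430 (merge (leaf 1 397 401) (node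 396 (merge (leaf 0 395 395) (node 364 (merge (leaf 3 363 363) (leaf 3 364 365))))))))))))) (node 495 (merge (leaf 4 431 527) (node 400 (merge (leaf 6 367 368) (node 433 (merge (leaf 0 397 432) (node 401 (merge (leaf 0 398 434) (node 429 (merge (leaf 1 396 428) (leaf 1 397 430))))))))))))))) (node 397 (merge (node 432 (merge (leaf 0 396 396) (node 433 (merge (leaf 0 397 400) (leaf 3 398 434))))) (merge (node 396 (merge (leaf 0 396 432) (node 395 (merge (leaf 0 395 430) (node 427 (merge (leaf 1 394 426) (leaf 1 395 428))))))) (merge (node 396 (merge (node 395 (merge (leaf 0 395 430) (node 427 (merge (leaf 1 394 426) (leaf 1 395 428))))) (merge (node 395 (merge (leaf 0 395 430) (node 363 (merge (leaf 3 362 362) (leaf 3 363 364))))) (node 428 (merge (leaf 1 395 427) (node 400 (merge (leaf 1 396 429) (node 364 (merge (leaf 3 363 363) (leaf 3 364 365)))))))))) (node 400 (merge (node 432 (merge (leaf 0 397 433) (node 368 (merge (leaf 5 335 336) (leaf 2 365 369))))) (node 429 (merge (leaf 1 396 428) (node 401 (merge (leaf 1 397 430) (node 365 (merge (leaf 3 364 364) (leaf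 3 365 366))))))))))))))))))))))) (merge (node 399 (merge (node 494 (merge (leaf 5 366 367) (node 526 (merge (leaf 5 398 495) (leaf 6 430 558))))) (merge (node 367 (merge (leaf 5 366 494) (node 334 (merge (leaf 7 334 366) (node 335 (merge (leaf 7 302 302) (leaf 4 335 432))))))) (merge (node 367 (merge (node 336 (merge (leaf 6 335 368) (node 335 (merge (leaf 6 303 304) (leaf 4 335 432))))) (merge (node 334 (merge (leaf 7 334 366) (node 335 (merge (leaf 7 302 302) (leaf 4 335 432))))) (node 368 (merge (leaf 6 335 336) (node 495 (merge (leaf 6 367 400) (node 366 (merge (leaf 7 334 334) (leaf 7 366 398)))))))))) (node 400 (merge (node 495 (merge (leaf 6 367 368) (leaf 4 431 527))) (merge (node 432 (merge (node 461 (merge (leaf 2 429 433) (leaf 2 428 460))) (merge (node 368 (merge (leaf 5 335 336) (node 369 (merge (leaf 6 336 337) (node 370 (merge (leaf 1 367 371) (node 398 (merge (leaf 2 365 397) (leaf 2 366 401))))))))) (node 368 (merge (leaf 5 335 336) (node 369 (merge (leaf 6 336 337) (node 370 (merge (leaf 1 367 371) (node 398 (merge (leaf 2 365 397) (leaf 2 366 401))))))))))))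 (node 432 (merge (node 461 (merge (leaf 2 429 433) (leaf 2 428 460))) (merge (node 495 (merge (leaf 6 399 527) (node 398 (merge (leaf 7 366 366) (node 433 (merge (leaf 0 397 397) (leaf 1 430 434))))))) (node 495 (merge (leaf 6 399 527) (node 398 (merge (leaf 7 366 366) (node 397 (merge (leaf 0 396 396) (node 461 (merge (leaf 2 428 460) (node 365 (merge (leaf 3 364 364) (node 494 (merge (leaf 4 365 429) (leaf 5 398 526))))))))))))))))))))))) (node 430 (merge (node 432 (merge (node 433 (merge (leaf 1 430 434) (leaf 1 429 461))) (merge (node 429 (merge (leaf 0 428 428) (node 397 (merge (leaf 3 396 396) (node 494 (merge (leaf 7 397 526) (node 365 (merge (leaf 4 333 333) (leaf 4 365 461))))))))) (node 429 (merge (leaf 0 428 428) (node 433 (merge (leaf 1 430 434) (node 397 (merge (leaf 3 396 396) (leaf 3 397 398)))))))))) (merge (node 432 (merge (node 433 (merge (leaf 1 430 434) (leaf 1 429 461))) (node 429 (merge (leaf 0 428 428) (node 400 (merge (leaf 2 397 401) (node 368 (merge (leaf 5 335 336) (node 367 (merge (leaf 7 335 335) (node 494 (merge (leaf 5 366 399) (node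 526 (merge (leaf 7 397 397) (leaf 6 430 558))))))))))))))) (merge (node 432 (merge (node 433 (merge (leaf 1 430 434) (leaf 1 429 461))) (node 429 (merge (leaf 0 428 428) (node 400 (merge (leaf 2 397 401) (node 397 (merge (leaf 3 396 396) (node 368 (merge (leaf 5 335 336) (node 369 (merge (leaf 6 336 337) (node 367 (merge (leaf 7 335 335) (node 398 (merge (leaf 1 365 366) (leaf 2 365 399))))))))))))))))) (merge (node 398 (merge (node 366 (merge (leaf 4 334 334) (node 367 (merge (leaf 6 334 335) (node 494 (merge (leaf 6 366 399) (node 526 (merge (leaf 6 430 558) (node 527 (merge (leaf 4 430 559) (node 525 (merge (leaf 5 429 557) (leaf 0 525 561))))))))))))) (merge (node 366 (merge (leaf 4 334 334) (node 365 (merge (leaf 7 333 333) (node 494 (merge (leaf 7 365 397) (node 526 (merge (leaf 6 430 558) (node 527 (merge (leaf 4 430 559) (node 525 (merge (leaf 5 429 557) (leaf 0 525 561))))))))))))) (merge (node 494 (merge (node 526 (merge (leaf 6 430 558) (node 525 (merge (leaf 5 429 557) (node 527 (merge (leaf 4 430 559) (leaf 0 525 561))))))) (node 399 (merge (leaf 6 366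 367) (node 397 (merge (leaf 7 365 365) (node 396 (merge (leaf 0 395 395) (leaf 0 396 432))))))))) (node 397 (merge (node 396 (merge (leaf 0 395 395) (node 432 (merge (leaf 0 396 399) (leaf 3 397 433))))) (merge (node 396 (merge (leaf 0 395 395) (node 366 (merge (leaf 4 334 334) (node 367 (merge (leaf 6 334 335) (node 368 (merge (leaf 1 364 365) (leaf 1 365 369))))))))) (node 432 (merge (leaf 3 397 433) (node 366 (merge (leaf 4 334 334) (node 367 (merge (leaf 6 334 335) (node 368 (merge (leaf 1 365 369) (node 336 (merge (leaf 6 335 399) (leaf 5 335 400)))))))))))))))))) (merge (node 432 (merge (node 433 (merge (leaf 1 430 434) (leaf 1 429 461))) (node 429 (merge (leaf 0 428 428) (node 400 (merge (leaf 2 397 401) (node 368 (merge (leaf 5 335 336) (node 369 (merge (leaf 6 336 337) (node 367 (merge (leaf 7 335 335) (node 399 (merge (leaf 5 366 494) (node 370 (merge (leaf 1 367 371) (leaf 1 366 398))))))))))))))))) (node 398 (merge (node 366 (merge (leaf 4 334 334) (node 367 (merge (leaf 6 334 335) (node 494 (merge (leaf 6 366 399) (node 526 (merge (leaf 6 430 558) (node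 527 (merge (leaf 4 430 559) (node 525 (merge (leaf 5 429 557) (leaf 0 525 561))))))))))))) (merge (node 366 (merge (leaf 4 334 334) (node 365 (merge (leaf 7 333 333) (node 494 (merge (leaf 7 365 397) (node 526 (merge (leaf 6 430 558) (node 527 (merge (leaf 4 430 559) (node 525 (merge (leaf 5 429 557) (leaf 0 525 561))))))))))))) (merge (node 399 (merge (node 367 (merge (leaf 5 334 335) (node 368 (merge (leaf 6 335 336) (node 369 (merge (leaf 1 366 370) (node 397 (merge (leaf 2 364 396) (leaf 2 365 400))))))))) (merge (node 366 (merge (leaf 4 334 334) (node 365 (merge (leaf 7 333 333) (node 364 (merge (leaf 0 363 363) (node 400 (merge (leaf 3 364 397) (leaf 3 365 401))))))))) (merge (node 367 (merge (leaf 5 334 335) (node 368 (merge (leaf 6 335 336) (node 369 (merge (leaf 1 366 370) (node 397 (merge (leaf 1 365 366) (leaf 2 364 396))))))))) (node 366 (merge (leaf 4 334 334) (node 367 (merge (leaf 6 334 335) (node 365 (merge (leaf 7 333 333) (node 364 (merge (leaf 0 363 363) (leaf 0 364 400))))))))))))) (node 399 (merge (node 367 (merge (leaf 6 366 494) (node 335 (merge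 (leaf 5 302 303) (leaf 5 334 431))))) (merge (node 494 (merge (leaf 6 398 526) (node 397 (merge (leaf 7 365 365) (node 396 (merge (leaf 0 395 395) (node 428 (merge (leaf 1 395 427) (node 429 (merge (leaf 1 396 400) (leaf 0 428 464))))))))))) (node 367 (merge (leaf 5 334 335) (node 368 (merge (leaf 6 335 336) (node 369 (merge (leaf 1 366 370) (node 397 (merge (leaf 2 364 396) (leaf 2 365 400)))))))))))))))))))))))))))) nP_204 cP_204 11 (by decide +kernel)
def nP_205 : ℕ := 0x100000001000000000000000180000000000000000000000000000000000000000000000000000000000000000000000000000000000000000000000000000000000000000000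
def cP_205 : ℕ := 0x380000007e000003ef000001efe00003cfc00000edc00000e7800001ffc000007f800000ffc000007f8000001c000000100000000000000000000000000000000000000000000000000000000000000000000
theorem lP_205 : S nP_205 cP_205 14 := S_of_chk [(nP_204, cP_204, 11)] ⟨lP_204, trivial⟩ (node 462 (merge (node 465 (merge (node 433 (merge (leaf 2 430 434) (node 461 (merge (leaf 2 429 432) (node 429 (merge (leaf 3 428 428) (leaf 3 429 430))))))) (merge (node 498 (merge (leaf 0 462 497) (node 466 (merge (leaf 0 463 499) (node 434 (merge (leaf 2 430 433) (leaf 2 431 435))))))) (node 498 (merge (leaf 0 462 497) (node 466 (merge (leaf 0 463 499) (node 430 (merge (leaf 3 429 429) (leaf 3 430 431)))))))))) (merge (node 430 (merge (node 429 (merge (leaf 3 429 465) (node 428 (merge (leaf 0 427 427) (leaf 3 428 461))))) (node 527 (merge (node 495 (merge (leaf 4 431 431) (leaf 7 430 559))) (merge (node 495 (merge (leaf 7 430 559) (node 398 (merge (leaf 4 366 366) (leaf 4 398 494))))) (merge (node 495 (merge (leaf 4 431 431) (node 398 (merge (leaf 4 366 366) (leaf 4 398 494))))) (node 526 (merge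 (node 561 (merge (leaf 0 525 525) (node 562 (merge (leaf 3 526 559) (leaf 3 527 563))))) (merge (node 525 (merge (leaf 0 525 561) (node 557 (merge (leaf 1 524 556) (node 494 (merge (leaf 5 429 430) (node 589 (merge (leaf 5 461 558) (leaf 6 493 621))))))))) (node 494 (merge (node 559 (merge (leaf 4 430 430) (node 591 (merge (leaf 4 462 558) (leaf 7 494 623))))) (merge (node 431 (merge (leaf 6 430 558) (node 399 (merge (leaf 5 366 367) (leaf 6 398 430))))) (merge (node 558 (merge (leaf 6 430 431) (node 559 (merge (leaf 4 462 591) (node 557 (merge (leaf 2 524 556) (leaf 5 461 589))))))) (node 430 (merge (leaf 4 430 559) (node 398 (merge (node 399 (merge (leaf 6 366 367) (leaf 6 398 431))) (merge (node 367 (merge (leaf 6 366 399) (node 366 (merge (leaf 6 334 335) (node 365 (merge (leaf 7 333 333) (leaf 7 365 397))))))) (merge (node 431 (merge (leaf 6 398 399) (node 365 (merge (leaf 7 365 397) (node 366 (merge (leaf 7 333 333) (leaf 4 334 334))))))) (node 365 (merge (leaf 7 365 397) (node 366 (merge (leaf 7 333 333) (node 335 (merge (leaf 6 334 367) (node 334 (merge (leaf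 6 302 303) (leaf 4 334 431)))))))))))))))))))))))))))) (merge (node 430 (merge (node 465 (merge (leaf 3 429 429) (node 498 (merge (leaf 0 462 497) (node 466 (merge (leaf 0 463 499) (node 434 (merge (leaf 2 430 433) (leaf 2 431 435))))))))) (node 527 (merge (node 495 (merge (leaf 4 431 431) (leaf 7 430 559))) (merge (node 495 (merge (leaf 7 430 559) (node 398 (merge (leaf 4 366 366) (leaf 4 398 494))))) (merge (node 495 (merge (leaf 4 431 431) (node 398 (merge (leaf 4 366 366) (leaf 4 398 494))))) (node 526 (merge (node 561 (merge (leaf 0 525 525) (node 562 (merge (leaf 3 526 559) (leaf 3 527 563))))) (merge (node 525 (merge (leaf 0 525 561) (node 557 (merge (leaf 1 524 556) (node 494 (merge (leaf 5 429 430) (node 589 (merge (leaf 5 461 558) (leaf 6 493 621))))))))) (node 494 (merge (node 559 (merge (leaf 4 430 430) (node 591 (merge (leaf 4 462 558) (leaf 7 494 623))))) (merge (node 431 (merge (leaf 6 430 558) (node 399 (merge (leaf 5 366 367) (leaf 6 398 430))))) (merge (node 558 (merge (leaf 6 430 431) (node 559 (merge (leaf 4 462 591) (node 557 (merge (leaf 2 524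 556) (leaf 5 461 589))))))) (node 430 (merge (leaf 4 430 559) (node 398 (merge (node 399 (merge (leaf 6 366 367) (leaf 6 398 431))) (merge (node 367 (merge (leaf 6 366 399) (node 366 (merge (leaf 6 334 335) (node 365 (merge (leaf 7 333 333) (leaf 7 365 397))))))) (merge (node 431 (merge (leaf 6 398 399) (node 365 (merge (leaf 7 365 397) (node 366 (merge (leaf 7 333 333) (leaf 4 334 334))))))) (node 365 (merge (leaf 7 365 397) (node 366 (merge (leaf 7 333 333) (node 335 (merge (leaf 6 334 367) (node 334 (merge (leaf 6 302 303) (leaf 4 334 431)))))))))))))))))))))))))))) (merge (node 433 (merge (node 432 (merge (leaf 2 429 461) (node 434 (merge (leaf 1 430 431) (leaf 1 431 435))))) (merge (node 432 (merge (leaf 2 429 461) (node 434 (merge (leaf 1 431 435) (leaf 2 430 465))))) (merge (node 465 (merge (leaf 2 430 434) (node 498 (merge (leaf 0 462 497) (node 466 (merge (leaf 0 463 499) (node 495 (merge (leaf 1 462 494) (node 431 (merge (leaf 3 430 430) (leaf 4 431 527))))))))))) (node 431 (merge (node 526 (merge (node 494 (merge (leaf 6 430 558) (node 399 (merge (leaf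 6 398 430) (leaf 5 398 495))))) (merge (node 527 (merge (leaf 4 431 495) (node 561 (merge (leaf 0 525 525) (node 562 (merge (leaf 3 526 559) (leaf 3 527 563))))))) (node 494 (merge (leaf 6 430 558) (node 430 (merge (leaf 6 398 399) (node 527 (merge (leaf 4 430 559) (node 525 (merge (leaf 5 429 557) (leaf 0 525 561)))))))))))) (merge (node 399 (merge (node 495 (merge (leaf 4 431 527) (node 494 (merge (leaf 5 366 367) (leaf 5 398 526))))) (merge (node 432 (merge (leaf 2 429 461) (node 367 (merge (leaf 4 335 335) (leaf 5 366 494))))) (node 432 (merge (leaf 2 429 461) (node 495 (merge (leaf 4 431 527) (node 400 (merge (leaf 6 367 368) (node 398 (merge (leaf 7 366 366) (leaf 0 397 397)))))))))))) (merge (node 432 (merge (leaf 2 429 461) (node 430 (merge (node 398 (merge (leaf 3 397 397) (node 366 (merge (leaf 4 334 334) (leaf 4 366 495))))) (node 465 (merge (leaf 0 430 466) (node 497 (merge (leaf 0 462 498) (node 401 (merge (leaf 2 398 402) (node 368 (merge (leaf 7 368 400) (node 369 (merge (leaf 7 336 336) (leaf 5 336 337))))))))))))))) (node 432 (merge (leaf 2 429 461)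 (node 430 (merge (node 465 (merge (leaf 0 430 466) (node 497 (merge (leaf 0 462 498) (node 401 (merge (leaf 2 398 402) (node 368 (merge (leaf 7 368 400) (node 369 (merge (leaf 7 336 336) (leaf 5 336 337))))))))))) (merge (node 401 (merge (leaf 2 398 402) (node 398 (merge (leaf 3 397 397) (node 366 (merge (leaf 4 334 334) (node 367 (merge (leaf 6 334 335) (node 399 (merge (leaf 6 366 494) (node 365 (merge (leaf 7 333 333) (leaf 3 365 400))))))))))))) (merge (node 465 (merge (leaf 0 430 466) (node 497 (merge (leaf 0 462 498) (node 398 (merge (leaf 3 397 397) (node 366 (merge (leaf 4 334 334) (node 367 (merge (leaf 6 334 335) (node 399 (merge (leaf 6 366 494) (node 368 (merge (leaf 6 335 336) (leaf 4 368 400))))))))))))))) (node 465 (merge (leaf 0 430 466) (node 401 (merge (leaf 2 398 402) (node 398 (merge (leaf 3 397 397) (node 366 (merge (leaf 4 334 334) (node 367 (merge (leaf 6 334 335) (node 369 (merge (leaf 5 336 337) (node 370 (merge (leaf 6 337 338) (node 368 (merge (leaf 7 336 336) (leaf 1 366 399))))))))))))))))))))))))))))))) (merge (hyp 0) (merge (node 433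 (merge (node 432 (merge (leaf 2 429 461) (node 434 (merge (leaf 1 431 435) (leaf 2 430 465))))) (merge (node 432 (merge (leaf 2 429 461) (node 434 (merge (leaf 1 430 431) (leaf 1 431 435))))) (merge (node 562 (merge (node 465 (merge (leaf 2 430 434) (node 498 (merge (leaf 0 462 497) (node 466 (merge (leaf 0 463 499) (leaf 7 433 530))))))) (merge (node 561 (merge (node 563 (merge (leaf 3 527 527) (node 596 (merge (leaf 0 560 595) (node 564 (merge (leaf 0 561 597) (node 532 (merge (leaf 2 528 531) (leaf 2 529 533))))))))) (merge (node 527 (merge (leaf 3 527 563) (node 559 (merge (leaf 3 526 526) (node 590 (merge (leaf 1 558 591) (node 495 (merge (leaf 4 431 431) (leaf 5 462 558))))))))) (merge (node 559 (merge (node 595 (merge (leaf 0 559 594) (node 563 (merge (leaf 0 560 596) (node 531 (merge (leaf 2 527 530) (leaf 2 528 532))))))) (node 590 (merge (leaf 1 558 591) (node 558 (merge (leaf 1 557 589) (node 526 (merge (leaf 3 525 525) (node 494 (merge (leaf 6 430 431) (leaf 6 462 495))))))))))) (node 559 (merge (node 591 (merge (leaf 1 558 590) (node 527 (merge (leaf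 3 526 526) (node 495 (merge (leaf 4 431 431) (leaf 7 462 494))))))) (merge (node 594 (merge (leaf 0 559 595) (node 558 (merge (leaf 0 558 593) (node 590 (merge (leaf 1 557 589) (leaf 1 558 591))))))) (merge (node 594 (merge (leaf 0 559 595) (node 558 (merge (leaf 0 558 593) (node 526 (merge (leaf 3 525 525) (node 494 (merge (leaf 6 430 431) (leaf 4 462 591))))))))) (node 594 (merge (leaf 0 559 595) (node 558 (merge (leaf 0 558 593) (node 589 (merge (leaf 1 557 590) (node 557 (merge (leaf 1 556 588) (node 526 (merge (leaf 5 461 494) (leaf 3 525 525))))))))))))))))))) (node 465 (merge (leaf 2 430 434) (node 498 (merge (leaf 0 462 497) (node 466 (merge (leaf 0 463 499) (node 495 (merge (leaf 1 462 494) (node 527 (merge (leaf 4 431 431) (node 561 (merge (leaf 3 527 563) (node 526 (merge (leaf 0 525 525) (leaf 3 526 559)))))))))))))))))) (node 526 (merge (node 525 (merge (node 527 (merge (leaf 0 525 561) (node 524 (merge (leaf 0 524 559) (node 556 (merge (leaf 1 523 555) (leaf 1 524 557))))))) (merge (node 561 (merge (leaf 0 525 527) (node 461 (merge (leaf 2 429 432) (node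 429 (merge (leaf 3 428 428) (node 558 (merge (leaf 7 429 494) (leaf 3 525 559))))))))) (merge (node 461 (merge (leaf 2 429 432) (node 429 (merge (leaf 3 428 428) (node 558 (merge (leaf 7 429 494) (node 559 (merge (leaf 3 525 561) (node 524 (merge (leaf 0 523 523) (leaf 3 524 557))))))))))) (merge (node 527 (merge (leaf 0 525 561) (node 556 (merge (leaf 1 524 557) (node 524 (merge (leaf 1 523 555) (node 461 (merge (leaf 2 429 432) (node 429 (merge (leaf 3 428 428) (node 492 (merge (leaf 6 428 460) (leaf 3 491 491))))))))))))) (node 461 (merge (leaf 2 429 432) (node 428 (merge (leaf 3 428 429) (node 460 (merge (leaf 3 427 427) (node 492 (merge (leaf 1 459 491) (node 524 (merge (leaf 4 428 557) (node 527 (merge (leaf 0 524 559) (node 555 (merge (leaf 5 427 523) (leaf 1 523 556)))))))))))))))))))) (merge (node 461 (merge (leaf 2 429 432) (node 428 (merge (leaf 3 428 429) (node 460 (merge (leaf 3 427 427) (node 491 (merge (leaf 1 459 492) (node 459 (merge (leaf 1 458 490) (node 495 (merge (leaf 0 459 494) (node 527 (merge (leaf 4 431 431) (node 561 (merge (leaf 0 525 525)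 (node 562 (merge (leaf 3 526 559) (leaf 3 527 563))))))))))))))))))) (merge (node 527 (merge (node 561 (merge (leaf 0 525 525) (node 562 (merge (leaf 3 526 559) (leaf 3 527 563))))) (merge (node 432 (merge (leaf 2 429 461) (node 495 (merge (leaf 4 431 431) (leaf 6 431 559))))) (node 525 (merge (leaf 0 525 561) (node 556 (merge (leaf 1 524 557) (node 524 (merge (leaf 1 523 555) (node 461 (merge (leaf 2 429 432) (node 429 (merge (leaf 3 428 428) (node 492 (merge (leaf 6 428 460) (leaf 3 491 491)))))))))))))))) (merge (node 461 (merge (leaf 2 429 432) (node 428 (merge (leaf 3 428 429) (node 460 (merge (leaf 3 427 427) (node 491 (merge (leaf 1 459 492) (node 459 (merge (leaf 1 458 490) (node 555 (merge (leaf 6 427 523) (node 495 (merge (leaf 0 459 494) (node 527 (merge (leaf 4 431 431) (node 525 (merge (leaf 0 525 561) (node 556 (merge (leaf 1 523 524) (leaf 1 524 557))))))))))))))))))))) (merge (node 461 (merge (leaf 2 429 432) (node 428 (merge (leaf 3 428 429) (node 460 (merge (leaf 3 427 427) (node 491 (merge (leaf 1 459 492) (node 459 (merge (leaf 1 458 490) (node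 494 (merge (leaf 0 459 495) (node 558 (merge (leaf 6 430 431) (node 591 (merge (leaf 4 462 559) (node 590 (merge (leaf 4 494 623) (node 589 (merge (leaf 5 461 557) (leaf 5 493 621))))))))))))))))))))) (merge (node 527 (merge (node 561 (merge (leaf 0 525 525) (node 562 (merge (leaf 3 526 559) (leaf 3 527 563))))) (merge (node 558 (merge (node 431 (merge (leaf 6 430 494) (leaf 5 430 495))) (merge (node 495 (merge (leaf 4 431 431) (node 590 (merge (leaf 5 462 559) (leaf 6 494 622))))) (merge (node 494 (merge (leaf 6 430 431) (node 559 (merge (leaf 4 462 591) (node 557 (merge (leaf 2 524 556) (leaf 5 461 589))))))) (node 494 (merge (node 590 (merge (leaf 6 462 495) (node 589 (merge (leaf 5 461 557) (leaf 5 493 621))))) (merge (node 559 (merge (leaf 4 462 591) (node 557 (merge (leaf 2 524 556) (leaf 5 461 589))))) (node 590 (merge (leaf 6 462 495) (node 591 (merge (leaf 4 462 559) (leaf 4 494 623)))))))))))) (node 525 (merge (leaf 0 525 561) (node 556 (merge (leaf 1 524 557) (node 524 (merge (leaf 1 523 555) (node 491 (merge (leaf 3 491 492) (node 523 (merge (leaf 3 490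 490) (node 495 (merge (leaf 4 431 431) (leaf 2 491 494)))))))))))))))) (node 495 (merge (node 527 (merge (leaf 4 431 431) (node 561 (merge (leaf 0 525 525) (node 562 (merge (leaf 3 526 559) (leaf 3 527 563))))))) (merge (node 461 (merge (leaf 2 429 432) (node 428 (merge (leaf 3 428 429) (node 460 (merge (leaf 3 427 427) (node 494 (merge (leaf 0 459 459) (node 558 (merge (leaf 6 462 590) (node 559 (merge (leaf 4 462 591) (node 525 (merge (leaf 3 525 561) (node 557 (merge (leaf 3 524 524) (leaf 5 461 589))))))))))))))))) (node 431 (merge (leaf 4 431 527) (node 399 (merge (leaf 5 398 494) (node 368 (merge (leaf 6 367 400) (node 367 (merge (leaf 6 335 336) (node 366 (merge (leaf 7 334 334) (leaf 7 366 398))))))))))))))))))))))))) (node 527 (merge (node 430 (merge (node 495 (merge (leaf 7 430 559) (node 398 (merge (leaf 4 366 366) (leaf 4 398 494))))) (node 429 (merge (leaf 3 429 465) (node 428 (merge (leaf 0 427 427) (leaf 3 428 461))))))) (merge (node 559 (merge (node 495 (merge (leaf 7 430 430) (leaf 6 431 432))) (merge (node 526 (merge (node 525 (merge (leaf 0 524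 524) (leaf 0 525 561))) (node 494 (merge (leaf 4 430 430) (node 591 (merge (leaf 4 462 558) (leaf 7 494 623))))))) (node 495 (merge (leaf 6 431 432) (node 591 (merge (leaf 7 462 494) (node 590 (merge (leaf 5 462 558) (leaf 5 494 622)))))))))) (merge (node 559 (merge (node 495 (merge (leaf 7 430 430) (leaf 6 431 432))) (merge (node 430 (merge (leaf 7 430 495) (node 429 (merge (leaf 3 429 465) (node 428 (merge (leaf 0 427 427) (leaf 3 428 461))))))) (merge (node 432 (merge (leaf 6 431 495) (node 433 (merge (leaf 2 429 461) (node 434 (merge (leaf 1 431 435) (leaf 2 430 465))))))) (node 465 (merge (node 433 (merge (leaf 2 430 434) (node 461 (merge (leaf 2 429 432) (node 429 (merge (leaf 3 428 428) (leaf 3 429 430))))))) (merge (node 562 (merge (node 561 (merge (leaf 3 526 526) (leaf 3 527 563))) (node 498 (merge (leaf 0 462 497) (node 466 (merge (leaf 0 463 499) (node 433 (merge (leaf 7 433 530) (node 461 (merge (leaf 2 429 432) (node 429 (merge (leaf 3 428 428) (leaf 3 429 430))))))))))))) (node 498 (merge (leaf 0 462 497) (node 466 (merge (leaf 0 463 499) (node 435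 (merge (leaf 2 431 434) (node 467 (merge (leaf 2 432 436) (node 562 (merge (leaf 6 434 530) (node 561 (merge (leaf 3 526 526) (leaf 3 527 563)))))))))))))))))))) (merge (node 526 (merge (node 525 (merge (leaf 0 525 561) (node 557 (merge (leaf 1 524 556) (node 494 (merge (leaf 5 429 430) (node 589 (merge (leaf 5 461 558) (leaf 6 493 621))))))))) (merge (node 429 (merge (node 461 (merge (leaf 3 428 428) (node 494 (merge (leaf 7 429 558) (node 397 (merge (leaf 4 365 365) (leaf 7 397 430))))))) (merge (node 465 (merge (leaf 3 429 430) (node 498 (merge (leaf 0 462 497) (node 466 (merge (leaf 0 463 499) (node 434 (merge (leaf 2 430 433) (leaf 2 431 435))))))))) (node 461 (merge (leaf 3 428 428) (node 494 (merge (leaf 7 429 558) (node 433 (merge (leaf 2 429 432) (node 465 (merge (leaf 2 430 434) (node 498 (merge (leaf 0 462 497) (node 466 (merge (leaf 1 462 495) (leaf 0 463 499)))))))))))))))) (node 433 (merge (node 432 (merge (leaf 2 429 461) (node 434 (merge (leaf 1 431 435) (leaf 2 430 465))))) (merge (node 561 (merge (leaf 0 525 525) (node 465 (merge (leaf 2 430 434)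 (node 498 (merge (leaf 0 462 497) (node 466 (merge (leaf 0 463 499) (node 562 (merge (leaf 7 433 530) (leaf 3 527 563))))))))))) (node 525 (merge (leaf 0 525 561) (node 556 (merge (leaf 1 524 557) (node 524 (merge (leaf 1 523 555) (node 461 (merge (leaf 2 429 432) (node 429 (merge (leaf 3 428 428) (node 492 (merge (leaf 6 428 460) (leaf 3 491 491))))))))))))))))))) (merge (node 526 (merge (node 525 (merge (leaf 0 525 561) (node 524 (merge (leaf 0 524 559) (node 556 (merge (leaf 1 523 555) (leaf 1 524 557))))))) (merge (node 525 (merge (leaf 0 525 561) (node 557 (merge (leaf 1 524 556) (node 494 (merge (leaf 5 429 430) (node 589 (merge (leaf 5 461 558) (leaf 6 493 621))))))))) (merge (node 525 (merge (node 557 (merge (leaf 1 524 556) (node 494 (merge (leaf 5 429 430) (node 589 (merge (leaf 5 461 558) (leaf 6 493 621))))))) (merge (node 524 (merge (leaf 0 524 559) (node 555 (merge (leaf 1 523 556) (node 523 (merge (leaf 1 522 554) (node 491 (merge (leaf 3 490 490) (leaf 3 491 492))))))))) (node 524 (merge (leaf 0 524 559) (node 491 (merge (leaf 3 491 492) (node 523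 (merge (leaf 3 490 490) (node 554 (merge (leaf 1 522 555) (node 522 (merge (leaf 1 521 553) (node 557 (merge (leaf 0 522 558) (node 427 (merge (leaf 5 426 459) (node 430 (merge (leaf 5 429 494) (node 429 (merge (leaf 0 427 428) (leaf 3 429 465)))))))))))))))))))))) (node 429 (merge (node 430 (merge (leaf 3 429 465) (node 494 (merge (leaf 7 397 397) (leaf 4 430 559))))) (merge (node 428 (merge (leaf 3 428 461) (node 430 (merge (leaf 0 427 427) (leaf 3 429 465))))) (merge (node 461 (merge (leaf 3 428 428) (node 494 (merge (leaf 7 429 558) (node 430 (merge (leaf 7 397 397) (leaf 4 430 559))))))) (node 461 (merge (leaf 3 428 428) (node 433 (merge (leaf 2 429 432) (node 465 (merge (leaf 2 430 434) (node 498 (merge (leaf 0 462 497) (node 466 (merge (leaf 0 463 499) (node 562 (merge (leaf 7 433 530) (node 561 (merge (leaf 3 526 559) (leaf 3 527 563))))))))))))))))))))))) (node 559 (merge (node 432 (merge (leaf 6 431 495) (node 433 (merge (leaf 2 429 461) (node 434 (merge (leaf 1 431 435) (leaf 2 430 465))))))) (node 561 (merge (node 526 (merge (leaf 0 525 525) (leaf 3 526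 562))) (merge (node 562 (merge (leaf 3 527 563) (node 594 (merge (leaf 0 559 595) (node 558 (merge (leaf 0 558 593) (node 590 (merge (leaf 1 557 589) (leaf 1 558 591))))))))) (node 558 (merge (node 525 (merge (leaf 0 525 526) (node 557 (merge (leaf 3 524 524) (leaf 2 524 556))))) (merge (node 589 (merge (leaf 1 557 590) (node 557 (merge (leaf 2 524 556) (leaf 1 556 588))))) (node 526 (merge (leaf 0 525 525) (node 593 (merge (leaf 0 558 594) (node 590 (merge (leaf 1 557 589) (node 625 (merge (leaf 7 528 657) (node 591 (merge (leaf 4 462 494) (node 623 (merge (leaf 6 527 655) (node 624 (merge (leaf 3 590 626) (leaf 4 527 656)))))))))))))))))))))))))))))))))))) nP_205 cP_205 14 (by decide +kernel)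
def nP_206 : ℕ := 0x1000000010000000000000000c0000000000000000000000000000000000000000000000000000000000000000000000000000000000000000000000000000000000000000000
def cP_206 : ℕ := 0x80000000f000000ef000000efc000000fc000007fe0000003c000007de000007f800000ff8000001600000000000000000000000000000000000000000000000000000000000000000000000000000000000
theorem lP_206 : S nP_206 cP_206 14 := S_of_chk [] trivial (node 461 (merge (node 460 (merge (node 495 (merge (leaf 0 460 496) (node 431 (merge (leaf 2 428 432) (leaf 4 431 527))))) (node 491 (merge (leaf 1 459 492) (node 459 (merge (leaf 1 458 490) (node 427 (merge (leaf 3 426 426) (leaf 3 427 428))))))))) (merge (node 431 (merge (node 432 (merge (leaf 2 428 460) (node 433 (merge (leaf 1 429 430) (leaf 1 430 434))))) (node 495 (merge (leaf 4 431 527) (node 496 (merge (leaf 4 399 399) (node 497 (merge (leaf 3 461 494) (leaf 3 462 498))))))))) (merge (node 527 (merge (node 495 (merge (leaf 4 431 431) (node 559 (merge (leaf 7 430 430) (node 591 (merge (leaf 7 462 494) (node 623 (merge (leaf 6 495 496) (leaf 6 527 655)))))))))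 (merge (node 495 (merge (leaf 4 431 431) (node 559 (merge (leaf 7 430 430) (node 590 (merge (leaf 5 462 558) (node 591 (merge (leaf 5 494 622) (node 623 (merge (leaf 6 495 496) (leaf 6 527 655))))))))))) (merge (node 526 (merge (node 431 (merge (leaf 4 431 495) (node 494 (merge (leaf 6 430 558) (node 399 (merge (leaf 5 366 367) (leaf 6 398 430))))))) (node 525 (merge (leaf 0 525 561) (node 556 (merge (leaf 1 524 557) (node 524 (merge (leaf 1 523 555) (node 492 (merge (leaf 3 491 491) (leaf 3 492 493))))))))))) (merge (node 526 (merge (node 561 (merge (leaf 0 525 525) (node 562 (merge (leaf 3 526 559) (leaf 3 527 563))))) (merge (node 525 (merge (leaf 0 525 561) (node 556 (merge (leaf 1 524 557) (node 524 (merge (leaf 1 523 555) (node 492 (merge (leaf 3 491 491) (leaf 3 492 493))))))))) (node 494 (merge (node 431 (merge (leaf 6 430 558) (node 399 (merge (leaf 5 366 367) (leaf 6 398 430))))) (merge (node 559 (merge (leaf 4 430 430) (node 591 (merge (leaf 4 462 558) (leaf 7 494 623))))) (merge (node 558 (merge (leaf 6 430 431) (node 590 (merge (leaf 7 461 493) (node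 591 (merge (leaf 4 462 559) (leaf 4 494 623))))))) (node 430 (merge (leaf 4 430 559) (node 399 (merge (leaf 6 398 431) (node 398 (merge (leaf 6 366 367) (node 365 (merge (leaf 7 365 397) (node 366 (merge (leaf 7 333 333) (leaf 5 365 493)))))))))))))))))) (merge (node 559 (merge (node 495 (merge (leaf 4 431 431) (node 591 (merge (leaf 7 462 494) (node 623 (merge (leaf 6 495 496) (leaf 6 527 655))))))) (merge (node 591 (merge (node 623 (merge (leaf 6 495 496) (leaf 6 527 655))) (node 495 (merge (leaf 7 462 494) (node 590 (merge (leaf 5 494 622) (node 561 (merge (leaf 1 558 562) (node 589 (merge (leaf 1 557 558) (leaf 2 556 588))))))))))) (merge (node 495 (merge (leaf 4 431 431) (node 558 (merge (leaf 5 462 590) (node 557 (merge (leaf 2 524 556) (node 525 (merge (leaf 3 524 524) (node 561 (merge (leaf 0 525 526) (node 594 (merge (leaf 0 558 593) (node 562 (merge (leaf 3 527 563) (leaf 0 559 595))))))))))))))) (node 558 (merge (node 526 (merge (node 525 (merge (leaf 0 524 524) (leaf 3 525 561))) (node 494 (merge (leaf 6 430 431) (leaf 4 462 591))))) (merge (node 557 (merge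 (leaf 2 524 556) (node 589 (merge (leaf 1 556 588) (node 561 (merge (leaf 1 557 590) (node 562 (merge (leaf 3 526 526) (leaf 3 527 563))))))))) (merge (node 557 (merge (leaf 2 524 556) (node 589 (merge (leaf 1 556 588) (node 525 (merge (leaf 3 524 524) (node 494 (merge (leaf 6 461 493) (leaf 5 461 526))))))))) (node 557 (merge (leaf 2 524 556) (node 589 (merge (leaf 1 556 588) (node 590 (merge (leaf 1 557 561) (node 525 (merge (leaf 3 524 524) (node 493 (merge (leaf 6 461 494) (leaf 4 493 622))))))))))))))))))) (node 559 (merge (node 430 (merge (leaf 7 430 495) (node 526 (merge (leaf 4 430 494) (node 525 (merge (leaf 0 524 524) (leaf 0 525 561))))))) (merge (node 495 (merge (leaf 7 430 430) (node 590 (merge (leaf 5 462 558) (node 591 (merge (leaf 7 462 494) (leaf 5 494 622))))))) (merge (node 526 (merge (node 561 (merge (leaf 0 525 525) (leaf 3 526 562))) (node 494 (merge (leaf 4 430 430) (node 591 (merge (leaf 4 462 558) (leaf 7 494 623))))))) (merge (node 591 (merge (node 623 (merge (leaf 6 495 496) (leaf 6 527 655))) (node 495 (merge (leaf 7 462 494) (node 590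 (merge (leaf 5 494 622) (node 561 (merge (leaf 1 558 562) (node 589 (merge (leaf 1 557 558) (leaf 2 556 588))))))))))) (node 495 (merge (leaf 7 430 430) (node 558 (merge (leaf 5 462 590) (node 557 (merge (leaf 2 524 556) (node 525 (merge (leaf 3 524 524) (node 561 (merge (leaf 0 525 526) (node 594 (merge (leaf 0 558 593) (node 562 (merge (leaf 3 527 563) (leaf 0 559 595)))))))))))))))))))))))))) (merge (node 525 (merge (node 460 (merge (node 492 (merge (leaf 1 459 491) (node 428 (merge (leaf 3 427 427) (node 493 (merge (leaf 4 396 396) (leaf 7 428 557))))))) (merge (node 491 (merge (leaf 1 459 492) (node 459 (merge (leaf 1 458 490) (node 431 (merge (leaf 2 427 430) (leaf 2 428 432))))))) (node 431 (merge (leaf 2 428 432) (node 459 (merge (leaf 2 427 430) (node 427 (merge (leaf 3 426 426) (leaf 3 427 428)))))))))) (merge (node 526 (merge (node 527 (merge (leaf 0 525 561) (node 557 (merge (leaf 1 524 556) (node 430 (merge (leaf 6 429 493) (leaf 5 429 494))))))) (merge (node 527 (merge (leaf 0 525 561) (node 524 (merge (leaf 0 524 559) (node 492 (merge (leaf 3 491 491)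 (leaf 3 492 493))))))) (merge (node 527 (merge (node 556 (merge (leaf 1 524 557) (node 524 (merge (leaf 1 523 555) (leaf 0 524 559))))) (merge (node 492 (merge (leaf 3 492 493) (node 524 (merge (leaf 3 491 491) (leaf 0 524 559))))) (node 557 (merge (leaf 1 524 556) (node 493 (merge (leaf 3 492 492) (node 430 (merge (leaf 6 429 461) (leaf 5 429 494)))))))))) (merge (node 527 (merge (leaf 0 525 561) (node 524 (merge (leaf 0 524 559) (node 556 (merge (leaf 1 523 555) (leaf 1 524 557))))))) (node 494 (merge (node 558 (merge (leaf 6 430 431) (node 559 (merge (leaf 3 525 561) (leaf 4 462 591))))) (node 557 (merge (leaf 5 429 430) (node 589 (merge (leaf 6 461 493) (leaf 6 493 621)))))))))))) (merge (node 431 (merge (node 460 (merge (leaf 2 428 432) (node 491 (merge (leaf 1 459 492) (node 459 (merge (leaf 1 458 490) (node 427 (merge (leaf 3 426 426) (leaf 3 427 428))))))))) (node 526 (merge (node 494 (merge (leaf 6 430 558) (node 399 (merge (leaf 5 366 367) (leaf 6 398 430))))) (node 527 (merge (leaf 0 525 561) (node 524 (merge (leaf 0 524 559) (node 556 (merge (leaf 1 523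 555) (leaf 1 524 557))))))))))) (merge (node 431 (merge (node 432 (merge (leaf 2 428 460) (node 433 (merge (leaf 1 429 430) (leaf 1 430 434))))) (merge (node 460 (merge (leaf 2 428 432) (node 491 (merge (leaf 1 459 492) (node 459 (merge (leaf 1 458 490) (node 427 (merge (leaf 3 426 426) (leaf 3 427 428))))))))) (node 526 (merge (node 494 (merge (leaf 6 430 558) (node 399 (merge (leaf 5 366 367) (leaf 6 398 430))))) (node 527 (merge (leaf 0 525 561) (node 524 (merge (leaf 0 524 559) (node 492 (merge (leaf 3 491 491) (leaf 3 492 493)))))))))))) (merge (node 431 (merge (node 432 (merge (leaf 2 428 460) (node 433 (merge (leaf 1 429 430) (leaf 1 430 434))))) (merge (node 526 (merge (node 558 (merge (leaf 6 430 494) (node 561 (merge (leaf 0 525 527) (leaf 3 525 559))))) (merge (node 494 (merge (leaf 6 430 558) (node 557 (merge (leaf 5 429 430) (node 589 (merge (leaf 6 461 493) (leaf 6 493 621))))))) (node 527 (merge (leaf 0 525 561) (node 524 (merge (leaf 0 524 559) (node 556 (merge (leaf 1 523 555) (leaf 1 524 557)))))))))) (node 460 (merge (leaf 2 428 432) (node 427 (merge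 (leaf 3 427 428) (node 459 (merge (leaf 3 426 426) (node 490 (merge (leaf 1 458 491) (node 458 (merge (leaf 1 457 489) (node 494 (merge (leaf 0 458 493) (node 526 (merge (leaf 6 430 558) (node 527 (merge (leaf 0 525 561) (node 524 (merge (leaf 0 524 559) (node 556 (merge (leaf 1 523 555) (leaf 1 524 557)))))))))))))))))))))))) (merge (node 431 (merge (node 460 (merge (leaf 2 428 432) (node 428 (merge (leaf 3 427 427) (node 493 (merge (leaf 7 428 557) (node 396 (merge (leaf 4 364 364) (leaf 4 396 492))))))))) (merge (node 460 (merge (leaf 2 428 432) (node 491 (merge (leaf 1 459 492) (node 459 (merge (leaf 1 458 490) (node 427 (merge (leaf 3 426 426) (leaf 3 427 428))))))))) (merge (node 526 (merge (node 558 (merge (leaf 6 430 494) (node 561 (merge (leaf 0 525 527) (leaf 3 525 559))))) (merge (node 558 (merge (leaf 6 430 494) (node 559 (merge (leaf 3 525 561) (node 524 (merge (leaf 0 523 523) (leaf 3 524 557))))))) (merge (node 527 (merge (leaf 0 525 561) (node 556 (merge (leaf 1 524 557) (node 524 (merge (leaf 1 523 555) (node 492 (merge (leaf 3 491 491) (leaf 3 492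 493))))))))) (node 527 (merge (node 556 (merge (leaf 1 524 557) (node 524 (merge (leaf 1 523 555) (leaf 0 524 559))))) (merge (node 492 (merge (leaf 3 492 493) (node 524 (merge (leaf 3 491 491) (leaf 0 524 559))))) (node 494 (merge (leaf 6 430 558) (node 557 (merge (leaf 1 524 556) (node 493 (merge (leaf 3 492 492) (leaf 6 461 589)))))))))))))) (node 460 (merge (leaf 2 428 432) (node 427 (merge (leaf 3 427 428) (node 459 (merge (leaf 3 426 426) (node 490 (merge (leaf 1 458 491) (node 458 (merge (leaf 1 457 489) (node 494 (merge (leaf 0 458 493) (node 526 (merge (leaf 6 430 558) (node 527 (merge (leaf 0 525 561) (node 524 (merge (leaf 0 524 559) (node 556 (merge (leaf 1 523 555) (leaf 1 524 557))))))))))))))))))))))))) (merge (node 460 (merge (node 428 (merge (leaf 3 427 427) (node 493 (merge (leaf 7 428 557) (node 396 (merge (leaf 4 364 364) (leaf 4 396 492))))))) (merge (node 431 (merge (leaf 2 428 432) (node 459 (merge (leaf 2 427 430) (node 427 (merge (leaf 3 426 426) (leaf 3 427 428))))))) (node 431 (merge (leaf 2 428 432) (node 430 (merge (leaf 2 427 459) (node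 493 (merge (leaf 6 429 557) (node 398 (merge (leaf 5 365 366) (leaf 5 397 494)))))))))))) (node 460 (merge (node 428 (merge (leaf 3 427 427) (node 493 (merge (leaf 7 428 557) (node 396 (merge (leaf 4 364 364) (leaf 4 396 492))))))) (merge (node 491 (merge (leaf 1 459 492) (node 459 (merge (leaf 1 458 490) (node 427 (merge (leaf 3 426 426) (leaf 3 427 428))))))) (merge (node 557 (merge (node 493 (merge (leaf 7 428 428) (leaf 6 429 430))) (merge (node 492 (merge (leaf 1 459 491) (node 524 (merge (leaf 4 428 428) (node 589 (merge (leaf 4 460 556) (leaf 7 492 621))))))) (node 493 (merge (leaf 6 429 430) (node 589 (merge (leaf 6 461 494) (node 588 (merge (leaf 5 460 556) (leaf 5 492 620)))))))))) (merge (node 427 (merge (leaf 3 427 428) (node 459 (merge (leaf 3 426 426) (node 490 (merge (leaf 1 458 491) (node 458 (merge (leaf 1 457 489) (node 522 (merge (leaf 6 426 554) (node 493 (merge (leaf 0 458 494) (node 557 (merge (leaf 6 429 430) (node 558 (merge (leaf 4 461 590) (node 524 (merge (leaf 0 522 523) (leaf 3 524 559))))))))))))))))))) (node 491 (merge (leaf 1 459 492)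 (node 459 (merge (leaf 1 458 490) (node 426 (merge (leaf 3 426 427) (node 458 (merge (leaf 3 425 425) (node 493 (merge (leaf 0 458 494) (node 557 (merge (leaf 6 429 430) (node 523 (merge (leaf 7 426 555) (node 558 (merge (leaf 4 461 590) (node 524 (merge (leaf 0 522 522) (leaf 3 524 559)))))))))))))))))))))))))))))))) (merge (node 527 (merge (node 495 (merge (node 430 (merge (leaf 7 430 559) (node 398 (merge (leaf 4 366 366) (leaf 4 398 494))))) (node 460 (merge (leaf 0 460 496) (node 491 (merge (leaf 1 459 492) (node 459 (merge (leaf 1 458 490) (node 427 (merge (leaf 3 426 426) (leaf 3 427 428))))))))))) (merge (node 559 (merge (node 430 (merge (leaf 7 430 495) (node 526 (merge (leaf 4 430 494) (node 525 (merge (leaf 0 524 524) (leaf 0 525 561))))))) (merge (node 495 (merge (leaf 7 430 430) (node 590 (merge (leaf 5 462 558) (node 591 (merge (leaf 7 462 494) (leaf 5 494 622))))))) (merge (node 526 (merge (node 561 (merge (leaf 0 525 525) (leaf 3 526 562))) (node 494 (merge (leaf 4 430 430) (node 591 (merge (leaf 4 462 558) (leaf 7 494 623))))))) (merge (node 591 (merge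 (node 623 (merge (leaf 6 495 496) (leaf 6 527 655))) (node 495 (merge (leaf 7 462 494) (node 590 (merge (leaf 5 494 622) (node 561 (merge (leaf 1 558 562) (node 589 (merge (leaf 1 557 558) (leaf 2 556 588))))))))))) (node 495 (merge (leaf 7 430 430) (node 558 (merge (leaf 5 462 590) (node 557 (merge (leaf 2 524 556) (node 525 (merge (leaf 3 524 524) (node 561 (merge (leaf 0 525 526) (node 594 (merge (leaf 0 558 593) (node 562 (merge (leaf 3 527 563) (leaf 0 559 595)))))))))))))))))))) (merge (node 460 (merge (node 491 (merge (leaf 1 459 492) (node 459 (merge (leaf 1 458 490) (node 427 (merge (leaf 3 426 426) (leaf 3 427 428))))))) (merge (node 495 (merge (leaf 0 460 496) (node 559 (merge (leaf 7 430 430) (node 558 (merge (leaf 5 462 590) (node 557 (merge (leaf 2 524 556) (node 525 (merge (leaf 3 524 524) (node 561 (merge (leaf 0 525 526) (node 594 (merge (leaf 0 558 593) (node 562 (merge (leaf 3 527 563) (leaf 0 559 595))))))))))))))))) (node 495 (merge (leaf 0 460 496) (node 559 (merge (leaf 7 430 430) (node 558 (merge (leaf 5 462 590) (node 557 (merge (leaf 2 524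 556) (node 525 (merge (leaf 3 524 524) (node 561 (merge (leaf 0 525 526) (node 594 (merge (leaf 0 558 593) (node 562 (merge (leaf 3 527 563) (leaf 0 559 595)))))))))))))))))))) (merge (node 495 (merge (node 460 (merge (leaf 0 460 496) (node 491 (merge (leaf 1 459 492) (node 459 (merge (leaf 1 458 490) (node 427 (merge (leaf 3 426 426) (leaf 3 427 428))))))))) (merge (node 460 (merge (node 494 (merge (leaf 0 459 459) (node 492 (merge (leaf 1 459 491) (leaf 0 492 493))))) (merge (node 459 (merge (leaf 0 459 494) (node 427 (merge (leaf 3 426 426) (leaf 3 427 428))))) (merge (node 491 (merge (leaf 1 459 492) (node 459 (merge (leaf 1 458 490) (node 427 (merge (leaf 3 426 426) (leaf 3 427 428))))))) (node 492 (merge (leaf 1 459 491) (node 493 (merge (leaf 0 492 494) (node 428 (merge (leaf 3 427 427) (node 525 (merge (leaf 4 396 396) (leaf 3 492 526))))))))))))) (node 526 (merge (node 525 (merge (leaf 0 525 561) (node 496 (merge (leaf 2 493 497) (leaf 2 492 524))))) (merge (node 561 (merge (leaf 0 525 525) (node 562 (merge (leaf 3 526 559) (leaf 3 527 563))))) (node 559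 (merge (node 591 (merge (leaf 7 462 494) (node 623 (merge (leaf 6 495 496) (leaf 6 527 655))))) (merge (node 590 (merge (leaf 5 462 558) (node 591 (merge (leaf 5 494 622) (node 623 (merge (leaf 6 495 496) (leaf 6 527 655))))))) (node 558 (merge (leaf 5 462 590) (node 557 (merge (leaf 2 524 556) (node 589 (merge (leaf 5 461 494) (leaf 1 556 588)))))))))))))))) (merge (node 525 (merge (node 526 (merge (leaf 0 525 561) (node 496 (merge (leaf 2 493 497) (node 495 (merge (leaf 0 460 460) (leaf 2 492 524))))))) (merge (node 526 (merge (leaf 0 525 561) (node 557 (merge (leaf 1 524 556) (node 430 (merge (leaf 6 429 493) (leaf 5 429 494))))))) (node 460 (merge (node 428 (merge (leaf 3 427 427) (node 493 (merge (leaf 7 428 557) (node 396 (merge (leaf 4 364 364) (leaf 4 396 492))))))) (merge (node 495 (merge (leaf 0 460 496) (node 459 (merge (leaf 0 459 494) (node 491 (merge (leaf 1 458 490) (leaf 1 459 492))))))) (node 495 (merge (leaf 0 460 496) (node 459 (merge (leaf 0 459 494) (node 427 (merge (leaf 3 426 426) (leaf 3 427 428))))))))))))) (node 525 (merge (node 526 (merge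 (leaf 0 525 561) (node 557 (merge (leaf 1 524 556) (node 430 (merge (leaf 6 429 493) (leaf 5 429 494))))))) (merge (node 526 (merge (leaf 0 525 561) (node 524 (merge (leaf 0 524 559) (node 492 (merge (leaf 3 491 491) (leaf 3 492 493))))))) (merge (node 526 (merge (leaf 0 525 561) (node 524 (merge (leaf 0 524 559) (node 556 (merge (leaf 1 523 555) (leaf 1 524 557))))))) (node 460 (merge (node 428 (merge (leaf 3 427 427) (node 493 (merge (leaf 7 428 557) (node 396 (merge (leaf 4 364 364) (leaf 4 396 492))))))) (merge (node 491 (merge (leaf 1 459 492) (node 459 (merge (leaf 1 458 490) (node 427 (merge (leaf 3 426 426) (leaf 3 427 428))))))) (merge (node 557 (merge (node 493 (merge (leaf 7 428 428) (leaf 6 429 430))) (merge (node 492 (merge (leaf 1 459 491) (node 524 (merge (leaf 4 428 428) (node 589 (merge (leaf 4 460 556) (leaf 7 492 621))))))) (node 493 (merge (leaf 6 429 430) (node 589 (merge (leaf 6 461 494) (node 588 (merge (leaf 5 460 556) (leaf 5 492 620)))))))))) (merge (node 427 (merge (leaf 3 427 428) (node 459 (merge (leaf 3 426 426) (node 490 (merge (leaf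 1 458 491) (node 458 (merge (leaf 1 457 489) (node 522 (merge (leaf 6 426 554) (node 493 (merge (leaf 0 458 494) (node 557 (merge (leaf 6 429 430) (node 558 (merge (leaf 4 461 590) (node 524 (merge (leaf 0 522 523) (leaf 3 524 559))))))))))))))))))) (node 491 (merge (leaf 1 459 492) (node 459 (merge (leaf 1 458 490) (node 426 (merge (leaf 3 426 427) (node 458 (merge (leaf 3 425 425) (node 493 (merge (leaf 0 458 494) (node 557 (merge (leaf 6 429 430) (node 523 (merge (leaf 7 426 555) (node 558 (merge (leaf 4 461 590) (node 524 (merge (leaf 0 522 522) (leaf 3 524 559)))))))))))))))))))))))))))))))))) (node 431 (merge (node 460 (merge (leaf 2 428 432) (node 491 (merge (leaf 1 459 492) (node 459 (merge (leaf 1 458 490) (node 427 (merge (leaf 3 426 426) (leaf 3 427 428))))))))) (merge (node 399 (merge (node 494 (merge (leaf 5 366 367) (node 526 (merge (leaf 6 398 430) (leaf 6 430 558))))) (merge (node 495 (merge (leaf 4 399 496) (node 368 (merge (leaf 6 367 400) (node 367 (merge (leaf 6 335 336) (node 366 (merge (leaf 7 334 334) (leaf 7 366 398))))))))) (node 398 (merge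 (node 495 (merge (leaf 7 366 366) (leaf 4 399 496))) (merge (node 430 (merge (node 366 (merge (leaf 4 334 334) (leaf 5 365 493))) (node 494 (merge (leaf 6 398 526) (node 397 (merge (leaf 7 365 365) (node 396 (merge (leaf 0 395 395) (leaf 0 396 432))))))))) (node 433 (merge (node 432 (merge (leaf 1 429 430) (leaf 1 430 434))) (merge (node 432 (merge (leaf 1 429 430) (node 397 (merge (leaf 0 396 396) (leaf 0 397 400))))) (merge (node 432 (merge (leaf 1 430 434) (node 397 (merge (leaf 0 396 396) (leaf 0 397 400))))) (node 495 (merge (leaf 4 399 496) (node 400 (merge (leaf 6 367 368) (node 401 (merge (leaf 0 398 434) (node 402 (merge (leaf 1 398 430) (node 370 (merge (leaf 2 366 369) (leaf 2 367 371))))))))))))))))))))) (node 399 (merge (node 494 (merge (leaf 5 366 367) (node 526 (merge (leaf 6 398 430) (leaf 6 430 558))))) (merge (node 495 (merge (leaf 4 399 496) (node 368 (merge (leaf 6 367 400) (node 367 (merge (leaf 6 335 336) (node 366 (merge (leaf 7 334 334) (leaf 7 366 398))))))))) (node 493 (merge (node 460 (merge (node 491 (merge (leaf 1 459 492) (node 459 (merge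 (leaf 2 427 430) (leaf 1 458 490))))) (merge (node 459 (merge (leaf 2 427 430) (node 427 (merge (leaf 3 426 426) (leaf 3 427 428))))) (node 492 (merge (leaf 1 459 491) (node 428 (merge (leaf 3 427 427) (node 396 (merge (leaf 4 364 364) (leaf 4 396 525)))))))))) (merge (node 495 (merge (leaf 4 399 496) (node 398 (merge (leaf 7 366 366) (node 494 (merge (leaf 5 398 526) (node 460 (merge (leaf 0 459 459) (node 428 (merge (leaf 3 427 427) (node 525 (merge (leaf 5 397 430) (leaf 7 428 557))))))))))))) (merge (node 495 (merge (leaf 4 399 496) (node 494 (merge (leaf 5 398 526) (node 460 (merge (leaf 0 459 459) (node 492 (merge (leaf 1 459 491) (node 428 (merge (leaf 3 427 427) (node 396 (merge (leaf 4 364 364) (leaf 4 396 525))))))))))))) (merge (node 495 (merge (leaf 4 399 496) (node 398 (merge (leaf 7 366 366) (node 494 (merge (leaf 5 398 526) (node 492 (merge (leaf 2 459 491) (node 524 (merge (leaf 1 491 523) (node 525 (merge (leaf 5 397 430) (node 557 (merge (leaf 6 461 589) (node 558 (merge (leaf 3 524 559) (leaf 4 461 590))))))))))))))))) (node 398 (merge (node 495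 (merge (leaf 7 366 366) (leaf 4 399 496))) (merge (node 430 (merge (leaf 5 365 366) (node 460 (merge (leaf 2 427 459) (node 428 (merge (leaf 3 427 427) (node 396 (merge (leaf 4 364 364) (node 397 (merge (leaf 0 395 395) (node 365 (merge (leaf 6 364 492) (leaf 7 365 494))))))))))))) (node 495 (merge (leaf 4 399 496) (node 494 (merge (leaf 5 398 526) (node 460 (merge (leaf 0 459 459) (node 492 (merge (leaf 1 459 491) (node 428 (merge (leaf 3 427 427) (node 396 (merge (leaf 4 364 364) (node 397 (merge (leaf 6 364 365) (node 395 (merge (leaf 7 363 363) (leaf 0 395 430))))))))))))))))))))))))))))))))))))) nP_206 cP_206 14 (by decide +kernel)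
def nP_207 : ℕ := 0x100000001000000000000000080000000000000000000000000000000000000000000000000000000000000000000000000000000000000000000000000000000000000000000
def cP_207 : ℕ := 0x3c0000007f000000ef000000efc000004fc00001ffe00001f7c00001fde000007f800000ff8000001e00000008000000000000000000000000000000000000000000000000000000000000000000000000000
theorem lP_207 : S nP_207 cP_207 15 := S_of_chk [(nP_202, cP_202, 9), (nP_206, cP_206, 14)] ⟨lP_202, lP_206, trivial⟩ (node 462 (merge (node 496 (merge (node 431 (merge (leaf 7 431 464) (node 495 (merge (leaf 4 399 399) (leaf 4 431 527))))) (merge (node 464 (merge (leaf 7 431 431) (node 497 (merge (leaf 0 461 461) (node 498 (merge (leaf 0 462 465) (leaf 3 463 499))))))) (merge (node 497 (merge (node 461 (merge (leaf 0 461 464) (node 495 (merge (leaf 0 460 460) (leaf 3 461 494))))) (merge (node 464 (merge (leaf 0 461 461) (node 498 (merge (leaf 0 462 465) (leaf 3 463 499))))) (merge (node 495 (merge (leaf 3 462 498) (node 461 (merge (leaf 0 460 460) (leaf 3 461 494))))) (node 498 (merge (leaf 3 462 495) (node 499 (merge (leaf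 3 463 464) (leaf 1 495 527))))))))) (node 495 (merge (node 431 (merge (leaf 4 399 399) (leaf 4 431 527))) (node 497 (merge (leaf 3 462 498) (node 461 (merge (leaf 0 460 460) (leaf 3 461 494))))))))))) (merge (node 464 (merge (node 496 (merge (leaf 7 431 431) (node 433 (merge (leaf 6 432 465) (node 432 (merge (leaf 6 400 401) (leaf 2 429 461))))))) (merge (node 496 (merge (leaf 7 431 431) (node 497 (merge (leaf 0 461 461) (node 498 (merge (leaf 3 462 495) (leaf 3 463 499))))))) (merge (node 465 (merge (node 433 (merge (leaf 2 430 434) (leaf 6 432 496))) (node 498 (merge (leaf 0 462 497) (node 466 (merge (leaf 0 463 499) (node 494 (merge (leaf 1 461 493) (leaf 1 462 495))))))))) (node 465 (merge (node 498 (merge (leaf 0 462 497) (node 466 (merge (leaf 0 463 499) (node 494 (merge (leaf 1 461 493) (leaf 1 462 495))))))) (merge (node 493 (merge (leaf 1 461 494) (node 461 (merge (leaf 1 460 492) (node 433 (merge (leaf 2 429 432) (leaf 2 430 434))))))) (node 498 (merge (leaf 0 462 497) (node 466 (merge (leaf 0 463 499) (node 433 (merge (leaf 2 430 434) (node 432 (merge (leaf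 2 429 461) (node 467 (merge (leaf 3 431 431) (leaf 3 432 468)))))))))))))))))) (merge (node 527 (merge (node 495 (merge (leaf 4 431 431) (node 430 (merge (leaf 7 430 559) (node 398 (merge (leaf 4 366 366) (leaf 4 398 494))))))) (merge (node 495 (merge (leaf 4 431 431) (node 559 (merge (leaf 7 430 430) (node 558 (merge (leaf 5 462 590) (node 557 (merge (leaf 2 524 556) (node 525 (merge (leaf 3 524 524) (node 561 (merge (leaf 0 525 526) (node 594 (merge (leaf 0 558 593) (node 562 (merge (leaf 3 527 563) (leaf 0 559 595))))))))))))))))) (merge (node 559 (merge (node 430 (merge (leaf 7 430 495) (node 526 (merge (leaf 4 430 494) (node 525 (merge (leaf 0 524 524) (leaf 0 525 561))))))) (merge (node 495 (merge (leaf 7 430 430) (node 590 (merge (leaf 5 462 558) (node 591 (merge (leaf 7 462 494) (leaf 5 494 622))))))) (merge (node 526 (merge (node 561 (merge (leaf 0 525 525) (leaf 3 526 562))) (node 494 (merge (leaf 4 430 430) (node 591 (merge (leaf 4 462 558) (leaf 7 494 623))))))) (merge (node 495 (merge (leaf 7 430 430) (node 558 (merge (leaf 5 462 590) (node 557 (merge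 (leaf 2 524 556) (node 525 (merge (leaf 3 524 524) (node 561 (merge (leaf 0 525 526) (node 594 (merge (leaf 0 558 593) (node 562 (merge (leaf 3 527 563) (leaf 0 559 595))))))))))))))) (node 495 (merge (node 464 (merge (leaf 6 431 432) (node 494 (merge (leaf 7 462 591) (node 493 (merge (leaf 1 461 465) (leaf 0 492 492))))))) (node 558 (merge (leaf 5 462 590) (node 557 (merge (leaf 2 524 556) (node 525 (merge (leaf 3 524 524) (node 561 (merge (leaf 0 525 526) (node 594 (merge (leaf 0 558 593) (node 562 (merge (leaf 3 527 563) (leaf 0 559 595)))))))))))))))))))) (merge (node 559 (merge (node 495 (merge (leaf 4 431 431) (node 464 (merge (leaf 6 431 432) (node 494 (merge (leaf 7 462 591) (node 493 (merge (leaf 1 461 465) (leaf 0 492 492))))))))) (merge (node 558 (merge (node 526 (merge (node 525 (merge (leaf 0 524 524) (leaf 3 525 561))) (node 494 (merge (leaf 6 430 431) (leaf 4 462 591))))) (merge (node 557 (merge (leaf 2 524 556) (node 589 (merge (leaf 1 556 588) (node 561 (merge (leaf 1 557 590) (node 562 (merge (leaf 3 526 526) (leaf 3 527 563))))))))) (merge (node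 557 (merge (leaf 2 524 556) (node 589 (merge (leaf 1 556 588) (node 525 (merge (leaf 3 524 524) (node 494 (merge (leaf 6 461 493) (leaf 5 461 526))))))))) (node 557 (merge (leaf 2 524 556) (node 589 (merge (leaf 1 556 588) (node 590 (merge (leaf 1 557 561) (node 525 (merge (leaf 3 524 524) (node 493 (merge (leaf 6 461 494) (leaf 4 493 622))))))))))))))) (merge (node 495 (merge (node 464 (merge (leaf 6 431 432) (node 494 (merge (leaf 7 462 591) (node 493 (merge (leaf 1 461 465) (leaf 0 492 492))))))) (node 558 (merge (leaf 5 462 590) (node 557 (merge (leaf 2 524 556) (node 525 (merge (leaf 3 524 524) (node 561 (merge (leaf 0 525 526) (node 594 (merge (leaf 0 558 593) (node 562 (merge (leaf 3 527 563) (leaf 0 559 595))))))))))))))) (node 495 (merge (leaf 4 431 431) (node 558 (merge (leaf 5 462 590) (node 557 (merge (leaf 2 524 556) (node 525 (merge (leaf 3 524 524) (node 561 (merge (leaf 0 525 526) (node 594 (merge (leaf 0 558 593) (node 562 (merge (leaf 3 527 563) (leaf 0 559 595))))))))))))))))))) (merge (node 526 (merge (node 431 (merge (leaf 4 431 495) (node 494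 (merge (leaf 6 430 558) (node 399 (merge (leaf 5 366 367) (leaf 6 398 430))))))) (node 525 (merge (leaf 0 525 561) (node 556 (merge (leaf 1 524 557) (node 524 (merge (leaf 1 523 555) (node 492 (merge (leaf 3 491 491) (leaf 3 492 493))))))))))) (node 526 (merge (node 561 (merge (leaf 0 525 525) (node 562 (merge (leaf 3 526 559) (leaf 3 527 563))))) (merge (node 525 (merge (leaf 0 525 561) (node 556 (merge (leaf 1 524 557) (node 524 (merge (leaf 1 523 555) (node 492 (merge (leaf 3 491 491) (leaf 3 492 493))))))))) (node 494 (merge (node 431 (merge (leaf 6 430 558) (node 399 (merge (leaf 5 366 367) (leaf 6 398 430))))) (merge (node 559 (merge (leaf 4 430 430) (node 591 (merge (leaf 4 462 558) (leaf 7 494 623))))) (merge (node 558 (merge (leaf 6 430 431) (node 559 (merge (leaf 4 462 591) (node 557 (merge (leaf 2 524 556) (leaf 5 461 589))))))) (node 464 (merge (node 493 (merge (leaf 1 461 465) (node 492 (merge (leaf 1 460 461) (leaf 0 491 491))))) (node 430 (merge (leaf 4 430 559) (node 398 (merge (node 399 (merge (leaf 6 366 367) (leaf 6 398 431))) (merge (node 367 (merge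 (leaf 6 366 399) (node 366 (merge (leaf 6 334 335) (node 365 (merge (leaf 7 333 333) (leaf 7 365 397))))))) (merge (node 431 (merge (leaf 6 398 399) (node 365 (merge (leaf 7 365 397) (node 366 (merge (leaf 7 333 333) (leaf 4 334 334))))))) (node 365 (merge (leaf 7 365 397) (node 366 (merge (leaf 7 333 333) (node 335 (merge (leaf 6 334 367) (node 334 (merge (leaf 6 302 303) (leaf 4 334 431)))))))))))))))))))))))))))))) (merge (node 464 (merge (node 496 (merge (leaf 7 431 431) (node 497 (merge (leaf 0 461 461) (node 465 (merge (leaf 6 432 433) (leaf 0 462 498))))))) (merge (node 496 (merge (leaf 7 431 431) (node 561 (merge (leaf 4 464 593) (node 559 (merge (leaf 5 463 591) (node 527 (merge (leaf 5 431 432) (node 526 (merge (leaf 0 525 525) (leaf 3 526 562))))))))))) (merge (node 496 (merge (node 497 (merge (leaf 0 461 461) (node 498 (merge (leaf 0 462 465) (leaf 3 463 499))))) (node 561 (merge (leaf 4 464 593) (node 559 (merge (leaf 5 463 591) (node 527 (merge (leaf 5 431 432) (node 526 (merge (leaf 0 525 525) (leaf 3 526 562))))))))))) (node 465 (merge (node 498 (merge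 (leaf 0 462 497) (node 466 (merge (leaf 0 463 499) (node 434 (merge (leaf 2 430 433) (leaf 2 431 435))))))) (merge (node 493 (merge (leaf 1 461 494) (node 461 (merge (leaf 1 460 492) (node 433 (merge (leaf 2 429 432) (leaf 2 430 434))))))) (merge (node 498 (merge (leaf 0 462 497) (node 466 (merge (leaf 0 463 499) (node 493 (merge (leaf 1 461 494) (node 461 (merge (leaf 1 460 492) (node 432 (merge (leaf 2 429 433) (node 431 (merge (leaf 3 430 430) (leaf 2 428 460))))))))))))) (node 498 (merge (leaf 0 462 497) (node 466 (merge (leaf 0 463 499) (node 435 (merge (leaf 2 431 434) (node 467 (merge (leaf 2 432 436) (node 431 (merge (leaf 3 430 430) (leaf 3 431 432))))))))))))))))))) (merge (hyp 0) (merge (node 464 (merge (node 496 (merge (leaf 7 431 431) (node 465 (merge (leaf 6 432 433) (node 498 (merge (leaf 0 462 497) (node 466 (merge (leaf 0 463 499) (node 494 (merge (leaf 1 461 493) (leaf 1 462 495))))))))))) (merge (node 496 (merge (leaf 7 431 431) (node 561 (merge (leaf 4 464 593) (node 559 (merge (leaf 5 463 591) (node 527 (merge (leaf 5 431 432) (node 526 (merge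 (leaf 0 525 525) (leaf 3 526 562))))))))))) (merge (node 496 (merge (node 561 (merge (leaf 4 464 593) (node 559 (merge (leaf 5 463 591) (node 527 (merge (leaf 5 431 432) (node 526 (merge (leaf 0 525 525) (leaf 3 526 562))))))))) (node 465 (merge (leaf 6 432 433) (node 494 (merge (leaf 1 461 493) (node 466 (merge (leaf 1 462 495) (node 499 (merge (leaf 0 463 498) (node 467 (merge (leaf 0 464 500) (node 435 (merge (leaf 2 431 434) (leaf 2 432 436))))))))))))))) (node 494 (merge (node 465 (merge (leaf 1 461 493) (node 498 (merge (leaf 0 462 497) (node 466 (merge (leaf 0 463 499) (node 434 (merge (leaf 2 430 433) (leaf 2 431 435))))))))) (node 526 (merge (node 431 (merge (leaf 6 430 558) (node 399 (merge (leaf 5 366 367) (leaf 6 398 430))))) (merge (node 431 (merge (leaf 6 430 558) (node 495 (merge (leaf 5 398 399) (leaf 4 431 527))))) (merge (node 431 (merge (node 399 (merge (leaf 5 366 367) (leaf 5 398 495))) (merge (node 399 (merge (leaf 5 366 367) (leaf 6 398 430))) (node 527 (merge (leaf 4 431 495) (node 525 (merge (leaf 0 525 561) (node 559 (merge (leaf 4 430 430)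 (leaf 0 524 524)))))))))) (node 558 (merge (node 590 (merge (leaf 6 462 495) (node 589 (merge (leaf 5 461 557) (leaf 5 493 621))))) (merge (node 590 (merge (leaf 6 462 495) (node 591 (merge (leaf 4 462 559) (leaf 4 494 623))))) (node 559 (merge (leaf 4 462 591) (node 557 (merge (leaf 5 461 589) (node 525 (merge (leaf 5 429 430) (leaf 3 524 524)))))))))))))))))))) (merge (node 527 (merge (node 495 (merge (leaf 4 431 431) (node 559 (merge (leaf 7 430 430) (node 558 (merge (leaf 5 462 590) (node 557 (merge (leaf 2 524 556) (node 525 (merge (leaf 3 524 524) (node 561 (merge (leaf 0 525 526) (node 594 (merge (leaf 0 558 593) (node 562 (merge (leaf 3 527 563) (leaf 0 559 595))))))))))))))))) (merge (node 464 (merge (node 496 (merge (leaf 7 431 431) (node 497 (merge (leaf 0 461 461) (node 465 (merge (leaf 6 432 433) (leaf 0 462 498))))))) (merge (node 496 (merge (node 497 (merge (leaf 0 461 461) (node 498 (merge (leaf 0 462 465) (leaf 3 463 499))))) (merge (node 461 (merge (leaf 0 461 497) (node 432 (merge (leaf 2 429 433) (node 559 (merge (leaf 5 431 527) (leaf 5 463 591)))))))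 (node 433 (merge (leaf 6 432 465) (node 432 (merge (leaf 6 400 401) (node 559 (merge (leaf 5 431 527) (leaf 5 463 591)))))))))) (node 495 (merge (leaf 4 431 431) (node 559 (merge (leaf 6 431 432) (node 558 (merge (leaf 5 462 590) (node 557 (merge (leaf 2 524 556) (node 525 (merge (leaf 3 524 524) (node 561 (merge (leaf 0 525 526) (node 594 (merge (leaf 0 558 593) (node 562 (merge (leaf 3 527 563) (leaf 0 559 595)))))))))))))))))))) (merge (node 464 (merge (node 496 (merge (leaf 7 431 431) (node 559 (merge (leaf 5 431 432) (leaf 5 463 591))))) (merge (node 496 (merge (leaf 7 431 431) (node 497 (merge (leaf 0 461 461) (node 465 (merge (leaf 6 432 433) (leaf 0 462 498))))))) (merge (node 496 (merge (node 497 (merge (leaf 0 461 461) (node 498 (merge (leaf 0 462 465) (leaf 3 463 499))))) (merge (node 461 (merge (leaf 0 461 497) (node 432 (merge (leaf 2 429 433) (node 559 (merge (leaf 5 431 527) (leaf 5 463 591))))))) (node 433 (merge (leaf 6 432 465) (node 432 (merge (leaf 6 400 401) (node 559 (merge (leaf 5 431 527) (leaf 5 463 591)))))))))) (node 461 (merge (node 492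 (merge (leaf 1 460 493) (node 460 (merge (leaf 1 459 491) (node 432 (merge (leaf 2 428 431) (leaf 2 429 433))))))) (merge (node 433 (merge (leaf 2 429 432) (node 465 (merge (leaf 2 430 434) (node 498 (merge (leaf 0 462 497) (node 466 (merge (leaf 0 463 499) (node 562 (merge (leaf 7 433 530) (node 561 (merge (leaf 3 527 563) (node 526 (merge (leaf 0 525 525) (leaf 3 526 559))))))))))))))) (node 525 (merge (node 526 (merge (leaf 0 525 561) (node 524 (merge (leaf 0 524 559) (node 556 (merge (leaf 1 523 555) (leaf 1 524 557))))))) (merge (node 526 (merge (leaf 0 525 561) (node 524 (merge (leaf 0 524 559) (node 492 (merge (leaf 3 491 491) (leaf 1 460 493))))))) (merge (node 526 (merge (leaf 0 525 561) (node 493 (merge (leaf 1 460 492) (node 557 (merge (leaf 6 429 430) (leaf 1 524 556))))))) (node 493 (merge (leaf 1 460 492) (node 557 (merge (leaf 6 429 430) (node 558 (merge (leaf 4 461 590) (node 556 (merge (leaf 2 524 559) (leaf 5 460 588)))))))))))))))))))) (merge (node 431 (merge (leaf 4 431 495) (node 433 (merge (node 434 (merge (leaf 1 430 432) (node 464 (merge (leaf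 2 430 465) (leaf 7 431 496))))) (merge (node 432 (merge (leaf 1 430 434) (node 461 (merge (leaf 1 429 430) (leaf 2 428 460))))) (merge (node 464 (merge (leaf 7 431 496) (node 465 (merge (leaf 2 430 434) (node 498 (merge (leaf 0 462 497) (node 466 (merge (leaf 3 430 430) (leaf 0 463 499))))))))) (node 464 (merge (leaf 7 431 496) (node 461 (merge (leaf 2 429 432) (node 492 (merge (leaf 1 460 493) (node 460 (merge (leaf 1 459 491) (node 459 (merge (leaf 2 427 430) (node 427 (merge (leaf 3 426 426) (leaf 3 427 428))))))))))))))))))) (node 559 (merge (node 495 (merge (leaf 7 430 430) (node 464 (merge (leaf 6 431 432) (node 496 (merge (leaf 6 463 591) (node 461 (merge (leaf 0 460 460) (leaf 0 461 497))))))))) (merge (node 495 (merge (leaf 7 430 430) (node 558 (merge (leaf 5 462 590) (node 557 (merge (leaf 2 524 556) (node 525 (merge (leaf 3 524 524) (node 561 (merge (leaf 0 525 526) (node 594 (merge (leaf 0 558 593) (node 562 (merge (leaf 3 527 563) (leaf 0 559 595))))))))))))))) (node 558 (merge (node 557 (merge (leaf 2 524 556) (node 525 (merge (leaf 3 524 524) (node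 561 (merge (leaf 0 525 526) (node 594 (merge (leaf 0 558 593) (node 562 (merge (leaf 3 527 563) (leaf 0 559 595))))))))))) (merge (node 557 (merge (leaf 2 524 556) (node 589 (merge (leaf 1 556 588) (node 561 (merge (leaf 1 557 590) (node 594 (merge (leaf 0 558 593) (node 562 (merge (leaf 3 527 563) (leaf 0 559 595))))))))))) (merge (node 496 (merge (node 591 (merge (leaf 5 463 464) (leaf 6 495 623))) (node 557 (merge (leaf 2 524 556) (node 525 (merge (leaf 3 524 524) (node 526 (merge (leaf 2 493 497) (node 493 (merge (leaf 3 492 492) (node 590 (merge (leaf 4 461 461) (leaf 7 493 622))))))))))))) (node 526 (merge (node 561 (merge (leaf 3 525 525) (leaf 3 526 562))) (merge (node 525 (merge (leaf 0 524 524) (node 496 (merge (leaf 2 493 497) (node 464 (merge (leaf 5 431 432) (leaf 5 463 591))))))) (node 561 (merge (leaf 3 526 562) (node 593 (merge (leaf 0 558 594) (node 590 (merge (leaf 1 557 589) (node 622 (merge (leaf 6 526 654) (node 625 (merge (leaf 7 528 657) (node 623 (merge (leaf 4 526 655) (node 591 (merge (leaf 6 495 496) (node 624 (merge (leaf 3 590 626) (leaf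 4 527 656)))))))))))))))))))))))))))))))) (hyp 1))))))))) nP_207 cP_207 15 (by decide +kernel)
def nP_208 : ℕ := 0x80000000800000000000000000000000000000000000000000000000000000000000000000000000000000000000000000000000000000000000
def cP_208 : ℕ := 0x440000006c000000f7000001f7800000ff000001ff8000007f8000007c0000001c0000001400000000000000000000000000000000000000000000000000000000000
theorem lP_208 : S nP_208 cP_208 11 := S_of_chk [] trivial (node 399 (merge (node 368 (merge (node 400 (merge (leaf 6 367 495) (node 336 (merge (leaf 5 303 304) (leaf 5 335 432))))) (merge (node 336 (merge (leaf 6 335 367) (node 400 (merge (leaf 5 303 304) (leaf 5 335 432))))) (merge (node 367 (merge (leaf 6 335 336) (node 366 (merge (leaf 7 334 334) (node 495 (merge (leaf 7 366 398) (node 494 (merge (leaf 5 366 462) (leaf 5 398 526))))))))) (node 495 (merge (leaf 6 367 400) (node 366 (merge (leaf 7 366 398) (node 367 (merge (leaf 7 334 334) (node 494 (merge (leaf 5 366 462) (leaf 5 398 526))))))))))))) (merge (node 367 (merge (node 366 (merge (leaf 7 334 334) (node 495 (merge (leaf 7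 366 398) (node 494 (merge (leaf 5 366 462) (leaf 5 398 526))))))) (merge (node 336 (merge (leaf 6 335 368) (node 335 (merge (leaf 6 303 304) (node 334 (merge (leaf 7 302 302) (leaf 7 334 366))))))) (node 336 (merge (leaf 6 335 368) (node 335 (merge (leaf 6 303 304) (node 462 (merge (leaf 5 334 430) (leaf 5 366 494)))))))))) (merge (node 367 (merge (node 368 (merge (leaf 6 335 336) (node 495 (merge (leaf 6 367 400) (node 494 (merge (leaf 5 366 462) (leaf 5 398 526))))))) (merge (node 336 (merge (leaf 6 335 368) (node 335 (merge (leaf 6 303 304) (node 462 (merge (leaf 5 334 430) (leaf 5 366 494))))))) (merge (node 336 (merge (leaf 6 335 368) (node 335 (merge (leaf 6 303 304) (node 302 (merge (leaf 7 302 334) (node 303 (merge (leaf 7 270 270) (node 432 (merge (leaf 4 303 400) (leaf 4 335 464))))))))))) (node 462 (merge (leaf 5 366 494) (node 335 (merge (leaf 5 334 430) (node 432 (merge (leaf 4 335 464) (node 303 (merge (leaf 4 303 400) (node 272 (merge (leaf 6 271 304) (node 271 (merge (leaf 6 239 240) (node 270 (merge (leaf 7 238 238) (leaf 7 270 302)))))))))))))))))))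 (merge (node 367 (merge (node 368 (merge (leaf 6 335 336) (node 495 (merge (leaf 6 367 400) (node 494 (merge (leaf 5 366 462) (leaf 5 398 526))))))) (merge (node 336 (merge (leaf 6 335 368) (node 335 (merge (leaf 6 303 304) (node 462 (merge (leaf 5 334 430) (leaf 5 366 494))))))) (merge (node 336 (merge (leaf 6 335 368) (node 335 (merge (leaf 6 303 304) (node 432 (merge (leaf 4 335 464) (node 303 (merge (leaf 4 303 400) (node 398 (merge (leaf 5 302 430) (node 366 (merge (leaf 5 270 271) (leaf 7 366 495))))))))))))) (node 462 (merge (leaf 5 366 494) (node 335 (merge (leaf 5 334 430) (node 432 (merge (leaf 4 335 464) (node 303 (merge (leaf 4 303 400) (node 272 (merge (leaf 6 271 304) (node 271 (merge (leaf 6 239 240) (node 270 (merge (leaf 7 238 238) (leaf 7 270 302))))))))))))))))))) (merge (node 367 (merge (node 366 (merge (leaf 7 334 334) (node 495 (merge (leaf 7 366 398) (node 494 (merge (leaf 5 366 462) (leaf 5 398 526))))))) (merge (node 334 (merge (leaf 7 334 366) (node 335 (merge (leaf 7 302 302) (node 304 (merge (leaf 6 303 336) (node 303 (merge (leaf 6 271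 272) (node 432 (merge (leaf 4 303 400) (leaf 4 335 464))))))))))) (node 462 (merge (leaf 5 366 494) (node 335 (merge (leaf 5 334 430) (node 432 (merge (leaf 4 335 464) (node 303 (merge (leaf 4 303 400) (node 272 (merge (leaf 6 271 304) (node 271 (merge (leaf 6 239 240) (node 270 (merge (leaf 7 238 238) (leaf 7 270 302)))))))))))))))))) (merge (node 367 (merge (node 336 (merge (leaf 6 335 368) (node 335 (merge (leaf 6 303 304) (node 334 (merge (leaf 7 302 302) (leaf 7 334 366))))))) (merge (node 366 (merge (leaf 7 334 334) (node 365 (merge (node 400 (merge (leaf 0 364 364) (node 401 (merge (leaf 3 365 398) (leaf 3 366 402))))) (merge (node 368 (merge (leaf 6 335 336) (node 400 (merge (leaf 0 364 364) (leaf 0 365 401))))) (merge (node 368 (merge (leaf 6 335 336) (node 397 (merge (leaf 1 364 396) (node 398 (merge (leaf 1 365 369) (node 364 (merge (leaf 0 363 363) (node 332 (merge (leaf 3 331 331) (leaf 3 332 333))))))))))) (node 368 (merge (leaf 6 335 336) (node 401 (merge (leaf 0 365 400) (node 369 (merge (leaf 0 366 402) (node 397 (merge (leaf 1 364 396) (leaf 1 365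 398))))))))))))))) (merge (node 335 (merge (node 334 (merge (leaf 7 302 302) (leaf 7 334 366))) (merge (node 432 (merge (leaf 4 335 464) (node 303 (merge (leaf 4 303 400) (node 272 (merge (leaf 6 271 304) (node 271 (merge (leaf 6 239 240) (node 398 (merge (leaf 5 270 366) (leaf 5 302 430))))))))))) (node 302 (merge (leaf 7 302 334) (node 303 (merge (leaf 7 270 270) (node 432 (merge (leaf 4 303 400) (leaf 4 335 464)))))))))) (merge (node 335 (merge (node 336 (merge (leaf 6 303 304) (leaf 6 335 368))) (merge (node 304 (merge (leaf 6 303 336) (node 303 (merge (leaf 6 271 272) (node 302 (merge (leaf 7 270 270) (leaf 7 302 334))))))) (merge (node 302 (merge (leaf 7 302 334) (node 303 (merge (leaf 7 270 270) (node 272 (merge (leaf 6 271 304) (node 271 (merge (leaf 6 239 240) (node 400 (merge (leaf 4 271 368) (leaf 4 303 432))))))))))) (node 368 (merge (leaf 6 335 336) (node 302 (merge (leaf 7 302 334) (node 303 (merge (leaf 7 270 270) (node 400 (merge (leaf 4 271 271) (node 398 (merge (leaf 5 302 430) (node 397 (merge (leaf 2 365 369) (leaf 2 364 396))))))))))))))))) (node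 336 (merge (leaf 6 335 368) (node 335 (merge (leaf 6 303 304) (node 432 (merge (leaf 4 335 464) (node 303 (merge (leaf 4 303 400) (node 270 (merge (leaf 7 270 302) (node 271 (merge (leaf 7 238 238) (node 398 (merge (leaf 5 270 366) (leaf 5 302 430)))))))))))))))))))) (merge (node 400 (merge (node 368 (merge (leaf 6 367 495) (node 336 (merge (leaf 5 303 304) (leaf 5 335 432))))) (merge (node 398 (merge (node 366 (merge (leaf 7 366 495) (node 334 (merge (leaf 4 302 302) (leaf 4 334 430))))) (merge (node 366 (merge (node 334 (merge (leaf 4 302 302) (leaf 4 334 430))) (node 365 (merge (leaf 3 365 401) (node 364 (merge (leaf 0 363 363) (leaf 3 364 397))))))) (node 368 (merge (leaf 6 367 495) (node 369 (merge (leaf 2 365 397) (node 370 (merge (leaf 1 367 371) (leaf 2 366 401)))))))))) (node 401 (merge (node 430 (merge (leaf 1 398 402) (node 429 (merge (leaf 1 397 398) (leaf 2 396 428))))) (merge (node 402 (merge (leaf 1 398 430) (node 403 (merge (leaf 1 399 432) (node 371 (merge (leaf 2 367 370) (leaf 2 368 372))))))) (merge (node 398 (merge (node 430 (merge (leaf 1 397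 429) (node 366 (merge (leaf 4 334 334) (leaf 3 365 365))))) (merge (node 365 (merge (leaf 3 365 366) (node 397 (merge (leaf 3 364 364) (node 432 (merge (leaf 0 396 396) (leaf 0 397 433))))))) (node 433 (merge (leaf 0 398 434) (node 397 (merge (leaf 0 397 432) (node 429 (merge (leaf 1 396 428) (leaf 1 397 430)))))))))) (node 402 (merge (node 403 (merge (leaf 1 399 432) (node 371 (merge (leaf 2 367 370) (leaf 2 368 372))))) (merge (node 435 (merge (leaf 0 399 434) (node 403 (merge (leaf 0 400 436) (node 371 (merge (leaf 2 367 370) (leaf 2 368 372))))))) (node 434 (merge (leaf 0 399 435) (node 398 (merge (leaf 0 398 433) (node 365 (merge (leaf 3 365 366) (node 397 (merge (leaf 3 364 364) (node 396 (merge (leaf 0 396 432) (node 428 (merge (leaf 1 395 427) (leaf 1 396 429))))))))))))))))))))))) (node 400 (merge (node 398 (merge (node 366 (merge (leaf 7 366 495) (node 334 (merge (leaf 4 302 302) (leaf 4 334 430))))) (merge (node 366 (merge (node 334 (merge (leaf 4 302 302) (leaf 4 334 430))) (node 365 (merge (leaf 3 365 401) (node 364 (merge (leaf 0 363 363) (leaf 3 364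 397))))))) (node 368 (merge (leaf 6 367 495) (node 369 (merge (leaf 2 365 397) (node 370 (merge (leaf 1 367 371) (leaf 2 366 401)))))))))) (merge (node 401 (merge (node 430 (merge (leaf 1 398 402) (node 429 (merge (leaf 1 397 398) (leaf 2 396 428))))) (merge (node 402 (merge (leaf 1 398 430) (node 403 (merge (leaf 1 399 432) (node 371 (merge (leaf 2 367 370) (leaf 2 368 372))))))) (merge (node 398 (merge (node 366 (merge (leaf 3 365 365) (node 334 (merge (leaf 4 302 302) (leaf 7 334 367))))) (node 429 (merge (leaf 1 397 430) (node 397 (merge (leaf 1 396 428) (node 432 (merge (leaf 0 396 396) (leaf 0 397 433))))))))) (node 398 (merge (node 366 (merge (leaf 3 365 365) (node 334 (merge (leaf 4 302 302) (leaf 7 334 367))))) (node 370 (merge (leaf 2 366 369) (node 402 (merge (leaf 2 367 371) (node 432 (merge (leaf 1 399 403) (node 397 (merge (leaf 0 396 396) (leaf 0 397 433))))))))))))))) (merge (node 495 (merge (leaf 6 367 368) (node 494 (merge (leaf 5 398 526) (node 367 (merge (leaf 5 366 462) (node 334 (merge (leaf 7 334 366) (node 335 (merge (leaf 7 302 302) (node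 432 (merge (leaf 4 303 303) (leaf 4 335 464))))))))))))) (node 432 (merge (node 495 (merge (leaf 6 367 368) (node 494 (merge (leaf 5 398 526) (node 367 (merge (leaf 5 366 462) (node 335 (merge (leaf 4 303 303) (leaf 4 335 464))))))))) (merge (node 367 (merge (node 335 (merge (leaf 4 303 303) (leaf 4 335 464))) (node 462 (merge (leaf 5 366 494) (node 433 (merge (leaf 1 430 434) (node 461 (merge (leaf 1 429 430) (leaf 2 428 460))))))))) (merge (node 495 (merge (leaf 6 367 368) (node 494 (merge (leaf 5 398 526) (node 462 (merge (leaf 5 366 367) (node 433 (merge (leaf 1 430 434) (node 461 (merge (leaf 1 429 430) (leaf 2 428 460))))))))))) (node 464 (merge (node 368 (merge (leaf 6 367 495) (node 465 (merge (leaf 4 368 497) (node 430 (merge (leaf 0 429 429) (leaf 3 430 466))))))) (merge (node 368 (merge (leaf 6 367 495) (node 369 (merge (leaf 6 336 337) (node 370 (merge (leaf 1 367 371) (node 398 (merge (leaf 2 365 397) (leaf 2 366 401))))))))) (node 401 (merge (node 402 (merge (leaf 1 399 403) (node 434 (merge (leaf 0 399 435) (node 433 (merge (leaf 0 398 398) (node 466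 (merge (leaf 0 431 467) (node 369 (merge (leaf 4 337 337) (leaf 7 369 498))))))))))) (merge (node 433 (merge (node 398 (merge (leaf 0 397 397) (leaf 3 398 434))) (merge (node 398 (merge (leaf 0 397 397) (node 369 (merge (leaf 5 336 337) (leaf 2 366 370))))) (node 434 (merge (leaf 1 431 435) (node 466 (merge (leaf 0 431 467) (node 498 (merge (leaf 7 401 530) (node 369 (merge (leaf 4 337 337) (leaf 4 369 465)))))))))))) (merge (node 369 (merge (node 337 (merge (leaf 5 304 305) (leaf 5 336 433))) (merge (node 402 (merge (leaf 1 399 403) (node 434 (merge (leaf 0 399 435) (node 466 (merge (leaf 7 369 498) (node 467 (merge (leaf 0 431 433) (leaf 3 431 465))))))))) (node 402 (merge (leaf 1 399 403) (node 434 (merge (leaf 0 399 435) (node 466 (merge (leaf 7 369 498) (node 337 (merge (leaf 4 305 305) (leaf 7 337 370)))))))))))) (merge (node 402 (merge (leaf 1 399 403) (node 434 (merge (leaf 0 399 435) (node 370 (merge (leaf 2 367 371) (node 369 (merge (leaf 2 366 398) (node 337 (merge (leaf 4 305 305) (leaf 7 337 466))))))))))) (merge (node 402 (merge (leaf 1 399 403) (node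 370 (merge (leaf 2 367 371) (node 398 (merge (leaf 2 366 369) (node 397 (merge (leaf 0 396 396) (leaf 0 397 433))))))))) (node 402 (merge (leaf 1 399 403) (node 434 (merge (leaf 0 399 435) (node 433 (merge (leaf 0 398 398) (node 370 (merge (leaf 2 367 371) (node 338 (merge (leaf 5 305 306) (leaf 5 337 465)))))))))))))))))))))))))))))))))))) nP_208 cP_208 11 (by decide +kernel)
def nP_209 : ℕ := 0x100000001000000000000000080000000000000000000000000000000000000000000000000000000000000000000000000000000000000000000000000000000000000000000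
def cP_209 : ℕ := 0x4000000070000000700000047000001ff800001f7000003ff800000ffc00001ff800000ff8000007c0000001c0000001400000000000000000000000000000000000000000000000000000000000
theorem lP_209 : S nP_209 cP_209 13 := S_of_chk [(nP_208, cP_208, 11)] ⟨lP_208, trivial⟩ (node 431 (merge (node 464 (merge (leaf 7 431 496) (node 465 (merge (node 430 (merge (leaf 3 430 466) (node 429 (merge (leaf 0 428 428) (leaf 3 429 462))))) (merge (node 466 (merge (leaf 3 430 430) (node 435 (merge (leaf 2 431 434) (node 467 (merge (leaf 3 431 432) (leaf 2 432 436))))))) (merge (node 462 (merge (node 494 (merge (leaf 1 461 493) (node 430 (merge (leaf 3 429 429) (node 399 (merge (leaf 5 366 367) (leaf 6 398 526))))))) (merge (node 433 (merge (leaf 2 430 434) (node 461 (merge (leaf 2 429 432) (node 429 (merge (leaf 3 428 428) (leaf 3 429 430))))))) (node 493 (merge (leaf 1 461 494) (node 461 (merge (leaf 1 460 492) (node 433 (merge (leaf 2 429 432) (leaf 2 430 434)))))))))) (node 466 (merge (node 499 (merge (leaf 0 463 498) (node 467 (merge (leaf 0 464 500) (node 435 (merge (leaf 2 431 434)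 (leaf 2 432 436))))))) (merge (node 498 (merge (leaf 0 463 499) (node 462 (merge (leaf 0 462 497) (node 434 (merge (leaf 2 430 433) (leaf 2 431 435))))))) (merge (node 467 (merge (node 435 (merge (leaf 2 431 434) (leaf 2 432 436))) (merge (node 432 (merge (leaf 3 431 431) (node 433 (merge (leaf 3 432 468) (node 462 (merge (leaf 2 430 434) (leaf 2 429 461))))))) (node 436 (merge (leaf 2 432 435) (node 468 (merge (leaf 2 433 437) (node 432 (merge (leaf 3 431 431) (leaf 3 432 433)))))))))) (merge (node 499 (merge (leaf 0 463 498) (node 467 (merge (leaf 0 464 500) (node 436 (merge (leaf 2 432 435) (node 468 (merge (leaf 2 433 437) (node 432 (merge (leaf 3 431 431) (leaf 3 432 433))))))))))) (node 498 (merge (leaf 0 463 499) (node 462 (merge (leaf 0 462 497) (node 433 (merge (leaf 2 430 434) (node 432 (merge (leaf 2 429 461) (node 467 (merge (leaf 3 431 431) (leaf 3 432 468)))))))))))))))))))))) (merge (node 399 (merge (node 496 (merge (leaf 7 431 464) (leaf 4 399 495))) (node 367 (merge (node 334 (merge (leaf 7 334 366) (node 335 (merge (leaf 7 302 302) (node 462 (merge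 (leaf 5 334 430) (leaf 5 366 494))))))) (merge (node 336 (merge (leaf 6 335 368) (node 335 (merge (leaf 6 303 304) (node 462 (merge (leaf 5 334 430) (leaf 5 366 494))))))) (node 366 (merge (leaf 7 334 334) (node 365 (merge (node 400 (merge (leaf 0 364 364) (node 401 (merge (leaf 3 365 398) (leaf 3 366 402))))) (merge (node 368 (merge (leaf 6 335 336) (node 400 (merge (leaf 0 364 364) (leaf 0 365 401))))) (merge (node 368 (merge (leaf 6 335 336) (node 397 (merge (leaf 1 364 396) (node 398 (merge (leaf 1 365 369) (node 364 (merge (leaf 0 363 363) (node 332 (merge (leaf 3 331 331) (leaf 3 332 333))))))))))) (node 368 (merge (leaf 6 335 336) (node 401 (merge (leaf 0 365 400) (node 369 (merge (leaf 0 366 402) (node 397 (merge (leaf 1 364 396) (leaf 1 365 398)))))))))))))))))))) (merge (node 399 (merge (node 496 (merge (leaf 7 431 464) (leaf 4 399 495))) (merge (node 366 (merge (node 398 (merge (leaf 7 366 495) (node 334 (merge (leaf 4 302 302) (leaf 4 334 430))))) (merge (node 334 (merge (leaf 7 334 367) (node 398 (merge (leaf 4 302 302) (leaf 4 334 430))))) (merge (node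 367 (merge (leaf 7 334 334) (node 368 (merge (leaf 6 335 336) (node 400 (merge (leaf 6 367 495) (node 365 (merge (leaf 0 364 364) (leaf 0 365 401))))))))) (node 400 (merge (node 368 (merge (leaf 6 367 495) (node 336 (merge (leaf 5 303 304) (leaf 6 335 367))))) (merge (node 398 (merge (leaf 7 366 495) (node 401 (merge (leaf 3 365 365) (node 430 (merge (leaf 1 398 402) (leaf 1 397 429))))))) (node 401 (merge (node 402 (merge (leaf 3 366 367) (leaf 1 398 430))) (merge (node 365 (merge (leaf 3 365 398) (node 367 (merge (leaf 0 364 364) (leaf 0 365 368))))) (node 430 (merge (leaf 1 398 402) (node 398 (merge (leaf 3 365 365) (leaf 1 397 429))))))))))))))) (node 367 (merge (node 334 (merge (leaf 7 334 366) (node 335 (merge (leaf 7 302 302) (node 464 (merge (leaf 4 335 432) (leaf 7 431 496))))))) (merge (node 336 (merge (leaf 6 335 368) (node 335 (merge (leaf 6 303 304) (node 302 (merge (leaf 7 302 334) (node 303 (merge (leaf 7 270 270) (node 432 (merge (leaf 4 303 400) (leaf 4 335 464))))))))))) (merge (node 336 (merge (leaf 6 335 368) (node 335 (merge (leaf 6 303 304) (node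 432 (merge (leaf 4 335 464) (node 303 (merge (leaf 4 303 400) (node 270 (merge (leaf 7 270 302) (node 271 (merge (leaf 7 238 238) (node 398 (merge (leaf 5 270 366) (leaf 5 302 430))))))))))))))) (node 366 (merge (leaf 7 334 334) (node 365 (merge (node 400 (merge (leaf 0 364 364) (node 401 (merge (leaf 3 365 398) (leaf 3 366 402))))) (merge (node 368 (merge (leaf 6 335 336) (node 400 (merge (leaf 0 364 364) (leaf 0 365 401))))) (merge (node 368 (merge (leaf 6 335 336) (node 397 (merge (leaf 1 364 396) (node 398 (merge (leaf 1 365 369) (node 364 (merge (leaf 0 363 363) (node 332 (merge (leaf 3 331 331) (leaf 3 332 333))))))))))) (node 368 (merge (leaf 6 335 336) (node 401 (merge (leaf 0 365 400) (node 369 (merge (leaf 0 366 402) (node 397 (merge (leaf 1 364 396) (leaf 1 365 398)))))))))))))))))))))) (merge (node 399 (merge (node 495 (merge (leaf 4 399 496) (node 494 (merge (leaf 5 398 526) (node 367 (merge (leaf 5 366 462) (node 366 (merge (leaf 7 334 334) (leaf 7 366 398))))))))) (merge (node 495 (merge (leaf 4 399 496) (node 368 (merge (leaf 6 367 400) (node 367 (merge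 (leaf 6 335 336) (node 494 (merge (leaf 5 366 462) (leaf 5 398 526))))))))) (merge (node 367 (merge (node 334 (merge (leaf 7 334 366) (node 335 (merge (leaf 7 302 302) (node 462 (merge (leaf 5 334 430) (leaf 5 366 494))))))) (merge (node 336 (merge (leaf 6 335 368) (node 335 (merge (leaf 6 303 304) (node 462 (merge (leaf 5 334 430) (leaf 5 366 494))))))) (node 366 (merge (leaf 7 334 334) (node 365 (merge (node 400 (merge (leaf 0 364 364) (node 401 (merge (leaf 3 365 398) (leaf 3 366 402))))) (merge (node 368 (merge (leaf 6 335 336) (node 400 (merge (leaf 0 364 364) (leaf 0 365 401))))) (merge (node 368 (merge (leaf 6 335 336) (node 397 (merge (leaf 1 364 396) (node 398 (merge (leaf 1 365 369) (node 364 (merge (leaf 0 363 363) (node 332 (merge (leaf 3 331 331) (leaf 3 332 333))))))))))) (node 368 (merge (leaf 6 335 336) (node 401 (merge (leaf 0 365 400) (node 369 (merge (leaf 0 366 402) (node 397 (merge (leaf 1 364 396) (leaf 1 365 398)))))))))))))))))) (node 495 (merge (leaf 4 399 496) (node 398 (merge (leaf 7 366 366) (node 400 (merge (leaf 6 367 368) (node 401 (merge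 (node 434 (merge (leaf 0 398 433) (node 402 (merge (leaf 0 399 435) (node 370 (merge (leaf 2 366 369) (leaf 2 367 371))))))) (merge (node 433 (merge (leaf 0 398 434) (node 397 (merge (leaf 0 397 432) (node 428 (merge (leaf 1 396 429) (node 396 (merge (leaf 1 395 427) (node 364 (merge (leaf 3 363 363) (leaf 3 364 365))))))))))) (merge (node 370 (merge (leaf 2 366 369) (node 402 (merge (leaf 2 367 371) (node 432 (merge (leaf 1 399 403) (node 397 (merge (leaf 0 396 396) (leaf 0 397 433))))))))) (node 370 (merge (leaf 2 366 369) (node 402 (merge (leaf 2 367 371) (node 435 (merge (leaf 0 399 434) (node 403 (merge (leaf 1 399 432) (leaf 0 400 436))))))))))))))))))))))) (merge (node 399 (merge (node 496 (merge (leaf 7 431 464) (leaf 4 399 495))) (merge (node 368 (merge (node 400 (merge (leaf 6 367 495) (node 336 (merge (leaf 5 303 304) (leaf 5 335 432))))) (merge (node 336 (merge (leaf 6 335 367) (node 400 (merge (leaf 5 303 304) (leaf 5 335 432))))) (merge (node 367 (merge (leaf 6 335 336) (node 366 (merge (leaf 7 334 334) (node 495 (merge (leaf 7 366 398) (node 494 (merge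 (leaf 5 366 462) (leaf 5 398 526))))))))) (node 495 (merge (leaf 6 367 400) (node 366 (merge (leaf 7 366 398) (node 367 (merge (leaf 7 334 334) (node 494 (merge (leaf 5 366 462) (leaf 5 398 526))))))))))))) (node 367 (merge (node 336 (merge (leaf 6 335 368) (node 335 (merge (leaf 6 303 304) (node 464 (merge (leaf 4 335 432) (leaf 7 431 496))))))) (merge (node 334 (merge (leaf 7 334 366) (node 335 (merge (leaf 7 302 302) (node 464 (merge (leaf 4 335 432) (leaf 7 431 496))))))) (node 366 (merge (leaf 7 334 334) (node 401 (merge (node 368 (merge (leaf 6 335 336) (node 402 (merge (leaf 0 366 369) (leaf 3 366 400))))) (merge (node 400 (merge (leaf 3 366 402) (node 365 (merge (leaf 0 364 364) (leaf 3 365 398))))) (merge (node 368 (merge (leaf 6 335 336) (node 369 (merge (leaf 0 366 402) (node 370 (merge (leaf 1 366 398) (node 338 (merge (leaf 2 334 337) (leaf 2 335 339))))))))) (node 368 (merge (leaf 6 335 336) (node 365 (merge (leaf 0 365 400) (node 332 (merge (leaf 3 332 333) (node 364 (merge (leaf 3 331 331) (node 363 (merge (leaf 0 363 398) (node 395 (merge (leaf 1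 362 394) (leaf 1 363 396))))))))))))))))))))))))) (merge (node 464 (merge (leaf 7 431 496) (node 462 (merge (node 465 (merge (node 430 (merge (leaf 3 430 466) (node 429 (merge (leaf 0 428 428) (leaf 3 429 462))))) (merge (node 498 (merge (leaf 0 462 497) (node 466 (merge (leaf 0 463 499) (node 434 (merge (leaf 2 430 433) (leaf 2 431 435))))))) (node 433 (merge (leaf 2 430 434) (node 461 (merge (leaf 2 429 432) (node 429 (merge (leaf 3 428 428) (leaf 3 429 430)))))))))) (merge (node 465 (merge (node 498 (merge (leaf 0 462 497) (node 466 (merge (leaf 0 463 499) (node 434 (merge (leaf 2 430 433) (leaf 2 431 435))))))) (node 493 (merge (leaf 1 461 494) (node 461 (merge (leaf 1 460 492) (node 429 (merge (leaf 3 428 428) (leaf 3 429 430))))))))) (merge (node 461 (merge (node 432 (merge (leaf 2 428 460) (node 433 (merge (leaf 1 430 434) (leaf 2 429 464))))) (merge (node 492 (merge (leaf 1 460 493) (node 460 (merge (leaf 1 459 491) (node 428 (merge (leaf 3 427 427) (leaf 3 428 429))))))) (node 493 (merge (leaf 1 460 492) (node 465 (merge (leaf 1 461 494) (node 433 (merge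 (leaf 2 429 432) (leaf 2 430 434)))))))))) (merge (node 493 (merge (node 494 (merge (leaf 1 461 465) (node 492 (merge (leaf 2 459 491) (leaf 2 460 495))))) (merge (node 461 (merge (leaf 1 460 492) (node 460 (merge (leaf 2 428 432) (node 428 (merge (leaf 3 427 427) (leaf 3 428 429))))))) (node 465 (merge (leaf 1 461 494) (node 498 (merge (leaf 0 462 497) (node 466 (merge (leaf 0 463 499) (node 430 (merge (leaf 3 429 429) (leaf 3 430 431)))))))))))) (merge (node 465 (merge (node 498 (merge (leaf 0 462 497) (node 466 (merge (leaf 0 463 499) (node 434 (merge (leaf 2 430 433) (leaf 2 431 435))))))) (merge (node 493 (merge (leaf 1 461 494) (node 461 (merge (leaf 1 460 492) (node 433 (merge (leaf 2 429 432) (leaf 2 430 434))))))) (merge (node 498 (merge (leaf 0 462 497) (node 466 (merge (leaf 0 463 499) (node 493 (merge (leaf 1 461 494) (node 461 (merge (leaf 1 460 492) (node 432 (merge (leaf 2 429 433) (node 431 (merge (leaf 3 430 430) (leaf 2 428 460))))))))))))) (node 498 (merge (leaf 0 462 497) (node 466 (merge (leaf 0 463 499) (node 435 (merge (leaf 2 431 434) (node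 467 (merge (leaf 2 432 436) (node 431 (merge (leaf 3 430 430) (leaf 3 431 432))))))))))))))) (merge (node 430 (merge (node 465 (merge (leaf 3 430 466) (node 429 (merge (leaf 0 428 428) (leaf 3 429 462))))) (merge (node 398 (merge (node 366 (merge (leaf 4 334 334) (leaf 4 366 495))) (node 465 (merge (leaf 3 430 466) (node 494 (merge (leaf 1 461 493) (node 397 (merge (leaf 7 365 365) (node 433 (merge (leaf 3 397 432) (leaf 2 430 434))))))))))) (node 432 (merge (node 429 (merge (leaf 0 428 428) (node 400 (merge (leaf 2 397 401) (node 368 (merge (leaf 5 335 336) (leaf 5 367 495))))))) (merge (node 433 (merge (leaf 1 430 434) (node 398 (merge (leaf 3 397 397) (node 366 (merge (leaf 4 334 334) (leaf 4 366 495))))))) (node 429 (merge (leaf 0 428 428) (node 433 (merge (leaf 1 430 434) (node 401 (merge (leaf 2 397 400) (leaf 2 398 402))))))))))))) (node 461 (merge (node 492 (merge (leaf 1 460 493) (node 460 (merge (leaf 1 459 491) (node 432 (merge (leaf 2 428 431) (leaf 2 429 433))))))) (merge (node 432 (merge (leaf 2 429 433) (node 460 (merge (leaf 2 428 431) (node 428 (merge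 (leaf 3 427 427) (leaf 3 428 429))))))) (node 493 (merge (leaf 1 460 492) (node 398 (merge (node 430 (merge (leaf 5 365 366) (node 525 (merge (leaf 6 397 429) (leaf 6 429 557))))) (merge (node 430 (merge (leaf 5 365 366) (node 525 (merge (leaf 5 397 494) (leaf 6 429 557))))) (merge (node 429 (merge (leaf 3 428 428) (node 397 (merge (leaf 6 365 366) (node 364 (merge (leaf 7 364 396) (node 365 (merge (leaf 7 332 332) (leaf 4 365 494))))))))) (node 429 (merge (leaf 3 428 428) (node 525 (merge (leaf 6 397 430) (node 556 (merge (leaf 5 428 524) (node 557 (merge (leaf 5 460 588) (node 589 (merge (leaf 6 461 494) (node 590 (merge (leaf 4 461 558) (leaf 4 493 622))))))))))))))))))))))))))))))) (hyp 0)))))))) nP_209 cP_209 13 (by decide +kernel)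
def nP_210 : ℕ := 0x100000001000000000000000180000000000000000000000000000000000000000000000000000000000000000000000000000000000000000000000000000000000000000000
def cP_210 : ℕ := 0x3e0000003e000001efe00000efc00001cfe000003f80000007000000378000003c000000380000000800000000000000000000000000000000000000000000000000000000000000000000000000000000000
theorem lP_210 : S nP_210 cP_210 13 := S_of_chk [] trivial (node 559 (merge (node 496 (merge (leaf 5 463 591) (node 432 (merge (leaf 5 431 527) (node 401 (merge (leaf 6 400 433) (node 400 (merge (leaf 6 368 369) (node 367 (merge (leaf 7 367 399) (node 368 (merge (leaf 7 335 335) (leaf 5 367 495))))))))))))) (merge (node 527 (merge (node 432 (merge (leaf 6 431 495) (leaf 5 431 496))) (merge (node 496 (merge (leaf 5 431 432) (node 561 (merge (leaf 4 464 593) (node 562 (merge (leaf 3 526 526) (leaf 3 527 563))))))) (merge (node 561 (merge (node 562 (merge (leaf 3 526 526) (leaf 3 527 563))) (node 593 (merge (leaf 4 464 496) (node 558 (merge (leaf 0 558 594) (node 590 (merge (leaf 5 462 495) (leaf 1 557 589))))))))) (node 495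 (merge (leaf 6 431 432) (node 558 (merge (leaf 5 462 590) (node 557 (merge (leaf 2 524 556) (node 525 (merge (leaf 3 524 524) (node 561 (merge (leaf 0 525 526) (node 594 (merge (leaf 0 558 593) (node 562 (merge (leaf 3 527 563) (leaf 0 559 595))))))))))))))))))) (merge (node 561 (merge (node 496 (merge (leaf 5 463 591) (leaf 4 464 593))) (merge (node 591 (merge (leaf 5 463 496) (node 590 (merge (leaf 1 558 562) (node 589 (merge (leaf 1 557 558) (leaf 2 556 588))))))) (merge (node 593 (merge (leaf 4 464 496) (node 594 (merge (leaf 0 558 558) (node 595 (merge (leaf 0 559 562) (leaf 3 560 596))))))) (node 562 (merge (node 563 (merge (leaf 3 527 527) (node 531 (merge (leaf 2 527 530) (leaf 2 528 532))))) (node 594 (merge (leaf 0 559 595) (node 558 (merge (leaf 0 558 593) (node 590 (merge (leaf 1 557 589) (leaf 1 558 591))))))))))))) (merge (node 558 (merge (node 561 (merge (node 594 (merge (leaf 0 558 593) (node 562 (merge (leaf 0 559 595) (node 526 (merge (leaf 3 525 525) (leaf 3 526 527))))))) (merge (node 594 (merge (leaf 0 558 593) (node 562 (merge (leaf 0 559 595)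 (node 590 (merge (leaf 1 557 589) (leaf 1 558 591))))))) (node 590 (merge (leaf 1 557 589) (node 526 (merge (leaf 3 525 525) (node 495 (merge (leaf 6 462 494) (leaf 5 462 527)))))))))) (merge (node 557 (merge (node 588 (merge (leaf 1 556 589) (node 556 (merge (leaf 2 524 527) (leaf 1 555 587))))) (merge (node 527 (merge (leaf 2 524 556) (node 495 (merge (leaf 6 431 432) (leaf 5 462 590))))) (node 525 (merge (leaf 3 524 524) (node 589 (merge (leaf 1 556 588) (node 590 (merge (leaf 1 557 561) (node 493 (merge (leaf 4 461 461) (leaf 4 493 622)))))))))))) (merge (node 525 (merge (node 557 (merge (leaf 3 524 524) (node 527 (merge (leaf 2 524 556) (node 495 (merge (leaf 6 431 432) (leaf 5 462 590))))))) (merge (node 524 (merge (leaf 3 524 557) (node 526 (merge (leaf 0 523 523) (leaf 3 525 561))))) (node 561 (merge (leaf 3 525 526) (node 594 (merge (leaf 0 558 593) (node 562 (merge (leaf 0 559 595) (node 590 (merge (leaf 1 558 591) (node 527 (merge (leaf 5 462 495) (leaf 3 527 563)))))))))))))) (merge (node 525 (merge (node 524 (merge (leaf 3 524 557) (node 526 (merge (leaf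 0 523 523) (leaf 3 525 561))))) (merge (node 557 (merge (leaf 3 524 524) (node 588 (merge (leaf 1 556 589) (node 556 (merge (leaf 2 524 527) (leaf 1 555 587))))))) (node 561 (merge (leaf 3 525 526) (node 594 (merge (leaf 0 558 593) (node 562 (merge (leaf 0 559 595) (node 531 (merge (leaf 2 527 530) (node 563 (merge (leaf 3 527 527) (leaf 2 528 532)))))))))))))) (merge (node 526 (merge (node 525 (merge (leaf 3 525 561) (node 524 (merge (leaf 0 523 523) (leaf 3 524 557))))) (merge (node 561 (merge (leaf 3 525 525) (node 594 (merge (leaf 0 558 593) (node 562 (merge (leaf 0 559 595) (node 590 (merge (leaf 1 557 589) (leaf 1 558 591))))))))) (merge (node 590 (merge (node 494 (merge (leaf 6 462 495) (node 591 (merge (leaf 4 462 462) (leaf 4 494 623))))) (merge (node 589 (merge (leaf 1 557 561) (node 588 (merge (leaf 1 556 557) (leaf 2 556 591))))) (node 589 (merge (leaf 1 557 561) (node 494 (merge (leaf 6 462 495) (leaf 5 493 621)))))))) (node 494 (merge (node 590 (merge (leaf 6 462 495) (node 591 (merge (leaf 4 462 462) (leaf 4 494 623))))) (merge (node 462 (merge (leaf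 4 462 591) (node 557 (merge (leaf 5 461 589) (node 525 (merge (leaf 5 429 430) (leaf 3 524 524))))))) (merge (node 590 (merge (leaf 6 462 495) (node 589 (merge (leaf 5 493 621) (node 557 (merge (leaf 5 461 462) (leaf 1 556 588))))))) (node 590 (merge (leaf 6 462 495) (node 591 (merge (leaf 4 494 623) (node 589 (merge (leaf 2 556 588) (leaf 5 493 621))))))))))))))) (merge (node 561 (merge (node 594 (merge (leaf 0 558 593) (node 562 (merge (leaf 0 559 595) (node 590 (merge (leaf 1 557 589) (leaf 1 558 591))))))) (merge (node 594 (merge (leaf 0 558 593) (node 562 (merge (leaf 0 559 595) (node 527 (merge (leaf 3 526 526) (leaf 3 527 563))))))) (merge (node 590 (merge (leaf 1 557 589) (node 562 (merge (leaf 1 558 591) (node 527 (merge (leaf 3 526 526) (leaf 3 527 563))))))) (node 625 (merge (node 593 (merge (leaf 0 558 594) (leaf 7 528 657))) (node 557 (merge (node 589 (merge (leaf 1 556 588) (leaf 1 557 590))) (merge (node 556 (merge (leaf 2 524 527) (node 587 (merge (leaf 1 555 588) (node 555 (merge (leaf 1 554 586) (node 523 (merge (leaf 3 522 522) (leaf 3 523 524)))))))))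 (node 590 (merge (leaf 1 557 589) (node 556 (merge (leaf 2 524 527) (node 555 (merge (leaf 0 555 591) (node 523 (merge (leaf 3 522 522) (leaf 3 523 524)))))))))))))))))) (node 590 (merge (node 527 (merge (leaf 5 462 495) (node 557 (merge (leaf 2 524 556) (node 525 (merge (leaf 3 524 524) (node 493 (merge (leaf 4 461 461) (node 526 (merge (leaf 3 492 492) (leaf 7 493 622))))))))))) (merge (node 527 (merge (leaf 5 462 495) (node 557 (merge (leaf 2 524 556) (node 589 (merge (leaf 1 556 588) (node 525 (merge (leaf 3 524 524) (node 493 (merge (leaf 4 461 461) (node 492 (merge (leaf 7 460 460) (leaf 3 492 526))))))))))))) (merge (node 526 (merge (node 494 (merge (leaf 6 462 495) (node 591 (merge (leaf 4 462 462) (leaf 4 494 623))))) (merge (node 527 (merge (leaf 5 462 495) (node 525 (merge (leaf 0 524 524) (node 622 (merge (leaf 7 493 493) (leaf 6 526 654))))))) (node 623 (merge (node 655 (merge (leaf 7 526 591) (leaf 4 526 622))) (merge (node 591 (merge (leaf 7 526 655) (node 494 (merge (leaf 4 462 462) (leaf 4 494 590))))) (merge (node 494 (merge (leaf 4 494 591) (node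 493 (merge (leaf 7 461 461) (node 622 (merge (leaf 7 493 525) (node 621 (merge (leaf 5 493 589) (leaf 5 525 653))))))))) (node 622 (merge (leaf 4 526 655) (node 493 (merge (leaf 7 493 525) (node 494 (merge (leaf 7 461 461) (node 621 (merge (leaf 5 493 589) (leaf 5 525 653)))))))))))))))) (merge (node 526 (merge (node 495 (merge (leaf 6 462 494) (leaf 5 462 527))) (merge (node 589 (merge (node 588 (merge (leaf 1 556 557) (leaf 2 555 587))) (node 494 (merge (leaf 5 493 621) (node 591 (merge (leaf 4 462 462) (leaf 4 494 623))))))) (node 527 (merge (leaf 5 462 495) (node 622 (merge (leaf 6 526 654) (node 557 (merge (leaf 2 524 556) (node 589 (merge (leaf 1 556 588) (node 621 (merge (leaf 6 525 653) (node 623 (merge (leaf 4 526 655) (node 624 (merge (leaf 3 589 625) (node 656 (merge (leaf 4 527 591) (leaf 0 621 657)))))))))))))))))))) (node 557 (merge (node 525 (merge (leaf 3 524 524) (node 622 (merge (leaf 7 525 654) (node 493 (merge (leaf 4 461 461) (leaf 4 493 589))))))) (merge (node 556 (merge (node 588 (merge (leaf 1 555 587) (leaf 1 556 589))) (merge (node 555 (merge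 (leaf 0 555 591) (node 589 (merge (leaf 0 554 554) (leaf 1 556 588))))) (merge (node 555 (merge (leaf 0 555 591) (node 587 (merge (leaf 1 554 586) (leaf 1 555 588))))) (node 555 (merge (leaf 0 555 591) (node 554 (merge (leaf 0 554 589) (node 586 (merge (leaf 1 553 585) (leaf 1 554 587))))))))))) (node 524 (merge (leaf 3 524 525) (node 556 (merge (leaf 3 523 523) (node 555 (merge (leaf 0 555 591) (node 587 (merge (leaf 1 554 586) (leaf 1 555 588)))))))))))))))))))))))) (node 558 (merge (node 561 (merge (node 593 (merge (leaf 4 464 496) (leaf 0 558 594))) (node 589 (merge (leaf 1 557 590) (node 557 (merge (leaf 1 556 588) (node 525 (merge (leaf 3 524 524) (leaf 3 525 526))))))))) (merge (node 591 (merge (leaf 5 463 496) (node 526 (merge (node 623 (merge (leaf 7 526 655) (node 494 (merge (leaf 4 462 462) (leaf 4 494 590))))) (node 525 (merge (leaf 3 525 561) (node 524 (merge (leaf 0 523 523) (leaf 3 524 557))))))))) (merge (node 561 (merge (node 496 (merge (leaf 5 463 591) (leaf 4 464 593))) (merge (node 593 (merge (leaf 4 464 496) (leaf 0 558 594))) (node 590 (merge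 (leaf 1 557 589) (node 562 (merge (leaf 1 558 591) (node 595 (merge (leaf 0 559 594) (node 563 (merge (leaf 0 560 596) (node 531 (merge (leaf 2 527 530) (leaf 2 528 532)))))))))))))) (merge (node 526 (merge (node 525 (merge (leaf 3 525 561) (node 524 (merge (leaf 0 523 523) (leaf 3 524 557))))) (merge (node 561 (merge (leaf 3 525 525) (node 594 (merge (leaf 0 558 593) (node 562 (merge (leaf 0 559 595) (node 590 (merge (leaf 1 557 589) (leaf 1 558 591))))))))) (merge (node 590 (merge (node 494 (merge (leaf 6 462 495) (node 591 (merge (leaf 4 462 462) (leaf 4 494 623))))) (merge (node 589 (merge (leaf 1 557 561) (node 588 (merge (leaf 1 556 557) (leaf 2 556 591))))) (node 589 (merge (leaf 1 557 561) (node 494 (merge (leaf 6 462 495) (leaf 5 493 621)))))))) (node 494 (merge (node 590 (merge (leaf 6 462 495) (node 591 (merge (leaf 4 462 462) (leaf 4 494 623))))) (merge (node 462 (merge (leaf 4 462 591) (node 557 (merge (leaf 5 461 589) (node 525 (merge (leaf 5 429 430) (leaf 3 524 524))))))) (merge (node 590 (merge (leaf 6 462 495) (node 589 (merge (leaf 5 493 621) (node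 557 (merge (leaf 5 461 462) (leaf 1 556 588))))))) (node 590 (merge (leaf 6 462 495) (node 591 (merge (leaf 4 494 623) (node 589 (merge (leaf 2 556 588) (leaf 5 493 621))))))))))))))) (merge (node 496 (merge (leaf 5 463 591) (node 561 (merge (leaf 4 464 593) (node 525 (merge (leaf 3 525 526) (node 557 (merge (leaf 3 524 524) (node 588 (merge (leaf 1 556 589) (node 556 (merge (leaf 1 555 587) (node 461 (merge (leaf 5 460 493) (node 462 (merge (leaf 0 461 497) (node 460 (merge (leaf 0 460 495) (node 428 (merge (leaf 3 427 427) (leaf 3 428 429))))))))))))))))))))) (node 462 (merge (node 496 (merge (leaf 5 463 591) (node 461 (merge (leaf 0 461 497) (node 460 (merge (leaf 0 460 495) (node 428 (merge (leaf 3 427 427) (leaf 3 428 429))))))))) (merge (node 496 (merge (leaf 5 463 591) (node 461 (merge (leaf 0 461 497) (node 492 (merge (leaf 1 460 493) (node 460 (merge (leaf 1 459 491) (node 428 (merge (leaf 3 427 427) (leaf 3 428 429))))))))))) (merge (node 461 (merge (node 493 (merge (leaf 1 460 492) (node 429 (merge (leaf 3 428 428) (node 526 (merge (leaf 7 429 494) (leaf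 4 429 525))))))) (merge (node 496 (merge (leaf 0 461 497) (node 460 (merge (leaf 0 460 495) (node 428 (merge (leaf 3 427 427) (leaf 3 428 429))))))) (node 496 (merge (leaf 0 461 497) (node 460 (merge (leaf 0 460 495) (node 492 (merge (leaf 1 459 491) (leaf 1 460 493)))))))))) (merge (node 557 (merge (node 588 (merge (leaf 1 556 589) (node 556 (merge (leaf 1 555 587) (node 524 (merge (leaf 3 523 523) (leaf 3 524 525))))))) (merge (node 525 (merge (leaf 3 524 524) (node 591 (merge (leaf 5 463 496) (node 494 (merge (leaf 4 462 526) (node 493 (merge (leaf 6 461 589) (node 492 (merge (leaf 2 459 491) (leaf 2 460 495))))))))))) (merge (node 589 (merge (leaf 1 556 588) (node 494 (merge (leaf 5 461 526) (node 493 (merge (leaf 6 461 525) (node 492 (merge (leaf 2 459 491) (leaf 2 460 495))))))))) (merge (node 588 (merge (leaf 1 556 589) (node 556 (merge (leaf 1 555 587) (node 523 (merge (leaf 3 523 524) (node 555 (merge (leaf 3 522 522) (node 591 (merge (leaf 5 463 496) (leaf 0 555 590))))))))))) (node 556 (merge (node 524 (merge (leaf 3 523 523) (leaf 3 524 525))) (merge (node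 587 (merge (leaf 1 555 588) (node 555 (merge (leaf 1 554 586) (node 523 (merge (leaf 3 522 522) (leaf 3 523 524))))))) (merge (node 587 (merge (leaf 1 555 588) (node 555 (merge (leaf 1 554 586) (node 591 (merge (leaf 0 555 590) (node 522 (merge (leaf 3 522 523) (node 554 (merge (leaf 3 521 521) (node 526 (merge (leaf 4 462 494) (leaf 2 522 525))))))))))))) (node 587 (merge (leaf 1 555 588) (node 555 (merge (leaf 1 554 586) (node 590 (merge (leaf 0 555 591) (node 525 (merge (leaf 3 524 524) (node 622 (merge (leaf 7 525 654) (node 526 (merge (leaf 7 493 493) (leaf 2 522 554)))))))))))))))))))))) (node 557 (merge (node 589 (merge (leaf 1 556 588) (node 494 (merge (leaf 5 461 526) (node 493 (merge (leaf 6 461 525) (node 492 (merge (leaf 2 459 491) (node 464 (merge (leaf 1 460 461) (leaf 2 460 495))))))))))) (merge (node 494 (merge (node 525 (merge (leaf 3 524 524) (node 526 (merge (leaf 5 429 430) (leaf 5 461 589))))) (merge (node 526 (merge (leaf 5 461 589) (node 590 (merge (leaf 6 462 495) (node 461 (merge (leaf 7 429 429) (leaf 7 461 493))))))) (merge (node 525 (merge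 (leaf 3 524 524) (node 493 (merge (leaf 6 461 589) (node 461 (merge (leaf 6 429 430) (leaf 4 461 590))))))) (node 525 (merge (leaf 3 524 524) (node 430 (merge (leaf 5 429 526) (node 493 (merge (leaf 5 397 398) (leaf 6 429 461))))))))))) (merge (node 556 (merge (node 588 (merge (leaf 1 555 587) (leaf 1 556 589))) (merge (node 587 (merge (leaf 1 555 588) (node 555 (merge (leaf 1 554 586) (node 523 (merge (leaf 3 522 522) (leaf 3 523 524))))))) (merge (node 589 (merge (leaf 1 556 588) (node 523 (merge (leaf 3 523 524) (node 555 (merge (leaf 3 522 522) (node 590 (merge (leaf 0 554 554) (leaf 0 555 591))))))))) (node 523 (merge (leaf 3 523 524) (node 555 (merge (leaf 3 522 522) (node 590 (merge (leaf 0 555 591) (node 554 (merge (leaf 0 554 589) (node 586 (merge (leaf 1 553 585) (leaf 1 554 587))))))))))))))) (node 556 (merge (node 524 (merge (leaf 3 523 523) (leaf 3 524 525))) (merge (node 587 (merge (leaf 1 555 588) (node 555 (merge (leaf 1 554 586) (node 523 (merge (leaf 3 522 522) (leaf 3 523 524))))))) (merge (node 587 (merge (leaf 1 555 588) (node 555 (merge (leaf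 1 554 586) (node 591 (merge (leaf 0 555 590) (node 522 (merge (leaf 3 522 523) (node 554 (merge (leaf 3 521 521) (node 526 (merge (leaf 4 462 494) (leaf 2 522 525))))))))))))) (node 587 (merge (leaf 1 555 588) (node 555 (merge (leaf 1 554 586) (node 590 (merge (leaf 0 555 591) (node 525 (merge (leaf 3 524 524) (node 622 (merge (leaf 7 525 654) (node 526 (merge (leaf 7 493 493) (leaf 2 522 554))))))))))))))))))))))))))))))))))))) nP_210 cP_210 13 (by decide +kernel)
def nP_211 : ℕ := 0x1000000010000000000000001c0000000000000000000000000000000000000000000000000000000000000000000000000000000000000000000000000000000000000000000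
def cP_211 : ℕ := 0xa0000000e0000000f000000efc000000f8000000fe0000003c000003780000006000000060000000000000000000000000000000000000000000000000000000000000000000000000000000000000000000
theorem lP_211 : S nP_211 cP_211 10 := S_of_chk [] trivial (node 494 (merge (node 461 (merge (node 429 (merge (leaf 3 428 428) (node 526 (merge (leaf 7 429 558) (node 397 (merge (leaf 4 365 365) (leaf 4 397 493))))))) (merge (node 460 (merge (node 492 (merge (leaf 1 459 491) (leaf 1 460 493))) (merge (node 459 (merge (leaf 0 459 495) (node 493 (merge (leaf 0 458 458) (leaf 1 460 492))))) (merge (node 459 (merge (leaf 0 459 495) (node 491 (merge (leaf 1 458 490) (leaf 1 459 492))))) (node 459 (merge (leaf 0 459 495) (node 458 (merge (leaf 0 458 493) (node 490 (merge (leaf 1 457 489) (leaf 1 458 491))))))))))) (node 428 (merge (leaf 3 428 429) (node 460 (merge (leaf 3 427 427) (node 459 (merge (leaf 0 459 495) (node 491 (merge (leaf 1 458 490) (leaf 1 459 492)))))))))))) (merge (node 493 (merge (node 492 (merge (leaf 1 460 461) (leaf 2 459 491))) (merge (node 492 (merge (leaf 2 459 491)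 (leaf 2 460 495))) (node 526 (merge (node 557 (merge (node 525 (merge (leaf 5 429 430) (node 527 (merge (leaf 1 524 556) (leaf 0 525 561))))) (node 558 (merge (leaf 5 461 589) (node 590 (merge (leaf 7 461 461) (leaf 6 462 495))))))) (merge (node 525 (merge (node 557 (merge (leaf 5 429 430) (leaf 6 461 589))) (merge (node 527 (merge (leaf 0 525 561) (node 430 (merge (leaf 5 397 398) (leaf 4 430 559))))) (node 527 (merge (leaf 0 525 561) (node 524 (merge (leaf 0 524 559) (node 556 (merge (leaf 1 523 555) (leaf 1 524 557)))))))))) (merge (node 558 (merge (node 590 (merge (leaf 7 461 461) (leaf 6 462 495))) (node 559 (merge (leaf 4 462 591) (node 525 (merge (leaf 3 525 561) (node 557 (merge (leaf 3 524 524) (leaf 6 461 589))))))))) (merge (node 558 (merge (node 590 (merge (leaf 7 461 461) (leaf 6 462 495))) (node 559 (merge (leaf 4 462 591) (node 527 (merge (leaf 4 430 430) (node 557 (merge (leaf 2 524 556) (leaf 5 461 589))))))))) (merge (node 559 (merge (node 430 (merge (leaf 4 430 527) (node 525 (merge (leaf 5 397 398) (leaf 5 429 557))))) (merge (node 591 (merge (leaf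 4 462 558) (node 623 (merge (leaf 7 494 527) (leaf 6 527 655))))) (node 558 (merge (leaf 4 462 591) (node 525 (merge (leaf 3 525 561) (node 524 (merge (leaf 0 523 523) (leaf 3 524 557)))))))))) (node 559 (merge (node 591 (merge (leaf 4 462 558) (node 623 (merge (leaf 7 494 527) (leaf 6 527 655))))) (merge (node 558 (merge (leaf 4 462 591) (node 590 (merge (leaf 6 462 495) (node 561 (merge (leaf 3 525 525) (leaf 1 557 589))))))) (node 527 (merge (node 495 (merge (leaf 7 430 430) (leaf 6 431 432))) (node 525 (merge (leaf 0 524 524) (leaf 0 525 561))))))))))))))))) (merge (node 526 (merge (node 430 (merge (node 429 (merge (leaf 7 397 397) (node 428 (merge (leaf 0 427 427) (leaf 3 428 461))))) (node 525 (merge (leaf 5 429 557) (node 527 (merge (leaf 4 430 559) (leaf 0 525 561))))))) (merge (node 558 (merge (node 590 (merge (leaf 6 462 495) (node 589 (merge (leaf 5 461 557) (leaf 5 493 621))))) (merge (node 590 (merge (leaf 6 462 495) (node 591 (merge (leaf 4 462 559) (leaf 4 494 623))))) (node 559 (merge (leaf 4 462 591) (node 525 (merge (leaf 3 525 561) (node 557 (merge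 (leaf 3 524 524) (leaf 5 461 589)))))))))) (merge (node 430 (merge (node 429 (merge (leaf 7 397 397) (node 428 (merge (leaf 0 427 427) (leaf 3 428 461))))) (node 557 (merge (leaf 5 429 525) (node 558 (merge (leaf 5 461 589) (node 495 (merge (leaf 6 462 590) (node 398 (merge (leaf 4 366 366) (leaf 4 398 527))))))))))) (merge (node 559 (merge (node 591 (merge (leaf 4 462 558) (node 623 (merge (leaf 7 494 527) (leaf 6 527 655))))) (merge (node 558 (merge (leaf 4 462 591) (node 590 (merge (leaf 6 462 495) (node 561 (merge (leaf 3 525 525) (leaf 1 557 589))))))) (node 527 (merge (node 495 (merge (leaf 7 430 430) (leaf 6 431 432))) (node 525 (merge (leaf 0 524 524) (leaf 0 525 561)))))))) (node 559 (merge (node 527 (merge (leaf 4 430 430) (node 591 (merge (leaf 7 462 495) (leaf 7 494 623))))) (merge (node 527 (merge (leaf 4 430 430) (node 495 (merge (leaf 6 431 432) (node 558 (merge (leaf 6 462 590) (node 557 (merge (leaf 2 524 556) (leaf 5 461 589))))))))) (node 558 (merge (leaf 4 462 591) (node 589 (merge (leaf 5 461 557) (node 590 (merge (leaf 1 557 561) (leaf 5 493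 621))))))))))))))) (merge (node 461 (merge (node 432 (merge (leaf 2 429 433) (node 460 (merge (node 492 (merge (leaf 1 459 491) (leaf 1 460 493))) (merge (node 459 (merge (leaf 0 459 495) (node 491 (merge (leaf 1 458 490) (leaf 1 459 492))))) (merge (node 459 (merge (leaf 0 459 495) (node 493 (merge (leaf 0 458 458) (leaf 1 460 492))))) (node 459 (merge (leaf 0 459 495) (node 458 (merge (leaf 0 458 493) (node 490 (merge (leaf 1 457 489) (leaf 1 458 491))))))))))))) (merge (node 428 (merge (leaf 3 428 429) (node 460 (merge (leaf 3 427 427) (node 459 (merge (leaf 0 459 495) (node 458 (merge (leaf 0 458 493) (node 490 (merge (leaf 1 457 489) (leaf 1 458 491))))))))))) (merge (node 428 (merge (leaf 3 428 429) (node 460 (merge (leaf 3 427 427) (node 459 (merge (leaf 0 459 495) (node 491 (merge (leaf 1 458 490) (leaf 1 459 492))))))))) (node 493 (merge (leaf 1 460 492) (node 429 (merge (leaf 3 428 428) (node 397 (merge (leaf 4 365 365) (node 398 (merge (leaf 6 365 366) (node 525 (merge (leaf 6 397 430) (node 557 (merge (leaf 6 461 589) (node 556 (merge (leaf 5 428 524)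 (leaf 5 460 588))))))))))))))))))) (merge (node 526 (merge (node 430 (merge (node 429 (merge (leaf 7 397 397) (node 428 (merge (leaf 0 427 427) (leaf 3 428 461))))) (node 525 (merge (leaf 5 429 557) (node 527 (merge (leaf 4 430 559) (leaf 0 525 561))))))) (merge (node 557 (merge (node 525 (merge (leaf 5 429 430) (node 589 (merge (leaf 6 461 493) (leaf 6 493 621))))) (merge (node 558 (merge (leaf 5 461 589) (node 461 (merge (leaf 7 429 429) (node 493 (merge (leaf 1 460 492) (leaf 7 461 590))))))) (node 430 (merge (leaf 5 429 525) (node 429 (merge (leaf 7 397 397) (node 461 (merge (leaf 3 428 428) (leaf 7 429 558)))))))))) (merge (node 527 (merge (node 561 (merge (leaf 0 525 525) (node 562 (merge (leaf 3 526 559) (leaf 3 527 563))))) (merge (node 559 (merge (leaf 4 430 430) (node 591 (merge (leaf 4 462 558) (leaf 7 494 623))))) (node 525 (merge (leaf 0 525 561) (node 493 (merge (leaf 3 492 492) (node 430 (merge (leaf 5 397 398) (leaf 5 429 557)))))))))) (merge (node 559 (merge (node 591 (merge (leaf 4 462 558) (node 623 (merge (leaf 7 494 527) (leaf 6 527 655))))) (merge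 (node 430 (merge (leaf 4 430 527) (node 429 (merge (leaf 7 397 397) (node 428 (merge (leaf 0 427 427) (leaf 3 428 461))))))) (node 558 (merge (leaf 4 462 591) (node 461 (merge (leaf 7 429 429) (node 493 (merge (leaf 1 460 492) (leaf 7 461 590)))))))))) (node 461 (merge (node 429 (merge (leaf 3 428 428) (leaf 7 429 558))) (merge (node 493 (merge (leaf 1 460 492) (node 429 (merge (leaf 3 428 428) (node 397 (merge (leaf 4 365 365) (leaf 4 397 526))))))) (node 493 (merge (leaf 1 460 492) (node 558 (merge (leaf 7 461 590) (node 559 (merge (leaf 4 462 591) (node 525 (merge (leaf 3 525 561) (node 557 (merge (leaf 3 524 524) (leaf 6 461 589))))))))))))))))))) (node 526 (merge (node 430 (merge (node 525 (merge (leaf 5 429 557) (node 527 (merge (leaf 4 430 559) (leaf 0 525 561))))) (merge (node 397 (merge (leaf 7 397 429) (node 398 (merge (leaf 7 365 365) (node 525 (merge (leaf 5 397 493) (leaf 5 429 557))))))) (node 397 (merge (leaf 7 397 429) (node 398 (merge (leaf 7 365 365) (node 527 (merge (leaf 4 398 495) (leaf 4 430 559)))))))))) (merge (node 558 (merge (node 590 (merge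 (leaf 6 462 495) (node 589 (merge (leaf 5 461 557) (leaf 5 493 621))))) (merge (node 590 (merge (leaf 6 462 495) (node 591 (merge (leaf 4 462 559) (leaf 4 494 623))))) (node 559 (merge (leaf 4 462 591) (node 557 (merge (leaf 5 461 589) (node 525 (merge (leaf 5 429 430) (leaf 3 524 524)))))))))) (merge (node 430 (merge (node 397 (merge (leaf 7 397 429) (node 398 (merge (leaf 7 365 365) (node 525 (merge (leaf 5 397 493) (leaf 5 429 557))))))) (merge (node 527 (merge (leaf 4 430 559) (node 525 (merge (leaf 0 525 561) (node 493 (merge (leaf 5 397 398) (leaf 3 492 492))))))) (node 559 (merge (leaf 4 430 527) (node 558 (merge (leaf 4 462 591) (node 589 (merge (leaf 5 461 557) (node 590 (merge (leaf 1 557 561) (leaf 5 493 621)))))))))))) (merge (node 559 (merge (node 591 (merge (leaf 4 462 558) (node 623 (merge (leaf 7 494 527) (leaf 6 527 655))))) (merge (node 558 (merge (leaf 4 462 591) (node 590 (merge (leaf 6 462 495) (node 561 (merge (leaf 3 525 525) (leaf 1 557 589))))))) (node 527 (merge (node 495 (merge (leaf 7 430 430) (leaf 6 431 432))) (node 525 (merge (leaf 0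 524 524) (leaf 0 525 561)))))))) (merge (node 559 (merge (node 527 (merge (leaf 4 430 430) (node 591 (merge (leaf 7 462 495) (leaf 7 494 623))))) (merge (node 527 (merge (leaf 4 430 430) (node 495 (merge (leaf 6 431 432) (node 558 (merge (leaf 6 462 590) (node 557 (merge (leaf 2 524 556) (leaf 5 461 589))))))))) (node 558 (merge (leaf 4 462 591) (node 589 (merge (leaf 5 461 557) (node 590 (merge (leaf 1 557 561) (leaf 5 493 621)))))))))) (merge (node 525 (merge (node 430 (merge (leaf 5 429 557) (node 397 (merge (leaf 7 397 429) (node 398 (merge (leaf 7 365 365) (leaf 5 397 493))))))) (merge (node 527 (merge (leaf 0 525 561) (node 557 (merge (leaf 1 524 556) (node 589 (merge (leaf 5 461 558) (leaf 6 493 621))))))) (node 527 (merge (leaf 0 525 561) (node 492 (merge (leaf 3 492 493) (node 524 (merge (leaf 3 491 491) (node 555 (merge (leaf 1 523 556) (node 523 (merge (leaf 2 491 495) (leaf 1 522 554)))))))))))))) (node 558 (merge (node 590 (merge (leaf 6 462 495) (node 623 (merge (leaf 4 494 591) (node 622 (merge (leaf 4 526 655) (node 621 (merge (leaf 5 493 589) (leaf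 5 525 653))))))))) (node 525 (merge (node 561 (merge (leaf 0 525 527) (leaf 3 525 559))) (merge (node 559 (merge (leaf 3 525 561) (node 524 (merge (leaf 0 523 523) (leaf 3 524 557))))) (merge (node 524 (merge (node 559 (merge (leaf 0 523 523) (leaf 3 524 557))) (merge (node 527 (merge (leaf 0 524 559) (node 492 (merge (leaf 3 491 491) (leaf 3 492 493))))) (node 527 (merge (node 492 (merge (leaf 3 491 491) (leaf 3 492 493))) (node 556 (merge (leaf 1 523 555) (leaf 1 524 557)))))))) (node 527 (merge (leaf 0 525 561) (node 556 (merge (leaf 1 524 557) (node 524 (merge (leaf 1 523 555) (node 492 (merge (leaf 3 491 491) (leaf 3 492 493)))))))))))))))))))))))))))) nP_211 cP_211 10 (by decide +kernel)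
def nP_212 : ℕ := 0x100000001000000000000000180000000000000000000000000000000000000000000000000000000000000000000000000000000000000000000000000000000000000000000
def cP_212 : ℕ := 0x2e0000002e000000ef000000efc00000cf8000004fe0000007c000007fc000007f800000ffc000003f8000001c000000100000000000000000000000000000000000000000000000000000000000000000000
theorem lP_212 : S nP_212 cP_212 12 := S_of_chk [(nP_211, cP_211, 10), (nP_192, cP_192, 10), (nP_204, cP_204, 11)] ⟨lP_211, lP_192, lP_204, trivial⟩ (node 462 (merge (node 461 (merge (node 492 (merge (leaf 1 460 493) (node 460 (merge (leaf 1 459 491) (node 428 (merge (leaf 3 427 427) (leaf 3 428 429))))))) (merge (node 432 (merge (leaf 2 429 433) (node 460 (merge (leaf 2 428 431) (node 428 (merge (leaf 3 427 427) (leaf 3 428 429))))))) (merge (node 492 (merge (leaf 1 460 493) (node 460 (merge (leaf 1 459 491) (node 432 (merge (leaf 2 428 431) (leaf 2 429 433))))))) (node 429 (merge (leaf 3 428 428) (node 432 (merge (leaf 2 429 433) (node 397 (merge (node 494 (merge (leaf 4 365 365) (node 526 (merge (leaf 7 397 430) (leaf 7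 429 558))))) (merge (node 493 (merge (leaf 1 460 492) (node 494 (merge (leaf 4 365 365) (leaf 4 397 526))))) (node 493 (merge (leaf 1 460 492) (node 398 (merge (leaf 6 365 366) (node 396 (merge (leaf 7 364 364) (node 431 (merge (leaf 0 396 399) (leaf 3 396 430)))))))))))))))))))) (merge (node 527 (merge (node 495 (merge (leaf 4 431 431) (node 559 (merge (leaf 7 430 430) (leaf 6 431 432))))) (merge (node 495 (merge (leaf 4 431 431) (node 559 (merge (leaf 6 431 432) (node 591 (merge (leaf 7 462 494) (node 590 (merge (leaf 5 462 558) (leaf 5 494 622))))))))) (merge (node 559 (merge (node 495 (merge (leaf 7 430 430) (leaf 6 431 432))) (merge (node 526 (merge (node 561 (merge (leaf 0 525 525) (leaf 3 526 562))) (node 494 (merge (leaf 4 430 430) (node 558 (merge (leaf 4 462 591) (node 557 (merge (leaf 2 524 556) (leaf 5 461 589))))))))) (node 495 (merge (leaf 6 431 432) (node 591 (merge (leaf 7 462 494) (node 590 (merge (leaf 5 462 558) (leaf 5 494 622)))))))))) (merge (node 526 (merge (node 431 (merge (leaf 4 431 495) (node 494 (merge (leaf 6 430 558) (node 399 (merge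 (leaf 5 366 367) (leaf 6 398 430))))))) (node 525 (merge (leaf 0 525 561) (node 556 (merge (leaf 1 524 557) (node 524 (merge (leaf 1 523 555) (node 492 (merge (leaf 3 491 491) (leaf 3 492 493))))))))))) (node 526 (merge (node 561 (merge (leaf 0 525 525) (node 562 (merge (leaf 3 526 559) (leaf 3 527 563))))) (merge (node 525 (merge (leaf 0 525 561) (node 556 (merge (leaf 1 524 557) (node 524 (merge (leaf 1 523 555) (node 492 (merge (leaf 3 491 491) (leaf 3 492 493))))))))) (node 494 (merge (node 431 (merge (leaf 6 430 558) (node 399 (merge (leaf 5 366 367) (leaf 6 398 430))))) (merge (node 559 (merge (leaf 4 430 430) (node 591 (merge (leaf 4 462 558) (leaf 7 494 623))))) (merge (node 558 (merge (leaf 6 430 431) (node 559 (merge (leaf 4 462 591) (node 557 (merge (leaf 2 524 556) (leaf 5 461 589))))))) (node 430 (merge (leaf 4 430 559) (node 398 (merge (node 399 (merge (leaf 6 366 367) (leaf 6 398 431))) (merge (node 367 (merge (leaf 6 366 399) (node 366 (merge (leaf 6 334 335) (node 365 (merge (leaf 7 333 333) (leaf 7 365 397))))))) (merge (node 431 (merge (leaf 6 398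 399) (node 365 (merge (leaf 7 365 397) (node 366 (merge (leaf 7 333 333) (leaf 4 334 334))))))) (node 365 (merge (leaf 7 365 397) (node 366 (merge (leaf 7 333 333) (node 335 (merge (leaf 6 334 367) (node 334 (merge (leaf 6 302 303) (leaf 4 334 431))))))))))))))))))))))))))) (merge (node 461 (merge (node 432 (merge (leaf 2 429 433) (node 460 (merge (leaf 2 428 431) (node 428 (merge (leaf 3 427 427) (leaf 3 428 429))))))) (merge (node 492 (merge (leaf 1 460 493) (node 460 (merge (leaf 1 459 491) (node 432 (merge (leaf 2 428 431) (leaf 2 429 433))))))) (node 493 (merge (leaf 1 460 492) (node 429 (merge (node 428 (merge (leaf 3 428 464) (node 427 (merge (leaf 0 426 426) (leaf 0 427 430))))) (merge (node 428 (merge (leaf 3 428 464) (node 396 (merge (leaf 7 396 525) (node 364 (merge (leaf 4 332 332) (leaf 7 364 397))))))) (node 525 (merge (node 430 (merge (leaf 6 429 557) (node 398 (merge (leaf 5 365 366) (leaf 6 397 429))))) (merge (node 526 (merge (leaf 4 429 558) (node 556 (merge (leaf 5 428 524) (node 557 (merge (leaf 1 524 527) (leaf 5 460 588))))))) (node 526 (merge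 (leaf 4 429 558) (node 527 (merge (leaf 0 525 561) (node 524 (merge (leaf 5 428 556) (leaf 0 524 559)))))))))))))))))) (merge (node 461 (merge (node 492 (merge (leaf 1 460 493) (node 460 (merge (leaf 1 459 491) (node 432 (merge (leaf 2 428 431) (leaf 2 429 433))))))) (merge (node 432 (merge (leaf 2 429 433) (node 460 (merge (leaf 2 428 431) (node 428 (merge (leaf 3 427 427) (leaf 3 428 429))))))) (node 493 (merge (leaf 1 460 492) (node 398 (merge (node 430 (merge (leaf 5 365 366) (node 525 (merge (leaf 6 397 429) (leaf 6 429 557))))) (merge (node 430 (merge (leaf 5 365 366) (node 525 (merge (leaf 5 397 494) (leaf 6 429 557))))) (merge (node 429 (merge (leaf 3 428 428) (node 397 (merge (leaf 6 365 366) (node 364 (merge (leaf 7 364 396) (node 365 (merge (leaf 7 332 332) (leaf 4 365 494))))))))) (node 429 (merge (leaf 3 428 428) (node 525 (merge (leaf 6 397 430) (node 556 (merge (leaf 5 428 524) (node 557 (merge (leaf 5 460 588) (node 589 (merge (leaf 6 461 494) (node 590 (merge (leaf 4 461 558) (leaf 4 493 622)))))))))))))))))))))) (merge (node 527 (merge (node 495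 (merge (leaf 4 431 431) (node 559 (merge (leaf 6 431 432) (node 591 (merge (leaf 7 462 494) (node 590 (merge (leaf 5 462 558) (leaf 5 494 622))))))))) (merge (node 495 (merge (leaf 4 431 431) (node 432 (merge (leaf 6 431 559) (node 461 (merge (leaf 2 429 433) (node 492 (merge (leaf 1 460 493) (node 460 (merge (leaf 1 459 491) (node 428 (merge (leaf 3 427 427) (leaf 3 428 429))))))))))))) (merge (node 526 (merge (node 561 (merge (leaf 0 525 525) (node 562 (merge (leaf 3 526 559) (leaf 3 527 563))))) (node 461 (merge (node 432 (merge (leaf 2 429 433) (node 460 (merge (leaf 2 428 431) (node 428 (merge (leaf 3 427 427) (leaf 3 428 429))))))) (merge (node 429 (merge (leaf 3 428 428) (node 494 (merge (leaf 7 429 558) (node 397 (merge (leaf 4 365 365) (leaf 4 397 493))))))) (node 492 (merge (leaf 1 460 493) (node 460 (merge (leaf 1 459 491) (node 432 (merge (leaf 2 428 431) (leaf 2 429 433)))))))))))) (merge (node 559 (merge (node 495 (merge (leaf 6 431 432) (node 591 (merge (leaf 7 462 494) (node 590 (merge (leaf 5 462 558) (leaf 5 494 622))))))) (merge (node 432 (merge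 (leaf 6 431 495) (node 461 (merge (leaf 2 429 433) (node 492 (merge (leaf 1 460 493) (node 460 (merge (leaf 1 459 491) (node 428 (merge (leaf 3 427 427) (leaf 3 428 429))))))))))) (node 558 (merge (node 557 (merge (leaf 2 524 556) (node 589 (merge (leaf 1 556 588) (node 525 (merge (leaf 3 524 524) (node 494 (merge (leaf 6 461 493) (leaf 5 461 526))))))))) (merge (node 557 (merge (leaf 2 524 556) (node 589 (merge (leaf 1 556 588) (node 561 (merge (leaf 1 557 590) (node 562 (merge (leaf 3 526 526) (leaf 3 527 563))))))))) (merge (node 526 (merge (node 561 (merge (leaf 3 525 525) (leaf 3 526 562))) (node 494 (merge (leaf 4 462 591) (node 461 (merge (leaf 7 429 429) (node 493 (merge (leaf 1 460 492) (leaf 7 461 590))))))))) (node 557 (merge (leaf 2 524 556) (node 589 (merge (leaf 1 556 588) (node 590 (merge (leaf 1 557 561) (node 525 (merge (leaf 3 524 524) (node 493 (merge (leaf 6 461 494) (leaf 4 493 622)))))))))))))))))) (merge (node 559 (merge (node 495 (merge (leaf 4 431 431) (node 590 (merge (leaf 5 462 558) (node 591 (merge (leaf 7 462 494) (leaf 5 494 622)))))))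 (merge (node 495 (merge (leaf 4 431 431) (node 558 (merge (leaf 5 462 590) (node 557 (merge (leaf 2 524 556) (node 525 (merge (leaf 3 524 524) (node 561 (merge (leaf 0 525 526) (node 594 (merge (leaf 0 558 593) (node 562 (merge (leaf 3 527 563) (leaf 0 559 595))))))))))))))) (merge (node 558 (merge (node 557 (merge (leaf 2 524 556) (node 589 (merge (leaf 1 556 588) (node 525 (merge (leaf 3 524 524) (node 494 (merge (leaf 6 461 493) (leaf 5 461 526))))))))) (merge (node 557 (merge (leaf 2 524 556) (node 589 (merge (leaf 1 556 588) (node 561 (merge (leaf 1 557 590) (node 562 (merge (leaf 3 526 526) (leaf 3 527 563))))))))) (merge (node 526 (merge (node 561 (merge (leaf 3 525 525) (leaf 3 526 562))) (node 494 (merge (leaf 4 462 591) (node 461 (merge (leaf 7 429 429) (node 493 (merge (leaf 1 460 492) (leaf 7 461 590))))))))) (node 557 (merge (leaf 2 524 556) (node 589 (merge (leaf 1 556 588) (node 590 (merge (leaf 1 557 561) (node 525 (merge (leaf 3 524 524) (node 493 (merge (leaf 6 461 494) (leaf 4 493 622))))))))))))))) (node 461 (merge (node 492 (merge (leaf 1 460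 493) (node 460 (merge (leaf 1 459 491) (node 428 (merge (leaf 3 427 427) (leaf 3 428 429))))))) (merge (node 492 (merge (leaf 1 460 493) (node 460 (merge (leaf 1 459 491) (node 495 (merge (leaf 4 431 431) (node 494 (merge (leaf 0 459 459) (leaf 7 462 591))))))))) (merge (node 428 (merge (leaf 3 428 429) (node 460 (merge (leaf 3 427 427) (node 495 (merge (leaf 4 431 431) (node 494 (merge (leaf 0 459 459) (leaf 7 462 591))))))))) (node 493 (merge (leaf 1 460 492) (node 429 (merge (leaf 3 428 428) (node 495 (merge (leaf 4 431 431) (node 494 (merge (leaf 7 462 591) (node 397 (merge (leaf 4 365 365) (leaf 4 397 526))))))))))))))))))) (node 526 (merge (node 525 (merge (leaf 0 525 561) (node 556 (merge (leaf 1 524 557) (node 524 (merge (leaf 1 523 555) (node 492 (merge (leaf 3 491 491) (leaf 3 492 493))))))))) (merge (node 461 (merge (node 432 (merge (leaf 2 429 433) (node 431 (merge (leaf 2 428 460) (leaf 4 431 495))))) (node 493 (merge (leaf 1 460 492) (node 429 (merge (leaf 3 428 428) (node 494 (merge (leaf 4 397 397) (leaf 7 429 558))))))))) (merge (node 525 (merge (leaf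 0 525 561) (node 556 (merge (leaf 1 524 557) (node 524 (merge (leaf 1 523 555) (node 491 (merge (leaf 3 491 492) (node 523 (merge (leaf 3 490 490) (node 495 (merge (leaf 4 431 431) (leaf 2 491 494))))))))))))) (node 525 (merge (leaf 0 525 561) (node 557 (merge (leaf 1 524 556) (node 431 (merge (leaf 4 431 495) (node 494 (merge (leaf 6 430 558) (node 589 (merge (leaf 6 461 493) (leaf 6 493 621))))))))))))))))))))) (merge (node 527 (merge (node 495 (merge (leaf 4 431 431) (node 430 (merge (leaf 7 430 559) (node 398 (merge (leaf 4 366 366) (leaf 4 398 494))))))) (merge (node 559 (merge (node 495 (merge (leaf 7 430 430) (leaf 6 431 432))) (merge (node 526 (merge (node 525 (merge (leaf 0 524 524) (leaf 0 525 561))) (node 494 (merge (leaf 4 430 430) (node 591 (merge (leaf 4 462 558) (leaf 7 494 623))))))) (node 495 (merge (leaf 6 431 432) (node 591 (merge (leaf 7 462 494) (node 590 (merge (leaf 5 462 558) (leaf 5 494 622)))))))))) (merge (node 495 (merge (leaf 4 431 431) (node 559 (merge (leaf 6 431 432) (node 558 (merge (leaf 5 462 590) (node 557 (merge (leaf 2 524 556)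 (node 525 (merge (leaf 3 524 524) (node 561 (merge (leaf 0 525 526) (node 594 (merge (leaf 0 558 593) (node 562 (merge (leaf 3 527 563) (leaf 0 559 595))))))))))))))))) (merge (node 431 (merge (leaf 4 431 495) (node 461 (merge (node 432 (merge (leaf 2 428 460) (node 433 (merge (leaf 1 430 434) (leaf 2 429 464))))) (node 526 (merge (node 494 (merge (leaf 6 430 558) (node 399 (merge (leaf 5 366 367) (leaf 6 398 430))))) (merge (node 525 (merge (leaf 0 525 561) (node 557 (merge (leaf 1 524 556) (node 493 (merge (leaf 6 429 430) (node 558 (merge (leaf 4 429 429) (leaf 4 461 590))))))))) (merge (node 525 (merge (leaf 0 525 561) (node 557 (merge (leaf 1 524 556) (node 494 (merge (leaf 5 429 430) (node 589 (merge (leaf 6 461 493) (leaf 6 493 621))))))))) (node 494 (merge (leaf 6 430 558) (node 525 (merge (leaf 0 525 561) (node 557 (merge (leaf 1 524 556) (node 589 (merge (leaf 6 461 493) (leaf 6 493 621))))))))))))))))) (node 526 (merge (node 525 (merge (leaf 0 525 561) (node 524 (merge (leaf 0 524 559) (node 556 (merge (leaf 1 523 555) (leaf 1 524 557))))))) (merge (node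 525 (merge (leaf 0 525 561) (node 556 (merge (leaf 1 524 557) (node 524 (merge (leaf 1 523 555) (node 492 (merge (leaf 3 491 491) (leaf 3 492 493))))))))) (node 461 (merge (node 492 (merge (leaf 1 460 493) (node 460 (merge (leaf 1 459 491) (node 428 (merge (leaf 3 427 427) (leaf 3 428 429))))))) (merge (node 492 (merge (leaf 1 460 493) (node 460 (merge (leaf 1 459 491) (node 432 (merge (leaf 2 428 431) (leaf 2 429 433))))))) (merge (node 432 (merge (leaf 2 429 433) (node 431 (merge (leaf 2 428 460) (node 494 (merge (leaf 6 430 558) (node 430 (merge (leaf 6 398 399) (leaf 4 430 559))))))))) (node 493 (merge (leaf 1 460 492) (node 429 (merge (leaf 3 428 428) (node 494 (merge (leaf 7 429 558) (node 430 (merge (leaf 4 430 559) (node 399 (merge (leaf 6 398 431) (node 398 (merge (leaf 5 365 366) (leaf 6 366 367))))))))))))))))))))))))) (merge (node 527 (merge (node 495 (merge (leaf 4 431 431) (node 559 (merge (leaf 7 430 430) (leaf 6 431 432))))) (merge (node 495 (merge (leaf 4 431 431) (node 430 (merge (leaf 7 430 559) (node 398 (merge (leaf 4 366 366) (leaf 4 398 494)))))))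 (merge (node 495 (merge (leaf 4 431 431) (node 559 (merge (leaf 6 431 432) (node 591 (merge (leaf 7 462 494) (node 623 (merge (leaf 6 527 655) (node 622 (merge (leaf 5 494 590) (leaf 5 526 654))))))))))) (merge (node 461 (merge (node 432 (merge (leaf 2 429 433) (node 460 (merge (leaf 2 428 431) (node 428 (merge (leaf 3 427 427) (leaf 3 428 429))))))) (merge (node 492 (merge (leaf 1 460 493) (node 460 (merge (leaf 1 459 491) (node 432 (merge (leaf 2 428 431) (leaf 2 429 433))))))) (node 525 (merge (node 526 (merge (leaf 0 525 561) (node 524 (merge (leaf 0 524 559) (node 492 (merge (leaf 3 491 491) (leaf 3 492 493))))))) (merge (node 526 (merge (leaf 0 525 561) (node 524 (merge (leaf 0 524 559) (node 556 (merge (leaf 1 523 555) (leaf 1 524 557))))))) (node 493 (merge (node 430 (merge (leaf 6 429 557) (node 398 (merge (leaf 5 365 366) (leaf 6 397 429))))) (node 492 (merge (leaf 1 460 464) (node 491 (merge (leaf 2 458 490) (leaf 2 459 494))))))))))))) (merge (node 525 (merge (node 526 (merge (leaf 0 525 561) (node 557 (merge (leaf 1 524 556) (node 494 (merge (leaf 5 429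 430) (node 589 (merge (leaf 6 461 493) (leaf 6 493 621))))))))) (merge (node 526 (merge (leaf 0 525 561) (node 556 (merge (leaf 1 524 557) (node 524 (merge (leaf 1 523 555) (node 492 (merge (leaf 3 491 491) (leaf 3 492 493))))))))) (merge (node 461 (merge (node 492 (merge (leaf 1 460 493) (node 460 (merge (leaf 1 459 491) (node 428 (merge (leaf 3 427 427) (leaf 3 428 429))))))) (merge (node 493 (merge (node 430 (merge (leaf 6 429 557) (node 398 (merge (leaf 5 365 366) (leaf 5 397 494))))) (node 492 (merge (leaf 1 460 464) (node 491 (merge (leaf 1 459 460) (leaf 2 458 490))))))) (merge (node 493 (merge (node 430 (merge (leaf 6 429 557) (node 398 (merge (leaf 5 365 366) (leaf 6 397 429))))) (node 492 (merge (leaf 1 460 464) (node 491 (merge (leaf 2 458 490) (leaf 2 459 494))))))) (node 428 (merge (leaf 3 428 429) (node 460 (merge (leaf 3 427 427) (node 431 (merge (leaf 2 428 432) (node 459 (merge (leaf 2 427 430) (node 495 (merge (leaf 0 459 494) (leaf 4 431 527))))))))))))))) (merge (node 526 (merge (leaf 0 525 561) (node 556 (merge (leaf 1 524 557) (node 524 (merge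 (leaf 1 523 555) (node 491 (merge (leaf 3 491 492) (node 523 (merge (leaf 3 490 490) (node 495 (merge (leaf 4 431 431) (leaf 2 491 494))))))))))))) (node 526 (merge (leaf 0 525 561) (node 492 (merge (leaf 3 492 493) (node 524 (merge (leaf 3 491 491) (node 555 (merge (leaf 1 523 556) (node 523 (merge (leaf 1 522 554) (node 495 (merge (leaf 4 431 431) (leaf 2 491 494)))))))))))))))))) (node 526 (merge (node 561 (merge (leaf 0 525 525) (node 562 (merge (leaf 3 526 559) (leaf 3 527 563))))) (merge (node 525 (merge (leaf 0 525 561) (node 556 (merge (leaf 1 524 557) (node 524 (merge (leaf 1 523 555) (node 492 (merge (leaf 3 491 491) (leaf 3 492 493))))))))) (node 494 (merge (node 559 (merge (leaf 4 430 430) (node 495 (merge (leaf 6 431 432) (leaf 7 462 591))))) (merge (node 430 (merge (leaf 4 430 559) (node 429 (merge (leaf 7 397 397) (node 428 (merge (leaf 0 427 427) (leaf 3 428 461))))))) (merge (node 461 (merge (node 429 (merge (leaf 3 428 428) (node 397 (merge (leaf 4 365 365) (leaf 4 397 493))))) (merge (node 492 (merge (leaf 1 460 493) (node 460 (merge (leaf 1 459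 491) (node 495 (merge (leaf 0 459 459) (node 432 (merge (leaf 2 429 433) (leaf 6 431 559))))))))) (node 432 (merge (leaf 2 429 433) (node 495 (merge (leaf 6 431 559) (node 428 (merge (leaf 3 428 429) (node 460 (merge (leaf 3 427 427) (node 459 (merge (leaf 0 459 494) (node 491 (merge (leaf 1 458 490) (leaf 1 459 492)))))))))))))))) (node 430 (merge (node 429 (merge (leaf 7 397 397) (node 428 (merge (leaf 0 427 427) (leaf 3 428 461))))) (merge (node 398 (merge (leaf 4 398 495) (node 367 (merge (leaf 6 366 399) (node 366 (merge (leaf 6 334 335) (node 365 (merge (leaf 7 333 333) (leaf 7 365 397))))))))) (node 398 (merge (leaf 4 398 495) (node 367 (merge (leaf 6 366 399) (node 366 (merge (leaf 6 334 335) (node 461 (merge (leaf 5 365 493) (node 429 (merge (leaf 5 333 334) (leaf 3 428 428))))))))))))))))))))))))))) (merge (hyp 0) (merge (hyp 1) (hyp 2))))))))))) nP_212 cP_212 12 (by decide +kernel)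
def nP_213 : ℕ := 0x1400000010000000000000001c0000000000000000000000000000000000000000000000000000000000000000000000000000000000000000000000000000000000000000000
def cP_213 : ℕ := 0xc0000000e0000000f800000ffc000007fe00000efe00000ebe000000fe000000bc00000038000000b80000000000000000000000000000000000000000000000000000000000000000000000000000000000000000000000000000000000
theorem lP_213 : S nP_213 cP_213 14 := S_of_chk [] trivial (node 590 (merge (node 559 (merge (node 589 (merge (leaf 1 557 561) (node 588 (merge (leaf 1 556 557) (leaf 2 555 587))))) (merge (node 561 (merge (leaf 1 557 589) (node 527 (merge (leaf 5 462 495) (node 562 (merge (leaf 3 526 526) (leaf 3 527 563))))))) (node 527 (merge (leaf 5 462 495) (node 622 (merge (leaf 6 526 654) (node 557 (merge (leaf 2 524 556) (node 525 (merge (leaf 3 524 524) (node 493 (merge (leaf 4 461 461) (leaf 7 493 526)))))))))))))) (merge (node 559 (merge (node 561 (merge (leaf 1 557 589) (node 594 (merge (leaf 0 558 593) (node 562 (merge (leaf 1 558 591) (leaf 0 559 595))))))) (merge (node 527 (merge (node 495 (merge (leaf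 4 431 431) (leaf 5 462 590))) (node 557 (merge (leaf 2 524 556) (node 525 (merge (leaf 3 524 524) (node 561 (merge (leaf 0 525 526) (node 594 (merge (leaf 0 558 593) (node 562 (merge (leaf 3 527 563) (leaf 0 559 595))))))))))))) (node 527 (merge (leaf 5 462 495) (node 557 (merge (leaf 2 524 556) (node 589 (merge (leaf 1 556 588) (node 525 (merge (leaf 3 524 524) (node 493 (merge (leaf 4 461 461) (node 492 (merge (leaf 7 460 460) (leaf 3 492 526)))))))))))))))) (merge (node 622 (merge (node 559 (merge (node 527 (merge (leaf 5 462 495) (leaf 6 526 654))) (node 589 (merge (leaf 1 557 561) (node 588 (merge (leaf 2 555 587) (leaf 2 556 591))))))) (merge (node 527 (merge (node 495 (merge (leaf 4 431 431) (leaf 6 494 526))) (node 654 (merge (leaf 6 526 559) (node 687 (merge (leaf 4 558 655) (node 686 (merge (leaf 4 590 719) (node 685 (merge (leaf 5 557 653) (leaf 5 589 717))))))))))) (merge (node 655 (merge (node 526 (merge (leaf 4 526 623) (node 527 (merge (leaf 6 494 495) (node 525 (merge (leaf 7 493 493) (leaf 0 525 561))))))) (merge (node 687 (merge (leaf 4 558 654)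 (node 623 (merge (leaf 7 558 591) (leaf 7 590 719))))) (node 654 (merge (leaf 4 558 687) (node 653 (merge (leaf 5 557 685) (node 621 (merge (leaf 5 525 526) (node 620 (merge (leaf 0 619 619) (leaf 3 620 656)))))))))))) (merge (node 623 (merge (node 655 (merge (leaf 4 526 526) (node 687 (merge (leaf 7 558 591) (leaf 7 590 719))))) (merge (node 526 (merge (leaf 4 526 655) (node 525 (merge (leaf 7 493 493) (node 561 (merge (leaf 0 525 527) (leaf 3 525 559))))))) (merge (node 589 (merge (node 588 (merge (leaf 0 587 587) (node 559 (merge (leaf 1 557 561) (leaf 2 556 591))))) (merge (node 588 (merge (leaf 0 587 587) (node 624 (merge (leaf 3 588 621) (leaf 3 589 625))))) (node 559 (merge (leaf 1 557 561) (node 591 (merge (leaf 6 527 655) (node 624 (merge (leaf 3 589 625) (node 527 (merge (leaf 5 462 495) (leaf 4 527 656)))))))))))) (node 527 (merge (node 495 (merge (leaf 4 431 431) (leaf 6 494 526))) (merge (node 495 (merge (leaf 4 431 431) (leaf 5 462 559))) (node 621 (merge (node 653 (merge (leaf 5 525 526) (node 685 (merge (leaf 6 557 589) (leaf 6 589 717))))) (merge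 (node 526 (merge (leaf 5 525 653) (node 525 (merge (leaf 7 493 493) (leaf 0 525 561))))) (node 624 (merge (node 589 (merge (leaf 3 588 588) (leaf 3 589 625))) (merge (node 657 (merge (leaf 0 621 656) (node 625 (merge (leaf 0 622 658) (node 593 (merge (leaf 7 528 561) (leaf 2 590 594))))))) (node 656 (merge (leaf 0 621 657) (node 589 (merge (leaf 3 588 588) (node 559 (merge (leaf 1 557 561) (leaf 4 527 591)))))))))))))))))))) (node 655 (merge (node 687 (merge (leaf 4 558 654) (node 623 (merge (leaf 7 558 591) (leaf 7 590 719))))) (merge (node 654 (merge (leaf 4 558 687) (node 653 (merge (leaf 5 557 685) (node 621 (merge (leaf 5 525 526) (node 620 (merge (leaf 0 619 619) (leaf 3 620 656))))))))) (node 623 (merge (leaf 4 526 526) (node 559 (merge (leaf 6 527 591) (node 561 (merge (leaf 1 557 589) (node 593 (merge (leaf 0 558 594) (node 657 (merge (leaf 7 528 625) (node 656 (merge (leaf 3 622 658) (node 621 (merge (leaf 0 620 620) (leaf 0 621 624))))))))))))))))))))))) (merge (node 559 (merge (node 589 (merge (leaf 1 557 561) (node 588 (merge (leaf 2 555 587) (leaf 2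 556 591))))) (merge (node 589 (merge (leaf 1 557 561) (node 588 (merge (leaf 1 556 557) (leaf 2 555 587))))) (merge (node 527 (merge (leaf 5 462 495) (node 557 (merge (leaf 2 524 556) (node 525 (merge (leaf 3 524 524) (node 561 (merge (leaf 0 525 526) (node 562 (merge (leaf 3 527 563) (leaf 1 558 591))))))))))) (node 589 (merge (node 588 (merge (leaf 1 556 557) (leaf 2 555 587))) (merge (node 588 (merge (leaf 2 555 587) (leaf 2 556 591))) (node 621 (merge (node 653 (merge (leaf 6 557 685) (node 526 (merge (leaf 6 525 557) (leaf 5 525 622))))) (merge (node 527 (merge (leaf 5 462 495) (node 622 (merge (leaf 6 526 654) (node 557 (merge (leaf 2 524 556) (node 525 (merge (leaf 3 524 524) (node 620 (merge (leaf 5 524 652) (node 619 (merge (leaf 2 587 591) (leaf 2 586 618))))))))))))) (merge (node 653 (merge (leaf 6 557 685) (node 527 (merge (leaf 5 462 495) (node 622 (merge (leaf 5 525 526) (leaf 6 526 654))))))) (node 653 (merge (leaf 6 557 685) (node 527 (merge (leaf 5 462 495) (node 557 (merge (leaf 2 524 556) (node 525 (merge (leaf 3 524 524) (node 652 (merge (leaf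 5 524 620) (leaf 5 556 684)))))))))))))))))))))) (merge (node 527 (merge (node 495 (merge (leaf 4 431 431) (leaf 5 462 559))) (merge (node 495 (merge (leaf 4 431 431) (node 526 (merge (leaf 6 494 622) (node 525 (merge (leaf 0 525 561) (node 557 (merge (leaf 1 524 556) (node 493 (merge (leaf 4 461 461) (leaf 3 492 492))))))))))) (node 557 (merge (node 556 (merge (leaf 2 524 559) (node 526 (merge (leaf 1 524 525) (leaf 2 523 555))))) (merge (node 525 (merge (node 526 (merge (leaf 0 525 561) (node 493 (merge (leaf 3 492 492) (leaf 7 493 622))))) (merge (node 561 (merge (leaf 0 525 526) (node 559 (merge (leaf 3 524 524) (node 562 (merge (leaf 3 527 563) (leaf 1 558 591))))))) (node 524 (merge (leaf 3 524 559) (node 461 (merge (leaf 4 461 493) (node 428 (merge (leaf 3 428 429) (node 460 (merge (leaf 3 427 427) (leaf 4 428 492)))))))))))) (merge (node 556 (merge (leaf 2 524 559) (node 555 (merge (leaf 0 555 591) (node 586 (merge (leaf 1 554 587) (node 554 (merge (leaf 1 553 585) (node 522 (merge (leaf 3 521 521) (leaf 3 522 523))))))))))) (node 556 (merge (node 555 (merge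 (leaf 0 555 591) (node 586 (merge (leaf 1 554 587) (node 554 (merge (leaf 1 553 585) (node 522 (merge (leaf 3 521 521) (leaf 3 522 523))))))))) (node 525 (merge (leaf 1 524 526) (node 461 (merge (leaf 4 461 493) (node 428 (merge (leaf 3 428 429) (node 460 (merge (leaf 3 427 427) (node 492 (merge (leaf 1 459 491) (leaf 4 428 524)))))))))))))))))))) (merge (node 559 (merge (node 589 (merge (leaf 1 557 561) (node 588 (merge (leaf 1 556 557) (leaf 2 555 587))))) (merge (node 561 (merge (leaf 1 557 589) (node 594 (merge (leaf 0 558 593) (node 562 (merge (leaf 1 558 591) (leaf 0 559 595))))))) (merge (node 525 (merge (node 524 (merge (leaf 3 524 557) (node 526 (merge (leaf 0 523 523) (leaf 3 525 561))))) (merge (node 561 (merge (leaf 3 525 526) (node 594 (merge (leaf 0 558 593) (node 562 (merge (leaf 1 558 591) (leaf 0 559 595))))))) (node 557 (merge (leaf 3 524 524) (node 461 (merge (leaf 4 461 493) (node 428 (merge (leaf 3 428 429) (node 460 (merge (leaf 3 427 427) (node 491 (merge (leaf 1 459 492) (node 459 (merge (leaf 1 458 490) (node 555 (merge (leaf 6 427 523) (node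 556 (merge (leaf 0 555 591) (node 587 (merge (leaf 1 554 586) (leaf 1 555 588)))))))))))))))))))))) (node 557 (merge (node 525 (merge (leaf 3 524 524) (node 622 (merge (leaf 7 525 654) (node 493 (merge (leaf 4 461 461) (leaf 4 493 589))))))) (merge (node 588 (merge (leaf 1 556 589) (node 556 (merge (leaf 1 555 587) (node 555 (merge (leaf 0 555 591) (node 523 (merge (leaf 3 522 522) (leaf 3 523 524))))))))) (merge (node 524 (merge (leaf 3 524 525) (node 556 (merge (leaf 3 523 523) (node 555 (merge (leaf 0 555 591) (node 587 (merge (leaf 1 554 586) (leaf 1 555 588))))))))) (node 461 (merge (node 493 (merge (leaf 1 460 492) (leaf 4 461 525))) (merge (node 588 (merge (leaf 1 556 589) (node 556 (merge (leaf 1 555 587) (node 555 (merge (leaf 0 555 591) (node 428 (merge (leaf 3 428 429) (node 460 (merge (leaf 3 427 427) (node 491 (merge (leaf 1 459 492) (node 459 (merge (leaf 1 458 490) (leaf 6 427 523))))))))))))))) (node 588 (merge (leaf 1 556 589) (node 556 (merge (leaf 1 555 587) (node 555 (merge (leaf 0 555 591) (node 522 (merge (leaf 3 522 523) (node 554 (merge (leaf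 3 521 521) (node 525 (merge (leaf 4 461 493) (leaf 2 522 526)))))))))))))))))))))))) (merge (node 559 (merge (node 527 (merge (leaf 5 462 495) (node 622 (merge (leaf 6 526 654) (node 557 (merge (leaf 2 524 556) (node 525 (merge (leaf 3 524 524) (node 493 (merge (leaf 4 461 461) (leaf 7 493 526))))))))))) (merge (node 527 (merge (leaf 5 462 495) (node 557 (merge (leaf 2 524 556) (node 589 (merge (leaf 1 556 588) (node 525 (merge (leaf 3 524 524) (node 493 (merge (leaf 4 461 461) (node 492 (merge (leaf 7 460 460) (leaf 3 492 526))))))))))))) (merge (node 557 (merge (node 589 (merge (leaf 1 556 588) (node 525 (merge (leaf 3 524 524) (node 622 (merge (leaf 4 493 493) (leaf 7 525 654))))))) (merge (node 556 (merge (leaf 2 524 527) (node 555 (merge (leaf 0 555 591) (node 523 (merge (leaf 3 522 522) (leaf 3 523 524))))))) (node 556 (merge (leaf 2 524 527) (node 555 (merge (leaf 0 555 591) (node 587 (merge (leaf 1 554 586) (leaf 1 555 588)))))))))) (merge (node 622 (merge (node 527 (merge (leaf 5 462 495) (leaf 6 526 654))) (merge (node 655 (merge (node 623 (merge (leaf 4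 526 526) (leaf 6 527 591))) (merge (node 623 (merge (leaf 6 527 591) (node 687 (merge (leaf 4 558 654) (leaf 7 590 719))))) (node 654 (merge (leaf 4 558 687) (node 653 (merge (leaf 5 557 685) (node 621 (merge (leaf 5 525 526) (node 620 (merge (leaf 0 619 619) (leaf 3 620 656)))))))))))) (node 621 (merge (node 653 (merge (leaf 5 525 526) (node 685 (merge (leaf 6 557 589) (leaf 6 589 717))))) (merge (node 623 (merge (node 655 (merge (leaf 4 526 526) (leaf 6 527 591))) (merge (node 653 (merge (leaf 5 525 526) (node 652 (merge (leaf 1 620 624) (node 651 (merge (leaf 1 619 620) (leaf 2 618 650))))))) (node 655 (merge (leaf 6 527 591) (node 656 (merge (leaf 0 620 620) (node 657 (merge (leaf 0 621 624) (leaf 3 622 658)))))))))) (merge (node 623 (merge (node 655 (merge (leaf 4 526 526) (leaf 6 527 591))) (merge (node 527 (merge (leaf 5 462 495) (node 557 (merge (leaf 2 524 556) (node 589 (merge (leaf 1 556 588) (node 624 (merge (leaf 3 589 625) (node 656 (merge (leaf 4 527 591) (leaf 0 621 657))))))))))) (node 655 (merge (leaf 4 526 526) (node 656 (merge (leaf 0 620 620)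 (node 657 (merge (leaf 0 621 624) (leaf 3 622 658)))))))))) (node 527 (merge (leaf 5 462 495) (node 557 (merge (leaf 2 524 556) (node 589 (merge (leaf 1 556 588) (node 653 (merge (leaf 6 557 685) (node 652 (merge (leaf 5 556 684) (node 623 (merge (leaf 1 620 624) (node 651 (merge (leaf 1 619 620) (leaf 2 618 650)))))))))))))))))))))) (merge (node 622 (merge (node 527 (merge (leaf 5 462 495) (leaf 6 526 654))) (merge (node 655 (merge (node 623 (merge (leaf 4 526 526) (leaf 6 527 591))) (merge (node 623 (merge (leaf 6 527 591) (node 687 (merge (leaf 4 558 654) (leaf 7 590 719))))) (node 654 (merge (leaf 4 558 687) (node 653 (merge (leaf 5 557 685) (node 621 (merge (leaf 5 525 526) (node 620 (merge (leaf 0 619 619) (leaf 3 620 656)))))))))))) (node 623 (merge (node 655 (merge (leaf 4 526 526) (leaf 6 527 591))) (merge (node 526 (merge (leaf 4 526 655) (node 527 (merge (leaf 6 494 495) (node 525 (merge (leaf 7 493 493) (leaf 0 524 524))))))) (merge (node 591 (merge (leaf 6 527 655) (node 527 (merge (leaf 5 494 495) (node 624 (merge (leaf 4 527 656) (node 625 (merge (leaf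 3 589 589) (leaf 3 590 626))))))))) (node 624 (merge (node 589 (merge (leaf 3 589 625) (node 588 (merge (leaf 0 587 587) (leaf 3 588 621))))) (merge (node 625 (merge (leaf 3 589 589) (node 591 (merge (leaf 3 590 626) (node 527 (merge (leaf 5 462 495) (leaf 4 527 656))))))) (node 527 (merge (leaf 5 462 495) (node 656 (merge (leaf 4 527 591) (node 621 (merge (leaf 0 621 657) (node 653 (merge (leaf 5 525 526) (leaf 1 620 652))))))))))))))))))) (node 557 (merge (node 525 (merge (leaf 3 524 524) (node 622 (merge (leaf 7 525 654) (node 493 (merge (leaf 4 461 461) (leaf 7 493 526))))))) (merge (node 588 (merge (leaf 1 556 589) (node 556 (merge (leaf 1 555 587) (node 555 (merge (leaf 0 555 591) (node 523 (merge (leaf 3 522 522) (leaf 3 523 524))))))))) (node 461 (merge (node 493 (merge (leaf 4 461 525) (node 492 (merge (leaf 1 460 464) (node 491 (merge (leaf 1 459 460) (leaf 2 458 490))))))) (merge (node 588 (merge (leaf 1 556 589) (node 556 (merge (leaf 1 555 587) (node 555 (merge (leaf 0 555 591) (node 428 (merge (leaf 3 428 429) (node 460 (merge (leaf 3 427 427) (node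 491 (merge (leaf 1 459 492) (node 459 (merge (leaf 1 458 490) (leaf 6 427 523))))))))))))))) (node 588 (merge (leaf 1 556 589) (node 556 (merge (leaf 1 555 587) (node 555 (merge (leaf 0 555 591) (node 522 (merge (leaf 3 522 523) (node 554 (merge (leaf 3 521 521) (node 525 (merge (leaf 4 461 493) (leaf 2 522 526))))))))))))))))))))))))) (merge (node 589 (merge (node 559 (merge (leaf 1 557 561) (node 588 (merge (leaf 2 555 587) (leaf 2 556 591))))) (merge (node 559 (merge (leaf 1 557 561) (node 527 (merge (leaf 5 462 495) (node 622 (merge (leaf 6 526 654) (node 557 (merge (leaf 2 524 556) (node 525 (merge (leaf 4 493 493) (leaf 3 524 524))))))))))) (node 588 (merge (node 587 (merge (node 618 (merge (leaf 1 586 619) (node 586 (merge (leaf 2 554 557) (leaf 1 585 617))))) (merge (node 586 (merge (leaf 2 554 557) (node 554 (merge (leaf 3 553 553) (leaf 3 554 555))))) (node 619 (merge (leaf 1 586 618) (node 591 (merge (leaf 1 587 620) (node 555 (merge (leaf 3 554 554) (leaf 3 555 556)))))))))) (merge (node 587 (merge (node 622 (merge (leaf 0 587 623) (node 586 (merge (leaf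 2 554 557) (leaf 0 586 621))))) (merge (node 586 (merge (leaf 2 554 557) (node 554 (merge (leaf 3 553 553) (leaf 3 554 555))))) (node 623 (merge (leaf 0 587 622) (node 591 (merge (leaf 0 588 624) (node 555 (merge (leaf 3 554 554) (leaf 3 555 556)))))))))) (merge (node 587 (merge (node 618 (merge (leaf 1 586 619) (node 586 (merge (leaf 2 554 557) (leaf 1 585 617))))) (merge (node 622 (merge (leaf 0 587 623) (node 586 (merge (leaf 2 554 557) (leaf 0 586 621))))) (node 623 (merge (leaf 0 587 622) (node 591 (merge (leaf 0 588 624) (node 619 (merge (leaf 1 586 618) (leaf 1 587 620)))))))))) (merge (node 623 (merge (node 622 (merge (leaf 0 587 587) (node 624 (merge (leaf 3 588 621) (leaf 3 589 625))))) (merge (node 624 (merge (leaf 0 588 591) (node 622 (merge (leaf 3 588 621) (leaf 3 589 625))))) (merge (node 587 (merge (leaf 0 587 622) (node 619 (merge (leaf 1 586 618) (node 591 (merge (leaf 1 587 620) (node 555 (merge (leaf 3 554 554) (leaf 3 555 556))))))))) (node 591 (merge (leaf 0 588 624) (node 619 (merge (leaf 1 587 620) (node 587 (merge (leaf 1 586 618) (node 555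 (merge (leaf 3 554 554) (leaf 3 555 556))))))))))))) (merge (node 557 (merge (node 587 (merge (leaf 2 554 586) (node 622 (merge (leaf 0 587 623) (node 654 (merge (leaf 7 525 525) (leaf 7 557 686))))))) (merge (node 621 (merge (node 653 (merge (leaf 6 557 685) (node 524 (merge (leaf 7 524 556) (node 525 (merge (leaf 7 492 492) (node 654 (merge (leaf 7 525 622) (leaf 4 557 686))))))))) (merge (node 653 (merge (leaf 6 557 685) (node 654 (merge (leaf 4 557 686) (node 525 (merge (leaf 7 525 622) (node 652 (merge (leaf 5 524 620) (leaf 5 556 684))))))))) (merge (node 653 (merge (leaf 6 557 685) (node 556 (merge (leaf 7 524 524) (node 555 (merge (leaf 0 554 554) (node 523 (merge (leaf 3 522 522) (node 652 (merge (leaf 7 523 620) (leaf 5 556 684))))))))))) (node 525 (merge (node 620 (merge (leaf 5 492 493) (leaf 5 524 652))) (merge (node 622 (merge (leaf 4 493 493) (leaf 7 525 654))) (node 524 (merge (leaf 7 492 492) (node 622 (merge (leaf 7 525 654) (node 620 (merge (leaf 5 524 652) (node 619 (merge (leaf 2 586 618) (node 651 (merge (leaf 5 523 556) (leaf 1 618 650))))))))))))))))))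 (node 556 (merge (node 555 (merge (leaf 0 554 554) (node 587 (merge (leaf 1 554 586) (node 619 (merge (leaf 1 586 618) (node 524 (merge (leaf 5 491 492) (leaf 6 523 651))))))))) (merge (node 555 (merge (leaf 0 554 554) (node 587 (merge (leaf 1 554 586) (node 523 (merge (leaf 3 522 522) (node 620 (merge (leaf 4 491 491) (leaf 7 523 652))))))))) (node 492 (merge (node 461 (merge (leaf 1 460 493) (node 524 (merge (leaf 4 492 621) (node 460 (merge (leaf 6 428 429) (leaf 4 460 557))))))) (merge (node 461 (merge (leaf 1 460 493) (node 460 (merge (leaf 1 459 491) (node 428 (merge (leaf 3 427 427) (leaf 3 428 429))))))) (node 524 (merge (leaf 4 492 621) (node 491 (merge (leaf 7 459 459) (node 620 (merge (leaf 7 491 523) (node 651 (merge (leaf 5 523 619) (node 652 (merge (leaf 5 555 683) (node 684 (merge (leaf 6 556 557) (node 685 (merge (leaf 4 556 653) (leaf 4 588 717)))))))))))))))))))))))) (node 556 (merge (node 555 (merge (leaf 3 555 591) (node 554 (merge (leaf 0 553 553) (leaf 0 554 557))))) (merge (node 492 (merge (node 461 (merge (leaf 1 460 493) (node 524 (merge (leaf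 4 492 621) (node 460 (merge (leaf 6 428 429) (leaf 4 460 557))))))) (merge (node 461 (merge (leaf 1 460 493) (node 460 (merge (leaf 1 459 491) (node 428 (merge (leaf 3 427 427) (leaf 3 428 429))))))) (node 524 (merge (leaf 4 492 621) (node 491 (merge (leaf 7 459 459) (node 620 (merge (leaf 7 491 523) (node 651 (merge (leaf 5 523 619) (node 652 (merge (leaf 5 555 683) (node 684 (merge (leaf 6 556 557) (node 685 (merge (leaf 4 556 653) (leaf 4 588 717)))))))))))))))))) (node 653 (merge (node 621 (merge (leaf 6 557 685) (node 524 (merge (leaf 4 492 492) (leaf 4 524 620))))) (merge (node 591 (merge (leaf 3 555 555) (node 620 (merge (leaf 1 587 619) (node 524 (merge (leaf 4 524 621) (node 493 (merge (leaf 6 492 525) (node 492 (merge (leaf 6 460 461) (node 491 (merge (leaf 7 459 459) (leaf 7 491 523))))))))))))) (merge (node 621 (merge (leaf 6 557 685) (node 492 (merge (leaf 4 492 524) (node 461 (merge (leaf 1 460 493) (node 460 (merge (leaf 1 459 491) (node 428 (merge (leaf 3 427 427) (leaf 3 428 429))))))))))) (node 591 (merge (leaf 3 555 555) (node 623 (merge (leaf 0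 588 624) (node 620 (merge (leaf 1 587 619) (node 687 (merge (leaf 7 558 655) (node 652 (merge (leaf 4 556 685) (node 651 (merge (leaf 5 555 683) (node 654 (merge (leaf 2 619 622) (leaf 0 651 686))))))))))))))))))))))))))))))) (merge (node 428 (merge (node 461 (merge (leaf 3 428 429) (node 492 (merge (leaf 1 460 493) (node 460 (merge (leaf 3 427 427) (leaf 1 459 491))))))) (node 622 (merge (node 559 (merge (node 527 (merge (leaf 5 462 495) (leaf 6 526 654))) (node 589 (merge (leaf 1 557 561) (node 588 (merge (leaf 1 556 557) (leaf 2 555 587))))))) (merge (node 527 (merge (node 495 (merge (leaf 4 431 431) (leaf 6 494 526))) (node 654 (merge (leaf 6 526 559) (node 687 (merge (leaf 4 558 655) (node 686 (merge (leaf 4 590 719) (node 685 (merge (leaf 5 557 653) (leaf 5 589 717))))))))))) (merge (node 654 (merge (node 687 (merge (leaf 4 558 655) (node 686 (merge (leaf 4 590 719) (node 685 (merge (leaf 5 557 653) (leaf 5 589 717))))))) (merge (node 655 (merge (leaf 4 558 687) (node 526 (merge (leaf 4 526 623) (node 653 (merge (leaf 5 525 621) (leaf 5 557 685))))))) (merge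 (node 686 (merge (node 687 (merge (leaf 4 558 655) (leaf 4 590 719))) (merge (node 589 (merge (leaf 7 557 557) (node 718 (merge (leaf 7 589 621) (node 623 (merge (leaf 6 590 591) (node 655 (merge (leaf 4 526 526) (leaf 6 622 750))))))))) (node 589 (merge (leaf 7 557 557) (node 718 (merge (leaf 7 589 621) (node 719 (merge (leaf 4 590 687) (leaf 4 622 751)))))))))) (merge (node 685 (merge (leaf 5 557 653) (node 686 (merge (leaf 5 589 717) (node 589 (merge (leaf 7 557 557) (node 718 (merge (leaf 7 589 621) (node 623 (merge (leaf 6 590 591) (node 655 (merge (leaf 4 526 526) (leaf 6 622 750))))))))))))) (node 685 (merge (leaf 5 557 653) (node 686 (merge (leaf 5 589 717) (node 589 (merge (leaf 7 557 557) (node 718 (merge (leaf 7 589 621) (node 719 (merge (leaf 4 590 687) (leaf 4 622 751)))))))))))))))) (node 623 (merge (node 655 (merge (leaf 4 526 526) (node 687 (merge (leaf 7 558 591) (leaf 7 590 719))))) (merge (node 589 (merge (node 588 (merge (leaf 0 587 587) (node 624 (merge (leaf 0 588 591) (leaf 3 588 621))))) (merge (node 559 (merge (leaf 1 557 561) (node 588 (merge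 (leaf 1 556 557) (leaf 2 555 587))))) (node 559 (merge (leaf 1 557 561) (node 624 (merge (leaf 3 589 625) (node 527 (merge (leaf 5 462 495) (node 656 (merge (leaf 4 527 591) (node 621 (merge (leaf 0 621 657) (node 653 (merge (leaf 5 525 526) (leaf 1 620 652)))))))))))))))) (merge (node 621 (merge (node 526 (merge (leaf 5 525 653) (leaf 4 526 655))) (merge (node 653 (merge (node 685 (merge (leaf 6 557 589) (leaf 6 589 717))) (node 652 (merge (leaf 1 620 624) (node 651 (merge (leaf 1 619 620) (leaf 2 618 650))))))) (node 655 (merge (leaf 4 526 526) (node 656 (merge (leaf 0 620 620) (node 657 (merge (leaf 0 621 624) (leaf 3 622 658)))))))))) (node 624 (merge (node 589 (merge (leaf 3 589 625) (node 588 (merge (leaf 0 588 591) (leaf 3 588 621))))) (merge (node 625 (merge (leaf 3 589 589) (node 657 (merge (leaf 0 622 658) (node 593 (merge (leaf 7 528 561) (leaf 2 590 594))))))) (merge (node 625 (merge (node 594 (merge (leaf 2 590 593) (node 626 (merge (leaf 3 590 591) (leaf 2 591 595))))) (merge (node 657 (merge (leaf 0 622 658) (node 593 (merge (leaf 7 528 561) (leaf 2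 590 594))))) (node 658 (merge (leaf 0 622 657) (node 626 (merge (leaf 3 590 591) (leaf 0 623 659)))))))) (node 621 (merge (node 653 (merge (leaf 1 620 652) (node 589 (merge (leaf 3 588 588) (leaf 6 557 685))))) (merge (node 656 (merge (leaf 0 621 657) (node 620 (merge (leaf 0 620 655) (node 619 (merge (leaf 2 587 591) (node 589 (merge (leaf 3 588 588) (leaf 2 586 618))))))))) (node 656 (merge (leaf 0 621 657) (node 655 (merge (leaf 0 620 620) (node 687 (merge (leaf 7 558 591) (leaf 7 590 719)))))))))))))))))))))))) (node 622 (merge (node 653 (merge (node 526 (merge (leaf 5 525 621) (node 527 (merge (leaf 6 494 495) (node 525 (merge (leaf 7 493 493) (leaf 0 525 561))))))) (merge (node 685 (merge (leaf 5 557 654) (node 621 (merge (leaf 6 557 589) (leaf 6 589 717))))) (node 654 (merge (leaf 5 557 685) (node 525 (merge (leaf 7 525 557) (node 526 (merge (leaf 7 493 493) (node 527 (merge (leaf 6 494 495) (leaf 0 525 561)))))))))))) (merge (node 525 (merge (node 557 (merge (leaf 7 525 654) (node 493 (merge (leaf 4 461 461) (leaf 4 493 589))))) (merge (node 526 (merge (leaf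 7 493 493) (node 527 (merge (leaf 6 494 495) (leaf 0 525 561))))) (node 654 (merge (leaf 7 525 557) (node 655 (merge (leaf 4 558 687) (node 526 (merge (leaf 4 526 623) (node 527 (merge (leaf 6 494 495) (leaf 0 525 561)))))))))))) (merge (node 654 (merge (node 687 (merge (leaf 4 558 655) (node 686 (merge (leaf 4 590 719) (node 685 (merge (leaf 5 557 653) (leaf 5 589 717))))))) (merge (node 655 (merge (leaf 4 558 687) (node 526 (merge (leaf 4 526 623) (node 653 (merge (leaf 5 525 621) (leaf 5 557 685))))))) (merge (node 686 (merge (node 687 (merge (leaf 4 558 655) (leaf 4 590 719))) (merge (node 589 (merge (leaf 7 557 557) (node 718 (merge (leaf 7 589 621) (node 623 (merge (leaf 6 590 591) (node 655 (merge (leaf 4 526 526) (leaf 6 622 750))))))))) (node 589 (merge (leaf 7 557 557) (node 718 (merge (leaf 7 589 621) (node 719 (merge (leaf 4 590 687) (leaf 4 622 751)))))))))) (merge (node 685 (merge (leaf 5 557 653) (node 686 (merge (leaf 5 589 717) (node 589 (merge (leaf 7 557 557) (node 718 (merge (leaf 7 589 621) (node 623 (merge (leaf 6 590 591) (node 655 (merge (leaf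 4 526 526) (leaf 6 622 750))))))))))))) (node 685 (merge (leaf 5 557 653) (node 686 (merge (leaf 5 589 717) (node 589 (merge (leaf 7 557 557) (node 718 (merge (leaf 7 589 621) (node 719 (merge (leaf 4 590 687) (leaf 4 622 751)))))))))))))))) (merge (node 655 (merge (node 526 (merge (leaf 4 526 623) (node 527 (merge (leaf 6 494 495) (node 525 (merge (leaf 7 493 493) (leaf 0 525 561))))))) (merge (node 687 (merge (leaf 4 558 654) (node 623 (merge (leaf 7 558 591) (leaf 7 590 719))))) (node 654 (merge (leaf 4 558 687) (node 653 (merge (leaf 5 557 685) (node 621 (merge (leaf 5 525 526) (node 620 (merge (leaf 0 619 619) (leaf 3 620 656)))))))))))) (merge (node 654 (merge (node 687 (merge (leaf 4 558 655) (node 686 (merge (leaf 4 590 719) (node 685 (merge (leaf 5 557 653) (leaf 5 589 717))))))) (merge (node 557 (merge (leaf 7 525 525) (node 686 (merge (leaf 7 557 589) (node 687 (merge (leaf 4 558 655) (leaf 4 590 719))))))) (merge (node 557 (merge (leaf 7 525 525) (node 686 (merge (leaf 7 557 589) (node 685 (merge (leaf 5 557 653) (leaf 5 589 717))))))) (node 621 (merge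 (node 655 (merge (leaf 4 558 687) (node 620 (merge (leaf 0 619 619) (node 656 (merge (leaf 0 620 623) (leaf 3 621 657))))))) (merge (node 655 (merge (leaf 4 558 687) (node 656 (merge (leaf 3 621 657) (node 653 (merge (leaf 3 620 620) (leaf 5 557 685))))))) (node 653 (merge (leaf 5 557 685) (node 652 (merge (node 651 (merge (leaf 2 619 623) (leaf 2 618 650))) (node 557 (merge (leaf 7 525 525) (node 589 (merge (leaf 5 556 684) (node 556 (merge (leaf 7 524 524) (node 555 (merge (leaf 0 554 554) (leaf 0 555 591)))))))))))))))))))) (node 623 (merge (node 655 (merge (leaf 4 526 526) (node 687 (merge (leaf 7 558 591) (leaf 7 590 719))))) (merge (node 526 (merge (leaf 4 526 655) (node 527 (merge (leaf 6 494 495) (node 525 (merge (leaf 7 493 493) (leaf 0 525 561))))))) (merge (node 621 (merge (node 526 (merge (leaf 5 525 653) (node 527 (merge (leaf 6 494 495) (node 525 (merge (leaf 7 493 493) (leaf 0 525 561))))))) (merge (node 653 (merge (node 685 (merge (leaf 6 557 589) (leaf 6 589 717))) (node 652 (merge (leaf 1 620 624) (node 651 (merge (leaf 1 619 620) (leaf 2 618 650)))))))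 (node 620 (merge (node 651 (merge (leaf 1 619 652) (node 619 (merge (leaf 2 587 591) (leaf 1 618 650))))) (node 588 (merge (leaf 3 587 587) (node 624 (merge (leaf 3 588 589) (node 657 (merge (leaf 0 621 656) (node 625 (merge (leaf 0 622 658) (node 593 (merge (leaf 7 528 561) (leaf 2 590 594)))))))))))))))) (node 624 (merge (node 589 (merge (leaf 3 589 625) (node 588 (merge (leaf 0 588 591) (leaf 3 588 621))))) (merge (node 625 (merge (leaf 3 589 589) (node 657 (merge (leaf 0 622 658) (node 593 (merge (leaf 7 528 561) (leaf 2 590 594))))))) (merge (node 625 (merge (node 594 (merge (leaf 2 590 593) (node 626 (merge (leaf 3 590 591) (leaf 2 591 595))))) (merge (node 657 (merge (leaf 0 622 658) (node 593 (merge (leaf 7 528 561) (leaf 2 590 594))))) (node 658 (merge (leaf 0 622 657) (node 626 (merge (leaf 3 590 591) (leaf 0 623 659)))))))) (node 621 (merge (node 653 (merge (leaf 1 620 652) (node 589 (merge (leaf 3 588 588) (leaf 6 557 685))))) (merge (node 656 (merge (leaf 0 621 657) (node 620 (merge (leaf 0 620 655) (node 619 (merge (leaf 2 587 591) (node 589 (merge (leaf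 3 588 588) (leaf 2 586 618))))))))) (node 656 (merge (leaf 0 621 657) (node 655 (merge (leaf 0 620 620) (node 687 (merge (leaf 7 558 591) (leaf 7 590 719)))))))))))))))))))))))))))))))))) nP_213 cP_213 14 (by decide +kernel)

end Crest.Agent.H26Snaky
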