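import Crest.Agent.H26SnP014
import Crest.Agent.H26SnP015

/-! certificate data for S0047, part P 16 (computer generated) -/

set_option autoImplicit false
set_option maxRecDepth 100000

namespace Crest.Agent.H26Snaky

open T

def nP_214 : ℕ := 0x100000001000000000000000380000000000000000000000000000000000000000000000000000000000000000000000000000000000000000000000000000000000000000000
def cP_214 : ℕ := 0xc0000000e0000000f800000ffc000007fe00000efe00000efe00001cfe000006fc00000078000007b800001f0000000700000007000000000000000000000000000000000000000000000000000000000000000000000000000000000000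
theorem lP_214 : S nP_214 cP_214 16 := S_of_chk [(nP_213, cP_213, 14)] ⟨lP_213, trivial⟩ (node 462 (merge (node 493 (merge (leaf 1 461 494) (node 461 (merge (leaf 1 460 492) (node 433 (merge (leaf 2 429 432) (leaf 2 430 434))))))) (merge (node 497 (merge (leaf 0 462 498) (node 433 (merge (leaf 2 430 434) (node 401 (merge (node 368 (merge (leaf 7 368 400) (node 369 (merge (leaf 7 336 336) (node 432 (merge (leaf 5 336 337) (leaf 2 429 461))))))) (merge (node 370 (merge (leaf 6 369 402) (node 369 (merge (leaf 6 337 338) (node 432 (merge (leaf 5 336 337) (leaf 2 429 461))))))) (merge (node 370 (merge (leaf 6 369 402) (node 369 (merge (leaf 6 337 338) (node 368 (merge (leaf 7 336 336) (leaf 7 368 400))))))) (node 402 (merge (leaf 6 369 370) (node 400 (merge (leaf 7 368 368) (node 432 (merge (leaf 2 429 461) (node 403 (merge (leaf 1 400 404) (leaf 1 399 431))))))))))))))))) (merge (node 494 (merge (leaf 1 461 493) (node 526 (merge (node 558 (merge (leaf 6 430 431) (node 590 (merge (leaf 6 462 495) (node 589 (merge (leaf 5 461 557) (leaf 5 493 621))))))) (merge (node 558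 (merge (leaf 6 430 431) (node 590 (merge (leaf 6 462 495) (node 591 (merge (leaf 4 462 559) (leaf 4 494 623))))))) (merge (node 558 (merge (node 590 (merge (leaf 6 462 495) (node 589 (merge (leaf 5 461 557) (leaf 5 493 621))))) (merge (node 590 (merge (leaf 6 462 495) (node 591 (merge (leaf 4 462 559) (leaf 4 494 623))))) (node 559 (merge (leaf 4 462 591) (node 525 (merge (leaf 3 525 561) (node 557 (merge (leaf 3 524 524) (leaf 5 461 589)))))))))) (merge (node 558 (merge (leaf 6 430 431) (node 559 (merge (leaf 4 462 591) (node 525 (merge (leaf 3 525 561) (node 557 (merge (leaf 3 524 524) (leaf 5 461 589))))))))) (node 527 (merge (node 561 (merge (leaf 0 525 525) (node 562 (merge (leaf 3 526 559) (leaf 3 527 563))))) (merge (node 495 (merge (leaf 4 431 431) (node 559 (merge (leaf 6 431 432) (leaf 7 462 591))))) (node 525 (merge (leaf 0 525 561) (node 556 (merge (leaf 1 524 557) (node 524 (merge (leaf 1 523 555) (node 495 (merge (leaf 4 431 431) (leaf 2 491 523))))))))))))))))))) (node 558 (merge (node 494 (merge (leaf 1 461 493) (node 526 (merge (leaf 6 430 431) (node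 590 (merge (leaf 6 462 495) (node 589 (merge (leaf 5 461 557) (leaf 5 493 621))))))))) (merge (node 494 (merge (leaf 1 461 493) (node 526 (merge (leaf 6 430 431) (node 590 (merge (leaf 6 462 495) (node 591 (merge (leaf 4 462 559) (leaf 4 494 623))))))))) (merge (node 494 (merge (leaf 1 461 493) (node 526 (merge (leaf 6 430 431) (node 559 (merge (leaf 4 462 591) (node 525 (merge (leaf 3 525 561) (node 557 (merge (leaf 3 524 524) (leaf 5 461 589))))))))))) (merge (node 493 (merge (leaf 1 461 494) (node 461 (merge (leaf 1 460 492) (node 429 (merge (leaf 3 428 428) (node 525 (merge (leaf 4 429 526) (node 557 (merge (leaf 4 461 590) (node 524 (merge (leaf 5 428 556) (leaf 3 524 559))))))))))))) (merge (node 557 (merge (node 493 (merge (leaf 1 461 494) (node 461 (merge (leaf 1 460 492) (node 428 (merge (leaf 3 428 429) (node 460 (merge (leaf 3 427 427) (leaf 7 428 525))))))))) (node 559 (merge (node 527 (merge (leaf 2 524 556) (node 495 (merge (leaf 4 431 431) (leaf 5 462 590))))) (merge (node 588 (merge (leaf 1 556 589) (node 556 (merge (leaf 2 524 527) (leaf 1 555 587)))))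 (merge (node 556 (merge (node 588 (merge (leaf 1 555 587) (leaf 1 556 589))) (merge (node 523 (merge (leaf 3 523 524) (node 555 (merge (leaf 3 522 522) (node 590 (merge (leaf 0 555 591) (node 589 (merge (leaf 0 554 554) (leaf 1 557 561))))))))) (node 587 (merge (leaf 1 555 588) (node 555 (merge (leaf 1 554 586) (node 523 (merge (leaf 3 522 522) (leaf 3 523 524)))))))))) (node 589 (merge (leaf 1 556 588) (node 561 (merge (leaf 1 557 590) (node 594 (merge (leaf 0 558 593) (node 562 (merge (leaf 0 559 595) (node 531 (merge (leaf 2 527 530) (node 563 (merge (leaf 3 527 527) (leaf 2 528 532))))))))))))))))))) (merge (node 559 (merge (node 526 (merge (node 494 (merge (leaf 6 430 431) (leaf 4 462 591))) (node 525 (merge (leaf 3 525 561) (node 524 (merge (leaf 0 523 523) (leaf 0 524 527))))))) (merge (node 589 (merge (node 588 (merge (leaf 1 556 557) (node 590 (merge (leaf 2 555 587) (leaf 2 556 591))))) (merge (node 590 (merge (leaf 1 557 561) (node 588 (merge (leaf 2 555 587) (leaf 2 556 591))))) (merge (node 561 (merge (leaf 1 557 590) (node 526 (merge (leaf 3 525 525)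 (node 494 (merge (leaf 5 461 557) (leaf 4 462 591))))))) (node 557 (merge (leaf 1 556 588) (node 525 (merge (leaf 3 524 524) (node 526 (merge (leaf 5 461 494) (leaf 3 525 561))))))))))) (merge (node 561 (merge (node 594 (merge (leaf 0 558 593) (node 562 (merge (leaf 0 559 595) (node 527 (merge (leaf 3 526 526) (leaf 3 527 563))))))) (merge (node 594 (merge (leaf 0 558 593) (node 562 (merge (leaf 0 559 595) (node 590 (merge (leaf 1 557 589) (leaf 1 558 591))))))) (node 557 (merge (node 589 (merge (leaf 1 556 588) (leaf 1 557 590))) (merge (node 527 (merge (leaf 2 524 556) (node 495 (merge (leaf 4 431 431) (leaf 5 462 590))))) (node 588 (merge (leaf 1 556 589) (node 556 (merge (leaf 2 524 527) (leaf 1 555 587))))))))))) (merge (node 557 (merge (node 527 (merge (leaf 2 524 556) (node 495 (merge (leaf 4 431 431) (leaf 5 462 590))))) (merge (node 588 (merge (leaf 1 556 589) (node 556 (merge (leaf 1 555 587) (node 524 (merge (leaf 3 523 523) (leaf 3 524 525))))))) (node 589 (merge (leaf 1 556 588) (node 561 (merge (leaf 1 557 590) (node 594 (merge (leaf 0 558 593) (node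 562 (merge (leaf 0 559 595) (node 531 (merge (leaf 2 527 530) (node 563 (merge (leaf 3 527 527) (leaf 2 528 532)))))))))))))))) (node 524 (merge (node 526 (merge (node 494 (merge (leaf 6 430 431) (leaf 4 462 591))) (node 525 (merge (leaf 0 523 523) (leaf 0 524 527))))) (merge (node 557 (merge (leaf 3 524 525) (node 527 (merge (leaf 2 524 556) (node 495 (merge (leaf 4 431 431) (leaf 5 462 590))))))) (merge (node 557 (merge (leaf 3 524 525) (node 588 (merge (leaf 1 556 589) (node 556 (merge (leaf 3 523 523) (leaf 1 555 587))))))) (node 556 (merge (node 557 (merge (leaf 3 523 523) (leaf 2 524 527))) (merge (node 557 (merge (leaf 3 523 523) (node 588 (merge (leaf 1 555 587) (leaf 1 556 589))))) (merge (node 557 (merge (leaf 2 524 527) (node 588 (merge (leaf 1 555 587) (leaf 1 556 589))))) (node 588 (merge (node 589 (merge (node 590 (merge (leaf 2 555 587) (leaf 2 556 591))) (node 621 (merge (leaf 4 492 492) (node 653 (merge (leaf 4 524 620) (leaf 7 556 685))))))) (merge (node 620 (merge (node 491 (merge (leaf 7 491 523) (node 492 (merge (leaf 7 459 459) (node 621 (merge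 (leaf 4 492 589) (leaf 4 524 653))))))) (merge (node 653 (merge (leaf 4 524 621) (node 652 (merge (leaf 4 556 685) (node 651 (merge (leaf 5 523 619) (leaf 5 555 683))))))) (node 523 (merge (leaf 7 491 491) (node 652 (merge (leaf 7 523 555) (node 651 (merge (leaf 5 523 619) (leaf 5 555 683)))))))))) (merge (node 589 (merge (node 590 (merge (leaf 2 555 587) (leaf 2 556 591))) (merge (node 492 (merge (leaf 4 492 621) (node 491 (merge (leaf 7 459 459) (node 460 (merge (leaf 1 459 461) (node 587 (merge (leaf 5 459 555) (leaf 5 491 619))))))))) (node 590 (merge (leaf 2 556 591) (node 492 (merge (leaf 4 492 621) (node 459 (merge (leaf 7 459 491) (node 460 (merge (leaf 7 427 427) (node 495 (merge (leaf 5 462 527) (node 494 (merge (leaf 0 459 461) (leaf 6 462 526)))))))))))))))) (merge (node 491 (merge (node 459 (merge (leaf 7 459 492) (node 523 (merge (leaf 4 427 427) (leaf 7 491 620))))) (merge (node 492 (merge (leaf 7 459 459) (node 460 (merge (leaf 1 459 461) (node 587 (merge (leaf 5 459 555) (leaf 5 491 619))))))) (node 620 (merge (leaf 7 491 523) (node 653 (merge (leaf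 4 524 621) (node 652 (merge (leaf 4 556 685) (node 651 (merge (leaf 5 523 619) (leaf 5 555 683)))))))))))) (merge (node 492 (merge (node 587 (merge (leaf 5 491 619) (node 460 (merge (leaf 5 459 555) (node 461 (merge (leaf 6 428 429) (leaf 1 459 491))))))) (merge (node 491 (merge (leaf 7 459 459) (node 620 (merge (leaf 7 491 523) (node 619 (merge (leaf 5 491 587) (leaf 5 523 651))))))) (merge (node 459 (merge (leaf 7 459 491) (node 460 (merge (leaf 7 427 427) (node 461 (merge (leaf 6 428 429) (node 494 (merge (leaf 0 459 495) (node 526 (merge (leaf 6 430 431) (leaf 4 462 591))))))))))) (node 587 (merge (leaf 5 491 619) (node 460 (merge (leaf 5 459 555) (node 461 (merge (leaf 6 428 429) (node 427 (merge (leaf 3 427 428) (leaf 7 427 459))))))))))))) (node 620 (merge (node 523 (merge (leaf 7 491 491) (node 652 (merge (leaf 7 523 555) (node 653 (merge (leaf 4 524 621) (leaf 4 556 685))))))) (merge (node 523 (merge (leaf 7 491 491) (node 652 (merge (leaf 7 523 555) (node 651 (merge (leaf 5 523 619) (leaf 5 555 683))))))) (node 619 (merge (leaf 5 523 651) (node 590 (merge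 (node 589 (merge (leaf 2 555 587) (leaf 2 556 591))) (merge (node 589 (merge (leaf 2 555 587) (node 621 (merge (leaf 2 586 618) (leaf 4 524 653))))) (merge (node 589 (merge (leaf 1 587 591) (node 621 (merge (leaf 2 586 618) (leaf 4 524 653))))) (node 621 (merge (leaf 4 524 653) (node 622 (merge (leaf 2 587 591) (node 587 (merge (leaf 3 586 586) (leaf 3 587 623))))))))))))))))))))))))))))))))))) (hyp 0)))))))))))) nP_214 cP_214 16 (by decide +kernel)
def nP_215 : ℕ := 0x100000001000000000000000080000000000000000000000000000000000000000000000000000000000000000000000000000000000000000000000000000000000000000000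
def cP_215 : ℕ := 0xc0000000e0000000f800000ffc00000ffe00003efe00001efe00003cfe00007ffc00003f7800001fb800001fc0000007c0000007400000000000000000000000000000000000000000000000000000000000000000000000000000000000
theorem lP_215 : S nP_215 cP_215 18 := S_of_chk [(nP_214, cP_214, 16)] ⟨lP_214, trivial⟩ (node 464 (merge (node 496 (merge (leaf 7 431 431) (node 561 (merge (leaf 4 464 593) (node 559 (merge (leaf 5 463 591) (node 527 (merge (leaf 5 431 432) (node 562 (merge (leaf 3 526 526) (leaf 3 527 563))))))))))) (merge (node 496 (merge (leaf 7 431 431) (node 462 (merge (node 433 (merge (leaf 6 432 465) (node 432 (merge (leaf 6 400 401) (leaf 2 429 461))))) (merge (node 497 (merge (leaf 0 461 461) (node 498 (merge (leaf 3 462 495) (leaf 3 463 499))))) (node 465 (merge (leaf 6 432 433) (node 498 (merge (leaf 0 462 497) (node 466 (merge (leaf 0 463 499) (node 467 (merge (leaf 1 463 495) (node 435 (merge (leaf 2 431 434) (leaf 2 432 436)))))))))))))))) (merge (node 465 (merge (node 496 (merge (leaf 7 431 431) (leaf 6 432 433))) (merge (node 433 (merge (leaf 6 432 496) (node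 434 (merge (leaf 2 430 462) (node 435 (merge (leaf 1 432 436) (leaf 2 431 466))))))) (merge (node 431 (merge (leaf 7 431 496) (node 495 (merge (leaf 4 431 527) (node 494 (merge (leaf 1 462 466) (node 493 (merge (leaf 1 461 462) (leaf 2 460 492))))))))) (node 494 (merge (node 466 (merge (leaf 1 462 495) (node 499 (merge (leaf 0 463 498) (node 467 (merge (leaf 0 464 500) (node 435 (merge (leaf 2 431 434) (leaf 2 432 436))))))))) (merge (node 462 (merge (leaf 1 461 493) (node 498 (merge (leaf 0 462 497) (node 466 (merge (leaf 0 463 499) (node 434 (merge (leaf 2 430 433) (leaf 2 431 435))))))))) (node 493 (merge (leaf 1 461 462) (node 495 (merge (leaf 2 460 492) (node 431 (merge (leaf 4 431 527) (node 399 (merge (leaf 5 398 526) (node 368 (merge (leaf 6 367 400) (node 367 (merge (leaf 6 335 336) (node 366 (merge (leaf 7 334 334) (leaf 7 366 398)))))))))))))))))))))) (merge (node 561 (merge (node 496 (merge (leaf 4 464 593) (node 559 (merge (leaf 5 463 591) (node 527 (merge (leaf 5 431 432) (node 526 (merge (leaf 0 525 525) (leaf 3 526 562))))))))) (merge (node 465 (merge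 (node 496 (merge (leaf 6 432 433) (leaf 4 464 593))) (merge (node 434 (merge (node 433 (merge (leaf 2 430 462) (node 435 (merge (leaf 1 431 432) (leaf 1 432 436))))) (merge (node 435 (merge (leaf 2 431 466) (node 433 (merge (leaf 1 431 432) (leaf 1 432 436))))) (merge (node 462 (merge (leaf 2 430 433) (node 498 (merge (leaf 0 462 497) (node 466 (merge (leaf 0 463 499) (node 494 (merge (leaf 1 461 493) (leaf 1 462 495))))))))) (node 466 (merge (leaf 2 431 435) (node 498 (merge (leaf 0 463 499) (node 462 (merge (leaf 0 462 497) (node 494 (merge (leaf 1 461 493) (leaf 1 462 495))))))))))))) (node 466 (merge (node 495 (merge (leaf 1 462 494) (node 496 (merge (leaf 1 463 467) (leaf 4 464 593))))) (merge (node 499 (merge (leaf 0 463 498) (node 467 (merge (leaf 0 464 500) (node 435 (merge (leaf 2 431 434) (leaf 2 432 436))))))) (node 498 (merge (leaf 0 463 499) (node 462 (merge (leaf 0 462 497) (node 494 (merge (leaf 1 461 493) (leaf 1 462 495))))))))))))) (merge (node 559 (merge (node 496 (merge (leaf 5 463 591) (node 433 (merge (leaf 6 432 465) (node 432 (merge (leaf 6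 400 401) (leaf 5 431 527))))))) (merge (node 591 (merge (leaf 5 463 496) (node 590 (merge (leaf 1 558 562) (node 589 (merge (leaf 1 557 558) (leaf 2 556 588))))))) (merge (node 527 (merge (node 432 (merge (leaf 6 431 495) (leaf 5 431 496))) (node 562 (merge (leaf 3 527 563) (node 526 (merge (leaf 0 525 525) (leaf 3 526 559))))))) (node 590 (merge (node 589 (merge (leaf 1 557 558) (node 591 (merge (leaf 1 558 562) (leaf 2 556 588))))) (merge (node 562 (merge (leaf 1 558 591) (node 527 (merge (leaf 3 526 526) (leaf 3 527 563))))) (node 558 (merge (leaf 1 557 589) (node 526 (merge (leaf 3 525 525) (node 495 (merge (leaf 6 462 494) (leaf 5 462 527)))))))))))))) (merge (node 496 (merge (leaf 4 464 593) (node 562 (merge (node 563 (merge (leaf 3 527 527) (node 596 (merge (leaf 0 560 595) (node 564 (merge (leaf 0 561 597) (node 532 (merge (leaf 2 528 531) (leaf 2 529 533))))))))) (merge (node 563 (merge (leaf 3 527 527) (node 531 (merge (leaf 2 528 532) (node 559 (merge (leaf 2 527 530) (node 591 (merge (leaf 5 463 496) (leaf 1 558 590))))))))) (merge (node 563 (merge (leaf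 3 527 527) (node 595 (merge (leaf 0 560 596) (node 559 (merge (leaf 0 559 594) (node 591 (merge (leaf 5 463 496) (leaf 1 558 590))))))))) (node 465 (merge (leaf 6 432 433) (node 559 (merge (leaf 5 463 591) (node 594 (merge (leaf 0 559 595) (node 530 (merge (leaf 2 527 531) (node 498 (merge (leaf 7 465 497) (node 467 (merge (leaf 6 466 499) (node 466 (merge (leaf 6 434 435) (leaf 1 463 495))))))))))))))))))))) (node 562 (merge (node 527 (merge (leaf 3 527 563) (node 526 (merge (leaf 0 525 525) (leaf 3 526 559))))) (merge (node 563 (merge (leaf 3 527 527) (node 596 (merge (leaf 0 560 595) (node 564 (merge (leaf 0 561 597) (node 532 (merge (leaf 2 528 531) (leaf 2 529 533))))))))) (merge (node 559 (merge (node 526 (merge (leaf 3 526 527) (node 590 (merge (leaf 1 558 591) (node 558 (merge (leaf 3 525 525) (leaf 1 557 589))))))) (merge (node 594 (merge (leaf 0 559 595) (node 593 (merge (leaf 0 558 558) (node 625 (merge (leaf 7 528 657) (node 530 (merge (leaf 5 497 498) (leaf 2 527 531))))))))) (node 594 (merge (leaf 0 559 595) (node 591 (merge (leaf 1 558 590) (node 623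 (merge (leaf 6 527 655) (node 530 (merge (leaf 2 527 531) (node 527 (merge (leaf 3 526 526) (node 624 (merge (leaf 4 527 656) (node 622 (merge (leaf 5 526 654) (node 625 (merge (leaf 2 590 593) (node 657 (merge (leaf 5 529 626) (leaf 0 622 658)))))))))))))))))))))) (node 595 (merge (node 596 (merge (leaf 0 560 563) (node 594 (merge (leaf 3 560 593) (leaf 3 561 597))))) (merge (node 563 (merge (leaf 0 560 596) (node 531 (merge (leaf 2 528 532) (node 530 (merge (leaf 2 527 559) (node 498 (merge (leaf 4 466 466) (leaf 7 498 627))))))))) (node 559 (merge (leaf 0 559 594) (node 590 (merge (leaf 1 558 591) (node 558 (merge (leaf 1 557 589) (node 530 (merge (leaf 2 527 531) (node 526 (merge (leaf 3 525 525) (node 494 (merge (leaf 6 462 495) (node 461 (merge (leaf 7 461 493) (node 462 (merge (leaf 7 429 429) (node 433 (merge (leaf 2 429 432) (node 465 (merge (leaf 2 430 434) (node 498 (merge (leaf 7 433 466) (leaf 0 462 497))))))))))))))))))))))))))))))))))) (node 465 (merge (node 434 (merge (node 433 (merge (leaf 2 430 462) (node 435 (merge (leaf 1 431 432) (leaf 1 432 436)))))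 (merge (node 435 (merge (leaf 2 431 466) (node 433 (merge (leaf 1 431 432) (leaf 1 432 436))))) (merge (node 462 (merge (leaf 2 430 433) (node 498 (merge (leaf 0 462 497) (node 466 (merge (leaf 0 463 499) (node 494 (merge (leaf 1 461 493) (leaf 1 462 495))))))))) (node 466 (merge (leaf 2 431 435) (node 498 (merge (leaf 0 463 499) (node 462 (merge (leaf 0 462 497) (node 494 (merge (leaf 1 461 493) (leaf 1 462 495))))))))))))) (merge (node 466 (merge (node 499 (merge (leaf 0 463 498) (node 467 (merge (leaf 0 464 500) (node 435 (merge (leaf 2 431 434) (leaf 2 432 436))))))) (merge (node 495 (merge (leaf 1 462 494) (node 435 (merge (leaf 2 431 434) (node 467 (merge (leaf 2 432 436) (node 431 (merge (leaf 3 431 432) (leaf 4 431 527))))))))) (node 498 (merge (leaf 0 463 499) (node 495 (merge (leaf 1 462 494) (node 527 (merge (leaf 4 431 431) (node 559 (merge (leaf 6 431 432) (node 558 (merge (leaf 5 462 590) (node 557 (merge (leaf 2 524 556) (node 525 (merge (leaf 3 524 524) (node 561 (merge (leaf 0 525 526) (node 593 (merge (leaf 0 558 594) (node 562 (merge (leaf 5 465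 530) (leaf 3 527 563)))))))))))))))))))))))) (merge (node 434 (merge (node 433 (merge (leaf 2 430 462) (node 435 (merge (leaf 1 431 432) (leaf 1 432 436))))) (merge (node 462 (merge (leaf 2 430 433) (node 494 (merge (leaf 1 461 493) (node 495 (merge (leaf 1 462 466) (node 431 (merge (leaf 4 431 527) (node 399 (merge (leaf 5 366 367) (leaf 5 398 526))))))))))) (node 466 (merge (leaf 2 431 435) (node 495 (merge (leaf 1 462 494) (node 527 (merge (leaf 4 431 431) (node 559 (merge (leaf 6 431 432) (node 558 (merge (leaf 5 462 590) (node 557 (merge (leaf 2 524 556) (node 525 (merge (leaf 3 524 524) (node 561 (merge (leaf 0 525 526) (node 594 (merge (leaf 0 558 593) (node 562 (merge (leaf 3 527 563) (leaf 0 559 595)))))))))))))))))))))))) (merge (node 498 (merge (node 497 (merge (leaf 0 462 462) (node 499 (merge (leaf 0 463 466) (leaf 3 464 500))))) (merge (node 462 (merge (leaf 0 462 497) (node 493 (merge (leaf 1 461 494) (node 461 (merge (leaf 1 460 492) (node 432 (merge (leaf 2 429 433) (node 460 (merge (leaf 2 428 431) (node 428 (merge (leaf 3 427 427) (leaf 3 428 429)))))))))))))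 (node 466 (merge (leaf 0 463 499) (node 495 (merge (leaf 1 462 494) (node 527 (merge (leaf 4 431 431) (node 559 (merge (leaf 6 431 432) (node 558 (merge (leaf 5 462 590) (node 557 (merge (leaf 2 524 556) (node 525 (merge (leaf 3 524 524) (node 561 (merge (leaf 0 525 526) (node 593 (merge (leaf 0 558 594) (node 562 (merge (leaf 5 465 530) (leaf 3 527 563)))))))))))))))))))))))) (merge (node 498 (merge (node 497 (merge (leaf 0 462 462) (node 499 (merge (leaf 0 463 466) (leaf 3 464 500))))) (merge (node 466 (merge (leaf 0 463 499) (node 434 (merge (leaf 2 431 435) (node 433 (merge (leaf 2 430 462) (node 401 (merge (leaf 4 369 369) (leaf 7 401 530))))))))) (merge (node 462 (merge (leaf 0 462 497) (node 433 (merge (leaf 2 430 434) (node 461 (merge (leaf 2 429 432) (node 492 (merge (leaf 1 460 493) (node 460 (merge (leaf 1 459 491) (node 428 (merge (leaf 3 427 427) (leaf 3 428 429))))))))))))) (node 466 (merge (leaf 0 463 499) (node 435 (merge (leaf 2 431 434) (node 467 (merge (leaf 2 432 436) (node 432 (merge (leaf 3 431 431) (node 468 (merge (leaf 3 432 433) (node 501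 (merge (leaf 0 465 500) (node 469 (merge (leaf 1 465 497) (leaf 0 466 502))))))))))))))))))) (merge (node 494 (merge (node 466 (merge (leaf 1 462 495) (node 499 (merge (leaf 0 463 498) (node 467 (merge (leaf 0 464 500) (node 435 (merge (leaf 2 431 434) (leaf 2 432 436))))))))) (merge (node 462 (merge (leaf 1 461 493) (node 498 (merge (leaf 0 462 497) (node 466 (merge (leaf 0 463 499) (node 434 (merge (leaf 2 430 433) (leaf 2 431 435))))))))) (node 493 (merge (leaf 1 461 462) (node 495 (merge (leaf 2 460 492) (node 431 (merge (leaf 4 431 527) (node 399 (merge (leaf 5 398 526) (node 368 (merge (leaf 6 367 400) (node 367 (merge (leaf 6 335 336) (node 366 (merge (leaf 7 334 334) (leaf 7 366 398)))))))))))))))))) (hyp 0))))))))))))) nP_215 cP_215 18 (by decide +kernel)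
def nP_216 : ℕ := 0x1000000010000000000000001c0000000000000000000000000000000000000000000000000000000000000000000000000000000000000000000000000000000000000000000
def cP_216 : ℕ := 0xa0000000e000003ee000001efc00003cf800000edc0000063800000fbc0000008000000080000000000000000000000000000000000000000000000000000000000000000000000000000000000000000000
theorem lP_216 : S nP_216 cP_216 13 := S_of_chk [] trivial (node 526 (merge (node 461 (merge (node 432 (merge (leaf 2 429 433) (node 460 (merge (leaf 2 428 431) (node 428 (merge (leaf 3 427 427) (leaf 3 428 429))))))) (merge (node 432 (merge (leaf 2 429 433) (node 431 (merge (leaf 2 428 460) (node 494 (merge (leaf 6 430 558) (node 495 (merge (leaf 5 398 399) (leaf 4 431 527))))))))) (merge (node 433 (merge (leaf 2 429 432) (node 465 (merge (leaf 2 430 434) (node 498 (merge (leaf 0 462 497) (node 466 (merge (leaf 0 463 499) (node 494 (merge (leaf 1 462 495) (node 429 (merge (leaf 3 428 428) (leaf 7 429 558))))))))))))) (node 494 (merge (node 558 (merge (leaf 7 429 429) (leaf 6 430 431))) (merge (node 431 (merge (leaf 6 430 558)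 (node 399 (merge (leaf 5 366 367) (leaf 5 398 495))))) (merge (node 558 (merge (leaf 7 429 429) (node 590 (merge (leaf 6 462 495) (node 589 (merge (leaf 5 461 557) (leaf 5 493 621))))))) (node 428 (merge (leaf 3 428 429) (node 460 (merge (leaf 3 427 427) (node 495 (merge (leaf 0 459 459) (node 431 (merge (leaf 4 431 527) (node 399 (merge (leaf 5 366 367) (leaf 5 398 526))))))))))))))))))) (merge (node 461 (merge (node 432 (merge (leaf 2 429 433) (node 460 (merge (leaf 2 428 431) (node 428 (merge (leaf 3 427 427) (leaf 3 428 429))))))) (merge (node 432 (merge (leaf 2 429 433) (node 431 (merge (leaf 2 428 460) (node 527 (merge (leaf 4 431 495) (node 561 (merge (leaf 0 525 525) (node 562 (merge (leaf 3 526 559) (leaf 3 527 563))))))))))) (merge (node 428 (merge (leaf 3 428 429) (node 460 (merge (leaf 3 427 427) (node 491 (merge (leaf 1 459 492) (node 459 (merge (leaf 1 458 490) (node 495 (merge (leaf 0 459 494) (node 527 (merge (leaf 4 431 431) (node 561 (merge (leaf 0 525 525) (node 562 (merge (leaf 3 526 559) (leaf 3 527 563))))))))))))))))) (node 433 (merge (leaf 2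 429 432) (node 465 (merge (leaf 2 430 434) (node 498 (merge (leaf 0 462 497) (node 466 (merge (leaf 0 463 499) (node 494 (merge (leaf 1 462 495) (node 429 (merge (leaf 3 428 428) (leaf 7 429 558))))))))))))))))) (merge (node 494 (merge (node 558 (merge (leaf 6 430 431) (node 591 (merge (leaf 4 462 559) (node 590 (merge (leaf 4 494 623) (node 589 (merge (leaf 5 461 557) (leaf 5 493 621))))))))) (merge (node 558 (merge (node 590 (merge (leaf 6 462 495) (node 589 (merge (leaf 5 461 557) (leaf 5 493 621))))) (merge (node 590 (merge (leaf 6 462 495) (node 591 (merge (leaf 4 462 559) (leaf 4 494 623))))) (node 559 (merge (leaf 4 462 591) (node 525 (merge (leaf 3 525 561) (node 557 (merge (leaf 3 524 524) (leaf 5 461 589)))))))))) (node 461 (merge (node 432 (merge (leaf 2 429 433) (node 460 (merge (leaf 2 428 431) (node 428 (merge (leaf 3 427 427) (leaf 3 428 429))))))) (merge (node 433 (merge (leaf 2 429 432) (node 465 (merge (leaf 2 430 434) (node 498 (merge (leaf 0 462 497) (node 466 (merge (leaf 1 462 495) (leaf 0 463 499))))))))) (node 428 (merge (leaf 3 428 429) (node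 460 (merge (leaf 3 427 427) (node 459 (merge (leaf 0 459 495) (node 491 (merge (leaf 1 458 490) (leaf 1 459 492))))))))))))))) (merge (node 527 (merge (node 561 (merge (leaf 0 525 525) (node 562 (merge (leaf 3 526 559) (leaf 3 527 563))))) (merge (node 495 (merge (leaf 4 431 431) (node 432 (merge (leaf 6 431 559) (node 433 (merge (leaf 2 429 461) (node 434 (merge (leaf 1 431 435) (leaf 2 430 465))))))))) (node 433 (merge (node 432 (merge (leaf 2 429 461) (node 434 (merge (leaf 1 430 431) (leaf 1 431 435))))) (merge (node 561 (merge (leaf 0 525 525) (node 465 (merge (leaf 2 430 434) (node 498 (merge (leaf 0 462 497) (node 466 (merge (leaf 0 463 499) (node 562 (merge (leaf 7 433 530) (leaf 3 527 563))))))))))) (node 525 (merge (leaf 0 525 561) (node 556 (merge (leaf 1 524 557) (node 524 (merge (leaf 1 523 555) (node 461 (merge (leaf 2 429 432) (node 429 (merge (leaf 3 428 428) (node 492 (merge (leaf 6 428 460) (leaf 3 491 491))))))))))))))))))) (merge (node 525 (merge (node 527 (merge (leaf 0 525 561) (node 524 (merge (leaf 0 524 559) (node 556 (merge (leaf 1 523 555)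 (leaf 1 524 557))))))) (merge (node 558 (merge (node 559 (merge (leaf 3 525 561) (node 524 (merge (leaf 0 523 523) (leaf 3 524 557))))) (merge (node 494 (merge (leaf 6 430 431) (node 559 (merge (leaf 3 525 561) (leaf 4 462 591))))) (node 494 (merge (leaf 6 430 431) (node 590 (merge (leaf 6 462 495) (node 589 (merge (leaf 5 461 557) (leaf 5 493 621)))))))))) (merge (node 527 (merge (leaf 0 525 561) (node 556 (merge (leaf 1 524 557) (node 524 (merge (leaf 1 523 555) (node 491 (merge (leaf 3 491 492) (node 523 (merge (leaf 3 490 490) (node 495 (merge (leaf 4 431 431) (leaf 2 491 494))))))))))))) (merge (node 524 (merge (node 527 (merge (leaf 0 524 559) (node 556 (merge (leaf 1 523 555) (leaf 1 524 557))))) (merge (node 527 (merge (leaf 0 524 559) (node 555 (merge (leaf 1 523 556) (node 523 (merge (leaf 1 522 554) (node 495 (merge (leaf 4 431 431) (leaf 2 491 494))))))))) (merge (node 558 (merge (node 559 (merge (leaf 0 523 523) (leaf 3 524 557))) (merge (node 494 (merge (leaf 6 430 431) (node 495 (merge (leaf 2 491 523) (leaf 6 462 590))))) (node 494 (merge (leaf 6 430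 431) (node 559 (merge (leaf 3 524 557) (leaf 4 462 591)))))))) (node 527 (merge (node 556 (merge (leaf 1 523 555) (leaf 1 524 557))) (node 491 (merge (leaf 3 491 492) (node 523 (merge (leaf 3 490 490) (node 495 (merge (leaf 4 431 431) (leaf 2 491 494))))))))))))) (node 561 (merge (leaf 0 525 527) (node 558 (merge (leaf 3 525 559) (node 494 (merge (leaf 6 430 431) (node 590 (merge (leaf 6 462 495) (node 623 (merge (leaf 4 494 591) (node 622 (merge (leaf 4 526 655) (node 621 (merge (leaf 5 493 589) (leaf 5 525 653)))))))))))))))))))) (merge (node 559 (merge (node 525 (merge (node 561 (merge (leaf 0 525 527) (leaf 3 525 558))) (merge (node 524 (merge (leaf 0 524 527) (node 558 (merge (leaf 0 523 523) (leaf 3 524 557))))) (merge (node 558 (merge (leaf 3 525 561) (node 524 (merge (leaf 0 523 523) (leaf 3 524 557))))) (node 527 (merge (leaf 0 525 561) (node 524 (merge (leaf 0 524 559) (node 556 (merge (leaf 1 523 555) (leaf 1 524 557))))))))))) (merge (node 527 (merge (node 561 (merge (leaf 0 525 525) (leaf 3 526 562))) (node 432 (merge (leaf 6 431 495) (node 433 (merge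 (leaf 2 429 461) (node 434 (merge (leaf 1 431 435) (leaf 2 430 465))))))))) (merge (node 433 (merge (node 432 (merge (leaf 2 429 461) (node 434 (merge (leaf 1 431 435) (leaf 2 430 465))))) (merge (node 465 (merge (leaf 2 430 434) (node 498 (merge (leaf 0 462 497) (node 466 (merge (leaf 0 463 499) (node 494 (merge (leaf 1 462 495) (node 591 (merge (leaf 4 462 558) (node 623 (merge (leaf 7 494 527) (leaf 6 527 655))))))))))))) (node 461 (merge (leaf 2 429 432) (node 428 (merge (leaf 3 428 429) (node 460 (merge (leaf 3 427 427) (node 491 (merge (leaf 1 459 492) (node 459 (merge (leaf 1 458 490) (node 494 (merge (leaf 0 459 495) (node 591 (merge (leaf 4 462 558) (node 623 (merge (leaf 7 494 527) (leaf 6 527 655)))))))))))))))))))) (node 558 (merge (node 525 (merge (leaf 3 525 561) (node 524 (merge (leaf 0 523 523) (leaf 3 524 557))))) (merge (node 494 (merge (leaf 4 462 591) (node 590 (merge (leaf 6 462 495) (node 589 (merge (leaf 5 461 557) (leaf 5 493 621))))))) (node 561 (merge (leaf 3 525 525) (node 594 (merge (leaf 0 558 593) (node 562 (merge (leaf 0 559 595) (node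 590 (merge (leaf 1 557 589) (leaf 1 558 591)))))))))))))))) (node 461 (merge (node 432 (merge (leaf 2 429 433) (node 460 (merge (leaf 2 428 431) (node 491 (merge (leaf 1 459 492) (node 459 (merge (leaf 1 458 490) (node 427 (merge (leaf 3 426 426) (leaf 3 427 428))))))))))) (merge (node 525 (merge (node 561 (merge (leaf 0 525 527) (node 558 (merge (leaf 3 525 559) (node 494 (merge (leaf 7 429 429) (leaf 6 430 431))))))) (merge (node 527 (merge (leaf 0 525 561) (node 524 (merge (leaf 0 524 559) (node 556 (merge (leaf 1 523 555) (leaf 1 524 557))))))) (merge (node 429 (merge (leaf 3 428 428) (node 558 (merge (leaf 7 429 494) (node 559 (merge (leaf 3 525 561) (node 524 (merge (leaf 0 523 523) (leaf 3 524 557))))))))) (merge (node 428 (merge (leaf 3 428 429) (node 460 (merge (leaf 3 427 427) (node 492 (merge (leaf 1 459 491) (node 524 (merge (leaf 4 428 557) (node 527 (merge (leaf 0 524 559) (node 555 (merge (leaf 5 427 523) (leaf 1 523 556))))))))))))) (node 527 (merge (leaf 0 525 561) (node 556 (merge (leaf 1 524 557) (node 524 (merge (leaf 1 523 555) (node 492 (merge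 (leaf 3 491 491) (node 460 (merge (leaf 6 428 429) (node 427 (merge (leaf 3 427 428) (leaf 7 427 459)))))))))))))))))) (merge (node 561 (merge (node 525 (merge (leaf 0 525 527) (node 429 (merge (leaf 3 428 428) (node 558 (merge (leaf 7 429 494) (leaf 3 525 559))))))) (merge (node 429 (merge (leaf 3 428 428) (node 558 (merge (leaf 7 429 494) (node 559 (merge (leaf 3 525 525) (node 594 (merge (leaf 0 558 593) (node 562 (merge (leaf 0 559 595) (node 590 (merge (leaf 1 557 589) (leaf 1 558 591))))))))))))) (node 433 (merge (leaf 2 429 432) (node 465 (merge (leaf 2 430 434) (node 498 (merge (leaf 0 462 497) (node 466 (merge (leaf 0 463 499) (node 562 (merge (leaf 7 433 530) (node 563 (merge (leaf 3 527 527) (node 596 (merge (leaf 0 560 595) (node 564 (merge (leaf 0 561 597) (node 532 (merge (leaf 2 528 531) (leaf 2 529 533)))))))))))))))))))))) (node 561 (merge (node 525 (merge (leaf 0 525 527) (node 558 (merge (leaf 3 525 559) (node 494 (merge (leaf 7 429 429) (leaf 6 430 431))))))) (merge (node 433 (merge (leaf 2 429 432) (node 465 (merge (leaf 2 430 434) (node 498 (merge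 (leaf 0 462 497) (node 466 (merge (leaf 0 463 499) (node 562 (merge (leaf 7 433 530) (node 563 (merge (leaf 3 527 527) (node 596 (merge (leaf 0 560 595) (node 564 (merge (leaf 0 561 597) (node 532 (merge (leaf 2 528 531) (leaf 2 529 533))))))))))))))))))) (node 432 (merge (leaf 2 429 433) (node 431 (merge (leaf 2 428 460) (node 558 (merge (leaf 6 430 494) (node 559 (merge (leaf 3 525 525) (node 594 (merge (leaf 0 558 593) (node 562 (merge (leaf 0 559 595) (node 590 (merge (leaf 1 557 589) (leaf 1 558 591))))))))))))))))))))))))))))) nP_216 cP_216 13 (by decide +kernel)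
def nP_217 : ℕ := 0x1400000010000000000000001c0000000000000000000000000000000000000000000000000000000000000000000000000000000000000000000000000000000000000000000
def cP_217 : ℕ := 0xc0000000e0000000fc00000ffc000007fe00000efe00000ebe000000fe00000ebc0000063800000eb80000000000000000000000000000000000000000000000000000000000000000000000000000000000000000000000000000000000
theorem lP_217 : S nP_217 cP_217 14 := S_of_chk [] trivial (node 590 (merge (node 559 (merge (node 589 (merge (leaf 1 557 561) (node 588 (merge (leaf 1 556 557) (leaf 2 555 587))))) (merge (node 561 (merge (leaf 1 557 589) (node 594 (merge (leaf 0 558 593) (node 562 (merge (leaf 0 559 595) (node 527 (merge (leaf 5 462 495) (leaf 3 527 563))))))))) (node 527 (merge (leaf 5 462 495) (node 622 (merge (leaf 6 526 654) (node 557 (merge (leaf 2 524 556) (node 525 (merge (leaf 3 524 524) (node 493 (merge (leaf 4 461 461) (leaf 7 493 526)))))))))))))) (merge (node 559 (merge (node 561 (merge (leaf 1 557 589) (node 594 (merge (leaf 0 558 593) (node 562 (merge (leaf 1 558 591) (leaf 0 559 595))))))) (merge (node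 527 (merge (node 495 (merge (leaf 4 431 431) (leaf 5 462 590))) (node 557 (merge (leaf 2 524 556) (node 525 (merge (leaf 3 524 524) (node 561 (merge (leaf 0 525 526) (node 594 (merge (leaf 0 558 593) (node 562 (merge (leaf 3 527 563) (leaf 0 559 595))))))))))))) (node 527 (merge (leaf 5 462 495) (node 557 (merge (leaf 2 524 556) (node 589 (merge (leaf 1 556 588) (node 525 (merge (leaf 3 524 524) (node 493 (merge (leaf 4 461 461) (node 492 (merge (leaf 7 460 460) (leaf 3 492 526)))))))))))))))) (merge (node 559 (merge (node 589 (merge (leaf 1 557 561) (node 588 (merge (leaf 1 556 557) (leaf 2 555 587))))) (merge (node 561 (merge (leaf 1 557 589) (node 594 (merge (leaf 0 558 593) (node 562 (merge (leaf 1 558 591) (leaf 0 559 595))))))) (merge (node 525 (merge (node 524 (merge (leaf 3 524 557) (node 526 (merge (leaf 0 523 523) (leaf 3 525 561))))) (merge (node 561 (merge (leaf 3 525 526) (node 594 (merge (leaf 0 558 593) (node 562 (merge (leaf 1 558 591) (leaf 0 559 595))))))) (node 557 (merge (leaf 3 524 524) (node 461 (merge (leaf 4 461 493) (node 428 (merge (leaf 3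 428 429) (node 460 (merge (leaf 3 427 427) (node 491 (merge (leaf 1 459 492) (node 459 (merge (leaf 1 458 490) (node 555 (merge (leaf 6 427 523) (node 556 (merge (leaf 0 555 591) (node 587 (merge (leaf 1 554 586) (leaf 1 555 588)))))))))))))))))))))) (node 557 (merge (node 525 (merge (leaf 3 524 524) (node 622 (merge (leaf 7 525 654) (node 493 (merge (leaf 4 461 461) (leaf 7 493 526))))))) (merge (node 588 (merge (leaf 1 556 589) (node 556 (merge (leaf 1 555 587) (node 555 (merge (leaf 0 555 591) (node 523 (merge (leaf 3 522 522) (leaf 3 523 524))))))))) (node 461 (merge (node 493 (merge (leaf 4 461 525) (node 492 (merge (leaf 1 460 464) (node 491 (merge (leaf 1 459 460) (leaf 2 458 490))))))) (merge (node 588 (merge (leaf 1 556 589) (node 556 (merge (leaf 1 555 587) (node 555 (merge (leaf 0 555 591) (node 428 (merge (leaf 3 428 429) (node 460 (merge (leaf 3 427 427) (node 491 (merge (leaf 1 459 492) (node 459 (merge (leaf 1 458 490) (leaf 6 427 523))))))))))))))) (node 588 (merge (leaf 1 556 589) (node 556 (merge (leaf 1 555 587) (node 555 (merge (leaf 0 555 591)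 (node 522 (merge (leaf 3 522 523) (node 554 (merge (leaf 3 521 521) (node 525 (merge (leaf 4 461 493) (leaf 2 522 526))))))))))))))))))))))) (merge (node 527 (merge (node 495 (merge (leaf 4 431 431) (leaf 5 462 559))) (merge (node 495 (merge (leaf 4 431 431) (node 526 (merge (leaf 6 494 622) (node 525 (merge (leaf 0 525 561) (node 557 (merge (leaf 1 524 556) (node 493 (merge (leaf 4 461 461) (leaf 3 492 492))))))))))) (node 557 (merge (node 556 (merge (leaf 2 524 559) (node 555 (merge (leaf 0 555 591) (node 586 (merge (leaf 1 554 587) (node 554 (merge (leaf 1 553 585) (node 522 (merge (leaf 3 521 521) (leaf 3 522 523))))))))))) (merge (node 559 (merge (leaf 2 524 556) (node 525 (merge (leaf 3 524 524) (node 561 (merge (leaf 0 525 526) (node 594 (merge (leaf 0 558 593) (node 562 (merge (leaf 3 527 563) (leaf 0 559 595))))))))))) (merge (node 461 (merge (node 493 (merge (leaf 1 460 492) (leaf 4 461 525))) (merge (node 492 (merge (leaf 1 460 493) (node 460 (merge (leaf 1 459 491) (node 428 (merge (leaf 3 427 427) (leaf 3 428 429))))))) (merge (node 525 (merge (leaf 4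 461 493) (node 561 (merge (leaf 0 525 526) (node 559 (merge (leaf 3 524 524) (node 562 (merge (leaf 3 527 563) (leaf 1 558 591))))))))) (node 428 (merge (leaf 3 428 429) (node 460 (merge (leaf 3 427 427) (node 492 (merge (leaf 1 459 491) (node 525 (merge (leaf 4 428 524) (node 561 (merge (leaf 0 525 526) (node 562 (merge (leaf 3 527 563) (node 559 (merge (leaf 1 558 591) (node 594 (merge (leaf 0 558 593) (leaf 0 559 595))))))))))))))))))))) (node 556 (merge (node 555 (merge (leaf 0 555 591) (node 586 (merge (leaf 1 554 587) (node 554 (merge (leaf 1 553 585) (node 522 (merge (leaf 3 521 521) (leaf 3 522 523))))))))) (node 525 (merge (leaf 1 524 526) (node 461 (merge (leaf 4 461 493) (node 428 (merge (leaf 3 428 429) (node 460 (merge (leaf 3 427 427) (node 492 (merge (leaf 1 459 491) (leaf 4 428 524)))))))))))))))))))) (merge (node 465 (merge (node 498 (merge (leaf 0 462 497) (node 466 (merge (leaf 0 463 499) (node 434 (merge (leaf 2 430 433) (leaf 2 431 435))))))) (node 559 (merge (node 589 (merge (leaf 1 557 561) (node 588 (merge (leaf 2 555 587) (leaf 2 556 591)))))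 (merge (node 589 (merge (leaf 1 557 561) (node 588 (merge (leaf 1 556 557) (leaf 2 555 587))))) (merge (node 527 (merge (leaf 5 462 495) (node 557 (merge (leaf 2 524 556) (node 525 (merge (leaf 3 524 524) (node 561 (merge (leaf 0 525 526) (node 562 (merge (leaf 3 527 563) (leaf 1 558 591))))))))))) (node 589 (merge (node 588 (merge (leaf 1 556 557) (leaf 2 555 587))) (merge (node 588 (merge (leaf 2 555 587) (leaf 2 556 591))) (node 621 (merge (node 653 (merge (leaf 6 557 685) (node 526 (merge (leaf 6 525 557) (leaf 5 525 622))))) (merge (node 527 (merge (leaf 5 462 495) (node 622 (merge (leaf 6 526 654) (node 557 (merge (leaf 2 524 556) (node 525 (merge (leaf 3 524 524) (node 620 (merge (leaf 5 524 652) (node 619 (merge (leaf 2 587 591) (leaf 2 586 618))))))))))))) (merge (node 653 (merge (leaf 6 557 685) (node 527 (merge (leaf 5 462 495) (node 622 (merge (leaf 5 525 526) (leaf 6 526 654))))))) (node 653 (merge (leaf 6 557 685) (node 527 (merge (leaf 5 462 495) (node 557 (merge (leaf 2 524 556) (node 525 (merge (leaf 3 524 524) (node 652 (merge (leaf 5 524 620) (leaf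 5 556 684)))))))))))))))))))))))) (merge (node 559 (merge (node 527 (merge (leaf 5 462 495) (node 622 (merge (leaf 6 526 654) (node 557 (merge (leaf 2 524 556) (node 525 (merge (leaf 3 524 524) (node 493 (merge (leaf 4 461 461) (leaf 7 493 526))))))))))) (merge (node 527 (merge (leaf 5 462 495) (node 557 (merge (leaf 2 524 556) (node 589 (merge (leaf 1 556 588) (node 525 (merge (leaf 3 524 524) (node 493 (merge (leaf 4 461 461) (node 492 (merge (leaf 7 460 460) (leaf 3 492 526))))))))))))) (merge (node 557 (merge (node 589 (merge (leaf 1 556 588) (node 525 (merge (leaf 3 524 524) (node 622 (merge (leaf 4 493 493) (leaf 7 525 654))))))) (merge (node 556 (merge (leaf 2 524 527) (node 555 (merge (leaf 0 555 591) (node 523 (merge (leaf 3 522 522) (leaf 3 523 524))))))) (node 556 (merge (leaf 2 524 527) (node 555 (merge (leaf 0 555 591) (node 587 (merge (leaf 1 554 586) (leaf 1 555 588)))))))))) (merge (node 622 (merge (node 527 (merge (leaf 5 462 495) (leaf 6 526 654))) (merge (node 655 (merge (node 623 (merge (leaf 4 526 526) (leaf 6 527 591))) (merge (node 623 (merge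 (leaf 6 527 591) (node 687 (merge (leaf 4 558 654) (leaf 7 590 719))))) (node 654 (merge (leaf 4 558 687) (node 653 (merge (leaf 5 557 685) (node 621 (merge (leaf 5 525 526) (node 620 (merge (leaf 0 619 619) (leaf 3 620 656)))))))))))) (node 621 (merge (node 653 (merge (leaf 5 525 526) (node 685 (merge (leaf 6 557 589) (leaf 6 589 717))))) (merge (node 623 (merge (node 655 (merge (leaf 4 526 526) (leaf 6 527 591))) (merge (node 653 (merge (leaf 5 525 526) (node 652 (merge (leaf 1 620 624) (node 651 (merge (leaf 1 619 620) (leaf 2 618 650))))))) (node 655 (merge (leaf 6 527 591) (node 656 (merge (leaf 0 620 620) (node 657 (merge (leaf 0 621 624) (leaf 3 622 658)))))))))) (merge (node 623 (merge (node 655 (merge (leaf 4 526 526) (leaf 6 527 591))) (merge (node 527 (merge (leaf 5 462 495) (node 557 (merge (leaf 2 524 556) (node 589 (merge (leaf 1 556 588) (node 624 (merge (leaf 3 589 625) (node 656 (merge (leaf 4 527 591) (leaf 0 621 657))))))))))) (node 655 (merge (leaf 4 526 526) (node 656 (merge (leaf 0 620 620) (node 657 (merge (leaf 0 621 624) (leaf 3 622 658))))))))))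 (node 527 (merge (leaf 5 462 495) (node 557 (merge (leaf 2 524 556) (node 589 (merge (leaf 1 556 588) (node 653 (merge (leaf 6 557 685) (node 652 (merge (leaf 5 556 684) (node 623 (merge (leaf 1 620 624) (node 651 (merge (leaf 1 619 620) (leaf 2 618 650)))))))))))))))))))))) (merge (node 622 (merge (node 527 (merge (leaf 5 462 495) (leaf 6 526 654))) (merge (node 655 (merge (node 623 (merge (leaf 4 526 526) (leaf 6 527 591))) (merge (node 623 (merge (leaf 6 527 591) (node 687 (merge (leaf 4 558 654) (leaf 7 590 719))))) (node 654 (merge (leaf 4 558 687) (node 653 (merge (leaf 5 557 685) (node 621 (merge (leaf 5 525 526) (node 620 (merge (leaf 0 619 619) (leaf 3 620 656)))))))))))) (node 623 (merge (node 655 (merge (leaf 4 526 526) (leaf 6 527 591))) (merge (node 526 (merge (leaf 4 526 655) (node 527 (merge (leaf 6 494 495) (node 525 (merge (leaf 7 493 493) (leaf 0 524 524))))))) (merge (node 591 (merge (leaf 6 527 655) (node 527 (merge (leaf 5 494 495) (node 624 (merge (leaf 4 527 656) (node 625 (merge (leaf 3 589 589) (leaf 3 590 626))))))))) (node 624 (merge (node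 589 (merge (leaf 3 589 625) (node 588 (merge (leaf 0 587 587) (leaf 3 588 621))))) (merge (node 625 (merge (leaf 3 589 589) (node 591 (merge (leaf 3 590 626) (node 527 (merge (leaf 5 462 495) (leaf 4 527 656))))))) (node 527 (merge (leaf 5 462 495) (node 656 (merge (leaf 4 527 591) (node 621 (merge (leaf 0 621 657) (node 653 (merge (leaf 5 525 526) (leaf 1 620 652))))))))))))))))))) (node 557 (merge (node 525 (merge (leaf 3 524 524) (node 622 (merge (leaf 7 525 654) (node 493 (merge (leaf 4 461 461) (leaf 7 493 526))))))) (merge (node 588 (merge (leaf 1 556 589) (node 556 (merge (leaf 1 555 587) (node 555 (merge (leaf 0 555 591) (node 523 (merge (leaf 3 522 522) (leaf 3 523 524))))))))) (node 461 (merge (node 493 (merge (leaf 4 461 525) (node 492 (merge (leaf 1 460 464) (node 491 (merge (leaf 1 459 460) (leaf 2 458 490))))))) (merge (node 588 (merge (leaf 1 556 589) (node 556 (merge (leaf 1 555 587) (node 555 (merge (leaf 0 555 591) (node 428 (merge (leaf 3 428 429) (node 460 (merge (leaf 3 427 427) (node 491 (merge (leaf 1 459 492) (node 459 (merge (leaf 1 458 490)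 (leaf 6 427 523))))))))))))))) (node 588 (merge (leaf 1 556 589) (node 556 (merge (leaf 1 555 587) (node 555 (merge (leaf 0 555 591) (node 522 (merge (leaf 3 522 523) (node 554 (merge (leaf 3 521 521) (node 525 (merge (leaf 4 461 493) (leaf 2 522 526))))))))))))))))))))))))) (merge (node 492 (merge (node 461 (merge (leaf 1 460 493) (node 460 (merge (leaf 1 459 491) (node 428 (merge (leaf 3 427 427) (leaf 3 428 429))))))) (merge (node 622 (merge (node 559 (merge (node 527 (merge (leaf 5 462 495) (leaf 6 526 654))) (node 589 (merge (leaf 1 557 561) (node 588 (merge (leaf 2 555 587) (leaf 2 556 591))))))) (merge (node 527 (merge (node 495 (merge (leaf 4 431 431) (leaf 6 494 526))) (node 654 (merge (leaf 6 526 559) (node 687 (merge (leaf 4 558 655) (node 686 (merge (leaf 4 590 719) (node 685 (merge (leaf 5 557 653) (leaf 5 589 717))))))))))) (merge (node 655 (merge (node 687 (merge (leaf 4 558 654) (node 623 (merge (leaf 7 558 591) (leaf 7 590 719))))) (merge (node 654 (merge (leaf 4 558 687) (node 653 (merge (leaf 5 557 685) (node 621 (merge (leaf 5 525 526) (node 620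 (merge (leaf 0 619 619) (leaf 3 620 656))))))))) (node 623 (merge (leaf 4 526 526) (node 559 (merge (leaf 6 527 591) (node 561 (merge (leaf 1 557 589) (node 593 (merge (leaf 0 558 594) (node 657 (merge (leaf 7 528 625) (node 656 (merge (leaf 3 622 658) (node 621 (merge (leaf 0 620 620) (leaf 0 621 624)))))))))))))))))) (node 623 (merge (node 655 (merge (leaf 4 526 526) (node 687 (merge (leaf 7 558 591) (leaf 7 590 719))))) (merge (node 526 (merge (leaf 4 526 655) (node 527 (merge (leaf 6 494 495) (node 525 (merge (leaf 7 493 493) (leaf 0 525 561))))))) (merge (node 621 (merge (node 526 (merge (leaf 5 525 653) (node 527 (merge (leaf 6 494 495) (node 525 (merge (leaf 7 493 493) (leaf 0 525 561))))))) (merge (node 653 (merge (node 685 (merge (leaf 6 557 589) (leaf 6 589 717))) (node 652 (merge (leaf 1 620 624) (node 651 (merge (leaf 1 619 620) (leaf 2 618 650))))))) (node 620 (merge (node 651 (merge (leaf 1 619 652) (node 619 (merge (leaf 2 587 591) (leaf 1 618 650))))) (node 588 (merge (leaf 3 587 587) (node 624 (merge (leaf 3 588 589) (node 657 (merge (leaf 0 621 656)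 (node 625 (merge (leaf 0 622 658) (node 593 (merge (leaf 7 528 561) (leaf 2 590 594)))))))))))))))) (node 624 (merge (node 589 (merge (leaf 3 589 625) (node 588 (merge (leaf 0 588 591) (leaf 3 588 621))))) (merge (node 625 (merge (leaf 3 589 589) (node 657 (merge (leaf 0 622 658) (node 593 (merge (leaf 7 528 561) (leaf 2 590 594))))))) (merge (node 625 (merge (node 594 (merge (leaf 2 590 593) (node 626 (merge (leaf 3 590 591) (leaf 2 591 595))))) (merge (node 657 (merge (leaf 0 622 658) (node 593 (merge (leaf 7 528 561) (leaf 2 590 594))))) (node 658 (merge (leaf 0 622 657) (node 626 (merge (leaf 3 590 591) (leaf 0 623 659)))))))) (node 621 (merge (node 653 (merge (leaf 1 620 652) (node 589 (merge (leaf 3 588 588) (leaf 6 557 685))))) (merge (node 656 (merge (leaf 0 621 657) (node 620 (merge (leaf 0 620 655) (node 619 (merge (leaf 2 587 591) (node 589 (merge (leaf 3 588 588) (leaf 2 586 618))))))))) (node 656 (merge (leaf 0 621 657) (node 655 (merge (leaf 0 620 620) (node 687 (merge (leaf 7 558 591) (leaf 7 590 719)))))))))))))))))))))) (node 622 (merge (node 559 (merge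 (node 527 (merge (leaf 5 462 495) (leaf 6 526 654))) (node 589 (merge (leaf 1 557 561) (node 588 (merge (leaf 2 555 587) (leaf 2 556 591))))))) (merge (node 527 (merge (node 495 (merge (leaf 4 431 431) (leaf 6 494 526))) (node 654 (merge (leaf 6 526 559) (node 687 (merge (leaf 4 558 655) (node 686 (merge (leaf 4 590 719) (node 685 (merge (leaf 5 557 653) (leaf 5 589 717))))))))))) (merge (node 623 (merge (node 655 (merge (leaf 4 526 526) (node 687 (merge (leaf 4 558 654) (leaf 7 590 719))))) (merge (node 621 (merge (node 653 (merge (leaf 5 525 526) (node 685 (merge (leaf 5 557 654) (leaf 6 589 717))))) (node 620 (merge (node 651 (merge (leaf 1 619 652) (node 619 (merge (leaf 2 587 591) (leaf 1 618 650))))) (node 588 (merge (leaf 3 587 587) (node 624 (merge (leaf 3 588 589) (node 657 (merge (leaf 0 621 656) (node 625 (merge (leaf 0 622 658) (node 593 (merge (leaf 7 528 561) (leaf 2 590 594))))))))))))))) (node 624 (merge (node 589 (merge (leaf 3 589 625) (node 588 (merge (leaf 0 588 591) (leaf 3 588 621))))) (merge (node 625 (merge (leaf 3 589 589) (node 657 (merge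 (leaf 0 622 658) (node 593 (merge (leaf 7 528 561) (leaf 2 590 594))))))) (merge (node 625 (merge (node 594 (merge (leaf 2 590 593) (node 626 (merge (leaf 3 590 591) (leaf 2 591 595))))) (merge (node 657 (merge (leaf 0 622 658) (node 593 (merge (leaf 7 528 561) (leaf 2 590 594))))) (node 658 (merge (leaf 0 622 657) (node 626 (merge (leaf 3 590 591) (leaf 0 623 659)))))))) (node 621 (merge (node 653 (merge (leaf 1 620 652) (node 589 (merge (leaf 3 588 588) (leaf 6 557 685))))) (merge (node 656 (merge (leaf 0 621 657) (node 620 (merge (leaf 0 620 655) (node 619 (merge (leaf 2 587 591) (node 589 (merge (leaf 3 588 588) (leaf 2 586 618))))))))) (node 656 (merge (leaf 0 621 657) (node 655 (merge (leaf 0 620 620) (node 687 (merge (leaf 7 558 591) (leaf 7 590 719))))))))))))))))) (node 623 (merge (node 655 (merge (leaf 4 526 526) (node 687 (merge (leaf 7 558 591) (leaf 7 590 719))))) (merge (node 526 (merge (leaf 4 526 655) (node 527 (merge (leaf 6 494 495) (node 525 (merge (leaf 0 525 561) (node 524 (merge (leaf 3 491 491) (node 556 (merge (leaf 1 523 555) (node 621 (merge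 (leaf 5 525 653) (node 588 (merge (leaf 4 492 589) (node 587 (merge (leaf 5 491 619) (leaf 3 587 620))))))))))))))))) (merge (node 621 (merge (node 653 (merge (node 685 (merge (leaf 6 557 589) (leaf 6 589 717))) (node 652 (merge (leaf 1 620 624) (node 651 (merge (leaf 1 619 620) (leaf 2 618 650))))))) (merge (node 526 (merge (leaf 5 525 653) (node 527 (merge (leaf 6 494 495) (node 525 (merge (leaf 0 525 561) (node 524 (merge (leaf 3 491 491) (leaf 0 524 559))))))))) (node 620 (merge (node 651 (merge (leaf 1 619 652) (node 619 (merge (leaf 2 587 591) (leaf 1 618 650))))) (node 588 (merge (leaf 3 587 587) (node 624 (merge (leaf 3 588 589) (node 657 (merge (leaf 0 621 656) (node 625 (merge (leaf 0 622 658) (node 593 (merge (leaf 7 528 561) (leaf 2 590 594)))))))))))))))) (node 624 (merge (node 589 (merge (leaf 3 589 625) (node 588 (merge (leaf 0 588 591) (leaf 3 588 621))))) (merge (node 625 (merge (leaf 3 589 589) (node 657 (merge (leaf 0 622 658) (node 593 (merge (leaf 7 528 561) (leaf 2 590 594))))))) (merge (node 625 (merge (node 594 (merge (leaf 2 590 593) (node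 626 (merge (leaf 3 590 591) (leaf 2 591 595))))) (merge (node 657 (merge (leaf 0 622 658) (node 593 (merge (leaf 7 528 561) (leaf 2 590 594))))) (node 658 (merge (leaf 0 622 657) (node 626 (merge (leaf 3 590 591) (leaf 0 623 659)))))))) (node 621 (merge (node 653 (merge (leaf 1 620 652) (node 589 (merge (leaf 3 588 588) (leaf 6 557 685))))) (merge (node 656 (merge (leaf 0 621 657) (node 620 (merge (leaf 0 620 655) (node 619 (merge (leaf 2 587 591) (node 589 (merge (leaf 3 588 588) (leaf 2 586 618))))))))) (node 656 (merge (leaf 0 621 657) (node 655 (merge (leaf 0 620 620) (node 687 (merge (leaf 7 558 591) (leaf 7 590 719))))))))))))))))))))))))) (merge (node 428 (merge (node 461 (merge (leaf 3 428 429) (node 492 (merge (leaf 1 460 493) (node 460 (merge (leaf 3 427 427) (leaf 1 459 491))))))) (node 622 (merge (node 559 (merge (node 527 (merge (leaf 5 462 495) (leaf 6 526 654))) (node 589 (merge (leaf 1 557 561) (node 588 (merge (leaf 1 556 557) (leaf 2 555 587))))))) (merge (node 527 (merge (node 495 (merge (leaf 4 431 431) (leaf 6 494 526))) (node 654 (merge (leaf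 6 526 559) (node 687 (merge (leaf 4 558 655) (node 686 (merge (leaf 4 590 719) (node 685 (merge (leaf 5 557 653) (leaf 5 589 717))))))))))) (merge (node 654 (merge (node 687 (merge (leaf 4 558 655) (node 686 (merge (leaf 4 590 719) (node 685 (merge (leaf 5 557 653) (leaf 5 589 717))))))) (merge (node 655 (merge (leaf 4 558 687) (node 526 (merge (leaf 4 526 623) (node 653 (merge (leaf 5 525 621) (leaf 5 557 685))))))) (merge (node 686 (merge (node 687 (merge (leaf 4 558 655) (leaf 4 590 719))) (merge (node 589 (merge (leaf 7 557 557) (node 718 (merge (leaf 7 589 621) (node 623 (merge (leaf 6 590 591) (node 655 (merge (leaf 4 526 526) (leaf 6 622 750))))))))) (node 589 (merge (leaf 7 557 557) (node 718 (merge (leaf 7 589 621) (node 719 (merge (leaf 4 590 687) (leaf 4 622 751)))))))))) (merge (node 685 (merge (leaf 5 557 653) (node 686 (merge (leaf 5 589 717) (node 589 (merge (leaf 7 557 557) (node 718 (merge (leaf 7 589 621) (node 623 (merge (leaf 6 590 591) (node 655 (merge (leaf 4 526 526) (leaf 6 622 750))))))))))))) (node 685 (merge (leaf 5 557 653) (node 686 (merge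 (leaf 5 589 717) (node 589 (merge (leaf 7 557 557) (node 718 (merge (leaf 7 589 621) (node 719 (merge (leaf 4 590 687) (leaf 4 622 751)))))))))))))))) (node 623 (merge (node 655 (merge (leaf 4 526 526) (node 687 (merge (leaf 7 558 591) (leaf 7 590 719))))) (merge (node 589 (merge (node 588 (merge (leaf 0 587 587) (node 624 (merge (leaf 0 588 591) (leaf 3 588 621))))) (merge (node 559 (merge (leaf 1 557 561) (node 588 (merge (leaf 1 556 557) (leaf 2 555 587))))) (node 559 (merge (leaf 1 557 561) (node 624 (merge (leaf 3 589 625) (node 527 (merge (leaf 5 462 495) (node 656 (merge (leaf 4 527 591) (node 621 (merge (leaf 0 621 657) (node 653 (merge (leaf 5 525 526) (leaf 1 620 652)))))))))))))))) (merge (node 621 (merge (node 526 (merge (leaf 5 525 653) (leaf 4 526 655))) (merge (node 653 (merge (node 685 (merge (leaf 6 557 589) (leaf 6 589 717))) (node 652 (merge (leaf 1 620 624) (node 651 (merge (leaf 1 619 620) (leaf 2 618 650))))))) (node 655 (merge (leaf 4 526 526) (node 656 (merge (leaf 0 620 620) (node 657 (merge (leaf 0 621 624) (leaf 3 622 658)))))))))) (node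 624 (merge (node 589 (merge (leaf 3 589 625) (node 588 (merge (leaf 0 588 591) (leaf 3 588 621))))) (merge (node 625 (merge (leaf 3 589 589) (node 657 (merge (leaf 0 622 658) (node 593 (merge (leaf 7 528 561) (leaf 2 590 594))))))) (merge (node 625 (merge (node 594 (merge (leaf 2 590 593) (node 626 (merge (leaf 3 590 591) (leaf 2 591 595))))) (merge (node 657 (merge (leaf 0 622 658) (node 593 (merge (leaf 7 528 561) (leaf 2 590 594))))) (node 658 (merge (leaf 0 622 657) (node 626 (merge (leaf 3 590 591) (leaf 0 623 659)))))))) (node 621 (merge (node 653 (merge (leaf 1 620 652) (node 589 (merge (leaf 3 588 588) (leaf 6 557 685))))) (merge (node 656 (merge (leaf 0 621 657) (node 620 (merge (leaf 0 620 655) (node 619 (merge (leaf 2 587 591) (node 589 (merge (leaf 3 588 588) (leaf 2 586 618))))))))) (node 656 (merge (leaf 0 621 657) (node 655 (merge (leaf 0 620 620) (node 687 (merge (leaf 7 558 591) (leaf 7 590 719)))))))))))))))))))))))) (merge (node 622 (merge (node 525 (merge (node 526 (merge (leaf 7 493 493) (node 527 (merge (leaf 6 494 495) (leaf 0 525 561))))) (merge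 (node 557 (merge (leaf 7 525 654) (node 493 (merge (leaf 4 461 461) (leaf 4 493 589))))) (node 654 (merge (leaf 7 525 557) (node 653 (merge (leaf 5 557 685) (node 526 (merge (leaf 5 525 621) (node 527 (merge (leaf 6 494 495) (leaf 0 525 561)))))))))))) (merge (node 525 (merge (node 526 (merge (leaf 7 493 493) (node 527 (merge (leaf 6 494 495) (leaf 0 525 561))))) (merge (node 557 (merge (leaf 7 525 654) (node 493 (merge (leaf 4 461 461) (leaf 4 493 589))))) (node 654 (merge (leaf 7 525 557) (node 655 (merge (leaf 4 558 687) (node 526 (merge (leaf 4 526 623) (node 527 (merge (leaf 6 494 495) (leaf 0 525 561)))))))))))) (merge (node 525 (merge (node 526 (merge (leaf 7 493 493) (node 527 (merge (leaf 6 494 495) (leaf 0 525 561))))) (node 654 (merge (leaf 7 525 557) (node 687 (merge (leaf 4 558 655) (node 686 (merge (leaf 4 590 719) (node 685 (merge (leaf 5 557 653) (leaf 5 589 717))))))))))) (merge (node 654 (merge (node 687 (merge (leaf 4 558 655) (node 686 (merge (leaf 4 590 719) (node 685 (merge (leaf 5 557 653) (leaf 5 589 717))))))) (merge (node 655 (merge (leaf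 4 558 687) (node 526 (merge (leaf 4 526 623) (node 653 (merge (leaf 5 525 621) (leaf 5 557 685))))))) (merge (node 686 (merge (node 687 (merge (leaf 4 558 655) (leaf 4 590 719))) (merge (node 589 (merge (leaf 7 557 557) (node 718 (merge (leaf 7 589 621) (node 623 (merge (leaf 6 590 591) (node 655 (merge (leaf 4 526 526) (leaf 6 622 750))))))))) (node 589 (merge (leaf 7 557 557) (node 718 (merge (leaf 7 589 621) (node 719 (merge (leaf 4 590 687) (leaf 4 622 751)))))))))) (merge (node 685 (merge (leaf 5 557 653) (node 686 (merge (leaf 5 589 717) (node 589 (merge (leaf 7 557 557) (node 718 (merge (leaf 7 589 621) (node 623 (merge (leaf 6 590 591) (node 655 (merge (leaf 4 526 526) (leaf 6 622 750))))))))))))) (node 685 (merge (leaf 5 557 653) (node 686 (merge (leaf 5 589 717) (node 589 (merge (leaf 7 557 557) (node 718 (merge (leaf 7 589 621) (node 719 (merge (leaf 4 590 687) (leaf 4 622 751)))))))))))))))) (merge (node 654 (merge (node 557 (merge (leaf 7 525 525) (node 686 (merge (leaf 7 557 589) (node 687 (merge (leaf 4 558 655) (leaf 4 590 719))))))) (merge (node 557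 (merge (leaf 7 525 525) (node 686 (merge (leaf 7 557 589) (node 685 (merge (leaf 5 557 653) (leaf 5 589 717))))))) (node 653 (merge (leaf 5 557 685) (node 652 (merge (node 623 (merge (leaf 2 619 651) (node 624 (merge (leaf 1 620 621) (leaf 1 621 625))))) (merge (node 655 (merge (leaf 4 558 687) (node 683 (merge (leaf 1 651 684) (node 651 (merge (leaf 1 650 682) (node 619 (merge (leaf 3 618 618) (leaf 3 619 620))))))))) (node 655 (merge (leaf 4 558 687) (node 624 (merge (leaf 2 620 623) (node 656 (merge (leaf 2 621 625) (node 620 (merge (leaf 3 619 619) (leaf 3 620 621))))))))))))))))) (node 623 (merge (node 655 (merge (leaf 4 526 526) (node 687 (merge (leaf 7 558 591) (leaf 7 590 719))))) (merge (node 526 (merge (leaf 4 526 655) (node 527 (merge (leaf 6 494 495) (node 525 (merge (leaf 7 493 493) (leaf 0 525 561))))))) (merge (node 621 (merge (node 526 (merge (leaf 5 525 653) (node 527 (merge (leaf 6 494 495) (node 525 (merge (leaf 7 493 493) (leaf 0 525 561))))))) (merge (node 653 (merge (node 685 (merge (leaf 6 557 589) (leaf 6 589 717))) (node 652 (merge (leaf 1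 620 624) (node 651 (merge (leaf 1 619 620) (leaf 2 618 650))))))) (node 620 (merge (node 651 (merge (leaf 1 619 652) (node 619 (merge (leaf 2 587 591) (leaf 1 618 650))))) (node 588 (merge (leaf 3 587 587) (node 624 (merge (leaf 3 588 589) (node 657 (merge (leaf 0 621 656) (node 625 (merge (leaf 0 622 658) (node 593 (merge (leaf 7 528 561) (leaf 2 590 594)))))))))))))))) (node 624 (merge (node 589 (merge (leaf 3 589 625) (node 588 (merge (leaf 0 588 591) (leaf 3 588 621))))) (merge (node 625 (merge (leaf 3 589 589) (node 657 (merge (leaf 0 622 658) (node 593 (merge (leaf 7 528 561) (leaf 2 590 594))))))) (merge (node 625 (merge (node 594 (merge (leaf 2 590 593) (node 626 (merge (leaf 3 590 591) (leaf 2 591 595))))) (merge (node 657 (merge (leaf 0 622 658) (node 593 (merge (leaf 7 528 561) (leaf 2 590 594))))) (node 658 (merge (leaf 0 622 657) (node 626 (merge (leaf 3 590 591) (leaf 0 623 659)))))))) (node 621 (merge (node 653 (merge (leaf 1 620 652) (node 589 (merge (leaf 3 588 588) (leaf 6 557 685))))) (merge (node 656 (merge (leaf 0 621 657) (node 620 (merge (leaf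 0 620 655) (node 619 (merge (leaf 2 587 591) (node 589 (merge (leaf 3 588 588) (leaf 2 586 618))))))))) (node 656 (merge (leaf 0 621 657) (node 655 (merge (leaf 0 620 620) (node 687 (merge (leaf 7 558 591) (leaf 7 590 719)))))))))))))))))))))))) (node 589 (merge (node 559 (merge (leaf 1 557 561) (node 588 (merge (leaf 2 555 587) (leaf 2 556 591))))) (merge (node 559 (merge (leaf 1 557 561) (node 527 (merge (leaf 5 462 495) (node 622 (merge (leaf 6 526 654) (node 557 (merge (leaf 2 524 556) (node 525 (merge (leaf 4 493 493) (leaf 3 524 524))))))))))) (node 588 (merge (node 587 (merge (node 618 (merge (leaf 1 586 619) (node 586 (merge (leaf 2 554 557) (leaf 1 585 617))))) (merge (node 586 (merge (leaf 2 554 557) (node 554 (merge (leaf 3 553 553) (leaf 3 554 555))))) (node 619 (merge (leaf 1 586 618) (node 591 (merge (leaf 1 587 620) (node 555 (merge (leaf 3 554 554) (leaf 3 555 556)))))))))) (merge (node 587 (merge (node 622 (merge (leaf 0 587 623) (node 586 (merge (leaf 2 554 557) (leaf 0 586 621))))) (merge (node 586 (merge (leaf 2 554 557) (node 554 (merge (leaf 3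 553 553) (leaf 3 554 555))))) (node 623 (merge (leaf 0 587 622) (node 591 (merge (leaf 0 588 624) (node 555 (merge (leaf 3 554 554) (leaf 3 555 556)))))))))) (merge (node 587 (merge (node 618 (merge (leaf 1 586 619) (node 586 (merge (leaf 2 554 557) (leaf 1 585 617))))) (merge (node 622 (merge (leaf 0 587 623) (node 586 (merge (leaf 2 554 557) (leaf 0 586 621))))) (node 623 (merge (leaf 0 587 622) (node 591 (merge (leaf 0 588 624) (node 619 (merge (leaf 1 586 618) (leaf 1 587 620)))))))))) (merge (node 623 (merge (node 622 (merge (leaf 0 587 587) (node 624 (merge (leaf 3 588 621) (leaf 3 589 625))))) (merge (node 624 (merge (leaf 0 588 591) (node 622 (merge (leaf 3 588 621) (leaf 3 589 625))))) (merge (node 587 (merge (leaf 0 587 622) (node 619 (merge (leaf 1 586 618) (node 591 (merge (leaf 1 587 620) (node 555 (merge (leaf 3 554 554) (leaf 3 555 556))))))))) (node 591 (merge (leaf 0 588 624) (node 619 (merge (leaf 1 587 620) (node 587 (merge (leaf 1 586 618) (node 555 (merge (leaf 3 554 554) (leaf 3 555 556))))))))))))) (merge (node 557 (merge (node 587 (merge (leaf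 2 554 586) (node 622 (merge (leaf 0 587 623) (node 654 (merge (leaf 7 525 525) (leaf 7 557 686))))))) (merge (node 621 (merge (node 653 (merge (leaf 6 557 685) (node 524 (merge (leaf 7 524 556) (node 525 (merge (leaf 7 492 492) (node 654 (merge (leaf 7 525 622) (leaf 4 557 686))))))))) (merge (node 653 (merge (leaf 6 557 685) (node 654 (merge (leaf 4 557 686) (node 525 (merge (leaf 7 525 622) (node 652 (merge (leaf 5 524 620) (leaf 5 556 684))))))))) (merge (node 653 (merge (leaf 6 557 685) (node 556 (merge (leaf 7 524 524) (node 555 (merge (leaf 0 554 554) (node 523 (merge (leaf 3 522 522) (node 652 (merge (leaf 7 523 620) (leaf 5 556 684))))))))))) (node 525 (merge (node 620 (merge (leaf 5 492 493) (leaf 5 524 652))) (merge (node 622 (merge (leaf 4 493 493) (leaf 7 525 654))) (node 524 (merge (leaf 7 492 492) (node 622 (merge (leaf 7 525 654) (node 620 (merge (leaf 5 524 652) (node 619 (merge (leaf 2 586 618) (node 651 (merge (leaf 5 523 556) (leaf 1 618 650)))))))))))))))))) (node 556 (merge (node 555 (merge (leaf 0 554 554) (node 587 (merge (leaf 1 554 586) (node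 619 (merge (leaf 1 586 618) (node 524 (merge (leaf 5 491 492) (leaf 6 523 651))))))))) (merge (node 555 (merge (leaf 0 554 554) (node 587 (merge (leaf 1 554 586) (node 523 (merge (leaf 3 522 522) (node 620 (merge (leaf 4 491 491) (leaf 7 523 652))))))))) (node 492 (merge (node 461 (merge (leaf 1 460 493) (node 524 (merge (leaf 4 492 621) (node 460 (merge (leaf 6 428 429) (leaf 4 460 557))))))) (merge (node 461 (merge (leaf 1 460 493) (node 460 (merge (leaf 1 459 491) (node 428 (merge (leaf 3 427 427) (leaf 3 428 429))))))) (node 524 (merge (leaf 4 492 621) (node 491 (merge (leaf 7 459 459) (node 620 (merge (leaf 7 491 523) (node 651 (merge (leaf 5 523 619) (node 652 (merge (leaf 5 555 683) (node 684 (merge (leaf 6 556 557) (node 685 (merge (leaf 4 556 653) (leaf 4 588 717)))))))))))))))))))))))) (node 556 (merge (node 555 (merge (leaf 3 555 591) (node 554 (merge (leaf 0 553 553) (leaf 0 554 557))))) (merge (node 492 (merge (node 461 (merge (leaf 1 460 493) (node 524 (merge (leaf 4 492 621) (node 460 (merge (leaf 6 428 429) (leaf 4 460 557))))))) (merge (node 461 (merge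 (leaf 1 460 493) (node 460 (merge (leaf 1 459 491) (node 428 (merge (leaf 3 427 427) (leaf 3 428 429))))))) (node 524 (merge (leaf 4 492 621) (node 491 (merge (leaf 7 459 459) (node 620 (merge (leaf 7 491 523) (node 651 (merge (leaf 5 523 619) (node 652 (merge (leaf 5 555 683) (node 684 (merge (leaf 6 556 557) (node 685 (merge (leaf 4 556 653) (leaf 4 588 717)))))))))))))))))) (node 653 (merge (node 621 (merge (leaf 6 557 685) (node 524 (merge (leaf 4 492 492) (leaf 4 524 620))))) (merge (node 591 (merge (leaf 3 555 555) (node 620 (merge (leaf 1 587 619) (node 524 (merge (leaf 4 524 621) (node 493 (merge (leaf 6 492 525) (node 492 (merge (leaf 6 460 461) (node 491 (merge (leaf 7 459 459) (leaf 7 491 523))))))))))))) (merge (node 621 (merge (leaf 6 557 685) (node 492 (merge (leaf 4 492 524) (node 461 (merge (leaf 1 460 493) (node 460 (merge (leaf 1 459 491) (node 428 (merge (leaf 3 427 427) (leaf 3 428 429))))))))))) (node 591 (merge (leaf 3 555 555) (node 623 (merge (leaf 0 588 624) (node 620 (merge (leaf 1 587 619) (node 687 (merge (leaf 7 558 655) (node 652 (merge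 (leaf 4 556 685) (node 651 (merge (leaf 5 555 683) (node 654 (merge (leaf 2 619 622) (leaf 0 651 686))))))))))))))))))))))))))))))))))))))))) nP_217 cP_217 14 (by decide +kernel)
def nP_218 : ℕ := 0x1000000010000000000000001c0000000000000000000000000000000000000000000000000000000000000000000000000000000000000000000000000000000000000000000
def cP_218 : ℕ := 0xc0000000e0000001fc00000ffc000007fe00000efe00000efe00001cfe00000efc0000063800000eb80000000000000000000000000000000000000000000000000000000000000000000000000000000000000000000000000000000000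
theorem lP_218 : S nP_218 cP_218 15 := S_of_chk [(nP_217, cP_217, 14)] ⟨lP_217, trivial⟩ (node 558 (merge (node 494 (merge (node 493 (merge (leaf 1 461 465) (node 492 (merge (leaf 2 459 491) (leaf 2 460 495))))) (node 526 (merge (leaf 6 430 431) (node 559 (merge (leaf 4 462 591) (node 525 (merge (leaf 3 525 561) (node 557 (merge (leaf 3 524 524) (leaf 5 461 589))))))))))) (merge (node 465 (merge (node 498 (merge (leaf 0 462 497) (node 466 (merge (leaf 0 463 499) (node 434 (merge (leaf 2 430 433) (leaf 2 431 435))))))) (node 494 (merge (leaf 1 461 493) (node 526 (merge (leaf 6 430 431) (node 590 (merge (leaf 6 462 495) (node 591 (merge (leaf 4 462 559) (leaf 4 494 623))))))))))) (merge (node 493 (merge (node 465 (merge (leaf 1 461 494) (node 498 (merge (leaf 0 462 497) (node 466 (merge (leaf 0 463 499) (node 434 (merge (leaf 2 430 433) (leaf 2 431 435))))))))) (node 461 (merge (leaf 1 460 492) (node 429 (merge (leaf 3 428 428) (node 525 (merge (leaf 4 429 526) (node 557 (merge (leaf 4 461 590) (node 524 (merge (leaf 5 428 556) (leaf 3 524 559))))))))))))) (merge (node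 493 (merge (node 494 (merge (leaf 1 461 465) (node 492 (merge (leaf 2 459 491) (leaf 2 460 495))))) (merge (node 494 (merge (leaf 1 461 465) (node 526 (merge (leaf 6 430 431) (node 590 (merge (leaf 7 461 461) (leaf 6 462 495))))))) (node 461 (merge (leaf 1 460 492) (node 429 (merge (leaf 3 428 428) (node 525 (merge (leaf 4 429 526) (node 557 (merge (leaf 4 461 590) (node 556 (merge (leaf 5 428 524) (leaf 5 460 588)))))))))))))) (merge (node 559 (merge (node 557 (merge (node 527 (merge (leaf 2 524 556) (node 495 (merge (leaf 4 431 431) (leaf 5 462 590))))) (node 465 (merge (node 498 (merge (leaf 0 462 497) (node 466 (merge (leaf 0 463 499) (node 434 (merge (leaf 2 430 433) (leaf 2 431 435))))))) (node 493 (merge (leaf 1 461 494) (node 461 (merge (leaf 1 460 492) (node 428 (merge (leaf 3 428 429) (node 460 (merge (leaf 3 427 427) (leaf 7 428 525))))))))))))) (merge (node 557 (merge (node 556 (merge (leaf 2 524 527) (node 523 (merge (leaf 3 523 524) (node 555 (merge (leaf 3 522 522) (node 590 (merge (leaf 0 555 591) (node 589 (merge (leaf 0 554 554) (leaf 1 557 561)))))))))))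 (merge (node 556 (merge (node 588 (merge (leaf 1 555 587) (leaf 1 556 589))) (merge (node 523 (merge (leaf 3 523 524) (node 555 (merge (leaf 3 522 522) (node 590 (merge (leaf 0 555 591) (node 589 (merge (leaf 0 554 554) (leaf 1 557 561))))))))) (node 587 (merge (leaf 1 555 588) (node 555 (merge (leaf 1 554 586) (node 523 (merge (leaf 3 522 522) (leaf 3 523 524)))))))))) (merge (node 556 (merge (leaf 2 524 527) (node 587 (merge (leaf 1 555 588) (node 555 (merge (leaf 1 554 586) (node 523 (merge (leaf 3 522 522) (leaf 3 523 524))))))))) (node 589 (merge (leaf 1 556 588) (node 561 (merge (leaf 1 557 590) (node 594 (merge (leaf 0 558 593) (node 562 (merge (leaf 0 559 595) (node 531 (merge (leaf 2 527 530) (node 563 (merge (leaf 3 527 527) (leaf 2 528 532))))))))))))))))) (merge (node 557 (merge (node 465 (merge (node 498 (merge (leaf 0 462 497) (node 466 (merge (leaf 0 463 499) (node 434 (merge (leaf 2 430 433) (leaf 2 431 435))))))) (node 493 (merge (leaf 1 461 494) (node 461 (merge (leaf 1 460 492) (node 428 (merge (leaf 3 428 429) (node 460 (merge (leaf 3 427 427) (leaf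 7 428 525))))))))))) (node 556 (merge (node 588 (merge (leaf 1 555 587) (leaf 1 556 589))) (merge (node 523 (merge (leaf 3 523 524) (node 555 (merge (leaf 3 522 522) (node 590 (merge (leaf 0 555 591) (node 589 (merge (leaf 0 554 554) (leaf 1 557 561))))))))) (node 587 (merge (leaf 1 555 588) (node 555 (merge (leaf 1 554 586) (node 523 (merge (leaf 3 522 522) (leaf 3 523 524)))))))))))) (merge (node 493 (merge (node 465 (merge (leaf 1 461 494) (node 498 (merge (leaf 0 462 497) (node 466 (merge (leaf 0 463 499) (node 434 (merge (leaf 2 430 433) (leaf 2 431 435))))))))) (node 461 (merge (leaf 1 460 492) (node 428 (merge (leaf 3 428 429) (node 460 (merge (leaf 3 427 427) (node 557 (merge (leaf 7 428 525) (node 588 (merge (leaf 1 556 589) (node 556 (merge (leaf 2 524 527) (leaf 1 555 587))))))))))))))) (node 590 (merge (node 561 (merge (leaf 1 557 589) (node 594 (merge (leaf 0 558 593) (node 562 (merge (leaf 1 558 591) (leaf 0 559 595))))))) (node 461 (merge (node 492 (merge (leaf 1 460 493) (node 460 (merge (leaf 1 459 491) (node 428 (merge (leaf 3 427 427) (leaf 3 428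 429))))))) (merge (node 493 (merge (leaf 1 460 492) (node 465 (merge (leaf 1 461 494) (node 498 (merge (leaf 0 462 497) (node 466 (merge (leaf 0 463 499) (node 434 (merge (leaf 2 430 433) (leaf 2 431 435))))))))))) (merge (node 495 (merge (node 527 (merge (leaf 4 431 431) (leaf 5 462 558))) (node 428 (merge (leaf 3 428 429) (node 460 (merge (leaf 3 427 427) (node 494 (merge (leaf 0 459 459) (node 465 (merge (leaf 1 462 466) (leaf 1 461 493))))))))))) (node 428 (merge (leaf 3 428 429) (node 460 (merge (leaf 3 427 427) (node 491 (merge (leaf 1 459 492) (node 459 (merge (leaf 1 458 490) (node 495 (merge (leaf 0 459 494) (node 527 (merge (leaf 4 431 431) (leaf 5 462 558)))))))))))))))))))))))) (merge (node 559 (merge (node 526 (merge (node 494 (merge (leaf 6 430 431) (leaf 4 462 591))) (node 525 (merge (leaf 3 525 561) (node 524 (merge (leaf 0 523 523) (leaf 3 524 557))))))) (merge (node 557 (merge (node 524 (merge (leaf 3 524 525) (node 556 (merge (leaf 3 523 523) (leaf 2 524 527))))) (merge (node 588 (merge (leaf 1 556 589) (node 556 (merge (leaf 2 524 527) (leaf 1 555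 587))))) (node 589 (merge (leaf 1 556 588) (node 561 (merge (leaf 1 557 590) (node 525 (merge (leaf 3 524 524) (leaf 3 525 526)))))))))) (merge (node 526 (merge (node 494 (merge (leaf 6 430 431) (leaf 4 462 591))) (merge (node 561 (merge (leaf 3 525 525) (node 594 (merge (leaf 0 558 593) (node 562 (merge (leaf 0 559 595) (node 590 (merge (leaf 1 557 589) (leaf 1 558 591))))))))) (node 494 (merge (leaf 6 430 431) (node 590 (merge (leaf 6 462 495) (node 561 (merge (leaf 3 525 525) (leaf 1 557 589)))))))))) (merge (node 557 (merge (node 556 (merge (leaf 2 524 527) (node 523 (merge (leaf 3 523 524) (node 555 (merge (leaf 3 522 522) (node 590 (merge (leaf 0 555 591) (node 589 (merge (leaf 0 554 554) (leaf 1 557 561))))))))))) (merge (node 556 (merge (node 588 (merge (leaf 1 555 587) (leaf 1 556 589))) (merge (node 523 (merge (leaf 3 523 524) (node 555 (merge (leaf 3 522 522) (node 590 (merge (leaf 0 555 591) (node 589 (merge (leaf 0 554 554) (leaf 1 557 561))))))))) (node 587 (merge (leaf 1 555 588) (node 555 (merge (leaf 1 554 586) (node 523 (merge (leaf 3 522 522) (leaf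 3 523 524)))))))))) (merge (node 556 (merge (leaf 2 524 527) (node 587 (merge (leaf 1 555 588) (node 555 (merge (leaf 1 554 586) (node 523 (merge (leaf 3 522 522) (leaf 3 523 524))))))))) (node 589 (merge (leaf 1 556 588) (node 561 (merge (leaf 1 557 590) (node 594 (merge (leaf 0 558 593) (node 562 (merge (leaf 0 559 595) (node 531 (merge (leaf 2 527 530) (node 563 (merge (leaf 3 527 527) (leaf 2 528 532))))))))))))))))) (node 524 (merge (node 526 (merge (node 494 (merge (leaf 6 430 431) (leaf 4 462 591))) (node 525 (merge (leaf 0 523 523) (leaf 0 524 527))))) (merge (node 557 (merge (leaf 3 524 525) (node 527 (merge (leaf 2 524 556) (node 495 (merge (leaf 4 431 431) (leaf 5 462 590))))))) (merge (node 557 (merge (leaf 3 524 525) (node 588 (merge (leaf 1 556 589) (node 556 (merge (leaf 3 523 523) (leaf 1 555 587))))))) (node 556 (merge (node 557 (merge (leaf 3 523 523) (leaf 2 524 527))) (merge (node 557 (merge (leaf 3 523 523) (node 588 (merge (leaf 1 555 587) (leaf 1 556 589))))) (merge (node 557 (merge (leaf 2 524 527) (node 588 (merge (leaf 1 555 587) (leaf 1 556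 589))))) (node 588 (merge (node 589 (merge (node 590 (merge (leaf 2 555 587) (leaf 2 556 591))) (node 621 (merge (leaf 4 492 492) (node 653 (merge (leaf 4 524 620) (leaf 7 556 685))))))) (merge (node 620 (merge (node 491 (merge (leaf 7 491 523) (node 492 (merge (leaf 7 459 459) (node 621 (merge (leaf 4 492 589) (leaf 4 524 653))))))) (merge (node 653 (merge (leaf 4 524 621) (node 652 (merge (leaf 4 556 685) (node 651 (merge (leaf 5 523 619) (leaf 5 555 683))))))) (node 523 (merge (leaf 7 491 491) (node 652 (merge (leaf 7 523 555) (node 651 (merge (leaf 5 523 619) (leaf 5 555 683)))))))))) (merge (node 589 (merge (node 590 (merge (leaf 2 555 587) (leaf 2 556 591))) (merge (node 492 (merge (leaf 4 492 621) (node 491 (merge (leaf 7 459 459) (node 460 (merge (leaf 1 459 461) (node 587 (merge (leaf 5 459 555) (leaf 5 491 619))))))))) (node 590 (merge (leaf 2 556 591) (node 492 (merge (leaf 4 492 621) (node 459 (merge (leaf 7 459 491) (node 460 (merge (leaf 7 427 427) (node 461 (merge (leaf 6 428 429) (node 495 (merge (leaf 0 459 494) (leaf 5 462 527)))))))))))))))) (merge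 (node 491 (merge (node 492 (merge (leaf 7 459 459) (node 460 (merge (leaf 1 459 461) (node 587 (merge (leaf 5 459 555) (leaf 5 491 619))))))) (merge (node 523 (merge (leaf 7 491 620) (node 459 (merge (leaf 4 427 427) (leaf 4 459 555))))) (node 620 (merge (leaf 7 491 523) (node 653 (merge (leaf 4 524 621) (node 652 (merge (leaf 4 556 685) (node 651 (merge (leaf 5 523 619) (leaf 5 555 683)))))))))))) (merge (node 492 (merge (node 587 (merge (leaf 5 491 619) (node 460 (merge (leaf 5 459 555) (node 461 (merge (leaf 6 428 429) (leaf 1 459 491))))))) (merge (node 491 (merge (leaf 7 459 459) (node 620 (merge (leaf 7 491 523) (node 619 (merge (leaf 5 491 587) (leaf 5 523 651))))))) (merge (node 459 (merge (leaf 7 459 491) (node 460 (merge (leaf 7 427 427) (node 461 (merge (leaf 6 428 429) (node 494 (merge (leaf 0 459 495) (node 526 (merge (leaf 6 430 431) (leaf 4 462 591))))))))))) (node 587 (merge (leaf 5 491 619) (node 460 (merge (leaf 5 459 555) (node 461 (merge (leaf 6 428 429) (node 427 (merge (leaf 3 427 428) (leaf 7 427 459))))))))))))) (node 653 (merge (node 620 (merge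 (leaf 4 524 621) (node 523 (merge (leaf 7 491 491) (node 652 (merge (leaf 7 523 555) (node 651 (merge (leaf 5 523 619) (leaf 5 555 683))))))))) (merge (node 590 (merge (node 589 (merge (leaf 2 555 587) (leaf 2 556 591))) (node 495 (merge (leaf 5 462 527) (node 526 (merge (leaf 6 462 494) (node 622 (merge (leaf 5 525 621) (node 655 (merge (leaf 4 526 623) (node 654 (merge (leaf 5 557 685) (leaf 4 558 687))))))))))))) (node 652 (merge (node 620 (merge (leaf 4 556 685) (node 523 (merge (leaf 7 491 491) (leaf 7 523 555))))) (merge (node 620 (merge (node 651 (merge (leaf 5 523 619) (leaf 5 555 683))) (node 523 (merge (leaf 7 491 491) (leaf 7 523 555))))) (node 654 (merge (node 590 (merge (node 589 (merge (leaf 2 555 587) (leaf 2 556 591))) (node 622 (merge (leaf 6 526 527) (leaf 5 557 685))))) (merge (node 651 (merge (node 622 (merge (leaf 2 619 623) (node 590 (merge (leaf 6 526 527) (leaf 5 557 685))))) (node 687 (merge (leaf 0 651 686) (node 655 (merge (leaf 0 652 688) (node 683 (merge (leaf 1 650 682) (leaf 1 651 684))))))))) (node 651 (merge (node 683 (merge (leaf 1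 650 682) (node 619 (merge (leaf 6 555 587) (leaf 3 618 618))))) (merge (node 687 (merge (leaf 0 651 686) (node 655 (merge (leaf 0 652 688) (node 683 (merge (leaf 1 650 682) (leaf 1 651 684))))))) (node 687 (merge (leaf 0 651 686) (node 655 (merge (leaf 0 652 688) (node 623 (merge (leaf 6 527 591) (leaf 2 620 624)))))))))))))))))))))))))))))))))))))) (hyp 0)))))))) nP_218 cP_218 15 (by decide +kernel)
def nP_219 : ℕ := 0x100000001000000000000000180000000000000000000000000000000000000000000000000000000000000000000000000000000000000000000000000000000000000000000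
def cP_219 : ℕ := 0xc0000000e0000001fc00000ffc000007fe00003efe00001efe00003cfe00003efc00001e7800003fbc000000a0000000a0000000000000000000000000000000000000000000000000000000000000000000000000000000000000000000
theorem lP_219 : S nP_219 cP_219 16 := S_of_chk [(nP_216, cP_216, 13), (nP_218, cP_218, 15)] ⟨lP_216, lP_218, trivial⟩ (node 462 (merge (node 461 (merge (node 493 (merge (leaf 1 460 492) (node 465 (merge (leaf 1 461 494) (node 433 (merge (leaf 2 429 432) (leaf 2 430 434))))))) (merge (node 492 (merge (leaf 1 460 493) (node 460 (merge (leaf 1 459 491) (node 428 (merge (leaf 3 427 427) (leaf 3 428 429))))))) (node 432 (merge (leaf 2 429 433) (node 460 (merge (leaf 2 428 431) (node 428 (merge (leaf 3 427 427) (leaf 3 428 429)))))))))) (merge (node 465 (merge (node 498 (merge (leaf 0 462 497) (node 466 (merge (leaf 0 463 499) (node 434 (merge (leaf 2 430 433) (leaf 2 431 435))))))) (merge (node 493 (merge (leaf 1 461 494) (node 461 (merge (leaf 1 460 492) (node 433 (merge (leaf 2 429 432) (leaf 2 430 434))))))) (node 498 (merge (leaf 0 462 497) (node 466 (merge (leaf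 0 463 499) (node 494 (merge (leaf 1 461 493) (leaf 1 462 495)))))))))) (merge (node 494 (merge (node 465 (merge (leaf 1 461 493) (node 498 (merge (leaf 0 462 497) (node 466 (merge (leaf 0 463 499) (node 434 (merge (leaf 2 430 433) (leaf 2 431 435))))))))) (node 526 (merge (node 431 (merge (leaf 6 430 558) (node 495 (merge (leaf 5 398 399) (leaf 4 431 527))))) (merge (node 558 (merge (leaf 6 430 431) (node 559 (merge (leaf 4 462 591) (node 525 (merge (leaf 3 525 561) (node 557 (merge (leaf 3 524 524) (leaf 5 461 589))))))))) (merge (node 558 (merge (node 590 (merge (leaf 6 462 495) (node 589 (merge (leaf 5 461 557) (leaf 5 493 621))))) (merge (node 590 (merge (leaf 6 462 495) (node 591 (merge (leaf 4 462 559) (leaf 4 494 623))))) (node 559 (merge (leaf 4 462 591) (node 525 (merge (leaf 3 525 561) (node 557 (merge (leaf 3 524 524) (leaf 5 461 589)))))))))) (node 527 (merge (node 561 (merge (leaf 0 525 525) (node 562 (merge (leaf 3 526 559) (leaf 3 527 563))))) (merge (node 495 (merge (leaf 4 431 431) (node 559 (merge (leaf 6 431 432) (leaf 7 462 591))))) (node 525 (merge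 (leaf 0 525 561) (node 556 (merge (leaf 1 524 557) (node 524 (merge (leaf 1 523 555) (node 495 (merge (leaf 4 431 431) (leaf 2 491 523)))))))))))))))))) (merge (node 494 (merge (node 493 (merge (leaf 1 461 465) (node 492 (merge (leaf 1 460 461) (leaf 2 459 491))))) (node 526 (merge (node 431 (merge (leaf 6 430 558) (node 495 (merge (leaf 5 398 399) (leaf 4 431 527))))) (merge (node 558 (merge (leaf 6 430 431) (node 559 (merge (leaf 4 462 591) (node 525 (merge (leaf 3 525 561) (node 557 (merge (leaf 3 524 524) (leaf 5 461 589))))))))) (merge (node 558 (merge (node 590 (merge (leaf 6 462 495) (node 589 (merge (leaf 5 461 557) (leaf 5 493 621))))) (merge (node 590 (merge (leaf 6 462 495) (node 591 (merge (leaf 4 462 559) (leaf 4 494 623))))) (node 559 (merge (leaf 4 462 591) (node 525 (merge (leaf 3 525 561) (node 557 (merge (leaf 3 524 524) (leaf 5 461 589)))))))))) (node 527 (merge (node 561 (merge (leaf 0 525 525) (node 562 (merge (leaf 3 526 559) (leaf 3 527 563))))) (merge (node 495 (merge (leaf 4 431 431) (node 559 (merge (leaf 6 431 432) (leaf 7 462 591))))) (node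 525 (merge (leaf 0 525 561) (node 556 (merge (leaf 1 524 557) (node 524 (merge (leaf 1 523 555) (node 495 (merge (leaf 4 431 431) (leaf 2 491 523)))))))))))))))))) (merge (node 527 (merge (node 495 (merge (leaf 4 431 431) (node 559 (merge (leaf 6 431 432) (node 591 (merge (leaf 7 462 494) (node 590 (merge (leaf 5 462 558) (leaf 5 494 622))))))))) (merge (node 495 (merge (leaf 4 431 431) (node 432 (merge (leaf 6 431 559) (node 461 (merge (leaf 2 429 433) (node 492 (merge (leaf 1 460 493) (node 460 (merge (leaf 1 459 491) (node 428 (merge (leaf 3 427 427) (leaf 3 428 429))))))))))))) (merge (node 526 (merge (node 561 (merge (leaf 0 525 525) (node 562 (merge (leaf 3 526 559) (leaf 3 527 563))))) (node 461 (merge (node 432 (merge (leaf 2 429 433) (node 460 (merge (leaf 2 428 431) (node 428 (merge (leaf 3 427 427) (leaf 3 428 429))))))) (merge (node 429 (merge (leaf 3 428 428) (node 494 (merge (leaf 7 429 558) (node 397 (merge (leaf 4 365 365) (leaf 4 397 493))))))) (node 492 (merge (leaf 1 460 493) (node 460 (merge (leaf 1 459 491) (node 432 (merge (leaf 2 428 431) (leaf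 2 429 433)))))))))))) (merge (node 559 (merge (node 495 (merge (leaf 6 431 432) (node 591 (merge (leaf 7 462 494) (node 590 (merge (leaf 5 462 558) (leaf 5 494 622))))))) (merge (node 432 (merge (leaf 6 431 495) (node 461 (merge (leaf 2 429 433) (node 492 (merge (leaf 1 460 493) (node 460 (merge (leaf 1 459 491) (node 428 (merge (leaf 3 427 427) (leaf 3 428 429))))))))))) (node 558 (merge (node 557 (merge (leaf 2 524 556) (node 589 (merge (leaf 1 556 588) (node 525 (merge (leaf 3 524 524) (node 494 (merge (leaf 6 461 493) (leaf 5 461 526))))))))) (merge (node 557 (merge (leaf 2 524 556) (node 589 (merge (leaf 1 556 588) (node 561 (merge (leaf 1 557 590) (node 562 (merge (leaf 3 526 526) (leaf 3 527 563))))))))) (merge (node 526 (merge (node 561 (merge (leaf 3 525 525) (leaf 3 526 562))) (node 494 (merge (leaf 4 462 591) (node 461 (merge (leaf 7 429 429) (node 493 (merge (leaf 1 460 492) (leaf 7 461 590))))))))) (node 557 (merge (leaf 2 524 556) (node 589 (merge (leaf 1 556 588) (node 590 (merge (leaf 1 557 561) (node 525 (merge (leaf 3 524 524) (node 493 (merge (leaf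 6 461 494) (leaf 4 493 622)))))))))))))))))) (merge (node 559 (merge (node 495 (merge (leaf 4 431 431) (node 590 (merge (leaf 5 462 558) (node 591 (merge (leaf 7 462 494) (leaf 5 494 622))))))) (merge (node 495 (merge (leaf 4 431 431) (node 558 (merge (leaf 5 462 590) (node 557 (merge (leaf 2 524 556) (node 525 (merge (leaf 3 524 524) (node 561 (merge (leaf 0 525 526) (node 594 (merge (leaf 0 558 593) (node 562 (merge (leaf 3 527 563) (leaf 0 559 595))))))))))))))) (merge (node 558 (merge (node 557 (merge (leaf 2 524 556) (node 589 (merge (leaf 1 556 588) (node 525 (merge (leaf 3 524 524) (node 494 (merge (leaf 6 461 493) (leaf 5 461 526))))))))) (merge (node 557 (merge (leaf 2 524 556) (node 589 (merge (leaf 1 556 588) (node 561 (merge (leaf 1 557 590) (node 562 (merge (leaf 3 526 526) (leaf 3 527 563))))))))) (merge (node 526 (merge (node 561 (merge (leaf 3 525 525) (leaf 3 526 562))) (node 494 (merge (leaf 4 462 591) (node 461 (merge (leaf 7 429 429) (node 493 (merge (leaf 1 460 492) (leaf 7 461 590))))))))) (node 557 (merge (leaf 2 524 556) (node 589 (merge (leaf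 1 556 588) (node 590 (merge (leaf 1 557 561) (node 525 (merge (leaf 3 524 524) (node 493 (merge (leaf 6 461 494) (leaf 4 493 622))))))))))))))) (node 461 (merge (node 492 (merge (leaf 1 460 493) (node 460 (merge (leaf 1 459 491) (node 428 (merge (leaf 3 427 427) (leaf 3 428 429))))))) (merge (node 492 (merge (leaf 1 460 493) (node 460 (merge (leaf 1 459 491) (node 495 (merge (leaf 4 431 431) (node 494 (merge (leaf 0 459 459) (leaf 7 462 591))))))))) (merge (node 428 (merge (leaf 3 428 429) (node 460 (merge (leaf 3 427 427) (node 495 (merge (leaf 4 431 431) (node 494 (merge (leaf 0 459 459) (leaf 7 462 591))))))))) (node 493 (merge (leaf 1 460 492) (node 429 (merge (leaf 3 428 428) (node 495 (merge (leaf 4 431 431) (node 494 (merge (leaf 7 462 591) (node 397 (merge (leaf 4 365 365) (leaf 4 397 526))))))))))))))))))) (node 526 (merge (node 525 (merge (leaf 0 525 561) (node 556 (merge (leaf 1 524 557) (node 524 (merge (leaf 1 523 555) (node 492 (merge (leaf 3 491 491) (leaf 3 492 493))))))))) (merge (node 461 (merge (node 432 (merge (leaf 2 429 433) (node 431 (merge (leaf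 2 428 460) (leaf 4 431 495))))) (node 493 (merge (leaf 1 460 492) (node 429 (merge (leaf 3 428 428) (node 494 (merge (leaf 4 397 397) (leaf 7 429 558))))))))) (merge (node 525 (merge (leaf 0 525 561) (node 556 (merge (leaf 1 524 557) (node 524 (merge (leaf 1 523 555) (node 491 (merge (leaf 3 491 492) (node 523 (merge (leaf 3 490 490) (node 495 (merge (leaf 4 431 431) (leaf 2 491 494))))))))))))) (node 525 (merge (leaf 0 525 561) (node 557 (merge (leaf 1 524 556) (node 431 (merge (leaf 4 431 495) (node 494 (merge (leaf 6 430 558) (node 589 (merge (leaf 6 461 493) (leaf 6 493 621))))))))))))))))))))) (merge (node 465 (merge (node 498 (merge (leaf 0 462 497) (node 466 (merge (leaf 0 463 499) (node 434 (merge (leaf 2 430 433) (leaf 2 431 435))))))) (merge (node 433 (merge (leaf 2 430 434) (node 461 (merge (leaf 2 429 432) (node 492 (merge (leaf 1 460 493) (node 460 (merge (leaf 1 459 491) (node 428 (merge (leaf 3 427 427) (leaf 3 428 429))))))))))) (merge (node 466 (merge (node 498 (merge (leaf 0 462 497) (leaf 0 463 499))) (merge (node 461 (merge (node 492 (merge (leaf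 1 460 493) (node 460 (merge (leaf 1 459 491) (node 428 (merge (leaf 3 427 427) (leaf 3 428 429))))))) (node 432 (merge (leaf 2 429 433) (node 467 (merge (leaf 3 431 431) (node 500 (merge (leaf 0 464 499) (node 468 (merge (leaf 0 465 501) (node 436 (merge (leaf 2 432 435) (leaf 2 433 437))))))))))))) (node 562 (merge (node 498 (merge (leaf 0 462 497) (node 433 (merge (leaf 7 433 530) (node 432 (merge (leaf 2 429 461) (node 467 (merge (leaf 3 431 431) (leaf 3 432 468))))))))) (merge (node 498 (merge (leaf 0 462 497) (node 530 (merge (leaf 7 433 433) (node 563 (merge (leaf 4 466 595) (node 561 (merge (leaf 3 527 527) (leaf 5 465 593))))))))) (merge (node 527 (merge (node 561 (merge (leaf 3 527 563) (node 526 (merge (leaf 0 525 525) (leaf 3 526 559))))) (node 431 (merge (leaf 4 431 495) (node 432 (merge (leaf 3 431 467) (node 461 (merge (leaf 2 429 433) (leaf 2 428 460))))))))) (node 527 (merge (node 561 (merge (leaf 3 527 563) (node 526 (merge (leaf 0 525 525) (leaf 3 526 559))))) (node 498 (merge (leaf 0 462 497) (node 431 (merge (leaf 4 431 495) (node 467 (merge (leaf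 3 431 432) (node 435 (merge (leaf 2 432 436) (leaf 6 434 530)))))))))))))))))) (node 527 (merge (node 498 (merge (leaf 0 462 497) (node 466 (merge (leaf 0 463 499) (node 435 (merge (leaf 2 431 434) (node 467 (merge (leaf 2 432 436) (node 431 (merge (leaf 3 431 432) (leaf 4 431 495))))))))))) (merge (node 495 (merge (leaf 4 431 431) (node 559 (merge (leaf 6 431 432) (node 558 (merge (leaf 5 462 590) (node 557 (merge (leaf 2 524 556) (node 525 (merge (leaf 3 524 524) (node 561 (merge (leaf 0 525 526) (node 594 (merge (leaf 0 558 593) (node 562 (merge (leaf 3 527 563) (leaf 0 559 595))))))))))))))))) (node 498 (merge (leaf 0 462 497) (node 466 (merge (leaf 0 463 499) (node 435 (merge (leaf 2 431 434) (node 467 (merge (leaf 2 432 436) (node 562 (merge (leaf 6 434 530) (node 561 (merge (leaf 3 527 563) (node 526 (merge (leaf 0 525 525) (leaf 3 526 559)))))))))))))))))))))) (merge (hyp 0) (hyp 1))))))))) nP_219 cP_219 16 (by decide +kernel)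
def nP_220 : ℕ := 0x100000001000000000000000080000000000000000000000000000000000000000000000000000000000000000000000000000000000000000000000000000000000000000000
def cP_220 : ℕ := 0xc0000000e0000001fc00000ffc000007fe00000efe00000efe00001cfe00001fff00000f7e00001efe000000f0000000f0000000f00000008000000000000000000000000000000000000000000000000000000000000000000000000000
theorem lP_220 : S nP_220 cP_220 17 := S_of_chk [(nP_191, cP_191, 10), (nP_192, cP_192, 10), (nP_218, cP_218, 15)] ⟨lP_191, lP_192, lP_218, trivial⟩ (node 462 (merge (node 464 (merge (node 496 (merge (leaf 7 431 431) (node 497 (merge (leaf 0 461 461) (node 498 (merge (leaf 3 462 495) (leaf 3 463 499))))))) (merge (node 465 (merge (node 433 (merge (leaf 2 430 434) (leaf 6 432 496))) (node 493 (merge (leaf 1 461 494) (node 461 (merge (leaf 1 460 492) (node 429 (merge (leaf 3 428 428) (leaf 3 429 430))))))))) (merge (node 496 (merge (leaf 7 431 431) (node 465 (merge (leaf 6 432 433) (node 498 (merge (leaf 0 462 497) (node 466 (merge (leaf 0 463 499) (node 494 (merge (leaf 1 461 493) (leaf 1 462 495)))))))))))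 (node 493 (merge (node 492 (merge (leaf 1 460 461) (node 494 (merge (leaf 2 459 491) (leaf 2 460 495))))) (merge (node 461 (merge (leaf 1 460 492) (node 429 (merge (leaf 3 428 428) (node 430 (merge (leaf 3 429 465) (node 398 (merge (leaf 5 365 366) (leaf 6 397 525))))))))) (node 465 (merge (leaf 1 461 494) (node 498 (merge (leaf 0 462 497) (node 466 (merge (leaf 0 463 499) (node 434 (merge (leaf 2 430 433) (leaf 2 431 435)))))))))))))))) (merge (node 431 (merge (node 495 (merge (leaf 4 431 527) (node 496 (merge (leaf 4 399 399) (leaf 7 431 464))))) (merge (node 494 (merge (node 526 (merge (leaf 6 430 558) (node 399 (merge (leaf 5 366 367) (leaf 6 398 430))))) (node 464 (merge (leaf 7 431 496) (node 493 (merge (leaf 1 461 465) (node 492 (merge (leaf 1 460 461) (leaf 2 459 491))))))))) (merge (node 496 (merge (leaf 7 431 464) (node 495 (merge (leaf 4 431 527) (node 461 (merge (leaf 0 460 460) (node 497 (merge (leaf 3 461 494) (leaf 3 462 498))))))))) (node 526 (merge (node 494 (merge (leaf 6 430 558) (node 399 (merge (leaf 5 366 367) (leaf 6 398 430))))) (node 527 (merge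 (leaf 4 431 495) (node 561 (merge (leaf 0 525 525) (node 562 (merge (leaf 3 526 559) (leaf 3 527 563))))))))))))) (merge (node 464 (merge (node 496 (merge (leaf 7 431 431) (node 497 (merge (leaf 0 461 461) (node 465 (merge (leaf 6 432 433) (leaf 0 462 498))))))) (merge (node 465 (merge (node 433 (merge (leaf 2 430 434) (leaf 6 432 496))) (node 493 (merge (leaf 1 461 494) (node 461 (merge (leaf 1 460 492) (node 429 (merge (leaf 3 428 428) (leaf 3 429 430))))))))) (merge (node 496 (merge (leaf 7 431 431) (node 461 (merge (leaf 0 461 497) (node 492 (merge (leaf 1 460 493) (node 460 (merge (leaf 1 459 491) (node 428 (merge (leaf 3 427 427) (leaf 3 428 429))))))))))) (merge (node 429 (merge (node 428 (merge (leaf 3 428 461) (node 430 (merge (leaf 0 427 427) (leaf 0 428 431))))) (merge (node 465 (merge (leaf 3 429 430) (node 498 (merge (leaf 0 462 497) (node 466 (merge (leaf 0 463 499) (node 434 (merge (leaf 2 430 433) (leaf 2 431 435))))))))) (node 461 (merge (leaf 3 428 428) (node 493 (merge (leaf 1 460 492) (node 494 (merge (leaf 1 461 465) (node 397 (merge (leaf 4 365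 365) (leaf 4 397 526)))))))))))) (node 494 (merge (node 431 (merge (leaf 7 431 496) (node 526 (merge (leaf 6 430 558) (node 399 (merge (leaf 5 366 367) (leaf 6 398 430))))))) (node 465 (merge (leaf 1 461 493) (node 498 (merge (leaf 0 462 497) (node 466 (merge (leaf 0 463 499) (node 434 (merge (leaf 2 430 433) (leaf 2 431 435)))))))))))))))) (merge (hyp 0) (merge (hyp 1) (merge (node 527 (merge (node 495 (merge (leaf 4 431 431) (node 430 (merge (leaf 7 430 559) (node 398 (merge (leaf 4 366 366) (leaf 4 398 494))))))) (merge (node 495 (merge (leaf 4 431 431) (node 559 (merge (leaf 7 430 430) (node 590 (merge (leaf 5 462 558) (node 591 (merge (leaf 5 494 622) (node 496 (merge (leaf 6 463 464) (leaf 6 495 623))))))))))) (merge (node 526 (merge (node 431 (merge (leaf 4 431 495) (node 494 (merge (leaf 6 430 558) (node 399 (merge (leaf 5 366 367) (leaf 6 398 430))))))) (merge (node 525 (merge (leaf 0 525 561) (node 557 (merge (leaf 1 524 556) (node 494 (merge (leaf 5 429 430) (node 558 (merge (leaf 6 430 431) (leaf 5 461 589))))))))) (node 525 (merge (leaf 0 525 561) (node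 556 (merge (leaf 1 524 557) (node 524 (merge (leaf 1 523 555) (node 496 (merge (leaf 2 492 495) (leaf 2 493 497)))))))))))) (merge (node 559 (merge (node 495 (merge (leaf 4 431 431) (node 591 (merge (leaf 7 462 494) (node 496 (merge (leaf 6 463 464) (leaf 6 495 623))))))) (merge (node 561 (merge (node 562 (merge (leaf 3 526 526) (leaf 3 527 563))) (merge (node 562 (merge (leaf 3 527 563) (node 591 (merge (leaf 1 558 590) (node 623 (merge (leaf 6 495 496) (leaf 6 527 655))))))) (node 591 (merge (node 623 (merge (leaf 6 495 496) (leaf 6 527 655))) (node 526 (merge (leaf 0 525 525) (node 558 (merge (leaf 4 462 494) (node 589 (merge (leaf 1 557 590) (node 557 (merge (leaf 2 524 556) (leaf 1 556 588)))))))))))))) (merge (node 495 (merge (leaf 4 431 431) (node 558 (merge (leaf 5 462 590) (node 557 (merge (leaf 2 524 556) (node 589 (merge (leaf 1 556 588) (node 525 (merge (leaf 3 524 524) (node 526 (merge (leaf 5 461 494) (leaf 0 525 561))))))))))))) (node 495 (merge (leaf 4 431 431) (node 558 (merge (leaf 5 462 590) (node 557 (merge (leaf 2 524 556) (node 525 (merge (leaf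 3 524 524) (node 526 (merge (leaf 0 525 561) (node 496 (merge (leaf 2 493 497) (node 591 (merge (leaf 6 463 464) (leaf 6 495 623))))))))))))))))))) (merge (node 559 (merge (node 430 (merge (leaf 7 430 495) (node 526 (merge (leaf 4 430 494) (node 525 (merge (leaf 0 524 524) (leaf 0 525 561))))))) (merge (node 495 (merge (leaf 7 430 430) (node 590 (merge (leaf 5 462 558) (node 591 (merge (leaf 7 462 494) (leaf 5 494 622))))))) (merge (node 526 (merge (node 561 (merge (leaf 0 525 525) (leaf 3 526 562))) (node 494 (merge (leaf 4 430 430) (node 591 (merge (leaf 4 462 558) (leaf 7 494 623))))))) (merge (node 591 (merge (node 623 (merge (leaf 6 495 496) (leaf 6 527 655))) (node 495 (merge (leaf 7 462 494) (node 590 (merge (leaf 5 494 622) (node 561 (merge (leaf 1 558 562) (node 589 (merge (leaf 1 557 558) (leaf 2 556 588))))))))))) (node 495 (merge (leaf 7 430 430) (node 558 (merge (leaf 5 462 590) (node 557 (merge (leaf 2 524 556) (node 525 (merge (leaf 3 524 524) (node 561 (merge (leaf 0 525 526) (node 594 (merge (leaf 0 558 593) (node 562 (merge (leaf 3 527 563) (leaf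 0 559 595)))))))))))))))))))) (node 464 (merge (node 496 (merge (leaf 7 431 431) (node 561 (merge (leaf 4 464 593) (node 562 (merge (leaf 3 527 563) (node 559 (merge (leaf 3 526 526) (leaf 5 463 591))))))))) (merge (node 465 (merge (node 433 (merge (leaf 2 430 434) (leaf 6 432 496))) (merge (node 497 (merge (leaf 0 462 498) (node 461 (merge (leaf 0 461 496) (node 429 (merge (leaf 3 428 428) (leaf 3 429 430))))))) (node 498 (merge (leaf 0 462 497) (node 466 (merge (leaf 0 463 499) (node 434 (merge (leaf 2 430 433) (leaf 2 431 435)))))))))) (node 526 (merge (node 561 (merge (leaf 0 525 525) (node 562 (merge (leaf 3 526 559) (leaf 3 527 563))))) (merge (node 525 (merge (leaf 0 525 561) (node 557 (merge (leaf 1 524 556) (node 494 (merge (leaf 5 429 430) (node 589 (merge (leaf 5 461 558) (leaf 6 493 621))))))))) (node 494 (merge (node 559 (merge (leaf 4 430 430) (node 591 (merge (leaf 4 462 558) (leaf 7 494 623))))) (merge (node 431 (merge (leaf 6 430 558) (node 399 (merge (leaf 5 366 367) (leaf 6 398 430))))) (merge (node 558 (merge (leaf 6 430 431) (node 559 (merge (leaf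 4 462 591) (node 557 (merge (leaf 2 524 556) (leaf 5 461 589))))))) (node 430 (merge (leaf 4 430 559) (node 398 (merge (node 399 (merge (leaf 6 366 367) (leaf 6 398 431))) (merge (node 367 (merge (leaf 6 366 399) (node 366 (merge (leaf 6 334 335) (node 365 (merge (leaf 7 333 333) (leaf 7 365 397))))))) (merge (node 431 (merge (leaf 6 398 399) (node 365 (merge (leaf 7 365 397) (node 366 (merge (leaf 7 333 333) (leaf 4 334 334))))))) (node 365 (merge (leaf 7 365 397) (node 366 (merge (leaf 7 333 333) (node 335 (merge (leaf 6 334 367) (node 334 (merge (leaf 6 302 303) (leaf 4 334 431))))))))))))))))))))))))))))))) (merge (node 495 (merge (node 431 (merge (leaf 4 431 527) (node 496 (merge (leaf 4 399 399) (leaf 7 431 464))))) (merge (node 527 (merge (leaf 4 431 431) (node 559 (merge (leaf 7 430 430) (node 558 (merge (leaf 5 462 590) (node 557 (merge (leaf 2 524 556) (node 525 (merge (leaf 3 524 524) (node 561 (merge (leaf 0 525 526) (node 594 (merge (leaf 0 558 593) (node 562 (merge (leaf 3 527 563) (leaf 0 559 595))))))))))))))))) (merge (node 461 (merge (node 496 (merge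 (leaf 0 460 460) (node 497 (merge (leaf 0 461 464) (leaf 3 462 498))))) (merge (node 460 (merge (leaf 0 460 496) (node 491 (merge (leaf 1 459 492) (node 459 (merge (leaf 1 458 490) (node 427 (merge (leaf 3 426 426) (leaf 3 427 428))))))))) (merge (node 464 (merge (node 496 (merge (leaf 7 431 431) (leaf 0 461 497))) (merge (node 429 (merge (leaf 3 428 428) (node 465 (merge (leaf 3 429 430) (node 433 (merge (leaf 2 430 434) (leaf 6 432 496))))))) (node 429 (merge (leaf 3 428 428) (node 465 (merge (leaf 3 429 430) (node 498 (merge (leaf 0 462 497) (node 466 (merge (leaf 0 463 499) (node 434 (merge (leaf 2 430 433) (leaf 2 431 435)))))))))))))) (node 460 (merge (node 491 (merge (leaf 1 459 492) (node 459 (merge (leaf 1 458 490) (node 427 (merge (leaf 3 426 426) (leaf 3 427 428))))))) (merge (node 492 (merge (leaf 1 459 491) (node 464 (merge (leaf 1 460 493) (node 428 (merge (leaf 3 427 427) (leaf 3 428 429))))))) (merge (node 427 (merge (leaf 3 427 428) (node 459 (merge (leaf 3 426 426) (node 490 (merge (leaf 1 458 491) (node 458 (merge (leaf 1 457 489) (node 430 (merge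 (leaf 2 426 429) (leaf 2 427 431))))))))))) (merge (node 491 (merge (leaf 1 459 492) (node 459 (merge (leaf 1 458 490) (node 430 (merge (leaf 2 427 431) (node 458 (merge (leaf 2 426 429) (node 426 (merge (leaf 3 425 425) (leaf 3 426 427))))))))))) (merge (node 492 (merge (leaf 1 459 491) (node 464 (merge (leaf 1 460 493) (node 429 (merge (leaf 3 428 428) (node 430 (merge (leaf 3 429 465) (node 459 (merge (leaf 2 427 431) (leaf 2 426 458))))))))))) (node 427 (merge (leaf 3 427 428) (node 459 (merge (leaf 3 426 426) (node 430 (merge (leaf 2 427 431) (node 429 (merge (leaf 2 426 458) (node 464 (merge (leaf 3 429 465) (node 493 (merge (leaf 1 460 492) (node 398 (merge (leaf 4 366 366) (leaf 6 397 525))))))))))))))))))))))))) (node 461 (merge (node 496 (merge (leaf 0 460 460) (node 497 (merge (leaf 0 461 464) (leaf 3 462 498))))) (merge (node 460 (merge (leaf 0 460 496) (node 491 (merge (leaf 1 459 492) (node 459 (merge (leaf 1 458 490) (node 427 (merge (leaf 3 426 426) (leaf 3 427 428))))))))) (merge (node 429 (merge (node 428 (merge (leaf 3 428 464) (node 427 (merge (leaf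 0 426 426) (leaf 3 427 460))))) (merge (node 428 (merge (leaf 3 428 464) (node 427 (merge (leaf 0 426 426) (leaf 0 427 430))))) (merge (node 493 (merge (node 492 (merge (leaf 1 460 464) (node 491 (merge (leaf 1 459 460) (leaf 2 458 490))))) (node 525 (merge (node 430 (merge (leaf 6 397 398) (leaf 6 429 557))) (merge (node 526 (merge (leaf 4 429 558) (node 556 (merge (leaf 5 428 524) (node 557 (merge (leaf 1 524 527) (leaf 5 460 588))))))) (node 430 (merge (leaf 6 397 398) (node 527 (merge (leaf 7 430 559) (node 526 (merge (leaf 4 429 558) (leaf 0 525 561)))))))))))) (node 460 (merge (node 492 (merge (leaf 1 459 491) (node 524 (merge (leaf 6 428 556) (node 397 (merge (leaf 5 364 365) (leaf 5 396 493))))))) (node 459 (merge (node 427 (merge (leaf 3 426 426) (leaf 3 427 428))) (merge (node 458 (merge (leaf 2 426 430) (node 489 (merge (leaf 1 457 490) (node 457 (merge (leaf 2 425 428) (leaf 1 456 488))))))) (node 458 (merge (leaf 2 426 430) (node 426 (merge (leaf 3 425 425) (leaf 3 426 427)))))))))))))) (node 559 (merge (node 527 (merge (leaf 7 430 430) (node 590 (merge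 (leaf 5 462 558) (node 591 (merge (leaf 5 494 622) (node 496 (merge (leaf 6 463 464) (leaf 6 495 623))))))))) (merge (node 527 (merge (leaf 7 430 430) (node 558 (merge (leaf 5 462 590) (node 557 (merge (leaf 2 524 556) (node 525 (merge (leaf 3 524 524) (node 526 (merge (leaf 0 525 561) (node 493 (merge (leaf 4 429 429) (leaf 3 492 492))))))))))))) (merge (node 464 (merge (node 496 (merge (leaf 0 461 497) (leaf 5 463 591))) (merge (node 429 (merge (leaf 3 428 428) (node 465 (merge (leaf 3 429 430) (node 498 (merge (leaf 0 462 497) (node 466 (merge (leaf 0 463 499) (node 434 (merge (leaf 2 430 433) (leaf 2 431 435))))))))))) (node 429 (merge (leaf 3 428 428) (node 465 (merge (leaf 3 429 430) (node 496 (merge (leaf 6 432 433) (leaf 5 463 591)))))))))) (node 558 (merge (node 590 (merge (leaf 5 462 527) (node 589 (merge (leaf 1 557 561) (node 588 (merge (leaf 2 555 587) (leaf 2 556 591))))))) (merge (node 527 (merge (leaf 5 462 590) (node 557 (merge (leaf 2 524 556) (node 525 (merge (leaf 3 524 524) (node 526 (merge (leaf 0 525 561) (node 493 (merge (leaf 4 429 429) (leaf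 3 492 492))))))))))) (merge (node 557 (merge (node 527 (merge (leaf 2 524 556) (leaf 5 462 590))) (merge (node 588 (merge (leaf 1 556 589) (node 556 (merge (leaf 1 555 587) (node 525 (merge (leaf 5 460 493) (leaf 3 524 524))))))) (node 525 (merge (leaf 3 524 524) (node 590 (merge (leaf 4 461 493) (leaf 5 462 527)))))))) (merge (node 557 (merge (node 588 (merge (leaf 1 556 589) (node 556 (merge (leaf 2 524 527) (leaf 1 555 587))))) (merge (node 588 (merge (leaf 1 556 589) (node 556 (merge (leaf 1 555 587) (node 525 (merge (leaf 5 460 493) (leaf 3 524 524))))))) (node 525 (merge (leaf 3 524 524) (node 561 (merge (leaf 3 525 526) (node 594 (merge (leaf 0 558 593) (node 562 (merge (leaf 0 559 595) (node 531 (merge (leaf 2 527 530) (node 563 (merge (leaf 3 527 527) (leaf 2 528 532)))))))))))))))) (node 525 (merge (node 524 (merge (leaf 3 524 557) (node 526 (merge (leaf 0 523 523) (leaf 3 525 561))))) (merge (node 557 (merge (leaf 3 524 524) (node 588 (merge (leaf 1 556 589) (node 493 (merge (leaf 5 460 556) (leaf 4 461 590))))))) (node 561 (merge (leaf 3 525 526) (node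 593 (merge (leaf 0 558 594) (node 590 (merge (leaf 1 557 589) (node 562 (merge (leaf 1 558 591) (node 530 (merge (leaf 2 527 531) (node 496 (merge (leaf 4 464 464) (node 498 (merge (leaf 5 465 466) (leaf 3 462 497))))))))))))))))))))))))))))))))))) (merge (node 461 (merge (node 464 (merge (node 493 (merge (leaf 1 460 492) (node 465 (merge (leaf 1 461 494) (node 433 (merge (leaf 2 430 434) (leaf 6 432 496))))))) (merge (node 496 (merge (leaf 0 461 497) (node 460 (merge (leaf 0 460 495) (node 492 (merge (leaf 1 459 491) (leaf 1 460 493))))))) (merge (node 496 (merge (leaf 0 461 497) (node 495 (merge (leaf 0 460 460) (node 465 (merge (leaf 6 432 433) (node 466 (merge (leaf 1 463 467) (leaf 1 462 494))))))))) (node 493 (merge (leaf 1 460 492) (node 465 (merge (leaf 1 461 494) (node 498 (merge (leaf 0 462 497) (node 466 (merge (leaf 0 463 499) (node 434 (merge (leaf 2 430 433) (leaf 2 431 435))))))))))))))) (merge (node 464 (merge (node 429 (merge (leaf 3 428 428) (node 465 (merge (leaf 3 429 430) (node 433 (merge (leaf 2 430 434) (leaf 6 432 496))))))) (merge (node 496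 (merge (leaf 0 461 497) (node 460 (merge (leaf 0 460 495) (node 428 (merge (leaf 3 427 427) (leaf 3 428 429))))))) (merge (node 496 (merge (leaf 0 461 497) (node 495 (merge (leaf 0 460 460) (node 465 (merge (leaf 6 432 433) (node 466 (merge (leaf 1 463 467) (leaf 1 462 494))))))))) (node 429 (merge (leaf 3 428 428) (node 465 (merge (leaf 3 429 430) (node 498 (merge (leaf 0 462 497) (node 466 (merge (leaf 0 463 499) (node 494 (merge (leaf 1 461 493) (leaf 1 462 495))))))))))))))) (merge (node 496 (merge (node 495 (merge (leaf 0 460 460) (node 497 (merge (leaf 0 461 464) (leaf 3 462 498))))) (merge (node 464 (merge (leaf 0 461 497) (node 465 (merge (leaf 6 432 433) (node 429 (merge (leaf 3 428 428) (leaf 3 429 430))))))) (node 460 (merge (leaf 0 460 495) (node 491 (merge (leaf 1 459 492) (node 459 (merge (leaf 1 458 490) (node 427 (merge (leaf 3 426 426) (leaf 3 427 428)))))))))))) (merge (node 460 (merge (node 495 (merge (leaf 0 460 496) (node 459 (merge (leaf 0 459 494) (node 491 (merge (leaf 1 458 490) (leaf 1 459 492))))))) (merge (node 495 (merge (leaf 0 460 496)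 (node 459 (merge (leaf 0 459 494) (node 427 (merge (leaf 3 426 426) (leaf 3 427 428))))))) (node 492 (merge (leaf 1 459 491) (node 524 (merge (node 429 (merge (leaf 6 428 556) (node 428 (merge (leaf 6 396 397) (leaf 3 427 427))))) (merge (node 429 (merge (leaf 6 428 556) (node 397 (merge (leaf 5 364 365) (leaf 5 396 493))))) (merge (node 428 (merge (leaf 3 427 427) (node 525 (merge (leaf 4 428 557) (node 493 (merge (leaf 4 396 396) (node 556 (merge (leaf 6 460 588) (node 555 (merge (leaf 5 427 523) (leaf 5 459 587))))))))))) (node 428 (merge (leaf 3 427 427) (node 397 (merge (leaf 6 396 429) (node 396 (merge (leaf 6 364 365) (node 525 (merge (leaf 4 396 493) (leaf 4 428 557)))))))))))))))))) (merge (node 492 (merge (node 491 (merge (leaf 1 459 460) (node 493 (merge (leaf 2 458 490) (leaf 2 459 494))))) (merge (node 460 (merge (leaf 1 459 491) (node 428 (merge (leaf 3 427 427) (node 429 (merge (leaf 3 428 464) (node 397 (merge (leaf 5 364 365) (leaf 6 396 524))))))))) (node 464 (merge (leaf 1 460 493) (node 429 (merge (leaf 3 428 428) (node 465 (merge (leaf 3 429 430)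 (node 498 (merge (leaf 0 462 497) (node 466 (merge (leaf 0 463 499) (node 434 (merge (leaf 2 430 433) (leaf 2 431 435)))))))))))))))) (node 493 (merge (node 464 (merge (leaf 1 460 492) (node 496 (merge (leaf 0 461 497) (node 465 (merge (leaf 6 432 433) (leaf 1 461 494))))))) (merge (node 464 (merge (leaf 1 460 492) (node 496 (merge (leaf 0 461 497) (node 465 (merge (leaf 6 432 433) (node 429 (merge (leaf 3 428 428) (leaf 3 429 430))))))))) (merge (node 429 (merge (node 428 (merge (leaf 3 428 464) (node 427 (merge (leaf 0 426 426) (leaf 0 427 430))))) (merge (node 464 (merge (leaf 3 428 428) (node 496 (merge (leaf 0 461 497) (node 465 (merge (leaf 6 432 433) (leaf 1 461 494))))))) (node 397 (merge (node 494 (merge (leaf 4 365 365) (leaf 4 397 526))) (merge (node 366 (merge (leaf 6 365 398) (node 365 (merge (leaf 6 333 334) (node 364 (merge (leaf 7 332 332) (leaf 7 364 396))))))) (node 398 (merge (leaf 6 365 366) (node 525 (merge (leaf 6 397 430) (node 526 (merge (leaf 4 397 494) (leaf 4 429 558))))))))))))) (node 525 (merge (node 526 (merge (node 527 (merge (leaf 3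 492 492) (leaf 0 525 561))) (node 558 (merge (leaf 4 429 429) (node 590 (merge (leaf 7 461 494) (leaf 7 493 622))))))) (merge (node 557 (merge (node 589 (merge (leaf 6 461 494) (node 590 (merge (leaf 4 461 558) (leaf 4 493 622))))) (merge (node 589 (merge (leaf 6 461 494) (node 588 (merge (leaf 5 460 556) (leaf 5 492 620))))) (node 556 (merge (leaf 5 460 588) (node 558 (merge (leaf 4 461 590) (node 559 (merge (leaf 3 524 524) (leaf 2 524 527)))))))))) (merge (node 526 (merge (node 527 (merge (leaf 3 492 492) (leaf 0 525 561))) (merge (node 561 (merge (leaf 0 525 527) (node 558 (merge (leaf 4 429 429) (leaf 3 525 559))))) (node 429 (merge (leaf 4 429 558) (node 396 (merge (leaf 7 396 428) (node 397 (merge (leaf 7 364 364) (node 524 (merge (leaf 5 396 492) (leaf 5 428 556)))))))))))) (node 557 (merge (node 556 (merge (leaf 5 460 588) (node 429 (merge (leaf 5 428 524) (node 396 (merge (leaf 7 396 428) (node 397 (merge (leaf 7 364 364) (node 494 (merge (leaf 4 365 365) (leaf 4 397 526))))))))))) (merge (node 589 (merge (leaf 6 461 494) (node 622 (merge (leaf 4 493 590)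 (node 621 (merge (leaf 4 525 654) (node 620 (merge (leaf 5 492 588) (leaf 5 524 652))))))))) (merge (node 589 (merge (node 588 (merge (leaf 5 460 556) (leaf 5 492 620))) (merge (node 622 (merge (leaf 4 493 590) (node 621 (merge (leaf 4 525 654) (node 524 (merge (leaf 7 492 492) (node 556 (merge (leaf 5 428 429) (leaf 7 524 653))))))))) (node 622 (merge (leaf 4 493 590) (node 621 (merge (leaf 4 525 654) (node 620 (merge (leaf 5 492 588) (leaf 5 524 652)))))))))) (node 589 (merge (leaf 6 461 494) (node 622 (merge (leaf 4 493 590) (node 621 (merge (leaf 4 525 654) (node 524 (merge (leaf 7 492 492) (node 556 (merge (leaf 5 428 429) (leaf 7 524 653))))))))))))))))))))))))))))) (node 464 (merge (node 496 (merge (leaf 7 431 431) (node 497 (merge (leaf 0 461 461) (node 498 (merge (leaf 3 462 495) (leaf 3 463 499))))))) (merge (node 465 (merge (node 433 (merge (leaf 2 430 434) (leaf 6 432 496))) (node 498 (merge (leaf 0 462 497) (node 466 (merge (leaf 0 463 499) (node 494 (merge (leaf 1 461 493) (leaf 1 462 495))))))))) (merge (node 496 (merge (leaf 7 431 431) (node 461 (merge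 (leaf 0 461 497) (node 465 (merge (leaf 6 432 433) (node 493 (merge (leaf 1 460 492) (leaf 1 461 494))))))))) (merge (node 496 (merge (leaf 7 431 431) (node 465 (merge (leaf 6 432 433) (node 494 (merge (leaf 1 461 493) (node 466 (merge (leaf 1 462 495) (node 499 (merge (leaf 0 463 498) (node 467 (merge (leaf 0 464 500) (node 435 (merge (leaf 2 431 434) (leaf 2 432 436))))))))))))))) (hyp 2))))))))))))))) nP_220 cP_220 17 (by decide +kernel)
def nP_221 : ℕ := 0x1000000010000000000000000c0000000000000000000000000000000000000000000000000000000000000000000000000000000000000000000000000000000000000000000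
def cP_221 : ℕ := 0x40000000f8000000f8000000b800000efe0000073c000007fe0000007000000070000000500000000000000000000000000000000000000000000000000000000000000000000000000000000000
theorem lP_221 : S nP_221 cP_221 10 := S_of_chk [] trivial (node 461 (merge (node 460 (merge (node 431 (merge (leaf 2 428 432) (node 459 (merge (leaf 2 427 430) (node 427 (merge (leaf 3 426 426) (leaf 3 427 428))))))) (merge (node 492 (merge (leaf 1 459 491) (node 464 (merge (leaf 1 460 493) (node 432 (merge (leaf 2 428 431) (leaf 2 429 433))))))) (node 491 (merge (leaf 1 459 492) (node 459 (merge (leaf 1 458 490) (node 427 (merge (leaf 3 426 426) (leaf 3 427 428)))))))))) (merge (node 460 (merge (node 492 (merge (leaf 1 459 491) (node 464 (merge (leaf 1 460 493) (node 432 (merge (leaf 2 428 431) (leaf 2 429 433))))))) (merge (node 491 (merge (leaf 1 459 492) (node 459 (merge (leaf 1 458 490) (node 427 (merge (leaf 3 426 426) (leaf 3 427 428))))))) (node 432 (merge (leaf 2 428 431) (node 464 (merge (leaf 2 429 433) (node 428 (merge (leaf 3 427 427) (leaf 3 428 429)))))))))) (merge (node 464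 (merge (node 492 (merge (leaf 1 460 493) (node 460 (merge (leaf 1 459 491) (node 428 (merge (leaf 3 427 427) (leaf 3 428 429))))))) (merge (node 493 (merge (leaf 1 460 492) (node 465 (merge (leaf 1 461 494) (node 433 (merge (leaf 2 429 432) (leaf 2 430 434))))))) (node 433 (merge (leaf 2 429 432) (node 465 (merge (leaf 2 430 434) (node 429 (merge (leaf 3 428 428) (leaf 3 429 430)))))))))) (merge (node 464 (merge (node 493 (merge (leaf 1 460 492) (node 465 (merge (leaf 1 461 494) (node 433 (merge (leaf 2 429 432) (leaf 2 430 434))))))) (merge (node 492 (merge (leaf 1 460 493) (node 460 (merge (leaf 1 459 491) (node 432 (merge (leaf 2 428 431) (leaf 2 429 433))))))) (merge (node 433 (merge (leaf 2 429 432) (node 465 (merge (leaf 2 430 434) (node 498 (merge (leaf 0 462 497) (node 466 (merge (leaf 0 463 499) (node 430 (merge (leaf 3 429 429) (leaf 3 430 431))))))))))) (node 493 (merge (leaf 1 460 492) (node 465 (merge (leaf 1 461 494) (node 498 (merge (leaf 0 462 497) (node 466 (merge (leaf 0 463 499) (node 430 (merge (leaf 3 429 429) (leaf 3 430 431))))))))))))))) (merge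 (node 428 (merge (node 427 (merge (leaf 3 427 460) (node 429 (merge (leaf 0 426 426) (leaf 3 428 464))))) (merge (node 460 (merge (leaf 3 427 427) (node 431 (merge (leaf 2 428 432) (node 459 (merge (leaf 2 427 430) (node 495 (merge (leaf 0 459 494) (leaf 4 431 527))))))))) (node 464 (merge (leaf 3 428 429) (node 433 (merge (leaf 2 429 432) (node 465 (merge (leaf 2 430 434) (node 498 (merge (leaf 0 462 497) (node 466 (merge (leaf 0 463 499) (node 495 (merge (leaf 1 462 494) (node 431 (merge (leaf 3 430 430) (leaf 4 431 527)))))))))))))))))) (merge (node 460 (merge (node 491 (merge (leaf 1 459 492) (node 459 (merge (leaf 1 458 490) (node 427 (merge (leaf 3 426 426) (leaf 3 427 428))))))) (merge (node 492 (merge (leaf 1 459 491) (node 428 (merge (leaf 3 427 427) (node 429 (merge (leaf 3 428 464) (node 397 (merge (leaf 5 364 365) (leaf 6 396 524))))))))) (merge (node 491 (merge (leaf 1 459 492) (node 459 (merge (leaf 1 458 490) (node 430 (merge (leaf 2 427 431) (node 458 (merge (leaf 2 426 429) (node 426 (merge (leaf 3 425 425) (leaf 3 426 427))))))))))) (merge (node 427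 (merge (leaf 3 427 428) (node 459 (merge (leaf 3 426 426) (node 490 (merge (leaf 1 458 491) (node 458 (merge (leaf 1 457 489) (node 430 (merge (leaf 2 426 429) (leaf 2 427 431))))))))))) (merge (node 492 (merge (leaf 1 459 491) (node 464 (merge (leaf 1 460 493) (node 429 (merge (leaf 3 428 428) (node 430 (merge (leaf 3 429 465) (node 459 (merge (leaf 2 427 431) (leaf 2 426 458))))))))))) (node 427 (merge (leaf 3 427 428) (node 459 (merge (leaf 3 426 426) (node 430 (merge (leaf 2 427 431) (node 429 (merge (leaf 2 426 458) (node 464 (merge (leaf 3 429 465) (node 493 (merge (leaf 1 460 492) (node 398 (merge (leaf 5 365 366) (leaf 6 397 525))))))))))))))))))))) (merge (node 460 (merge (node 431 (merge (leaf 2 428 432) (node 459 (merge (leaf 2 427 430) (node 427 (merge (leaf 3 426 426) (leaf 3 427 428))))))) (merge (node 491 (merge (leaf 1 459 492) (node 459 (merge (leaf 1 458 490) (node 431 (merge (leaf 2 427 430) (leaf 2 428 432))))))) (node 492 (merge (leaf 1 459 491) (node 524 (merge (node 429 (merge (leaf 6 428 556) (node 428 (merge (leaf 6 396 397) (leaf 3 427 427)))))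 (merge (node 429 (merge (leaf 6 428 556) (node 397 (merge (leaf 5 364 365) (leaf 5 396 493))))) (merge (node 428 (merge (leaf 3 427 427) (node 525 (merge (leaf 4 428 557) (node 493 (merge (leaf 4 396 396) (node 556 (merge (leaf 6 460 588) (node 555 (merge (leaf 5 427 523) (leaf 5 459 587))))))))))) (node 428 (merge (leaf 3 427 427) (node 397 (merge (leaf 6 396 429) (node 396 (merge (leaf 6 364 365) (node 525 (merge (leaf 4 396 493) (leaf 4 428 557)))))))))))))))))) (node 493 (merge (node 464 (merge (leaf 1 460 492) (node 465 (merge (leaf 1 461 494) (node 433 (merge (leaf 2 429 432) (leaf 2 430 434))))))) (merge (node 464 (merge (leaf 1 460 492) (node 433 (merge (leaf 2 429 432) (node 465 (merge (leaf 2 430 434) (node 429 (merge (leaf 3 428 428) (leaf 3 429 430))))))))) (merge (node 429 (merge (node 428 (merge (leaf 3 428 464) (node 427 (merge (leaf 0 426 426) (leaf 0 427 430))))) (merge (node 428 (merge (leaf 3 428 464) (node 396 (merge (leaf 7 396 525) (node 364 (merge (leaf 4 332 332) (leaf 7 364 397))))))) (node 525 (merge (node 430 (merge (leaf 6 429 557) (node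 398 (merge (leaf 5 365 366) (leaf 6 397 429))))) (merge (node 556 (merge (leaf 5 428 524) (node 557 (merge (leaf 5 460 588) (node 589 (merge (leaf 6 461 494) (node 590 (merge (leaf 4 461 558) (leaf 4 493 622))))))))) (node 398 (merge (leaf 6 397 430) (node 397 (merge (leaf 6 365 366) (node 364 (merge (leaf 7 364 396) (node 365 (merge (leaf 7 332 332) (leaf 4 365 494))))))))))))))) (node 495 (merge (node 527 (merge (leaf 4 431 431) (node 494 (merge (leaf 0 492 492) (node 430 (merge (leaf 4 398 398) (leaf 7 430 559))))))) (merge (node 527 (merge (leaf 4 431 431) (node 430 (merge (leaf 7 430 559) (node 525 (merge (leaf 6 429 557) (node 398 (merge (leaf 4 366 366) (leaf 6 397 429))))))))) (merge (node 527 (merge (leaf 4 431 431) (node 494 (merge (leaf 0 492 492) (node 559 (merge (leaf 7 462 591) (node 558 (merge (leaf 5 462 590) (node 557 (merge (leaf 2 524 556) (node 589 (merge (leaf 6 461 525) (leaf 1 556 588))))))))))))) (node 429 (merge (node 492 (merge (node 491 (merge (leaf 2 458 490) (leaf 2 459 494))) (node 524 (merge (leaf 5 396 397) (node 556 (merge (leaf 5 428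 525) (leaf 6 460 588))))))) (merge (node 525 (merge (node 430 (merge (leaf 6 397 398) (leaf 6 429 557))) (merge (node 430 (merge (leaf 6 429 557) (node 428 (merge (leaf 7 396 396) (leaf 0 427 427))))) (node 396 (merge (leaf 7 396 428) (node 397 (merge (leaf 7 364 364) (node 366 (merge (leaf 6 365 398) (node 365 (merge (leaf 6 333 334) (leaf 4 365 494)))))))))))) (merge (node 525 (merge (node 430 (merge (leaf 6 429 557) (node 398 (merge (leaf 5 365 366) (leaf 6 397 429))))) (node 396 (merge (leaf 7 396 428) (node 397 (merge (leaf 7 364 364) (node 524 (merge (leaf 5 396 492) (leaf 5 428 556))))))))) (merge (node 492 (merge (node 491 (merge (leaf 2 458 490) (leaf 2 459 494))) (node 397 (merge (leaf 5 396 524) (node 366 (merge (leaf 6 365 398) (node 365 (merge (leaf 6 333 334) (node 364 (merge (leaf 7 332 332) (leaf 7 364 396))))))))))) (node 525 (merge (node 430 (merge (leaf 6 397 398) (leaf 6 429 557))) (merge (node 430 (merge (leaf 6 397 398) (node 428 (merge (leaf 7 396 396) (leaf 0 427 427))))) (node 556 (merge (leaf 5 428 524) (node 557 (merge (leaf 5 460 588) (node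 589 (merge (leaf 6 461 494) (node 590 (merge (leaf 4 461 558) (leaf 4 493 622))))))))))))))))))))))))))))))))) nP_221 cP_221 10 (by decide +kernel)
def nP_222 : ℕ := 0x1000000010000000000000000c0000000000000000000000000000000000000000000000000000000000000000000000000000000000000000000000000000000000000000000
def cP_222 : ℕ := 0xc000000ee000000ec0000004f000001efe00001f3e00003ffe000000f0000000d0000000000000000000000000000000000000000000000000000000000000000000000000000000000000000000
theorem lP_222 : S nP_222 cP_222 14 := S_of_chk [] trivial (node 527 (merge (node 495 (merge (leaf 4 431 431) (node 430 (merge (leaf 7 430 559) (node 398 (merge (leaf 4 366 366) (leaf 4 398 494))))))) (merge (node 464 (merge (node 495 (merge (leaf 4 431 431) (node 559 (merge (leaf 6 431 432) (node 591 (merge (leaf 7 462 494) (node 590 (merge (leaf 5 462 558) (leaf 5 494 622))))))))) (merge (node 495 (merge (leaf 4 431 431) (node 432 (merge (leaf 6 431 559) (node 433 (merge (leaf 2 429 461) (node 434 (merge (leaf 1 431 435) (leaf 2 430 465))))))))) (merge (node 465 (merge (node 493 (merge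 (leaf 1 461 494) (node 461 (merge (leaf 1 460 492) (node 433 (merge (leaf 2 429 432) (leaf 2 430 434))))))) (merge (node 498 (merge (leaf 0 462 497) (node 466 (merge (leaf 0 463 499) (node 434 (merge (leaf 2 430 433) (leaf 2 431 435))))))) (node 498 (merge (leaf 0 462 497) (node 466 (merge (leaf 0 463 499) (node 494 (merge (leaf 1 461 493) (leaf 1 462 495)))))))))) (merge (node 461 (merge (node 492 (merge (leaf 1 460 493) (node 460 (merge (leaf 1 459 491) (node 428 (merge (leaf 3 427 427) (leaf 3 428 429))))))) (merge (node 493 (merge (leaf 1 460 492) (node 465 (merge (leaf 1 461 494) (node 433 (merge (leaf 2 429 432) (leaf 2 430 434))))))) (node 432 (merge (leaf 2 429 433) (node 460 (merge (leaf 2 428 431) (node 428 (merge (leaf 3 427 427) (leaf 3 428 429)))))))))) (node 495 (merge (leaf 4 431 431) (node 461 (merge (node 492 (merge (leaf 1 460 493) (node 460 (merge (leaf 1 459 491) (node 428 (merge (leaf 3 427 427) (leaf 3 428 429))))))) (merge (node 493 (merge (leaf 1 460 492) (node 465 (merge (leaf 1 461 494) (node 498 (merge (leaf 0 462 497) (node 466 (merge (leaf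 0 463 499) (node 434 (merge (leaf 2 430 433) (leaf 2 431 435))))))))))) (merge (node 428 (merge (leaf 3 428 429) (node 460 (merge (leaf 3 427 427) (node 494 (merge (leaf 0 459 459) (node 465 (merge (leaf 1 462 466) (leaf 1 461 493))))))))) (node 428 (merge (leaf 3 428 429) (node 460 (merge (leaf 3 427 427) (node 459 (merge (leaf 0 459 494) (node 491 (merge (leaf 1 458 490) (leaf 1 459 492)))))))))))))))))))) (merge (node 431 (merge (leaf 4 431 495) (node 461 (merge (node 432 (merge (leaf 2 428 460) (node 433 (merge (leaf 1 430 434) (leaf 2 429 464))))) (merge (node 460 (merge (leaf 2 428 432) (node 459 (merge (leaf 2 427 430) (node 427 (merge (leaf 3 426 426) (leaf 3 427 428))))))) (merge (node 428 (merge (node 427 (merge (leaf 3 427 460) (node 429 (merge (leaf 0 426 426) (leaf 3 428 464))))) (merge (node 460 (merge (leaf 3 427 427) (node 491 (merge (leaf 1 459 492) (node 459 (merge (leaf 2 427 430) (leaf 1 458 490))))))) (node 464 (merge (leaf 3 428 429) (node 493 (merge (leaf 1 460 492) (node 465 (merge (leaf 1 461 494) (node 498 (merge (leaf 0 462 497) (node 466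 (merge (leaf 3 430 430) (leaf 0 463 499)))))))))))))) (node 429 (merge (node 428 (merge (leaf 3 428 464) (node 427 (merge (leaf 0 426 426) (leaf 0 427 430))))) (merge (node 464 (merge (leaf 3 428 428) (node 493 (merge (leaf 1 460 492) (node 465 (merge (leaf 1 461 494) (node 433 (merge (leaf 2 429 432) (leaf 2 430 434))))))))) (node 526 (merge (node 494 (merge (leaf 6 430 558) (node 399 (merge (leaf 5 366 367) (leaf 6 398 430))))) (merge (node 525 (merge (leaf 0 525 561) (node 493 (merge (leaf 3 492 492) (leaf 4 429 558))))) (node 525 (merge (leaf 0 525 561) (node 493 (merge (leaf 3 492 492) (node 398 (merge (leaf 6 397 430) (node 397 (merge (leaf 6 365 366) (leaf 4 397 494))))))))))))))))))))) (merge (node 464 (merge (node 559 (merge (node 495 (merge (leaf 7 430 430) (leaf 6 431 432))) (merge (node 526 (merge (node 525 (merge (leaf 0 524 524) (leaf 0 525 561))) (node 494 (merge (leaf 4 430 430) (node 591 (merge (leaf 4 462 558) (leaf 7 494 623))))))) (node 495 (merge (leaf 6 431 432) (node 591 (merge (leaf 7 462 494) (node 590 (merge (leaf 5 462 558) (leaf 5 494 622))))))))))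 (merge (node 465 (merge (node 493 (merge (leaf 1 461 494) (node 461 (merge (leaf 1 460 492) (node 429 (merge (leaf 3 428 428) (leaf 3 429 430))))))) (node 498 (merge (leaf 0 462 497) (node 466 (merge (leaf 0 463 499) (node 434 (merge (leaf 2 430 433) (leaf 2 431 435))))))))) (node 461 (merge (node 492 (merge (leaf 1 460 493) (node 460 (merge (leaf 1 459 491) (node 428 (merge (leaf 3 427 427) (leaf 3 428 429))))))) (merge (node 433 (merge (leaf 2 429 432) (node 465 (merge (leaf 2 430 434) (node 498 (merge (leaf 0 462 497) (node 466 (merge (leaf 0 463 499) (node 562 (merge (leaf 7 433 530) (node 561 (merge (leaf 3 527 563) (node 526 (merge (leaf 0 525 525) (leaf 3 526 559))))))))))))))) (node 433 (merge (leaf 2 429 432) (node 465 (merge (leaf 2 430 434) (node 498 (merge (leaf 0 462 497) (node 466 (merge (leaf 0 463 499) (node 562 (merge (leaf 7 433 530) (node 561 (merge (leaf 3 527 563) (node 526 (merge (leaf 0 525 525) (leaf 3 526 559))))))))))))))))))))) (merge (node 461 (merge (node 460 (merge (node 492 (merge (leaf 1 459 491) (node 464 (merge (leaf 1 460 493) (node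 432 (merge (leaf 2 428 431) (leaf 2 429 433))))))) (merge (node 491 (merge (leaf 1 459 492) (node 459 (merge (leaf 1 458 490) (node 427 (merge (leaf 3 426 426) (leaf 3 427 428))))))) (node 432 (merge (leaf 2 428 431) (node 464 (merge (leaf 2 429 433) (node 428 (merge (leaf 3 427 427) (leaf 3 428 429)))))))))) (merge (node 429 (merge (node 464 (merge (leaf 3 428 428) (node 433 (merge (leaf 2 429 432) (node 465 (merge (leaf 3 429 430) (leaf 2 430 434))))))) (merge (node 464 (merge (leaf 3 428 428) (node 493 (merge (leaf 1 460 492) (node 465 (merge (leaf 1 461 494) (node 433 (merge (leaf 2 429 432) (leaf 2 430 434))))))))) (node 526 (merge (node 561 (merge (leaf 0 525 525) (node 562 (merge (leaf 3 526 559) (leaf 3 527 563))))) (node 494 (merge (leaf 7 429 558) (node 397 (merge (leaf 7 397 430) (leaf 4 397 493)))))))))) (merge (node 526 (merge (node 561 (merge (leaf 0 525 525) (node 562 (merge (leaf 3 526 559) (leaf 3 527 563))))) (node 431 (merge (node 494 (merge (leaf 6 430 558) (node 399 (merge (leaf 5 366 367) (leaf 6 398 430))))) (node 460 (merge (leaf 2 428 432)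 (node 491 (merge (leaf 1 459 492) (node 459 (merge (leaf 1 458 490) (node 427 (merge (leaf 3 426 426) (leaf 3 427 428))))))))))))) (merge (node 464 (merge (node 493 (merge (leaf 1 460 492) (node 465 (merge (leaf 1 461 494) (node 433 (merge (leaf 2 429 432) (leaf 2 430 434))))))) (merge (node 492 (merge (leaf 1 460 493) (node 460 (merge (leaf 1 459 491) (node 432 (merge (leaf 2 428 431) (leaf 2 429 433))))))) (merge (node 433 (merge (leaf 2 429 432) (node 465 (merge (leaf 2 430 434) (node 498 (merge (leaf 0 462 497) (node 466 (merge (leaf 0 463 499) (node 430 (merge (leaf 3 429 429) (leaf 3 430 431))))))))))) (node 493 (merge (leaf 1 460 492) (node 465 (merge (leaf 1 461 494) (node 498 (merge (leaf 0 462 497) (node 466 (merge (leaf 0 463 499) (node 430 (merge (leaf 3 429 429) (leaf 3 430 431))))))))))))))) (merge (node 428 (merge (node 427 (merge (leaf 3 427 460) (node 429 (merge (leaf 0 426 426) (leaf 0 427 430))))) (merge (node 460 (merge (leaf 3 427 427) (node 492 (merge (leaf 1 459 491) (node 493 (merge (leaf 1 460 464) (node 396 (merge (leaf 4 364 364) (leaf 4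 396 525))))))))) (node 464 (merge (leaf 3 428 429) (node 493 (merge (leaf 1 460 492) (node 465 (merge (leaf 1 461 494) (node 498 (merge (leaf 0 462 497) (node 466 (merge (leaf 0 463 499) (node 434 (merge (leaf 2 430 433) (leaf 2 431 435)))))))))))))))) (node 460 (merge (node 432 (merge (leaf 2 428 431) (node 464 (merge (leaf 2 429 433) (node 428 (merge (leaf 3 427 427) (leaf 3 428 429))))))) (merge (node 459 (merge (node 427 (merge (leaf 3 426 426) (leaf 3 427 428))) (merge (node 490 (merge (leaf 1 458 491) (node 458 (merge (leaf 1 457 489) (node 429 (merge (leaf 2 426 430) (node 428 (merge (leaf 2 425 457) (leaf 3 428 464))))))))) (node 490 (merge (leaf 1 458 491) (node 458 (merge (leaf 1 457 489) (node 426 (merge (leaf 3 425 425) (leaf 3 426 427)))))))))) (merge (node 431 (merge (leaf 2 428 432) (node 459 (merge (leaf 2 427 430) (node 490 (merge (leaf 1 458 491) (node 458 (merge (leaf 1 457 489) (node 426 (merge (leaf 3 425 425) (leaf 3 426 427))))))))))) (node 464 (merge (node 432 (merge (leaf 2 428 431) (leaf 2 429 433))) (merge (node 429 (merge (leaf 3 428 428)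 (node 465 (merge (leaf 3 429 430) (node 498 (merge (leaf 0 462 497) (node 466 (merge (leaf 0 463 499) (node 434 (merge (leaf 2 430 433) (leaf 2 431 435))))))))))) (node 431 (merge (leaf 2 428 432) (node 430 (merge (leaf 2 427 459) (node 429 (merge (leaf 0 428 428) (leaf 3 429 465)))))))))))))))))))) (node 464 (merge (node 495 (merge (leaf 4 431 431) (node 559 (merge (leaf 7 430 430) (leaf 6 431 432))))) (merge (node 495 (merge (leaf 4 431 431) (node 430 (merge (leaf 7 430 559) (node 429 (merge (leaf 3 429 465) (node 428 (merge (leaf 0 427 427) (leaf 3 428 461))))))))) (merge (node 495 (merge (leaf 4 431 431) (node 432 (merge (leaf 6 431 559) (node 433 (merge (leaf 2 429 461) (node 434 (merge (leaf 1 431 435) (leaf 2 430 465))))))))) (merge (node 465 (merge (node 498 (merge (leaf 0 462 497) (node 466 (merge (leaf 0 463 499) (node 430 (merge (leaf 3 429 429) (leaf 3 430 431))))))) (merge (node 433 (merge (leaf 2 430 434) (node 461 (merge (leaf 2 429 432) (node 429 (merge (leaf 3 428 428) (leaf 3 429 430))))))) (node 466 (merge (node 499 (merge (leaf 0 463 498) (node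 467 (merge (leaf 0 464 500) (node 435 (merge (leaf 2 431 434) (leaf 2 432 436))))))) (merge (node 498 (merge (leaf 0 463 499) (node 462 (merge (leaf 0 462 497) (node 434 (merge (leaf 2 430 433) (leaf 2 431 435))))))) (merge (node 467 (merge (node 435 (merge (leaf 2 431 434) (leaf 2 432 436))) (merge (node 432 (merge (leaf 3 431 431) (node 433 (merge (leaf 3 432 468) (node 462 (merge (leaf 2 430 434) (leaf 2 429 461))))))) (node 436 (merge (leaf 2 432 435) (node 468 (merge (leaf 2 433 437) (node 432 (merge (leaf 3 431 431) (leaf 3 432 433)))))))))) (merge (node 499 (merge (leaf 0 463 498) (node 467 (merge (leaf 0 464 500) (node 436 (merge (leaf 2 432 435) (node 468 (merge (leaf 2 433 437) (node 432 (merge (leaf 3 431 431) (leaf 3 432 433))))))))))) (node 498 (merge (leaf 0 463 499) (node 462 (merge (leaf 0 462 497) (node 433 (merge (leaf 2 430 434) (node 432 (merge (leaf 2 429 461) (node 467 (merge (leaf 3 431 431) (leaf 3 432 468))))))))))))))))))) (node 559 (merge (node 495 (merge (leaf 7 430 430) (leaf 6 431 432))) (merge (node 430 (merge (leaf 7 430 495) (node 429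 (merge (leaf 3 429 465) (node 428 (merge (leaf 0 427 427) (leaf 3 428 461))))))) (merge (node 432 (merge (leaf 6 431 495) (node 433 (merge (leaf 2 429 461) (node 434 (merge (leaf 1 431 435) (leaf 2 430 465))))))) (node 465 (merge (node 433 (merge (leaf 2 430 434) (node 461 (merge (leaf 2 429 432) (node 429 (merge (leaf 3 428 428) (leaf 3 429 430))))))) (merge (node 498 (merge (leaf 0 462 497) (node 466 (merge (leaf 0 463 499) (node 435 (merge (leaf 2 431 434) (node 467 (merge (leaf 2 432 436) (node 562 (merge (leaf 6 434 530) (node 561 (merge (leaf 3 527 563) (node 594 (merge (leaf 0 559 595) (node 558 (merge (leaf 0 558 593) (node 590 (merge (leaf 1 557 589) (leaf 1 558 591))))))))))))))))))) (node 433 (merge (node 461 (merge (leaf 2 429 432) (node 429 (merge (leaf 3 428 428) (leaf 3 429 430))))) (merge (node 498 (merge (leaf 0 462 497) (node 466 (merge (leaf 0 463 499) (node 562 (merge (leaf 7 433 530) (node 561 (merge (leaf 3 527 563) (node 594 (merge (leaf 0 559 595) (node 558 (merge (leaf 0 558 593) (node 590 (merge (leaf 1 557 589) (leaf 1 558 591)))))))))))))))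 (node 498 (merge (leaf 0 462 497) (node 466 (merge (leaf 0 463 499) (node 562 (merge (leaf 7 433 530) (node 561 (merge (leaf 3 527 563) (node 594 (merge (leaf 0 559 595) (node 558 (merge (leaf 0 558 593) (node 590 (merge (leaf 1 557 589) (leaf 1 558 591)))))))))))))))))))))))))))))))))))) nP_222 cP_222 14 (by decide +kernel)
def nP_223 : ℕ := 0x1000000010000000000000000c0000000000000000000000000000000000000000000000000000000000000000000000000000000000000000000000000000000000000000000
def cP_223 : ℕ := 0xc0000000c000000ef000000ef8000004f000001ef800001f3000003ff8000000c0000000c0000000000000000000000000000000000000000000000000000000000000000000000000000000000000000000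
theorem lP_223 : S nP_223 cP_223 11 := S_of_chk [] trivial (node 527 (merge (node 495 (merge (leaf 4 431 431) (node 430 (merge (leaf 7 430 559) (node 398 (merge (leaf 4 366 366) (leaf 4 398 494))))))) (merge (node 495 (merge (leaf 4 431 431) (node 559 (merge (leaf 7 430 430) (node 558 (merge (leaf 5 462 590) (node 557 (merge (leaf 2 524 556) (node 525 (merge (leaf 3 524 524) (node 561 (merge (leaf 0 525 526) (node 594 (merge (leaf 0 558 593) (node 562 (merge (leaf 3 527 563) (leaf 0 559 595))))))))))))))))) (merge (node 559 (merge (node 430 (merge (leaf 7 430 495) (node 526 (merge (leaf 4 430 494) (node 525 (merge (leaf 0 524 524) (leaf 0 525 561))))))) (merge (node 495 (merge (leaf 7 430 430) (node 590 (merge (leaf 5 462 558) (node 591 (merge (leaf 7 462 494) (leaf 5 494 622))))))) (merge (node 526 (merge (node 525 (merge (leaf 0 524 524) (leaf 0 525 561))) (node 494 (merge (leaf 4 430 430) (node 591 (merge (leaf 4 462 558) (leaf 7 494 623))))))) (merge (node 561 (merge (node 562 (merge (leaf 3 527 563) (node 526 (merge (leaf 0 525 525) (leaf 3 526 559))))) (merge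 (node 495 (merge (leaf 7 430 430) (node 562 (merge (leaf 3 527 563) (node 590 (merge (leaf 5 462 558) (leaf 1 558 591))))))) (node 525 (merge (leaf 0 525 526) (node 495 (merge (leaf 7 430 430) (node 558 (merge (leaf 5 462 590) (node 557 (merge (leaf 3 524 524) (leaf 2 524 556)))))))))))) (node 558 (merge (node 590 (merge (leaf 5 462 495) (node 561 (merge (leaf 1 557 589) (node 562 (merge (leaf 3 526 526) (leaf 1 558 591))))))) (merge (node 590 (merge (leaf 5 462 495) (node 589 (merge (leaf 1 557 561) (node 557 (merge (leaf 2 524 556) (leaf 1 556 588))))))) (merge (node 557 (merge (leaf 2 524 556) (node 589 (merge (leaf 1 556 588) (node 494 (merge (leaf 5 461 526) (node 495 (merge (leaf 5 462 590) (leaf 7 462 591))))))))) (node 557 (merge (leaf 2 524 556) (node 525 (merge (leaf 3 524 524) (node 561 (merge (leaf 0 525 526) (node 594 (merge (leaf 0 558 593) (node 562 (merge (leaf 3 527 563) (leaf 0 559 595)))))))))))))))))))) (merge (node 559 (merge (node 495 (merge (leaf 4 431 431) (node 591 (merge (leaf 7 462 494) (node 623 (merge (leaf 6 527 655) (node 622 (merge (leaf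 5 494 590) (leaf 5 526 654))))))))) (merge (node 495 (merge (leaf 4 431 431) (node 558 (merge (leaf 5 462 590) (node 557 (merge (leaf 2 524 556) (node 525 (merge (leaf 3 524 524) (node 561 (merge (leaf 0 525 526) (node 594 (merge (leaf 0 558 593) (node 562 (merge (leaf 3 527 563) (leaf 0 559 595))))))))))))))) (merge (node 558 (merge (node 590 (merge (leaf 5 462 495) (node 561 (merge (leaf 1 557 589) (node 562 (merge (leaf 3 526 526) (leaf 1 558 591))))))) (merge (node 557 (merge (leaf 2 524 556) (node 525 (merge (leaf 3 524 524) (node 561 (merge (leaf 0 525 526) (node 594 (merge (leaf 0 558 593) (node 562 (merge (leaf 3 527 563) (leaf 0 559 595))))))))))) (node 557 (merge (leaf 2 524 556) (node 525 (merge (leaf 3 524 524) (node 590 (merge (leaf 5 462 495) (node 622 (merge (leaf 6 526 654) (node 493 (merge (leaf 4 461 461) (leaf 4 493 589)))))))))))))) (merge (node 558 (merge (node 431 (merge (leaf 4 431 495) (node 526 (merge (leaf 6 430 494) (node 525 (merge (leaf 0 524 524) (leaf 0 525 561))))))) (merge (node 557 (merge (leaf 2 524 556) (node 589 (merge (leaf 1 556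 588) (node 495 (merge (leaf 4 431 431) (node 494 (merge (leaf 5 461 526) (leaf 7 462 591))))))))) (merge (node 557 (merge (leaf 2 524 556) (node 589 (merge (leaf 1 556 588) (node 525 (merge (leaf 3 524 524) (node 526 (merge (leaf 5 461 494) (leaf 0 525 561))))))))) (merge (node 557 (merge (leaf 2 524 556) (node 589 (merge (leaf 1 556 588) (node 525 (merge (leaf 3 524 524) (node 494 (merge (leaf 6 461 493) (node 495 (merge (leaf 4 431 431) (leaf 7 462 591))))))))))) (node 557 (merge (leaf 2 524 556) (node 525 (merge (leaf 3 524 524) (node 561 (merge (leaf 0 525 526) (node 594 (merge (leaf 0 558 593) (node 562 (merge (leaf 3 527 563) (leaf 0 559 595)))))))))))))))) (node 558 (merge (node 526 (merge (node 525 (merge (leaf 0 524 524) (leaf 3 525 561))) (node 494 (merge (leaf 6 430 431) (leaf 4 462 591))))) (merge (node 557 (merge (leaf 2 524 556) (node 589 (merge (leaf 1 556 588) (node 561 (merge (leaf 1 557 590) (node 562 (merge (leaf 3 526 526) (leaf 3 527 563))))))))) (merge (node 557 (merge (leaf 2 524 556) (node 589 (merge (leaf 1 556 588) (node 525 (merge (leaf 3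 524 524) (node 494 (merge (leaf 6 461 493) (leaf 5 461 526))))))))) (node 557 (merge (leaf 2 524 556) (node 589 (merge (leaf 1 556 588) (node 590 (merge (leaf 1 557 561) (node 525 (merge (leaf 3 524 524) (node 493 (merge (leaf 6 461 494) (leaf 4 493 622)))))))))))))))))))) (merge (node 526 (merge (node 431 (merge (leaf 4 431 495) (node 494 (merge (leaf 6 430 558) (node 399 (merge (leaf 5 366 367) (leaf 6 398 430))))))) (node 525 (merge (leaf 0 525 561) (node 556 (merge (leaf 1 524 557) (node 524 (merge (leaf 1 523 555) (node 492 (merge (leaf 3 491 491) (leaf 3 492 493))))))))))) (node 464 (merge (node 465 (merge (node 498 (merge (leaf 0 462 497) (node 466 (merge (leaf 0 463 499) (node 430 (merge (leaf 3 429 429) (leaf 3 430 431))))))) (merge (node 433 (merge (leaf 2 430 434) (node 461 (merge (leaf 2 429 432) (node 429 (merge (leaf 3 428 428) (leaf 3 429 430))))))) (node 466 (merge (node 499 (merge (leaf 0 463 498) (node 467 (merge (leaf 0 464 500) (node 435 (merge (leaf 2 431 434) (leaf 2 432 436))))))) (merge (node 498 (merge (leaf 0 463 499) (node 462 (merge (leaf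 0 462 497) (node 434 (merge (leaf 2 430 433) (leaf 2 431 435))))))) (merge (node 467 (merge (node 435 (merge (leaf 2 431 434) (leaf 2 432 436))) (merge (node 432 (merge (leaf 3 431 431) (node 433 (merge (leaf 3 432 468) (node 462 (merge (leaf 2 430 434) (leaf 2 429 461))))))) (node 436 (merge (leaf 2 432 435) (node 468 (merge (leaf 2 433 437) (node 432 (merge (leaf 3 431 431) (leaf 3 432 433)))))))))) (merge (node 499 (merge (leaf 0 463 498) (node 467 (merge (leaf 0 464 500) (node 436 (merge (leaf 2 432 435) (node 468 (merge (leaf 2 433 437) (node 432 (merge (leaf 3 431 431) (leaf 3 432 433))))))))))) (node 498 (merge (leaf 0 463 499) (node 462 (merge (leaf 0 462 497) (node 433 (merge (leaf 2 430 434) (node 432 (merge (leaf 2 429 461) (node 467 (merge (leaf 3 431 431) (leaf 3 432 468))))))))))))))))))) (merge (node 526 (merge (node 561 (merge (leaf 0 525 525) (node 562 (merge (leaf 3 526 559) (leaf 3 527 563))))) (merge (node 525 (merge (leaf 0 525 561) (node 556 (merge (leaf 1 524 557) (node 524 (merge (leaf 1 523 555) (node 492 (merge (leaf 3 491 491) (leaf 3 492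 493))))))))) (node 494 (merge (node 431 (merge (leaf 6 430 558) (node 399 (merge (leaf 5 366 367) (leaf 6 398 430))))) (merge (node 465 (merge (leaf 1 461 493) (node 430 (merge (leaf 3 429 429) (leaf 4 430 559))))) (node 558 (merge (leaf 6 430 431) (node 559 (merge (leaf 4 462 591) (node 557 (merge (leaf 2 524 556) (leaf 5 461 589))))))))))))) (merge (node 461 (merge (node 492 (merge (leaf 1 460 493) (node 460 (merge (leaf 1 459 491) (node 428 (merge (leaf 3 427 427) (leaf 3 428 429))))))) (merge (node 433 (merge (leaf 2 429 432) (node 465 (merge (leaf 2 430 434) (node 498 (merge (leaf 0 462 497) (node 466 (merge (leaf 0 463 499) (node 562 (merge (leaf 7 433 530) (node 561 (merge (leaf 3 527 563) (node 526 (merge (leaf 0 525 525) (leaf 3 526 559))))))))))))))) (node 433 (merge (leaf 2 429 432) (node 465 (merge (leaf 2 430 434) (node 498 (merge (leaf 0 462 497) (node 466 (merge (leaf 0 463 499) (node 562 (merge (leaf 7 433 530) (node 561 (merge (leaf 3 527 563) (node 526 (merge (leaf 0 525 525) (leaf 3 526 559)))))))))))))))))) (merge (node 526 (merge (node 525 (merge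 (leaf 0 525 561) (node 524 (merge (leaf 0 524 559) (node 556 (merge (leaf 1 523 555) (leaf 1 524 557))))))) (merge (node 525 (merge (leaf 0 525 561) (node 556 (merge (leaf 1 524 557) (node 524 (merge (leaf 1 523 555) (node 492 (merge (leaf 3 491 491) (leaf 3 492 493))))))))) (node 461 (merge (node 492 (merge (leaf 1 460 493) (node 460 (merge (leaf 1 459 491) (node 428 (merge (leaf 3 427 427) (leaf 3 428 429))))))) (merge (node 492 (merge (leaf 1 460 493) (node 460 (merge (leaf 1 459 491) (node 432 (merge (leaf 2 428 431) (leaf 2 429 433))))))) (merge (node 432 (merge (leaf 2 429 433) (node 431 (merge (leaf 2 428 460) (node 494 (merge (leaf 6 430 558) (node 430 (merge (leaf 6 398 399) (leaf 4 430 559))))))))) (node 493 (merge (leaf 1 460 492) (node 429 (merge (leaf 3 428 428) (node 494 (merge (leaf 7 429 558) (node 430 (merge (leaf 4 430 559) (node 399 (merge (leaf 6 398 431) (node 398 (merge (leaf 5 365 366) (leaf 6 366 367)))))))))))))))))))) (node 461 (merge (node 492 (merge (leaf 1 460 493) (node 460 (merge (leaf 1 459 491) (node 432 (merge (leaf 2 428 431) (leaf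 2 429 433))))))) (merge (node 465 (merge (node 433 (merge (leaf 2 429 432) (leaf 2 430 434))) (merge (node 498 (merge (leaf 0 462 497) (node 466 (merge (leaf 0 463 499) (node 434 (merge (leaf 2 430 433) (leaf 2 431 435))))))) (merge (node 498 (merge (leaf 0 462 497) (node 466 (merge (leaf 0 463 499) (node 432 (merge (leaf 2 429 433) (node 431 (merge (leaf 3 430 430) (leaf 3 431 467))))))))) (node 498 (merge (leaf 0 462 497) (node 466 (merge (leaf 0 463 499) (node 435 (merge (leaf 2 431 434) (node 467 (merge (leaf 2 432 436) (node 431 (merge (leaf 3 430 430) (leaf 3 431 432))))))))))))))) (node 525 (merge (node 526 (merge (leaf 0 525 561) (node 492 (merge (leaf 1 460 493) (node 491 (merge (leaf 1 459 460) (leaf 3 491 524))))))) (merge (node 526 (merge (leaf 0 525 561) (node 524 (merge (leaf 0 524 559) (node 556 (merge (leaf 1 523 555) (leaf 1 524 557))))))) (merge (node 526 (merge (leaf 0 525 561) (node 493 (merge (leaf 1 460 492) (node 557 (merge (leaf 6 429 430) (leaf 1 524 556))))))) (node 493 (merge (leaf 1 460 492) (node 557 (merge (leaf 6 429 430) (node 558 (merge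 (leaf 4 461 590) (node 559 (merge (leaf 3 524 524) (node 556 (merge (leaf 2 524 527) (leaf 5 460 588))))))))))))))))))))))))))))) nP_223 cP_223 11 (by decide +kernel)
def nP_224 : ℕ := 0x1000000010000000000000000c0000000000000000000000000000000000000000000000000000000000000000000000000000000000000000000000000000000000000000000
def cP_224 : ℕ := 0x5000000ef800000ef8000004f800000ebe0000073e00000ffe0000007000000070000000100000000000000000000000000000000000000000000000000000000000000000000000000000000000
theorem lP_224 : S nP_224 cP_224 14 := S_of_chk [] trivial (node 461 (merge (node 460 (merge (node 492 (merge (leaf 1 459 491) (node 464 (merge (leaf 1 460 493) (node 432 (merge (leaf 2 428 431) (leaf 2 429 433))))))) (merge (node 491 (merge (leaf 1 459 492) (node 459 (merge (leaf 1 458 490) (node 427 (merge (leaf 3 426 426) (leaf 3 427 428))))))) (node 432 (merge (leaf 2 428 431) (node 464 (merge (leaf 2 429 433) (node 428 (merge (leaf 3 427 427) (leaf 3 428 429)))))))))) (merge (node 460 (merge (node 491 (merge (leaf 1 459 492) (node 459 (merge (leaf 1 458 490) (node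 427 (merge (leaf 3 426 426) (leaf 3 427 428))))))) (merge (node 492 (merge (leaf 1 459 491) (node 428 (merge (leaf 3 427 427) (node 429 (merge (leaf 3 428 464) (node 397 (merge (leaf 5 364 365) (leaf 6 396 524))))))))) (merge (node 491 (merge (leaf 1 459 492) (node 459 (merge (leaf 1 458 490) (node 430 (merge (leaf 2 427 431) (node 458 (merge (leaf 2 426 429) (node 426 (merge (leaf 3 425 425) (leaf 3 426 427))))))))))) (merge (node 427 (merge (leaf 3 427 428) (node 459 (merge (leaf 3 426 426) (node 490 (merge (leaf 1 458 491) (node 458 (merge (leaf 1 457 489) (node 430 (merge (leaf 2 426 429) (leaf 2 427 431))))))))))) (merge (node 492 (merge (leaf 1 459 491) (node 464 (merge (leaf 1 460 493) (node 429 (merge (leaf 3 428 428) (node 430 (merge (leaf 3 429 465) (node 459 (merge (leaf 2 427 431) (leaf 2 426 458))))))))))) (node 427 (merge (leaf 3 427 428) (node 459 (merge (leaf 3 426 426) (node 430 (merge (leaf 2 427 431) (node 429 (merge (leaf 2 426 458) (node 464 (merge (leaf 3 429 465) (node 493 (merge (leaf 1 460 492) (node 398 (merge (leaf 5 365 366) (leaf 6 397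 525))))))))))))))))))))) (merge (node 527 (merge (node 431 (merge (leaf 4 431 495) (node 432 (merge (leaf 2 428 460) (node 433 (merge (leaf 1 430 434) (leaf 2 429 464))))))) (merge (node 525 (merge (node 526 (merge (leaf 0 525 561) (node 492 (merge (leaf 3 492 493) (node 491 (merge (leaf 1 459 460) (leaf 3 491 524))))))) (merge (node 526 (merge (leaf 0 525 561) (node 524 (merge (leaf 0 524 559) (node 556 (merge (leaf 1 523 555) (leaf 1 524 557))))))) (node 493 (merge (node 492 (merge (leaf 1 460 464) (node 491 (merge (leaf 1 459 460) (leaf 2 458 490))))) (node 557 (merge (leaf 6 429 430) (node 558 (merge (leaf 4 461 590) (node 556 (merge (leaf 2 524 559) (leaf 5 460 588)))))))))))) (node 495 (merge (leaf 4 431 431) (node 559 (merge (leaf 7 430 430) (node 558 (merge (leaf 5 462 590) (node 557 (merge (leaf 2 524 556) (node 525 (merge (leaf 3 524 524) (node 561 (merge (leaf 0 525 526) (node 594 (merge (leaf 0 558 593) (node 562 (merge (leaf 3 527 563) (leaf 0 559 595)))))))))))))))))))) (merge (node 460 (merge (node 431 (merge (leaf 2 428 432) (node 459 (merge (leaf 2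 427 430) (node 427 (merge (leaf 3 426 426) (leaf 3 427 428))))))) (merge (node 491 (merge (leaf 1 459 492) (node 459 (merge (leaf 1 458 490) (node 431 (merge (leaf 2 427 430) (leaf 2 428 432))))))) (node 492 (merge (leaf 1 459 491) (node 524 (merge (node 429 (merge (leaf 6 428 556) (node 428 (merge (leaf 6 396 397) (leaf 3 427 427))))) (merge (node 429 (merge (leaf 6 428 556) (node 397 (merge (leaf 5 364 365) (leaf 5 396 493))))) (merge (node 428 (merge (leaf 3 427 427) (node 525 (merge (leaf 4 428 557) (node 493 (merge (leaf 4 396 396) (node 556 (merge (leaf 6 460 588) (node 555 (merge (leaf 5 427 523) (leaf 5 459 587))))))))))) (node 428 (merge (leaf 3 427 427) (node 397 (merge (leaf 6 396 429) (node 396 (merge (leaf 6 364 365) (node 525 (merge (leaf 4 396 493) (leaf 4 428 557)))))))))))))))))) (merge (node 493 (merge (node 429 (merge (node 464 (merge (leaf 3 428 428) (leaf 1 460 492))) (merge (node 492 (merge (leaf 1 460 464) (node 524 (merge (leaf 5 396 397) (node 556 (merge (leaf 5 428 525) (leaf 6 460 588))))))) (merge (node 428 (merge (leaf 3 428 464) (node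 396 (merge (leaf 7 396 525) (node 364 (merge (leaf 4 332 332) (leaf 7 364 397))))))) (node 525 (merge (node 526 (merge (leaf 4 429 558) (node 527 (merge (leaf 3 492 492) (leaf 0 525 561))))) (merge (node 396 (merge (leaf 7 396 428) (node 397 (merge (leaf 7 364 364) (node 524 (merge (leaf 5 396 492) (leaf 5 428 556))))))) (node 526 (merge (leaf 4 429 558) (node 556 (merge (leaf 5 428 524) (node 557 (merge (leaf 1 524 527) (leaf 5 460 588)))))))))))))) (merge (node 525 (merge (node 430 (merge (leaf 6 429 557) (node 398 (merge (leaf 5 365 366) (leaf 6 397 429))))) (merge (node 557 (merge (leaf 6 429 430) (node 558 (merge (leaf 4 461 590) (node 559 (merge (leaf 3 524 524) (node 556 (merge (leaf 2 524 527) (leaf 5 460 588))))))))) (merge (node 429 (merge (node 526 (merge (leaf 4 429 558) (node 527 (merge (leaf 3 492 492) (leaf 0 525 561))))) (merge (node 396 (merge (leaf 7 396 428) (node 397 (merge (leaf 7 364 364) (node 524 (merge (leaf 5 396 492) (leaf 5 428 556))))))) (node 526 (merge (leaf 4 429 558) (node 527 (merge (leaf 0 525 561) (node 524 (merge (leaf 5 428 556)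 (leaf 0 524 559)))))))))) (node 429 (merge (node 526 (merge (leaf 4 429 558) (node 527 (merge (leaf 3 492 492) (leaf 0 525 561))))) (merge (node 396 (merge (leaf 7 396 428) (node 397 (merge (leaf 7 364 364) (node 524 (merge (leaf 5 396 492) (leaf 5 428 556))))))) (node 526 (merge (leaf 4 429 558) (node 556 (merge (leaf 5 428 524) (node 557 (merge (leaf 1 524 527) (leaf 5 460 588)))))))))))))) (merge (node 429 (merge (node 428 (merge (leaf 3 428 464) (node 427 (merge (leaf 0 426 426) (leaf 0 427 430))))) (merge (node 428 (merge (leaf 3 428 464) (node 396 (merge (leaf 7 396 525) (node 364 (merge (leaf 4 332 332) (leaf 7 364 397))))))) (node 525 (merge (node 430 (merge (leaf 6 429 557) (node 398 (merge (leaf 5 365 366) (leaf 6 397 429))))) (merge (node 526 (merge (leaf 4 429 558) (node 556 (merge (leaf 5 428 524) (node 557 (merge (leaf 1 524 527) (leaf 5 460 588))))))) (node 526 (merge (leaf 4 429 558) (node 527 (merge (leaf 0 525 561) (node 524 (merge (leaf 5 428 556) (leaf 0 524 559))))))))))))) (merge (node 464 (merge (leaf 1 460 492) (node 433 (merge (leaf 2 429 432)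 (node 465 (merge (leaf 2 430 434) (node 498 (merge (leaf 0 462 497) (node 466 (merge (leaf 0 463 499) (node 430 (merge (leaf 3 429 429) (leaf 3 430 431))))))))))))) (node 527 (merge (node 464 (merge (leaf 1 460 492) (node 433 (merge (leaf 2 429 432) (node 465 (merge (leaf 2 430 434) (node 498 (merge (leaf 0 462 497) (node 466 (merge (leaf 0 463 499) (node 562 (merge (leaf 7 433 530) (node 561 (merge (leaf 3 527 563) (node 526 (merge (leaf 0 525 525) (leaf 3 526 559))))))))))))))))) (merge (node 464 (merge (leaf 1 460 492) (node 433 (merge (leaf 2 429 432) (node 465 (merge (leaf 2 430 434) (node 498 (merge (leaf 0 462 497) (node 466 (merge (leaf 0 463 499) (node 431 (merge (leaf 3 430 430) (leaf 4 431 495))))))))))))) (node 495 (merge (leaf 4 431 431) (node 559 (merge (leaf 7 430 430) (node 558 (merge (leaf 5 462 590) (node 557 (merge (leaf 2 524 556) (node 525 (merge (leaf 3 524 524) (node 561 (merge (leaf 0 525 526) (node 594 (merge (leaf 0 558 593) (node 562 (merge (leaf 3 527 563) (leaf 0 559 595))))))))))))))))))))))))) (merge (node 460 (merge (node 432 (merge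 (leaf 2 428 431) (node 464 (merge (leaf 2 429 433) (node 428 (merge (leaf 3 427 427) (leaf 3 428 429))))))) (merge (node 459 (merge (node 427 (merge (leaf 3 426 426) (leaf 3 427 428))) (merge (node 490 (merge (leaf 1 458 491) (node 458 (merge (leaf 1 457 489) (node 429 (merge (leaf 2 426 430) (node 428 (merge (leaf 2 425 457) (leaf 3 428 464))))))))) (node 490 (merge (leaf 1 458 491) (node 458 (merge (leaf 1 457 489) (node 426 (merge (leaf 3 425 425) (leaf 3 426 427)))))))))) (merge (node 431 (merge (leaf 2 428 432) (node 459 (merge (leaf 2 427 430) (node 490 (merge (leaf 1 458 491) (node 458 (merge (leaf 1 457 489) (node 426 (merge (leaf 3 425 425) (leaf 3 426 427))))))))))) (node 464 (merge (node 432 (merge (leaf 2 428 431) (leaf 2 429 433))) (merge (node 429 (merge (leaf 3 428 428) (node 465 (merge (leaf 3 429 430) (node 498 (merge (leaf 0 462 497) (node 466 (merge (leaf 0 463 499) (node 434 (merge (leaf 2 430 433) (leaf 2 431 435))))))))))) (node 431 (merge (leaf 2 428 432) (node 430 (merge (leaf 2 427 459) (node 429 (merge (leaf 0 428 428) (leaf 3 429 465))))))))))))))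 (node 464 (merge (node 492 (merge (leaf 1 460 493) (node 460 (merge (leaf 1 459 491) (node 428 (merge (leaf 3 427 427) (leaf 3 428 429))))))) (merge (node 433 (merge (leaf 2 429 432) (node 465 (merge (leaf 2 430 434) (node 429 (merge (leaf 3 428 428) (leaf 3 429 430))))))) (merge (node 493 (merge (leaf 1 460 492) (node 525 (merge (node 430 (merge (leaf 6 429 557) (node 398 (merge (leaf 5 365 366) (leaf 6 397 429))))) (merge (node 557 (merge (leaf 6 429 430) (node 558 (merge (leaf 4 461 590) (node 559 (merge (leaf 3 524 524) (node 556 (merge (leaf 2 524 527) (leaf 5 460 588))))))))) (merge (node 526 (merge (node 558 (merge (leaf 4 429 429) (node 590 (merge (leaf 4 461 557) (leaf 7 493 622))))) (node 527 (merge (leaf 0 525 561) (node 559 (merge (leaf 0 524 524) (node 432 (merge (leaf 2 429 433) (leaf 6 431 495))))))))) (node 433 (merge (leaf 2 429 432) (node 465 (merge (leaf 2 430 434) (node 429 (merge (leaf 3 429 430) (node 526 (merge (leaf 4 429 558) (node 527 (merge (leaf 0 525 561) (node 524 (merge (leaf 5 428 556) (leaf 0 524 559))))))))))))))))))) (node 527 (merge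 (node 433 (merge (leaf 2 429 432) (node 465 (merge (leaf 2 430 434) (node 498 (merge (leaf 0 462 497) (node 466 (merge (leaf 0 463 499) (node 562 (merge (leaf 7 433 530) (node 561 (merge (leaf 3 527 563) (node 526 (merge (leaf 0 525 525) (leaf 3 526 559))))))))))))))) (merge (node 525 (merge (node 526 (merge (leaf 0 525 561) (node 524 (merge (leaf 0 524 559) (node 556 (merge (leaf 1 523 555) (leaf 1 524 557))))))) (merge (node 526 (merge (leaf 0 525 561) (node 492 (merge (leaf 1 460 493) (node 491 (merge (leaf 1 459 460) (leaf 3 491 524))))))) (merge (node 493 (merge (leaf 1 460 492) (node 557 (merge (leaf 6 429 430) (node 556 (merge (leaf 1 524 526) (leaf 5 460 588))))))) (node 493 (merge (leaf 1 460 492) (node 557 (merge (leaf 6 429 430) (node 558 (merge (leaf 4 461 590) (node 559 (merge (leaf 3 524 524) (node 556 (merge (leaf 2 524 527) (leaf 5 460 588))))))))))))))) (merge (node 525 (merge (node 493 (merge (leaf 1 460 492) (node 557 (merge (leaf 6 429 430) (node 556 (merge (leaf 1 524 526) (leaf 5 460 588))))))) (merge (node 561 (merge (leaf 0 525 526) (node 433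 (merge (leaf 2 429 432) (node 465 (merge (leaf 2 430 434) (node 498 (merge (leaf 0 462 497) (node 466 (merge (leaf 0 463 499) (node 562 (merge (leaf 7 433 530) (leaf 3 527 563))))))))))))) (node 493 (merge (leaf 1 460 492) (node 557 (merge (leaf 6 429 430) (node 590 (merge (leaf 4 461 558) (node 589 (merge (leaf 4 493 622) (node 588 (merge (leaf 5 460 556) (leaf 5 492 620)))))))))))))) (merge (node 525 (merge (node 493 (merge (leaf 1 460 492) (node 557 (merge (leaf 6 429 430) (node 556 (merge (leaf 1 524 526) (leaf 5 460 588))))))) (merge (node 559 (merge (node 495 (merge (leaf 7 430 430) (leaf 6 431 432))) (node 557 (merge (node 558 (merge (leaf 3 524 524) (leaf 2 524 556))) (merge (node 556 (merge (leaf 1 524 526) (leaf 2 524 558))) (merge (node 526 (merge (leaf 0 524 524) (leaf 1 524 556))) (node 524 (merge (leaf 0 524 526) (leaf 3 524 558))))))))) (merge (node 493 (merge (leaf 1 460 492) (node 557 (merge (leaf 6 429 430) (node 558 (merge (leaf 4 461 590) (node 559 (merge (leaf 3 524 524) (node 556 (merge (leaf 2 524 527) (leaf 5 460 588))))))))))) (merge (node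 492 (merge (leaf 1 460 493) (node 460 (merge (leaf 1 459 491) (node 432 (merge (leaf 2 429 433) (node 559 (merge (leaf 6 431 495) (node 524 (merge (leaf 0 524 526) (node 428 (merge (leaf 3 427 427) (leaf 4 428 557))))))))))))) (node 492 (merge (leaf 1 460 493) (node 460 (merge (leaf 1 459 491) (node 427 (merge (leaf 3 427 428) (node 459 (merge (leaf 3 426 426) (node 524 (merge (leaf 7 427 556) (node 559 (merge (leaf 0 524 526) (node 495 (merge (leaf 7 430 430) (leaf 6 431 432)))))))))))))))))))) (node 559 (merge (node 495 (merge (leaf 7 430 430) (leaf 6 431 432))) (merge (node 492 (merge (leaf 1 460 493) (node 460 (merge (leaf 1 459 491) (node 495 (merge (leaf 7 430 430) (node 427 (merge (leaf 3 427 428) (node 459 (merge (leaf 3 426 426) (node 556 (merge (leaf 7 427 524) (node 558 (merge (leaf 2 524 557) (leaf 5 462 590))))))))))))))) (node 433 (merge (leaf 2 429 432) (node 465 (merge (leaf 2 430 434) (node 498 (merge (leaf 0 462 497) (node 466 (merge (leaf 0 463 499) (node 562 (merge (leaf 7 433 530) (node 561 (merge (leaf 3 527 563) (node 594 (merge (leaf 0 559 595)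 (node 558 (merge (leaf 0 558 593) (node 590 (merge (leaf 1 557 589) (leaf 1 558 591)))))))))))))))))))))))))))))))))))))) nP_224 cP_224 14 (by decide +kernel)
def nP_225 : ℕ := 0x1000000010000000000000000c0000000000000000000000000000000000000000000000000000000000000000000000000000000000000000000000000000000000000000000
def cP_225 : ℕ := 0x700000007000000078000002f8000000f800000efe0000073c000007be000000f0000000f0000000500000000000000000000000000000000000000000000000000000000000000000000000000000000000
theorem lP_225 : S nP_225 cP_225 10 := S_of_chk [] trivial (node 461 (merge (node 460 (merge (node 492 (merge (leaf 1 459 491) (node 464 (merge (leaf 1 460 493) (node 432 (merge (leaf 2 428 431) (leaf 2 429 433))))))) (merge (node 491 (merge (leaf 1 459 492) (node 459 (merge (leaf 1 458 490) (node 427 (merge (leaf 3 426 426) (leaf 3 427 428))))))) (node 432 (merge (leaf 2 428 431) (node 464 (merge (leaf 2 429 433) (node 428 (merge (leaf 3 427 427) (leaf 3 428 429)))))))))) (merge (node 460 (merge (node 491 (merge (leaf 1 459 492) (node 459 (merge (leaf 1 458 490) (node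 427 (merge (leaf 3 426 426) (leaf 3 427 428))))))) (merge (node 428 (merge (leaf 3 427 427) (node 464 (merge (leaf 3 428 429) (node 493 (merge (leaf 1 460 492) (node 494 (merge (leaf 1 461 465) (node 459 (merge (leaf 0 458 458) (leaf 0 459 495))))))))))) (merge (node 427 (merge (leaf 3 427 428) (node 459 (merge (leaf 3 426 426) (node 494 (merge (leaf 0 459 495) (node 458 (merge (leaf 0 458 493) (node 490 (merge (leaf 1 457 489) (leaf 1 458 491))))))))))) (merge (node 491 (merge (leaf 1 459 492) (node 459 (merge (leaf 1 458 490) (node 494 (merge (leaf 0 459 495) (node 458 (merge (leaf 0 458 493) (node 426 (merge (leaf 3 425 425) (leaf 3 426 427))))))))))) (merge (node 491 (merge (leaf 1 459 492) (node 459 (merge (leaf 1 458 490) (node 494 (merge (leaf 0 459 495) (node 493 (merge (leaf 0 458 458) (node 464 (merge (leaf 1 461 465) (node 429 (merge (leaf 3 428 428) (node 397 (merge (leaf 4 365 365) (leaf 4 397 526))))))))))))))) (node 492 (merge (leaf 1 459 491) (node 524 (merge (node 429 (merge (leaf 6 428 556) (node 428 (merge (leaf 6 396 397) (leaf 3 427 427))))) (merge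 (node 429 (merge (leaf 6 428 556) (node 397 (merge (leaf 5 364 365) (leaf 5 396 493))))) (merge (node 428 (merge (leaf 3 427 427) (node 525 (merge (leaf 4 428 557) (node 493 (merge (leaf 4 396 396) (node 556 (merge (leaf 6 460 588) (node 555 (merge (leaf 5 427 523) (leaf 5 459 587))))))))))) (node 428 (merge (leaf 3 427 427) (node 397 (merge (leaf 6 396 429) (node 396 (merge (leaf 6 364 365) (node 525 (merge (leaf 4 396 493) (leaf 4 428 557))))))))))))))))))))) (merge (node 460 (merge (node 492 (merge (leaf 1 459 491) (node 464 (merge (leaf 1 460 493) (node 432 (merge (leaf 2 428 431) (leaf 2 429 433))))))) (merge (node 431 (merge (leaf 2 428 432) (node 495 (merge (leaf 4 431 527) (node 494 (merge (leaf 0 459 459) (node 399 (merge (leaf 5 366 367) (leaf 5 398 526))))))))) (node 491 (merge (leaf 1 459 492) (node 459 (merge (leaf 1 458 490) (node 494 (merge (leaf 0 459 495) (node 458 (merge (leaf 0 458 493) (node 426 (merge (leaf 3 425 425) (leaf 3 426 427)))))))))))))) (merge (node 460 (merge (node 432 (merge (leaf 2 428 431) (node 464 (merge (leaf 2 429 433) (node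 428 (merge (leaf 3 427 427) (leaf 3 428 429))))))) (merge (node 431 (merge (leaf 2 428 432) (node 495 (merge (leaf 4 431 527) (node 494 (merge (leaf 0 459 459) (node 399 (merge (leaf 5 366 367) (leaf 5 398 526))))))))) (node 427 (merge (leaf 3 427 428) (node 459 (merge (leaf 3 426 426) (node 494 (merge (leaf 0 459 495) (node 458 (merge (leaf 0 458 493) (node 490 (merge (leaf 1 457 489) (leaf 1 458 491)))))))))))))) (merge (node 460 (merge (node 431 (merge (leaf 2 428 432) (node 427 (merge (leaf 3 427 428) (node 459 (merge (leaf 3 426 426) (node 495 (merge (leaf 0 459 494) (leaf 4 431 527))))))))) (merge (node 431 (merge (leaf 2 428 432) (node 495 (merge (leaf 4 431 527) (node 494 (merge (leaf 0 459 459) (node 399 (merge (leaf 5 366 367) (leaf 5 398 526))))))))) (node 492 (merge (leaf 1 459 491) (node 524 (merge (node 429 (merge (leaf 6 428 556) (node 428 (merge (leaf 6 396 397) (leaf 3 427 427))))) (merge (node 429 (merge (leaf 6 428 556) (node 397 (merge (leaf 5 364 365) (leaf 5 396 493))))) (merge (node 428 (merge (leaf 3 427 427) (node 525 (merge (leaf 4 428 557)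 (node 493 (merge (leaf 4 396 396) (node 556 (merge (leaf 6 460 588) (node 555 (merge (leaf 5 427 523) (leaf 5 459 587))))))))))) (node 428 (merge (leaf 3 427 427) (node 397 (merge (leaf 6 396 429) (node 396 (merge (leaf 6 364 365) (node 525 (merge (leaf 4 396 493) (leaf 4 428 557)))))))))))))))))) (merge (node 460 (merge (node 491 (merge (leaf 1 459 492) (node 459 (merge (leaf 1 458 490) (node 427 (merge (leaf 3 426 426) (leaf 3 427 428))))))) (merge (node 432 (merge (leaf 2 428 431) (node 464 (merge (leaf 2 429 433) (node 428 (merge (leaf 3 427 427) (leaf 3 428 429))))))) (node 431 (merge (leaf 2 428 432) (node 495 (merge (leaf 4 431 527) (node 494 (merge (leaf 0 459 459) (node 399 (merge (leaf 5 366 367) (leaf 5 398 526)))))))))))) (node 493 (merge (node 464 (merge (leaf 1 460 492) (node 465 (merge (leaf 1 461 494) (node 433 (merge (leaf 2 429 432) (leaf 2 430 434))))))) (merge (node 429 (merge (node 464 (merge (leaf 3 428 428) (leaf 1 460 492))) (merge (node 492 (merge (leaf 1 460 464) (node 524 (merge (leaf 5 396 397) (node 556 (merge (leaf 5 428 525) (leaf 6 460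 588))))))) (merge (node 428 (merge (leaf 3 428 464) (node 396 (merge (leaf 7 396 525) (node 364 (merge (leaf 4 332 332) (leaf 7 364 397))))))) (node 525 (merge (node 526 (merge (leaf 4 429 558) (node 527 (merge (leaf 3 492 492) (leaf 0 525 561))))) (merge (node 396 (merge (leaf 7 396 428) (node 397 (merge (leaf 7 364 364) (node 524 (merge (leaf 5 396 492) (leaf 5 428 556))))))) (node 526 (merge (leaf 4 429 558) (node 556 (merge (leaf 5 428 524) (node 557 (merge (leaf 1 524 527) (leaf 5 460 588)))))))))))))) (merge (node 429 (merge (node 428 (merge (leaf 3 428 464) (node 396 (merge (leaf 7 396 525) (node 364 (merge (leaf 4 332 332) (leaf 7 364 397))))))) (merge (node 397 (merge (node 366 (merge (leaf 6 365 398) (node 365 (merge (leaf 6 333 334) (node 364 (merge (leaf 7 332 332) (leaf 7 364 396))))))) (node 526 (merge (leaf 4 397 494) (node 525 (merge (leaf 4 429 558) (node 527 (merge (leaf 0 525 561) (node 524 (merge (leaf 5 428 556) (leaf 0 524 559))))))))))) (node 464 (merge (leaf 3 428 428) (node 433 (merge (leaf 2 429 432) (node 465 (merge (leaf 2 430 434) (node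 498 (merge (leaf 0 462 497) (node 466 (merge (leaf 0 463 499) (node 494 (merge (leaf 1 461 493) (leaf 1 462 495)))))))))))))))) (node 525 (merge (node 526 (merge (node 527 (merge (leaf 3 492 492) (leaf 0 525 561))) (node 558 (merge (leaf 4 429 429) (node 590 (merge (leaf 7 461 494) (leaf 7 493 622))))))) (merge (node 557 (merge (node 589 (merge (leaf 6 461 494) (node 590 (merge (leaf 4 461 558) (leaf 4 493 622))))) (merge (node 589 (merge (leaf 6 461 494) (node 588 (merge (leaf 5 460 556) (leaf 5 492 620))))) (node 556 (merge (leaf 5 460 588) (node 558 (merge (leaf 4 461 590) (node 559 (merge (leaf 3 524 524) (leaf 2 524 527)))))))))) (merge (node 526 (merge (node 527 (merge (leaf 3 492 492) (leaf 0 525 561))) (merge (node 561 (merge (leaf 0 525 527) (node 558 (merge (leaf 4 429 429) (leaf 3 525 559))))) (node 429 (merge (leaf 4 429 558) (node 396 (merge (leaf 7 396 428) (node 397 (merge (leaf 7 364 364) (node 524 (merge (leaf 5 396 492) (leaf 5 428 556)))))))))))) (node 557 (merge (node 556 (merge (leaf 5 460 588) (node 429 (merge (leaf 5 428 524) (node 396 (merge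 (leaf 7 396 428) (node 397 (merge (leaf 7 364 364) (node 494 (merge (leaf 4 365 365) (leaf 4 397 526))))))))))) (merge (node 589 (merge (leaf 6 461 494) (node 622 (merge (leaf 4 493 590) (node 621 (merge (leaf 4 525 654) (node 620 (merge (leaf 5 492 588) (leaf 5 524 652))))))))) (merge (node 589 (merge (node 588 (merge (leaf 5 460 556) (leaf 5 492 620))) (merge (node 622 (merge (leaf 4 493 590) (node 621 (merge (leaf 4 525 654) (node 524 (merge (leaf 7 492 492) (node 556 (merge (leaf 5 428 429) (leaf 7 524 653))))))))) (node 622 (merge (leaf 4 493 590) (node 621 (merge (leaf 4 525 654) (node 620 (merge (leaf 5 492 588) (leaf 5 524 652)))))))))) (node 589 (merge (leaf 6 461 494) (node 622 (merge (leaf 4 493 590) (node 621 (merge (leaf 4 525 654) (node 524 (merge (leaf 7 492 492) (node 556 (merge (leaf 5 428 429) (leaf 7 524 653)))))))))))))))))))))))))))))) nP_225 cP_225 10 (by decide +kernel)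
def nP_226 : ℕ := 0x1000000010000000000000000c0000000000000000000000000000000000000000000000000000000000000000000000000000000000000000000000000000000000000000000
def cP_226 : ℕ := 0x2a0000000e000001efc00001f3c00003ffc000003f0000003f8000002e0000000a000000000000000000000000000000000000000000000000000000000000000000000000000
theorem lP_226 : S nP_226 cP_226 11 := S_of_chk [] trivial (node 464 (merge (node 429 (merge (node 428 (merge (leaf 3 428 461) (node 430 (merge (leaf 0 427 427) (leaf 0 428 431))))) (merge (node 461 (merge (leaf 3 428 428) (node 493 (merge (leaf 1 460 492) (node 494 (merge (leaf 1 461 465) (node 397 (merge (leaf 4 365 365) (leaf 4 397 526))))))))) (node 465 (merge (leaf 3 429 430) (node 498 (merge (leaf 0 462 497) (node 466 (merge (leaf 0 463 499) (node 494 (merge (leaf 1 461 493) (leaf 1 462 495)))))))))))) (merge (node 433 (merge (node 432 (merge (leaf 2 429 461) (node 434 (merge (leaf 1 430 431) (leaf 1 431 435))))) (merge (node 465 (merge (leaf 2 430 434) (node 498 (merge (leaf 0 462 497) (node 466 (merge (leaf 0 463 499) (node 494 (merge (leaf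 1 461 493) (leaf 1 462 495))))))))) (node 493 (merge (node 461 (merge (leaf 2 429 432) (leaf 1 460 492))) (merge (node 494 (merge (leaf 1 461 465) (node 492 (merge (leaf 2 459 491) (leaf 2 460 495))))) (node 465 (merge (leaf 1 461 494) (node 498 (merge (leaf 0 462 497) (node 466 (merge (leaf 0 463 499) (node 432 (merge (leaf 2 429 461) (node 467 (merge (leaf 3 431 431) (leaf 3 432 468))))))))))))))))) (merge (node 465 (merge (node 498 (merge (leaf 0 462 497) (node 466 (merge (leaf 0 463 499) (node 430 (merge (leaf 3 429 429) (leaf 3 430 431))))))) (merge (node 433 (merge (leaf 2 430 434) (node 461 (merge (leaf 2 429 432) (node 429 (merge (leaf 3 428 428) (leaf 3 429 430))))))) (node 466 (merge (node 499 (merge (leaf 0 463 498) (node 467 (merge (leaf 0 464 500) (node 435 (merge (leaf 2 431 434) (leaf 2 432 436))))))) (merge (node 498 (merge (leaf 0 463 499) (node 462 (merge (leaf 0 462 497) (node 434 (merge (leaf 2 430 433) (leaf 2 431 435))))))) (merge (node 467 (merge (node 435 (merge (leaf 2 431 434) (leaf 2 432 436))) (merge (node 432 (merge (leaf 3 431 431) (node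 433 (merge (leaf 3 432 468) (node 462 (merge (leaf 2 430 434) (leaf 2 429 461))))))) (node 436 (merge (leaf 2 432 435) (node 468 (merge (leaf 2 433 437) (node 432 (merge (leaf 3 431 431) (leaf 3 432 433)))))))))) (merge (node 499 (merge (leaf 0 463 498) (node 467 (merge (leaf 0 464 500) (node 436 (merge (leaf 2 432 435) (node 468 (merge (leaf 2 433 437) (node 432 (merge (leaf 3 431 431) (leaf 3 432 433))))))))))) (node 498 (merge (leaf 0 463 499) (node 462 (merge (leaf 0 462 497) (node 433 (merge (leaf 2 430 434) (node 432 (merge (leaf 2 429 461) (node 467 (merge (leaf 3 431 431) (leaf 3 432 468))))))))))))))))))) (merge (node 430 (merge (node 465 (merge (leaf 3 429 429) (node 498 (merge (leaf 0 462 497) (node 466 (merge (leaf 0 463 499) (node 434 (merge (leaf 2 430 433) (leaf 2 431 435))))))))) (merge (node 398 (merge (node 495 (merge (leaf 4 366 366) (node 527 (merge (leaf 4 398 494) (leaf 7 430 559))))) (merge (node 366 (merge (leaf 4 366 495) (node 335 (merge (leaf 6 334 367) (node 334 (merge (leaf 6 302 303) (node 333 (merge (leaf 7 301 301) (leaf 7 333 365)))))))))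 (merge (node 494 (merge (node 495 (merge (leaf 4 398 527) (node 493 (merge (leaf 2 460 492) (leaf 5 397 525))))) (merge (node 397 (merge (leaf 7 365 365) (node 526 (merge (leaf 7 397 429) (node 527 (merge (leaf 4 398 495) (leaf 4 430 559))))))) (node 397 (merge (leaf 7 365 365) (node 526 (merge (leaf 7 397 429) (node 525 (merge (leaf 5 397 493) (leaf 5 429 557)))))))))) (node 365 (merge (node 333 (merge (leaf 7 333 366) (node 397 (merge (leaf 4 301 301) (leaf 4 333 429))))) (merge (node 366 (merge (leaf 7 333 333) (node 367 (merge (leaf 6 334 335) (node 399 (merge (leaf 6 366 494) (node 364 (merge (leaf 0 363 363) (leaf 0 364 400))))))))) (node 494 (merge (leaf 7 365 397) (node 525 (merge (leaf 5 397 493) (node 526 (merge (leaf 5 429 557) (node 527 (merge (leaf 4 430 559) (leaf 0 525 561)))))))))))))))) (node 494 (merge (node 465 (merge (leaf 1 461 493) (node 498 (merge (leaf 0 462 497) (node 466 (merge (leaf 0 463 499) (node 434 (merge (leaf 2 430 433) (leaf 2 431 435))))))))) (node 527 (merge (node 526 (merge (leaf 4 430 559) (node 525 (merge (leaf 5 429 557) (leaf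 0 525 561))))) (node 398 (merge (leaf 4 398 495) (node 367 (merge (leaf 6 366 399) (node 366 (merge (leaf 6 334 335) (node 365 (merge (leaf 7 333 333) (leaf 7 365 397)))))))))))))))) (node 430 (merge (node 461 (merge (node 493 (merge (leaf 1 460 492) (node 525 (merge (leaf 6 429 557) (node 398 (merge (leaf 5 365 366) (leaf 6 397 429))))))) (merge (node 432 (merge (leaf 2 429 433) (node 460 (merge (leaf 2 428 431) (node 428 (merge (leaf 3 427 427) (leaf 3 428 429))))))) (node 492 (merge (leaf 1 460 493) (node 460 (merge (leaf 1 459 491) (node 432 (merge (leaf 2 428 431) (leaf 2 429 433)))))))))) (merge (node 398 (merge (node 495 (merge (leaf 4 366 366) (node 527 (merge (leaf 4 398 494) (leaf 7 430 559))))) (merge (node 366 (merge (leaf 4 366 495) (node 335 (merge (leaf 6 334 367) (node 334 (merge (leaf 6 302 303) (node 333 (merge (leaf 7 301 301) (leaf 7 333 365))))))))) (merge (node 494 (merge (node 495 (merge (leaf 4 398 527) (node 493 (merge (leaf 2 460 492) (leaf 5 397 525))))) (merge (node 397 (merge (leaf 7 365 365) (node 526 (merge (leaf 7 397 429) (node 527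 (merge (leaf 4 398 495) (leaf 4 430 559))))))) (node 397 (merge (leaf 7 365 365) (node 526 (merge (leaf 7 397 429) (node 525 (merge (leaf 5 397 493) (leaf 5 429 557)))))))))) (node 365 (merge (node 333 (merge (leaf 7 333 366) (node 397 (merge (leaf 4 301 301) (leaf 4 333 429))))) (merge (node 366 (merge (leaf 7 333 333) (node 367 (merge (leaf 6 334 335) (node 399 (merge (leaf 6 366 494) (node 364 (merge (leaf 0 363 363) (leaf 0 364 400))))))))) (node 494 (merge (leaf 7 365 397) (node 525 (merge (leaf 5 397 493) (node 526 (merge (leaf 5 429 557) (node 527 (merge (leaf 4 430 559) (leaf 0 525 561)))))))))))))))) (merge (node 398 (merge (node 495 (merge (leaf 4 366 366) (node 527 (merge (leaf 7 398 431) (leaf 7 430 559))))) (merge (node 366 (merge (leaf 4 366 495) (node 335 (merge (leaf 6 334 367) (node 334 (merge (leaf 6 302 303) (node 333 (merge (leaf 7 301 301) (leaf 7 333 365))))))))) (merge (node 366 (merge (node 335 (merge (leaf 6 334 367) (node 334 (merge (leaf 6 302 303) (leaf 4 334 431))))) (merge (node 333 (merge (leaf 7 333 365) (node 334 (merge (leaf 7 301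 301) (leaf 4 334 431))))) (node 367 (merge (leaf 6 334 335) (node 494 (merge (leaf 6 366 399) (node 365 (merge (leaf 7 333 333) (leaf 7 365 397)))))))))) (node 399 (merge (node 367 (merge (leaf 6 366 494) (node 335 (merge (leaf 5 302 303) (leaf 5 334 431))))) (merge (node 494 (merge (leaf 6 366 367) (node 397 (merge (leaf 7 365 365) (node 526 (merge (leaf 7 397 429) (node 527 (merge (leaf 4 398 495) (leaf 4 430 559))))))))) (node 432 (merge (node 461 (merge (leaf 2 429 433) (node 460 (merge (leaf 2 428 431) (node 428 (merge (leaf 3 427 427) (leaf 3 428 429))))))) (merge (node 429 (merge (node 428 (merge (leaf 0 427 427) (leaf 3 428 461))) (node 400 (merge (leaf 1 397 401) (node 368 (merge (leaf 5 367 495) (node 369 (merge (leaf 6 336 337) (leaf 2 365 397))))))))) (node 433 (merge (node 397 (merge (leaf 0 397 400) (leaf 3 397 431))) (merge (node 434 (merge (leaf 1 430 431) (leaf 1 431 435))) (node 400 (merge (leaf 0 397 397) (node 434 (merge (leaf 0 398 401) (leaf 1 431 435)))))))))))))))))) (merge (node 429 (merge (node 428 (merge (leaf 0 427 427) (leaf 3 428 461)))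 (merge (node 428 (merge (leaf 0 427 427) (leaf 0 428 431))) (node 494 (merge (node 526 (merge (leaf 7 397 397) (node 527 (merge (leaf 4 430 559) (node 525 (merge (leaf 5 429 557) (leaf 0 525 561))))))) (merge (node 527 (merge (node 495 (merge (leaf 4 431 431) (leaf 7 430 559))) (merge (node 431 (merge (leaf 4 431 495) (node 399 (merge (leaf 5 366 367) (leaf 6 398 526))))) (node 526 (merge (leaf 4 430 559) (node 525 (merge (leaf 5 429 557) (leaf 0 525 561)))))))) (node 461 (merge (node 432 (merge (leaf 2 429 433) (node 431 (merge (leaf 1 428 460) (node 397 (merge (leaf 4 365 365) (leaf 3 396 396))))))) (merge (node 492 (merge (leaf 1 460 493) (node 460 (merge (leaf 1 459 491) (node 459 (merge (leaf 2 426 458) (leaf 0 459 495))))))) (node 493 (merge (leaf 1 460 492) (node 432 (merge (leaf 2 429 433) (node 397 (merge (leaf 4 365 365) (node 396 (merge (leaf 7 364 364) (leaf 3 396 431)))))))))))))))))) (node 461 (merge (node 493 (merge (leaf 1 460 492) (node 525 (merge (leaf 6 429 557) (node 398 (merge (leaf 5 365 366) (leaf 5 397 494))))))) (merge (node 432 (merge (leaf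 2 429 433) (node 460 (merge (leaf 2 428 431) (node 491 (merge (leaf 1 459 492) (node 459 (merge (leaf 1 458 490) (node 427 (merge (leaf 3 426 426) (leaf 3 427 428))))))))))) (node 432 (merge (leaf 2 429 433) (node 460 (merge (leaf 2 428 431) (node 427 (merge (leaf 3 427 428) (node 459 (merge (leaf 3 426 426) (node 494 (merge (leaf 0 459 495) (node 493 (merge (leaf 0 458 458) (node 398 (merge (leaf 5 365 366) (leaf 5 397 525)))))))))))))))))))))))))))) nP_226 cP_226 11 (by decide +kernel)
def nP_227 : ℕ := 0x1000000010000000000000000c0000000000000000000000000000000000000000000000000000000000000000000000000000000000000000000000000000000000000000000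
def cP_227 : ℕ := 0xe000000ef000000ef8000000f8000000de0000033e000007fe000003f0000003f0000003f0000000e0000000c0000000800000000000000000000000000000000000000000000000000000000000
theorem lP_227 : S nP_227 cP_227 15 := S_of_chk [] trivial (node 527 (merge (node 495 (merge (leaf 4 431 431) (node 430 (merge (leaf 7 430 559) (node 398 (merge (leaf 4 366 366) (leaf 4 398 494))))))) (merge (node 495 (merge (leaf 4 431 431) (node 559 (merge (leaf 7 430 430) (node 558 (merge (leaf 5 462 590) (node 557 (merge (leaf 2 524 556) (node 525 (merge (leaf 3 524 524) (node 561 (merge (leaf 0 525 526) (node 594 (merge (leaf 0 558 593) (node 562 (merge (leaf 3 527 563) (leaf 0 559 595))))))))))))))))) (merge (node 559 (merge (node 430 (merge (leaf 7 430 495) (node 526 (merge (leaf 4 430 494) (node 525 (merge (leaf 0 524 524) (leaf 0 525 561))))))) (merge (node 495 (merge (leaf 7 430 430) (node 590 (merge (leaf 5 462 558) (node 591 (merge (leaf 7 462 494) (leaf 5 494 622))))))) (merge (node 526 (merge (node 525 (merge (leaf 0 524 524) (leaf 0 525 561))) (node 494 (merge (leaf 4 430 430)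 (node 591 (merge (leaf 4 462 558) (leaf 7 494 623))))))) (merge (node 561 (merge (node 562 (merge (leaf 3 527 563) (node 526 (merge (leaf 0 525 525) (leaf 3 526 559))))) (merge (node 495 (merge (leaf 7 430 430) (node 562 (merge (leaf 3 527 563) (node 590 (merge (leaf 5 462 558) (leaf 1 558 591))))))) (node 525 (merge (leaf 0 525 526) (node 495 (merge (leaf 7 430 430) (node 558 (merge (leaf 5 462 590) (node 557 (merge (leaf 3 524 524) (leaf 2 524 556)))))))))))) (node 558 (merge (node 590 (merge (leaf 5 462 495) (node 561 (merge (leaf 1 557 589) (node 562 (merge (leaf 3 526 526) (leaf 1 558 591))))))) (merge (node 590 (merge (leaf 5 462 495) (node 589 (merge (leaf 1 557 561) (node 557 (merge (leaf 2 524 556) (leaf 1 556 588))))))) (merge (node 557 (merge (leaf 2 524 556) (node 589 (merge (leaf 1 556 588) (node 494 (merge (leaf 5 461 526) (node 495 (merge (leaf 5 462 590) (leaf 7 462 591))))))))) (node 557 (merge (leaf 2 524 556) (node 525 (merge (leaf 3 524 524) (node 561 (merge (leaf 0 525 526) (node 594 (merge (leaf 0 558 593) (node 562 (merge (leaf 3 527 563) (leaf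 0 559 595)))))))))))))))))))) (merge (node 526 (merge (node 561 (merge (leaf 0 525 525) (node 562 (merge (leaf 3 526 559) (leaf 3 527 563))))) (merge (node 525 (merge (leaf 0 525 561) (node 557 (merge (leaf 1 524 556) (node 494 (merge (leaf 5 429 430) (node 558 (merge (leaf 6 430 431) (leaf 5 461 589))))))))) (node 494 (merge (node 431 (merge (leaf 6 430 558) (node 399 (merge (leaf 5 366 367) (leaf 6 398 430))))) (merge (node 559 (merge (leaf 4 430 430) (node 591 (merge (leaf 4 462 558) (leaf 7 494 623))))) (merge (node 558 (merge (leaf 6 430 431) (node 559 (merge (leaf 4 462 591) (node 557 (merge (leaf 2 524 556) (leaf 5 461 589))))))) (node 430 (merge (leaf 4 430 559) (node 399 (merge (leaf 6 398 431) (node 398 (merge (leaf 6 366 367) (node 397 (merge (leaf 7 365 365) (leaf 7 397 429)))))))))))))))) (merge (node 526 (merge (node 561 (merge (leaf 0 525 525) (node 562 (merge (leaf 3 526 559) (leaf 3 527 563))))) (merge (node 558 (merge (node 431 (merge (leaf 6 430 494) (leaf 5 430 495))) (merge (node 495 (merge (leaf 5 430 431) (node 590 (merge (leaf 5 462 559) (leaf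 6 494 622))))) (merge (node 494 (merge (leaf 6 430 431) (node 559 (merge (leaf 4 462 591) (node 557 (merge (leaf 2 524 556) (leaf 5 461 589))))))) (node 494 (merge (node 557 (merge (leaf 5 461 589) (node 559 (merge (leaf 2 524 556) (leaf 4 462 591))))) (merge (node 590 (merge (leaf 6 462 495) (node 589 (merge (leaf 5 461 557) (leaf 5 493 621))))) (node 590 (merge (leaf 6 462 495) (node 591 (merge (leaf 4 462 559) (leaf 4 494 623)))))))))))) (node 525 (merge (leaf 0 525 561) (node 556 (merge (leaf 1 524 557) (node 524 (merge (leaf 1 523 555) (node 491 (merge (leaf 3 491 492) (node 523 (merge (leaf 3 490 490) (node 495 (merge (leaf 4 431 431) (leaf 2 491 494)))))))))))))))) (node 461 (merge (node 431 (merge (leaf 4 431 495) (node 432 (merge (leaf 2 428 460) (node 433 (merge (leaf 1 430 434) (leaf 2 429 464))))))) (merge (node 431 (merge (leaf 4 431 495) (node 460 (merge (leaf 2 428 432) (node 459 (merge (leaf 2 427 430) (node 427 (merge (leaf 3 426 426) (leaf 3 427 428))))))))) (merge (node 460 (merge (node 491 (merge (leaf 1 459 492) (node 459 (merge (leaf 1 458 490)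 (node 427 (merge (leaf 3 426 426) (leaf 3 427 428))))))) (merge (node 432 (merge (leaf 2 428 431) (node 464 (merge (leaf 2 429 433) (node 428 (merge (leaf 3 427 427) (leaf 3 428 429))))))) (node 491 (merge (leaf 1 459 492) (node 459 (merge (leaf 1 458 490) (node 431 (merge (leaf 2 427 430) (leaf 2 428 432)))))))))) (merge (node 460 (merge (node 491 (merge (leaf 1 459 492) (node 459 (merge (leaf 1 458 490) (node 427 (merge (leaf 3 426 426) (leaf 3 427 428))))))) (merge (node 459 (merge (node 427 (merge (leaf 3 426 426) (leaf 3 427 428))) (merge (node 490 (merge (leaf 1 458 491) (node 458 (merge (leaf 1 457 489) (node 429 (merge (leaf 2 426 430) (node 428 (merge (leaf 2 425 457) (leaf 3 428 464))))))))) (node 490 (merge (leaf 1 458 491) (node 458 (merge (leaf 1 457 489) (node 426 (merge (leaf 3 425 425) (leaf 3 426 427)))))))))) (merge (node 526 (merge (node 525 (merge (leaf 0 525 561) (node 557 (merge (leaf 1 524 556) (node 494 (merge (leaf 5 429 430) (node 589 (merge (leaf 5 461 558) (leaf 6 493 621))))))))) (merge (node 491 (merge (leaf 1 459 492) (node 459 (merge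 (leaf 1 458 490) (node 494 (merge (leaf 0 459 495) (node 429 (merge (leaf 7 429 558) (node 397 (merge (leaf 4 365 365) (leaf 7 397 430))))))))))) (node 525 (merge (leaf 0 525 561) (node 491 (merge (leaf 1 459 492) (node 490 (merge (leaf 1 458 459) (node 556 (merge (leaf 1 524 557) (node 524 (merge (leaf 3 490 523) (leaf 1 523 555)))))))))))))) (node 526 (merge (node 428 (merge (leaf 3 427 427) (node 429 (merge (leaf 3 428 464) (node 494 (merge (leaf 7 429 558) (node 397 (merge (leaf 4 365 365) (leaf 7 397 430))))))))) (merge (node 525 (merge (leaf 0 525 561) (node 557 (merge (leaf 1 524 556) (node 494 (merge (leaf 5 429 430) (node 589 (merge (leaf 5 461 558) (leaf 6 493 621))))))))) (node 525 (merge (leaf 0 525 561) (node 556 (merge (leaf 1 524 557) (node 524 (merge (leaf 1 523 555) (node 429 (merge (leaf 6 428 492) (node 428 (merge (leaf 3 427 427) (leaf 3 428 464)))))))))))))))))) (node 430 (merge (node 495 (merge (leaf 4 431 431) (node 398 (merge (leaf 4 366 366) (leaf 4 398 494))))) (merge (node 429 (merge (node 428 (merge (leaf 0 427 427) (node 464 (merge (leaf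 3 428 461) (leaf 3 429 465))))) (merge (node 428 (merge (leaf 0 427 427) (node 431 (merge (leaf 4 431 495) (node 432 (merge (leaf 1 429 433) (node 400 (merge (leaf 2 396 399) (leaf 2 397 401))))))))) (node 431 (merge (leaf 4 431 495) (node 432 (merge (leaf 1 429 433) (node 397 (merge (leaf 3 396 396) (node 365 (merge (leaf 4 333 333) (leaf 4 365 494)))))))))))) (merge (node 429 (merge (node 428 (merge (leaf 0 427 427) (node 464 (merge (leaf 3 428 461) (leaf 3 429 465))))) (merge (node 428 (merge (leaf 0 427 427) (node 431 (merge (leaf 4 431 495) (node 432 (merge (leaf 1 429 433) (node 400 (merge (leaf 2 396 399) (leaf 2 397 401))))))))) (node 464 (merge (leaf 3 429 465) (node 432 (merge (leaf 2 429 433) (node 431 (merge (leaf 4 431 495) (node 400 (merge (leaf 2 397 401) (node 397 (merge (leaf 3 396 396) (node 365 (merge (leaf 4 333 333) (node 366 (merge (leaf 6 333 334) (node 368 (merge (leaf 5 335 336) (node 369 (merge (leaf 6 336 337) (node 367 (merge (leaf 7 335 335) (leaf 1 365 398)))))))))))))))))))))))) (merge (node 398 (merge (node 495 (merge (leaf 4 366 366)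 (leaf 4 398 494))) (merge (node 366 (merge (leaf 4 366 495) (node 335 (merge (leaf 6 334 367) (node 334 (merge (leaf 6 302 303) (node 333 (merge (leaf 7 301 301) (leaf 7 333 365))))))))) (merge (node 494 (merge (leaf 4 398 495) (node 397 (merge (leaf 7 365 365) (node 526 (merge (leaf 7 397 429) (node 525 (merge (leaf 5 429 557) (leaf 0 525 561))))))))) (node 367 (merge (node 335 (merge (leaf 6 334 366) (node 399 (merge (leaf 5 302 303) (leaf 6 366 494))))) (merge (node 494 (merge (leaf 6 366 399) (node 397 (merge (leaf 7 365 365) (node 526 (merge (leaf 7 397 429) (node 525 (merge (leaf 5 429 557) (leaf 0 525 561))))))))) (merge (node 366 (merge (leaf 6 334 335) (node 365 (merge (leaf 7 333 333) (node 397 (merge (leaf 7 365 494) (node 368 (merge (leaf 1 365 369) (leaf 1 364 396))))))))) (node 366 (merge (leaf 6 334 335) (node 333 (merge (leaf 7 333 365) (node 334 (merge (leaf 7 301 301) (node 429 (merge (leaf 5 333 461) (node 302 (merge (leaf 5 301 397) (node 271 (merge (leaf 6 270 303) (node 270 (merge (leaf 6 238 239) (leaf 4 270 399))))))))))))))))))))))) (node 429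 (merge (node 428 (merge (leaf 0 427 427) (node 464 (merge (leaf 3 428 461) (leaf 3 429 465))))) (merge (node 526 (merge (node 494 (merge (leaf 7 397 397) (node 431 (merge (leaf 6 398 399) (leaf 6 430 558))))) (node 427 (merge (leaf 0 427 428) (node 525 (merge (leaf 0 525 561) (node 556 (merge (leaf 1 524 557) (node 524 (merge (leaf 1 523 555) (node 491 (merge (leaf 3 491 492) (node 523 (merge (leaf 4 427 459) (leaf 3 490 490))))))))))))))) (node 397 (merge (node 494 (merge (leaf 7 397 526) (node 365 (merge (leaf 4 333 333) (leaf 4 365 461))))) (merge (node 464 (merge (leaf 3 429 465) (node 432 (merge (leaf 2 429 433) (node 431 (merge (leaf 3 396 396) (node 400 (merge (leaf 2 397 401) (node 365 (merge (leaf 4 333 333) (node 366 (merge (leaf 6 333 334) (node 364 (merge (leaf 7 332 332) (node 399 (merge (leaf 0 364 367) (leaf 3 364 398))))))))))))))))) (node 494 (merge (leaf 7 397 526) (node 464 (merge (leaf 3 429 465) (node 432 (merge (leaf 2 429 433) (node 431 (merge (leaf 3 396 396) (node 400 (merge (leaf 2 397 401) (node 368 (merge (leaf 5 335 336) (node 367 (merge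 (leaf 7 335 335) (leaf 5 366 399))))))))))))))))))))))))))))))))))))) nP_227 cP_227 15 (by decide +kernel)

end Crest.Agent.H26Snaky
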