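import Crest.Agent.H26SnakyTree

/-!
Weakening of certificates for S0047.
-/

set_option autoImplicit false

namespace Crest.Agent.H26Snaky

/-- more Maker stones may be required, and a larger set may be required to be free of Breaker -/
theorem S_weaken {N C N' C' d : ℕ} (h : S N C d) (hN : N &&& N' = N) (hC : C &&& C' = C) :
    S N' C' d := by
  intro M B hMB h1 h2
  refine h M B hMB (fun k hk => h1 k ?_) (fun k hk => h2 k ?_)
  · rw [← hN, Nat.testBit_and, Bool.and_eq_true] at hk
    exact hk.2
  · rw [← hC, Nat.testBit_and, Bool.and_eq_true] at hk
    exact hk.2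

end Crest.Agent.H26Snaky
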