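import Crest.Agent.H26SnP014
import Crest.Agent.H26SnP015
import Crest.Agent.H26SnP016
import Crest.Agent.H26SnakyWeak

/-! certificate data for S0047, part P 17 (computer generated) -/

set_option autoImplicit false
set_option maxRecDepth 100000

namespace Crest.Agent.H26Snaky

open T

def nP_228 : ℕ := 0x1000000010000000000000000c0000000000000000000000000000000000000000000000000000000000000000000000000000000000000000000000000000000000000000000
def cP_228 : ℕ := 0xa0000000e0000000e0000000e0000002f8000000d800001efe00001f3c00003ffe000007fc000003f0000000e00000008000000000000000000000000000000000000000000000000000000000000000000000000000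
theorem lP_228 : S nP_228 cP_228 13 := S_of_chk [] trivial (node 494 (merge (node 464 (merge (node 493 (merge (leaf 1 461 465) (node 492 (merge (leaf 1 460 461) (leaf 2 459 491))))) (merge (node 465 (merge (leaf 1 461 493) (node 498 (merge (leaf 0 462 497) (node 466 (merge (leaf 0 463 499) (node 430 (merge (leaf 3 429 429) (leaf 3 430 431))))))))) (merge (node 461 (merge (node 429 (merge (leaf 3 428 428) (node 526 (merge (leaf 7 429 558) (node 397 (merge (leaf 4 365 365) (leaf 7 397 430))))))) (node 492 (merge (leaf 1 460 493) (node 460 (merge (leaf 1 459 491) (node 432 (merge (leaf 2 428 431) (leaf 2 429 433))))))))) (node 465 (merge (node 498 (merge (leaf 0 462 497) (node 466 (merge (leaf 0 463 499) (node 430 (merge (leaf 3 429 429) (leaf 3 430 431))))))) (merge (node 433 (merge (leaf 2 430 434) (node 461 (merge (leaf 2 429 432) (node 429 (merge (leaf 3 428 428) (leaf 3 429 430))))))) (node 466 (merge (node 499 (merge (leaf 0 463 498) (node 467 (merge (leaf 0 464 500) (node 435 (merge (leaf 2 431 434) (leaf 2 432 436))))))) (merge (node 498 (merge (leaf 0 463 499)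 (node 462 (merge (leaf 0 462 497) (node 434 (merge (leaf 2 430 433) (leaf 2 431 435))))))) (merge (node 467 (merge (node 435 (merge (leaf 2 431 434) (leaf 2 432 436))) (merge (node 432 (merge (leaf 3 431 431) (node 433 (merge (leaf 3 432 468) (node 462 (merge (leaf 2 430 434) (leaf 2 429 461))))))) (node 436 (merge (leaf 2 432 435) (node 468 (merge (leaf 2 433 437) (node 432 (merge (leaf 3 431 431) (leaf 3 432 433)))))))))) (merge (node 499 (merge (leaf 0 463 498) (node 467 (merge (leaf 0 464 500) (node 436 (merge (leaf 2 432 435) (node 468 (merge (leaf 2 433 437) (node 432 (merge (leaf 3 431 431) (leaf 3 432 433))))))))))) (node 498 (merge (leaf 0 463 499) (node 462 (merge (leaf 0 462 497) (node 433 (merge (leaf 2 430 434) (node 432 (merge (leaf 2 429 461) (node 467 (merge (leaf 3 431 431) (leaf 3 432 468))))))))))))))))))))))) (merge (node 464 (merge (node 493 (merge (leaf 1 461 465) (node 492 (merge (leaf 1 460 461) (leaf 2 459 491))))) (merge (node 465 (merge (leaf 1 461 493) (node 498 (merge (leaf 0 462 497) (node 466 (merge (leaf 1 462 495) (leaf 0 463 499)))))))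 (merge (node 465 (merge (node 498 (merge (leaf 0 462 497) (node 466 (merge (leaf 1 462 495) (leaf 0 463 499))))) (merge (node 498 (merge (leaf 0 462 497) (node 466 (merge (leaf 0 463 499) (node 434 (merge (leaf 2 430 433) (leaf 2 431 435))))))) (node 433 (merge (leaf 2 430 434) (node 461 (merge (leaf 2 429 432) (node 428 (merge (leaf 3 428 429) (node 460 (merge (leaf 3 427 427) (node 459 (merge (leaf 0 459 495) (node 491 (merge (leaf 1 458 490) (leaf 1 459 492)))))))))))))))) (node 461 (merge (node 429 (merge (leaf 3 428 428) (node 526 (merge (leaf 7 429 558) (node 397 (merge (leaf 4 365 365) (leaf 4 397 493))))))) (merge (node 460 (merge (node 492 (merge (leaf 1 459 491) (leaf 1 460 493))) (merge (node 459 (merge (leaf 0 459 495) (node 493 (merge (leaf 0 458 458) (leaf 1 460 492))))) (merge (node 459 (merge (leaf 0 459 495) (node 491 (merge (leaf 1 458 490) (leaf 1 459 492))))) (node 459 (merge (leaf 0 459 495) (node 458 (merge (leaf 0 458 493) (node 490 (merge (leaf 1 457 489) (leaf 1 458 491))))))))))) (node 428 (merge (leaf 3 428 429) (node 460 (merge (leaf 3 427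 427) (node 459 (merge (leaf 0 459 495) (node 491 (merge (leaf 1 458 490) (leaf 1 459 492)))))))))))))))) (merge (node 526 (merge (node 431 (merge (leaf 6 430 558) (node 495 (merge (leaf 5 398 399) (leaf 4 431 527))))) (merge (node 431 (merge (leaf 6 430 558) (node 399 (merge (leaf 5 366 367) (leaf 6 398 430))))) (merge (node 558 (merge (node 590 (merge (leaf 6 462 495) (node 461 (merge (leaf 7 429 429) (leaf 7 461 493))))) (merge (node 590 (merge (leaf 6 462 495) (node 591 (merge (leaf 4 462 559) (leaf 4 494 623))))) (node 429 (merge (leaf 7 429 461) (node 430 (merge (leaf 7 397 397) (node 559 (merge (leaf 4 430 527) (leaf 4 462 591)))))))))) (node 431 (merge (node 399 (merge (leaf 5 366 367) (leaf 5 398 495))) (merge (node 399 (merge (leaf 5 366 367) (leaf 6 398 430))) (node 527 (merge (leaf 4 431 495) (node 430 (merge (leaf 4 430 559) (node 429 (merge (leaf 7 397 397) (node 428 (merge (leaf 0 427 427) (node 460 (merge (leaf 1 427 459) (node 432 (merge (leaf 1 428 461) (node 433 (merge (leaf 1 430 434) (node 401 (merge (leaf 2 397 400) (leaf 2 398 402))))))))))))))))))))))))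 (merge (node 526 (merge (node 431 (merge (leaf 6 430 558) (node 399 (merge (leaf 5 366 367) (leaf 6 398 430))))) (merge (node 558 (merge (leaf 6 430 431) (node 590 (merge (leaf 6 462 495) (node 589 (merge (leaf 5 461 557) (leaf 5 493 621))))))) (merge (node 431 (merge (node 399 (merge (leaf 5 366 367) (leaf 5 398 495))) (merge (node 399 (merge (leaf 5 366 367) (leaf 6 398 430))) (node 527 (merge (leaf 4 431 495) (node 430 (merge (leaf 4 430 559) (node 429 (merge (leaf 7 397 397) (node 428 (merge (leaf 0 427 427) (leaf 0 428 464)))))))))))) (node 558 (merge (node 589 (merge (leaf 5 461 557) (node 590 (merge (leaf 5 493 621) (node 559 (merge (leaf 1 557 561) (leaf 4 462 591))))))) (merge (node 557 (merge (leaf 5 461 589) (node 559 (merge (leaf 4 462 591) (node 527 (merge (leaf 4 430 430) (leaf 2 524 556))))))) (merge (node 589 (merge (leaf 5 461 557) (node 590 (merge (leaf 5 493 621) (node 559 (merge (leaf 1 557 561) (node 527 (merge (leaf 4 430 430) (node 622 (merge (leaf 6 494 495) (leaf 6 526 654))))))))))) (merge (node 589 (merge (leaf 5 461 557) (node 590 (merge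 (leaf 5 493 621) (node 495 (merge (leaf 6 462 463) (node 622 (merge (leaf 6 494 527) (node 623 (merge (leaf 4 494 591) (leaf 4 526 655))))))))))) (node 590 (merge (node 591 (merge (leaf 4 462 559) (leaf 4 494 623))) (merge (node 495 (merge (leaf 6 462 463) (node 622 (merge (leaf 6 494 527) (node 655 (merge (leaf 4 526 623) (node 654 (merge (leaf 4 558 687) (node 653 (merge (leaf 5 525 621) (leaf 5 557 685))))))))))) (node 495 (merge (leaf 6 462 463) (node 527 (merge (leaf 6 494 622) (node 559 (merge (leaf 4 430 430) (leaf 7 462 591))))))))))))))))))) (merge (node 526 (merge (node 431 (merge (leaf 6 430 558) (node 399 (merge (leaf 5 366 367) (leaf 6 398 430))))) (merge (node 558 (merge (leaf 6 430 431) (node 590 (merge (leaf 6 462 495) (node 589 (merge (leaf 5 461 557) (leaf 5 493 621))))))) (merge (node 558 (merge (node 589 (merge (leaf 5 461 557) (node 590 (merge (leaf 5 493 621) (node 559 (merge (leaf 1 557 561) (leaf 4 462 591))))))) (merge (node 557 (merge (leaf 5 461 589) (node 559 (merge (leaf 4 462 591) (node 527 (merge (leaf 4 430 430) (leaf 2 524 556)))))))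 (merge (node 589 (merge (leaf 5 461 557) (node 590 (merge (leaf 5 493 621) (node 559 (merge (leaf 1 557 561) (node 527 (merge (leaf 4 430 430) (node 622 (merge (leaf 6 494 495) (leaf 6 526 654))))))))))) (merge (node 589 (merge (leaf 5 461 557) (node 590 (merge (leaf 5 493 621) (node 495 (merge (leaf 6 462 463) (node 622 (merge (leaf 6 494 527) (node 623 (merge (leaf 4 494 591) (leaf 4 526 655))))))))))) (node 590 (merge (node 591 (merge (leaf 4 462 559) (leaf 4 494 623))) (merge (node 495 (merge (leaf 6 462 463) (node 622 (merge (leaf 6 494 527) (node 655 (merge (leaf 4 526 623) (node 654 (merge (leaf 4 558 687) (node 653 (merge (leaf 5 525 621) (leaf 5 557 685))))))))))) (node 495 (merge (leaf 6 462 463) (node 527 (merge (leaf 6 494 622) (node 559 (merge (leaf 4 430 430) (leaf 7 462 591))))))))))))))) (node 461 (merge (node 431 (merge (node 399 (merge (leaf 5 366 367) (leaf 6 398 430))) (node 460 (merge (leaf 2 428 432) (node 495 (merge (leaf 0 459 459) (leaf 4 431 527))))))) (merge (node 492 (merge (node 491 (merge (leaf 1 459 460) (node 493 (merge (leaf 2 458 490)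 (leaf 2 459 494))))) (merge (node 493 (merge (leaf 1 460 464) (node 491 (merge (leaf 2 458 490) (leaf 2 459 494))))) (merge (node 460 (merge (leaf 1 459 491) (node 432 (merge (leaf 2 428 431) (node 464 (merge (leaf 2 429 433) (node 428 (merge (leaf 3 427 427) (leaf 3 428 429))))))))) (node 464 (merge (leaf 1 460 493) (node 432 (merge (leaf 2 429 433) (node 460 (merge (leaf 2 428 431) (node 428 (merge (leaf 3 427 427) (leaf 3 428 429))))))))))))) (merge (node 464 (merge (node 493 (merge (leaf 1 461 465) (node 492 (merge (leaf 1 460 461) (leaf 2 459 491))))) (merge (node 428 (merge (leaf 3 428 429) (node 460 (merge (leaf 3 427 427) (node 459 (merge (leaf 0 459 495) (node 491 (merge (leaf 1 458 490) (leaf 1 459 492))))))))) (node 465 (merge (leaf 1 461 493) (node 498 (merge (leaf 0 462 497) (node 466 (merge (leaf 1 462 495) (leaf 0 463 499)))))))))) (node 527 (merge (node 431 (merge (leaf 4 431 495) (node 399 (merge (leaf 5 366 367) (leaf 6 398 430))))) (merge (node 559 (merge (leaf 4 430 430) (node 591 (merge (leaf 7 462 495) (leaf 7 494 623))))) (merge (node 495 (merge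 (leaf 4 431 431) (node 493 (merge (leaf 0 492 492) (node 464 (merge (leaf 1 461 465) (node 559 (merge (leaf 6 431 432) (leaf 7 462 591))))))))) (node 430 (merge (leaf 4 430 559) (node 399 (merge (leaf 6 398 431) (node 398 (merge (leaf 6 366 367) (node 493 (merge (leaf 5 365 366) (node 492 (merge (leaf 1 460 464) (leaf 0 491 491))))))))))))))))))))))) (merge (node 526 (merge (node 431 (merge (leaf 6 430 558) (node 399 (merge (leaf 5 366 367) (leaf 6 398 430))))) (merge (node 558 (merge (leaf 6 430 431) (node 590 (merge (leaf 6 462 495) (node 589 (merge (leaf 5 461 557) (leaf 5 493 621))))))) (merge (node 558 (merge (node 589 (merge (leaf 5 461 557) (node 590 (merge (leaf 5 493 621) (node 559 (merge (leaf 1 557 561) (leaf 4 462 591))))))) (merge (node 557 (merge (leaf 5 461 589) (node 559 (merge (leaf 4 462 591) (node 527 (merge (leaf 4 430 430) (leaf 2 524 556))))))) (merge (node 589 (merge (leaf 5 461 557) (node 590 (merge (leaf 5 493 621) (node 559 (merge (leaf 1 557 561) (node 527 (merge (leaf 4 430 430) (node 622 (merge (leaf 6 494 495) (leaf 6 526 654)))))))))))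 (merge (node 589 (merge (leaf 5 461 557) (node 590 (merge (leaf 5 493 621) (node 495 (merge (leaf 6 462 463) (node 622 (merge (leaf 6 494 527) (node 623 (merge (leaf 4 494 591) (leaf 4 526 655))))))))))) (node 590 (merge (node 591 (merge (leaf 4 462 559) (leaf 4 494 623))) (merge (node 495 (merge (leaf 6 462 463) (node 622 (merge (leaf 6 494 527) (node 655 (merge (leaf 4 526 623) (node 654 (merge (leaf 4 558 687) (node 653 (merge (leaf 5 525 621) (leaf 5 557 685))))))))))) (node 495 (merge (leaf 6 462 463) (node 527 (merge (leaf 6 494 622) (node 559 (merge (leaf 4 430 430) (leaf 7 462 591))))))))))))))) (node 464 (merge (node 493 (merge (leaf 1 461 465) (node 492 (merge (leaf 1 460 461) (leaf 2 459 491))))) (node 527 (merge (node 495 (merge (leaf 4 431 431) (node 559 (merge (leaf 6 431 432) (leaf 7 462 591))))) (merge (node 431 (merge (leaf 4 431 495) (node 399 (merge (leaf 5 366 367) (leaf 6 398 430))))) (merge (node 559 (merge (leaf 4 430 430) (node 591 (merge (leaf 7 462 495) (leaf 7 494 623))))) (node 430 (merge (leaf 4 430 559) (node 398 (merge (node 399 (merge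 (leaf 6 366 367) (leaf 6 398 431))) (merge (node 367 (merge (leaf 6 366 399) (node 366 (merge (leaf 6 334 335) (node 365 (merge (leaf 7 333 333) (leaf 7 365 397))))))) (merge (node 431 (merge (leaf 6 398 399) (node 365 (merge (leaf 7 365 397) (node 366 (merge (leaf 7 333 333) (leaf 4 334 334))))))) (node 365 (merge (leaf 7 365 397) (node 366 (merge (leaf 7 333 333) (node 335 (merge (leaf 6 334 367) (node 334 (merge (leaf 6 302 303) (leaf 4 334 431))))))))))))))))))))))))) (node 461 (merge (node 432 (merge (node 464 (merge (leaf 2 429 433) (node 493 (merge (leaf 1 461 465) (leaf 1 460 492))))) (merge (node 431 (merge (leaf 2 428 460) (node 433 (merge (leaf 1 430 434) (leaf 2 429 464))))) (node 460 (merge (leaf 2 428 431) (node 491 (merge (leaf 1 459 492) (node 459 (merge (leaf 1 458 490) (node 458 (merge (leaf 0 458 493) (node 426 (merge (leaf 3 425 425) (leaf 3 426 427)))))))))))))) (merge (node 464 (merge (node 493 (merge (leaf 1 461 465) (node 492 (merge (leaf 1 460 461) (leaf 2 459 491))))) (merge (node 428 (merge (leaf 3 428 429) (node 460 (merge (leaf 3 427 427)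 (node 459 (merge (leaf 0 459 495) (node 491 (merge (leaf 1 458 490) (leaf 1 459 492))))))))) (node 465 (merge (leaf 1 461 493) (node 498 (merge (leaf 0 462 497) (node 466 (merge (leaf 1 462 495) (leaf 0 463 499)))))))))) (merge (node 464 (merge (node 493 (merge (leaf 1 460 492) (node 465 (merge (leaf 1 461 494) (node 433 (merge (leaf 2 429 432) (leaf 2 430 434))))))) (merge (node 492 (merge (leaf 1 460 493) (node 460 (merge (leaf 1 459 491) (node 432 (merge (leaf 2 428 431) (leaf 2 429 433))))))) (merge (node 433 (merge (leaf 2 429 432) (node 465 (merge (leaf 2 430 434) (node 498 (merge (leaf 0 462 497) (node 466 (merge (leaf 0 463 499) (node 430 (merge (leaf 3 429 429) (leaf 3 430 431))))))))))) (node 493 (merge (leaf 1 460 492) (node 465 (merge (leaf 1 461 494) (node 498 (merge (leaf 0 462 497) (node 466 (merge (leaf 0 463 499) (node 430 (merge (leaf 3 429 429) (leaf 3 430 431))))))))))))))) (merge (node 428 (merge (node 427 (merge (leaf 3 427 460) (node 429 (merge (leaf 0 426 426) (leaf 3 428 464))))) (merge (node 460 (merge (leaf 3 427 427) (node 431 (merge (leaf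 2 428 432) (node 459 (merge (leaf 2 427 430) (node 495 (merge (leaf 0 459 494) (leaf 4 431 527))))))))) (node 464 (merge (leaf 3 428 429) (node 433 (merge (leaf 2 429 432) (node 465 (merge (leaf 2 430 434) (node 498 (merge (leaf 0 462 497) (node 466 (merge (leaf 0 463 499) (node 495 (merge (leaf 1 462 494) (node 431 (merge (leaf 3 430 430) (leaf 4 431 527)))))))))))))))))) (merge (node 460 (merge (node 459 (merge (leaf 0 459 495) (node 427 (merge (leaf 3 426 426) (leaf 3 427 428))))) (merge (node 459 (merge (leaf 0 459 495) (node 491 (merge (leaf 1 458 490) (leaf 1 459 492))))) (merge (node 491 (merge (leaf 1 459 492) (node 459 (merge (leaf 1 458 490) (node 427 (merge (leaf 3 426 426) (leaf 3 427 428))))))) (node 492 (merge (leaf 1 459 491) (node 524 (merge (node 429 (merge (leaf 6 428 556) (node 428 (merge (leaf 6 396 397) (leaf 3 427 427))))) (merge (node 429 (merge (leaf 6 428 556) (node 397 (merge (leaf 4 365 365) (leaf 5 396 493))))) (node 431 (merge (leaf 2 428 432) (node 428 (merge (leaf 3 427 427) (node 495 (merge (leaf 4 431 527) (node 523 (merge (leaf 1 491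 493) (leaf 5 427 555)))))))))))))))))) (node 429 (merge (node 464 (merge (leaf 3 428 428) (node 493 (merge (leaf 1 461 465) (leaf 1 460 492))))) (merge (node 428 (merge (leaf 3 428 464) (node 427 (merge (leaf 0 426 426) (leaf 0 427 430))))) (merge (node 397 (merge (leaf 4 365 365) (node 398 (merge (node 493 (merge (leaf 6 365 366) (node 492 (merge (leaf 2 459 491) (leaf 5 396 524))))) (node 428 (merge (node 427 (merge (leaf 0 426 426) (leaf 0 427 430))) (merge (node 399 (merge (leaf 1 396 400) (node 367 (merge (leaf 6 366 430) (leaf 5 366 431))))) (node 427 (merge (leaf 0 426 426) (node 399 (merge (leaf 1 395 396) (leaf 1 396 400)))))))))))) (node 397 (merge (leaf 4 365 365) (node 430 (merge (node 493 (merge (node 492 (merge (leaf 2 459 491) (leaf 5 396 524))) (node 398 (merge (leaf 6 365 366) (node 396 (merge (leaf 7 364 364) (node 395 (merge (leaf 0 394 394) (leaf 0 395 431))))))))) (merge (node 464 (merge (leaf 3 429 465) (node 432 (merge (leaf 2 429 433) (node 431 (merge (leaf 3 396 396) (node 400 (merge (leaf 2 397 401) (node 495 (merge (leaf 5 367 368) (leaf 6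 399 527))))))))))) (node 464 (merge (leaf 3 429 465) (node 493 (merge (leaf 1 460 492) (node 398 (merge (leaf 6 365 366) (node 399 (merge (leaf 6 366 367) (node 400 (merge (leaf 1 397 401) (node 432 (merge (leaf 0 397 433) (node 368 (merge (leaf 2 365 369) (leaf 5 367 495))))))))))))))))))))))))))))))))))))) nP_228 cP_228 13 (by decide +kernel)
def nP_229 : ℕ := 0x1000000010000000000000000c0000000000000000000000000000000000000000000000000000000000000000000000000000000000000000000000000000000000000000000
def cP_229 : ℕ := 0x3a0000007f000000ef000000efe000004fc00000efe00000f3c00001f7c000001e0000000f8000000e0000000a000000000000000000000000000000000000000000000000000000000000000000000000000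
theorem lP_229 : S nP_229 cP_229 14 := S_of_chk [(nP_211, cP_211, 10)] ⟨lP_211, trivial⟩ (node 464 (merge (node 465 (merge (node 493 (merge (leaf 1 461 494) (node 461 (merge (leaf 1 460 492) (node 433 (merge (leaf 2 429 432) (leaf 2 430 434))))))) (merge (node 498 (merge (leaf 0 462 497) (node 466 (merge (leaf 0 463 499) (node 434 (merge (leaf 2 430 433) (leaf 2 431 435))))))) (node 498 (merge (leaf 0 462 497) (node 466 (merge (leaf 0 463 499) (node 494 (merge (leaf 1 461 493) (leaf 1 462 495)))))))))) (merge (node 461 (merge (node 492 (merge (leaf 1 460 493) (node 460 (merge (leaf 1 459 491) (node 428 (merge (leaf 3 427 427) (leaf 3 428 429))))))) (merge (node 493 (merge (leaf 1 460 492) (node 465 (merge (leaf 1 461 494) (node 433 (merge (leaf 2 429 432) (leaf 2 430 434))))))) (node 433 (merge (leaf 2 429 432) (node 465 (merge (leaf 2 430 434) (node 429 (merge (leaf 3 428 428) (leaf 3 429 430)))))))))) (merge (node 465 (merge (node 433 (merge (leaf 2 430 434) (node 461 (merge (leaf 2 429 432) (node 429 (merge (leaf 3 428 428) (leaf 3 429 430))))))) (merge (node 498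 (merge (leaf 0 462 497) (node 466 (merge (leaf 0 463 499) (node 494 (merge (leaf 1 461 493) (leaf 1 462 495))))))) (node 498 (merge (leaf 0 462 497) (node 466 (merge (leaf 0 463 499) (node 494 (merge (leaf 1 461 493) (leaf 1 462 495)))))))))) (merge (node 493 (merge (node 494 (merge (leaf 1 461 465) (node 492 (merge (leaf 2 459 491) (leaf 2 460 495))))) (merge (node 492 (merge (leaf 1 460 461) (node 494 (merge (leaf 2 459 491) (leaf 2 460 495))))) (merge (node 461 (merge (leaf 1 460 492) (node 429 (merge (leaf 3 428 428) (node 430 (merge (leaf 3 429 465) (node 398 (merge (leaf 5 365 366) (leaf 6 397 525))))))))) (node 430 (merge (node 429 (merge (leaf 3 429 465) (node 428 (merge (leaf 0 427 427) (leaf 3 428 461))))) (merge (node 494 (merge (leaf 1 461 465) (node 398 (merge (leaf 5 397 525) (node 495 (merge (leaf 4 366 366) (leaf 4 398 527))))))) (node 398 (merge (node 366 (merge (leaf 5 365 461) (leaf 4 366 495))) (merge (node 525 (merge (leaf 5 397 494) (node 461 (merge (leaf 6 397 429) (leaf 6 429 557))))) (node 495 (merge (leaf 4 366 366) (node 527 (merge (leaf 4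 398 494) (leaf 7 430 559))))))))))))))) (merge (node 430 (merge (node 465 (merge (leaf 3 429 429) (node 498 (merge (leaf 0 462 497) (node 466 (merge (leaf 0 463 499) (node 434 (merge (leaf 2 430 433) (leaf 2 431 435))))))))) (merge (node 398 (merge (node 495 (merge (leaf 4 366 366) (node 527 (merge (leaf 4 398 494) (leaf 7 430 559))))) (merge (node 366 (merge (leaf 4 366 495) (node 335 (merge (leaf 6 334 367) (node 334 (merge (leaf 6 302 303) (node 333 (merge (leaf 7 301 301) (leaf 7 333 365))))))))) (merge (node 494 (merge (node 495 (merge (leaf 4 398 527) (node 493 (merge (leaf 2 460 492) (leaf 5 397 525))))) (merge (node 397 (merge (leaf 7 365 365) (node 526 (merge (leaf 7 397 429) (node 527 (merge (leaf 4 398 495) (leaf 4 430 559))))))) (node 397 (merge (leaf 7 365 365) (node 526 (merge (leaf 7 397 429) (node 525 (merge (leaf 5 397 493) (leaf 5 429 557)))))))))) (node 365 (merge (node 333 (merge (leaf 7 333 366) (node 397 (merge (leaf 4 301 301) (leaf 4 333 429))))) (merge (node 366 (merge (leaf 7 333 333) (node 367 (merge (leaf 6 334 335) (node 399 (merge (leaf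 6 366 494) (node 364 (merge (leaf 0 363 363) (leaf 0 364 400))))))))) (node 494 (merge (leaf 7 365 397) (node 525 (merge (leaf 5 397 493) (node 526 (merge (leaf 5 429 557) (node 527 (merge (leaf 4 430 559) (leaf 0 525 561)))))))))))))))) (node 494 (merge (node 465 (merge (leaf 1 461 493) (node 498 (merge (leaf 0 462 497) (node 466 (merge (leaf 0 463 499) (node 434 (merge (leaf 2 430 433) (leaf 2 431 435))))))))) (node 527 (merge (node 526 (merge (leaf 4 430 559) (node 525 (merge (leaf 5 429 557) (leaf 0 525 561))))) (node 398 (merge (leaf 4 398 495) (node 367 (merge (leaf 6 366 399) (node 366 (merge (leaf 6 334 335) (node 365 (merge (leaf 7 333 333) (leaf 7 365 397)))))))))))))))) (merge (node 461 (merge (node 492 (merge (leaf 1 460 493) (node 460 (merge (leaf 1 459 491) (node 428 (merge (leaf 3 427 427) (leaf 3 428 429))))))) (merge (node 433 (merge (leaf 2 429 432) (node 465 (merge (leaf 2 430 434) (node 429 (merge (leaf 3 428 428) (leaf 3 429 430))))))) (merge (node 493 (merge (leaf 1 460 492) (node 525 (merge (node 430 (merge (leaf 6 429 557) (node 398 (merge (leaf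 5 365 366) (leaf 6 397 429))))) (merge (node 557 (merge (leaf 6 429 430) (node 558 (merge (leaf 4 461 590) (node 559 (merge (leaf 3 524 524) (node 556 (merge (leaf 2 524 527) (leaf 5 460 588))))))))) (merge (node 526 (merge (node 558 (merge (leaf 4 429 429) (node 590 (merge (leaf 4 461 557) (leaf 7 493 622))))) (node 527 (merge (leaf 0 525 561) (node 559 (merge (leaf 0 524 524) (node 432 (merge (leaf 2 429 433) (leaf 6 431 495))))))))) (node 433 (merge (leaf 2 429 432) (node 465 (merge (leaf 2 430 434) (node 429 (merge (leaf 3 429 430) (node 526 (merge (leaf 4 429 558) (node 527 (merge (leaf 0 525 561) (node 524 (merge (leaf 5 428 556) (leaf 0 524 559))))))))))))))))))) (node 527 (merge (node 433 (merge (leaf 2 429 432) (node 465 (merge (leaf 2 430 434) (node 498 (merge (leaf 0 462 497) (node 466 (merge (leaf 0 463 499) (node 562 (merge (leaf 7 433 530) (node 561 (merge (leaf 3 527 563) (node 526 (merge (leaf 0 525 525) (leaf 3 526 559))))))))))))))) (merge (node 525 (merge (node 526 (merge (leaf 0 525 561) (node 524 (merge (leaf 0 524 559) (node 556 (merge (leaf 1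 523 555) (leaf 1 524 557))))))) (merge (node 526 (merge (leaf 0 525 561) (node 492 (merge (leaf 1 460 493) (node 491 (merge (leaf 1 459 460) (leaf 3 491 524))))))) (merge (node 493 (merge (leaf 1 460 492) (node 557 (merge (leaf 6 429 430) (node 556 (merge (leaf 1 524 526) (leaf 5 460 588))))))) (node 493 (merge (leaf 1 460 492) (node 557 (merge (leaf 6 429 430) (node 558 (merge (leaf 4 461 590) (node 559 (merge (leaf 3 524 524) (node 556 (merge (leaf 2 524 527) (leaf 5 460 588))))))))))))))) (merge (node 525 (merge (node 493 (merge (leaf 1 460 492) (node 557 (merge (leaf 6 429 430) (node 556 (merge (leaf 1 524 526) (leaf 5 460 588))))))) (merge (node 561 (merge (leaf 0 525 526) (node 433 (merge (leaf 2 429 432) (node 465 (merge (leaf 2 430 434) (node 498 (merge (leaf 0 462 497) (node 466 (merge (leaf 0 463 499) (node 562 (merge (leaf 7 433 530) (leaf 3 527 563))))))))))))) (node 493 (merge (leaf 1 460 492) (node 557 (merge (leaf 6 429 430) (node 590 (merge (leaf 4 461 558) (node 589 (merge (leaf 4 493 622) (node 588 (merge (leaf 5 460 556) (leaf 5 492 620))))))))))))))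 (merge (node 525 (merge (node 493 (merge (leaf 1 460 492) (node 557 (merge (leaf 6 429 430) (node 556 (merge (leaf 1 524 526) (leaf 5 460 588))))))) (merge (node 559 (merge (node 495 (merge (leaf 7 430 430) (leaf 6 431 432))) (node 557 (merge (node 558 (merge (leaf 3 524 524) (leaf 2 524 556))) (merge (node 556 (merge (leaf 1 524 526) (leaf 2 524 558))) (merge (node 526 (merge (leaf 0 524 524) (leaf 1 524 556))) (node 524 (merge (leaf 0 524 526) (leaf 3 524 558))))))))) (merge (node 493 (merge (leaf 1 460 492) (node 557 (merge (leaf 6 429 430) (node 558 (merge (leaf 4 461 590) (node 559 (merge (leaf 3 524 524) (node 556 (merge (leaf 2 524 527) (leaf 5 460 588))))))))))) (merge (node 492 (merge (leaf 1 460 493) (node 460 (merge (leaf 1 459 491) (node 432 (merge (leaf 2 429 433) (node 559 (merge (leaf 6 431 495) (node 524 (merge (leaf 0 524 526) (node 428 (merge (leaf 3 427 427) (leaf 4 428 557))))))))))))) (node 492 (merge (leaf 1 460 493) (node 460 (merge (leaf 1 459 491) (node 427 (merge (leaf 3 427 428) (node 459 (merge (leaf 3 426 426) (node 524 (merge (leaf 7 427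 556) (node 559 (merge (leaf 0 524 526) (node 495 (merge (leaf 7 430 430) (leaf 6 431 432)))))))))))))))))))) (node 559 (merge (node 495 (merge (leaf 7 430 430) (leaf 6 431 432))) (merge (node 492 (merge (leaf 1 460 493) (node 460 (merge (leaf 1 459 491) (node 495 (merge (leaf 7 430 430) (node 427 (merge (leaf 3 427 428) (node 459 (merge (leaf 3 426 426) (node 556 (merge (leaf 7 427 524) (node 558 (merge (leaf 2 524 557) (leaf 5 462 590))))))))))))))) (node 433 (merge (leaf 2 429 432) (node 465 (merge (leaf 2 430 434) (node 498 (merge (leaf 0 462 497) (node 466 (merge (leaf 0 463 499) (node 562 (merge (leaf 7 433 530) (node 561 (merge (leaf 3 527 563) (node 594 (merge (leaf 0 559 595) (node 558 (merge (leaf 0 558 593) (node 590 (merge (leaf 1 557 589) (leaf 1 558 591))))))))))))))))))))))))))))))) (merge (hyp 0) (node 527 (merge (node 430 (merge (node 495 (merge (leaf 7 430 559) (node 398 (merge (leaf 4 366 366) (leaf 4 398 494))))) (node 429 (merge (leaf 3 429 465) (node 428 (merge (leaf 0 427 427) (leaf 3 428 461))))))) (merge (node 559 (merge (node 495 (merge (leaf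 7 430 430) (leaf 6 431 432))) (merge (node 526 (merge (node 525 (merge (leaf 0 524 524) (leaf 0 525 561))) (node 494 (merge (leaf 4 430 430) (node 591 (merge (leaf 4 462 558) (leaf 7 494 623))))))) (node 495 (merge (leaf 6 431 432) (node 591 (merge (leaf 7 462 494) (node 590 (merge (leaf 5 462 558) (leaf 5 494 622)))))))))) (merge (node 559 (merge (node 495 (merge (leaf 7 430 430) (leaf 6 431 432))) (merge (node 430 (merge (leaf 7 430 495) (node 429 (merge (leaf 3 429 465) (node 428 (merge (leaf 0 427 427) (leaf 3 428 461))))))) (merge (node 432 (merge (leaf 6 431 495) (node 433 (merge (leaf 2 429 461) (node 434 (merge (leaf 1 431 435) (leaf 2 430 465))))))) (node 465 (merge (node 433 (merge (leaf 2 430 434) (node 461 (merge (leaf 2 429 432) (node 429 (merge (leaf 3 428 428) (leaf 3 429 430))))))) (merge (node 498 (merge (leaf 0 462 497) (node 466 (merge (leaf 0 463 499) (node 435 (merge (leaf 2 431 434) (node 467 (merge (leaf 2 432 436) (node 562 (merge (leaf 6 434 530) (node 561 (merge (leaf 3 527 563) (node 594 (merge (leaf 0 559 595) (node 558 (merge (leaf 0 558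 593) (node 590 (merge (leaf 1 557 589) (leaf 1 558 591))))))))))))))))))) (node 433 (merge (node 461 (merge (leaf 2 429 432) (node 429 (merge (leaf 3 428 428) (leaf 3 429 430))))) (merge (node 498 (merge (leaf 0 462 497) (node 466 (merge (leaf 0 463 499) (node 562 (merge (leaf 7 433 530) (node 561 (merge (leaf 3 527 563) (node 594 (merge (leaf 0 559 595) (node 558 (merge (leaf 0 558 593) (node 590 (merge (leaf 1 557 589) (leaf 1 558 591))))))))))))))) (node 498 (merge (leaf 0 462 497) (node 466 (merge (leaf 0 463 499) (node 562 (merge (leaf 7 433 530) (node 561 (merge (leaf 3 527 563) (node 594 (merge (leaf 0 559 595) (node 558 (merge (leaf 0 558 593) (node 590 (merge (leaf 1 557 589) (leaf 1 558 591))))))))))))))))))))))))) (merge (node 526 (merge (node 525 (merge (leaf 0 525 561) (node 557 (merge (leaf 1 524 556) (node 494 (merge (leaf 5 429 430) (node 589 (merge (leaf 5 461 558) (leaf 6 493 621))))))))) (merge (node 429 (merge (node 461 (merge (leaf 3 428 428) (node 494 (merge (leaf 7 429 558) (node 397 (merge (leaf 4 365 365) (leaf 7 397 430))))))) (merge (node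 465 (merge (leaf 3 429 430) (node 498 (merge (leaf 0 462 497) (node 466 (merge (leaf 0 463 499) (node 434 (merge (leaf 2 430 433) (leaf 2 431 435))))))))) (node 461 (merge (leaf 3 428 428) (node 494 (merge (leaf 7 429 558) (node 433 (merge (leaf 2 429 432) (node 465 (merge (leaf 2 430 434) (node 498 (merge (leaf 0 462 497) (node 466 (merge (leaf 1 462 495) (leaf 0 463 499)))))))))))))))) (node 433 (merge (node 432 (merge (leaf 2 429 461) (node 434 (merge (leaf 1 431 435) (leaf 2 430 465))))) (merge (node 561 (merge (leaf 0 525 525) (node 465 (merge (leaf 2 430 434) (node 498 (merge (leaf 0 462 497) (node 466 (merge (leaf 0 463 499) (node 562 (merge (leaf 7 433 530) (leaf 3 527 563))))))))))) (node 525 (merge (leaf 0 525 561) (node 556 (merge (leaf 1 524 557) (node 524 (merge (leaf 1 523 555) (node 461 (merge (leaf 2 429 432) (node 429 (merge (leaf 3 428 428) (node 492 (merge (leaf 6 428 460) (leaf 3 491 491))))))))))))))))))) (merge (node 526 (merge (node 525 (merge (leaf 0 525 561) (node 524 (merge (leaf 0 524 559) (node 556 (merge (leaf 1 523 555) (leaf 1 524 557)))))))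 (merge (node 525 (merge (leaf 0 525 561) (node 557 (merge (leaf 1 524 556) (node 494 (merge (leaf 5 429 430) (node 589 (merge (leaf 5 461 558) (leaf 6 493 621))))))))) (merge (node 525 (merge (node 557 (merge (leaf 1 524 556) (node 494 (merge (leaf 5 429 430) (node 589 (merge (leaf 5 461 558) (leaf 6 493 621))))))) (merge (node 524 (merge (leaf 0 524 559) (node 555 (merge (leaf 1 523 556) (node 523 (merge (leaf 1 522 554) (node 491 (merge (leaf 3 490 490) (leaf 3 491 492))))))))) (node 524 (merge (leaf 0 524 559) (node 491 (merge (leaf 3 491 492) (node 523 (merge (leaf 3 490 490) (node 554 (merge (leaf 1 522 555) (node 522 (merge (leaf 1 521 553) (node 557 (merge (leaf 0 522 558) (node 427 (merge (leaf 5 426 459) (node 430 (merge (leaf 5 429 494) (node 429 (merge (leaf 0 427 428) (leaf 3 429 465)))))))))))))))))))))) (node 429 (merge (node 430 (merge (leaf 3 429 465) (node 494 (merge (leaf 7 397 397) (leaf 4 430 559))))) (merge (node 461 (merge (leaf 3 428 428) (node 494 (merge (leaf 7 429 558) (node 397 (merge (leaf 4 365 365) (leaf 7 397 430))))))) (node 461 (merge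 (leaf 3 428 428) (node 433 (merge (leaf 2 429 432) (node 465 (merge (leaf 2 430 434) (node 498 (merge (leaf 0 462 497) (node 466 (merge (leaf 0 463 499) (node 562 (merge (leaf 7 433 530) (node 561 (merge (leaf 3 526 559) (leaf 3 527 563)))))))))))))))))))))) (node 559 (merge (node 432 (merge (leaf 6 431 495) (node 433 (merge (leaf 2 429 461) (node 434 (merge (leaf 1 431 435) (leaf 2 430 465))))))) (node 561 (merge (node 562 (merge (leaf 3 526 526) (leaf 3 527 563))) (merge (node 562 (merge (leaf 3 527 563) (node 594 (merge (leaf 0 559 595) (node 558 (merge (leaf 0 558 593) (node 590 (merge (leaf 1 557 589) (leaf 1 558 591))))))))) (node 558 (merge (node 589 (merge (leaf 1 557 590) (node 557 (merge (leaf 2 524 556) (leaf 1 556 588))))) (merge (node 525 (merge (leaf 3 525 526) (node 557 (merge (leaf 3 524 524) (leaf 2 524 556))))) (node 526 (merge (leaf 0 525 525) (node 593 (merge (leaf 0 558 594) (node 590 (merge (leaf 1 557 589) (node 625 (merge (leaf 7 528 657) (node 591 (merge (leaf 4 462 494) (node 623 (merge (leaf 6 527 655) (node 624 (merge (leaf 3 590 626) (leaf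 4 527 656))))))))))))))))))))))))))))))))))))) nP_229 cP_229 14 (by decide +kernel)
def nP_230 : ℕ := 0x1000000010000000000000000c0000000000000000000000000000000000000000000000000000000000000000000000000000000000000000000000000000000000000000000
def cP_230 : ℕ := 0xa0000000e4000000fc000000fc00000efe000004fc00001efe00001f3c00003ffc000000bc000000b0000000000000000000000000000000000000000000000000000000000000000000000000000000000000000000
theorem lP_230 : S nP_230 cP_230 12 := S_of_chk [] trivial (node 526 (merge (node 431 (merge (node 494 (merge (leaf 6 430 558) (node 399 (merge (leaf 5 366 367) (leaf 6 398 430))))) (node 527 (merge (leaf 4 431 495) (node 561 (merge (leaf 0 525 525) (node 562 (merge (leaf 3 526 559) (leaf 3 527 563))))))))) (merge (node 527 (merge (node 561 (merge (leaf 0 525 525) (node 562 (merge (leaf 3 526 559) (leaf 3 527 563))))) (merge (node 525 (merge (leaf 0 525 561) (node 556 (merge (leaf 1 524 557) (node 524 (merge (leaf 1 523 555) (node 492 (merge (leaf 3 491 491) (leaf 3 492 493))))))))) (node 495 (merge (leaf 4 431 431) (node 559 (merge (leaf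 7 430 430) (node 464 (merge (leaf 6 431 432) (node 494 (merge (leaf 7 462 591) (node 493 (merge (leaf 1 461 465) (leaf 0 492 492)))))))))))))) (merge (node 494 (merge (node 431 (merge (leaf 6 430 558) (node 399 (merge (leaf 5 366 367) (leaf 6 398 430))))) (merge (node 558 (merge (leaf 6 430 431) (node 461 (merge (leaf 7 429 429) (node 590 (merge (leaf 7 461 493) (node 589 (merge (leaf 5 461 557) (leaf 5 493 621))))))))) (merge (node 430 (merge (node 525 (merge (leaf 5 429 557) (node 527 (merge (leaf 4 430 559) (leaf 0 525 561))))) (merge (node 429 (merge (leaf 7 397 397) (node 558 (merge (leaf 7 429 461) (node 559 (merge (leaf 4 430 527) (leaf 4 462 591))))))) (node 429 (merge (leaf 7 397 397) (node 558 (merge (leaf 7 429 461) (node 557 (merge (leaf 5 429 525) (leaf 5 461 589)))))))))) (node 430 (merge (node 525 (merge (leaf 5 429 557) (node 527 (merge (leaf 4 430 559) (leaf 0 525 561))))) (node 431 (merge (leaf 6 398 399) (node 429 (merge (leaf 7 397 397) (node 464 (merge (leaf 0 428 428) (leaf 3 429 465))))))))))))) (merge (node 494 (merge (node 431 (merge (leaf 6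 430 558) (node 495 (merge (leaf 5 398 399) (leaf 4 431 527))))) (merge (node 558 (merge (leaf 6 430 431) (node 461 (merge (leaf 7 429 429) (node 590 (merge (leaf 7 461 493) (node 589 (merge (leaf 5 461 557) (leaf 5 493 621))))))))) (merge (node 464 (merge (node 465 (merge (leaf 1 461 493) (node 498 (merge (leaf 0 462 497) (node 466 (merge (leaf 1 462 495) (leaf 0 463 499))))))) (merge (node 461 (merge (node 493 (merge (leaf 1 460 492) (node 429 (merge (leaf 3 428 428) (node 397 (merge (leaf 4 365 365) (leaf 4 397 526))))))) (merge (node 492 (merge (leaf 1 460 493) (node 460 (merge (leaf 1 459 491) (node 432 (merge (leaf 2 428 431) (leaf 2 429 433))))))) (node 432 (merge (leaf 2 429 433) (node 460 (merge (leaf 2 428 431) (node 428 (merge (leaf 3 427 427) (leaf 3 428 429)))))))))) (node 461 (merge (node 432 (merge (leaf 2 429 433) (node 460 (merge (leaf 2 428 431) (node 428 (merge (leaf 3 427 427) (leaf 3 428 429))))))) (merge (node 432 (merge (leaf 2 429 433) (node 460 (merge (leaf 2 428 431) (node 459 (merge (leaf 0 459 495) (node 491 (merge (leaf 1 458 490) (leaf 1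 459 492))))))))) (merge (node 428 (merge (leaf 3 428 429) (node 460 (merge (leaf 3 427 427) (node 459 (merge (leaf 0 459 495) (node 491 (merge (leaf 1 458 490) (leaf 1 459 492))))))))) (node 433 (merge (leaf 2 429 432) (node 465 (merge (leaf 2 430 434) (node 498 (merge (leaf 0 462 497) (node 466 (merge (leaf 1 462 495) (leaf 0 463 499)))))))))))))))) (node 464 (merge (node 493 (merge (leaf 1 461 465) (node 492 (merge (leaf 1 460 461) (leaf 2 459 491))))) (merge (node 465 (merge (leaf 1 461 493) (node 498 (merge (leaf 0 462 497) (node 466 (merge (leaf 1 462 495) (leaf 0 463 499))))))) (merge (node 465 (merge (node 498 (merge (leaf 0 462 497) (node 466 (merge (leaf 1 462 495) (leaf 0 463 499))))) (merge (node 498 (merge (leaf 0 462 497) (node 466 (merge (leaf 0 463 499) (node 434 (merge (leaf 2 430 433) (leaf 2 431 435))))))) (node 433 (merge (leaf 2 430 434) (node 461 (merge (leaf 2 429 432) (node 428 (merge (leaf 3 428 429) (node 460 (merge (leaf 3 427 427) (node 459 (merge (leaf 0 459 495) (node 491 (merge (leaf 1 458 490) (leaf 1 459 492)))))))))))))))) (node 461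 (merge (node 429 (merge (leaf 3 428 428) (node 526 (merge (leaf 7 429 558) (node 397 (merge (leaf 4 365 365) (leaf 4 397 493))))))) (merge (node 460 (merge (node 492 (merge (leaf 1 459 491) (leaf 1 460 493))) (merge (node 459 (merge (leaf 0 459 495) (node 493 (merge (leaf 0 458 458) (leaf 1 460 492))))) (merge (node 459 (merge (leaf 0 459 495) (node 491 (merge (leaf 1 458 490) (leaf 1 459 492))))) (node 459 (merge (leaf 0 459 495) (node 458 (merge (leaf 0 458 493) (node 490 (merge (leaf 1 457 489) (leaf 1 458 491))))))))))) (node 428 (merge (leaf 3 428 429) (node 460 (merge (leaf 3 427 427) (node 459 (merge (leaf 0 459 495) (node 491 (merge (leaf 1 458 490) (leaf 1 459 492)))))))))))))))))))) (merge (node 494 (merge (node 431 (merge (leaf 6 430 558) (node 399 (merge (leaf 5 366 367) (leaf 6 398 430))))) (merge (node 558 (merge (node 590 (merge (leaf 6 462 495) (node 461 (merge (leaf 7 429 429) (leaf 7 461 493))))) (merge (node 590 (merge (leaf 6 462 495) (node 589 (merge (leaf 5 461 557) (leaf 5 493 621))))) (node 429 (merge (leaf 7 429 461) (node 430 (merge (leaf 7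 397 397) (node 557 (merge (leaf 5 429 525) (leaf 5 461 589)))))))))) (node 464 (merge (node 465 (merge (leaf 1 461 493) (node 498 (merge (leaf 0 462 497) (node 466 (merge (leaf 1 462 495) (leaf 0 463 499))))))) (merge (node 461 (merge (node 493 (merge (leaf 1 460 492) (node 429 (merge (leaf 3 428 428) (node 397 (merge (leaf 4 365 365) (leaf 4 397 526))))))) (merge (node 492 (merge (leaf 1 460 493) (node 460 (merge (leaf 1 459 491) (node 432 (merge (leaf 2 428 431) (leaf 2 429 433))))))) (node 432 (merge (leaf 2 429 433) (node 460 (merge (leaf 2 428 431) (node 428 (merge (leaf 3 427 427) (leaf 3 428 429)))))))))) (node 461 (merge (node 432 (merge (leaf 2 429 433) (node 460 (merge (leaf 2 428 431) (node 428 (merge (leaf 3 427 427) (leaf 3 428 429))))))) (merge (node 432 (merge (leaf 2 429 433) (node 460 (merge (leaf 2 428 431) (node 459 (merge (leaf 0 459 495) (node 491 (merge (leaf 1 458 490) (leaf 1 459 492))))))))) (merge (node 428 (merge (leaf 3 428 429) (node 460 (merge (leaf 3 427 427) (node 459 (merge (leaf 0 459 495) (node 491 (merge (leaf 1 458 490) (leaf 1 459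 492))))))))) (node 433 (merge (leaf 2 429 432) (node 465 (merge (leaf 2 430 434) (node 498 (merge (leaf 0 462 497) (node 466 (merge (leaf 1 462 495) (leaf 0 463 499))))))))))))))))))) (merge (node 464 (merge (node 527 (merge (node 495 (merge (leaf 4 431 431) (node 559 (merge (leaf 7 430 430) (leaf 6 431 432))))) (node 525 (merge (leaf 0 525 561) (node 556 (merge (leaf 1 524 557) (node 524 (merge (leaf 1 523 555) (node 492 (merge (leaf 3 491 491) (leaf 3 492 493))))))))))) (merge (node 527 (merge (node 495 (merge (leaf 4 431 431) (node 430 (merge (leaf 7 430 559) (node 429 (merge (leaf 3 429 465) (node 428 (merge (leaf 0 427 427) (leaf 3 428 461))))))))) (node 525 (merge (leaf 0 525 561) (node 556 (merge (leaf 1 524 557) (node 524 (merge (leaf 1 523 555) (node 492 (merge (leaf 3 491 491) (leaf 3 492 493))))))))))) (merge (node 465 (merge (node 498 (merge (leaf 0 462 497) (node 466 (merge (leaf 0 463 499) (node 434 (merge (leaf 2 430 433) (leaf 2 431 435))))))) (merge (node 433 (merge (leaf 2 430 434) (node 461 (merge (leaf 2 429 432) (node 429 (merge (leaf 3 428 428)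 (leaf 3 429 430))))))) (node 429 (merge (leaf 3 429 430) (node 461 (merge (leaf 3 428 428) (node 493 (merge (leaf 1 460 492) (node 525 (merge (leaf 4 429 558) (node 527 (merge (leaf 0 525 561) (node 524 (merge (leaf 5 428 556) (leaf 0 524 559)))))))))))))))) (merge (node 527 (merge (node 561 (merge (leaf 0 525 525) (node 562 (merge (leaf 3 526 559) (leaf 3 527 563))))) (merge (node 495 (merge (leaf 4 431 431) (node 432 (merge (leaf 6 431 559) (node 433 (merge (leaf 2 429 461) (node 434 (merge (leaf 1 431 435) (leaf 2 430 465))))))))) (node 433 (merge (node 432 (merge (leaf 2 429 461) (node 434 (merge (leaf 1 430 431) (leaf 1 431 435))))) (merge (node 561 (merge (leaf 0 525 525) (node 465 (merge (leaf 2 430 434) (node 498 (merge (leaf 0 462 497) (node 466 (merge (leaf 0 463 499) (node 562 (merge (leaf 7 433 530) (leaf 3 527 563))))))))))) (node 525 (merge (leaf 0 525 561) (node 556 (merge (leaf 1 524 557) (node 524 (merge (leaf 1 523 555) (node 461 (merge (leaf 2 429 432) (node 429 (merge (leaf 3 428 428) (node 492 (merge (leaf 6 428 460) (leaf 3 491 491)))))))))))))))))))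 (node 465 (merge (node 498 (merge (leaf 0 462 497) (node 466 (merge (leaf 0 463 499) (node 430 (merge (leaf 3 429 429) (leaf 3 430 431))))))) (merge (node 433 (merge (leaf 2 430 434) (node 461 (merge (leaf 2 429 432) (node 429 (merge (leaf 3 428 428) (leaf 3 429 430))))))) (node 466 (merge (node 499 (merge (leaf 0 463 498) (node 467 (merge (leaf 0 464 500) (node 435 (merge (leaf 2 431 434) (leaf 2 432 436))))))) (merge (node 498 (merge (leaf 0 463 499) (node 462 (merge (leaf 0 462 497) (node 434 (merge (leaf 2 430 433) (leaf 2 431 435))))))) (merge (node 467 (merge (node 435 (merge (leaf 2 431 434) (leaf 2 432 436))) (merge (node 432 (merge (leaf 3 431 431) (node 433 (merge (leaf 3 432 468) (node 462 (merge (leaf 2 430 434) (leaf 2 429 461))))))) (node 436 (merge (leaf 2 432 435) (node 468 (merge (leaf 2 433 437) (node 432 (merge (leaf 3 431 431) (leaf 3 432 433)))))))))) (merge (node 499 (merge (leaf 0 463 498) (node 467 (merge (leaf 0 464 500) (node 436 (merge (leaf 2 432 435) (node 468 (merge (leaf 2 433 437) (node 432 (merge (leaf 3 431 431) (leaf 3 432 433)))))))))))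 (node 498 (merge (leaf 0 463 499) (node 462 (merge (leaf 0 462 497) (node 433 (merge (leaf 2 430 434) (node 432 (merge (leaf 2 429 461) (node 467 (merge (leaf 3 431 431) (leaf 3 432 468)))))))))))))))))))))))) (node 525 (merge (node 527 (merge (leaf 0 525 561) (node 524 (merge (leaf 0 524 559) (node 492 (merge (leaf 3 491 491) (leaf 3 492 493))))))) (merge (node 527 (merge (leaf 0 525 561) (node 524 (merge (leaf 0 524 559) (node 556 (merge (leaf 1 523 555) (leaf 1 524 557))))))) (merge (node 527 (merge (leaf 0 525 561) (node 557 (merge (leaf 1 524 556) (node 493 (merge (leaf 3 492 492) (node 430 (merge (leaf 6 429 461) (leaf 5 429 494))))))))) (merge (node 558 (merge (node 559 (merge (leaf 3 525 561) (node 524 (merge (leaf 0 523 523) (leaf 3 524 557))))) (merge (node 590 (merge (node 493 (merge (leaf 7 493 622) (node 461 (merge (leaf 4 429 429) (leaf 7 461 494))))) (merge (node 622 (merge (leaf 7 493 493) (node 654 (merge (leaf 7 525 557) (node 653 (merge (leaf 5 525 621) (leaf 5 557 685))))))) (merge (node 494 (merge (node 461 (merge (leaf 7 429 429) (leaf 7 461 493)))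 (node 589 (merge (leaf 5 461 557) (leaf 5 493 621))))) (node 623 (merge (node 494 (merge (leaf 4 494 591) (node 589 (merge (leaf 5 461 557) (leaf 5 493 621))))) (merge (node 591 (merge (leaf 4 494 494) (node 655 (merge (leaf 4 526 622) (leaf 7 558 687))))) (node 622 (merge (leaf 4 526 655) (node 654 (merge (leaf 7 525 557) (node 653 (merge (leaf 5 525 621) (leaf 5 557 685)))))))))))))) (node 590 (merge (node 622 (merge (leaf 7 493 493) (node 655 (merge (leaf 4 526 623) (node 654 (merge (leaf 4 558 687) (node 653 (merge (leaf 5 525 621) (leaf 5 557 685))))))))) (merge (node 559 (merge (leaf 3 525 561) (node 494 (merge (leaf 4 462 591) (node 461 (merge (leaf 7 429 429) (leaf 7 461 493))))))) (node 589 (merge (node 559 (merge (leaf 1 557 561) (node 588 (merge (leaf 2 555 587) (leaf 2 556 591))))) (node 621 (merge (leaf 5 493 494) (node 653 (merge (leaf 5 525 622) (leaf 6 557 685))))))))))))) (node 524 (merge (node 527 (merge (leaf 0 524 559) (node 492 (merge (leaf 3 491 491) (leaf 3 492 493))))) (merge (node 559 (merge (leaf 0 524 527) (node 558 (merge (leaf 0 523 523)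 (leaf 3 524 557))))) (node 523 (merge (node 494 (merge (leaf 2 491 495) (node 522 (merge (leaf 2 490 493) (node 490 (merge (leaf 3 489 489) (leaf 3 490 491))))))) (merge (node 554 (merge (leaf 1 522 555) (node 522 (merge (leaf 1 521 553) (node 494 (merge (leaf 2 490 493) (leaf 2 491 495))))))) (node 491 (merge (leaf 3 490 490) (node 459 (merge (node 556 (merge (leaf 4 427 427) (node 588 (merge (leaf 7 459 492) (leaf 7 491 620))))) (merge (node 555 (merge (leaf 1 522 554) (node 556 (merge (leaf 4 427 427) (leaf 4 459 588))))) (merge (node 555 (merge (leaf 1 522 554) (node 426 (merge (leaf 7 426 458) (node 427 (merge (leaf 7 394 394) (node 396 (merge (leaf 6 395 428) (node 395 (merge (leaf 6 363 364) (leaf 4 395 492))))))))))) (node 555 (merge (leaf 1 522 554) (node 588 (merge (leaf 4 459 556) (node 587 (merge (leaf 4 491 620) (node 619 (merge (leaf 6 491 492) (node 618 (merge (leaf 5 490 586) (leaf 5 522 650))))))))))))))))))))))))))))))))))) nP_230 cP_230 12 (by decide +kernel)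
def nP_231 : ℕ := 0x100000001000000000000000080000000000000000000000000000000000000000000000000000000000000000000000000000000000000000000000000000000000000000000
def cP_231 : ℕ := 0xa0000003f4000007fc00000efc00000efe00000cfc00001efe00001f7e00003ffe000007fc000003f8000003f0000000f0000000c0000000800000000000000000000000000000000000000000000000000000000000
theorem lP_231 : S nP_231 cP_231 16 := S_of_chk [(nP_192, cP_192, 10), (nP_221, cP_221, 10), (nP_222, cP_222, 14), (nP_223, cP_223, 11), (nP_224, cP_224, 14), (nP_225, cP_225, 10), (nP_226, cP_226, 11), (nP_227, cP_227, 15), (nP_228, cP_228, 13), (nP_229, cP_229, 14), (nP_230, cP_230, 12)] ⟨lP_192, lP_221, lP_222, lP_223, lP_224, lP_225, lP_226, lP_227, lP_228, lP_229, lP_230, trivial⟩ (node 462 (merge (node 527 (merge (node 495 (merge (leaf 4 431 431) (node 430 (merge (leaf 7 430 559) (node 398 (merge (leaf 4 366 366) (leaf 4 398 494))))))) (merge (node 495 (merge (leaf 4 431 431) (node 559 (merge (leaf 7 430 430) (node 558 (merge (leaf 5 462 590) (node 557 (merge (leaf 2 524 556) (node 525 (merge (leaf 3 524 524) (node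 561 (merge (leaf 0 525 526) (node 594 (merge (leaf 0 558 593) (node 562 (merge (leaf 3 527 563) (leaf 0 559 595))))))))))))))))) (merge (node 559 (merge (node 430 (merge (leaf 7 430 495) (node 526 (merge (leaf 4 430 494) (node 525 (merge (leaf 0 524 524) (leaf 0 525 561))))))) (merge (node 495 (merge (leaf 7 430 430) (node 590 (merge (leaf 5 462 558) (node 591 (merge (leaf 7 462 494) (leaf 5 494 622))))))) (merge (node 526 (merge (node 525 (merge (leaf 0 524 524) (leaf 0 525 561))) (node 494 (merge (leaf 4 430 430) (node 591 (merge (leaf 4 462 558) (leaf 7 494 623))))))) (merge (node 561 (merge (node 562 (merge (leaf 3 527 563) (node 526 (merge (leaf 0 525 525) (leaf 3 526 559))))) (merge (node 495 (merge (leaf 7 430 430) (node 562 (merge (leaf 3 527 563) (node 590 (merge (leaf 5 462 558) (leaf 1 558 591))))))) (node 525 (merge (leaf 0 525 526) (node 495 (merge (leaf 7 430 430) (node 558 (merge (leaf 5 462 590) (node 557 (merge (leaf 3 524 524) (leaf 2 524 556)))))))))))) (node 558 (merge (node 590 (merge (leaf 5 462 495) (node 561 (merge (leaf 1 557 589) (node 562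 (merge (leaf 3 526 526) (leaf 1 558 591))))))) (merge (node 590 (merge (leaf 5 462 495) (node 589 (merge (leaf 1 557 561) (node 557 (merge (leaf 2 524 556) (leaf 1 556 588))))))) (merge (node 557 (merge (leaf 2 524 556) (node 589 (merge (leaf 1 556 588) (node 494 (merge (leaf 5 461 526) (node 495 (merge (leaf 5 462 590) (leaf 7 462 591))))))))) (node 557 (merge (leaf 2 524 556) (node 525 (merge (leaf 3 524 524) (node 561 (merge (leaf 0 525 526) (node 594 (merge (leaf 0 558 593) (node 562 (merge (leaf 3 527 563) (leaf 0 559 595)))))))))))))))))))) (merge (node 559 (merge (node 495 (merge (leaf 4 431 431) (node 591 (merge (leaf 7 462 494) (node 623 (merge (leaf 6 527 655) (node 622 (merge (leaf 5 494 590) (leaf 5 526 654))))))))) (merge (node 495 (merge (leaf 4 431 431) (node 558 (merge (leaf 5 462 590) (node 557 (merge (leaf 2 524 556) (node 525 (merge (leaf 3 524 524) (node 561 (merge (leaf 0 525 526) (node 594 (merge (leaf 0 558 593) (node 562 (merge (leaf 3 527 563) (leaf 0 559 595))))))))))))))) (merge (node 558 (merge (node 590 (merge (leaf 5 462 495) (node 561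 (merge (leaf 1 557 589) (node 562 (merge (leaf 3 526 526) (leaf 1 558 591))))))) (merge (node 557 (merge (leaf 2 524 556) (node 525 (merge (leaf 3 524 524) (node 561 (merge (leaf 0 525 526) (node 594 (merge (leaf 0 558 593) (node 562 (merge (leaf 3 527 563) (leaf 0 559 595))))))))))) (node 557 (merge (leaf 2 524 556) (node 525 (merge (leaf 3 524 524) (node 590 (merge (leaf 5 462 495) (node 622 (merge (leaf 6 526 654) (node 493 (merge (leaf 4 461 461) (leaf 4 493 589)))))))))))))) (merge (node 558 (merge (node 431 (merge (leaf 4 431 495) (node 526 (merge (leaf 6 430 494) (node 525 (merge (leaf 0 524 524) (leaf 0 525 561))))))) (merge (node 557 (merge (leaf 2 524 556) (node 589 (merge (leaf 1 556 588) (node 495 (merge (leaf 4 431 431) (node 494 (merge (leaf 5 461 526) (leaf 7 462 591))))))))) (merge (node 557 (merge (leaf 2 524 556) (node 589 (merge (leaf 1 556 588) (node 525 (merge (leaf 3 524 524) (node 526 (merge (leaf 5 461 494) (leaf 0 525 561))))))))) (merge (node 557 (merge (leaf 2 524 556) (node 589 (merge (leaf 1 556 588) (node 525 (merge (leaf 3 524 524) (node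 494 (merge (leaf 6 461 493) (node 495 (merge (leaf 4 431 431) (leaf 7 462 591))))))))))) (node 557 (merge (leaf 2 524 556) (node 525 (merge (leaf 3 524 524) (node 561 (merge (leaf 0 525 526) (node 594 (merge (leaf 0 558 593) (node 562 (merge (leaf 3 527 563) (leaf 0 559 595)))))))))))))))) (node 558 (merge (node 526 (merge (node 525 (merge (leaf 0 524 524) (leaf 3 525 561))) (node 494 (merge (leaf 6 430 431) (leaf 4 462 591))))) (merge (node 557 (merge (leaf 2 524 556) (node 589 (merge (leaf 1 556 588) (node 561 (merge (leaf 1 557 590) (node 562 (merge (leaf 3 526 526) (leaf 3 527 563))))))))) (merge (node 557 (merge (leaf 2 524 556) (node 589 (merge (leaf 1 556 588) (node 525 (merge (leaf 3 524 524) (node 494 (merge (leaf 6 461 493) (leaf 5 461 526))))))))) (node 557 (merge (leaf 2 524 556) (node 589 (merge (leaf 1 556 588) (node 590 (merge (leaf 1 557 561) (node 525 (merge (leaf 3 524 524) (node 493 (merge (leaf 6 461 494) (leaf 4 493 622)))))))))))))))))))) (merge (node 526 (merge (node 561 (merge (leaf 0 525 525) (node 562 (merge (leaf 3 526 559) (leaf 3 527 563)))))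 (merge (node 525 (merge (leaf 0 525 561) (node 557 (merge (leaf 1 524 556) (node 494 (merge (leaf 5 429 430) (node 558 (merge (leaf 6 430 431) (leaf 5 461 589))))))))) (node 494 (merge (node 431 (merge (leaf 6 430 558) (node 399 (merge (leaf 5 366 367) (leaf 6 398 430))))) (merge (node 559 (merge (leaf 4 430 430) (node 591 (merge (leaf 4 462 558) (leaf 7 494 623))))) (merge (node 558 (merge (leaf 6 430 431) (node 559 (merge (leaf 4 462 591) (node 557 (merge (leaf 2 524 556) (leaf 5 461 589))))))) (node 430 (merge (leaf 4 430 559) (node 399 (merge (leaf 6 398 431) (node 398 (merge (leaf 6 366 367) (node 397 (merge (leaf 7 365 365) (leaf 7 397 429)))))))))))))))) (node 431 (merge (leaf 4 431 495) (node 461 (merge (node 432 (merge (leaf 2 428 460) (node 433 (merge (leaf 1 430 434) (leaf 2 429 464))))) (node 526 (merge (node 494 (merge (leaf 6 430 558) (node 399 (merge (leaf 5 366 367) (leaf 6 398 430))))) (merge (node 525 (merge (leaf 0 525 561) (node 557 (merge (leaf 1 524 556) (node 493 (merge (leaf 6 429 430) (node 558 (merge (leaf 4 429 429) (leaf 4 461 590)))))))))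 (merge (node 525 (merge (leaf 0 525 561) (node 557 (merge (leaf 1 524 556) (node 494 (merge (leaf 5 429 430) (node 589 (merge (leaf 6 461 493) (leaf 6 493 621))))))))) (node 494 (merge (leaf 6 430 558) (node 525 (merge (leaf 0 525 561) (node 557 (merge (leaf 1 524 556) (node 589 (merge (leaf 6 461 493) (leaf 6 493 621))))))))))))))))))))))) (merge (hyp 0) (merge (hyp 1) (merge (node 461 (merge (node 460 (merge (node 431 (merge (leaf 2 428 432) (node 459 (merge (leaf 2 427 430) (node 427 (merge (leaf 3 426 426) (leaf 3 427 428))))))) (merge (node 492 (merge (leaf 1 459 491) (node 464 (merge (leaf 1 460 493) (node 432 (merge (leaf 2 428 431) (leaf 2 429 433))))))) (node 491 (merge (leaf 1 459 492) (node 459 (merge (leaf 1 458 490) (node 427 (merge (leaf 3 426 426) (leaf 3 427 428)))))))))) (merge (node 460 (merge (node 492 (merge (leaf 1 459 491) (node 464 (merge (leaf 1 460 493) (node 432 (merge (leaf 2 428 431) (leaf 2 429 433))))))) (merge (node 491 (merge (leaf 1 459 492) (node 459 (merge (leaf 1 458 490) (node 427 (merge (leaf 3 426 426) (leaf 3 427 428))))))) (node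 432 (merge (leaf 2 428 431) (node 464 (merge (leaf 2 429 433) (node 428 (merge (leaf 3 427 427) (leaf 3 428 429)))))))))) (merge (node 464 (merge (node 493 (merge (leaf 1 460 492) (node 465 (merge (leaf 1 461 494) (node 433 (merge (leaf 2 429 432) (leaf 2 430 434))))))) (merge (node 432 (merge (leaf 2 429 433) (node 460 (merge (leaf 2 428 431) (node 428 (merge (leaf 3 427 427) (leaf 3 428 429))))))) (node 493 (merge (leaf 1 460 492) (node 465 (merge (leaf 1 461 494) (node 429 (merge (leaf 3 428 428) (leaf 3 429 430)))))))))) (merge (node 464 (merge (node 493 (merge (leaf 1 460 492) (node 465 (merge (leaf 1 461 494) (node 433 (merge (leaf 2 429 432) (leaf 2 430 434))))))) (merge (node 492 (merge (leaf 1 460 493) (node 460 (merge (leaf 1 459 491) (node 432 (merge (leaf 2 428 431) (leaf 2 429 433))))))) (merge (node 433 (merge (leaf 2 429 432) (node 465 (merge (leaf 2 430 434) (node 498 (merge (leaf 0 462 497) (node 466 (merge (leaf 0 463 499) (node 430 (merge (leaf 3 429 429) (leaf 3 430 431))))))))))) (node 493 (merge (leaf 1 460 492) (node 465 (merge (leaf 1 461 494)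 (node 498 (merge (leaf 0 462 497) (node 466 (merge (leaf 0 463 499) (node 430 (merge (leaf 3 429 429) (leaf 3 430 431))))))))))))))) (merge (node 460 (merge (node 491 (merge (leaf 1 459 492) (node 459 (merge (leaf 1 458 490) (node 427 (merge (leaf 3 426 426) (leaf 3 427 428))))))) (merge (node 492 (merge (leaf 1 459 491) (node 428 (merge (leaf 3 427 427) (node 429 (merge (leaf 3 428 464) (node 397 (merge (leaf 5 364 365) (leaf 6 396 524))))))))) (merge (node 491 (merge (leaf 1 459 492) (node 459 (merge (leaf 1 458 490) (node 430 (merge (leaf 2 427 431) (node 458 (merge (leaf 2 426 429) (node 426 (merge (leaf 3 425 425) (leaf 3 426 427))))))))))) (merge (node 427 (merge (leaf 3 427 428) (node 459 (merge (leaf 3 426 426) (node 490 (merge (leaf 1 458 491) (node 458 (merge (leaf 1 457 489) (node 430 (merge (leaf 2 426 429) (leaf 2 427 431))))))))))) (merge (node 492 (merge (leaf 1 459 491) (node 464 (merge (leaf 1 460 493) (node 429 (merge (leaf 3 428 428) (node 430 (merge (leaf 3 429 465) (node 459 (merge (leaf 2 427 431) (leaf 2 426 458))))))))))) (node 427 (merge (leaf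 3 427 428) (node 459 (merge (leaf 3 426 426) (node 430 (merge (leaf 2 427 431) (node 429 (merge (leaf 2 426 458) (node 464 (merge (leaf 3 429 465) (node 493 (merge (leaf 1 460 492) (node 398 (merge (leaf 5 365 366) (leaf 6 397 525))))))))))))))))))))) (merge (node 460 (merge (node 432 (merge (leaf 2 428 431) (node 464 (merge (leaf 2 429 433) (node 428 (merge (leaf 3 427 427) (leaf 3 428 429))))))) (merge (node 459 (merge (node 427 (merge (leaf 3 426 426) (leaf 3 427 428))) (merge (node 490 (merge (leaf 1 458 491) (node 458 (merge (leaf 1 457 489) (node 429 (merge (leaf 2 426 430) (node 428 (merge (leaf 2 425 457) (leaf 3 428 464))))))))) (node 490 (merge (leaf 1 458 491) (node 458 (merge (leaf 1 457 489) (node 426 (merge (leaf 3 425 425) (leaf 3 426 427)))))))))) (merge (node 431 (merge (leaf 2 428 432) (node 459 (merge (leaf 2 427 430) (node 490 (merge (leaf 1 458 491) (node 458 (merge (leaf 1 457 489) (node 426 (merge (leaf 3 425 425) (leaf 3 426 427))))))))))) (node 464 (merge (node 432 (merge (leaf 2 428 431) (leaf 2 429 433))) (merge (node 429 (merge (leaf 3 428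 428) (node 465 (merge (leaf 3 429 430) (node 498 (merge (leaf 0 462 497) (node 466 (merge (leaf 0 463 499) (node 434 (merge (leaf 2 430 433) (leaf 2 431 435))))))))))) (node 431 (merge (leaf 2 428 432) (node 430 (merge (leaf 2 427 459) (node 429 (merge (leaf 0 428 428) (leaf 3 429 465)))))))))))))) (merge (node 460 (merge (node 431 (merge (leaf 2 428 432) (node 459 (merge (leaf 2 427 430) (node 427 (merge (leaf 3 426 426) (leaf 3 427 428))))))) (merge (node 491 (merge (leaf 1 459 492) (node 459 (merge (leaf 1 458 490) (node 431 (merge (leaf 2 427 430) (leaf 2 428 432))))))) (node 492 (merge (leaf 1 459 491) (node 524 (merge (node 429 (merge (leaf 6 428 556) (node 428 (merge (leaf 6 396 397) (leaf 3 427 427))))) (merge (node 429 (merge (leaf 6 428 556) (node 397 (merge (leaf 5 364 365) (leaf 5 396 493))))) (merge (node 428 (merge (leaf 3 427 427) (node 525 (merge (leaf 4 428 557) (node 493 (merge (leaf 4 396 396) (node 556 (merge (leaf 6 460 588) (node 555 (merge (leaf 5 427 523) (leaf 5 459 587))))))))))) (node 428 (merge (leaf 3 427 427) (node 397 (merge (leaf 6 396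 429) (node 396 (merge (leaf 6 364 365) (node 525 (merge (leaf 4 396 493) (leaf 4 428 557)))))))))))))))))) (node 429 (merge (node 464 (merge (leaf 3 428 428) (node 433 (merge (leaf 2 429 432) (node 465 (merge (leaf 3 429 430) (leaf 2 430 434))))))) (merge (node 464 (merge (leaf 3 428 428) (node 493 (merge (leaf 1 460 492) (node 465 (merge (leaf 1 461 494) (node 433 (merge (leaf 2 429 432) (leaf 2 430 434))))))))) (merge (node 397 (merge (node 494 (merge (leaf 4 365 365) (node 526 (merge (leaf 4 397 493) (leaf 7 429 558))))) (merge (node 365 (merge (leaf 4 365 494) (node 334 (merge (leaf 6 333 366) (node 333 (merge (leaf 6 301 302) (leaf 4 333 430))))))) (merge (node 365 (merge (node 334 (merge (leaf 6 333 366) (node 333 (merge (leaf 6 301 302) (leaf 4 333 430))))) (merge (node 332 (merge (leaf 7 332 364) (node 333 (merge (leaf 7 300 300) (leaf 4 333 430))))) (node 366 (merge (leaf 6 333 334) (node 493 (merge (leaf 6 365 398) (node 364 (merge (leaf 7 332 332) (leaf 7 364 396)))))))))) (node 493 (merge (node 494 (merge (leaf 4 397 526) (node 492 (merge (leaf 2 459 491)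 (leaf 5 396 524))))) (node 398 (merge (leaf 6 365 366) (node 525 (merge (leaf 6 397 430) (node 396 (merge (leaf 7 364 364) (leaf 7 396 428))))))))))))) (node 493 (merge (node 492 (merge (leaf 1 460 464) (node 491 (merge (leaf 2 458 490) (leaf 2 459 494))))) (merge (node 492 (merge (leaf 1 460 464) (node 524 (merge (leaf 5 396 397) (node 556 (merge (leaf 5 428 525) (leaf 6 460 588))))))) (node 525 (merge (node 430 (merge (leaf 6 429 557) (node 398 (merge (leaf 5 365 366) (leaf 6 397 429))))) (merge (node 556 (merge (leaf 5 428 524) (node 557 (merge (leaf 5 460 588) (node 589 (merge (leaf 6 461 494) (node 590 (merge (leaf 4 461 558) (leaf 4 493 622))))))))) (node 398 (merge (leaf 6 397 430) (node 397 (merge (leaf 6 365 366) (node 364 (merge (leaf 7 364 396) (node 365 (merge (leaf 7 332 332) (leaf 4 365 494))))))))))))))))))))))))))) (merge (hyp 2) (merge (hyp 3) (merge (hyp 4) (merge (hyp 5) (merge (node 527 (merge (node 495 (merge (leaf 4 431 431) (node 430 (merge (leaf 7 430 559) (node 398 (merge (leaf 4 366 366) (leaf 4 398 494))))))) (merge (node 495 (merge (leaf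 4 431 431) (node 559 (merge (leaf 7 430 430) (node 558 (merge (leaf 5 462 590) (node 557 (merge (leaf 2 524 556) (node 525 (merge (leaf 3 524 524) (node 561 (merge (leaf 0 525 526) (node 594 (merge (leaf 0 558 593) (node 562 (merge (leaf 3 527 563) (leaf 0 559 595))))))))))))))))) (merge (node 559 (merge (node 430 (merge (leaf 7 430 495) (node 526 (merge (leaf 4 430 494) (node 525 (merge (leaf 0 524 524) (leaf 0 525 561))))))) (merge (node 495 (merge (leaf 7 430 430) (node 590 (merge (leaf 5 462 558) (node 591 (merge (leaf 7 462 494) (leaf 5 494 622))))))) (merge (node 526 (merge (node 561 (merge (leaf 0 525 525) (leaf 3 526 562))) (node 494 (merge (leaf 4 430 430) (node 591 (merge (leaf 4 462 558) (leaf 7 494 623))))))) (merge (node 495 (merge (leaf 7 430 430) (node 558 (merge (leaf 5 462 590) (node 557 (merge (leaf 2 524 556) (node 525 (merge (leaf 3 524 524) (node 561 (merge (leaf 0 525 526) (node 594 (merge (leaf 0 558 593) (node 562 (merge (leaf 3 527 563) (leaf 0 559 595))))))))))))))) (node 495 (merge (node 464 (merge (leaf 6 431 432) (node 494 (merge (leaf 7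 462 591) (node 493 (merge (leaf 1 461 465) (leaf 0 492 492))))))) (node 558 (merge (leaf 5 462 590) (node 557 (merge (leaf 2 524 556) (node 525 (merge (leaf 3 524 524) (node 561 (merge (leaf 0 525 526) (node 594 (merge (leaf 0 558 593) (node 562 (merge (leaf 3 527 563) (leaf 0 559 595)))))))))))))))))))) (merge (node 559 (merge (node 495 (merge (leaf 4 431 431) (node 464 (merge (leaf 6 431 432) (node 494 (merge (leaf 7 462 591) (node 493 (merge (leaf 1 461 465) (leaf 0 492 492))))))))) (merge (node 558 (merge (node 526 (merge (node 525 (merge (leaf 0 524 524) (leaf 3 525 561))) (node 494 (merge (leaf 6 430 431) (leaf 4 462 591))))) (merge (node 557 (merge (leaf 2 524 556) (node 589 (merge (leaf 1 556 588) (node 561 (merge (leaf 1 557 590) (node 562 (merge (leaf 3 526 526) (leaf 3 527 563))))))))) (merge (node 557 (merge (leaf 2 524 556) (node 589 (merge (leaf 1 556 588) (node 525 (merge (leaf 3 524 524) (node 494 (merge (leaf 6 461 493) (leaf 5 461 526))))))))) (node 557 (merge (leaf 2 524 556) (node 589 (merge (leaf 1 556 588) (node 590 (merge (leaf 1 557 561) (node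 525 (merge (leaf 3 524 524) (node 493 (merge (leaf 6 461 494) (leaf 4 493 622))))))))))))))) (merge (node 495 (merge (node 464 (merge (leaf 6 431 432) (node 494 (merge (leaf 7 462 591) (node 493 (merge (leaf 1 461 465) (leaf 0 492 492))))))) (node 558 (merge (leaf 5 462 590) (node 557 (merge (leaf 2 524 556) (node 525 (merge (leaf 3 524 524) (node 561 (merge (leaf 0 525 526) (node 594 (merge (leaf 0 558 593) (node 562 (merge (leaf 3 527 563) (leaf 0 559 595))))))))))))))) (node 495 (merge (leaf 4 431 431) (node 558 (merge (leaf 5 462 590) (node 557 (merge (leaf 2 524 556) (node 525 (merge (leaf 3 524 524) (node 561 (merge (leaf 0 525 526) (node 594 (merge (leaf 0 558 593) (node 562 (merge (leaf 3 527 563) (leaf 0 559 595))))))))))))))))))) (merge (node 526 (merge (node 431 (merge (leaf 4 431 495) (node 494 (merge (leaf 6 430 558) (node 399 (merge (leaf 5 366 367) (leaf 6 398 430))))))) (node 525 (merge (leaf 0 525 561) (node 556 (merge (leaf 1 524 557) (node 524 (merge (leaf 1 523 555) (node 492 (merge (leaf 3 491 491) (leaf 3 492 493))))))))))) (node 526 (merge (node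 561 (merge (leaf 0 525 525) (node 562 (merge (leaf 3 526 559) (leaf 3 527 563))))) (merge (node 525 (merge (leaf 0 525 561) (node 556 (merge (leaf 1 524 557) (node 524 (merge (leaf 1 523 555) (node 492 (merge (leaf 3 491 491) (leaf 3 492 493))))))))) (node 494 (merge (node 431 (merge (leaf 6 430 558) (node 399 (merge (leaf 5 366 367) (leaf 6 398 430))))) (merge (node 559 (merge (leaf 4 430 430) (node 591 (merge (leaf 4 462 558) (leaf 7 494 623))))) (merge (node 558 (merge (leaf 6 430 431) (node 559 (merge (leaf 4 462 591) (node 557 (merge (leaf 2 524 556) (leaf 5 461 589))))))) (node 464 (merge (node 493 (merge (leaf 1 461 465) (node 492 (merge (leaf 1 460 461) (leaf 0 491 491))))) (node 430 (merge (leaf 4 430 559) (node 398 (merge (node 399 (merge (leaf 6 366 367) (leaf 6 398 431))) (merge (node 367 (merge (leaf 6 366 399) (node 366 (merge (leaf 6 334 335) (node 365 (merge (leaf 7 333 333) (leaf 7 365 397))))))) (merge (node 431 (merge (leaf 6 398 399) (node 365 (merge (leaf 7 365 397) (node 366 (merge (leaf 7 333 333) (leaf 4 334 334))))))) (node 365 (merge (leaf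 7 365 397) (node 366 (merge (leaf 7 333 333) (node 335 (merge (leaf 6 334 367) (node 334 (merge (leaf 6 302 303) (leaf 4 334 431)))))))))))))))))))))))))))))) (merge (hyp 6) (merge (hyp 7) (merge (hyp 8) (merge (hyp 9) (hyp 10))))))))))))))) nP_231 cP_231 16 (by decide +kernel)
def nP_232 : ℕ := 0x2000000000000000e0000000000000000000000000000000000000000000000000000000000000000000000000000000000000000000000000000000000000000000
def cP_232 : ℕ := 0x1800000018000001ff0000001e000001fe0000007000000070000000300000001000000000000000000000000000000000000000000000000000000000000000000000000000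
theorem lP_232 : S nP_232 cP_232 9 := S_of_chk [] trivial (node 429 (merge (node 493 (merge (node 428 (merge (leaf 7 396 396) (node 427 (merge (leaf 0 426 426) (leaf 0 427 430))))) (merge (node 398 (merge (leaf 6 397 430) (node 397 (merge (leaf 6 365 366) (node 524 (merge (leaf 5 396 492) (leaf 5 428 556))))))) (node 396 (merge (leaf 7 396 428) (node 397 (merge (leaf 7 364 364) (node 524 (merge (leaf 5 396 492) (leaf 5 428 556)))))))))) (merge (node 428 (merge (node 427 (merge (leaf 0 426 426) (leaf 0 427 430))) (merge (node 427 (merge (leaf 0 426 426) (leaf 3 427 460))) (node 493 (merge (leaf 7 396 396) (node 398 (merge (leaf 6 397 430) (node 397 (merge (leaf 6 365 366) (node 365 (merge (leaf 4 365 494) (node 332 (merge (leaf 7 332 364) (node 333 (merge (leaf 7 300 300) (leaf 5 332 460)))))))))))))))) (merge (node 460 (merge (node 492 (merge (leaf 1 459 491) (node 524 (merge (leaf 6 428 556) (node 397 (merge (leaf 5 364 365) (leaf 5 396 493))))))) (node 495 (merge (leaf 0 460 496) (node 459 (merge (leaf 0 459 494) (node 427 (merge (leaf 3 426 426) (leaf 3 427 428)))))))))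 (merge (node 460 (merge (node 495 (merge (leaf 0 460 496) (node 459 (merge (leaf 0 459 494) (node 431 (merge (leaf 2 427 430) (leaf 2 428 432))))))) (node 492 (merge (leaf 1 459 491) (node 524 (merge (leaf 6 428 556) (node 397 (merge (leaf 5 364 365) (leaf 5 396 493))))))))) (merge (node 460 (merge (node 495 (merge (leaf 0 460 496) (node 459 (merge (leaf 0 459 494) (node 431 (merge (leaf 2 427 430) (leaf 2 428 432))))))) (merge (node 491 (merge (leaf 1 459 492) (node 459 (merge (leaf 1 458 490) (node 427 (merge (leaf 3 426 426) (leaf 3 427 428))))))) (node 495 (merge (leaf 0 460 496) (node 492 (merge (leaf 1 459 491) (node 524 (merge (leaf 6 428 556) (node 428 (merge (leaf 3 427 427) (node 493 (merge (leaf 7 396 396) (node 523 (merge (leaf 1 491 494) (leaf 5 427 555)))))))))))))))) (node 460 (merge (node 492 (merge (leaf 1 459 491) (node 524 (merge (leaf 6 428 556) (node 397 (merge (leaf 5 364 365) (leaf 6 396 428))))))) (merge (node 459 (merge (node 427 (merge (leaf 3 426 426) (leaf 3 427 428))) (merge (node 458 (merge (leaf 2 426 430) (node 489 (merge (leaf 1 457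 490) (node 457 (merge (leaf 2 425 428) (leaf 1 456 488))))))) (node 458 (merge (leaf 2 426 430) (node 426 (merge (leaf 3 425 425) (leaf 3 426 427)))))))) (node 491 (merge (leaf 1 459 492) (node 459 (merge (leaf 1 458 490) (node 458 (merge (leaf 2 426 430) (node 426 (merge (leaf 3 425 425) (leaf 3 426 427)))))))))))))))))) nP_232 cP_232 9 (by decide +kernel)
def nP_233 : ℕ := 0x200000002000000080000000000000000000000000000000000000000000000000000000000000000000000000000000000000000000000000000000000000000000
def cP_233 : ℕ := 0x7000000078000000780000003f0000005f000001de0000007e000001fe0000007e00000070000000500000000000000000000000000000000000000000000000000000000000000000000000000000000000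
theorem lP_233 : S nP_233 cP_233 11 := S_of_chk [] trivial (node 461 (merge (node 429 (merge (node 398 (merge (leaf 6 397 430) (node 397 (merge (leaf 6 365 366) (node 524 (merge (leaf 5 396 492) (leaf 5 428 556))))))) (merge (node 428 (merge (leaf 7 396 396) (node 557 (merge (leaf 7 428 460) (node 556 (merge (leaf 5 428 524) (leaf 5 460 588))))))) (node 398 (merge (leaf 6 397 430) (node 397 (merge (leaf 6 365 366) (node 396 (merge (leaf 7 364 364) (leaf 7 396 428)))))))))) (merge (node 429 (merge (node 398 (merge (leaf 6 397 430) (node 397 (merge (leaf 6 365 366) (node 524 (merge (leaf 5 396 492) (leaf 5 428 556))))))) (merge (node 430 (merge (leaf 6 397 398) (node 557 (merge (leaf 6 429 462) (node 556 (merge (leaf 5 428 524) (leaf 5 460 588))))))) (merge (node 398 (merge (leaf 6 397 430) (node 397 (merge (leaf 6 365 366) (node 364 (merge (leaf 7 364 396) (node 365 (merge (leaf 7 332 332) (node 494 (merge (leaf 4 365 462) (leaf 4 397 526))))))))))) (node 524 (merge (leaf 5 428 556) (node 397 (merge (leaf 5 396 492) (node 364 (merge (leaf 7 364 396) (node 365 (merge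 (leaf 7 332 332) (node 494 (merge (leaf 4 365 462) (leaf 4 397 526))))))))))))))) (merge (node 428 (merge (node 396 (merge (leaf 7 396 429) (node 460 (merge (leaf 4 364 364) (leaf 7 428 557))))) (merge (node 557 (merge (leaf 7 428 460) (node 462 (merge (leaf 6 429 430) (node 589 (merge (leaf 6 461 494) (node 588 (merge (leaf 5 460 556) (leaf 5 492 620))))))))) (node 429 (merge (leaf 7 396 396) (node 524 (merge (leaf 5 428 556) (node 397 (merge (leaf 5 396 492) (node 494 (merge (leaf 4 397 526) (node 462 (merge (leaf 4 365 365) (node 427 (merge (leaf 0 426 426) (leaf 0 427 430)))))))))))))))) (merge (node 428 (merge (node 396 (merge (leaf 7 396 429) (node 460 (merge (leaf 4 364 364) (leaf 4 396 492))))) (merge (node 429 (merge (leaf 7 396 396) (node 430 (merge (leaf 6 397 398) (node 462 (merge (leaf 0 427 427) (leaf 6 429 557))))))) (node 557 (merge (leaf 7 428 460) (node 462 (merge (leaf 6 429 430) (node 589 (merge (leaf 6 461 494) (node 622 (merge (leaf 4 493 590) (node 621 (merge (leaf 4 525 654) (node 620 (merge (leaf 5 492 588) (leaf 5 524 652)))))))))))))))) (merge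 (node 428 (merge (node 396 (merge (leaf 7 396 429) (node 460 (merge (leaf 4 364 364) (leaf 4 396 492))))) (merge (node 429 (merge (leaf 7 396 396) (node 430 (merge (leaf 6 397 398) (node 462 (merge (leaf 0 427 427) (leaf 6 429 557))))))) (merge (node 460 (merge (leaf 7 428 557) (node 396 (merge (leaf 4 364 364) (leaf 4 396 492))))) (node 557 (merge (leaf 7 428 460) (node 462 (merge (leaf 6 429 430) (node 589 (merge (leaf 6 461 494) (node 622 (merge (leaf 4 493 590) (node 621 (merge (leaf 4 525 654) (node 524 (merge (leaf 7 492 492) (node 556 (merge (leaf 5 428 429) (leaf 7 524 653))))))))))))))))))) (merge (node 428 (merge (node 396 (merge (leaf 7 396 429) (node 460 (merge (leaf 4 364 364) (leaf 7 428 557))))) (merge (node 429 (merge (leaf 7 396 396) (node 524 (merge (leaf 5 428 556) (node 397 (merge (leaf 5 396 492) (node 366 (merge (leaf 6 365 398) (node 365 (merge (leaf 6 333 334) (node 494 (merge (leaf 4 365 462) (leaf 4 397 526))))))))))))) (node 557 (merge (leaf 7 428 460) (node 588 (merge (leaf 5 460 556) (node 589 (merge (leaf 5 492 620) (node 494 (merge (leaf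 6 461 462) (node 621 (merge (leaf 6 493 526) (node 622 (merge (leaf 4 493 590) (leaf 4 525 654)))))))))))))))) (merge (node 430 (merge (node 398 (merge (leaf 6 397 429) (node 462 (merge (leaf 5 365 366) (leaf 5 397 494))))) (merge (node 557 (merge (leaf 6 429 462) (node 588 (merge (leaf 5 460 556) (node 589 (merge (leaf 5 492 620) (node 492 (merge (leaf 7 460 460) (node 621 (merge (leaf 7 492 524) (node 622 (merge (leaf 4 493 590) (leaf 4 525 654))))))))))))) (node 429 (merge (leaf 6 397 398) (node 556 (merge (leaf 5 428 524) (node 557 (merge (leaf 5 460 588) (node 460 (merge (leaf 7 428 428) (node 492 (merge (leaf 7 460 589) (node 459 (merge (leaf 2 426 458) (node 494 (merge (leaf 3 459 495) (node 397 (merge (leaf 5 364 365) (leaf 4 397 526)))))))))))))))))))) (merge (node 460 (merge (node 557 (merge (leaf 7 428 428) (node 589 (merge (leaf 7 460 492) (node 588 (merge (leaf 5 460 556) (leaf 5 492 620))))))) (merge (node 557 (merge (leaf 7 428 428) (node 462 (merge (leaf 6 429 430) (node 589 (merge (leaf 6 461 494) (node 588 (merge (leaf 5 460 556) (leaf 5 492 620)))))))))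 (merge (node 428 (merge (node 396 (merge (leaf 4 364 364) (leaf 4 396 492))) (node 462 (merge (leaf 3 427 427) (node 495 (merge (leaf 0 460 496) (node 459 (merge (leaf 0 459 494) (node 431 (merge (leaf 2 427 430) (leaf 2 428 432))))))))))) (node 462 (merge (node 430 (merge (leaf 6 429 557) (node 398 (merge (leaf 5 365 366) (leaf 5 397 494))))) (merge (node 491 (merge (leaf 1 459 492) (node 459 (merge (leaf 1 458 490) (node 431 (merge (leaf 2 427 430) (leaf 2 428 432))))))) (node 495 (merge (leaf 0 460 496) (node 459 (merge (leaf 0 459 494) (node 492 (merge (leaf 1 459 491) (node 557 (merge (leaf 7 460 589) (node 427 (merge (leaf 3 426 426) (node 556 (merge (leaf 7 427 524) (leaf 5 460 588)))))))))))))))))))) (merge (node 428 (merge (node 396 (merge (leaf 7 396 429) (node 460 (merge (leaf 4 364 364) (leaf 7 428 557))))) (merge (node 429 (merge (leaf 7 396 396) (node 430 (merge (leaf 6 397 398) (node 462 (merge (leaf 0 427 427) (leaf 6 429 557))))))) (merge (node 557 (merge (leaf 7 428 460) (node 462 (merge (leaf 6 429 430) (node 589 (merge (leaf 6 461 494) (node 588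 (merge (leaf 5 460 556) (leaf 5 492 620))))))))) (node 429 (merge (leaf 7 396 396) (node 430 (merge (leaf 6 397 398) (node 427 (merge (leaf 0 427 462) (node 459 (merge (leaf 1 426 458) (node 460 (merge (leaf 1 427 431) (node 426 (merge (leaf 0 425 425) (node 394 (merge (leaf 3 393 393) (leaf 3 394 395))))))))))))))))))) (node 492 (merge (node 491 (merge (node 462 (merge (leaf 1 459 460) (leaf 2 458 490))) (merge (node 462 (merge (leaf 1 459 460) (leaf 2 459 494))) (node 490 (merge (leaf 0 490 526) (node 522 (merge (leaf 1 489 521) (node 494 (merge (leaf 1 490 523) (node 458 (merge (leaf 3 457 457) (leaf 3 458 459)))))))))))) (merge (node 491 (merge (node 490 (merge (leaf 0 490 526) (node 462 (merge (leaf 2 458 461) (leaf 2 459 494))))) (merge (node 490 (merge (leaf 0 490 526) (node 489 (merge (leaf 0 489 524) (node 521 (merge (leaf 1 488 520) (leaf 1 489 522))))))) (node 494 (merge (leaf 2 459 462) (node 523 (merge (leaf 1 490 522) (node 524 (merge (leaf 1 491 495) (node 429 (merge (leaf 5 396 397) (leaf 5 428 556)))))))))))) (merge (node 460 (merge (node 428 (merge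 (leaf 4 396 396) (node 427 (merge (leaf 3 427 462) (node 524 (merge (leaf 7 395 395) (node 429 (merge (leaf 6 396 397) (leaf 6 428 556))))))))) (merge (node 428 (merge (leaf 4 396 396) (node 462 (merge (leaf 3 427 427) (node 431 (merge (leaf 2 428 432) (node 459 (merge (leaf 2 427 430) (node 458 (merge (leaf 0 457 457) (leaf 0 458 494))))))))))) (merge (node 429 (merge (node 524 (merge (leaf 5 396 397) (leaf 5 428 556))) (node 430 (merge (leaf 6 397 398) (node 431 (merge (leaf 1 428 432) (node 459 (merge (leaf 2 426 458) (leaf 2 427 462))))))))) (node 429 (merge (node 524 (merge (leaf 5 396 397) (leaf 5 428 556))) (node 430 (merge (leaf 6 397 398) (node 431 (merge (leaf 1 428 432) (node 459 (merge (leaf 1 427 428) (leaf 2 426 458))))))))))))) (merge (node 460 (merge (node 491 (merge (leaf 1 459 462) (node 490 (merge (leaf 2 457 489) (leaf 0 490 526))))) (node 429 (merge (node 524 (merge (leaf 5 396 397) (leaf 5 428 556))) (node 430 (merge (leaf 6 397 398) (node 431 (merge (leaf 1 428 432) (node 459 (merge (leaf 1 427 428) (leaf 2 426 458))))))))))) (node 524 (merge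 (node 556 (merge (leaf 5 428 429) (node 588 (merge (leaf 6 460 492) (leaf 6 492 620))))) (merge (node 523 (merge (node 522 (merge (leaf 2 490 494) (leaf 2 489 521))) (node 429 (merge (leaf 5 396 397) (node 430 (merge (leaf 6 397 398) (node 428 (merge (leaf 7 396 396) (node 460 (merge (leaf 5 427 555) (node 431 (merge (leaf 1 428 432) (leaf 1 427 459))))))))))))) (node 523 (merge (node 522 (merge (leaf 2 490 494) (leaf 2 489 521))) (node 555 (merge (node 587 (merge (leaf 6 491 619) (node 460 (merge (leaf 5 427 428) (leaf 6 459 491))))) (node 554 (merge (leaf 1 522 526) (node 553 (merge (leaf 2 520 552) (leaf 2 521 556))))))))))))))))))))))))))) nP_233 cP_233 11 (by decide +kernel)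
def nP_234 : ℕ := 0x700000000000000000000000000000000000000000000000000000000000000000000000000000000000000000000000000000000000000000000000000000000000
def cP_234 : ℕ := 0x100000001c0000001c0000000c0000007e0000000f0000003f8000001c0000001c0000000400000000000000000000000000000000000000000000000000000000000000000000000000000000000000000000000000
theorem lP_234 : S nP_234 cP_234 9 := S_of_chk [] trivial (node 523 (merge (node 554 (merge (leaf 1 522 555) (node 522 (merge (leaf 1 521 553) (node 490 (merge (leaf 3 489 489) (leaf 3 490 491))))))) (merge (node 522 (merge (node 490 (merge (leaf 3 489 489) (leaf 3 490 491))) (merge (node 557 (merge (leaf 0 522 558) (node 521 (merge (leaf 0 521 556) (node 489 (merge (leaf 3 488 488) (leaf 3 489 490))))))) (merge (node 557 (merge (leaf 0 522 558) (node 521 (merge (leaf 0 521 556) (node 492 (merge (leaf 2 489 493) (node 491 (merge (leaf 3 490 490) (leaf 2 488 520))))))))) (node 557 (merge (leaf 0 522 558) (node 521 (merge (leaf 0 521 556) (node 492 (merge (leaf 2 489 493) (node 520 (merge (leaf 2 488 491) (node 488 (merge (leaf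 3 487 487) (leaf 3 488 489))))))))))))))) (merge (node 554 (merge (leaf 1 522 555) (node 522 (merge (leaf 1 521 553) (node 557 (merge (leaf 0 522 558) (node 521 (merge (leaf 0 521 556) (node 489 (merge (leaf 3 488 488) (leaf 3 489 490))))))))))) (merge (node 554 (merge (leaf 1 522 555) (node 522 (merge (leaf 1 521 553) (node 557 (merge (leaf 0 522 558) (node 521 (merge (leaf 0 521 556) (node 492 (merge (leaf 2 489 493) (node 520 (merge (leaf 2 488 491) (node 488 (merge (leaf 3 487 487) (leaf 3 488 489))))))))))))))) (node 555 (merge (leaf 1 522 554) (node 587 (merge (node 492 (merge (leaf 6 491 619) (node 460 (merge (leaf 5 427 428) (leaf 5 459 556))))) (merge (node 492 (merge (leaf 6 491 619) (node 491 (merge (leaf 6 459 460) (leaf 3 490 490))))) (merge (node 491 (merge (leaf 3 490 490) (node 618 (merge (leaf 5 490 586) (node 619 (merge (leaf 5 522 650) (node 651 (merge (leaf 6 523 556) (node 652 (merge (leaf 4 523 620) (leaf 4 555 684))))))))))) (node 491 (merge (leaf 3 490 490) (node 460 (merge (leaf 6 459 492) (node 459 (merge (leaf 6 427 428) (node 426 (merge (leaf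 7 426 458) (node 427 (merge (leaf 7 394 394) (leaf 4 427 556)))))))))))))))))))))) nP_234 cP_234 9 (by decide +kernel)
def nP_235 : ℕ := 0x100000001700000000000000000000000000000000000000000000000000000000000000000000000000000000000000000000000000000000000000000000000000000000000
def cP_235 : ℕ := 0x70000000fc000003ff000000ff000000fe0000000c0000003000000070000000700000007000000010000000000000000000000000000000000000000000000000000000000000000000000000000000000000000000
theorem lP_235 : S nP_235 cP_235 11 := S_of_chk [] trivial (node 557 (merge (node 558 (merge (leaf 3 524 559) (node 590 (merge (node 622 (merge (leaf 7 493 493) (leaf 7 525 654))) (node 523 (merge (leaf 0 522 522) (node 555 (merge (leaf 1 522 554) (node 556 (merge (leaf 0 555 591) (node 587 (merge (leaf 1 554 586) (node 492 (merge (leaf 5 459 460) (leaf 6 491 619))))))))))))))) (merge (node 492 (merge (node 589 (merge (leaf 7 492 621) (node 460 (merge (leaf 4 428 428) (leaf 7 460 493))))) (merge (node 558 (merge (leaf 3 524 559) (node 523 (merge (leaf 0 522 522) (node 555 (merge (leaf 1 522 554) (node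 587 (merge (leaf 6 491 619) (node 460 (merge (leaf 4 428 428) (leaf 5 459 556))))))))))) (node 589 (merge (leaf 7 492 621) (node 558 (merge (leaf 3 524 559) (node 523 (merge (leaf 0 522 522) (node 555 (merge (leaf 1 522 554) (node 587 (merge (leaf 6 491 619) (node 586 (merge (leaf 1 554 556) (leaf 2 554 588)))))))))))))))) (merge (node 493 (merge (node 558 (merge (leaf 3 524 559) (node 590 (merge (leaf 4 461 461) (leaf 7 493 622))))) (merge (node 461 (merge (node 430 (merge (leaf 6 429 462) (node 429 (merge (leaf 6 397 398) (node 428 (merge (leaf 7 396 396) (leaf 7 428 460))))))) (merge (node 460 (merge (leaf 7 428 428) (node 589 (merge (leaf 7 460 492) (node 622 (merge (leaf 4 493 590) (node 621 (merge (leaf 4 525 654) (node 620 (merge (leaf 5 492 588) (leaf 5 524 652))))))))))) (merge (node 430 (merge (leaf 6 429 462) (node 429 (merge (leaf 6 397 398) (node 492 (merge (leaf 5 396 397) (node 589 (merge (leaf 7 460 460) (leaf 7 492 621))))))))) (node 430 (merge (leaf 6 429 462) (node 429 (merge (leaf 6 397 398) (node 396 (merge (leaf 7 396 428) (node 397 (merge (leaf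 7 364 364) (leaf 5 396 492))))))))))))) (merge (node 558 (merge (leaf 3 524 559) (node 461 (merge (leaf 4 429 429) (node 460 (merge (leaf 7 428 428) (node 589 (merge (leaf 7 460 492) (node 621 (merge (leaf 6 525 653) (node 620 (merge (leaf 5 492 588) (leaf 5 524 652))))))))))))) (node 589 (merge (node 492 (merge (leaf 7 460 460) (node 621 (merge (leaf 7 492 524) (node 622 (merge (leaf 4 493 590) (leaf 4 525 654))))))) (merge (node 590 (merge (leaf 4 493 622) (node 588 (merge (leaf 5 492 620) (node 559 (merge (leaf 1 556 558) (leaf 2 556 591))))))) (node 492 (merge (leaf 7 460 460) (node 621 (merge (leaf 7 492 524) (node 620 (merge (leaf 5 492 588) (leaf 5 524 652)))))))))))))) (merge (node 556 (merge (node 555 (merge (leaf 2 522 554) (node 587 (merge (node 586 (merge (leaf 1 554 558) (node 585 (merge (leaf 2 552 584) (leaf 2 553 588))))) (node 619 (merge (leaf 6 523 651) (node 492 (merge (leaf 5 459 460) (leaf 6 491 523))))))))) (merge (node 555 (merge (leaf 2 522 554) (node 558 (merge (node 590 (merge (leaf 0 555 591) (node 622 (merge (leaf 7 493 493) (leaf 7 525 654)))))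 (node 523 (merge (leaf 0 522 522) (node 587 (merge (leaf 1 554 586) (node 492 (merge (leaf 5 459 460) (leaf 6 491 619))))))))))) (merge (node 588 (merge (node 493 (merge (leaf 6 492 620) (node 461 (merge (leaf 5 428 429) (leaf 5 460 557))))) (merge (node 620 (merge (leaf 6 524 652) (node 621 (merge (leaf 4 524 653) (node 589 (merge (leaf 7 492 492) (node 619 (merge (leaf 5 523 651) (node 618 (merge (leaf 2 586 590) (leaf 2 585 617))))))))))) (node 589 (merge (node 621 (merge (leaf 4 492 492) (node 653 (merge (leaf 7 524 557) (leaf 7 556 685))))) (node 555 (merge (leaf 2 522 554) (node 590 (merge (leaf 3 555 591) (node 493 (merge (leaf 5 460 461) (leaf 4 493 622)))))))))))) (merge (node 588 (merge (node 493 (merge (leaf 6 492 620) (node 461 (merge (leaf 5 428 429) (leaf 5 460 557))))) (merge (node 620 (merge (leaf 6 524 652) (node 619 (merge (leaf 5 523 651) (node 492 (merge (leaf 5 491 587) (node 460 (merge (leaf 4 428 428) (leaf 4 460 589))))))))) (node 589 (merge (node 492 (merge (leaf 4 460 460) (node 587 (merge (leaf 5 491 619) (node 586 (merge (leaf 2 554 558)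 (leaf 2 553 585))))))) (node 621 (merge (leaf 7 524 653) (node 622 (merge (leaf 4 525 654) (node 493 (merge (leaf 4 493 590) (node 461 (merge (leaf 5 428 429) (leaf 5 460 588)))))))))))))) (merge (node 588 (merge (node 493 (merge (leaf 6 492 620) (node 461 (merge (leaf 5 428 429) (leaf 5 460 557))))) (merge (node 620 (merge (leaf 6 524 652) (node 555 (merge (leaf 2 522 554) (node 621 (merge (leaf 4 524 653) (node 492 (merge (leaf 7 492 589) (node 460 (merge (leaf 4 428 428) (leaf 5 459 587))))))))))) (node 589 (merge (node 621 (merge (leaf 4 492 492) (node 653 (merge (leaf 7 524 557) (leaf 7 556 685))))) (node 555 (merge (leaf 2 522 554) (node 590 (merge (leaf 3 555 591) (node 493 (merge (leaf 5 460 461) (leaf 4 493 622)))))))))))) (node 589 (merge (node 621 (merge (leaf 7 524 653) (node 622 (merge (leaf 4 525 654) (node 493 (merge (leaf 4 493 590) (node 461 (merge (leaf 5 428 429) (leaf 5 460 588))))))))) (merge (node 621 (merge (leaf 7 524 653) (node 620 (merge (leaf 5 524 652) (node 588 (merge (leaf 6 492 493) (node 619 (merge (leaf 5 523 651) (node 618 (merge (leaf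 2 586 590) (leaf 2 585 617))))))))))) (merge (node 621 (merge (leaf 7 524 653) (node 622 (merge (leaf 4 525 654) (node 590 (merge (leaf 4 493 493) (node 620 (merge (leaf 5 524 652) (node 619 (merge (leaf 2 587 591) (leaf 2 586 618))))))))))) (merge (node 588 (merge (node 620 (merge (leaf 5 492 493) (node 652 (merge (leaf 6 524 556) (leaf 6 556 684))))) (merge (node 555 (merge (leaf 2 522 554) (node 590 (merge (leaf 3 555 591) (node 493 (merge (leaf 5 460 461) (leaf 4 493 622))))))) (node 620 (merge (leaf 6 524 652) (node 619 (merge (leaf 5 523 651) (node 590 (merge (leaf 1 587 591) (node 618 (merge (leaf 1 586 587) (leaf 2 585 617)))))))))))) (merge (node 621 (merge (leaf 7 524 653) (node 622 (merge (leaf 4 525 654) (node 620 (merge (leaf 5 524 652) (node 588 (merge (leaf 6 492 493) (node 623 (merge (leaf 3 587 587) (leaf 3 588 624))))))))))) (node 588 (merge (node 620 (merge (leaf 6 524 652) (node 621 (merge (leaf 7 524 653) (node 619 (merge (leaf 5 523 651) (node 618 (merge (leaf 2 586 590) (leaf 2 585 617))))))))) (merge (node 620 (merge (leaf 6 524 652) (node 621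 (merge (leaf 7 524 653) (node 622 (merge (leaf 4 525 654) (node 623 (merge (leaf 3 587 587) (leaf 3 588 624))))))))) (merge (node 620 (merge (leaf 6 524 652) (node 619 (merge (leaf 5 523 651) (node 590 (merge (leaf 1 587 591) (node 618 (merge (leaf 1 586 587) (leaf 2 585 617))))))))) (node 621 (merge (leaf 7 524 653) (node 555 (merge (leaf 2 522 554) (node 590 (merge (leaf 3 555 591) (node 622 (merge (leaf 4 525 654) (node 587 (merge (leaf 0 586 586) (leaf 0 587 623))))))))))))))))))))))))))) (merge (node 589 (merge (node 492 (merge (leaf 7 492 621) (node 460 (merge (leaf 4 428 428) (leaf 7 460 493))))) (merge (node 621 (merge (leaf 7 492 492) (node 653 (merge (leaf 7 524 556) (node 654 (merge (leaf 4 525 622) (leaf 4 557 686))))))) (merge (node 621 (merge (node 653 (merge (leaf 7 524 556) (node 652 (merge (leaf 5 524 620) (leaf 5 556 684))))) (merge (node 653 (merge (leaf 7 524 556) (node 654 (merge (leaf 4 525 622) (leaf 4 557 686))))) (node 622 (merge (leaf 4 525 654) (node 493 (merge (leaf 4 493 590) (node 620 (merge (leaf 5 492 588) (leaf 5 524 652)))))))))) (node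 588 (merge (node 493 (merge (leaf 5 492 620) (node 460 (merge (leaf 7 460 492) (node 461 (merge (leaf 7 428 428) (leaf 5 460 556))))))) (merge (node 590 (merge (node 493 (merge (leaf 5 492 620) (leaf 4 493 622))) (merge (node 591 (merge (leaf 2 556 559) (node 620 (merge (leaf 5 492 493) (leaf 1 587 619))))) (merge (node 591 (merge (leaf 2 556 559) (node 623 (merge (leaf 0 588 624) (node 622 (merge (leaf 4 493 493) (leaf 0 587 587))))))) (node 591 (merge (leaf 2 556 559) (node 623 (merge (leaf 0 588 624) (node 587 (merge (leaf 0 587 622) (node 619 (merge (leaf 1 586 618) (leaf 1 587 620))))))))))))) (merge (node 590 (merge (node 591 (merge (leaf 2 556 559) (node 623 (merge (leaf 0 588 624) (node 622 (merge (leaf 4 493 493) (leaf 0 587 587))))))) (merge (node 591 (merge (leaf 2 556 559) (node 555 (merge (leaf 3 555 556) (node 554 (merge (leaf 1 522 523) (leaf 3 554 587))))))) (node 493 (merge (leaf 4 493 622) (node 460 (merge (leaf 7 460 492) (node 461 (merge (leaf 7 428 428) (node 430 (merge (leaf 6 429 462) (node 429 (merge (leaf 6 397 398) (leaf 5 428 556))))))))))))))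 (node 590 (merge (node 591 (merge (leaf 2 556 559) (node 555 (merge (leaf 3 555 556) (node 554 (merge (leaf 1 522 523) (leaf 3 554 587))))))) (merge (node 591 (merge (leaf 2 556 559) (node 620 (merge (leaf 1 587 619) (node 652 (merge (leaf 6 524 556) (leaf 6 556 684))))))) (merge (node 591 (merge (leaf 2 556 559) (node 623 (merge (leaf 0 588 624) (node 587 (merge (leaf 0 587 622) (node 619 (merge (leaf 1 586 618) (leaf 1 587 620))))))))) (node 587 (merge (node 619 (merge (leaf 1 586 618) (node 556 (merge (leaf 5 491 492) (node 620 (merge (leaf 5 523 651) (leaf 6 524 652))))))) (merge (node 618 (merge (leaf 1 586 619) (node 586 (merge (leaf 1 585 617) (node 554 (merge (leaf 3 553 553) (leaf 3 554 555))))))) (merge (node 554 (merge (leaf 3 554 555) (node 586 (merge (leaf 3 553 553) (node 617 (merge (leaf 1 585 618) (node 585 (merge (leaf 2 553 556) (leaf 1 584 616))))))))) (node 554 (merge (leaf 3 554 555) (node 586 (merge (leaf 3 553 553) (node 556 (merge (leaf 2 553 585) (node 492 (merge (leaf 4 460 460) (leaf 5 491 619))))))))))))))))))))))))) (merge (node 556 (merge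 (node 555 (merge (leaf 2 522 554) (node 558 (merge (leaf 3 524 559) (node 523 (merge (leaf 0 522 522) (node 587 (merge (leaf 1 554 586) (node 619 (merge (leaf 6 491 492) (leaf 6 523 651))))))))))) (merge (node 555 (merge (leaf 2 522 554) (node 558 (merge (leaf 3 524 559) (node 590 (merge (leaf 0 555 591) (node 622 (merge (leaf 7 525 654) (node 623 (merge (leaf 4 526 655) (node 621 (merge (leaf 5 525 653) (node 589 (merge (leaf 7 492 492) (node 624 (merge (leaf 3 588 588) (leaf 3 589 625))))))))))))))))) (merge (node 555 (merge (leaf 2 522 554) (node 558 (merge (leaf 3 524 559) (node 590 (merge (leaf 0 555 591) (node 587 (merge (leaf 1 554 586) (node 622 (merge (leaf 7 525 654) (node 623 (merge (leaf 4 526 655) (node 588 (merge (leaf 0 587 589) (node 621 (merge (leaf 3 587 620) (leaf 5 525 653))))))))))))))))) (merge (node 588 (merge (node 620 (merge (leaf 6 524 652) (node 619 (merge (leaf 5 523 651) (node 492 (merge (leaf 5 491 587) (node 460 (merge (leaf 4 428 428) (leaf 4 460 589))))))))) (merge (node 589 (merge (node 621 (merge (leaf 4 492 492) (node 653 (merge (leaf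 7 524 557) (leaf 7 556 685))))) (merge (node 558 (merge (leaf 1 556 559) (node 587 (merge (leaf 2 554 586) (node 492 (merge (leaf 4 460 460) (leaf 5 491 619))))))) (node 558 (merge (leaf 1 556 559) (node 621 (merge (leaf 6 525 653) (node 587 (merge (leaf 2 554 586) (node 622 (merge (leaf 4 525 654) (node 623 (merge (leaf 0 587 590) (leaf 3 588 624)))))))))))))) (merge (node 620 (merge (leaf 6 524 652) (node 621 (merge (leaf 4 524 653) (node 589 (merge (leaf 7 492 492) (node 622 (merge (leaf 4 525 654) (node 587 (merge (leaf 0 586 586) (leaf 3 587 623))))))))))) (merge (node 587 (merge (node 558 (merge (leaf 1 555 559) (node 586 (merge (leaf 2 553 585) (leaf 2 554 589))))) (merge (node 620 (merge (leaf 6 524 652) (node 586 (merge (leaf 2 553 585) (node 621 (merge (leaf 4 524 653) (node 622 (merge (leaf 0 586 589) (leaf 3 587 623))))))))) (merge (node 620 (merge (leaf 6 524 652) (node 558 (merge (leaf 1 555 559) (node 621 (merge (leaf 4 524 653) (node 622 (merge (leaf 3 587 623) (node 654 (merge (leaf 4 525 589) (leaf 7 525 590))))))))))) (node 620 (merge (leaf 6 524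 652) (node 586 (merge (leaf 2 553 585) (node 621 (merge (leaf 4 524 653) (node 622 (merge (leaf 3 586 619) (leaf 3 587 623))))))))))))) (merge (node 620 (merge (leaf 6 524 652) (node 621 (merge (leaf 4 524 653) (node 619 (merge (leaf 5 523 651) (node 587 (merge (leaf 5 491 492) (node 586 (merge (leaf 0 585 585) (leaf 3 586 622))))))))))) (node 620 (merge (leaf 6 524 652) (node 621 (merge (leaf 4 524 653) (node 589 (merge (leaf 7 492 492) (node 619 (merge (leaf 5 523 651) (node 618 (merge (leaf 2 586 590) (leaf 2 585 617))))))))))))))))) (node 588 (merge (node 620 (merge (leaf 6 524 652) (node 619 (merge (leaf 5 523 651) (node 492 (merge (leaf 5 491 587) (node 460 (merge (leaf 4 428 428) (leaf 4 460 589))))))))) (merge (node 620 (merge (leaf 6 524 652) (node 555 (merge (leaf 2 522 554) (node 621 (merge (leaf 4 524 653) (node 492 (merge (leaf 7 492 589) (node 460 (merge (leaf 4 428 428) (leaf 5 459 587))))))))))) (merge (node 620 (merge (leaf 6 524 652) (node 621 (merge (leaf 4 524 653) (node 619 (merge (leaf 5 523 651) (node 587 (merge (leaf 5 491 492) (node 586 (merge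 (leaf 0 585 585) (leaf 3 586 622))))))))))) (merge (node 589 (merge (node 621 (merge (leaf 4 492 492) (node 653 (merge (leaf 7 524 557) (leaf 7 556 685))))) (merge (node 554 (merge (leaf 2 522 555) (node 492 (merge (leaf 4 460 460) (node 587 (merge (leaf 5 491 619) (node 586 (merge (leaf 3 553 553) (leaf 2 553 585))))))))) (node 621 (merge (leaf 7 524 653) (node 555 (merge (leaf 2 522 554) (node 590 (merge (leaf 3 555 591) (node 622 (merge (leaf 4 525 654) (node 587 (merge (leaf 0 586 586) (leaf 0 587 623)))))))))))))) (merge (node 620 (merge (leaf 6 524 652) (node 621 (merge (leaf 4 524 653) (node 589 (merge (leaf 7 492 492) (node 619 (merge (leaf 5 523 651) (node 618 (merge (leaf 2 586 590) (leaf 2 585 617))))))))))) (node 589 (merge (node 620 (merge (leaf 6 524 652) (node 621 (merge (leaf 7 524 653) (node 619 (merge (leaf 5 523 651) (node 618 (merge (leaf 2 586 590) (leaf 2 585 617))))))))) (merge (node 620 (merge (leaf 6 524 652) (node 621 (merge (leaf 7 524 653) (node 622 (merge (leaf 4 525 654) (node 623 (merge (leaf 3 587 587) (leaf 3 588 624))))))))) (merge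 (node 620 (merge (leaf 6 524 652) (node 619 (merge (leaf 5 523 651) (node 590 (merge (leaf 1 587 591) (node 618 (merge (leaf 1 586 587) (leaf 2 585 617))))))))) (node 621 (merge (leaf 7 524 653) (node 555 (merge (leaf 2 522 554) (node 590 (merge (leaf 3 555 591) (node 622 (merge (leaf 4 525 654) (node 587 (merge (leaf 0 586 586) (leaf 0 587 623)))))))))))))))))))))))))) (node 589 (merge (node 558 (merge (leaf 3 524 559) (node 621 (merge (leaf 6 525 653) (node 620 (merge (leaf 5 524 652) (node 493 (merge (leaf 5 492 588) (node 461 (merge (leaf 4 429 429) (leaf 4 461 590))))))))))) (merge (node 558 (merge (leaf 3 524 559) (node 621 (merge (leaf 6 525 653) (node 622 (merge (leaf 4 525 654) (node 590 (merge (leaf 7 493 493) (node 623 (merge (leaf 4 526 655) (node 588 (merge (leaf 0 587 587) (leaf 3 588 624))))))))))))) (merge (node 558 (merge (leaf 3 524 559) (node 621 (merge (leaf 6 525 653) (node 622 (merge (leaf 4 525 654) (node 620 (merge (leaf 5 524 652) (node 588 (merge (leaf 5 492 493) (node 587 (merge (leaf 0 586 586) (leaf 3 587 623))))))))))))) (merge (node 590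 (merge (node 622 (merge (leaf 4 493 493) (node 654 (merge (leaf 7 525 558) (leaf 7 557 686))))) (merge (node 493 (merge (leaf 4 493 622) (node 588 (merge (leaf 5 492 620) (node 591 (merge (leaf 2 556 559) (node 556 (merge (leaf 5 460 461) (leaf 3 555 555))))))))) (merge (node 559 (merge (leaf 3 524 558) (node 588 (merge (leaf 2 556 591) (node 620 (merge (leaf 5 492 493) (node 652 (merge (leaf 6 524 556) (leaf 6 556 684))))))))) (node 558 (merge (leaf 3 524 559) (node 622 (merge (leaf 7 525 654) (node 623 (merge (leaf 4 526 655) (node 588 (merge (leaf 0 587 587) (node 624 (merge (leaf 0 588 591) (leaf 3 589 625))))))))))))))) (merge (node 621 (merge (node 653 (merge (leaf 7 524 556) (node 652 (merge (leaf 5 524 620) (leaf 5 556 684))))) (merge (node 653 (merge (leaf 7 524 556) (node 654 (merge (leaf 4 525 622) (leaf 4 557 686))))) (node 622 (merge (leaf 4 525 654) (node 493 (merge (leaf 4 493 590) (node 620 (merge (leaf 5 492 588) (leaf 5 524 652)))))))))) (merge (node 558 (merge (leaf 3 524 559) (node 621 (merge (leaf 6 525 653) (node 622 (merge (leaf 4 525 654) (node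 590 (merge (leaf 7 493 493) (node 620 (merge (leaf 5 524 652) (node 619 (merge (leaf 2 587 591) (leaf 2 586 618))))))))))))) (node 622 (merge (node 621 (merge (leaf 4 525 654) (node 653 (merge (leaf 7 524 556) (node 652 (merge (leaf 5 524 620) (leaf 5 556 684))))))) (merge (node 558 (merge (leaf 3 524 559) (node 590 (merge (leaf 7 525 654) (node 623 (merge (leaf 4 526 655) (node 588 (merge (leaf 0 587 587) (node 624 (merge (leaf 0 588 591) (leaf 3 589 625))))))))))) (node 588 (merge (node 621 (merge (node 587 (merge (leaf 0 586 586) (node 623 (merge (leaf 0 587 590) (leaf 3 588 624))))) (node 653 (merge (leaf 7 524 556) (node 652 (merge (leaf 5 524 620) (leaf 5 556 684))))))) (merge (node 559 (merge (leaf 1 556 558) (node 591 (merge (leaf 2 556 590) (node 623 (merge (leaf 6 527 655) (node 621 (merge (leaf 3 588 624) (node 653 (merge (leaf 7 524 556) (node 652 (merge (leaf 5 524 620) (leaf 5 556 684))))))))))))) (merge (node 558 (merge (leaf 1 556 559) (node 621 (merge (leaf 6 525 653) (node 587 (merge (leaf 0 586 586) (node 623 (merge (leaf 3 587 620) (leaf 3 588 624)))))))))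 (merge (node 590 (merge (node 559 (merge (leaf 1 556 558) (leaf 2 556 591))) (merge (node 620 (merge (node 652 (merge (leaf 6 524 556) (leaf 6 556 684))) (node 619 (merge (leaf 1 587 591) (node 618 (merge (leaf 1 586 587) (leaf 2 585 617))))))) (node 558 (merge (leaf 1 556 559) (node 621 (merge (leaf 6 525 653) (node 620 (merge (leaf 5 524 652) (node 619 (merge (leaf 2 586 618) (node 651 (merge (leaf 5 523 556) (leaf 1 618 650)))))))))))))) (node 559 (merge (leaf 1 556 558) (node 590 (merge (leaf 2 556 591) (node 587 (merge (leaf 0 587 623) (node 618 (merge (leaf 1 586 619) (node 586 (merge (leaf 1 585 617) (node 554 (merge (leaf 3 553 553) (leaf 3 554 555))))))))))))))))))))))))))))))))))) nP_235 cP_235 11 (by decide +kernel)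
def nP_236 : ℕ := 0x780000001000000000000000000000000000000000000000000000000000000000000000000000000000000000000000000000000000000000000000000000000000
def cP_236 : ℕ := 0x8000000080000001c000000000000000800000010000000000000000000000000000000000000000000000000000000000000000000000000000000000000000000000000000000000000000000
theorem lP_236 : S nP_236 cP_236 4 := S_of_chk [] trivial (node 555 (merge (leaf 1 522 554) (node 587 (merge (leaf 6 491 619) (node 460 (merge (leaf 6 459 491) (leaf 5 459 556))))))) nP_236 cP_236 4 (by decide +kernel)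
def nP_237 : ℕ := 0x780000001800000000000000000000000000000000000000000000000000000000000000000000000000000000000000000000000000000000000000000000000000
def cP_237 : ℕ := 0x8000000080000001c000000000000000800000010000000000000000000000000000000000000000000000000000000000000000000000000000000000000000000000000000000000000000000
theorem lP_237 : S nP_237 cP_237 4 := S_weaken lP_236 (by decide +kernel) (by decide +kernel)
def nP_238 : ℕ := 0x100000000700000000000000080000000000000000000000000000000000000000000000000000000000000000000000000000000000000000000000000000000000000000000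
def cP_238 : ℕ := 0x78000000f8000001fe000000fe000000fb8000000f0000007f8000007c0000007c0000007c0000003c000000000000000000000000000000000000000000000000000000000000000000000000000000000000000000
theorem lP_238 : S nP_238 cP_238 11 := S_of_chk [] trivial (node 557 (merge (node 589 (merge (node 621 (merge (leaf 7 492 492) (node 653 (merge (leaf 7 524 556) (node 654 (merge (leaf 4 525 622) (leaf 4 557 686))))))) (merge (node 621 (merge (leaf 7 492 492) (node 526 (merge (leaf 6 493 494) (node 558 (merge (leaf 3 524 559) (leaf 6 525 653))))))) (node 493 (merge (node 462 (merge (leaf 6 461 494) (node 461 (merge (leaf 6 429 430) (node 556 (merge (leaf 5 428 429) (leaf 5 460 588))))))) (merge (node 558 (merge (leaf 3 524 559) (node 590 (merge (leaf 4 461 461) (node 622 (merge (leaf 4 493 589) (leaf 7 525 654))))))) (node 559 (merge (leaf 3 524 558) (node 590 (merge (leaf 4 493 622) (node 588 (merge (leaf 2 556 591) (leaf 5 492 620))))))))))))) (merge (node 493 (merge (node 558 (merge (leaf 3 524 559) (node 590 (merge (leaf 4 461 461) (node 622 (merge (leaf 7 493 526) (leaf 7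 525 654))))))) (node 492 (merge (node 589 (merge (leaf 7 460 460) (leaf 7 492 621))) (node 491 (merge (leaf 0 490 490) (node 494 (merge (leaf 2 459 462) (node 523 (merge (leaf 1 490 522) (node 459 (merge (leaf 3 458 458) (node 427 (merge (leaf 4 395 395) (leaf 4 427 556))))))))))))))) (merge (node 493 (merge (node 558 (merge (leaf 3 524 559) (node 461 (merge (leaf 4 429 429) (leaf 4 461 590))))) (merge (node 461 (merge (node 430 (merge (leaf 6 429 462) (node 429 (merge (leaf 6 397 398) (node 428 (merge (leaf 7 396 396) (leaf 7 428 460))))))) (merge (node 430 (merge (leaf 6 429 462) (node 429 (merge (leaf 6 397 398) (node 492 (merge (leaf 5 396 397) (node 589 (merge (leaf 7 460 460) (leaf 7 492 621))))))))) (merge (node 430 (merge (leaf 6 429 462) (node 429 (merge (leaf 6 397 398) (node 396 (merge (leaf 7 396 428) (node 397 (merge (leaf 7 364 364) (leaf 5 396 492))))))))) (node 460 (merge (leaf 7 428 428) (node 589 (merge (leaf 7 460 492) (node 622 (merge (leaf 4 493 590) (node 621 (merge (leaf 4 525 654) (node 620 (merge (leaf 5 492 588) (leaf 5 524 652)))))))))))))))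 (merge (node 558 (merge (leaf 3 524 559) (node 461 (merge (leaf 4 429 429) (node 460 (merge (leaf 7 428 428) (node 589 (merge (leaf 7 460 492) (node 621 (merge (leaf 6 525 653) (node 620 (merge (leaf 5 492 588) (leaf 5 524 652))))))))))))) (node 589 (merge (node 492 (merge (leaf 7 460 460) (node 621 (merge (leaf 7 492 524) (node 622 (merge (leaf 4 493 590) (leaf 4 525 654))))))) (merge (node 590 (merge (leaf 4 493 622) (node 588 (merge (leaf 5 492 620) (node 559 (merge (leaf 1 556 558) (leaf 2 556 591))))))) (node 492 (merge (leaf 7 460 460) (node 621 (merge (leaf 7 492 524) (node 558 (merge (leaf 6 525 653) (node 588 (merge (leaf 1 556 559) (leaf 5 492 620)))))))))))))))) (merge (node 523 (merge (node 558 (merge (leaf 0 522 522) (leaf 3 524 559))) (merge (node 522 (merge (node 490 (merge (leaf 3 489 489) (leaf 3 490 491))) (merge (node 521 (merge (leaf 0 521 556) (node 552 (merge (leaf 1 520 553) (node 520 (merge (leaf 1 519 551) (node 491 (merge (leaf 3 490 490) (leaf 2 488 492))))))))) (node 521 (merge (leaf 0 521 556) (node 552 (merge (leaf 1 520 553) (node 520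 (merge (leaf 1 519 551) (node 488 (merge (leaf 3 487 487) (leaf 3 488 489)))))))))))) (node 491 (merge (leaf 3 490 490) (node 459 (merge (node 556 (merge (leaf 4 427 427) (node 588 (merge (leaf 4 459 555) (leaf 7 491 620))))) (merge (node 427 (merge (leaf 4 427 556) (node 394 (merge (leaf 7 394 426) (node 395 (merge (leaf 7 362 362) (leaf 4 395 492))))))) (merge (node 428 (merge (node 460 (merge (leaf 4 428 492) (leaf 6 427 555))) (merge (node 427 (merge (leaf 6 395 396) (node 394 (merge (leaf 7 394 426) (node 395 (merge (leaf 7 362 362) (leaf 4 395 492))))))) (node 396 (merge (leaf 6 395 427) (node 460 (merge (leaf 5 363 364) (leaf 6 427 555)))))))) (node 589 (merge (node 558 (merge (leaf 0 523 559) (node 621 (merge (leaf 7 492 492) (leaf 6 525 653))))) (merge (node 492 (merge (leaf 7 492 621) (node 460 (merge (leaf 4 428 428) (leaf 4 460 556))))) (merge (node 588 (merge (node 556 (merge (leaf 7 459 492) (leaf 4 459 555))) (merge (node 556 (merge (leaf 7 459 492) (leaf 7 491 620))) (merge (node 556 (merge (leaf 4 459 555) (leaf 7 491 620))) (node 558 (merge (leaf 0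 523 559) (node 587 (merge (leaf 2 554 586) (node 555 (merge (leaf 4 491 620) (node 460 (merge (leaf 6 427 428) (leaf 6 459 492))))))))))))) (node 558 (merge (leaf 0 523 559) (node 621 (merge (leaf 6 525 653) (node 620 (merge (leaf 5 524 652) (node 588 (merge (leaf 7 491 556) (node 587 (merge (leaf 4 491 555) (leaf 2 554 586)))))))))))))))))))))))) (merge (node 493 (merge (node 558 (merge (leaf 3 524 559) (node 461 (merge (leaf 4 429 429) (leaf 4 461 590))))) (merge (node 461 (merge (node 430 (merge (leaf 6 429 462) (node 429 (merge (leaf 6 397 398) (node 556 (merge (leaf 5 428 524) (leaf 5 460 588))))))) (merge (node 460 (merge (leaf 7 428 428) (node 589 (merge (leaf 7 460 492) (node 588 (merge (leaf 5 460 556) (leaf 5 492 620))))))) (node 430 (merge (leaf 6 429 462) (node 429 (merge (leaf 6 397 398) (node 428 (merge (leaf 7 396 396) (leaf 7 428 460)))))))))) (node 588 (merge (node 620 (merge (leaf 6 492 556) (leaf 5 492 589))) (merge (node 589 (merge (leaf 5 492 620) (node 590 (merge (leaf 4 493 622) (node 559 (merge (leaf 1 556 558) (leaf 2 556 591))))))) (merge (node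 556 (merge (leaf 6 492 620) (node 558 (merge (leaf 3 524 559) (node 523 (merge (leaf 0 522 522) (node 491 (merge (leaf 3 490 490) (node 459 (merge (leaf 4 427 427) (leaf 7 459 492))))))))))) (node 492 (merge (node 460 (merge (leaf 4 428 428) (leaf 7 460 589))) (merge (node 491 (merge (leaf 0 490 490) (node 556 (merge (leaf 7 459 459) (node 558 (merge (leaf 3 524 559) (node 587 (merge (leaf 5 491 619) (node 586 (merge (leaf 2 553 585) (leaf 2 554 589))))))))))) (node 491 (merge (leaf 0 490 490) (node 459 (merge (leaf 7 459 556) (node 558 (merge (leaf 3 524 559) (node 523 (merge (leaf 0 522 522) (node 427 (merge (leaf 4 395 395) (node 428 (merge (leaf 6 395 396) (leaf 4 428 460))))))))))))))))))))))) (merge (node 492 (merge (node 589 (merge (leaf 7 492 621) (node 460 (merge (leaf 4 428 428) (leaf 7 460 493))))) (merge (node 589 (merge (leaf 7 492 621) (node 460 (merge (leaf 4 428 428) (leaf 4 460 556))))) (merge (node 460 (merge (node 428 (merge (leaf 4 428 557) (node 395 (merge (leaf 7 395 427) (node 396 (merge (leaf 7 363 363) (leaf 4 396 493))))))) (merge (node 428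 (merge (leaf 4 428 557) (node 397 (merge (leaf 6 396 429) (node 396 (merge (leaf 6 364 365) (node 395 (merge (leaf 7 363 363) (leaf 7 395 427))))))))) (node 461 (merge (node 491 (merge (leaf 1 459 462) (node 490 (merge (leaf 0 489 489) (leaf 3 490 523))))) (node 429 (merge (leaf 6 428 556) (node 397 (merge (leaf 5 364 365) (leaf 5 396 493)))))))))) (node 588 (merge (node 556 (merge (node 493 (merge (leaf 6 492 620) (node 461 (merge (leaf 5 428 429) (leaf 6 460 492))))) (node 491 (merge (leaf 7 459 459) (node 490 (merge (leaf 0 489 489) (leaf 3 490 523))))))) (merge (node 556 (merge (node 491 (merge (leaf 7 459 459) (node 490 (merge (leaf 0 489 489) (leaf 3 490 523))))) (node 621 (merge (leaf 4 492 589) (node 620 (merge (leaf 4 524 653) (node 619 (merge (leaf 5 491 587) (leaf 5 523 651))))))))) (merge (node 556 (merge (node 491 (merge (leaf 7 459 459) (node 490 (merge (leaf 0 489 489) (leaf 0 490 493))))) (node 587 (merge (leaf 5 491 619) (node 586 (merge (leaf 2 553 585) (node 558 (merge (leaf 1 554 555) (leaf 2 554 589))))))))) (node 589 (merge (leaf 7 492 621) (node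 493 (merge (leaf 5 492 620) (node 590 (merge (leaf 4 493 622) (node 461 (merge (leaf 4 461 558) (node 430 (merge (leaf 6 429 462) (node 429 (merge (leaf 5 396 397) (leaf 6 397 398))))))))))))))))))))) (merge (node 556 (merge (node 523 (merge (node 522 (merge (leaf 0 521 521) (leaf 0 522 558))) (node 491 (merge (leaf 3 490 490) (node 588 (merge (leaf 7 491 620) (node 459 (merge (leaf 4 427 427) (leaf 7 459 492))))))))) (merge (node 523 (merge (node 522 (merge (leaf 0 521 521) (leaf 0 522 558))) (node 491 (merge (leaf 3 490 490) (node 588 (merge (leaf 7 491 620) (node 459 (merge (leaf 4 427 427) (leaf 4 459 555))))))))) (merge (node 558 (merge (leaf 3 524 559) (node 590 (merge (node 493 (merge (leaf 7 493 622) (node 461 (merge (leaf 4 429 429) (leaf 4 461 557))))) (node 555 (merge (leaf 0 555 591) (node 587 (merge (leaf 1 554 586) (node 619 (merge (leaf 6 523 651) (node 492 (merge (leaf 5 459 460) (leaf 6 491 523))))))))))))) (node 588 (merge (node 493 (merge (leaf 6 492 620) (node 461 (merge (leaf 5 428 429) (leaf 6 460 492))))) (merge (node 620 (merge (leaf 6 492 493)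 (node 652 (merge (leaf 6 524 557) (node 651 (merge (leaf 5 523 619) (leaf 5 555 683))))))) (merge (node 492 (merge (node 493 (merge (leaf 6 460 461) (node 491 (merge (leaf 7 459 459) (leaf 0 490 490))))) (merge (node 459 (merge (leaf 7 459 491) (node 460 (merge (leaf 7 427 427) (node 587 (merge (leaf 5 459 555) (leaf 5 491 619))))))) (node 461 (merge (leaf 6 460 493) (node 460 (merge (leaf 6 428 429) (node 587 (merge (leaf 5 459 555) (leaf 5 491 619)))))))))) (node 492 (merge (node 459 (merge (leaf 7 459 491) (node 460 (merge (leaf 7 427 427) (node 587 (merge (leaf 5 459 555) (leaf 5 491 619))))))) (merge (node 619 (merge (leaf 5 491 587) (node 620 (merge (leaf 5 523 651) (node 652 (merge (leaf 6 524 557) (node 653 (merge (leaf 4 524 621) (leaf 4 556 685))))))))) (node 459 (merge (leaf 7 459 491) (node 460 (merge (leaf 7 427 427) (node 429 (merge (leaf 6 428 461) (node 428 (merge (leaf 6 396 397) (leaf 4 428 557)))))))))))))))))))) (merge (node 589 (merge (node 621 (merge (node 653 (merge (leaf 7 524 556) (node 652 (merge (leaf 5 524 620) (leaf 5 556 684))))) (merge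 (node 653 (merge (leaf 7 524 556) (node 654 (merge (leaf 4 525 622) (leaf 4 557 686))))) (node 620 (merge (leaf 5 524 652) (node 622 (merge (leaf 4 525 654) (node 590 (merge (leaf 4 493 493) (node 619 (merge (leaf 2 587 591) (leaf 2 586 618)))))))))))) (merge (node 493 (merge (node 590 (merge (leaf 4 493 622) (node 558 (merge (leaf 4 461 461) (leaf 3 524 559))))) (merge (node 590 (merge (leaf 4 493 622) (node 588 (merge (leaf 5 492 620) (node 559 (merge (leaf 1 556 558) (leaf 2 556 591))))))) (node 588 (merge (leaf 5 492 620) (node 461 (merge (leaf 5 460 556) (node 430 (merge (leaf 6 429 462) (node 429 (merge (leaf 6 397 398) (node 428 (merge (leaf 7 396 396) (leaf 7 428 460)))))))))))))) (merge (node 558 (merge (leaf 3 524 559) (node 621 (merge (leaf 6 525 653) (node 622 (merge (leaf 4 525 654) (node 590 (merge (leaf 7 493 493) (node 623 (merge (leaf 4 526 655) (node 588 (merge (leaf 0 587 587) (leaf 3 588 624))))))))))))) (node 620 (merge (node 652 (merge (leaf 5 524 621) (node 588 (merge (leaf 6 524 556) (leaf 6 556 684))))) (merge (node 558 (merge (leaf 3 524 559)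 (node 621 (merge (leaf 5 524 652) (leaf 6 525 653))))) (node 558 (merge (leaf 3 524 559) (node 523 (merge (leaf 0 522 522) (node 491 (merge (leaf 3 490 490) (node 588 (merge (leaf 7 491 556) (node 587 (merge (leaf 4 491 555) (leaf 2 554 586)))))))))))))))))) (node 589 (merge (node 492 (merge (leaf 7 492 621) (node 460 (merge (leaf 4 428 428) (leaf 7 460 493))))) (merge (node 621 (merge (leaf 7 492 492) (node 653 (merge (leaf 7 524 556) (node 652 (merge (leaf 5 524 620) (leaf 5 556 684))))))) (merge (node 621 (merge (node 653 (merge (leaf 7 524 556) (node 652 (merge (leaf 5 524 620) (leaf 5 556 684))))) (merge (node 653 (merge (leaf 7 524 556) (node 654 (merge (leaf 4 525 622) (leaf 4 557 686))))) (node 620 (merge (leaf 5 524 652) (node 622 (merge (leaf 4 525 654) (node 590 (merge (leaf 4 493 493) (node 619 (merge (leaf 2 587 591) (leaf 2 586 618)))))))))))) (node 588 (merge (node 493 (merge (leaf 5 492 620) (node 460 (merge (leaf 7 460 492) (node 461 (merge (leaf 7 428 428) (leaf 5 460 556))))))) (merge (node 590 (merge (node 493 (merge (leaf 5 492 620) (leaf 4 493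 622))) (merge (node 591 (merge (leaf 2 556 559) (node 620 (merge (leaf 5 492 493) (leaf 1 587 619))))) (merge (node 591 (merge (leaf 2 556 559) (node 623 (merge (leaf 0 588 624) (node 622 (merge (leaf 4 493 493) (leaf 0 587 587))))))) (node 591 (merge (leaf 2 556 559) (node 623 (merge (leaf 0 588 624) (node 587 (merge (leaf 0 587 622) (node 619 (merge (leaf 1 586 618) (leaf 1 587 620))))))))))))) (merge (node 590 (merge (node 591 (merge (leaf 2 556 559) (node 623 (merge (leaf 0 588 624) (node 622 (merge (leaf 4 493 493) (leaf 0 587 587))))))) (merge (node 493 (merge (leaf 4 493 622) (node 460 (merge (leaf 7 460 492) (node 461 (merge (leaf 7 428 428) (node 556 (merge (leaf 5 428 429) (leaf 5 460 588))))))))) (node 591 (merge (leaf 2 556 559) (node 556 (merge (leaf 3 555 555) (node 492 (merge (leaf 4 460 460) (node 491 (merge (leaf 7 459 459) (node 490 (merge (leaf 0 489 489) (leaf 3 490 523)))))))))))))) (node 556 (merge (node 492 (merge (leaf 4 460 460) (node 491 (merge (leaf 7 459 459) (node 490 (merge (leaf 0 489 489) (leaf 3 490 523))))))) (node 620 (merge (leaf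 6 524 652) (node 619 (merge (leaf 5 523 651) (node 590 (merge (leaf 1 587 591) (node 618 (merge (leaf 1 586 587) (leaf 2 585 617)))))))))))))))))))))))))))) nP_238 cP_238 11 (by decide +kernel)
def nP_239 : ℕ := 0x100000001700000000000000080000000000000000000000000000000000000000000000000000000000000000000000000000000000000000000000000000000000000000000
def cP_239 : ℕ := 0x5000000078000000ff000003fe000000ff000002f70000000f0000007f8000007e000001fe0000003800000028000000000000000000000000000000000000000000000000000000000000000000000000000000000000000000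
theorem lP_239 : S nP_239 cP_239 12 := S_of_chk [] trivial (node 588 (merge (node 556 (merge (node 493 (merge (leaf 6 492 620) (node 461 (merge (leaf 5 428 429) (leaf 6 460 492))))) (merge (node 620 (merge (leaf 6 492 493) (node 652 (merge (leaf 6 524 557) (node 651 (merge (leaf 5 523 619) (leaf 5 555 683))))))) (merge (node 492 (merge (node 493 (merge (leaf 6 460 461) (node 491 (merge (leaf 7 459 459) (leaf 0 490 490))))) (merge (node 461 (merge (leaf 6 460 493) (node 460 (merge (leaf 6 428 429) (node 557 (merge (leaf 4 428 428) (leaf 4 460 589))))))) (node 459 (merge (leaf 7 459 491) (node 460 (merge (leaf 7 427 427) (node 589 (merge (leaf 4 460 557) (leaf 4 492 621)))))))))) (node 620 (merge (node 652 (merge (leaf 6 524 557) (node 651 (merge (leaf 5 523 619) (leaf 5 555 683))))) (merge (node 653 (merge (leaf 4 524 621) (node 652 (merge (leaf 4 556 685) (node 651 (merge (leaf 5 523 619) (leaf 5 555 683))))))) (node 621 (merge (leaf 4 524 653) (node 492 (merge (leaf 4 492 589) (node 459 (merge (leaf 7 459 491) (node 460 (merge (leaf 7 427 427) (node 429 (merge (leaf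 6 428 461) (node 428 (merge (leaf 6 396 397) (leaf 4 428 557)))))))))))))))))))) (merge (node 523 (merge (node 491 (merge (leaf 3 490 490) (node 556 (merge (leaf 7 491 620) (node 492 (merge (leaf 7 459 459) (node 461 (merge (leaf 6 460 493) (node 460 (merge (leaf 6 428 429) (leaf 1 459 462))))))))))) (merge (node 558 (merge (leaf 0 523 559) (node 522 (merge (leaf 0 522 557) (node 553 (merge (leaf 1 521 554) (node 521 (merge (leaf 1 520 552) (node 489 (merge (leaf 3 488 488) (leaf 3 489 490))))))))))) (node 558 (merge (leaf 0 523 559) (node 522 (merge (leaf 0 522 557) (node 553 (merge (leaf 1 521 554) (node 521 (merge (leaf 1 520 552) (node 492 (merge (leaf 2 489 493) (node 520 (merge (leaf 2 488 491) (node 488 (merge (leaf 3 487 487) (leaf 3 488 489)))))))))))))))))) (merge (node 556 (merge (node 620 (merge (node 652 (merge (leaf 6 524 557) (node 651 (merge (leaf 5 523 619) (leaf 5 555 683))))) (merge (node 652 (merge (leaf 6 524 557) (node 653 (merge (leaf 4 524 621) (leaf 4 556 685))))) (node 621 (merge (leaf 4 524 653) (node 492 (merge (leaf 4 492 589) (node 619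 (merge (leaf 5 491 587) (leaf 5 523 651)))))))))) (merge (node 491 (merge (node 523 (merge (leaf 3 490 490) (leaf 7 491 620))) (merge (node 492 (merge (leaf 7 459 459) (node 490 (merge (leaf 0 489 489) (leaf 3 490 523))))) (node 492 (merge (leaf 7 459 459) (node 621 (merge (leaf 4 492 589) (node 620 (merge (leaf 4 524 653) (node 619 (merge (leaf 5 491 587) (leaf 5 523 651)))))))))))) (merge (node 492 (merge (node 491 (merge (leaf 7 459 459) (node 490 (merge (leaf 0 489 489) (leaf 3 490 523))))) (node 589 (merge (leaf 4 492 621) (node 557 (merge (leaf 4 460 460) (node 558 (merge (leaf 1 556 559) (node 587 (merge (leaf 2 554 586) (leaf 5 491 619))))))))))) (merge (node 523 (merge (node 491 (merge (leaf 7 491 620) (node 459 (merge (leaf 4 427 427) (leaf 7 459 492))))) (node 558 (merge (leaf 0 523 559) (node 522 (merge (leaf 0 522 557) (node 553 (merge (leaf 1 521 554) (node 521 (merge (leaf 1 520 552) (node 489 (merge (leaf 3 488 488) (leaf 3 489 490))))))))))))) (node 620 (merge (node 652 (merge (leaf 6 524 557) (node 653 (merge (leaf 4 524 621) (leaf 4 556 685))))) (merge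 (node 653 (merge (leaf 4 524 621) (node 652 (merge (leaf 4 556 685) (node 651 (merge (leaf 5 523 619) (leaf 5 555 683))))))) (node 523 (merge (leaf 7 491 491) (node 558 (merge (leaf 0 523 559) (node 522 (merge (leaf 0 522 557) (node 553 (merge (leaf 1 521 554) (node 521 (merge (leaf 1 520 552) (node 489 (merge (leaf 3 488 488) (leaf 3 489 490))))))))))))))))))))) (merge (node 589 (merge (node 557 (merge (node 620 (merge (leaf 5 492 493) (node 652 (merge (leaf 5 524 621) (leaf 6 556 684))))) (merge (node 621 (merge (leaf 7 492 492) (node 558 (merge (leaf 3 524 559) (leaf 6 525 653))))) (node 558 (merge (leaf 1 556 559) (node 493 (merge (leaf 5 492 620) (node 460 (merge (leaf 7 460 492) (node 461 (merge (leaf 7 428 428) (leaf 4 429 429)))))))))))) (merge (node 590 (merge (node 559 (merge (leaf 2 556 591) (node 558 (merge (leaf 1 556 557) (leaf 1 557 561))))) (merge (node 622 (merge (node 493 (merge (leaf 4 493 557) (leaf 7 493 558))) (node 623 (merge (leaf 0 587 587) (node 624 (merge (leaf 0 588 591) (leaf 3 589 625))))))) (merge (node 558 (merge (node 559 (merge (leaf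 1 557 561) (leaf 2 555 587))) (node 622 (merge (leaf 7 493 493) (node 623 (merge (leaf 4 526 655) (node 621 (merge (leaf 3 588 624) (leaf 5 525 653))))))))) (node 591 (merge (leaf 2 556 559) (node 623 (merge (leaf 0 588 624) (node 622 (merge (leaf 0 587 587) (node 557 (merge (leaf 4 493 493) (node 654 (merge (leaf 4 525 621) (leaf 7 557 686))))))))))))))) (merge (node 557 (merge (node 620 (merge (leaf 5 492 493) (node 652 (merge (leaf 5 524 621) (leaf 6 556 684))))) (merge (node 493 (merge (leaf 5 492 620) (node 460 (merge (leaf 7 460 492) (node 461 (merge (leaf 7 428 428) (node 590 (merge (leaf 4 461 558) (leaf 4 493 622))))))))) (node 621 (merge (leaf 7 492 492) (node 653 (merge (leaf 6 525 558) (node 654 (merge (leaf 4 525 622) (leaf 4 557 686)))))))))) (merge (node 590 (merge (node 559 (merge (leaf 2 556 591) (node 558 (merge (leaf 1 556 557) (leaf 1 557 561))))) (merge (node 591 (merge (leaf 2 556 559) (node 623 (merge (leaf 0 588 624) (node 587 (merge (leaf 0 587 622) (node 619 (merge (leaf 1 586 618) (leaf 1 587 620))))))))) (merge (node 493 (merge (node 557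 (merge (leaf 5 492 620) (leaf 4 493 622))) (merge (node 558 (merge (leaf 7 493 622) (node 559 (merge (leaf 1 557 561) (leaf 2 555 587))))) (node 557 (merge (leaf 5 492 620) (node 460 (merge (leaf 7 460 492) (node 461 (merge (leaf 7 428 428) (leaf 4 461 558)))))))))) (node 493 (merge (node 557 (merge (leaf 5 492 620) (leaf 4 493 622))) (merge (node 622 (merge (leaf 7 493 558) (node 623 (merge (leaf 0 587 587) (node 624 (merge (leaf 0 588 591) (leaf 3 589 625))))))) (node 557 (merge (leaf 5 492 620) (node 460 (merge (leaf 7 460 492) (node 461 (merge (leaf 7 428 428) (leaf 4 461 558)))))))))))))) (merge (node 557 (merge (node 492 (merge (leaf 7 492 621) (node 460 (merge (leaf 4 428 428) (leaf 7 460 493))))) (merge (node 621 (merge (leaf 7 492 492) (node 654 (merge (leaf 4 525 622) (node 653 (merge (leaf 4 557 686) (node 652 (merge (leaf 5 524 620) (leaf 5 556 684))))))))) (node 590 (merge (node 493 (merge (leaf 5 492 620) (leaf 4 493 622))) (merge (node 591 (merge (leaf 2 556 559) (node 620 (merge (leaf 5 492 493) (leaf 1 587 619))))) (merge (node 591 (merge (leaf 2 556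 559) (node 623 (merge (leaf 0 588 624) (node 622 (merge (leaf 4 493 493) (leaf 0 587 587))))))) (node 591 (merge (leaf 2 556 559) (node 623 (merge (leaf 0 588 624) (node 587 (merge (leaf 0 587 622) (node 619 (merge (leaf 1 586 618) (leaf 1 587 620)))))))))))))))) (merge (node 621 (merge (node 557 (merge (leaf 7 492 492) (node 558 (merge (leaf 1 556 559) (leaf 6 525 653))))) (merge (node 557 (merge (leaf 7 492 492) (node 622 (merge (leaf 4 525 654) (node 623 (merge (leaf 3 588 624) (node 620 (merge (leaf 3 587 587) (leaf 5 524 652))))))))) (node 559 (merge (node 558 (merge (leaf 0 523 523) (leaf 3 525 561))) (node 591 (merge (leaf 2 556 590) (node 623 (merge (leaf 6 527 655) (node 622 (merge (leaf 3 588 624) (node 587 (merge (leaf 0 586 586) (leaf 3 587 620)))))))))))))) (node 590 (merge (node 559 (merge (leaf 2 556 591) (node 558 (merge (leaf 0 523 523) (leaf 1 557 561))))) (merge (node 591 (merge (leaf 2 556 559) (node 623 (merge (leaf 0 588 624) (node 587 (merge (leaf 0 587 622) (node 619 (merge (leaf 1 586 618) (leaf 1 587 620))))))))) (merge (node 558 (merge (node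 559 (merge (leaf 1 557 561) (leaf 2 555 587))) (node 622 (merge (leaf 7 493 493) (node 623 (merge (leaf 4 526 655) (node 621 (merge (leaf 3 588 624) (leaf 5 525 653))))))))) (node 619 (merge (node 620 (merge (leaf 1 587 591) (node 618 (merge (leaf 2 585 617) (leaf 2 586 621))))) (merge (node 587 (merge (leaf 1 586 618) (node 622 (merge (leaf 0 587 623) (node 621 (merge (leaf 0 586 586) (node 558 (merge (leaf 7 493 493) (leaf 5 525 653))))))))) (node 591 (merge (leaf 1 587 620) (node 623 (merge (leaf 0 588 624) (node 622 (merge (leaf 0 587 587) (node 558 (merge (leaf 7 493 493) (leaf 4 526 655))))))))))))))))))))))) (merge (node 556 (merge (node 493 (merge (leaf 6 492 620) (node 461 (merge (leaf 5 428 429) (leaf 6 460 492))))) (merge (node 620 (merge (leaf 6 492 493) (node 653 (merge (leaf 4 524 621) (node 652 (merge (leaf 4 556 685) (node 651 (merge (leaf 5 523 619) (leaf 5 555 683))))))))) (merge (node 491 (merge (node 523 (merge (leaf 3 490 490) (leaf 7 491 620))) (merge (node 492 (merge (leaf 7 459 459) (node 490 (merge (leaf 0 489 489) (leaf 3 490 523))))) (node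 492 (merge (leaf 7 459 459) (node 621 (merge (leaf 4 492 589) (node 620 (merge (leaf 4 524 653) (node 619 (merge (leaf 5 491 587) (leaf 5 523 651)))))))))))) (node 492 (merge (node 491 (merge (leaf 7 459 459) (node 490 (merge (leaf 0 489 489) (leaf 3 490 523))))) (merge (node 493 (merge (leaf 6 460 461) (node 491 (merge (leaf 7 459 459) (leaf 0 490 490))))) (node 589 (merge (leaf 4 492 621) (node 590 (merge (node 493 (merge (leaf 6 460 461) (node 622 (merge (leaf 7 493 558) (node 587 (merge (leaf 5 491 619) (leaf 0 587 623))))))) (merge (node 559 (merge (leaf 2 556 591) (node 558 (merge (leaf 0 523 523) (leaf 1 557 561))))) (node 591 (merge (leaf 2 556 559) (node 623 (merge (leaf 0 588 624) (node 587 (merge (leaf 0 587 622) (node 619 (merge (leaf 5 491 556) (leaf 1 586 618))))))))))))))))))))) (merge (node 589 (merge (node 557 (merge (node 621 (merge (leaf 6 493 494) (node 558 (merge (leaf 3 524 559) (leaf 6 525 653))))) (node 620 (merge (leaf 5 492 493) (node 652 (merge (leaf 6 524 556) (leaf 6 556 684))))))) (merge (node 590 (merge (node 559 (merge (leaf 2 556 591)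 (node 558 (merge (leaf 1 556 557) (leaf 1 557 561))))) (merge (node 622 (merge (node 493 (merge (leaf 4 493 557) (leaf 7 493 558))) (node 623 (merge (leaf 0 587 587) (node 624 (merge (leaf 0 588 591) (leaf 3 589 625))))))) (merge (node 558 (merge (node 559 (merge (leaf 1 557 561) (leaf 2 555 587))) (node 622 (merge (leaf 7 493 493) (node 623 (merge (leaf 4 526 655) (node 621 (merge (leaf 3 588 624) (leaf 5 525 653))))))))) (node 591 (merge (leaf 2 556 559) (node 623 (merge (leaf 0 588 624) (node 622 (merge (leaf 0 587 587) (node 557 (merge (leaf 4 493 493) (node 654 (merge (leaf 4 525 621) (leaf 7 557 686))))))))))))))) (merge (node 590 (merge (node 559 (merge (leaf 2 556 591) (node 558 (merge (leaf 0 523 523) (leaf 1 556 557))))) (merge (node 493 (merge (node 620 (merge (leaf 6 492 556) (leaf 5 492 557))) (node 558 (merge (leaf 7 493 622) (node 461 (merge (leaf 4 429 429) (leaf 7 461 494))))))) (node 591 (merge (leaf 2 556 559) (node 623 (merge (leaf 0 588 624) (node 587 (merge (leaf 0 587 622) (node 619 (merge (leaf 1 586 618) (leaf 1 587 620)))))))))))) (merge (node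 590 (merge (node 559 (merge (leaf 2 556 591) (node 558 (merge (leaf 0 523 523) (leaf 1 557 561))))) (merge (node 591 (merge (leaf 2 556 559) (node 623 (merge (leaf 0 588 624) (node 587 (merge (leaf 0 587 622) (node 619 (merge (leaf 1 586 618) (leaf 1 587 620))))))))) (merge (node 558 (merge (node 559 (merge (leaf 1 557 561) (leaf 2 555 587))) (node 622 (merge (leaf 7 493 493) (node 623 (merge (leaf 4 526 655) (node 621 (merge (leaf 3 588 624) (leaf 5 525 653))))))))) (node 619 (merge (node 620 (merge (leaf 1 587 591) (node 618 (merge (leaf 2 585 617) (leaf 2 586 621))))) (merge (node 587 (merge (leaf 1 586 618) (node 622 (merge (leaf 0 587 623) (node 621 (merge (leaf 0 586 586) (node 558 (merge (leaf 7 493 493) (leaf 5 525 653))))))))) (node 591 (merge (leaf 1 587 620) (node 623 (merge (leaf 0 588 624) (node 622 (merge (leaf 0 587 587) (node 558 (merge (leaf 7 493 493) (leaf 4 526 655)))))))))))))))) (merge (node 620 (merge (node 557 (merge (leaf 5 492 493) (node 652 (merge (leaf 5 524 621) (leaf 6 556 684))))) (merge (node 556 (merge (leaf 6 492 493) (node 619 (merge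 (leaf 5 523 651) (node 590 (merge (leaf 1 587 591) (node 618 (merge (leaf 1 586 587) (leaf 2 585 617))))))))) (node 556 (merge (node 652 (merge (leaf 6 524 557) (node 651 (merge (leaf 5 523 619) (leaf 5 555 683))))) (merge (node 652 (merge (leaf 6 524 557) (node 653 (merge (leaf 4 524 621) (leaf 4 556 685))))) (node 619 (merge (leaf 5 523 651) (node 618 (merge (node 589 (merge (leaf 2 585 617) (node 590 (merge (leaf 1 586 587) (leaf 1 587 591))))) (merge (node 621 (merge (leaf 4 524 653) (node 649 (merge (leaf 1 617 650) (node 617 (merge (leaf 1 616 648) (node 585 (merge (leaf 3 584 584) (leaf 3 585 586))))))))) (node 621 (merge (leaf 4 524 653) (node 590 (merge (leaf 2 586 589) (node 622 (merge (leaf 2 587 591) (node 586 (merge (leaf 3 585 585) (leaf 3 586 587)))))))))))))))))))) (node 621 (merge (node 557 (merge (leaf 6 493 494) (node 558 (merge (leaf 1 556 559) (leaf 6 525 653))))) (merge (node 557 (merge (leaf 6 493 494) (node 653 (merge (leaf 7 524 556) (node 654 (merge (leaf 4 525 622) (leaf 4 557 686))))))) (merge (node 558 (merge (node 559 (merge (leaf 0 523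 523) (leaf 3 525 561))) (node 590 (merge (leaf 5 493 494) (node 653 (merge (leaf 5 525 622) (leaf 6 557 685))))))) (merge (node 557 (merge (leaf 6 493 494) (node 622 (merge (leaf 4 525 654) (node 623 (merge (leaf 3 588 624) (node 620 (merge (leaf 3 587 587) (leaf 5 524 652))))))))) (node 557 (merge (node 653 (merge (leaf 7 524 556) (node 686 (merge (leaf 4 557 654) (node 685 (merge (leaf 4 589 718) (node 684 (merge (leaf 5 556 652) (leaf 5 588 716))))))))) (merge (node 558 (merge (leaf 1 556 559) (node 523 (merge (leaf 0 522 522) (node 491 (merge (leaf 3 490 490) (node 620 (merge (leaf 7 491 556) (node 652 (merge (leaf 5 524 621) (leaf 6 556 684))))))))))) (node 558 (merge (leaf 1 556 559) (node 621 (merge (leaf 6 525 653) (node 587 (merge (leaf 2 554 586) (node 622 (merge (leaf 4 525 654) (node 623 (merge (leaf 0 587 590) (leaf 3 588 624))))))))))))))))))))))))) (node 492 (merge (node 556 (merge (node 491 (merge (leaf 7 459 459) (node 490 (merge (leaf 0 489 489) (leaf 3 490 523))))) (node 589 (merge (leaf 4 492 621) (node 557 (merge (leaf 4 460 460) (node 558 (merge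 (leaf 1 556 559) (node 587 (merge (leaf 2 554 586) (leaf 5 491 619))))))))))) (merge (node 460 (merge (node 428 (merge (leaf 4 428 557) (node 395 (merge (leaf 7 395 427) (node 396 (merge (leaf 7 363 363) (leaf 4 396 493))))))) (merge (node 428 (merge (leaf 4 428 557) (node 397 (merge (leaf 6 396 429) (node 396 (merge (leaf 6 364 365) (node 395 (merge (leaf 7 363 363) (leaf 7 395 427))))))))) (node 461 (merge (node 491 (merge (leaf 1 459 462) (node 490 (merge (leaf 0 489 489) (leaf 3 490 523))))) (node 429 (merge (leaf 6 428 556) (node 397 (merge (leaf 5 364 365) (leaf 5 396 493)))))))))) (merge (node 556 (merge (node 461 (merge (leaf 6 460 493) (node 460 (merge (leaf 6 428 429) (node 427 (merge (leaf 7 427 459) (node 428 (merge (leaf 3 427 462) (leaf 4 428 557))))))))) (merge (node 589 (merge (leaf 4 492 621) (node 557 (merge (leaf 4 460 460) (node 558 (merge (leaf 1 556 559) (node 587 (merge (leaf 2 554 586) (leaf 5 491 619))))))))) (node 589 (merge (leaf 4 492 621) (node 590 (merge (node 493 (merge (leaf 6 460 461) (node 622 (merge (leaf 7 493 558) (node 587 (merge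 (leaf 5 491 619) (leaf 0 587 623))))))) (merge (node 559 (merge (leaf 2 556 591) (node 558 (merge (leaf 0 523 523) (leaf 1 557 561))))) (node 591 (merge (leaf 2 556 559) (node 623 (merge (leaf 0 588 624) (node 587 (merge (leaf 0 587 622) (node 619 (merge (leaf 5 491 556) (leaf 1 586 618))))))))))))))))) (merge (node 556 (merge (node 491 (merge (leaf 7 459 459) (node 490 (merge (leaf 0 489 489) (leaf 3 490 523))))) (merge (node 493 (merge (leaf 6 460 461) (node 491 (merge (leaf 7 459 459) (leaf 0 490 490))))) (node 589 (merge (leaf 4 492 621) (node 590 (merge (node 493 (merge (leaf 6 460 461) (node 622 (merge (leaf 7 493 558) (node 587 (merge (leaf 5 491 619) (leaf 0 587 623))))))) (merge (node 559 (merge (leaf 2 556 591) (node 558 (merge (leaf 0 523 523) (leaf 1 557 561))))) (node 591 (merge (leaf 2 556 559) (node 623 (merge (leaf 0 588 624) (node 587 (merge (leaf 0 587 622) (node 619 (merge (leaf 5 491 556) (leaf 1 586 618))))))))))))))))) (merge (node 493 (merge (node 491 (merge (leaf 0 490 490) (node 462 (merge (leaf 2 459 494) (node 460 (merge (leaf 1 459 461) (node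 428 (merge (leaf 4 396 396) (leaf 4 428 557))))))))) (merge (node 557 (merge (node 589 (merge (leaf 7 460 460) (leaf 7 492 621))) (node 558 (merge (leaf 3 524 559) (node 590 (merge (leaf 4 461 461) (leaf 7 493 622))))))) (merge (node 491 (merge (leaf 0 490 490) (node 494 (merge (leaf 2 459 462) (node 523 (merge (leaf 1 490 522) (node 558 (merge (leaf 0 523 559) (node 461 (merge (leaf 4 429 429) (leaf 7 461 590))))))))))) (node 557 (merge (node 460 (merge (leaf 4 428 428) (leaf 7 460 589))) (merge (node 589 (merge (leaf 7 492 621) (node 559 (merge (leaf 1 556 558) (node 590 (merge (leaf 2 556 591) (leaf 4 493 622))))))) (node 491 (merge (leaf 0 490 490) (node 494 (merge (leaf 2 459 462) (node 523 (merge (leaf 1 490 522) (node 459 (merge (leaf 3 458 458) (node 427 (merge (leaf 4 395 395) (node 428 (merge (leaf 6 395 396) (leaf 4 428 460)))))))))))))))))))) (node 460 (merge (node 557 (merge (leaf 4 428 428) (node 589 (merge (leaf 4 460 556) (leaf 7 492 621))))) (merge (node 428 (merge (leaf 4 428 557) (node 395 (merge (leaf 7 395 427) (node 396 (merge (leaf 7 363 363)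 (leaf 4 396 493))))))) (node 461 (merge (node 429 (merge (leaf 6 428 556) (node 397 (merge (leaf 5 364 365) (leaf 5 396 493))))) (merge (node 462 (merge (leaf 1 459 491) (node 431 (merge (leaf 2 428 432) (node 459 (merge (leaf 2 427 430) (node 427 (merge (leaf 3 426 426) (leaf 7 427 556))))))))) (node 462 (merge (leaf 1 459 491) (node 431 (merge (leaf 2 428 432) (node 459 (merge (leaf 2 427 430) (node 426 (merge (leaf 3 426 427) (node 458 (merge (leaf 3 425 425) (node 493 (merge (leaf 0 457 457) (node 429 (merge (leaf 5 396 397) (leaf 4 429 558)))))))))))))))))))))))))))))))))) nP_239 cP_239 12 (by decide +kernel)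
def nP_240 : ℕ := 0x1000000100000000700000000000000000000000000000000000000000000000000000000000000000000000000000000000000000000000000000000000000000000000000000000000
def cP_240 : ℕ := 0x280000003c0000007c000000fe000003ff000000ef000002ff800000020000001a00000038000000380000002000000000000000000000000000000000000000000000000000000000000000000000000000000000000000000000000000
theorem lP_240 : S nP_240 cP_240 11 := S_of_chk [] trivial (node 556 (merge (node 492 (merge (node 459 (merge (leaf 7 459 491) (node 460 (merge (leaf 7 427 427) (node 587 (merge (leaf 5 459 555) (leaf 5 491 619))))))) (merge (node 619 (merge (leaf 5 491 587) (node 620 (merge (leaf 5 523 651) (node 652 (merge (leaf 6 524 557) (node 653 (merge (leaf 4 524 621) (leaf 4 556 685))))))))) (node 459 (merge (leaf 7 459 491) (node 460 (merge (leaf 7 427 427) (node 429 (merge (leaf 6 428 461) (node 428 (merge (leaf 6 396 397) (leaf 4 428 557)))))))))))) (merge (node 620 (merge (node 652 (merge (leaf 6 524 557) (node 651 (merge (leaf 5 523 619) (leaf 5 555 683))))) (merge (node 653 (merge (leaf 4 524 621)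 (node 652 (merge (leaf 4 556 685) (node 651 (merge (leaf 5 523 619) (leaf 5 555 683))))))) (node 621 (merge (leaf 4 524 653) (node 492 (merge (leaf 4 492 589) (node 459 (merge (leaf 7 459 491) (node 460 (merge (leaf 7 427 427) (node 429 (merge (leaf 6 428 461) (node 428 (merge (leaf 6 396 397) (leaf 4 428 557)))))))))))))))) (merge (node 555 (merge (node 554 (merge (leaf 2 521 553) (leaf 2 522 557))) (merge (node 492 (merge (node 459 (merge (leaf 7 459 491) (node 460 (merge (leaf 7 427 427) (leaf 5 459 587))))) (merge (node 460 (merge (leaf 5 459 587) (node 557 (merge (leaf 4 428 428) (leaf 4 460 589))))) (merge (node 459 (merge (leaf 7 459 491) (node 460 (merge (leaf 7 427 427) (node 429 (merge (leaf 6 428 461) (node 428 (merge (leaf 6 396 397) (leaf 4 428 557))))))))) (node 621 (merge (leaf 4 492 589) (node 620 (merge (leaf 4 524 653) (node 652 (merge (leaf 6 524 557) (node 684 (merge (leaf 7 555 587) (node 683 (merge (leaf 5 555 651) (leaf 5 587 715))))))))))))))) (node 589 (merge (node 554 (merge (leaf 0 553 553) (node 590 (merge (leaf 3 554 587) (leaf 3 555 591)))))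 (node 621 (merge (leaf 4 492 492) (node 653 (merge (leaf 4 524 620) (leaf 7 556 685)))))))))) (merge (node 492 (merge (node 587 (merge (leaf 5 491 619) (node 460 (merge (leaf 5 459 555) (node 557 (merge (leaf 4 428 428) (leaf 4 460 589))))))) (merge (node 459 (merge (leaf 7 459 491) (node 460 (merge (leaf 7 427 427) (node 589 (merge (leaf 4 460 557) (leaf 4 492 621))))))) (merge (node 459 (merge (leaf 7 459 491) (node 460 (merge (leaf 7 427 427) (node 587 (merge (leaf 5 459 555) (leaf 5 491 619))))))) (node 621 (merge (leaf 4 492 589) (node 620 (merge (leaf 4 524 653) (node 652 (merge (leaf 6 524 557) (node 587 (merge (leaf 5 491 619) (node 684 (merge (leaf 7 555 555) (node 717 (merge (leaf 4 588 685) (node 716 (merge (leaf 4 620 749) (node 715 (merge (leaf 5 587 683) (leaf 5 619 747))))))))))))))))))))) (merge (node 589 (merge (node 492 (merge (leaf 4 492 621) (node 459 (merge (leaf 7 459 491) (node 460 (merge (leaf 7 427 427) (leaf 4 460 557))))))) (merge (node 590 (merge (node 591 (merge (leaf 3 555 555) (leaf 2 556 559))) (merge (node 559 (merge (leaf 2 556 591)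 (node 558 (merge (leaf 1 556 557) (leaf 1 557 561))))) (merge (node 587 (merge (node 619 (merge (leaf 1 586 618) (node 651 (merge (leaf 6 523 555) (leaf 6 555 683))))) (node 622 (merge (leaf 0 587 623) (node 586 (merge (leaf 0 586 621) (node 558 (merge (leaf 2 554 557) (leaf 2 555 559))))))))) (node 591 (merge (leaf 3 555 555) (node 623 (merge (leaf 0 588 624) (node 587 (merge (leaf 0 587 622) (node 618 (merge (leaf 1 586 619) (node 586 (merge (leaf 1 585 617) (node 557 (merge (leaf 2 554 558) (leaf 2 553 585))))))))))))))))) (node 587 (merge (node 619 (merge (leaf 5 491 492) (node 651 (merge (leaf 6 523 555) (leaf 6 555 683))))) (merge (node 619 (merge (leaf 5 491 492) (node 590 (merge (leaf 1 586 618) (node 559 (merge (leaf 2 555 558) (leaf 2 556 591))))))) (node 586 (merge (node 554 (merge (leaf 3 553 553) (node 590 (merge (leaf 3 554 555) (node 559 (merge (leaf 2 555 558) (leaf 2 556 591))))))) (merge (node 617 (merge (leaf 1 585 618) (node 585 (merge (leaf 1 584 616) (node 553 (merge (leaf 3 552 552) (leaf 3 553 554))))))) (merge (node 617 (merge (leaf 1 585 618)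 (node 585 (merge (leaf 1 584 616) (node 555 (merge (leaf 2 552 584) (node 590 (merge (leaf 3 554 554) (leaf 3 555 591))))))))) (node 617 (merge (leaf 1 585 618) (node 585 (merge (leaf 1 584 616) (node 584 (merge (leaf 2 552 555) (node 552 (merge (leaf 3 551 551) (leaf 3 552 553))))))))))))))))))) (merge (node 589 (merge (node 621 (merge (leaf 4 492 492) (node 653 (merge (leaf 4 524 620) (leaf 7 556 685))))) (merge (node 492 (merge (leaf 4 492 621) (node 459 (merge (leaf 7 459 491) (node 460 (merge (leaf 7 427 427) (node 587 (merge (leaf 5 459 555) (leaf 5 491 619))))))))) (merge (node 590 (merge (node 591 (merge (leaf 3 555 555) (leaf 2 556 559))) (merge (node 555 (merge (leaf 3 555 591) (node 554 (merge (leaf 0 553 553) (leaf 3 554 587))))) (merge (node 559 (merge (leaf 2 556 591) (node 558 (merge (leaf 1 557 561) (leaf 2 555 587))))) (node 587 (merge (node 619 (merge (leaf 1 586 618) (node 651 (merge (leaf 5 523 620) (leaf 6 555 683))))) (node 622 (merge (leaf 0 587 623) (node 621 (merge (leaf 0 586 586) (node 558 (merge (leaf 2 555 559) (leaf 5 525 653)))))))))))))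 (node 587 (merge (node 619 (merge (leaf 5 491 492) (node 651 (merge (leaf 6 523 555) (leaf 5 523 620))))) (merge (node 619 (merge (leaf 5 491 492) (node 590 (merge (leaf 1 586 618) (node 559 (merge (leaf 2 555 558) (leaf 2 556 591))))))) (node 586 (merge (node 554 (merge (leaf 3 553 553) (node 590 (merge (leaf 3 554 555) (node 559 (merge (leaf 2 555 558) (leaf 2 556 591))))))) (merge (node 617 (merge (leaf 1 585 618) (node 585 (merge (leaf 1 584 616) (node 553 (merge (leaf 3 552 552) (leaf 3 553 554))))))) (merge (node 617 (merge (leaf 1 585 618) (node 585 (merge (leaf 1 584 616) (node 555 (merge (leaf 2 552 584) (node 590 (merge (leaf 3 554 554) (leaf 3 555 591))))))))) (node 617 (merge (leaf 1 585 618) (node 585 (merge (leaf 1 584 616) (node 584 (merge (leaf 2 552 555) (node 552 (merge (leaf 3 551 551) (leaf 3 552 553)))))))))))))))))))) (merge (node 587 (merge (node 619 (merge (leaf 5 491 492) (node 651 (merge (leaf 5 523 620) (leaf 6 555 683))))) (node 586 (merge (node 557 (merge (leaf 2 553 585) (node 558 (merge (leaf 1 555 559) (leaf 2 554 589))))) (merge (node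 585 (merge (leaf 2 553 557) (node 584 (merge (leaf 2 552 555) (node 552 (merge (leaf 3 551 551) (leaf 3 552 553))))))) (merge (node 554 (merge (node 555 (merge (leaf 2 521 553) (leaf 2 522 557))) (merge (node 557 (merge (leaf 2 522 555) (node 558 (merge (leaf 1 555 559) (leaf 2 554 589))))) (merge (node 589 (merge (leaf 3 553 553) (node 558 (merge (leaf 2 554 557) (node 559 (merge (leaf 3 525 561) (leaf 2 555 590))))))) (node 553 (merge (leaf 3 553 589) (node 552 (merge (leaf 0 551 551) (leaf 0 552 555))))))))) (node 553 (merge (node 554 (merge (leaf 2 521 555) (leaf 3 553 589))) (merge (node 555 (merge (leaf 2 521 554) (node 585 (merge (leaf 3 552 552) (leaf 2 552 584))))) (node 585 (merge (leaf 3 552 552) (node 617 (merge (leaf 1 584 616) (node 618 (merge (leaf 1 585 589) (node 521 (merge (leaf 4 489 489) (leaf 4 521 650)))))))))))))))))) (node 589 (merge (node 620 (merge (node 652 (merge (leaf 6 524 557) (node 651 (merge (leaf 5 523 619) (leaf 5 555 683))))) (merge (node 652 (merge (leaf 6 524 557) (node 653 (merge (leaf 4 524 621) (leaf 4 556 685))))) (node 621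 (merge (leaf 4 524 653) (node 619 (merge (leaf 5 523 651) (node 590 (merge (leaf 1 587 591) (leaf 2 586 618)))))))))) (merge (node 590 (merge (node 591 (merge (leaf 3 555 555) (leaf 2 556 559))) (merge (node 555 (merge (leaf 3 555 591) (node 554 (merge (leaf 0 553 553) (leaf 3 554 587))))) (node 622 (merge (node 623 (merge (leaf 0 587 587) (node 624 (merge (leaf 3 588 621) (leaf 3 589 625))))) (merge (node 587 (merge (leaf 0 587 623) (node 558 (merge (leaf 2 555 559) (node 557 (merge (leaf 2 554 586) (leaf 7 525 654))))))) (merge (node 558 (merge (node 559 (merge (leaf 1 557 561) (leaf 2 555 587))) (node 654 (merge (leaf 7 525 557) (node 653 (merge (leaf 5 525 621) (leaf 5 557 685))))))) (node 557 (merge (node 654 (merge (leaf 7 525 558) (leaf 7 557 686))) (merge (node 621 (merge (leaf 7 524 653) (leaf 4 525 654))) (node 558 (merge (leaf 1 556 559) (node 621 (merge (leaf 6 525 653) (node 623 (merge (leaf 3 588 624) (leaf 4 526 655))))))))))))))))) (merge (node 590 (merge (node 591 (merge (leaf 3 555 555) (leaf 2 556 559))) (merge (node 555 (merge (leaf 3 555 591) (node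 554 (merge (leaf 0 553 553) (leaf 3 554 587))))) (merge (node 559 (merge (leaf 2 556 591) (node 558 (merge (leaf 1 557 561) (leaf 2 555 587))))) (node 587 (merge (node 619 (merge (leaf 1 586 618) (node 651 (merge (leaf 5 523 620) (leaf 6 555 683))))) (node 622 (merge (leaf 0 587 623) (node 621 (merge (leaf 0 586 586) (node 558 (merge (leaf 2 555 559) (leaf 5 525 653))))))))))))) (merge (node 590 (merge (node 591 (merge (leaf 3 555 555) (leaf 2 556 559))) (merge (node 559 (merge (leaf 2 556 591) (node 558 (merge (leaf 1 556 557) (leaf 1 557 561))))) (merge (node 587 (merge (node 619 (merge (leaf 1 586 618) (node 651 (merge (leaf 6 523 555) (leaf 6 555 683))))) (node 622 (merge (leaf 0 587 623) (node 586 (merge (leaf 0 586 621) (node 558 (merge (leaf 2 554 557) (leaf 2 555 559))))))))) (node 591 (merge (leaf 3 555 555) (node 623 (merge (leaf 0 588 624) (node 587 (merge (leaf 0 587 622) (node 618 (merge (leaf 1 586 619) (node 586 (merge (leaf 1 585 617) (node 557 (merge (leaf 2 554 558) (leaf 2 553 585))))))))))))))))) (merge (node 621 (merge (node 653 (merge (leaf 7 524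 557) (leaf 7 556 685))) (merge (node 653 (merge (leaf 4 524 620) (leaf 7 556 685))) (node 620 (merge (node 652 (merge (leaf 6 524 557) (node 651 (merge (leaf 5 523 619) (leaf 5 555 683))))) (merge (node 557 (merge (leaf 5 524 652) (node 622 (merge (leaf 4 525 654) (node 587 (merge (leaf 0 586 586) (leaf 3 587 623))))))) (node 619 (merge (leaf 5 523 651) (node 618 (merge (leaf 2 585 617) (node 650 (merge (leaf 1 617 649) (node 586 (merge (leaf 3 585 585) (node 587 (merge (leaf 0 586 622) (node 682 (merge (leaf 6 554 555) (leaf 6 586 714))))))))))))))))))) (node 620 (merge (node 619 (merge (leaf 5 523 651) (node 590 (merge (leaf 1 587 591) (node 618 (merge (leaf 1 586 587) (leaf 2 585 617))))))) (merge (node 652 (merge (leaf 6 524 557) (node 685 (merge (leaf 4 556 653) (node 684 (merge (leaf 4 588 717) (node 683 (merge (leaf 5 555 651) (leaf 5 587 715))))))))) (node 652 (merge (leaf 6 524 557) (node 685 (merge (leaf 4 556 653) (node 684 (merge (leaf 4 588 717) (node 587 (merge (leaf 7 555 555) (node 716 (merge (leaf 7 587 619) (node 715 (merge (leaf 5 587 683) (leaf 5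 619 747)))))))))))))))))))))))))))))) nP_240 cP_240 11 (by decide +kernel)
def nP_241 : ℕ := 0x100000000700000000000000000000000000000000000000000000000000000000000000000000000000000000000000000000000000000000000000000000000000000000000
def cP_241 : ℕ := 0x280000003c0000007c000000ff000003ff000000ff000002ff800000020000003e00000078000000780000007000000050000000000000000000000000000000000000000000000000000000000000000000000000000000000000000000
theorem lP_241 : S nP_241 cP_241 12 := S_of_chk [(nP_240, cP_240, 11)] ⟨lP_240, trivial⟩ (node 588 (merge (node 556 (merge (node 620 (merge (leaf 6 492 493) (node 652 (merge (leaf 6 524 557) (node 651 (merge (leaf 5 523 619) (leaf 5 555 683))))))) (merge (node 620 (merge (leaf 6 492 493) (node 652 (merge (leaf 6 524 557) (node 653 (merge (leaf 4 524 621) (leaf 4 556 685))))))) (merge (node 620 (merge (node 652 (merge (leaf 6 524 557) (node 651 (merge (leaf 5 523 619) (leaf 5 555 683))))) (merge (node 652 (merge (leaf 6 524 557) (node 653 (merge (leaf 4 524 621) (leaf 4 556 685))))) (node 621 (merge (leaf 4 524 653) (node 492 (merge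 (leaf 4 492 589) (node 619 (merge (leaf 5 491 587) (leaf 5 523 651)))))))))) (merge (node 620 (merge (leaf 6 492 493) (node 621 (merge (leaf 4 524 653) (node 492 (merge (leaf 4 492 589) (node 619 (merge (leaf 5 491 587) (leaf 5 523 651))))))))) (node 492 (merge (node 491 (merge (leaf 7 459 459) (node 490 (merge (leaf 0 489 489) (leaf 0 490 493))))) (node 589 (merge (leaf 4 492 621) (node 460 (merge (leaf 4 460 557) (node 587 (merge (leaf 5 459 555) (leaf 5 491 619)))))))))))))) (merge (node 556 (merge (node 493 (merge (leaf 6 492 620) (node 461 (merge (leaf 5 428 429) (leaf 6 460 492))))) (merge (node 620 (merge (leaf 6 492 493) (node 652 (merge (leaf 6 524 557) (node 651 (merge (leaf 5 523 619) (leaf 5 555 683))))))) (merge (node 492 (merge (node 493 (merge (leaf 6 460 461) (node 491 (merge (leaf 7 459 459) (leaf 0 490 490))))) (merge (node 461 (merge (leaf 6 460 493) (node 460 (merge (leaf 6 428 429) (node 557 (merge (leaf 4 428 428) (leaf 4 460 589))))))) (node 459 (merge (leaf 7 459 491) (node 460 (merge (leaf 7 427 427) (node 589 (merge (leaf 4 460 557) (leaf 4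 492 621)))))))))) (node 620 (merge (node 652 (merge (leaf 6 524 557) (node 651 (merge (leaf 5 523 619) (leaf 5 555 683))))) (merge (node 653 (merge (leaf 4 524 621) (node 652 (merge (leaf 4 556 685) (node 651 (merge (leaf 5 523 619) (leaf 5 555 683))))))) (node 621 (merge (leaf 4 524 653) (node 492 (merge (leaf 4 492 589) (node 459 (merge (leaf 7 459 491) (node 460 (merge (leaf 7 427 427) (node 429 (merge (leaf 6 428 461) (node 428 (merge (leaf 6 396 397) (leaf 4 428 557)))))))))))))))))))) (merge (node 556 (merge (node 493 (merge (leaf 6 492 620) (node 461 (merge (leaf 5 428 429) (leaf 6 460 492))))) (merge (node 620 (merge (leaf 6 492 493) (node 652 (merge (leaf 6 524 557) (node 651 (merge (leaf 5 523 619) (leaf 5 555 683))))))) (merge (node 492 (merge (node 493 (merge (leaf 6 460 461) (node 491 (merge (leaf 7 459 459) (leaf 0 490 490))))) (merge (node 459 (merge (leaf 7 459 491) (node 460 (merge (leaf 7 427 427) (node 587 (merge (leaf 5 459 555) (leaf 5 491 619))))))) (node 461 (merge (leaf 6 460 493) (node 460 (merge (leaf 6 428 429) (node 587 (merge (leaf 5 459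 555) (leaf 5 491 619)))))))))) (node 492 (merge (node 459 (merge (leaf 7 459 491) (node 460 (merge (leaf 7 427 427) (node 587 (merge (leaf 5 459 555) (leaf 5 491 619))))))) (merge (node 619 (merge (leaf 5 491 587) (node 620 (merge (leaf 5 523 651) (node 652 (merge (leaf 6 524 557) (node 653 (merge (leaf 4 524 621) (leaf 4 556 685))))))))) (node 459 (merge (leaf 7 459 491) (node 460 (merge (leaf 7 427 427) (node 429 (merge (leaf 6 428 461) (node 428 (merge (leaf 6 396 397) (leaf 4 428 557)))))))))))))))) (merge (node 556 (merge (node 493 (merge (leaf 6 492 620) (node 461 (merge (leaf 5 428 429) (leaf 6 460 492))))) (merge (node 620 (merge (leaf 6 492 493) (node 652 (merge (leaf 6 524 557) (node 653 (merge (leaf 4 524 621) (leaf 4 556 685))))))) (merge (node 492 (merge (node 493 (merge (leaf 6 460 461) (node 491 (merge (leaf 7 459 459) (leaf 0 490 490))))) (merge (node 461 (merge (leaf 6 460 493) (node 460 (merge (leaf 6 428 429) (node 557 (merge (leaf 4 428 428) (leaf 4 460 589))))))) (node 459 (merge (leaf 7 459 491) (node 460 (merge (leaf 7 427 427) (node 589 (merge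 (leaf 4 460 557) (leaf 4 492 621)))))))))) (node 555 (merge (node 554 (merge (leaf 2 521 553) (leaf 2 522 557))) (merge (node 492 (merge (node 459 (merge (leaf 7 459 491) (node 460 (merge (leaf 7 427 427) (leaf 5 459 587))))) (merge (node 460 (merge (leaf 5 459 587) (node 557 (merge (leaf 4 428 428) (leaf 4 460 589))))) (merge (node 459 (merge (leaf 7 459 491) (node 460 (merge (leaf 7 427 427) (node 429 (merge (leaf 6 428 461) (node 428 (merge (leaf 6 396 397) (leaf 4 428 557))))))))) (node 621 (merge (leaf 4 492 589) (node 620 (merge (leaf 4 524 653) (node 652 (merge (leaf 6 524 557) (node 684 (merge (leaf 7 555 587) (node 683 (merge (leaf 5 555 651) (leaf 5 587 715))))))))))))))) (node 589 (merge (node 554 (merge (leaf 0 553 553) (node 590 (merge (leaf 3 554 587) (leaf 3 555 591))))) (node 621 (merge (leaf 4 492 492) (node 653 (merge (leaf 4 524 620) (leaf 7 556 685)))))))))))))) (merge (node 589 (merge (node 557 (merge (node 621 (merge (leaf 7 492 492) (node 558 (merge (leaf 1 556 559) (leaf 6 525 653))))) (merge (node 620 (merge (leaf 5 492 493) (node 652 (merge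 (leaf 5 524 621) (leaf 6 556 684))))) (node 493 (merge (leaf 5 492 620) (node 460 (merge (leaf 7 460 492) (node 461 (merge (leaf 7 428 428) (node 430 (merge (leaf 6 429 462) (node 429 (merge (leaf 6 397 398) (leaf 4 429 558)))))))))))))) (merge (node 557 (merge (node 620 (merge (leaf 5 492 493) (node 652 (merge (leaf 5 524 621) (leaf 6 556 684))))) (merge (node 493 (merge (leaf 5 492 620) (node 460 (merge (leaf 7 460 492) (node 461 (merge (leaf 7 428 428) (node 590 (merge (leaf 4 461 558) (leaf 4 493 622))))))))) (node 621 (merge (leaf 7 492 492) (node 622 (merge (leaf 4 525 654) (node 587 (merge (leaf 0 586 586) (node 623 (merge (leaf 0 587 590) (leaf 3 588 624)))))))))))) (merge (node 557 (merge (node 492 (merge (leaf 7 492 621) (node 460 (merge (leaf 4 428 428) (leaf 7 460 493))))) (merge (node 621 (merge (leaf 7 492 492) (node 654 (merge (leaf 4 525 622) (node 653 (merge (leaf 4 557 686) (node 652 (merge (leaf 5 524 620) (leaf 5 556 684))))))))) (node 590 (merge (node 493 (merge (leaf 5 492 620) (leaf 4 493 622))) (merge (node 591 (merge (leaf 2 556 559) (node 620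 (merge (leaf 5 492 493) (leaf 1 587 619))))) (merge (node 591 (merge (leaf 2 556 559) (node 623 (merge (leaf 0 588 624) (node 622 (merge (leaf 4 493 493) (leaf 0 587 587))))))) (node 591 (merge (leaf 2 556 559) (node 623 (merge (leaf 0 588 624) (node 587 (merge (leaf 0 587 622) (node 619 (merge (leaf 1 586 618) (leaf 1 587 620)))))))))))))))) (merge (node 590 (merge (node 559 (merge (leaf 2 556 591) (node 558 (merge (leaf 1 556 557) (leaf 1 557 561))))) (merge (node 591 (merge (leaf 2 556 559) (node 623 (merge (leaf 0 588 624) (node 587 (merge (leaf 0 587 622) (node 619 (merge (leaf 1 586 618) (leaf 1 587 620))))))))) (merge (node 493 (merge (node 557 (merge (leaf 5 492 620) (leaf 4 493 622))) (merge (node 558 (merge (leaf 7 493 622) (node 559 (merge (leaf 1 557 561) (leaf 2 555 587))))) (node 557 (merge (leaf 5 492 620) (node 460 (merge (leaf 7 460 492) (node 461 (merge (leaf 7 428 428) (leaf 4 461 558)))))))))) (node 493 (merge (node 557 (merge (leaf 5 492 620) (leaf 4 493 622))) (merge (node 622 (merge (leaf 7 493 558) (node 623 (merge (leaf 0 587 587) (node 624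 (merge (leaf 0 588 591) (leaf 3 589 625))))))) (node 557 (merge (leaf 5 492 620) (node 460 (merge (leaf 7 460 492) (node 461 (merge (leaf 7 428 428) (leaf 4 461 558)))))))))))))) (merge (node 557 (merge (node 621 (merge (leaf 7 492 492) (node 558 (merge (leaf 1 556 559) (leaf 6 525 653))))) (merge (node 492 (merge (leaf 7 492 621) (node 460 (merge (leaf 4 428 428) (leaf 7 460 493))))) (node 559 (merge (leaf 1 556 558) (node 590 (merge (leaf 2 556 591) (node 622 (merge (leaf 4 493 493) (node 587 (merge (leaf 0 587 623) (node 618 (merge (leaf 1 586 619) (node 586 (merge (leaf 1 585 617) (node 554 (merge (leaf 3 553 553) (leaf 3 554 555)))))))))))))))))) (merge (node 590 (merge (node 559 (merge (leaf 2 556 591) (node 558 (merge (leaf 1 557 561) (leaf 2 555 587))))) (merge (node 591 (merge (leaf 2 556 559) (node 623 (merge (leaf 0 588 624) (node 587 (merge (leaf 0 587 622) (node 619 (merge (leaf 1 586 618) (leaf 1 587 620))))))))) (merge (node 558 (merge (node 559 (merge (leaf 1 557 561) (leaf 2 555 587))) (node 622 (merge (leaf 7 493 493) (node 623 (merge (leaf 4 526 655)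 (node 621 (merge (leaf 3 588 624) (leaf 5 525 653))))))))) (merge (node 559 (merge (leaf 2 556 591) (node 558 (merge (leaf 1 557 561) (node 622 (merge (leaf 7 493 493) (node 623 (merge (leaf 4 526 655) (node 621 (merge (leaf 3 588 624) (leaf 5 525 653))))))))))) (node 619 (merge (node 620 (merge (leaf 1 587 591) (node 618 (merge (leaf 2 585 617) (leaf 2 586 621))))) (merge (node 591 (merge (leaf 1 587 620) (node 623 (merge (leaf 0 588 624) (node 622 (merge (leaf 0 587 587) (node 558 (merge (leaf 7 493 493) (leaf 4 526 655))))))))) (node 587 (merge (leaf 1 586 618) (node 622 (merge (leaf 0 587 623) (node 586 (merge (leaf 0 586 621) (node 554 (merge (leaf 3 553 553) (leaf 3 554 555))))))))))))))))) (node 590 (merge (node 559 (merge (leaf 2 556 591) (node 558 (merge (leaf 1 556 557) (leaf 1 557 561))))) (merge (node 591 (merge (leaf 2 556 559) (node 623 (merge (leaf 0 588 624) (node 587 (merge (leaf 0 587 622) (node 619 (merge (leaf 1 586 618) (leaf 1 587 620))))))))) (merge (node 557 (merge (node 621 (merge (leaf 7 492 492) (node 558 (merge (leaf 1 556 559) (leaf 6 525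 653))))) (merge (node 558 (merge (leaf 1 556 559) (node 622 (merge (leaf 7 525 654) (node 587 (merge (leaf 2 554 586) (leaf 0 587 623))))))) (node 621 (merge (leaf 7 492 492) (node 622 (merge (leaf 4 525 654) (node 587 (merge (leaf 0 586 586) (node 623 (merge (leaf 0 587 590) (leaf 3 588 624)))))))))))) (node 619 (merge (node 620 (merge (leaf 1 587 591) (node 618 (merge (leaf 2 585 617) (leaf 2 586 621))))) (merge (node 618 (merge (leaf 1 586 587) (node 620 (merge (leaf 1 587 591) (leaf 2 585 617))))) (merge (node 587 (merge (leaf 1 586 618) (node 622 (merge (leaf 0 587 623) (node 586 (merge (leaf 0 586 621) (node 554 (merge (leaf 3 553 553) (leaf 3 554 555))))))))) (node 591 (merge (leaf 1 587 620) (node 623 (merge (leaf 0 588 624) (node 622 (merge (leaf 0 587 587) (node 558 (merge (leaf 4 526 655) (node 557 (merge (leaf 7 525 654) (node 621 (merge (leaf 7 492 492) (leaf 6 525 653)))))))))))))))))))))))))))) (merge (node 589 (merge (node 492 (merge (node 621 (merge (leaf 4 492 556) (leaf 7 492 557))) (merge (node 557 (merge (leaf 7 492 621) (node 460 (merge (leaf 4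 428 428) (leaf 7 460 493))))) (merge (node 556 (merge (leaf 4 492 621) (node 493 (merge (leaf 6 460 461) (node 491 (merge (leaf 7 459 459) (leaf 0 490 490))))))) (node 556 (merge (node 491 (merge (leaf 7 459 459) (node 490 (merge (leaf 0 489 489) (leaf 0 490 493))))) (node 587 (merge (leaf 5 491 619) (node 460 (merge (leaf 5 459 555) (node 557 (merge (leaf 4 428 428) (leaf 4 460 589))))))))))))) (merge (node 557 (merge (node 492 (merge (leaf 7 492 621) (node 460 (merge (leaf 4 428 428) (leaf 4 460 556))))) (merge (node 559 (merge (leaf 1 556 558) (node 590 (merge (leaf 2 556 591) (node 622 (merge (leaf 4 493 493) (node 654 (merge (leaf 4 525 621) (leaf 7 557 686))))))))) (node 559 (merge (leaf 1 556 558) (node 590 (merge (leaf 2 556 591) (node 493 (merge (leaf 4 493 622) (node 460 (merge (leaf 7 460 492) (node 461 (merge (leaf 7 428 428) (leaf 5 460 556)))))))))))))) (merge (node 590 (merge (node 559 (merge (leaf 2 556 591) (node 558 (merge (leaf 1 556 557) (leaf 1 557 561))))) (merge (node 622 (merge (node 493 (merge (leaf 4 493 557) (leaf 7 493 558))) (node 623 (merge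 (leaf 0 587 587) (node 624 (merge (leaf 0 588 591) (leaf 3 589 625))))))) (merge (node 558 (merge (node 559 (merge (leaf 1 557 561) (leaf 2 555 587))) (node 622 (merge (leaf 7 493 493) (node 623 (merge (leaf 4 526 655) (node 621 (merge (leaf 3 588 624) (leaf 5 525 653))))))))) (node 591 (merge (leaf 2 556 559) (node 623 (merge (leaf 0 588 624) (node 622 (merge (leaf 0 587 587) (node 557 (merge (leaf 4 493 493) (node 654 (merge (leaf 4 525 621) (leaf 7 557 686))))))))))))))) (merge (node 590 (merge (node 559 (merge (leaf 2 556 591) (node 558 (merge (leaf 1 557 561) (leaf 2 555 587))))) (merge (node 591 (merge (leaf 2 556 559) (node 623 (merge (leaf 0 588 624) (node 587 (merge (leaf 0 587 622) (node 555 (merge (leaf 3 554 554) (leaf 3 555 556))))))))) (merge (node 558 (merge (node 559 (merge (leaf 1 557 561) (leaf 2 555 587))) (node 622 (merge (leaf 7 493 493) (node 623 (merge (leaf 4 526 655) (node 621 (merge (leaf 3 588 624) (leaf 5 525 653))))))))) (merge (node 559 (merge (leaf 2 556 591) (node 558 (merge (leaf 1 557 561) (node 622 (merge (leaf 7 493 493) (node 623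 (merge (leaf 4 526 655) (node 621 (merge (leaf 3 588 624) (leaf 5 525 653))))))))))) (node 622 (merge (node 623 (merge (leaf 0 587 587) (node 624 (merge (leaf 0 588 591) (leaf 3 589 625))))) (merge (node 558 (merge (leaf 7 493 493) (node 623 (merge (leaf 4 526 655) (node 621 (merge (leaf 3 588 624) (leaf 5 525 653))))))) (node 558 (merge (leaf 7 493 493) (node 621 (merge (leaf 5 525 653) (node 587 (merge (leaf 0 586 586) (node 555 (merge (leaf 3 554 554) (node 556 (merge (leaf 4 492 492) (leaf 3 555 591))))))))))))))))))) (merge (node 557 (merge (node 621 (merge (leaf 7 492 492) (node 558 (merge (leaf 1 556 559) (leaf 6 525 653))))) (merge (node 621 (merge (leaf 7 492 492) (node 653 (merge (leaf 7 524 556) (node 654 (merge (leaf 4 525 622) (leaf 4 557 686))))))) (node 590 (merge (node 559 (merge (leaf 1 556 558) (leaf 2 556 591))) (merge (node 558 (merge (leaf 1 556 559) (node 622 (merge (leaf 7 525 654) (node 587 (merge (leaf 2 554 586) (leaf 0 587 623))))))) (merge (node 591 (merge (leaf 2 556 559) (node 623 (merge (leaf 0 588 624) (node 587 (merge (leaf 0 587 622)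 (node 555 (merge (leaf 3 554 554) (leaf 3 555 556))))))))) (node 555 (merge (node 556 (merge (leaf 0 554 554) (leaf 3 555 591))) (merge (node 587 (merge (leaf 3 554 554) (node 622 (merge (leaf 0 587 623) (node 558 (merge (leaf 2 554 586) (leaf 7 525 654))))))) (node 591 (merge (leaf 3 555 556) (node 623 (merge (leaf 0 588 624) (node 622 (merge (leaf 0 587 587) (node 558 (merge (leaf 7 525 654) (leaf 4 526 655))))))))))))))))))) (node 493 (merge (node 590 (merge (node 558 (merge (leaf 7 493 622) (node 559 (merge (leaf 1 557 561) (leaf 2 556 591))))) (merge (node 558 (merge (leaf 7 493 622) (node 559 (merge (leaf 1 557 561) (leaf 2 555 587))))) (merge (node 559 (merge (leaf 2 556 591) (node 558 (merge (leaf 1 557 561) (leaf 2 555 587))))) (merge (node 622 (merge (leaf 7 493 558) (node 623 (merge (leaf 0 587 587) (node 624 (merge (leaf 0 588 591) (leaf 3 589 625))))))) (node 591 (merge (leaf 2 556 559) (node 623 (merge (leaf 0 588 624) (node 587 (merge (leaf 0 587 622) (node 555 (merge (leaf 3 554 554) (leaf 3 555 556)))))))))))))) (merge (node 461 (merge (node 429 (merge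 (leaf 4 429 558) (node 398 (merge (leaf 6 397 430) (node 397 (merge (leaf 6 365 366) (leaf 5 396 492))))))) (merge (node 429 (merge (node 396 (merge (leaf 7 396 428) (node 397 (merge (leaf 7 364 364) (leaf 5 396 492))))) (merge (node 398 (merge (leaf 6 397 430) (node 397 (merge (leaf 6 365 366) (leaf 5 396 492))))) (node 430 (merge (leaf 6 397 398) (node 557 (merge (leaf 6 429 462) (node 428 (merge (leaf 7 396 396) (leaf 7 428 460)))))))))) (node 558 (merge (node 590 (merge (leaf 4 461 557) (leaf 7 493 622))) (merge (node 559 (merge (leaf 3 525 561) (node 557 (merge (leaf 3 524 524) (leaf 1 556 589))))) (node 590 (merge (leaf 7 493 622) (node 559 (merge (leaf 3 525 561) (node 589 (merge (leaf 2 555 587) (leaf 2 556 591))))))))))))) (node 461 (merge (node 556 (merge (leaf 6 460 492) (leaf 5 460 557))) (merge (node 429 (merge (leaf 5 428 556) (node 398 (merge (leaf 6 397 430) (node 397 (merge (leaf 6 365 366) (node 396 (merge (leaf 7 364 364) (leaf 7 396 428))))))))) (node 429 (merge (node 396 (merge (leaf 7 396 428) (node 397 (merge (leaf 7 364 364) (leaf 5 396 492)))))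 (merge (node 398 (merge (leaf 6 397 430) (node 397 (merge (leaf 6 365 366) (leaf 5 396 492))))) (node 430 (merge (leaf 6 397 398) (node 557 (merge (leaf 6 429 462) (node 428 (merge (leaf 7 396 396) (leaf 7 428 460)))))))))))))))))))))) (merge (node 556 (merge (node 493 (merge (leaf 6 492 620) (node 461 (merge (leaf 5 428 429) (leaf 6 460 492))))) (merge (node 620 (merge (leaf 6 492 493) (node 653 (merge (leaf 4 524 621) (node 652 (merge (leaf 4 556 685) (node 651 (merge (leaf 5 523 619) (leaf 5 555 683))))))))) (merge (node 492 (merge (node 493 (merge (leaf 6 460 461) (node 491 (merge (leaf 7 459 459) (leaf 0 490 490))))) (merge (node 459 (merge (leaf 7 459 491) (node 460 (merge (leaf 7 427 427) (node 587 (merge (leaf 5 459 555) (leaf 5 491 619))))))) (node 461 (merge (leaf 6 460 493) (node 460 (merge (leaf 6 428 429) (node 587 (merge (leaf 5 459 555) (leaf 5 491 619)))))))))) (node 589 (merge (node 621 (merge (leaf 4 492 492) (node 653 (merge (leaf 4 524 620) (leaf 7 556 685))))) (merge (node 492 (merge (leaf 4 492 621) (node 459 (merge (leaf 7 459 491) (node 460 (merge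 (leaf 7 427 427) (node 587 (merge (leaf 5 459 555) (leaf 5 491 619))))))))) (merge (node 590 (merge (node 591 (merge (leaf 3 555 555) (leaf 2 556 559))) (merge (node 555 (merge (leaf 3 555 591) (node 554 (merge (leaf 0 553 553) (leaf 3 554 587))))) (merge (node 559 (merge (leaf 2 556 591) (node 558 (merge (leaf 1 557 561) (leaf 2 555 587))))) (node 587 (merge (node 619 (merge (leaf 1 586 618) (node 651 (merge (leaf 5 523 620) (leaf 6 555 683))))) (node 622 (merge (leaf 0 587 623) (node 621 (merge (leaf 0 586 586) (node 558 (merge (leaf 2 555 559) (leaf 5 525 653))))))))))))) (node 587 (merge (node 619 (merge (leaf 5 491 492) (node 651 (merge (leaf 6 523 555) (leaf 5 523 620))))) (merge (node 619 (merge (leaf 5 491 492) (node 590 (merge (leaf 1 586 618) (node 559 (merge (leaf 2 555 558) (leaf 2 556 591))))))) (node 586 (merge (node 554 (merge (leaf 3 553 553) (node 590 (merge (leaf 3 554 555) (node 559 (merge (leaf 2 555 558) (leaf 2 556 591))))))) (merge (node 617 (merge (leaf 1 585 618) (node 585 (merge (leaf 1 584 616) (node 553 (merge (leaf 3 552 552) (leaf 3 553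 554))))))) (merge (node 617 (merge (leaf 1 585 618) (node 585 (merge (leaf 1 584 616) (node 555 (merge (leaf 2 552 584) (node 590 (merge (leaf 3 554 554) (leaf 3 555 591))))))))) (node 617 (merge (leaf 1 585 618) (node 585 (merge (leaf 1 584 616) (node 584 (merge (leaf 2 552 555) (node 552 (merge (leaf 3 551 551) (leaf 3 552 553)))))))))))))))))))))))) (merge (node 556 (merge (node 493 (merge (leaf 6 492 620) (node 461 (merge (leaf 5 428 429) (leaf 6 460 492))))) (merge (node 620 (merge (leaf 6 492 493) (node 652 (merge (leaf 6 524 557) (node 651 (merge (leaf 5 523 619) (leaf 5 555 683))))))) (merge (node 492 (merge (node 493 (merge (leaf 6 460 461) (node 491 (merge (leaf 7 459 459) (leaf 0 490 490))))) (merge (node 459 (merge (leaf 7 459 491) (node 460 (merge (leaf 7 427 427) (node 587 (merge (leaf 5 459 555) (leaf 5 491 619))))))) (node 461 (merge (leaf 6 460 493) (node 460 (merge (leaf 6 428 429) (node 587 (merge (leaf 5 459 555) (leaf 5 491 619)))))))))) (node 587 (merge (node 619 (merge (leaf 5 491 492) (node 651 (merge (leaf 5 523 620) (leaf 6 555 683))))) (node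 586 (merge (node 557 (merge (leaf 2 553 585) (node 558 (merge (leaf 1 555 559) (leaf 2 554 589))))) (merge (node 585 (merge (leaf 2 553 557) (node 584 (merge (leaf 2 552 555) (node 552 (merge (leaf 3 551 551) (leaf 3 552 553))))))) (merge (node 554 (merge (node 555 (merge (leaf 2 521 553) (leaf 2 522 557))) (merge (node 557 (merge (leaf 2 522 555) (node 558 (merge (leaf 1 555 559) (leaf 2 554 589))))) (merge (node 589 (merge (leaf 3 553 553) (node 558 (merge (leaf 2 554 557) (node 559 (merge (leaf 3 525 561) (leaf 2 555 590))))))) (node 553 (merge (leaf 3 553 589) (node 552 (merge (leaf 0 551 551) (leaf 0 552 555))))))))) (node 553 (merge (node 554 (merge (leaf 2 521 555) (leaf 3 553 589))) (merge (node 555 (merge (leaf 2 521 554) (node 585 (merge (leaf 3 552 552) (leaf 2 552 584))))) (node 585 (merge (leaf 3 552 552) (node 617 (merge (leaf 1 584 616) (node 618 (merge (leaf 1 585 589) (node 521 (merge (leaf 4 489 489) (leaf 4 521 650)))))))))))))))))))))) (merge (node 620 (merge (node 556 (merge (leaf 6 492 493) (node 653 (merge (leaf 4 524 621) (node 652 (merge (leaf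 4 556 685) (node 651 (merge (leaf 5 523 619) (leaf 5 555 683))))))))) (merge (node 493 (merge (leaf 6 492 556) (node 557 (merge (leaf 5 492 589) (node 558 (merge (leaf 3 524 559) (node 461 (merge (leaf 4 429 429) (leaf 4 461 590))))))))) (merge (node 556 (merge (node 652 (merge (leaf 6 524 557) (node 651 (merge (leaf 5 523 619) (leaf 5 555 683))))) (merge (node 652 (merge (leaf 6 524 557) (node 653 (merge (leaf 4 524 621) (leaf 4 556 685))))) (node 619 (merge (leaf 5 523 651) (node 618 (merge (node 589 (merge (leaf 2 585 617) (node 590 (merge (leaf 1 586 587) (leaf 1 587 591))))) (merge (node 621 (merge (leaf 4 524 653) (node 649 (merge (leaf 1 617 650) (node 617 (merge (leaf 1 616 648) (node 585 (merge (leaf 3 584 584) (leaf 3 585 586))))))))) (node 621 (merge (leaf 4 524 653) (node 590 (merge (leaf 2 586 589) (node 622 (merge (leaf 2 587 591) (node 586 (merge (leaf 3 585 585) (leaf 3 586 587))))))))))))))))) (node 589 (merge (node 557 (merge (leaf 5 492 493) (node 652 (merge (leaf 5 524 621) (leaf 6 556 684))))) (merge (node 558 (merge (node 559 (merge (leaf 1 556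 557) (leaf 3 525 561))) (merge (node 559 (merge (leaf 3 525 561) (node 590 (merge (leaf 2 555 587) (leaf 2 556 591))))) (node 493 (merge (leaf 5 492 557) (node 590 (merge (leaf 7 493 622) (node 619 (merge (leaf 1 587 591) (node 618 (merge (leaf 1 586 587) (leaf 2 585 617)))))))))))) (merge (node 621 (merge (node 557 (merge (leaf 5 524 652) (node 558 (merge (leaf 1 556 559) (leaf 6 525 653))))) (merge (node 557 (merge (leaf 5 524 652) (node 622 (merge (leaf 4 525 654) (node 587 (merge (leaf 0 586 586) (leaf 3 587 623))))))) (node 590 (merge (node 619 (merge (leaf 1 587 591) (leaf 2 586 618))) (node 558 (merge (node 653 (merge (leaf 5 525 622) (leaf 6 557 685))) (node 559 (merge (leaf 1 557 561) (leaf 2 555 587)))))))))) (node 590 (merge (node 559 (merge (leaf 2 556 591) (node 558 (merge (leaf 1 557 561) (leaf 2 555 587))))) (merge (node 591 (merge (leaf 2 556 559) (node 623 (merge (leaf 0 588 624) (node 587 (merge (leaf 0 587 622) (node 619 (merge (leaf 1 586 618) (leaf 1 587 620))))))))) (merge (node 558 (merge (node 559 (merge (leaf 1 557 561) (leaf 2 555 587))) (node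 622 (merge (leaf 7 493 493) (node 623 (merge (leaf 4 526 655) (node 621 (merge (leaf 3 588 624) (leaf 5 525 653))))))))) (merge (node 559 (merge (leaf 2 556 591) (node 558 (merge (leaf 1 557 561) (node 622 (merge (leaf 7 493 493) (node 623 (merge (leaf 4 526 655) (node 621 (merge (leaf 3 588 624) (leaf 5 525 653))))))))))) (node 619 (merge (node 620 (merge (leaf 1 587 591) (node 618 (merge (leaf 2 585 617) (leaf 2 586 621))))) (merge (node 591 (merge (leaf 1 587 620) (node 623 (merge (leaf 0 588 624) (node 622 (merge (leaf 0 587 587) (node 558 (merge (leaf 7 493 493) (leaf 4 526 655))))))))) (node 587 (merge (leaf 1 586 618) (node 622 (merge (leaf 0 587 623) (node 586 (merge (leaf 0 586 621) (node 554 (merge (leaf 3 553 553) (leaf 3 554 555))))))))))))))))))))))))) (hyp 0))))))))))) nP_241 cP_241 12 (by decide +kernel)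
def nP_242 : ℕ := 0x700000000000000080000000000000000000000000000000000000000000000000000000000000000000000000000000000000000000000000000000000000000000
def cP_242 : ℕ := 0x80000003c0000003c0000003c000000df8000000f0000007f8000007f800001ff0000003f80000038000000380000000000000000000000000000000000000000000000000000000000000000000000000000000000
theorem lP_242 : S nP_242 cP_242 11 := S_of_chk [] trivial (node 492 (merge (node 460 (merge (node 428 (merge (node 429 (merge (leaf 6 396 397) (node 556 (merge (leaf 6 428 461) (node 555 (merge (leaf 5 427 523) (leaf 5 459 587))))))) (merge (node 429 (merge (leaf 6 396 397) (node 427 (merge (leaf 7 395 395) (node 462 (merge (leaf 0 427 430) (leaf 3 427 461))))))) (node 427 (merge (leaf 7 395 395) (node 556 (merge (leaf 7 427 459) (node 555 (merge (leaf 5 427 523) (leaf 5 459 587)))))))))) (merge (node 428 (merge (node 397 (merge (leaf 6 396 429) (node 396 (merge (leaf 6 364 365) (leaf 4 396 493))))) (merge (node 395 (merge (leaf 7 395 427) (node 396 (merge (leaf 7 363 363) (leaf 4 396 493))))) (node 429 (merge (leaf 6 396 397)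 (node 427 (merge (leaf 7 395 395) (node 462 (merge (leaf 0 427 430) (leaf 3 427 461)))))))))) (merge (node 428 (merge (node 397 (merge (leaf 6 396 429) (node 396 (merge (leaf 6 364 365) (leaf 4 396 493))))) (node 427 (merge (leaf 7 395 395) (node 556 (merge (leaf 7 427 459) (node 555 (merge (leaf 5 427 523) (leaf 5 459 587))))))))) (merge (node 428 (merge (node 397 (merge (leaf 6 396 429) (node 396 (merge (leaf 6 364 365) (leaf 4 396 493))))) (merge (node 493 (merge (leaf 4 396 396) (node 523 (merge (leaf 5 427 555) (node 522 (merge (leaf 2 490 494) (leaf 2 489 521))))))) (node 429 (merge (leaf 6 396 397) (node 556 (merge (leaf 6 428 461) (node 555 (merge (leaf 5 427 523) (leaf 5 459 587)))))))))) (merge (node 556 (merge (node 555 (merge (leaf 5 459 587) (node 554 (merge (leaf 1 522 523) (leaf 2 521 553))))) (node 459 (merge (leaf 7 427 427) (node 461 (merge (leaf 6 428 429) (node 493 (merge (leaf 6 460 588) (node 458 (merge (leaf 0 457 457) (leaf 0 458 494))))))))))) (node 555 (merge (node 523 (merge (leaf 5 427 428) (leaf 1 522 554))) (merge (node 556 (merge (leaf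 5 459 587) (node 427 (merge (leaf 7 427 459) (node 428 (merge (leaf 7 395 395) (node 461 (merge (leaf 3 427 462) (node 493 (merge (leaf 4 396 396) (leaf 6 460 588))))))))))) (node 554 (merge (leaf 1 522 523) (node 556 (merge (leaf 2 521 553) (node 587 (merge (leaf 5 459 460) (node 619 (merge (leaf 5 491 588) (leaf 6 523 651)))))))))))))))))) (merge (node 460 (merge (node 461 (merge (node 491 (merge (leaf 1 459 462) (node 490 (merge (leaf 0 489 489) (leaf 3 490 523))))) (node 429 (merge (leaf 6 428 556) (node 397 (merge (leaf 5 364 365) (leaf 6 396 428))))))) (merge (node 461 (merge (node 491 (merge (leaf 1 459 462) (node 490 (merge (leaf 0 489 489) (leaf 3 490 523))))) (node 429 (merge (leaf 6 428 556) (node 397 (merge (leaf 5 364 365) (leaf 5 396 493))))))) (merge (node 428 (merge (node 397 (merge (leaf 6 396 429) (node 396 (merge (leaf 6 364 365) (leaf 4 396 493))))) (merge (node 395 (merge (leaf 7 395 427) (node 396 (merge (leaf 7 363 363) (leaf 4 396 493))))) (node 429 (merge (leaf 6 396 397) (node 427 (merge (leaf 7 395 395) (node 430 (merge (leaf 0 427 462) (node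 459 (merge (leaf 1 426 458) (leaf 7 427 556)))))))))))) (node 523 (merge (node 555 (merge (leaf 5 427 428) (leaf 1 522 554))) (node 522 (merge (node 490 (merge (leaf 3 489 489) (leaf 3 490 491))) (merge (node 521 (merge (leaf 2 489 493) (node 552 (merge (leaf 1 520 553) (node 520 (merge (leaf 2 488 491) (leaf 1 519 551))))))) (node 521 (merge (leaf 2 489 493) (node 489 (merge (leaf 3 488 488) (leaf 3 489 490)))))))))))))) (merge (node 460 (merge (node 491 (merge (node 490 (merge (leaf 0 489 489) (leaf 0 490 493))) (node 461 (merge (leaf 1 459 462) (node 429 (merge (leaf 6 428 556) (node 397 (merge (leaf 5 364 365) (leaf 6 396 428))))))))) (merge (node 428 (merge (node 397 (merge (leaf 6 396 429) (node 396 (merge (leaf 6 364 365) (leaf 4 396 493))))) (merge (node 395 (merge (leaf 7 395 427) (node 396 (merge (leaf 7 363 363) (leaf 4 396 493))))) (node 429 (merge (leaf 6 396 397) (node 556 (merge (leaf 6 428 461) (node 427 (merge (leaf 7 395 395) (leaf 7 427 459)))))))))) (merge (node 461 (merge (node 491 (merge (leaf 1 459 462) (node 490 (merge (leaf 0 489 489) (leaf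 0 490 493))))) (merge (node 556 (merge (leaf 6 428 429) (node 427 (merge (leaf 7 427 459) (node 428 (merge (leaf 7 395 395) (leaf 3 427 462))))))) (node 556 (merge (leaf 6 428 429) (node 588 (merge (leaf 6 460 493) (node 459 (merge (leaf 7 427 427) (leaf 7 459 491)))))))))) (merge (node 428 (merge (node 397 (merge (leaf 6 396 429) (node 396 (merge (leaf 6 364 365) (leaf 4 396 493))))) (merge (node 395 (merge (leaf 7 395 427) (node 396 (merge (leaf 7 363 363) (leaf 4 396 493))))) (node 429 (merge (leaf 6 396 397) (node 427 (merge (leaf 7 395 395) (node 462 (merge (leaf 0 427 430) (leaf 3 427 461)))))))))) (merge (node 428 (merge (node 397 (merge (leaf 6 396 429) (node 396 (merge (leaf 6 364 365) (leaf 4 396 493))))) (merge (node 395 (merge (leaf 7 395 427) (node 396 (merge (leaf 7 363 363) (leaf 4 396 493))))) (node 429 (merge (leaf 6 396 397) (node 427 (merge (leaf 7 395 395) (node 430 (merge (leaf 0 427 462) (node 459 (merge (leaf 1 426 458) (leaf 7 427 556)))))))))))) (merge (node 461 (merge (node 429 (merge (leaf 6 428 556) (node 397 (merge (leaf 5 364 365) (leaf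 6 396 428))))) (merge (node 462 (merge (leaf 1 459 491) (node 431 (merge (leaf 2 428 432) (node 459 (merge (leaf 2 427 430) (node 427 (merge (leaf 3 426 426) (leaf 3 427 428))))))))) (node 462 (merge (leaf 1 459 491) (node 431 (merge (leaf 2 428 432) (node 459 (merge (leaf 2 427 430) (node 427 (merge (leaf 3 426 426) (leaf 7 427 556)))))))))))) (merge (node 461 (merge (node 429 (merge (leaf 6 428 556) (node 397 (merge (leaf 5 364 365) (leaf 5 396 493))))) (merge (node 462 (merge (leaf 1 459 491) (node 431 (merge (leaf 2 428 432) (node 459 (merge (leaf 2 427 430) (node 427 (merge (leaf 3 426 426) (leaf 7 427 556))))))))) (node 462 (merge (leaf 1 459 491) (node 431 (merge (leaf 2 428 432) (node 459 (merge (leaf 2 427 430) (node 426 (merge (leaf 3 426 427) (node 458 (merge (leaf 3 425 425) (node 493 (merge (leaf 0 457 457) (node 429 (merge (leaf 5 396 397) (leaf 4 429 558)))))))))))))))))) (node 461 (merge (node 491 (merge (leaf 1 459 462) (node 490 (merge (leaf 0 489 489) (leaf 0 490 493))))) (merge (node 462 (merge (leaf 1 459 491) (node 431 (merge (leaf 2 428 432) (node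 459 (merge (leaf 2 427 430) (node 427 (merge (leaf 3 426 426) (leaf 3 427 428))))))))) (merge (node 556 (merge (node 427 (merge (leaf 7 427 459) (node 428 (merge (leaf 7 395 395) (leaf 3 427 462))))) (node 587 (merge (leaf 5 459 555) (node 588 (merge (leaf 5 491 619) (node 493 (merge (leaf 6 460 461) (leaf 6 492 620))))))))) (node 428 (merge (node 396 (merge (leaf 4 396 493) (node 365 (merge (leaf 6 364 397) (node 364 (merge (leaf 6 332 333) (node 459 (merge (leaf 5 363 491) (node 427 (merge (leaf 5 331 332) (leaf 7 427 556))))))))))) (merge (node 396 (merge (leaf 4 396 493) (node 365 (merge (leaf 6 364 397) (node 364 (merge (leaf 6 332 333) (node 363 (merge (leaf 7 331 331) (leaf 7 363 395))))))))) (merge (node 396 (merge (node 395 (merge (leaf 7 363 363) (leaf 7 395 427))) (merge (node 365 (merge (leaf 6 364 397) (node 364 (merge (leaf 6 332 333) (node 459 (merge (leaf 5 363 491) (node 427 (merge (leaf 5 331 332) (leaf 7 427 556))))))))) (node 365 (merge (leaf 6 364 397) (node 364 (merge (leaf 6 332 333) (node 363 (merge (leaf 7 331 331) (leaf 7 363 395))))))))))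 (node 427 (merge (leaf 7 395 395) (node 556 (merge (leaf 7 427 459) (node 588 (merge (leaf 6 460 493) (node 621 (merge (leaf 4 492 589) (node 620 (merge (leaf 4 524 653) (node 619 (merge (leaf 5 491 587) (leaf 5 523 651))))))))))))))))))))))))))))) (merge (node 523 (merge (node 555 (merge (leaf 1 522 554) (node 587 (merge (leaf 6 491 619) (node 491 (merge (leaf 6 459 460) (leaf 3 490 490))))))) (merge (node 554 (merge (leaf 1 522 555) (node 522 (merge (leaf 1 521 553) (node 521 (merge (leaf 2 489 493) (node 489 (merge (leaf 3 488 488) (leaf 3 489 490))))))))) (merge (node 554 (merge (leaf 1 522 555) (node 522 (merge (leaf 1 521 553) (node 521 (merge (leaf 2 489 493) (node 520 (merge (leaf 2 488 491) (node 488 (merge (leaf 3 487 487) (leaf 3 488 489))))))))))) (node 558 (merge (leaf 0 523 559) (node 522 (merge (node 490 (merge (leaf 3 489 489) (leaf 3 490 491))) (merge (node 521 (merge (leaf 2 489 493) (node 552 (merge (leaf 1 520 553) (node 520 (merge (leaf 2 488 491) (leaf 1 519 551))))))) (node 521 (merge (leaf 2 489 493) (node 552 (merge (leaf 1 520 553) (node 520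 (merge (leaf 1 519 551) (node 488 (merge (leaf 3 487 487) (leaf 3 488 489)))))))))))))))))) (merge (node 523 (merge (node 555 (merge (leaf 1 522 554) (node 587 (merge (leaf 6 491 619) (node 460 (merge (leaf 5 427 428) (leaf 5 459 556))))))) (merge (node 522 (merge (node 490 (merge (leaf 3 489 489) (leaf 3 490 491))) (merge (node 553 (merge (leaf 1 521 554) (node 521 (merge (leaf 1 520 552) (node 491 (merge (leaf 3 490 490) (leaf 2 488 520))))))) (merge (node 553 (merge (leaf 1 521 554) (node 521 (merge (leaf 1 520 552) (node 489 (merge (leaf 3 488 488) (leaf 3 489 490))))))) (node 553 (merge (leaf 1 521 554) (node 521 (merge (leaf 1 520 552) (node 520 (merge (leaf 2 488 491) (node 488 (merge (leaf 3 487 487) (leaf 3 488 489))))))))))))) (node 556 (merge (node 491 (merge (leaf 3 490 490) (node 459 (merge (leaf 4 427 427) (leaf 7 459 588))))) (merge (node 588 (merge (node 621 (merge (leaf 4 492 589) (node 620 (merge (leaf 4 524 653) (node 619 (merge (leaf 5 491 587) (leaf 5 523 651))))))) (merge (node 587 (merge (leaf 5 491 619) (node 460 (merge (leaf 5 459 555) (node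 429 (merge (leaf 6 428 461) (node 428 (merge (leaf 6 396 397) (node 427 (merge (leaf 7 395 395) (leaf 7 427 459))))))))))) (merge (node 621 (merge (leaf 4 492 589) (node 620 (merge (leaf 4 524 653) (node 555 (merge (leaf 7 523 652) (node 460 (merge (leaf 5 427 428) (leaf 5 459 587))))))))) (node 621 (merge (leaf 4 492 589) (node 620 (merge (leaf 4 524 653) (node 652 (merge (leaf 7 523 555) (node 651 (merge (leaf 5 523 619) (leaf 5 555 683))))))))))))) (merge (node 491 (merge (leaf 3 490 490) (node 588 (merge (leaf 7 491 620) (node 587 (merge (leaf 5 491 619) (node 460 (merge (leaf 6 459 555) (node 429 (merge (leaf 6 428 461) (node 428 (merge (leaf 5 395 396) (leaf 6 396 397))))))))))))) (node 459 (merge (node 491 (merge (leaf 4 427 427) (leaf 3 490 490))) (merge (node 460 (merge (leaf 7 427 427) (node 555 (merge (leaf 5 427 428) (leaf 5 459 587))))) (node 460 (merge (node 555 (merge (leaf 5 427 428) (leaf 5 459 587))) (node 490 (merge (leaf 3 490 491) (node 489 (merge (leaf 3 489 522) (node 458 (merge (leaf 1 457 461) (node 488 (merge (leaf 1 456 457) (leaf 2 455 487)))))))))))))))))))))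 (merge (node 523 (merge (node 554 (merge (leaf 1 522 555) (node 522 (merge (leaf 1 521 553) (node 521 (merge (leaf 2 489 493) (node 489 (merge (leaf 3 488 488) (leaf 3 489 490))))))))) (merge (node 554 (merge (leaf 1 522 555) (node 522 (merge (leaf 1 521 553) (node 521 (merge (leaf 2 489 493) (node 520 (merge (leaf 2 488 491) (node 488 (merge (leaf 3 487 487) (leaf 3 488 489))))))))))) (merge (node 558 (merge (leaf 0 523 559) (node 522 (merge (node 490 (merge (leaf 3 489 489) (leaf 3 490 491))) (merge (node 521 (merge (leaf 2 489 493) (node 552 (merge (leaf 1 520 553) (node 520 (merge (leaf 2 488 491) (leaf 1 519 551))))))) (node 521 (merge (leaf 2 489 493) (node 552 (merge (leaf 1 520 553) (node 520 (merge (leaf 1 519 551) (node 488 (merge (leaf 3 487 487) (leaf 3 488 489)))))))))))))) (node 491 (merge (leaf 3 490 490) (node 459 (merge (node 556 (merge (leaf 4 427 427) (node 588 (merge (leaf 7 459 492) (leaf 7 491 620))))) (merge (node 555 (merge (leaf 1 522 554) (node 556 (merge (leaf 4 427 427) (leaf 4 459 588))))) (merge (node 555 (merge (leaf 1 522 554) (node 426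 (merge (leaf 7 426 458) (node 427 (merge (leaf 7 394 394) (node 396 (merge (leaf 6 395 428) (node 395 (merge (leaf 6 363 364) (leaf 4 395 492))))))))))) (node 555 (merge (leaf 1 522 554) (node 588 (merge (leaf 4 459 556) (node 587 (merge (leaf 4 491 620) (node 619 (merge (leaf 6 491 492) (node 618 (merge (leaf 5 490 586) (leaf 5 522 650))))))))))))))))))))) (node 460 (merge (node 461 (merge (node 491 (merge (leaf 1 459 462) (node 490 (merge (leaf 0 489 489) (leaf 3 490 523))))) (node 429 (merge (leaf 6 428 556) (node 397 (merge (leaf 5 364 365) (leaf 6 396 428))))))) (merge (node 428 (merge (node 397 (merge (leaf 6 396 429) (node 396 (merge (leaf 6 364 365) (leaf 4 396 493))))) (merge (node 395 (merge (leaf 7 395 427) (node 396 (merge (leaf 7 363 363) (leaf 4 396 493))))) (node 429 (merge (leaf 6 396 397) (node 556 (merge (leaf 6 428 461) (node 427 (merge (leaf 7 395 395) (leaf 7 427 459)))))))))) (merge (node 461 (merge (node 491 (merge (leaf 1 459 462) (node 490 (merge (leaf 0 489 489) (leaf 3 490 523))))) (merge (node 556 (merge (leaf 6 428 429) (node 427 (merge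 (leaf 7 427 459) (node 428 (merge (leaf 7 395 395) (leaf 3 427 462))))))) (node 556 (merge (leaf 6 428 429) (node 588 (merge (leaf 6 460 493) (node 459 (merge (leaf 7 427 427) (leaf 7 459 491)))))))))) (merge (node 461 (merge (node 491 (merge (leaf 1 459 462) (node 490 (merge (leaf 0 489 489) (leaf 3 490 523))))) (node 429 (merge (leaf 6 428 556) (node 397 (merge (leaf 5 364 365) (leaf 5 396 493))))))) (merge (node 428 (merge (node 397 (merge (leaf 6 396 429) (node 396 (merge (leaf 6 364 365) (leaf 4 396 493))))) (merge (node 395 (merge (leaf 7 395 427) (node 396 (merge (leaf 7 363 363) (leaf 4 396 493))))) (node 429 (merge (leaf 6 396 397) (node 427 (merge (leaf 7 395 395) (node 430 (merge (leaf 0 427 462) (node 459 (merge (leaf 1 426 458) (leaf 7 427 556)))))))))))) (merge (node 428 (merge (node 395 (merge (leaf 7 395 427) (node 396 (merge (leaf 7 363 363) (leaf 4 396 493))))) (merge (node 396 (merge (leaf 4 396 493) (node 365 (merge (leaf 6 364 397) (node 364 (merge (leaf 6 332 333) (node 491 (merge (leaf 5 363 459) (leaf 5 395 523))))))))) (merge (node 395 (merge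 (leaf 7 395 427) (node 396 (merge (leaf 7 363 363) (node 365 (merge (leaf 6 364 397) (node 364 (merge (leaf 6 332 333) (node 491 (merge (leaf 5 363 459) (leaf 5 395 523))))))))))) (node 427 (merge (leaf 7 395 395) (node 556 (merge (leaf 7 427 459) (node 461 (merge (leaf 3 427 462) (node 588 (merge (leaf 6 460 493) (node 621 (merge (leaf 4 492 589) (node 620 (merge (leaf 4 524 653) (node 619 (merge (leaf 5 491 587) (leaf 5 523 651))))))))))))))))))) (node 428 (merge (node 397 (merge (leaf 6 396 429) (node 396 (merge (leaf 6 364 365) (leaf 4 396 493))))) (merge (node 395 (merge (leaf 7 395 427) (node 396 (merge (leaf 7 363 363) (leaf 4 396 493))))) (node 427 (merge (leaf 7 395 395) (node 426 (merge (node 429 (merge (leaf 6 396 397) (node 461 (merge (leaf 0 425 425) (leaf 0 426 462))))) (merge (node 425 (merge (leaf 0 425 461) (node 456 (merge (leaf 1 424 457) (node 424 (merge (leaf 1 423 455) (node 392 (merge (leaf 3 391 391) (leaf 3 392 393))))))))) (merge (node 429 (merge (leaf 6 396 397) (node 458 (merge (leaf 1 425 457) (node 459 (merge (leaf 1 426 430) (node 425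 (merge (leaf 0 424 424) (node 393 (merge (leaf 3 392 392) (leaf 3 393 394))))))))))) (node 429 (merge (leaf 6 396 397) (node 462 (merge (leaf 0 426 461) (node 430 (merge (leaf 0 427 463) (node 458 (merge (leaf 1 425 457) (leaf 1 426 459)))))))))))))))))))))))))))))))) nP_242 cP_242 11 (by decide +kernel)

end Crest.Agent.H26Snaky
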