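import Crest.Agent.H26SnP015
import Crest.Agent.H26SnP017

/-! certificate data for S0047, part P 18 (computer generated) -/

set_option autoImplicit false
set_option maxRecDepth 100000

namespace Crest.Agent.H26Snaky

open T

def nP_243 : ℕ := 0x100000001600000000000000080000000000000000000000000000000000000000000000000000000000000000000000000000000000000000000000000000000000000000000
def cP_243 : ℕ := 0x280000007c000000fc000000ff000003ff000000ff000002ff8000001f0000007f8000007f800001ff8000007f8000007c000000380000000000000000000000000000000000000000000000000000000000000000000000000000000000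
theorem lP_243 : S nP_243 cP_243 13 := S_of_chk [(nP_234, cP_234, 9), (nP_235, cP_235, 11), (nP_237, cP_237, 4), (nP_238, cP_238, 11), (nP_239, cP_239, 12), (nP_241, cP_241, 12), (nP_242, cP_242, 11)] ⟨lP_234, lP_235, lP_237, lP_238, lP_239, lP_241, lP_242, trivial⟩ (node 524 (merge (node 523 (merge (node 558 (merge (leaf 0 523 559) (node 522 (merge (leaf 0 522 557) (node 490 (merge (leaf 3 489 489) (leaf 3 490 491))))))) (merge (node 554 (merge (leaf 1 522 555) (node 522 (merge (leaf 1 521 553) (node 558 (merge (leaf 0 522 557) (leaf 0 523 559))))))) (node 491 (merge (leaf 3 490 490) (node 459 (merge (node 556 (merge (leaf 4 427 427) (node 588 (merge (leaf 7 459 492) (leaf 7 491 620))))) (merge (node 555 (merge (leaf 1 522 554) (node 556 (merge (leaf 4 427 427) (leaf 4 459 588))))) (merge (node 555 (merge (leaf 1 522 554) (node 426 (merge (leaf 7 426 458) (node 427 (merge (leaf 7 394 394) (node 396 (merge (leaf 6 395 428) (node 395 (merge (leaf 6 363 364) (leaf 4 395 492))))))))))) (node 555 (merge (leaf 1 522 554) (node 588 (merge (leaf 4 459 556) (node 587 (merge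 (leaf 4 491 620) (node 619 (merge (leaf 6 491 492) (node 618 (merge (leaf 5 490 586) (leaf 5 522 650)))))))))))))))))))) (merge (node 523 (merge (node 558 (merge (leaf 0 523 559) (node 522 (merge (leaf 0 522 557) (node 490 (merge (leaf 3 489 489) (leaf 3 490 491))))))) (merge (node 554 (merge (leaf 1 522 555) (node 522 (merge (leaf 1 521 553) (node 558 (merge (leaf 0 522 557) (leaf 0 523 559))))))) (node 555 (merge (leaf 1 522 554) (node 491 (merge (leaf 3 490 490) (node 459 (merge (node 428 (merge (leaf 6 427 460) (node 427 (merge (leaf 6 395 396) (node 426 (merge (leaf 7 394 394) (leaf 7 426 458))))))) (merge (node 460 (merge (leaf 6 427 428) (node 587 (merge (leaf 6 459 492) (node 620 (merge (leaf 4 491 588) (node 619 (merge (leaf 4 523 652) (node 618 (merge (leaf 5 490 586) (leaf 5 522 650))))))))))) (merge (node 426 (merge (leaf 7 426 458) (node 427 (merge (leaf 7 394 394) (node 492 (merge (leaf 4 395 395) (node 587 (merge (leaf 6 459 460) (leaf 6 491 619))))))))) (node 426 (merge (leaf 7 426 458) (node 427 (merge (leaf 7 394 394) (node 396 (merge (leaf 6 395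 428) (node 395 (merge (leaf 6 363 364) (leaf 4 395 492)))))))))))))))))))) (merge (node 523 (merge (node 558 (merge (leaf 0 523 559) (node 522 (merge (leaf 0 522 557) (node 490 (merge (leaf 3 489 489) (leaf 3 490 491))))))) (merge (node 554 (merge (leaf 1 522 555) (node 522 (merge (leaf 1 521 553) (node 558 (merge (leaf 0 522 557) (leaf 0 523 559))))))) (node 491 (merge (leaf 3 490 490) (node 555 (merge (leaf 1 522 554) (node 587 (merge (node 620 (merge (leaf 4 491 588) (node 619 (merge (leaf 4 523 652) (node 618 (merge (leaf 5 490 586) (leaf 5 522 650))))))) (merge (node 588 (merge (leaf 4 491 620) (node 459 (merge (leaf 4 459 556) (node 428 (merge (leaf 6 427 460) (node 427 (merge (leaf 6 395 396) (node 426 (merge (leaf 7 394 394) (leaf 7 426 458))))))))))) (merge (node 618 (merge (leaf 5 490 586) (node 619 (merge (leaf 5 522 650) (node 556 (merge (leaf 6 523 651) (node 459 (merge (leaf 4 427 427) (leaf 4 459 588))))))))) (node 618 (merge (leaf 5 490 586) (node 619 (merge (leaf 5 522 650) (node 651 (merge (leaf 6 523 556) (node 652 (merge (leaf 4 523 620) (leaf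 4 555 684)))))))))))))))))))) (merge (hyp 0) (merge (node 523 (merge (node 558 (merge (leaf 0 523 559) (node 522 (merge (leaf 0 522 557) (node 490 (merge (leaf 3 489 489) (leaf 3 490 491))))))) (merge (node 491 (merge (leaf 3 490 490) (node 459 (merge (node 556 (merge (leaf 4 427 427) (node 588 (merge (leaf 7 459 492) (leaf 7 491 620))))) (merge (node 555 (merge (leaf 1 522 554) (node 556 (merge (leaf 4 427 427) (leaf 4 459 588))))) (merge (node 555 (merge (leaf 1 522 554) (node 460 (merge (leaf 6 427 428) (node 492 (merge (leaf 6 459 587) (node 426 (merge (leaf 7 426 458) (node 427 (merge (leaf 7 394 394) (leaf 4 395 395))))))))))) (node 555 (merge (leaf 1 522 554) (node 460 (merge (leaf 6 427 428) (node 587 (merge (leaf 6 459 492) (node 588 (merge (leaf 4 459 556) (leaf 4 491 620))))))))))))))) (merge (node 558 (merge (leaf 0 523 559) (node 522 (merge (leaf 0 522 557) (node 555 (merge (leaf 1 522 554) (node 489 (merge (leaf 3 489 490) (node 521 (merge (leaf 3 488 488) (node 556 (merge (leaf 0 520 520) (node 492 (merge (leaf 2 489 493) (node 460 (merge (leaf 5 427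 428) (leaf 5 459 587))))))))))))))))) (node 492 (merge (node 558 (merge (leaf 0 523 559) (node 522 (merge (leaf 0 522 557) (node 521 (merge (leaf 2 489 493) (node 520 (merge (leaf 2 488 491) (node 488 (merge (leaf 3 487 487) (leaf 3 488 489))))))))))) (node 555 (merge (leaf 1 522 554) (node 587 (merge (leaf 6 491 619) (node 460 (merge (leaf 5 427 428) (leaf 5 459 556))))))))))))) (merge (node 556 (merge (node 523 (merge (node 554 (merge (leaf 1 522 555) (node 522 (merge (leaf 1 521 553) (node 557 (merge (leaf 0 521 521) (leaf 0 522 558))))))) (node 491 (merge (leaf 3 490 490) (node 588 (merge (leaf 7 491 620) (node 459 (merge (leaf 4 427 427) (leaf 7 459 492))))))))) (merge (node 588 (merge (node 493 (merge (leaf 6 492 620) (node 461 (merge (leaf 6 460 492) (leaf 5 460 557))))) (merge (node 620 (merge (leaf 6 492 493) (node 653 (merge (leaf 4 524 621) (node 652 (merge (leaf 4 556 685) (node 651 (merge (leaf 5 523 619) (leaf 5 555 683))))))))) (merge (node 620 (merge (node 652 (merge (leaf 6 524 557) (node 651 (merge (leaf 5 523 619) (leaf 5 555 683))))) (merge (node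 652 (merge (leaf 6 524 557) (node 653 (merge (leaf 4 524 621) (leaf 4 556 685))))) (node 621 (merge (leaf 4 524 653) (node 492 (merge (leaf 4 492 589) (node 619 (merge (leaf 5 491 587) (leaf 5 523 651)))))))))) (node 492 (merge (node 493 (merge (leaf 6 460 461) (node 491 (merge (leaf 7 459 459) (leaf 0 490 490))))) (merge (node 589 (merge (leaf 4 492 621) (node 460 (merge (leaf 4 460 557) (node 587 (merge (leaf 5 459 555) (leaf 5 491 619))))))) (node 589 (merge (leaf 4 492 621) (node 460 (merge (leaf 4 460 557) (node 587 (merge (leaf 5 459 555) (leaf 5 491 619)))))))))))))) (merge (node 588 (merge (node 493 (merge (leaf 6 492 620) (node 461 (merge (leaf 5 428 429) (leaf 6 460 492))))) (merge (node 620 (merge (leaf 6 492 493) (node 523 (merge (leaf 7 491 491) (node 555 (merge (leaf 1 522 554) (leaf 7 523 652))))))) (merge (node 492 (merge (node 493 (merge (leaf 6 460 461) (node 491 (merge (leaf 7 459 459) (leaf 0 490 490))))) (node 587 (merge (leaf 5 491 619) (node 555 (merge (leaf 5 459 460) (node 554 (merge (leaf 1 522 523) (leaf 2 521 553))))))))) (node 491 (merge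 (node 523 (merge (leaf 3 490 490) (leaf 7 491 620))) (merge (node 459 (merge (leaf 7 459 492) (node 523 (merge (leaf 4 427 427) (leaf 4 459 555))))) (node 492 (merge (leaf 7 459 459) (node 621 (merge (leaf 4 492 589) (node 620 (merge (leaf 4 524 653) (node 619 (merge (leaf 5 491 587) (leaf 5 523 651)))))))))))))))) (merge (node 588 (merge (node 493 (merge (leaf 6 492 620) (node 461 (merge (leaf 5 428 429) (leaf 5 460 557))))) (merge (node 493 (merge (leaf 6 492 620) (node 461 (merge (leaf 5 428 429) (leaf 6 460 492))))) (merge (node 620 (merge (node 652 (merge (leaf 6 524 557) (node 651 (merge (leaf 5 523 619) (leaf 5 555 683))))) (merge (node 652 (merge (leaf 6 524 557) (node 653 (merge (leaf 4 524 621) (leaf 4 556 685))))) (node 621 (merge (leaf 4 524 653) (node 492 (merge (leaf 4 492 589) (node 619 (merge (leaf 5 491 587) (leaf 5 523 651)))))))))) (node 492 (merge (node 491 (merge (leaf 7 459 459) (node 490 (merge (leaf 0 490 493) (leaf 3 490 523))))) (merge (node 461 (merge (leaf 6 460 493) (node 460 (merge (leaf 6 428 429) (node 589 (merge (leaf 4 460 557) (leaf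 4 492 621))))))) (node 491 (merge (leaf 7 459 459) (node 523 (merge (leaf 3 490 490) (node 558 (merge (leaf 0 523 559) (node 557 (merge (leaf 0 522 522) (node 589 (merge (leaf 4 460 460) (leaf 7 492 621)))))))))))))))))) (merge (node 558 (merge (node 559 (merge (leaf 3 524 557) (leaf 3 525 561))) (merge (node 559 (merge (leaf 0 523 523) (leaf 3 525 561))) (node 590 (merge (node 622 (merge (leaf 7 493 493) (node 655 (merge (leaf 4 526 623) (node 654 (merge (leaf 4 558 687) (node 653 (merge (leaf 5 525 621) (leaf 5 557 685))))))))) (node 555 (merge (node 554 (merge (leaf 1 522 523) (leaf 2 521 553))) (merge (node 554 (merge (leaf 2 521 553) (leaf 2 522 557))) (node 557 (merge (leaf 0 555 591) (node 523 (merge (leaf 0 522 522) (node 587 (merge (leaf 1 554 586) (node 492 (merge (leaf 5 459 460) (leaf 6 491 619))))))))))))))))) (node 558 (merge (node 559 (merge (leaf 3 524 557) (leaf 3 525 561))) (merge (node 559 (merge (leaf 0 523 523) (leaf 3 525 561))) (node 555 (merge (node 554 (merge (leaf 2 521 553) (leaf 2 522 557))) (merge (node 554 (merge (leaf 1 522 523) (leaf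 2 521 553))) (node 590 (merge (node 622 (merge (leaf 7 493 493) (node 654 (merge (leaf 7 525 557) (node 655 (merge (leaf 4 526 623) (leaf 4 558 687))))))) (merge (node 622 (merge (leaf 7 493 493) (node 655 (merge (leaf 4 526 623) (node 654 (merge (leaf 4 558 687) (node 653 (merge (leaf 5 525 621) (leaf 5 557 685))))))))) (merge (node 591 (merge (leaf 0 555 557) (node 588 (merge (leaf 3 555 589) (node 620 (merge (leaf 6 492 493) (node 652 (merge (leaf 7 523 523) (node 653 (merge (leaf 4 524 621) (leaf 4 556 685))))))))))) (node 557 (merge (leaf 0 555 591) (node 587 (merge (leaf 1 554 586) (node 622 (merge (leaf 7 525 654) (node 623 (merge (leaf 4 526 655) (node 588 (merge (leaf 0 587 589) (node 621 (merge (leaf 3 587 620) (leaf 5 525 653))))))))))))))))))))))))))))) (merge (hyp 1) (merge (node 491 (merge (node 490 (merge (leaf 3 490 523) (node 492 (merge (leaf 0 489 489) (leaf 0 490 493))))) (merge (node 523 (merge (leaf 3 490 490) (node 558 (merge (leaf 0 523 559) (node 522 (merge (leaf 0 522 557) (node 554 (merge (leaf 1 521 553) (leaf 1 522 555))))))))) (merge (node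 492 (merge (node 490 (merge (leaf 0 489 489) (leaf 0 490 493))) (merge (node 460 (merge (node 557 (merge (leaf 4 428 428) (node 589 (merge (leaf 4 460 556) (leaf 7 492 621))))) (merge (node 428 (merge (leaf 4 428 557) (node 395 (merge (leaf 7 395 427) (node 396 (merge (leaf 7 363 363) (leaf 4 396 493))))))) (merge (node 428 (merge (node 397 (merge (leaf 6 396 429) (node 396 (merge (leaf 6 364 365) (leaf 4 396 493))))) (merge (node 395 (merge (leaf 7 395 427) (node 396 (merge (leaf 7 363 363) (leaf 4 396 493))))) (node 429 (merge (leaf 6 396 397) (node 556 (merge (leaf 6 428 461) (node 427 (merge (leaf 7 395 395) (leaf 7 427 459)))))))))) (node 556 (merge (node 459 (merge (leaf 7 459 588) (node 427 (merge (leaf 4 395 395) (leaf 7 427 460))))) (merge (node 461 (merge (leaf 6 428 429) (node 588 (merge (leaf 6 460 493) (node 589 (merge (leaf 4 460 557) (leaf 4 492 621))))))) (node 461 (merge (leaf 6 428 429) (node 459 (merge (leaf 7 427 427) (node 462 (merge (leaf 1 459 463) (node 430 (merge (leaf 2 427 431) (node 557 (merge (leaf 6 429 493) (leaf 4 460 589))))))))))))))))))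 (node 460 (merge (node 428 (merge (leaf 4 428 557) (node 397 (merge (leaf 6 396 429) (node 396 (merge (leaf 6 364 365) (node 395 (merge (leaf 7 363 363) (leaf 7 395 427))))))))) (merge (node 556 (merge (node 557 (merge (leaf 4 460 589) (node 555 (merge (leaf 2 522 554) (leaf 5 459 587))))) (node 459 (merge (leaf 7 459 588) (node 427 (merge (leaf 4 395 395) (leaf 7 427 460))))))) (node 461 (merge (node 429 (merge (leaf 6 428 556) (node 397 (merge (leaf 5 364 365) (leaf 6 396 428))))) (node 462 (merge (leaf 1 459 463) (node 490 (merge (leaf 1 458 459) (leaf 2 457 489))))))))))))) (node 492 (merge (node 556 (merge (node 459 (merge (leaf 7 459 588) (node 427 (merge (leaf 4 395 395) (leaf 4 427 523))))) (merge (node 459 (merge (leaf 7 459 588) (node 427 (merge (leaf 4 395 395) (leaf 7 427 460))))) (merge (node 555 (merge (node 554 (merge (leaf 1 522 523) (leaf 2 521 553))) (node 587 (merge (leaf 5 459 460) (node 619 (merge (leaf 5 491 588) (leaf 6 523 651))))))) (node 460 (merge (node 555 (merge (leaf 5 459 587) (node 554 (merge (leaf 1 522 523) (leaf 2 521 553))))) (node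 429 (merge (leaf 6 428 461) (node 428 (merge (leaf 6 396 397) (node 427 (merge (leaf 7 395 395) (leaf 7 427 459))))))))))))) (merge (node 557 (merge (node 589 (merge (leaf 7 492 621) (node 460 (merge (leaf 4 428 428) (leaf 7 460 493))))) (merge (node 558 (merge (leaf 3 524 559) (node 523 (merge (leaf 0 522 522) (node 555 (merge (leaf 1 522 554) (node 460 (merge (leaf 4 428 428) (leaf 6 459 587))))))))) (node 589 (merge (leaf 7 492 621) (node 558 (merge (leaf 3 524 559) (node 523 (merge (leaf 0 522 522) (node 555 (merge (leaf 1 522 554) (node 587 (merge (leaf 6 491 619) (node 586 (merge (leaf 2 554 588) (leaf 5 490 618)))))))))))))))) (merge (node 460 (merge (node 557 (merge (leaf 4 428 428) (node 589 (merge (leaf 4 460 556) (leaf 7 492 621))))) (merge (node 428 (merge (leaf 4 428 557) (node 395 (merge (leaf 7 395 427) (node 396 (merge (leaf 7 363 363) (leaf 4 396 493))))))) (merge (node 428 (merge (node 397 (merge (leaf 6 396 429) (node 396 (merge (leaf 6 364 365) (leaf 4 396 493))))) (merge (node 395 (merge (leaf 7 395 427) (node 396 (merge (leaf 7 363 363) (leaf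 4 396 493))))) (node 429 (merge (leaf 6 396 397) (node 556 (merge (leaf 6 428 461) (node 427 (merge (leaf 7 395 395) (leaf 7 427 459)))))))))) (node 556 (merge (node 459 (merge (leaf 7 459 588) (node 427 (merge (leaf 4 395 395) (leaf 7 427 460))))) (merge (node 461 (merge (leaf 6 428 429) (node 588 (merge (leaf 6 460 493) (node 589 (merge (leaf 4 460 557) (leaf 4 492 621))))))) (node 461 (merge (leaf 6 428 429) (node 459 (merge (leaf 7 427 427) (node 462 (merge (leaf 1 459 463) (node 430 (merge (leaf 2 427 431) (node 557 (merge (leaf 6 429 493) (leaf 4 460 589)))))))))))))))))) (merge (node 523 (merge (hyp 2) (node 558 (merge (leaf 0 523 559) (node 522 (merge (leaf 0 522 557) (node 521 (merge (leaf 2 489 493) (node 552 (merge (leaf 1 520 553) (node 520 (merge (leaf 2 488 491) (leaf 1 519 551))))))))))))) (node 558 (merge (node 559 (merge (leaf 0 523 523) (leaf 3 525 561))) (merge (node 559 (merge (leaf 3 524 557) (leaf 3 525 561))) (node 523 (merge (node 522 (merge (leaf 0 522 557) (node 521 (merge (leaf 2 489 493) (node 552 (merge (leaf 1 520 553) (node 520 (merge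 (leaf 2 488 491) (leaf 1 519 551))))))))) (merge (node 554 (merge (leaf 1 522 555) (node 522 (merge (leaf 1 521 553) (node 521 (merge (leaf 2 489 493) (leaf 2 488 520))))))) (node 555 (merge (leaf 1 522 554) (node 587 (merge (leaf 6 491 619) (node 586 (merge (leaf 5 490 618) (node 557 (merge (leaf 1 554 556) (node 589 (merge (leaf 2 554 588) (leaf 7 492 621)))))))))))))))))))))))))) (merge (hyp 3) (merge (node 556 (merge (node 523 (merge (node 491 (merge (leaf 3 490 490) (node 588 (merge (leaf 7 491 620) (node 459 (merge (leaf 4 427 427) (leaf 4 459 555))))))) (merge (node 522 (merge (node 554 (merge (leaf 1 521 553) (leaf 1 522 555))) (merge (node 521 (merge (leaf 0 521 557) (node 553 (merge (leaf 1 520 552) (leaf 1 521 554))))) (merge (node 521 (merge (leaf 0 521 557) (node 555 (merge (leaf 0 520 520) (leaf 1 522 554))))) (node 521 (merge (leaf 0 521 557) (node 520 (merge (leaf 0 520 555) (node 552 (merge (leaf 1 519 551) (leaf 1 520 553))))))))))) (node 490 (merge (leaf 3 490 491) (node 522 (merge (leaf 3 489 489) (node 521 (merge (leaf 0 521 557) (node 553 (merge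 (leaf 1 520 552) (leaf 1 521 554)))))))))))) (merge (node 588 (merge (node 493 (merge (leaf 6 492 620) (node 461 (merge (leaf 5 428 429) (leaf 6 460 492))))) (merge (node 620 (merge (leaf 6 492 493) (node 523 (merge (leaf 7 491 491) (node 555 (merge (leaf 1 522 554) (leaf 7 523 652))))))) (node 492 (merge (node 491 (merge (leaf 7 459 459) (node 490 (merge (leaf 0 489 489) (leaf 3 490 523))))) (merge (node 587 (merge (leaf 5 491 619) (node 555 (merge (leaf 5 459 460) (node 554 (merge (leaf 1 522 523) (leaf 2 521 553))))))) (node 459 (merge (leaf 7 459 491) (node 460 (merge (leaf 7 427 427) (node 587 (merge (leaf 5 459 555) (leaf 5 491 619))))))))))))) (merge (node 588 (merge (node 493 (merge (leaf 6 492 620) (node 461 (merge (leaf 5 428 429) (leaf 5 460 557))))) (merge (node 491 (merge (node 523 (merge (leaf 3 490 490) (leaf 7 491 620))) (merge (node 492 (merge (leaf 7 459 459) (node 490 (merge (leaf 0 489 489) (leaf 3 490 523))))) (node 492 (merge (leaf 7 459 459) (node 621 (merge (leaf 4 492 589) (node 620 (merge (leaf 4 524 653) (node 619 (merge (leaf 5 491 587)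 (leaf 5 523 651)))))))))))) (node 492 (merge (node 491 (merge (leaf 7 459 459) (node 490 (merge (leaf 0 489 489) (leaf 3 490 523))))) (node 461 (merge (leaf 6 460 493) (node 460 (merge (leaf 6 428 429) (node 589 (merge (leaf 4 460 557) (leaf 4 492 621)))))))))))) (merge (node 588 (merge (node 493 (merge (leaf 6 492 620) (node 461 (merge (leaf 6 460 492) (leaf 5 460 557))))) (merge (node 620 (merge (leaf 6 492 493) (node 653 (merge (leaf 4 524 621) (node 652 (merge (leaf 4 556 685) (node 651 (merge (leaf 5 523 619) (leaf 5 555 683))))))))) (merge (node 620 (merge (node 652 (merge (leaf 6 524 557) (node 651 (merge (leaf 5 523 619) (leaf 5 555 683))))) (merge (node 652 (merge (leaf 6 524 557) (node 653 (merge (leaf 4 524 621) (leaf 4 556 685))))) (node 621 (merge (leaf 4 524 653) (node 492 (merge (leaf 4 492 589) (node 619 (merge (leaf 5 491 587) (leaf 5 523 651)))))))))) (node 492 (merge (node 493 (merge (leaf 6 460 461) (node 491 (merge (leaf 7 459 459) (leaf 0 490 490))))) (merge (node 589 (merge (leaf 4 492 621) (node 460 (merge (leaf 4 460 557) (node 587 (merge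 (leaf 5 459 555) (leaf 5 491 619))))))) (node 589 (merge (leaf 4 492 621) (node 460 (merge (leaf 4 460 557) (node 587 (merge (leaf 5 459 555) (leaf 5 491 619)))))))))))))) (merge (node 588 (merge (node 493 (merge (leaf 6 492 620) (node 461 (merge (leaf 5 428 429) (leaf 5 460 557))))) (merge (node 493 (merge (leaf 6 492 620) (node 461 (merge (leaf 5 428 429) (leaf 6 460 492))))) (merge (node 620 (merge (node 652 (merge (leaf 6 524 557) (node 651 (merge (leaf 5 523 619) (leaf 5 555 683))))) (merge (node 652 (merge (leaf 6 524 557) (node 653 (merge (leaf 4 524 621) (leaf 4 556 685))))) (node 621 (merge (leaf 4 524 653) (node 492 (merge (leaf 4 492 589) (node 619 (merge (leaf 5 491 587) (leaf 5 523 651)))))))))) (node 589 (merge (node 621 (merge (leaf 4 492 492) (node 653 (merge (leaf 7 524 557) (leaf 7 556 685))))) (merge (node 492 (merge (leaf 4 492 621) (node 461 (merge (leaf 6 460 493) (node 460 (merge (leaf 6 428 429) (node 587 (merge (leaf 5 459 555) (leaf 5 491 619))))))))) (merge (node 587 (merge (node 492 (merge (leaf 5 491 619) (node 461 (merge (leaf 6 460 493)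 (node 460 (merge (leaf 6 428 429) (leaf 4 460 557))))))) (merge (node 555 (merge (node 554 (merge (leaf 1 522 523) (leaf 2 521 553))) (node 590 (merge (leaf 3 555 591) (node 622 (merge (leaf 0 587 623) (node 493 (merge (leaf 4 493 557) (node 492 (merge (leaf 5 459 460) (leaf 6 460 461))))))))))) (node 590 (merge (node 623 (merge (leaf 0 587 622) (node 591 (merge (leaf 2 556 559) (leaf 0 588 624))))) (node 619 (merge (leaf 1 586 618) (node 651 (merge (leaf 6 523 555) (leaf 6 555 683)))))))))) (node 590 (merge (node 591 (merge (leaf 3 555 555) (leaf 2 556 559))) (merge (node 591 (merge (leaf 2 556 559) (node 623 (merge (leaf 0 588 624) (node 587 (merge (leaf 0 587 622) (node 618 (merge (leaf 1 586 619) (node 586 (merge (leaf 1 585 617) (node 585 (merge (leaf 2 553 557) (node 553 (merge (leaf 3 552 552) (leaf 3 553 554))))))))))))))) (node 587 (merge (node 619 (merge (leaf 1 586 618) (node 651 (merge (leaf 6 523 555) (leaf 6 555 683))))) (merge (node 622 (merge (leaf 0 587 623) (node 586 (merge (leaf 0 586 621) (node 585 (merge (leaf 2 553 557) (node 555 (merge (leaf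 3 554 554) (leaf 2 552 584))))))))) (node 622 (merge (leaf 0 587 623) (node 586 (merge (leaf 0 586 621) (node 557 (merge (leaf 4 493 493) (leaf 2 553 585))))))))))))))))))))) (node 490 (merge (node 491 (merge (leaf 3 490 523) (node 492 (merge (leaf 0 489 489) (leaf 0 490 493))))) (merge (node 555 (merge (node 523 (merge (leaf 3 490 491) (leaf 1 522 554))) (merge (node 554 (merge (leaf 2 521 553) (leaf 2 522 557))) (node 491 (merge (leaf 3 490 523) (node 492 (merge (leaf 0 490 493) (node 460 (merge (leaf 5 459 587) (node 557 (merge (leaf 4 428 428) (leaf 4 460 589)))))))))))) (merge (node 492 (merge (node 491 (merge (leaf 0 489 489) (leaf 0 490 493))) (node 555 (merge (node 554 (merge (leaf 2 521 553) (leaf 2 522 557))) (node 460 (merge (leaf 5 459 587) (node 429 (merge (leaf 6 428 461) (node 428 (merge (leaf 6 396 397) (node 427 (merge (leaf 7 395 395) (leaf 7 427 459))))))))))))) (node 522 (merge (node 523 (merge (leaf 3 489 489) (node 554 (merge (leaf 1 521 553) (leaf 1 522 555))))) (merge (node 523 (merge (leaf 3 489 489) (node 521 (merge (leaf 0 521 557) (node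 555 (merge (leaf 0 520 520) (leaf 1 522 554))))))) (merge (node 523 (merge (leaf 3 489 489) (node 521 (merge (leaf 0 521 557) (node 553 (merge (leaf 1 520 552) (leaf 1 521 554))))))) (merge (node 523 (merge (leaf 3 489 489) (node 521 (merge (leaf 0 521 557) (node 520 (merge (leaf 0 520 555) (node 552 (merge (leaf 1 519 551) (leaf 1 520 553))))))))) (merge (node 554 (merge (node 555 (merge (leaf 1 522 523) (leaf 2 522 557))) (merge (node 555 (merge (leaf 2 521 553) (leaf 2 522 557))) (node 553 (merge (leaf 1 521 523) (node 585 (merge (leaf 5 457 458) (node 617 (merge (leaf 6 489 521) (leaf 5 489 586)))))))))) (node 554 (merge (node 555 (merge (leaf 2 521 553) (leaf 2 522 557))) (merge (node 555 (merge (leaf 2 522 557) (node 587 (merge (leaf 4 458 458) (node 619 (merge (leaf 4 490 586) (leaf 6 523 651))))))) (node 586 (merge (node 457 (merge (leaf 7 457 489) (node 458 (merge (leaf 7 425 425) (node 585 (merge (leaf 5 457 553) (leaf 5 489 617))))))) (merge (node 489 (merge (leaf 7 457 457) (node 618 (merge (leaf 7 489 521) (node 619 (merge (leaf 4 490 587) (leaf 4 522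 651))))))) (node 619 (merge (leaf 4 490 587) (node 618 (merge (leaf 4 522 651) (node 617 (merge (leaf 5 489 585) (leaf 5 521 649))))))))))))))))))))))))))))) (merge (node 523 (merge (node 558 (merge (leaf 0 523 559) (node 522 (merge (leaf 0 522 557) (node 490 (merge (leaf 3 489 489) (leaf 3 490 491))))))) (merge (node 554 (merge (leaf 1 522 555) (node 522 (merge (leaf 1 521 553) (node 558 (merge (leaf 0 522 557) (leaf 0 523 559))))))) (merge (node 554 (merge (leaf 1 522 555) (node 522 (merge (leaf 1 521 553) (node 490 (merge (leaf 3 489 489) (leaf 3 490 491))))))) (node 491 (merge (leaf 3 490 490) (node 459 (merge (node 556 (merge (leaf 4 427 427) (node 588 (merge (leaf 7 459 492) (leaf 7 491 620))))) (merge (node 555 (merge (leaf 1 522 554) (node 428 (merge (leaf 6 427 460) (node 427 (merge (leaf 6 395 396) (node 426 (merge (leaf 7 394 394) (leaf 7 426 458))))))))) (node 460 (merge (node 555 (merge (leaf 6 427 428) (node 554 (merge (leaf 1 522 525) (leaf 5 458 586))))) (merge (node 492 (merge (node 428 (merge (leaf 5 395 396) (leaf 4 428 557))) (merge (node 556 (merge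 (leaf 7 459 588) (node 461 (merge (leaf 6 428 429) (node 462 (merge (leaf 1 459 463) (node 430 (merge (leaf 2 427 431) (node 557 (merge (leaf 6 429 493) (leaf 4 460 589))))))))))) (node 428 (merge (leaf 5 395 396) (node 429 (merge (leaf 6 396 397) (node 430 (merge (leaf 1 427 431) (node 458 (merge (leaf 2 425 457) (leaf 2 426 461)))))))))))) (node 493 (merge (node 558 (merge (leaf 0 523 559) (node 590 (merge (leaf 7 493 622) (node 461 (merge (leaf 4 429 429) (leaf 4 461 557))))))) (node 555 (merge (leaf 1 522 554) (node 458 (merge (leaf 7 426 426) (node 457 (merge (leaf 0 457 492) (node 488 (merge (leaf 1 456 489) (node 456 (merge (leaf 1 455 487) (node 424 (merge (leaf 3 423 423) (leaf 3 424 425))))))))))))))))))))))))))) (merge (hyp 4) (merge (hyp 5) (hyp 6))))))))))))))) nP_243 cP_243 13 (by decide +kernel)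
def nP_244 : ℕ := 0x1000000010000000000000000c0000000000000000000000000000000000000000000000000000000000000000000000000000000000000000000000000000000000000000000
def cP_244 : ℕ := 0x280000007c000000fc000002ff000003ff00000eff00000eff80000cff000007ff8000003f800001ff8000007f8000007c000000780000003000000000000000000000000000000000000000000000000000000000000000000000000000
theorem lP_244 : S nP_244 cP_244 15 := S_of_chk [(nP_232, cP_232, 9), (nP_233, cP_233, 11), (nP_243, cP_243, 13)] ⟨lP_232, lP_233, lP_243, trivial⟩ (node 525 (merge (node 527 (merge (node 526 (merge (leaf 0 525 561) (node 524 (merge (leaf 0 524 559) (node 492 (merge (leaf 3 491 491) (leaf 3 492 493))))))) (merge (node 495 (merge (leaf 4 431 431) (node 430 (merge (leaf 7 430 559) (node 398 (merge (leaf 4 366 366) (leaf 4 398 494))))))) (node 526 (merge (leaf 0 525 561) (node 496 (merge (leaf 2 493 497) (node 495 (merge (leaf 4 431 431) (leaf 2 492 524)))))))))) (merge (node 527 (merge (node 495 (merge (leaf 4 431 431) (node 430 (merge (leaf 7 430 559) (node 398 (merge (leaf 4 366 366) (leaf 4 398 494)))))))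 (merge (node 526 (merge (leaf 0 525 561) (node 557 (merge (leaf 1 524 556) (node 494 (merge (leaf 5 429 430) (node 558 (merge (leaf 6 430 431) (leaf 5 461 589))))))))) (merge (node 526 (merge (leaf 0 525 561) (node 496 (merge (leaf 2 493 497) (node 495 (merge (leaf 4 431 431) (node 559 (merge (leaf 7 430 430) (node 591 (merge (leaf 6 495 623) (node 590 (merge (leaf 5 462 558) (leaf 5 494 622))))))))))))) (node 559 (merge (node 561 (merge (leaf 0 525 526) (node 562 (merge (leaf 3 527 563) (node 591 (merge (leaf 1 558 590) (node 623 (merge (leaf 6 495 496) (leaf 6 527 655))))))))) (merge (node 591 (merge (node 623 (merge (leaf 6 495 496) (leaf 6 527 655))) (node 495 (merge (leaf 7 462 494) (node 590 (merge (leaf 5 462 558) (leaf 5 494 622))))))) (node 561 (merge (leaf 0 525 526) (node 562 (merge (leaf 3 527 563) (node 594 (merge (leaf 0 559 595) (node 593 (merge (leaf 0 558 558) (node 625 (merge (leaf 7 528 657) (node 530 (merge (leaf 5 497 498) (leaf 2 527 531)))))))))))))))))))) (merge (node 461 (merge (node 460 (merge (node 495 (merge (leaf 0 460 496) (node 431 (merge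 (leaf 2 428 432) (leaf 4 431 527))))) (node 428 (merge (leaf 3 427 427) (node 493 (merge (leaf 7 428 557) (node 396 (merge (leaf 4 364 364) (leaf 7 396 429))))))))) (merge (node 460 (merge (node 495 (merge (leaf 0 460 496) (node 431 (merge (leaf 2 428 432) (leaf 4 431 527))))) (node 491 (merge (leaf 1 459 492) (node 459 (merge (leaf 1 458 490) (node 427 (merge (leaf 3 426 426) (leaf 3 427 428))))))))) (merge (node 460 (merge (node 428 (merge (leaf 3 427 427) (node 493 (merge (leaf 7 428 557) (node 396 (merge (leaf 4 364 364) (leaf 7 396 429))))))) (node 491 (merge (leaf 1 459 492) (node 459 (merge (leaf 1 458 490) (node 431 (merge (leaf 2 427 430) (leaf 2 428 432))))))))) (merge (node 527 (merge (node 526 (merge (leaf 0 525 561) (node 557 (merge (leaf 1 524 556) (node 493 (merge (leaf 6 429 430) (leaf 3 492 492))))))) (merge (node 495 (merge (leaf 4 431 431) (node 559 (merge (leaf 7 430 430) (node 590 (merge (leaf 5 462 558) (node 591 (merge (leaf 5 494 622) (node 623 (merge (leaf 6 495 496) (leaf 6 527 655))))))))))) (node 526 (merge (leaf 0 525 561) (node 557 (merge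 (leaf 1 524 556) (node 493 (merge (leaf 3 492 492) (node 558 (merge (leaf 4 429 429) (leaf 4 461 590)))))))))))) (node 526 (merge (node 527 (merge (leaf 0 525 561) (node 557 (merge (leaf 1 524 556) (node 493 (merge (leaf 6 429 430) (leaf 3 492 492))))))) (merge (node 527 (merge (leaf 0 525 561) (node 496 (merge (leaf 2 493 497) (node 460 (merge (leaf 0 460 495) (node 492 (merge (leaf 1 459 491) (leaf 3 492 493))))))))) (merge (node 493 (merge (node 558 (merge (leaf 4 429 429) (node 590 (merge (leaf 4 461 557) (leaf 7 493 622))))) (merge (node 429 (merge (leaf 4 429 558) (node 430 (merge (leaf 6 397 398) (node 428 (merge (leaf 7 396 396) (leaf 0 427 427))))))) (node 557 (merge (leaf 6 429 430) (node 460 (merge (leaf 7 428 428) (node 492 (merge (leaf 1 459 491) (leaf 7 460 589)))))))))) (node 527 (merge (leaf 0 525 561) (node 496 (merge (leaf 2 493 497) (node 495 (merge (leaf 0 460 460) (node 559 (merge (leaf 7 430 430) (node 591 (merge (leaf 6 495 623) (node 590 (merge (leaf 5 462 558) (leaf 5 494 622)))))))))))))))))))))) (merge (node 557 (merge (node 526 (merge (node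 527 (merge (leaf 1 524 556) (leaf 0 525 561))) (node 494 (merge (leaf 5 429 430) (node 589 (merge (leaf 5 461 558) (leaf 6 493 621))))))) (merge (node 493 (merge (node 461 (merge (leaf 6 429 430) (node 460 (merge (leaf 7 428 428) (node 492 (merge (leaf 1 459 491) (leaf 7 460 589))))))) (merge (node 430 (merge (leaf 6 429 461) (node 494 (merge (leaf 5 397 398) (leaf 5 429 526))))) (node 494 (merge (leaf 6 461 589) (node 492 (merge (leaf 2 459 491) (node 527 (merge (leaf 0 492 495) (leaf 3 492 526)))))))))) (merge (node 493 (merge (node 461 (merge (leaf 6 429 430) (node 590 (merge (leaf 4 461 558) (node 589 (merge (leaf 4 493 622) (node 588 (merge (leaf 5 460 556) (leaf 5 492 620))))))))) (merge (node 589 (merge (leaf 6 461 494) (node 590 (merge (leaf 4 493 622) (node 588 (merge (leaf 5 492 620) (node 559 (merge (leaf 1 556 558) (leaf 2 556 591))))))))) (node 461 (merge (leaf 6 429 430) (node 460 (merge (leaf 7 428 428) (node 491 (merge (leaf 1 459 492) (node 459 (merge (leaf 1 458 490) (node 458 (merge (leaf 0 458 494) (node 426 (merge (leaf 3 425 425) (leaf 3 426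 427)))))))))))))))) (merge (node 526 (merge (node 527 (merge (leaf 1 524 556) (leaf 0 525 561))) (merge (node 461 (merge (node 430 (merge (leaf 6 429 493) (leaf 5 429 494))) (merge (node 493 (merge (leaf 6 429 430) (node 558 (merge (leaf 4 429 429) (leaf 4 461 590))))) (merge (node 494 (merge (leaf 5 429 430) (node 558 (merge (leaf 7 429 429) (node 559 (merge (leaf 3 525 561) (leaf 4 462 591))))))) (node 558 (merge (node 493 (merge (leaf 4 429 429) (leaf 4 461 590))) (merge (node 494 (merge (leaf 7 429 429) (node 559 (merge (leaf 3 525 561) (leaf 4 462 591))))) (node 590 (merge (leaf 4 461 493) (node 494 (merge (leaf 6 462 495) (node 622 (merge (leaf 7 525 654) (node 623 (merge (leaf 4 494 591) (leaf 4 526 655)))))))))))))))) (node 527 (merge (leaf 1 524 556) (node 493 (merge (leaf 3 492 492) (node 461 (merge (leaf 6 429 430) (node 558 (merge (leaf 4 429 429) (leaf 4 461 590)))))))))))) (merge (node 493 (merge (node 461 (merge (leaf 6 429 430) (node 460 (merge (leaf 7 428 428) (node 492 (merge (leaf 1 459 491) (leaf 7 460 589))))))) (merge (node 461 (merge (leaf 6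 429 430) (node 590 (merge (leaf 4 461 558) (node 589 (merge (leaf 4 493 622) (node 588 (merge (leaf 5 460 556) (leaf 5 492 620))))))))) (merge (node 461 (merge (leaf 6 429 430) (node 428 (merge (leaf 7 428 460) (node 429 (merge (leaf 7 396 396) (node 558 (merge (leaf 4 429 526) (leaf 4 461 590))))))))) (node 589 (merge (node 622 (merge (leaf 4 493 590) (node 621 (merge (leaf 4 525 654) (node 620 (merge (leaf 5 492 588) (leaf 5 524 652))))))) (merge (node 492 (merge (leaf 7 460 460) (node 526 (merge (leaf 3 492 527) (node 622 (merge (leaf 4 493 590) (node 621 (merge (leaf 4 525 654) (node 558 (merge (leaf 6 525 653) (node 559 (merge (leaf 3 525 561) (leaf 1 556 588))))))))))))) (merge (node 492 (merge (leaf 7 460 460) (node 526 (merge (leaf 3 492 527) (node 622 (merge (leaf 4 493 590) (node 621 (merge (leaf 4 525 654) (node 653 (merge (leaf 6 525 558) (node 652 (merge (leaf 5 524 620) (leaf 5 556 684))))))))))))) (merge (node 492 (merge (leaf 7 460 460) (node 526 (merge (leaf 3 492 527) (node 620 (merge (leaf 5 492 588) (node 621 (merge (leaf 5 524 652) (node 653 (merge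 (leaf 6 525 558) (node 654 (merge (leaf 4 525 622) (leaf 4 557 686))))))))))))) (node 492 (merge (leaf 7 460 460) (node 527 (merge (leaf 3 492 526) (node 588 (merge (leaf 5 492 620) (node 559 (merge (leaf 1 556 558) (node 591 (merge (leaf 2 556 590) (node 623 (merge (leaf 6 495 496) (leaf 6 527 655)))))))))))))))))))))) (node 526 (merge (node 527 (merge (leaf 1 524 556) (leaf 0 525 561))) (merge (node 527 (merge (leaf 0 525 561) (node 493 (merge (leaf 3 492 492) (node 589 (merge (leaf 6 461 494) (node 622 (merge (leaf 4 493 590) (node 621 (merge (leaf 4 525 654) (node 620 (merge (leaf 5 492 588) (leaf 5 524 652))))))))))))) (node 589 (merge (node 621 (merge (leaf 6 493 494) (node 653 (merge (leaf 6 525 558) (node 652 (merge (leaf 5 524 620) (leaf 5 556 684))))))) (merge (node 621 (merge (leaf 6 493 494) (node 653 (merge (leaf 6 525 558) (node 654 (merge (leaf 4 525 622) (leaf 4 557 686))))))) (merge (node 621 (merge (leaf 6 493 494) (node 622 (merge (leaf 4 525 654) (node 493 (merge (leaf 4 493 590) (node 620 (merge (leaf 5 492 588) (leaf 5 524 652))))))))) (node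 588 (merge (node 620 (merge (leaf 5 492 493) (node 652 (merge (leaf 6 524 556) (leaf 6 556 684))))) (merge (node 558 (merge (leaf 1 556 559) (node 493 (merge (leaf 5 492 620) (node 461 (merge (leaf 4 429 429) (leaf 4 461 590))))))) (node 590 (merge (node 559 (merge (leaf 1 556 558) (leaf 2 556 591))) (merge (node 558 (merge (leaf 1 556 559) (node 622 (merge (leaf 7 525 654) (node 587 (merge (leaf 2 554 586) (leaf 0 587 623))))))) (merge (node 591 (merge (leaf 2 556 559) (node 623 (merge (leaf 0 588 624) (node 587 (merge (leaf 0 587 622) (node 555 (merge (leaf 3 554 554) (leaf 3 555 556))))))))) (node 555 (merge (node 556 (merge (leaf 0 554 554) (leaf 3 555 591))) (merge (node 587 (merge (leaf 3 554 554) (node 622 (merge (leaf 0 587 623) (node 558 (merge (leaf 2 554 586) (leaf 7 525 654))))))) (node 591 (merge (leaf 3 555 556) (node 623 (merge (leaf 0 588 624) (node 622 (merge (leaf 0 587 587) (node 558 (merge (leaf 7 525 654) (leaf 4 526 655)))))))))))))))))))))))))))))))) (merge (node 526 (merge (node 527 (merge (leaf 0 525 561) (node 496 (merge (leaf 2 493 497)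 (node 495 (merge (leaf 4 431 431) (leaf 2 492 524))))))) (merge (node 527 (merge (leaf 0 525 561) (node 492 (merge (leaf 3 492 493) (node 524 (merge (leaf 3 491 491) (leaf 0 524 559))))))) (merge (node 558 (merge (node 561 (merge (leaf 0 525 527) (leaf 3 525 559))) (merge (node 527 (merge (leaf 0 525 561) (node 495 (merge (leaf 4 431 431) (node 590 (merge (leaf 6 462 494) (leaf 6 494 622))))))) (merge (node 590 (merge (node 493 (merge (leaf 7 493 622) (node 461 (merge (leaf 4 429 429) (leaf 4 461 557))))) (node 495 (merge (leaf 6 462 494) (node 527 (merge (leaf 5 430 431) (leaf 5 462 559))))))) (node 590 (merge (node 493 (merge (leaf 7 493 622) (node 494 (merge (leaf 7 461 461) (leaf 6 462 495))))) (merge (node 493 (merge (leaf 7 493 622) (node 461 (merge (leaf 4 429 429) (leaf 4 461 557))))) (node 494 (merge (leaf 6 462 495) (node 559 (merge (leaf 3 525 561) (node 589 (merge (leaf 5 493 621) (node 588 (merge (leaf 1 556 557) (leaf 2 555 587)))))))))))))))) (merge (node 524 (merge (node 527 (merge (leaf 0 524 559) (node 492 (merge (leaf 3 491 491) (leaf 3 492 493)))))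 (merge (node 527 (merge (leaf 0 524 559) (node 556 (merge (leaf 1 523 555) (leaf 1 524 557))))) (node 523 (merge (node 554 (merge (leaf 1 522 555) (node 522 (merge (leaf 1 521 553) (node 490 (merge (leaf 3 489 489) (leaf 3 490 491))))))) (merge (node 554 (merge (leaf 1 522 555) (node 522 (merge (leaf 1 521 553) (node 494 (merge (leaf 2 490 493) (leaf 2 491 495))))))) (merge (node 494 (merge (leaf 2 491 495) (node 522 (merge (leaf 2 490 493) (node 490 (merge (leaf 3 489 489) (leaf 3 490 491))))))) (node 494 (merge (leaf 2 491 495) (node 491 (merge (leaf 3 490 490) (node 459 (merge (node 556 (merge (leaf 4 427 427) (node 588 (merge (leaf 7 459 492) (leaf 7 491 620))))) (merge (node 555 (merge (leaf 1 522 554) (node 556 (merge (leaf 4 427 427) (leaf 4 459 588))))) (node 555 (merge (leaf 1 522 554) (node 460 (merge (leaf 6 427 428) (node 492 (merge (leaf 6 459 587) (node 458 (merge (leaf 7 426 426) (leaf 3 458 493))))))))))))))))))))))) (node 558 (merge (node 559 (merge (leaf 3 525 561) (node 524 (merge (leaf 0 523 523) (leaf 3 524 557))))) (merge (node 590 (merge (node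 493 (merge (leaf 7 493 622) (node 494 (merge (leaf 7 461 461) (leaf 6 462 495))))) (merge (node 493 (merge (leaf 7 493 622) (node 461 (merge (leaf 4 429 429) (leaf 4 461 557))))) (node 494 (merge (leaf 6 462 495) (node 559 (merge (leaf 3 525 561) (node 589 (merge (leaf 5 493 621) (node 588 (merge (leaf 1 556 557) (leaf 2 555 587)))))))))))) (merge (node 590 (merge (node 493 (merge (leaf 7 493 622) (node 461 (merge (leaf 4 429 429) (leaf 7 461 494))))) (merge (node 622 (merge (leaf 7 493 493) (node 655 (merge (leaf 4 526 623) (node 654 (merge (leaf 4 558 687) (node 653 (merge (leaf 5 525 621) (leaf 5 557 685))))))))) (merge (node 589 (merge (node 621 (merge (leaf 5 493 494) (node 653 (merge (leaf 5 525 622) (leaf 6 557 685))))) (node 559 (merge (leaf 1 557 561) (node 588 (merge (leaf 2 555 587) (leaf 2 556 591))))))) (node 494 (merge (node 495 (merge (leaf 6 462 463) (node 493 (merge (leaf 7 461 461) (node 496 (merge (leaf 1 493 497) (leaf 1 492 524))))))) (node 559 (merge (leaf 3 525 561) (node 591 (merge (leaf 4 494 623) (node 589 (merge (leaf 2 556 588) (leaf 5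 493 621))))))))))))) (node 590 (merge (node 493 (merge (leaf 7 493 622) (node 461 (merge (leaf 4 429 429) (leaf 4 461 557))))) (merge (node 494 (merge (leaf 6 462 495) (node 623 (merge (leaf 4 494 591) (node 622 (merge (leaf 4 526 655) (node 621 (merge (leaf 5 493 589) (leaf 5 525 653))))))))) (node 493 (merge (node 461 (merge (leaf 4 429 429) (leaf 7 461 494))) (merge (node 461 (merge (leaf 4 429 429) (leaf 4 461 557))) (node 589 (merge (node 621 (merge (leaf 5 493 494) (node 653 (merge (leaf 6 525 557) (leaf 6 557 685))))) (merge (node 494 (merge (leaf 5 493 621) (node 495 (merge (leaf 6 462 463) (node 496 (merge (leaf 1 493 497) (leaf 1 492 524))))))) (merge (node 557 (merge (node 621 (merge (leaf 6 525 653) (node 492 (merge (leaf 7 460 460) (leaf 7 492 524))))) (merge (node 621 (merge (leaf 6 525 653) (node 620 (merge (leaf 5 492 588) (leaf 5 524 652))))) (node 492 (merge (leaf 7 460 460) (node 588 (merge (leaf 5 492 620) (node 587 (merge (leaf 2 554 586) (node 619 (merge (leaf 1 586 618) (node 524 (merge (leaf 5 491 556) (node 523 (merge (leaf 0 522 522) (leaf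 6 491 555)))))))))))))))) (node 588 (merge (node 620 (merge (leaf 5 492 557) (node 591 (merge (leaf 1 587 619) (node 623 (merge (leaf 4 494 494) (leaf 0 588 624))))))) (merge (node 557 (merge (leaf 5 492 620) (node 492 (merge (leaf 7 460 460) (node 587 (merge (leaf 2 554 586) (node 619 (merge (leaf 1 586 618) (node 524 (merge (leaf 5 491 556) (node 523 (merge (leaf 0 522 522) (leaf 6 491 555))))))))))))) (merge (node 591 (merge (node 623 (merge (leaf 4 494 494) (leaf 0 588 624))) (node 620 (merge (leaf 1 587 619) (node 556 (merge (leaf 6 492 524) (leaf 3 555 555))))))) (merge (node 557 (merge (leaf 5 492 620) (node 587 (merge (leaf 2 554 586) (node 555 (merge (leaf 3 554 554) (node 591 (merge (leaf 0 555 556) (node 623 (merge (leaf 4 494 494) (leaf 0 588 624))))))))))) (node 591 (merge (node 623 (merge (leaf 4 494 494) (leaf 0 588 624))) (node 555 (merge (leaf 3 555 556) (node 587 (merge (leaf 3 554 554) (node 618 (merge (leaf 1 586 619) (node 586 (merge (leaf 2 554 557) (leaf 1 585 617))))))))))))))))))))))))))))))))))) (merge (node 461 (merge (node 460 (merge (node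 495 (merge (leaf 0 460 496) (node 431 (merge (leaf 2 428 432) (leaf 4 431 527))))) (node 428 (merge (leaf 3 427 427) (node 493 (merge (leaf 7 428 557) (node 396 (merge (leaf 4 364 364) (leaf 7 396 429))))))))) (merge (node 460 (merge (node 495 (merge (leaf 0 460 496) (node 431 (merge (leaf 2 428 432) (leaf 4 431 527))))) (node 492 (merge (leaf 1 459 491) (node 428 (merge (leaf 3 427 427) (node 557 (merge (leaf 7 428 493) (leaf 4 428 524))))))))) (merge (node 493 (merge (node 430 (merge (leaf 6 429 557) (node 398 (merge (leaf 5 365 366) (leaf 6 397 429))))) (merge (node 557 (merge (leaf 6 429 430) (node 589 (merge (leaf 6 461 494) (node 590 (merge (leaf 4 461 558) (leaf 4 493 622))))))) (merge (node 429 (merge (node 430 (merge (leaf 6 397 398) (node 428 (merge (leaf 7 396 396) (leaf 0 427 427))))) (node 524 (merge (leaf 5 428 556) (node 492 (merge (leaf 5 396 397) (node 491 (merge (leaf 2 458 490) (leaf 2 459 494))))))))) (node 429 (merge (node 396 (merge (leaf 7 396 428) (node 397 (merge (leaf 7 364 364) (node 524 (merge (leaf 5 396 492) (leaf 5 428 556))))))) (merge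 (node 524 (merge (leaf 5 428 556) (node 492 (merge (leaf 5 396 397) (node 491 (merge (leaf 2 458 490) (leaf 2 459 494))))))) (merge (node 396 (merge (leaf 7 396 428) (node 397 (merge (leaf 7 364 364) (node 366 (merge (leaf 6 365 398) (node 365 (merge (leaf 6 333 334) (leaf 4 365 494))))))))) (node 556 (merge (leaf 5 428 524) (node 557 (merge (leaf 5 460 588) (node 589 (merge (leaf 6 461 494) (node 590 (merge (leaf 4 461 558) (leaf 4 493 622))))))))))))))))) (merge (node 493 (merge (node 557 (merge (leaf 6 429 430) (node 460 (merge (leaf 7 428 428) (node 492 (merge (leaf 1 459 491) (leaf 7 460 589))))))) (merge (node 557 (merge (node 589 (merge (leaf 6 461 494) (node 590 (merge (leaf 4 461 558) (leaf 4 493 622))))) (merge (node 589 (merge (leaf 6 461 494) (node 588 (merge (leaf 5 460 556) (leaf 5 492 620))))) (node 558 (merge (leaf 4 461 590) (node 524 (merge (leaf 3 524 559) (node 556 (merge (leaf 5 428 429) (leaf 5 460 588)))))))))) (node 460 (merge (node 431 (merge (leaf 2 428 432) (node 430 (merge (leaf 2 427 459) (node 398 (merge (leaf 5 365 366) (leaf 5 397 494)))))))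 (merge (node 491 (merge (leaf 1 459 492) (node 459 (merge (leaf 1 458 490) (node 431 (merge (leaf 2 427 430) (leaf 2 428 432))))))) (merge (node 429 (merge (node 492 (merge (leaf 1 459 491) (node 524 (merge (leaf 6 428 556) (node 397 (merge (leaf 5 364 365) (leaf 5 396 493))))))) (merge (node 428 (merge (leaf 7 396 396) (node 491 (merge (leaf 1 459 492) (node 459 (merge (leaf 1 458 490) (node 458 (merge (leaf 2 425 457) (leaf 0 458 494))))))))) (node 396 (merge (leaf 7 396 428) (node 397 (merge (leaf 7 364 364) (node 366 (merge (leaf 6 365 398) (node 365 (merge (leaf 6 333 334) (leaf 4 365 494)))))))))))) (node 524 (merge (node 492 (merge (leaf 1 459 491) (node 429 (merge (leaf 5 396 397) (leaf 6 428 556))))) (merge (node 492 (merge (leaf 1 459 491) (node 428 (merge (leaf 4 396 396) (node 523 (merge (leaf 5 427 555) (node 522 (merge (leaf 2 490 494) (leaf 2 489 521))))))))) (node 429 (merge (leaf 5 428 556) (node 398 (merge (leaf 6 397 430) (node 397 (merge (leaf 6 365 366) (node 364 (merge (leaf 7 364 396) (node 365 (merge (leaf 7 332 332) (leaf 4 365 494)))))))))))))))))))))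 (merge (hyp 0) (merge (node 493 (merge (node 430 (merge (leaf 6 429 557) (node 398 (merge (leaf 5 365 366) (leaf 6 397 429))))) (merge (node 430 (merge (leaf 6 429 557) (node 398 (merge (leaf 5 365 366) (leaf 5 397 494))))) (merge (node 557 (merge (node 589 (merge (leaf 6 461 494) (node 590 (merge (leaf 4 461 558) (leaf 4 493 622))))) (merge (node 589 (merge (leaf 6 461 494) (node 588 (merge (leaf 5 460 556) (leaf 5 492 620))))) (node 558 (merge (leaf 4 461 590) (node 524 (merge (leaf 3 524 559) (node 556 (merge (leaf 5 428 429) (leaf 5 460 588)))))))))) (node 524 (merge (node 429 (merge (leaf 5 428 556) (node 398 (merge (leaf 6 397 430) (node 397 (merge (leaf 6 365 366) (leaf 5 396 492))))))) (merge (node 429 (merge (leaf 5 428 556) (node 398 (merge (leaf 6 397 430) (node 397 (merge (leaf 6 365 366) (node 364 (merge (leaf 7 364 396) (node 365 (merge (leaf 7 332 332) (leaf 4 365 494))))))))))) (node 523 (merge (node 494 (merge (leaf 2 490 522) (node 495 (merge (leaf 1 491 492) (leaf 1 492 496))))) (merge (node 522 (merge (leaf 2 490 494) (node 553 (merge (leaf 1 521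 554) (node 521 (merge (leaf 1 520 552) (node 489 (merge (leaf 3 488 488) (leaf 3 489 490))))))))) (merge (node 522 (merge (node 553 (merge (leaf 1 521 554) (node 521 (merge (leaf 2 489 492) (leaf 1 520 552))))) (merge (node 492 (merge (leaf 2 489 521) (node 490 (merge (leaf 3 489 489) (leaf 2 458 491))))) (merge (node 553 (merge (leaf 1 521 554) (node 521 (merge (leaf 1 520 552) (node 489 (merge (leaf 3 488 488) (leaf 3 489 490))))))) (node 554 (merge (leaf 1 521 553) (node 490 (merge (leaf 3 489 489) (node 491 (merge (leaf 2 458 492) (node 459 (merge (leaf 5 426 427) (leaf 1 458 460))))))))))))) (node 495 (merge (node 496 (merge (leaf 0 460 460) (leaf 1 492 494))) (merge (node 494 (merge (leaf 1 492 496) (node 492 (merge (leaf 2 459 491) (leaf 1 491 523))))) (merge (node 492 (merge (node 491 (merge (leaf 1 459 460) (leaf 2 458 490))) (node 494 (merge (leaf 1 491 523) (leaf 0 492 527))))) (node 460 (merge (leaf 0 460 496) (node 491 (merge (leaf 1 459 492) (node 459 (merge (leaf 1 458 490) (node 426 (merge (leaf 3 426 427) (node 458 (merge (leaf 3 425 425) (leaf 7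 426 555)))))))))))))))))))))))))) (node 460 (merge (node 495 (merge (leaf 0 460 496) (node 459 (merge (leaf 0 459 494) (node 427 (merge (leaf 3 426 426) (leaf 3 427 428))))))) (merge (node 495 (merge (leaf 0 460 496) (node 459 (merge (leaf 0 459 494) (node 491 (merge (leaf 1 458 490) (leaf 1 459 492))))))) (node 492 (merge (leaf 1 459 491) (node 428 (merge (leaf 3 427 427) (node 396 (merge (node 365 (merge (leaf 6 364 397) (node 364 (merge (leaf 6 332 333) (node 363 (merge (leaf 7 331 331) (leaf 7 363 395))))))) (merge (node 397 (merge (leaf 6 364 365) (node 524 (merge (leaf 6 396 429) (node 557 (merge (leaf 4 428 525) (node 556 (merge (leaf 4 460 589) (node 555 (merge (leaf 5 427 523) (leaf 5 459 587))))))))))) (merge (node 363 (merge (leaf 7 363 395) (node 364 (merge (leaf 7 331 331) (node 429 (merge (leaf 4 332 332) (node 524 (merge (leaf 6 396 397) (leaf 6 428 556))))))))) (node 363 (merge (leaf 7 363 395) (node 364 (merge (leaf 7 331 331) (node 333 (merge (leaf 6 332 365) (node 332 (merge (leaf 6 300 301) (leaf 4 332 429))))))))))))))))))))))))))) (merge (node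 461 (merge (node 460 (merge (node 491 (merge (leaf 1 459 492) (node 459 (merge (leaf 1 458 490) (node 431 (merge (leaf 2 427 430) (leaf 2 428 432))))))) (node 428 (merge (leaf 3 427 427) (node 493 (merge (leaf 7 428 557) (node 396 (merge (leaf 4 364 364) (leaf 7 396 429))))))))) (merge (node 460 (merge (node 491 (merge (leaf 1 459 492) (node 459 (merge (leaf 1 458 490) (node 431 (merge (leaf 2 427 430) (leaf 2 428 432))))))) (merge (node 492 (merge (leaf 1 459 491) (node 428 (merge (leaf 3 427 427) (node 557 (merge (leaf 7 428 493) (leaf 4 428 524))))))) (node 495 (merge (leaf 0 460 496) (node 459 (merge (leaf 0 459 494) (node 431 (merge (leaf 2 427 430) (leaf 2 428 432)))))))))) (merge (node 493 (merge (node 430 (merge (leaf 6 429 557) (node 398 (merge (leaf 5 365 366) (leaf 6 397 429))))) (merge (node 557 (merge (leaf 6 429 430) (node 589 (merge (leaf 6 461 494) (node 590 (merge (leaf 4 461 558) (leaf 4 493 622))))))) (merge (node 429 (merge (node 428 (merge (leaf 7 396 396) (node 427 (merge (leaf 0 426 426) (leaf 0 427 430))))) (merge (node 398 (merge (leaf 6 397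 430) (node 397 (merge (leaf 6 365 366) (node 526 (merge (leaf 4 397 494) (leaf 4 429 558))))))) (node 396 (merge (leaf 7 396 428) (node 397 (merge (leaf 7 364 364) (node 526 (merge (leaf 4 397 494) (leaf 4 429 558)))))))))) (node 557 (merge (node 589 (merge (leaf 6 461 494) (node 588 (merge (leaf 5 460 556) (leaf 5 492 620))))) (merge (node 558 (merge (leaf 4 461 590) (node 588 (merge (leaf 5 460 556) (node 589 (merge (leaf 1 556 559) (leaf 5 492 620))))))) (node 558 (merge (leaf 4 461 590) (node 429 (merge (leaf 4 429 526) (node 396 (merge (leaf 7 396 428) (node 397 (merge (leaf 7 364 364) (node 366 (merge (leaf 6 365 398) (node 365 (merge (leaf 6 333 334) (leaf 4 365 494)))))))))))))))))))) (merge (node 493 (merge (node 557 (merge (leaf 6 429 430) (node 460 (merge (leaf 7 428 428) (node 492 (merge (leaf 1 459 491) (leaf 7 460 589))))))) (merge (node 557 (merge (node 589 (merge (leaf 6 461 494) (node 590 (merge (leaf 4 461 558) (leaf 4 493 622))))) (merge (node 589 (merge (leaf 6 461 494) (node 588 (merge (leaf 5 460 556) (leaf 5 492 620))))) (node 558 (merge (leaf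 4 461 590) (node 524 (merge (leaf 3 524 559) (node 556 (merge (leaf 5 428 429) (leaf 5 460 588)))))))))) (node 460 (merge (node 431 (merge (leaf 2 428 432) (node 430 (merge (leaf 2 427 459) (node 398 (merge (leaf 5 365 366) (leaf 5 397 494))))))) (merge (node 491 (merge (leaf 1 459 492) (node 459 (merge (leaf 1 458 490) (node 431 (merge (leaf 2 427 430) (leaf 2 428 432))))))) (merge (node 429 (merge (node 492 (merge (leaf 1 459 491) (node 524 (merge (leaf 6 428 556) (node 397 (merge (leaf 5 364 365) (leaf 5 396 493))))))) (merge (node 428 (merge (leaf 7 396 396) (node 491 (merge (leaf 1 459 492) (node 459 (merge (leaf 1 458 490) (node 458 (merge (leaf 2 425 457) (leaf 0 458 494))))))))) (node 396 (merge (leaf 7 396 428) (node 397 (merge (leaf 7 364 364) (node 366 (merge (leaf 6 365 398) (node 365 (merge (leaf 6 333 334) (leaf 4 365 494)))))))))))) (node 524 (merge (node 492 (merge (leaf 1 459 491) (node 429 (merge (leaf 5 396 397) (leaf 6 428 556))))) (merge (node 492 (merge (leaf 1 459 491) (node 428 (merge (leaf 4 396 396) (node 523 (merge (leaf 5 427 555) (node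 522 (merge (leaf 2 490 494) (leaf 2 489 521))))))))) (node 429 (merge (leaf 5 428 556) (node 398 (merge (leaf 6 397 430) (node 397 (merge (leaf 6 365 366) (node 364 (merge (leaf 7 364 396) (node 365 (merge (leaf 7 332 332) (leaf 4 365 494))))))))))))))))))))) (merge (hyp 0) (merge (node 493 (merge (node 430 (merge (leaf 6 429 557) (node 398 (merge (leaf 5 365 366) (leaf 6 397 429))))) (merge (node 557 (merge (leaf 6 429 430) (node 589 (merge (leaf 6 461 494) (node 590 (merge (leaf 4 461 558) (leaf 4 493 622))))))) (merge (node 429 (merge (node 524 (merge (leaf 5 428 556) (node 492 (merge (leaf 5 396 397) (node 491 (merge (leaf 1 459 460) (leaf 2 458 490))))))) (merge (node 558 (merge (leaf 4 429 526) (node 557 (merge (leaf 4 461 590) (node 556 (merge (leaf 5 428 524) (leaf 5 460 588))))))) (node 526 (merge (leaf 4 429 558) (node 397 (merge (leaf 4 397 494) (node 366 (merge (leaf 6 365 398) (node 365 (merge (leaf 6 333 334) (node 364 (merge (leaf 7 332 332) (leaf 7 364 396)))))))))))))) (node 524 (merge (node 556 (merge (leaf 5 428 429) (node 588 (merge (leaf 6 460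 492) (leaf 6 492 620))))) (merge (node 429 (merge (leaf 5 428 556) (node 398 (merge (leaf 6 397 430) (node 397 (merge (leaf 6 365 366) (node 526 (merge (leaf 4 397 494) (leaf 4 429 558))))))))) (merge (node 460 (merge (node 495 (merge (leaf 0 460 496) (node 459 (merge (leaf 0 459 494) (node 431 (merge (leaf 2 427 430) (leaf 2 428 432))))))) (merge (node 491 (merge (leaf 1 459 492) (node 459 (merge (leaf 1 458 490) (node 431 (merge (leaf 2 427 430) (leaf 2 428 432))))))) (node 495 (merge (leaf 0 460 496) (node 492 (merge (leaf 1 459 491) (node 523 (merge (leaf 1 491 494) (node 522 (merge (leaf 2 489 521) (node 554 (merge (leaf 1 521 553) (node 526 (merge (leaf 1 522 555) (node 429 (merge (leaf 5 396 397) (leaf 4 429 558)))))))))))))))))) (node 523 (merge (node 522 (merge (leaf 2 490 494) (node 553 (merge (leaf 1 521 554) (node 521 (merge (leaf 2 489 492) (leaf 1 520 552))))))) (merge (node 522 (merge (leaf 2 490 494) (node 553 (merge (leaf 1 521 554) (node 521 (merge (leaf 1 520 552) (node 489 (merge (leaf 3 488 488) (leaf 3 489 490))))))))) (merge (node 522 (merge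 (node 492 (merge (leaf 2 489 521) (node 490 (merge (leaf 3 489 489) (leaf 2 458 491))))) (merge (node 553 (merge (leaf 1 521 554) (node 521 (merge (leaf 1 520 552) (node 489 (merge (leaf 3 488 488) (leaf 3 489 490))))))) (merge (node 553 (merge (leaf 1 521 554) (node 521 (merge (leaf 1 520 552) (node 492 (merge (leaf 2 489 493) (node 491 (merge (leaf 1 459 460) (leaf 2 488 520))))))))) (node 554 (merge (leaf 1 521 553) (node 490 (merge (leaf 3 489 489) (node 491 (merge (leaf 2 458 492) (node 459 (merge (leaf 5 426 427) (leaf 1 458 460))))))))))))) (node 491 (merge (node 492 (merge (leaf 1 459 460) (leaf 2 459 494))) (merge (node 492 (merge (leaf 2 458 490) (leaf 2 459 494))) (node 459 (merge (node 460 (merge (leaf 1 458 490) (node 431 (merge (leaf 2 427 430) (leaf 2 428 432))))) (node 556 (merge (leaf 4 427 427) (node 588 (merge (leaf 4 459 555) (leaf 7 491 620)))))))))))))))))))))) (node 460 (merge (node 495 (merge (leaf 0 460 496) (node 459 (merge (leaf 0 459 494) (node 427 (merge (leaf 3 426 426) (leaf 3 427 428))))))) (merge (node 495 (merge (leaf 0 460 496) (node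 459 (merge (leaf 0 459 494) (node 491 (merge (leaf 1 458 490) (leaf 1 459 492))))))) (node 492 (merge (leaf 1 459 491) (node 428 (merge (leaf 3 427 427) (node 396 (merge (node 365 (merge (leaf 6 364 397) (node 364 (merge (leaf 6 332 333) (node 363 (merge (leaf 7 331 331) (leaf 7 363 395))))))) (merge (node 397 (merge (leaf 6 364 365) (node 524 (merge (leaf 6 396 429) (node 557 (merge (leaf 4 428 525) (node 556 (merge (leaf 4 460 589) (node 555 (merge (leaf 5 427 523) (leaf 5 459 587))))))))))) (merge (node 363 (merge (leaf 7 363 395) (node 364 (merge (leaf 7 331 331) (node 429 (merge (leaf 4 332 332) (node 524 (merge (leaf 6 396 397) (leaf 6 428 556))))))))) (node 363 (merge (leaf 7 363 395) (node 364 (merge (leaf 7 331 331) (node 333 (merge (leaf 6 332 365) (node 332 (merge (leaf 6 300 301) (leaf 4 332 429))))))))))))))))))))))))))) (merge (node 493 (merge (node 494 (merge (node 557 (merge (leaf 6 461 589) (node 430 (merge (leaf 5 397 398) (leaf 5 429 526))))) (node 492 (merge (leaf 2 459 491) (node 495 (merge (leaf 0 492 527) (node 524 (merge (leaf 1 492 496) (leaf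 1 491 523))))))))) (merge (node 492 (merge (node 491 (merge (leaf 2 459 494) (node 461 (merge (leaf 1 459 460) (leaf 2 458 490))))) (merge (node 527 (merge (leaf 3 492 526) (node 495 (merge (leaf 4 431 431) (leaf 0 492 494))))) (node 526 (merge (leaf 3 492 527) (node 491 (merge (leaf 0 490 490) (node 461 (merge (leaf 1 459 460) (node 429 (merge (leaf 4 429 558) (node 524 (merge (leaf 5 396 397) (leaf 5 428 556)))))))))))))) (merge (node 494 (merge (node 557 (merge (leaf 6 461 589) (node 430 (merge (leaf 5 397 398) (leaf 6 429 461))))) (node 492 (merge (leaf 2 459 491) (node 495 (merge (leaf 0 492 527) (node 524 (merge (leaf 1 492 496) (leaf 1 491 523))))))))) (merge (node 557 (merge (node 494 (merge (leaf 6 461 589) (node 430 (merge (leaf 5 397 398) (leaf 5 429 526))))) (merge (node 461 (merge (leaf 6 429 430) (node 558 (merge (leaf 4 461 590) (node 526 (merge (leaf 4 429 429) (node 556 (merge (leaf 1 524 527) (leaf 5 460 588))))))))) (node 589 (merge (leaf 6 461 494) (node 590 (merge (leaf 4 493 622) (node 461 (merge (leaf 4 461 558) (node 588 (merge (leaf 5 460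 556) (leaf 5 492 620)))))))))))) (merge (node 461 (merge (node 430 (merge (leaf 6 429 557) (node 398 (merge (leaf 5 365 366) (leaf 6 397 429))))) (merge (node 460 (merge (node 495 (merge (leaf 0 460 496) (node 431 (merge (leaf 2 428 432) (leaf 4 431 527))))) (node 492 (merge (leaf 1 459 491) (node 428 (merge (leaf 3 427 427) (node 557 (merge (leaf 7 428 493) (leaf 4 428 524))))))))) (node 429 (merge (node 526 (merge (leaf 4 429 558) (node 527 (merge (leaf 3 492 492) (leaf 0 525 561))))) (node 430 (merge (leaf 6 397 398) (node 428 (merge (leaf 7 396 396) (leaf 0 427 427)))))))))) (hyp 1))))))) (node 526 (merge (node 527 (merge (leaf 0 525 561) (node 492 (merge (leaf 3 492 493) (node 524 (merge (leaf 3 491 491) (leaf 0 524 559))))))) (merge (node 527 (merge (leaf 0 525 561) (node 556 (merge (leaf 1 524 557) (node 524 (merge (leaf 1 523 555) (leaf 0 524 559))))))) (merge (node 527 (merge (leaf 0 525 561) (node 557 (merge (leaf 1 524 556) (node 589 (merge (node 494 (merge (leaf 6 493 621) (node 462 (merge (leaf 5 429 430) (leaf 6 461 493))))) (merge (node 621 (merge (leaf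 6 493 494) (node 653 (merge (leaf 6 525 558) (node 652 (merge (leaf 5 524 620) (leaf 5 556 684))))))) (merge (node 493 (merge (leaf 3 492 492) (node 462 (merge (leaf 6 461 494) (node 461 (merge (leaf 6 429 430) (node 590 (merge (leaf 4 461 558) (leaf 4 493 622))))))))) (node 493 (merge (leaf 3 492 492) (node 590 (merge (leaf 4 493 622) (node 558 (merge (leaf 4 461 461) (node 621 (merge (leaf 6 525 653) (node 620 (merge (leaf 5 492 588) (leaf 5 524 652))))))))))))))))))) (merge (node 524 (merge (node 527 (merge (leaf 0 524 559) (node 492 (merge (leaf 3 491 491) (leaf 3 492 493))))) (merge (node 527 (merge (leaf 0 524 559) (node 556 (merge (leaf 1 523 555) (leaf 1 524 557))))) (node 523 (merge (node 554 (merge (leaf 1 522 555) (node 522 (merge (leaf 1 521 553) (node 490 (merge (leaf 3 489 489) (leaf 3 490 491))))))) (merge (node 491 (merge (leaf 3 490 490) (node 459 (merge (node 556 (merge (leaf 4 427 427) (node 588 (merge (leaf 7 459 492) (leaf 7 491 620))))) (merge (node 555 (merge (leaf 1 522 554) (node 556 (merge (leaf 4 427 427) (leaf 4 459 588))))) (merge (node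 555 (merge (leaf 1 522 554) (node 460 (merge (leaf 6 427 428) (node 492 (merge (leaf 6 459 587) (node 426 (merge (leaf 7 426 458) (node 427 (merge (leaf 7 394 394) (leaf 4 395 395))))))))))) (node 555 (merge (leaf 1 522 554) (node 460 (merge (leaf 6 427 428) (node 587 (merge (leaf 6 459 492) (node 588 (merge (leaf 4 459 556) (leaf 4 491 620))))))))))))))) (merge (node 522 (merge (node 490 (merge (leaf 3 489 489) (leaf 3 490 491))) (merge (node 557 (merge (leaf 0 522 558) (node 521 (merge (leaf 0 521 556) (node 552 (merge (leaf 1 520 553) (node 520 (merge (leaf 1 519 551) (node 492 (merge (leaf 2 488 491) (leaf 2 489 493))))))))))) (node 557 (merge (leaf 0 522 558) (node 521 (merge (leaf 0 521 556) (node 489 (merge (leaf 3 488 488) (leaf 3 489 490)))))))))) (merge (node 554 (merge (leaf 1 522 555) (node 522 (merge (leaf 1 521 553) (node 557 (merge (leaf 0 522 558) (node 521 (merge (leaf 0 521 556) (node 489 (merge (leaf 3 488 488) (leaf 3 489 490))))))))))) (node 554 (merge (leaf 1 522 555) (node 522 (merge (leaf 1 521 553) (node 557 (merge (leaf 0 522 558) (node 521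 (merge (leaf 0 521 556) (node 492 (merge (leaf 2 489 493) (node 520 (merge (leaf 2 488 491) (node 488 (merge (leaf 3 487 487) (leaf 3 488 489))))))))))))))))))))))) (hyp 2))))))))))))))) nP_244 cP_244 15 (by decide +kernel)
def nP_245 : ℕ := 0x100000001000000000000000080000000000000000000000000000000000000000000000000000000000000000000000000000000000000000000000000000000000000000000
def cP_245 : ℕ := 0x280000007c000000fc000002ff000003ff00000eff00000eff80000cff00001fff80000f7f80001fff80001f7f8000077c000007780000003000000000000000000000000000000000000000000000000000000000000000000000000000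
theorem lP_245 : S nP_245 cP_245 16 := S_of_chk [(nP_202, cP_202, 9), (nP_244, cP_244, 15)] ⟨lP_202, lP_244, trivial⟩ (node 462 (merge (node 464 (merge (node 496 (merge (leaf 7 431 431) (node 497 (merge (leaf 0 461 461) (node 498 (merge (leaf 0 462 465) (leaf 3 463 499))))))) (merge (node 496 (merge (leaf 7 431 431) (node 461 (merge (leaf 0 461 497) (node 432 (merge (leaf 2 429 433) (node 559 (merge (leaf 5 431 527) (leaf 5 463 591))))))))) (merge (node 496 (merge (leaf 7 431 431) (node 433 (merge (leaf 6 432 465) (node 432 (merge (leaf 6 400 401) (node 559 (merge (leaf 5 431 527) (leaf 5 463 591))))))))) (merge (node 433 (merge (node 465 (merge (leaf 2 430 434) (leaf 6 432 496))) (node 461 (merge (leaf 2 429 432) (node 492 (merge (leaf 1 460 493) (node 460 (merge (leaf 1 459 491) (node 428 (merge (leaf 3 427 427) (leaf 3 428 429))))))))))) (node 461 (merge (node 493 (merge (leaf 1 460 492) (node 465 (merge (leaf 1 461 494) (node 433 (merge (leaf 2 429 432) (leaf 2 430 434))))))) (merge (node 492 (merge (leaf 1 460 493) (node 460 (merge (leaf 1 459 491) (node 428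 (merge (leaf 3 427 427) (leaf 3 428 429))))))) (node 432 (merge (leaf 2 429 433) (node 460 (merge (leaf 2 428 431) (node 428 (merge (leaf 3 427 427) (leaf 3 428 429))))))))))))))) (merge (node 464 (merge (node 496 (merge (leaf 7 431 431) (node 497 (merge (leaf 0 461 461) (node 498 (merge (leaf 3 462 495) (leaf 3 463 499))))))) (merge (node 465 (merge (node 433 (merge (leaf 2 430 434) (leaf 6 432 496))) (node 493 (merge (leaf 1 461 494) (node 461 (merge (leaf 1 460 492) (node 429 (merge (leaf 3 428 428) (leaf 3 429 430))))))))) (merge (node 496 (merge (leaf 7 431 431) (node 465 (merge (leaf 6 432 433) (node 498 (merge (leaf 0 462 497) (node 466 (merge (leaf 0 463 499) (node 494 (merge (leaf 1 461 493) (leaf 1 462 495))))))))))) (node 493 (merge (node 492 (merge (leaf 1 460 461) (node 494 (merge (leaf 2 459 491) (leaf 2 460 495))))) (merge (node 461 (merge (leaf 1 460 492) (node 429 (merge (leaf 3 428 428) (node 430 (merge (leaf 3 429 465) (node 398 (merge (leaf 5 365 366) (leaf 6 397 525))))))))) (node 465 (merge (leaf 1 461 494) (node 498 (merge (leaf 0 462 497) (node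 466 (merge (leaf 0 463 499) (node 434 (merge (leaf 2 430 433) (leaf 2 431 435)))))))))))))))) (merge (node 464 (merge (node 496 (merge (leaf 7 431 431) (node 433 (merge (leaf 6 432 465) (node 432 (merge (leaf 6 400 401) (leaf 2 429 461))))))) (merge (node 496 (merge (leaf 7 431 431) (node 561 (merge (leaf 4 464 593) (node 559 (merge (leaf 5 463 591) (node 527 (merge (leaf 5 431 432) (node 526 (merge (leaf 0 525 525) (leaf 3 526 562))))))))))) (node 493 (merge (node 494 (merge (leaf 1 461 465) (node 492 (merge (leaf 2 459 491) (leaf 2 460 495))))) (merge (node 492 (merge (leaf 1 460 461) (node 494 (merge (leaf 2 459 491) (leaf 2 460 495))))) (merge (node 461 (merge (leaf 1 460 492) (node 429 (merge (leaf 3 428 428) (node 430 (merge (leaf 3 429 465) (node 398 (merge (leaf 5 365 366) (leaf 6 397 525))))))))) (node 430 (merge (node 429 (merge (leaf 3 429 465) (node 428 (merge (leaf 0 427 427) (leaf 3 428 461))))) (merge (node 494 (merge (leaf 1 461 465) (node 398 (merge (leaf 5 397 525) (node 495 (merge (leaf 4 366 366) (leaf 4 398 527))))))) (node 398 (merge (node 366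 (merge (leaf 5 365 461) (leaf 4 366 495))) (merge (node 525 (merge (leaf 5 397 494) (node 461 (merge (leaf 6 397 429) (leaf 6 429 557))))) (node 495 (merge (leaf 4 366 366) (node 527 (merge (leaf 4 398 494) (leaf 7 430 559)))))))))))))))))) (merge (hyp 0) (merge (node 464 (merge (node 496 (merge (leaf 7 431 431) (node 433 (merge (leaf 6 432 465) (node 432 (merge (leaf 6 400 401) (leaf 2 429 461))))))) (merge (node 496 (merge (leaf 7 431 431) (node 497 (merge (leaf 0 461 461) (node 498 (merge (leaf 3 462 495) (leaf 3 463 499))))))) (merge (node 465 (merge (node 433 (merge (leaf 2 430 434) (leaf 6 432 496))) (node 498 (merge (leaf 0 462 497) (node 466 (merge (leaf 0 463 499) (node 430 (merge (leaf 3 429 429) (leaf 3 430 431))))))))) (merge (node 465 (merge (node 498 (merge (leaf 0 462 497) (node 466 (merge (leaf 0 463 499) (node 434 (merge (leaf 2 430 433) (leaf 2 431 435))))))) (merge (node 434 (merge (leaf 2 430 433) (node 466 (merge (leaf 2 431 435) (node 430 (merge (leaf 3 429 429) (leaf 3 430 431))))))) (merge (node 498 (merge (leaf 0 462 497) (node 466 (merge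 (leaf 0 463 499) (node 430 (merge (leaf 3 429 429) (leaf 3 430 431))))))) (node 497 (merge (leaf 0 462 498) (node 433 (merge (leaf 2 430 434) (node 401 (merge (node 368 (merge (leaf 7 368 400) (node 369 (merge (leaf 7 336 336) (node 432 (merge (leaf 5 336 337) (leaf 2 429 461))))))) (merge (node 370 (merge (leaf 6 369 402) (node 369 (merge (leaf 6 337 338) (node 432 (merge (leaf 5 336 337) (leaf 2 429 461))))))) (merge (node 370 (merge (leaf 6 369 402) (node 369 (merge (leaf 6 337 338) (node 368 (merge (leaf 7 336 336) (leaf 7 368 400))))))) (node 402 (merge (leaf 6 369 370) (node 400 (merge (leaf 7 368 368) (node 432 (merge (leaf 2 429 461) (node 403 (merge (leaf 1 400 404) (leaf 1 399 431))))))))))))))))))))) (node 496 (merge (node 497 (merge (leaf 0 461 461) (node 498 (merge (leaf 0 462 465) (leaf 3 463 499))))) (merge (node 461 (merge (leaf 0 461 497) (node 460 (merge (leaf 0 460 495) (node 428 (merge (leaf 3 427 427) (leaf 3 428 429))))))) (merge (node 559 (merge (leaf 5 463 591) (node 527 (merge (leaf 5 431 432) (node 430 (merge (leaf 7 430 495) (node 429 (merge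 (leaf 3 429 465) (node 428 (merge (leaf 0 427 427) (leaf 3 428 461))))))))))) (node 561 (merge (leaf 4 464 593) (node 559 (merge (leaf 5 463 591) (node 527 (merge (leaf 5 431 432) (node 430 (merge (leaf 7 430 495) (node 465 (merge (leaf 3 429 429) (node 498 (merge (leaf 0 462 497) (node 466 (merge (leaf 0 463 499) (node 435 (merge (leaf 2 431 434) (node 562 (merge (leaf 3 527 563) (node 530 (merge (leaf 6 434 467) (leaf 2 527 531)))))))))))))))))))))))))))))) (merge (node 464 (merge (node 465 (merge (node 433 (merge (leaf 2 430 434) (leaf 6 432 496))) (node 498 (merge (leaf 0 462 497) (node 466 (merge (leaf 0 463 499) (node 494 (merge (leaf 1 461 493) (leaf 1 462 495))))))))) (merge (node 496 (merge (leaf 7 431 431) (node 561 (merge (leaf 4 464 593) (node 559 (merge (leaf 5 463 591) (node 527 (merge (leaf 5 431 432) (node 526 (merge (leaf 0 525 525) (leaf 3 526 562))))))))))) (node 494 (merge (node 465 (merge (leaf 1 461 493) (node 498 (merge (leaf 0 462 497) (node 466 (merge (leaf 1 462 495) (leaf 0 463 499))))))) (merge (node 465 (merge (leaf 1 461 493) (node 498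 (merge (leaf 0 462 497) (node 466 (merge (leaf 0 463 499) (node 430 (merge (leaf 3 429 429) (leaf 3 430 431))))))))) (node 526 (merge (node 558 (merge (leaf 6 430 431) (node 590 (merge (leaf 6 462 495) (node 589 (merge (leaf 5 461 557) (leaf 5 493 621))))))) (merge (node 558 (merge (leaf 6 430 431) (node 590 (merge (leaf 6 462 495) (node 591 (merge (leaf 4 462 559) (leaf 4 494 623))))))) (merge (node 558 (merge (node 590 (merge (leaf 6 462 495) (node 589 (merge (leaf 5 461 557) (leaf 5 493 621))))) (merge (node 590 (merge (leaf 6 462 495) (node 591 (merge (leaf 4 462 559) (leaf 4 494 623))))) (node 559 (merge (leaf 4 462 591) (node 525 (merge (leaf 3 525 561) (node 557 (merge (leaf 3 524 524) (leaf 5 461 589)))))))))) (merge (node 558 (merge (leaf 6 430 431) (node 559 (merge (leaf 4 462 591) (node 525 (merge (leaf 3 525 561) (node 557 (merge (leaf 3 524 524) (leaf 5 461 589))))))))) (node 527 (merge (node 561 (merge (leaf 0 525 525) (node 562 (merge (leaf 3 526 559) (leaf 3 527 563))))) (merge (node 495 (merge (leaf 4 431 431) (node 559 (merge (leaf 6 431 432) (leaf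 7 462 591))))) (node 525 (merge (leaf 0 525 561) (node 556 (merge (leaf 1 524 557) (node 524 (merge (leaf 1 523 555) (node 495 (merge (leaf 4 431 431) (leaf 2 491 523))))))))))))))))))))))) (merge (node 461 (merge (node 460 (merge (node 492 (merge (leaf 1 459 491) (node 464 (merge (leaf 1 460 493) (node 432 (merge (leaf 2 428 431) (leaf 2 429 433))))))) (merge (node 431 (merge (leaf 2 428 432) (node 459 (merge (leaf 2 427 430) (node 427 (merge (leaf 3 426 426) (leaf 3 427 428))))))) (node 491 (merge (leaf 1 459 492) (node 459 (merge (leaf 1 458 490) (node 427 (merge (leaf 3 426 426) (leaf 3 427 428)))))))))) (merge (node 460 (merge (node 492 (merge (leaf 1 459 491) (node 464 (merge (leaf 1 460 493) (node 432 (merge (leaf 2 428 431) (leaf 2 429 433))))))) (merge (node 491 (merge (leaf 1 459 492) (node 459 (merge (leaf 1 458 490) (node 427 (merge (leaf 3 426 426) (leaf 3 427 428))))))) (node 432 (merge (leaf 2 428 431) (node 464 (merge (leaf 2 429 433) (node 428 (merge (leaf 3 427 427) (leaf 3 428 429)))))))))) (merge (node 460 (merge (node 491 (merge (leaf 1 459 492)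 (node 459 (merge (leaf 1 458 490) (node 427 (merge (leaf 3 426 426) (leaf 3 427 428))))))) (merge (node 432 (merge (leaf 2 428 431) (node 464 (merge (leaf 2 429 433) (node 428 (merge (leaf 3 427 427) (leaf 3 428 429))))))) (node 491 (merge (leaf 1 459 492) (node 459 (merge (leaf 1 458 490) (node 431 (merge (leaf 2 427 430) (leaf 2 428 432)))))))))) (merge (node 464 (merge (node 493 (merge (leaf 1 460 492) (node 465 (merge (leaf 1 461 494) (node 433 (merge (leaf 2 429 432) (leaf 2 430 434))))))) (merge (node 492 (merge (leaf 1 460 493) (node 460 (merge (leaf 1 459 491) (node 432 (merge (leaf 2 428 431) (leaf 2 429 433))))))) (merge (node 433 (merge (leaf 2 429 432) (node 465 (merge (leaf 2 430 434) (node 498 (merge (leaf 0 462 497) (node 466 (merge (leaf 0 463 499) (node 430 (merge (leaf 3 429 429) (leaf 3 430 431))))))))))) (node 493 (merge (leaf 1 460 492) (node 465 (merge (leaf 1 461 494) (node 498 (merge (leaf 0 462 497) (node 466 (merge (leaf 0 463 499) (node 430 (merge (leaf 3 429 429) (leaf 3 430 431))))))))))))))) (merge (node 464 (merge (node 432 (merge (leaf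 2 429 433) (node 460 (merge (leaf 2 428 431) (node 428 (merge (leaf 3 427 427) (leaf 3 428 429))))))) (merge (node 433 (merge (leaf 2 429 432) (node 465 (merge (leaf 2 430 434) (node 498 (merge (leaf 0 462 497) (node 466 (merge (leaf 0 463 499) (node 494 (merge (leaf 1 461 493) (leaf 1 462 495))))))))))) (node 429 (merge (leaf 3 428 428) (node 465 (merge (leaf 3 429 430) (node 498 (merge (leaf 0 462 497) (node 466 (merge (leaf 0 463 499) (node 494 (merge (leaf 1 461 493) (leaf 1 462 495)))))))))))))) (merge (node 464 (merge (node 492 (merge (leaf 1 460 493) (node 460 (merge (leaf 1 459 491) (node 428 (merge (leaf 3 427 427) (leaf 3 428 429))))))) (merge (node 429 (merge (leaf 3 428 428) (node 465 (merge (leaf 3 429 430) (node 498 (merge (leaf 0 462 497) (node 466 (merge (leaf 0 463 499) (node 434 (merge (leaf 2 430 433) (leaf 2 431 435))))))))))) (node 493 (merge (leaf 1 460 492) (node 465 (merge (leaf 1 461 494) (node 498 (merge (leaf 0 462 497) (node 466 (merge (leaf 0 463 499) (node 434 (merge (leaf 2 430 433) (leaf 2 431 435)))))))))))))) (merge (node 460 (merge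 (node 431 (merge (leaf 2 428 432) (node 459 (merge (leaf 2 427 430) (node 427 (merge (leaf 3 426 426) (leaf 3 427 428))))))) (merge (node 491 (merge (leaf 1 459 492) (node 459 (merge (leaf 1 458 490) (node 431 (merge (leaf 2 427 430) (leaf 2 428 432))))))) (node 492 (merge (leaf 1 459 491) (node 524 (merge (node 429 (merge (leaf 6 428 556) (node 428 (merge (leaf 6 396 397) (leaf 3 427 427))))) (merge (node 429 (merge (leaf 6 428 556) (node 397 (merge (leaf 5 364 365) (leaf 5 396 493))))) (merge (node 428 (merge (leaf 3 427 427) (node 525 (merge (leaf 4 428 557) (node 493 (merge (leaf 4 396 396) (node 556 (merge (leaf 6 460 588) (node 555 (merge (leaf 5 427 523) (leaf 5 459 587))))))))))) (node 428 (merge (leaf 3 427 427) (node 397 (merge (leaf 6 396 429) (node 396 (merge (leaf 6 364 365) (node 525 (merge (leaf 4 396 493) (leaf 4 428 557)))))))))))))))))) (node 493 (merge (node 492 (merge (leaf 1 460 464) (node 491 (merge (leaf 2 458 490) (leaf 2 459 494))))) (merge (node 464 (merge (leaf 1 460 492) (node 429 (merge (leaf 3 428 428) (node 430 (merge (leaf 3 429 465)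 (node 398 (merge (leaf 5 365 366) (leaf 6 397 525))))))))) (merge (node 525 (merge (node 430 (merge (leaf 6 429 557) (node 398 (merge (leaf 5 365 366) (leaf 5 397 494))))) (merge (node 557 (merge (node 589 (merge (leaf 6 461 494) (node 588 (merge (leaf 5 460 556) (leaf 5 492 620))))) (merge (node 589 (merge (leaf 6 461 494) (node 590 (merge (leaf 4 461 558) (leaf 4 493 622))))) (node 558 (merge (leaf 4 461 590) (node 524 (merge (leaf 3 524 559) (node 556 (merge (leaf 5 428 429) (leaf 5 460 588)))))))))) (node 429 (merge (node 430 (merge (leaf 6 397 398) (node 428 (merge (leaf 7 396 396) (leaf 0 427 427))))) (merge (node 396 (merge (leaf 7 396 428) (node 397 (merge (leaf 7 364 364) (node 524 (merge (leaf 5 396 492) (leaf 5 428 556))))))) (node 398 (merge (leaf 6 397 430) (node 397 (merge (leaf 6 365 366) (node 524 (merge (leaf 5 396 492) (leaf 5 428 556))))))))))))) (node 525 (merge (node 430 (merge (leaf 6 429 557) (node 398 (merge (leaf 5 365 366) (leaf 6 397 429))))) (merge (node 430 (merge (leaf 6 429 557) (node 398 (merge (leaf 5 365 366) (leaf 5 397 494)))))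 (merge (node 557 (merge (node 589 (merge (leaf 6 461 494) (node 588 (merge (leaf 5 460 556) (leaf 5 492 620))))) (merge (node 589 (merge (leaf 6 461 494) (node 590 (merge (leaf 4 461 558) (leaf 4 493 622))))) (node 558 (merge (leaf 4 461 590) (node 524 (merge (leaf 3 524 559) (node 556 (merge (leaf 5 428 429) (leaf 5 460 588)))))))))) (node 464 (merge (node 429 (merge (leaf 3 428 428) (node 430 (merge (leaf 6 397 398) (leaf 3 429 465))))) (merge (node 465 (merge (leaf 1 461 494) (node 433 (merge (leaf 2 429 432) (leaf 2 430 434))))) (node 429 (merge (leaf 3 428 428) (node 398 (merge (leaf 6 397 430) (node 397 (merge (leaf 6 365 366) (node 364 (merge (leaf 7 364 396) (node 365 (merge (leaf 7 332 332) (leaf 4 365 494)))))))))))))))))))))))))))))) (hyp 1))))))))) nP_245 cP_245 16 (by decide +kernel)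
def nP_246 : ℕ := 0x100000001000000000000000180000000000000000000000000000000000000000000000000000000000000000000000000000000000000000000000000000000000000000000
def cP_246 : ℕ := 0x20000003e0000003e000001efe00000efc00001cfe000003fc00000078000003780000039000000380000000800000000000000000000000000000000000000000000000000000000000000000000000000000000000
theorem lP_246 : S nP_246 cP_246 13 := S_of_chk [] trivial (node 559 (merge (node 496 (merge (leaf 5 463 591) (node 432 (merge (leaf 5 431 527) (node 401 (merge (leaf 6 400 433) (node 400 (merge (leaf 6 368 369) (node 367 (merge (leaf 7 367 399) (node 368 (merge (leaf 7 335 335) (leaf 5 367 495))))))))))))) (merge (node 561 (merge (node 496 (merge (leaf 5 463 591) (leaf 4 464 593))) (merge (node 591 (merge (leaf 5 463 496) (node 590 (merge (leaf 1 558 562) (node 589 (merge (leaf 1 557 558) (leaf 2 556 588))))))) (merge (node 593 (merge (leaf 4 464 496) (node 594 (merge (leaf 0 558 558) (node 595 (merge (leaf 0 559 562) (leaf 3 560 596))))))) (node 562 (merge (node 527 (merge (leaf 3 526 526) (leaf 3 527 563))) (node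 594 (merge (leaf 0 559 595) (node 558 (merge (leaf 0 558 593) (node 590 (merge (leaf 1 557 589) (leaf 1 558 591))))))))))))) (merge (node 527 (merge (node 432 (merge (leaf 6 431 495) (leaf 5 431 496))) (merge (node 496 (merge (leaf 5 431 432) (node 561 (merge (leaf 4 464 593) (node 562 (merge (leaf 3 526 526) (leaf 3 527 563))))))) (node 558 (merge (node 590 (merge (leaf 5 462 495) (node 561 (merge (leaf 1 557 589) (node 526 (merge (leaf 3 525 525) (leaf 3 526 562))))))) (merge (node 590 (merge (leaf 5 462 495) (node 589 (merge (leaf 1 557 561) (node 557 (merge (leaf 2 524 556) (leaf 1 556 588))))))) (merge (node 557 (merge (leaf 2 524 556) (node 525 (merge (leaf 3 524 524) (node 590 (merge (leaf 5 462 495) (node 622 (merge (leaf 6 526 654) (node 493 (merge (leaf 4 461 461) (leaf 7 493 526))))))))))) (node 557 (merge (leaf 2 524 556) (node 589 (merge (leaf 1 556 588) (node 525 (merge (leaf 3 524 524) (node 526 (merge (leaf 0 525 561) (node 621 (merge (leaf 6 493 494) (leaf 6 525 653)))))))))))))))))) (merge (node 558 (merge (node 561 (merge (node 594 (merge (leaf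 0 558 593) (node 562 (merge (leaf 0 559 595) (node 526 (merge (leaf 3 525 525) (leaf 3 526 527))))))) (merge (node 594 (merge (leaf 0 558 593) (node 562 (merge (leaf 0 559 595) (node 590 (merge (leaf 1 557 589) (leaf 1 558 591))))))) (node 590 (merge (leaf 1 557 589) (node 526 (merge (leaf 3 525 525) (node 495 (merge (leaf 6 462 494) (leaf 5 462 527)))))))))) (merge (node 557 (merge (node 524 (merge (leaf 3 524 525) (node 556 (merge (leaf 3 523 523) (leaf 2 524 527))))) (merge (node 588 (merge (leaf 1 556 589) (node 556 (merge (leaf 2 524 527) (leaf 1 555 587))))) (node 589 (merge (leaf 1 556 588) (node 590 (merge (leaf 1 557 561) (node 525 (merge (leaf 3 524 524) (node 493 (merge (leaf 4 461 461) (leaf 4 493 622)))))))))))) (merge (node 525 (merge (node 557 (merge (leaf 3 524 524) (node 527 (merge (leaf 2 524 556) (node 495 (merge (leaf 6 431 432) (leaf 5 462 590))))))) (merge (node 524 (merge (leaf 3 524 557) (node 526 (merge (leaf 0 523 523) (leaf 3 525 561))))) (node 561 (merge (leaf 3 525 526) (node 594 (merge (leaf 0 558 593) (node 562 (merge (leaf 0 559 595)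 (node 590 (merge (leaf 1 558 591) (node 527 (merge (leaf 5 462 495) (leaf 3 527 563)))))))))))))) (merge (node 525 (merge (node 524 (merge (leaf 3 524 557) (node 526 (merge (leaf 0 523 523) (leaf 3 525 561))))) (merge (node 557 (merge (leaf 3 524 524) (node 588 (merge (leaf 1 556 589) (node 556 (merge (leaf 2 524 527) (leaf 1 555 587))))))) (node 561 (merge (leaf 3 525 526) (node 594 (merge (leaf 0 558 593) (node 562 (merge (leaf 0 559 595) (node 531 (merge (leaf 2 527 530) (node 563 (merge (leaf 3 527 527) (leaf 2 528 532)))))))))))))) (merge (node 561 (merge (node 594 (merge (leaf 0 558 593) (node 562 (merge (leaf 0 559 595) (node 590 (merge (leaf 1 557 589) (leaf 1 558 591))))))) (merge (node 594 (merge (leaf 0 558 593) (node 562 (merge (leaf 0 559 595) (node 527 (merge (leaf 3 526 526) (leaf 3 527 563))))))) (merge (node 590 (merge (leaf 1 557 589) (node 562 (merge (leaf 1 558 591) (node 527 (merge (leaf 3 526 526) (leaf 3 527 563))))))) (node 625 (merge (node 593 (merge (leaf 0 558 594) (leaf 7 528 657))) (node 557 (merge (node 589 (merge (leaf 1 556 588) (leaf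 1 557 590))) (merge (node 556 (merge (leaf 2 524 527) (node 587 (merge (leaf 1 555 588) (node 555 (merge (leaf 1 554 586) (node 523 (merge (leaf 3 522 522) (leaf 3 523 524))))))))) (node 590 (merge (leaf 1 557 589) (node 556 (merge (leaf 2 524 527) (node 555 (merge (leaf 0 555 591) (node 523 (merge (leaf 3 522 522) (leaf 3 523 524)))))))))))))))))) (merge (node 525 (merge (node 524 (merge (leaf 3 524 557) (node 526 (merge (leaf 0 523 523) (leaf 3 525 561))))) (merge (node 561 (merge (leaf 3 525 526) (node 594 (merge (leaf 0 558 593) (node 562 (merge (leaf 0 559 595) (node 590 (merge (leaf 1 557 589) (leaf 1 558 591))))))))) (merge (node 557 (merge (leaf 3 524 524) (node 589 (merge (leaf 1 556 588) (node 590 (merge (leaf 1 557 561) (node 493 (merge (leaf 4 461 461) (leaf 4 493 622))))))))) (node 557 (merge (leaf 3 524 524) (node 590 (merge (node 622 (merge (leaf 7 525 654) (node 493 (merge (leaf 4 461 461) (leaf 7 493 526))))) (merge (node 589 (merge (leaf 1 556 588) (node 622 (merge (leaf 4 493 493) (leaf 7 525 654))))) (node 588 (merge (leaf 1 556 589) (node 556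 (merge (leaf 1 555 587) (node 555 (merge (leaf 0 555 591) (node 554 (merge (leaf 2 522 526) (node 522 (merge (leaf 3 521 521) (leaf 3 522 523)))))))))))))))))))) (node 590 (merge (node 527 (merge (leaf 5 462 495) (node 622 (merge (leaf 6 526 654) (node 557 (merge (leaf 2 524 556) (node 525 (merge (leaf 3 524 524) (node 493 (merge (leaf 4 461 461) (leaf 7 493 526))))))))))) (merge (node 557 (merge (node 524 (merge (leaf 3 524 525) (node 556 (merge (leaf 3 523 523) (leaf 2 524 527))))) (merge (node 588 (merge (leaf 1 556 589) (node 556 (merge (leaf 2 524 527) (leaf 1 555 587))))) (node 589 (merge (leaf 1 556 588) (node 525 (merge (leaf 3 524 524) (node 493 (merge (leaf 4 461 461) (leaf 4 493 622)))))))))) (merge (node 526 (merge (node 495 (merge (leaf 6 462 494) (leaf 5 462 527))) (merge (node 589 (merge (node 588 (merge (leaf 2 555 587) (leaf 2 556 591))) (node 621 (merge (leaf 5 493 494) (node 653 (merge (leaf 5 525 622) (leaf 6 557 685))))))) (node 527 (merge (leaf 5 462 495) (node 525 (merge (leaf 0 524 524) (node 622 (merge (leaf 7 493 493) (leaf 6 526 654))))))))))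 (merge (node 526 (merge (node 495 (merge (leaf 6 462 494) (leaf 5 462 527))) (merge (node 589 (merge (node 588 (merge (leaf 2 555 587) (leaf 2 556 591))) (node 621 (merge (leaf 5 493 494) (node 653 (merge (leaf 5 525 622) (leaf 6 557 685))))))) (node 527 (merge (leaf 5 462 495) (node 622 (merge (leaf 6 526 654) (node 557 (merge (leaf 2 524 556) (node 589 (merge (leaf 1 556 588) (node 621 (merge (leaf 6 525 653) (node 623 (merge (leaf 4 526 655) (node 624 (merge (leaf 3 589 625) (node 656 (merge (leaf 4 527 591) (leaf 0 621 657)))))))))))))))))))) (merge (node 527 (merge (leaf 5 462 495) (node 557 (merge (leaf 2 524 556) (node 589 (merge (leaf 1 556 588) (node 525 (merge (leaf 3 524 524) (node 493 (merge (leaf 4 461 461) (node 492 (merge (leaf 7 460 460) (leaf 3 492 526))))))))))))) (node 557 (merge (node 525 (merge (leaf 3 524 524) (node 622 (merge (leaf 7 525 654) (node 493 (merge (leaf 4 461 461) (leaf 7 493 526))))))) (node 556 (merge (node 588 (merge (leaf 1 555 587) (leaf 1 556 589))) (merge (node 555 (merge (leaf 0 555 591) (node 589 (merge (leaf 0 554 554)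 (leaf 1 556 588))))) (node 555 (merge (leaf 0 555 591) (node 586 (merge (leaf 1 554 587) (node 554 (merge (leaf 1 553 585) (node 522 (merge (leaf 3 521 521) (leaf 3 522 523))))))))))))))))))))))))))) (node 558 (merge (node 561 (merge (node 593 (merge (leaf 4 464 496) (leaf 0 558 594))) (merge (node 590 (merge (leaf 1 557 589) (node 591 (merge (leaf 5 463 496) (leaf 1 558 562))))) (node 594 (merge (leaf 0 558 593) (node 562 (merge (leaf 0 559 595) (node 590 (merge (leaf 1 557 589) (leaf 1 558 591)))))))))) (merge (node 561 (merge (node 593 (merge (leaf 4 464 496) (leaf 0 558 594))) (node 589 (merge (leaf 1 557 590) (node 557 (merge (leaf 1 556 588) (node 525 (merge (leaf 3 524 524) (leaf 3 525 526))))))))) (merge (node 591 (merge (leaf 5 463 496) (node 526 (merge (node 525 (merge (leaf 3 525 561) (node 524 (merge (leaf 0 523 523) (leaf 3 524 557))))) (node 623 (merge (leaf 7 526 655) (node 494 (merge (leaf 4 462 462) (leaf 4 494 590))))))))) (merge (node 526 (merge (node 525 (merge (leaf 3 525 561) (node 524 (merge (leaf 0 523 523) (leaf 3 524 557))))) (merge (node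 561 (merge (leaf 3 525 525) (node 594 (merge (leaf 0 558 593) (node 562 (merge (leaf 0 559 595) (node 590 (merge (leaf 1 557 589) (leaf 1 558 591))))))))) (merge (node 590 (merge (node 494 (merge (leaf 6 462 495) (node 591 (merge (leaf 4 462 462) (leaf 4 494 623))))) (node 589 (merge (leaf 1 557 561) (node 588 (merge (leaf 1 556 557) (leaf 2 555 587))))))) (node 494 (merge (node 591 (merge (leaf 4 462 462) (node 623 (merge (leaf 4 494 590) (leaf 7 526 655))))) (merge (node 590 (merge (leaf 6 462 495) (node 589 (merge (leaf 5 493 621) (node 588 (merge (leaf 1 556 557) (leaf 2 555 587))))))) (node 462 (merge (leaf 4 462 591) (node 557 (merge (leaf 5 461 589) (node 525 (merge (leaf 5 429 430) (leaf 3 524 524)))))))))))))) (merge (node 496 (merge (leaf 5 463 591) (node 561 (merge (leaf 4 464 593) (node 525 (merge (leaf 3 525 526) (node 557 (merge (leaf 3 524 524) (node 588 (merge (leaf 1 556 589) (node 556 (merge (leaf 1 555 587) (node 461 (merge (leaf 5 460 493) (node 462 (merge (leaf 0 461 497) (node 460 (merge (leaf 0 460 495) (node 428 (merge (leaf 3 427 427) (leaf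 3 428 429))))))))))))))))))))) (node 461 (merge (node 496 (merge (leaf 5 463 591) (node 462 (merge (leaf 0 461 497) (node 460 (merge (leaf 0 460 495) (node 428 (merge (leaf 3 427 427) (leaf 3 428 429))))))))) (merge (node 496 (merge (leaf 5 463 591) (node 462 (merge (leaf 0 461 497) (node 460 (merge (leaf 0 460 495) (node 492 (merge (leaf 1 459 491) (leaf 1 460 493))))))))) (merge (node 496 (merge (leaf 5 463 591) (node 462 (merge (leaf 0 461 497) (node 493 (merge (leaf 1 460 492) (node 429 (merge (leaf 3 428 428) (node 526 (merge (leaf 7 429 494) (leaf 4 429 525))))))))))) (merge (node 462 (merge (node 492 (merge (leaf 1 460 493) (node 460 (merge (leaf 1 459 491) (node 428 (merge (leaf 3 427 427) (leaf 3 428 429))))))) (merge (node 429 (merge (leaf 3 428 428) (node 526 (merge (leaf 7 429 494) (node 525 (merge (leaf 4 429 493) (node 524 (merge (leaf 0 523 523) (leaf 3 524 557))))))))) (merge (node 557 (merge (node 525 (merge (leaf 3 524 524) (node 493 (merge (leaf 6 429 430) (leaf 4 461 590))))) (merge (node 588 (merge (leaf 1 556 589) (node 556 (merge (leaf 1 555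 587) (node 524 (merge (leaf 3 523 523) (leaf 3 524 525))))))) (merge (node 588 (merge (leaf 1 556 589) (node 556 (merge (leaf 1 555 587) (node 524 (merge (leaf 3 523 523) (node 492 (merge (leaf 6 460 493) (node 491 (merge (leaf 7 459 459) (leaf 1 459 460))))))))))) (node 588 (merge (leaf 1 556 589) (node 556 (merge (leaf 1 555 587) (node 493 (merge (leaf 5 460 525) (node 492 (merge (leaf 1 460 464) (node 491 (merge (leaf 1 459 460) (leaf 2 458 490))))))))))))))) (node 428 (merge (leaf 3 428 429) (node 460 (merge (leaf 3 427 427) (node 491 (merge (leaf 1 459 492) (node 459 (merge (leaf 1 458 490) (node 494 (merge (leaf 0 459 495) (node 526 (merge (leaf 4 462 591) (node 557 (merge (leaf 5 461 589) (node 525 (merge (leaf 5 429 430) (leaf 3 524 524))))))))))))))))))))) (merge (node 462 (merge (node 429 (merge (leaf 3 428 428) (node 526 (merge (leaf 7 429 494) (node 525 (merge (leaf 4 429 493) (node 524 (merge (leaf 0 523 523) (leaf 3 524 557))))))))) (merge (node 557 (merge (node 525 (merge (leaf 3 524 524) (node 493 (merge (leaf 6 429 430) (leaf 4 461 590))))) (merge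 (node 588 (merge (leaf 1 556 589) (node 556 (merge (leaf 1 555 587) (node 524 (merge (leaf 3 523 523) (leaf 3 524 525))))))) (merge (node 588 (merge (leaf 1 556 589) (node 556 (merge (leaf 1 555 587) (node 524 (merge (leaf 3 523 523) (node 492 (merge (leaf 6 460 493) (node 491 (merge (leaf 7 459 459) (leaf 1 459 460))))))))))) (node 588 (merge (leaf 1 556 589) (node 556 (merge (leaf 1 555 587) (node 493 (merge (leaf 5 460 525) (node 492 (merge (leaf 1 460 464) (node 491 (merge (leaf 1 459 460) (leaf 2 458 490))))))))))))))) (node 496 (merge (leaf 0 461 497) (node 460 (merge (leaf 0 460 495) (node 428 (merge (leaf 3 427 427) (leaf 3 428 429)))))))))) (node 557 (merge (node 525 (merge (leaf 3 524 524) (node 493 (merge (leaf 4 461 590) (node 428 (merge (leaf 7 428 460) (node 429 (merge (leaf 7 396 396) (leaf 4 429 526))))))))) (merge (node 588 (merge (leaf 1 556 589) (node 556 (merge (leaf 1 555 587) (node 523 (merge (leaf 3 523 524) (node 555 (merge (leaf 3 522 522) (node 591 (merge (leaf 5 463 496) (leaf 0 555 590))))))))))) (merge (node 588 (merge (leaf 1 556 589)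 (node 556 (merge (leaf 1 555 587) (node 525 (merge (leaf 5 460 493) (node 591 (merge (leaf 5 463 496) (node 555 (merge (leaf 0 555 590) (node 554 (merge (leaf 2 522 526) (node 522 (merge (leaf 3 521 521) (leaf 3 522 523))))))))))))))) (node 524 (merge (leaf 3 524 525) (node 556 (merge (leaf 3 523 523) (node 588 (merge (leaf 1 555 587) (node 492 (merge (leaf 6 460 493) (node 460 (merge (leaf 6 428 429) (node 459 (merge (leaf 7 427 427) (leaf 7 459 491)))))))))))))))))))))))))))))))))) nP_246 cP_246 13 (by decide +kernel)
def nP_247 : ℕ := 0x1000000010000000000000001c0000000000000000000000000000000000000000000000000000000000000000000000000000000000000000000000000000000000000000000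
def cP_247 : ℕ := 0x80000003e0000002e000000efc00000efc00001cfc000000fe0000003c0000017e000000e0000000e0000000a00000000000000000000000000000000000000000000000000000000000000000000000000000000000
theorem lP_247 : S nP_247 cP_247 13 := S_of_chk [] trivial (node 494 (merge (node 461 (merge (node 429 (merge (leaf 3 428 428) (node 526 (merge (leaf 7 429 558) (node 397 (merge (leaf 4 365 365) (leaf 4 397 493))))))) (merge (node 460 (merge (node 492 (merge (leaf 1 459 491) (leaf 1 460 493))) (merge (node 459 (merge (leaf 0 459 495) (node 493 (merge (leaf 0 458 458) (leaf 1 460 492))))) (merge (node 459 (merge (leaf 0 459 495) (node 491 (merge (leaf 1 458 490) (leaf 1 459 492))))) (node 459 (merge (leaf 0 459 495) (node 458 (merge (leaf 0 458 493) (node 490 (merge (leaf 1 457 489) (leaf 1 458 491))))))))))) (node 428 (merge (leaf 3 428 429) (node 460 (merge (leaf 3 427 427) (node 459 (merge (leaf 0 459 495) (node 491 (merge (leaf 1 458 490) (leaf 1 459 492)))))))))))) (merge (node 461 (merge (node 460 (merge (node 492 (merge (leaf 1 459 491) (leaf 1 460 493))) (merge (node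 459 (merge (leaf 0 459 495) (node 493 (merge (leaf 0 458 458) (leaf 1 460 492))))) (node 459 (merge (leaf 0 459 495) (node 490 (merge (leaf 1 458 491) (node 458 (merge (leaf 1 457 489) (node 426 (merge (leaf 3 425 425) (leaf 3 426 427)))))))))))) (merge (node 428 (merge (leaf 3 428 429) (node 460 (merge (leaf 3 427 427) (node 459 (merge (leaf 0 459 495) (node 458 (merge (leaf 0 458 493) (node 490 (merge (leaf 1 457 489) (leaf 1 458 491))))))))))) (merge (node 428 (merge (leaf 3 428 429) (node 460 (merge (leaf 3 427 427) (node 459 (merge (leaf 0 459 495) (node 491 (merge (leaf 1 458 490) (leaf 1 459 492))))))))) (node 493 (merge (leaf 1 460 492) (node 429 (merge (leaf 3 428 428) (node 397 (merge (leaf 4 365 365) (node 398 (merge (leaf 6 365 366) (node 525 (merge (leaf 6 397 430) (node 557 (merge (leaf 6 461 589) (node 556 (merge (leaf 5 428 524) (leaf 5 460 588))))))))))))))))))) (merge (node 526 (merge (node 558 (merge (node 461 (merge (leaf 7 429 429) (node 493 (merge (leaf 1 460 492) (leaf 7 461 590))))) (node 559 (merge (leaf 4 462 591) (node 525 (merge (leaf 3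 525 561) (node 557 (merge (leaf 3 524 524) (leaf 5 461 589))))))))) (merge (node 558 (merge (node 557 (merge (leaf 5 461 589) (node 525 (merge (leaf 5 429 430) (node 527 (merge (leaf 1 524 556) (leaf 0 525 561))))))) (merge (node 559 (merge (leaf 4 462 591) (node 589 (merge (leaf 5 461 557) (node 590 (merge (leaf 1 557 561) (leaf 5 493 621))))))) (merge (node 559 (merge (leaf 4 462 591) (node 561 (merge (leaf 3 525 525) (node 527 (merge (leaf 4 430 430) (leaf 3 526 562))))))) (node 559 (merge (leaf 4 462 591) (node 527 (merge (leaf 4 430 430) (node 557 (merge (leaf 2 524 556) (leaf 5 461 589))))))))))) (merge (node 559 (merge (node 591 (merge (leaf 4 462 558) (node 623 (merge (leaf 7 494 527) (leaf 6 527 655))))) (merge (node 430 (merge (leaf 4 430 527) (node 429 (merge (leaf 7 397 397) (node 428 (merge (leaf 0 427 427) (leaf 3 428 461))))))) (node 558 (merge (leaf 4 462 591) (node 461 (merge (leaf 7 429 429) (node 493 (merge (leaf 1 460 492) (leaf 7 461 590)))))))))) (node 430 (merge (node 429 (merge (leaf 7 397 397) (node 428 (merge (leaf 0 427 427) (leaf 3 428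 461))))) (merge (node 397 (merge (leaf 7 397 429) (node 398 (merge (leaf 7 365 365) (node 525 (merge (leaf 5 397 493) (leaf 5 429 557))))))) (node 493 (merge (node 492 (merge (leaf 1 460 461) (leaf 2 459 491))) (node 525 (merge (leaf 5 397 398) (node 557 (merge (leaf 5 429 526) (leaf 6 461 589)))))))))))))) (merge (node 430 (merge (node 398 (merge (node 495 (merge (leaf 4 398 527) (node 493 (merge (leaf 2 460 492) (leaf 5 397 525))))) (node 367 (merge (leaf 6 366 399) (node 366 (merge (leaf 6 334 335) (node 365 (merge (leaf 7 333 333) (leaf 7 365 397))))))))) (merge (node 398 (merge (node 367 (merge (leaf 6 366 399) (node 366 (merge (leaf 6 334 335) (leaf 4 366 495))))) (node 397 (merge (leaf 7 365 365) (node 526 (merge (leaf 7 397 429) (node 525 (merge (leaf 5 397 493) (leaf 5 429 557))))))))) (merge (node 398 (merge (node 495 (merge (leaf 4 366 366) (node 527 (merge (leaf 4 398 494) (leaf 7 430 559))))) (merge (node 367 (merge (leaf 6 366 399) (node 366 (merge (leaf 6 334 335) (node 365 (merge (leaf 7 333 333) (leaf 7 365 397))))))) (node 397 (merge (leaf 7 365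 365) (node 526 (merge (leaf 7 397 429) (node 527 (merge (leaf 4 398 495) (leaf 4 430 559)))))))))) (merge (node 526 (merge (node 397 (merge (leaf 7 397 429) (node 398 (merge (leaf 7 365 365) (node 525 (merge (leaf 5 397 493) (leaf 5 429 557))))))) (merge (node 527 (merge (leaf 4 430 559) (node 525 (merge (leaf 0 525 561) (node 493 (merge (leaf 5 397 398) (leaf 3 492 492))))))) (node 559 (merge (leaf 4 430 527) (node 558 (merge (leaf 4 462 591) (node 589 (merge (leaf 5 461 557) (node 590 (merge (leaf 1 557 561) (leaf 5 493 621)))))))))))) (node 526 (merge (node 525 (merge (leaf 5 429 557) (node 527 (merge (leaf 4 430 559) (leaf 0 525 561))))) (merge (node 557 (merge (leaf 5 429 525) (node 558 (merge (leaf 5 461 589) (node 590 (merge (leaf 6 462 495) (node 591 (merge (leaf 4 462 559) (leaf 4 494 623))))))))) (merge (node 559 (merge (leaf 4 430 527) (node 558 (merge (leaf 4 462 591) (node 590 (merge (leaf 6 462 495) (node 589 (merge (leaf 5 461 557) (leaf 1 557 561))))))))) (merge (node 525 (merge (leaf 5 429 557) (node 527 (merge (leaf 0 525 561) (node 492 (merge (leaf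 3 492 493) (node 524 (merge (leaf 3 491 491) (node 555 (merge (leaf 1 523 556) (node 523 (merge (leaf 2 491 495) (leaf 1 522 554))))))))))))) (node 527 (merge (leaf 4 430 559) (node 525 (merge (leaf 0 525 561) (node 492 (merge (leaf 3 492 493) (node 524 (merge (leaf 3 491 491) (node 555 (merge (leaf 1 523 556) (node 523 (merge (leaf 2 491 495) (leaf 1 522 554))))))))))))))))))))))) (merge (node 526 (merge (node 430 (merge (node 429 (merge (leaf 7 397 397) (node 428 (merge (leaf 0 427 427) (leaf 3 428 461))))) (node 525 (merge (leaf 5 429 557) (node 527 (merge (leaf 4 430 559) (leaf 0 525 561))))))) (merge (node 558 (merge (node 590 (merge (leaf 6 462 495) (node 589 (merge (leaf 5 461 557) (leaf 5 493 621))))) (merge (node 590 (merge (leaf 6 462 495) (node 591 (merge (leaf 4 462 559) (leaf 4 494 623))))) (node 559 (merge (leaf 4 462 591) (node 527 (merge (leaf 4 430 430) (node 557 (merge (leaf 2 524 556) (leaf 5 461 589)))))))))) (merge (node 558 (merge (node 590 (merge (leaf 6 462 495) (node 589 (merge (leaf 5 461 557) (leaf 5 493 621))))) (merge (node 590 (merge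 (leaf 6 462 495) (node 591 (merge (leaf 4 462 559) (leaf 4 494 623))))) (node 559 (merge (leaf 4 462 591) (node 525 (merge (leaf 3 525 561) (node 557 (merge (leaf 3 524 524) (leaf 5 461 589)))))))))) (merge (node 558 (merge (node 590 (merge (leaf 6 462 495) (node 589 (merge (leaf 5 461 557) (leaf 5 493 621))))) (merge (node 429 (merge (leaf 7 429 461) (node 430 (merge (leaf 7 397 397) (node 557 (merge (leaf 5 429 525) (leaf 5 461 589))))))) (node 495 (merge (leaf 6 462 590) (node 429 (merge (leaf 7 429 461) (node 430 (merge (leaf 7 397 397) (node 398 (merge (leaf 4 366 366) (leaf 4 398 527)))))))))))) (node 558 (merge (node 590 (merge (leaf 6 462 495) (node 591 (merge (leaf 4 462 559) (leaf 4 494 623))))) (merge (node 429 (merge (leaf 7 429 461) (node 430 (merge (leaf 7 397 397) (node 559 (merge (leaf 4 430 527) (leaf 4 462 591))))))) (merge (node 590 (merge (leaf 6 462 495) (node 623 (merge (leaf 4 494 591) (node 622 (merge (leaf 4 526 655) (node 621 (merge (leaf 5 493 589) (leaf 5 525 653))))))))) (node 590 (merge (leaf 6 462 495) (node 621 (merge (leaf 5 493 589)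 (node 622 (merge (leaf 5 525 653) (node 655 (merge (leaf 4 526 623) (node 654 (merge (leaf 4 558 687) (node 559 (merge (leaf 6 526 527) (node 561 (merge (leaf 3 525 525) (node 593 (merge (leaf 0 558 594) (node 657 (merge (leaf 7 528 625) (leaf 3 621 656)))))))))))))))))))))))))))) (node 559 (merge (node 527 (merge (node 495 (merge (leaf 7 430 430) (leaf 6 431 432))) (merge (node 526 (merge (leaf 4 430 430) (node 591 (merge (leaf 4 462 558) (leaf 7 494 623))))) (node 495 (merge (leaf 6 431 432) (node 591 (merge (leaf 7 462 462) (node 623 (merge (leaf 7 494 526) (leaf 6 527 655)))))))))) (merge (node 527 (merge (node 495 (merge (leaf 7 430 430) (leaf 6 431 432))) (merge (node 526 (merge (leaf 4 430 430) (node 561 (merge (leaf 0 525 525) (leaf 3 526 562))))) (node 495 (merge (leaf 6 431 432) (node 558 (merge (leaf 5 462 590) (node 557 (merge (leaf 2 524 556) (node 589 (merge (leaf 1 556 588) (node 525 (merge (leaf 3 524 524) (node 526 (merge (leaf 5 461 494) (leaf 0 525 561)))))))))))))))) (merge (node 527 (merge (node 495 (merge (leaf 7 430 430) (leaf 7 462 591))) (merge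 (node 526 (merge (leaf 4 430 430) (node 561 (merge (leaf 0 525 525) (leaf 3 526 562))))) (node 495 (merge (leaf 6 431 432) (node 591 (merge (leaf 7 462 462) (node 623 (merge (leaf 7 494 526) (leaf 6 527 655)))))))))) (merge (node 558 (merge (node 526 (merge (leaf 4 462 591) (node 527 (merge (leaf 4 430 430) (node 557 (merge (leaf 2 524 556) (leaf 5 461 589))))))) (merge (node 526 (merge (leaf 4 462 591) (node 525 (merge (leaf 3 525 561) (node 524 (merge (leaf 0 523 523) (leaf 3 524 557))))))) (merge (node 526 (merge (leaf 4 462 591) (node 525 (merge (leaf 3 525 561) (node 527 (merge (leaf 4 430 430) (leaf 0 524 524))))))) (node 589 (merge (node 588 (merge (leaf 1 556 557) (node 590 (merge (leaf 1 557 561) (leaf 2 555 587))))) (merge (node 557 (merge (leaf 1 556 588) (node 556 (merge (leaf 2 524 527) (node 524 (merge (leaf 3 523 523) (leaf 3 524 525))))))) (node 561 (merge (leaf 1 557 590) (node 594 (merge (leaf 0 558 593) (node 562 (merge (leaf 0 559 595) (node 531 (merge (leaf 2 527 530) (node 563 (merge (leaf 3 527 527) (leaf 2 528 532)))))))))))))))))) (merge (node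 558 (merge (node 526 (merge (leaf 4 462 591) (node 590 (merge (leaf 6 462 495) (node 561 (merge (leaf 3 525 525) (leaf 1 557 589))))))) (merge (node 526 (merge (leaf 4 462 591) (node 525 (merge (leaf 3 525 561) (node 524 (merge (leaf 0 523 523) (leaf 3 524 557))))))) (merge (node 526 (merge (leaf 4 462 591) (node 590 (merge (leaf 6 462 495) (node 589 (merge (leaf 5 461 557) (leaf 5 493 621))))))) (node 589 (merge (node 588 (merge (leaf 1 556 557) (node 590 (merge (leaf 1 557 561) (leaf 2 555 587))))) (merge (node 557 (merge (leaf 1 556 588) (node 556 (merge (leaf 2 524 527) (node 524 (merge (leaf 3 523 523) (leaf 3 524 525))))))) (node 561 (merge (leaf 1 557 590) (node 594 (merge (leaf 0 558 593) (node 562 (merge (leaf 0 559 595) (node 531 (merge (leaf 2 527 530) (node 563 (merge (leaf 3 527 527) (leaf 2 528 532)))))))))))))))))) (merge (node 557 (merge (node 493 (merge (node 492 (merge (leaf 2 459 491) (leaf 2 460 495))) (node 525 (merge (leaf 6 461 589) (node 430 (merge (leaf 5 397 398) (leaf 6 429 461))))))) (merge (node 558 (merge (node 556 (merge (leaf 2 524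 527) (node 524 (merge (leaf 3 523 523) (leaf 3 524 525))))) (merge (node 588 (merge (leaf 1 556 589) (node 556 (merge (leaf 2 524 527) (leaf 1 555 587))))) (node 589 (merge (leaf 1 556 588) (node 525 (merge (leaf 6 461 493) (leaf 3 524 524)))))))) (merge (node 558 (merge (node 556 (merge (leaf 2 524 527) (node 524 (merge (leaf 3 523 523) (leaf 3 524 525))))) (merge (node 527 (merge (leaf 2 524 556) (node 495 (merge (leaf 7 430 430) (leaf 6 431 432))))) (node 493 (merge (node 492 (merge (leaf 2 459 491) (leaf 2 460 495))) (node 525 (merge (leaf 3 524 524) (node 461 (merge (leaf 6 429 430) (leaf 4 461 590)))))))))) (node 527 (merge (node 495 (merge (leaf 7 430 430) (leaf 7 462 591))) (node 558 (merge (leaf 2 524 556) (node 589 (merge (leaf 1 556 588) (node 561 (merge (leaf 1 557 590) (node 594 (merge (leaf 0 558 593) (node 562 (merge (leaf 3 527 563) (leaf 0 559 595))))))))))))))))) (node 558 (merge (node 526 (merge (leaf 4 462 591) (node 590 (merge (leaf 6 462 495) (node 561 (merge (leaf 3 525 525) (leaf 1 557 589))))))) (merge (node 526 (merge (leaf 4 462 591) (node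 557 (merge (leaf 5 461 589) (node 525 (merge (leaf 5 429 430) (leaf 3 524 524))))))) (merge (node 589 (merge (node 557 (merge (leaf 5 461 526) (leaf 1 556 588))) (merge (node 590 (merge (leaf 1 557 561) (node 526 (merge (leaf 6 462 495) (leaf 5 493 621))))) (node 588 (merge (leaf 1 556 557) (node 590 (merge (leaf 1 557 561) (leaf 2 555 587)))))))) (merge (node 526 (merge (leaf 4 462 591) (node 525 (merge (leaf 3 525 561) (node 524 (merge (leaf 0 523 523) (leaf 3 524 557))))))) (node 557 (merge (node 525 (merge (leaf 3 524 524) (node 493 (merge (leaf 6 461 589) (node 492 (merge (leaf 2 459 491) (leaf 2 460 495))))))) (merge (node 589 (merge (leaf 1 556 588) (node 493 (merge (leaf 6 461 525) (node 492 (merge (leaf 2 459 491) (leaf 2 460 495))))))) (merge (node 524 (merge (leaf 3 524 525) (node 556 (merge (leaf 3 523 523) (node 587 (merge (leaf 1 555 588) (node 555 (merge (leaf 1 554 586) (node 492 (merge (leaf 5 459 460) (node 493 (merge (leaf 2 459 491) (leaf 2 460 495))))))))))))) (node 556 (merge (node 588 (merge (leaf 1 555 587) (leaf 1 556 589))) (merge (node 523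 (merge (leaf 3 523 524) (node 555 (merge (leaf 3 522 522) (node 590 (merge (leaf 0 555 591) (node 589 (merge (leaf 0 554 554) (leaf 1 557 561))))))))) (node 587 (merge (leaf 1 555 588) (node 555 (merge (leaf 1 554 586) (node 523 (merge (leaf 3 522 522) (leaf 3 523 524)))))))))))))))))))))))))))))))) nP_247 cP_247 13 (by decide +kernel)
def nP_248 : ℕ := 0x100000001000000000000000180000000000000000000000000000000000000000000000000000000000000000000000000000000000000000000000000000000000000000000
def cP_248 : ℕ := 0x80000003e0000007f000000efc00000efe00001cfc00000efe00000e7c00001f7e000001e0000000f8000000e0000000a000000000000000000000000000000000000000000000000000000000000000000000000000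
theorem lP_248 : S nP_248 cP_248 16 := S_of_chk [(nP_247, cP_247, 13)] ⟨lP_247, trivial⟩ (node 462 (merge (node 465 (merge (node 498 (merge (leaf 0 462 497) (node 466 (merge (leaf 0 463 499) (node 434 (merge (leaf 2 430 433) (leaf 2 431 435))))))) (merge (node 493 (merge (leaf 1 461 494) (node 461 (merge (leaf 1 460 492) (node 433 (merge (leaf 2 429 432) (leaf 2 430 434))))))) (node 498 (merge (leaf 0 462 497) (node 466 (merge (leaf 0 463 499) (node 494 (merge (leaf 1 461 493) (leaf 1 462 495)))))))))) (merge (node 465 (merge (node 498 (merge (leaf 0 462 497) (node 466 (merge (leaf 0 463 499) (node 434 (merge (leaf 2 430 433) (leaf 2 431 435))))))) (node 493 (merge (leaf 1 461 494) (node 461 (merge (leaf 1 460 492) (node 429 (merge (leaf 3 428 428) (leaf 3 429 430))))))))) (merge (node 465 (merge (node 498 (merge (leaf 0 462 497) (node 466 (merge (leaf 0 463 499) (node 494 (merge (leaf 1 461 493) (leaf 1 462 495))))))) (node 433 (merge (leaf 2 430 434) (node 461 (merge (leaf 2 429 432) (node 429 (merge (leaf 3 428 428) (leaf 3 429 430))))))))) (merge (node 430 (merge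 (node 465 (merge (leaf 3 429 429) (node 498 (merge (leaf 0 462 497) (node 466 (merge (leaf 0 463 499) (node 434 (merge (leaf 2 430 433) (leaf 2 431 435))))))))) (merge (node 398 (merge (node 495 (merge (leaf 4 366 366) (node 527 (merge (leaf 4 398 494) (leaf 7 430 559))))) (merge (node 366 (merge (leaf 4 366 495) (node 335 (merge (leaf 6 334 367) (node 334 (merge (leaf 6 302 303) (node 333 (merge (leaf 7 301 301) (leaf 7 333 365))))))))) (merge (node 494 (merge (node 495 (merge (leaf 4 398 527) (node 493 (merge (leaf 2 460 492) (leaf 5 397 525))))) (merge (node 397 (merge (leaf 7 365 365) (node 526 (merge (leaf 7 397 429) (node 525 (merge (leaf 5 397 493) (leaf 5 429 557))))))) (node 397 (merge (leaf 7 365 365) (node 526 (merge (leaf 7 397 429) (node 527 (merge (leaf 4 398 495) (leaf 4 430 559)))))))))) (node 365 (merge (node 333 (merge (leaf 7 333 366) (node 397 (merge (leaf 4 301 301) (leaf 4 333 429))))) (merge (node 366 (merge (leaf 7 333 333) (node 367 (merge (leaf 6 334 335) (node 399 (merge (leaf 6 366 494) (node 364 (merge (leaf 0 363 363) (leaf 0 364 400)))))))))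 (node 494 (merge (leaf 7 365 397) (node 525 (merge (leaf 5 397 493) (node 526 (merge (leaf 5 429 557) (node 527 (merge (leaf 4 430 559) (leaf 0 525 561)))))))))))))))) (node 494 (merge (node 465 (merge (leaf 1 461 493) (node 498 (merge (leaf 0 462 497) (node 466 (merge (leaf 0 463 499) (node 434 (merge (leaf 2 430 433) (leaf 2 431 435))))))))) (node 527 (merge (node 526 (merge (leaf 4 430 559) (node 525 (merge (leaf 5 429 557) (leaf 0 525 561))))) (node 398 (merge (leaf 4 398 495) (node 367 (merge (leaf 6 366 399) (node 366 (merge (leaf 6 334 335) (node 365 (merge (leaf 7 333 333) (leaf 7 365 397)))))))))))))))) (merge (node 461 (merge (node 492 (merge (leaf 1 460 493) (node 460 (merge (leaf 1 459 491) (node 428 (merge (leaf 3 427 427) (leaf 3 428 429))))))) (merge (node 433 (merge (leaf 2 429 432) (node 465 (merge (leaf 2 430 434) (node 429 (merge (leaf 3 428 428) (leaf 3 429 430))))))) (merge (node 527 (merge (node 433 (merge (leaf 2 429 432) (node 465 (merge (leaf 2 430 434) (node 498 (merge (leaf 0 462 497) (node 466 (merge (leaf 0 463 499) (node 562 (merge (leaf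 7 433 530) (node 561 (merge (leaf 3 527 563) (node 526 (merge (leaf 0 525 525) (leaf 3 526 559))))))))))))))) (merge (node 525 (merge (node 526 (merge (leaf 0 525 561) (node 524 (merge (leaf 0 524 559) (node 492 (merge (leaf 3 491 491) (leaf 1 460 493))))))) (merge (node 493 (merge (leaf 1 460 492) (node 557 (merge (leaf 6 429 430) (node 556 (merge (leaf 1 524 526) (leaf 5 460 588))))))) (merge (node 526 (merge (leaf 0 525 561) (node 524 (merge (leaf 0 524 559) (node 556 (merge (leaf 1 523 555) (leaf 1 524 557))))))) (node 493 (merge (leaf 1 460 492) (node 557 (merge (leaf 6 429 430) (node 558 (merge (leaf 4 461 590) (node 559 (merge (leaf 3 524 524) (node 556 (merge (leaf 2 524 527) (leaf 5 460 588))))))))))))))) (merge (node 433 (merge (leaf 2 429 432) (node 465 (merge (leaf 2 430 434) (node 498 (merge (leaf 0 462 497) (node 466 (merge (leaf 0 463 499) (node 562 (merge (leaf 7 433 530) (node 561 (merge (leaf 3 527 563) (node 559 (merge (leaf 3 526 526) (node 495 (merge (leaf 7 430 430) (node 590 (merge (leaf 5 462 558) (leaf 1 558 591))))))))))))))))))) (merge (node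 525 (merge (node 493 (merge (leaf 1 460 492) (node 557 (merge (leaf 6 429 430) (node 556 (merge (leaf 1 524 526) (leaf 5 460 588))))))) (merge (node 561 (merge (leaf 0 525 526) (node 433 (merge (leaf 2 429 432) (node 465 (merge (leaf 2 430 434) (node 498 (merge (leaf 0 462 497) (node 466 (merge (leaf 0 463 499) (node 562 (merge (leaf 7 433 530) (leaf 3 527 563))))))))))))) (node 493 (merge (leaf 1 460 492) (node 557 (merge (leaf 6 429 430) (node 590 (merge (leaf 4 461 558) (node 589 (merge (leaf 4 493 622) (node 588 (merge (leaf 5 460 556) (leaf 5 492 620)))))))))))))) (merge (node 557 (merge (node 493 (merge (leaf 1 460 492) (node 525 (merge (leaf 6 429 430) (node 556 (merge (leaf 1 524 526) (leaf 5 460 588))))))) (merge (node 559 (merge (node 432 (merge (leaf 2 429 433) (leaf 6 431 495))) (node 525 (merge (node 526 (merge (leaf 0 524 524) (leaf 1 524 556))) (merge (node 524 (merge (leaf 0 524 526) (leaf 3 524 558))) (merge (node 556 (merge (leaf 1 524 526) (leaf 2 524 558))) (node 558 (merge (leaf 3 524 524) (leaf 2 524 556))))))))) (merge (node 493 (merge (leaf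 1 460 492) (node 525 (merge (leaf 6 429 430) (node 432 (merge (leaf 2 429 433) (node 559 (merge (leaf 6 431 495) (node 558 (merge (leaf 3 524 524) (leaf 4 461 590))))))))))) (node 492 (merge (leaf 1 460 493) (node 460 (merge (leaf 1 459 491) (node 432 (merge (leaf 2 429 433) (node 559 (merge (leaf 6 431 495) (node 556 (merge (leaf 2 524 558) (node 427 (merge (leaf 3 427 428) (node 524 (merge (leaf 7 427 459) (leaf 4 460 589))))))))))))))))))) (node 559 (merge (node 495 (merge (leaf 7 430 430) (leaf 6 431 432))) (merge (node 492 (merge (leaf 1 460 493) (node 460 (merge (leaf 1 459 491) (node 495 (merge (leaf 7 430 430) (node 427 (merge (leaf 3 427 428) (node 459 (merge (leaf 3 426 426) (node 556 (merge (leaf 7 427 524) (node 558 (merge (leaf 2 524 557) (leaf 5 462 590))))))))))))))) (node 493 (merge (leaf 1 460 492) (node 433 (merge (leaf 2 429 432) (node 465 (merge (leaf 2 430 434) (node 498 (merge (leaf 0 462 497) (node 466 (merge (leaf 0 463 499) (node 562 (merge (leaf 7 433 530) (node 561 (merge (leaf 3 527 563) (node 594 (merge (leaf 0 559 595) (node 558 (merge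 (leaf 0 558 593) (node 590 (merge (leaf 1 558 591) (node 557 (merge (leaf 4 461 525) (leaf 2 524 556)))))))))))))))))))))))))))))))) (node 493 (merge (leaf 1 460 492) (node 527 (merge (node 433 (merge (leaf 2 429 432) (node 465 (merge (leaf 2 430 434) (node 498 (merge (leaf 0 462 497) (node 466 (merge (leaf 0 463 499) (node 562 (merge (leaf 7 433 530) (node 561 (merge (leaf 3 527 563) (node 526 (merge (leaf 0 525 525) (leaf 3 526 559))))))))))))))) (merge (node 433 (merge (leaf 2 429 432) (node 465 (merge (leaf 2 430 434) (node 498 (merge (leaf 0 462 497) (node 466 (merge (leaf 0 463 499) (node 562 (merge (leaf 7 433 530) (node 430 (merge (leaf 3 429 429) (node 559 (merge (leaf 7 430 495) (node 561 (merge (leaf 3 526 526) (leaf 3 527 563))))))))))))))))) (merge (node 430 (merge (node 429 (merge (leaf 3 429 465) (node 398 (merge (leaf 5 365 366) (leaf 6 397 525))))) (merge (node 525 (merge (leaf 6 429 557) (node 526 (merge (leaf 0 525 561) (node 559 (merge (leaf 7 430 495) (leaf 0 524 524))))))) (node 559 (merge (leaf 7 430 495) (node 465 (merge (leaf 3 429 429) (node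 498 (merge (leaf 0 462 497) (node 466 (merge (leaf 0 463 499) (node 435 (merge (leaf 2 431 434) (node 467 (merge (leaf 2 432 436) (node 562 (merge (leaf 6 434 530) (node 561 (merge (leaf 3 526 526) (leaf 3 527 563)))))))))))))))))))) (merge (node 525 (merge (node 430 (merge (leaf 6 429 557) (node 429 (merge (leaf 6 397 398) (leaf 3 429 465))))) (merge (node 557 (merge (leaf 6 429 430) (node 558 (merge (leaf 4 461 590) (node 559 (merge (leaf 3 524 524) (node 556 (merge (leaf 2 524 527) (leaf 5 460 588))))))))) (merge (node 432 (merge (leaf 2 429 433) (node 559 (merge (leaf 6 431 495) (node 524 (merge (leaf 0 524 526) (node 429 (merge (leaf 5 428 556) (node 430 (merge (leaf 6 397 398) (leaf 3 429 465))))))))))) (node 432 (merge (leaf 2 429 433) (node 559 (merge (leaf 6 431 495) (node 524 (merge (leaf 0 524 526) (node 557 (merge (leaf 3 524 558) (node 556 (merge (leaf 5 428 429) (leaf 5 460 588))))))))))))))) (merge (node 525 (merge (node 526 (merge (leaf 0 525 561) (node 559 (merge (leaf 0 524 524) (node 432 (merge (leaf 2 429 433) (leaf 6 431 495))))))) (merge (node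 526 (merge (leaf 0 525 561) (node 557 (merge (leaf 1 524 556) (node 558 (merge (leaf 4 429 429) (leaf 4 461 590))))))) (node 557 (merge (leaf 6 429 430) (node 558 (merge (leaf 4 461 590) (node 559 (merge (leaf 3 524 524) (node 556 (merge (leaf 2 524 527) (leaf 5 460 588)))))))))))) (merge (node 559 (merge (node 495 (merge (leaf 7 430 430) (leaf 6 431 432))) (merge (node 432 (merge (leaf 2 429 433) (leaf 6 431 495))) (merge (node 430 (merge (leaf 7 430 495) (node 465 (merge (leaf 3 429 429) (node 498 (merge (leaf 0 462 497) (node 466 (merge (leaf 0 463 499) (node 434 (merge (leaf 2 430 433) (leaf 2 431 435))))))))))) (node 433 (merge (leaf 2 429 432) (node 465 (merge (leaf 2 430 434) (node 498 (merge (leaf 0 462 497) (node 466 (merge (leaf 0 463 499) (node 562 (merge (leaf 7 433 530) (node 430 (merge (leaf 3 429 429) (node 557 (merge (leaf 6 429 525) (node 558 (merge (leaf 2 524 556) (node 561 (merge (leaf 3 527 563) (node 594 (merge (leaf 0 558 593) (leaf 0 559 595))))))))))))))))))))))))) (node 433 (merge (leaf 2 429 432) (node 465 (merge (leaf 2 430 434) (node 498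 (merge (leaf 0 462 497) (node 466 (merge (leaf 0 463 499) (node 562 (merge (leaf 7 433 530) (node 561 (merge (leaf 3 527 563) (node 525 (merge (leaf 0 525 526) (node 557 (merge (leaf 6 429 430) (node 590 (merge (leaf 4 461 558) (node 589 (merge (leaf 4 493 622) (node 588 (merge (leaf 5 460 556) (leaf 5 492 620)))))))))))))))))))))))))))))))))))) (merge (node 527 (merge (node 430 (merge (node 495 (merge (leaf 7 430 559) (node 398 (merge (leaf 4 366 366) (leaf 4 398 494))))) (node 429 (merge (leaf 3 429 465) (node 428 (merge (leaf 0 427 427) (leaf 3 428 461))))))) (merge (node 559 (merge (node 495 (merge (leaf 7 430 430) (leaf 6 431 432))) (merge (node 526 (merge (node 525 (merge (leaf 0 524 524) (leaf 0 525 561))) (node 494 (merge (leaf 4 430 430) (node 591 (merge (leaf 4 462 558) (leaf 7 494 623))))))) (node 495 (merge (leaf 6 431 432) (node 591 (merge (leaf 7 462 494) (node 590 (merge (leaf 5 462 558) (leaf 5 494 622)))))))))) (merge (node 559 (merge (node 495 (merge (leaf 7 430 430) (leaf 6 431 432))) (merge (node 430 (merge (leaf 7 430 495) (node 429 (merge (leaf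 3 429 465) (node 428 (merge (leaf 0 427 427) (leaf 3 428 461))))))) (merge (node 432 (merge (leaf 6 431 495) (node 433 (merge (leaf 2 429 461) (node 434 (merge (leaf 1 431 435) (leaf 2 430 465))))))) (node 465 (merge (node 433 (merge (leaf 2 430 434) (node 461 (merge (leaf 2 429 432) (node 429 (merge (leaf 3 428 428) (leaf 3 429 430))))))) (merge (node 562 (merge (node 561 (merge (leaf 3 526 526) (leaf 3 527 563))) (node 498 (merge (leaf 0 462 497) (node 466 (merge (leaf 0 463 499) (node 433 (merge (leaf 7 433 530) (node 461 (merge (leaf 2 429 432) (node 429 (merge (leaf 3 428 428) (leaf 3 429 430))))))))))))) (node 498 (merge (leaf 0 462 497) (node 466 (merge (leaf 0 463 499) (node 435 (merge (leaf 2 431 434) (node 467 (merge (leaf 2 432 436) (node 562 (merge (leaf 6 434 530) (node 561 (merge (leaf 3 526 526) (leaf 3 527 563)))))))))))))))))))) (merge (node 526 (merge (node 525 (merge (leaf 0 525 561) (node 557 (merge (leaf 1 524 556) (node 494 (merge (leaf 5 429 430) (node 589 (merge (leaf 5 461 558) (leaf 6 493 621))))))))) (merge (node 429 (merge (node 461 (merge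 (leaf 3 428 428) (node 494 (merge (leaf 7 429 558) (node 397 (merge (leaf 4 365 365) (leaf 7 397 430))))))) (merge (node 465 (merge (leaf 3 429 430) (node 498 (merge (leaf 0 462 497) (node 466 (merge (leaf 0 463 499) (node 434 (merge (leaf 2 430 433) (leaf 2 431 435))))))))) (node 461 (merge (leaf 3 428 428) (node 494 (merge (leaf 7 429 558) (node 433 (merge (leaf 2 429 432) (node 465 (merge (leaf 2 430 434) (node 498 (merge (leaf 0 462 497) (node 466 (merge (leaf 1 462 495) (leaf 0 463 499)))))))))))))))) (node 433 (merge (node 432 (merge (leaf 2 429 461) (node 434 (merge (leaf 1 431 435) (leaf 2 430 465))))) (merge (node 561 (merge (leaf 0 525 525) (node 465 (merge (leaf 2 430 434) (node 498 (merge (leaf 0 462 497) (node 466 (merge (leaf 0 463 499) (node 562 (merge (leaf 7 433 530) (leaf 3 527 563))))))))))) (node 525 (merge (leaf 0 525 561) (node 556 (merge (leaf 1 524 557) (node 524 (merge (leaf 1 523 555) (node 461 (merge (leaf 2 429 432) (node 429 (merge (leaf 3 428 428) (node 492 (merge (leaf 6 428 460) (leaf 3 491 491))))))))))))))))))) (merge (node 526 (merge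 (node 525 (merge (leaf 0 525 561) (node 524 (merge (leaf 0 524 559) (node 556 (merge (leaf 1 523 555) (leaf 1 524 557))))))) (merge (node 525 (merge (leaf 0 525 561) (node 557 (merge (leaf 1 524 556) (node 494 (merge (leaf 5 429 430) (node 589 (merge (leaf 5 461 558) (leaf 6 493 621))))))))) (merge (node 525 (merge (node 557 (merge (leaf 1 524 556) (node 494 (merge (leaf 5 429 430) (node 589 (merge (leaf 5 461 558) (leaf 6 493 621))))))) (merge (node 524 (merge (leaf 0 524 559) (node 555 (merge (leaf 1 523 556) (node 523 (merge (leaf 1 522 554) (node 491 (merge (leaf 3 490 490) (leaf 3 491 492))))))))) (node 524 (merge (leaf 0 524 559) (node 491 (merge (leaf 3 491 492) (node 523 (merge (leaf 3 490 490) (node 554 (merge (leaf 1 522 555) (node 522 (merge (leaf 1 521 553) (node 557 (merge (leaf 0 522 558) (node 427 (merge (leaf 5 426 459) (node 430 (merge (leaf 5 429 494) (node 429 (merge (leaf 0 427 428) (leaf 3 429 465)))))))))))))))))))))) (node 429 (merge (node 430 (merge (leaf 3 429 465) (node 494 (merge (leaf 7 397 397) (leaf 4 430 559))))) (merge (node 428 (merge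 (leaf 3 428 461) (node 430 (merge (leaf 0 427 427) (leaf 3 429 465))))) (merge (node 461 (merge (leaf 3 428 428) (node 494 (merge (leaf 7 429 558) (node 430 (merge (leaf 7 397 397) (leaf 4 430 559))))))) (node 461 (merge (leaf 3 428 428) (node 433 (merge (leaf 2 429 432) (node 465 (merge (leaf 2 430 434) (node 498 (merge (leaf 0 462 497) (node 466 (merge (leaf 0 463 499) (node 562 (merge (leaf 7 433 530) (node 561 (merge (leaf 3 526 559) (leaf 3 527 563))))))))))))))))))))))) (node 559 (merge (node 432 (merge (leaf 6 431 495) (node 433 (merge (leaf 2 429 461) (node 434 (merge (leaf 1 431 435) (leaf 2 430 465))))))) (node 561 (merge (node 526 (merge (leaf 0 525 525) (leaf 3 526 562))) (merge (node 562 (merge (leaf 3 527 563) (node 594 (merge (leaf 0 559 595) (node 558 (merge (leaf 0 558 593) (node 590 (merge (leaf 1 557 589) (leaf 1 558 591))))))))) (node 558 (merge (node 525 (merge (leaf 0 525 526) (node 557 (merge (leaf 3 524 524) (leaf 2 524 556))))) (merge (node 589 (merge (leaf 1 557 590) (node 557 (merge (leaf 2 524 556) (leaf 1 556 588))))) (node 526 (merge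 (leaf 0 525 525) (node 593 (merge (leaf 0 558 594) (node 590 (merge (leaf 1 557 589) (node 625 (merge (leaf 7 528 657) (node 591 (merge (leaf 4 462 494) (node 623 (merge (leaf 6 527 655) (node 624 (merge (leaf 3 590 626) (leaf 4 527 656))))))))))))))))))))))))))))) (hyp 0)))))))) nP_248 cP_248 16 (by decide +kernel)
def nP_249 : ℕ := 0x100000001000000000000000180000000000000000000000000000000000000000000000000000000000000000000000000000000000000000000000000000000000000000000
def cP_249 : ℕ := 0x20000000e0000000e0000000e4000003ef000003ef000007cf000000fe000000e0000001f0000000b8000000380000000800000000000000000000000000000000000000000000000000000000000000000000000000000000000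
theorem lP_249 : S nP_249 cP_249 12 := S_of_chk [] trivial (node 561 (merge (node 496 (merge (leaf 4 464 593) (node 433 (merge (leaf 6 432 465) (node 432 (merge (leaf 6 400 401) (node 559 (merge (leaf 5 431 527) (leaf 5 463 591))))))))) (merge (node 559 (merge (node 527 (merge (node 432 (merge (leaf 6 431 495) (leaf 5 431 496))) (node 526 (merge (leaf 0 525 525) (leaf 3 526 562))))) (merge (node 593 (merge (leaf 4 464 496) (node 594 (merge (leaf 0 558 558) (node 595 (merge (leaf 0 559 562) (leaf 3 560 596))))))) (merge (node 593 (merge (leaf 4 464 496) (node 558 (merge (leaf 0 558 594) (node 590 (merge (leaf 1 557 589) (node 526 (merge (leaf 3 525 525) (node 495 (merge (leaf 6 462 494) (leaf 5 462 527))))))))))) (node 527 (merge (node 562 (merge (leaf 3 526 526) (leaf 3 527 563))) (merge (node 495 (merge (leaf 6 431 432) (node 525 (merge (leaf 0 525 526) (node 558 (merge (leaf 5 462 590) (node 557 (merge (leaf 3 524 524) (leaf 2 524 556))))))))) (node 495 (merge (leaf 6 431 432) (node 562 (merge (leaf 3 527 563) (node 594 (merge (leaf 0 559 595) (node 558 (merge (leaf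 5 462 590) (leaf 0 558 593)))))))))))))))) (merge (node 559 (merge (node 527 (merge (node 432 (merge (leaf 6 431 495) (leaf 5 431 496))) (node 526 (merge (leaf 0 525 525) (leaf 3 526 562))))) (merge (node 591 (merge (leaf 5 463 496) (node 590 (merge (leaf 1 558 562) (node 589 (merge (leaf 1 557 558) (leaf 2 556 588))))))) (merge (node 527 (merge (node 526 (merge (leaf 0 525 525) (leaf 3 526 562))) (merge (node 495 (merge (leaf 6 431 432) (node 590 (merge (leaf 5 462 558) (node 591 (merge (leaf 1 558 562) (leaf 5 494 622))))))) (node 495 (merge (leaf 6 431 432) (node 525 (merge (leaf 0 525 526) (node 558 (merge (leaf 5 462 590) (node 557 (merge (leaf 3 524 524) (leaf 2 524 556)))))))))))) (node 496 (merge (leaf 5 463 591) (node 432 (merge (leaf 5 431 527) (node 401 (merge (leaf 6 400 433) (node 400 (merge (leaf 6 368 369) (node 367 (merge (leaf 7 367 399) (node 368 (merge (leaf 7 335 335) (leaf 5 367 495))))))))))))))))) (merge (node 562 (merge (node 527 (merge (leaf 3 527 563) (node 526 (merge (leaf 0 525 525) (leaf 3 526 559))))) (merge (node 563 (merge (leaf 3 527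 527) (node 596 (merge (leaf 0 560 595) (node 564 (merge (leaf 0 561 597) (node 532 (merge (leaf 2 528 531) (leaf 2 529 533))))))))) (merge (node 559 (merge (node 590 (merge (leaf 1 558 591) (node 558 (merge (leaf 1 557 589) (node 526 (merge (leaf 3 525 525) (leaf 3 526 527))))))) (node 594 (merge (leaf 0 559 595) (node 530 (merge (leaf 2 527 531) (node 626 (merge (node 659 (merge (leaf 4 530 627) (node 658 (merge (leaf 4 562 691) (node 657 (merge (leaf 5 529 625) (leaf 5 561 689))))))) (merge (node 625 (merge (leaf 5 529 657) (node 498 (merge (leaf 5 497 593) (node 467 (merge (leaf 6 466 499) (node 466 (merge (leaf 6 434 435) (node 465 (merge (leaf 7 433 433) (leaf 7 465 497))))))))))) (merge (node 659 (merge (leaf 4 530 627) (node 658 (merge (leaf 4 562 691) (node 593 (merge (leaf 7 561 690) (node 498 (merge (leaf 5 465 466) (leaf 5 497 625))))))))) (node 659 (merge (leaf 4 530 627) (node 658 (merge (leaf 4 562 691) (node 690 (merge (leaf 7 561 593) (node 689 (merge (leaf 5 561 657) (leaf 5 593 721))))))))))))))))))) (node 530 (merge (node 531 (merge (leaf 2 527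 559) (node 532 (merge (leaf 1 529 533) (leaf 2 528 563))))) (merge (node 559 (merge (leaf 2 527 531) (node 594 (merge (leaf 0 559 595) (node 558 (merge (leaf 0 558 593) (node 590 (merge (leaf 1 557 589) (leaf 1 558 591))))))))) (merge (node 498 (merge (node 593 (merge (leaf 5 465 466) (node 625 (merge (leaf 5 497 594) (leaf 6 529 657))))) (merge (node 466 (merge (leaf 5 465 593) (node 435 (merge (leaf 6 434 467) (node 434 (merge (leaf 6 402 403) (node 465 (merge (leaf 7 433 433) (leaf 2 431 464))))))))) (merge (node 594 (merge (node 595 (merge (leaf 4 498 627) (node 596 (merge (leaf 0 560 563) (leaf 3 561 597))))) (node 499 (merge (leaf 6 466 467) (node 626 (merge (leaf 6 498 531) (node 625 (merge (leaf 5 497 593) (leaf 5 529 657))))))))) (node 563 (merge (node 595 (merge (leaf 0 560 596) (node 531 (merge (leaf 2 528 532) (leaf 7 498 627))))) (merge (node 595 (merge (leaf 0 560 596) (node 627 (merge (leaf 7 530 659) (node 498 (merge (leaf 4 466 466) (leaf 4 498 594))))))) (node 531 (merge (leaf 2 528 532) (node 466 (merge (leaf 4 434 434) (node 467 (merge (leaf 6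 434 435) (node 499 (merge (leaf 6 466 594) (node 465 (merge (leaf 7 433 433) (leaf 0 463 464)))))))))))))))))) (node 594 (merge (node 595 (merge (leaf 0 559 559) (node 596 (merge (leaf 0 560 563) (leaf 3 561 597))))) (node 626 (merge (node 659 (merge (leaf 4 530 627) (node 658 (merge (leaf 4 562 691) (node 657 (merge (leaf 5 529 625) (leaf 5 561 689))))))) (merge (node 625 (merge (leaf 5 529 657) (node 498 (merge (leaf 5 497 593) (node 467 (merge (leaf 6 466 499) (node 466 (merge (leaf 6 434 435) (node 465 (merge (leaf 7 433 433) (leaf 7 465 497))))))))))) (merge (node 659 (merge (leaf 4 530 627) (node 658 (merge (leaf 4 562 691) (node 593 (merge (leaf 7 561 690) (node 498 (merge (leaf 5 465 466) (leaf 5 497 625))))))))) (node 659 (merge (leaf 4 530 627) (node 658 (merge (leaf 4 562 691) (node 690 (merge (leaf 7 561 593) (node 689 (merge (leaf 5 561 657) (leaf 5 593 721))))))))))))))))))))))) (merge (node 562 (merge (node 559 (merge (node 591 (merge (leaf 5 463 496) (leaf 1 558 590))) (node 595 (merge (leaf 0 559 594) (node 563 (merge (leaf 0 560 596) (node 531 (merge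 (leaf 2 527 530) (leaf 2 528 532))))))))) (merge (node 530 (merge (node 531 (merge (leaf 2 527 559) (node 532 (merge (leaf 1 529 533) (leaf 2 528 563))))) (node 593 (merge (leaf 4 464 496) (node 625 (merge (leaf 6 529 657) (node 498 (merge (leaf 5 465 466) (leaf 5 497 594))))))))) (merge (node 559 (merge (node 496 (merge (leaf 5 463 591) (leaf 4 464 593))) (merge (node 591 (merge (leaf 5 463 496) (leaf 1 558 590))) (node 594 (merge (leaf 0 559 595) (node 558 (merge (leaf 0 558 593) (node 589 (merge (leaf 1 557 590) (node 557 (merge (leaf 1 556 588) (node 525 (merge (leaf 3 524 524) (leaf 3 525 526)))))))))))))) (merge (node 496 (merge (leaf 4 464 593) (node 465 (merge (leaf 6 432 433) (node 559 (merge (leaf 5 463 591) (node 531 (merge (leaf 2 527 530) (node 563 (merge (leaf 2 528 532) (node 596 (merge (leaf 0 560 595) (node 564 (merge (leaf 0 561 597) (node 499 (merge (leaf 4 467 467) (node 498 (merge (leaf 0 463 466) (leaf 3 463 497))))))))))))))))))) (merge (node 498 (merge (node 593 (merge (leaf 4 464 496) (node 625 (merge (leaf 7 528 657) (node 530 (merge (leaf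 5 465 466) (leaf 5 497 594))))))) (merge (node 496 (merge (leaf 4 464 593) (node 499 (merge (leaf 3 463 497) (node 465 (merge (leaf 6 432 433) (leaf 0 463 466))))))) (merge (node 465 (merge (node 499 (merge (leaf 0 463 466) (node 496 (merge (leaf 6 432 433) (leaf 3 463 497))))) (merge (node 466 (merge (leaf 0 463 499) (node 435 (merge (leaf 2 431 434) (node 467 (merge (leaf 2 432 436) (leaf 6 434 530))))))) (merge (node 433 (merge (leaf 6 432 496) (node 530 (merge (leaf 7 433 466) (node 497 (merge (leaf 4 401 401) (leaf 7 465 594))))))) (node 496 (merge (leaf 6 432 433) (node 497 (merge (leaf 3 463 499) (node 530 (merge (leaf 7 465 594) (node 531 (merge (leaf 0 495 495) (node 532 (merge (leaf 1 529 533) (leaf 2 528 563))))))))))))))) (merge (node 563 (merge (node 596 (merge (leaf 0 560 595) (node 564 (merge (leaf 0 561 597) (node 532 (merge (leaf 2 528 531) (leaf 2 529 533))))))) (merge (node 532 (merge (leaf 2 528 531) (node 564 (merge (leaf 2 529 533) (node 593 (merge (leaf 4 464 496) (node 594 (merge (leaf 1 561 565) (node 625 (merge (leaf 5 497 530) (leaf 7 528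 657))))))))))) (merge (node 596 (merge (leaf 0 560 595) (node 564 (merge (leaf 0 561 597) (node 593 (merge (leaf 4 464 496) (node 594 (merge (leaf 1 561 565) (node 625 (merge (leaf 5 497 530) (leaf 7 528 657))))))))))) (node 595 (merge (leaf 0 560 596) (node 531 (merge (leaf 2 528 532) (node 593 (merge (leaf 4 464 496) (node 625 (merge (leaf 7 528 657) (node 594 (merge (leaf 5 497 530) (node 499 (merge (leaf 5 466 467) (leaf 5 498 626))))))))))))))))) (node 530 (merge (node 593 (merge (leaf 5 465 466) (node 625 (merge (leaf 5 497 594) (leaf 6 529 657))))) (merge (node 466 (merge (leaf 5 465 593) (node 435 (merge (leaf 6 434 467) (node 434 (merge (leaf 6 402 403) (node 465 (merge (leaf 7 433 433) (leaf 2 431 464))))))))) (merge (node 594 (merge (node 595 (merge (leaf 4 498 627) (node 596 (merge (leaf 0 560 563) (leaf 3 561 597))))) (node 499 (merge (leaf 6 466 467) (node 626 (merge (leaf 6 498 531) (node 625 (merge (leaf 5 497 593) (leaf 5 529 657))))))))) (node 563 (merge (node 595 (merge (leaf 0 560 596) (node 531 (merge (leaf 2 528 532) (leaf 7 498 627))))) (merge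 (node 595 (merge (leaf 0 560 596) (node 627 (merge (leaf 7 530 659) (node 498 (merge (leaf 4 466 466) (leaf 4 498 594))))))) (node 531 (merge (leaf 2 528 532) (node 466 (merge (leaf 4 434 434) (node 467 (merge (leaf 6 434 435) (node 499 (merge (leaf 6 466 594) (node 465 (merge (leaf 7 433 433) (leaf 0 463 464))))))))))))))))))))))) (node 530 (merge (node 531 (merge (leaf 2 527 559) (node 532 (merge (leaf 1 529 533) (leaf 2 528 563))))) (merge (node 559 (merge (leaf 2 527 531) (node 594 (merge (leaf 0 559 595) (node 558 (merge (leaf 0 558 593) (node 590 (merge (leaf 1 557 589) (leaf 1 558 591))))))))) (merge (node 498 (merge (node 593 (merge (leaf 5 465 466) (node 625 (merge (leaf 5 497 594) (leaf 6 529 657))))) (merge (node 466 (merge (leaf 5 465 593) (node 435 (merge (leaf 6 434 467) (node 434 (merge (leaf 6 402 403) (node 465 (merge (leaf 7 433 433) (leaf 2 431 464))))))))) (merge (node 594 (merge (node 595 (merge (leaf 4 498 627) (node 596 (merge (leaf 0 560 563) (leaf 3 561 597))))) (node 499 (merge (leaf 6 466 467) (node 626 (merge (leaf 6 498 531) (node 625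 (merge (leaf 5 497 593) (leaf 5 529 657))))))))) (node 563 (merge (node 595 (merge (leaf 0 560 596) (node 531 (merge (leaf 2 528 532) (leaf 7 498 627))))) (merge (node 595 (merge (leaf 0 560 596) (node 627 (merge (leaf 7 530 659) (node 498 (merge (leaf 4 466 466) (leaf 4 498 594))))))) (node 531 (merge (leaf 2 528 532) (node 466 (merge (leaf 4 434 434) (node 467 (merge (leaf 6 434 435) (node 499 (merge (leaf 6 466 594) (node 465 (merge (leaf 7 433 433) (leaf 0 463 464)))))))))))))))))) (node 594 (merge (node 595 (merge (leaf 0 559 559) (node 596 (merge (leaf 0 560 563) (leaf 3 561 597))))) (node 626 (merge (node 659 (merge (leaf 4 530 627) (node 658 (merge (leaf 4 562 691) (node 657 (merge (leaf 5 529 625) (leaf 5 561 689))))))) (merge (node 625 (merge (leaf 5 529 657) (node 498 (merge (leaf 5 497 593) (node 467 (merge (leaf 6 466 499) (node 466 (merge (leaf 6 434 435) (node 465 (merge (leaf 7 433 433) (leaf 7 465 497))))))))))) (merge (node 659 (merge (leaf 4 530 627) (node 658 (merge (leaf 4 562 691) (node 593 (merge (leaf 7 561 690) (node 498 (merge (leaf 5 465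 466) (leaf 5 497 625))))))))) (node 659 (merge (leaf 4 530 627) (node 658 (merge (leaf 4 562 691) (node 690 (merge (leaf 7 561 593) (node 689 (merge (leaf 5 561 657) (leaf 5 593 721))))))))))))))))))))))))) (node 562 (merge (node 563 (merge (leaf 3 527 527) (node 596 (merge (leaf 0 560 595) (node 564 (merge (leaf 0 561 597) (node 532 (merge (leaf 2 528 531) (leaf 2 529 533))))))))) (merge (node 499 (merge (node 496 (merge (leaf 4 464 593) (node 498 (merge (leaf 3 463 497) (node 465 (merge (leaf 6 432 433) (leaf 0 463 466))))))) (node 563 (merge (leaf 3 527 527) (node 531 (merge (leaf 2 528 532) (node 594 (merge (leaf 5 466 467) (node 626 (merge (leaf 6 498 530) (leaf 6 530 658))))))))))) (merge (node 563 (merge (leaf 3 527 527) (node 596 (merge (leaf 0 560 595) (node 564 (merge (leaf 0 561 597) (node 533 (merge (leaf 2 529 532) (node 565 (merge (leaf 2 530 534) (node 593 (merge (leaf 4 464 496) (leaf 1 561 594))))))))))))) (merge (node 498 (merge (node 593 (merge (leaf 4 464 496) (node 625 (merge (leaf 7 528 657) (node 530 (merge (leaf 5 465 466) (leaf 5 497 594)))))))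 (merge (node 496 (merge (leaf 4 464 593) (node 499 (merge (leaf 3 463 497) (node 465 (merge (leaf 6 432 433) (leaf 0 463 466))))))) (merge (node 465 (merge (node 499 (merge (leaf 0 463 466) (node 496 (merge (leaf 6 432 433) (leaf 3 463 497))))) (merge (node 466 (merge (leaf 0 463 499) (node 435 (merge (leaf 2 431 434) (node 467 (merge (leaf 2 432 436) (leaf 6 434 530))))))) (merge (node 433 (merge (leaf 6 432 496) (node 530 (merge (leaf 7 433 466) (node 497 (merge (leaf 4 401 401) (leaf 7 465 594))))))) (node 496 (merge (leaf 6 432 433) (node 497 (merge (leaf 3 463 499) (node 530 (merge (leaf 7 465 594) (node 531 (merge (leaf 0 495 495) (node 532 (merge (leaf 1 529 533) (leaf 2 528 563))))))))))))))) (merge (node 563 (merge (node 596 (merge (leaf 0 560 595) (node 564 (merge (leaf 0 561 597) (node 532 (merge (leaf 2 528 531) (leaf 2 529 533))))))) (merge (node 532 (merge (leaf 2 528 531) (node 564 (merge (leaf 2 529 533) (node 593 (merge (leaf 4 464 496) (node 594 (merge (leaf 1 561 565) (node 625 (merge (leaf 5 497 530) (leaf 7 528 657))))))))))) (merge (node 596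 (merge (leaf 0 560 595) (node 564 (merge (leaf 0 561 597) (node 593 (merge (leaf 4 464 496) (node 594 (merge (leaf 1 561 565) (node 625 (merge (leaf 5 497 530) (leaf 7 528 657))))))))))) (node 595 (merge (leaf 0 560 596) (node 531 (merge (leaf 2 528 532) (node 593 (merge (leaf 4 464 496) (node 625 (merge (leaf 7 528 657) (node 594 (merge (leaf 5 497 530) (node 499 (merge (leaf 5 466 467) (leaf 5 498 626))))))))))))))))) (node 530 (merge (node 593 (merge (leaf 5 465 466) (node 625 (merge (leaf 5 497 594) (leaf 6 529 657))))) (merge (node 466 (merge (leaf 5 465 593) (node 435 (merge (leaf 6 434 467) (node 434 (merge (leaf 6 402 403) (node 465 (merge (leaf 7 433 433) (leaf 2 431 464))))))))) (merge (node 594 (merge (node 595 (merge (leaf 4 498 627) (node 596 (merge (leaf 0 560 563) (leaf 3 561 597))))) (node 499 (merge (leaf 6 466 467) (node 626 (merge (leaf 6 498 531) (node 625 (merge (leaf 5 497 593) (leaf 5 529 657))))))))) (node 563 (merge (node 595 (merge (leaf 0 560 596) (node 531 (merge (leaf 2 528 532) (leaf 7 498 627))))) (merge (node 595 (merge (leaf 0 560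 596) (node 627 (merge (leaf 7 530 659) (node 498 (merge (leaf 4 466 466) (leaf 4 498 594))))))) (node 531 (merge (leaf 2 528 532) (node 466 (merge (leaf 4 434 434) (node 467 (merge (leaf 6 434 435) (node 499 (merge (leaf 6 466 594) (node 465 (merge (leaf 7 433 433) (leaf 0 463 464))))))))))))))))))))))) (node 498 (merge (node 593 (merge (leaf 4 464 496) (node 625 (merge (leaf 7 528 657) (node 530 (merge (leaf 5 465 466) (leaf 5 497 594))))))) (merge (node 496 (merge (leaf 4 464 593) (node 499 (merge (leaf 3 463 497) (node 465 (merge (leaf 6 432 433) (leaf 0 463 466))))))) (merge (node 496 (merge (leaf 4 464 593) (node 465 (merge (leaf 6 432 433) (node 497 (merge (leaf 3 463 499) (node 530 (merge (leaf 7 465 594) (node 495 (merge (leaf 0 495 531) (node 526 (merge (leaf 1 494 527) (node 494 (merge (leaf 2 461 493) (leaf 1 493 525))))))))))))))) (merge (node 465 (merge (node 499 (merge (leaf 0 463 466) (node 496 (merge (leaf 6 432 433) (leaf 3 463 497))))) (merge (node 466 (merge (leaf 0 463 499) (node 435 (merge (leaf 2 431 434) (node 467 (merge (leaf 2 432 436) (leaf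 6 434 530))))))) (merge (node 433 (merge (leaf 6 432 496) (node 530 (merge (leaf 7 433 466) (node 497 (merge (leaf 4 401 401) (leaf 7 465 594))))))) (node 496 (merge (leaf 6 432 433) (node 497 (merge (leaf 3 463 499) (node 530 (merge (leaf 7 465 594) (node 495 (merge (leaf 0 495 531) (node 526 (merge (leaf 1 494 527) (node 494 (merge (leaf 2 461 493) (leaf 1 493 525))))))))))))))))) (node 530 (merge (node 593 (merge (leaf 5 465 466) (node 625 (merge (leaf 5 497 594) (leaf 6 529 657))))) (merge (node 466 (merge (node 465 (merge (leaf 7 433 433) (leaf 0 463 499))) (merge (node 435 (merge (leaf 6 434 467) (node 434 (merge (leaf 6 402 403) (node 433 (merge (leaf 7 401 401) (leaf 1 431 432))))))) (node 465 (merge (leaf 0 463 499) (node 435 (merge (leaf 2 431 434) (node 467 (merge (leaf 2 432 436) (leaf 6 434 530)))))))))) (node 594 (merge (node 595 (merge (leaf 4 498 627) (node 593 (merge (leaf 3 560 596) (leaf 5 497 625))))) (merge (node 499 (merge (leaf 6 466 467) (node 626 (merge (leaf 6 498 531) (node 627 (merge (leaf 4 498 595) (leaf 4 530 659))))))) (node 499 (merge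 (leaf 6 466 467) (node 626 (merge (leaf 6 498 531) (node 625 (merge (leaf 5 497 593) (leaf 5 529 657))))))))))))))))))))))))))))) nP_249 cP_249 12 (by decide +kernel)
def nP_250 : ℕ := 0x300000001000000000000000000000000000000000000000000000000000000000000000000000000000000000000000000000000000000000000000000000000000000000000
def cP_250 : ℕ := 0x180000001fc000007fc000003ee000001cc000003ce000001c0000001c00000010000000000000000000000000000000000000000000000000000000000000000000000000000000000000000000000000000000000000
theorem lP_250 : S nP_250 cP_250 12 := S_of_chk [] trivial (node 562 (merge (node 527 (merge (leaf 3 527 563) (node 526 (merge (leaf 0 525 525) (leaf 3 526 559))))) (merge (node 563 (merge (leaf 3 527 527) (node 596 (merge (leaf 0 560 595) (node 564 (merge (leaf 0 561 597) (node 532 (merge (leaf 2 528 531) (leaf 2 529 533))))))))) (merge (node 559 (merge (node 526 (merge (leaf 3 526 527) (node 590 (merge (leaf 1 558 591) (node 558 (merge (leaf 3 525 525) (leaf 1 557 589))))))) (merge (node 594 (merge (leaf 0 559 595) (node 593 (merge (leaf 0 558 558)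 (node 625 (merge (leaf 7 528 657) (node 530 (merge (leaf 5 497 498) (leaf 2 527 531))))))))) (node 594 (merge (leaf 0 559 595) (node 591 (merge (leaf 1 558 590) (node 623 (merge (leaf 6 527 655) (node 530 (merge (leaf 2 527 531) (node 527 (merge (leaf 3 526 526) (node 624 (merge (leaf 4 527 656) (node 622 (merge (leaf 5 526 654) (node 625 (merge (leaf 2 590 593) (node 657 (merge (leaf 5 529 626) (leaf 0 622 658)))))))))))))))))))))) (node 531 (merge (node 530 (merge (leaf 2 527 559) (node 532 (merge (leaf 1 529 533) (leaf 2 528 563))))) (merge (node 559 (merge (leaf 2 527 530) (node 594 (merge (leaf 0 559 595) (node 558 (merge (leaf 0 558 593) (node 590 (merge (leaf 1 557 589) (leaf 1 558 591))))))))) (merge (node 563 (merge (leaf 2 528 532) (node 595 (merge (leaf 0 560 596) (node 594 (merge (leaf 0 559 559) (node 499 (merge (leaf 5 466 467) (leaf 5 498 626))))))))) (node 563 (merge (leaf 2 528 532) (node 595 (merge (leaf 0 560 596) (node 594 (merge (node 626 (merge (leaf 5 498 499) (leaf 6 530 658))) (merge (node 499 (merge (leaf 5 466 467) (node 498 (merge (leaf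 7 466 466) (node 627 (merge (leaf 7 498 530) (node 659 (merge (leaf 7 562 691) (node 660 (merge (leaf 4 531 628) (leaf 4 563 692))))))))))) (merge (node 499 (merge (leaf 5 498 626) (node 468 (merge (leaf 6 467 500) (node 467 (merge (leaf 6 435 436) (leaf 5 466 562))))))) (node 530 (merge (node 627 (merge (leaf 7 498 498) (leaf 7 530 659))) (merge (node 626 (merge (leaf 6 530 658) (node 498 (merge (leaf 4 466 466) (node 625 (merge (leaf 5 497 593) (leaf 5 529 657))))))) (node 626 (merge (leaf 6 530 658) (node 627 (merge (leaf 7 530 659) (node 628 (merge (leaf 4 531 660) (node 629 (merge (leaf 3 593 593) (leaf 3 594 630)))))))))))))))))))))))))))) nP_250 cP_250 12 (by decide +kernel)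
def nP_251 : ℕ := 0x100000001000000000000000180000000000000000000000000000000000000000000000000000000000000000000000000000000000000000000000000000000000000000000
def cP_251 : ℕ := 0x180000001fc000007fc000003ef000001ef000003cf000001ff800001e7000001d780000007000000070000000700000004000000000000000000000000000000000000000000000000000000000000000000000000000
theorem lP_251 : S nP_251 cP_251 13 := S_of_chk [(nP_250, cP_250, 12)] ⟨lP_250, trivial⟩ (node 561 (merge (node 462 (merge (node 496 (merge (leaf 4 464 593) (node 497 (merge (leaf 0 461 461) (node 498 (merge (leaf 0 462 465) (leaf 3 463 499))))))) (merge (node 496 (merge (leaf 4 464 593) (node 461 (merge (leaf 0 461 497) (node 460 (merge (leaf 0 460 495) (node 492 (merge (leaf 1 459 491) (leaf 1 460 493))))))))) (merge (node 498 (merge (node 496 (merge (leaf 4 464 593) (node 497 (merge (leaf 0 462 465) (leaf 3 462 495))))) (merge (node 496 (merge (leaf 4 464 593) (node 497 (merge (leaf 0 462 465) (leaf 3 463 499))))) (merge (node 496 (merge (leaf 4 464 593) (node 497 (merge (leaf 3 462 495) (leaf 3 463 499))))) (merge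 (node 465 (merge (leaf 0 462 497) (node 466 (merge (leaf 0 463 499) (node 494 (merge (leaf 1 461 493) (leaf 1 462 495))))))) (node 466 (merge (node 465 (merge (leaf 0 463 499) (node 494 (merge (leaf 1 461 493) (leaf 1 462 495))))) (node 593 (merge (leaf 4 464 496) (node 562 (merge (leaf 5 465 530) (node 563 (merge (leaf 3 527 527) (node 596 (merge (leaf 0 560 595) (node 564 (merge (leaf 0 561 597) (node 532 (merge (leaf 2 528 531) (leaf 2 529 533)))))))))))))))))))) (merge (node 465 (merge (node 493 (merge (leaf 1 461 494) (node 461 (merge (leaf 1 460 492) (node 429 (merge (leaf 3 428 428) (leaf 3 429 430))))))) (node 498 (merge (leaf 0 462 497) (node 466 (merge (leaf 0 463 499) (node 435 (merge (leaf 2 431 434) (node 467 (merge (leaf 2 432 436) (node 562 (merge (leaf 6 434 530) (node 563 (merge (leaf 3 527 527) (node 596 (merge (leaf 0 560 595) (node 564 (merge (leaf 0 561 597) (node 532 (merge (leaf 2 528 531) (leaf 2 529 533))))))))))))))))))))) (node 465 (merge (node 493 (merge (leaf 1 461 494) (node 461 (merge (leaf 1 460 492) (node 429 (merge (leaf 3 428 428)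 (leaf 3 429 430))))))) (merge (node 429 (merge (leaf 3 429 430) (node 461 (merge (leaf 3 428 428) (node 492 (merge (leaf 1 460 493) (node 460 (merge (leaf 1 459 491) (node 496 (merge (leaf 0 460 495) (leaf 4 464 593))))))))))) (node 466 (merge (node 499 (merge (leaf 0 463 498) (node 467 (merge (leaf 0 464 500) (node 435 (merge (leaf 2 431 434) (leaf 2 432 436))))))) (merge (node 495 (merge (leaf 1 462 494) (node 467 (merge (leaf 1 463 496) (node 435 (merge (leaf 2 431 434) (leaf 2 432 436))))))) (node 498 (merge (leaf 0 463 499) (node 593 (merge (leaf 4 464 496) (node 562 (merge (leaf 5 465 530) (node 563 (merge (leaf 3 527 527) (node 596 (merge (leaf 0 560 595) (node 564 (merge (leaf 0 561 597) (node 532 (merge (leaf 2 528 531) (leaf 2 529 533)))))))))))))))))))))))))) (merge (node 496 (merge (leaf 4 464 593) (node 497 (merge (node 498 (merge (leaf 3 463 499) (node 462 (merge (leaf 0 461 461) (leaf 0 462 465))))) (merge (node 498 (merge (leaf 3 463 499) (node 559 (merge (leaf 5 463 591) (node 527 (merge (leaf 5 431 432) (node 526 (merge (leaf 1 494 495) (leaf 2 493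 525))))))))) (node 462 (merge (leaf 0 461 461) (node 559 (merge (leaf 5 463 591) (node 527 (merge (leaf 5 431 432) (node 430 (merge (leaf 7 430 495) (node 526 (merge (leaf 4 430 494) (leaf 2 493 525)))))))))))))))) (merge (node 559 (merge (node 527 (merge (node 432 (merge (leaf 6 431 495) (leaf 5 431 496))) (node 526 (merge (leaf 0 525 525) (leaf 3 526 562))))) (merge (node 591 (merge (leaf 5 463 496) (node 590 (merge (leaf 1 558 562) (node 589 (merge (leaf 1 557 558) (leaf 2 556 588))))))) (merge (node 527 (merge (node 526 (merge (leaf 0 525 525) (leaf 3 526 562))) (merge (node 495 (merge (leaf 6 431 432) (node 590 (merge (leaf 5 462 558) (node 591 (merge (leaf 1 558 562) (leaf 5 494 622))))))) (node 495 (merge (leaf 6 431 432) (node 525 (merge (leaf 0 525 526) (node 558 (merge (leaf 5 462 590) (node 557 (merge (leaf 3 524 524) (leaf 2 524 556)))))))))))) (node 527 (merge (node 496 (merge (leaf 5 431 432) (leaf 5 463 591))) (merge (node 432 (merge (leaf 6 431 495) (leaf 5 431 496))) (merge (node 495 (merge (leaf 6 431 432) (node 462 (merge (leaf 7 430 430) (node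 494 (merge (leaf 7 462 591) (node 493 (merge (leaf 1 461 465) (leaf 0 492 492))))))))) (node 591 (merge (leaf 5 463 496) (node 623 (merge (leaf 6 527 655) (node 624 (merge (leaf 4 527 656) (node 622 (merge (leaf 5 526 654) (node 590 (merge (leaf 5 494 495) (node 589 (merge (leaf 0 588 588) (leaf 3 589 625))))))))))))))))))))) (merge (hyp 0) (node 462 (merge (node 496 (merge (leaf 4 464 593) (node 497 (merge (leaf 0 461 461) (node 498 (merge (leaf 0 462 465) (leaf 3 463 499))))))) (merge (node 496 (merge (leaf 4 464 593) (node 461 (merge (leaf 0 461 497) (node 460 (merge (leaf 0 460 495) (node 492 (merge (leaf 1 459 491) (leaf 1 460 493))))))))) (merge (node 496 (merge (leaf 4 464 593) (node 461 (merge (node 428 (merge (leaf 3 428 429) (node 460 (merge (leaf 3 427 427) (leaf 0 460 495))))) (merge (node 460 (merge (leaf 0 460 495) (node 492 (merge (leaf 1 459 491) (leaf 1 460 493))))) (node 493 (merge (leaf 1 460 492) (node 465 (merge (leaf 1 461 494) (node 429 (merge (leaf 3 428 428) (leaf 3 429 430)))))))))))) (merge (node 461 (merge (node 497 (merge (leaf 0 461 496)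 (node 465 (merge (leaf 0 462 498) (node 493 (merge (leaf 1 460 492) (leaf 1 461 494))))))) (merge (node 492 (merge (leaf 1 460 493) (node 460 (merge (leaf 1 459 491) (node 428 (merge (leaf 3 427 427) (leaf 3 428 429))))))) (node 497 (merge (leaf 0 461 496) (node 465 (merge (leaf 0 462 498) (node 429 (merge (leaf 3 428 428) (leaf 3 429 430)))))))))) (merge (node 494 (merge (node 465 (merge (leaf 1 461 493) (node 498 (merge (leaf 0 462 497) (node 466 (merge (leaf 1 462 495) (leaf 0 463 499))))))) (node 559 (merge (node 496 (merge (leaf 5 463 591) (leaf 4 464 593))) (merge (node 591 (merge (leaf 5 463 496) (node 590 (merge (leaf 1 558 562) (node 558 (merge (leaf 4 462 526) (leaf 1 557 589))))))) (merge (node 558 (merge (node 526 (merge (leaf 3 525 525) (leaf 4 462 591))) (merge (node 594 (merge (leaf 0 558 593) (node 562 (merge (leaf 0 559 595) (node 590 (merge (leaf 1 557 589) (leaf 1 558 591))))))) (node 589 (merge (leaf 1 557 590) (node 526 (merge (leaf 3 525 525) (leaf 5 461 557)))))))) (node 593 (merge (leaf 4 464 496) (node 558 (merge (leaf 0 558 594) (node 589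 (merge (leaf 1 557 590) (node 557 (merge (leaf 1 556 588) (node 526 (merge (leaf 5 461 462) (leaf 3 525 525))))))))))))))))) (node 562 (merge (node 465 (merge (node 498 (merge (leaf 0 462 497) (node 466 (merge (leaf 0 463 499) (node 494 (merge (leaf 1 461 493) (leaf 1 462 495))))))) (merge (node 493 (merge (leaf 1 461 494) (node 461 (merge (leaf 1 460 492) (node 429 (merge (leaf 3 428 428) (leaf 3 429 430))))))) (node 498 (merge (leaf 0 462 497) (node 466 (merge (leaf 0 463 499) (node 435 (merge (leaf 2 431 434) (node 467 (merge (leaf 2 432 436) (leaf 6 434 530)))))))))))) (merge (node 563 (merge (node 596 (merge (leaf 0 560 595) (node 564 (merge (leaf 0 561 597) (node 532 (merge (leaf 2 528 531) (leaf 2 529 533))))))) (merge (node 595 (merge (leaf 0 560 596) (node 559 (merge (leaf 0 559 594) (node 590 (merge (leaf 1 558 591) (node 558 (merge (leaf 1 557 589) (node 526 (merge (leaf 3 525 525) (node 494 (merge (leaf 6 462 495) (node 461 (merge (leaf 7 429 429) (leaf 7 461 493))))))))))))))) (node 531 (merge (leaf 2 528 532) (node 559 (merge (leaf 2 527 530) (node 590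 (merge (leaf 1 558 591) (node 558 (merge (leaf 1 557 589) (node 526 (merge (leaf 3 525 525) (node 494 (merge (leaf 6 462 495) (node 461 (merge (leaf 7 429 429) (leaf 7 461 493)))))))))))))))))) (merge (node 429 (merge (node 428 (merge (leaf 3 428 461) (node 430 (merge (leaf 0 427 427) (leaf 3 429 465))))) (merge (node 465 (merge (leaf 3 429 430) (node 498 (merge (leaf 0 462 497) (node 466 (merge (leaf 0 463 499) (node 494 (merge (leaf 1 461 493) (leaf 1 462 495))))))))) (merge (node 461 (merge (leaf 3 428 428) (node 493 (merge (leaf 1 460 492) (node 494 (merge (leaf 1 461 465) (node 397 (merge (leaf 4 365 365) (leaf 4 397 526))))))))) (node 461 (merge (leaf 3 428 428) (node 493 (merge (leaf 1 460 492) (node 397 (merge (node 366 (merge (leaf 6 365 398) (node 365 (merge (leaf 6 333 334) (node 364 (merge (leaf 7 332 332) (leaf 7 364 396))))))) (merge (node 398 (merge (leaf 6 365 366) (node 525 (merge (leaf 6 397 430) (node 558 (merge (leaf 4 429 526) (node 557 (merge (leaf 4 461 590) (node 524 (merge (leaf 5 428 556) (leaf 3 524 559))))))))))) (merge (node 364 (merge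 (leaf 7 364 396) (node 365 (merge (leaf 7 332 332) (node 430 (merge (leaf 4 333 333) (node 525 (merge (leaf 6 397 398) (leaf 6 429 557))))))))) (node 364 (merge (leaf 7 364 396) (node 365 (merge (leaf 7 332 332) (node 334 (merge (leaf 6 333 366) (node 333 (merge (leaf 6 301 302) (leaf 4 333 430))))))))))))))))))))) (node 531 (merge (node 530 (merge (leaf 2 527 559) (node 532 (merge (leaf 1 529 533) (leaf 2 528 563))))) (merge (node 559 (merge (leaf 2 527 530) (node 594 (merge (leaf 0 559 595) (node 558 (merge (leaf 0 558 593) (node 590 (merge (leaf 1 557 589) (leaf 1 558 591))))))))) (merge (node 563 (merge (leaf 2 528 532) (node 595 (merge (leaf 0 560 596) (node 594 (merge (leaf 0 559 559) (node 499 (merge (leaf 5 466 467) (leaf 5 498 626))))))))) (node 563 (merge (leaf 2 528 532) (node 595 (merge (leaf 0 560 596) (node 594 (merge (node 626 (merge (leaf 5 498 499) (leaf 6 530 658))) (merge (node 499 (merge (leaf 5 466 467) (node 498 (merge (leaf 7 466 466) (node 627 (merge (leaf 7 498 530) (node 659 (merge (leaf 7 562 691) (node 660 (merge (leaf 4 531 628) (leaf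 4 563 692))))))))))) (merge (node 499 (merge (leaf 5 498 626) (node 468 (merge (leaf 6 467 500) (node 467 (merge (leaf 6 435 436) (leaf 5 466 562))))))) (node 530 (merge (node 627 (merge (leaf 7 498 498) (leaf 7 530 659))) (merge (node 626 (merge (leaf 6 530 658) (node 498 (merge (leaf 4 466 466) (node 625 (merge (leaf 5 497 593) (leaf 5 529 657))))))) (node 626 (merge (leaf 6 530 658) (node 627 (merge (leaf 7 530 659) (node 628 (merge (leaf 4 531 660) (node 629 (merge (leaf 3 593 593) (leaf 3 594 630))))))))))))))))))))))))))))))))))))))) nP_251 cP_251 13 (by decide +kernel)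
def nP_252 : ℕ := 0x200000002000000180000001000000000000000000000000000000000000000000000000000000000000000000000000000000000000000000000000000000000000000000000000000000000000
def cP_252 : ℕ := 0x4000000078000000780000007c000001fe000003ff000007df800000df0000001f8000009c0000011c00000100000000000000000000000000000000000000000000000000000000000000000000000000000000000000000000000000000000000000000000
theorem lP_252 : S nP_252 cP_252 12 := S_of_chk [] trivial (node 588 (merge (node 591 (merge (leaf 2 556 590) (node 623 (merge (leaf 6 527 655) (node 496 (merge (leaf 5 463 464) (leaf 6 495 527))))))) (merge (node 591 (merge (leaf 2 556 590) (node 496 (merge (leaf 5 463 464) (node 623 (merge (leaf 6 495 527) (node 622 (merge (leaf 3 588 624) (node 587 (merge (leaf 0 586 586) (leaf 3 587 620))))))))))) (merge (node 619 (merge (node 590 (merge (leaf 2 556 591) (node 618 (merge (leaf 1 586 587) (leaf 2 586 620))))) (merge (node 590 (merge (leaf 2 556 591) (node 587 (merge (leaf 1 586 618) (node 586 (merge (leaf 0 586 622) (node 554 (merge (leaf 3 553 553) (leaf 3 554 555)))))))))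 (merge (node 620 (merge (node 618 (merge (leaf 2 585 617) (node 653 (merge (leaf 0 618 654) (node 685 (merge (leaf 7 556 556) (leaf 7 588 717))))))) (merge (node 618 (merge (leaf 2 585 617) (node 650 (merge (leaf 1 617 649) (node 622 (merge (leaf 1 618 651) (node 586 (merge (leaf 3 585 585) (leaf 0 586 587))))))))) (node 651 (merge (node 650 (merge (leaf 1 618 622) (node 649 (merge (leaf 2 616 648) (leaf 2 617 652))))) (node 683 (merge (leaf 6 587 715) (node 556 (merge (leaf 5 523 524) (leaf 6 555 587)))))))))) (merge (node 620 (merge (node 590 (merge (leaf 2 586 618) (node 591 (merge (leaf 1 587 588) (leaf 2 587 622))))) (merge (node 618 (merge (leaf 2 585 617) (node 653 (merge (leaf 0 618 654) (node 685 (merge (leaf 7 556 556) (leaf 7 588 717))))))) (node 651 (merge (node 683 (merge (leaf 6 587 715) (node 556 (merge (leaf 5 523 524) (leaf 5 555 652))))) (merge (node 650 (merge (leaf 1 618 622) (node 649 (merge (leaf 2 616 648) (leaf 2 617 652))))) (node 590 (merge (leaf 1 587 591) (node 622 (merge (leaf 1 618 650) (node 654 (merge (leaf 0 619 655) (node 686 (merge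 (leaf 7 589 718) (node 556 (merge (leaf 5 523 524) (node 685 (merge (leaf 7 556 653) (leaf 5 589 717))))))))))))))))))) (node 587 (merge (node 586 (merge (leaf 0 586 622) (node 590 (merge (leaf 2 556 591) (node 554 (merge (leaf 3 553 553) (leaf 3 554 555))))))) (merge (node 524 (merge (node 556 (merge (leaf 4 492 492) (node 653 (merge (leaf 4 524 620) (leaf 7 556 685))))) (merge (node 556 (merge (leaf 5 491 492) (node 651 (merge (leaf 6 523 555) (leaf 6 555 683))))) (merge (node 590 (merge (leaf 2 556 591) (node 555 (merge (leaf 3 554 554) (node 556 (merge (leaf 6 523 651) (node 653 (merge (leaf 4 524 620) (leaf 7 556 685))))))))) (node 590 (merge (leaf 2 556 591) (node 555 (merge (leaf 3 554 554) (node 523 (merge (leaf 6 491 492) (node 620 (merge (leaf 4 491 491) (leaf 4 523 652))))))))))))) (node 586 (merge (leaf 0 586 622) (node 585 (merge (leaf 0 585 620) (node 616 (merge (leaf 1 584 617) (node 584 (merge (leaf 1 583 615) (node 552 (merge (leaf 3 551 551) (leaf 3 552 553))))))))))))))))))) (merge (node 620 (merge (node 587 (merge (node 622 (merge (leaf 0 586 586)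 (node 623 (merge (leaf 3 587 620) (leaf 3 588 624))))) (node 555 (merge (node 652 (merge (leaf 7 555 684) (node 523 (merge (leaf 4 491 491) (leaf 4 523 619))))) (node 554 (merge (leaf 3 554 590) (node 556 (merge (leaf 0 553 553) (node 653 (merge (leaf 7 556 685) (node 524 (merge (leaf 4 492 492) (leaf 4 524 620))))))))))))) (merge (node 619 (merge (node 618 (merge (leaf 2 586 590) (leaf 2 585 617))) (node 587 (merge (node 586 (merge (leaf 3 586 622) (node 585 (merge (leaf 0 584 584) (leaf 0 585 588))))) (merge (node 622 (merge (leaf 3 587 623) (node 651 (merge (leaf 1 618 650) (node 683 (merge (leaf 6 555 556) (leaf 6 587 715))))))) (node 586 (merge (leaf 0 585 585) (node 554 (merge (leaf 3 553 553) (node 651 (merge (leaf 7 554 683) (node 522 (merge (leaf 4 490 490) (leaf 7 522 555)))))))))))))) (merge (node 587 (merge (node 586 (merge (leaf 0 585 585) (node 618 (merge (leaf 1 585 617) (node 619 (merge (leaf 1 586 590) (node 653 (merge (leaf 0 618 654) (node 556 (merge (leaf 4 524 524) (leaf 7 556 685))))))))))) (merge (node 555 (merge (node 652 (merge (leaf 7 555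 684) (node 523 (merge (leaf 4 491 491) (leaf 4 523 619))))) (node 554 (merge (leaf 3 554 590) (node 556 (merge (leaf 0 553 553) (node 653 (merge (leaf 7 556 685) (node 524 (merge (leaf 4 492 492) (leaf 4 524 620))))))))))) (merge (node 586 (merge (leaf 0 585 585) (node 618 (merge (leaf 1 585 617) (node 554 (merge (leaf 3 553 553) (node 555 (merge (leaf 3 554 590) (node 523 (merge (leaf 4 491 491) (leaf 6 522 650))))))))))) (node 619 (merge (node 618 (merge (leaf 2 585 617) (node 653 (merge (leaf 0 618 654) (node 685 (merge (leaf 7 556 556) (leaf 7 588 717))))))) (node 586 (merge (leaf 0 585 585) (node 554 (merge (leaf 3 553 553) (node 651 (merge (leaf 7 554 683) (node 522 (merge (leaf 4 490 490) (leaf 7 522 555))))))))))))))) (merge (node 619 (merge (node 618 (merge (leaf 2 585 617) (node 653 (merge (leaf 0 618 654) (node 685 (merge (leaf 7 556 556) (leaf 7 588 717))))))) (merge (node 651 (merge (node 622 (merge (leaf 1 618 650) (node 623 (merge (leaf 3 587 587) (leaf 1 619 652))))) (merge (node 683 (merge (leaf 6 587 715) (node 556 (merge (leaf 5 523 524) (leaf 6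 555 587))))) (node 683 (merge (leaf 6 587 715) (node 556 (merge (leaf 5 523 524) (leaf 5 555 652)))))))) (node 618 (merge (leaf 2 585 617) (node 586 (merge (leaf 3 585 585) (node 587 (merge (leaf 0 586 622) (node 554 (merge (leaf 3 553 553) (node 522 (merge (leaf 4 490 490) (leaf 4 522 651)))))))))))))) (merge (node 619 (merge (node 618 (merge (leaf 2 586 590) (leaf 2 585 617))) (merge (node 618 (merge (leaf 2 585 617) (node 650 (merge (leaf 1 617 649) (node 622 (merge (leaf 1 618 651) (node 586 (merge (leaf 3 585 585) (leaf 0 586 587))))))))) (node 587 (merge (node 586 (merge (leaf 3 586 622) (node 585 (merge (leaf 0 584 584) (leaf 0 585 588))))) (merge (node 586 (merge (leaf 0 585 585) (node 554 (merge (leaf 3 553 553) (node 651 (merge (leaf 7 554 683) (node 522 (merge (leaf 4 490 490) (leaf 7 522 555))))))))) (node 622 (merge (leaf 3 587 623) (node 651 (merge (leaf 1 618 650) (node 683 (merge (leaf 6 587 715) (node 684 (merge (leaf 4 587 716) (node 555 (merge (leaf 7 555 652) (node 554 (merge (leaf 7 522 522) (leaf 3 554 590))))))))))))))))))) (merge (node 622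 (merge (node 623 (merge (leaf 3 588 624) (node 655 (merge (leaf 0 620 656) (node 619 (merge (leaf 0 619 654) (node 618 (merge (leaf 2 586 590) (leaf 2 585 617))))))))) (merge (node 619 (merge (node 618 (merge (leaf 2 586 590) (leaf 2 585 617))) (node 651 (merge (leaf 1 618 650) (node 683 (merge (leaf 6 587 715) (node 556 (merge (leaf 5 523 524) (leaf 5 555 652))))))))) (node 623 (merge (leaf 3 588 624) (node 652 (merge (leaf 1 619 651) (node 684 (merge (leaf 6 588 716) (node 685 (merge (leaf 4 588 717) (node 556 (merge (leaf 7 556 653) (node 523 (merge (leaf 7 523 555) (node 524 (merge (leaf 7 491 491) (leaf 4 492 492)))))))))))))))))) (node 652 (merge (node 684 (merge (leaf 6 588 716) (node 587 (merge (leaf 7 555 555) (node 622 (merge (leaf 0 586 586) (leaf 3 587 623))))))) (merge (node 684 (merge (leaf 6 588 716) (node 685 (merge (leaf 4 588 717) (node 556 (merge (leaf 7 556 653) (node 683 (merge (leaf 5 555 651) (leaf 5 587 715))))))))) (node 653 (merge (node 685 (merge (leaf 7 556 556) (leaf 7 588 717))) (merge (node 556 (merge (leaf 4 524 524) (node 651 (merge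 (leaf 5 555 683) (node 650 (merge (leaf 2 618 622) (leaf 2 617 649))))))) (node 685 (merge (leaf 7 588 717) (node 686 (merge (leaf 4 589 718) (node 651 (merge (leaf 0 650 650) (node 687 (merge (leaf 0 651 654) (leaf 3 652 688)))))))))))))))))))))) (node 653 (merge (node 556 (merge (leaf 7 556 685) (node 524 (merge (leaf 4 492 492) (leaf 4 524 620))))) (merge (node 685 (merge (leaf 7 556 556) (node 718 (merge (leaf 4 589 686) (node 717 (merge (leaf 4 621 750) (node 716 (merge (leaf 5 588 684) (leaf 5 620 748))))))))) (merge (node 654 (merge (node 655 (merge (node 620 (merge (leaf 3 620 656) (node 619 (merge (leaf 0 618 618) (leaf 0 619 622))))) (merge (node 623 (merge (leaf 6 527 591) (node 624 (merge (leaf 2 620 652) (node 625 (merge (leaf 1 622 626) (leaf 2 621 656))))))) (node 623 (merge (leaf 6 527 591) (node 652 (merge (leaf 2 620 624) (node 684 (merge (leaf 1 651 683) (node 620 (merge (leaf 3 619 619) (leaf 6 588 716)))))))))))) (merge (node 685 (merge (node 684 (merge (leaf 5 588 716) (node 655 (merge (leaf 1 652 656) (node 683 (merge (leaf 2 650 682) (leaf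 2 651 686))))))) (merge (node 717 (merge (node 718 (merge (leaf 4 589 686) (leaf 4 621 750))) (merge (node 749 (merge (leaf 6 621 622) (node 686 (merge (leaf 4 589 718) (leaf 6 653 781))))) (merge (node 749 (merge (leaf 6 621 622) (node 750 (merge (leaf 4 621 718) (leaf 4 653 782))))) (node 749 (merge (leaf 6 621 622) (node 781 (merge (leaf 6 653 686) (node 782 (merge (leaf 4 653 750) (leaf 4 685 814))))))))))) (node 716 (merge (leaf 5 588 684) (node 717 (merge (leaf 5 620 748) (node 749 (merge (leaf 6 621 622) (node 750 (merge (leaf 4 621 718) (leaf 4 653 782)))))))))))) (merge (node 655 (merge (node 620 (merge (leaf 3 620 656) (node 619 (merge (leaf 0 618 618) (leaf 0 619 622))))) (merge (node 623 (merge (leaf 6 527 591) (node 624 (merge (leaf 2 620 652) (node 625 (merge (leaf 1 622 626) (leaf 2 621 656))))))) (node 623 (merge (leaf 6 527 591) (node 652 (merge (leaf 2 620 624) (node 687 (merge (leaf 0 652 688) (node 651 (merge (leaf 2 619 622) (leaf 0 651 686)))))))))))) (merge (node 655 (merge (node 620 (merge (leaf 3 620 656) (node 619 (merge (leaf 0 618 618)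 (leaf 3 619 652))))) (merge (node 652 (merge (node 684 (merge (leaf 1 651 683) (node 716 (merge (leaf 6 620 748) (node 620 (merge (leaf 6 588 589) (leaf 3 619 619))))))) (merge (node 687 (merge (leaf 0 652 688) (node 651 (merge (leaf 0 651 686) (node 619 (merge (leaf 3 618 618) (leaf 3 619 620))))))) (node 687 (merge (leaf 0 652 688) (node 651 (merge (leaf 0 651 686) (node 683 (merge (leaf 1 650 682) (leaf 1 651 684)))))))))) (node 685 (merge (node 684 (merge (leaf 1 652 656) (leaf 5 588 716))) (merge (node 656 (merge (leaf 1 652 684) (node 686 (merge (leaf 1 653 657) (leaf 4 589 718))))) (node 717 (merge (node 718 (merge (leaf 4 589 686) (leaf 4 621 750))) (merge (node 686 (merge (leaf 4 589 718) (node 749 (merge (leaf 6 653 781) (node 748 (merge (leaf 5 620 716) (leaf 5 652 780))))))) (merge (node 750 (merge (leaf 4 621 718) (node 749 (merge (leaf 4 653 782) (node 748 (merge (leaf 5 620 716) (leaf 5 652 780))))))) (node 748 (merge (leaf 5 620 716) (node 749 (merge (leaf 5 652 780) (node 781 (merge (leaf 6 653 686) (node 782 (merge (leaf 4 653 750) (leaf 4 685 814)))))))))))))))))))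 (node 685 (merge (node 717 (merge (node 718 (merge (leaf 4 589 686) (leaf 4 621 750))) (merge (node 749 (merge (leaf 6 621 622) (node 686 (merge (leaf 4 589 718) (leaf 6 653 781))))) (merge (node 749 (merge (leaf 6 621 622) (node 750 (merge (leaf 4 621 718) (leaf 4 653 782))))) (node 749 (merge (leaf 6 621 622) (node 781 (merge (leaf 6 653 686) (node 782 (merge (leaf 4 653 750) (leaf 4 685 814))))))))))) (merge (node 716 (merge (leaf 5 588 684) (node 717 (merge (leaf 5 620 748) (node 749 (merge (leaf 6 621 622) (node 781 (merge (leaf 6 653 686) (node 782 (merge (leaf 4 653 750) (leaf 4 685 814))))))))))) (merge (node 716 (merge (leaf 5 588 684) (node 717 (merge (leaf 5 620 748) (node 749 (merge (leaf 6 621 622) (node 750 (merge (leaf 4 621 718) (leaf 4 653 782))))))))) (node 686 (merge (leaf 4 589 718) (node 684 (merge (leaf 5 588 716) (node 683 (merge (leaf 2 650 682) (node 715 (merge (leaf 1 682 714) (node 651 (merge (leaf 3 650 650) (node 652 (merge (leaf 0 651 687) (node 747 (merge (leaf 6 619 620) (leaf 6 651 779)))))))))))))))))))))))) (node 620 (merge (node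 623 (merge (node 622 (merge (leaf 3 587 587) (leaf 3 588 624))) (merge (node 655 (merge (leaf 6 527 591) (node 656 (merge (leaf 0 620 622) (leaf 3 620 654))))) (node 655 (merge (leaf 6 527 591) (node 654 (merge (leaf 3 620 656) (node 652 (merge (leaf 2 620 624) (node 684 (merge (leaf 1 651 683) (leaf 6 588 716)))))))))))) (merge (node 655 (merge (node 654 (merge (leaf 3 620 656) (node 619 (merge (leaf 0 618 618) (leaf 3 619 652))))) (node 623 (merge (leaf 6 527 591) (node 622 (merge (leaf 3 588 624) (node 587 (merge (leaf 0 586 586) (leaf 3 587 620))))))))) (merge (node 652 (merge (node 684 (merge (leaf 6 588 716) (node 555 (merge (leaf 7 555 587) (node 556 (merge (leaf 7 523 523) (leaf 4 524 524))))))) (merge (node 684 (merge (leaf 6 588 716) (node 556 (merge (leaf 4 524 524) (node 683 (merge (leaf 5 555 651) (leaf 5 587 715))))))) (merge (node 556 (merge (leaf 4 524 524) (node 555 (merge (leaf 7 523 523) (node 651 (merge (leaf 5 555 683) (node 650 (merge (leaf 2 617 649) (node 682 (merge (leaf 1 649 681) (node 618 (merge (leaf 3 617 617) (node 587 (merge (leaf 6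 554 586) (leaf 5 554 619))))))))))))))) (node 684 (merge (leaf 6 588 716) (node 587 (merge (leaf 7 555 555) (node 586 (merge (leaf 0 585 585) (node 618 (merge (leaf 1 585 617) (node 554 (merge (leaf 3 553 553) (node 683 (merge (leaf 5 587 715) (node 651 (merge (leaf 7 554 619) (leaf 4 554 650))))))))))))))))))) (merge (node 655 (merge (node 623 (merge (leaf 6 527 591) (node 656 (merge (leaf 0 620 622) (leaf 3 620 654))))) (merge (node 654 (merge (leaf 3 620 656) (node 619 (merge (leaf 0 618 618) (leaf 3 619 652))))) (merge (node 623 (merge (leaf 6 527 591) (node 622 (merge (leaf 0 620 656) (node 652 (merge (leaf 1 620 624) (leaf 1 619 651))))))) (node 623 (merge (leaf 6 527 591) (node 622 (merge (leaf 3 588 624) (node 652 (merge (leaf 1 619 651) (node 684 (merge (leaf 6 588 716) (node 683 (merge (leaf 1 651 654) (leaf 5 587 715))))))))))))))) (node 619 (merge (node 654 (merge (leaf 0 618 618) (node 655 (merge (leaf 0 619 622) (leaf 3 620 656))))) (merge (node 618 (merge (leaf 0 618 654) (node 649 (merge (leaf 1 617 650) (node 617 (merge (leaf 1 616 648) (node 585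 (merge (leaf 3 584 584) (leaf 3 585 586))))))))) (node 587 (merge (node 586 (merge (leaf 3 586 622) (node 585 (merge (leaf 0 584 584) (leaf 0 585 588))))) (merge (node 622 (merge (leaf 3 587 623) (node 651 (merge (leaf 1 618 650) (node 683 (merge (leaf 6 555 556) (leaf 6 587 715))))))) (node 586 (merge (leaf 0 585 585) (node 554 (merge (leaf 3 553 553) (node 651 (merge (leaf 7 554 683) (node 522 (merge (leaf 4 490 490) (leaf 7 522 555))))))))))))))))))))))))))))) nP_252 cP_252 12 (by decide +kernel)
def nP_253 : ℕ := 0x2000000180000001200000000000000000000000000000000000000000000000000000000000000000000000000000000000000000000000000000000000000000000000000000000000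
def cP_253 : ℕ := 0x400000007800000078000000fc000007fe000007ff000007ff800000df0000003f8000009c0000013c00000110000000000000000000000000000000000000000000000000000000000000000000000000000000000000000000000000000000000000000000
theorem lP_253 : S nP_253 cP_253 13 := S_of_chk [(nP_252, cP_252, 12)] ⟨lP_252, trivial⟩ (node 621 (merge (node 557 (merge (node 524 (merge (leaf 7 492 492) (node 653 (merge (leaf 7 524 556) (node 654 (merge (leaf 4 525 622) (leaf 4 557 686))))))) (merge (node 524 (merge (leaf 7 492 492) (node 653 (merge (leaf 7 524 556) (node 652 (merge (leaf 5 524 620) (leaf 5 556 684))))))) (merge (node 654 (merge (leaf 4 525 622) (node 653 (merge (leaf 4 557 686) (node 652 (merge (leaf 5 524 620) (leaf 5 556 684))))))) (node 622 (merge (leaf 4 525 654) (node 620 (merge (leaf 5 524 652) (node 524 (merge (leaf 7 492 492) (node 619 (merge (node 618 (merge (leaf 2 586 590) (node 586 (merge (leaf 3 585 585) (leaf 3 586 587))))) (merge (node 650 (merge (leaf 1 618 651) (node 618 (merge (leaf 2 586 590) (leaf 1 617 649))))) (node 651 (merge (leaf 1 618 650) (node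 587 (merge (leaf 3 586 586) (node 556 (merge (leaf 6 523 555) (leaf 5 523 588)))))))))))))))))))) (merge (node 557 (merge (node 524 (merge (leaf 7 492 492) (node 653 (merge (leaf 7 524 556) (node 652 (merge (leaf 5 524 620) (leaf 5 556 684))))))) (merge (node 492 (merge (leaf 7 492 524) (node 493 (merge (leaf 7 460 460) (node 590 (merge (leaf 4 493 622) (node 588 (merge (leaf 2 556 591) (leaf 5 492 620))))))))) (merge (node 620 (merge (leaf 5 524 652) (node 588 (merge (leaf 5 492 493) (node 591 (merge (leaf 2 556 590) (node 623 (merge (leaf 6 527 655) (node 496 (merge (leaf 5 463 464) (leaf 6 495 527))))))))))) (node 524 (merge (leaf 7 492 492) (node 653 (merge (leaf 7 524 556) (node 684 (merge (leaf 5 556 652) (node 685 (merge (leaf 5 588 716) (node 718 (merge (leaf 4 589 686) (node 717 (merge (leaf 4 621 750) (node 590 (merge (leaf 6 589 622) (node 591 (merge (leaf 2 556 588) (node 623 (merge (leaf 6 527 655) (node 496 (merge (leaf 5 463 464) (leaf 6 495 527))))))))))))))))))))))))) (merge (node 557 (merge (node 492 (merge (leaf 7 492 524) (node 493 (merge (leaf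 7 460 460) (node 620 (merge (leaf 5 492 588) (leaf 5 524 652))))))) (merge (node 492 (merge (leaf 7 492 524) (node 493 (merge (leaf 7 460 460) (node 622 (merge (leaf 4 493 590) (leaf 4 525 654))))))) (merge (node 622 (merge (leaf 4 525 654) (node 590 (merge (leaf 4 493 493) (node 588 (merge (leaf 2 556 591) (node 587 (merge (leaf 0 586 586) (leaf 0 587 623))))))))) (node 622 (merge (leaf 4 525 654) (node 620 (merge (leaf 5 524 652) (node 524 (merge (leaf 7 492 492) (node 619 (merge (node 618 (merge (leaf 2 586 590) (node 586 (merge (leaf 3 585 585) (leaf 3 586 587))))) (merge (node 650 (merge (leaf 1 618 651) (node 618 (merge (leaf 2 586 590) (leaf 1 617 649))))) (node 651 (merge (leaf 1 618 650) (node 587 (merge (leaf 3 586 586) (node 556 (merge (leaf 6 523 555) (leaf 5 523 588)))))))))))))))))))) (merge (node 557 (merge (node 622 (merge (leaf 4 525 654) (node 590 (merge (leaf 4 493 493) (node 588 (merge (leaf 2 556 591) (node 587 (merge (leaf 0 586 586) (leaf 0 587 623))))))))) (merge (node 524 (merge (leaf 7 492 492) (node 653 (merge (leaf 7 524 556) (node 686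 (merge (leaf 4 557 654) (node 685 (merge (leaf 4 589 718) (node 684 (merge (leaf 5 556 652) (leaf 5 588 716))))))))))) (node 524 (merge (leaf 7 492 492) (node 653 (merge (leaf 7 524 556) (node 684 (merge (leaf 5 556 652) (node 685 (merge (leaf 5 588 716) (node 718 (merge (leaf 4 589 686) (node 717 (merge (leaf 4 621 750) (node 590 (merge (leaf 6 589 622) (node 591 (merge (leaf 2 556 588) (node 623 (merge (leaf 6 527 655) (node 496 (merge (leaf 5 463 464) (leaf 6 495 527)))))))))))))))))))))))) (merge (node 557 (merge (node 524 (merge (leaf 7 492 492) (node 653 (merge (leaf 7 524 556) (node 654 (merge (leaf 4 525 622) (leaf 4 557 686))))))) (merge (node 622 (merge (leaf 4 525 654) (node 590 (merge (leaf 4 493 493) (node 588 (merge (leaf 2 556 591) (node 587 (merge (leaf 0 586 586) (leaf 0 587 623))))))))) (merge (node 492 (merge (leaf 7 492 524) (node 493 (merge (leaf 7 460 460) (node 590 (merge (leaf 4 493 622) (node 588 (merge (leaf 2 556 591) (leaf 5 492 620))))))))) (node 524 (merge (leaf 7 492 492) (node 653 (merge (leaf 7 524 556) (node 686 (merge (leaf 4 557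 654) (node 685 (merge (leaf 4 589 718) (node 716 (merge (leaf 5 588 684) (node 717 (merge (leaf 5 620 748) (node 588 (merge (leaf 7 588 620) (node 591 (merge (leaf 2 556 590) (node 623 (merge (leaf 6 527 655) (node 496 (merge (leaf 5 463 464) (leaf 6 495 527))))))))))))))))))))))))) (merge (node 622 (merge (node 623 (merge (node 588 (merge (leaf 3 588 624) (node 587 (merge (leaf 0 587 590) (leaf 3 587 620))))) (merge (node 655 (merge (leaf 6 527 591) (node 620 (merge (leaf 0 620 656) (node 652 (merge (leaf 5 524 557) (leaf 1 619 651))))))) (node 588 (merge (leaf 3 588 624) (node 590 (merge (leaf 0 587 587) (leaf 2 556 591)))))))) (merge (node 654 (merge (leaf 4 525 557) (node 686 (merge (leaf 7 589 718) (node 591 (merge (leaf 6 558 590) (node 655 (merge (leaf 6 527 623) (node 620 (merge (leaf 0 619 619) (node 656 (merge (leaf 3 620 653) (leaf 3 621 657))))))))))))) (merge (node 654 (merge (leaf 4 525 557) (node 686 (merge (leaf 7 589 718) (node 591 (merge (leaf 6 558 590) (node 623 (merge (leaf 6 527 655) (node 624 (merge (leaf 3 588 588) (node 653 (merge (leaf 1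 621 625) (leaf 1 620 652))))))))))))) (merge (node 623 (merge (node 588 (merge (leaf 3 588 624) (node 587 (merge (leaf 0 586 586) (leaf 3 587 620))))) (merge (node 655 (merge (leaf 6 527 591) (node 656 (merge (leaf 0 620 620) (node 657 (merge (leaf 3 621 654) (leaf 3 622 658))))))) (node 624 (merge (leaf 3 588 588) (node 657 (merge (leaf 0 621 656) (node 625 (merge (leaf 0 622 658) (node 653 (merge (leaf 1 620 652) (leaf 1 621 654)))))))))))) (merge (node 623 (merge (node 588 (merge (leaf 3 588 624) (node 587 (merge (leaf 0 586 586) (leaf 0 587 590))))) (merge (node 557 (merge (leaf 4 525 654) (node 652 (merge (leaf 5 524 620) (node 653 (merge (leaf 1 620 624) (leaf 5 556 684))))))) (node 557 (merge (leaf 4 525 654) (node 620 (merge (leaf 5 524 652) (node 587 (merge (leaf 3 587 588) (node 619 (merge (leaf 3 586 586) (node 650 (merge (leaf 1 618 651) (node 618 (merge (leaf 2 586 590) (leaf 1 617 649)))))))))))))))) (node 653 (merge (node 557 (merge (leaf 4 525 654) (node 652 (merge (leaf 5 524 620) (leaf 5 556 684))))) (merge (node 654 (merge (leaf 4 525 557) (node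 686 (merge (leaf 7 589 718) (node 590 (merge (leaf 6 558 591) (node 685 (merge (leaf 6 589 717) (node 687 (merge (leaf 4 590 719) (node 688 (merge (leaf 3 652 652) (leaf 3 653 689))))))))))))) (merge (node 654 (merge (leaf 4 525 557) (node 686 (merge (leaf 7 589 718) (node 590 (merge (leaf 6 558 591) (node 685 (merge (leaf 6 589 717) (node 684 (merge (leaf 5 588 716) (node 683 (merge (leaf 2 651 655) (leaf 2 650 682))))))))))))) (merge (node 685 (merge (node 717 (merge (leaf 6 589 590) (node 716 (merge (leaf 5 588 684) (leaf 5 620 748))))) (merge (node 717 (merge (leaf 6 589 590) (node 718 (merge (leaf 4 589 686) (leaf 4 621 750))))) (node 686 (merge (leaf 4 589 718) (node 684 (merge (leaf 5 588 716) (node 652 (merge (leaf 5 556 557) (node 651 (merge (leaf 0 650 650) (leaf 3 651 687)))))))))))) (node 654 (merge (node 685 (merge (node 717 (merge (leaf 6 589 590) (leaf 6 621 749))) (node 684 (merge (leaf 5 588 716) (node 655 (merge (leaf 1 652 656) (node 683 (merge (leaf 1 651 652) (leaf 2 650 682))))))))) (merge (node 686 (merge (leaf 7 589 718) (node 590 (merge (leaf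 6 558 591) (node 687 (merge (leaf 4 590 719) (node 652 (merge (leaf 0 651 651) (node 688 (merge (leaf 0 652 655) (leaf 3 653 689))))))))))) (merge (node 686 (merge (leaf 7 589 718) (node 590 (merge (leaf 6 558 591) (node 685 (merge (leaf 6 589 717) (node 687 (merge (leaf 4 590 719) (node 688 (merge (leaf 3 652 652) (leaf 3 653 689))))))))))) (node 685 (merge (node 717 (merge (leaf 6 621 749) (node 718 (merge (leaf 7 589 686) (leaf 4 621 750))))) (merge (node 684 (merge (leaf 5 588 716) (node 655 (merge (leaf 1 652 656) (node 683 (merge (leaf 2 650 682) (leaf 2 651 686))))))) (node 716 (merge (leaf 5 588 684) (node 717 (merge (leaf 5 620 748) (node 749 (merge (leaf 6 621 622) (node 750 (merge (leaf 4 621 718) (leaf 4 653 782))))))))))))))))))))))))))) (merge (node 653 (merge (node 557 (merge (node 524 (merge (leaf 7 492 492) (leaf 7 524 556))) (node 654 (merge (leaf 4 525 622) (leaf 4 557 686))))) (merge (node 557 (merge (node 524 (merge (leaf 7 492 492) (leaf 7 524 556))) (node 652 (merge (leaf 5 524 620) (leaf 5 556 684))))) (node 654 (merge (node 655 (merge (node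 620 (merge (leaf 3 620 656) (node 619 (merge (leaf 0 618 618) (leaf 0 619 622))))) (merge (node 623 (merge (leaf 6 527 591) (node 624 (merge (leaf 2 620 652) (node 625 (merge (leaf 1 622 626) (leaf 2 621 656))))))) (node 623 (merge (leaf 6 527 591) (node 652 (merge (leaf 2 620 624) (node 684 (merge (leaf 1 651 683) (node 620 (merge (leaf 3 619 619) (leaf 6 588 716)))))))))))) (merge (node 685 (merge (node 684 (merge (leaf 5 588 716) (node 655 (merge (leaf 1 652 656) (node 683 (merge (leaf 2 650 682) (leaf 2 651 686))))))) (merge (node 717 (merge (node 718 (merge (leaf 4 589 686) (leaf 4 621 750))) (merge (node 749 (merge (leaf 6 621 622) (node 686 (merge (leaf 4 589 718) (leaf 6 653 781))))) (merge (node 749 (merge (leaf 6 621 622) (node 750 (merge (leaf 4 621 718) (leaf 4 653 782))))) (node 749 (merge (leaf 6 621 622) (node 781 (merge (leaf 6 653 686) (node 782 (merge (leaf 4 653 750) (leaf 4 685 814))))))))))) (node 716 (merge (leaf 5 588 684) (node 717 (merge (leaf 5 620 748) (node 749 (merge (leaf 6 621 622) (node 750 (merge (leaf 4 621 718) (leaf 4 653 782))))))))))))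 (merge (node 655 (merge (node 620 (merge (leaf 3 620 656) (node 619 (merge (leaf 0 618 618) (leaf 0 619 622))))) (merge (node 623 (merge (leaf 6 527 591) (node 624 (merge (leaf 2 620 652) (node 625 (merge (leaf 1 622 626) (leaf 2 621 656))))))) (node 623 (merge (leaf 6 527 591) (node 652 (merge (leaf 2 620 624) (node 687 (merge (leaf 0 652 688) (node 651 (merge (leaf 2 619 622) (leaf 0 651 686)))))))))))) (merge (node 655 (merge (node 620 (merge (leaf 3 620 656) (node 619 (merge (leaf 0 618 618) (leaf 3 619 652))))) (merge (node 652 (merge (node 684 (merge (leaf 1 651 683) (node 716 (merge (leaf 6 620 748) (node 620 (merge (leaf 6 588 589) (leaf 3 619 619))))))) (merge (node 687 (merge (leaf 0 652 688) (node 651 (merge (leaf 0 651 686) (node 619 (merge (leaf 3 618 618) (leaf 3 619 620))))))) (node 687 (merge (leaf 0 652 688) (node 651 (merge (leaf 0 651 686) (node 683 (merge (leaf 1 650 682) (leaf 1 651 684)))))))))) (node 685 (merge (node 684 (merge (leaf 1 652 656) (leaf 5 588 716))) (merge (node 656 (merge (leaf 1 652 684) (node 686 (merge (leaf 1 653 657) (leaf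 4 589 718))))) (node 717 (merge (node 718 (merge (leaf 4 589 686) (leaf 4 621 750))) (merge (node 686 (merge (leaf 4 589 718) (node 749 (merge (leaf 6 653 781) (node 748 (merge (leaf 5 620 716) (leaf 5 652 780))))))) (merge (node 750 (merge (leaf 4 621 718) (node 749 (merge (leaf 4 653 782) (node 748 (merge (leaf 5 620 716) (leaf 5 652 780))))))) (node 748 (merge (leaf 5 620 716) (node 749 (merge (leaf 5 652 780) (node 781 (merge (leaf 6 653 686) (node 782 (merge (leaf 4 653 750) (leaf 4 685 814))))))))))))))))))) (node 685 (merge (node 717 (merge (node 718 (merge (leaf 4 589 686) (leaf 4 621 750))) (merge (node 749 (merge (leaf 6 621 622) (node 686 (merge (leaf 4 589 718) (leaf 6 653 781))))) (merge (node 749 (merge (leaf 6 621 622) (node 750 (merge (leaf 4 621 718) (leaf 4 653 782))))) (node 749 (merge (leaf 6 621 622) (node 781 (merge (leaf 6 653 686) (node 782 (merge (leaf 4 653 750) (leaf 4 685 814))))))))))) (merge (node 716 (merge (leaf 5 588 684) (node 717 (merge (leaf 5 620 748) (node 749 (merge (leaf 6 621 622) (node 781 (merge (leaf 6 653 686) (node 782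 (merge (leaf 4 653 750) (leaf 4 685 814))))))))))) (merge (node 716 (merge (leaf 5 588 684) (node 717 (merge (leaf 5 620 748) (node 749 (merge (leaf 6 621 622) (node 750 (merge (leaf 4 621 718) (leaf 4 653 782))))))))) (node 686 (merge (leaf 4 589 718) (node 684 (merge (leaf 5 588 716) (node 683 (merge (leaf 2 650 682) (node 715 (merge (leaf 1 682 714) (node 651 (merge (leaf 3 650 650) (node 652 (merge (leaf 0 651 687) (node 747 (merge (leaf 6 619 620) (leaf 6 651 779))))))))))))))))))))))))))) (merge (node 653 (merge (node 557 (merge (node 524 (merge (leaf 7 492 492) (leaf 7 524 556))) (node 652 (merge (leaf 5 524 620) (leaf 5 556 684))))) (merge (node 654 (merge (node 686 (merge (leaf 4 557 557) (node 718 (merge (leaf 4 589 685) (leaf 7 621 750))))) (merge (node 655 (merge (node 620 (merge (leaf 3 620 656) (node 619 (merge (leaf 0 618 618) (leaf 3 619 652))))) (merge (node 623 (merge (leaf 6 527 591) (node 624 (merge (leaf 2 620 652) (node 625 (merge (leaf 1 622 626) (leaf 2 621 656))))))) (merge (node 623 (merge (leaf 6 527 591) (node 652 (merge (leaf 2 620 624)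 (node 620 (merge (leaf 5 524 557) (leaf 3 619 619))))))) (node 656 (merge (leaf 3 620 620) (node 689 (merge (leaf 0 653 688) (node 657 (merge (leaf 0 654 690) (node 625 (merge (leaf 2 621 624) (leaf 2 622 626))))))))))))) (node 655 (merge (node 620 (merge (leaf 3 620 656) (node 619 (merge (leaf 0 618 618) (leaf 3 619 652))))) (merge (node 623 (merge (leaf 6 527 591) (node 624 (merge (leaf 2 620 652) (node 625 (merge (leaf 1 622 626) (leaf 2 621 656))))))) (merge (node 656 (merge (leaf 3 620 620) (node 689 (merge (leaf 0 653 688) (node 657 (merge (leaf 0 654 690) (node 625 (merge (leaf 2 621 624) (leaf 2 622 626))))))))) (node 623 (merge (leaf 6 527 591) (node 652 (merge (leaf 2 620 624) (node 687 (merge (leaf 0 652 688) (node 651 (merge (leaf 0 651 686) (node 619 (merge (leaf 3 618 618) (leaf 3 619 620)))))))))))))))))) (merge (node 654 (merge (node 686 (merge (leaf 4 557 557) (node 718 (merge (leaf 4 589 685) (leaf 7 621 750))))) (merge (node 557 (merge (leaf 4 557 686) (node 524 (merge (leaf 7 492 492) (leaf 7 524 556))))) (node 655 (merge (node 656 (merge (leaf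 3 620 620) (node 689 (merge (leaf 0 653 688) (node 657 (merge (leaf 0 654 690) (node 625 (merge (leaf 2 621 624) (leaf 2 622 626))))))))) (merge (node 591 (merge (leaf 6 527 623) (node 588 (merge (leaf 2 556 590) (node 556 (merge (leaf 7 556 685) (node 524 (merge (leaf 4 492 492) (leaf 4 524 620))))))))) (node 591 (merge (leaf 6 527 623) (node 588 (merge (leaf 2 556 590) (node 685 (merge (leaf 7 556 556) (node 684 (merge (leaf 1 652 656) (leaf 5 588 716))))))))))))))) (merge (node 654 (merge (node 557 (merge (leaf 4 557 686) (node 524 (merge (leaf 7 492 492) (leaf 7 524 556))))) (merge (node 684 (merge (node 652 (merge (leaf 5 556 557) (node 716 (merge (leaf 5 588 685) (leaf 6 620 748))))) (merge (node 652 (merge (leaf 5 556 557) (node 655 (merge (leaf 1 651 683) (node 623 (merge (leaf 6 527 591) (leaf 2 620 624))))))) (node 685 (merge (leaf 5 588 716) (node 588 (merge (leaf 7 556 556) (node 655 (merge (leaf 1 652 656) (node 591 (merge (leaf 2 556 590) (leaf 6 527 623)))))))))))) (node 655 (merge (node 623 (merge (leaf 6 527 591) (node 624 (merge (leaf 2 620 652)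 (node 625 (merge (leaf 1 622 626) (leaf 2 621 656))))))) (merge (node 685 (merge (node 684 (merge (leaf 1 652 656) (leaf 5 588 716))) (merge (node 656 (merge (leaf 1 652 684) (node 686 (merge (leaf 1 653 657) (leaf 4 589 718))))) (node 717 (merge (node 718 (merge (leaf 4 589 686) (leaf 4 621 750))) (merge (node 686 (merge (leaf 4 589 718) (node 749 (merge (leaf 6 653 781) (node 748 (merge (leaf 5 620 716) (leaf 5 652 780))))))) (merge (node 750 (merge (leaf 4 621 718) (node 749 (merge (leaf 4 653 782) (node 748 (merge (leaf 5 620 716) (leaf 5 652 780))))))) (node 748 (merge (leaf 5 620 716) (node 749 (merge (leaf 5 652 780) (node 781 (merge (leaf 6 653 686) (node 782 (merge (leaf 4 653 750) (leaf 4 685 814)))))))))))))))) (node 623 (merge (leaf 6 527 591) (node 652 (merge (leaf 2 620 624) (node 687 (merge (leaf 0 652 688) (node 651 (merge (leaf 0 651 686) (node 683 (merge (leaf 1 650 682) (leaf 1 651 684))))))))))))))))) (node 654 (merge (node 655 (merge (node 620 (merge (leaf 3 620 656) (node 619 (merge (leaf 0 618 618) (leaf 3 619 652))))) (merge (node 623 (merge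 (leaf 6 527 591) (node 624 (merge (leaf 2 620 652) (node 625 (merge (leaf 1 622 626) (leaf 2 621 656))))))) (merge (node 656 (merge (leaf 3 620 620) (node 689 (merge (leaf 0 653 688) (node 657 (merge (leaf 0 654 690) (node 625 (merge (leaf 2 621 624) (leaf 2 622 626))))))))) (node 623 (merge (leaf 6 527 591) (node 652 (merge (leaf 2 620 624) (node 687 (merge (leaf 0 652 688) (node 651 (merge (leaf 0 651 686) (node 619 (merge (leaf 3 618 618) (leaf 3 619 620))))))))))))))) (merge (node 685 (merge (node 588 (merge (leaf 7 556 556) (node 717 (merge (leaf 7 588 620) (node 716 (merge (leaf 5 588 684) (leaf 5 620 748))))))) (merge (node 588 (merge (leaf 7 556 556) (node 717 (merge (leaf 7 588 620) (node 718 (merge (leaf 4 589 686) (leaf 4 621 750))))))) (merge (node 718 (merge (leaf 4 589 686) (node 717 (merge (leaf 4 621 750) (node 716 (merge (leaf 5 588 684) (leaf 5 620 748))))))) (node 686 (merge (leaf 4 589 718) (node 684 (merge (leaf 5 588 716) (node 683 (merge (leaf 2 650 682) (node 715 (merge (leaf 1 682 714) (node 651 (merge (leaf 3 650 650) (node 652 (merge (leaf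 0 651 687) (node 747 (merge (leaf 6 619 620) (leaf 6 651 779))))))))))))))))))) (merge (node 655 (merge (node 656 (merge (leaf 3 620 620) (node 689 (merge (leaf 0 653 688) (node 657 (merge (leaf 0 654 690) (node 625 (merge (leaf 2 621 624) (leaf 2 622 626))))))))) (merge (node 591 (merge (leaf 6 527 623) (node 588 (merge (leaf 2 556 590) (node 556 (merge (leaf 7 556 685) (node 524 (merge (leaf 4 492 492) (leaf 4 524 620))))))))) (node 591 (merge (leaf 6 527 623) (node 588 (merge (leaf 2 556 590) (node 685 (merge (leaf 7 556 556) (node 684 (merge (leaf 1 652 656) (leaf 5 588 716)))))))))))) (node 655 (merge (node 623 (merge (leaf 6 527 591) (node 624 (merge (leaf 2 620 652) (node 625 (merge (leaf 1 622 626) (leaf 2 621 656))))))) (merge (node 685 (merge (node 684 (merge (leaf 1 652 656) (leaf 5 588 716))) (merge (node 656 (merge (leaf 1 652 684) (node 686 (merge (leaf 1 653 657) (leaf 4 589 718))))) (node 717 (merge (node 718 (merge (leaf 4 589 686) (leaf 4 621 750))) (merge (node 686 (merge (leaf 4 589 718) (node 749 (merge (leaf 6 653 781) (node 748 (merge (leaf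 5 620 716) (leaf 5 652 780))))))) (merge (node 750 (merge (leaf 4 621 718) (node 749 (merge (leaf 4 653 782) (node 748 (merge (leaf 5 620 716) (leaf 5 652 780))))))) (node 748 (merge (leaf 5 620 716) (node 749 (merge (leaf 5 652 780) (node 781 (merge (leaf 6 653 686) (node 782 (merge (leaf 4 653 750) (leaf 4 685 814)))))))))))))))) (node 623 (merge (leaf 6 527 591) (node 652 (merge (leaf 2 620 624) (node 687 (merge (leaf 0 652 688) (node 651 (merge (leaf 0 651 686) (node 683 (merge (leaf 1 650 682) (leaf 1 651 684))))))))))))))))))))))) (hyp 0)))))))))) nP_253 cP_253 13 (by decide +kernel)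

end Crest.Agent.H26Snaky
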