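import Crest.Agent.H26SnP018

/-! certificate data for S0047, part P 19 (computer generated) -/

set_option autoImplicit false
set_option maxRecDepth 100000

namespace Crest.Agent.H26Snaky

open T

def nP_254 : ℕ := 0x100000001000000000000000180000000000000000000000000000000000000000000000000000000000000000000000000000000000000000000000000000000000000000000
def cP_254 : ℕ := 0x400000007800000078000000fc000007fe000007ff000007ff80003eff00007eff80003cfe00007f7c00003e7800007f780000026000000260000000000000000000000000000000000000000000000000000000000000000000000000000000000000000000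
theorem lP_254 : S nP_254 cP_254 16 := S_of_chk [(nP_253, cP_253, 13)] ⟨lP_253, trivial⟩ (node 525 (merge (node 559 (merge (node 496 (merge (leaf 5 463 591) (node 433 (merge (leaf 6 432 465) (node 432 (merge (leaf 6 400 401) (leaf 5 431 527))))))) (merge (node 526 (merge (node 527 (merge (leaf 0 524 524) (leaf 0 525 561))) (merge (node 561 (merge (leaf 0 525 527) (leaf 3 525 558))) (merge (node 524 (merge (leaf 0 524 527) (node 558 (merge (leaf 0 523 523) (leaf 3 524 557))))) (node 558 (merge (leaf 3 525 561) (node 524 (merge (leaf 0 523 523) (leaf 3 524 557))))))))) (node 496 (merge (leaf 5 463 591) (node 561 (merge (leaf 4 464 593) (node 558 (merge (leaf 3 525 526) (node 589 (merge (leaf 1 557 590) (node 557 (merge (leaf 3 524 524) (leaf 1 556 588)))))))))))))) (merge (node 465 (merge (node 433 (merge (leaf 6 432 496) (node 434 (merge (leaf 2 430 462) (node 435 (merge (leaf 1 432 436) (leaf 2 431 466))))))) (merge (node 496 (merge (leaf 6 432 433) (node 559 (merge (leaf 5 463 591) (node 527 (merge (leaf 5 431 432) (node 526 (merge (leaf 2 493 497) (leaf 0 524 524)))))))))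 (merge (node 462 (merge (node 493 (merge (leaf 1 461 494) (node 461 (merge (leaf 1 460 492) (node 433 (merge (leaf 2 429 432) (leaf 2 430 434))))))) (merge (node 493 (merge (leaf 1 461 494) (node 461 (merge (leaf 1 460 492) (node 430 (merge (leaf 3 429 429) (leaf 6 429 557))))))) (node 498 (merge (leaf 0 462 497) (node 466 (merge (leaf 0 463 499) (node 434 (merge (leaf 2 430 433) (leaf 2 431 435)))))))))) (node 466 (merge (node 499 (merge (leaf 0 463 498) (node 467 (merge (leaf 0 464 500) (node 435 (merge (leaf 2 431 434) (leaf 2 432 436))))))) (merge (node 498 (merge (leaf 0 463 499) (node 462 (merge (leaf 0 462 497) (node 493 (merge (leaf 1 461 494) (node 461 (merge (leaf 1 460 492) (node 430 (merge (leaf 3 429 429) (leaf 6 429 557))))))))))) (merge (node 496 (merge (node 561 (merge (leaf 4 464 593) (node 527 (merge (leaf 0 525 526) (node 559 (merge (leaf 5 431 432) (leaf 5 463 591))))))) (merge (node 435 (merge (leaf 2 431 434) (node 467 (merge (leaf 2 432 436) (node 497 (merge (leaf 1 464 468) (node 462 (merge (leaf 0 461 461) (leaf 0 462 498))))))))) (node 435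 (merge (leaf 2 431 434) (node 467 (merge (leaf 2 432 436) (node 497 (merge (leaf 1 464 468) (node 462 (merge (leaf 0 461 461) (leaf 0 462 498)))))))))))) (node 435 (merge (leaf 2 431 434) (node 467 (merge (leaf 2 432 436) (node 500 (merge (leaf 0 464 499) (node 468 (merge (leaf 0 465 501) (node 496 (merge (leaf 1 464 497) (node 561 (merge (leaf 4 464 593) (node 527 (merge (leaf 0 525 526) (node 559 (merge (leaf 5 431 432) (leaf 5 463 591))))))))))))))))))))))))) (merge (node 462 (merge (node 433 (merge (node 465 (merge (leaf 2 430 434) (leaf 6 432 496))) (merge (node 432 (merge (leaf 2 429 461) (node 496 (merge (leaf 6 400 401) (node 559 (merge (leaf 5 431 527) (leaf 5 463 591))))))) (node 432 (merge (leaf 2 429 461) (node 434 (merge (leaf 1 431 435) (leaf 2 430 465)))))))) (merge (node 461 (merge (node 497 (merge (leaf 0 461 496) (node 465 (merge (leaf 0 462 498) (node 493 (merge (leaf 1 460 492) (leaf 1 461 494))))))) (merge (node 492 (merge (leaf 1 460 493) (node 460 (merge (leaf 1 459 491) (node 428 (merge (leaf 3 427 427) (leaf 3 428 429))))))) (node 497 (merge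 (leaf 0 461 496) (node 465 (merge (leaf 0 462 498) (node 429 (merge (leaf 3 428 428) (leaf 3 429 430)))))))))) (merge (node 461 (merge (node 493 (merge (leaf 1 460 492) (node 465 (merge (leaf 1 461 494) (node 433 (merge (leaf 2 429 432) (leaf 2 430 434))))))) (merge (node 492 (merge (leaf 1 460 493) (node 460 (merge (leaf 1 459 491) (node 428 (merge (leaf 3 427 427) (leaf 3 428 429))))))) (node 433 (merge (leaf 2 429 432) (node 465 (merge (leaf 2 430 434) (node 429 (merge (leaf 3 428 428) (leaf 3 429 430)))))))))) (merge (node 461 (merge (node 496 (merge (leaf 0 461 497) (node 432 (merge (leaf 2 429 433) (node 559 (merge (leaf 5 431 527) (leaf 5 463 591))))))) (node 492 (merge (leaf 1 460 493) (node 460 (merge (leaf 1 459 491) (node 428 (merge (leaf 3 427 427) (leaf 3 428 429))))))))) (node 559 (merge (node 496 (merge (leaf 5 463 591) (node 527 (merge (leaf 5 431 432) (node 526 (merge (leaf 2 493 497) (leaf 0 524 524))))))) (merge (node 496 (merge (leaf 5 463 591) (node 433 (merge (leaf 6 432 465) (node 432 (merge (leaf 6 400 401) (leaf 5 431 527))))))) (merge (node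 526 (merge (node 524 (merge (leaf 0 524 527) (node 558 (merge (leaf 0 523 523) (leaf 3 524 557))))) (merge (node 527 (merge (leaf 0 524 524) (node 493 (merge (leaf 3 492 492) (node 494 (merge (leaf 4 430 430) (leaf 1 461 465))))))) (node 494 (merge (node 557 (merge (leaf 5 429 430) (node 589 (merge (leaf 5 461 558) (leaf 6 493 621))))) (node 465 (merge (leaf 1 461 493) (node 498 (merge (leaf 0 462 497) (node 466 (merge (leaf 0 463 499) (node 434 (merge (leaf 2 430 433) (leaf 2 431 435)))))))))))))) (node 465 (merge (node 498 (merge (leaf 0 462 497) (node 466 (merge (leaf 0 463 499) (node 434 (merge (leaf 2 430 433) (leaf 2 431 435))))))) (node 494 (merge (leaf 1 461 493) (node 430 (merge (leaf 3 429 429) (node 526 (merge (leaf 5 429 557) (node 591 (merge (leaf 5 463 496) (leaf 4 462 558)))))))))))))))))))) (merge (node 462 (merge (node 465 (merge (node 433 (merge (leaf 2 430 434) (leaf 6 432 496))) (merge (node 497 (merge (leaf 0 462 498) (node 461 (merge (leaf 0 461 496) (node 493 (merge (leaf 1 460 492) (leaf 1 461 494))))))) (node 493 (merge (leaf 1 461 494) (node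 461 (merge (leaf 1 460 492) (node 433 (merge (leaf 2 429 432) (leaf 2 430 434)))))))))) (merge (node 465 (merge (node 433 (merge (leaf 2 430 434) (leaf 6 432 496))) (merge (node 497 (merge (leaf 0 462 498) (node 461 (merge (leaf 0 461 496) (node 429 (merge (leaf 3 428 428) (leaf 3 429 430))))))) (node 498 (merge (leaf 0 462 497) (node 466 (merge (leaf 0 463 499) (node 434 (merge (leaf 2 430 433) (leaf 2 431 435)))))))))) (merge (node 526 (merge (node 527 (merge (leaf 0 525 561) (node 557 (merge (leaf 1 524 556) (node 494 (merge (leaf 5 429 430) (node 589 (merge (leaf 5 461 558) (leaf 6 493 621))))))))) (merge (node 494 (merge (node 465 (merge (leaf 1 461 493) (node 433 (merge (leaf 2 430 434) (leaf 6 432 496))))) (node 557 (merge (leaf 5 429 430) (node 589 (merge (leaf 5 461 558) (leaf 6 493 621))))))) (merge (node 527 (merge (leaf 0 525 561) (node 556 (merge (leaf 1 524 557) (node 524 (merge (leaf 1 523 555) (node 492 (merge (leaf 3 491 491) (leaf 3 492 493))))))))) (node 527 (merge (leaf 0 525 561) (node 493 (merge (leaf 3 492 492) (node 465 (merge (leaf 1 461 494)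 (node 498 (merge (leaf 0 462 497) (node 466 (merge (leaf 0 463 499) (node 434 (merge (leaf 2 430 433) (leaf 2 431 435))))))))))))))))) (node 526 (merge (node 527 (merge (leaf 0 525 561) (node 557 (merge (leaf 1 524 556) (node 494 (merge (leaf 5 429 430) (node 589 (merge (leaf 5 461 558) (leaf 6 493 621))))))))) (merge (node 527 (merge (leaf 0 525 561) (node 556 (merge (leaf 1 524 557) (node 524 (merge (leaf 1 523 555) (node 492 (merge (leaf 3 491 491) (leaf 3 492 493))))))))) (merge (node 461 (merge (node 493 (merge (leaf 1 460 492) (node 428 (merge (leaf 3 428 429) (node 460 (merge (leaf 3 427 427) (leaf 7 428 557))))))) (merge (node 493 (merge (leaf 1 460 492) (node 430 (merge (leaf 6 429 557) (node 398 (merge (leaf 5 365 366) (leaf 5 397 494))))))) (node 429 (merge (leaf 3 428 428) (node 494 (merge (leaf 7 429 558) (node 397 (merge (leaf 4 365 365) (leaf 7 397 430)))))))))) (node 527 (merge (leaf 0 525 561) (node 492 (merge (leaf 3 492 493) (node 491 (merge (leaf 3 491 524) (node 461 (merge (leaf 1 459 460) (node 429 (merge (leaf 3 428 428) (node 494 (merge (leaf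 7 429 558) (node 397 (merge (leaf 4 365 365) (leaf 7 397 430))))))))))))))))))))))) (merge (node 462 (merge (node 465 (merge (node 433 (merge (leaf 2 430 434) (leaf 6 432 496))) (merge (node 497 (merge (leaf 0 462 498) (node 461 (merge (leaf 0 461 496) (node 429 (merge (leaf 3 428 428) (leaf 3 429 430))))))) (node 498 (merge (leaf 0 462 497) (node 466 (merge (leaf 0 463 499) (node 434 (merge (leaf 2 430 433) (leaf 2 431 435)))))))))) (merge (node 465 (merge (node 498 (merge (leaf 0 462 497) (node 466 (merge (leaf 0 463 499) (node 434 (merge (leaf 2 430 433) (leaf 2 431 435))))))) (node 493 (merge (leaf 1 461 494) (node 461 (merge (leaf 1 460 492) (node 428 (merge (leaf 3 428 429) (node 460 (merge (leaf 3 427 427) (leaf 7 428 557))))))))))) (merge (node 526 (merge (node 527 (merge (leaf 0 525 561) (node 524 (merge (leaf 0 524 559) (node 492 (merge (leaf 3 491 491) (leaf 3 492 493))))))) (merge (node 527 (merge (leaf 0 525 561) (node 524 (merge (leaf 0 524 559) (node 556 (merge (leaf 1 523 555) (leaf 1 524 557))))))) (node 494 (merge (node 557 (merge (leaf 5 429 430)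 (node 589 (merge (leaf 5 461 558) (leaf 6 493 621))))) (node 465 (merge (leaf 1 461 493) (node 498 (merge (leaf 0 462 497) (node 466 (merge (leaf 0 463 499) (node 434 (merge (leaf 2 430 433) (leaf 2 431 435)))))))))))))) (node 526 (merge (node 527 (merge (leaf 0 525 561) (node 524 (merge (leaf 0 524 559) (node 492 (merge (leaf 3 491 491) (leaf 3 492 493))))))) (merge (node 527 (merge (leaf 0 525 561) (node 524 (merge (leaf 0 524 559) (node 556 (merge (leaf 1 523 555) (leaf 1 524 557))))))) (node 461 (merge (node 493 (merge (leaf 1 460 492) (node 428 (merge (leaf 3 428 429) (node 460 (merge (leaf 3 427 427) (leaf 7 428 557))))))) (merge (node 493 (merge (leaf 1 460 492) (node 430 (merge (leaf 6 429 557) (node 398 (merge (leaf 5 365 366) (leaf 5 397 494))))))) (node 429 (merge (leaf 3 428 428) (node 494 (merge (leaf 7 429 558) (node 397 (merge (leaf 4 365 365) (leaf 7 397 430))))))))))))))))) (merge (node 462 (merge (node 461 (merge (node 493 (merge (leaf 1 460 492) (node 465 (merge (leaf 1 461 494) (node 433 (merge (leaf 2 429 432) (leaf 2 430 434))))))) (merge (node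 492 (merge (leaf 1 460 493) (node 460 (merge (leaf 1 459 491) (node 428 (merge (leaf 3 427 427) (leaf 3 428 429))))))) (node 433 (merge (leaf 2 429 432) (node 465 (merge (leaf 2 430 434) (node 429 (merge (leaf 3 428 428) (leaf 3 429 430)))))))))) (merge (node 465 (merge (node 498 (merge (leaf 0 462 497) (node 466 (merge (leaf 0 463 499) (node 434 (merge (leaf 2 430 433) (leaf 2 431 435))))))) (node 493 (merge (leaf 1 461 494) (node 461 (merge (leaf 1 460 492) (node 428 (merge (leaf 3 428 429) (node 460 (merge (leaf 3 427 427) (leaf 7 428 557))))))))))) (merge (node 526 (merge (node 527 (merge (leaf 0 525 561) (node 524 (merge (leaf 0 524 559) (node 492 (merge (leaf 3 491 491) (leaf 3 492 493))))))) (merge (node 527 (merge (leaf 0 525 561) (node 524 (merge (leaf 0 524 559) (node 556 (merge (leaf 1 523 555) (leaf 1 524 557))))))) (node 494 (merge (node 557 (merge (leaf 5 429 430) (node 589 (merge (leaf 5 461 558) (leaf 6 493 621))))) (node 465 (merge (leaf 1 461 493) (node 498 (merge (leaf 0 462 497) (node 466 (merge (leaf 0 463 499) (node 434 (merge (leaf 2 430 433)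 (leaf 2 431 435)))))))))))))) (merge (node 465 (merge (node 498 (merge (leaf 0 462 497) (node 466 (merge (leaf 0 463 499) (node 434 (merge (leaf 2 430 433) (leaf 2 431 435))))))) (merge (node 433 (merge (leaf 2 430 434) (node 461 (merge (leaf 2 429 432) (node 429 (merge (leaf 3 428 428) (leaf 3 429 430))))))) (node 494 (merge (leaf 1 461 493) (node 430 (merge (leaf 3 429 429) (node 526 (merge (leaf 5 429 557) (node 527 (merge (leaf 4 430 559) (leaf 0 525 561)))))))))))) (merge (node 465 (merge (node 498 (merge (leaf 0 462 497) (node 466 (merge (leaf 0 463 499) (node 434 (merge (leaf 2 430 433) (leaf 2 431 435))))))) (merge (node 433 (merge (leaf 2 430 434) (node 461 (merge (leaf 2 429 432) (node 429 (merge (leaf 3 428 428) (leaf 3 429 430))))))) (node 429 (merge (leaf 3 429 430) (node 461 (merge (leaf 3 428 428) (node 493 (merge (leaf 1 460 492) (node 526 (merge (leaf 4 429 558) (node 527 (merge (leaf 0 525 561) (node 556 (merge (leaf 5 428 524) (leaf 1 524 557)))))))))))))))) (merge (node 526 (merge (node 527 (merge (leaf 0 525 561) (node 524 (merge (leaf 0 524 559)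 (node 492 (merge (leaf 3 491 491) (leaf 3 492 493))))))) (merge (node 527 (merge (leaf 0 525 561) (node 524 (merge (leaf 0 524 559) (node 556 (merge (leaf 1 523 555) (leaf 1 524 557))))))) (node 461 (merge (node 493 (merge (leaf 1 460 492) (node 428 (merge (leaf 3 428 429) (node 460 (merge (leaf 3 427 427) (leaf 7 428 557))))))) (merge (node 493 (merge (leaf 1 460 492) (node 430 (merge (leaf 6 429 557) (node 398 (merge (leaf 5 365 366) (leaf 5 397 494))))))) (node 429 (merge (leaf 3 428 428) (node 494 (merge (leaf 7 429 558) (node 397 (merge (leaf 4 365 365) (leaf 7 397 430))))))))))))) (node 526 (merge (node 527 (merge (leaf 0 525 561) (node 557 (merge (leaf 1 524 556) (node 494 (merge (leaf 5 429 430) (node 589 (merge (leaf 5 461 558) (leaf 6 493 621))))))))) (merge (node 527 (merge (leaf 0 525 561) (node 524 (merge (leaf 0 524 559) (node 555 (merge (leaf 1 523 556) (node 523 (merge (leaf 1 522 554) (node 491 (merge (leaf 3 490 490) (leaf 3 491 492))))))))))) (merge (node 465 (merge (node 433 (merge (leaf 2 430 434) (node 461 (merge (leaf 2 429 432) (node 429 (merge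 (leaf 3 428 428) (leaf 3 429 430))))))) (merge (node 498 (merge (leaf 0 462 497) (node 466 (merge (leaf 0 463 499) (node 434 (merge (leaf 2 430 433) (leaf 2 431 435))))))) (node 429 (merge (leaf 3 429 430) (node 461 (merge (leaf 3 428 428) (node 558 (merge (leaf 7 429 494) (node 559 (merge (leaf 3 525 561) (node 524 (merge (leaf 0 523 523) (leaf 3 524 557)))))))))))))) (node 527 (merge (node 557 (merge (leaf 1 524 556) (node 494 (merge (leaf 5 429 430) (node 589 (merge (leaf 5 461 558) (leaf 6 493 621))))))) (merge (node 524 (merge (leaf 0 524 559) (node 555 (merge (leaf 1 523 556) (node 523 (merge (leaf 1 522 554) (node 491 (merge (leaf 3 490 490) (leaf 3 491 492))))))))) (node 524 (merge (leaf 0 524 559) (node 491 (merge (leaf 3 491 492) (node 523 (merge (leaf 3 490 490) (node 554 (merge (leaf 1 522 555) (node 522 (merge (leaf 1 521 553) (node 557 (merge (leaf 0 522 558) (node 427 (merge (leaf 5 426 459) (node 430 (merge (leaf 5 429 494) (node 429 (merge (leaf 0 427 428) (leaf 3 429 465))))))))))))))))))))))))))))))))) (merge (node 465 (merge (node 433 (merge (leaf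 6 432 496) (node 462 (merge (leaf 2 430 434) (node 461 (merge (leaf 2 429 432) (node 429 (merge (leaf 3 428 428) (leaf 3 429 430))))))))) (merge (node 462 (merge (node 498 (merge (leaf 0 462 497) (node 466 (merge (leaf 0 463 499) (node 434 (merge (leaf 2 430 433) (leaf 2 431 435))))))) (node 493 (merge (leaf 1 461 494) (node 461 (merge (leaf 1 460 492) (node 429 (merge (leaf 3 428 428) (leaf 3 429 430))))))))) (merge (node 433 (merge (leaf 6 432 496) (node 466 (merge (node 498 (merge (leaf 0 463 499) (node 434 (merge (leaf 2 431 435) (node 401 (merge (leaf 4 369 369) (leaf 7 401 530))))))) (merge (node 467 (merge (node 435 (merge (leaf 2 431 434) (leaf 2 432 436))) (merge (node 468 (merge (leaf 3 432 432) (node 501 (merge (leaf 0 465 500) (node 469 (merge (leaf 3 433 434) (leaf 0 466 502))))))) (node 436 (merge (leaf 2 432 435) (node 468 (merge (leaf 3 432 432) (leaf 2 433 437)))))))) (merge (node 499 (merge (leaf 0 463 498) (node 467 (merge (leaf 0 464 500) (node 436 (merge (leaf 2 432 435) (node 468 (merge (leaf 3 432 432) (leaf 2 433 437))))))))) (node 499 (merge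 (leaf 0 463 498) (node 467 (merge (leaf 0 464 500) (node 468 (merge (leaf 3 432 432) (node 437 (merge (leaf 2 433 436) (node 469 (merge (leaf 3 433 434) (leaf 2 434 438))))))))))))))))) (merge (node 561 (merge (node 559 (merge (node 496 (merge (leaf 5 463 591) (leaf 4 464 593))) (merge (node 593 (merge (leaf 4 464 496) (node 594 (merge (leaf 0 558 558) (node 595 (merge (leaf 0 559 562) (leaf 3 560 596))))))) (merge (node 591 (merge (leaf 5 463 496) (node 590 (merge (leaf 1 558 562) (node 589 (merge (leaf 1 557 558) (leaf 2 556 588))))))) (node 562 (merge (node 563 (merge (leaf 3 527 527) (node 531 (merge (leaf 2 527 530) (leaf 2 528 532))))) (node 594 (merge (leaf 0 559 595) (node 558 (merge (leaf 0 558 593) (node 590 (merge (leaf 1 557 589) (leaf 1 558 591))))))))))))) (merge (node 466 (merge (node 499 (merge (leaf 0 463 498) (node 467 (merge (leaf 0 464 500) (node 435 (merge (leaf 2 431 434) (leaf 2 432 436))))))) (merge (node 498 (merge (leaf 0 463 499) (node 462 (merge (leaf 0 462 497) (node 493 (merge (leaf 1 461 494) (node 461 (merge (leaf 1 460 492) (node 429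 (merge (leaf 3 428 428) (leaf 3 429 430))))))))))) (merge (node 435 (merge (leaf 2 431 434) (node 467 (merge (leaf 2 432 436) (node 496 (merge (leaf 4 464 593) (node 497 (merge (leaf 1 464 468) (node 462 (merge (leaf 0 461 461) (leaf 0 462 498))))))))))) (node 435 (merge (leaf 2 431 434) (node 467 (merge (leaf 2 432 436) (node 500 (merge (leaf 0 464 499) (node 468 (merge (leaf 0 465 501) (node 496 (merge (leaf 1 464 497) (leaf 4 464 593))))))))))))))) (node 462 (merge (node 493 (merge (leaf 1 461 494) (node 461 (merge (leaf 1 460 492) (node 429 (merge (leaf 3 428 428) (leaf 3 429 430))))))) (node 498 (merge (leaf 0 462 497) (node 466 (merge (leaf 0 463 499) (node 435 (merge (leaf 2 431 434) (node 467 (merge (leaf 2 432 436) (node 562 (merge (leaf 6 434 530) (node 563 (merge (leaf 3 527 527) (node 596 (merge (leaf 0 560 595) (node 564 (merge (leaf 0 561 597) (node 532 (merge (leaf 2 528 531) (leaf 2 529 533)))))))))))))))))))))))) (node 561 (merge (node 496 (merge (leaf 6 432 433) (leaf 4 464 593))) (merge (node 559 (merge (node 496 (merge (leaf 5 463 591) (leaf 4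 464 593))) (merge (node 593 (merge (leaf 4 464 496) (node 594 (merge (leaf 0 558 558) (node 595 (merge (leaf 0 559 562) (leaf 3 560 596))))))) (merge (node 591 (merge (leaf 5 463 496) (node 590 (merge (leaf 1 558 562) (node 589 (merge (leaf 1 557 558) (leaf 2 556 588))))))) (node 562 (merge (node 563 (merge (leaf 3 527 527) (node 531 (merge (leaf 2 527 530) (leaf 2 528 532))))) (node 594 (merge (leaf 0 559 595) (node 558 (merge (leaf 0 558 593) (node 590 (merge (leaf 1 557 589) (leaf 1 558 591))))))))))))) (merge (node 562 (merge (node 563 (merge (leaf 3 527 527) (node 596 (merge (leaf 0 560 595) (node 564 (merge (leaf 0 561 597) (node 532 (merge (leaf 2 528 531) (leaf 2 529 533))))))))) (node 498 (merge (node 466 (merge (leaf 0 463 499) (node 433 (merge (leaf 6 432 496) (leaf 7 433 530))))) (merge (node 497 (merge (leaf 0 462 462) (node 499 (merge (leaf 3 463 496) (leaf 3 464 500))))) (merge (node 497 (merge (leaf 0 462 462) (node 499 (merge (leaf 0 463 466) (leaf 3 464 500))))) (node 433 (merge (leaf 6 432 496) (node 530 (merge (leaf 7 433 466) (node 497 (merge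 (leaf 4 401 401) (leaf 7 465 594))))))))))))) (node 562 (merge (node 563 (merge (leaf 3 527 527) (node 595 (merge (leaf 0 560 596) (node 559 (merge (leaf 0 559 594) (node 531 (merge (leaf 2 527 530) (leaf 2 528 532))))))))) (merge (node 462 (merge (node 498 (merge (leaf 0 462 497) (node 466 (merge (leaf 0 463 499) (node 530 (merge (leaf 7 433 433) (leaf 5 465 593))))))) (node 493 (merge (leaf 1 461 494) (node 461 (merge (leaf 1 460 492) (node 429 (merge (leaf 3 428 428) (leaf 3 429 430))))))))) (node 563 (merge (leaf 3 527 527) (node 595 (merge (leaf 0 560 596) (node 594 (merge (leaf 0 559 559) (node 532 (merge (leaf 2 528 531) (node 564 (merge (leaf 2 529 533) (node 565 (merge (leaf 1 562 566) (leaf 1 561 593))))))))))))))))))))))))) (merge (node 559 (merge (node 465 (merge (node 496 (merge (leaf 6 432 433) (leaf 5 463 591))) (merge (node 434 (merge (node 435 (merge (leaf 2 431 466) (node 433 (merge (leaf 1 431 432) (leaf 1 432 436))))) (merge (node 462 (merge (leaf 2 430 433) (node 493 (merge (leaf 1 461 494) (node 461 (merge (leaf 1 460 492) (node 430 (merge (leaf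 3 429 429) (leaf 6 429 557))))))))) (node 466 (merge (leaf 2 431 435) (node 498 (merge (leaf 0 463 499) (node 462 (merge (leaf 0 462 497) (node 493 (merge (leaf 1 461 494) (node 461 (merge (leaf 1 460 492) (node 430 (merge (leaf 3 429 429) (leaf 6 429 557)))))))))))))))) (node 466 (merge (node 499 (merge (leaf 0 463 498) (node 467 (merge (leaf 0 464 500) (node 435 (merge (leaf 2 431 434) (leaf 2 432 436))))))) (merge (node 498 (merge (leaf 0 463 499) (node 462 (merge (leaf 0 462 497) (node 493 (merge (leaf 1 461 494) (node 461 (merge (leaf 1 460 492) (node 429 (merge (leaf 3 428 428) (leaf 3 429 430))))))))))) (merge (node 435 (merge (leaf 2 431 434) (node 467 (merge (leaf 2 432 436) (node 496 (merge (leaf 5 463 591) (node 497 (merge (leaf 1 464 468) (node 462 (merge (leaf 0 461 461) (leaf 0 462 498))))))))))) (node 435 (merge (leaf 2 431 434) (node 467 (merge (leaf 2 432 436) (node 500 (merge (leaf 0 464 499) (node 468 (merge (leaf 0 465 501) (node 496 (merge (leaf 1 464 497) (leaf 5 463 591)))))))))))))))))) (merge (node 561 (merge (node 558 (merge (leaf 3 525 526)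 (node 589 (merge (leaf 1 557 590) (node 557 (merge (leaf 3 524 524) (leaf 1 556 588))))))) (node 496 (merge (leaf 4 464 593) (node 465 (merge (leaf 6 432 433) (node 466 (merge (node 499 (merge (leaf 0 463 498) (node 467 (merge (leaf 0 464 500) (node 435 (merge (leaf 2 431 434) (leaf 2 432 436))))))) (merge (node 498 (merge (leaf 0 463 499) (node 462 (merge (leaf 0 462 497) (node 493 (merge (leaf 1 461 494) (node 461 (merge (leaf 1 460 492) (node 429 (merge (leaf 3 428 428) (leaf 3 429 430))))))))))) (merge (node 435 (merge (leaf 2 431 434) (node 467 (merge (leaf 2 432 436) (node 497 (merge (leaf 1 464 468) (node 462 (merge (leaf 0 461 461) (leaf 0 462 498))))))))) (node 435 (merge (leaf 2 431 434) (node 467 (merge (leaf 2 432 436) (node 500 (merge (leaf 0 464 499) (node 468 (merge (leaf 1 464 497) (leaf 0 465 501))))))))))))))))))) (merge (node 561 (merge (node 496 (merge (leaf 5 463 591) (leaf 4 464 593))) (merge (node 558 (merge (leaf 3 525 526) (node 593 (merge (leaf 4 464 496) (leaf 0 558 594))))) (merge (node 558 (merge (leaf 3 525 526) (node 594 (merge (leaf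 0 558 593) (node 562 (merge (leaf 0 559 595) (node 590 (merge (leaf 1 557 589) (leaf 1 558 591))))))))) (node 591 (merge (leaf 5 463 496) (node 562 (merge (leaf 1 558 590) (node 595 (merge (leaf 0 559 594) (node 563 (merge (leaf 0 560 596) (node 531 (merge (leaf 2 527 530) (leaf 2 528 532))))))))))))))) (node 558 (merge (node 524 (merge (leaf 3 524 557) (node 526 (merge (leaf 0 523 523) (leaf 3 525 561))))) (merge (node 557 (merge (leaf 3 524 524) (node 589 (merge (leaf 1 556 588) (node 590 (merge (leaf 1 557 561) (node 493 (merge (leaf 4 461 461) (leaf 4 493 622))))))))) (merge (node 561 (merge (leaf 3 525 526) (node 590 (merge (leaf 1 557 589) (node 562 (merge (leaf 1 558 591) (node 595 (merge (leaf 0 559 594) (node 563 (merge (leaf 0 560 596) (node 531 (merge (leaf 2 527 530) (leaf 2 528 532))))))))))))) (node 557 (merge (leaf 3 524 524) (node 590 (merge (node 622 (merge (leaf 7 525 654) (node 493 (merge (leaf 4 461 461) (leaf 7 493 526))))) (merge (node 589 (merge (leaf 1 556 588) (node 622 (merge (leaf 4 493 493) (leaf 7 525 654))))) (node 588 (merge (leaf 1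 556 589) (node 556 (merge (leaf 1 555 587) (node 555 (merge (leaf 0 555 591) (node 554 (merge (leaf 2 522 526) (node 522 (merge (leaf 3 521 521) (leaf 3 522 523)))))))))))))))))))))))) (node 559 (merge (node 496 (merge (leaf 5 463 591) (node 527 (merge (leaf 5 431 432) (node 561 (merge (leaf 0 525 526) (leaf 4 464 593))))))) (merge (node 526 (merge (node 527 (merge (leaf 0 524 524) (leaf 0 525 561))) (merge (node 561 (merge (leaf 0 525 527) (leaf 3 525 558))) (merge (node 524 (merge (leaf 0 524 527) (node 558 (merge (leaf 0 523 523) (leaf 3 524 557))))) (node 558 (merge (leaf 3 525 561) (node 524 (merge (leaf 0 523 523) (leaf 3 524 557))))))))) (merge (node 496 (merge (leaf 5 463 591) (node 527 (merge (leaf 5 431 432) (node 526 (merge (leaf 2 493 497) (leaf 0 524 524))))))) (merge (node 496 (merge (leaf 5 463 591) (node 561 (merge (leaf 4 464 593) (node 558 (merge (leaf 3 525 526) (node 589 (merge (leaf 1 557 590) (node 557 (merge (leaf 3 524 524) (leaf 1 556 588))))))))))) (node 589 (merge (node 558 (merge (node 557 (merge (leaf 3 524 524) (leaf 1 556 588))) (merge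 (node 590 (merge (leaf 1 557 561) (node 588 (merge (leaf 2 555 587) (leaf 2 556 591))))) (node 590 (merge (leaf 1 557 561) (node 557 (merge (leaf 3 524 524) (node 493 (merge (leaf 4 461 461) (leaf 4 493 622)))))))))) (merge (node 591 (merge (node 623 (merge (leaf 6 527 655) (node 496 (merge (leaf 5 463 464) (leaf 6 495 527))))) (node 590 (merge (leaf 2 556 588) (node 561 (merge (leaf 1 557 558) (leaf 1 558 562))))))) (merge (node 557 (merge (node 558 (merge (leaf 3 524 524) (leaf 1 556 588))) (merge (node 524 (merge (leaf 3 524 558) (node 492 (merge (leaf 7 492 621) (node 460 (merge (leaf 4 428 428) (leaf 4 460 556))))))) (merge (node 623 (merge (node 591 (merge (leaf 6 527 655) (node 496 (merge (leaf 5 463 464) (leaf 6 495 527))))) (node 621 (merge (node 622 (merge (leaf 4 525 654) (node 588 (merge (leaf 3 588 624) (node 620 (merge (leaf 3 587 587) (leaf 5 524 652))))))) (merge (node 524 (merge (leaf 7 492 492) (node 653 (merge (leaf 7 524 556) (node 654 (merge (leaf 4 525 622) (leaf 4 557 686))))))) (node 524 (merge (leaf 7 492 492) (node 653 (merge (leaf 7 524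 556) (node 652 (merge (leaf 5 524 620) (leaf 5 556 684)))))))))))) (node 588 (merge (leaf 1 556 558) (node 621 (merge (node 623 (merge (node 622 (merge (leaf 3 588 624) (node 587 (merge (leaf 0 586 586) (leaf 3 587 620))))) (node 591 (merge (leaf 6 527 655) (node 496 (merge (leaf 5 463 464) (leaf 6 495 527))))))) (merge (node 622 (merge (leaf 4 525 654) (node 623 (merge (leaf 3 588 624) (node 591 (merge (leaf 6 527 655) (node 496 (merge (leaf 5 463 464) (leaf 6 495 527))))))))) (node 652 (merge (leaf 5 524 620) (node 653 (merge (leaf 5 556 684) (node 685 (merge (leaf 7 556 556) (node 686 (merge (leaf 4 557 654) (leaf 4 589 718)))))))))))))))))) (merge (node 558 (merge (node 588 (merge (leaf 1 556 557) (node 590 (merge (leaf 1 557 561) (leaf 2 555 587))))) (merge (node 557 (merge (leaf 1 556 588) (node 524 (merge (leaf 3 524 525) (node 556 (merge (leaf 3 523 523) (leaf 2 524 527))))))) (node 561 (merge (leaf 1 557 590) (node 594 (merge (leaf 0 558 593) (node 562 (merge (leaf 0 559 595) (node 531 (merge (leaf 2 527 530) (node 563 (merge (leaf 3 527 527) (leaf 2 528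 532)))))))))))))) (merge (node 561 (merge (node 590 (merge (leaf 1 557 558) (node 562 (merge (leaf 1 558 591) (node 531 (merge (leaf 2 527 530) (node 563 (merge (leaf 3 527 527) (leaf 2 528 532))))))))) (merge (node 590 (merge (leaf 1 557 558) (node 562 (merge (leaf 1 558 591) (node 595 (merge (leaf 0 559 594) (node 563 (merge (leaf 0 560 596) (node 531 (merge (leaf 2 527 530) (leaf 2 528 532))))))))))) (merge (node 562 (merge (node 531 (merge (leaf 2 527 530) (node 563 (merge (leaf 3 527 527) (leaf 2 528 532))))) (merge (node 595 (merge (leaf 0 559 594) (node 563 (merge (leaf 3 527 527) (leaf 0 560 596))))) (node 594 (merge (leaf 0 559 595) (node 593 (merge (leaf 0 558 558) (node 625 (merge (leaf 7 528 657) (node 530 (merge (leaf 5 497 498) (leaf 2 527 531)))))))))))) (merge (node 562 (merge (node 595 (merge (leaf 0 559 594) (node 563 (merge (leaf 0 560 596) (node 531 (merge (leaf 2 527 530) (leaf 2 528 532))))))) (node 591 (merge (leaf 1 558 590) (node 623 (merge (leaf 6 527 655) (node 496 (merge (leaf 5 463 464) (leaf 6 495 527))))))))) (node 557 (merge (node 558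 (merge (leaf 3 524 524) (leaf 1 557 590))) (merge (node 524 (merge (leaf 3 524 558) (node 492 (merge (leaf 7 492 621) (node 460 (merge (leaf 4 428 428) (leaf 4 460 556))))))) (merge (node 623 (merge (node 591 (merge (leaf 6 527 655) (node 496 (merge (leaf 5 463 464) (leaf 6 495 527))))) (node 622 (merge (node 590 (merge (leaf 1 557 558) (node 654 (merge (leaf 4 525 621) (leaf 7 557 686))))) (merge (node 621 (merge (leaf 4 525 654) (node 652 (merge (leaf 5 524 620) (node 653 (merge (leaf 1 620 624) (leaf 5 556 684))))))) (node 593 (merge (node 558 (merge (leaf 1 557 590) (leaf 0 558 594))) (merge (node 594 (merge (leaf 0 558 558) (node 625 (merge (leaf 2 590 624) (leaf 7 528 657))))) (merge (node 625 (merge (leaf 7 528 657) (node 624 (merge (leaf 3 589 590) (leaf 2 590 594))))) (node 590 (merge (leaf 1 557 558) (node 625 (merge (leaf 3 589 624) (leaf 7 528 657)))))))))))))) (node 621 (merge (node 524 (merge (leaf 7 492 492) (node 653 (merge (leaf 7 524 556) (node 654 (merge (leaf 4 525 622) (leaf 4 557 686))))))) (merge (node 524 (merge (leaf 7 492 492) (node 653 (merge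 (leaf 7 524 556) (node 652 (merge (leaf 5 524 620) (leaf 5 556 684))))))) (node 620 (merge (leaf 5 524 652) (node 591 (merge (node 623 (merge (leaf 6 527 655) (node 496 (merge (leaf 5 463 464) (leaf 6 495 527))))) (node 622 (merge (leaf 4 525 654) (node 619 (merge (leaf 2 587 590) (node 650 (merge (leaf 1 618 651) (node 618 (merge (leaf 1 617 649) (node 586 (merge (leaf 3 585 585) (leaf 3 586 587))))))))))))))))))))))))))) (hyp 0))))))))))))))))))))) nP_254 cP_254 16 (by decide +kernel)
def nP_255 : ℕ := 0x100000001000000000000000080000000000000000000000000000000000000000000000000000000000000000000000000000000000000000000000000000000000000000000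
def cP_255 : ℕ := 0x400000007800000078000002fc00001ffe00001fff00007fff80003eff00007eff80007cfe00007ffe00003f7c00007f7e00000bf0000003f8000000f0000000e000000000000000000000000000000000000000000000000000000000000000000000000000
theorem lP_255 : S nP_255 cP_255 17 := S_of_chk [(nP_246, cP_246, 13), (nP_248, cP_248, 16), (nP_249, cP_249, 12), (nP_250, cP_250, 12), (nP_251, cP_251, 13), (nP_254, cP_254, 16)] ⟨lP_246, lP_248, lP_249, lP_250, lP_251, lP_254, trivial⟩ (node 464 (merge (node 465 (merge (node 433 (merge (leaf 6 432 496) (node 434 (merge (leaf 2 430 462) (node 435 (merge (leaf 1 432 436) (leaf 2 431 466))))))) (merge (node 496 (merge (leaf 6 432 433) (node 561 (merge (leaf 4 464 593) (node 559 (merge (leaf 5 463 591) (node 527 (merge (leaf 5 431 432) (node 526 (merge (leaf 0 525 525) (leaf 3 526 562))))))))))) (merge (node 462 (merge (node 494 (merge (leaf 1 461 493) (node 466 (merge (leaf 1 462 495) (node 434 (merge (leaf 2 430 433) (leaf 2 431 435))))))) (merge (node 493 (merge (leaf 1 461 494) (node 461 (merge (leaf 1 460 492) (node 429 (merge (leaf 3 428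 428) (leaf 3 429 430))))))) (node 433 (merge (leaf 2 430 434) (node 461 (merge (leaf 2 429 432) (node 429 (merge (leaf 3 428 428) (leaf 3 429 430)))))))))) (node 462 (merge (node 493 (merge (leaf 1 461 494) (node 461 (merge (leaf 1 460 492) (node 429 (merge (leaf 3 428 428) (leaf 3 429 430))))))) (merge (node 494 (merge (leaf 1 461 493) (node 466 (merge (leaf 1 462 495) (node 499 (merge (leaf 0 463 498) (node 467 (merge (leaf 0 464 500) (node 435 (merge (leaf 2 431 434) (leaf 2 432 436))))))))))) (merge (node 496 (merge (node 429 (merge (leaf 3 429 430) (node 461 (merge (leaf 3 428 428) (node 495 (merge (leaf 0 460 460) (node 466 (merge (leaf 1 463 467) (leaf 1 462 494))))))))) (node 561 (merge (leaf 4 464 593) (node 559 (merge (leaf 5 463 591) (node 527 (merge (leaf 5 431 432) (node 526 (merge (leaf 0 525 525) (leaf 3 526 562))))))))))) (node 496 (merge (node 429 (merge (leaf 3 429 430) (node 461 (merge (leaf 3 428 428) (node 460 (merge (leaf 0 460 495) (node 492 (merge (leaf 1 459 491) (leaf 1 460 493))))))))) (node 561 (merge (leaf 4 464 593) (node 559 (merge (leaf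 5 463 591) (node 527 (merge (leaf 5 431 432) (node 526 (merge (leaf 0 525 525) (leaf 3 526 562))))))))))))))))))) (merge (node 465 (merge (node 433 (merge (leaf 6 432 496) (node 462 (merge (leaf 2 430 434) (node 461 (merge (leaf 2 429 432) (node 429 (merge (leaf 3 428 428) (leaf 3 429 430))))))))) (merge (node 462 (merge (node 497 (merge (leaf 0 462 498) (node 461 (merge (leaf 0 461 496) (node 429 (merge (leaf 3 428 428) (leaf 3 429 430))))))) (merge (node 498 (merge (leaf 0 462 497) (node 466 (merge (leaf 0 463 499) (node 494 (merge (leaf 1 461 493) (leaf 1 462 495))))))) (node 493 (merge (leaf 1 461 494) (node 461 (merge (leaf 1 460 492) (node 429 (merge (leaf 3 428 428) (leaf 3 429 430)))))))))) (merge (node 462 (merge (node 498 (merge (leaf 0 462 497) (node 466 (merge (leaf 0 463 499) (node 434 (merge (leaf 2 430 433) (leaf 2 431 435))))))) (node 493 (merge (leaf 1 461 494) (node 461 (merge (leaf 1 460 492) (node 429 (merge (leaf 3 428 428) (leaf 3 429 430))))))))) (node 433 (merge (leaf 6 432 496) (node 466 (merge (node 498 (merge (leaf 0 463 499) (node 434 (merge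 (leaf 2 431 435) (node 401 (merge (leaf 4 369 369) (leaf 7 401 530))))))) (merge (node 467 (merge (node 435 (merge (leaf 2 431 434) (leaf 2 432 436))) (merge (node 468 (merge (leaf 3 432 432) (node 501 (merge (leaf 0 465 500) (node 469 (merge (leaf 3 433 434) (leaf 0 466 502))))))) (node 436 (merge (leaf 2 432 435) (node 468 (merge (leaf 3 432 432) (leaf 2 433 437)))))))) (merge (node 499 (merge (leaf 0 463 498) (node 467 (merge (leaf 0 464 500) (node 436 (merge (leaf 2 432 435) (node 468 (merge (leaf 3 432 432) (leaf 2 433 437))))))))) (node 499 (merge (leaf 0 463 498) (node 467 (merge (leaf 0 464 500) (node 468 (merge (leaf 3 432 432) (node 437 (merge (leaf 2 433 436) (node 469 (merge (leaf 3 433 434) (leaf 2 434 438))))))))))))))))))))) (merge (node 465 (merge (node 433 (merge (leaf 6 432 496) (node 434 (merge (leaf 2 430 462) (node 435 (merge (leaf 1 432 436) (leaf 2 431 466))))))) (merge (node 496 (merge (leaf 6 432 433) (node 561 (merge (leaf 4 464 593) (node 559 (merge (leaf 5 463 591) (node 527 (merge (leaf 5 431 432) (node 526 (merge (leaf 0 525 525) (leaf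 3 526 562))))))))))) (merge (node 495 (merge (node 466 (merge (leaf 1 462 494) (node 467 (merge (leaf 1 463 496) (node 435 (merge (leaf 2 431 434) (leaf 2 432 436))))))) (merge (node 466 (merge (leaf 1 462 494) (node 499 (merge (leaf 0 463 498) (node 467 (merge (leaf 0 464 500) (node 435 (merge (leaf 2 431 434) (leaf 2 432 436))))))))) (merge (node 462 (merge (node 430 (merge (leaf 3 429 429) (node 527 (merge (leaf 7 430 559) (node 398 (merge (leaf 4 366 366) (leaf 4 398 494))))))) (merge (node 497 (merge (leaf 0 462 498) (node 461 (merge (leaf 0 461 496) (node 429 (merge (leaf 3 428 428) (leaf 3 429 430))))))) (node 497 (merge (leaf 0 462 498) (node 496 (merge (leaf 0 461 461) (node 561 (merge (leaf 4 464 593) (node 559 (merge (leaf 5 463 591) (node 527 (merge (leaf 5 431 432) (node 526 (merge (leaf 0 525 525) (leaf 3 526 562)))))))))))))))) (node 496 (merge (node 561 (merge (leaf 4 464 593) (node 559 (merge (leaf 5 463 591) (node 527 (merge (leaf 6 431 432) (node 526 (merge (leaf 0 525 525) (leaf 3 526 562))))))))) (node 466 (merge (leaf 1 463 467) (node 498 (merge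 (leaf 0 463 499) (node 462 (merge (leaf 0 462 497) (node 461 (merge (leaf 0 460 460) (node 429 (merge (leaf 3 428 428) (leaf 3 429 430))))))))))))))))) (node 498 (merge (node 497 (merge (leaf 0 462 462) (node 499 (merge (leaf 0 463 466) (leaf 3 464 500))))) (merge (node 462 (merge (leaf 0 462 497) (node 433 (merge (leaf 2 430 434) (node 461 (merge (leaf 2 429 432) (node 429 (merge (leaf 3 428 428) (leaf 3 429 430))))))))) (merge (node 466 (merge (leaf 0 463 499) (node 434 (merge (leaf 2 431 435) (node 433 (merge (leaf 2 430 462) (node 401 (merge (leaf 4 369 369) (leaf 7 401 530))))))))) (node 466 (merge (leaf 0 463 499) (node 433 (merge (node 530 (merge (leaf 7 433 562) (node 401 (merge (leaf 4 369 369) (leaf 4 401 497))))) (node 467 (merge (node 435 (merge (leaf 2 431 434) (leaf 2 432 436))) (merge (node 468 (merge (leaf 3 432 432) (node 501 (merge (leaf 0 465 500) (node 469 (merge (leaf 3 433 434) (leaf 0 466 502))))))) (node 436 (merge (leaf 2 432 435) (node 468 (merge (leaf 3 432 432) (leaf 2 433 437)))))))))))))))))))) (merge (hyp 0) (merge (hyp 1) (merge (hyp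 2) (merge (node 465 (merge (node 433 (merge (leaf 6 432 496) (node 462 (merge (leaf 2 430 434) (node 493 (merge (leaf 1 461 494) (node 461 (merge (leaf 1 460 492) (node 429 (merge (leaf 3 428 428) (leaf 3 429 430))))))))))) (merge (node 462 (merge (node 497 (merge (leaf 0 462 498) (node 461 (merge (leaf 0 461 496) (node 429 (merge (leaf 3 428 428) (leaf 3 429 430))))))) (merge (node 498 (merge (leaf 0 462 497) (node 466 (merge (leaf 0 463 499) (node 494 (merge (leaf 1 461 493) (leaf 1 462 495))))))) (node 493 (merge (leaf 1 461 494) (node 461 (merge (leaf 1 460 492) (node 429 (merge (leaf 3 428 428) (leaf 3 429 430)))))))))) (merge (node 462 (merge (node 498 (merge (leaf 0 462 497) (node 466 (merge (leaf 0 463 499) (node 434 (merge (leaf 2 430 433) (leaf 2 431 435))))))) (node 493 (merge (leaf 1 461 494) (node 461 (merge (leaf 1 460 492) (node 429 (merge (leaf 3 428 428) (leaf 3 429 430))))))))) (node 561 (merge (node 496 (merge (leaf 6 432 433) (leaf 4 464 593))) (merge (node 562 (merge (node 527 (merge (leaf 3 527 563) (node 526 (merge (leaf 0 525 525) (leaf 3 526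 559))))) (merge (node 563 (merge (leaf 3 527 527) (node 596 (merge (leaf 0 560 595) (node 564 (merge (leaf 0 561 597) (node 532 (merge (leaf 2 528 531) (leaf 2 529 533))))))))) (merge (node 496 (merge (leaf 6 432 433) (node 559 (merge (leaf 5 463 591) (node 595 (merge (leaf 0 559 594) (node 563 (merge (leaf 0 560 596) (node 531 (merge (leaf 2 527 530) (leaf 2 528 532))))))))))) (node 559 (merge (node 590 (merge (leaf 1 558 591) (node 558 (merge (leaf 1 557 589) (node 526 (merge (leaf 3 525 525) (leaf 3 526 527))))))) (node 433 (merge (leaf 6 432 496) (node 530 (merge (leaf 2 527 531) (node 498 (merge (leaf 7 433 466) (node 497 (merge (leaf 4 401 401) (leaf 7 465 594))))))))))))))) (hyp 3)))))))) (merge (node 465 (merge (node 433 (merge (leaf 6 432 496) (node 434 (merge (leaf 2 430 462) (node 435 (merge (leaf 1 432 436) (leaf 2 431 466))))))) (merge (node 496 (merge (leaf 6 432 433) (node 561 (merge (leaf 4 464 593) (node 559 (merge (leaf 5 463 591) (node 527 (merge (leaf 5 431 432) (node 526 (merge (leaf 0 525 525) (leaf 3 526 562))))))))))) (merge (node 498 (merge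 (node 497 (merge (leaf 0 462 462) (node 499 (merge (leaf 0 463 466) (leaf 3 464 500))))) (merge (node 462 (merge (leaf 0 462 497) (node 433 (merge (leaf 2 430 434) (node 461 (merge (leaf 2 429 432) (node 429 (merge (leaf 3 428 428) (leaf 3 429 430))))))))) (merge (node 466 (merge (leaf 0 463 499) (node 434 (merge (leaf 2 431 435) (node 433 (merge (leaf 2 430 462) (node 401 (merge (leaf 4 369 369) (leaf 7 401 530))))))))) (node 466 (merge (leaf 0 463 499) (node 433 (merge (node 530 (merge (leaf 7 433 562) (node 401 (merge (leaf 4 369 369) (leaf 4 401 497))))) (node 467 (merge (node 435 (merge (leaf 2 431 434) (leaf 2 432 436))) (merge (node 468 (merge (leaf 3 432 432) (node 501 (merge (leaf 0 465 500) (node 469 (merge (leaf 3 433 434) (leaf 0 466 502))))))) (node 436 (merge (leaf 2 432 435) (node 468 (merge (leaf 3 432 432) (leaf 2 433 437)))))))))))))))) (node 561 (merge (node 496 (merge (leaf 4 464 593) (node 559 (merge (leaf 5 463 591) (node 527 (merge (leaf 5 431 432) (node 526 (merge (leaf 0 525 525) (leaf 3 526 562))))))))) (merge (node 466 (merge (node 499 (merge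 (leaf 0 463 498) (node 467 (merge (leaf 0 464 500) (node 435 (merge (leaf 2 431 434) (leaf 2 432 436))))))) (merge (node 435 (merge (leaf 2 431 434) (node 467 (merge (leaf 2 432 436) (node 500 (merge (leaf 0 464 499) (node 468 (merge (leaf 0 465 501) (node 496 (merge (leaf 1 464 497) (leaf 4 464 593))))))))))) (merge (node 435 (merge (leaf 2 431 434) (node 467 (merge (leaf 2 432 436) (node 496 (merge (leaf 1 463 495) (node 497 (merge (leaf 1 464 468) (node 462 (merge (leaf 0 461 461) (leaf 0 462 498))))))))))) (node 498 (merge (leaf 0 463 499) (node 462 (merge (leaf 0 462 497) (node 429 (merge (leaf 3 429 430) (node 461 (merge (leaf 3 428 428) (node 492 (merge (leaf 1 460 493) (node 460 (merge (leaf 1 459 491) (node 496 (merge (leaf 0 460 495) (leaf 4 464 593))))))))))))))))))) (merge (node 462 (merge (node 497 (merge (leaf 0 462 498) (node 461 (merge (leaf 0 461 496) (node 429 (merge (leaf 3 428 428) (leaf 3 429 430))))))) (merge (node 498 (merge (leaf 0 462 497) (node 466 (merge (leaf 0 463 499) (node 435 (merge (leaf 2 431 434) (node 467 (merge (leaf 2 432 436)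 (node 562 (merge (leaf 6 434 530) (node 527 (merge (leaf 3 527 563) (node 526 (merge (leaf 0 525 525) (leaf 3 526 559))))))))))))))) (node 429 (merge (leaf 3 429 430) (node 461 (merge (leaf 3 428 428) (node 492 (merge (leaf 1 460 493) (node 460 (merge (leaf 1 459 491) (node 496 (merge (leaf 0 460 495) (node 559 (merge (leaf 5 463 591) (node 527 (merge (leaf 5 431 432) (node 526 (merge (leaf 0 525 525) (leaf 3 526 562)))))))))))))))))))) (hyp 3))))))))) (merge (hyp 4) (hyp 5))))))))))) nP_255 cP_255 17 (by decide +kernel)
def nP_256 : ℕ := 0x380000000000000000000000000000000000000000000000000000000000000000000000000000000000000000000000000000000000000000000000000000000000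
def cP_256 : ℕ := 0x40000001c0000001c0000001c0000001f000000400000001f0000001c000000180000000000000000000000000000000000000000000000000000000000000000000000000000000000000000000000000000000000
theorem lP_256 : S nP_256 cP_256 9 := S_of_chk [] trivial (node 555 (merge (node 554 (merge (leaf 1 522 526) (node 553 (merge (leaf 2 520 552) (leaf 2 521 556))))) (merge (node 491 (merge (node 526 (merge (leaf 3 490 490) (leaf 1 522 554))) (merge (node 490 (merge (leaf 3 490 526) (node 489 (merge (leaf 0 488 488) (leaf 0 489 492))))) (node 587 (merge (node 492 (merge (leaf 6 459 460) (leaf 6 491 619))) (merge (node 620 (merge (leaf 4 491 588) (node 619 (merge (leaf 4 523 652) (node 618 (merge (leaf 5 490 586) (leaf 5 522 650))))))) (node 460 (merge (leaf 6 459 492) (node 459 (merge (leaf 6 427 428) (node 586 (merge (leaf 5 458 554) (leaf 5 490 618))))))))))))) (merge (node 491 (merge (node 490 (merge (leaf 3 490 526) (node 489 (merge (leaf 0 488 488) (leaf 0 489 492))))) (merge (node 587 (merge (node 492 (merge (leaf 6 459 460) (leaf 6 491 619))) (merge (node 620 (merge (leaf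 4 491 588) (node 619 (merge (leaf 4 523 652) (node 618 (merge (leaf 5 490 586) (leaf 5 522 650))))))) (node 460 (merge (leaf 6 459 492) (node 459 (merge (leaf 6 427 428) (node 588 (merge (leaf 4 459 556) (leaf 4 491 620)))))))))) (node 490 (merge (leaf 3 490 526) (node 587 (merge (leaf 7 458 458) (node 620 (merge (leaf 4 491 588) (node 619 (merge (leaf 4 523 652) (node 618 (merge (leaf 5 490 586) (leaf 5 522 650)))))))))))))) (node 587 (merge (node 492 (merge (leaf 6 491 619) (node 460 (merge (leaf 5 427 428) (leaf 6 459 491))))) (merge (node 619 (merge (leaf 6 491 492) (node 651 (merge (leaf 6 523 556) (node 650 (merge (leaf 5 522 618) (leaf 5 554 682))))))) (merge (node 491 (merge (node 492 (merge (leaf 6 459 460) (node 490 (merge (leaf 7 458 458) (leaf 0 489 489))))) (node 588 (merge (leaf 4 491 620) (node 459 (merge (leaf 4 459 556) (node 586 (merge (leaf 5 458 554) (leaf 5 490 618))))))))) (node 491 (merge (node 620 (merge (leaf 4 491 588) (node 619 (merge (leaf 4 523 652) (node 618 (merge (leaf 5 490 586) (leaf 5 522 650))))))) (merge (node 554 (merge (node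 553 (merge (leaf 2 520 552) (leaf 2 521 556))) (node 586 (merge (leaf 5 458 459) (node 618 (merge (leaf 5 490 587) (leaf 6 522 650))))))) (merge (node 620 (merge (leaf 4 491 588) (node 619 (merge (leaf 4 523 652) (node 651 (merge (leaf 6 523 556) (node 650 (merge (leaf 5 522 618) (leaf 5 554 682))))))))) (node 620 (merge (leaf 4 491 588) (node 619 (merge (leaf 4 523 652) (node 556 (merge (leaf 6 523 651) (node 554 (merge (leaf 2 521 553) (node 459 (merge (leaf 4 427 427) (leaf 5 458 586))))))))))))))))))))))) nP_256 cP_256 9 (by decide +kernel)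
def nP_257 : ℕ := 0x100000001300000000000000080000000000000000000000000000000000000000000000000000000000000000000000000000000000000000000000000000000000000000000
def cP_257 : ℕ := 0xa0000003f8000003fc00000ff8000008fc00001ffc000007f800001fe000001fe000001fa000001400000000000000000000000000000000000000000000000000000000000000000000000000000000000
theorem lP_257 : S nP_257 cP_257 16 := S_of_chk [] trivial (node 492 (merge (node 460 (merge (node 428 (merge (node 397 (merge (leaf 6 396 429) (node 396 (merge (leaf 6 364 365) (leaf 4 396 493))))) (merge (node 395 (merge (leaf 7 395 427) (node 396 (merge (leaf 7 363 363) (leaf 4 396 493))))) (node 429 (merge (leaf 6 396 397) (node 427 (merge (leaf 7 395 395) (node 462 (merge (leaf 0 427 430) (leaf 3 427 461)))))))))) (merge (node 428 (merge (node 396 (merge (leaf 4 396 493) (node 523 (merge (leaf 5 395 491) (leaf 5 427 555))))) (merge (node 395 (merge (leaf 7 395 427) (node 396 (merge (leaf 7 363 363) (leaf 4 396 493))))) (node 427 (merge (leaf 7 395 395) (node 556 (merge (leaf 7 427 459) (node 555 (merge (leaf 5 427 523)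 (leaf 5 459 587)))))))))) (merge (node 428 (merge (node 429 (merge (leaf 6 396 397) (node 556 (merge (leaf 6 428 461) (node 555 (merge (leaf 5 427 523) (leaf 5 459 587))))))) (merge (node 429 (merge (leaf 6 396 397) (node 427 (merge (leaf 7 395 395) (node 462 (merge (leaf 0 427 430) (leaf 3 427 461))))))) (node 427 (merge (leaf 7 395 395) (node 556 (merge (leaf 7 427 459) (node 555 (merge (leaf 5 427 523) (leaf 5 459 587)))))))))) (node 461 (merge (node 429 (merge (leaf 6 428 556) (node 397 (merge (leaf 5 364 365) (leaf 5 396 493))))) (node 462 (merge (leaf 1 459 491) (node 495 (merge (leaf 0 460 496) (node 431 (merge (leaf 2 428 432) (leaf 4 431 527))))))))))))) (merge (node 460 (merge (node 557 (merge (leaf 4 428 428) (node 589 (merge (leaf 7 460 493) (leaf 7 492 621))))) (merge (node 557 (merge (leaf 4 428 428) (node 589 (merge (leaf 4 460 556) (leaf 7 492 621))))) (merge (node 428 (merge (node 396 (merge (leaf 4 396 493) (node 523 (merge (leaf 5 395 491) (leaf 5 427 555))))) (merge (node 397 (merge (leaf 6 396 429) (node 396 (merge (leaf 6 364 365) (leaf 4 396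 493))))) (node 429 (merge (leaf 6 396 397) (node 556 (merge (leaf 6 428 461) (node 555 (merge (leaf 5 427 523) (leaf 5 459 587)))))))))) (node 556 (merge (node 461 (merge (leaf 6 428 429) (node 588 (merge (leaf 6 460 493) (node 589 (merge (leaf 4 460 557) (leaf 4 492 621))))))) (merge (node 461 (merge (leaf 6 428 429) (node 588 (merge (leaf 6 460 493) (node 587 (merge (leaf 5 459 555) (leaf 5 491 619))))))) (node 557 (merge (leaf 4 460 589) (node 558 (merge (leaf 3 524 559) (node 522 (merge (leaf 0 522 523) (node 555 (merge (leaf 5 459 587) (node 554 (merge (leaf 3 521 521) (leaf 2 521 553)))))))))))))))))) (merge (node 460 (merge (node 557 (merge (leaf 4 428 428) (node 589 (merge (leaf 7 460 493) (leaf 7 492 621))))) (merge (node 428 (merge (node 396 (merge (leaf 4 396 493) (node 523 (merge (leaf 5 395 491) (leaf 5 427 555))))) (merge (node 395 (merge (leaf 7 395 427) (node 396 (merge (leaf 7 363 363) (leaf 4 396 493))))) (node 427 (merge (leaf 7 395 395) (node 556 (merge (leaf 7 427 459) (node 555 (merge (leaf 5 427 523) (leaf 5 459 587)))))))))) (node 556 (merge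 (node 459 (merge (leaf 7 427 427) (node 588 (merge (leaf 7 459 491) (node 589 (merge (leaf 4 460 557) (leaf 4 492 621))))))) (merge (node 459 (merge (leaf 7 427 427) (node 588 (merge (leaf 7 459 491) (node 587 (merge (leaf 5 459 555) (leaf 5 491 619))))))) (node 557 (merge (leaf 4 460 589) (node 558 (merge (leaf 3 524 559) (node 522 (merge (leaf 0 522 523) (node 555 (merge (leaf 5 459 587) (node 554 (merge (leaf 3 521 521) (leaf 2 521 553))))))))))))))))) (merge (node 460 (merge (node 557 (merge (leaf 4 428 428) (node 589 (merge (leaf 7 460 493) (leaf 7 492 621))))) (merge (node 557 (merge (leaf 4 428 428) (node 589 (merge (leaf 4 460 556) (leaf 7 492 621))))) (merge (node 428 (merge (node 397 (merge (leaf 6 396 429) (node 396 (merge (leaf 6 364 365) (leaf 4 396 493))))) (merge (node 395 (merge (leaf 7 395 427) (node 396 (merge (leaf 7 363 363) (leaf 4 396 493))))) (node 429 (merge (leaf 6 396 397) (node 556 (merge (leaf 6 428 461) (node 427 (merge (leaf 7 395 395) (leaf 7 427 459)))))))))) (node 556 (merge (node 461 (merge (leaf 6 428 429) (node 588 (merge (leaf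 6 460 493) (node 589 (merge (leaf 4 460 557) (leaf 4 492 621))))))) (merge (node 461 (merge (leaf 6 428 429) (node 588 (merge (leaf 6 460 493) (node 587 (merge (leaf 5 459 555) (leaf 5 491 619))))))) (node 557 (merge (leaf 4 460 589) (node 558 (merge (leaf 3 524 559) (node 522 (merge (leaf 0 522 523) (node 555 (merge (leaf 5 459 587) (node 554 (merge (leaf 3 521 521) (leaf 2 521 553)))))))))))))))))) (merge (node 460 (merge (node 557 (merge (leaf 4 428 428) (node 589 (merge (leaf 4 460 556) (leaf 7 492 621))))) (merge (node 428 (merge (leaf 4 428 557) (node 397 (merge (leaf 6 396 429) (node 396 (merge (leaf 6 364 365) (node 523 (merge (leaf 5 395 491) (leaf 5 427 555))))))))) (merge (node 556 (merge (node 429 (merge (leaf 6 428 461) (node 428 (merge (leaf 6 396 397) (node 555 (merge (leaf 5 427 523) (leaf 5 459 587))))))) (merge (node 459 (merge (leaf 7 427 427) (node 588 (merge (leaf 7 459 491) (node 587 (merge (leaf 5 459 555) (leaf 5 491 619))))))) (node 429 (merge (leaf 6 428 461) (node 428 (merge (leaf 6 396 397) (node 459 (merge (leaf 7 427 427) (node 491 (merge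 (leaf 7 459 588) (node 396 (merge (leaf 5 363 364) (leaf 5 395 523)))))))))))))) (node 556 (merge (node 459 (merge (leaf 7 427 427) (node 588 (merge (leaf 7 459 491) (node 589 (merge (leaf 4 460 557) (leaf 4 492 621))))))) (merge (node 459 (merge (leaf 7 427 427) (node 588 (merge (leaf 7 459 491) (node 587 (merge (leaf 5 459 555) (leaf 5 491 619))))))) (node 557 (merge (leaf 4 460 589) (node 558 (merge (leaf 3 524 559) (node 522 (merge (leaf 0 522 523) (node 555 (merge (leaf 5 459 587) (node 554 (merge (leaf 3 521 521) (leaf 2 521 553)))))))))))))))))) (merge (node 493 (merge (node 495 (merge (node 494 (merge (leaf 1 492 496) (leaf 1 491 523))) (merge (node 527 (merge (leaf 4 431 431) (leaf 0 492 494))) (node 431 (merge (leaf 4 431 527) (node 399 (merge (leaf 4 399 496) (node 368 (merge (leaf 6 367 400) (node 367 (merge (leaf 6 335 336) (node 366 (merge (leaf 7 334 334) (leaf 7 366 398)))))))))))))) (merge (node 491 (merge (node 490 (merge (leaf 0 489 489) (node 462 (merge (leaf 2 458 461) (leaf 2 459 494))))) (merge (node 494 (merge (leaf 2 459 462) (node 523 (merge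 (leaf 1 490 522) (node 459 (merge (leaf 3 458 458) (node 427 (merge (leaf 4 395 395) (leaf 4 427 556))))))))) (merge (node 490 (merge (leaf 0 489 489) (node 458 (merge (leaf 3 457 457) (node 459 (merge (leaf 3 458 494) (node 556 (merge (leaf 7 459 588) (node 427 (merge (leaf 4 395 395) (leaf 4 427 523))))))))))) (node 490 (merge (leaf 0 489 489) (node 461 (merge (leaf 2 458 462) (node 556 (merge (leaf 5 428 429) (leaf 6 460 588))))))))))) (node 460 (merge (node 428 (merge (leaf 4 396 396) (node 429 (merge (leaf 6 396 397) (node 427 (merge (leaf 7 395 395) (node 462 (merge (leaf 0 427 430) (leaf 3 427 461))))))))) (merge (node 428 (merge (leaf 4 396 396) (node 427 (merge (leaf 7 395 395) (node 556 (merge (leaf 7 427 459) (node 461 (merge (leaf 3 427 462) (leaf 6 460 588))))))))) (merge (node 428 (merge (leaf 4 396 396) (node 429 (merge (leaf 6 396 397) (node 556 (merge (leaf 6 428 461) (node 427 (merge (leaf 7 395 395) (leaf 7 427 459))))))))) (merge (node 428 (merge (leaf 4 396 396) (node 429 (merge (leaf 6 396 397) (node 427 (merge (leaf 7 395 395) (node 430 (merge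 (leaf 0 427 462) (node 459 (merge (leaf 1 426 458) (leaf 7 427 556))))))))))) (node 461 (merge (node 429 (merge (leaf 6 428 556) (node 397 (merge (leaf 5 364 365) (leaf 5 396 493))))) (node 462 (merge (leaf 1 459 491) (node 495 (merge (leaf 0 460 496) (node 431 (merge (leaf 2 428 432) (leaf 4 431 527))))))))))))))))) (merge (node 493 (merge (node 494 (merge (node 495 (merge (leaf 1 492 496) (node 527 (merge (leaf 4 431 431) (leaf 0 492 492))))) (node 491 (merge (leaf 2 459 462) (node 490 (merge (leaf 0 489 489) (node 458 (merge (leaf 3 457 457) (leaf 3 458 459))))))))) (merge (node 491 (merge (node 462 (merge (leaf 2 459 494) (node 461 (merge (leaf 1 459 460) (node 429 (merge (leaf 5 396 397) (leaf 5 428 556))))))) (merge (node 490 (merge (leaf 0 489 489) (node 461 (merge (leaf 2 458 462) (node 429 (merge (leaf 5 396 397) (leaf 5 428 556))))))) (node 490 (merge (leaf 0 489 489) (node 522 (merge (leaf 1 489 521) (node 458 (merge (leaf 3 457 457) (node 459 (merge (leaf 3 458 494) (node 427 (merge (leaf 4 395 395) (leaf 6 426 554)))))))))))))) (merge (node 460 (merge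 (node 428 (merge (leaf 4 396 396) (node 427 (merge (leaf 7 395 395) (node 556 (merge (leaf 7 427 459) (node 461 (merge (leaf 3 427 462) (leaf 6 460 588))))))))) (merge (node 428 (merge (leaf 4 396 396) (node 429 (merge (leaf 6 396 397) (node 556 (merge (leaf 6 428 461) (node 427 (merge (leaf 7 395 395) (leaf 7 427 459))))))))) (merge (node 428 (merge (leaf 4 396 396) (node 429 (merge (leaf 6 396 397) (node 427 (merge (leaf 7 395 395) (node 462 (merge (leaf 0 427 430) (leaf 3 427 461))))))))) (merge (node 428 (merge (leaf 4 396 396) (node 429 (merge (leaf 6 396 397) (node 427 (merge (leaf 7 395 395) (node 430 (merge (leaf 0 427 462) (node 459 (merge (leaf 1 426 458) (leaf 7 427 556))))))))))) (node 461 (merge (node 429 (merge (leaf 6 428 556) (node 397 (merge (leaf 5 364 365) (leaf 5 396 493))))) (node 462 (merge (leaf 1 459 491) (node 495 (merge (leaf 0 460 496) (node 431 (merge (leaf 2 428 432) (leaf 4 431 527)))))))))))))) (merge (node 495 (merge (node 527 (merge (leaf 4 431 431) (leaf 0 492 494))) (merge (node 431 (merge (leaf 4 431 527) (node 399 (merge (leaf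 4 399 496) (node 368 (merge (leaf 6 367 400) (node 367 (merge (leaf 6 335 336) (node 366 (merge (leaf 7 334 334) (leaf 7 366 398))))))))))) (node 494 (merge (leaf 1 492 496) (node 460 (merge (leaf 3 459 459) (node 428 (merge (leaf 4 396 396) (node 429 (merge (leaf 6 396 397) (node 556 (merge (leaf 6 428 461) (node 588 (merge (leaf 6 492 620) (node 587 (merge (leaf 5 459 555) (leaf 5 491 619)))))))))))))))))) (node 495 (merge (node 527 (merge (leaf 4 431 431) (leaf 0 492 494))) (merge (node 431 (merge (leaf 4 431 527) (node 399 (merge (leaf 4 399 496) (node 368 (merge (leaf 6 367 400) (node 367 (merge (leaf 6 335 336) (node 366 (merge (leaf 7 334 334) (leaf 7 366 398))))))))))) (node 429 (merge (node 461 (merge (leaf 5 396 397) (leaf 5 428 556))) (merge (node 494 (merge (leaf 1 492 496) (node 462 (merge (leaf 2 459 491) (node 430 (merge (leaf 5 397 398) (node 428 (merge (leaf 0 427 427) (node 460 (merge (leaf 4 396 396) (leaf 6 396 397))))))))))) (node 496 (merge (leaf 1 492 494) (node 461 (merge (leaf 5 428 556) (node 430 (merge (leaf 6 397 398) (node 462 (merge (leaf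 0 460 460) (node 428 (merge (leaf 7 396 396) (leaf 0 427 427)))))))))))))))))))))) (merge (node 493 (merge (node 494 (merge (node 495 (merge (leaf 1 492 496) (leaf 0 492 527))) (node 491 (merge (leaf 2 459 462) (node 490 (merge (leaf 0 489 489) (node 458 (merge (leaf 3 457 457) (leaf 3 458 459))))))))) (merge (node 495 (merge (node 494 (merge (leaf 1 492 496) (leaf 1 491 523))) (merge (node 527 (merge (leaf 4 431 431) (leaf 0 492 494))) (node 431 (merge (leaf 4 431 527) (node 399 (merge (leaf 4 399 496) (node 368 (merge (leaf 6 367 400) (node 367 (merge (leaf 6 335 336) (node 366 (merge (leaf 7 334 334) (leaf 7 366 398)))))))))))))) (merge (node 431 (merge (node 495 (merge (leaf 4 431 527) (node 399 (merge (leaf 4 399 496) (node 368 (merge (leaf 6 367 400) (node 367 (merge (leaf 6 335 336) (node 366 (merge (leaf 7 334 334) (leaf 7 366 398))))))))))) (merge (node 460 (merge (node 428 (merge (leaf 4 396 396) (node 429 (merge (leaf 6 396 397) (node 427 (merge (leaf 7 395 395) (node 462 (merge (leaf 0 427 430) (leaf 3 427 461))))))))) (merge (node 428 (merge (leaf 4 396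 396) (node 429 (merge (leaf 6 396 397) (node 430 (merge (leaf 1 427 459) (node 461 (merge (leaf 6 397 398) (leaf 1 428 432))))))))) (merge (node 428 (merge (leaf 4 396 396) (node 429 (merge (leaf 6 396 397) (node 427 (merge (leaf 7 395 395) (node 430 (merge (leaf 1 427 459) (leaf 0 427 462))))))))) (merge (node 461 (merge (node 462 (merge (leaf 2 428 432) (leaf 1 459 491))) (merge (node 429 (merge (leaf 5 396 397) (node 430 (merge (leaf 6 397 398) (leaf 1 428 432))))) (node 491 (merge (leaf 1 459 462) (node 490 (merge (leaf 0 489 489) (node 458 (merge (leaf 3 457 457) (node 429 (merge (leaf 5 396 397) (node 430 (merge (leaf 6 397 398) (leaf 2 426 459)))))))))))))) (node 428 (merge (leaf 4 396 396) (node 427 (merge (leaf 7 395 395) (node 523 (merge (leaf 5 427 555) (node 522 (merge (leaf 2 489 521) (node 554 (merge (leaf 1 521 553) (node 490 (merge (leaf 3 489 489) (node 459 (merge (leaf 6 426 458) (leaf 5 426 491)))))))))))))))))))) (node 428 (merge (node 495 (merge (leaf 4 431 527) (node 399 (merge (leaf 4 399 496) (node 400 (merge (leaf 6 367 368) (node 429 (merge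 (leaf 2 396 430) (node 461 (merge (leaf 7 396 396) (leaf 5 396 397))))))))))) (merge (node 495 (merge (leaf 4 431 527) (node 399 (merge (leaf 4 399 496) (node 400 (merge (leaf 6 367 368) (node 429 (merge (leaf 2 396 430) (node 397 (merge (leaf 6 396 460) (leaf 5 396 461))))))))))) (merge (node 460 (merge (leaf 4 396 396) (node 429 (merge (leaf 6 396 397) (node 427 (merge (leaf 7 395 395) (node 430 (merge (leaf 0 427 462) (node 399 (merge (leaf 2 396 400) (node 495 (merge (leaf 4 399 496) (leaf 4 431 527))))))))))))) (node 460 (merge (leaf 4 396 396) (node 427 (merge (leaf 7 395 395) (node 523 (merge (leaf 5 427 555) (node 522 (merge (leaf 2 489 521) (node 554 (merge (leaf 1 521 553) (node 490 (merge (leaf 3 489 489) (node 459 (merge (leaf 6 426 458) (leaf 5 426 491)))))))))))))))))))))) (node 491 (merge (node 490 (merge (leaf 0 489 489) (node 522 (merge (leaf 1 489 521) (node 494 (merge (leaf 1 490 523) (node 458 (merge (leaf 3 457 457) (leaf 3 458 459))))))))) (merge (node 462 (merge (leaf 2 459 494) (node 461 (merge (leaf 1 459 460) (node 429 (merge (leaf 5 396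 397) (node 430 (merge (leaf 6 397 398) (node 428 (merge (leaf 7 396 396) (leaf 0 427 427))))))))))) (node 523 (merge (node 522 (merge (leaf 2 489 521) (node 554 (merge (leaf 1 521 553) (node 586 (merge (leaf 6 490 618) (node 459 (merge (leaf 5 426 427) (leaf 6 458 490))))))))) (merge (node 490 (merge (leaf 0 489 489) (node 522 (merge (leaf 1 489 521) (node 458 (merge (leaf 3 457 457) (node 426 (merge (leaf 4 394 394) (leaf 4 426 555))))))))) (merge (node 522 (merge (leaf 2 489 521) (node 554 (merge (leaf 1 521 553) (node 586 (merge (leaf 6 490 618) (node 459 (merge (leaf 5 426 427) (leaf 5 458 555))))))))) (node 490 (merge (leaf 0 489 489) (node 458 (merge (leaf 3 457 457) (node 555 (merge (leaf 7 458 587) (node 426 (merge (leaf 4 394 394) (leaf 7 426 459)))))))))))))))))))) (node 493 (merge (node 494 (merge (node 495 (merge (leaf 1 492 496) (leaf 0 492 527))) (node 491 (merge (leaf 2 459 462) (node 490 (merge (leaf 0 489 489) (node 458 (merge (leaf 3 457 457) (leaf 3 458 459))))))))) (merge (node 495 (merge (node 494 (merge (leaf 1 492 496) (leaf 1 491 523))) (merge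 (node 527 (merge (leaf 4 431 431) (leaf 0 492 494))) (node 431 (merge (leaf 4 431 527) (node 399 (merge (leaf 4 399 496) (node 368 (merge (leaf 6 367 400) (node 367 (merge (leaf 6 335 336) (node 366 (merge (leaf 7 334 334) (leaf 7 366 398)))))))))))))) (node 490 (merge (node 491 (merge (leaf 0 489 489) (node 461 (merge (leaf 2 458 462) (node 556 (merge (leaf 5 428 429) (leaf 6 460 588))))))) (merge (node 522 (merge (node 491 (merge (leaf 0 489 489) (leaf 1 489 521))) (merge (node 521 (merge (leaf 1 489 491) (leaf 2 489 523))) (merge (node 489 (merge (leaf 0 489 491) (leaf 3 489 523))) (node 523 (merge (leaf 3 489 489) (node 553 (merge (leaf 1 521 554) (node 521 (merge (leaf 2 489 492) (leaf 1 520 552))))))))))) (merge (node 522 (merge (node 521 (merge (leaf 1 489 491) (leaf 2 489 523))) (merge (node 491 (merge (leaf 1 489 521) (node 461 (merge (leaf 2 458 462) (node 429 (merge (leaf 5 396 397) (leaf 5 428 556))))))) (merge (node 554 (merge (node 553 (merge (leaf 1 521 523) (node 458 (merge (leaf 5 457 585) (node 457 (merge (leaf 7 425 425) (leaf 3 457 491))))))) (merge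 (node 553 (merge (leaf 1 521 523) (node 556 (merge (leaf 2 521 555) (node 461 (merge (leaf 5 428 429) (leaf 6 460 588))))))) (node 458 (merge (node 457 (merge (leaf 7 425 425) (leaf 3 457 491))) (merge (node 459 (merge (leaf 6 426 427) (node 586 (merge (leaf 6 458 491) (node 587 (merge (leaf 4 458 555) (leaf 4 490 619))))))) (node 427 (merge (leaf 6 426 459) (node 426 (merge (leaf 6 394 395) (node 425 (merge (leaf 7 393 393) (leaf 7 425 457))))))))))))) (node 458 (merge (node 523 (merge (leaf 2 489 521) (node 555 (merge (leaf 4 426 426) (node 587 (merge (leaf 4 458 554) (leaf 6 491 619))))))) (merge (node 554 (merge (node 555 (merge (leaf 4 458 587) (node 553 (merge (leaf 2 521 556) (leaf 5 457 585))))) (node 427 (merge (leaf 6 426 459) (node 426 (merge (leaf 6 394 395) (node 425 (merge (leaf 7 393 393) (leaf 7 425 457))))))))) (merge (node 521 (merge (leaf 2 489 523) (node 426 (merge (leaf 5 425 553) (node 395 (merge (leaf 6 394 427) (node 394 (merge (leaf 6 362 363) (node 393 (merge (leaf 7 361 361) (leaf 7 393 425))))))))))) (node 523 (merge (leaf 2 489 521) (node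 554 (merge (leaf 1 521 553) (node 587 (merge (leaf 4 458 555) (node 586 (merge (leaf 4 490 619) (node 617 (merge (leaf 5 489 585) (node 618 (merge (leaf 5 521 649) (node 588 (merge (leaf 1 585 589) (node 556 (merge (leaf 6 460 461) (leaf 6 492 620))))))))))))))))))))))))) (node 522 (merge (node 523 (merge (leaf 3 489 489) (leaf 2 489 521))) (merge (node 554 (merge (node 489 (merge (leaf 3 489 523) (node 457 (merge (leaf 7 457 586) (node 425 (merge (leaf 4 393 393) (leaf 7 425 458))))))) (merge (node 553 (merge (leaf 1 521 523) (node 556 (merge (leaf 2 521 555) (node 461 (merge (leaf 5 428 429) (leaf 6 460 588))))))) (node 553 (merge (node 585 (merge (leaf 5 457 458) (node 617 (merge (leaf 5 489 586) (leaf 6 521 649))))) (node 556 (merge (leaf 2 521 555) (node 461 (merge (leaf 5 428 429) (leaf 6 460 588)))))))))) (merge (node 458 (merge (node 523 (merge (leaf 2 489 521) (node 555 (merge (leaf 4 426 426) (node 587 (merge (leaf 4 458 554) (leaf 6 491 619))))))) (merge (node 554 (merge (node 555 (merge (leaf 4 458 587) (node 553 (merge (leaf 2 521 556) (leaf 5 457 585)))))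 (node 427 (merge (leaf 6 426 459) (node 426 (merge (leaf 6 394 395) (node 425 (merge (leaf 7 393 393) (leaf 7 425 457))))))))) (merge (node 521 (merge (leaf 2 489 523) (node 426 (merge (leaf 5 425 553) (node 395 (merge (leaf 6 394 427) (node 394 (merge (leaf 6 362 363) (node 393 (merge (leaf 7 361 361) (leaf 7 393 425))))))))))) (node 523 (merge (leaf 2 489 521) (node 554 (merge (leaf 1 521 553) (node 587 (merge (leaf 4 458 555) (node 586 (merge (leaf 4 490 619) (node 617 (merge (leaf 5 489 585) (node 618 (merge (leaf 5 521 649) (node 588 (merge (leaf 1 585 589) (node 556 (merge (leaf 6 460 461) (leaf 6 492 620))))))))))))))))))))) (node 554 (merge (node 553 (merge (node 585 (merge (leaf 5 457 458) (node 617 (merge (leaf 6 489 521) (leaf 6 521 649))))) (node 556 (merge (leaf 2 521 555) (node 588 (merge (leaf 6 460 461) (leaf 6 492 620))))))) (merge (node 555 (merge (node 556 (merge (leaf 2 521 553) (node 588 (merge (leaf 6 460 461) (leaf 6 492 620))))) (node 587 (merge (leaf 4 458 458) (node 619 (merge (leaf 4 490 586) (leaf 7 522 651))))))) (merge (node 586 (merge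 (node 457 (merge (leaf 7 457 489) (node 458 (merge (leaf 7 425 425) (node 587 (merge (leaf 4 458 555) (leaf 4 490 619))))))) (merge (node 619 (merge (leaf 4 490 587) (node 618 (merge (leaf 4 522 651) (node 617 (merge (leaf 5 489 585) (leaf 5 521 649))))))) (node 489 (merge (leaf 7 457 457) (node 618 (merge (leaf 7 489 521) (node 617 (merge (leaf 5 489 585) (leaf 5 521 649)))))))))) (merge (node 458 (merge (node 427 (merge (leaf 6 426 459) (node 426 (merge (leaf 6 394 395) (node 553 (merge (leaf 5 425 521) (leaf 5 457 585))))))) (merge (node 457 (merge (leaf 7 425 425) (node 586 (merge (leaf 7 457 489) (node 585 (merge (leaf 5 457 553) (leaf 5 489 617))))))) (node 427 (merge (leaf 6 426 459) (node 426 (merge (leaf 6 394 395) (node 425 (merge (leaf 7 393 393) (leaf 7 425 457)))))))))) (node 553 (merge (node 556 (merge (leaf 2 521 555) (node 461 (merge (leaf 5 428 429) (leaf 6 460 588))))) (merge (node 586 (merge (node 587 (merge (leaf 4 490 619) (node 588 (merge (leaf 3 553 589) (node 585 (merge (leaf 3 552 552) (leaf 5 489 617))))))) (merge (node 489 (merge (leaf 7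 457 457) (node 618 (merge (leaf 7 489 521) (node 619 (merge (leaf 4 490 587) (leaf 4 522 651))))))) (node 489 (merge (leaf 7 457 457) (node 618 (merge (leaf 7 489 521) (node 617 (merge (leaf 5 489 585) (leaf 5 521 649)))))))))) (node 552 (merge (node 555 (merge (leaf 2 521 556) (node 583 (merge (leaf 1 551 584) (node 551 (merge (leaf 1 550 582) (node 519 (merge (leaf 3 518 518) (leaf 3 519 520))))))))) (merge (node 586 (merge (node 587 (merge (leaf 0 551 551) (leaf 4 490 619))) (node 489 (merge (leaf 7 457 457) (node 618 (merge (leaf 7 489 521) (node 617 (merge (leaf 5 489 585) (leaf 5 521 649))))))))) (node 584 (merge (node 555 (merge (leaf 2 521 556) (leaf 1 551 583))) (merge (node 586 (merge (node 489 (merge (leaf 7 457 457) (node 618 (merge (leaf 7 489 521) (node 619 (merge (leaf 4 490 587) (leaf 4 522 651))))))) (merge (node 619 (merge (leaf 4 490 587) (node 585 (merge (leaf 5 489 617) (node 583 (merge (leaf 2 550 582) (leaf 0 583 618))))))) (merge (node 489 (merge (leaf 7 457 457) (node 521 (merge (leaf 7 489 618) (node 585 (merge (leaf 5 488 616) (leaf 6 489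 617))))))) (node 489 (merge (leaf 7 457 457) (node 587 (merge (leaf 4 490 619) (node 585 (merge (leaf 5 489 617) (node 616 (merge (leaf 5 488 521) (leaf 1 583 615))))))))))))) (node 585 (merge (node 617 (merge (leaf 5 489 586) (leaf 6 521 649))) (node 555 (merge (leaf 1 552 556) (node 520 (merge (leaf 3 519 519) (node 488 (merge (leaf 4 456 456) (node 487 (merge (leaf 7 455 455) (node 489 (merge (leaf 6 456 457) (node 521 (merge (leaf 0 486 486) (leaf 6 488 616))))))))))))))))))))))))))))))))))))))))))))))))) nP_257 cP_257 16 (by decide +kernel)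
def nP_258 : ℕ := 0x1000000013000000000000000a0000000000000000000000000000000000000000000000000000000000000000000000000000000000000000000000000000000000000000000
def cP_258 : ℕ := 0x2d0000000c00000007f0000005e000007ff000003fc000003fe000000700000005000000000000000000000000000000000000000000000000000000000000000000000000000
theorem lP_258 : S nP_258 cP_258 13 := S_of_chk [] trivial (node 462 (merge (node 460 (merge (node 492 (merge (leaf 1 459 491) (node 429 (merge (leaf 6 428 556) (node 428 (merge (leaf 6 396 397) (leaf 3 427 427))))))) (merge (node 491 (merge (leaf 1 459 492) (node 459 (merge (leaf 1 458 490) (node 431 (merge (leaf 2 427 430) (leaf 2 428 432))))))) (node 431 (merge (leaf 2 428 432) (node 459 (merge (leaf 2 427 430) (node 427 (merge (leaf 3 426 426) (leaf 3 427 428)))))))))) (merge (node 431 (merge (node 526 (merge (node 527 (merge (leaf 0 524 559) (leaf 0 525 561))) (node 494 (merge (leaf 6 430 558) (node 399 (merge (leaf 5 366 367) (leaf 6 398 430))))))) (node 460 (merge (leaf 2 428 432) (node 492 (merge (leaf 1 459 491) (node 429 (merge (leaf 6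 428 556) (node 397 (merge (leaf 6 396 428) (leaf 5 396 493))))))))))) (merge (node 431 (merge (node 432 (merge (leaf 2 428 460) (node 433 (merge (leaf 1 429 430) (leaf 1 430 434))))) (merge (node 460 (merge (leaf 2 428 432) (node 491 (merge (leaf 1 459 492) (node 459 (merge (leaf 1 458 490) (node 427 (merge (leaf 3 426 426) (leaf 3 427 428))))))))) (node 526 (merge (node 494 (merge (leaf 6 430 558) (node 399 (merge (leaf 5 366 367) (leaf 6 398 430))))) (node 527 (merge (leaf 0 525 561) (node 524 (merge (leaf 0 524 559) (node 492 (merge (leaf 3 491 491) (leaf 3 492 493)))))))))))) (merge (node 460 (merge (node 492 (merge (leaf 1 459 491) (node 429 (merge (leaf 6 428 556) (node 397 (merge (leaf 5 364 365) (leaf 5 396 493))))))) (merge (node 431 (merge (leaf 2 428 432) (node 459 (merge (leaf 2 427 430) (node 490 (merge (leaf 1 458 491) (node 458 (merge (leaf 1 457 489) (node 426 (merge (leaf 3 425 425) (leaf 3 426 427))))))))))) (node 431 (merge (leaf 2 428 432) (node 459 (merge (leaf 2 427 430) (node 427 (merge (leaf 3 426 426) (node 556 (merge (leaf 7 427 492) (node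 493 (merge (leaf 5 428 429) (node 494 (merge (leaf 0 458 458) (node 526 (merge (leaf 6 430 558) (node 527 (merge (leaf 0 524 559) (leaf 0 525 561)))))))))))))))))))) (merge (node 429 (merge (node 428 (merge (node 427 (merge (leaf 0 427 430) (leaf 3 427 460))) (node 493 (merge (leaf 7 396 396) (node 526 (merge (leaf 4 429 558) (node 527 (merge (leaf 0 525 561) (node 524 (merge (leaf 5 428 556) (leaf 0 524 559))))))))))) (merge (node 493 (merge (node 526 (merge (leaf 4 429 558) (node 527 (merge (leaf 3 492 492) (leaf 0 525 561))))) (merge (node 398 (merge (leaf 6 397 430) (node 397 (merge (leaf 6 365 366) (node 524 (merge (leaf 5 396 492) (leaf 5 428 556))))))) (node 526 (merge (leaf 4 429 558) (node 527 (merge (leaf 0 525 561) (node 524 (merge (leaf 5 428 556) (leaf 0 524 559)))))))))) (merge (node 493 (merge (node 526 (merge (leaf 4 429 558) (node 527 (merge (leaf 3 492 492) (leaf 0 525 561))))) (node 398 (merge (leaf 6 397 430) (node 397 (merge (leaf 6 365 366) (node 396 (merge (leaf 7 364 364) (leaf 7 396 428))))))))) (merge (node 493 (merge (node 428 (merge (leaf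 7 396 396) (node 427 (merge (leaf 0 426 426) (leaf 3 427 460))))) (merge (node 524 (merge (leaf 5 428 556) (node 492 (merge (leaf 5 396 397) (node 491 (merge (leaf 1 459 460) (leaf 2 458 490))))))) (node 396 (merge (leaf 7 396 428) (node 397 (merge (leaf 7 364 364) (node 524 (merge (leaf 5 396 492) (leaf 5 428 556)))))))))) (node 460 (merge (node 492 (merge (leaf 1 459 491) (node 524 (merge (leaf 6 428 556) (node 397 (merge (leaf 5 364 365) (leaf 6 396 428))))))) (merge (node 459 (merge (node 427 (merge (leaf 3 426 426) (leaf 3 427 428))) (merge (node 458 (merge (leaf 2 426 430) (node 489 (merge (leaf 1 457 490) (node 457 (merge (leaf 2 425 428) (leaf 1 456 488))))))) (node 458 (merge (leaf 2 426 430) (node 426 (merge (leaf 3 425 425) (leaf 3 426 427)))))))) (node 491 (merge (leaf 1 459 492) (node 459 (merge (leaf 1 458 490) (node 458 (merge (leaf 2 426 430) (node 426 (merge (leaf 3 425 425) (leaf 3 426 427))))))))))))))))) (merge (node 526 (merge (node 527 (merge (leaf 0 524 559) (leaf 0 525 561))) (merge (node 527 (merge (leaf 0 524 559) (node 492 (merge (leaf 3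 491 491) (leaf 3 492 493))))) (merge (node 527 (merge (leaf 0 525 561) (node 492 (merge (leaf 3 491 491) (leaf 3 492 493))))) (node 460 (merge (node 491 (merge (leaf 1 459 492) (node 459 (merge (leaf 1 458 490) (node 427 (merge (leaf 3 426 426) (leaf 3 427 428))))))) (merge (node 492 (merge (leaf 1 459 491) (node 431 (merge (leaf 2 428 432) (node 558 (merge (leaf 6 430 494) (node 428 (merge (leaf 3 427 427) (node 493 (merge (leaf 4 396 396) (leaf 4 429 429))))))))))) (merge (node 491 (merge (leaf 1 459 492) (node 459 (merge (leaf 1 458 490) (node 431 (merge (leaf 2 428 432) (node 494 (merge (leaf 6 430 558) (node 458 (merge (leaf 0 458 493) (node 426 (merge (leaf 3 425 425) (leaf 3 426 427))))))))))))) (merge (node 459 (merge (node 427 (merge (leaf 3 426 426) (leaf 3 427 428))) (merge (node 431 (merge (leaf 2 428 432) (node 494 (merge (leaf 6 430 558) (node 458 (merge (leaf 0 458 493) (node 489 (merge (leaf 1 457 490) (node 457 (merge (leaf 1 456 488) (node 425 (merge (leaf 3 424 424) (leaf 3 425 426))))))))))))) (node 431 (merge (leaf 2 428 432) (node 494 (merge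 (leaf 6 430 558) (node 458 (merge (leaf 0 458 493) (node 489 (merge (leaf 1 457 490) (node 457 (merge (leaf 1 456 488) (node 428 (merge (leaf 3 427 427) (leaf 2 425 429)))))))))))))))) (node 429 (merge (node 494 (merge (leaf 7 429 558) (node 397 (merge (leaf 4 365 365) (leaf 4 397 493))))) (merge (node 492 (merge (leaf 1 459 491) (node 524 (merge (leaf 6 428 556) (node 397 (merge (leaf 5 364 365) (leaf 6 396 428))))))) (node 494 (merge (leaf 7 429 558) (node 491 (merge (leaf 1 459 492) (node 459 (merge (leaf 1 458 490) (node 458 (merge (leaf 0 458 493) (node 457 (merge (leaf 2 425 428) (node 425 (merge (leaf 3 424 424) (leaf 3 425 426))))))))))))))))))))))))) (node 526 (merge (node 527 (merge (leaf 0 524 559) (leaf 0 525 561))) (node 429 (merge (node 558 (merge (leaf 4 429 493) (leaf 7 429 494))) (merge (node 494 (merge (leaf 7 429 558) (node 397 (merge (leaf 4 365 365) (leaf 7 397 430))))) (merge (node 493 (merge (leaf 4 429 558) (node 430 (merge (leaf 6 397 398) (node 428 (merge (leaf 7 396 396) (leaf 0 427 427))))))) (node 397 (merge (node 494 (merge (leaf 4 365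 365) (node 526 (merge (leaf 7 397 430) (leaf 4 397 493))))) (merge (node 365 (merge (leaf 4 365 494) (node 334 (merge (leaf 6 333 366) (node 333 (merge (leaf 6 301 302) (node 332 (merge (leaf 7 300 300) (leaf 7 332 364))))))))) (merge (node 365 (merge (node 334 (merge (leaf 6 333 366) (node 333 (merge (leaf 6 301 302) (leaf 4 333 430))))) (merge (node 332 (merge (leaf 7 332 364) (node 333 (merge (leaf 7 300 300) (leaf 4 333 430))))) (node 366 (merge (leaf 6 333 334) (node 493 (merge (leaf 6 365 398) (node 364 (merge (leaf 7 332 332) (leaf 7 364 396)))))))))) (node 398 (merge (node 493 (merge (leaf 6 365 366) (leaf 4 397 494))) (merge (node 399 (merge (node 428 (merge (leaf 1 396 400) (node 427 (merge (leaf 1 395 396) (leaf 2 394 426))))) (merge (node 400 (merge (leaf 1 396 428) (node 433 (merge (leaf 0 397 432) (node 401 (merge (leaf 1 397 430) (leaf 0 398 434))))))) (merge (node 493 (merge (leaf 4 397 494) (node 396 (merge (leaf 7 364 364) (node 368 (merge (leaf 2 364 367) (node 400 (merge (leaf 2 365 369) (node 433 (merge (leaf 0 397 432) (node 401 (merge (leaf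 1 397 430) (leaf 0 398 434))))))))))))) (node 493 (merge (leaf 4 397 494) (node 396 (merge (leaf 7 364 364) (node 427 (merge (leaf 1 395 428) (node 395 (merge (leaf 1 394 426) (node 394 (merge (leaf 0 394 430) (node 362 (merge (leaf 3 361 361) (leaf 3 362 363))))))))))))))))) (node 396 (merge (node 366 (merge (node 334 (merge (leaf 5 301 302) (leaf 5 333 430))) (node 367 (merge (leaf 2 363 395) (node 368 (merge (leaf 1 365 369) (leaf 2 364 399))))))) (merge (node 364 (merge (node 332 (merge (leaf 4 300 300) (leaf 4 332 428))) (node 363 (merge (leaf 3 363 399) (node 362 (merge (leaf 0 361 361) (leaf 3 362 395))))))) (merge (node 366 (merge (node 334 (merge (leaf 5 301 302) (leaf 5 333 430))) (node 395 (merge (leaf 2 363 367) (node 426 (merge (leaf 1 394 427) (node 394 (merge (leaf 1 393 425) (node 362 (merge (leaf 3 361 361) (leaf 3 362 363))))))))))) (node 364 (merge (node 332 (merge (leaf 4 300 300) (leaf 4 332 428))) (node 399 (merge (leaf 3 363 363) (node 368 (merge (leaf 2 364 367) (node 400 (merge (leaf 2 365 369) (node 433 (merge (leaf 0 397 432) (node 401 (merge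 (leaf 1 397 430) (leaf 0 398 434))))))))))))))))))))))))))))))))))))) nP_258 cP_258 13 (by decide +kernel)
def nP_259 : ℕ := 0x3000000000000000a0000000000000000000000000000000000000000000000000000000000000000000000000000000000000000000000000000000000000000000
def cP_259 : ℕ := 0x2800000038000000380000005c00000046000001ff0000005e000001ff000000f800000038000000380000002000000000000000000000000000000000000000000000000000000000000000000000000000
theorem lP_259 : S nP_259 cP_259 10 := S_of_chk [] trivial (node 460 (merge (node 492 (merge (node 429 (merge (leaf 6 428 556) (node 397 (merge (leaf 5 364 365) (leaf 6 396 428))))) (node 462 (merge (leaf 1 459 491) (node 495 (merge (leaf 0 460 496) (node 459 (merge (leaf 0 459 494) (node 431 (merge (leaf 2 427 430) (leaf 2 428 432))))))))))) (merge (node 462 (merge (node 495 (merge (leaf 0 460 496) (node 459 (merge (leaf 0 459 494) (node 431 (merge (leaf 2 427 430) (leaf 2 428 432))))))) (node 492 (merge (leaf 1 459 491) (node 429 (merge (leaf 6 428 556) (node 397 (merge (leaf 5 364 365) (leaf 5 396 493))))))))) (merge (node 429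 (merge (node 556 (merge (leaf 6 428 492) (leaf 5 428 493))) (node 459 (merge (node 430 (merge (leaf 2 426 458) (node 431 (merge (leaf 1 428 432) (leaf 2 427 462))))) (merge (node 458 (merge (leaf 2 426 430) (node 489 (merge (leaf 1 457 490) (node 457 (merge (leaf 2 425 428) (leaf 1 456 488))))))) (merge (node 462 (merge (node 431 (merge (leaf 2 427 430) (leaf 2 428 432))) (node 427 (merge (leaf 3 426 426) (leaf 3 427 428))))) (node 462 (merge (node 427 (merge (leaf 3 426 426) (leaf 3 427 428))) (merge (node 490 (merge (leaf 1 458 491) (node 458 (merge (leaf 1 457 489) (node 426 (merge (leaf 3 425 425) (leaf 3 426 427))))))) (merge (node 490 (merge (leaf 1 458 491) (node 458 (merge (leaf 1 457 489) (node 428 (merge (leaf 3 427 427) (leaf 2 425 457))))))) (node 490 (merge (leaf 1 458 491) (node 458 (merge (leaf 1 457 489) (node 457 (merge (leaf 2 425 428) (node 425 (merge (leaf 3 424 424) (leaf 3 425 426))))))))))))))))))) (merge (node 429 (merge (node 493 (merge (leaf 5 428 556) (node 430 (merge (leaf 6 397 398) (node 431 (merge (leaf 1 428 432) (node 459 (merge (leaf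 2 426 458) (leaf 2 427 462))))))))) (merge (node 493 (merge (leaf 5 428 556) (node 396 (merge (leaf 7 396 428) (node 397 (merge (leaf 7 364 364) (node 526 (merge (leaf 4 397 494) (leaf 4 429 558))))))))) (node 459 (merge (node 430 (merge (leaf 2 426 458) (node 431 (merge (leaf 1 428 432) (leaf 2 427 462))))) (merge (node 458 (merge (leaf 2 426 430) (node 457 (merge (leaf 2 425 428) (node 425 (merge (leaf 3 424 424) (leaf 3 425 426))))))) (merge (node 458 (merge (node 489 (merge (leaf 1 457 490) (node 457 (merge (leaf 2 425 428) (leaf 1 456 488))))) (merge (node 457 (merge (leaf 2 425 428) (node 425 (merge (leaf 3 424 424) (leaf 3 425 426))))) (node 490 (merge (leaf 1 457 489) (node 462 (merge (leaf 1 458 491) (node 426 (merge (leaf 3 425 425) (leaf 3 426 427)))))))))) (node 462 (merge (node 494 (merge (leaf 0 459 495) (node 526 (merge (leaf 7 429 558) (node 430 (merge (leaf 7 397 397) (leaf 2 427 431))))))) (merge (node 431 (merge (leaf 2 427 430) (node 463 (merge (leaf 2 428 432) (node 427 (merge (leaf 3 426 426) (leaf 3 427 428))))))) (node 495 (merge (leaf 0 459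 494) (node 463 (merge (leaf 0 460 496) (node 427 (merge (leaf 3 426 426) (leaf 3 427 428))))))))))))))))) (merge (node 492 (merge (node 429 (merge (leaf 6 428 556) (node 397 (merge (leaf 5 364 365) (leaf 6 396 428))))) (merge (node 556 (merge (leaf 6 428 429) (node 588 (merge (leaf 6 460 493) (node 587 (merge (leaf 5 459 555) (leaf 5 491 619))))))) (node 462 (merge (node 495 (merge (leaf 0 460 496) (node 459 (merge (leaf 0 459 494) (node 431 (merge (leaf 2 427 430) (leaf 2 428 432))))))) (node 428 (merge (leaf 3 427 427) (node 396 (merge (leaf 4 396 493) (node 365 (merge (leaf 6 364 397) (node 364 (merge (leaf 6 332 333) (node 363 (merge (leaf 7 331 331) (leaf 7 363 395)))))))))))))))) (merge (node 492 (merge (node 429 (merge (leaf 6 428 556) (node 397 (merge (leaf 5 364 365) (leaf 6 396 428))))) (merge (node 556 (merge (leaf 6 428 429) (node 588 (merge (leaf 6 460 493) (node 587 (merge (leaf 5 459 555) (leaf 5 491 619))))))) (node 462 (merge (leaf 1 459 491) (node 428 (merge (leaf 3 427 427) (node 396 (merge (leaf 4 396 493) (node 365 (merge (leaf 6 364 397) (node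 364 (merge (leaf 6 332 333) (node 363 (merge (leaf 7 331 331) (leaf 7 363 395)))))))))))))))) (merge (node 492 (merge (node 462 (merge (leaf 1 459 491) (node 495 (merge (leaf 0 460 496) (node 459 (merge (leaf 0 459 494) (node 431 (merge (leaf 2 427 430) (leaf 2 428 432))))))))) (merge (node 462 (merge (node 495 (merge (leaf 0 460 496) (node 459 (merge (leaf 0 459 494) (node 431 (merge (leaf 2 427 430) (leaf 2 428 432))))))) (node 428 (merge (leaf 3 427 427) (node 396 (merge (leaf 4 396 493) (node 365 (merge (leaf 6 364 397) (node 364 (merge (leaf 6 332 333) (node 363 (merge (leaf 7 331 331) (leaf 7 363 395))))))))))))) (merge (node 462 (merge (leaf 1 459 491) (node 428 (merge (leaf 3 427 427) (node 396 (merge (leaf 4 396 493) (node 365 (merge (leaf 6 364 397) (node 364 (merge (leaf 6 332 333) (node 363 (merge (leaf 7 331 331) (leaf 7 363 395))))))))))))) (node 428 (merge (node 396 (merge (leaf 4 396 493) (node 365 (merge (leaf 6 364 397) (node 364 (merge (leaf 6 332 333) (node 459 (merge (leaf 5 363 491) (node 427 (merge (leaf 5 331 332) (leaf 7 427 556)))))))))))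 (merge (node 396 (merge (leaf 4 396 493) (node 365 (merge (leaf 6 364 397) (node 364 (merge (leaf 6 332 333) (node 363 (merge (leaf 7 331 331) (leaf 7 363 395))))))))) (merge (node 396 (merge (node 395 (merge (leaf 7 363 363) (leaf 7 395 427))) (merge (node 365 (merge (leaf 6 364 397) (node 364 (merge (leaf 6 332 333) (node 459 (merge (leaf 5 363 491) (node 427 (merge (leaf 5 331 332) (leaf 7 427 556))))))))) (node 365 (merge (leaf 6 364 397) (node 364 (merge (leaf 6 332 333) (node 363 (merge (leaf 7 331 331) (leaf 7 363 395)))))))))) (node 427 (merge (leaf 7 395 395) (node 556 (merge (leaf 7 427 459) (node 588 (merge (leaf 6 460 493) (node 621 (merge (leaf 4 492 589) (node 620 (merge (leaf 4 524 653) (node 619 (merge (leaf 5 491 587) (leaf 5 523 651))))))))))))))))))))) (merge (node 492 (merge (node 429 (merge (leaf 6 428 556) (node 397 (merge (leaf 5 364 365) (leaf 6 396 428))))) (merge (node 556 (merge (leaf 6 428 429) (node 588 (merge (leaf 6 460 493) (node 587 (merge (leaf 5 459 555) (leaf 5 491 619))))))) (merge (node 428 (merge (node 396 (merge (leaf 4 396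 493) (node 365 (merge (leaf 6 364 397) (node 364 (merge (leaf 6 332 333) (node 459 (merge (leaf 5 363 491) (node 427 (merge (leaf 5 331 332) (leaf 7 427 556))))))))))) (merge (node 396 (merge (leaf 4 396 493) (node 365 (merge (leaf 6 364 397) (node 364 (merge (leaf 6 332 333) (node 363 (merge (leaf 7 331 331) (leaf 7 363 395))))))))) (merge (node 396 (merge (node 395 (merge (leaf 7 363 363) (leaf 7 395 427))) (merge (node 365 (merge (leaf 6 364 397) (node 364 (merge (leaf 6 332 333) (node 459 (merge (leaf 5 363 491) (node 427 (merge (leaf 5 331 332) (leaf 7 427 556))))))))) (node 365 (merge (leaf 6 364 397) (node 364 (merge (leaf 6 332 333) (node 363 (merge (leaf 7 331 331) (leaf 7 363 395)))))))))) (node 427 (merge (leaf 7 395 395) (node 556 (merge (leaf 7 427 459) (node 588 (merge (leaf 6 460 493) (node 621 (merge (leaf 4 492 589) (node 620 (merge (leaf 4 524 653) (node 619 (merge (leaf 5 491 587) (leaf 5 523 651))))))))))))))))) (node 459 (merge (node 458 (merge (node 493 (merge (leaf 0 458 494) (node 429 (merge (leaf 5 396 397) (leaf 2 426 430))))) (node 489 (merge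 (leaf 1 457 490) (node 457 (merge (leaf 1 456 488) (node 425 (merge (leaf 3 424 424) (leaf 3 425 426))))))))) (merge (node 428 (merge (node 395 (merge (leaf 7 395 427) (node 396 (merge (leaf 7 363 363) (leaf 4 396 493))))) (merge (node 396 (merge (leaf 4 396 493) (node 365 (merge (leaf 6 364 397) (node 364 (merge (leaf 6 332 333) (leaf 5 363 491))))))) (merge (node 395 (merge (leaf 7 395 427) (node 396 (merge (leaf 7 363 363) (node 365 (merge (leaf 6 364 397) (node 364 (merge (leaf 6 332 333) (leaf 5 363 491))))))))) (node 429 (merge (leaf 6 396 397) (node 427 (merge (leaf 7 395 395) (node 430 (merge (leaf 1 427 431) (node 398 (merge (leaf 2 395 399) (leaf 6 397 493))))))))))))) (merge (node 458 (merge (node 493 (merge (leaf 0 457 457) (node 494 (merge (leaf 0 458 461) (leaf 3 458 491))))) (merge (node 489 (merge (leaf 1 457 490) (node 457 (merge (leaf 1 456 488) (node 425 (merge (leaf 3 424 424) (leaf 3 425 426))))))) (node 493 (merge (leaf 0 458 494) (node 490 (merge (leaf 1 457 489) (node 491 (merge (leaf 0 490 526) (node 522 (merge (leaf 1 489 521) (node 427 (merge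 (leaf 4 395 395) (leaf 6 426 554)))))))))))))) (node 428 (merge (node 429 (merge (leaf 6 396 397) (node 430 (merge (leaf 1 427 431) (node 458 (merge (leaf 2 425 457) (leaf 2 426 461))))))) (node 396 (merge (node 395 (merge (leaf 7 363 363) (leaf 7 395 427))) (merge (node 364 (merge (leaf 5 363 491) (node 333 (merge (leaf 6 332 365) (node 332 (merge (leaf 6 300 301) (leaf 5 331 427))))))) (node 363 (merge (leaf 7 363 395) (node 364 (merge (leaf 7 331 331) (leaf 5 363 491)))))))))))))))))) (node 492 (merge (node 462 (merge (leaf 1 459 491) (node 495 (merge (leaf 0 460 496) (node 459 (merge (leaf 0 459 494) (node 427 (merge (leaf 3 426 426) (leaf 3 427 428))))))))) (merge (node 462 (merge (leaf 1 459 491) (node 495 (merge (leaf 0 460 496) (node 459 (merge (leaf 0 459 494) (node 431 (merge (leaf 2 427 430) (leaf 2 428 432))))))))) (merge (node 428 (merge (node 397 (merge (leaf 6 396 429) (node 396 (merge (leaf 6 364 365) (leaf 4 396 493))))) (merge (node 395 (merge (leaf 7 395 427) (node 396 (merge (leaf 7 363 363) (leaf 4 396 493))))) (node 429 (merge (leaf 6 396 397)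 (node 427 (merge (leaf 7 395 395) (node 462 (merge (leaf 0 427 430) (leaf 3 427 461)))))))))) (node 459 (merge (node 458 (merge (node 493 (merge (leaf 0 458 494) (node 429 (merge (leaf 5 396 397) (leaf 2 426 430))))) (node 489 (merge (leaf 1 457 490) (node 457 (merge (leaf 1 456 488) (node 425 (merge (leaf 3 424 424) (leaf 3 425 426))))))))) (merge (node 428 (merge (node 395 (merge (leaf 7 395 427) (node 396 (merge (leaf 7 363 363) (leaf 4 396 493))))) (merge (node 396 (merge (leaf 4 396 493) (node 365 (merge (leaf 6 364 397) (node 364 (merge (leaf 6 332 333) (leaf 5 363 491))))))) (merge (node 395 (merge (leaf 7 395 427) (node 396 (merge (leaf 7 363 363) (node 365 (merge (leaf 6 364 397) (node 364 (merge (leaf 6 332 333) (leaf 5 363 491))))))))) (node 429 (merge (leaf 6 396 397) (node 427 (merge (leaf 7 395 395) (node 430 (merge (leaf 1 427 431) (node 398 (merge (leaf 2 395 399) (leaf 6 397 493))))))))))))) (merge (node 458 (merge (node 493 (merge (leaf 0 457 457) (node 494 (merge (leaf 0 458 461) (leaf 3 458 491))))) (merge (node 489 (merge (leaf 1 457 490) (node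 457 (merge (leaf 1 456 488) (node 425 (merge (leaf 3 424 424) (leaf 3 425 426))))))) (node 493 (merge (leaf 0 458 494) (node 490 (merge (leaf 1 457 489) (node 491 (merge (leaf 0 490 526) (node 522 (merge (leaf 1 489 521) (node 427 (merge (leaf 4 395 395) (leaf 6 426 554)))))))))))))) (node 428 (merge (node 429 (merge (leaf 6 396 397) (node 430 (merge (leaf 1 427 431) (node 458 (merge (leaf 2 425 457) (leaf 2 426 461))))))) (node 396 (merge (node 395 (merge (leaf 7 363 363) (leaf 7 395 427))) (merge (node 364 (merge (leaf 5 363 491) (node 333 (merge (leaf 6 332 365) (node 332 (merge (leaf 6 300 301) (leaf 5 331 427))))))) (node 363 (merge (leaf 7 363 395) (node 364 (merge (leaf 7 331 331) (leaf 5 363 491))))))))))))))))))))))))))) nP_259 cP_259 10 (by decide +kernel)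
def nP_260 : ℕ := 0x100000001300000000000000080000000000000000000000000000000000000000000000000000000000000000000000000000000000000000000000000000000000000000000
def cP_260 : ℕ := 0x2800000038000000b8000002fc000000c6000007ff0000007e000007ff000003fc000003fe000001f80000017000000000000000000000000000000000000000000000000000000000000000000000000000
theorem lP_260 : S nP_260 cP_260 14 := S_of_chk [(nP_258, cP_258, 13), (nP_259, cP_259, 10)] ⟨lP_258, lP_259, trivial⟩ (node 461 (merge (node 493 (merge (node 556 (merge (leaf 5 428 429) (node 588 (merge (leaf 6 460 492) (leaf 6 492 620))))) (merge (node 429 (merge (leaf 5 428 556) (node 526 (merge (leaf 4 429 558) (node 527 (merge (leaf 0 524 559) (leaf 0 525 561))))))) (node 527 (merge (node 526 (merge (leaf 3 492 492) (leaf 0 525 561))) (merge (node 495 (merge (leaf 4 431 431) (node 494 (merge (leaf 0 492 492) (leaf 1 492 496))))) (node 526 (merge (leaf 0 525 561) (node 495 (merge (leaf 4 431 431) (leaf 2 492 496))))))))))) (merge (node 431 (merge (node 527 (merge (leaf 4 431 495) (node 526 (merge (leaf 0 524 559) (leaf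 0 525 561))))) (node 429 (merge (node 493 (merge (leaf 5 428 556) (node 396 (merge (leaf 7 396 428) (node 397 (merge (leaf 7 364 364) (leaf 5 396 492))))))) (merge (node 493 (merge (leaf 5 428 556) (node 398 (merge (leaf 6 397 430) (node 397 (merge (leaf 6 365 366) (leaf 5 396 492))))))) (merge (node 493 (merge (leaf 5 428 556) (node 430 (merge (leaf 6 397 398) (node 428 (merge (leaf 7 396 396) (node 460 (merge (leaf 1 428 432) (leaf 1 427 459))))))))) (merge (node 430 (merge (node 460 (merge (leaf 1 428 432) (node 459 (merge (leaf 1 427 428) (leaf 2 426 458))))) (merge (node 493 (merge (leaf 6 397 398) (node 396 (merge (leaf 7 396 428) (node 397 (merge (leaf 7 364 364) (leaf 5 396 492))))))) (node 493 (merge (leaf 6 397 398) (node 432 (merge (leaf 1 428 460) (node 397 (merge (leaf 3 396 396) (leaf 5 396 492)))))))))) (node 460 (merge (node 432 (merge (leaf 1 428 430) (leaf 2 428 462))) (node 492 (merge (leaf 6 428 556) (node 397 (merge (leaf 5 364 365) (leaf 6 396 428)))))))))))))) (merge (node 431 (merge (node 495 (merge (leaf 4 431 527) (node 496 (merge (leaf 4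 399 399) (node 462 (merge (leaf 0 460 460) (node 497 (merge (leaf 3 461 494) (leaf 3 462 498))))))))) (merge (node 495 (merge (leaf 4 431 527) (node 496 (merge (leaf 4 399 399) (node 493 (merge (leaf 1 492 494) (node 556 (merge (leaf 5 428 429) (node 588 (merge (leaf 6 460 492) (leaf 6 492 620))))))))))) (node 429 (merge (node 493 (merge (leaf 5 428 556) (node 396 (merge (leaf 7 396 428) (node 397 (merge (leaf 7 364 364) (leaf 5 396 492))))))) (merge (node 493 (merge (leaf 5 428 556) (node 398 (merge (leaf 6 397 430) (node 397 (merge (leaf 6 365 366) (leaf 5 396 492))))))) (merge (node 493 (merge (leaf 5 428 556) (node 430 (merge (leaf 6 397 398) (node 428 (merge (leaf 7 396 396) (node 460 (merge (leaf 1 428 432) (leaf 1 427 459))))))))) (merge (node 430 (merge (node 460 (merge (leaf 1 428 432) (node 459 (merge (leaf 1 427 428) (leaf 2 426 458))))) (merge (node 493 (merge (leaf 6 397 398) (node 396 (merge (leaf 7 396 428) (node 397 (merge (leaf 7 364 364) (leaf 5 396 492))))))) (node 493 (merge (leaf 6 397 398) (node 432 (merge (leaf 1 428 460) (node 397 (merge (leaf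 3 396 396) (leaf 5 396 492)))))))))) (node 460 (merge (node 432 (merge (leaf 1 428 430) (leaf 2 428 462))) (node 492 (merge (leaf 6 428 556) (node 397 (merge (leaf 5 364 365) (leaf 6 396 428))))))))))))))) (merge (node 526 (merge (node 527 (merge (leaf 0 524 559) (leaf 0 525 561))) (node 493 (merge (node 429 (merge (leaf 4 429 558) (node 398 (merge (leaf 6 397 430) (node 397 (merge (leaf 6 365 366) (leaf 4 397 494))))))) (merge (node 429 (merge (leaf 4 429 558) (node 396 (merge (leaf 7 396 428) (node 397 (merge (leaf 7 364 364) (leaf 4 397 494))))))) (merge (node 429 (merge (leaf 4 429 558) (node 398 (merge (leaf 6 397 430) (node 397 (merge (leaf 6 365 366) (node 396 (merge (leaf 7 364 364) (leaf 7 396 428))))))))) (node 462 (merge (node 430 (merge (leaf 6 429 557) (node 398 (merge (leaf 5 365 366) (leaf 5 397 494))))) (merge (node 557 (merge (leaf 6 429 430) (node 460 (merge (leaf 7 428 428) (node 492 (merge (leaf 1 459 491) (leaf 7 460 589))))))) (node 460 (merge (node 428 (merge (leaf 3 427 427) (node 396 (merge (leaf 4 364 364) (leaf 4 396 492))))) (merge (node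 491 (merge (leaf 1 459 492) (node 459 (merge (leaf 1 458 490) (node 494 (merge (leaf 0 458 458) (leaf 0 459 495))))))) (node 427 (merge (leaf 3 427 428) (node 459 (merge (leaf 3 426 426) (node 458 (merge (leaf 0 458 494) (node 490 (merge (leaf 1 457 489) (leaf 1 458 491))))))))))))))))))))) (merge (node 462 (merge (node 495 (merge (node 496 (merge (leaf 0 460 460) (node 494 (merge (leaf 1 492 493) (leaf 3 461 497))))) (node 527 (merge (leaf 4 431 431) (node 526 (merge (leaf 0 524 559) (leaf 0 525 561))))))) (merge (node 460 (merge (node 428 (merge (leaf 3 427 427) (node 493 (merge (leaf 7 428 557) (node 396 (merge (leaf 4 364 364) (leaf 7 396 429))))))) (merge (node 431 (merge (leaf 2 428 432) (node 459 (merge (leaf 2 427 430) (node 427 (merge (leaf 3 426 426) (leaf 3 427 428))))))) (node 431 (merge (leaf 2 428 432) (node 430 (merge (leaf 2 427 459) (node 493 (merge (leaf 6 429 557) (node 398 (merge (leaf 5 365 366) (leaf 6 397 429)))))))))))) (node 526 (merge (node 527 (merge (leaf 0 525 561) (node 524 (merge (leaf 0 524 559) (node 496 (merge (leaf 2 492 495) (leaf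 2 493 497))))))) (merge (node 527 (merge (leaf 0 525 561) (node 557 (merge (leaf 1 524 556) (node 494 (merge (leaf 5 429 430) (node 589 (merge (leaf 5 461 558) (leaf 6 493 621))))))))) (merge (node 557 (merge (node 494 (merge (leaf 5 429 430) (node 589 (merge (leaf 5 461 558) (leaf 6 493 621))))) (node 527 (merge (leaf 1 524 556) (node 524 (merge (leaf 0 524 559) (node 496 (merge (leaf 2 492 495) (leaf 2 493 497))))))))) (node 494 (merge (node 558 (merge (leaf 7 429 429) (node 559 (merge (leaf 3 525 561) (leaf 4 462 591))))) (merge (node 557 (merge (leaf 5 429 430) (node 589 (merge (leaf 5 461 558) (leaf 6 493 621))))) (node 430 (merge (leaf 5 429 557) (node 397 (merge (leaf 7 397 429) (node 398 (merge (leaf 7 365 365) (node 367 (merge (leaf 6 366 399) (node 366 (merge (leaf 6 334 335) (leaf 4 366 495))))))))))))))))))))) (merge (node 431 (merge (node 527 (merge (leaf 4 431 495) (node 526 (merge (leaf 0 524 559) (leaf 0 525 561))))) (merge (node 495 (merge (leaf 4 431 527) (node 399 (merge (leaf 4 399 496) (node 368 (merge (leaf 6 367 400) (node 367 (merge (leaf 6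 335 336) (node 366 (merge (leaf 7 334 334) (leaf 7 366 398))))))))))) (merge (node 462 (merge (node 526 (merge (node 527 (merge (leaf 0 524 559) (leaf 0 525 561))) (node 494 (merge (leaf 6 430 558) (node 399 (merge (leaf 5 366 367) (leaf 6 398 430))))))) (node 460 (merge (leaf 2 428 432) (node 491 (merge (leaf 1 459 492) (node 459 (merge (leaf 1 458 490) (node 427 (merge (leaf 3 426 426) (leaf 3 427 428))))))))))) (node 399 (merge (node 495 (merge (leaf 4 399 496) (node 368 (merge (leaf 6 367 400) (node 367 (merge (leaf 6 335 336) (node 366 (merge (leaf 7 334 334) (leaf 7 366 398))))))))) (merge (node 495 (merge (leaf 4 399 496) (node 368 (merge (leaf 6 367 400) (node 367 (merge (leaf 6 335 336) (node 494 (merge (leaf 5 366 462) (leaf 5 398 526))))))))) (merge (node 462 (merge (node 432 (merge (leaf 2 428 460) (node 433 (merge (leaf 1 429 430) (leaf 1 430 434))))) (node 367 (merge (leaf 5 366 494) (node 336 (merge (leaf 6 335 368) (node 335 (merge (leaf 6 303 304) (node 334 (merge (leaf 7 302 302) (leaf 7 334 366))))))))))) (node 432 (merge (node 462 (merge (leaf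 2 428 460) (node 433 (merge (leaf 1 429 430) (leaf 1 430 434))))) (merge (node 495 (merge (leaf 4 399 496) (node 398 (merge (leaf 7 366 366) (node 397 (merge (leaf 0 396 396) (node 433 (merge (leaf 0 397 400) (leaf 3 398 434))))))))) (node 460 (merge (leaf 2 428 462) (node 429 (merge (leaf 1 428 430) (node 492 (merge (leaf 6 428 556) (node 397 (merge (leaf 5 364 365) (leaf 6 396 428)))))))))))))))))))) (merge (node 462 (merge (node 431 (merge (node 432 (merge (leaf 2 428 460) (node 433 (merge (leaf 1 429 430) (leaf 1 430 434))))) (node 527 (merge (leaf 4 431 495) (node 526 (merge (leaf 0 524 559) (leaf 0 525 561))))))) (merge (node 495 (merge (node 496 (merge (leaf 0 460 460) (node 494 (merge (leaf 1 492 493) (leaf 3 461 497))))) (node 527 (merge (leaf 4 431 431) (node 526 (merge (leaf 0 524 559) (leaf 0 525 561))))))) (merge (node 460 (merge (node 495 (merge (leaf 0 460 496) (node 431 (merge (leaf 2 428 432) (leaf 4 431 527))))) (merge (node 495 (merge (leaf 0 460 496) (node 459 (merge (leaf 0 459 494) (node 427 (merge (leaf 3 426 426) (leaf 3 427 428))))))) (node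 431 (merge (leaf 2 428 432) (node 459 (merge (leaf 2 427 430) (node 427 (merge (leaf 3 426 426) (leaf 3 427 428)))))))))) (merge (node 527 (merge (node 526 (merge (leaf 0 524 559) (node 492 (merge (leaf 3 491 491) (leaf 3 492 493))))) (merge (node 495 (merge (leaf 4 431 431) (node 526 (merge (leaf 2 492 496) (node 492 (merge (leaf 3 491 491) (leaf 3 492 493))))))) (node 495 (merge (leaf 4 431 431) (node 430 (merge (leaf 7 430 559) (node 398 (merge (leaf 4 366 366) (leaf 4 398 494)))))))))) (merge (node 527 (merge (node 526 (merge (leaf 0 525 561) (node 524 (merge (leaf 0 524 559) (node 496 (merge (leaf 2 492 495) (leaf 2 493 497))))))) (merge (node 526 (merge (leaf 0 525 561) (node 524 (merge (leaf 0 524 559) (node 492 (merge (leaf 3 491 491) (leaf 3 492 493))))))) (merge (node 526 (merge (leaf 0 525 561) (node 496 (merge (leaf 2 493 497) (node 460 (merge (leaf 0 460 495) (node 492 (merge (leaf 1 459 491) (leaf 3 492 493))))))))) (node 460 (merge (node 495 (merge (leaf 0 460 496) (node 430 (merge (leaf 7 430 559) (node 398 (merge (leaf 4 366 366) (leaf 4 398 494)))))))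 (node 491 (merge (leaf 1 459 492) (node 459 (merge (leaf 1 458 490) (node 427 (merge (leaf 3 426 426) (leaf 3 427 428))))))))))))) (merge (node 431 (merge (node 432 (merge (leaf 2 428 460) (node 433 (merge (leaf 1 429 430) (leaf 1 430 434))))) (merge (node 460 (merge (leaf 2 428 432) (node 491 (merge (leaf 1 459 492) (node 459 (merge (leaf 1 458 490) (node 427 (merge (leaf 3 426 426) (leaf 3 427 428))))))))) (node 526 (merge (node 494 (merge (leaf 6 430 558) (node 399 (merge (leaf 5 366 367) (leaf 6 398 430))))) (node 527 (merge (leaf 0 525 561) (node 524 (merge (leaf 0 524 559) (node 492 (merge (leaf 3 491 491) (leaf 3 492 493)))))))))))) (node 431 (merge (node 460 (merge (leaf 2 428 432) (node 491 (merge (leaf 1 459 492) (node 459 (merge (leaf 1 458 490) (node 427 (merge (leaf 3 426 426) (leaf 3 427 428))))))))) (merge (node 399 (merge (node 494 (merge (leaf 5 366 367) (node 526 (merge (leaf 6 398 430) (leaf 6 430 558))))) (merge (node 494 (merge (leaf 5 366 367) (node 495 (merge (leaf 4 399 496) (leaf 5 398 526))))) (merge (node 495 (merge (leaf 4 399 496) (node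 366 (merge (leaf 7 366 398) (node 367 (merge (leaf 7 334 334) (node 336 (merge (leaf 6 335 368) (node 335 (merge (leaf 6 303 304) (leaf 5 334 430))))))))))) (node 495 (merge (leaf 4 399 496) (node 398 (merge (leaf 7 366 366) (node 494 (merge (leaf 5 398 526) (node 460 (merge (leaf 0 459 459) (node 492 (merge (leaf 1 459 491) (node 428 (merge (leaf 3 427 427) (node 493 (merge (leaf 4 396 396) (leaf 5 397 430))))))))))))))))))) (node 399 (merge (node 494 (merge (leaf 5 366 367) (node 526 (merge (leaf 6 398 430) (leaf 6 430 558))))) (merge (node 495 (merge (leaf 4 399 496) (node 368 (merge (leaf 6 367 400) (node 367 (merge (leaf 6 335 336) (node 366 (merge (leaf 7 334 334) (leaf 7 366 398))))))))) (node 494 (merge (node 526 (merge (leaf 6 398 430) (leaf 6 430 558))) (merge (node 526 (merge (leaf 6 430 558) (node 495 (merge (leaf 5 398 399) (node 496 (merge (leaf 1 492 493) (leaf 1 493 497))))))) (node 495 (merge (leaf 4 399 496) (node 398 (merge (leaf 7 366 366) (node 430 (merge (leaf 5 397 493) (node 397 (merge (leaf 7 365 365) (node 396 (merge (leaf 0 395 395) (leaf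 0 396 432))))))))))))))))))))))))))) (merge (hyp 0) (hyp 1)))))))))) nP_260 cP_260 14 (by decide +kernel)
def nP_261 : ℕ := 0x100000001200000000000000080000000000000000000000000000000000000000000000000000000000000000000000000000000000000000000000000000000000000000000
def cP_261 : ℕ := 0x40000003e0000003f800000bfc00002ffc00000dfc00007ffc000007f800007ff000003fe000003fe000001f80000017000000000000000000000000000000000000000000000000000000000000000000000000000
theorem lP_261 : S nP_261 cP_261 17 := S_of_chk [(nP_256, cP_256, 9), (nP_257, cP_257, 16), (nP_260, cP_260, 14)] ⟨lP_256, lP_257, lP_260, trivial⟩ (node 524 (merge (node 526 (merge (node 527 (merge (leaf 0 524 559) (leaf 0 525 561))) (merge (node 527 (merge (leaf 0 525 561) (node 496 (merge (leaf 2 492 495) (leaf 2 493 497))))) (merge (node 527 (merge (leaf 0 524 559) (node 496 (merge (leaf 2 492 495) (leaf 2 493 497))))) (node 494 (merge (node 495 (merge (leaf 2 491 523) (node 496 (merge (leaf 1 492 493) (leaf 1 493 497))))) (merge (node 558 (merge (node 462 (merge (leaf 6 430 431) (node 557 (merge (leaf 5 429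 430) (leaf 5 461 589))))) (merge (node 559 (merge (leaf 3 525 561) (node 524 (merge (leaf 0 523 523) (leaf 3 524 557))))) (node 462 (merge (leaf 6 430 431) (node 559 (merge (leaf 3 525 561) (leaf 4 462 591)))))))) (node 462 (merge (node 557 (merge (leaf 5 429 430) (node 589 (merge (leaf 6 461 493) (leaf 6 493 621))))) (node 431 (merge (leaf 6 430 558) (node 399 (merge (leaf 5 366 367) (leaf 5 398 495)))))))))))))) (merge (node 526 (merge (node 527 (merge (leaf 0 525 561) (node 496 (merge (leaf 2 492 495) (leaf 2 493 497))))) (merge (node 527 (merge (leaf 0 525 561) (node 492 (merge (leaf 3 491 491) (leaf 3 492 493))))) (node 523 (merge (node 554 (merge (leaf 1 522 555) (node 522 (merge (leaf 1 521 553) (node 490 (merge (leaf 3 489 489) (leaf 3 490 491))))))) (merge (node 554 (merge (leaf 1 522 555) (node 522 (merge (leaf 1 521 553) (node 494 (merge (leaf 2 490 493) (leaf 2 491 495))))))) (merge (node 494 (merge (leaf 2 491 495) (node 522 (merge (leaf 2 490 493) (node 490 (merge (leaf 3 489 489) (leaf 3 490 491))))))) (node 494 (merge (leaf 2 491 495) (node 491 (merge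 (leaf 3 490 490) (node 459 (merge (node 556 (merge (leaf 4 427 427) (node 588 (merge (leaf 7 459 492) (leaf 7 491 620))))) (merge (node 555 (merge (leaf 1 522 554) (node 556 (merge (leaf 4 427 427) (leaf 4 459 588))))) (node 555 (merge (leaf 1 522 554) (node 460 (merge (leaf 6 427 428) (node 492 (merge (leaf 6 459 587) (node 458 (merge (leaf 7 426 426) (leaf 3 458 493))))))))))))))))))))))) (merge (node 526 (merge (node 527 (merge (leaf 0 524 559) (leaf 0 525 561))) (merge (node 527 (merge (node 556 (merge (leaf 1 523 555) (leaf 1 524 557))) (node 496 (merge (leaf 2 492 495) (leaf 2 493 497))))) (node 523 (merge (node 558 (merge (leaf 0 523 559) (node 522 (merge (leaf 0 522 557) (node 490 (merge (leaf 3 489 489) (leaf 3 490 491))))))) (merge (node 554 (merge (leaf 1 522 555) (node 522 (merge (leaf 1 521 553) (node 558 (merge (leaf 0 522 557) (leaf 0 523 559))))))) (merge (node 554 (merge (leaf 1 522 555) (node 522 (merge (leaf 1 521 553) (node 490 (merge (leaf 3 489 489) (leaf 3 490 491))))))) (node 555 (merge (leaf 1 522 554) (node 558 (merge (leaf 0 523 559) (node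 587 (merge (node 492 (merge (leaf 6 491 619) (node 491 (merge (leaf 6 459 460) (leaf 3 490 490))))) (merge (node 492 (merge (leaf 6 491 619) (node 460 (merge (leaf 5 427 428) (leaf 5 459 556))))) (node 491 (merge (leaf 3 490 490) (node 588 (merge (leaf 4 491 620) (node 586 (merge (leaf 5 490 618) (node 557 (merge (leaf 1 554 556) (leaf 2 554 589))))))))))))))))))))))) (merge (node 526 (merge (node 527 (merge (leaf 0 524 559) (leaf 0 525 561))) (merge (node 527 (merge (leaf 0 525 561) (node 492 (merge (leaf 3 491 491) (leaf 3 492 493))))) (node 523 (merge (node 554 (merge (leaf 1 522 555) (node 522 (merge (leaf 1 521 553) (node 490 (merge (leaf 3 489 489) (leaf 3 490 491))))))) (merge (node 491 (merge (leaf 3 490 490) (node 459 (merge (node 556 (merge (leaf 4 427 427) (node 588 (merge (leaf 7 459 492) (leaf 7 491 620))))) (merge (node 555 (merge (leaf 1 522 554) (node 556 (merge (leaf 4 427 427) (leaf 4 459 588))))) (merge (node 555 (merge (leaf 1 522 554) (node 460 (merge (leaf 6 427 428) (node 492 (merge (leaf 6 459 587) (node 426 (merge (leaf 7 426 458) (node 427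 (merge (leaf 7 394 394) (leaf 4 395 395))))))))))) (node 555 (merge (leaf 1 522 554) (node 460 (merge (leaf 6 427 428) (node 587 (merge (leaf 6 459 492) (node 588 (merge (leaf 4 459 556) (leaf 4 491 620))))))))))))))) (merge (node 490 (merge (leaf 3 490 491) (node 522 (merge (leaf 3 489 489) (node 553 (merge (leaf 1 521 554) (node 521 (merge (leaf 1 520 552) (node 493 (merge (leaf 2 489 492) (leaf 2 490 494))))))))))) (merge (node 522 (merge (node 554 (merge (leaf 1 521 553) (leaf 1 522 555))) (merge (node 493 (merge (leaf 2 490 494) (node 521 (merge (leaf 2 489 492) (node 552 (merge (leaf 1 520 553) (node 520 (merge (leaf 1 519 551) (node 488 (merge (leaf 3 487 487) (leaf 3 488 489))))))))))) (node 555 (merge (leaf 1 522 554) (node 493 (merge (leaf 2 490 494) (node 521 (merge (leaf 2 489 492) (node 520 (merge (leaf 0 520 556) (node 488 (merge (leaf 3 487 487) (leaf 3 488 489)))))))))))))) (node 522 (merge (node 490 (merge (leaf 3 489 489) (leaf 3 490 491))) (merge (node 493 (merge (leaf 2 490 494) (node 521 (merge (leaf 2 489 492) (node 552 (merge (leaf 1 520 553)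 (node 520 (merge (leaf 1 519 551) (node 488 (merge (leaf 3 487 487) (leaf 3 488 489))))))))))) (node 558 (merge (leaf 0 523 559) (node 493 (merge (leaf 2 490 494) (node 492 (merge (leaf 2 489 521) (node 491 (merge (leaf 0 490 490) (node 461 (merge (leaf 4 429 429) (node 460 (merge (leaf 1 459 462) (node 428 (merge (leaf 4 396 396) (leaf 5 427 555)))))))))))))))))))))))))) (merge (node 523 (merge (node 558 (merge (node 559 (merge (leaf 0 523 526) (leaf 3 524 557))) (merge (node 557 (merge (leaf 0 522 522) (leaf 3 524 559))) (merge (node 522 (merge (leaf 0 522 557) (node 554 (merge (leaf 1 521 553) (node 526 (merge (leaf 1 522 555) (node 494 (merge (leaf 2 490 493) (leaf 2 491 495))))))))) (node 526 (merge (leaf 0 523 559) (node 554 (merge (leaf 1 522 555) (node 522 (merge (leaf 1 521 553) (node 494 (merge (leaf 2 490 493) (leaf 2 491 495))))))))))))) (merge (node 522 (merge (node 558 (merge (leaf 0 522 557) (node 526 (merge (leaf 0 523 559) (node 494 (merge (leaf 2 490 493) (leaf 2 491 495))))))) (merge (node 557 (merge (leaf 0 522 558) (node 521 (merge (leaf 0 521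 556) (node 489 (merge (leaf 3 488 488) (leaf 3 489 490))))))) (node 494 (merge (leaf 2 490 493) (node 526 (merge (leaf 2 491 495) (node 490 (merge (leaf 3 489 489) (leaf 3 490 491)))))))))) (merge (hyp 0) (node 491 (merge (node 522 (merge (node 554 (merge (leaf 1 521 553) (node 586 (merge (leaf 6 490 618) (node 490 (merge (leaf 6 458 459) (leaf 3 489 489))))))) (merge (node 557 (merge (leaf 0 522 558) (node 521 (merge (leaf 0 521 556) (node 489 (merge (leaf 3 488 488) (leaf 3 489 490))))))) (node 557 (merge (leaf 0 522 558) (node 521 (merge (leaf 0 521 556) (node 553 (merge (leaf 1 520 552) (leaf 1 521 554)))))))))) (merge (node 522 (merge (node 489 (merge (leaf 3 489 490) (node 521 (merge (leaf 3 488 488) (node 492 (merge (leaf 2 489 493) (leaf 2 488 520))))))) (node 554 (merge (leaf 1 521 553) (node 586 (merge (leaf 6 490 618) (node 459 (merge (leaf 5 426 427) (leaf 5 458 555))))))))) (merge (node 522 (merge (node 554 (merge (leaf 1 521 553) (node 586 (merge (leaf 6 490 618) (node 459 (merge (leaf 5 426 427) (leaf 5 458 555))))))) (node 557 (merge (leaf 0 522 558)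 (node 521 (merge (leaf 0 521 556) (node 493 (merge (leaf 2 489 492) (leaf 2 490 494))))))))) (merge (node 459 (merge (node 427 (merge (leaf 4 427 556) (node 394 (merge (leaf 7 394 426) (node 395 (merge (leaf 7 362 362) (leaf 4 395 492))))))) (merge (node 427 (merge (leaf 4 427 556) (node 396 (merge (leaf 6 395 428) (node 395 (merge (leaf 6 363 364) (leaf 4 395 492))))))) (merge (node 427 (merge (leaf 4 427 556) (node 428 (merge (leaf 6 395 396) (node 555 (merge (leaf 6 427 460) (node 426 (merge (leaf 7 394 394) (leaf 7 426 458))))))))) (merge (node 427 (merge (node 396 (merge (leaf 6 395 428) (node 395 (merge (leaf 6 363 364) (leaf 4 395 492))))) (merge (node 394 (merge (leaf 7 394 426) (node 395 (merge (leaf 7 362 362) (leaf 4 395 492))))) (node 428 (merge (leaf 6 395 396) (node 555 (merge (leaf 6 427 460) (node 426 (merge (leaf 7 394 394) (leaf 7 426 458)))))))))) (node 555 (merge (node 556 (merge (leaf 4 459 588) (node 554 (merge (leaf 2 521 553) (leaf 5 458 586))))) (node 460 (merge (leaf 6 427 428) (node 587 (merge (leaf 6 459 492) (node 458 (merge (leaf 7 426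 426) (leaf 7 458 490)))))))))))))) (merge (node 459 (merge (node 556 (merge (leaf 4 427 427) (node 588 (merge (leaf 4 459 555) (leaf 7 491 620))))) (merge (node 427 (merge (leaf 4 427 556) (node 394 (merge (leaf 7 394 426) (node 395 (merge (leaf 7 362 362) (leaf 4 395 492))))))) (merge (node 427 (merge (node 394 (merge (leaf 7 394 426) (node 395 (merge (leaf 7 362 362) (leaf 4 395 492))))) (merge (node 428 (merge (leaf 6 395 396) (node 460 (merge (leaf 6 427 555) (node 492 (merge (leaf 7 395 395) (leaf 4 428 557))))))) (node 428 (merge (leaf 6 395 396) (node 555 (merge (leaf 6 427 460) (node 426 (merge (leaf 7 394 394) (leaf 7 426 458)))))))))) (node 460 (merge (node 428 (merge (leaf 6 427 555) (node 396 (merge (leaf 5 363 364) (leaf 5 395 492))))) (merge (node 557 (merge (node 558 (merge (leaf 0 522 522) (leaf 3 524 559))) (node 492 (merge (leaf 4 428 428) (node 556 (merge (leaf 7 459 588) (leaf 4 460 589))))))) (merge (node 555 (merge (leaf 6 427 428) (node 458 (merge (leaf 7 426 426) (node 587 (merge (leaf 7 458 490) (node 588 (merge (leaf 4 459 556) (leaf 4 491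 620))))))))) (node 492 (merge (node 555 (merge (leaf 6 459 587) (node 458 (merge (leaf 7 426 426) (node 457 (merge (leaf 0 456 456) (leaf 0 457 493))))))) (node 556 (merge (leaf 7 459 588) (node 557 (merge (leaf 4 460 589) (node 522 (merge (leaf 0 521 521) (leaf 0 522 558))))))))))))))))) (node 490 (merge (node 489 (merge (leaf 0 488 488) (leaf 3 489 522))) (merge (node 489 (merge (leaf 0 488 488) (leaf 0 489 492))) (node 522 (merge (node 554 (merge (leaf 1 521 553) (node 586 (merge (leaf 6 490 618) (node 587 (merge (leaf 4 490 619) (node 458 (merge (leaf 7 458 555) (node 425 (merge (leaf 7 425 457) (node 426 (merge (leaf 7 393 393) (leaf 4 394 394))))))))))))) (node 557 (merge (leaf 0 522 558) (node 521 (merge (leaf 0 521 556) (node 520 (merge (leaf 2 488 492) (node 551 (merge (leaf 1 519 552) (node 519 (merge (leaf 2 487 490) (leaf 1 518 550)))))))))))))))))))))))))) (merge (hyp 1) (hyp 2)))))))) nP_261 cP_261 17 (by decide +kernel)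
def nP_262 : ℕ := 0x300000000000000000000000000000000000000000000000000000000000000000000000000000000000000000000000000000000000000000000000000000000000
def cP_262 : ℕ := 0x40000001c0000003c0000003c0000003fc000004f800001ffc00000ff0000007e0000007e00000014000000000000000000000000000000000000000000000000000000000000000000000000000000000000000000
theorem lP_262 : S nP_262 cP_262 11 := S_of_chk [(nP_256, cP_256, 9)] ⟨lP_256, trivial⟩ (node 523 (merge (node 554 (merge (node 553 (merge (leaf 1 521 522) (node 555 (merge (leaf 2 520 552) (leaf 2 521 556))))) (merge (node 555 (merge (leaf 1 522 526) (node 553 (merge (leaf 2 520 552) (leaf 2 521 556))))) (merge (node 522 (merge (leaf 1 521 553) (node 494 (merge (leaf 2 490 493) (node 526 (merge (leaf 2 491 495) (node 490 (merge (leaf 3 489 489) (leaf 3 490 491))))))))) (node 526 (merge (leaf 1 522 555) (node 494 (merge (leaf 2 491 495) (node 522 (merge (leaf 2 490 493) (node 490 (merge (leaf 3 489 489) (leaf 3 490 491))))))))))))) (merge (node 522 (merge (node 553 (merge (leaf 1 521 554) (node 521 (merge (leaf 1 520 552) (node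 489 (merge (leaf 3 488 488) (leaf 3 489 490))))))) (merge (node 494 (merge (leaf 2 490 493) (node 526 (merge (leaf 2 491 495) (node 490 (merge (leaf 3 489 489) (leaf 3 490 491))))))) (node 553 (merge (leaf 1 521 554) (node 521 (merge (leaf 1 520 552) (node 493 (merge (leaf 2 489 492) (leaf 2 490 494)))))))))) (merge (hyp 0) (merge (node 522 (merge (node 554 (merge (leaf 1 521 553) (node 526 (merge (leaf 1 522 555) (node 494 (merge (leaf 2 490 493) (leaf 2 491 495))))))) (merge (node 521 (merge (node 553 (merge (leaf 1 520 552) (leaf 1 521 554))) (merge (node 488 (merge (leaf 3 488 489) (node 520 (merge (leaf 3 487 487) (node 555 (merge (leaf 0 520 556) (node 554 (merge (leaf 0 519 519) (leaf 1 522 526))))))))) (node 552 (merge (leaf 1 520 553) (node 520 (merge (leaf 1 519 551) (node 488 (merge (leaf 3 487 487) (leaf 3 488 489)))))))))) (merge (node 493 (merge (leaf 2 490 494) (node 521 (merge (leaf 2 489 492) (node 552 (merge (leaf 1 520 553) (node 520 (merge (leaf 1 519 551) (node 488 (merge (leaf 3 487 487) (leaf 3 488 489))))))))))) (node 493 (merge (leaf 2 490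 494) (node 521 (merge (leaf 2 489 492) (node 488 (merge (leaf 3 488 489) (node 520 (merge (leaf 3 487 487) (node 555 (merge (leaf 0 520 556) (node 554 (merge (leaf 0 519 519) (leaf 1 522 526))))))))))))))))) (merge (node 522 (merge (node 494 (merge (leaf 2 490 493) (node 526 (merge (leaf 2 491 495) (node 490 (merge (leaf 3 489 489) (leaf 3 490 491))))))) (merge (node 489 (merge (leaf 3 489 490) (node 521 (merge (leaf 3 488 488) (node 556 (merge (leaf 0 521 557) (node 520 (merge (leaf 0 520 555) (node 552 (merge (leaf 1 519 551) (leaf 1 520 553))))))))))) (node 493 (merge (leaf 2 490 494) (node 521 (merge (leaf 2 489 492) (node 556 (merge (leaf 0 521 557) (node 520 (merge (leaf 0 520 555) (node 551 (merge (leaf 1 519 552) (node 519 (merge (leaf 1 518 550) (node 487 (merge (leaf 3 486 486) (leaf 3 487 488)))))))))))))))))) (merge (node 522 (merge (node 554 (merge (leaf 1 521 553) (node 526 (merge (leaf 1 522 555) (node 494 (merge (leaf 2 490 493) (leaf 2 491 495))))))) (merge (node 553 (merge (leaf 1 521 554) (node 521 (merge (leaf 1 520 552) (node 493 (merge (leaf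 2 489 492) (leaf 2 490 494))))))) (merge (node 553 (merge (leaf 1 521 554) (node 521 (merge (leaf 1 520 552) (node 556 (merge (leaf 0 521 557) (node 520 (merge (leaf 0 520 555) (node 491 (merge (leaf 2 488 492) (node 490 (merge (leaf 2 487 519) (leaf 3 490 526))))))))))))) (node 493 (merge (leaf 2 490 494) (node 521 (merge (leaf 2 489 492) (node 556 (merge (leaf 0 521 557) (node 520 (merge (leaf 0 520 555) (node 551 (merge (leaf 1 519 552) (node 519 (merge (leaf 1 518 550) (node 487 (merge (leaf 3 486 486) (leaf 3 487 488))))))))))))))))))) (merge (node 491 (merge (node 490 (merge (leaf 3 490 526) (node 489 (merge (leaf 0 488 488) (leaf 3 489 522))))) (merge (node 459 (merge (node 556 (merge (leaf 4 427 427) (node 588 (merge (leaf 4 459 555) (leaf 7 491 620))))) (merge (node 427 (merge (leaf 4 427 556) (node 394 (merge (leaf 7 394 426) (node 395 (merge (leaf 7 362 362) (leaf 4 395 492))))))) (merge (node 427 (merge (node 396 (merge (leaf 6 395 428) (node 395 (merge (leaf 6 363 364) (leaf 4 395 492))))) (merge (node 394 (merge (leaf 7 394 426) (node 395 (merge (leaf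 7 362 362) (leaf 4 395 492))))) (node 428 (merge (leaf 6 395 396) (node 555 (merge (leaf 6 427 460) (node 426 (merge (leaf 7 394 394) (leaf 7 426 458)))))))))) (node 555 (merge (node 554 (merge (leaf 1 522 526) (leaf 5 458 586))) (node 588 (merge (leaf 4 459 556) (node 587 (merge (leaf 4 491 620) (node 492 (merge (leaf 6 459 460) (leaf 6 491 619))))))))))))) (node 459 (merge (node 427 (merge (leaf 4 427 556) (node 522 (merge (leaf 5 426 554) (node 490 (merge (leaf 5 394 395) (leaf 3 489 489))))))) (merge (node 427 (merge (node 394 (merge (leaf 7 394 426) (node 395 (merge (leaf 7 362 362) (leaf 4 395 492))))) (merge (node 428 (merge (leaf 6 395 396) (node 460 (merge (leaf 6 427 555) (node 492 (merge (leaf 7 395 395) (leaf 4 428 557))))))) (node 428 (merge (leaf 6 395 396) (node 555 (merge (leaf 6 427 460) (node 426 (merge (leaf 7 394 394) (leaf 7 426 458)))))))))) (node 460 (merge (node 428 (merge (leaf 6 427 555) (node 396 (merge (leaf 5 363 364) (leaf 5 395 492))))) (merge (node 555 (merge (leaf 6 427 428) (node 588 (merge (leaf 4 459 556) (node 587 (merge (leaf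 4 491 620) (node 586 (merge (leaf 5 458 554) (leaf 5 490 618))))))))) (merge (node 492 (merge (node 557 (merge (leaf 4 428 428) (node 589 (merge (leaf 7 460 493) (leaf 7 492 621))))) (node 556 (merge (leaf 7 459 588) (node 461 (merge (leaf 6 428 429) (node 462 (merge (leaf 1 459 463) (leaf 1 458 490))))))))) (node 492 (merge (node 555 (merge (leaf 6 459 587) (node 458 (merge (leaf 7 426 426) (node 457 (merge (leaf 0 456 456) (leaf 0 457 493))))))) (node 556 (merge (leaf 7 459 588) (node 461 (merge (leaf 6 428 429) (node 462 (merge (leaf 1 459 463) (leaf 1 458 490))))))))))))))))))) (node 491 (merge (node 522 (merge (node 489 (merge (leaf 3 489 490) (node 521 (merge (leaf 3 488 488) (node 492 (merge (leaf 2 489 493) (leaf 2 488 520))))))) (merge (node 554 (merge (leaf 1 521 553) (node 586 (merge (leaf 6 490 618) (node 490 (merge (leaf 6 458 459) (leaf 3 489 489))))))) (node 553 (merge (leaf 1 521 554) (node 521 (merge (leaf 1 520 552) (node 493 (merge (leaf 2 489 492) (leaf 2 490 494)))))))))) (merge (node 459 (merge (node 427 (merge (leaf 4 427 556) (node 394 (merge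 (leaf 7 394 426) (node 395 (merge (leaf 7 362 362) (leaf 4 395 492))))))) (merge (node 427 (merge (leaf 4 427 556) (node 396 (merge (leaf 6 395 428) (node 395 (merge (leaf 6 363 364) (leaf 4 395 492))))))) (merge (node 427 (merge (leaf 4 427 556) (node 428 (merge (leaf 6 395 396) (node 555 (merge (leaf 6 427 460) (node 426 (merge (leaf 7 394 394) (leaf 7 426 458))))))))) (merge (node 427 (merge (node 396 (merge (leaf 6 395 428) (node 395 (merge (leaf 6 363 364) (leaf 4 395 492))))) (merge (node 394 (merge (leaf 7 394 426) (node 395 (merge (leaf 7 362 362) (leaf 4 395 492))))) (node 428 (merge (leaf 6 395 396) (node 555 (merge (leaf 6 427 460) (node 426 (merge (leaf 7 394 394) (leaf 7 426 458)))))))))) (node 555 (merge (node 556 (merge (leaf 4 459 588) (node 554 (merge (leaf 2 521 553) (leaf 5 458 586))))) (node 460 (merge (leaf 6 427 428) (node 587 (merge (leaf 6 459 492) (node 458 (merge (leaf 7 426 426) (leaf 7 458 490)))))))))))))) (merge (node 459 (merge (node 556 (merge (leaf 4 427 427) (node 588 (merge (leaf 4 459 555) (leaf 7 491 620))))) (merge (node 427 (merge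 (leaf 4 427 556) (node 396 (merge (leaf 6 395 428) (node 395 (merge (leaf 6 363 364) (node 394 (merge (leaf 7 362 362) (leaf 7 394 426))))))))) (merge (node 555 (merge (node 554 (merge (leaf 5 458 586) (node 553 (merge (leaf 1 521 522) (leaf 2 520 552))))) (node 428 (merge (leaf 6 427 460) (node 427 (merge (leaf 6 395 396) (node 426 (merge (leaf 7 394 394) (leaf 7 426 458))))))))) (node 555 (merge (node 556 (merge (leaf 4 459 588) (node 554 (merge (leaf 2 521 553) (leaf 5 458 586))))) (merge (node 458 (merge (leaf 7 426 426) (node 587 (merge (leaf 7 458 490) (node 588 (merge (leaf 4 459 556) (leaf 4 491 620))))))) (node 458 (merge (leaf 7 426 426) (node 587 (merge (leaf 7 458 490) (node 586 (merge (leaf 5 458 554) (leaf 5 490 618)))))))))))))) (merge (node 459 (merge (node 556 (merge (leaf 4 427 427) (node 588 (merge (leaf 4 459 555) (leaf 7 491 620))))) (merge (node 427 (merge (leaf 4 427 556) (node 394 (merge (leaf 7 394 426) (node 395 (merge (leaf 7 362 362) (leaf 4 395 492))))))) (merge (node 427 (merge (node 396 (merge (leaf 6 395 428) (node 395 (merge (leaf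 6 363 364) (leaf 4 395 492))))) (merge (node 394 (merge (leaf 7 394 426) (node 395 (merge (leaf 7 362 362) (leaf 4 395 492))))) (node 428 (merge (leaf 6 395 396) (node 555 (merge (leaf 6 427 460) (node 426 (merge (leaf 7 394 394) (leaf 7 426 458)))))))))) (node 460 (merge (node 428 (merge (leaf 6 427 555) (node 396 (merge (leaf 5 363 364) (leaf 5 395 492))))) (merge (node 555 (merge (leaf 6 427 428) (node 458 (merge (leaf 7 426 426) (node 587 (merge (leaf 7 458 490) (node 588 (merge (leaf 4 459 556) (leaf 4 491 620))))))))) (node 493 (merge (node 494 (merge (leaf 2 490 522) (node 495 (merge (leaf 1 491 492) (leaf 1 492 496))))) (merge (node 490 (merge (node 489 (merge (leaf 0 488 488) (leaf 0 489 492))) (node 461 (merge (leaf 1 458 462) (node 429 (merge (leaf 5 428 556) (node 430 (merge (leaf 6 397 398) (leaf 2 426 458))))))))) (node 522 (merge (leaf 2 490 494) (node 490 (merge (leaf 3 489 489) (node 461 (merge (leaf 1 458 462) (node 429 (merge (leaf 5 428 556) (node 430 (merge (leaf 6 397 398) (leaf 2 426 458))))))))))))))))))))) (merge (node 522 (merge (node 554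 (merge (leaf 1 521 553) (node 586 (merge (leaf 6 490 618) (node 459 (merge (leaf 5 426 427) (leaf 5 458 555))))))) (merge (node 493 (merge (leaf 2 490 494) (node 521 (merge (leaf 2 489 492) (node 552 (merge (leaf 1 520 553) (node 520 (merge (leaf 1 519 551) (node 488 (merge (leaf 3 487 487) (leaf 3 488 489))))))))))) (node 493 (merge (leaf 2 490 494) (node 521 (merge (leaf 2 489 492) (node 488 (merge (leaf 3 488 489) (node 520 (merge (leaf 3 487 487) (node 555 (merge (leaf 0 520 556) (node 519 (merge (leaf 0 519 554) (node 551 (merge (leaf 1 518 550) (leaf 1 519 552)))))))))))))))))) (node 490 (merge (node 489 (merge (leaf 0 488 488) (leaf 3 489 522))) (merge (node 489 (merge (leaf 0 488 488) (leaf 0 489 492))) (node 522 (merge (node 493 (merge (leaf 2 490 494) (node 492 (merge (leaf 1 489 521) (node 461 (merge (leaf 2 458 462) (node 429 (merge (leaf 5 396 397) (leaf 5 428 556))))))))) (node 554 (merge (leaf 1 521 553) (node 586 (merge (leaf 6 490 618) (node 587 (merge (leaf 4 490 619) (node 458 (merge (leaf 7 458 555) (node 425 (merge (leaf 7 425 457) (node 426 (merge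 (leaf 7 393 393) (leaf 4 394 394)))))))))))))))))))))))))))))))) nP_262 cP_262 11 (by decide +kernel)
def nP_263 : ℕ := 0x100000001300000000000000080000000000000000000000000000000000000000000000000000000000000000000000000000000000000000000000000000000000000000000
def cP_263 : ℕ := 0x380000003c0000003e0000027fc00000cf800001dfc000007f000000fe000001de000001d4000001400000000000000000000000000000000000000000000000000000000000000000000000000000000000
theorem lP_263 : S nP_263 cP_263 14 := S_of_chk [] trivial (node 523 (merge (node 526 (merge (node 495 (merge (leaf 2 491 494) (node 527 (merge (leaf 4 431 431) (leaf 2 492 496))))) (node 554 (merge (leaf 1 522 555) (node 522 (merge (leaf 1 521 553) (node 557 (merge (leaf 0 522 558) (node 521 (merge (leaf 0 521 556) (node 489 (merge (leaf 3 488 488) (leaf 3 489 490))))))))))))) (merge (node 526 (merge (node 555 (merge (leaf 1 522 554) (node 527 (merge (leaf 1 523 556) (leaf 0 525 561))))) (merge (node 491 (merge (leaf 3 490 490) (node 527 (merge (leaf 3 491 492) (leaf 0 525 561))))) (node 491 (merge (leaf 3 490 490) (node 459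 (merge (node 556 (merge (leaf 4 427 427) (node 588 (merge (leaf 7 459 492) (leaf 7 491 620))))) (merge (node 555 (merge (leaf 1 522 554) (node 556 (merge (leaf 4 427 427) (leaf 4 459 588))))) (merge (node 555 (merge (leaf 1 522 554) (node 460 (merge (leaf 6 427 428) (node 492 (merge (leaf 6 459 587) (node 426 (merge (leaf 7 426 458) (node 427 (merge (leaf 7 394 394) (leaf 4 395 395))))))))))) (node 555 (merge (leaf 1 522 554) (node 460 (merge (leaf 6 427 428) (node 587 (merge (leaf 6 459 492) (node 588 (merge (leaf 4 459 556) (leaf 4 491 620)))))))))))))))))) (merge (node 522 (merge (node 490 (merge (leaf 3 489 489) (node 526 (merge (leaf 3 490 491) (node 527 (merge (leaf 0 525 561) (node 495 (merge (leaf 2 491 494) (leaf 2 492 496))))))))) (merge (node 557 (merge (leaf 0 522 558) (node 521 (merge (leaf 0 521 556) (node 552 (merge (leaf 1 520 553) (node 520 (merge (leaf 1 519 551) (node 488 (merge (leaf 3 487 487) (leaf 3 488 489))))))))))) (node 557 (merge (leaf 0 522 558) (node 521 (merge (leaf 0 521 556) (node 552 (merge (leaf 1 520 553) (node 520 (merge (leaf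 1 519 551) (node 491 (merge (leaf 2 488 492) (node 490 (merge (leaf 2 487 519) (leaf 3 490 526)))))))))))))))) (merge (node 554 (merge (node 553 (merge (leaf 1 521 522) (node 555 (merge (leaf 2 520 552) (leaf 2 521 556))))) (merge (node 555 (merge (leaf 1 522 526) (node 553 (merge (leaf 2 520 552) (leaf 2 521 556))))) (merge (node 522 (merge (leaf 1 521 553) (node 490 (merge (leaf 3 489 489) (node 491 (merge (leaf 3 490 526) (node 459 (merge (leaf 5 426 427) (leaf 6 458 586))))))))) (node 491 (merge (node 490 (merge (leaf 3 490 526) (node 489 (merge (leaf 0 488 488) (leaf 0 489 492))))) (merge (node 555 (merge (leaf 1 522 526) (node 459 (merge (leaf 5 458 586) (node 556 (merge (leaf 4 427 427) (leaf 4 459 588))))))) (node 522 (merge (node 586 (merge (leaf 6 490 618) (node 459 (merge (leaf 5 426 427) (leaf 5 458 555))))) (node 521 (merge (node 489 (merge (leaf 3 488 488) (leaf 3 489 490))) (merge (node 520 (merge (leaf 2 488 492) (node 551 (merge (leaf 1 519 552) (node 519 (merge (leaf 2 487 490) (leaf 1 518 550))))))) (node 520 (merge (leaf 2 488 492) (node 488 (merge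 (leaf 3 487 487) (leaf 3 488 489))))))))))))))))) (merge (node 495 (merge (node 526 (merge (leaf 2 491 494) (node 554 (merge (leaf 1 522 555) (node 522 (merge (leaf 1 521 553) (node 490 (merge (leaf 3 489 489) (leaf 3 490 491))))))))) (node 431 (merge (leaf 4 431 527) (node 399 (merge (leaf 4 399 496) (node 368 (merge (leaf 6 367 400) (node 367 (merge (leaf 6 335 336) (node 366 (merge (leaf 7 334 334) (leaf 7 366 398))))))))))))) (merge (node 557 (merge (node 522 (merge (leaf 0 522 558) (node 521 (merge (leaf 0 521 556) (node 553 (merge (leaf 1 520 552) (leaf 1 521 554))))))) (merge (node 526 (merge (node 527 (merge (leaf 1 524 556) (leaf 0 525 561))) (node 494 (merge (leaf 2 491 495) (node 589 (merge (leaf 6 493 621) (node 462 (merge (leaf 5 429 430) (leaf 5 461 558))))))))) (merge (node 522 (merge (leaf 0 522 558) (node 554 (merge (leaf 1 521 553) (node 526 (merge (leaf 1 522 555) (node 527 (merge (leaf 0 525 561) (node 495 (merge (leaf 2 491 494) (leaf 2 492 496))))))))))) (node 522 (merge (node 554 (merge (leaf 1 521 553) (node 526 (merge (leaf 1 522 555) (node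 527 (merge (leaf 0 525 561) (node 495 (merge (leaf 2 491 494) (leaf 2 492 496))))))))) (merge (node 521 (merge (leaf 0 521 556) (node 552 (merge (leaf 1 520 553) (node 520 (merge (leaf 1 519 551) (node 488 (merge (leaf 3 487 487) (leaf 3 488 489))))))))) (node 556 (merge (leaf 0 521 521) (node 588 (merge (node 620 (merge (leaf 7 491 491) (leaf 6 524 652))) (merge (node 526 (merge (leaf 1 524 527) (node 554 (merge (leaf 1 522 555) (node 494 (merge (leaf 2 491 495) (node 589 (merge (leaf 6 493 621) (node 492 (merge (leaf 4 460 460) (node 491 (merge (leaf 7 459 459) (node 586 (merge (leaf 6 490 618) (node 587 (merge (leaf 2 553 585) (leaf 5 491 619))))))))))))))))) (node 620 (merge (leaf 6 524 652) (node 621 (merge (leaf 4 524 653) (node 492 (merge (leaf 7 492 589) (node 619 (merge (leaf 5 491 587) (leaf 5 523 651))))))))))))))))))))) (node 491 (merge (node 522 (merge (node 554 (merge (leaf 1 521 553) (node 586 (merge (leaf 6 490 618) (node 490 (merge (leaf 6 458 459) (leaf 3 489 489))))))) (merge (node 521 (merge (node 489 (merge (leaf 3 488 488) (leaf 3 489 490)))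 (merge (node 520 (merge (leaf 2 488 492) (node 551 (merge (leaf 1 519 552) (node 519 (merge (leaf 2 487 490) (leaf 1 518 550))))))) (node 520 (merge (leaf 2 488 492) (node 488 (merge (leaf 3 487 487) (leaf 3 488 489)))))))) (merge (node 553 (merge (leaf 1 521 554) (node 521 (merge (leaf 1 520 552) (node 520 (merge (leaf 2 488 492) (node 488 (merge (leaf 3 487 487) (leaf 3 488 489))))))))) (node 553 (merge (leaf 1 521 554) (node 521 (merge (leaf 1 520 552) (node 520 (merge (leaf 2 488 492) (node 519 (merge (leaf 2 487 490) (node 487 (merge (leaf 3 486 486) (leaf 3 487 488))))))))))))))) (merge (node 459 (merge (node 427 (merge (leaf 4 427 556) (node 394 (merge (leaf 7 394 426) (node 395 (merge (leaf 7 362 362) (leaf 4 395 492))))))) (merge (node 427 (merge (leaf 4 427 556) (node 396 (merge (leaf 6 395 428) (node 395 (merge (leaf 6 363 364) (leaf 4 395 492))))))) (merge (node 427 (merge (leaf 4 427 556) (node 428 (merge (leaf 6 395 396) (node 555 (merge (leaf 6 427 460) (node 426 (merge (leaf 7 394 394) (leaf 7 426 458))))))))) (merge (node 427 (merge (node 396 (merge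 (leaf 6 395 428) (node 395 (merge (leaf 6 363 364) (leaf 4 395 492))))) (merge (node 394 (merge (leaf 7 394 426) (node 395 (merge (leaf 7 362 362) (leaf 4 395 492))))) (node 428 (merge (leaf 6 395 396) (node 555 (merge (leaf 6 427 460) (node 426 (merge (leaf 7 394 394) (leaf 7 426 458)))))))))) (node 555 (merge (node 556 (merge (leaf 4 459 588) (node 554 (merge (leaf 2 521 553) (leaf 5 458 586))))) (node 460 (merge (leaf 6 427 428) (node 587 (merge (leaf 6 459 492) (node 458 (merge (leaf 7 426 426) (leaf 7 458 490)))))))))))))) (merge (node 459 (merge (node 556 (merge (leaf 4 427 427) (node 588 (merge (leaf 4 459 555) (leaf 7 491 620))))) (merge (node 427 (merge (leaf 4 427 556) (node 396 (merge (leaf 6 395 428) (node 395 (merge (leaf 6 363 364) (node 394 (merge (leaf 7 362 362) (leaf 7 394 426))))))))) (merge (node 555 (merge (node 554 (merge (leaf 5 458 586) (node 553 (merge (leaf 1 521 522) (leaf 2 520 552))))) (node 428 (merge (leaf 6 427 460) (node 427 (merge (leaf 6 395 396) (node 426 (merge (leaf 7 394 394) (leaf 7 426 458))))))))) (node 555 (merge (node 556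 (merge (leaf 4 459 588) (node 554 (merge (leaf 2 521 553) (leaf 5 458 586))))) (merge (node 458 (merge (leaf 7 426 426) (node 587 (merge (leaf 7 458 490) (node 588 (merge (leaf 4 459 556) (leaf 4 491 620))))))) (node 458 (merge (leaf 7 426 426) (node 587 (merge (leaf 7 458 490) (node 586 (merge (leaf 5 458 554) (leaf 5 490 618)))))))))))))) (merge (node 459 (merge (node 556 (merge (leaf 4 427 427) (node 588 (merge (leaf 4 459 555) (leaf 7 491 620))))) (merge (node 427 (merge (leaf 4 427 556) (node 396 (merge (leaf 6 395 428) (node 395 (merge (leaf 6 363 364) (leaf 4 395 492))))))) (merge (node 427 (merge (node 396 (merge (leaf 6 395 428) (node 395 (merge (leaf 6 363 364) (leaf 4 395 492))))) (merge (node 394 (merge (leaf 7 394 426) (node 395 (merge (leaf 7 362 362) (leaf 4 395 492))))) (node 428 (merge (leaf 6 395 396) (node 555 (merge (leaf 6 427 460) (node 426 (merge (leaf 7 394 394) (leaf 7 426 458)))))))))) (node 555 (merge (node 554 (merge (leaf 5 458 586) (node 553 (merge (leaf 1 521 522) (leaf 2 520 552))))) (node 588 (merge (leaf 4 459 556) (node 587 (merge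 (leaf 4 491 620) (node 492 (merge (leaf 6 459 460) (leaf 6 491 619))))))))))))) (merge (node 490 (merge (node 489 (merge (leaf 0 488 488) (leaf 3 489 522))) (merge (node 489 (merge (leaf 0 488 488) (leaf 0 489 492))) (node 522 (merge (node 554 (merge (leaf 1 521 553) (node 586 (merge (leaf 6 490 618) (node 587 (merge (leaf 4 490 619) (node 458 (merge (leaf 7 458 555) (node 425 (merge (leaf 7 425 457) (node 426 (merge (leaf 7 393 393) (leaf 4 394 394))))))))))))) (node 557 (merge (leaf 0 522 558) (node 521 (merge (leaf 0 521 556) (node 520 (merge (leaf 2 488 492) (node 551 (merge (leaf 1 519 552) (node 519 (merge (leaf 2 487 490) (leaf 1 518 550)))))))))))))))) (node 459 (merge (node 556 (merge (leaf 4 427 427) (node 588 (merge (leaf 4 459 555) (leaf 7 491 620))))) (merge (node 427 (merge (leaf 4 427 556) (node 394 (merge (leaf 7 394 426) (node 395 (merge (leaf 7 362 362) (leaf 4 395 492))))))) (merge (node 427 (merge (node 396 (merge (leaf 6 395 428) (node 395 (merge (leaf 6 363 364) (leaf 4 395 492))))) (merge (node 394 (merge (leaf 7 394 426) (node 395 (merge (leaf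 7 362 362) (leaf 4 395 492))))) (node 428 (merge (leaf 6 395 396) (node 555 (merge (leaf 6 427 460) (node 426 (merge (leaf 7 394 394) (leaf 7 426 458)))))))))) (node 431 (merge (node 495 (merge (leaf 4 431 527) (node 399 (merge (leaf 4 399 496) (node 368 (merge (leaf 6 367 400) (node 367 (merge (leaf 6 335 336) (node 366 (merge (leaf 7 334 334) (leaf 7 366 398))))))))))) (node 460 (merge (node 428 (merge (leaf 6 427 555) (node 396 (merge (leaf 5 363 364) (leaf 5 395 492))))) (merge (node 555 (merge (leaf 6 427 428) (node 458 (merge (leaf 7 426 426) (node 587 (merge (leaf 7 458 490) (node 588 (merge (leaf 4 459 556) (leaf 4 491 620))))))))) (merge (node 492 (merge (node 428 (merge (leaf 5 395 396) (leaf 4 428 557))) (node 461 (merge (leaf 1 459 462) (node 556 (merge (leaf 6 428 429) (leaf 7 459 588))))))) (node 492 (merge (node 556 (merge (leaf 7 459 588) (node 557 (merge (leaf 4 460 589) (node 522 (merge (leaf 0 521 521) (leaf 0 522 558))))))) (node 489 (merge (leaf 0 489 490) (node 555 (merge (leaf 6 459 587) (node 458 (merge (leaf 7 426 426) (node 457 (merge (leaf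 0 456 456) (leaf 1 456 488)))))))))))))))))))))))))))))))))) nP_263 cP_263 14 (by decide +kernel)
def nP_264 : ℕ := 0x100000001300000000000000080000000000000000000000000000000000000000000000000000000000000000000000000000000000000000000000000000000000000000000
def cP_264 : ℕ := 0x1000000070000000700000007c0000027c000000c0000003ff0000007e00001fff00000ff000001ff8000001d00000014000000000000000000000000000000000000000000000000000000000000000000000000000
theorem lP_264 : S nP_264 cP_264 12 := S_of_chk [] trivial (node 493 (merge (node 527 (merge (node 526 (merge (leaf 3 492 492) (leaf 0 525 561))) (merge (node 495 (merge (leaf 4 431 431) (node 494 (merge (leaf 0 492 492) (leaf 1 492 496))))) (node 526 (merge (leaf 0 525 561) (node 495 (merge (leaf 4 431 431) (leaf 2 492 496)))))))) (merge (node 526 (merge (node 527 (merge (leaf 3 492 492) (leaf 0 525 561))) (merge (node 527 (merge (node 556 (merge (leaf 1 523 555) (leaf 1 524 557))) (node 496 (merge (leaf 2 492 495) (leaf 2 493 497))))) (node 461 (merge (node 556 (merge (leaf 5 428 429) (node 588 (merge (leaf 6 460 492)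 (leaf 6 492 620))))) (merge (node 558 (merge (leaf 4 429 429) (node 590 (merge (leaf 4 461 557) (leaf 7 493 622))))) (node 557 (merge (node 590 (merge (leaf 4 461 558) (node 589 (merge (leaf 4 493 622) (node 588 (merge (leaf 5 460 556) (leaf 5 492 620))))))) (merge (node 460 (merge (leaf 7 428 428) (node 589 (merge (leaf 7 460 492) (node 590 (merge (leaf 4 461 558) (leaf 4 493 622))))))) (merge (node 460 (merge (leaf 7 428 428) (node 589 (merge (leaf 7 460 492) (node 588 (merge (leaf 5 460 556) (leaf 5 492 620))))))) (node 460 (merge (leaf 7 428 428) (node 558 (merge (leaf 4 461 590) (node 556 (merge (leaf 5 460 588) (node 555 (merge (leaf 2 522 554) (node 587 (merge (leaf 5 459 492) (leaf 1 554 586))))))))))))))))))))) (merge (node 461 (merge (node 556 (merge (leaf 5 428 429) (node 588 (merge (leaf 5 460 557) (leaf 6 492 620))))) (merge (node 429 (merge (leaf 5 428 556) (node 398 (merge (leaf 6 397 430) (node 397 (merge (leaf 6 365 366) (leaf 5 396 492))))))) (merge (node 430 (merge (node 429 (merge (leaf 6 397 398) (node 396 (merge (leaf 7 396 428) (node 397 (merge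 (leaf 7 364 364) (leaf 5 396 492))))))) (merge (node 462 (merge (leaf 6 429 557) (node 398 (merge (leaf 5 365 366) (leaf 5 397 494))))) (node 557 (merge (leaf 6 429 462) (node 460 (merge (leaf 7 428 428) (node 589 (merge (leaf 7 460 492) (node 622 (merge (leaf 4 493 590) (node 621 (merge (leaf 4 525 654) (node 620 (merge (leaf 5 492 588) (leaf 5 524 652)))))))))))))))) (node 460 (merge (node 557 (merge (leaf 7 428 428) (node 589 (merge (leaf 7 460 492) (node 588 (merge (leaf 5 460 556) (leaf 5 492 620))))))) (merge (node 557 (merge (leaf 7 428 428) (node 462 (merge (leaf 6 429 430) (node 589 (merge (leaf 6 461 494) (node 588 (merge (leaf 5 460 556) (leaf 5 492 620))))))))) (merge (node 428 (merge (node 396 (merge (leaf 4 364 364) (leaf 4 396 492))) (node 462 (merge (leaf 3 427 427) (node 495 (merge (leaf 0 460 496) (node 459 (merge (leaf 0 459 494) (node 431 (merge (leaf 2 427 430) (leaf 2 428 432))))))))))) (node 462 (merge (node 430 (merge (leaf 6 429 557) (node 398 (merge (leaf 5 365 366) (leaf 5 397 494))))) (merge (node 491 (merge (leaf 1 459 492) (node 459 (merge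 (leaf 1 458 490) (node 431 (merge (leaf 2 427 430) (leaf 2 428 432))))))) (node 495 (merge (leaf 0 460 496) (node 459 (merge (leaf 0 459 494) (node 492 (merge (leaf 1 459 491) (node 557 (merge (leaf 7 460 589) (node 427 (merge (leaf 3 426 426) (node 556 (merge (leaf 7 427 524) (leaf 5 460 588)))))))))))))))))))))))) (merge (node 526 (merge (node 527 (merge (leaf 3 492 492) (leaf 0 525 561))) (merge (node 461 (merge (node 558 (merge (leaf 4 429 429) (node 590 (merge (leaf 7 461 494) (leaf 7 493 622))))) (merge (node 558 (merge (leaf 4 429 429) (node 590 (merge (leaf 4 461 557) (leaf 7 493 622))))) (merge (node 429 (merge (node 398 (merge (leaf 6 397 430) (node 397 (merge (leaf 6 365 366) (leaf 4 397 494))))) (merge (node 396 (merge (leaf 7 396 428) (node 397 (merge (leaf 7 364 364) (leaf 4 397 494))))) (node 430 (merge (leaf 6 397 398) (node 557 (merge (leaf 6 429 462) (node 428 (merge (leaf 7 396 396) (leaf 7 428 460)))))))))) (node 557 (merge (node 556 (merge (leaf 1 524 527) (leaf 5 460 588))) (node 462 (merge (leaf 6 429 430) (node 589 (merge (leaf 6 461 494) (node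 590 (merge (leaf 4 461 558) (leaf 4 493 622))))))))))))) (node 461 (merge (node 558 (merge (leaf 4 429 429) (node 590 (merge (leaf 4 461 557) (leaf 7 493 622))))) (merge (node 429 (merge (leaf 4 429 558) (node 398 (merge (leaf 6 397 430) (node 397 (merge (leaf 6 365 366) (leaf 4 397 494))))))) (node 462 (merge (node 430 (merge (leaf 6 429 557) (node 398 (merge (leaf 5 365 366) (leaf 5 397 494))))) (merge (node 557 (merge (leaf 6 429 430) (node 460 (merge (leaf 7 428 428) (node 492 (merge (leaf 1 459 491) (leaf 7 460 589))))))) (node 460 (merge (node 428 (merge (leaf 3 427 427) (node 396 (merge (leaf 4 364 364) (leaf 4 396 492))))) (merge (node 427 (merge (leaf 3 427 428) (node 459 (merge (leaf 3 426 426) (node 458 (merge (leaf 0 458 494) (node 490 (merge (leaf 1 457 489) (leaf 1 458 491))))))))) (node 459 (merge (node 491 (merge (leaf 1 458 490) (leaf 1 459 492))) (merge (node 458 (merge (leaf 0 458 494) (node 492 (merge (leaf 0 457 457) (leaf 1 459 491))))) (node 458 (merge (leaf 0 458 494) (node 489 (merge (leaf 1 457 490) (node 457 (merge (leaf 1 456 488) (node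 425 (merge (leaf 3 424 424) (leaf 3 425 426)))))))))))))))))))))))) (node 431 (merge (node 495 (merge (leaf 4 431 527) (node 399 (merge (leaf 4 399 496) (node 368 (merge (leaf 6 367 400) (node 367 (merge (leaf 6 335 336) (node 366 (merge (leaf 7 334 334) (leaf 7 366 398))))))))))) (merge (node 495 (merge (leaf 4 431 527) (node 496 (merge (leaf 4 399 399) (node 494 (merge (leaf 1 492 524) (node 461 (merge (leaf 3 460 460) (node 462 (merge (leaf 3 461 497) (node 430 (merge (leaf 5 397 398) (leaf 6 429 557))))))))))))) (merge (node 495 (merge (leaf 4 431 527) (node 399 (merge (leaf 4 399 496) (node 368 (merge (leaf 6 367 400) (node 367 (merge (leaf 6 335 336) (node 334 (merge (leaf 7 334 366) (node 335 (merge (leaf 7 302 302) (node 462 (merge (leaf 5 334 430) (leaf 5 366 494))))))))))))))) (merge (node 461 (merge (node 462 (merge (node 432 (merge (leaf 2 428 460) (node 433 (merge (leaf 1 429 430) (leaf 1 430 434))))) (merge (node 430 (merge (leaf 6 429 557) (node 398 (merge (leaf 5 365 366) (leaf 5 397 494))))) (node 460 (merge (leaf 2 428 432) (node 428 (merge (leaf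 3 427 427) (leaf 7 428 557)))))))) (merge (node 460 (merge (node 462 (merge (leaf 2 428 432) (node 430 (merge (leaf 2 427 459) (leaf 6 429 557))))) (merge (node 428 (merge (leaf 7 428 557) (node 396 (merge (leaf 4 364 364) (leaf 7 396 429))))) (node 462 (merge (leaf 2 428 432) (node 459 (merge (leaf 2 427 430) (node 427 (merge (leaf 3 426 426) (leaf 3 427 428)))))))))) (merge (node 429 (merge (node 430 (merge (leaf 6 397 398) (node 460 (merge (leaf 1 428 432) (node 459 (merge (leaf 1 427 428) (leaf 2 426 458))))))) (merge (node 396 (merge (leaf 7 396 428) (node 397 (merge (leaf 7 364 364) (node 432 (merge (leaf 3 396 430) (node 462 (merge (leaf 2 428 460) (node 494 (merge (leaf 4 365 365) (leaf 4 397 526))))))))))) (merge (node 396 (merge (leaf 7 396 428) (node 397 (merge (leaf 7 364 364) (node 366 (merge (leaf 6 365 398) (node 365 (merge (leaf 6 333 334) (node 494 (merge (leaf 4 365 462) (leaf 4 397 526))))))))))) (node 398 (merge (leaf 6 397 430) (node 397 (merge (leaf 6 365 366) (node 364 (merge (leaf 7 364 396) (node 365 (merge (leaf 7 332 332) (node 494 (merge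 (leaf 4 365 462) (leaf 4 397 526))))))))))))))) (merge (node 429 (merge (node 428 (merge (leaf 7 396 396) (node 557 (merge (leaf 7 428 460) (node 556 (merge (leaf 5 428 524) (leaf 5 460 588))))))) (merge (node 556 (merge (leaf 5 428 524) (node 557 (merge (leaf 5 460 588) (node 526 (merge (leaf 1 524 527) (node 494 (merge (leaf 4 397 397) (node 589 (merge (leaf 6 461 462) (leaf 6 493 621))))))))))) (node 396 (merge (leaf 7 396 428) (node 397 (merge (leaf 7 364 364) (node 366 (merge (leaf 6 365 398) (node 365 (merge (leaf 6 333 334) (node 494 (merge (leaf 4 365 462) (leaf 4 397 526)))))))))))))) (merge (node 429 (merge (node 430 (merge (leaf 6 397 398) (node 460 (merge (leaf 1 428 432) (node 459 (merge (leaf 1 427 428) (leaf 2 426 458))))))) (merge (node 428 (merge (leaf 7 396 396) (node 557 (merge (leaf 7 428 460) (node 556 (merge (leaf 5 428 524) (leaf 5 460 588))))))) (merge (node 398 (merge (leaf 6 397 430) (node 397 (merge (leaf 6 365 366) (node 396 (merge (leaf 7 364 364) (leaf 7 396 428))))))) (node 430 (merge (leaf 6 397 398) (node 432 (merge (leaf 1 428 460)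 (node 397 (merge (leaf 3 396 396) (node 526 (merge (leaf 4 397 494) (node 556 (merge (leaf 5 428 524) (node 557 (merge (leaf 1 524 527) (leaf 5 460 588))))))))))))))))) (merge (node 430 (merge (node 462 (merge (leaf 6 429 557) (node 460 (merge (leaf 2 428 432) (leaf 2 427 459))))) (merge (node 398 (merge (leaf 6 397 429) (node 462 (merge (leaf 5 365 366) (leaf 5 397 494))))) (node 429 (merge (leaf 6 397 398) (node 432 (merge (leaf 1 428 460) (node 397 (merge (leaf 3 396 396) (node 526 (merge (leaf 4 397 494) (node 556 (merge (leaf 5 428 524) (node 557 (merge (leaf 1 524 527) (leaf 5 460 588)))))))))))))))) (node 556 (merge (node 524 (merge (leaf 5 428 429) (node 588 (merge (leaf 5 460 557) (leaf 6 492 620))))) (merge (node 429 (merge (leaf 5 428 524) (node 398 (merge (leaf 6 397 430) (node 397 (merge (leaf 6 365 366) (node 396 (merge (leaf 7 364 364) (leaf 7 396 428))))))))) (merge (node 557 (merge (leaf 5 460 588) (node 430 (merge (leaf 6 429 462) (node 429 (merge (leaf 6 397 398) (node 396 (merge (leaf 7 396 428) (node 526 (merge (leaf 1 524 527) (node 397 (merge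 (leaf 3 396 432) (leaf 4 397 494))))))))))))) (node 557 (merge (leaf 5 460 588) (node 462 (merge (leaf 6 429 430) (node 589 (merge (leaf 6 461 494) (node 622 (merge (leaf 4 493 590) (node 621 (merge (leaf 4 525 654) (node 653 (merge (leaf 7 524 524) (node 652 (merge (leaf 5 524 620) (leaf 5 556 684)))))))))))))))))))))))))) (node 399 (merge (node 495 (merge (leaf 4 399 496) (node 366 (merge (leaf 7 366 398) (node 367 (merge (leaf 7 334 334) (node 494 (merge (leaf 5 366 462) (leaf 5 398 526))))))))) (merge (node 495 (merge (leaf 4 399 496) (node 368 (merge (leaf 6 367 400) (node 367 (merge (leaf 6 335 336) (node 494 (merge (leaf 5 366 462) (leaf 5 398 526))))))))) (merge (node 462 (merge (node 494 (merge (leaf 5 366 367) (node 430 (merge (leaf 5 397 398) (leaf 6 398 526))))) (merge (node 367 (merge (leaf 5 366 494) (node 336 (merge (leaf 6 335 368) (node 335 (merge (leaf 6 303 304) (node 334 (merge (leaf 7 302 302) (leaf 7 334 366))))))))) (node 461 (merge (node 430 (merge (leaf 6 429 557) (node 398 (merge (leaf 5 365 366) (leaf 6 397 429))))) (merge (node 432 (merge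 (leaf 2 428 460) (node 433 (merge (leaf 1 429 430) (leaf 1 430 434))))) (node 460 (merge (leaf 2 428 432) (node 428 (merge (leaf 3 427 427) (leaf 7 428 557))))))))))) (node 400 (merge (node 495 (merge (leaf 6 367 368) (leaf 4 399 496))) (merge (node 401 (merge (node 430 (merge (leaf 1 398 402) (node 429 (merge (leaf 2 396 428) (leaf 2 397 432))))) (merge (node 430 (merge (leaf 1 398 402) (node 429 (merge (leaf 1 397 398) (leaf 2 396 428))))) (merge (node 402 (merge (node 435 (merge (leaf 0 399 434) (node 403 (merge (leaf 1 399 432) (leaf 0 400 436))))) (merge (node 403 (merge (leaf 1 399 432) (node 371 (merge (leaf 2 367 370) (leaf 2 368 372))))) (node 434 (merge (leaf 0 399 435) (node 398 (merge (leaf 0 398 433) (node 370 (merge (leaf 2 366 369) (leaf 2 367 371)))))))))) (node 398 (merge (node 430 (merge (leaf 1 397 429) (node 366 (merge (leaf 4 334 334) (leaf 3 365 365))))) (merge (node 433 (merge (leaf 0 398 434) (node 397 (merge (leaf 0 397 432) (node 429 (merge (leaf 1 396 428) (leaf 1 397 430))))))) (node 433 (merge (leaf 0 398 434) (node 397 (merge (leaf 0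 397 432) (node 369 (merge (leaf 2 365 368) (leaf 2 366 370)))))))))))))) (node 398 (merge (node 366 (merge (leaf 7 366 495) (node 334 (merge (leaf 4 302 302) (leaf 4 334 430))))) (merge (node 366 (merge (leaf 7 366 495) (node 365 (merge (leaf 3 365 401) (node 364 (merge (leaf 0 363 363) (leaf 3 364 397))))))) (node 401 (merge (node 430 (merge (leaf 1 398 402) (node 429 (merge (leaf 1 397 398) (leaf 2 396 428))))) (merge (node 434 (merge (leaf 0 398 433) (node 402 (merge (leaf 0 399 435) (node 370 (merge (leaf 2 366 369) (leaf 2 367 371))))))) (node 433 (merge (leaf 0 398 434) (node 397 (merge (leaf 0 397 432) (node 429 (merge (leaf 1 396 428) (leaf 1 397 430)))))))))))))))))))))))))))))) nP_264 cP_264 12 (by decide +kernel)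
def nP_265 : ℕ := 0x100000001300000001000000080000000000000000000000000000000000000000000000000000000000000000000000000000000000000000000000000000000000000000000
def cP_265 : ℕ := 0x80000002e0000003e0000007e0000001f8000008f000001ef0000005f000000fc000001fc000001e8000001400000000000000000000000000000000000000000000000000000000000000000000000000000000000
theorem lP_265 : S nP_265 cP_265 13 := S_of_chk [] trivial (node 459 (merge (node 556 (merge (node 427 (merge (leaf 7 427 460) (node 491 (merge (leaf 4 427 523) (leaf 7 459 588))))) (merge (node 588 (merge (leaf 7 459 491) (node 620 (merge (leaf 6 492 493) (node 619 (merge (leaf 5 491 587) (leaf 5 523 651))))))) (node 460 (merge (leaf 7 427 427) (node 555 (merge (leaf 5 459 587) (node 428 (merge (leaf 5 427 523) (node 397 (merge (leaf 6 396 429) (node 396 (merge (leaf 6 364 365) (leaf 4 396 493)))))))))))))) (merge (node 460 (merge (node 427 (merge (leaf 7 427 556) (node 395 (merge (leaf 4 363 363) (leaf 7 395 428))))) (merge (node 556 (merge (leaf 7 427 427) (node 587 (merge (leaf 5 459 555) (node 588 (merge (leaf 5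 491 619) (node 620 (merge (leaf 6 492 493) (node 621 (merge (leaf 4 492 589) (leaf 4 524 653))))))))))) (node 493 (merge (node 428 (merge (leaf 4 396 396) (node 523 (merge (leaf 5 427 555) (node 522 (merge (leaf 2 490 494) (leaf 2 489 521))))))) (merge (node 495 (merge (node 494 (merge (leaf 3 459 459) (leaf 1 492 496))) (merge (node 527 (merge (leaf 4 431 431) (leaf 0 492 494))) (node 431 (merge (leaf 4 431 527) (node 399 (merge (leaf 4 399 496) (node 368 (merge (leaf 6 367 400) (node 367 (merge (leaf 6 335 336) (node 366 (merge (leaf 7 334 334) (leaf 7 366 398)))))))))))))) (node 428 (merge (leaf 4 396 396) (node 429 (merge (leaf 6 396 397) (node 431 (merge (leaf 1 427 430) (node 495 (merge (leaf 4 431 527) (node 399 (merge (leaf 4 399 496) (node 368 (merge (leaf 6 367 400) (node 367 (merge (leaf 6 335 336) (node 366 (merge (leaf 7 334 334) (leaf 7 366 398))))))))))))))))))))))) (merge (node 556 (merge (node 427 (merge (leaf 7 427 460) (node 491 (merge (leaf 4 395 395) (leaf 7 459 588))))) (merge (node 588 (merge (leaf 7 459 491) (node 621 (merge (leaf 4 492 589)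 (node 620 (merge (leaf 4 524 653) (node 619 (merge (leaf 5 491 587) (leaf 5 523 651))))))))) (node 460 (merge (leaf 7 427 427) (node 555 (merge (leaf 5 459 587) (node 428 (merge (leaf 5 427 523) (node 429 (merge (leaf 6 396 397) (node 431 (merge (leaf 1 427 430) (node 495 (merge (leaf 4 431 527) (node 399 (merge (leaf 4 399 496) (node 368 (merge (leaf 6 367 400) (node 367 (merge (leaf 6 335 336) (node 366 (merge (leaf 7 334 334) (leaf 7 366 398)))))))))))))))))))))))) (merge (node 493 (merge (node 494 (merge (node 495 (merge (leaf 1 492 496) (node 527 (merge (leaf 4 431 431) (leaf 0 492 492))))) (node 491 (merge (leaf 2 459 462) (node 490 (merge (leaf 0 489 489) (node 458 (merge (leaf 3 457 457) (leaf 3 458 459))))))))) (merge (node 491 (merge (node 556 (merge (leaf 7 459 588) (node 427 (merge (leaf 4 395 395) (leaf 4 427 523))))) (merge (node 490 (merge (leaf 0 489 489) (node 522 (merge (leaf 1 489 521) (node 554 (merge (leaf 6 458 586) (node 458 (merge (leaf 6 426 427) (leaf 3 457 457))))))))) (node 490 (merge (leaf 0 489 489) (node 522 (merge (leaf 1 489 521) (node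 554 (merge (leaf 6 458 586) (node 553 (merge (leaf 1 521 523) (node 458 (merge (leaf 3 457 457) (leaf 5 457 585)))))))))))))) (node 495 (merge (node 494 (merge (leaf 1 492 496) (leaf 1 491 523))) (merge (node 527 (merge (leaf 4 431 431) (leaf 0 492 494))) (node 431 (merge (leaf 4 431 527) (node 399 (merge (leaf 4 399 496) (node 368 (merge (leaf 6 367 400) (node 367 (merge (leaf 6 335 336) (node 366 (merge (leaf 7 334 334) (leaf 7 366 398))))))))))))))))) (merge (node 460 (merge (node 556 (merge (leaf 7 427 427) (node 588 (merge (leaf 7 459 491) (node 587 (merge (leaf 5 459 555) (leaf 5 491 619))))))) (merge (node 428 (merge (node 397 (merge (leaf 6 396 429) (node 396 (merge (leaf 6 364 365) (leaf 4 396 493))))) (merge (node 395 (merge (leaf 7 395 427) (node 396 (merge (leaf 7 363 363) (leaf 4 396 493))))) (node 429 (merge (leaf 6 396 397) (node 427 (merge (leaf 7 395 395) (node 430 (merge (leaf 1 427 431) (leaf 0 427 462)))))))))) (node 493 (merge (node 458 (merge (leaf 0 457 457) (node 494 (merge (leaf 3 458 491) (leaf 3 459 495))))) (merge (node 428 (merge (leaf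 4 396 396) (node 429 (merge (leaf 6 396 397) (node 431 (merge (leaf 1 427 430) (node 495 (merge (leaf 4 431 527) (node 399 (merge (leaf 4 399 496) (node 368 (merge (leaf 6 367 400) (node 367 (merge (leaf 6 335 336) (node 366 (merge (leaf 7 334 334) (leaf 7 366 398))))))))))))))))) (node 458 (merge (leaf 0 457 457) (node 491 (merge (leaf 3 458 494) (node 490 (merge (leaf 0 489 489) (node 522 (merge (leaf 1 489 521) (node 554 (merge (leaf 6 458 586) (node 556 (merge (leaf 7 459 588) (node 555 (merge (leaf 2 521 553) (leaf 4 458 587))))))))))))))))))))) (merge (node 495 (merge (node 431 (merge (leaf 4 431 527) (node 399 (merge (leaf 4 399 496) (node 368 (merge (leaf 6 367 400) (node 367 (merge (leaf 6 335 336) (node 366 (merge (leaf 7 334 334) (leaf 7 366 398))))))))))) (merge (node 431 (merge (leaf 4 431 527) (node 399 (merge (leaf 4 399 496) (node 368 (merge (leaf 6 367 400) (node 367 (merge (leaf 6 335 336) (node 494 (merge (leaf 5 366 462) (node 493 (merge (leaf 3 459 460) (leaf 1 491 523))))))))))))) (node 523 (merge (node 493 (merge (leaf 1 491 494) (node 522 (merge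 (leaf 2 489 521) (node 554 (merge (leaf 1 521 553) (node 490 (merge (leaf 3 489 489) (node 427 (merge (leaf 6 426 458) (leaf 5 426 491))))))))))) (merge (node 522 (merge (node 493 (merge (leaf 2 490 494) (leaf 2 489 521))) (node 554 (merge (leaf 1 521 553) (node 491 (merge (leaf 5 426 427) (node 586 (merge (leaf 5 458 555) (leaf 6 490 618))))))))) (merge (node 555 (merge (node 587 (merge (leaf 6 491 619) (node 460 (merge (leaf 5 427 428) (leaf 6 459 491))))) (merge (node 493 (merge (leaf 1 491 494) (node 522 (merge (leaf 2 489 521) (node 490 (merge (leaf 3 489 489) (node 458 (merge (leaf 4 426 426) (node 460 (merge (leaf 5 427 428) (leaf 0 457 457))))))))))) (node 587 (merge (leaf 6 491 619) (node 493 (merge (leaf 1 491 494) (node 522 (merge (leaf 2 489 521) (node 490 (merge (leaf 3 489 489) (node 458 (merge (leaf 4 426 426) (leaf 7 458 491)))))))))))))) (merge (node 522 (merge (node 554 (merge (leaf 1 521 553) (node 491 (merge (leaf 5 426 427) (node 586 (merge (leaf 5 458 555) (leaf 6 490 618))))))) (merge (node 553 (merge (leaf 1 521 554) (node 521 (merge (leaf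 1 520 552) (node 489 (merge (leaf 3 488 488) (leaf 3 489 490))))))) (merge (node 489 (merge (leaf 3 489 490) (node 521 (merge (leaf 3 488 488) (node 491 (merge (leaf 2 488 520) (node 427 (merge (leaf 4 395 395) (leaf 5 426 554))))))))) (node 489 (merge (leaf 3 489 490) (node 521 (merge (leaf 3 488 488) (node 552 (merge (leaf 1 520 553) (node 520 (merge (leaf 2 488 491) (leaf 1 519 551))))))))))))) (merge (node 491 (merge (node 493 (merge (leaf 1 491 494) (node 490 (merge (leaf 0 489 489) (node 458 (merge (leaf 3 457 457) (node 426 (merge (leaf 4 394 394) (leaf 7 426 555))))))))) (merge (node 427 (merge (leaf 4 395 395) (node 428 (merge (leaf 6 395 396) (node 555 (merge (leaf 6 427 460) (node 587 (merge (leaf 6 491 619) (node 586 (merge (leaf 5 458 554) (leaf 5 490 618))))))))))) (node 490 (merge (leaf 0 489 489) (node 493 (merge (leaf 1 491 494) (node 458 (merge (leaf 3 457 457) (node 426 (merge (leaf 4 394 394) (node 427 (merge (leaf 4 395 395) (node 428 (merge (leaf 6 395 396) (node 429 (merge (leaf 1 426 430) (node 397 (merge (leaf 2 394 398) (leaf 6 396 460))))))))))))))))))))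 (node 460 (merge (node 493 (merge (leaf 1 491 494) (node 428 (merge (leaf 4 396 396) (leaf 5 427 555))))) (merge (node 428 (merge (leaf 5 427 555) (node 429 (merge (leaf 6 396 397) (node 427 (merge (leaf 7 395 395) (node 458 (merge (leaf 1 426 430) (leaf 2 425 457))))))))) (node 493 (merge (leaf 1 491 494) (node 458 (merge (leaf 0 457 457) (node 522 (merge (leaf 2 489 521) (node 554 (merge (leaf 1 521 553) (node 490 (merge (leaf 6 426 427) (leaf 3 489 489))))))))))))))))))))))) (node 523 (merge (node 522 (merge (node 493 (merge (leaf 2 490 494) (leaf 2 489 521))) (node 490 (merge (leaf 3 489 489) (node 554 (merge (leaf 1 521 553) (node 586 (merge (leaf 6 458 491) (node 619 (merge (leaf 4 490 587) (node 618 (merge (leaf 4 522 651) (node 617 (merge (leaf 5 489 585) (leaf 5 521 649))))))))))))))) (merge (node 555 (merge (node 587 (merge (leaf 6 491 619) (node 460 (merge (leaf 5 427 428) (leaf 6 459 491))))) (merge (node 587 (merge (leaf 6 491 619) (node 460 (merge (leaf 5 427 428) (leaf 5 459 556))))) (merge (node 554 (merge (node 553 (merge (leaf 1 521 522) (leaf 2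 520 552))) (node 587 (merge (leaf 6 491 619) (node 491 (merge (leaf 5 458 586) (node 588 (merge (leaf 7 459 556) (leaf 4 491 620))))))))) (node 554 (merge (node 553 (merge (leaf 2 520 552) (leaf 2 521 556))) (node 460 (merge (leaf 5 427 428) (node 491 (merge (leaf 5 458 586) (node 458 (merge (leaf 7 426 426) (node 457 (merge (leaf 0 456 456) (leaf 0 457 493))))))))))))))) (merge (node 555 (merge (node 587 (merge (leaf 6 491 619) (node 460 (merge (leaf 5 427 428) (leaf 6 459 491))))) (merge (node 587 (merge (leaf 6 491 619) (node 460 (merge (leaf 5 427 428) (leaf 5 459 556))))) (node 522 (merge (node 489 (merge (leaf 3 489 490) (node 521 (merge (leaf 3 488 488) (node 520 (merge (leaf 2 488 491) (leaf 0 520 556))))))) (merge (node 553 (merge (leaf 1 521 554) (node 521 (merge (leaf 1 520 552) (node 489 (merge (leaf 3 488 488) (leaf 3 489 490))))))) (merge (node 553 (merge (leaf 1 521 554) (node 521 (merge (leaf 1 520 552) (node 520 (merge (leaf 2 488 491) (leaf 0 520 556))))))) (node 554 (merge (leaf 1 521 553) (node 490 (merge (leaf 3 489 489) (node 586 (merge (leaf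 6 458 491) (node 618 (merge (leaf 6 522 650) (node 617 (merge (leaf 5 489 585) (leaf 5 521 649)))))))))))))))))) (merge (node 493 (merge (node 522 (merge (leaf 2 490 494) (leaf 2 489 521))) (merge (node 494 (merge (leaf 1 491 495) (node 491 (merge (leaf 2 459 462) (node 490 (merge (leaf 0 489 489) (node 458 (merge (leaf 3 457 457) (leaf 3 458 459))))))))) (node 491 (merge (node 490 (merge (leaf 0 489 489) (node 522 (merge (leaf 1 489 521) (node 554 (merge (leaf 1 521 553) (node 586 (merge (leaf 6 458 459) (leaf 6 490 618))))))))) (merge (node 490 (merge (leaf 0 489 489) (node 522 (merge (leaf 1 489 521) (node 458 (merge (leaf 3 457 457) (node 426 (merge (leaf 4 394 394) (leaf 4 426 555))))))))) (merge (node 490 (merge (leaf 0 489 489) (node 458 (merge (leaf 3 457 457) (node 555 (merge (leaf 7 458 587) (node 426 (merge (leaf 4 394 394) (leaf 7 426 459))))))))) (node 522 (merge (leaf 2 489 521) (node 554 (merge (leaf 1 521 553) (node 586 (merge (leaf 6 490 618) (node 555 (merge (leaf 5 458 459) (node 460 (merge (leaf 5 427 428) (leaf 6 459 587)))))))))))))))))) (merge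 (node 495 (merge (node 431 (merge (leaf 4 431 527) (node 399 (merge (leaf 4 399 496) (node 368 (merge (leaf 6 367 400) (node 367 (merge (leaf 6 335 336) (node 366 (merge (leaf 7 334 334) (leaf 7 366 398))))))))))) (node 555 (merge (node 587 (merge (leaf 6 491 619) (node 460 (merge (leaf 5 427 428) (leaf 5 459 556))))) (merge (node 493 (merge (leaf 1 491 494) (node 522 (merge (leaf 2 489 521) (node 490 (merge (leaf 3 489 489) (node 458 (merge (leaf 4 426 426) (node 460 (merge (leaf 5 427 428) (leaf 0 457 457))))))))))) (node 587 (merge (leaf 6 491 619) (node 493 (merge (leaf 1 491 494) (node 522 (merge (leaf 2 489 521) (node 490 (merge (leaf 3 489 489) (node 458 (merge (leaf 4 426 426) (leaf 4 458 554)))))))))))))))) (merge (node 495 (merge (node 431 (merge (leaf 4 431 527) (node 399 (merge (leaf 4 399 496) (node 368 (merge (leaf 6 367 400) (node 367 (merge (leaf 6 335 336) (node 366 (merge (leaf 7 334 334) (leaf 7 366 398))))))))))) (node 555 (merge (node 587 (merge (leaf 6 491 619) (node 460 (merge (leaf 5 427 428) (leaf 6 459 491))))) (merge (node 493 (merge (leaf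 1 491 494) (node 522 (merge (leaf 2 489 521) (node 490 (merge (leaf 3 489 489) (node 458 (merge (leaf 4 426 426) (node 460 (merge (leaf 5 427 428) (leaf 0 457 457))))))))))) (node 587 (merge (leaf 6 491 619) (node 493 (merge (leaf 1 491 494) (node 522 (merge (leaf 2 489 521) (node 490 (merge (leaf 3 489 489) (node 458 (merge (leaf 4 426 426) (leaf 7 458 491)))))))))))))))) (merge (node 495 (merge (node 431 (merge (leaf 4 431 527) (node 399 (merge (leaf 4 399 496) (node 368 (merge (leaf 6 367 400) (node 367 (merge (leaf 6 335 336) (node 366 (merge (leaf 7 334 334) (leaf 7 366 398))))))))))) (node 490 (merge (node 489 (merge (leaf 0 489 491) (leaf 3 489 522))) (merge (node 493 (merge (leaf 1 491 494) (node 522 (merge (leaf 3 489 489) (leaf 2 489 521))))) (merge (node 491 (merge (leaf 0 489 489) (node 493 (merge (leaf 1 491 494) (node 458 (merge (leaf 3 457 457) (node 426 (merge (leaf 4 394 394) (leaf 7 426 555))))))))) (node 493 (merge (leaf 1 491 494) (node 522 (merge (leaf 2 489 521) (node 554 (merge (leaf 1 521 553) (node 586 (merge (leaf 6 458 491) (node 617 (merge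 (leaf 5 489 585) (node 618 (merge (leaf 5 521 649) (node 650 (merge (leaf 6 522 555) (node 651 (merge (leaf 4 522 619) (leaf 4 554 683))))))))))))))))))))))) (node 495 (merge (node 431 (merge (leaf 4 431 527) (node 399 (merge (leaf 4 399 496) (node 368 (merge (leaf 6 367 400) (node 367 (merge (leaf 6 335 336) (node 366 (merge (leaf 7 334 334) (leaf 7 366 398))))))))))) (node 556 (merge (node 588 (merge (leaf 7 459 491) (node 620 (merge (leaf 6 492 493) (node 621 (merge (leaf 4 492 589) (leaf 4 524 653))))))) (merge (node 588 (merge (leaf 7 459 491) (node 589 (merge (leaf 4 492 621) (node 587 (merge (leaf 5 491 619) (node 555 (merge (leaf 5 459 460) (node 554 (merge (leaf 0 553 553) (leaf 3 554 590))))))))))) (merge (node 493 (merge (leaf 1 491 494) (node 588 (merge (leaf 6 492 620) (node 589 (merge (leaf 4 492 621) (node 587 (merge (leaf 5 491 619) (node 555 (merge (leaf 5 459 460) (node 554 (merge (leaf 0 553 553) (leaf 3 554 590))))))))))))) (node 555 (merge (node 587 (merge (leaf 5 459 460) (leaf 6 491 619))) (merge (node 554 (merge (leaf 2 521 553) (node 460 (merge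 (leaf 5 427 428) (node 491 (merge (leaf 5 458 586) (node 458 (merge (leaf 7 426 426) (node 457 (merge (leaf 0 456 456) (leaf 0 457 493))))))))))) (node 587 (merge (leaf 6 491 619) (node 554 (merge (leaf 2 521 553) (node 491 (merge (leaf 5 458 586) (node 490 (merge (leaf 7 458 458) (leaf 0 489 489))))))))))))))))))))))))))))))))) nP_265 cP_265 13 (by decide +kernel)
def nP_266 : ℕ := 0x100000001300000000000000080000000000000000000000000000000000000000000000000000000000000000000000000000000000000000000000000000000000000000000
def cP_266 : ℕ := 0x80000002e0000003f8000007fc000003f8000008fc00001ff8000007f000001ff800001fe000001fe000001780000000000000000000000000000000000000000000000000000000000000000000000000000000000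
theorem lP_266 : S nP_266 cP_266 16 := S_of_chk [(nP_265, cP_265, 13)] ⟨lP_265, trivial⟩ (node 492 (merge (node 460 (merge (node 428 (merge (node 397 (merge (leaf 6 396 429) (node 396 (merge (leaf 6 364 365) (leaf 4 396 493))))) (merge (node 395 (merge (leaf 7 395 427) (node 396 (merge (leaf 7 363 363) (leaf 4 396 493))))) (node 429 (merge (leaf 6 396 397) (node 427 (merge (leaf 7 395 395) (node 462 (merge (leaf 0 427 430) (leaf 3 427 461)))))))))) (merge (node 428 (merge (node 396 (merge (leaf 4 396 493) (node 523 (merge (leaf 5 395 491) (leaf 5 427 555))))) (merge (node 395 (merge (leaf 7 395 427) (node 396 (merge (leaf 7 363 363) (leaf 4 396 493))))) (node 427 (merge (leaf 7 395 395) (node 556 (merge (leaf 7 427 459) (node 555 (merge (leaf 5 427 523) (leaf 5 459 587)))))))))) (merge (node 428 (merge (node 429 (merge (leaf 6 396 397) (node 556 (merge (leaf 6 428 461) (node 555 (merge (leaf 5 427 523) (leaf 5 459 587))))))) (merge (node 429 (merge (leaf 6 396 397) (node 427 (merge (leaf 7 395 395) (node 462 (merge (leaf 0 427 430) (leaf 3 427 461))))))) (node 427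 (merge (leaf 7 395 395) (node 556 (merge (leaf 7 427 459) (node 555 (merge (leaf 5 427 523) (leaf 5 459 587)))))))))) (node 461 (merge (node 429 (merge (leaf 6 428 556) (node 397 (merge (leaf 5 364 365) (leaf 5 396 493))))) (node 462 (merge (leaf 1 459 491) (node 495 (merge (leaf 0 460 496) (node 431 (merge (leaf 2 428 432) (leaf 4 431 527))))))))))))) (merge (node 460 (merge (node 557 (merge (leaf 4 428 428) (node 589 (merge (leaf 7 460 493) (leaf 7 492 621))))) (merge (node 557 (merge (leaf 4 428 428) (node 589 (merge (leaf 4 460 556) (leaf 7 492 621))))) (node 459 (merge (node 427 (merge (leaf 7 427 556) (node 395 (merge (leaf 4 363 363) (leaf 4 395 491))))) (merge (node 556 (merge (leaf 7 427 427) (node 587 (merge (leaf 5 459 555) (node 588 (merge (leaf 5 491 619) (node 493 (merge (leaf 6 460 461) (leaf 6 492 620))))))))) (merge (node 458 (merge (node 493 (merge (leaf 0 457 457) (node 494 (merge (leaf 0 458 461) (leaf 3 458 491))))) (merge (node 457 (merge (leaf 0 457 493) (node 488 (merge (leaf 1 456 489) (node 456 (merge (leaf 1 455 487) (node 424 (merge (leaf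 3 423 423) (leaf 3 424 425))))))))) (merge (node 457 (merge (node 489 (merge (leaf 1 456 488) (node 490 (merge (leaf 1 457 461) (leaf 0 489 491))))) (merge (node 456 (merge (leaf 0 456 491) (node 424 (merge (leaf 3 423 423) (leaf 3 424 425))))) (node 489 (merge (leaf 1 456 488) (node 461 (merge (leaf 1 457 490) (node 425 (merge (leaf 3 424 424) (leaf 3 425 426)))))))))) (node 556 (merge (node 461 (merge (leaf 6 428 429) (node 493 (merge (leaf 0 458 494) (leaf 6 460 588))))) (merge (node 588 (merge (leaf 7 459 491) (node 587 (merge (leaf 5 459 555) (leaf 5 491 619))))) (node 461 (merge (leaf 6 428 429) (node 490 (merge (leaf 1 457 489) (node 426 (merge (leaf 3 425 425) (node 555 (merge (leaf 5 459 587) (node 523 (merge (leaf 7 426 491) (leaf 4 426 522)))))))))))))))))) (node 458 (merge (node 493 (merge (leaf 0 457 457) (node 494 (merge (leaf 0 458 461) (leaf 3 458 491))))) (merge (node 457 (merge (leaf 0 457 493) (node 488 (merge (leaf 1 456 489) (node 456 (merge (leaf 1 455 487) (node 424 (merge (leaf 3 423 423) (leaf 3 424 425))))))))) (merge (node 457 (merge (node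 489 (merge (leaf 1 456 488) (node 490 (merge (leaf 1 457 461) (leaf 0 489 491))))) (merge (node 456 (merge (leaf 0 456 491) (node 424 (merge (leaf 3 423 423) (leaf 3 424 425))))) (node 489 (merge (leaf 1 456 488) (node 461 (merge (leaf 1 457 490) (node 425 (merge (leaf 3 424 424) (leaf 3 425 426)))))))))) (node 426 (merge (node 425 (merge (leaf 3 425 461) (node 424 (merge (leaf 0 423 423) (leaf 0 424 427))))) (merge (node 461 (merge (leaf 3 425 425) (node 493 (merge (leaf 0 458 494) (node 429 (merge (leaf 5 396 397) (leaf 2 426 430))))))) (node 491 (merge (node 394 (merge (leaf 4 362 362) (node 427 (merge (leaf 4 395 395) (leaf 7 394 523))))) (merge (node 490 (merge (leaf 0 489 489) (node 523 (merge (leaf 4 394 394) (leaf 7 426 555))))) (node 490 (merge (leaf 0 489 489) (node 493 (merge (leaf 3 458 494) (node 522 (merge (leaf 1 489 521) (node 427 (merge (leaf 6 394 395) (leaf 6 426 554)))))))))))))))))))))))))) (merge (node 493 (merge (node 495 (merge (node 494 (merge (leaf 1 492 496) (leaf 1 491 523))) (merge (node 527 (merge (leaf 4 431 431) (leaf 0 492 494))) (node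 431 (merge (leaf 4 431 527) (node 399 (merge (leaf 4 399 496) (node 368 (merge (leaf 6 367 400) (node 367 (merge (leaf 6 335 336) (node 366 (merge (leaf 7 334 334) (leaf 7 366 398)))))))))))))) (merge (node 491 (merge (node 490 (merge (leaf 0 489 489) (node 462 (merge (leaf 2 458 461) (leaf 2 459 494))))) (merge (node 494 (merge (leaf 2 459 462) (node 523 (merge (leaf 1 490 522) (node 459 (merge (leaf 3 458 458) (node 427 (merge (leaf 4 395 395) (leaf 4 427 556))))))))) (merge (node 490 (merge (leaf 0 489 489) (node 458 (merge (leaf 3 457 457) (node 459 (merge (leaf 3 458 494) (node 556 (merge (leaf 7 459 588) (node 427 (merge (leaf 4 395 395) (leaf 4 427 523))))))))))) (node 490 (merge (leaf 0 489 489) (node 461 (merge (leaf 2 458 462) (node 556 (merge (leaf 5 428 429) (leaf 6 460 588))))))))))) (node 460 (merge (node 428 (merge (leaf 4 396 396) (node 429 (merge (leaf 6 396 397) (node 427 (merge (leaf 7 395 395) (node 462 (merge (leaf 0 427 430) (leaf 3 427 461))))))))) (merge (node 428 (merge (leaf 4 396 396) (node 427 (merge (leaf 7 395 395) (node 556 (merge (leaf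 7 427 459) (node 461 (merge (leaf 3 427 462) (leaf 6 460 588))))))))) (merge (node 428 (merge (leaf 4 396 396) (node 429 (merge (leaf 6 396 397) (node 556 (merge (leaf 6 428 461) (node 427 (merge (leaf 7 395 395) (leaf 7 427 459))))))))) (merge (node 428 (merge (leaf 4 396 396) (node 429 (merge (leaf 6 396 397) (node 427 (merge (leaf 7 395 395) (node 430 (merge (leaf 0 427 462) (node 459 (merge (leaf 1 426 458) (leaf 7 427 556))))))))))) (node 461 (merge (node 429 (merge (leaf 6 428 556) (node 397 (merge (leaf 5 364 365) (leaf 5 396 493))))) (node 462 (merge (leaf 1 459 491) (node 495 (merge (leaf 0 460 496) (node 431 (merge (leaf 2 428 432) (leaf 4 431 527))))))))))))))))) (merge (node 493 (merge (node 495 (merge (node 494 (merge (leaf 1 492 496) (leaf 1 491 523))) (merge (node 527 (merge (leaf 4 431 431) (leaf 0 492 494))) (node 431 (merge (leaf 4 431 527) (node 399 (merge (leaf 4 399 496) (node 368 (merge (leaf 6 367 400) (node 367 (merge (leaf 6 335 336) (node 366 (merge (leaf 7 334 334) (leaf 7 366 398)))))))))))))) (merge (node 494 (merge (node 495 (merge (leaf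 1 492 496) (node 527 (merge (leaf 4 431 431) (leaf 0 492 492))))) (node 491 (merge (leaf 2 459 462) (node 490 (merge (leaf 0 489 489) (node 458 (merge (leaf 3 457 457) (leaf 3 458 459))))))))) (merge (node 491 (merge (node 490 (merge (leaf 0 489 489) (node 522 (merge (leaf 1 489 521) (node 494 (merge (leaf 1 490 523) (node 458 (merge (leaf 3 457 457) (leaf 3 458 459))))))))) (merge (node 462 (merge (leaf 2 459 494) (node 461 (merge (leaf 1 459 460) (node 429 (merge (leaf 5 396 397) (leaf 5 428 556))))))) (node 490 (merge (leaf 0 489 489) (node 461 (merge (leaf 2 458 462) (node 429 (merge (leaf 5 396 397) (leaf 5 428 556)))))))))) (node 460 (merge (node 428 (merge (leaf 4 396 396) (node 555 (merge (leaf 5 427 523) (node 556 (merge (leaf 5 459 587) (node 588 (merge (leaf 6 460 461) (leaf 6 492 620))))))))) (merge (node 461 (merge (node 429 (merge (leaf 6 428 556) (node 397 (merge (leaf 5 364 365) (leaf 5 396 493))))) (node 462 (merge (leaf 1 459 491) (node 495 (merge (leaf 0 460 496) (node 431 (merge (leaf 2 428 432) (leaf 4 431 527))))))))) (merge (node 461 (merge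 (node 462 (merge (leaf 1 459 491) (node 495 (merge (leaf 0 460 496) (node 431 (merge (leaf 2 428 432) (leaf 4 431 527))))))) (merge (node 428 (merge (leaf 4 396 396) (node 429 (merge (leaf 6 396 397) (node 430 (merge (leaf 6 397 398) (node 431 (merge (leaf 1 428 432) (leaf 1 427 459))))))))) (node 491 (merge (leaf 1 459 462) (node 490 (merge (leaf 0 489 489) (node 458 (merge (leaf 3 457 457) (node 429 (merge (leaf 5 396 397) (node 430 (merge (leaf 6 397 398) (leaf 2 426 459)))))))))))))) (node 428 (merge (leaf 4 396 396) (node 429 (merge (leaf 6 396 397) (node 555 (merge (leaf 5 427 523) (node 556 (merge (leaf 5 459 587) (node 588 (merge (leaf 6 492 620) (node 459 (merge (leaf 7 459 491) (node 431 (merge (leaf 1 427 430) (node 495 (merge (leaf 4 431 527) (node 399 (merge (leaf 4 399 496) (node 368 (merge (leaf 6 367 400) (node 367 (merge (leaf 6 335 336) (node 366 (merge (leaf 7 334 334) (leaf 7 366 398))))))))))))))))))))))))))))))))) (merge (node 493 (merge (node 495 (merge (node 494 (merge (leaf 1 492 496) (leaf 1 491 523))) (merge (node 527 (merge (leaf 4 431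 431) (leaf 0 492 494))) (node 431 (merge (leaf 4 431 527) (node 399 (merge (leaf 4 399 496) (node 368 (merge (leaf 6 367 400) (node 367 (merge (leaf 6 335 336) (node 366 (merge (leaf 7 334 334) (leaf 7 366 398)))))))))))))) (merge (node 491 (merge (node 462 (merge (leaf 2 459 494) (node 461 (merge (leaf 1 459 460) (node 429 (merge (leaf 5 396 397) (leaf 5 428 556))))))) (merge (node 490 (merge (leaf 0 489 489) (node 461 (merge (leaf 2 458 462) (node 429 (merge (leaf 5 396 397) (leaf 5 428 556))))))) (node 490 (merge (leaf 0 489 489) (node 522 (merge (leaf 1 489 521) (node 523 (merge (leaf 1 490 494) (node 458 (merge (leaf 3 457 457) (node 426 (merge (leaf 4 394 394) (leaf 4 426 555)))))))))))))) (merge (node 495 (merge (node 527 (merge (leaf 4 431 431) (leaf 0 492 494))) (merge (node 431 (merge (leaf 4 431 527) (node 399 (merge (leaf 4 399 496) (node 368 (merge (leaf 6 367 400) (node 367 (merge (leaf 6 335 336) (node 366 (merge (leaf 7 334 334) (leaf 7 366 398))))))))))) (node 429 (merge (node 461 (merge (leaf 5 396 397) (leaf 5 428 556))) (merge (node 494 (merge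 (leaf 1 492 496) (node 462 (merge (leaf 2 459 491) (node 430 (merge (leaf 5 397 398) (node 428 (merge (leaf 0 427 427) (node 460 (merge (leaf 4 396 396) (leaf 6 396 397))))))))))) (node 496 (merge (leaf 1 492 494) (node 461 (merge (leaf 5 428 556) (node 430 (merge (leaf 6 397 398) (node 462 (merge (leaf 0 460 460) (node 428 (merge (leaf 7 396 396) (leaf 0 427 427))))))))))))))))) (node 461 (merge (node 429 (merge (leaf 5 428 556) (node 398 (merge (leaf 6 397 430) (node 397 (merge (leaf 6 365 366) (leaf 5 396 492))))))) (merge (node 460 (merge (node 556 (merge (leaf 6 460 588) (node 428 (merge (leaf 4 396 396) (node 555 (merge (leaf 5 427 523) (leaf 5 459 587))))))) (node 462 (merge (leaf 1 459 491) (node 495 (merge (leaf 0 460 496) (node 431 (merge (leaf 2 428 432) (leaf 4 431 527))))))))) (node 460 (merge (node 462 (merge (leaf 1 459 491) (node 495 (merge (leaf 0 460 496) (node 431 (merge (leaf 2 428 432) (leaf 4 431 527))))))) (merge (node 428 (merge (leaf 4 396 396) (node 429 (merge (leaf 6 396 397) (node 427 (merge (leaf 7 395 395) (node 462 (merge (leaf 0 427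 430) (leaf 3 427 461))))))))) (node 428 (merge (leaf 4 396 396) (node 429 (merge (leaf 6 396 397) (node 430 (merge (leaf 6 397 398) (node 431 (merge (leaf 1 428 432) (node 399 (merge (leaf 2 396 400) (node 495 (merge (leaf 4 399 496) (leaf 4 431 527))))))))))))))))))))))) (merge (node 493 (merge (node 494 (merge (node 495 (merge (leaf 1 492 496) (node 527 (merge (leaf 4 431 431) (leaf 0 492 492))))) (node 491 (merge (leaf 2 459 462) (node 490 (merge (leaf 0 489 489) (node 458 (merge (leaf 3 457 457) (leaf 3 458 459))))))))) (merge (node 491 (merge (node 462 (merge (leaf 2 459 494) (node 461 (merge (leaf 1 459 460) (node 429 (merge (leaf 5 396 397) (leaf 5 428 556))))))) (merge (node 490 (merge (leaf 0 489 489) (node 461 (merge (leaf 2 458 462) (node 429 (merge (leaf 5 396 397) (leaf 5 428 556))))))) (node 490 (merge (leaf 0 489 489) (node 522 (merge (leaf 1 489 521) (node 458 (merge (leaf 3 457 457) (node 459 (merge (leaf 3 458 494) (node 427 (merge (leaf 4 395 395) (leaf 6 426 554)))))))))))))) (merge (node 460 (merge (node 428 (merge (leaf 4 396 396) (node 427 (merge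 (leaf 7 395 395) (node 556 (merge (leaf 7 427 459) (node 461 (merge (leaf 3 427 462) (leaf 6 460 588))))))))) (merge (node 428 (merge (leaf 4 396 396) (node 429 (merge (leaf 6 396 397) (node 556 (merge (leaf 6 428 461) (node 427 (merge (leaf 7 395 395) (leaf 7 427 459))))))))) (merge (node 428 (merge (leaf 4 396 396) (node 429 (merge (leaf 6 396 397) (node 427 (merge (leaf 7 395 395) (node 462 (merge (leaf 0 427 430) (leaf 3 427 461))))))))) (merge (node 428 (merge (leaf 4 396 396) (node 429 (merge (leaf 6 396 397) (node 427 (merge (leaf 7 395 395) (node 430 (merge (leaf 0 427 462) (node 459 (merge (leaf 1 426 458) (leaf 7 427 556))))))))))) (node 461 (merge (node 429 (merge (leaf 6 428 556) (node 397 (merge (leaf 5 364 365) (leaf 5 396 493))))) (node 462 (merge (leaf 1 459 491) (node 495 (merge (leaf 0 460 496) (node 431 (merge (leaf 2 428 432) (leaf 4 431 527)))))))))))))) (merge (node 495 (merge (node 527 (merge (leaf 4 431 431) (leaf 0 492 494))) (merge (node 431 (merge (leaf 4 431 527) (node 399 (merge (leaf 4 399 496) (node 368 (merge (leaf 6 367 400) (node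 367 (merge (leaf 6 335 336) (node 366 (merge (leaf 7 334 334) (leaf 7 366 398))))))))))) (node 494 (merge (leaf 1 492 496) (node 460 (merge (leaf 3 459 459) (node 428 (merge (leaf 4 396 396) (node 429 (merge (leaf 6 396 397) (node 556 (merge (leaf 6 428 461) (node 588 (merge (leaf 6 492 620) (node 587 (merge (leaf 5 459 555) (leaf 5 491 619)))))))))))))))))) (node 495 (merge (node 527 (merge (leaf 4 431 431) (leaf 0 492 494))) (merge (node 431 (merge (leaf 4 431 527) (node 399 (merge (leaf 4 399 496) (node 368 (merge (leaf 6 367 400) (node 367 (merge (leaf 6 335 336) (node 366 (merge (leaf 7 334 334) (leaf 7 366 398))))))))))) (node 429 (merge (node 461 (merge (leaf 5 396 397) (leaf 5 428 556))) (merge (node 494 (merge (leaf 1 492 496) (node 462 (merge (leaf 2 459 491) (node 430 (merge (leaf 5 397 398) (node 428 (merge (leaf 0 427 427) (node 460 (merge (leaf 4 396 396) (leaf 6 396 397))))))))))) (node 496 (merge (leaf 1 492 494) (node 461 (merge (leaf 5 428 556) (node 430 (merge (leaf 6 397 398) (node 462 (merge (leaf 0 460 460) (node 428 (merge (leaf 7 396 396) (leaf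 0 427 427)))))))))))))))))))))) (merge (node 493 (merge (node 495 (merge (node 494 (merge (leaf 1 492 496) (leaf 1 491 523))) (merge (node 527 (merge (leaf 4 431 431) (leaf 0 492 494))) (node 431 (merge (leaf 4 431 527) (node 399 (merge (leaf 4 399 496) (node 368 (merge (leaf 6 367 400) (node 367 (merge (leaf 6 335 336) (node 366 (merge (leaf 7 334 334) (leaf 7 366 398)))))))))))))) (merge (node 460 (merge (node 428 (merge (leaf 4 396 396) (node 523 (merge (leaf 5 427 555) (node 522 (merge (leaf 2 490 494) (leaf 2 489 521))))))) (merge (node 428 (merge (leaf 4 396 396) (node 429 (merge (leaf 6 396 397) (node 461 (merge (leaf 6 428 556) (node 427 (merge (leaf 7 395 395) (leaf 3 427 462))))))))) (node 556 (merge (node 588 (merge (leaf 6 492 620) (node 587 (merge (leaf 5 459 555) (leaf 5 491 619))))) (node 461 (merge (leaf 6 428 429) (node 459 (merge (leaf 7 427 427) (node 458 (merge (leaf 0 457 457) (leaf 0 458 494)))))))))))) (merge (node 495 (merge (node 527 (merge (leaf 4 431 431) (leaf 0 492 494))) (merge (node 431 (merge (leaf 4 431 527) (node 399 (merge (leaf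 4 399 496) (node 368 (merge (leaf 6 367 400) (node 367 (merge (leaf 6 335 336) (node 366 (merge (leaf 7 334 334) (leaf 7 366 398))))))))))) (node 494 (merge (leaf 1 492 496) (node 460 (merge (leaf 3 459 459) (node 428 (merge (leaf 4 396 396) (node 429 (merge (leaf 6 396 397) (node 556 (merge (leaf 6 428 461) (node 588 (merge (leaf 6 492 620) (node 587 (merge (leaf 5 459 555) (leaf 5 491 619)))))))))))))))))) (node 460 (merge (node 428 (merge (leaf 4 396 396) (node 555 (merge (leaf 5 427 523) (node 556 (merge (leaf 5 459 587) (node 588 (merge (leaf 6 460 461) (leaf 6 492 620))))))))) (merge (node 428 (merge (leaf 4 396 396) (node 429 (merge (leaf 6 396 397) (node 427 (merge (leaf 7 395 395) (node 462 (merge (leaf 0 427 430) (leaf 3 427 461))))))))) (merge (node 428 (merge (leaf 4 396 396) (node 429 (merge (leaf 6 396 397) (node 427 (merge (leaf 7 395 395) (node 430 (merge (leaf 0 427 462) (node 459 (merge (leaf 1 426 458) (leaf 7 427 556))))))))))) (node 431 (merge (node 495 (merge (leaf 4 431 527) (node 399 (merge (leaf 4 399 496) (node 368 (merge (leaf 6 367 400)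 (node 367 (merge (leaf 6 335 336) (node 366 (merge (leaf 7 334 334) (leaf 7 366 398))))))))))) (node 556 (merge (node 588 (merge (leaf 6 492 620) (node 587 (merge (leaf 5 459 555) (leaf 5 491 619))))) (node 461 (merge (leaf 6 428 429) (node 459 (merge (leaf 7 427 427) (node 462 (merge (leaf 2 427 430) (leaf 2 428 432))))))))))))))))))) (merge (node 493 (merge (node 494 (merge (node 495 (merge (leaf 1 492 496) (node 527 (merge (leaf 4 431 431) (leaf 0 492 492))))) (node 491 (merge (leaf 2 459 462) (node 490 (merge (leaf 0 489 489) (node 458 (merge (leaf 3 457 457) (leaf 3 458 459))))))))) (merge (node 495 (merge (node 494 (merge (leaf 1 492 496) (leaf 1 491 523))) (merge (node 527 (merge (leaf 4 431 431) (leaf 0 492 494))) (node 431 (merge (leaf 4 431 527) (node 399 (merge (leaf 4 399 496) (node 368 (merge (leaf 6 367 400) (node 367 (merge (leaf 6 335 336) (node 366 (merge (leaf 7 334 334) (leaf 7 366 398)))))))))))))) (merge (node 491 (merge (node 490 (merge (leaf 0 489 489) (node 462 (merge (leaf 2 458 461) (leaf 2 459 494))))) (merge (node 494 (merge (leaf 2 459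 462) (node 523 (merge (leaf 1 490 522) (node 459 (merge (leaf 3 458 458) (node 427 (merge (leaf 4 395 395) (leaf 4 427 556))))))))) (merge (node 490 (merge (leaf 0 489 489) (node 458 (merge (leaf 3 457 457) (node 459 (merge (leaf 3 458 494) (node 556 (merge (leaf 7 459 588) (node 427 (merge (leaf 4 395 395) (leaf 4 427 523))))))))))) (node 490 (merge (leaf 0 489 489) (node 461 (merge (leaf 2 458 462) (node 556 (merge (leaf 5 428 429) (leaf 6 460 588))))))))))) (node 460 (merge (node 428 (merge (leaf 4 396 396) (node 555 (merge (leaf 5 427 523) (node 556 (merge (leaf 5 459 587) (node 588 (merge (leaf 6 460 461) (leaf 6 492 620))))))))) (merge (node 428 (merge (leaf 4 396 396) (node 427 (merge (leaf 7 395 395) (node 556 (merge (leaf 7 427 459) (node 461 (merge (leaf 6 428 429) (leaf 3 427 462))))))))) (merge (node 428 (merge (leaf 4 396 396) (node 555 (merge (leaf 5 427 523) (node 556 (merge (leaf 5 459 587) (node 588 (merge (leaf 6 492 620) (node 459 (merge (leaf 7 427 427) (leaf 7 459 491))))))))))) (merge (node 556 (merge (node 461 (merge (leaf 6 428 429) (node 588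 (merge (leaf 6 460 493) (node 587 (merge (leaf 5 459 555) (leaf 5 491 619))))))) (merge (node 461 (merge (leaf 6 428 429) (node 459 (merge (leaf 7 427 427) (node 491 (merge (leaf 1 459 462) (leaf 7 459 588))))))) (merge (node 459 (merge (leaf 7 427 427) (node 588 (merge (leaf 7 459 491) (node 587 (merge (leaf 5 459 555) (leaf 5 491 619))))))) (node 461 (merge (leaf 6 428 429) (node 462 (merge (leaf 1 459 491) (node 495 (merge (leaf 0 460 496) (node 431 (merge (leaf 2 428 432) (leaf 4 431 527))))))))))))) (node 428 (merge (leaf 4 396 396) (node 427 (merge (leaf 7 395 395) (node 523 (merge (leaf 5 427 555) (node 522 (merge (leaf 2 489 521) (node 554 (merge (leaf 1 521 553) (node 490 (merge (leaf 3 489 489) (node 459 (merge (leaf 6 426 458) (leaf 5 426 491)))))))))))))))))))))))) (merge (node 493 (merge (node 494 (merge (node 495 (merge (leaf 1 492 496) (leaf 0 492 527))) (node 491 (merge (leaf 2 459 462) (node 490 (merge (leaf 0 489 489) (node 458 (merge (leaf 3 457 457) (leaf 3 458 459))))))))) (merge (node 495 (merge (node 494 (merge (leaf 1 492 496) (leaf 1 491 523)))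 (merge (node 527 (merge (leaf 4 431 431) (leaf 0 492 494))) (node 431 (merge (leaf 4 431 527) (node 399 (merge (leaf 4 399 496) (node 368 (merge (leaf 6 367 400) (node 367 (merge (leaf 6 335 336) (node 366 (merge (leaf 7 334 334) (leaf 7 366 398)))))))))))))) (merge (node 431 (merge (node 495 (merge (leaf 4 431 527) (node 399 (merge (leaf 4 399 496) (node 368 (merge (leaf 6 367 400) (node 367 (merge (leaf 6 335 336) (node 366 (merge (leaf 7 334 334) (leaf 7 366 398))))))))))) (merge (node 460 (merge (node 428 (merge (leaf 4 396 396) (node 429 (merge (leaf 6 396 397) (node 427 (merge (leaf 7 395 395) (node 462 (merge (leaf 0 427 430) (leaf 3 427 461))))))))) (merge (node 428 (merge (leaf 4 396 396) (node 429 (merge (leaf 6 396 397) (node 430 (merge (leaf 1 427 459) (node 461 (merge (leaf 6 397 398) (leaf 1 428 432))))))))) (merge (node 428 (merge (leaf 4 396 396) (node 429 (merge (leaf 6 396 397) (node 427 (merge (leaf 7 395 395) (node 430 (merge (leaf 1 427 459) (leaf 0 427 462))))))))) (merge (node 461 (merge (node 462 (merge (leaf 2 428 432) (leaf 1 459 491))) (merge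 (node 429 (merge (leaf 5 396 397) (node 430 (merge (leaf 6 397 398) (leaf 1 428 432))))) (node 491 (merge (leaf 1 459 462) (node 490 (merge (leaf 0 489 489) (node 458 (merge (leaf 3 457 457) (node 429 (merge (leaf 5 396 397) (node 430 (merge (leaf 6 397 398) (leaf 2 426 459)))))))))))))) (node 428 (merge (leaf 4 396 396) (node 427 (merge (leaf 7 395 395) (node 523 (merge (leaf 5 427 555) (node 522 (merge (leaf 2 489 521) (node 554 (merge (leaf 1 521 553) (node 490 (merge (leaf 3 489 489) (node 459 (merge (leaf 6 426 458) (leaf 5 426 491)))))))))))))))))))) (node 428 (merge (node 495 (merge (leaf 4 431 527) (node 399 (merge (leaf 4 399 496) (node 400 (merge (leaf 6 367 368) (node 429 (merge (leaf 2 396 430) (node 461 (merge (leaf 7 396 396) (leaf 5 396 397))))))))))) (merge (node 495 (merge (leaf 4 431 527) (node 399 (merge (leaf 4 399 496) (node 400 (merge (leaf 6 367 368) (node 429 (merge (leaf 2 396 430) (node 397 (merge (leaf 6 396 460) (leaf 5 396 461))))))))))) (merge (node 460 (merge (leaf 4 396 396) (node 429 (merge (leaf 6 396 397) (node 427 (merge (leaf 7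 395 395) (node 430 (merge (leaf 0 427 462) (node 399 (merge (leaf 2 396 400) (node 495 (merge (leaf 4 399 496) (leaf 4 431 527))))))))))))) (node 460 (merge (leaf 4 396 396) (node 427 (merge (leaf 7 395 395) (node 523 (merge (leaf 5 427 555) (node 522 (merge (leaf 2 489 521) (node 554 (merge (leaf 1 521 553) (node 490 (merge (leaf 3 489 489) (node 459 (merge (leaf 6 426 458) (leaf 5 426 491)))))))))))))))))))))) (node 491 (merge (node 490 (merge (leaf 0 489 489) (node 522 (merge (leaf 1 489 521) (node 494 (merge (leaf 1 490 523) (node 458 (merge (leaf 3 457 457) (leaf 3 458 459))))))))) (merge (node 462 (merge (leaf 2 459 494) (node 461 (merge (leaf 1 459 460) (node 429 (merge (leaf 5 396 397) (node 430 (merge (leaf 6 397 398) (node 428 (merge (leaf 7 396 396) (leaf 0 427 427))))))))))) (node 523 (merge (node 522 (merge (leaf 2 489 521) (node 554 (merge (leaf 1 521 553) (node 586 (merge (leaf 6 490 618) (node 459 (merge (leaf 5 426 427) (leaf 6 458 490))))))))) (merge (node 490 (merge (leaf 0 489 489) (node 522 (merge (leaf 1 489 521) (node 458 (merge (leaf 3 457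 457) (node 426 (merge (leaf 4 394 394) (leaf 4 426 555))))))))) (merge (node 522 (merge (leaf 2 489 521) (node 554 (merge (leaf 1 521 553) (node 586 (merge (leaf 6 490 618) (node 459 (merge (leaf 5 426 427) (leaf 5 458 555))))))))) (node 490 (merge (leaf 0 489 489) (node 458 (merge (leaf 3 457 457) (node 555 (merge (leaf 7 458 587) (node 426 (merge (leaf 4 394 394) (leaf 7 426 459)))))))))))))))))))) (merge (node 495 (merge (node 431 (merge (leaf 4 431 527) (node 399 (merge (leaf 4 399 496) (node 368 (merge (leaf 6 367 400) (node 367 (merge (leaf 6 335 336) (node 366 (merge (leaf 7 334 334) (leaf 7 366 398))))))))))) (merge (node 556 (merge (node 493 (merge (node 588 (merge (leaf 6 460 461) (leaf 6 492 620))) (node 494 (merge (leaf 1 492 496) (leaf 1 491 523))))) (merge (node 588 (merge (node 620 (merge (leaf 6 492 493) (node 619 (merge (leaf 5 491 587) (leaf 5 523 651))))) (merge (node 620 (merge (leaf 6 492 493) (node 621 (merge (leaf 4 492 589) (leaf 4 524 653))))) (node 589 (merge (leaf 4 492 621) (node 587 (merge (leaf 5 491 619) (node 555 (merge (leaf 5 459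 460) (node 554 (merge (leaf 0 553 553) (leaf 3 554 590)))))))))))) (merge (node 588 (merge (node 491 (merge (leaf 7 459 459) (node 620 (merge (leaf 7 491 523) (node 619 (merge (leaf 5 491 587) (leaf 5 523 651))))))) (merge (node 491 (merge (leaf 7 459 459) (node 620 (merge (leaf 7 491 523) (node 621 (merge (leaf 4 492 589) (leaf 4 524 653))))))) (node 589 (merge (leaf 4 492 621) (node 587 (merge (leaf 5 491 619) (node 555 (merge (leaf 5 459 460) (node 554 (merge (leaf 0 553 553) (leaf 3 554 590)))))))))))) (node 461 (merge (node 429 (merge (leaf 6 428 460) (leaf 5 428 493))) (merge (node 493 (merge (leaf 5 428 429) (node 494 (merge (leaf 1 492 496) (leaf 1 491 523))))) (merge (node 460 (merge (leaf 6 428 429) (node 462 (merge (leaf 1 459 491) (leaf 0 460 496))))) (node 460 (merge (node 462 (merge (leaf 1 459 491) (leaf 0 460 496))) (merge (node 462 (merge (leaf 0 460 496) (node 494 (merge (leaf 0 459 459) (node 493 (merge (leaf 1 491 523) (leaf 0 492 527))))))) (node 459 (merge (leaf 7 427 427) (node 493 (merge (leaf 3 459 494) (node 458 (merge (leaf 0 457 457) (node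 490 (merge (leaf 1 457 489) (node 426 (merge (leaf 3 425 425) (node 555 (merge (leaf 5 459 587) (node 523 (merge (leaf 7 426 491) (leaf 4 426 522)))))))))))))))))))))))))) (merge (node 556 (merge (node 527 (merge (leaf 4 431 431) (node 493 (merge (leaf 0 492 494) (node 461 (merge (leaf 5 428 429) (leaf 6 460 588))))))) (merge (node 588 (merge (node 491 (merge (leaf 7 459 459) (node 620 (merge (leaf 7 491 523) (node 619 (merge (leaf 5 491 587) (leaf 5 523 651))))))) (merge (node 491 (merge (leaf 7 459 459) (node 620 (merge (leaf 7 491 523) (node 621 (merge (leaf 4 492 589) (leaf 4 524 653))))))) (node 589 (merge (leaf 4 492 621) (node 587 (merge (leaf 5 491 619) (node 555 (merge (leaf 5 459 460) (node 554 (merge (leaf 0 553 553) (leaf 3 554 590)))))))))))) (node 461 (merge (node 429 (merge (leaf 6 428 460) (leaf 5 428 493))) (merge (node 527 (merge (leaf 4 431 431) (node 493 (merge (leaf 0 492 494) (node 429 (merge (leaf 5 396 397) (leaf 5 428 556))))))) (merge (node 460 (merge (leaf 6 428 429) (node 462 (merge (leaf 1 459 491) (node 431 (merge (leaf 2 428 432) (leaf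 4 431 527))))))) (node 460 (merge (node 459 (merge (leaf 7 427 427) (node 494 (merge (leaf 0 459 462) (leaf 3 459 493))))) (merge (node 462 (merge (leaf 1 459 491) (node 431 (merge (leaf 2 428 432) (leaf 4 431 527))))) (node 459 (merge (leaf 7 427 427) (node 493 (merge (leaf 3 459 494) (node 458 (merge (leaf 0 457 457) (node 490 (merge (leaf 1 457 489) (node 426 (merge (leaf 3 425 425) (node 555 (merge (leaf 5 459 587) (node 523 (merge (leaf 7 426 491) (leaf 4 426 522))))))))))))))))))))))))) (node 556 (merge (node 493 (merge (node 588 (merge (leaf 6 460 461) (leaf 6 492 620))) (node 494 (merge (leaf 1 492 496) (leaf 1 491 523))))) (merge (node 588 (merge (node 620 (merge (leaf 6 492 493) (node 619 (merge (leaf 5 491 587) (leaf 5 523 651))))) (merge (node 620 (merge (leaf 6 492 493) (node 621 (merge (leaf 4 492 589) (leaf 4 524 653))))) (node 589 (merge (leaf 4 492 621) (node 587 (merge (leaf 5 491 619) (node 555 (merge (leaf 5 459 460) (node 554 (merge (leaf 0 553 553) (leaf 3 554 590)))))))))))) (merge (node 588 (merge (node 491 (merge (leaf 7 459 459) (node 620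 (merge (leaf 7 491 523) (node 619 (merge (leaf 5 491 587) (leaf 5 523 651))))))) (merge (node 491 (merge (leaf 7 459 459) (node 620 (merge (leaf 7 491 523) (node 621 (merge (leaf 4 492 589) (leaf 4 524 653))))))) (node 589 (merge (leaf 4 492 621) (node 587 (merge (leaf 5 491 619) (node 555 (merge (leaf 5 459 460) (node 554 (merge (leaf 0 553 553) (leaf 3 554 590)))))))))))) (node 461 (merge (node 429 (merge (leaf 6 428 460) (leaf 5 428 493))) (merge (node 493 (merge (leaf 5 428 429) (node 494 (merge (leaf 1 492 496) (leaf 1 491 523))))) (merge (node 460 (merge (leaf 6 428 429) (node 462 (merge (leaf 1 459 491) (leaf 0 460 496))))) (node 460 (merge (node 462 (merge (leaf 1 459 491) (leaf 0 460 496))) (merge (node 462 (merge (leaf 0 460 496) (node 459 (merge (leaf 0 459 494) (node 431 (merge (leaf 2 427 430) (leaf 2 428 432))))))) (node 459 (merge (leaf 7 427 427) (node 493 (merge (leaf 3 459 494) (node 458 (merge (leaf 0 457 457) (node 490 (merge (leaf 1 457 489) (node 426 (merge (leaf 3 425 425) (node 555 (merge (leaf 5 459 587) (node 523 (merge (leaf 7 426 491) (leaf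 4 426 522)))))))))))))))))))))))))))))) (merge (node 460 (merge (node 428 (merge (node 429 (merge (leaf 6 396 397) (node 556 (merge (leaf 6 428 461) (node 555 (merge (leaf 5 427 523) (leaf 5 459 587))))))) (merge (node 429 (merge (leaf 6 396 397) (node 427 (merge (leaf 7 395 395) (node 462 (merge (leaf 0 427 430) (leaf 3 427 461))))))) (node 427 (merge (leaf 7 395 395) (node 556 (merge (leaf 7 427 459) (node 555 (merge (leaf 5 427 523) (leaf 5 459 587)))))))))) (merge (node 428 (merge (node 427 (merge (leaf 7 395 395) (node 556 (merge (leaf 7 427 459) (node 461 (merge (leaf 6 428 429) (leaf 3 427 462))))))) (merge (node 395 (merge (leaf 7 395 427) (node 396 (merge (leaf 7 363 363) (node 365 (merge (leaf 6 364 397) (node 364 (merge (leaf 6 332 333) (node 491 (merge (leaf 5 363 459) (leaf 5 395 523))))))))))) (node 429 (merge (leaf 6 396 397) (node 461 (merge (leaf 6 428 556) (node 462 (merge (leaf 1 459 491) (node 495 (merge (leaf 0 460 496) (node 431 (merge (leaf 2 428 432) (leaf 4 431 527)))))))))))))) (merge (node 428 (merge (node 429 (merge (leaf 6 396 397) (node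 461 (merge (leaf 6 428 556) (node 462 (merge (leaf 3 427 427) (leaf 1 459 491))))))) (merge (node 427 (merge (leaf 7 395 395) (node 461 (merge (leaf 3 427 462) (node 556 (merge (leaf 6 428 429) (node 555 (merge (leaf 5 427 523) (leaf 5 459 587))))))))) (node 523 (merge (leaf 5 427 555) (node 396 (merge (leaf 5 395 491) (node 365 (merge (leaf 6 364 397) (node 364 (merge (leaf 6 332 333) (node 363 (merge (leaf 7 331 331) (leaf 7 363 395)))))))))))))) (merge (node 428 (merge (node 429 (merge (leaf 6 396 397) (node 556 (merge (leaf 6 428 461) (node 555 (merge (leaf 5 427 523) (leaf 5 459 587))))))) (merge (node 429 (merge (leaf 6 396 397) (node 461 (merge (leaf 6 428 556) (node 462 (merge (leaf 1 459 491) (node 495 (merge (leaf 0 460 496) (node 431 (merge (leaf 2 428 432) (leaf 4 431 527))))))))))) (merge (node 523 (merge (leaf 5 427 555) (node 491 (merge (leaf 5 395 396) (node 461 (merge (leaf 1 459 462) (node 556 (merge (leaf 6 428 429) (node 588 (merge (leaf 7 459 459) (leaf 7 491 620))))))))))) (node 523 (merge (leaf 5 427 555) (node 396 (merge (leaf 5 395 491) (node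 365 (merge (leaf 6 364 397) (node 364 (merge (leaf 6 332 333) (node 363 (merge (leaf 7 331 331) (leaf 7 363 395))))))))))))))) (merge (node 428 (merge (node 427 (merge (leaf 7 395 395) (node 556 (merge (leaf 7 427 459) (node 555 (merge (leaf 5 427 523) (leaf 5 459 587))))))) (merge (node 523 (merge (leaf 5 427 555) (node 396 (merge (leaf 5 395 491) (node 365 (merge (leaf 6 364 397) (node 364 (merge (leaf 6 332 333) (node 363 (merge (leaf 7 331 331) (leaf 7 363 395))))))))))) (merge (node 396 (merge (node 395 (merge (leaf 7 363 363) (leaf 7 395 427))) (merge (node 365 (merge (leaf 6 364 397) (node 364 (merge (leaf 6 332 333) (node 459 (merge (leaf 5 363 491) (node 427 (merge (leaf 5 331 332) (leaf 7 427 556))))))))) (node 365 (merge (leaf 6 364 397) (node 364 (merge (leaf 6 332 333) (node 363 (merge (leaf 7 331 331) (leaf 7 363 395)))))))))) (node 556 (merge (node 555 (merge (leaf 5 427 523) (leaf 5 459 587))) (merge (node 459 (merge (leaf 7 427 427) (node 588 (merge (leaf 7 459 491) (node 621 (merge (leaf 4 492 589) (node 620 (merge (leaf 4 524 653) (node 619 (merge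 (leaf 5 491 587) (leaf 5 523 651))))))))))) (node 459 (merge (leaf 7 427 427) (node 491 (merge (leaf 7 459 588) (node 523 (merge (leaf 5 395 396) (leaf 6 427 555)))))))))))))) (merge (node 428 (merge (node 397 (merge (leaf 6 396 429) (node 396 (merge (leaf 6 364 365) (node 523 (merge (leaf 5 395 491) (leaf 5 427 555))))))) (merge (node 429 (merge (leaf 6 396 397) (node 427 (merge (leaf 7 395 395) (node 462 (merge (leaf 0 427 430) (leaf 3 427 461))))))) (node 427 (merge (leaf 7 395 395) (node 461 (merge (leaf 3 427 462) (node 426 (merge (leaf 0 425 425) (node 523 (merge (leaf 5 427 555) (node 491 (merge (leaf 5 395 396) (node 490 (merge (leaf 0 489 489) (node 394 (merge (leaf 4 394 458) (leaf 7 394 459)))))))))))))))))) (node 431 (merge (node 495 (merge (leaf 4 431 527) (node 399 (merge (leaf 4 399 496) (node 368 (merge (leaf 6 367 400) (node 367 (merge (leaf 6 335 336) (node 366 (merge (leaf 7 334 334) (leaf 7 366 398))))))))))) (node 556 (merge (node 461 (merge (leaf 6 428 429) (node 462 (merge (leaf 2 428 432) (leaf 1 459 491))))) (merge (node 459 (merge (leaf 7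 427 427) (node 588 (merge (leaf 7 459 491) (node 587 (merge (leaf 5 459 555) (leaf 5 491 619))))))) (node 461 (merge (leaf 6 428 429) (node 459 (merge (leaf 7 427 427) (node 462 (merge (leaf 2 427 430) (leaf 2 428 432))))))))))))))))))) (merge (node 460 (merge (node 493 (merge (node 428 (merge (leaf 4 396 396) (node 555 (merge (leaf 5 427 523) (node 556 (merge (leaf 5 459 587) (node 588 (merge (leaf 6 460 461) (leaf 6 492 620))))))))) (node 494 (merge (node 495 (merge (leaf 1 492 496) (node 527 (merge (leaf 4 431 431) (leaf 0 492 492))))) (node 491 (merge (leaf 2 459 462) (node 490 (merge (leaf 0 489 489) (node 458 (merge (leaf 3 457 457) (leaf 3 458 459))))))))))) (merge (node 493 (merge (node 428 (merge (leaf 4 396 396) (node 523 (merge (leaf 5 427 555) (node 522 (merge (leaf 2 490 494) (leaf 2 489 521))))))) (merge (node 494 (merge (node 495 (merge (leaf 1 492 496) (node 527 (merge (leaf 4 431 431) (leaf 0 492 492))))) (node 491 (merge (leaf 2 459 462) (node 490 (merge (leaf 0 489 489) (node 458 (merge (leaf 3 457 457) (leaf 3 458 459))))))))) (node 428 (merge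 (leaf 4 396 396) (node 427 (merge (leaf 7 395 395) (node 523 (merge (leaf 5 427 555) (node 522 (merge (leaf 2 489 521) (node 554 (merge (leaf 1 521 553) (node 490 (merge (leaf 3 489 489) (node 459 (merge (leaf 6 426 458) (leaf 5 426 491)))))))))))))))))) (merge (node 493 (merge (node 428 (merge (leaf 4 396 396) (node 555 (merge (leaf 5 427 523) (node 556 (merge (leaf 5 459 587) (node 588 (merge (leaf 6 460 461) (leaf 6 492 620))))))))) (merge (node 494 (merge (node 495 (merge (leaf 1 492 496) (node 527 (merge (leaf 4 431 431) (leaf 0 492 492))))) (node 491 (merge (leaf 2 459 462) (node 490 (merge (leaf 0 489 489) (node 522 (merge (leaf 1 489 521) (leaf 1 490 523))))))))) (node 428 (merge (leaf 4 396 396) (node 427 (merge (leaf 7 395 395) (node 462 (merge (leaf 3 427 461) (node 494 (merge (leaf 2 459 491) (node 495 (merge (leaf 1 492 496) (leaf 0 492 527)))))))))))))) (merge (node 428 (merge (node 396 (merge (leaf 4 396 493) (node 365 (merge (leaf 6 364 397) (node 364 (merge (leaf 6 332 333) (node 459 (merge (leaf 5 363 491) (node 427 (merge (leaf 5 331 332) (leaf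 7 427 556))))))))))) (merge (node 396 (merge (node 395 (merge (leaf 7 363 363) (leaf 7 395 427))) (merge (node 365 (merge (leaf 6 364 397) (node 364 (merge (leaf 6 332 333) (node 459 (merge (leaf 5 363 491) (node 427 (merge (leaf 5 331 332) (leaf 7 427 556))))))))) (node 365 (merge (leaf 6 364 397) (node 364 (merge (leaf 6 332 333) (node 363 (merge (leaf 7 331 331) (leaf 7 363 395)))))))))) (merge (node 396 (merge (leaf 4 396 493) (node 365 (merge (leaf 6 364 397) (node 364 (merge (leaf 6 332 333) (node 363 (merge (leaf 7 331 331) (leaf 7 363 395))))))))) (node 427 (merge (leaf 7 395 395) (node 556 (merge (leaf 7 427 459) (node 587 (merge (leaf 5 459 555) (node 588 (merge (leaf 5 491 619) (node 493 (merge (leaf 6 460 461) (leaf 6 492 620))))))))))))))) (merge (node 428 (merge (node 427 (merge (leaf 7 395 395) (node 556 (merge (leaf 7 427 459) (node 555 (merge (leaf 5 427 523) (leaf 5 459 587))))))) (merge (node 523 (merge (leaf 5 427 555) (node 396 (merge (leaf 5 395 491) (node 365 (merge (leaf 6 364 397) (node 364 (merge (leaf 6 332 333) (node 363 (merge (leaf 7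 331 331) (leaf 7 363 395))))))))))) (merge (node 396 (merge (node 395 (merge (leaf 7 363 363) (leaf 7 395 427))) (merge (node 365 (merge (leaf 6 364 397) (node 364 (merge (leaf 6 332 333) (node 459 (merge (leaf 5 363 491) (node 427 (merge (leaf 5 331 332) (leaf 7 427 556))))))))) (node 365 (merge (leaf 6 364 397) (node 364 (merge (leaf 6 332 333) (node 363 (merge (leaf 7 331 331) (leaf 7 363 395)))))))))) (node 556 (merge (node 555 (merge (leaf 5 427 523) (leaf 5 459 587))) (merge (node 459 (merge (leaf 7 427 427) (node 588 (merge (leaf 7 459 491) (node 621 (merge (leaf 4 492 589) (node 620 (merge (leaf 4 524 653) (node 619 (merge (leaf 5 491 587) (leaf 5 523 651))))))))))) (node 459 (merge (leaf 7 427 427) (node 491 (merge (leaf 7 459 588) (node 523 (merge (leaf 5 395 396) (leaf 6 427 555)))))))))))))) (merge (node 493 (merge (node 428 (merge (leaf 4 396 396) (node 427 (merge (leaf 7 395 395) (node 556 (merge (leaf 7 427 459) (node 461 (merge (leaf 3 427 462) (leaf 6 460 588))))))))) (node 495 (merge (node 494 (merge (leaf 1 492 496) (leaf 1 491 523))) (merge (node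 527 (merge (leaf 4 431 431) (leaf 0 492 494))) (node 431 (merge (leaf 4 431 527) (node 399 (merge (leaf 4 399 496) (node 368 (merge (leaf 6 367 400) (node 367 (merge (leaf 6 335 336) (node 366 (merge (leaf 7 334 334) (leaf 7 366 398)))))))))))))))) (node 459 (merge (node 427 (merge (leaf 7 427 556) (node 395 (merge (leaf 4 363 363) (leaf 4 395 491))))) (merge (node 556 (merge (leaf 7 427 427) (node 587 (merge (leaf 5 459 555) (node 588 (merge (leaf 5 491 619) (node 493 (merge (leaf 6 460 461) (leaf 6 492 620))))))))) (merge (node 491 (merge (node 490 (merge (leaf 0 489 489) (node 556 (merge (leaf 7 459 588) (node 555 (merge (leaf 5 459 587) (node 554 (merge (leaf 2 521 553) (node 586 (merge (leaf 6 458 522) (leaf 5 458 523))))))))))) (merge (node 490 (merge (leaf 0 489 489) (node 462 (merge (leaf 1 458 461) (node 493 (merge (leaf 2 459 494) (node 458 (merge (leaf 0 457 457) (node 522 (merge (leaf 1 489 521) (node 554 (merge (leaf 6 458 586) (node 553 (merge (leaf 1 521 523) (leaf 5 457 585))))))))))))))) (merge (node 556 (merge (leaf 7 459 588) (node 555 (merge (leaf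 5 459 587) (node 554 (merge (leaf 2 521 553) (node 523 (merge (leaf 5 458 586) (node 458 (merge (leaf 7 426 426) (node 493 (merge (leaf 0 457 457) (leaf 3 458 494))))))))))))) (merge (node 490 (merge (leaf 0 489 489) (node 462 (merge (leaf 1 458 461) (node 556 (merge (leaf 7 459 588) (node 493 (merge (leaf 2 459 494) (node 522 (merge (leaf 1 489 521) (node 554 (merge (leaf 6 458 586) (node 555 (merge (leaf 2 521 553) (leaf 5 459 587))))))))))))))) (node 490 (merge (leaf 0 489 489) (node 462 (merge (leaf 1 458 461) (node 556 (merge (leaf 7 459 588) (node 493 (merge (leaf 2 459 494) (node 458 (merge (leaf 0 457 457) (node 522 (merge (leaf 1 489 521) (node 555 (merge (leaf 5 459 587) (node 426 (merge (leaf 7 426 523) (node 393 (merge (leaf 7 393 425) (node 394 (merge (leaf 7 361 361) (leaf 4 362 362)))))))))))))))))))))))))) (node 458 (merge (node 493 (merge (leaf 0 457 457) (node 494 (merge (leaf 0 458 461) (leaf 3 459 495))))) (merge (node 457 (merge (leaf 0 457 493) (node 456 (merge (leaf 0 456 491) (node 488 (merge (leaf 1 455 487) (leaf 1 456 489))))))) (merge (node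 457 (merge (node 489 (merge (leaf 1 456 488) (node 490 (merge (leaf 1 457 461) (leaf 0 489 491))))) (merge (node 456 (merge (leaf 0 456 491) (node 424 (merge (leaf 3 423 423) (leaf 3 424 425))))) (node 489 (merge (leaf 1 456 488) (node 461 (merge (leaf 1 457 490) (node 425 (merge (leaf 3 424 424) (leaf 3 425 426)))))))))) (node 426 (merge (node 425 (merge (leaf 3 425 461) (node 424 (merge (leaf 0 423 423) (leaf 0 424 427))))) (merge (node 461 (merge (leaf 3 425 425) (node 494 (merge (leaf 0 458 493) (node 462 (merge (leaf 1 459 491) (leaf 0 459 495))))))) (node 491 (merge (node 394 (merge (leaf 4 362 362) (node 427 (merge (leaf 4 395 395) (leaf 7 394 523))))) (merge (node 490 (merge (leaf 0 489 489) (node 523 (merge (leaf 4 394 394) (leaf 7 426 555))))) (node 490 (merge (leaf 0 489 489) (node 493 (merge (leaf 3 458 494) (node 522 (merge (leaf 1 489 521) (node 427 (merge (leaf 6 394 395) (leaf 6 426 554)))))))))))))))))))))))))))))) (merge (hyp 0) (node 493 (merge (node 494 (merge (node 495 (merge (leaf 1 492 496) (leaf 0 492 527))) (node 491 (merge (leaf 2 459 462)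 (node 490 (merge (leaf 0 489 489) (node 458 (merge (leaf 3 457 457) (leaf 3 458 459))))))))) (merge (node 495 (merge (node 494 (merge (leaf 1 492 496) (leaf 1 491 523))) (merge (node 527 (merge (leaf 4 431 431) (leaf 0 492 494))) (node 431 (merge (leaf 4 431 527) (node 399 (merge (leaf 4 399 496) (node 368 (merge (leaf 6 367 400) (node 367 (merge (leaf 6 335 336) (node 366 (merge (leaf 7 334 334) (leaf 7 366 398)))))))))))))) (node 490 (merge (node 491 (merge (leaf 0 489 489) (node 461 (merge (leaf 2 458 462) (node 556 (merge (leaf 5 428 429) (leaf 6 460 588))))))) (merge (node 522 (merge (node 491 (merge (leaf 0 489 489) (leaf 1 489 521))) (merge (node 521 (merge (leaf 1 489 491) (leaf 2 489 523))) (merge (node 489 (merge (leaf 0 489 491) (leaf 3 489 523))) (node 523 (merge (leaf 3 489 489) (node 553 (merge (leaf 1 521 554) (node 521 (merge (leaf 2 489 492) (leaf 1 520 552))))))))))) (merge (node 522 (merge (node 521 (merge (leaf 1 489 491) (leaf 2 489 523))) (merge (node 491 (merge (leaf 1 489 521) (node 461 (merge (leaf 2 458 462) (node 429 (merge (leaf 5 396 397)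 (leaf 5 428 556))))))) (merge (node 554 (merge (node 553 (merge (leaf 1 521 523) (node 458 (merge (leaf 5 457 585) (node 457 (merge (leaf 7 425 425) (leaf 3 457 491))))))) (merge (node 553 (merge (leaf 1 521 523) (node 556 (merge (leaf 2 521 555) (node 461 (merge (leaf 5 428 429) (leaf 6 460 588))))))) (node 458 (merge (node 457 (merge (leaf 7 425 425) (leaf 3 457 491))) (merge (node 459 (merge (leaf 6 426 427) (node 586 (merge (leaf 6 458 491) (node 587 (merge (leaf 4 458 555) (leaf 4 490 619))))))) (node 427 (merge (leaf 6 426 459) (node 426 (merge (leaf 6 394 395) (node 425 (merge (leaf 7 393 393) (leaf 7 425 457))))))))))))) (node 458 (merge (node 523 (merge (leaf 2 489 521) (node 555 (merge (leaf 4 426 426) (node 587 (merge (leaf 4 458 554) (leaf 6 491 619))))))) (merge (node 554 (merge (node 555 (merge (leaf 4 458 587) (node 553 (merge (leaf 2 521 556) (leaf 5 457 585))))) (node 427 (merge (leaf 6 426 459) (node 426 (merge (leaf 6 394 395) (node 425 (merge (leaf 7 393 393) (leaf 7 425 457))))))))) (merge (node 521 (merge (leaf 2 489 523) (node 426 (merge (leaf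 5 425 553) (node 395 (merge (leaf 6 394 427) (node 394 (merge (leaf 6 362 363) (node 393 (merge (leaf 7 361 361) (leaf 7 393 425))))))))))) (node 523 (merge (leaf 2 489 521) (node 554 (merge (leaf 1 521 553) (node 587 (merge (leaf 4 458 555) (node 586 (merge (leaf 4 490 619) (node 617 (merge (leaf 5 489 585) (node 618 (merge (leaf 5 521 649) (node 588 (merge (leaf 1 585 589) (node 556 (merge (leaf 6 460 461) (leaf 6 492 620))))))))))))))))))))))))) (node 522 (merge (node 523 (merge (leaf 3 489 489) (leaf 2 489 521))) (merge (node 554 (merge (node 523 (merge (leaf 3 489 489) (leaf 1 521 553))) (merge (node 556 (merge (node 588 (merge (leaf 6 460 461) (leaf 6 492 620))) (node 555 (merge (leaf 2 521 553) (node 587 (merge (leaf 4 458 458) (node 619 (merge (leaf 4 490 586) (leaf 6 523 651))))))))) (node 489 (merge (leaf 3 489 523) (node 457 (merge (leaf 7 457 586) (node 425 (merge (leaf 4 393 393) (leaf 7 425 458)))))))))) (merge (node 458 (merge (node 523 (merge (leaf 2 489 521) (node 555 (merge (leaf 4 426 426) (node 587 (merge (leaf 4 458 554) (leaf 6 491 619)))))))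 (merge (node 554 (merge (node 555 (merge (leaf 4 458 587) (node 553 (merge (leaf 2 521 556) (leaf 5 457 585))))) (node 427 (merge (leaf 6 426 459) (node 426 (merge (leaf 6 394 395) (node 425 (merge (leaf 7 393 393) (leaf 7 425 457))))))))) (merge (node 521 (merge (leaf 2 489 523) (node 426 (merge (leaf 5 425 553) (node 395 (merge (leaf 6 394 427) (node 394 (merge (leaf 6 362 363) (node 393 (merge (leaf 7 361 361) (leaf 7 393 425))))))))))) (node 523 (merge (leaf 2 489 521) (node 554 (merge (leaf 1 521 553) (node 587 (merge (leaf 4 458 555) (node 586 (merge (leaf 4 490 619) (node 617 (merge (leaf 5 489 585) (node 618 (merge (leaf 5 521 649) (node 588 (merge (leaf 1 585 589) (node 556 (merge (leaf 6 460 461) (leaf 6 492 620))))))))))))))))))))) (node 554 (merge (node 556 (merge (node 588 (merge (leaf 6 460 461) (leaf 6 492 620))) (node 555 (merge (leaf 2 521 553) (node 587 (merge (leaf 4 458 458) (node 619 (merge (leaf 4 490 586) (leaf 6 523 651))))))))) (merge (node 458 (merge (node 427 (merge (leaf 6 426 459) (node 426 (merge (leaf 6 394 395) (node 553 (merge (leaf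 5 425 521) (leaf 5 457 585))))))) (merge (node 457 (merge (leaf 7 425 425) (node 586 (merge (leaf 7 457 489) (node 585 (merge (leaf 5 457 553) (leaf 5 489 617))))))) (node 427 (merge (leaf 6 426 459) (node 426 (merge (leaf 6 394 395) (node 425 (merge (leaf 7 393 393) (leaf 7 425 457)))))))))) (merge (node 458 (merge (node 555 (merge (leaf 4 458 587) (node 553 (merge (leaf 2 521 556) (leaf 5 457 585))))) (node 427 (merge (leaf 6 426 459) (node 426 (merge (leaf 6 394 395) (node 425 (merge (leaf 7 393 393) (leaf 7 425 457))))))))) (merge (node 458 (merge (node 457 (merge (leaf 7 425 425) (node 586 (merge (leaf 7 457 489) (node 587 (merge (leaf 4 458 555) (leaf 4 490 619))))))) (merge (node 427 (merge (leaf 6 426 459) (node 426 (merge (leaf 6 394 395) (node 425 (merge (leaf 7 393 393) (leaf 7 425 457))))))) (merge (node 587 (merge (leaf 4 458 555) (node 586 (merge (leaf 4 490 619) (node 489 (merge (leaf 7 457 457) (node 618 (merge (leaf 7 489 521) (node 617 (merge (leaf 5 489 585) (leaf 5 521 649))))))))))) (node 427 (merge (leaf 6 426 459) (node 426 (merge (leaf 6 394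 395) (node 393 (merge (leaf 7 393 425) (node 394 (merge (leaf 7 361 361) (node 429 (merge (leaf 3 393 428) (node 461 (merge (leaf 5 396 397) (leaf 5 428 556))))))))))))))))) (node 553 (merge (node 556 (merge (leaf 2 521 555) (node 461 (merge (leaf 5 428 429) (leaf 6 460 588))))) (merge (node 586 (merge (node 587 (merge (leaf 4 490 619) (node 588 (merge (leaf 3 553 589) (node 585 (merge (leaf 3 552 552) (leaf 5 489 617))))))) (merge (node 489 (merge (leaf 7 457 457) (node 618 (merge (leaf 7 489 521) (node 619 (merge (leaf 4 490 587) (leaf 4 522 651))))))) (node 489 (merge (leaf 7 457 457) (node 618 (merge (leaf 7 489 521) (node 617 (merge (leaf 5 489 585) (leaf 5 521 649)))))))))) (node 552 (merge (node 555 (merge (leaf 2 521 556) (node 583 (merge (leaf 1 551 584) (node 551 (merge (leaf 1 550 582) (node 519 (merge (leaf 3 518 518) (leaf 3 519 520))))))))) (merge (node 586 (merge (node 587 (merge (leaf 0 551 551) (leaf 4 490 619))) (node 489 (merge (leaf 7 457 457) (node 618 (merge (leaf 7 489 521) (node 617 (merge (leaf 5 489 585) (leaf 5 521 649))))))))) (node 584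 (merge (node 555 (merge (leaf 2 521 556) (leaf 1 551 583))) (node 586 (merge (node 489 (merge (leaf 7 457 457) (node 618 (merge (leaf 7 489 521) (node 619 (merge (leaf 4 490 587) (leaf 4 522 651))))))) (merge (node 619 (merge (leaf 4 490 587) (node 618 (merge (leaf 4 522 651) (node 617 (merge (leaf 5 489 585) (leaf 5 521 649))))))) (merge (node 489 (merge (leaf 7 457 457) (node 618 (merge (leaf 7 489 521) (node 617 (merge (leaf 5 489 585) (leaf 5 521 649))))))) (node 489 (merge (leaf 7 457 457) (node 587 (merge (leaf 4 490 619) (node 585 (merge (leaf 5 489 617) (node 616 (merge (leaf 5 488 521) (leaf 1 583 615))))))))))))))))))))))))))))))))))))))))))))))))))) nP_266 cP_266 16 (by decide +kernel)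

end Crest.Agent.H26Snaky
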