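import Crest.Agent.H26SnP017
import Crest.Agent.H26SnP019

/-! certificate data for S0047, part P 20 (computer generated) -/

set_option autoImplicit false
set_option maxRecDepth 100000

namespace Crest.Agent.H26Snaky

open T

def nP_267 : ℕ := 0x100000001200000002000000080000000000000000000000000000000000000000000000000000000000000000000000000000000000000000000000000000000000000000000
def cP_267 : ℕ := 0x54000001ff000000fe000000bf000000df0000005e0000007f000001f80000007800000070000000500000000000000000000000000000000000000000000000000000000000000000000000000000000000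
theorem lP_267 : S nP_267 cP_267 12 := S_of_chk [] trivial (node 492 (merge (node 526 (merge (leaf 3 492 527) (node 491 (merge (leaf 0 490 490) (node 462 (merge (leaf 2 459 494) (node 461 (merge (leaf 1 459 460) (node 430 (merge (leaf 6 429 557) (node 398 (merge (leaf 5 365 366) (leaf 6 397 429))))))))))))) (merge (node 460 (merge (node 557 (merge (leaf 7 460 589) (node 428 (merge (leaf 4 396 396) (leaf 4 428 524))))) (merge (node 526 (merge (leaf 3 492 527) (node 491 (merge (leaf 0 490 490) (node 494 (merge (leaf 2 459 462) (node 523 (merge (leaf 1 490 522) (node 555 (merge (leaf 6 459 587) (node 428 (merge (leaf 4 396 396) (leaf 6 427 459))))))))))))) (node 557 (merge (leaf 7 460 589) (node 526 (merge (leaf 3 492 527) (node 491 (merge (leaf 0 490 490) (node 494 (merge (leaf 2 459 462) (node 523 (merge (leaf 1 490 522) (node 555 (merge (leaf 6 459 587) (node 554 (merge (leaf 1 522 524) (leaf 2 522 556)))))))))))))))))) (merge (node 461 (merge (node 526 (merge (leaf 3 492 527) (node 491 (merge (leaf 0 490 490) (node 460 (merge (leaf 1 459 462) (node 557 (merge (leaf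 7 428 428) (leaf 7 460 589))))))))) (merge (node 526 (merge (leaf 3 492 527) (node 491 (merge (leaf 0 490 490) (node 462 (merge (leaf 1 459 460) (node 430 (merge (leaf 6 429 557) (node 398 (merge (leaf 5 365 366) (leaf 6 397 429))))))))))) (merge (node 429 (merge (node 524 (merge (leaf 5 396 397) (leaf 5 428 556))) (merge (node 398 (merge (leaf 6 397 430) (node 397 (merge (leaf 6 365 366) (node 396 (merge (leaf 7 364 364) (leaf 7 396 428))))))) (node 430 (merge (leaf 6 397 398) (node 557 (merge (leaf 6 429 462) (node 556 (merge (leaf 5 428 524) (leaf 5 460 588)))))))))) (merge (node 429 (merge (node 398 (merge (leaf 6 397 430) (node 397 (merge (leaf 6 365 366) (node 524 (merge (leaf 5 396 492) (leaf 5 428 556))))))) (merge (node 428 (merge (leaf 7 396 396) (node 557 (merge (leaf 7 428 460) (node 556 (merge (leaf 5 428 524) (leaf 5 460 588))))))) (node 398 (merge (leaf 6 397 430) (node 397 (merge (leaf 6 365 366) (node 396 (merge (leaf 7 364 364) (leaf 7 396 428)))))))))) (node 429 (merge (node 524 (merge (leaf 5 396 397) (leaf 5 428 556))) (node 430 (merge (leaf 6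 397 398) (node 428 (merge (leaf 7 396 396) (node 526 (merge (leaf 3 492 527) (node 491 (merge (leaf 0 490 490) (node 460 (merge (leaf 1 459 462) (node 431 (merge (leaf 1 428 432) (leaf 1 427 459)))))))))))))))))))) (merge (node 491 (merge (node 494 (merge (leaf 2 459 462) (node 522 (merge (leaf 1 490 523) (node 490 (merge (leaf 1 489 521) (node 458 (merge (leaf 3 457 457) (leaf 3 458 459))))))))) (merge (node 490 (merge (node 489 (merge (leaf 0 489 524) (node 521 (merge (leaf 1 488 520) (leaf 1 489 522))))) (merge (node 489 (merge (leaf 0 489 524) (node 457 (merge (leaf 3 456 456) (leaf 3 457 458))))) (node 522 (merge (leaf 1 489 521) (node 494 (merge (leaf 1 490 523) (node 458 (merge (leaf 3 457 457) (leaf 3 458 459)))))))))) (merge (node 462 (merge (leaf 2 459 494) (node 460 (merge (leaf 1 459 461) (node 557 (merge (leaf 7 460 589) (node 428 (merge (leaf 4 396 396) (leaf 4 428 524))))))))) (node 461 (merge (node 460 (merge (leaf 1 459 462) (node 557 (merge (leaf 7 428 428) (leaf 7 460 589))))) (merge (node 490 (merge (leaf 2 458 462) (node 489 (merge (leaf 0 489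 524) (node 521 (merge (leaf 1 488 520) (leaf 1 489 522))))))) (node 460 (merge (node 557 (merge (leaf 7 428 428) (leaf 7 460 589))) (merge (node 429 (merge (node 524 (merge (leaf 5 396 397) (leaf 5 428 556))) (node 430 (merge (leaf 6 397 398) (node 431 (merge (leaf 1 428 432) (node 459 (merge (leaf 1 427 428) (leaf 2 426 458))))))))) (node 557 (merge (leaf 7 460 589) (node 556 (merge (leaf 5 460 588) (node 429 (merge (leaf 6 428 524) (node 398 (merge (leaf 6 397 430) (node 397 (merge (leaf 5 364 365) (leaf 6 365 366))))))))))))))))))))) (merge (node 491 (merge (node 526 (merge (leaf 0 490 490) (leaf 3 492 527))) (node 524 (merge (node 494 (merge (leaf 2 459 462) (node 459 (merge (leaf 3 458 458) (node 556 (merge (leaf 7 459 588) (node 427 (merge (leaf 4 395 395) (leaf 4 427 523))))))))) (merge (node 459 (merge (node 458 (merge (leaf 3 458 494) (node 457 (merge (leaf 0 456 456) (leaf 0 457 460))))) (node 556 (merge (leaf 7 459 588) (node 427 (merge (leaf 4 395 395) (leaf 4 427 523))))))) (merge (node 462 (merge (leaf 2 459 494) (node 461 (merge (leaf 1 459 460) (node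 429 (merge (leaf 5 396 397) (node 430 (merge (leaf 6 397 398) (node 428 (merge (leaf 7 396 396) (leaf 0 427 427))))))))))) (node 556 (merge (node 588 (merge (leaf 7 459 459) (leaf 6 492 620))) (node 461 (merge (leaf 5 428 429) (node 460 (merge (leaf 1 459 462) (node 428 (merge (leaf 4 396 396) (node 555 (merge (leaf 5 427 523) (leaf 5 459 587))))))))))))))))) (merge (node 461 (merge (node 557 (merge (node 460 (merge (leaf 7 428 428) (leaf 7 460 589))) (node 430 (merge (leaf 6 429 462) (node 429 (merge (leaf 6 397 398) (node 556 (merge (leaf 5 428 524) (leaf 5 460 588))))))))) (merge (node 429 (merge (node 398 (merge (leaf 6 397 430) (node 397 (merge (leaf 6 365 366) (node 524 (merge (leaf 5 396 492) (leaf 5 428 556))))))) (merge (node 428 (merge (leaf 7 396 396) (node 557 (merge (leaf 7 428 460) (node 556 (merge (leaf 5 428 524) (leaf 5 460 588))))))) (node 398 (merge (leaf 6 397 430) (node 397 (merge (leaf 6 365 366) (node 396 (merge (leaf 7 364 364) (leaf 7 396 428)))))))))) (merge (node 460 (merge (node 428 (merge (leaf 4 396 396) (node 427 (merge (leaf 3 427 462)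 (node 524 (merge (leaf 7 395 395) (node 429 (merge (leaf 6 396 397) (leaf 6 428 556))))))))) (merge (node 428 (merge (leaf 4 396 396) (node 462 (merge (leaf 3 427 427) (node 431 (merge (leaf 2 428 432) (node 459 (merge (leaf 2 427 430) (node 458 (merge (leaf 0 457 457) (leaf 0 458 494))))))))))) (merge (node 429 (merge (node 524 (merge (leaf 5 396 397) (leaf 5 428 556))) (node 430 (merge (leaf 6 397 398) (node 431 (merge (leaf 1 428 432) (node 459 (merge (leaf 2 426 458) (leaf 2 427 462))))))))) (node 429 (merge (node 524 (merge (leaf 5 396 397) (leaf 5 428 556))) (node 430 (merge (leaf 6 397 398) (node 431 (merge (leaf 1 428 432) (node 459 (merge (leaf 1 427 428) (leaf 2 426 458))))))))))))) (merge (node 460 (merge (node 557 (merge (leaf 7 460 589) (node 428 (merge (leaf 7 428 461) (leaf 4 428 524))))) (merge (node 428 (merge (leaf 4 396 396) (node 462 (merge (leaf 3 427 427) (node 431 (merge (leaf 2 428 432) (node 459 (merge (leaf 2 427 430) (node 458 (merge (leaf 0 457 457) (leaf 0 458 494))))))))))) (node 557 (merge (leaf 7 460 589) (node 526 (merge (leaf 3 492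 527) (node 556 (merge (leaf 5 460 588) (node 555 (merge (leaf 2 522 554) (node 524 (merge (leaf 5 459 587) (node 459 (merge (leaf 7 427 427) (node 458 (merge (leaf 0 457 457) (leaf 0 458 494)))))))))))))))))) (merge (node 429 (merge (node 398 (merge (leaf 6 397 430) (node 397 (merge (leaf 6 365 366) (node 524 (merge (leaf 5 396 492) (leaf 5 428 556))))))) (merge (node 430 (merge (leaf 6 397 398) (node 557 (merge (leaf 6 429 462) (node 556 (merge (leaf 5 428 524) (leaf 5 460 588))))))) (merge (node 398 (merge (leaf 6 397 430) (node 397 (merge (leaf 6 365 366) (node 364 (merge (leaf 7 364 396) (node 365 (merge (leaf 7 332 332) (node 494 (merge (leaf 4 365 462) (leaf 4 397 526))))))))))) (node 524 (merge (leaf 5 428 556) (node 397 (merge (leaf 5 396 492) (node 364 (merge (leaf 7 364 396) (node 365 (merge (leaf 7 332 332) (node 494 (merge (leaf 4 365 462) (leaf 4 397 526))))))))))))))) (merge (node 428 (merge (node 396 (merge (leaf 7 396 429) (node 460 (merge (leaf 4 364 364) (leaf 4 396 492))))) (merge (node 429 (merge (leaf 7 396 396) (node 430 (merge (leaf 6 397 398)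 (node 462 (merge (leaf 0 427 427) (leaf 6 429 557))))))) (node 557 (merge (leaf 7 428 460) (node 462 (merge (leaf 6 429 430) (node 589 (merge (leaf 6 461 494) (node 622 (merge (leaf 4 493 590) (node 621 (merge (leaf 4 525 654) (node 620 (merge (leaf 5 492 588) (leaf 5 524 652)))))))))))))))) (node 428 (merge (node 396 (merge (leaf 7 396 429) (node 460 (merge (leaf 4 364 364) (leaf 7 428 557))))) (merge (node 429 (merge (leaf 7 396 396) (node 524 (merge (leaf 5 428 556) (node 397 (merge (leaf 5 396 492) (node 366 (merge (leaf 6 365 398) (node 365 (merge (leaf 6 333 334) (node 494 (merge (leaf 4 365 462) (leaf 4 397 526))))))))))))) (node 557 (merge (leaf 7 428 460) (node 588 (merge (leaf 5 460 556) (node 589 (merge (leaf 5 492 620) (node 494 (merge (leaf 6 461 462) (node 621 (merge (leaf 6 493 526) (node 622 (merge (leaf 4 493 590) (leaf 4 525 654))))))))))))))))))))))) (merge (node 491 (merge (node 526 (merge (leaf 0 490 490) (leaf 3 492 527))) (merge (node 490 (merge (node 489 (merge (leaf 0 489 524) (node 521 (merge (leaf 1 488 520) (leaf 1 489 522))))) (merge (node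 489 (merge (leaf 0 489 524) (node 457 (merge (leaf 3 456 456) (leaf 3 457 458))))) (node 522 (merge (leaf 1 489 521) (node 494 (merge (leaf 1 490 523) (node 458 (merge (leaf 3 457 457) (leaf 3 458 459)))))))))) (node 557 (merge (node 460 (merge (leaf 7 460 589) (node 428 (merge (leaf 4 396 396) (leaf 7 428 461))))) (merge (node 460 (merge (leaf 7 460 589) (node 428 (merge (leaf 4 396 396) (leaf 4 428 524))))) (merge (node 589 (merge (node 621 (merge (leaf 7 492 524) (node 620 (merge (leaf 5 492 588) (leaf 5 524 652))))) (merge (node 621 (merge (leaf 7 492 524) (node 622 (merge (leaf 4 493 590) (leaf 4 525 654))))) (node 590 (merge (leaf 4 493 622) (node 588 (merge (leaf 5 492 620) (node 591 (merge (leaf 2 556 559) (node 556 (merge (leaf 5 460 461) (leaf 3 555 555)))))))))))) (node 556 (merge (node 588 (merge (leaf 5 460 461) (node 620 (merge (leaf 6 492 524) (leaf 6 524 652))))) (merge (node 460 (merge (node 428 (merge (leaf 4 396 396) (leaf 7 428 461))) (node 526 (merge (leaf 1 524 527) (node 555 (merge (leaf 2 522 554) (node 587 (merge (leaf 6 459 523) (leaf 5 459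 524))))))))) (merge (node 526 (merge (leaf 1 524 527) (node 555 (merge (leaf 2 522 554) (node 588 (merge (leaf 5 460 461) (node 620 (merge (leaf 6 524 652) (node 523 (merge (leaf 4 459 459) (leaf 4 491 587))))))))))) (node 588 (merge (node 620 (merge (leaf 6 492 524) (leaf 6 524 652))) (merge (node 524 (merge (leaf 7 459 459) (node 460 (merge (leaf 4 428 428) (node 587 (merge (leaf 5 459 555) (leaf 5 491 619))))))) (node 620 (merge (leaf 6 524 652) (node 526 (merge (leaf 1 524 527) (node 555 (merge (leaf 2 522 554) (node 523 (merge (leaf 4 459 459) (leaf 4 491 587))))))))))))))))))))))) (node 588 (merge (node 556 (merge (node 461 (merge (leaf 6 460 524) (leaf 5 460 557))) (merge (node 524 (merge (leaf 6 460 461) (leaf 6 492 620))) (merge (node 620 (merge (leaf 6 492 524) (node 557 (merge (leaf 5 492 589) (leaf 6 524 652))))) (node 557 (merge (leaf 5 460 461) (node 620 (merge (leaf 5 492 589) (leaf 6 524 652))))))))) (merge (node 526 (merge (leaf 3 492 527) (node 491 (merge (leaf 0 490 490) (node 494 (merge (leaf 2 459 462) (node 523 (merge (leaf 1 490 522) (node 459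 (merge (leaf 3 458 458) (node 556 (merge (leaf 7 459 524) (leaf 4 459 555))))))))))))) (merge (node 556 (merge (node 557 (merge (leaf 5 460 461) (node 620 (merge (leaf 5 492 589) (leaf 6 524 652))))) (node 526 (merge (leaf 3 492 527) (node 491 (merge (leaf 0 490 490) (node 494 (merge (leaf 2 459 462) (node 523 (merge (leaf 1 490 522) (node 459 (merge (leaf 3 458 458) (leaf 4 459 555))))))))))))) (node 589 (merge (node 526 (merge (leaf 3 492 527) (node 557 (merge (leaf 5 492 620) (node 494 (merge (leaf 6 461 462) (leaf 6 493 621))))))) (merge (node 557 (merge (leaf 5 492 620) (node 621 (merge (leaf 7 492 524) (node 622 (merge (leaf 4 493 590) (leaf 4 525 654))))))) (merge (node 620 (merge (leaf 5 492 557) (node 526 (merge (leaf 3 492 527) (node 491 (merge (leaf 0 490 490) (node 494 (merge (leaf 2 459 462) (node 523 (merge (leaf 1 490 522) (node 459 (merge (leaf 3 458 458) (node 555 (merge (leaf 4 491 587) (node 554 (merge (leaf 1 522 524) (leaf 5 458 586))))))))))))))))) (merge (node 587 (merge (node 526 (merge (leaf 3 492 527) (node 491 (merge (leaf 0 490 490) (node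 494 (merge (leaf 2 459 462) (node 523 (merge (leaf 1 490 522) (node 555 (merge (leaf 4 491 620) (node 524 (merge (leaf 1 522 554) (leaf 6 491 619))))))))))))) (merge (node 618 (merge (node 590 (merge (leaf 1 586 619) (node 623 (merge (leaf 0 587 622) (node 591 (merge (leaf 2 556 559) (leaf 0 588 624))))))) (merge (node 617 (merge (leaf 1 585 586) (node 619 (merge (leaf 2 584 616) (leaf 2 585 620))))) (node 586 (merge (leaf 1 585 617) (node 621 (merge (leaf 0 586 622) (node 585 (merge (leaf 0 585 620) (node 553 (merge (leaf 3 552 552) (leaf 3 553 554)))))))))))) (merge (node 554 (merge (node 590 (merge (leaf 3 554 555) (node 623 (merge (leaf 0 587 622) (node 591 (merge (leaf 2 556 559) (leaf 0 588 624))))))) (node 526 (merge (leaf 3 492 527) (node 490 (merge (leaf 0 490 491) (node 586 (merge (leaf 3 553 553) (node 617 (merge (leaf 1 585 618) (node 585 (merge (leaf 5 489 522) (leaf 1 584 616))))))))))))) (node 526 (merge (leaf 3 492 527) (node 491 (merge (leaf 0 490 490) (node 494 (merge (leaf 2 459 462) (node 523 (merge (leaf 1 490 522) (node 555 (merge (leaf 4 491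 620) (node 619 (merge (leaf 6 491 524) (node 618 (merge (leaf 5 490 586) (leaf 1 586 590))))))))))))))))))) (node 587 (merge (node 622 (merge (node 621 (merge (leaf 0 586 586) (node 557 (merge (leaf 7 492 524) (leaf 4 525 654))))) (merge (node 621 (merge (leaf 0 586 586) (node 623 (merge (leaf 0 587 590) (leaf 3 588 624))))) (node 590 (merge (leaf 4 493 557) (node 623 (merge (leaf 0 587 587) (node 591 (merge (leaf 2 556 559) (leaf 0 588 624)))))))))) (merge (node 526 (merge (leaf 3 492 527) (node 491 (merge (leaf 0 490 490) (node 494 (merge (leaf 2 459 462) (node 621 (merge (leaf 6 493 557) (node 586 (merge (leaf 0 586 622) (node 523 (merge (leaf 1 490 522) (node 618 (merge (leaf 5 490 555) (leaf 1 585 617))))))))))))))) (merge (node 555 (merge (node 590 (merge (leaf 3 554 554) (node 622 (merge (leaf 4 493 557) (leaf 0 587 623))))) (merge (node 526 (merge (leaf 3 492 527) (node 491 (merge (leaf 0 490 490) (node 494 (merge (leaf 2 459 462) (node 523 (merge (leaf 1 490 522) (node 524 (merge (leaf 1 522 554) (leaf 6 491 619))))))))))) (node 526 (merge (leaf 3 492 527)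 (node 491 (merge (leaf 0 490 490) (node 494 (merge (leaf 2 459 462) (node 523 (merge (leaf 1 490 522) (node 619 (merge (leaf 6 491 524) (node 618 (merge (leaf 1 586 590) (leaf 5 522 650)))))))))))))))) (node 554 (merge (node 553 (merge (leaf 3 553 586) (node 555 (merge (leaf 0 552 552) (leaf 3 554 590))))) (merge (node 526 (merge (leaf 3 492 527) (node 490 (merge (leaf 0 490 491) (node 555 (merge (leaf 3 554 590) (node 523 (merge (leaf 1 522 524) (node 522 (merge (leaf 4 458 458) (leaf 7 490 619))))))))))) (node 526 (merge (leaf 3 492 527) (node 490 (merge (leaf 0 490 491) (node 586 (merge (leaf 3 553 553) (node 617 (merge (leaf 1 585 618) (node 585 (merge (leaf 5 489 522) (leaf 1 584 616))))))))))))))))))))))))))))))))))) nP_267 cP_267 12 (by decide +kernel)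
def nP_268 : ℕ := 0x380000002000000000000000000000000000000000000000000000000000000000000000000000000000000000000000000000000000000000000000000000000000
def cP_268 : ℕ := 0x1c0000003e0000007f8000003f000000070000001f0000001e0000001e0000000c00000000000000000000000000000000000000000000000000000000000000000000000000000000000000000000000000
theorem lP_268 : S nP_268 cP_268 11 := S_of_chk [] trivial (node 555 (merge (node 522 (merge (node 553 (merge (leaf 1 521 554) (node 521 (merge (leaf 2 489 492) (leaf 1 520 552))))) (merge (node 521 (merge (leaf 2 489 492) (node 489 (merge (leaf 3 488 488) (leaf 3 489 490))))) (node 554 (merge (leaf 1 521 553) (node 490 (merge (leaf 3 489 489) (node 587 (merge (leaf 4 458 458) (leaf 7 490 619)))))))))) (merge (node 492 (merge (node 587 (merge (leaf 6 491 619) (node 460 (merge (leaf 5 427 428) (leaf 5 459 556))))) (merge (node 587 (merge (leaf 6 491 619) (node 522 (merge (leaf 2 489 521) (node 490 (merge (leaf 3 489 489) (node 458 (merge (leaf 4 426 426) (leaf 7 458 491))))))))) (node 522 (merge (leaf 2 489 521) (node 490 (merge (leaf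 3 489 489) (node 458 (merge (leaf 4 426 426) (node 457 (merge (leaf 3 457 491) (node 460 (merge (leaf 5 427 428) (leaf 0 457 459)))))))))))))) (merge (node 522 (merge (node 490 (merge (leaf 3 489 489) (node 587 (merge (leaf 7 490 619) (node 458 (merge (leaf 4 426 426) (leaf 7 458 491))))))) (node 553 (merge (leaf 1 521 554) (node 521 (merge (leaf 1 520 552) (node 556 (merge (leaf 0 520 520) (leaf 0 521 557))))))))) (merge (node 554 (merge (node 553 (merge (leaf 1 521 522) (leaf 2 520 552))) (merge (node 553 (merge (leaf 2 520 552) (leaf 2 521 556))) (node 522 (merge (node 521 (merge (leaf 2 489 492) (node 556 (merge (leaf 0 520 520) (leaf 0 521 557))))) (merge (node 490 (merge (leaf 3 489 489) (node 458 (merge (leaf 4 426 426) (node 459 (merge (leaf 6 426 427) (node 491 (merge (leaf 6 458 586) (node 556 (merge (leaf 4 459 588) (node 521 (merge (leaf 0 520 520) (leaf 0 521 557))))))))))))) (node 490 (merge (leaf 3 489 489) (node 458 (merge (leaf 4 426 426) (node 459 (merge (leaf 6 426 427) (node 491 (merge (leaf 6 458 586) (node 457 (merge (leaf 7 425 425) (leaf 3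 457 492))))))))))))))))) (merge (node 587 (merge (node 492 (merge (leaf 6 491 619) (node 460 (merge (leaf 5 427 428) (leaf 6 459 491))))) (merge (node 619 (merge (leaf 6 491 492) (node 556 (merge (leaf 6 523 651) (node 620 (merge (leaf 6 492 588) (leaf 4 523 652))))))) (merge (node 491 (merge (node 492 (merge (leaf 6 459 460) (node 490 (merge (leaf 7 458 458) (leaf 0 489 489))))) (node 588 (merge (leaf 4 491 620) (node 459 (merge (leaf 4 459 556) (node 586 (merge (leaf 5 458 554) (leaf 5 490 618))))))))) (node 556 (merge (node 620 (merge (leaf 6 492 588) (node 619 (merge (leaf 6 523 651) (leaf 4 523 652))))) (merge (node 619 (merge (leaf 6 523 651) (node 554 (merge (leaf 2 521 553) (node 618 (merge (leaf 5 522 650) (node 586 (merge (leaf 5 490 491) (node 585 (merge (leaf 1 553 557) (leaf 2 552 584))))))))))) (node 588 (merge (leaf 6 492 620) (node 491 (merge (leaf 4 459 459) (node 586 (merge (leaf 5 490 618) (node 585 (merge (leaf 2 553 557) (leaf 2 552 584)))))))))))))))) (merge (node 587 (merge (node 492 (merge (leaf 6 491 619) (node 460 (merge (leaf 5 427 428)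 (leaf 6 459 491))))) (merge (node 619 (merge (leaf 6 491 492) (node 556 (merge (leaf 6 523 651) (node 620 (merge (leaf 6 492 588) (leaf 4 523 652))))))) (merge (node 556 (merge (node 620 (merge (leaf 6 492 588) (node 619 (merge (leaf 6 523 651) (leaf 4 523 652))))) (merge (node 619 (merge (leaf 6 523 651) (node 554 (merge (leaf 2 521 553) (node 618 (merge (leaf 5 522 650) (node 586 (merge (leaf 5 490 491) (node 585 (merge (leaf 1 553 557) (leaf 2 552 584))))))))))) (node 588 (merge (leaf 6 492 620) (node 491 (merge (leaf 4 459 459) (node 586 (merge (leaf 5 490 618) (node 585 (merge (leaf 2 553 557) (leaf 2 552 584)))))))))))) (node 491 (merge (node 588 (merge (leaf 4 491 620) (node 459 (merge (leaf 4 459 556) (node 586 (merge (leaf 5 458 554) (leaf 5 490 618))))))) (merge (node 492 (merge (leaf 6 459 460) (node 522 (merge (leaf 2 489 521) (node 554 (merge (leaf 1 521 553) (node 586 (merge (leaf 5 458 459) (leaf 6 490 618))))))))) (merge (node 492 (merge (leaf 6 459 460) (node 522 (merge (leaf 2 489 521) (node 554 (merge (leaf 1 521 553) (node 588 (merge (leaf 4 491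 620) (node 589 (merge (leaf 3 554 590) (node 621 (merge (leaf 4 492 556) (leaf 7 492 557))))))))))))) (node 492 (merge (leaf 6 459 460) (node 588 (merge (leaf 4 491 620) (node 459 (merge (leaf 7 459 556) (node 426 (merge (leaf 7 426 458) (node 427 (merge (leaf 7 394 394) (leaf 4 395 395))))))))))))))))))) (node 587 (merge (node 492 (merge (leaf 6 491 619) (node 460 (merge (leaf 5 427 428) (leaf 6 459 491))))) (merge (node 522 (merge (node 490 (merge (leaf 3 489 489) (leaf 7 490 619))) (node 553 (merge (leaf 1 521 554) (node 521 (merge (leaf 1 520 552) (node 556 (merge (leaf 0 520 520) (leaf 0 521 557))))))))) (node 491 (merge (node 588 (merge (leaf 4 491 620) (node 459 (merge (leaf 4 459 556) (node 586 (merge (leaf 5 458 554) (leaf 5 490 618))))))) (merge (node 492 (merge (leaf 6 459 460) (node 522 (merge (leaf 2 489 521) (node 554 (merge (leaf 1 521 553) (node 586 (merge (leaf 5 458 459) (leaf 6 490 618))))))))) (merge (node 492 (merge (leaf 6 459 460) (node 522 (merge (leaf 2 489 521) (node 554 (merge (leaf 1 521 553) (node 588 (merge (leaf 4 491 620) (node 459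 (merge (leaf 5 426 427) (leaf 7 459 556))))))))))) (merge (node 588 (merge (leaf 4 491 620) (node 556 (merge (leaf 4 459 459) (node 586 (merge (leaf 5 490 618) (node 585 (merge (leaf 2 553 557) (leaf 2 552 584))))))))) (node 492 (merge (leaf 6 459 460) (node 490 (merge (leaf 0 489 489) (node 522 (merge (leaf 1 489 521) (node 554 (merge (leaf 1 521 553) (node 586 (merge (leaf 6 490 618) (node 585 (merge (leaf 5 489 617) (node 584 (merge (leaf 2 552 556) (leaf 2 551 583)))))))))))))))))))))))))))))) nP_268 cP_268 11 (by decide +kernel)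
def nP_269 : ℕ := 0x100000001200000002000000080000000000000000000000000000000000000000000000000000000000000000000000000000000000000000000000000000000000000000000
def cP_269 : ℕ := 0x1c0000003e0000007f800002bf800000df000001df0000005e0000009e000001dc000001d4000001400000000000000000000000000000000000000000000000000000000000000000000000000000000000
theorem lP_269 : S nP_269 cP_269 13 := S_of_chk [(nP_268, cP_268, 11)] ⟨lP_268, trivial⟩ (node 524 (merge (node 527 (merge (node 526 (merge (leaf 0 524 559) (leaf 0 525 561))) (node 495 (merge (leaf 4 431 431) (node 494 (merge (leaf 0 492 492) (leaf 1 492 496))))))) (merge (node 523 (merge (node 494 (merge (leaf 2 490 522) (node 495 (merge (leaf 1 492 496) (leaf 2 491 526))))) (merge (node 522 (merge (leaf 2 490 494) (node 521 (merge (leaf 2 489 492) (node 489 (merge (leaf 3 488 488) (leaf 3 489 490))))))) (merge (node 555 (merge (node 554 (merge (leaf 1 522 526) (node 553 (merge (leaf 2 520 552) (leaf 2 521 556))))) (merge (node 492 (merge (node 587 (merge (leaf 6 491 619) (node 460 (merge (leaf 5 427 428) (leaf 6 459 491)))))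 (merge (node 587 (merge (leaf 6 491 619) (node 460 (merge (leaf 5 427 428) (leaf 5 459 556))))) (node 494 (merge (leaf 1 491 495) (node 491 (merge (leaf 2 459 462) (node 459 (merge (leaf 3 458 458) (node 427 (merge (leaf 4 395 395) (leaf 4 427 556)))))))))))) (node 494 (merge (node 495 (merge (leaf 1 491 492) (leaf 1 492 496))) (merge (node 495 (merge (leaf 1 492 496) (leaf 2 491 526))) (node 526 (merge (leaf 1 522 554) (node 491 (merge (leaf 3 490 490) (node 492 (merge (leaf 2 459 462) (node 460 (merge (leaf 5 427 428) (leaf 6 459 587))))))))))))))) (node 492 (merge (node 555 (merge (node 587 (merge (leaf 6 491 619) (node 460 (merge (leaf 5 427 428) (leaf 6 459 491))))) (node 554 (merge (leaf 1 522 526) (node 553 (merge (leaf 2 520 552) (leaf 2 521 556))))))) (merge (node 522 (merge (leaf 2 489 521) (node 554 (merge (leaf 1 521 553) (node 555 (merge (leaf 1 522 526) (node 587 (merge (leaf 6 491 619) (node 460 (merge (leaf 5 427 428) (leaf 5 459 556))))))))))) (merge (node 555 (merge (node 587 (merge (leaf 6 491 619) (node 460 (merge (leaf 5 427 428) (leaf 5 459 556)))))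 (merge (node 522 (merge (leaf 2 489 521) (node 490 (merge (leaf 3 489 489) (node 458 (merge (leaf 4 426 426) (node 457 (merge (leaf 3 457 491) (node 460 (merge (leaf 5 427 428) (leaf 0 457 459))))))))))) (node 587 (merge (leaf 6 491 619) (node 522 (merge (leaf 2 489 521) (node 490 (merge (leaf 3 489 489) (node 458 (merge (leaf 4 426 426) (leaf 4 458 554)))))))))))) (merge (node 522 (merge (leaf 2 489 521) (node 490 (merge (leaf 3 489 489) (node 491 (merge (leaf 0 490 526) (node 458 (merge (leaf 3 457 457) (node 426 (merge (leaf 4 394 394) (leaf 4 426 555))))))))))) (node 522 (merge (leaf 2 489 521) (node 554 (merge (leaf 1 521 553) (node 490 (merge (leaf 3 489 489) (node 491 (merge (leaf 0 490 526) (node 459 (merge (leaf 5 426 427) (leaf 6 458 586)))))))))))))))))))) (merge (node 495 (merge (node 494 (merge (leaf 1 492 496) (node 523 (merge (leaf 2 490 522) (leaf 2 491 526))))) (merge (node 527 (merge (leaf 4 431 431) (node 526 (merge (leaf 0 524 559) (node 556 (merge (leaf 1 523 555) (leaf 1 524 557))))))) (node 431 (merge (leaf 4 431 527) (node 399 (merge (leaf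 4 399 496) (node 368 (merge (leaf 6 367 400) (node 367 (merge (leaf 6 335 336) (node 366 (merge (leaf 7 334 334) (leaf 7 366 398)))))))))))))) (merge (node 523 (merge (node 494 (merge (leaf 2 490 522) (node 495 (merge (leaf 1 491 492) (leaf 1 492 496))))) (merge (node 522 (merge (leaf 2 490 494) (node 553 (merge (leaf 1 521 554) (node 521 (merge (leaf 1 520 552) (node 489 (merge (leaf 3 488 488) (leaf 3 489 490))))))))) (merge (node 492 (merge (node 495 (merge (leaf 1 491 494) (node 431 (merge (leaf 4 431 527) (node 399 (merge (leaf 4 399 496) (node 368 (merge (leaf 6 367 400) (node 367 (merge (leaf 6 335 336) (node 366 (merge (leaf 7 334 334) (leaf 7 366 398))))))))))))) (node 556 (merge (node 588 (merge (leaf 6 492 620) (node 459 (merge (leaf 7 459 491) (node 460 (merge (leaf 7 427 427) (node 589 (merge (leaf 7 460 557) (leaf 4 492 621))))))))) (merge (node 588 (merge (leaf 6 492 620) (node 589 (merge (leaf 4 492 621) (node 460 (merge (leaf 7 460 557) (node 587 (merge (leaf 5 459 555) (leaf 5 491 619))))))))) (merge (node 460 (merge (node 557 (merge (leaf 4 428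 428) (leaf 7 460 589))) (node 459 (merge (leaf 7 427 427) (node 458 (merge (leaf 0 457 457) (node 555 (merge (leaf 5 459 587) (node 491 (merge (leaf 7 426 426) (node 554 (merge (leaf 2 521 553) (leaf 5 458 586))))))))))))) (node 588 (merge (leaf 6 492 620) (node 491 (merge (leaf 7 459 459) (node 490 (merge (leaf 0 489 489) (node 458 (merge (leaf 3 457 457) (node 587 (merge (leaf 7 458 555) (leaf 5 491 619))))))))))))))))) (hyp 0))))) (node 523 (merge (node 554 (merge (node 526 (merge (leaf 1 522 555) (node 527 (merge (leaf 0 524 559) (leaf 0 525 561))))) (merge (node 553 (merge (leaf 1 521 522) (node 555 (merge (leaf 2 520 552) (leaf 2 521 556))))) (node 522 (merge (leaf 1 521 553) (node 490 (merge (leaf 3 489 489) (node 526 (merge (leaf 3 490 491) (node 527 (merge (leaf 0 524 559) (leaf 0 525 561)))))))))))) (merge (node 490 (merge (node 526 (merge (leaf 3 490 491) (node 527 (merge (leaf 0 524 559) (leaf 0 525 561))))) (node 522 (merge (leaf 3 489 489) (node 553 (merge (leaf 1 521 554) (node 521 (merge (leaf 2 489 492) (leaf 1 520 552))))))))) (merge (node 522 (merge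 (node 553 (merge (leaf 1 521 554) (node 521 (merge (leaf 2 489 492) (leaf 1 520 552))))) (merge (node 554 (merge (leaf 1 521 553) (node 526 (merge (leaf 1 522 555) (node 527 (merge (leaf 0 524 559) (leaf 0 525 561))))))) (merge (node 521 (merge (leaf 2 489 492) (node 556 (merge (leaf 0 521 557) (node 555 (merge (leaf 0 520 520) (node 526 (merge (leaf 1 523 527) (leaf 1 522 554))))))))) (node 521 (merge (leaf 2 489 492) (node 556 (merge (leaf 0 521 557) (node 520 (merge (leaf 0 520 555) (node 552 (merge (leaf 1 519 551) (leaf 1 520 553))))))))))))) (merge (node 526 (merge (node 527 (merge (leaf 3 492 492) (leaf 0 525 561))) (merge (node 527 (merge (leaf 0 524 559) (node 556 (merge (leaf 1 523 555) (leaf 1 524 557))))) (node 555 (merge (leaf 1 522 554) (node 490 (merge (leaf 3 490 491) (node 522 (merge (leaf 3 489 489) (node 521 (merge (leaf 2 489 492) (node 556 (merge (leaf 0 520 520) (leaf 0 521 557)))))))))))))) (merge (node 526 (merge (node 527 (merge (leaf 3 492 492) (leaf 0 525 561))) (merge (node 527 (merge (leaf 0 524 559) (node 556 (merge (leaf 1 523 555) (leaf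 1 524 557))))) (node 490 (merge (leaf 3 490 491) (node 522 (merge (leaf 3 489 489) (node 521 (merge (leaf 2 489 492) (node 556 (merge (leaf 0 521 557) (node 520 (merge (leaf 0 520 555) (node 552 (merge (leaf 1 519 551) (leaf 1 520 553)))))))))))))))) (merge (node 491 (merge (node 526 (merge (leaf 3 490 490) (node 527 (merge (leaf 0 524 559) (leaf 0 525 561))))) (merge (node 555 (merge (node 526 (merge (leaf 1 522 554) (node 527 (merge (leaf 0 524 559) (leaf 0 525 561))))) (node 588 (merge (node 587 (merge (leaf 4 491 620) (node 492 (merge (leaf 6 459 460) (leaf 6 491 619))))) (merge (node 556 (merge (leaf 6 492 620) (node 459 (merge (leaf 4 427 427) (leaf 4 459 555))))) (node 459 (merge (leaf 4 459 556) (node 460 (merge (leaf 6 427 428) (node 492 (merge (leaf 6 459 587) (node 458 (merge (leaf 7 426 426) (leaf 0 457 457)))))))))))))) (node 459 (merge (node 556 (merge (leaf 4 427 427) (node 588 (merge (leaf 4 459 555) (leaf 6 492 620))))) (merge (node 427 (merge (leaf 4 427 556) (node 396 (merge (leaf 6 395 428) (node 395 (merge (leaf 6 363 364) (leaf 4 395 492)))))))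 (merge (node 427 (merge (node 396 (merge (leaf 6 395 428) (node 395 (merge (leaf 6 363 364) (leaf 4 395 492))))) (merge (node 394 (merge (leaf 7 394 426) (node 395 (merge (leaf 7 362 362) (leaf 4 395 492))))) (node 428 (merge (leaf 6 395 396) (node 555 (merge (leaf 6 427 460) (node 426 (merge (leaf 7 394 394) (leaf 7 426 458)))))))))) (node 555 (merge (node 556 (merge (leaf 4 459 588) (node 554 (merge (leaf 2 521 553) (leaf 5 458 586))))) (node 460 (merge (leaf 6 427 428) (node 587 (merge (leaf 6 459 492) (node 458 (merge (leaf 7 426 426) (leaf 7 458 490)))))))))))))))) (hyp 0))))))))))))) nP_269 cP_269 13 (by decide +kernel)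
def nP_270 : ℕ := 0x1200000002000000080000000800000000000000000000000000000000000000000000000000000000000000000000000000000000000000000000000000000000000
def cP_270 : ℕ := 0x380000003e000000500000019800000e7c00000778000007fc000007f8000001e0000001e000000040000000000000000000000000000000000000000000000000000000000000000000
theorem lP_270 : S nP_270 cP_270 15 := S_of_chk [] trivial (node 399 (merge (node 495 (merge (leaf 4 399 496) (node 368 (merge (leaf 6 367 400) (node 367 (merge (leaf 6 335 336) (node 366 (merge (leaf 7 334 334) (leaf 7 366 398))))))))) (merge (node 461 (merge (node 460 (merge (node 462 (merge (leaf 2 428 432) (node 430 (merge (leaf 2 427 459) (leaf 6 429 557))))) (merge (node 428 (merge (leaf 7 428 557) (node 396 (merge (leaf 4 364 364) (leaf 4 396 492))))) (node 462 (merge (leaf 2 428 432) (node 492 (merge (leaf 1 459 491) (node 428 (merge (leaf 4 396 396) (leaf 3 427 427)))))))))) (merge (node 462 (merge (node 432 (merge (leaf 2 428 460) (node 433 (merge (leaf 1 429 430) (leaf 1 430 434))))) (merge (node 430 (merge (leaf 6 429 557) (node 398 (merge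 (leaf 5 365 366) (leaf 6 397 429))))) (node 460 (merge (leaf 2 428 432) (node 428 (merge (leaf 3 427 427) (leaf 7 428 557)))))))) (merge (node 495 (merge (leaf 4 399 496) (node 398 (merge (leaf 7 366 366) (node 429 (merge (leaf 6 397 430) (node 524 (merge (leaf 5 428 556) (node 397 (merge (leaf 5 396 492) (node 396 (merge (leaf 7 364 364) (leaf 0 396 432))))))))))))) (merge (node 428 (merge (node 460 (merge (leaf 7 428 557) (node 462 (merge (leaf 3 427 427) (leaf 2 428 432))))) (node 429 (merge (leaf 7 396 396) (node 524 (merge (leaf 5 428 556) (node 397 (merge (leaf 5 396 492) (node 398 (merge (leaf 6 365 366) (leaf 1 396 400))))))))))) (node 429 (merge (node 396 (merge (leaf 7 396 428) (node 397 (merge (leaf 7 364 364) (node 524 (merge (leaf 5 396 492) (leaf 5 428 556))))))) (merge (node 430 (merge (leaf 6 397 398) (node 557 (merge (leaf 6 429 462) (node 556 (merge (leaf 5 428 524) (leaf 5 460 588))))))) (node 398 (merge (leaf 6 397 430) (node 397 (merge (leaf 6 365 366) (node 396 (merge (leaf 7 364 364) (leaf 7 396 428))))))))))))))) (merge (node 367 (merge (node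 366 (merge (leaf 7 334 334) (node 495 (merge (leaf 7 366 398) (leaf 4 399 496))))) (merge (node 336 (merge (leaf 6 335 368) (node 335 (merge (leaf 6 303 304) (node 334 (merge (leaf 7 302 302) (leaf 7 334 366))))))) (merge (node 336 (merge (leaf 6 335 368) (node 335 (merge (leaf 6 303 304) (node 495 (merge (leaf 4 399 496) (node 398 (merge (leaf 7 366 366) (node 430 (merge (leaf 5 302 303) (leaf 5 334 462))))))))))) (node 336 (merge (leaf 6 335 368) (node 335 (merge (leaf 6 303 304) (node 302 (merge (leaf 7 302 334) (node 303 (merge (leaf 7 270 270) (node 430 (merge (leaf 5 302 398) (leaf 5 334 462))))))))))))))) (merge (node 430 (merge (node 461 (merge (node 462 (merge (leaf 6 429 557) (node 460 (merge (leaf 2 428 432) (leaf 2 427 459))))) (merge (node 429 (merge (leaf 6 397 398) (node 557 (merge (leaf 6 429 462) (node 556 (merge (leaf 5 428 524) (leaf 5 460 588))))))) (node 429 (merge (leaf 6 397 398) (node 432 (merge (leaf 1 428 460) (node 397 (merge (leaf 3 396 396) (node 524 (merge (leaf 5 396 492) (leaf 5 428 556)))))))))))) (merge (node 495 (merge (leaf 4 399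 496) (node 400 (merge (leaf 6 367 368) (node 401 (merge (leaf 1 398 402) (node 429 (merge (leaf 2 396 428) (leaf 2 397 432))))))))) (node 495 (merge (leaf 4 399 496) (node 368 (merge (leaf 6 367 400) (node 367 (merge (leaf 6 335 336) (node 335 (merge (leaf 5 334 462) (node 302 (merge (leaf 7 302 334) (node 303 (merge (leaf 7 270 270) (leaf 5 302 398)))))))))))))))) (merge (node 430 (merge (node 461 (merge (node 398 (merge (leaf 6 397 429) (node 462 (merge (leaf 5 365 366) (leaf 6 429 557))))) (merge (node 462 (merge (leaf 6 429 557) (node 460 (merge (leaf 2 428 432) (leaf 2 427 459))))) (node 429 (merge (leaf 6 397 398) (node 432 (merge (leaf 1 428 460) (node 400 (merge (leaf 2 397 401) (leaf 2 396 428)))))))))) (merge (node 429 (merge (node 428 (merge (leaf 2 396 400) (node 396 (merge (leaf 3 395 395) (leaf 7 396 461))))) (merge (node 400 (merge (leaf 2 396 428) (node 401 (merge (leaf 1 398 402) (leaf 2 397 432))))) (node 461 (merge (leaf 6 397 398) (node 432 (merge (leaf 1 428 460) (node 397 (merge (leaf 3 396 396) (node 524 (merge (leaf 5 396 492) (leaf 5 428 556))))))))))))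 (merge (node 461 (merge (node 398 (merge (leaf 6 397 429) (node 462 (merge (leaf 5 365 366) (leaf 6 429 557))))) (merge (node 462 (merge (leaf 6 429 557) (node 460 (merge (leaf 2 428 432) (leaf 2 427 459))))) (node 429 (merge (leaf 6 397 398) (node 432 (merge (leaf 1 428 460) (node 397 (merge (leaf 3 396 396) (node 524 (merge (leaf 5 396 492) (leaf 5 428 556)))))))))))) (merge (node 461 (merge (node 462 (merge (leaf 6 429 557) (node 460 (merge (leaf 2 428 432) (leaf 2 427 459))))) (merge (node 429 (merge (node 460 (merge (leaf 1 428 432) (node 459 (merge (leaf 1 427 428) (leaf 2 426 458))))) (merge (node 428 (merge (leaf 2 396 400) (node 396 (merge (leaf 3 395 395) (leaf 7 396 461))))) (node 432 (merge (leaf 1 428 460) (node 397 (merge (leaf 3 396 396) (node 524 (merge (leaf 5 396 492) (leaf 5 428 556)))))))))) (node 557 (merge (leaf 6 429 462) (node 556 (merge (leaf 5 460 588) (node 429 (merge (leaf 5 428 524) (node 428 (merge (leaf 7 396 396) (leaf 2 396 400)))))))))))) (merge (node 398 (merge (node 367 (merge (node 335 (merge (leaf 5 302 303) (leaf 5 334 462)))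 (node 368 (merge (leaf 6 335 336) (node 369 (merge (leaf 1 366 370) (node 397 (merge (leaf 2 364 396) (leaf 2 365 400))))))))) (merge (node 366 (merge (leaf 4 334 334) (node 462 (merge (leaf 5 365 461) (node 365 (merge (leaf 7 333 333) (node 364 (merge (leaf 0 363 363) (node 400 (merge (leaf 3 364 397) (leaf 3 365 401))))))))))) (merge (node 366 (merge (leaf 4 334 334) (node 462 (merge (leaf 5 365 461) (node 365 (merge (leaf 7 333 333) (node 364 (merge (leaf 0 363 363) (node 400 (merge (leaf 0 364 367) (leaf 3 365 401))))))))))) (merge (node 366 (merge (leaf 4 334 334) (node 462 (merge (leaf 5 365 461) (node 367 (merge (leaf 6 334 335) (node 368 (merge (leaf 6 335 336) (node 369 (merge (leaf 1 366 370) (leaf 1 365 397))))))))))) (node 367 (merge (node 334 (merge (leaf 7 334 366) (node 335 (merge (leaf 7 302 302) (leaf 5 302 303))))) (node 368 (merge (leaf 6 335 336) (node 369 (merge (leaf 1 366 370) (node 397 (merge (leaf 2 364 396) (leaf 2 365 400)))))))))))))) (node 429 (merge (node 400 (merge (leaf 2 396 428) (node 401 (merge (leaf 1 398 402) (leaf 2 397 432)))))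 (merge (node 428 (merge (node 427 (merge (leaf 2 395 398) (leaf 0 427 462))) (node 460 (merge (leaf 1 427 459) (node 396 (merge (leaf 3 395 395) (leaf 4 396 492))))))) (node 397 (merge (node 396 (merge (leaf 3 396 432) (node 395 (merge (leaf 0 394 394) (leaf 0 395 398))))) (merge (node 432 (merge (leaf 3 396 396) (node 401 (merge (leaf 2 397 400) (node 433 (merge (leaf 2 398 402) (node 466 (merge (leaf 0 430 465) (node 434 (merge (leaf 1 430 462) (leaf 0 431 467))))))))))) (merge (node 432 (merge (node 401 (merge (leaf 2 397 400) (node 433 (merge (leaf 3 397 398) (leaf 2 398 402))))) (merge (node 433 (merge (leaf 3 397 398) (node 466 (merge (leaf 0 430 465) (node 434 (merge (leaf 1 430 462) (leaf 0 431 467))))))) (merge (node 401 (merge (leaf 2 397 400) (node 433 (merge (leaf 2 398 402) (node 466 (merge (leaf 0 430 465) (node 434 (merge (leaf 1 430 462) (leaf 0 431 467))))))))) (node 400 (merge (leaf 2 397 401) (node 368 (merge (leaf 5 335 336) (node 398 (merge (leaf 2 365 369) (node 365 (merge (leaf 3 364 364) (node 333 (merge (leaf 4 301 301) (leaf 4 333 462)))))))))))))))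 (node 367 (merge (node 336 (merge (leaf 6 335 368) (node 335 (merge (leaf 6 303 304) (leaf 5 334 462))))) (merge (node 334 (merge (leaf 7 334 366) (node 335 (merge (leaf 7 302 302) (leaf 5 334 462))))) (node 368 (merge (leaf 6 335 336) (node 366 (merge (leaf 7 334 334) (node 396 (merge (leaf 1 364 365) (leaf 2 364 398))))))))))))))))))))))) (node 461 (merge (node 460 (merge (node 462 (merge (leaf 2 428 432) (node 430 (merge (leaf 2 427 459) (leaf 6 429 557))))) (merge (node 428 (merge (leaf 7 428 557) (node 396 (merge (leaf 4 364 364) (leaf 4 396 492))))) (node 462 (merge (leaf 2 428 432) (node 492 (merge (leaf 1 459 491) (node 428 (merge (leaf 4 396 396) (leaf 3 427 427)))))))))) (merge (node 556 (merge (node 524 (merge (leaf 5 428 429) (node 588 (merge (leaf 6 460 492) (leaf 5 460 557))))) (merge (node 495 (merge (leaf 4 399 496) (node 400 (merge (leaf 6 367 368) (node 429 (merge (leaf 5 428 524) (node 428 (merge (leaf 7 396 396) (leaf 2 396 430))))))))) (node 557 (merge (leaf 5 460 588) (node 462 (merge (leaf 6 429 430) (node 460 (merge (leaf 7 428 428) (node 492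 (merge (leaf 1 459 491) (leaf 7 460 589)))))))))))) (merge (node 429 (merge (node 396 (merge (leaf 7 396 428) (node 397 (merge (leaf 7 364 364) (node 524 (merge (leaf 5 396 492) (leaf 5 428 556))))))) (merge (node 495 (merge (leaf 4 399 496) (node 400 (merge (leaf 6 367 368) (node 430 (merge (leaf 2 396 428) (node 401 (merge (leaf 1 398 402) (leaf 2 397 432))))))))) (node 495 (merge (leaf 4 399 496) (node 368 (merge (leaf 6 367 400) (node 367 (merge (leaf 6 335 336) (node 366 (merge (leaf 7 334 334) (node 524 (merge (leaf 5 428 556) (node 397 (merge (leaf 5 396 492) (node 396 (merge (leaf 7 364 364) (leaf 1 364 365)))))))))))))))))) (merge (node 495 (merge (leaf 4 399 496) (node 368 (merge (leaf 6 367 400) (node 367 (merge (leaf 6 335 336) (node 334 (merge (leaf 7 334 366) (node 335 (merge (leaf 7 302 302) (node 462 (merge (leaf 5 334 430) (node 460 (merge (leaf 2 428 432) (node 428 (merge (leaf 3 427 427) (leaf 7 428 557))))))))))))))))) (merge (node 460 (merge (node 428 (merge (leaf 7 428 557) (node 396 (merge (leaf 4 364 364) (leaf 4 396 492))))) (merge (node 428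 (merge (leaf 7 428 557) (node 462 (merge (leaf 3 427 427) (leaf 2 428 432))))) (merge (node 462 (merge (leaf 2 428 432) (node 492 (merge (leaf 1 459 491) (node 428 (merge (leaf 4 396 396) (leaf 3 427 427))))))) (node 462 (merge (leaf 2 428 432) (node 492 (merge (leaf 1 459 491) (node 557 (merge (leaf 7 460 589) (node 556 (merge (leaf 5 460 588) (node 524 (merge (leaf 6 428 429) (node 555 (merge (leaf 5 459 587) (node 554 (merge (leaf 2 522 526) (leaf 2 521 553))))))))))))))))))) (node 368 (merge (node 495 (merge (leaf 6 367 400) (leaf 4 399 496))) (node 367 (merge (leaf 6 335 336) (node 334 (merge (leaf 7 334 366) (node 335 (merge (leaf 7 302 302) (node 462 (merge (leaf 5 334 430) (node 460 (merge (leaf 2 428 432) (node 492 (merge (leaf 1 459 491) (node 557 (merge (leaf 7 460 589) (node 556 (merge (leaf 5 460 588) (node 524 (merge (leaf 6 428 429) (node 555 (merge (leaf 5 459 587) (node 554 (merge (leaf 2 522 526) (leaf 2 521 553))))))))))))))))))))))))))))))))))))) nP_270 cP_270 15 (by decide +kernel)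
def nP_271 : ℕ := 0x100000001200000000000000080000000000000000000000000000000000000000000000000000000000000000000000000000000000000000000000000000000000000000000
def cP_271 : ℕ := 0x100000007c000001ff000000ff800002bf800000df00000fff00000e7f00001ffe00000ffe00001ffc000001f0000001e000000040000000000000000000000000000000000000000000000000000000000000000000
theorem lP_271 : S nP_271 cP_271 17 := S_of_chk [(nP_233, cP_233, 11), (nP_267, cP_267, 12), (nP_269, cP_269, 13), (nP_270, cP_270, 15)] ⟨lP_233, lP_267, lP_269, lP_270, trivial⟩ (node 493 (merge (node 527 (merge (node 526 (merge (leaf 3 492 492) (leaf 0 525 561))) (merge (node 526 (merge (leaf 0 525 561) (node 496 (merge (leaf 2 493 497) (node 495 (merge (leaf 4 431 431) (leaf 2 492 524))))))) (node 495 (merge (leaf 4 431 431) (node 494 (merge (leaf 0 492 492) (node 496 (merge (leaf 1 492 524) (node 461 (merge (leaf 3 460 460) (node 497 (merge (leaf 3 461 462) (node 498 (merge (leaf 1 495 499) (node 466 (merge (leaf 2 462 465) (leaf 2 463 467)))))))))))))))))) (merge (node 492 (merge (node 527 (merge (leaf 3 492 526)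 (node 495 (merge (leaf 4 431 431) (leaf 0 492 494))))) (merge (node 526 (merge (leaf 3 492 527) (node 491 (merge (leaf 0 490 490) (node 462 (merge (leaf 2 459 494) (node 461 (merge (leaf 1 459 460) (node 430 (merge (leaf 6 429 557) (node 398 (merge (leaf 5 365 366) (leaf 6 397 429))))))))))))) (merge (node 494 (merge (node 462 (merge (leaf 2 459 491) (node 557 (merge (leaf 6 461 589) (node 430 (merge (leaf 5 397 398) (leaf 6 429 461))))))) (merge (node 495 (merge (leaf 0 492 527) (node 491 (merge (leaf 2 459 462) (node 459 (merge (leaf 3 458 458) (leaf 3 459 460))))))) (node 495 (merge (leaf 0 492 527) (node 460 (merge (leaf 3 459 459) (node 557 (merge (leaf 7 460 589) (node 461 (merge (leaf 7 428 428) (leaf 3 460 496)))))))))))) (merge (node 491 (merge (node 462 (merge (leaf 2 459 494) (node 461 (merge (leaf 1 459 460) (leaf 2 458 490))))) (merge (node 490 (merge (leaf 0 490 526) (node 521 (merge (leaf 1 489 522) (node 489 (merge (leaf 1 488 520) (node 461 (merge (leaf 2 457 460) (leaf 2 458 462))))))))) (merge (node 490 (merge (leaf 0 490 526) (node 522 (merge (leaf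 1 489 521) (node 494 (merge (leaf 1 490 523) (node 458 (merge (leaf 3 457 457) (leaf 3 458 459))))))))) (node 494 (merge (leaf 2 459 462) (node 523 (merge (leaf 1 490 522) (node 459 (merge (leaf 3 458 458) (node 460 (merge (leaf 3 459 495) (node 428 (merge (leaf 4 396 396) (leaf 6 427 555))))))))))))))) (node 461 (merge (node 460 (merge (node 462 (merge (leaf 1 459 491) (node 557 (merge (leaf 6 429 430) (leaf 7 460 589))))) (merge (node 428 (merge (leaf 7 428 557) (node 396 (merge (leaf 4 364 364) (leaf 4 396 492))))) (node 462 (merge (leaf 1 459 491) (node 428 (merge (leaf 4 396 396) (leaf 3 427 427)))))))) (merge (node 526 (merge (leaf 3 492 527) (node 491 (merge (leaf 0 490 490) (node 460 (merge (leaf 1 459 462) (node 428 (merge (leaf 4 396 396) (leaf 7 428 557))))))))) (merge (node 462 (merge (node 491 (merge (leaf 1 459 460) (leaf 2 458 490))) (node 527 (merge (leaf 3 492 526) (node 495 (merge (leaf 4 431 431) (node 430 (merge (leaf 7 430 559) (node 398 (merge (leaf 4 366 366) (leaf 6 397 429))))))))))) (merge (node 430 (merge (node 398 (merge (leaf 6 397 429)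 (node 462 (merge (leaf 5 365 366) (leaf 6 429 557))))) (merge (node 462 (merge (leaf 6 429 557) (node 527 (merge (leaf 3 492 526) (node 495 (merge (leaf 4 431 431) (leaf 7 430 559))))))) (node 429 (merge (leaf 6 397 398) (node 396 (merge (leaf 7 396 428) (node 397 (merge (leaf 7 364 364) (node 431 (merge (leaf 3 396 432) (node 527 (merge (leaf 4 431 495) (leaf 3 492 526)))))))))))))) (node 429 (merge (node 398 (merge (leaf 6 397 430) (node 397 (merge (leaf 6 365 366) (node 396 (merge (leaf 7 364 364) (leaf 7 396 428))))))) (merge (node 428 (merge (leaf 7 396 396) (node 460 (merge (leaf 7 428 557) (node 527 (merge (leaf 3 492 526) (node 431 (merge (leaf 4 431 495) (node 430 (merge (leaf 1 428 432) (leaf 1 427 459))))))))))) (merge (node 527 (merge (leaf 3 492 526) (node 396 (merge (leaf 7 396 428) (node 397 (merge (leaf 7 364 364) (node 366 (merge (leaf 6 365 398) (node 365 (merge (leaf 6 333 334) (leaf 5 364 460))))))))))) (merge (node 398 (merge (leaf 6 397 430) (node 397 (merge (leaf 6 365 366) (node 364 (merge (leaf 7 364 396) (node 365 (merge (leaf 7 332 332)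 (leaf 5 364 460))))))))) (node 398 (merge (leaf 6 397 430) (node 397 (merge (leaf 6 365 366) (node 460 (merge (leaf 5 364 365) (node 557 (merge (leaf 7 428 428) (leaf 7 460 589)))))))))))))))))))))))) (merge (node 495 (merge (node 431 (merge (leaf 4 431 527) (node 399 (merge (leaf 4 399 496) (node 368 (merge (leaf 6 367 400) (node 367 (merge (leaf 6 335 336) (node 366 (merge (leaf 7 334 334) (leaf 7 366 398))))))))))) (merge (node 431 (merge (leaf 4 431 527) (node 399 (merge (leaf 4 399 496) (node 368 (merge (leaf 6 367 400) (node 367 (merge (leaf 6 335 336) (node 462 (merge (leaf 5 366 494) (node 430 (merge (leaf 5 334 335) (node 461 (merge (leaf 6 429 557) (node 460 (merge (leaf 2 428 432) (leaf 2 427 459))))))))))))))))) (merge (node 494 (merge (node 524 (merge (leaf 1 492 496) (node 523 (merge (leaf 1 491 492) (leaf 2 490 522))))) (merge (node 496 (merge (leaf 1 492 524) (node 461 (merge (leaf 3 460 460) (node 462 (merge (leaf 3 461 497) (node 430 (merge (leaf 5 397 398) (leaf 6 429 557))))))))) (merge (node 462 (merge (node 557 (merge (leaf 6 461 589) (node 430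 (merge (leaf 5 397 398) (leaf 6 429 461))))) (merge (node 557 (merge (leaf 6 461 589) (node 492 (merge (leaf 2 459 491) (node 460 (merge (leaf 3 459 459) (node 428 (merge (leaf 4 396 396) (leaf 4 428 524))))))))) (node 492 (merge (leaf 2 459 491) (node 460 (merge (leaf 3 459 459) (node 428 (merge (leaf 4 396 396) (node 427 (merge (leaf 3 427 461) (node 430 (merge (leaf 5 397 398) (leaf 0 427 429)))))))))))))) (node 492 (merge (node 460 (merge (leaf 3 459 459) (node 557 (merge (leaf 7 460 589) (node 461 (merge (leaf 7 428 428) (leaf 3 460 496))))))) (merge (node 462 (merge (leaf 2 459 491) (node 557 (merge (leaf 6 461 589) (node 430 (merge (leaf 5 397 398) (leaf 6 429 461))))))) (node 491 (merge (leaf 2 459 462) (node 522 (merge (leaf 1 490 523) (node 490 (merge (leaf 1 489 521) (node 458 (merge (leaf 3 457 457) (leaf 3 458 459)))))))))))))))) (node 492 (merge (node 527 (merge (leaf 4 431 431) (leaf 0 492 494))) (merge (node 460 (merge (node 428 (merge (leaf 4 396 396) (node 557 (merge (leaf 7 428 461) (leaf 4 428 524))))) (merge (node 494 (merge (leaf 3 459 459) (node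 523 (merge (leaf 1 491 524) (node 491 (merge (leaf 2 459 462) (leaf 1 490 522))))))) (node 428 (merge (leaf 4 396 396) (node 461 (merge (leaf 7 428 557) (node 462 (merge (leaf 3 427 427) (leaf 1 459 491)))))))))) (node 461 (merge (node 460 (merge (node 557 (merge (leaf 7 428 428) (leaf 7 460 589))) (node 462 (merge (leaf 1 459 491) (node 431 (merge (leaf 2 428 432) (leaf 4 431 527))))))) (merge (node 429 (merge (node 524 (merge (leaf 5 396 397) (leaf 5 428 556))) (node 430 (merge (leaf 6 397 398) (node 462 (merge (leaf 6 429 557) (node 527 (merge (leaf 4 431 431) (leaf 7 430 559))))))))) (merge (node 462 (merge (node 491 (merge (leaf 1 459 460) (leaf 2 458 490))) (node 527 (merge (leaf 4 431 431) (node 430 (merge (leaf 7 430 559) (node 398 (merge (leaf 4 366 366) (leaf 6 397 429))))))))) (node 429 (merge (node 524 (merge (leaf 5 396 397) (leaf 5 428 556))) (merge (node 398 (merge (leaf 6 397 430) (node 397 (merge (leaf 6 365 366) (node 428 (merge (leaf 7 396 396) (node 460 (merge (leaf 5 364 365) (leaf 7 428 557))))))))) (node 428 (merge (leaf 7 396 396) (node 557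 (merge (leaf 7 428 460) (node 556 (merge (leaf 5 428 524) (leaf 5 460 588))))))))))))))))))))) (merge (node 527 (merge (node 526 (merge (leaf 3 492 492) (leaf 0 525 561))) (merge (node 526 (merge (leaf 0 525 561) (node 496 (merge (leaf 2 493 497) (node 495 (merge (leaf 4 431 431) (leaf 2 492 524))))))) (node 461 (merge (node 495 (merge (leaf 4 431 431) (node 494 (merge (leaf 0 492 492) (node 496 (merge (leaf 1 492 524) (node 462 (merge (leaf 3 461 497) (node 430 (merge (leaf 4 398 398) (leaf 7 430 559))))))))))) (merge (node 495 (merge (leaf 4 431 431) (node 494 (merge (leaf 0 492 492) (node 524 (merge (leaf 1 492 496) (node 556 (merge (leaf 5 428 429) (node 588 (merge (leaf 5 460 557) (leaf 6 492 620))))))))))) (merge (node 429 (merge (node 396 (merge (leaf 7 396 428) (node 397 (merge (leaf 7 364 364) (node 524 (merge (leaf 5 396 492) (leaf 5 428 556))))))) (merge (node 430 (merge (leaf 6 397 398) (node 557 (merge (leaf 6 429 462) (node 556 (merge (leaf 5 428 524) (leaf 5 460 588))))))) (node 398 (merge (leaf 6 397 430) (node 397 (merge (leaf 6 365 366) (node 396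 (merge (leaf 7 364 364) (leaf 7 396 428)))))))))) (merge (node 430 (merge (node 398 (merge (leaf 6 397 429) (node 462 (merge (leaf 5 365 366) (leaf 6 429 557))))) (merge (node 495 (merge (leaf 4 431 431) (node 494 (merge (leaf 0 492 492) (node 462 (merge (leaf 7 430 559) (node 557 (merge (leaf 6 429 461) (leaf 6 461 589))))))))) (node 429 (merge (leaf 6 397 398) (node 396 (merge (leaf 7 396 428) (node 397 (merge (leaf 7 364 364) (node 431 (merge (leaf 3 396 432) (leaf 4 431 495)))))))))))) (node 556 (merge (node 524 (merge (leaf 5 428 429) (node 588 (merge (leaf 5 460 557) (leaf 6 492 620))))) (merge (node 429 (merge (leaf 5 428 524) (node 398 (merge (leaf 6 397 430) (node 397 (merge (leaf 6 365 366) (node 396 (merge (leaf 7 364 364) (leaf 7 396 428))))))))) (merge (node 431 (merge (leaf 4 431 495) (node 557 (merge (leaf 5 460 588) (node 430 (merge (leaf 6 429 462) (node 429 (merge (leaf 6 397 398) (node 396 (merge (leaf 7 396 428) (node 397 (merge (leaf 7 364 364) (leaf 3 396 432))))))))))))) (node 557 (merge (leaf 5 460 588) (node 462 (merge (leaf 6 429 430) (node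 589 (merge (leaf 6 461 494) (node 622 (merge (leaf 4 493 590) (node 621 (merge (leaf 4 525 654) (node 653 (merge (leaf 7 524 524) (node 652 (merge (leaf 5 524 620) (leaf 5 556 684))))))))))))))))))))))))))) (merge (node 492 (merge (node 527 (merge (leaf 3 492 526) (node 494 (merge (leaf 0 492 495) (node 491 (merge (leaf 2 459 462) (node 522 (merge (leaf 1 490 523) (node 490 (merge (leaf 1 489 521) (node 458 (merge (leaf 3 457 457) (leaf 3 458 459))))))))))))) (merge (node 494 (merge (node 495 (merge (leaf 0 492 527) (node 524 (merge (leaf 1 492 496) (leaf 1 491 523))))) (node 462 (merge (leaf 2 459 491) (node 557 (merge (leaf 6 461 589) (node 430 (merge (leaf 5 397 398) (leaf 6 429 461))))))))) (merge (node 491 (merge (node 490 (merge (leaf 0 490 526) (node 489 (merge (leaf 0 489 524) (node 521 (merge (leaf 1 488 520) (leaf 1 489 522))))))) (node 462 (merge (leaf 2 459 494) (node 461 (merge (leaf 1 459 460) (node 430 (merge (leaf 6 429 557) (node 398 (merge (leaf 5 365 366) (leaf 6 397 429))))))))))) (merge (node 557 (merge (node 460 (merge (leaf 7 460 589) (node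 428 (merge (leaf 4 396 396) (leaf 4 428 524))))) (merge (node 527 (merge (leaf 3 492 526) (node 494 (merge (leaf 0 492 495) (node 462 (merge (leaf 6 461 589) (node 430 (merge (leaf 5 397 398) (leaf 6 429 461))))))))) (node 494 (merge (node 527 (merge (leaf 0 492 495) (leaf 3 492 526))) (merge (node 460 (merge (node 428 (merge (leaf 4 396 396) (leaf 7 428 461))) (node 495 (merge (leaf 3 459 459) (node 524 (merge (leaf 1 492 496) (leaf 1 491 523))))))) (node 461 (merge (node 428 (merge (leaf 7 428 460) (node 429 (merge (leaf 7 396 396) (node 556 (merge (leaf 5 428 524) (leaf 5 460 588))))))) (merge (node 430 (merge (leaf 6 429 462) (node 429 (merge (leaf 6 397 398) (node 556 (merge (leaf 5 428 524) (leaf 5 460 588))))))) (merge (node 430 (merge (leaf 6 429 462) (node 429 (merge (leaf 6 397 398) (node 428 (merge (leaf 7 396 396) (leaf 7 428 460))))))) (node 462 (merge (leaf 6 429 430) (node 460 (merge (leaf 7 428 428) (node 459 (merge (leaf 0 458 458) (node 427 (merge (leaf 3 426 426) (node 556 (merge (leaf 7 427 524) (leaf 5 460 588))))))))))))))))))))) (merge (node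 461 (merge (node 526 (merge (leaf 3 492 527) (node 491 (merge (leaf 0 490 490) (node 460 (merge (leaf 1 459 462) (node 557 (merge (leaf 7 428 428) (leaf 7 460 589))))))))) (merge (node 526 (merge (leaf 3 492 527) (node 491 (merge (leaf 0 490 490) (node 462 (merge (leaf 1 459 460) (node 430 (merge (leaf 6 429 557) (node 398 (merge (leaf 5 365 366) (leaf 6 397 429))))))))))) (merge (node 429 (merge (node 524 (merge (leaf 5 396 397) (leaf 5 428 556))) (merge (node 398 (merge (leaf 6 397 430) (node 397 (merge (leaf 6 365 366) (node 396 (merge (leaf 7 364 364) (leaf 7 396 428))))))) (node 430 (merge (leaf 6 397 398) (node 557 (merge (leaf 6 429 462) (node 556 (merge (leaf 5 428 524) (leaf 5 460 588)))))))))) (merge (node 429 (merge (node 398 (merge (leaf 6 397 430) (node 397 (merge (leaf 6 365 366) (node 524 (merge (leaf 5 396 492) (leaf 5 428 556))))))) (merge (node 428 (merge (leaf 7 396 396) (node 557 (merge (leaf 7 428 460) (node 556 (merge (leaf 5 428 524) (leaf 5 460 588))))))) (node 398 (merge (leaf 6 397 430) (node 397 (merge (leaf 6 365 366) (node 396 (merge (leaf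 7 364 364) (leaf 7 396 428)))))))))) (node 524 (merge (node 556 (merge (leaf 5 428 429) (node 588 (merge (leaf 6 460 492) (leaf 6 492 620))))) (merge (node 556 (merge (leaf 6 460 588) (node 526 (merge (leaf 3 492 527) (node 491 (merge (leaf 0 490 490) (node 460 (merge (leaf 1 459 462) (node 428 (merge (leaf 4 396 396) (node 555 (merge (leaf 5 427 523) (leaf 5 459 587))))))))))))) (node 429 (merge (leaf 5 396 397) (node 430 (merge (leaf 6 397 398) (node 428 (merge (leaf 7 396 396) (node 462 (merge (leaf 0 427 427) (node 491 (merge (leaf 1 459 460) (leaf 2 458 490))))))))))))))))))) (node 491 (merge (node 526 (merge (leaf 0 490 490) (leaf 3 492 527))) (merge (node 490 (merge (node 489 (merge (leaf 0 489 524) (node 521 (merge (leaf 1 488 520) (leaf 1 489 522))))) (merge (node 489 (merge (leaf 0 489 524) (node 457 (merge (leaf 3 456 456) (leaf 3 457 458))))) (node 522 (merge (leaf 1 489 521) (node 494 (merge (leaf 1 490 523) (node 458 (merge (leaf 3 457 457) (leaf 3 458 459)))))))))) (node 524 (merge (node 459 (merge (node 458 (merge (leaf 3 458 494) (node 457 (merge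 (leaf 0 456 456) (leaf 0 457 460))))) (node 556 (merge (leaf 7 459 588) (node 427 (merge (leaf 4 395 395) (leaf 4 427 523))))))) (merge (node 527 (merge (leaf 3 491 526) (node 494 (merge (leaf 0 492 495) (node 459 (merge (leaf 3 458 458) (node 556 (merge (leaf 7 459 588) (node 427 (merge (leaf 4 395 395) (leaf 7 427 460))))))))))) (merge (node 527 (merge (leaf 3 491 526) (node 494 (merge (leaf 0 492 495) (node 523 (merge (leaf 1 490 522) (node 459 (merge (leaf 3 458 458) (node 427 (merge (leaf 4 395 395) (leaf 4 427 556))))))))))) (merge (node 523 (merge (node 522 (merge (leaf 2 490 494) (leaf 2 489 521))) (merge (node 522 (merge (leaf 2 489 521) (node 554 (merge (leaf 1 521 553) (node 526 (merge (leaf 3 492 527) (leaf 1 522 555))))))) (node 526 (merge (leaf 3 491 527) (node 555 (merge (leaf 1 522 554) (node 460 (merge (leaf 5 427 428) (leaf 6 459 587)))))))))) (node 556 (merge (node 588 (merge (leaf 6 460 461) (leaf 6 492 620))) (node 555 (merge (node 587 (merge (leaf 5 459 460) (node 619 (merge (leaf 6 491 523) (leaf 6 523 651))))) (node 526 (merge (leaf 1 523 527)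 (node 554 (merge (leaf 2 521 553) (leaf 2 522 557))))))))))))))))))))))) (merge (hyp 0) (merge (node 492 (merge (node 527 (merge (leaf 3 492 526) (node 495 (merge (leaf 4 431 431) (leaf 0 492 494))))) (merge (node 524 (merge (node 556 (merge (node 588 (merge (leaf 6 460 461) (leaf 6 492 620))) (node 555 (merge (node 587 (merge (leaf 5 459 460) (node 619 (merge (leaf 6 491 523) (leaf 6 523 651))))) (node 526 (merge (leaf 1 523 527) (node 554 (merge (leaf 2 521 553) (leaf 2 522 557))))))))) (merge (node 557 (merge (node 589 (merge (leaf 7 460 460) (leaf 7 492 621))) (merge (node 589 (merge (leaf 7 492 621) (node 588 (merge (leaf 5 492 620) (node 556 (merge (leaf 6 460 461) (node 491 (merge (leaf 7 459 459) (node 490 (merge (leaf 0 489 489) (leaf 0 490 526))))))))))) (node 556 (merge (node 461 (merge (leaf 5 428 429) (leaf 5 460 588))) (merge (node 588 (merge (leaf 6 492 620) (node 491 (merge (leaf 7 459 459) (node 490 (merge (leaf 0 489 489) (leaf 0 490 526))))))) (node 526 (merge (leaf 1 524 527) (node 490 (merge (leaf 0 490 491) (node 460 (merge (leaf 4 428 428) (node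 461 (merge (leaf 6 428 429) (node 459 (merge (leaf 7 427 427) (node 458 (merge (leaf 0 457 457) (leaf 1 457 489))))))))))))))))))) (merge (node 523 (merge (node 522 (merge (leaf 2 489 521) (node 554 (merge (leaf 1 521 553) (node 526 (merge (leaf 3 492 527) (leaf 1 522 555))))))) (merge (node 522 (merge (leaf 2 489 521) (node 490 (merge (leaf 3 489 489) (node 526 (merge (leaf 0 490 491) (leaf 3 492 527))))))) (merge (node 526 (merge (leaf 3 492 527) (node 491 (merge (leaf 0 490 490) (node 555 (merge (leaf 1 522 554) (node 587 (merge (leaf 6 459 460) (leaf 6 491 619))))))))) (node 555 (merge (node 587 (merge (leaf 6 491 619) (node 460 (merge (leaf 5 427 428) (leaf 6 459 491))))) (merge (node 587 (merge (leaf 6 491 619) (node 522 (merge (leaf 2 489 521) (node 490 (merge (leaf 3 489 489) (node 458 (merge (leaf 4 426 426) (leaf 4 458 554))))))))) (node 522 (merge (leaf 2 489 521) (node 490 (merge (leaf 3 489 489) (node 458 (merge (leaf 4 426 426) (node 457 (merge (leaf 3 457 491) (node 460 (merge (leaf 5 427 428) (leaf 0 457 459)))))))))))))))))) (merge (node 523 (merge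 (node 522 (merge (leaf 2 489 521) (node 554 (merge (leaf 1 521 553) (node 526 (merge (leaf 3 492 527) (leaf 1 522 555))))))) (merge (node 522 (merge (leaf 2 489 521) (node 490 (merge (leaf 3 489 489) (node 526 (merge (leaf 0 490 491) (leaf 3 492 527))))))) (merge (node 491 (merge (node 490 (merge (leaf 0 489 489) (node 522 (merge (leaf 1 489 521) (node 458 (merge (leaf 3 457 457) (node 426 (merge (leaf 4 394 394) (leaf 4 426 555))))))))) (merge (node 522 (merge (leaf 2 489 521) (node 554 (merge (leaf 1 521 553) (node 586 (merge (leaf 6 490 618) (node 459 (merge (leaf 5 426 427) (leaf 5 458 555))))))))) (merge (node 490 (merge (leaf 0 489 489) (node 522 (merge (leaf 1 489 521) (node 554 (merge (leaf 1 521 553) (node 586 (merge (leaf 6 458 459) (leaf 6 490 618))))))))) (node 490 (merge (leaf 0 489 489) (node 458 (merge (leaf 3 457 457) (node 555 (merge (leaf 7 458 587) (node 426 (merge (leaf 4 394 394) (leaf 7 426 459))))))))))))) (node 491 (merge (node 526 (merge (leaf 3 490 490) (node 527 (merge (leaf 0 524 559) (leaf 0 525 561))))) (merge (node 490 (merge (leaf 0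 489 489) (node 458 (merge (leaf 3 457 457) (node 555 (merge (leaf 7 458 587) (node 426 (merge (leaf 4 394 394) (leaf 7 426 459))))))))) (node 526 (merge (leaf 3 491 527) (node 555 (merge (leaf 1 522 554) (node 587 (merge (leaf 6 491 619) (node 588 (merge (leaf 4 491 620) (node 459 (merge (leaf 7 459 556) (node 426 (merge (leaf 7 426 458) (node 427 (merge (leaf 7 394 394) (leaf 4 395 395)))))))))))))))))))))) (node 461 (merge (node 556 (merge (leaf 5 428 429) (node 588 (merge (leaf 6 460 492) (leaf 6 492 620))))) (merge (node 429 (merge (leaf 5 396 397) (node 430 (merge (leaf 6 397 398) (node 428 (merge (leaf 7 396 396) (node 460 (merge (leaf 7 428 557) (node 427 (merge (leaf 7 395 395) (node 426 (merge (leaf 0 425 425) (node 458 (merge (leaf 1 425 457) (leaf 1 426 459))))))))))))))) (node 460 (merge (node 557 (merge (leaf 4 428 428) (leaf 7 460 589))) (merge (node 556 (merge (leaf 6 460 588) (node 427 (merge (leaf 7 427 459) (node 428 (merge (leaf 7 395 395) (leaf 4 396 396))))))) (node 556 (merge (leaf 6 460 588) (node 459 (merge (leaf 7 427 427) (node 457 (merge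 (leaf 0 457 458) (node 557 (merge (leaf 7 460 589) (node 555 (merge (leaf 5 459 587) (node 554 (merge (leaf 2 521 553) (node 586 (merge (leaf 1 553 585) (node 522 (merge (leaf 3 521 521) (node 490 (merge (leaf 7 457 489) (leaf 6 458 491)))))))))))))))))))))))))))))) (merge (node 491 (merge (node 490 (merge (leaf 0 490 526) (node 489 (merge (leaf 0 489 524) (node 457 (merge (leaf 3 456 456) (leaf 3 457 458))))))) (merge (node 490 (merge (leaf 0 490 526) (node 489 (merge (leaf 0 489 524) (node 521 (merge (leaf 1 488 520) (leaf 1 489 522))))))) (merge (node 490 (merge (leaf 0 490 526) (node 522 (merge (leaf 1 489 521) (node 494 (merge (leaf 1 490 523) (node 458 (merge (leaf 3 457 457) (leaf 3 458 459))))))))) (merge (node 490 (merge (node 489 (merge (leaf 0 489 524) (node 521 (merge (leaf 1 488 520) (leaf 1 489 522))))) (merge (node 489 (merge (leaf 0 489 524) (node 457 (merge (leaf 3 456 456) (leaf 3 457 458))))) (node 522 (merge (leaf 1 489 521) (node 494 (merge (leaf 1 490 523) (node 458 (merge (leaf 3 457 457) (leaf 3 458 459)))))))))) (node 523 (merge (node 522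 (merge (leaf 1 490 494) (node 521 (merge (leaf 2 488 520) (leaf 2 489 524))))) (merge (node 494 (merge (leaf 1 490 522) (node 459 (merge (leaf 3 458 458) (node 460 (merge (leaf 3 459 495) (node 428 (merge (leaf 4 396 396) (leaf 6 427 555))))))))) (merge (node 524 (merge (node 494 (merge (leaf 1 491 495) (node 459 (merge (leaf 3 458 458) (node 427 (merge (leaf 4 395 395) (leaf 4 427 556))))))) (merge (node 555 (merge (node 587 (merge (leaf 6 491 619) (node 460 (merge (leaf 5 427 428) (leaf 6 459 491))))) (node 554 (merge (leaf 1 522 526) (node 553 (merge (leaf 2 520 552) (leaf 2 521 556))))))) (node 494 (merge (leaf 1 491 495) (node 459 (merge (leaf 3 458 458) (node 427 (merge (leaf 4 395 395) (node 428 (merge (leaf 6 395 396) (node 460 (merge (leaf 6 427 555) (leaf 4 428 557)))))))))))))) (node 555 (merge (node 460 (merge (leaf 6 459 587) (node 428 (merge (leaf 4 396 396) (leaf 6 427 459))))) (merge (node 587 (merge (leaf 6 459 460) (node 619 (merge (leaf 6 491 524) (node 620 (merge (leaf 4 491 588) (leaf 4 523 652))))))) (node 554 (merge (node 524 (merge (leaf 1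 522 526) (node 553 (merge (leaf 2 520 552) (leaf 2 521 556))))) (node 586 (merge (leaf 5 458 459) (node 618 (merge (leaf 6 490 522) (leaf 6 522 650))))))))))))))))))) (node 495 (merge (node 527 (merge (leaf 4 431 431) (leaf 0 492 494))) (merge (node 494 (merge (node 524 (merge (leaf 1 492 496) (node 523 (merge (leaf 1 491 492) (leaf 2 490 522))))) (merge (node 460 (merge (leaf 3 459 459) (node 557 (merge (leaf 7 460 589) (node 461 (merge (leaf 7 428 428) (leaf 3 460 496))))))) (node 524 (merge (leaf 1 491 523) (node 460 (merge (leaf 3 459 459) (node 428 (merge (leaf 4 396 396) (leaf 4 428 557)))))))))) (node 431 (merge (leaf 4 431 527) (node 399 (merge (leaf 4 399 496) (node 368 (merge (leaf 6 367 400) (node 367 (merge (leaf 6 335 336) (node 366 (merge (leaf 7 334 334) (leaf 7 366 398)))))))))))))))))) (merge (hyp 1) (merge (hyp 2) (merge (node 431 (merge (node 527 (merge (leaf 4 431 495) (node 526 (merge (leaf 3 492 492) (leaf 0 525 561))))) (merge (node 495 (merge (leaf 4 431 527) (node 399 (merge (leaf 4 399 496) (node 368 (merge (leaf 6 367 400) (node 367 (merge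 (leaf 6 335 336) (node 366 (merge (leaf 7 334 334) (leaf 7 366 398))))))))))) (merge (node 461 (merge (node 460 (merge (node 462 (merge (leaf 2 428 432) (node 430 (merge (leaf 2 427 459) (leaf 6 429 557))))) (merge (node 428 (merge (leaf 7 428 557) (node 396 (merge (leaf 4 364 364) (leaf 4 396 492))))) (node 462 (merge (leaf 2 428 432) (node 492 (merge (leaf 1 459 491) (node 428 (merge (leaf 4 396 396) (leaf 3 427 427)))))))))) (merge (node 462 (merge (node 432 (merge (leaf 2 428 460) (node 433 (merge (leaf 1 429 430) (leaf 1 430 434))))) (merge (node 430 (merge (leaf 6 429 557) (node 398 (merge (leaf 5 365 366) (leaf 6 397 429))))) (node 460 (merge (leaf 2 428 432) (node 428 (merge (leaf 3 427 427) (leaf 7 428 557)))))))) (merge (node 429 (merge (node 430 (merge (leaf 6 397 398) (node 428 (merge (leaf 7 396 396) (node 460 (merge (leaf 1 428 432) (leaf 1 427 459))))))) (merge (node 396 (merge (leaf 7 396 428) (node 397 (merge (leaf 7 364 364) (node 524 (merge (leaf 5 396 492) (leaf 5 428 556))))))) (node 398 (merge (leaf 6 397 430) (node 397 (merge (leaf 6 365 366)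 (node 524 (merge (leaf 5 396 492) (leaf 5 428 556)))))))))) (merge (node 429 (merge (node 396 (merge (leaf 7 396 428) (node 397 (merge (leaf 7 364 364) (node 524 (merge (leaf 5 396 492) (leaf 5 428 556))))))) (merge (node 430 (merge (leaf 6 397 398) (node 557 (merge (leaf 6 429 462) (node 556 (merge (leaf 5 428 524) (leaf 5 460 588))))))) (node 398 (merge (leaf 6 397 430) (node 397 (merge (leaf 6 365 366) (node 396 (merge (leaf 7 364 364) (leaf 7 396 428)))))))))) (merge (node 556 (merge (node 524 (merge (leaf 5 428 429) (node 588 (merge (leaf 6 460 492) (leaf 6 492 620))))) (merge (node 429 (merge (leaf 5 428 524) (node 428 (merge (leaf 7 396 396) (node 460 (merge (leaf 7 428 557) (node 462 (merge (leaf 3 427 427) (leaf 2 428 432))))))))) (node 557 (merge (leaf 5 460 588) (node 460 (merge (leaf 7 428 428) (node 492 (merge (leaf 7 460 589) (node 462 (merge (leaf 2 428 432) (leaf 1 459 491)))))))))))) (node 462 (merge (node 432 (merge (leaf 2 428 460) (node 433 (merge (leaf 1 429 430) (leaf 1 430 434))))) (merge (node 430 (merge (leaf 6 429 557) (node 398 (merge (leaf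 5 365 366) (leaf 6 397 429))))) (node 460 (merge (leaf 2 428 432) (node 492 (merge (leaf 1 459 491) (node 557 (merge (leaf 7 460 589) (node 526 (merge (leaf 3 492 527) (node 556 (merge (leaf 5 460 588) (node 524 (merge (leaf 6 428 429) (node 555 (merge (leaf 2 522 554) (leaf 5 459 587)))))))))))))))))))))))) (hyp 3))))) (node 431 (merge (node 527 (merge (leaf 4 431 495) (node 526 (merge (leaf 0 525 561) (node 524 (merge (leaf 0 524 559) (node 556 (merge (leaf 1 523 555) (leaf 1 524 557))))))))) (merge (node 495 (merge (leaf 4 431 527) (node 399 (merge (leaf 4 399 496) (node 368 (merge (leaf 6 367 400) (node 367 (merge (leaf 6 335 336) (node 366 (merge (leaf 7 334 334) (leaf 7 366 398))))))))))) (merge (node 399 (merge (node 495 (merge (leaf 4 399 496) (node 366 (merge (leaf 7 366 398) (node 367 (merge (leaf 7 334 334) (node 494 (merge (leaf 5 366 462) (leaf 5 398 526))))))))) (merge (node 495 (merge (leaf 4 399 496) (node 368 (merge (leaf 6 367 400) (node 367 (merge (leaf 6 335 336) (node 494 (merge (leaf 5 366 462) (leaf 5 398 526))))))))) (merge (node 462 (merge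 (node 494 (merge (leaf 5 366 367) (node 430 (merge (leaf 5 397 398) (leaf 6 398 526))))) (merge (node 367 (merge (leaf 5 366 494) (node 336 (merge (leaf 6 335 368) (node 335 (merge (leaf 6 303 304) (node 334 (merge (leaf 7 302 302) (leaf 7 334 366))))))))) (node 461 (merge (node 430 (merge (leaf 6 429 557) (node 398 (merge (leaf 5 365 366) (leaf 6 397 429))))) (merge (node 432 (merge (leaf 2 428 460) (node 433 (merge (leaf 1 429 430) (leaf 1 430 434))))) (node 460 (merge (leaf 2 428 432) (node 428 (merge (leaf 3 427 427) (leaf 7 428 557))))))))))) (node 400 (merge (node 495 (merge (leaf 6 367 368) (leaf 4 399 496))) (merge (node 401 (merge (node 430 (merge (leaf 1 398 402) (node 429 (merge (leaf 2 396 428) (leaf 2 397 432))))) (merge (node 430 (merge (leaf 1 398 402) (node 429 (merge (leaf 1 397 398) (leaf 2 396 428))))) (merge (node 402 (merge (node 435 (merge (leaf 0 399 434) (node 403 (merge (leaf 1 399 432) (leaf 0 400 436))))) (merge (node 403 (merge (leaf 1 399 432) (node 371 (merge (leaf 2 367 370) (leaf 2 368 372))))) (node 434 (merge (leaf 0 399 435) (node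 398 (merge (leaf 0 398 433) (node 370 (merge (leaf 2 366 369) (leaf 2 367 371)))))))))) (node 398 (merge (node 430 (merge (leaf 1 397 429) (node 366 (merge (leaf 4 334 334) (leaf 3 365 365))))) (merge (node 433 (merge (leaf 0 398 434) (node 397 (merge (leaf 0 397 432) (node 429 (merge (leaf 1 396 428) (leaf 1 397 430))))))) (node 433 (merge (leaf 0 398 434) (node 397 (merge (leaf 0 397 432) (node 369 (merge (leaf 2 365 368) (leaf 2 366 370)))))))))))))) (node 398 (merge (node 366 (merge (leaf 7 366 495) (node 334 (merge (leaf 4 302 302) (leaf 4 334 430))))) (merge (node 366 (merge (leaf 7 366 495) (node 365 (merge (leaf 3 365 401) (node 364 (merge (leaf 0 363 363) (leaf 3 364 397))))))) (node 401 (merge (node 430 (merge (leaf 1 398 402) (node 429 (merge (leaf 1 397 398) (leaf 2 396 428))))) (merge (node 434 (merge (leaf 0 398 433) (node 402 (merge (leaf 0 399 435) (node 370 (merge (leaf 2 366 369) (leaf 2 367 371))))))) (node 433 (merge (leaf 0 398 434) (node 397 (merge (leaf 0 397 432) (node 429 (merge (leaf 1 396 428) (leaf 1 397 430)))))))))))))))))))) (node 461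 (merge (node 462 (merge (node 432 (merge (leaf 2 428 460) (node 433 (merge (leaf 1 429 430) (leaf 1 430 434))))) (merge (node 430 (merge (leaf 6 429 557) (node 398 (merge (leaf 5 365 366) (leaf 5 397 494))))) (node 460 (merge (leaf 2 428 432) (node 428 (merge (leaf 3 427 427) (leaf 7 428 557)))))))) (merge (node 460 (merge (node 462 (merge (leaf 2 428 432) (node 430 (merge (leaf 2 427 459) (leaf 6 429 557))))) (merge (node 428 (merge (leaf 7 428 557) (node 396 (merge (leaf 4 364 364) (leaf 7 396 429))))) (node 462 (merge (leaf 2 428 432) (node 459 (merge (leaf 2 427 430) (node 427 (merge (leaf 3 426 426) (leaf 3 427 428)))))))))) (merge (node 429 (merge (node 430 (merge (leaf 6 397 398) (node 460 (merge (leaf 1 428 432) (node 459 (merge (leaf 1 427 428) (leaf 2 426 458))))))) (merge (node 396 (merge (leaf 7 396 428) (node 397 (merge (leaf 7 364 364) (node 432 (merge (leaf 3 396 430) (node 462 (merge (leaf 2 428 460) (node 494 (merge (leaf 4 365 365) (leaf 4 397 526))))))))))) (merge (node 396 (merge (leaf 7 396 428) (node 397 (merge (leaf 7 364 364) (node 366 (merge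 (leaf 6 365 398) (node 365 (merge (leaf 6 333 334) (node 494 (merge (leaf 4 365 462) (leaf 4 397 526))))))))))) (node 398 (merge (leaf 6 397 430) (node 397 (merge (leaf 6 365 366) (node 364 (merge (leaf 7 364 396) (node 365 (merge (leaf 7 332 332) (node 494 (merge (leaf 4 365 462) (leaf 4 397 526))))))))))))))) (merge (node 429 (merge (node 428 (merge (leaf 7 396 396) (node 557 (merge (leaf 7 428 460) (node 556 (merge (leaf 5 428 524) (leaf 5 460 588))))))) (merge (node 556 (merge (leaf 5 428 524) (node 557 (merge (leaf 5 460 588) (node 526 (merge (leaf 1 524 527) (node 494 (merge (leaf 4 397 397) (node 589 (merge (leaf 6 461 462) (leaf 6 493 621))))))))))) (node 396 (merge (leaf 7 396 428) (node 397 (merge (leaf 7 364 364) (node 366 (merge (leaf 6 365 398) (node 365 (merge (leaf 6 333 334) (node 494 (merge (leaf 4 365 462) (leaf 4 397 526)))))))))))))) (merge (node 429 (merge (node 430 (merge (leaf 6 397 398) (node 460 (merge (leaf 1 428 432) (node 459 (merge (leaf 1 427 428) (leaf 2 426 458))))))) (merge (node 428 (merge (leaf 7 396 396) (node 557 (merge (leaf 7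 428 460) (node 556 (merge (leaf 5 428 524) (leaf 5 460 588))))))) (merge (node 398 (merge (leaf 6 397 430) (node 397 (merge (leaf 6 365 366) (node 396 (merge (leaf 7 364 364) (leaf 7 396 428))))))) (node 430 (merge (leaf 6 397 398) (node 432 (merge (leaf 1 428 460) (node 397 (merge (leaf 3 396 396) (node 526 (merge (leaf 4 397 494) (node 556 (merge (leaf 5 428 524) (node 557 (merge (leaf 1 524 527) (leaf 5 460 588))))))))))))))))) (merge (node 430 (merge (node 462 (merge (leaf 6 429 557) (node 460 (merge (leaf 2 428 432) (leaf 2 427 459))))) (merge (node 398 (merge (leaf 6 397 429) (node 462 (merge (leaf 5 365 366) (leaf 5 397 494))))) (node 429 (merge (leaf 6 397 398) (node 432 (merge (leaf 1 428 460) (node 397 (merge (leaf 3 396 396) (node 526 (merge (leaf 4 397 494) (node 556 (merge (leaf 5 428 524) (node 557 (merge (leaf 1 524 527) (leaf 5 460 588)))))))))))))))) (node 556 (merge (node 524 (merge (leaf 5 428 429) (node 588 (merge (leaf 5 460 557) (leaf 6 492 620))))) (merge (node 429 (merge (leaf 5 428 524) (node 398 (merge (leaf 6 397 430) (node 397 (merge (leaf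 6 365 366) (node 396 (merge (leaf 7 364 364) (leaf 7 396 428))))))))) (merge (node 557 (merge (leaf 5 460 588) (node 430 (merge (leaf 6 429 462) (node 429 (merge (leaf 6 397 398) (node 396 (merge (leaf 7 396 428) (node 526 (merge (leaf 1 524 527) (node 397 (merge (leaf 3 396 432) (leaf 4 397 494))))))))))))) (node 557 (merge (leaf 5 460 588) (node 462 (merge (leaf 6 429 430) (node 589 (merge (leaf 6 461 494) (node 622 (merge (leaf 4 493 590) (node 621 (merge (leaf 4 525 654) (node 653 (merge (leaf 7 524 524) (node 652 (merge (leaf 5 524 620) (leaf 5 556 684))))))))))))))))))))))))))))))))))))))))) nP_271 cP_271 17 (by decide +kernel)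
def nP_272 : ℕ := 0x100000000700000000000000080000000000000000000000000000000000000000000000000000000000000000000000000000000000000000000000000000000000000000000
def cP_272 : ℕ := 0x78000000f8000003fe000000fe000000fb8000000f0000007f8000007c000001fc0000007c00000014000000000000000000000000000000000000000000000000000000000000000000000000000000000000000000
theorem lP_272 : S nP_272 cP_272 11 := S_of_chk [] trivial (node 557 (merge (node 589 (merge (node 494 (merge (leaf 6 493 621) (node 462 (merge (leaf 5 429 430) (leaf 6 461 493))))) (merge (node 621 (merge (leaf 6 493 494) (node 653 (merge (leaf 6 525 558) (node 652 (merge (leaf 5 524 620) (leaf 5 556 684))))))) (merge (node 621 (merge (node 653 (merge (leaf 6 525 558) (node 652 (merge (leaf 5 524 620) (leaf 5 556 684))))) (merge (node 653 (merge (leaf 6 525 558) (node 654 (merge (leaf 4 525 622) (leaf 4 557 686))))) (node 622 (merge (leaf 4 525 654) (node 493 (merge (leaf 4 493 590) (node 620 (merge (leaf 5 492 588) (leaf 5 524 652)))))))))) (node 493 (merge (node 462 (merge (leaf 6 461 494) (node 461 (merge (leaf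 6 429 430) (node 460 (merge (leaf 7 428 428) (leaf 7 460 492))))))) (node 590 (merge (leaf 4 493 622) (node 588 (merge (leaf 5 492 620) (node 559 (merge (leaf 1 556 558) (leaf 2 556 591))))))))))))) (merge (node 589 (merge (node 621 (merge (leaf 7 492 492) (node 653 (merge (leaf 7 524 556) (node 652 (merge (leaf 5 524 620) (leaf 5 556 684))))))) (merge (node 621 (merge (leaf 7 492 492) (node 653 (merge (leaf 7 524 556) (node 654 (merge (leaf 4 525 622) (leaf 4 557 686))))))) (merge (node 621 (merge (leaf 7 492 492) (node 622 (merge (leaf 4 525 654) (node 493 (merge (leaf 4 493 590) (node 620 (merge (leaf 5 492 588) (leaf 5 524 652))))))))) (node 590 (merge (node 622 (merge (leaf 4 493 493) (node 654 (merge (leaf 7 525 558) (leaf 7 557 686))))) (merge (node 493 (merge (leaf 4 493 622) (node 588 (merge (leaf 5 492 620) (node 591 (merge (leaf 2 556 559) (node 556 (merge (leaf 5 460 461) (leaf 3 555 555))))))))) (merge (node 559 (merge (leaf 3 524 558) (node 588 (merge (leaf 2 556 591) (node 620 (merge (leaf 5 492 493) (node 652 (merge (leaf 6 524 556) (leaf 6 556 684)))))))))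 (node 558 (merge (leaf 3 524 559) (node 622 (merge (leaf 7 525 654) (node 623 (merge (leaf 4 526 655) (node 588 (merge (leaf 0 587 587) (node 624 (merge (leaf 0 588 591) (leaf 3 589 625))))))))))))))))))) (merge (node 589 (merge (node 621 (merge (node 653 (merge (leaf 7 524 556) (node 652 (merge (leaf 5 524 620) (leaf 5 556 684))))) (merge (node 653 (merge (leaf 7 524 556) (node 654 (merge (leaf 4 525 622) (leaf 4 557 686))))) (node 620 (merge (leaf 5 524 652) (node 622 (merge (leaf 4 525 654) (node 590 (merge (leaf 4 493 493) (node 619 (merge (leaf 2 587 591) (leaf 2 586 618)))))))))))) (merge (node 493 (merge (node 590 (merge (leaf 4 493 622) (node 558 (merge (leaf 4 461 461) (leaf 3 524 559))))) (merge (node 590 (merge (leaf 4 493 622) (node 588 (merge (leaf 5 492 620) (node 559 (merge (leaf 1 556 558) (leaf 2 556 591))))))) (node 588 (merge (leaf 5 492 620) (node 461 (merge (leaf 5 460 556) (node 430 (merge (leaf 6 429 462) (node 429 (merge (leaf 6 397 398) (node 428 (merge (leaf 7 396 396) (leaf 7 428 460)))))))))))))) (merge (node 558 (merge (leaf 3 524 559)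 (node 621 (merge (leaf 6 525 653) (node 622 (merge (leaf 4 525 654) (node 590 (merge (leaf 7 493 493) (node 623 (merge (leaf 4 526 655) (node 588 (merge (leaf 0 587 587) (leaf 3 588 624))))))))))))) (node 620 (merge (node 652 (merge (leaf 5 524 621) (node 588 (merge (leaf 6 524 556) (leaf 6 556 684))))) (merge (node 558 (merge (leaf 3 524 559) (node 621 (merge (leaf 5 524 652) (leaf 6 525 653))))) (node 558 (merge (leaf 3 524 559) (node 523 (merge (leaf 0 522 522) (node 491 (merge (leaf 3 490 490) (node 588 (merge (leaf 7 491 556) (node 587 (merge (leaf 4 491 555) (leaf 2 554 586)))))))))))))))))) (merge (node 493 (merge (node 558 (merge (leaf 3 524 559) (node 461 (merge (leaf 4 429 429) (leaf 4 461 590))))) (merge (node 461 (merge (node 430 (merge (leaf 6 429 462) (node 429 (merge (leaf 6 397 398) (node 556 (merge (leaf 5 428 524) (leaf 5 460 588))))))) (merge (node 460 (merge (leaf 7 428 428) (node 589 (merge (leaf 7 460 492) (node 588 (merge (leaf 5 460 556) (leaf 5 492 620))))))) (node 430 (merge (leaf 6 429 462) (node 429 (merge (leaf 6 397 398) (node 428 (merge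 (leaf 7 396 396) (leaf 7 428 460)))))))))) (node 588 (merge (node 620 (merge (leaf 6 492 556) (leaf 5 492 589))) (merge (node 589 (merge (leaf 5 492 620) (node 590 (merge (leaf 4 493 622) (node 559 (merge (leaf 1 556 558) (leaf 2 556 591))))))) (merge (node 556 (merge (leaf 6 492 620) (node 558 (merge (leaf 3 524 559) (node 523 (merge (leaf 0 522 522) (node 491 (merge (leaf 3 490 490) (node 459 (merge (leaf 4 427 427) (leaf 7 459 492))))))))))) (node 492 (merge (node 460 (merge (leaf 4 428 428) (leaf 7 460 589))) (merge (node 491 (merge (leaf 0 490 490) (node 556 (merge (leaf 7 459 459) (node 558 (merge (leaf 3 524 559) (node 587 (merge (leaf 5 491 619) (node 586 (merge (leaf 2 553 585) (leaf 2 554 589))))))))))) (node 491 (merge (leaf 0 490 490) (node 459 (merge (leaf 7 459 556) (node 558 (merge (leaf 3 524 559) (node 523 (merge (leaf 0 522 522) (node 427 (merge (leaf 4 395 395) (node 428 (merge (leaf 6 395 396) (leaf 4 428 460))))))))))))))))))))))) (merge (node 493 (merge (node 558 (merge (leaf 3 524 559) (node 590 (merge (leaf 4 461 461) (node 622 (merge (leaf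 7 493 526) (leaf 7 525 654))))))) (merge (node 589 (merge (node 494 (merge (leaf 6 461 462) (leaf 6 493 621))) (merge (node 492 (merge (leaf 7 460 460) (leaf 7 492 621))) (node 460 (merge (leaf 7 460 492) (node 461 (merge (leaf 7 428 428) (node 430 (merge (leaf 6 429 462) (node 429 (merge (leaf 6 397 398) (leaf 5 428 556)))))))))))) (node 589 (merge (node 492 (merge (leaf 7 460 460) (leaf 7 492 621))) (merge (node 622 (merge (leaf 4 493 590) (node 621 (merge (leaf 4 525 654) (node 653 (merge (leaf 6 525 558) (node 652 (merge (leaf 5 524 620) (leaf 5 556 684))))))))) (node 494 (merge (leaf 6 461 462) (node 492 (merge (leaf 7 460 460) (node 491 (merge (leaf 0 490 490) (node 523 (merge (leaf 1 490 522) (node 459 (merge (leaf 3 458 458) (node 427 (merge (leaf 4 395 395) (leaf 4 427 556))))))))))))))))))) (merge (node 589 (merge (node 492 (merge (leaf 7 492 621) (node 460 (merge (leaf 4 428 428) (leaf 7 460 493))))) (merge (node 621 (merge (leaf 7 492 492) (node 653 (merge (leaf 7 524 556) (node 652 (merge (leaf 5 524 620) (leaf 5 556 684))))))) (merge (node 621 (merge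 (node 653 (merge (leaf 7 524 556) (node 652 (merge (leaf 5 524 620) (leaf 5 556 684))))) (merge (node 653 (merge (leaf 7 524 556) (node 654 (merge (leaf 4 525 622) (leaf 4 557 686))))) (node 620 (merge (leaf 5 524 652) (node 622 (merge (leaf 4 525 654) (node 590 (merge (leaf 4 493 493) (node 619 (merge (leaf 2 587 591) (leaf 2 586 618)))))))))))) (node 588 (merge (node 493 (merge (leaf 5 492 620) (node 460 (merge (leaf 7 460 492) (node 461 (merge (leaf 7 428 428) (leaf 5 460 556))))))) (merge (node 590 (merge (node 493 (merge (leaf 5 492 620) (leaf 4 493 622))) (merge (node 591 (merge (leaf 2 556 559) (node 620 (merge (leaf 5 492 493) (leaf 1 587 619))))) (merge (node 591 (merge (leaf 2 556 559) (node 623 (merge (leaf 0 588 624) (node 622 (merge (leaf 4 493 493) (leaf 0 587 587))))))) (node 591 (merge (leaf 2 556 559) (node 623 (merge (leaf 0 588 624) (node 587 (merge (leaf 0 587 622) (node 619 (merge (leaf 1 586 618) (leaf 1 587 620))))))))))))) (merge (node 590 (merge (node 591 (merge (leaf 2 556 559) (node 623 (merge (leaf 0 588 624) (node 622 (merge (leaf 4 493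 493) (leaf 0 587 587))))))) (merge (node 493 (merge (leaf 4 493 622) (node 460 (merge (leaf 7 460 492) (node 461 (merge (leaf 7 428 428) (node 556 (merge (leaf 5 428 429) (leaf 5 460 588))))))))) (node 591 (merge (leaf 2 556 559) (node 556 (merge (leaf 3 555 555) (node 492 (merge (leaf 4 460 460) (node 491 (merge (leaf 7 459 459) (node 490 (merge (leaf 0 489 489) (leaf 3 490 523)))))))))))))) (node 556 (merge (node 492 (merge (leaf 4 460 460) (node 491 (merge (leaf 7 459 459) (node 490 (merge (leaf 0 489 489) (leaf 3 490 523))))))) (node 620 (merge (leaf 6 524 652) (node 619 (merge (leaf 5 523 651) (node 590 (merge (leaf 1 587 591) (node 618 (merge (leaf 1 586 587) (leaf 2 585 617))))))))))))))))))) (merge (node 558 (merge (leaf 3 524 559) (node 556 (merge (node 523 (merge (node 522 (merge (leaf 0 521 521) (leaf 0 522 558))) (node 491 (merge (leaf 3 490 490) (node 459 (merge (leaf 4 427 427) (node 588 (merge (leaf 7 459 492) (leaf 4 459 555))))))))) (merge (node 590 (merge (node 622 (merge (leaf 7 525 654) (node 493 (merge (leaf 7 493 526) (leaf 4 493 589))))) (node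 555 (merge (leaf 0 555 591) (node 587 (merge (leaf 1 554 586) (node 619 (merge (leaf 6 523 651) (node 492 (merge (leaf 5 459 460) (leaf 5 491 588))))))))))) (merge (node 523 (merge (leaf 0 522 522) (node 491 (merge (leaf 3 490 490) (node 459 (merge (leaf 4 427 427) (node 555 (merge (leaf 4 459 588) (node 590 (merge (leaf 0 555 591) (node 493 (merge (leaf 4 461 461) (leaf 7 493 622))))))))))))) (node 493 (merge (node 461 (merge (leaf 5 428 429) (node 590 (merge (leaf 4 461 558) (node 589 (merge (leaf 4 493 622) (node 621 (merge (leaf 7 492 492) (leaf 7 524 653))))))))) (merge (node 461 (merge (leaf 5 428 429) (node 462 (merge (leaf 6 429 430) (node 460 (merge (leaf 7 428 428) (node 431 (merge (leaf 2 428 432) (node 558 (merge (leaf 6 430 494) (leaf 4 461 590))))))))))) (node 492 (merge (node 589 (merge (leaf 7 460 460) (leaf 7 492 621))) (merge (node 491 (merge (leaf 0 490 490) (node 494 (merge (leaf 2 459 462) (node 459 (merge (leaf 3 458 458) (node 460 (merge (leaf 7 427 427) (leaf 4 428 428))))))))) (node 491 (merge (leaf 0 490 490) (node 494 (merge (leaf 2 459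 462) (node 523 (merge (leaf 1 490 522) (node 459 (merge (leaf 4 427 427) (leaf 3 458 458))))))))))))))))))))) (merge (node 556 (merge (node 523 (merge (node 522 (merge (leaf 0 521 521) (leaf 0 522 558))) (node 491 (merge (leaf 3 490 490) (node 588 (merge (leaf 7 491 620) (node 459 (merge (leaf 4 427 427) (leaf 4 459 555))))))))) (merge (node 588 (merge (node 493 (merge (leaf 6 492 620) (node 461 (merge (leaf 5 428 429) (leaf 5 460 557))))) (merge (node 620 (merge (leaf 6 524 652) (node 619 (merge (leaf 5 523 651) (node 492 (merge (leaf 5 491 587) (node 460 (merge (leaf 4 428 428) (leaf 4 460 589))))))))) (node 589 (merge (node 492 (merge (leaf 4 460 460) (node 587 (merge (leaf 5 491 619) (node 586 (merge (leaf 2 554 558) (leaf 2 553 585))))))) (node 621 (merge (leaf 7 524 653) (node 622 (merge (leaf 4 525 654) (node 493 (merge (leaf 4 493 590) (node 461 (merge (leaf 5 428 429) (leaf 5 460 588)))))))))))))) (merge (node 588 (merge (node 620 (merge (leaf 6 492 493) (node 652 (merge (leaf 6 524 557) (node 651 (merge (leaf 5 523 619) (leaf 5 555 683))))))) (merge (node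 620 (merge (leaf 6 492 493) (node 652 (merge (leaf 6 524 557) (node 653 (merge (leaf 4 524 621) (leaf 4 556 685))))))) (merge (node 620 (merge (leaf 6 492 493) (node 653 (merge (leaf 4 524 621) (node 652 (merge (leaf 4 556 685) (node 651 (merge (leaf 5 523 619) (leaf 5 555 683))))))))) (node 492 (merge (node 491 (merge (leaf 7 459 459) (node 490 (merge (leaf 0 489 489) (leaf 3 490 523))))) (node 589 (merge (leaf 4 492 621) (node 460 (merge (leaf 4 460 557) (node 587 (merge (leaf 5 459 555) (leaf 5 491 619))))))))))))) (node 493 (merge (node 461 (merge (leaf 5 428 429) (node 590 (merge (leaf 4 461 558) (node 589 (merge (leaf 4 493 622) (node 621 (merge (leaf 7 492 492) (leaf 7 524 653))))))))) (merge (node 461 (merge (leaf 5 428 429) (node 462 (merge (leaf 6 429 430) (node 460 (merge (leaf 7 428 428) (node 431 (merge (leaf 2 428 432) (node 558 (merge (leaf 6 430 494) (leaf 4 461 590))))))))))) (node 492 (merge (node 589 (merge (leaf 7 460 460) (leaf 7 492 621))) (merge (node 491 (merge (leaf 0 490 490) (node 494 (merge (leaf 2 459 462) (node 459 (merge (leaf 3 458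 458) (node 460 (merge (leaf 7 427 427) (leaf 4 428 428))))))))) (node 491 (merge (leaf 0 490 490) (node 494 (merge (leaf 2 459 462) (node 523 (merge (leaf 1 490 522) (node 459 (merge (leaf 4 427 427) (leaf 3 458 458))))))))))))))))))) (merge (node 556 (merge (node 523 (merge (node 522 (merge (leaf 0 521 521) (leaf 0 522 558))) (node 491 (merge (leaf 3 490 490) (node 588 (merge (leaf 7 491 620) (node 459 (merge (leaf 4 427 427) (leaf 7 459 492))))))))) (merge (node 523 (merge (node 522 (merge (leaf 0 521 521) (leaf 0 522 558))) (node 491 (merge (leaf 3 490 490) (node 588 (merge (leaf 7 491 620) (node 459 (merge (leaf 4 427 427) (leaf 4 459 555))))))))) (merge (node 558 (merge (leaf 3 524 559) (node 590 (merge (node 493 (merge (leaf 7 493 622) (node 461 (merge (leaf 4 429 429) (leaf 4 461 557))))) (node 555 (merge (leaf 0 555 591) (node 587 (merge (leaf 1 554 586) (node 619 (merge (leaf 6 523 651) (node 492 (merge (leaf 5 459 460) (leaf 6 491 523))))))))))))) (node 588 (merge (node 493 (merge (leaf 6 492 620) (node 461 (merge (leaf 5 428 429) (leaf 6 460 492))))) (merge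 (node 620 (merge (leaf 6 492 493) (node 652 (merge (leaf 6 524 557) (node 651 (merge (leaf 5 523 619) (leaf 5 555 683))))))) (merge (node 492 (merge (node 493 (merge (leaf 6 460 461) (node 491 (merge (leaf 7 459 459) (leaf 0 490 490))))) (merge (node 459 (merge (leaf 7 459 491) (node 460 (merge (leaf 7 427 427) (node 587 (merge (leaf 5 459 555) (leaf 5 491 619))))))) (node 461 (merge (leaf 6 460 493) (node 460 (merge (leaf 6 428 429) (node 587 (merge (leaf 5 459 555) (leaf 5 491 619)))))))))) (node 492 (merge (node 459 (merge (leaf 7 459 491) (node 460 (merge (leaf 7 427 427) (node 587 (merge (leaf 5 459 555) (leaf 5 491 619))))))) (merge (node 619 (merge (leaf 5 491 587) (node 620 (merge (leaf 5 523 651) (node 652 (merge (leaf 6 524 557) (node 653 (merge (leaf 4 524 621) (leaf 4 556 685))))))))) (node 459 (merge (leaf 7 459 491) (node 460 (merge (leaf 7 427 427) (node 429 (merge (leaf 6 428 461) (node 428 (merge (leaf 6 396 397) (leaf 4 428 557)))))))))))))))))))) (node 523 (merge (node 558 (merge (leaf 0 522 522) (leaf 3 524 559))) (merge (node 522 (merge (node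 490 (merge (leaf 3 489 489) (leaf 3 490 491))) (merge (node 521 (merge (leaf 0 521 556) (node 552 (merge (leaf 1 520 553) (node 520 (merge (leaf 1 519 551) (node 491 (merge (leaf 3 490 490) (leaf 2 488 492))))))))) (node 521 (merge (leaf 0 521 556) (node 552 (merge (leaf 1 520 553) (node 520 (merge (leaf 1 519 551) (node 488 (merge (leaf 3 487 487) (leaf 3 488 489)))))))))))) (node 491 (merge (leaf 3 490 490) (node 459 (merge (node 556 (merge (leaf 4 427 427) (node 588 (merge (leaf 4 459 555) (leaf 7 491 620))))) (merge (node 427 (merge (leaf 4 427 556) (node 394 (merge (leaf 7 394 426) (node 395 (merge (leaf 7 362 362) (leaf 4 395 492))))))) (merge (node 428 (merge (node 460 (merge (leaf 4 428 492) (leaf 6 427 555))) (merge (node 427 (merge (leaf 6 395 396) (node 394 (merge (leaf 7 394 426) (node 395 (merge (leaf 7 362 362) (leaf 4 395 492))))))) (node 396 (merge (leaf 6 395 427) (node 460 (merge (leaf 5 363 364) (leaf 6 427 555)))))))) (node 589 (merge (node 558 (merge (leaf 0 523 559) (node 621 (merge (leaf 7 492 492) (leaf 6 525 653))))) (merge (node 492 (merge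 (leaf 7 492 621) (node 460 (merge (leaf 4 428 428) (leaf 4 460 556))))) (merge (node 588 (merge (node 556 (merge (leaf 7 459 492) (leaf 4 459 555))) (merge (node 556 (merge (leaf 7 459 492) (leaf 7 491 620))) (merge (node 556 (merge (leaf 4 459 555) (leaf 7 491 620))) (node 558 (merge (leaf 0 523 559) (node 587 (merge (leaf 2 554 586) (node 555 (merge (leaf 4 491 620) (node 460 (merge (leaf 6 427 428) (leaf 6 459 492))))))))))))) (node 558 (merge (leaf 0 523 559) (node 621 (merge (leaf 6 525 653) (node 620 (merge (leaf 5 524 652) (node 588 (merge (leaf 7 491 556) (node 587 (merge (leaf 4 491 555) (leaf 2 554 586)))))))))))))))))))))))))))))))))) nP_272 cP_272 11 (by decide +kernel)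
def nP_273 : ℕ := 0x100000000700000000800000080000000000000000000000000000000000000000000000000000000000000000000000000000000000000000000000000000000000000000000
def cP_273 : ℕ := 0x28000000780000007c000002f00000000c000000700000007f000000f8000000f8000000b8000000380000000000000000000000000000000000000000000000000000000000000000000000000000000000
theorem lP_273 : S nP_273 cP_273 11 := S_of_chk [] trivial (node 492 (merge (node 460 (merge (node 557 (merge (leaf 4 428 428) (node 589 (merge (leaf 4 460 556) (leaf 7 492 621))))) (merge (node 428 (merge (leaf 4 428 557) (node 396 (merge (leaf 4 396 493) (leaf 5 395 523))))) (node 461 (merge (leaf 1 459 462) (node 429 (merge (leaf 6 428 556) (node 397 (merge (leaf 5 364 365) (leaf 5 396 493)))))))))) (merge (node 493 (merge (node 558 (merge (node 559 (merge (leaf 0 523 523) (leaf 3 525 561))) (node 590 (merge (leaf 7 493 622) (node 461 (merge (leaf 4 429 429) (leaf 4 461 557))))))) (merge (node 494 (merge (leaf 2 459 462) (node 459 (merge (leaf 3 458 458) (node 556 (merge (leaf 7 459 588) (node 427 (merge (leaf 4 395 395)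 (leaf 4 427 523))))))))) (node 494 (merge (leaf 2 459 462) (node 459 (merge (leaf 3 458 458) (node 556 (merge (leaf 7 459 588) (node 461 (merge (leaf 5 428 429) (node 558 (merge (leaf 7 461 590) (node 559 (merge (leaf 3 524 557) (leaf 3 525 561)))))))))))))))) (merge (node 460 (merge (node 557 (merge (leaf 4 428 428) (node 589 (merge (leaf 4 460 556) (leaf 7 492 621))))) (merge (node 461 (merge (leaf 1 459 462) (node 556 (merge (leaf 6 428 429) (node 459 (merge (leaf 7 427 427) (leaf 7 459 588))))))) (node 428 (merge (leaf 4 428 557) (node 397 (merge (leaf 6 396 429) (node 396 (merge (leaf 6 364 365) (node 395 (merge (leaf 7 363 363) (leaf 7 395 427)))))))))))) (merge (node 460 (merge (node 428 (merge (leaf 4 428 557) (node 396 (merge (leaf 4 396 493) (leaf 5 395 523))))) (merge (node 557 (merge (leaf 4 428 428) (node 589 (merge (leaf 4 460 556) (leaf 7 492 621))))) (merge (node 428 (merge (node 397 (merge (leaf 6 396 429) (node 396 (merge (leaf 6 364 365) (leaf 4 396 493))))) (merge (node 395 (merge (leaf 7 395 427) (node 396 (merge (leaf 7 363 363) (leaf 4 396 493)))))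 (node 429 (merge (leaf 6 396 397) (node 556 (merge (leaf 6 428 461) (node 427 (merge (leaf 7 395 395) (leaf 7 427 459)))))))))) (node 493 (merge (node 557 (merge (leaf 7 460 589) (node 558 (merge (leaf 3 524 559) (node 461 (merge (leaf 4 429 429) (leaf 4 461 590))))))) (node 459 (merge (node 458 (merge (leaf 3 458 494) (node 457 (merge (leaf 0 456 456) (leaf 0 457 460))))) (node 556 (merge (leaf 7 459 588) (node 427 (merge (leaf 4 395 395) (leaf 4 427 523))))))))))))) (merge (node 460 (merge (node 428 (merge (leaf 4 428 557) (node 396 (merge (leaf 4 396 493) (leaf 5 395 523))))) (merge (node 462 (merge (leaf 1 459 461) (node 494 (merge (leaf 2 459 493) (node 431 (merge (leaf 6 430 558) (node 430 (merge (leaf 6 398 399) (leaf 5 429 557))))))))) (merge (node 462 (merge (leaf 1 459 461) (node 493 (merge (leaf 2 459 494) (node 428 (merge (leaf 4 396 396) (node 429 (merge (leaf 6 396 397) (node 427 (merge (leaf 7 395 395) (leaf 0 427 430))))))))))) (node 428 (merge (leaf 4 428 557) (node 397 (merge (leaf 6 396 429) (node 396 (merge (leaf 6 364 365) (node 395 (merge (leaf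 7 363 363) (leaf 7 395 427))))))))))))) (merge (node 494 (merge (node 493 (merge (leaf 2 459 462) (node 523 (merge (leaf 1 490 522) (node 459 (merge (leaf 3 458 458) (node 556 (merge (leaf 4 427 427) (leaf 7 459 588))))))))) (merge (node 557 (merge (node 558 (merge (leaf 3 524 559) (node 462 (merge (leaf 5 429 430) (leaf 6 430 431))))) (node 589 (merge (leaf 7 492 621) (node 460 (merge (leaf 4 428 428) (leaf 4 460 556))))))) (merge (node 559 (merge (node 558 (merge (leaf 0 523 523) (leaf 3 525 561))) (node 462 (merge (leaf 2 459 493) (node 430 (merge (leaf 5 429 557) (node 399 (merge (leaf 6 398 431) (node 398 (merge (leaf 6 366 367) (node 397 (merge (leaf 7 365 365) (leaf 7 397 429))))))))))))) (node 556 (merge (node 459 (merge (leaf 7 459 588) (node 427 (merge (leaf 4 395 395) (leaf 7 427 460))))) (merge (node 459 (merge (leaf 7 459 588) (node 427 (merge (leaf 4 395 395) (leaf 4 427 523))))) (merge (node 588 (merge (node 620 (merge (leaf 6 492 493) (leaf 7 491 523))) (node 589 (merge (leaf 4 492 621) (node 557 (merge (leaf 4 460 460) (node 558 (merge (leaf 1 556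 559) (node 587 (merge (leaf 2 554 586) (leaf 5 491 619))))))))))) (node 460 (merge (node 557 (merge (leaf 4 428 428) (leaf 4 460 589))) (merge (node 459 (merge (leaf 7 427 427) (node 458 (merge (leaf 3 458 493) (node 457 (merge (leaf 0 456 456) (node 428 (merge (leaf 2 425 429) (node 396 (merge (leaf 5 363 364) (leaf 5 395 523))))))))))) (node 459 (merge (leaf 7 427 427) (node 493 (merge (leaf 3 458 458) (node 523 (merge (leaf 1 490 522) (node 558 (merge (leaf 0 523 559) (node 589 (merge (leaf 7 460 557) (node 590 (merge (leaf 5 493 621) (leaf 7 493 622)))))))))))))))))))))))) (merge (node 460 (merge (node 461 (merge (leaf 1 459 462) (node 429 (merge (leaf 6 428 556) (node 397 (merge (leaf 5 364 365) (leaf 6 396 428))))))) (merge (node 461 (merge (leaf 1 459 462) (node 556 (merge (leaf 6 428 429) (node 588 (merge (leaf 7 459 459) (leaf 6 460 493))))))) (merge (node 428 (merge (node 397 (merge (leaf 6 396 429) (node 396 (merge (leaf 6 364 365) (leaf 4 396 493))))) (merge (node 395 (merge (leaf 7 395 427) (node 396 (merge (leaf 7 363 363) (leaf 4 396 493))))) (node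 429 (merge (leaf 6 396 397) (node 556 (merge (leaf 6 428 461) (node 427 (merge (leaf 7 395 395) (leaf 7 427 459)))))))))) (merge (node 462 (merge (leaf 1 459 461) (node 493 (merge (leaf 2 459 494) (node 428 (merge (leaf 4 396 396) (node 429 (merge (leaf 6 396 397) (node 427 (merge (leaf 7 395 395) (leaf 0 427 430))))))))))) (merge (node 428 (merge (node 397 (merge (leaf 6 396 429) (node 396 (merge (leaf 6 364 365) (leaf 4 396 493))))) (merge (node 395 (merge (leaf 7 395 427) (node 396 (merge (leaf 7 363 363) (leaf 4 396 493))))) (node 429 (merge (leaf 6 396 397) (node 427 (merge (leaf 7 395 395) (node 430 (merge (leaf 0 427 462) (node 459 (merge (leaf 1 426 458) (leaf 7 427 556)))))))))))) (node 428 (merge (node 396 (merge (leaf 4 396 493) (node 365 (merge (leaf 6 364 397) (node 364 (merge (leaf 6 332 333) (node 459 (merge (leaf 5 363 491) (node 427 (merge (leaf 5 331 332) (leaf 7 427 556))))))))))) (merge (node 395 (merge (leaf 7 395 427) (node 396 (merge (leaf 7 363 363) (node 365 (merge (leaf 6 364 397) (node 364 (merge (leaf 6 332 333) (node 491 (merge (leaf 5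 363 459) (leaf 5 395 523))))))))))) (merge (node 396 (merge (leaf 4 396 493) (node 365 (merge (leaf 6 364 397) (node 364 (merge (leaf 6 332 333) (node 363 (merge (leaf 7 331 331) (leaf 7 363 395))))))))) (node 427 (merge (leaf 7 395 395) (node 556 (merge (leaf 7 427 459) (node 461 (merge (leaf 3 427 462) (node 588 (merge (leaf 6 460 493) (node 621 (merge (leaf 4 492 589) (node 620 (merge (leaf 4 524 653) (node 619 (merge (leaf 5 491 587) (leaf 5 523 651))))))))))))))))))))))))) (node 460 (merge (node 557 (merge (leaf 4 428 428) (node 589 (merge (leaf 4 460 556) (leaf 7 492 621))))) (merge (node 462 (merge (leaf 1 459 461) (node 494 (merge (leaf 2 459 493) (node 431 (merge (leaf 6 430 558) (node 430 (merge (leaf 6 398 399) (leaf 5 429 557))))))))) (node 428 (merge (node 396 (merge (leaf 4 396 493) (node 365 (merge (leaf 6 364 397) (node 364 (merge (leaf 6 332 333) (node 459 (merge (leaf 5 363 491) (node 427 (merge (leaf 5 331 332) (leaf 7 427 556))))))))))) (merge (node 395 (merge (leaf 7 395 427) (node 396 (merge (leaf 7 363 363) (node 365 (merge (leaf 6 364 397)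 (node 364 (merge (leaf 6 332 333) (node 491 (merge (leaf 5 363 459) (leaf 5 395 523))))))))))) (merge (node 396 (merge (leaf 4 396 493) (node 365 (merge (leaf 6 364 397) (node 364 (merge (leaf 6 332 333) (node 363 (merge (leaf 7 331 331) (leaf 7 363 395))))))))) (node 427 (merge (leaf 7 395 395) (node 556 (merge (leaf 7 427 459) (node 461 (merge (leaf 3 427 462) (node 588 (merge (leaf 6 460 493) (node 621 (merge (leaf 4 492 589) (node 620 (merge (leaf 4 524 653) (node 619 (merge (leaf 5 491 587) (leaf 5 523 651)))))))))))))))))))))))))))))) nP_273 cP_273 11 (by decide +kernel)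
def nP_274 : ℕ := 0x100000001600000000000000080000000000000000000000000000000000000000000000000000000000000000000000000000000000000000000000000000000000000000000
def cP_274 : ℕ := 0x280000003c000000fc000000ff000003ff000000ff000002ff8000001f0000007f8000007f000001ff800000fc000000fc000000380000000000000000000000000000000000000000000000000000000000000000000000000000000000
theorem lP_274 : S nP_274 cP_274 13 := S_of_chk [(nP_234, cP_234, 9), (nP_235, cP_235, 11), (nP_272, cP_272, 11), (nP_237, cP_237, 4), (nP_241, cP_241, 12), (nP_273, cP_273, 11)] ⟨lP_234, lP_235, lP_272, lP_237, lP_241, lP_273, trivial⟩ (node 524 (merge (node 523 (merge (node 558 (merge (leaf 0 523 559) (node 522 (merge (leaf 0 522 557) (node 490 (merge (leaf 3 489 489) (leaf 3 490 491))))))) (merge (node 554 (merge (leaf 1 522 555) (node 522 (merge (leaf 1 521 553) (node 558 (merge (leaf 0 522 557) (leaf 0 523 559))))))) (node 491 (merge (leaf 3 490 490) (node 459 (merge (node 556 (merge (leaf 4 427 427) (node 588 (merge (leaf 7 459 492) (leaf 7 491 620))))) (merge (node 555 (merge (leaf 1 522 554)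 (node 556 (merge (leaf 4 427 427) (leaf 4 459 588))))) (merge (node 555 (merge (leaf 1 522 554) (node 426 (merge (leaf 7 426 458) (node 427 (merge (leaf 7 394 394) (node 396 (merge (leaf 6 395 428) (node 395 (merge (leaf 6 363 364) (leaf 4 395 492))))))))))) (node 555 (merge (leaf 1 522 554) (node 588 (merge (leaf 4 459 556) (node 587 (merge (leaf 4 491 620) (node 619 (merge (leaf 6 491 492) (node 618 (merge (leaf 5 490 586) (leaf 5 522 650)))))))))))))))))))) (merge (node 523 (merge (node 558 (merge (leaf 0 523 559) (node 522 (merge (leaf 0 522 557) (node 490 (merge (leaf 3 489 489) (leaf 3 490 491))))))) (merge (node 554 (merge (leaf 1 522 555) (node 522 (merge (leaf 1 521 553) (node 558 (merge (leaf 0 522 557) (leaf 0 523 559))))))) (node 555 (merge (leaf 1 522 554) (node 491 (merge (leaf 3 490 490) (node 459 (merge (node 428 (merge (leaf 6 427 460) (node 427 (merge (leaf 6 395 396) (node 426 (merge (leaf 7 394 394) (leaf 7 426 458))))))) (merge (node 460 (merge (leaf 6 427 428) (node 587 (merge (leaf 6 459 492) (node 620 (merge (leaf 4 491 588) (node 619 (merge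 (leaf 4 523 652) (node 618 (merge (leaf 5 490 586) (leaf 5 522 650))))))))))) (merge (node 426 (merge (leaf 7 426 458) (node 427 (merge (leaf 7 394 394) (node 492 (merge (leaf 4 395 395) (node 587 (merge (leaf 6 459 460) (leaf 6 491 619))))))))) (node 426 (merge (leaf 7 426 458) (node 427 (merge (leaf 7 394 394) (node 396 (merge (leaf 6 395 428) (node 395 (merge (leaf 6 363 364) (leaf 4 395 492)))))))))))))))))))) (merge (node 523 (merge (node 558 (merge (leaf 0 523 559) (node 522 (merge (leaf 0 522 557) (node 490 (merge (leaf 3 489 489) (leaf 3 490 491))))))) (merge (node 554 (merge (leaf 1 522 555) (node 522 (merge (leaf 1 521 553) (node 558 (merge (leaf 0 522 557) (leaf 0 523 559))))))) (node 491 (merge (leaf 3 490 490) (node 555 (merge (leaf 1 522 554) (node 587 (merge (node 620 (merge (leaf 4 491 588) (node 619 (merge (leaf 4 523 652) (node 618 (merge (leaf 5 490 586) (leaf 5 522 650))))))) (merge (node 588 (merge (leaf 4 491 620) (node 459 (merge (leaf 4 459 556) (node 428 (merge (leaf 6 427 460) (node 427 (merge (leaf 6 395 396) (node 426 (merge (leaf 7 394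 394) (leaf 7 426 458))))))))))) (merge (node 618 (merge (leaf 5 490 586) (node 619 (merge (leaf 5 522 650) (node 556 (merge (leaf 6 523 651) (node 459 (merge (leaf 4 427 427) (leaf 4 459 588))))))))) (node 618 (merge (leaf 5 490 586) (node 619 (merge (leaf 5 522 650) (node 651 (merge (leaf 6 523 556) (node 652 (merge (leaf 4 523 620) (leaf 4 555 684)))))))))))))))))))) (merge (hyp 0) (merge (node 523 (merge (node 558 (merge (leaf 0 523 559) (node 522 (merge (leaf 0 522 557) (node 490 (merge (leaf 3 489 489) (leaf 3 490 491))))))) (merge (node 491 (merge (leaf 3 490 490) (node 459 (merge (node 556 (merge (leaf 4 427 427) (node 588 (merge (leaf 7 459 492) (leaf 7 491 620))))) (merge (node 555 (merge (leaf 1 522 554) (node 556 (merge (leaf 4 427 427) (leaf 4 459 588))))) (merge (node 555 (merge (leaf 1 522 554) (node 460 (merge (leaf 6 427 428) (node 492 (merge (leaf 6 459 587) (node 426 (merge (leaf 7 426 458) (node 427 (merge (leaf 7 394 394) (leaf 4 395 395))))))))))) (node 555 (merge (leaf 1 522 554) (node 460 (merge (leaf 6 427 428) (node 587 (merge (leaf 6 459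 492) (node 588 (merge (leaf 4 459 556) (leaf 4 491 620))))))))))))))) (merge (node 558 (merge (leaf 0 523 559) (node 522 (merge (leaf 0 522 557) (node 555 (merge (leaf 1 522 554) (node 489 (merge (leaf 3 489 490) (node 521 (merge (leaf 3 488 488) (node 556 (merge (leaf 0 520 520) (node 492 (merge (leaf 2 489 493) (node 460 (merge (leaf 5 427 428) (leaf 5 459 587))))))))))))))))) (node 492 (merge (node 558 (merge (leaf 0 523 559) (node 522 (merge (leaf 0 522 557) (node 521 (merge (leaf 2 489 493) (node 520 (merge (leaf 2 488 491) (node 488 (merge (leaf 3 487 487) (leaf 3 488 489))))))))))) (node 555 (merge (leaf 1 522 554) (node 587 (merge (leaf 6 491 619) (node 460 (merge (leaf 5 427 428) (leaf 5 459 556))))))))))))) (merge (node 523 (merge (node 554 (merge (leaf 1 522 555) (node 522 (merge (leaf 1 521 553) (node 490 (merge (leaf 3 489 489) (leaf 3 490 491))))))) (merge (node 491 (merge (leaf 3 490 490) (node 459 (merge (node 556 (merge (leaf 4 427 427) (node 588 (merge (leaf 7 459 492) (leaf 7 491 620))))) (merge (node 555 (merge (leaf 1 522 554) (node 556 (merge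 (leaf 4 427 427) (leaf 4 459 588))))) (merge (node 555 (merge (leaf 1 522 554) (node 460 (merge (leaf 6 427 428) (node 492 (merge (leaf 6 459 587) (node 426 (merge (leaf 7 426 458) (node 427 (merge (leaf 7 394 394) (leaf 4 395 395))))))))))) (node 555 (merge (leaf 1 522 554) (node 460 (merge (leaf 6 427 428) (node 587 (merge (leaf 6 459 492) (node 588 (merge (leaf 4 459 556) (leaf 4 491 620))))))))))))))) (merge (node 490 (merge (leaf 3 490 491) (node 522 (merge (leaf 3 489 489) (node 553 (merge (leaf 1 521 554) (node 521 (merge (leaf 1 520 552) (node 493 (merge (leaf 2 489 492) (leaf 2 490 494))))))))))) (merge (node 522 (merge (node 554 (merge (leaf 1 521 553) (leaf 1 522 555))) (merge (node 493 (merge (leaf 2 490 494) (node 521 (merge (leaf 2 489 492) (node 552 (merge (leaf 1 520 553) (node 520 (merge (leaf 1 519 551) (node 488 (merge (leaf 3 487 487) (leaf 3 488 489))))))))))) (node 555 (merge (leaf 1 522 554) (node 493 (merge (leaf 2 490 494) (node 521 (merge (leaf 2 489 492) (node 520 (merge (leaf 0 520 556) (node 488 (merge (leaf 3 487 487) (leaf 3 488 489))))))))))))))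 (node 522 (merge (node 490 (merge (leaf 3 489 489) (leaf 3 490 491))) (merge (node 493 (merge (leaf 2 490 494) (node 521 (merge (leaf 2 489 492) (node 552 (merge (leaf 1 520 553) (node 520 (merge (leaf 1 519 551) (node 488 (merge (leaf 3 487 487) (leaf 3 488 489))))))))))) (node 558 (merge (leaf 0 523 559) (node 493 (merge (leaf 2 490 494) (node 492 (merge (leaf 2 489 521) (node 491 (merge (leaf 0 490 490) (node 461 (merge (leaf 4 429 429) (node 460 (merge (leaf 1 459 462) (node 428 (merge (leaf 4 396 396) (leaf 5 427 555))))))))))))))))))))))) (merge (node 556 (merge (node 523 (merge (node 554 (merge (leaf 1 522 555) (node 522 (merge (leaf 1 521 553) (node 557 (merge (leaf 0 521 521) (leaf 0 522 558))))))) (node 491 (merge (leaf 3 490 490) (node 588 (merge (leaf 7 491 620) (node 459 (merge (leaf 4 427 427) (leaf 7 459 492))))))))) (merge (node 588 (merge (node 493 (merge (leaf 6 492 620) (node 461 (merge (leaf 6 460 492) (leaf 5 460 557))))) (merge (node 620 (merge (leaf 6 492 493) (node 653 (merge (leaf 4 524 621) (node 652 (merge (leaf 4 556 685) (node 651 (merge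 (leaf 5 523 619) (leaf 5 555 683))))))))) (merge (node 620 (merge (node 652 (merge (leaf 6 524 557) (node 651 (merge (leaf 5 523 619) (leaf 5 555 683))))) (merge (node 652 (merge (leaf 6 524 557) (node 653 (merge (leaf 4 524 621) (leaf 4 556 685))))) (node 621 (merge (leaf 4 524 653) (node 492 (merge (leaf 4 492 589) (node 619 (merge (leaf 5 491 587) (leaf 5 523 651)))))))))) (node 492 (merge (node 493 (merge (leaf 6 460 461) (node 491 (merge (leaf 7 459 459) (leaf 0 490 490))))) (merge (node 589 (merge (leaf 4 492 621) (node 460 (merge (leaf 4 460 557) (node 587 (merge (leaf 5 459 555) (leaf 5 491 619))))))) (node 589 (merge (leaf 4 492 621) (node 460 (merge (leaf 4 460 557) (node 587 (merge (leaf 5 459 555) (leaf 5 491 619)))))))))))))) (merge (node 588 (merge (node 493 (merge (leaf 6 492 620) (node 461 (merge (leaf 5 428 429) (leaf 6 460 492))))) (merge (node 620 (merge (leaf 6 492 493) (node 523 (merge (leaf 7 491 491) (node 555 (merge (leaf 1 522 554) (leaf 7 523 652))))))) (merge (node 492 (merge (node 493 (merge (leaf 6 460 461) (node 491 (merge (leaf 7 459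 459) (leaf 0 490 490))))) (node 587 (merge (leaf 5 491 619) (node 555 (merge (leaf 5 459 460) (node 554 (merge (leaf 1 522 523) (leaf 2 521 553))))))))) (node 491 (merge (node 523 (merge (leaf 3 490 490) (leaf 7 491 620))) (merge (node 459 (merge (leaf 7 459 492) (node 523 (merge (leaf 4 427 427) (leaf 4 459 555))))) (node 492 (merge (leaf 7 459 459) (node 621 (merge (leaf 4 492 589) (node 620 (merge (leaf 4 524 653) (node 619 (merge (leaf 5 491 587) (leaf 5 523 651)))))))))))))))) (merge (node 588 (merge (node 493 (merge (leaf 6 492 620) (node 461 (merge (leaf 5 428 429) (leaf 5 460 557))))) (merge (node 493 (merge (leaf 6 492 620) (node 461 (merge (leaf 5 428 429) (leaf 6 460 492))))) (merge (node 620 (merge (node 652 (merge (leaf 6 524 557) (node 651 (merge (leaf 5 523 619) (leaf 5 555 683))))) (merge (node 652 (merge (leaf 6 524 557) (node 653 (merge (leaf 4 524 621) (leaf 4 556 685))))) (node 621 (merge (leaf 4 524 653) (node 492 (merge (leaf 4 492 589) (node 619 (merge (leaf 5 491 587) (leaf 5 523 651)))))))))) (node 492 (merge (node 491 (merge (leaf 7 459 459)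 (node 490 (merge (leaf 0 490 493) (leaf 3 490 523))))) (merge (node 461 (merge (leaf 6 460 493) (node 460 (merge (leaf 6 428 429) (node 589 (merge (leaf 4 460 557) (leaf 4 492 621))))))) (node 491 (merge (leaf 7 459 459) (node 523 (merge (leaf 3 490 490) (node 558 (merge (leaf 0 523 559) (node 557 (merge (leaf 0 522 522) (node 589 (merge (leaf 4 460 460) (leaf 7 492 621)))))))))))))))))) (merge (node 558 (merge (node 559 (merge (leaf 3 524 557) (leaf 3 525 561))) (merge (node 559 (merge (leaf 0 523 523) (leaf 3 525 561))) (node 590 (merge (node 622 (merge (leaf 7 493 493) (node 655 (merge (leaf 4 526 623) (node 654 (merge (leaf 4 558 687) (node 653 (merge (leaf 5 525 621) (leaf 5 557 685))))))))) (node 555 (merge (node 554 (merge (leaf 1 522 523) (leaf 2 521 553))) (merge (node 554 (merge (leaf 2 521 553) (leaf 2 522 557))) (node 557 (merge (leaf 0 555 591) (node 523 (merge (leaf 0 522 522) (node 587 (merge (leaf 1 554 586) (node 492 (merge (leaf 5 459 460) (leaf 6 491 619))))))))))))))))) (node 558 (merge (node 559 (merge (leaf 3 524 557) (leaf 3 525 561))) (merge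 (node 559 (merge (leaf 0 523 523) (leaf 3 525 561))) (node 555 (merge (node 554 (merge (leaf 2 521 553) (leaf 2 522 557))) (merge (node 554 (merge (leaf 1 522 523) (leaf 2 521 553))) (node 590 (merge (node 622 (merge (leaf 7 493 493) (node 654 (merge (leaf 7 525 557) (node 655 (merge (leaf 4 526 623) (leaf 4 558 687))))))) (merge (node 622 (merge (leaf 7 493 493) (node 655 (merge (leaf 4 526 623) (node 654 (merge (leaf 4 558 687) (node 653 (merge (leaf 5 525 621) (leaf 5 557 685))))))))) (merge (node 591 (merge (leaf 0 555 557) (node 588 (merge (leaf 3 555 589) (node 620 (merge (leaf 6 492 493) (node 652 (merge (leaf 7 523 523) (node 653 (merge (leaf 4 524 621) (leaf 4 556 685))))))))))) (node 557 (merge (leaf 0 555 591) (node 587 (merge (leaf 1 554 586) (node 622 (merge (leaf 7 525 654) (node 623 (merge (leaf 4 526 655) (node 588 (merge (leaf 0 587 589) (node 621 (merge (leaf 3 587 620) (leaf 5 525 653))))))))))))))))))))))))))))) (merge (hyp 1) (merge (hyp 2) (merge (node 491 (merge (node 490 (merge (leaf 3 490 523) (node 492 (merge (leaf 0 489 489) (leaf 0 490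 493))))) (merge (node 523 (merge (leaf 3 490 490) (node 558 (merge (leaf 0 523 559) (node 522 (merge (leaf 0 522 557) (node 554 (merge (leaf 1 521 553) (leaf 1 522 555))))))))) (merge (node 492 (merge (node 490 (merge (leaf 0 489 489) (leaf 0 490 493))) (merge (node 460 (merge (node 557 (merge (leaf 4 428 428) (node 589 (merge (leaf 4 460 556) (leaf 7 492 621))))) (merge (node 428 (merge (leaf 4 428 557) (node 395 (merge (leaf 7 395 427) (node 396 (merge (leaf 7 363 363) (leaf 4 396 493))))))) (merge (node 428 (merge (node 397 (merge (leaf 6 396 429) (node 396 (merge (leaf 6 364 365) (leaf 4 396 493))))) (merge (node 395 (merge (leaf 7 395 427) (node 396 (merge (leaf 7 363 363) (leaf 4 396 493))))) (node 429 (merge (leaf 6 396 397) (node 556 (merge (leaf 6 428 461) (node 427 (merge (leaf 7 395 395) (leaf 7 427 459)))))))))) (node 556 (merge (node 459 (merge (leaf 7 459 588) (node 427 (merge (leaf 4 395 395) (leaf 7 427 460))))) (merge (node 461 (merge (leaf 6 428 429) (node 588 (merge (leaf 6 460 493) (node 589 (merge (leaf 4 460 557) (leaf 4 492 621))))))) (node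 461 (merge (leaf 6 428 429) (node 459 (merge (leaf 7 427 427) (node 462 (merge (leaf 1 459 463) (node 430 (merge (leaf 2 427 431) (node 557 (merge (leaf 6 429 493) (leaf 4 460 589)))))))))))))))))) (node 460 (merge (node 428 (merge (leaf 4 428 557) (node 397 (merge (leaf 6 396 429) (node 396 (merge (leaf 6 364 365) (node 395 (merge (leaf 7 363 363) (leaf 7 395 427))))))))) (merge (node 556 (merge (node 557 (merge (leaf 4 460 589) (node 555 (merge (leaf 2 522 554) (leaf 5 459 587))))) (node 459 (merge (leaf 7 459 588) (node 427 (merge (leaf 4 395 395) (leaf 7 427 460))))))) (node 461 (merge (node 429 (merge (leaf 6 428 556) (node 397 (merge (leaf 5 364 365) (leaf 6 396 428))))) (node 462 (merge (leaf 1 459 463) (node 490 (merge (leaf 1 458 459) (leaf 2 457 489))))))))))))) (node 492 (merge (node 556 (merge (node 459 (merge (leaf 7 459 588) (node 427 (merge (leaf 4 395 395) (leaf 4 427 523))))) (merge (node 459 (merge (leaf 7 459 588) (node 427 (merge (leaf 4 395 395) (leaf 7 427 460))))) (merge (node 555 (merge (node 554 (merge (leaf 1 522 523) (leaf 2 521 553))) (node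 587 (merge (leaf 5 459 460) (node 619 (merge (leaf 5 491 588) (leaf 6 523 651))))))) (node 460 (merge (node 555 (merge (leaf 5 459 587) (node 554 (merge (leaf 1 522 523) (leaf 2 521 553))))) (node 429 (merge (leaf 6 428 461) (node 428 (merge (leaf 6 396 397) (node 427 (merge (leaf 7 395 395) (leaf 7 427 459))))))))))))) (merge (node 557 (merge (node 589 (merge (leaf 7 492 621) (node 460 (merge (leaf 4 428 428) (leaf 7 460 493))))) (merge (node 558 (merge (leaf 3 524 559) (node 523 (merge (leaf 0 522 522) (node 555 (merge (leaf 1 522 554) (node 460 (merge (leaf 4 428 428) (leaf 6 459 587))))))))) (node 589 (merge (leaf 7 492 621) (node 558 (merge (leaf 3 524 559) (node 523 (merge (leaf 0 522 522) (node 555 (merge (leaf 1 522 554) (node 587 (merge (leaf 6 491 619) (node 586 (merge (leaf 2 554 588) (leaf 5 490 618)))))))))))))))) (merge (node 460 (merge (node 557 (merge (leaf 4 428 428) (node 589 (merge (leaf 4 460 556) (leaf 7 492 621))))) (merge (node 428 (merge (leaf 4 428 557) (node 395 (merge (leaf 7 395 427) (node 396 (merge (leaf 7 363 363) (leaf 4 396 493)))))))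 (merge (node 428 (merge (node 397 (merge (leaf 6 396 429) (node 396 (merge (leaf 6 364 365) (leaf 4 396 493))))) (merge (node 395 (merge (leaf 7 395 427) (node 396 (merge (leaf 7 363 363) (leaf 4 396 493))))) (node 429 (merge (leaf 6 396 397) (node 556 (merge (leaf 6 428 461) (node 427 (merge (leaf 7 395 395) (leaf 7 427 459)))))))))) (node 556 (merge (node 459 (merge (leaf 7 459 588) (node 427 (merge (leaf 4 395 395) (leaf 7 427 460))))) (merge (node 461 (merge (leaf 6 428 429) (node 588 (merge (leaf 6 460 493) (node 589 (merge (leaf 4 460 557) (leaf 4 492 621))))))) (node 461 (merge (leaf 6 428 429) (node 459 (merge (leaf 7 427 427) (node 462 (merge (leaf 1 459 463) (node 430 (merge (leaf 2 427 431) (node 557 (merge (leaf 6 429 493) (leaf 4 460 589)))))))))))))))))) (merge (node 523 (merge (hyp 3) (node 558 (merge (leaf 0 523 559) (node 522 (merge (leaf 0 522 557) (node 521 (merge (leaf 2 489 493) (node 552 (merge (leaf 1 520 553) (node 520 (merge (leaf 2 488 491) (leaf 1 519 551))))))))))))) (node 558 (merge (node 559 (merge (leaf 0 523 523) (leaf 3 525 561)))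 (merge (node 559 (merge (leaf 3 524 557) (leaf 3 525 561))) (node 523 (merge (node 522 (merge (leaf 0 522 557) (node 521 (merge (leaf 2 489 493) (node 552 (merge (leaf 1 520 553) (node 520 (merge (leaf 2 488 491) (leaf 1 519 551))))))))) (merge (node 554 (merge (leaf 1 522 555) (node 522 (merge (leaf 1 521 553) (node 521 (merge (leaf 2 489 493) (leaf 2 488 520))))))) (node 555 (merge (leaf 1 522 554) (node 587 (merge (leaf 6 491 619) (node 586 (merge (leaf 5 490 618) (node 557 (merge (leaf 1 554 556) (node 589 (merge (leaf 2 554 588) (leaf 7 492 621)))))))))))))))))))))))))) (merge (node 556 (merge (node 523 (merge (node 491 (merge (leaf 3 490 490) (node 588 (merge (leaf 7 491 620) (node 459 (merge (leaf 4 427 427) (leaf 4 459 555))))))) (merge (node 522 (merge (node 554 (merge (leaf 1 521 553) (leaf 1 522 555))) (merge (node 521 (merge (leaf 0 521 557) (node 553 (merge (leaf 1 520 552) (leaf 1 521 554))))) (merge (node 521 (merge (leaf 0 521 557) (node 555 (merge (leaf 0 520 520) (leaf 1 522 554))))) (node 521 (merge (leaf 0 521 557) (node 520 (merge (leaf 0 520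 555) (node 552 (merge (leaf 1 519 551) (leaf 1 520 553))))))))))) (node 490 (merge (leaf 3 490 491) (node 522 (merge (leaf 3 489 489) (node 521 (merge (leaf 0 521 557) (node 553 (merge (leaf 1 520 552) (leaf 1 521 554)))))))))))) (merge (node 588 (merge (node 493 (merge (leaf 6 492 620) (node 461 (merge (leaf 5 428 429) (leaf 6 460 492))))) (merge (node 620 (merge (leaf 6 492 493) (node 523 (merge (leaf 7 491 491) (node 555 (merge (leaf 1 522 554) (leaf 7 523 652))))))) (node 492 (merge (node 491 (merge (leaf 7 459 459) (node 490 (merge (leaf 0 489 489) (leaf 3 490 523))))) (merge (node 587 (merge (leaf 5 491 619) (node 555 (merge (leaf 5 459 460) (node 554 (merge (leaf 1 522 523) (leaf 2 521 553))))))) (node 459 (merge (leaf 7 459 491) (node 460 (merge (leaf 7 427 427) (node 587 (merge (leaf 5 459 555) (leaf 5 491 619))))))))))))) (merge (node 588 (merge (node 493 (merge (leaf 6 492 620) (node 461 (merge (leaf 5 428 429) (leaf 5 460 557))))) (merge (node 491 (merge (node 523 (merge (leaf 3 490 490) (leaf 7 491 620))) (merge (node 492 (merge (leaf 7 459 459) (node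 490 (merge (leaf 0 489 489) (leaf 3 490 523))))) (node 492 (merge (leaf 7 459 459) (node 621 (merge (leaf 4 492 589) (node 620 (merge (leaf 4 524 653) (node 619 (merge (leaf 5 491 587) (leaf 5 523 651)))))))))))) (node 492 (merge (node 491 (merge (leaf 7 459 459) (node 490 (merge (leaf 0 489 489) (leaf 3 490 523))))) (node 461 (merge (leaf 6 460 493) (node 460 (merge (leaf 6 428 429) (node 589 (merge (leaf 4 460 557) (leaf 4 492 621)))))))))))) (merge (node 588 (merge (node 493 (merge (leaf 6 492 620) (node 461 (merge (leaf 6 460 492) (leaf 5 460 557))))) (merge (node 620 (merge (leaf 6 492 493) (node 653 (merge (leaf 4 524 621) (node 652 (merge (leaf 4 556 685) (node 651 (merge (leaf 5 523 619) (leaf 5 555 683))))))))) (merge (node 620 (merge (node 652 (merge (leaf 6 524 557) (node 651 (merge (leaf 5 523 619) (leaf 5 555 683))))) (merge (node 652 (merge (leaf 6 524 557) (node 653 (merge (leaf 4 524 621) (leaf 4 556 685))))) (node 621 (merge (leaf 4 524 653) (node 492 (merge (leaf 4 492 589) (node 619 (merge (leaf 5 491 587) (leaf 5 523 651)))))))))) (node 492 (merge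 (node 493 (merge (leaf 6 460 461) (node 491 (merge (leaf 7 459 459) (leaf 0 490 490))))) (merge (node 589 (merge (leaf 4 492 621) (node 460 (merge (leaf 4 460 557) (node 587 (merge (leaf 5 459 555) (leaf 5 491 619))))))) (node 589 (merge (leaf 4 492 621) (node 460 (merge (leaf 4 460 557) (node 587 (merge (leaf 5 459 555) (leaf 5 491 619)))))))))))))) (merge (node 588 (merge (node 493 (merge (leaf 6 492 620) (node 461 (merge (leaf 5 428 429) (leaf 5 460 557))))) (merge (node 493 (merge (leaf 6 492 620) (node 461 (merge (leaf 5 428 429) (leaf 6 460 492))))) (merge (node 620 (merge (node 652 (merge (leaf 6 524 557) (node 651 (merge (leaf 5 523 619) (leaf 5 555 683))))) (merge (node 652 (merge (leaf 6 524 557) (node 653 (merge (leaf 4 524 621) (leaf 4 556 685))))) (node 621 (merge (leaf 4 524 653) (node 492 (merge (leaf 4 492 589) (node 619 (merge (leaf 5 491 587) (leaf 5 523 651)))))))))) (node 589 (merge (node 621 (merge (leaf 4 492 492) (node 653 (merge (leaf 7 524 557) (leaf 7 556 685))))) (merge (node 492 (merge (leaf 4 492 621) (node 461 (merge (leaf 6 460 493)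 (node 460 (merge (leaf 6 428 429) (node 587 (merge (leaf 5 459 555) (leaf 5 491 619))))))))) (merge (node 587 (merge (node 492 (merge (leaf 5 491 619) (node 461 (merge (leaf 6 460 493) (node 460 (merge (leaf 6 428 429) (leaf 4 460 557))))))) (merge (node 555 (merge (node 554 (merge (leaf 1 522 523) (leaf 2 521 553))) (node 590 (merge (leaf 3 555 591) (node 622 (merge (leaf 0 587 623) (node 493 (merge (leaf 4 493 557) (node 492 (merge (leaf 5 459 460) (leaf 6 460 461))))))))))) (node 590 (merge (node 623 (merge (leaf 0 587 622) (node 591 (merge (leaf 2 556 559) (leaf 0 588 624))))) (node 619 (merge (leaf 1 586 618) (node 651 (merge (leaf 6 523 555) (leaf 6 555 683)))))))))) (node 590 (merge (node 591 (merge (leaf 3 555 555) (leaf 2 556 559))) (merge (node 591 (merge (leaf 2 556 559) (node 623 (merge (leaf 0 588 624) (node 587 (merge (leaf 0 587 622) (node 618 (merge (leaf 1 586 619) (node 586 (merge (leaf 1 585 617) (node 585 (merge (leaf 2 553 557) (node 553 (merge (leaf 3 552 552) (leaf 3 553 554))))))))))))))) (node 587 (merge (node 619 (merge (leaf 1 586 618) (node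 651 (merge (leaf 6 523 555) (leaf 6 555 683))))) (merge (node 622 (merge (leaf 0 587 623) (node 586 (merge (leaf 0 586 621) (node 585 (merge (leaf 2 553 557) (node 555 (merge (leaf 3 554 554) (leaf 2 552 584))))))))) (node 622 (merge (leaf 0 587 623) (node 586 (merge (leaf 0 586 621) (node 557 (merge (leaf 4 493 493) (leaf 2 553 585))))))))))))))))))))) (node 490 (merge (node 491 (merge (leaf 3 490 523) (node 492 (merge (leaf 0 489 489) (leaf 0 490 493))))) (merge (node 555 (merge (node 523 (merge (leaf 3 490 491) (leaf 1 522 554))) (merge (node 554 (merge (leaf 2 521 553) (leaf 2 522 557))) (node 491 (merge (leaf 3 490 523) (node 492 (merge (leaf 0 490 493) (node 460 (merge (leaf 5 459 587) (node 557 (merge (leaf 4 428 428) (leaf 4 460 589)))))))))))) (merge (node 492 (merge (node 491 (merge (leaf 0 489 489) (leaf 0 490 493))) (node 555 (merge (node 554 (merge (leaf 2 521 553) (leaf 2 522 557))) (node 460 (merge (leaf 5 459 587) (node 429 (merge (leaf 6 428 461) (node 428 (merge (leaf 6 396 397) (node 427 (merge (leaf 7 395 395) (leaf 7 427 459))))))))))))) (node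 522 (merge (node 523 (merge (leaf 3 489 489) (node 554 (merge (leaf 1 521 553) (leaf 1 522 555))))) (merge (node 523 (merge (leaf 3 489 489) (node 521 (merge (leaf 0 521 557) (node 555 (merge (leaf 0 520 520) (leaf 1 522 554))))))) (merge (node 523 (merge (leaf 3 489 489) (node 521 (merge (leaf 0 521 557) (node 553 (merge (leaf 1 520 552) (leaf 1 521 554))))))) (merge (node 523 (merge (leaf 3 489 489) (node 521 (merge (leaf 0 521 557) (node 520 (merge (leaf 0 520 555) (node 552 (merge (leaf 1 519 551) (leaf 1 520 553))))))))) (merge (node 554 (merge (node 555 (merge (leaf 1 522 523) (leaf 2 522 557))) (merge (node 555 (merge (leaf 2 521 553) (leaf 2 522 557))) (node 553 (merge (leaf 1 521 523) (node 585 (merge (leaf 5 457 458) (node 617 (merge (leaf 6 489 521) (leaf 5 489 586)))))))))) (node 554 (merge (node 555 (merge (leaf 2 521 553) (leaf 2 522 557))) (merge (node 555 (merge (leaf 2 522 557) (node 587 (merge (leaf 4 458 458) (node 619 (merge (leaf 4 490 586) (leaf 6 523 651))))))) (node 586 (merge (node 457 (merge (leaf 7 457 489) (node 458 (merge (leaf 7 425 425)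 (node 585 (merge (leaf 5 457 553) (leaf 5 489 617))))))) (merge (node 489 (merge (leaf 7 457 457) (node 618 (merge (leaf 7 489 521) (node 619 (merge (leaf 4 490 587) (leaf 4 522 651))))))) (node 619 (merge (leaf 4 490 587) (node 618 (merge (leaf 4 522 651) (node 617 (merge (leaf 5 489 585) (leaf 5 521 649))))))))))))))))))))))))))))) (merge (node 523 (merge (node 558 (merge (leaf 0 523 559) (node 522 (merge (leaf 0 522 557) (node 490 (merge (leaf 3 489 489) (leaf 3 490 491))))))) (merge (node 554 (merge (leaf 1 522 555) (node 522 (merge (leaf 1 521 553) (node 558 (merge (leaf 0 522 557) (leaf 0 523 559))))))) (merge (node 554 (merge (leaf 1 522 555) (node 522 (merge (leaf 1 521 553) (node 490 (merge (leaf 3 489 489) (leaf 3 490 491))))))) (node 491 (merge (leaf 3 490 490) (node 459 (merge (node 556 (merge (leaf 4 427 427) (node 588 (merge (leaf 7 459 492) (leaf 7 491 620))))) (merge (node 555 (merge (leaf 1 522 554) (node 428 (merge (leaf 6 427 460) (node 427 (merge (leaf 6 395 396) (node 426 (merge (leaf 7 394 394) (leaf 7 426 458))))))))) (node 460 (merge (node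 555 (merge (leaf 6 427 428) (node 554 (merge (leaf 1 522 525) (leaf 5 458 586))))) (merge (node 492 (merge (node 428 (merge (leaf 5 395 396) (leaf 4 428 557))) (merge (node 556 (merge (leaf 7 459 588) (node 461 (merge (leaf 6 428 429) (node 462 (merge (leaf 1 459 463) (node 430 (merge (leaf 2 427 431) (node 557 (merge (leaf 6 429 493) (leaf 4 460 589))))))))))) (node 428 (merge (leaf 5 395 396) (node 429 (merge (leaf 6 396 397) (node 430 (merge (leaf 1 427 431) (node 458 (merge (leaf 2 425 457) (leaf 2 426 461)))))))))))) (node 493 (merge (node 558 (merge (leaf 0 523 559) (node 590 (merge (leaf 7 493 622) (node 461 (merge (leaf 4 429 429) (leaf 4 461 557))))))) (node 555 (merge (leaf 1 522 554) (node 458 (merge (leaf 7 426 426) (node 457 (merge (leaf 0 457 492) (node 488 (merge (leaf 1 456 489) (node 456 (merge (leaf 1 455 487) (node 424 (merge (leaf 3 423 423) (leaf 3 424 425))))))))))))))))))))))))))) (merge (hyp 4) (node 491 (merge (node 490 (merge (leaf 3 490 523) (node 492 (merge (leaf 0 489 489) (leaf 0 490 493))))) (merge (node 523 (merge (leaf 3 490 490) (node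 558 (merge (leaf 0 523 559) (node 522 (merge (leaf 0 522 557) (node 554 (merge (leaf 1 521 553) (node 494 (merge (leaf 2 490 493) (node 462 (merge (leaf 6 430 431) (node 429 (merge (leaf 7 429 461) (node 430 (merge (leaf 7 397 397) (node 427 (merge (leaf 0 427 428) (leaf 5 426 459))))))))))))))))))) (merge (node 523 (merge (leaf 3 490 490) (node 558 (merge (leaf 0 523 559) (node 522 (merge (leaf 0 522 557) (node 553 (merge (leaf 1 521 554) (node 521 (merge (leaf 1 520 552) (node 520 (merge (leaf 2 488 492) (node 488 (merge (leaf 3 487 487) (leaf 3 488 489))))))))))))))) (merge (node 492 (merge (node 490 (merge (leaf 0 489 489) (leaf 0 490 493))) (node 460 (merge (node 557 (merge (leaf 4 428 428) (node 589 (merge (leaf 4 460 556) (leaf 7 492 621))))) (merge (node 461 (merge (leaf 1 459 462) (node 556 (merge (leaf 6 428 429) (node 459 (merge (leaf 7 427 427) (leaf 7 459 588))))))) (node 428 (merge (leaf 4 428 557) (node 397 (merge (leaf 6 396 429) (node 396 (merge (leaf 6 364 365) (node 395 (merge (leaf 7 363 363) (leaf 7 395 427)))))))))))))) (hyp 5))))))))))))))))))))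 nP_274 cP_274 13 (by decide +kernel)
def nP_275 : ℕ := 0x100000000300000000000000080000000000000000000000000000000000000000000000000000000000000000000000000000000000000000000000000000000000000000000
def cP_275 : ℕ := 0x50000000700000007000000070000002f78000004f800001ff8000007c000001fc0000007c00000054000000000000000000000000000000000000000000000000000000000000000000000000000000000000000000
theorem lP_275 : S nP_275 cP_275 12 := S_of_chk [] trivial (node 523 (merge (node 522 (merge (node 553 (merge (leaf 1 521 554) (node 521 (merge (leaf 1 520 552) (node 493 (merge (leaf 2 489 492) (leaf 2 490 494))))))) (merge (node 494 (merge (leaf 2 490 493) (node 526 (merge (leaf 2 491 495) (node 490 (merge (leaf 3 489 489) (leaf 3 490 491))))))) (node 553 (merge (leaf 1 521 554) (node 521 (merge (leaf 1 520 552) (node 489 (merge (leaf 3 488 488) (leaf 3 489 490)))))))))) (merge (node 522 (merge (node 558 (merge (leaf 0 522 557) (node 526 (merge (leaf 0 523 559) (node 490 (merge (leaf 3 489 489) (leaf 3 490 491))))))) (merge (node 521 (merge (node 489 (merge (leaf 3 488 488) (leaf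 3 489 490))) (merge (node 552 (merge (leaf 1 520 553) (node 520 (merge (leaf 1 519 551) (node 491 (merge (leaf 2 488 492) (node 490 (merge (leaf 2 487 519) (leaf 3 490 526))))))))) (node 552 (merge (leaf 1 520 553) (node 520 (merge (leaf 1 519 551) (node 488 (merge (leaf 3 487 487) (leaf 3 488 489)))))))))) (merge (node 557 (merge (leaf 0 522 558) (node 521 (merge (leaf 0 521 556) (node 552 (merge (leaf 1 520 553) (node 520 (merge (leaf 1 519 551) (node 491 (merge (leaf 2 488 492) (node 490 (merge (leaf 2 487 519) (leaf 3 490 526))))))))))))) (node 557 (merge (leaf 0 522 558) (node 521 (merge (leaf 0 521 556) (node 552 (merge (leaf 1 520 553) (node 520 (merge (leaf 1 519 551) (node 488 (merge (leaf 3 487 487) (leaf 3 488 489))))))))))))))) (merge (node 557 (merge (node 558 (merge (leaf 0 522 522) (leaf 3 524 559))) (merge (node 493 (merge (node 494 (merge (leaf 2 490 522) (node 495 (merge (leaf 1 491 492) (leaf 1 492 496))))) (merge (node 494 (merge (leaf 2 490 522) (node 462 (merge (leaf 6 461 589) (node 430 (merge (leaf 5 397 398) (leaf 6 429 461))))))) (node 461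 (merge (node 556 (merge (leaf 5 428 429) (leaf 5 460 588))) (merge (node 430 (merge (leaf 6 429 462) (node 429 (merge (leaf 6 397 398) (node 460 (merge (leaf 7 428 428) (node 492 (merge (leaf 5 396 397) (leaf 7 460 589))))))))) (node 460 (merge (leaf 7 428 428) (node 589 (merge (leaf 7 460 492) (node 588 (merge (leaf 5 460 556) (leaf 5 492 620))))))))))))) (node 589 (merge (node 492 (merge (leaf 7 492 621) (node 460 (merge (leaf 4 428 428) (leaf 4 460 556))))) (merge (node 493 (merge (node 494 (merge (leaf 6 461 462) (node 492 (merge (leaf 7 460 460) (leaf 1 491 495))))) (node 558 (merge (leaf 3 524 559) (node 590 (merge (leaf 4 461 461) (node 622 (merge (leaf 4 493 589) (leaf 7 525 654))))))))) (node 493 (merge (node 558 (merge (leaf 3 524 559) (node 590 (merge (leaf 4 461 461) (node 622 (merge (leaf 4 493 589) (leaf 7 525 654))))))) (merge (node 558 (merge (leaf 3 524 559) (node 461 (merge (leaf 4 461 590) (node 556 (merge (leaf 5 428 429) (leaf 5 460 588))))))) (node 620 (merge (leaf 5 492 588) (node 621 (merge (leaf 5 524 652) (node 653 (merge (leaf 7 524 556)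 (node 654 (merge (leaf 4 525 622) (leaf 4 557 686)))))))))))))))))) (merge (node 493 (merge (node 522 (merge (leaf 2 490 494) (node 553 (merge (leaf 1 521 554) (node 521 (merge (leaf 1 520 552) (node 489 (merge (leaf 3 488 488) (leaf 3 489 490))))))))) (merge (node 461 (merge (node 556 (merge (leaf 5 428 429) (node 588 (merge (leaf 5 460 557) (leaf 6 492 620))))) (merge (node 429 (merge (leaf 5 428 556) (node 398 (merge (leaf 6 397 430) (node 397 (merge (leaf 6 365 366) (node 396 (merge (leaf 7 364 364) (leaf 7 396 428))))))))) (merge (node 557 (merge (node 558 (merge (leaf 3 524 559) (leaf 4 461 590))) (node 430 (merge (leaf 6 429 462) (node 429 (merge (leaf 6 397 398) (node 428 (merge (leaf 7 396 396) (leaf 7 428 460))))))))) (node 557 (merge (node 558 (merge (leaf 3 524 559) (leaf 4 461 590))) (node 462 (merge (leaf 6 429 430) (node 589 (merge (leaf 6 461 494) (node 588 (merge (leaf 5 460 556) (leaf 5 492 620))))))))))))) (node 557 (merge (node 558 (merge (leaf 3 524 559) (node 590 (merge (leaf 4 461 461) (node 622 (merge (leaf 4 493 589) (leaf 7 525 654)))))))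 (merge (node 522 (merge (leaf 0 522 558) (node 521 (merge (leaf 0 521 556) (node 489 (merge (leaf 3 488 488) (leaf 3 489 490))))))) (node 589 (merge (node 622 (merge (leaf 4 493 590) (node 621 (merge (leaf 4 525 654) (node 620 (merge (leaf 5 492 588) (leaf 5 524 652))))))) (merge (node 588 (merge (leaf 5 492 620) (node 461 (merge (leaf 5 460 556) (node 430 (merge (leaf 6 429 462) (node 429 (merge (leaf 6 397 398) (node 428 (merge (leaf 7 396 396) (leaf 7 428 460))))))))))) (merge (node 622 (merge (leaf 4 493 590) (node 621 (merge (leaf 4 525 654) (node 556 (merge (leaf 7 524 653) (node 461 (merge (leaf 5 428 429) (leaf 5 460 588))))))))) (node 622 (merge (leaf 4 493 590) (node 621 (merge (leaf 4 525 654) (node 653 (merge (leaf 7 524 556) (node 652 (merge (leaf 5 524 620) (leaf 5 556 684))))))))))))))))))) (node 493 (merge (node 558 (merge (node 559 (merge (leaf 0 523 526) (leaf 3 524 557))) (merge (node 557 (merge (leaf 3 524 559) (node 461 (merge (leaf 4 461 590) (node 556 (merge (leaf 5 428 429) (leaf 5 460 588))))))) (merge (node 526 (merge (leaf 0 523 559) (node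 494 (merge (leaf 2 491 495) (node 461 (merge (leaf 4 429 429) (leaf 7 461 590))))))) (node 461 (merge (node 429 (merge (leaf 4 429 526) (leaf 5 428 556))) (merge (node 590 (merge (leaf 4 461 557) (node 526 (merge (leaf 7 461 494) (leaf 7 493 622))))) (node 556 (merge (leaf 5 428 429) (node 557 (merge (leaf 5 460 588) (leaf 4 461 590)))))))))))) (merge (node 494 (merge (node 495 (merge (leaf 1 492 496) (leaf 2 491 526))) (merge (node 495 (merge (leaf 1 491 492) (leaf 1 492 496))) (node 491 (merge (node 490 (merge (leaf 3 490 526) (node 489 (merge (leaf 0 488 488) (leaf 0 489 492))))) (merge (node 492 (merge (leaf 2 459 462) (node 459 (merge (leaf 3 458 458) (node 427 (merge (leaf 4 395 395) (leaf 4 427 556))))))) (node 526 (merge (leaf 3 490 490) (node 558 (merge (leaf 0 523 559) (node 462 (merge (leaf 6 430 431) (node 430 (merge (leaf 5 397 398) (leaf 5 429 557))))))))))))))) (merge (node 558 (merge (node 559 (merge (leaf 0 523 526) (leaf 3 524 557))) (merge (node 557 (merge (leaf 3 524 559) (node 590 (merge (leaf 4 461 461) (node 622 (merge (leaf 4 493 589) (leaf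 7 525 654))))))) (merge (node 526 (merge (leaf 0 523 559) (node 590 (merge (leaf 7 493 622) (node 461 (merge (leaf 4 429 429) (leaf 7 461 494))))))) (node 461 (merge (node 590 (merge (leaf 4 461 557) (node 526 (merge (leaf 7 461 494) (leaf 7 493 622))))) (merge (node 429 (merge (leaf 4 429 526) (node 396 (merge (leaf 7 396 428) (node 397 (merge (leaf 7 364 364) (leaf 5 396 492))))))) (node 557 (merge (leaf 4 461 590) (node 428 (merge (leaf 7 428 460) (node 429 (merge (leaf 7 396 396) (node 398 (merge (leaf 6 397 430) (node 397 (merge (leaf 6 365 366) (leaf 5 396 492)))))))))))))))))) (merge (node 461 (merge (node 556 (merge (leaf 5 428 429) (node 588 (merge (leaf 5 460 557) (leaf 6 492 620))))) (merge (node 429 (merge (leaf 5 428 556) (node 398 (merge (leaf 6 397 430) (node 397 (merge (leaf 6 365 366) (leaf 5 396 492))))))) (merge (node 430 (merge (node 429 (merge (leaf 6 397 398) (node 396 (merge (leaf 7 396 428) (node 397 (merge (leaf 7 364 364) (leaf 5 396 492))))))) (merge (node 462 (merge (leaf 6 429 557) (node 398 (merge (leaf 5 365 366) (leaf 5 397 494)))))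 (node 557 (merge (leaf 6 429 462) (node 460 (merge (leaf 7 428 428) (node 589 (merge (leaf 7 460 492) (node 622 (merge (leaf 4 493 590) (node 621 (merge (leaf 4 525 654) (node 620 (merge (leaf 5 492 588) (leaf 5 524 652)))))))))))))))) (node 460 (merge (node 557 (merge (leaf 7 428 428) (node 589 (merge (leaf 7 460 492) (node 588 (merge (leaf 5 460 556) (leaf 5 492 620))))))) (merge (node 557 (merge (leaf 7 428 428) (node 462 (merge (leaf 6 429 430) (node 589 (merge (leaf 6 461 494) (node 588 (merge (leaf 5 460 556) (leaf 5 492 620))))))))) (merge (node 428 (merge (node 396 (merge (leaf 4 364 364) (leaf 4 396 492))) (node 462 (merge (leaf 3 427 427) (node 495 (merge (leaf 0 460 496) (node 459 (merge (leaf 0 459 494) (node 431 (merge (leaf 2 427 430) (leaf 2 428 432))))))))))) (node 462 (merge (node 430 (merge (leaf 6 429 557) (node 398 (merge (leaf 5 365 366) (leaf 5 397 494))))) (merge (node 491 (merge (leaf 1 459 492) (node 459 (merge (leaf 1 458 490) (node 431 (merge (leaf 2 427 430) (leaf 2 428 432))))))) (node 495 (merge (leaf 0 460 496) (node 459 (merge (leaf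 0 459 494) (node 492 (merge (leaf 1 459 491) (node 557 (merge (leaf 7 460 589) (node 427 (merge (leaf 3 426 426) (node 556 (merge (leaf 7 427 524) (leaf 5 460 588)))))))))))))))))))))))) (merge (node 494 (merge (node 495 (merge (leaf 1 492 496) (leaf 2 491 526))) (merge (node 495 (merge (leaf 1 491 492) (leaf 1 492 496))) (node 491 (merge (node 490 (merge (leaf 3 490 526) (node 489 (merge (leaf 0 488 488) (leaf 0 489 492))))) (merge (node 526 (merge (leaf 3 490 490) (node 558 (merge (leaf 0 523 559) (node 461 (merge (leaf 4 429 429) (leaf 7 461 590))))))) (merge (node 492 (merge (node 490 (merge (leaf 0 489 489) (node 462 (merge (leaf 2 458 461) (leaf 2 459 463))))) (node 459 (merge (leaf 3 458 458) (node 556 (merge (leaf 7 459 588) (node 427 (merge (leaf 4 395 395) (leaf 7 427 460))))))))) (node 459 (merge (node 427 (merge (leaf 4 427 556) (node 396 (merge (leaf 6 395 428) (node 395 (merge (leaf 6 363 364) (node 394 (merge (leaf 7 362 362) (leaf 7 394 426))))))))) (merge (node 492 (merge (leaf 3 458 458) (node 462 (merge (leaf 2 459 463) (node 427 (merge (leaf 4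 395 395) (node 428 (merge (leaf 6 395 396) (node 426 (merge (leaf 7 394 394) (node 461 (merge (leaf 0 426 429) (leaf 3 426 460))))))))))))) (node 458 (merge (leaf 3 458 492) (node 461 (merge (leaf 0 458 460) (node 429 (merge (leaf 5 428 556) (node 526 (merge (leaf 4 397 397) (leaf 4 429 558))))))))))))))))))) (node 461 (merge (node 429 (merge (leaf 5 428 556) (node 396 (merge (leaf 7 396 428) (node 397 (merge (leaf 7 364 364) (leaf 5 396 492))))))) (merge (node 558 (merge (node 557 (merge (leaf 3 524 559) (leaf 4 461 590))) (merge (node 526 (merge (leaf 4 429 429) (node 559 (merge (leaf 0 523 523) (leaf 3 525 561))))) (node 526 (merge (leaf 4 429 429) (node 590 (merge (leaf 4 461 557) (leaf 7 493 622)))))))) (node 557 (merge (node 558 (merge (leaf 3 524 559) (leaf 4 461 590))) (merge (node 588 (merge (leaf 5 460 556) (node 589 (merge (leaf 5 492 620) (node 621 (merge (leaf 7 492 492) (node 622 (merge (leaf 4 493 590) (leaf 4 525 654))))))))) (node 558 (merge (leaf 3 524 559) (node 588 (merge (leaf 5 460 556) (node 589 (merge (leaf 5 492 620) (node 621 (merge (leaf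 7 492 492) (node 653 (merge (leaf 6 525 526) (node 654 (merge (leaf 4 525 622) (leaf 4 557 686)))))))))))))))))))))))))))))) nP_275 cP_275 12 (by decide +kernel)
def nP_276 : ℕ := 0x380000000000000000000000000000000000000000000000000000000000000000000000000000000000000000000000000000000000000000000000000000000000
def cP_276 : ℕ := 0x40000001c0000005c000000d800000046000001ff0000007f000001fe0000007c00000034000000000000000000000000000000000000000000000000000000000000000000000000000000000000000000
theorem lP_276 : S nP_276 cP_276 11 := S_of_chk [] trivial (node 493 (merge (node 494 (merge (leaf 2 490 522) (node 495 (merge (leaf 1 492 496) (leaf 2 491 526))))) (merge (node 522 (merge (leaf 2 490 494) (node 521 (merge (leaf 2 489 492) (node 489 (merge (leaf 3 488 488) (leaf 3 489 490))))))) (merge (node 492 (merge (node 522 (merge (leaf 2 489 521) (node 490 (merge (leaf 3 489 489) (node 491 (merge (leaf 0 490 526) (node 458 (merge (leaf 3 457 457) (node 426 (merge (leaf 4 394 394) (leaf 4 426 555))))))))))) (merge (node 522 (merge (leaf 2 489 521) (node 490 (merge (leaf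 3 489 489) (node 491 (merge (leaf 0 490 526) (node 461 (merge (leaf 2 458 462) (node 556 (merge (leaf 5 428 429) (leaf 6 460 588))))))))))) (merge (node 460 (merge (node 428 (merge (leaf 5 427 555) (node 396 (merge (leaf 5 395 491) (leaf 4 396 493))))) (merge (node 428 (merge (leaf 4 396 396) (node 429 (merge (leaf 6 396 397) (node 461 (merge (leaf 6 428 556) (node 430 (merge (leaf 6 397 398) (node 431 (merge (leaf 1 428 432) (leaf 1 427 459))))))))))) (node 461 (merge (node 556 (merge (leaf 6 428 429) (leaf 6 460 588))) (merge (node 429 (merge (leaf 5 396 397) (node 430 (merge (leaf 6 397 398) (node 431 (merge (leaf 1 428 432) (node 459 (merge (leaf 2 426 458) (leaf 2 427 462))))))))) (node 556 (merge (leaf 6 460 588) (node 459 (merge (leaf 7 427 427) (node 458 (merge (leaf 0 457 457) (node 426 (merge (leaf 3 425 425) (node 555 (merge (leaf 7 426 491) (leaf 5 459 587))))))))))))))))) (node 460 (merge (node 555 (merge (leaf 5 427 428) (node 587 (merge (leaf 5 459 556) (leaf 6 491 619))))) (merge (node 428 (merge (leaf 5 427 555) (node 397 (merge (leaf 6 396 429) (node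 396 (merge (leaf 6 364 365) (leaf 4 396 493))))))) (merge (node 428 (merge (leaf 4 396 396) (node 429 (merge (leaf 6 396 397) (node 461 (merge (leaf 6 428 556) (node 430 (merge (leaf 6 397 398) (node 431 (merge (leaf 1 428 432) (leaf 1 427 459))))))))))) (node 461 (merge (node 556 (merge (leaf 6 428 429) (leaf 6 460 588))) (merge (node 429 (merge (leaf 5 396 397) (node 430 (merge (leaf 6 397 398) (node 431 (merge (leaf 1 428 432) (node 459 (merge (leaf 2 426 458) (leaf 2 427 462))))))))) (node 556 (merge (leaf 6 460 588) (node 459 (merge (leaf 7 427 427) (node 458 (merge (leaf 0 457 457) (node 522 (merge (leaf 2 489 521) (node 426 (merge (leaf 3 425 425) (node 555 (merge (leaf 4 426 490) (leaf 5 459 587)))))))))))))))))))))))) (node 491 (merge (node 490 (merge (leaf 3 490 526) (node 489 (merge (leaf 0 488 488) (leaf 0 489 492))))) (merge (node 526 (merge (leaf 3 490 490) (node 558 (merge (leaf 0 523 559) (node 494 (merge (leaf 2 491 495) (node 461 (merge (leaf 4 429 429) (leaf 7 461 590))))))))) (node 459 (merge (node 556 (merge (leaf 4 427 427) (node 588 (merge (leaf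 4 459 555) (leaf 7 491 620))))) (merge (node 427 (merge (leaf 4 427 556) (node 394 (merge (leaf 7 394 426) (node 395 (merge (leaf 7 362 362) (leaf 4 395 492))))))) (merge (node 427 (merge (node 396 (merge (leaf 6 395 428) (node 395 (merge (leaf 6 363 364) (leaf 4 395 492))))) (merge (node 394 (merge (leaf 7 394 426) (node 395 (merge (leaf 7 362 362) (leaf 4 395 492))))) (node 428 (merge (leaf 6 395 396) (node 555 (merge (leaf 6 427 460) (node 426 (merge (leaf 7 394 394) (leaf 7 426 458)))))))))) (node 458 (merge (node 492 (merge (leaf 3 458 494) (node 457 (merge (leaf 0 456 456) (leaf 0 457 460))))) (merge (node 555 (merge (leaf 7 426 426) (node 460 (merge (leaf 6 427 428) (node 461 (merge (leaf 0 458 494) (node 556 (merge (leaf 5 428 429) (leaf 4 459 588))))))))) (node 555 (merge (leaf 7 426 426) (node 588 (merge (leaf 4 459 556) (node 587 (merge (leaf 4 491 620) (node 619 (merge (leaf 6 491 492) (node 618 (merge (leaf 5 490 586) (leaf 5 522 650))))))))))))))))))))))))) nP_276 cP_276 11 (by decide +kernel)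
def nP_277 : ℕ := 0x300000000000000000000000000000000000000000000000000000000000000000000000000000000000000000000000000000000000000000000000000000000000
def cP_277 : ℕ := 0x40000001c0000005c0000005c000000dfc000004f800001ff8000007f000001fe0000007e00000034000000000000000000000000000000000000000000000000000000000000000000000000000000000000000000
theorem lP_277 : S nP_277 cP_277 12 := S_of_chk [(nP_256, cP_256, 9), (nP_276, cP_276, 11)] ⟨lP_256, lP_276, trivial⟩ (node 523 (merge (node 554 (merge (node 553 (merge (leaf 1 521 522) (node 555 (merge (leaf 2 520 552) (leaf 2 521 556))))) (merge (node 555 (merge (leaf 1 522 526) (node 553 (merge (leaf 2 520 552) (leaf 2 521 556))))) (merge (node 522 (merge (leaf 1 521 553) (node 494 (merge (leaf 2 490 493) (node 526 (merge (leaf 2 491 495) (node 490 (merge (leaf 3 489 489) (leaf 3 490 491))))))))) (node 526 (merge (leaf 1 522 555) (node 494 (merge (leaf 2 491 495) (node 522 (merge (leaf 2 490 493) (node 490 (merge (leaf 3 489 489) (leaf 3 490 491))))))))))))) (merge (node 522 (merge (node 553 (merge (leaf 1 521 554) (node 521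 (merge (leaf 1 520 552) (node 489 (merge (leaf 3 488 488) (leaf 3 489 490))))))) (merge (node 494 (merge (leaf 2 490 493) (node 526 (merge (leaf 2 491 495) (node 490 (merge (leaf 3 489 489) (leaf 3 490 491))))))) (node 553 (merge (leaf 1 521 554) (node 521 (merge (leaf 1 520 552) (node 493 (merge (leaf 2 489 492) (leaf 2 490 494)))))))))) (merge (hyp 0) (merge (node 522 (merge (node 554 (merge (leaf 1 521 553) (node 526 (merge (leaf 1 522 555) (node 494 (merge (leaf 2 490 493) (leaf 2 491 495))))))) (merge (node 521 (merge (node 553 (merge (leaf 1 520 552) (leaf 1 521 554))) (merge (node 488 (merge (leaf 3 488 489) (node 520 (merge (leaf 3 487 487) (node 555 (merge (leaf 0 520 556) (node 554 (merge (leaf 0 519 519) (leaf 1 522 526))))))))) (node 552 (merge (leaf 1 520 553) (node 520 (merge (leaf 1 519 551) (node 488 (merge (leaf 3 487 487) (leaf 3 488 489)))))))))) (merge (node 493 (merge (leaf 2 490 494) (node 521 (merge (leaf 2 489 492) (node 552 (merge (leaf 1 520 553) (node 520 (merge (leaf 1 519 551) (node 488 (merge (leaf 3 487 487) (leaf 3 488 489)))))))))))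 (node 493 (merge (leaf 2 490 494) (node 521 (merge (leaf 2 489 492) (node 488 (merge (leaf 3 488 489) (node 520 (merge (leaf 3 487 487) (node 555 (merge (leaf 0 520 556) (node 554 (merge (leaf 0 519 519) (leaf 1 522 526))))))))))))))))) (merge (hyp 1) (merge (node 493 (merge (node 494 (merge (leaf 2 490 522) (node 495 (merge (leaf 1 492 496) (leaf 2 491 526))))) (merge (node 522 (merge (leaf 2 490 494) (node 553 (merge (leaf 1 521 554) (node 521 (merge (leaf 2 489 492) (leaf 1 520 552))))))) (merge (node 555 (merge (node 554 (merge (leaf 1 522 526) (node 553 (merge (leaf 2 520 552) (leaf 2 521 556))))) (merge (node 554 (merge (leaf 1 522 526) (node 553 (merge (leaf 1 521 522) (leaf 2 520 552))))) (merge (node 491 (merge (node 490 (merge (leaf 3 490 526) (node 458 (merge (leaf 7 458 587) (node 426 (merge (leaf 4 394 394) (leaf 7 426 459))))))) (merge (node 587 (merge (node 492 (merge (leaf 6 459 460) (leaf 6 491 619))) (merge (node 620 (merge (leaf 4 491 588) (node 619 (merge (leaf 4 523 652) (node 618 (merge (leaf 5 490 586) (leaf 5 522 650))))))) (node 460 (merge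 (leaf 6 459 492) (node 459 (merge (leaf 6 427 428) (node 588 (merge (leaf 4 459 556) (leaf 4 491 620)))))))))) (node 461 (merge (node 526 (merge (leaf 3 490 490) (node 558 (merge (leaf 4 429 429) (leaf 0 523 559))))) (merge (node 556 (merge (leaf 5 428 429) (node 588 (merge (leaf 6 460 492) (leaf 6 492 620))))) (node 490 (merge (leaf 3 490 526) (node 492 (merge (leaf 2 458 462) (node 522 (merge (leaf 1 489 521) (node 458 (merge (leaf 4 426 426) (leaf 3 457 457))))))))))))))) (node 587 (merge (node 492 (merge (leaf 6 491 619) (node 460 (merge (leaf 5 427 428) (leaf 6 459 491))))) (merge (node 619 (merge (leaf 6 491 492) (node 651 (merge (leaf 6 523 556) (node 650 (merge (leaf 5 522 618) (leaf 5 554 682))))))) (merge (node 620 (merge (node 588 (merge (leaf 4 491 491) (node 652 (merge (leaf 7 523 556) (leaf 4 523 619))))) (merge (node 619 (merge (leaf 4 523 652) (node 651 (merge (leaf 6 523 556) (node 650 (merge (leaf 5 522 618) (leaf 5 554 682))))))) (node 491 (merge (leaf 4 491 588) (node 586 (merge (leaf 5 490 618) (node 554 (merge (leaf 5 458 459) (node 553 (merge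 (leaf 1 521 522) (leaf 2 520 552)))))))))))) (node 491 (merge (node 458 (merge (leaf 7 458 490) (node 459 (merge (leaf 7 426 426) (node 586 (merge (leaf 5 458 554) (leaf 5 490 618))))))) (merge (node 460 (merge (leaf 6 459 492) (node 459 (merge (leaf 6 427 428) (node 588 (merge (leaf 4 459 556) (leaf 4 491 620))))))) (node 492 (merge (leaf 6 459 460) (node 490 (merge (leaf 7 458 458) (node 461 (merge (leaf 2 458 462) (node 588 (merge (leaf 6 460 556) (leaf 4 491 620)))))))))))))))))))) (node 491 (merge (node 526 (merge (leaf 3 490 490) (node 558 (merge (leaf 0 523 559) (node 590 (merge (leaf 7 493 622) (node 494 (merge (leaf 7 461 461) (leaf 2 491 495))))))))) (merge (node 555 (merge (node 554 (merge (leaf 1 522 526) (node 553 (merge (leaf 2 520 552) (leaf 2 521 556))))) (merge (node 554 (merge (leaf 1 522 526) (node 586 (merge (leaf 5 458 459) (node 618 (merge (leaf 5 490 587) (leaf 6 522 650))))))) (node 587 (merge (node 492 (merge (leaf 6 459 460) (leaf 6 491 619))) (merge (node 620 (merge (leaf 4 491 588) (node 619 (merge (leaf 4 523 652) (node 618 (merge (leaf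 5 490 586) (leaf 5 522 650))))))) (node 460 (merge (leaf 6 459 492) (node 459 (merge (leaf 6 427 428) (node 588 (merge (leaf 4 459 556) (leaf 4 491 620))))))))))))) (node 459 (merge (node 556 (merge (leaf 4 427 427) (node 588 (merge (leaf 4 459 555) (leaf 7 491 620))))) (merge (node 427 (merge (leaf 4 427 556) (node 396 (merge (leaf 6 395 428) (node 395 (merge (leaf 6 363 364) (leaf 4 395 492))))))) (merge (node 427 (merge (node 396 (merge (leaf 6 395 428) (node 395 (merge (leaf 6 363 364) (leaf 4 395 492))))) (merge (node 394 (merge (leaf 7 394 426) (node 395 (merge (leaf 7 362 362) (leaf 4 395 492))))) (node 428 (merge (leaf 6 395 396) (node 555 (merge (leaf 6 427 460) (node 426 (merge (leaf 7 394 394) (leaf 7 426 458)))))))))) (node 555 (merge (node 556 (merge (leaf 4 459 588) (node 554 (merge (leaf 2 521 553) (leaf 5 458 586))))) (node 460 (merge (leaf 6 427 428) (node 587 (merge (leaf 6 459 492) (node 458 (merge (leaf 7 426 426) (leaf 7 458 490)))))))))))))))))))) (node 491 (merge (node 522 (merge (node 489 (merge (leaf 3 489 490) (node 521 (merge (leaf 3 488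 488) (node 492 (merge (leaf 2 489 493) (leaf 2 488 520))))))) (merge (node 554 (merge (leaf 1 521 553) (node 586 (merge (leaf 6 490 618) (node 490 (merge (leaf 6 458 459) (leaf 3 489 489))))))) (node 553 (merge (leaf 1 521 554) (node 521 (merge (leaf 1 520 552) (node 493 (merge (leaf 2 489 492) (leaf 2 490 494)))))))))) (merge (node 459 (merge (node 427 (merge (leaf 4 427 556) (node 394 (merge (leaf 7 394 426) (node 395 (merge (leaf 7 362 362) (leaf 4 395 492))))))) (merge (node 427 (merge (leaf 4 427 556) (node 396 (merge (leaf 6 395 428) (node 395 (merge (leaf 6 363 364) (leaf 4 395 492))))))) (merge (node 427 (merge (leaf 4 427 556) (node 428 (merge (leaf 6 395 396) (node 555 (merge (leaf 6 427 460) (node 426 (merge (leaf 7 394 394) (leaf 7 426 458))))))))) (merge (node 427 (merge (node 396 (merge (leaf 6 395 428) (node 395 (merge (leaf 6 363 364) (leaf 4 395 492))))) (merge (node 394 (merge (leaf 7 394 426) (node 395 (merge (leaf 7 362 362) (leaf 4 395 492))))) (node 428 (merge (leaf 6 395 396) (node 555 (merge (leaf 6 427 460) (node 426 (merge (leaf 7 394 394)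 (leaf 7 426 458)))))))))) (node 555 (merge (node 556 (merge (leaf 4 459 588) (node 554 (merge (leaf 2 521 553) (leaf 5 458 586))))) (node 460 (merge (leaf 6 427 428) (node 587 (merge (leaf 6 459 492) (node 458 (merge (leaf 7 426 426) (leaf 7 458 490)))))))))))))) (merge (node 459 (merge (node 556 (merge (leaf 4 427 427) (node 588 (merge (leaf 4 459 555) (leaf 7 491 620))))) (merge (node 427 (merge (leaf 4 427 556) (node 396 (merge (leaf 6 395 428) (node 395 (merge (leaf 6 363 364) (node 394 (merge (leaf 7 362 362) (leaf 7 394 426))))))))) (merge (node 555 (merge (node 554 (merge (leaf 5 458 586) (node 553 (merge (leaf 1 521 522) (leaf 2 520 552))))) (node 428 (merge (leaf 6 427 460) (node 427 (merge (leaf 6 395 396) (node 426 (merge (leaf 7 394 394) (leaf 7 426 458))))))))) (node 555 (merge (node 556 (merge (leaf 4 459 588) (node 554 (merge (leaf 2 521 553) (leaf 5 458 586))))) (merge (node 458 (merge (leaf 7 426 426) (node 587 (merge (leaf 7 458 490) (node 588 (merge (leaf 4 459 556) (leaf 4 491 620))))))) (node 458 (merge (leaf 7 426 426) (node 587 (merge (leaf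 7 458 490) (node 586 (merge (leaf 5 458 554) (leaf 5 490 618)))))))))))))) (merge (node 459 (merge (node 556 (merge (leaf 4 427 427) (node 588 (merge (leaf 4 459 555) (leaf 7 491 620))))) (merge (node 427 (merge (leaf 4 427 556) (node 394 (merge (leaf 7 394 426) (node 395 (merge (leaf 7 362 362) (leaf 4 395 492))))))) (merge (node 427 (merge (node 396 (merge (leaf 6 395 428) (node 395 (merge (leaf 6 363 364) (leaf 4 395 492))))) (merge (node 394 (merge (leaf 7 394 426) (node 395 (merge (leaf 7 362 362) (leaf 4 395 492))))) (node 428 (merge (leaf 6 395 396) (node 555 (merge (leaf 6 427 460) (node 426 (merge (leaf 7 394 394) (leaf 7 426 458)))))))))) (node 460 (merge (node 428 (merge (leaf 6 427 555) (node 396 (merge (leaf 5 363 364) (leaf 5 395 492))))) (merge (node 555 (merge (leaf 6 427 428) (node 458 (merge (leaf 7 426 426) (node 587 (merge (leaf 7 458 490) (node 588 (merge (leaf 4 459 556) (leaf 4 491 620))))))))) (node 493 (merge (node 494 (merge (leaf 2 490 522) (node 495 (merge (leaf 1 491 492) (leaf 1 492 496))))) (merge (node 490 (merge (node 489 (merge (leaf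 0 488 488) (leaf 0 489 492))) (node 461 (merge (leaf 1 458 462) (node 429 (merge (leaf 5 428 556) (node 430 (merge (leaf 6 397 398) (leaf 2 426 458))))))))) (node 522 (merge (leaf 2 490 494) (node 490 (merge (leaf 3 489 489) (node 461 (merge (leaf 1 458 462) (node 429 (merge (leaf 5 428 556) (node 430 (merge (leaf 6 397 398) (leaf 2 426 458))))))))))))))))))))) (merge (node 522 (merge (node 554 (merge (leaf 1 521 553) (node 586 (merge (leaf 6 490 618) (node 459 (merge (leaf 5 426 427) (leaf 5 458 555))))))) (merge (node 493 (merge (leaf 2 490 494) (node 521 (merge (leaf 2 489 492) (node 552 (merge (leaf 1 520 553) (node 520 (merge (leaf 1 519 551) (node 488 (merge (leaf 3 487 487) (leaf 3 488 489))))))))))) (node 493 (merge (leaf 2 490 494) (node 521 (merge (leaf 2 489 492) (node 488 (merge (leaf 3 488 489) (node 520 (merge (leaf 3 487 487) (node 555 (merge (leaf 0 520 556) (node 519 (merge (leaf 0 519 554) (node 551 (merge (leaf 1 518 550) (leaf 1 519 552)))))))))))))))))) (node 490 (merge (node 489 (merge (leaf 0 488 488) (leaf 3 489 522))) (merge (node 489 (merge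 (leaf 0 488 488) (leaf 0 489 492))) (node 522 (merge (node 493 (merge (leaf 2 490 494) (node 492 (merge (leaf 1 489 521) (node 461 (merge (leaf 2 458 462) (node 429 (merge (leaf 5 396 397) (leaf 5 428 556))))))))) (node 554 (merge (leaf 1 521 553) (node 586 (merge (leaf 6 490 618) (node 587 (merge (leaf 4 490 619) (node 458 (merge (leaf 7 458 555) (node 425 (merge (leaf 7 425 457) (node 426 (merge (leaf 7 393 393) (leaf 4 394 394))))))))))))))))))))))))))))))) nP_277 cP_277 12 (by decide +kernel)
def nP_278 : ℕ := 0x100000000300000000000000080000000000000000000000000000000000000000000000000000000000000000000000000000000000000000000000000000000000000000000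
def cP_278 : ℕ := 0x40000000740000007c0000007c000002fb8000004f800001ff8000007f000001fe0000007c00000074000000000000000000000000000000000000000000000000000000000000000000000000000000000000000000
theorem lP_278 : S nP_278 cP_278 12 := S_of_chk [(nP_276, cP_276, 11)] ⟨lP_276, trivial⟩ (node 523 (merge (node 494 (merge (node 493 (merge (leaf 2 490 522) (node 495 (merge (leaf 1 491 492) (leaf 1 492 496))))) (merge (node 522 (merge (leaf 2 490 493) (node 558 (merge (leaf 0 522 557) (node 526 (merge (leaf 0 523 559) (node 490 (merge (leaf 3 489 489) (leaf 3 490 491))))))))) (node 526 (merge (leaf 2 491 495) (node 558 (merge (leaf 0 523 559) (node 462 (merge (leaf 6 430 431) (node 557 (merge (leaf 5 429 430) (leaf 5 461 589)))))))))))) (merge (node 522 (merge (node 558 (merge (leaf 0 522 557) (node 526 (merge (leaf 0 523 559) (node 490 (merge (leaf 3 489 489) (leaf 3 490 491))))))) (merge (node 521 (merge (node 489 (merge (leaf 3 488 488) (leaf 3 489 490))) (merge (node 552 (merge (leaf 1 520 553) (node 520 (merge (leaf 1 519 551) (node 491 (merge (leaf 2 488 492) (node 490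 (merge (leaf 2 487 519) (leaf 3 490 526))))))))) (node 552 (merge (leaf 1 520 553) (node 520 (merge (leaf 1 519 551) (node 488 (merge (leaf 3 487 487) (leaf 3 488 489)))))))))) (merge (node 557 (merge (leaf 0 522 558) (node 521 (merge (leaf 0 521 556) (node 552 (merge (leaf 1 520 553) (node 520 (merge (leaf 1 519 551) (node 491 (merge (leaf 2 488 492) (node 490 (merge (leaf 2 487 519) (leaf 3 490 526))))))))))))) (node 557 (merge (leaf 0 522 558) (node 521 (merge (leaf 0 521 556) (node 552 (merge (leaf 1 520 553) (node 520 (merge (leaf 1 519 551) (node 488 (merge (leaf 3 487 487) (leaf 3 488 489))))))))))))))) (merge (node 494 (merge (node 493 (merge (leaf 2 490 522) (node 495 (merge (leaf 1 492 496) (leaf 2 491 526))))) (merge (node 526 (merge (leaf 2 491 495) (node 558 (merge (leaf 0 523 559) (node 462 (merge (leaf 6 430 431) (node 557 (merge (leaf 5 429 430) (leaf 5 461 589))))))))) (node 522 (merge (leaf 2 490 493) (node 489 (merge (leaf 3 489 490) (node 521 (merge (leaf 3 488 488) (node 556 (merge (leaf 0 521 557) (node 520 (merge (leaf 0 520 555) (node 552 (merge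 (leaf 1 519 551) (leaf 1 520 553)))))))))))))))) (merge (node 557 (merge (node 558 (merge (leaf 0 522 522) (leaf 3 524 559))) (merge (node 493 (merge (node 494 (merge (leaf 2 490 522) (node 495 (merge (leaf 1 491 492) (leaf 1 492 496))))) (merge (node 494 (merge (leaf 2 490 522) (node 462 (merge (leaf 6 461 589) (node 430 (merge (leaf 5 397 398) (leaf 6 429 461))))))) (node 461 (merge (node 556 (merge (leaf 5 428 429) (leaf 5 460 588))) (merge (node 430 (merge (leaf 6 429 462) (node 429 (merge (leaf 6 397 398) (node 460 (merge (leaf 7 428 428) (node 492 (merge (leaf 5 396 397) (leaf 7 460 589))))))))) (node 460 (merge (leaf 7 428 428) (node 589 (merge (leaf 7 460 492) (node 588 (merge (leaf 5 460 556) (leaf 5 492 620))))))))))))) (node 589 (merge (node 492 (merge (leaf 7 492 621) (node 460 (merge (leaf 4 428 428) (leaf 4 460 556))))) (merge (node 493 (merge (node 494 (merge (leaf 6 461 462) (node 492 (merge (leaf 7 460 460) (leaf 1 491 495))))) (node 558 (merge (leaf 3 524 559) (node 590 (merge (leaf 4 461 461) (node 622 (merge (leaf 4 493 589) (leaf 7 525 654)))))))))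 (node 493 (merge (node 558 (merge (leaf 3 524 559) (node 590 (merge (leaf 4 461 461) (node 622 (merge (leaf 4 493 589) (leaf 7 525 654))))))) (merge (node 558 (merge (leaf 3 524 559) (node 461 (merge (leaf 4 461 590) (node 556 (merge (leaf 5 428 429) (leaf 5 460 588))))))) (node 620 (merge (leaf 5 492 588) (node 621 (merge (leaf 5 524 652) (node 653 (merge (leaf 7 524 556) (node 654 (merge (leaf 4 525 622) (leaf 4 557 686)))))))))))))))))) (merge (node 493 (merge (node 494 (merge (leaf 2 490 522) (node 495 (merge (leaf 1 492 496) (leaf 2 491 526))))) (merge (node 492 (merge (node 522 (merge (leaf 2 489 521) (node 490 (merge (leaf 3 489 489) (node 491 (merge (leaf 0 490 526) (node 458 (merge (leaf 3 457 457) (node 426 (merge (leaf 4 394 394) (leaf 4 426 555))))))))))) (merge (node 522 (merge (leaf 2 489 521) (node 490 (merge (leaf 3 489 489) (node 491 (merge (leaf 0 490 526) (node 461 (merge (leaf 2 458 462) (node 556 (merge (leaf 5 428 429) (leaf 6 460 588))))))))))) (merge (node 460 (merge (node 428 (merge (leaf 5 427 555) (node 396 (merge (leaf 5 395 491) (leaf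 4 396 493))))) (merge (node 428 (merge (leaf 4 396 396) (node 429 (merge (leaf 6 396 397) (node 461 (merge (leaf 6 428 556) (node 430 (merge (leaf 6 397 398) (node 431 (merge (leaf 1 428 432) (leaf 1 427 459))))))))))) (node 461 (merge (node 556 (merge (leaf 6 428 429) (leaf 6 460 588))) (merge (node 429 (merge (leaf 5 396 397) (node 430 (merge (leaf 6 397 398) (node 431 (merge (leaf 1 428 432) (node 459 (merge (leaf 2 426 458) (leaf 2 427 462))))))))) (node 556 (merge (leaf 6 460 588) (node 459 (merge (leaf 7 427 427) (node 458 (merge (leaf 0 457 457) (node 426 (merge (leaf 3 425 425) (node 555 (merge (leaf 7 426 491) (leaf 5 459 587))))))))))))))))) (node 460 (merge (node 555 (merge (leaf 5 427 428) (node 587 (merge (leaf 5 459 556) (leaf 6 491 619))))) (merge (node 428 (merge (leaf 5 427 555) (node 397 (merge (leaf 6 396 429) (node 396 (merge (leaf 6 364 365) (leaf 4 396 493))))))) (merge (node 428 (merge (leaf 4 396 396) (node 429 (merge (leaf 6 396 397) (node 461 (merge (leaf 6 428 556) (node 430 (merge (leaf 6 397 398) (node 431 (merge (leaf 1 428 432) (leaf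 1 427 459))))))))))) (node 461 (merge (node 556 (merge (leaf 6 428 429) (leaf 6 460 588))) (merge (node 429 (merge (leaf 5 396 397) (node 430 (merge (leaf 6 397 398) (node 431 (merge (leaf 1 428 432) (node 459 (merge (leaf 2 426 458) (leaf 2 427 462))))))))) (node 556 (merge (leaf 6 460 588) (node 459 (merge (leaf 7 427 427) (node 458 (merge (leaf 0 457 457) (node 522 (merge (leaf 2 489 521) (node 426 (merge (leaf 3 425 425) (node 555 (merge (leaf 4 426 490) (leaf 5 459 587)))))))))))))))))))))))) (node 461 (merge (node 556 (merge (leaf 5 428 429) (node 588 (merge (leaf 5 460 557) (leaf 6 492 620))))) (merge (node 429 (merge (leaf 5 428 556) (node 398 (merge (leaf 6 397 430) (node 397 (merge (leaf 6 365 366) (leaf 5 396 492))))))) (merge (node 430 (merge (node 429 (merge (leaf 6 397 398) (node 396 (merge (leaf 7 396 428) (node 397 (merge (leaf 7 364 364) (leaf 5 396 492))))))) (merge (node 462 (merge (leaf 6 429 557) (node 398 (merge (leaf 5 365 366) (leaf 5 397 494))))) (node 557 (merge (leaf 6 429 462) (node 460 (merge (leaf 7 428 428) (node 589 (merge (leaf 7 460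 492) (node 622 (merge (leaf 4 493 590) (node 621 (merge (leaf 4 525 654) (node 620 (merge (leaf 5 492 588) (leaf 5 524 652)))))))))))))))) (node 460 (merge (node 557 (merge (leaf 7 428 428) (node 589 (merge (leaf 7 460 492) (node 588 (merge (leaf 5 460 556) (leaf 5 492 620))))))) (merge (node 557 (merge (leaf 7 428 428) (node 462 (merge (leaf 6 429 430) (node 589 (merge (leaf 6 461 494) (node 588 (merge (leaf 5 460 556) (leaf 5 492 620))))))))) (merge (node 428 (merge (node 396 (merge (leaf 4 364 364) (leaf 4 396 492))) (node 462 (merge (leaf 3 427 427) (node 495 (merge (leaf 0 460 496) (node 459 (merge (leaf 0 459 494) (node 431 (merge (leaf 2 427 430) (leaf 2 428 432))))))))))) (node 462 (merge (node 430 (merge (leaf 6 429 557) (node 398 (merge (leaf 5 365 366) (leaf 5 397 494))))) (merge (node 491 (merge (leaf 1 459 492) (node 459 (merge (leaf 1 458 490) (node 431 (merge (leaf 2 427 430) (leaf 2 428 432))))))) (node 495 (merge (leaf 0 460 496) (node 459 (merge (leaf 0 459 494) (node 492 (merge (leaf 1 459 491) (node 557 (merge (leaf 7 460 589) (node 427 (merge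 (leaf 3 426 426) (node 556 (merge (leaf 7 427 524) (leaf 5 460 588))))))))))))))))))))))))))) (merge (node 493 (merge (node 558 (merge (node 559 (merge (leaf 0 523 526) (leaf 3 524 557))) (merge (node 557 (merge (leaf 3 524 559) (node 590 (merge (leaf 4 461 461) (node 622 (merge (leaf 4 493 589) (leaf 7 525 654))))))) (merge (node 526 (merge (leaf 0 523 559) (node 590 (merge (leaf 7 493 622) (node 461 (merge (leaf 4 429 429) (leaf 7 461 494))))))) (node 461 (merge (node 590 (merge (leaf 4 461 557) (node 526 (merge (leaf 7 461 494) (leaf 7 493 622))))) (merge (node 429 (merge (leaf 4 429 526) (node 396 (merge (leaf 7 396 428) (node 397 (merge (leaf 7 364 364) (leaf 5 396 492))))))) (node 557 (merge (leaf 4 461 590) (node 428 (merge (leaf 7 428 460) (node 429 (merge (leaf 7 396 396) (node 398 (merge (leaf 6 397 430) (node 397 (merge (leaf 6 365 366) (leaf 5 396 492)))))))))))))))))) (merge (node 557 (merge (node 558 (merge (leaf 3 524 559) (node 590 (merge (leaf 4 461 461) (node 622 (merge (leaf 7 493 526) (leaf 7 525 654))))))) (merge (node 494 (merge (node 495 (merge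 (leaf 1 492 496) (leaf 2 491 526))) (node 462 (merge (leaf 6 461 589) (node 430 (merge (leaf 5 397 398) (leaf 6 429 461))))))) (merge (node 558 (merge (leaf 3 524 559) (node 590 (merge (leaf 4 461 461) (node 622 (merge (leaf 4 493 589) (leaf 7 525 654))))))) (node 494 (merge (node 495 (merge (leaf 1 492 496) (leaf 2 491 526))) (node 589 (merge (leaf 6 461 462) (node 622 (merge (leaf 4 493 590) (node 621 (merge (leaf 4 525 654) (node 620 (merge (leaf 5 492 588) (leaf 5 524 652))))))))))))))) (merge (node 461 (merge (node 429 (merge (leaf 5 428 556) (node 396 (merge (leaf 7 396 428) (node 397 (merge (leaf 7 364 364) (leaf 5 396 492))))))) (merge (node 558 (merge (node 557 (merge (leaf 3 524 559) (leaf 4 461 590))) (merge (node 526 (merge (leaf 4 429 429) (node 559 (merge (leaf 0 523 523) (leaf 3 525 561))))) (node 526 (merge (leaf 4 429 429) (node 590 (merge (leaf 4 461 557) (leaf 7 493 622)))))))) (node 557 (merge (node 558 (merge (leaf 3 524 559) (leaf 4 461 590))) (merge (node 588 (merge (leaf 5 460 556) (node 589 (merge (leaf 5 492 620) (node 621 (merge (leaf 7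 492 492) (node 622 (merge (leaf 4 493 590) (leaf 4 525 654))))))))) (node 558 (merge (leaf 3 524 559) (node 588 (merge (leaf 5 460 556) (node 589 (merge (leaf 5 492 620) (node 621 (merge (leaf 7 492 492) (node 653 (merge (leaf 6 525 526) (node 654 (merge (leaf 4 525 622) (leaf 4 557 686))))))))))))))))))) (merge (node 461 (merge (node 556 (merge (leaf 5 428 429) (node 588 (merge (leaf 5 460 557) (leaf 6 492 620))))) (merge (node 429 (merge (leaf 5 428 556) (node 398 (merge (leaf 6 397 430) (node 397 (merge (leaf 6 365 366) (leaf 5 396 492))))))) (merge (node 430 (merge (node 429 (merge (leaf 6 397 398) (node 396 (merge (leaf 7 396 428) (node 397 (merge (leaf 7 364 364) (leaf 5 396 492))))))) (merge (node 462 (merge (leaf 6 429 557) (node 398 (merge (leaf 5 365 366) (leaf 5 397 494))))) (node 557 (merge (leaf 6 429 462) (node 460 (merge (leaf 7 428 428) (node 589 (merge (leaf 7 460 492) (node 622 (merge (leaf 4 493 590) (node 621 (merge (leaf 4 525 654) (node 620 (merge (leaf 5 492 588) (leaf 5 524 652)))))))))))))))) (node 460 (merge (node 557 (merge (leaf 7 428 428)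 (node 589 (merge (leaf 7 460 492) (node 588 (merge (leaf 5 460 556) (leaf 5 492 620))))))) (merge (node 557 (merge (leaf 7 428 428) (node 462 (merge (leaf 6 429 430) (node 589 (merge (leaf 6 461 494) (node 588 (merge (leaf 5 460 556) (leaf 5 492 620))))))))) (merge (node 428 (merge (node 396 (merge (leaf 4 364 364) (leaf 4 396 492))) (node 462 (merge (leaf 3 427 427) (node 495 (merge (leaf 0 460 496) (node 459 (merge (leaf 0 459 494) (node 431 (merge (leaf 2 427 430) (leaf 2 428 432))))))))))) (node 462 (merge (node 430 (merge (leaf 6 429 557) (node 398 (merge (leaf 5 365 366) (leaf 5 397 494))))) (merge (node 491 (merge (leaf 1 459 492) (node 459 (merge (leaf 1 458 490) (node 431 (merge (leaf 2 427 430) (leaf 2 428 432))))))) (node 495 (merge (leaf 0 460 496) (node 459 (merge (leaf 0 459 494) (node 492 (merge (leaf 1 459 491) (node 557 (merge (leaf 7 460 589) (node 427 (merge (leaf 3 426 426) (node 556 (merge (leaf 7 427 524) (leaf 5 460 588)))))))))))))))))))))))) (merge (node 494 (merge (node 495 (merge (leaf 1 492 496) (leaf 2 491 526))) (merge (node 495 (merge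 (leaf 1 491 492) (leaf 1 492 496))) (node 491 (merge (node 490 (merge (leaf 3 490 526) (node 489 (merge (leaf 0 488 488) (leaf 0 489 492))))) (merge (node 526 (merge (leaf 3 490 490) (node 558 (merge (leaf 0 523 559) (node 461 (merge (leaf 4 429 429) (leaf 7 461 590))))))) (merge (node 492 (merge (node 490 (merge (leaf 0 489 489) (node 462 (merge (leaf 2 458 461) (leaf 2 459 463))))) (node 459 (merge (leaf 3 458 458) (node 556 (merge (leaf 7 459 588) (node 427 (merge (leaf 4 395 395) (leaf 7 427 460))))))))) (node 459 (merge (node 427 (merge (leaf 4 427 556) (node 396 (merge (leaf 6 395 428) (node 395 (merge (leaf 6 363 364) (node 394 (merge (leaf 7 362 362) (leaf 7 394 426))))))))) (merge (node 492 (merge (leaf 3 458 458) (node 462 (merge (leaf 2 459 463) (node 427 (merge (leaf 4 395 395) (node 428 (merge (leaf 6 395 396) (node 426 (merge (leaf 7 394 394) (node 461 (merge (leaf 0 426 429) (leaf 3 426 460))))))))))))) (node 458 (merge (leaf 3 458 492) (node 461 (merge (leaf 0 458 460) (node 429 (merge (leaf 5 428 556) (node 526 (merge (leaf 4 397 397) (leaf 4 429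 558))))))))))))))))))) (node 491 (merge (node 490 (merge (leaf 3 490 526) (node 489 (merge (leaf 0 488 488) (leaf 0 489 492))))) (merge (node 494 (merge (node 495 (merge (leaf 1 492 496) (leaf 2 491 526))) (node 492 (merge (leaf 2 459 462) (node 459 (merge (leaf 3 458 458) (node 427 (merge (leaf 4 395 395) (leaf 4 427 556))))))))) (merge (node 526 (merge (leaf 3 490 490) (node 558 (merge (leaf 0 523 559) (node 494 (merge (leaf 2 491 495) (node 462 (merge (leaf 6 430 431) (node 430 (merge (leaf 5 397 398) (leaf 5 429 557))))))))))) (node 459 (merge (node 556 (merge (leaf 4 427 427) (node 588 (merge (leaf 7 459 492) (leaf 7 491 620))))) (merge (node 556 (merge (leaf 4 427 427) (node 588 (merge (leaf 4 459 555) (leaf 7 491 620))))) (node 458 (merge (node 492 (merge (leaf 3 458 494) (node 457 (merge (leaf 0 456 456) (leaf 0 457 460))))) (node 426 (merge (leaf 7 426 555) (node 394 (merge (leaf 4 362 362) (leaf 4 394 490)))))))))))))))))))) (hyp 0)))))))) nP_278 cP_278 12 (by decide +kernel)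
def nP_279 : ℕ := 0x100000000300000000000000000000000000000000000000000000000000000000000000000000000000000000000000000000000000000000000000000000000000000000000
def cP_279 : ℕ := 0x140000001c0000003c0000007f000000ffc000004f8000003fc000007e0000003e0000001e00000014000000000000000000000000000000000000000000000000000000000000000000000000000000000000000000
theorem lP_279 : S nP_279 cP_279 11 := S_of_chk [] trivial (node 523 (merge (node 490 (merge (node 489 (merge (leaf 3 489 522) (node 491 (merge (leaf 0 488 488) (leaf 0 489 492))))) (merge (node 491 (merge (leaf 3 490 526) (node 489 (merge (leaf 0 488 488) (leaf 0 489 492))))) (merge (node 522 (merge (leaf 3 489 489) (node 558 (merge (leaf 0 522 557) (node 526 (merge (leaf 0 523 559) (node 554 (merge (leaf 1 521 553) (leaf 1 522 555))))))))) (node 526 (merge (leaf 3 490 491) (node 558 (merge (leaf 0 523 559) (node 522 (merge (leaf 0 522 557) (node 554 (merge (leaf 1 521 553) (leaf 1 522 555))))))))))))) (merge (node 522 (merge (node 557 (merge (leaf 0 522 558) (node 521 (merge (leaf 0 521 556) (node 489 (merge (leaf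 3 488 488) (leaf 3 489 490))))))) (merge (node 554 (merge (leaf 1 521 553) (node 526 (merge (leaf 1 522 555) (node 558 (merge (leaf 0 522 557) (leaf 0 523 559))))))) (node 553 (merge (leaf 1 521 554) (node 521 (merge (leaf 1 520 552) (node 489 (merge (leaf 3 488 488) (leaf 3 489 490)))))))))) (merge (node 522 (merge (node 554 (merge (leaf 1 521 553) (node 526 (merge (leaf 1 522 555) (node 558 (merge (leaf 0 522 557) (leaf 0 523 559))))))) (merge (node 557 (merge (leaf 0 522 558) (node 521 (merge (leaf 0 521 556) (node 492 (merge (leaf 2 489 493) (node 520 (merge (leaf 2 488 491) (node 488 (merge (leaf 3 487 487) (leaf 3 488 489))))))))))) (node 553 (merge (leaf 1 521 554) (node 521 (merge (leaf 1 520 552) (node 492 (merge (leaf 2 489 493) (node 520 (merge (leaf 2 488 491) (node 488 (merge (leaf 3 487 487) (leaf 3 488 489)))))))))))))) (merge (node 522 (merge (node 558 (merge (leaf 0 522 557) (node 526 (merge (leaf 0 523 559) (node 490 (merge (leaf 3 489 489) (leaf 3 490 491))))))) (merge (node 521 (merge (node 489 (merge (leaf 3 488 488) (leaf 3 489 490))) (merge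 (node 552 (merge (leaf 1 520 553) (node 520 (merge (leaf 1 519 551) (node 491 (merge (leaf 2 488 492) (node 490 (merge (leaf 2 487 519) (leaf 3 490 526))))))))) (node 552 (merge (leaf 1 520 553) (node 520 (merge (leaf 1 519 551) (node 488 (merge (leaf 3 487 487) (leaf 3 488 489)))))))))) (merge (node 557 (merge (leaf 0 522 558) (node 521 (merge (leaf 0 521 556) (node 552 (merge (leaf 1 520 553) (node 520 (merge (leaf 1 519 551) (node 491 (merge (leaf 2 488 492) (node 490 (merge (leaf 2 487 519) (leaf 3 490 526))))))))))))) (node 557 (merge (leaf 0 522 558) (node 521 (merge (leaf 0 521 556) (node 552 (merge (leaf 1 520 553) (node 520 (merge (leaf 1 519 551) (node 488 (merge (leaf 3 487 487) (leaf 3 488 489))))))))))))))) (merge (node 522 (merge (node 557 (merge (leaf 0 522 558) (node 521 (merge (leaf 0 521 556) (node 489 (merge (leaf 3 488 488) (leaf 3 489 490))))))) (merge (node 558 (merge (leaf 0 522 557) (node 526 (merge (leaf 0 523 559) (node 490 (merge (leaf 3 489 489) (leaf 3 490 491))))))) (merge (node 489 (merge (leaf 3 489 490) (node 521 (merge (leaf 3 488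 488) (node 492 (merge (leaf 2 489 493) (node 520 (merge (leaf 2 488 491) (node 555 (merge (leaf 0 520 556) (node 554 (merge (leaf 0 519 519) (leaf 1 522 526))))))))))))) (node 557 (merge (leaf 0 522 558) (node 521 (merge (leaf 0 521 556) (node 492 (merge (leaf 2 489 493) (node 520 (merge (leaf 2 488 491) (node 551 (merge (leaf 1 519 552) (node 519 (merge (leaf 1 518 550) (node 487 (merge (leaf 3 486 486) (leaf 3 487 488))))))))))))))))))) (merge (node 555 (merge (node 554 (merge (leaf 1 522 526) (node 553 (merge (leaf 2 520 552) (leaf 2 521 556))))) (merge (node 587 (merge (node 492 (merge (leaf 6 491 619) (node 460 (merge (leaf 5 427 428) (leaf 6 459 491))))) (merge (node 492 (merge (leaf 6 491 619) (node 460 (merge (leaf 5 427 428) (leaf 5 459 556))))) (merge (node 619 (merge (node 651 (merge (leaf 6 523 556) (node 650 (merge (leaf 5 522 618) (leaf 5 554 682))))) (merge (node 651 (merge (leaf 6 523 556) (node 652 (merge (leaf 4 523 620) (leaf 4 555 684))))) (node 620 (merge (leaf 4 523 652) (node 491 (merge (leaf 4 491 588) (node 618 (merge (leaf 5 490 586) (leaf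 5 522 650)))))))))) (node 491 (merge (node 490 (merge (leaf 7 458 458) (leaf 3 490 526))) (node 460 (merge (leaf 6 459 492) (node 459 (merge (leaf 6 427 428) (node 588 (merge (leaf 4 459 556) (leaf 4 491 620))))))))))))) (merge (node 491 (merge (node 526 (merge (leaf 3 490 490) (leaf 1 522 554))) (merge (node 490 (merge (leaf 3 490 526) (node 587 (merge (leaf 7 458 458) (node 492 (merge (leaf 6 459 460) (leaf 6 491 619))))))) (merge (node 554 (merge (leaf 1 522 526) (node 586 (merge (leaf 5 458 459) (node 618 (merge (leaf 5 490 587) (leaf 6 522 650))))))) (node 587 (merge (node 492 (merge (leaf 6 459 460) (leaf 6 491 619))) (node 588 (merge (leaf 4 491 620) (node 586 (merge (leaf 5 490 618) (node 554 (merge (leaf 5 458 459) (node 553 (merge (leaf 0 552 552) (leaf 3 553 589))))))))))))))) (node 587 (merge (node 492 (merge (leaf 6 491 619) (node 460 (merge (leaf 5 427 428) (leaf 6 459 491))))) (merge (node 492 (merge (leaf 6 491 619) (node 460 (merge (leaf 5 427 428) (leaf 5 459 556))))) (merge (node 619 (merge (node 651 (merge (leaf 6 523 556) (node 650 (merge (leaf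 5 522 618) (leaf 5 554 682))))) (merge (node 651 (merge (leaf 6 523 556) (node 652 (merge (leaf 4 523 620) (leaf 4 555 684))))) (node 620 (merge (leaf 4 523 652) (node 491 (merge (leaf 4 491 588) (node 618 (merge (leaf 5 490 586) (leaf 5 522 650)))))))))) (node 588 (merge (node 620 (merge (leaf 4 491 491) (node 652 (merge (leaf 7 523 556) (leaf 7 555 684))))) (merge (node 491 (merge (leaf 4 491 620) (node 460 (merge (leaf 6 459 492) (node 459 (merge (leaf 6 427 428) (node 586 (merge (leaf 5 458 554) (leaf 5 490 618))))))))) (merge (node 556 (merge (node 620 (merge (leaf 6 492 493) (leaf 7 523 652))) (node 554 (merge (leaf 2 521 553) (node 589 (merge (leaf 3 554 590) (node 492 (merge (leaf 5 459 460) (leaf 4 492 621))))))))) (node 556 (merge (node 491 (merge (leaf 4 459 459) (node 586 (merge (leaf 5 490 618) (node 585 (merge (leaf 2 553 557) (leaf 2 552 584))))))) (node 554 (merge (leaf 2 521 553) (node 589 (merge (leaf 3 554 590) (node 492 (merge (leaf 5 459 460) (leaf 4 492 621))))))))))))))))))))) (merge (node 555 (merge (node 554 (merge (leaf 1 522 526) (node 553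 (merge (leaf 2 520 552) (leaf 2 521 556))))) (merge (node 587 (merge (node 619 (merge (leaf 6 491 492) (node 651 (merge (leaf 6 523 556) (node 650 (merge (leaf 5 522 618) (leaf 5 554 682))))))) (merge (node 619 (merge (leaf 6 491 492) (node 651 (merge (leaf 6 523 556) (node 652 (merge (leaf 4 523 620) (leaf 4 555 684))))))) (merge (node 619 (merge (leaf 6 491 492) (node 620 (merge (leaf 4 523 652) (node 491 (merge (leaf 4 491 588) (node 618 (merge (leaf 5 490 586) (leaf 5 522 650))))))))) (merge (node 619 (merge (node 651 (merge (leaf 6 523 556) (node 650 (merge (leaf 5 522 618) (leaf 5 554 682))))) (merge (node 651 (merge (leaf 6 523 556) (node 652 (merge (leaf 4 523 620) (leaf 4 555 684))))) (node 620 (merge (leaf 4 523 652) (node 491 (merge (leaf 4 491 588) (node 618 (merge (leaf 5 490 586) (leaf 5 522 650)))))))))) (node 491 (merge (node 490 (merge (leaf 7 458 458) (node 489 (merge (leaf 0 488 488) (leaf 0 489 492))))) (node 588 (merge (leaf 4 491 620) (node 459 (merge (leaf 4 459 556) (node 586 (merge (leaf 5 458 554) (leaf 5 490 618)))))))))))))) (merge (node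 491 (merge (node 490 (merge (leaf 3 490 526) (node 489 (merge (leaf 0 488 488) (leaf 0 489 492))))) (merge (node 490 (merge (leaf 3 490 526) (node 458 (merge (leaf 7 458 587) (node 426 (merge (leaf 4 394 394) (leaf 7 426 459))))))) (node 588 (merge (node 620 (merge (leaf 7 491 556) (leaf 4 491 587))) (merge (node 587 (merge (leaf 4 491 620) (node 619 (merge (leaf 6 491 492) (node 618 (merge (leaf 5 490 586) (leaf 5 522 650))))))) (node 459 (merge (leaf 4 459 556) (node 426 (merge (leaf 7 426 458) (node 427 (merge (leaf 7 394 394) (node 396 (merge (leaf 6 395 428) (node 395 (merge (leaf 6 363 364) (leaf 4 395 492))))))))))))))))) (node 491 (merge (node 490 (merge (leaf 3 490 526) (node 489 (merge (leaf 0 488 488) (leaf 0 489 492))))) (merge (node 554 (merge (leaf 1 522 526) (node 586 (merge (leaf 5 458 459) (node 618 (merge (leaf 5 490 587) (leaf 6 522 650))))))) (node 459 (merge (node 458 (merge (leaf 7 426 426) (node 490 (merge (leaf 7 458 587) (node 489 (merge (leaf 0 488 488) (leaf 0 489 492))))))) (merge (node 458 (merge (leaf 7 426 426) (node 587 (merge (leaf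 7 458 490) (node 586 (merge (leaf 5 458 554) (leaf 5 490 618))))))) (merge (node 586 (merge (leaf 5 458 554) (node 587 (merge (leaf 5 490 618) (node 619 (merge (leaf 6 491 492) (node 620 (merge (leaf 4 491 588) (leaf 4 523 652))))))))) (node 426 (merge (leaf 7 426 458) (node 427 (merge (leaf 7 394 394) (node 396 (merge (leaf 6 395 428) (node 395 (merge (leaf 6 363 364) (leaf 4 395 492)))))))))))))))))))) (node 491 (merge (node 522 (merge (node 554 (merge (leaf 1 521 553) (node 586 (merge (leaf 6 490 618) (node 490 (merge (leaf 6 458 459) (leaf 3 489 489))))))) (merge (node 557 (merge (leaf 0 522 558) (node 521 (merge (leaf 0 521 556) (node 489 (merge (leaf 3 488 488) (leaf 3 489 490))))))) (node 557 (merge (leaf 0 522 558) (node 521 (merge (leaf 0 521 556) (node 553 (merge (leaf 1 520 552) (leaf 1 521 554)))))))))) (merge (node 459 (merge (node 556 (merge (leaf 4 427 427) (node 588 (merge (leaf 4 459 555) (leaf 7 491 620))))) (merge (node 427 (merge (leaf 4 427 556) (node 396 (merge (leaf 6 395 428) (node 395 (merge (leaf 6 363 364) (leaf 4 395 492))))))) (merge (node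 427 (merge (node 396 (merge (leaf 6 395 428) (node 395 (merge (leaf 6 363 364) (leaf 4 395 492))))) (merge (node 394 (merge (leaf 7 394 426) (node 395 (merge (leaf 7 362 362) (leaf 4 395 492))))) (node 428 (merge (leaf 6 395 396) (node 555 (merge (leaf 6 427 460) (node 426 (merge (leaf 7 394 394) (leaf 7 426 458)))))))))) (node 555 (merge (node 556 (merge (leaf 4 459 588) (node 554 (merge (leaf 2 521 553) (leaf 5 458 586))))) (node 460 (merge (leaf 6 427 428) (node 587 (merge (leaf 6 459 492) (node 458 (merge (leaf 7 426 426) (leaf 7 458 490))))))))))))) (merge (node 459 (merge (node 556 (merge (leaf 4 427 427) (node 588 (merge (leaf 4 459 555) (leaf 7 491 620))))) (merge (node 427 (merge (leaf 4 427 556) (node 394 (merge (leaf 7 394 426) (node 395 (merge (leaf 7 362 362) (leaf 4 395 492))))))) (merge (node 427 (merge (node 396 (merge (leaf 6 395 428) (node 395 (merge (leaf 6 363 364) (leaf 4 395 492))))) (merge (node 394 (merge (leaf 7 394 426) (node 395 (merge (leaf 7 362 362) (leaf 4 395 492))))) (node 428 (merge (leaf 6 395 396) (node 555 (merge (leaf 6 427 460)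 (node 426 (merge (leaf 7 394 394) (leaf 7 426 458)))))))))) (node 557 (merge (node 558 (merge (leaf 0 522 522) (leaf 3 524 559))) (merge (node 555 (merge (node 460 (merge (leaf 6 427 428) (node 587 (merge (leaf 6 459 492) (node 588 (merge (leaf 4 459 556) (leaf 4 491 620))))))) (merge (node 458 (merge (leaf 7 426 426) (node 490 (merge (leaf 7 458 587) (node 489 (merge (leaf 0 488 488) (leaf 0 489 492))))))) (merge (node 458 (merge (leaf 7 426 426) (node 587 (merge (leaf 7 458 490) (node 588 (merge (leaf 4 459 556) (leaf 4 491 620))))))) (node 460 (merge (leaf 6 427 428) (node 556 (merge (leaf 4 459 588) (node 492 (merge (leaf 4 460 589) (node 461 (merge (leaf 6 428 429) (node 490 (merge (leaf 1 458 462) (leaf 0 489 489))))))))))))))) (node 555 (merge (node 460 (merge (leaf 6 427 428) (node 587 (merge (leaf 6 459 492) (node 588 (merge (leaf 4 459 556) (leaf 4 491 620))))))) (merge (node 458 (merge (leaf 7 426 426) (node 490 (merge (leaf 7 458 587) (node 489 (merge (leaf 0 488 488) (leaf 0 489 492))))))) (merge (node 458 (merge (leaf 7 426 426) (node 587 (merge (leaf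 7 458 490) (node 588 (merge (leaf 4 459 556) (leaf 4 491 620))))))) (node 460 (merge (leaf 6 427 428) (node 556 (merge (leaf 4 459 588) (node 492 (merge (leaf 4 460 589) (node 461 (merge (leaf 6 428 429) (node 490 (merge (leaf 1 458 462) (leaf 0 489 489)))))))))))))))))))))) (merge (node 522 (merge (node 554 (merge (leaf 1 521 553) (node 586 (merge (leaf 6 490 618) (node 459 (merge (leaf 5 426 427) (leaf 5 458 555))))))) (node 557 (merge (leaf 0 522 558) (node 521 (merge (leaf 0 521 556) (node 520 (merge (leaf 2 488 492) (node 488 (merge (leaf 3 487 487) (leaf 3 488 489))))))))))) (merge (node 522 (merge (node 554 (merge (leaf 1 521 553) (node 586 (merge (leaf 6 490 618) (node 459 (merge (leaf 5 426 427) (leaf 5 458 555))))))) (node 521 (merge (node 489 (merge (leaf 3 488 488) (leaf 3 489 490))) (merge (node 520 (merge (leaf 2 488 492) (node 551 (merge (leaf 1 519 552) (node 519 (merge (leaf 2 487 490) (leaf 1 518 550))))))) (node 520 (merge (leaf 2 488 492) (node 488 (merge (leaf 3 487 487) (leaf 3 488 489)))))))))) (node 490 (merge (node 489 (merge (leaf 0 488 488)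 (leaf 3 489 522))) (merge (node 489 (merge (leaf 0 488 488) (leaf 0 489 492))) (node 522 (merge (node 554 (merge (leaf 1 521 553) (node 586 (merge (leaf 6 490 618) (node 587 (merge (leaf 4 490 619) (node 458 (merge (leaf 7 458 555) (node 425 (merge (leaf 7 425 457) (node 426 (merge (leaf 7 393 393) (leaf 4 394 394))))))))))))) (node 557 (merge (leaf 0 522 558) (node 521 (merge (leaf 0 521 556) (node 520 (merge (leaf 2 488 492) (node 551 (merge (leaf 1 519 552) (node 519 (merge (leaf 2 487 490) (leaf 1 518 550)))))))))))))))))))))))))))))) nP_279 cP_279 11 (by decide +kernel)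

end Crest.Agent.H26Snaky
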