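import Crest.Agent.H26SnP019
import Crest.Agent.H26SnP020

/-! certificate data for S0047, part P 21 (computer generated) -/

set_option autoImplicit false
set_option maxRecDepth 100000

namespace Crest.Agent.H26Snaky

open T

def nP_280 : ℕ := 0x100000000300000000000000000000000000000000000000000000000000000000000000000000000000000000000000000000000000000000000000000000000000000000000
def cP_280 : ℕ := 0x500000007c0000007c0000007c000000fc0000004e000001ff000000ff000001ff0000007c00000034000000000000000000000000000000000000000000000000000000000000000000000000000000000000000000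
theorem lP_280 : S nP_280 cP_280 12 := S_of_chk [(nP_276, cP_276, 11)] ⟨lP_276, trivial⟩ (node 523 (merge (node 490 (merge (node 489 (merge (leaf 3 489 522) (node 491 (merge (leaf 0 488 488) (leaf 0 489 492))))) (merge (node 491 (merge (leaf 3 490 526) (node 489 (merge (leaf 0 488 488) (leaf 0 489 492))))) (merge (node 522 (merge (leaf 3 489 489) (node 558 (merge (leaf 0 522 557) (node 526 (merge (leaf 0 523 559) (node 494 (merge (leaf 2 490 493) (leaf 2 491 495))))))))) (node 526 (merge (leaf 3 490 491) (node 558 (merge (leaf 0 523 559) (node 522 (merge (leaf 0 522 557) (node 494 (merge (leaf 2 490 493) (leaf 2 491 495))))))))))))) (merge (node 522 (merge (node 558 (merge (leaf 0 522 557) (node 526 (merge (leaf 0 523 559) (node 494 (merge (leaf 2 490 493) (leaf 2 491 495))))))) (merge (node 557 (merge (leaf 0 522 558) (node 521 (merge (leaf 0 521 556) (node 489 (merge (leaf 3 488 488) (leaf 3 489 490))))))) (node 494 (merge (leaf 2 490 493) (node 526 (merge (leaf 2 491 495) (node 490 (merge (leaf 3 489 489) (leaf 3 490 491)))))))))) (merge (node 557 (merge (node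 558 (merge (leaf 0 522 522) (leaf 3 524 559))) (merge (node 493 (merge (node 494 (merge (leaf 2 490 522) (node 495 (merge (leaf 1 491 492) (leaf 1 492 496))))) (merge (node 494 (merge (leaf 2 490 522) (node 462 (merge (leaf 6 461 589) (node 430 (merge (leaf 5 397 398) (leaf 6 429 461))))))) (node 461 (merge (node 556 (merge (leaf 5 428 429) (leaf 5 460 588))) (merge (node 430 (merge (leaf 6 429 462) (node 429 (merge (leaf 6 397 398) (node 460 (merge (leaf 7 428 428) (node 492 (merge (leaf 5 396 397) (leaf 7 460 589))))))))) (node 460 (merge (leaf 7 428 428) (node 589 (merge (leaf 7 460 492) (node 588 (merge (leaf 5 460 556) (leaf 5 492 620))))))))))))) (node 589 (merge (node 492 (merge (leaf 7 492 621) (node 460 (merge (leaf 4 428 428) (leaf 4 460 556))))) (merge (node 493 (merge (node 494 (merge (leaf 6 461 462) (node 492 (merge (leaf 7 460 460) (leaf 1 491 495))))) (node 558 (merge (leaf 3 524 559) (node 590 (merge (leaf 4 461 461) (node 622 (merge (leaf 4 493 589) (leaf 7 525 654))))))))) (node 493 (merge (node 558 (merge (leaf 3 524 559) (node 590 (merge (leaf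 4 461 461) (node 622 (merge (leaf 4 493 589) (leaf 7 525 654))))))) (merge (node 558 (merge (leaf 3 524 559) (node 461 (merge (leaf 4 461 590) (node 556 (merge (leaf 5 428 429) (leaf 5 460 588))))))) (node 620 (merge (leaf 5 492 588) (node 621 (merge (leaf 5 524 652) (node 653 (merge (leaf 7 524 556) (node 654 (merge (leaf 4 525 622) (leaf 4 557 686)))))))))))))))))) (merge (node 491 (merge (node 490 (merge (leaf 3 490 526) (node 489 (merge (leaf 0 488 488) (leaf 0 489 492))))) (merge (node 459 (merge (node 556 (merge (leaf 4 427 427) (node 588 (merge (leaf 4 459 555) (leaf 7 491 620))))) (merge (node 427 (merge (leaf 4 427 556) (node 394 (merge (leaf 7 394 426) (node 395 (merge (leaf 7 362 362) (leaf 4 395 492))))))) (merge (node 427 (merge (node 396 (merge (leaf 6 395 428) (node 395 (merge (leaf 6 363 364) (leaf 4 395 492))))) (merge (node 394 (merge (leaf 7 394 426) (node 395 (merge (leaf 7 362 362) (leaf 4 395 492))))) (node 428 (merge (leaf 6 395 396) (node 555 (merge (leaf 6 427 460) (node 426 (merge (leaf 7 394 394) (leaf 7 426 458)))))))))) (node 555 (merge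 (node 554 (merge (leaf 1 522 526) (leaf 5 458 586))) (node 588 (merge (leaf 4 459 556) (node 587 (merge (leaf 4 491 620) (node 492 (merge (leaf 6 459 460) (leaf 6 491 619))))))))))))) (merge (node 555 (merge (node 526 (merge (leaf 3 490 490) (leaf 1 522 554))) (node 587 (merge (node 620 (merge (leaf 4 491 588) (node 619 (merge (leaf 4 523 652) (node 618 (merge (leaf 5 490 586) (leaf 5 522 650))))))) (merge (node 588 (merge (leaf 4 491 620) (node 459 (merge (leaf 4 459 556) (node 428 (merge (leaf 6 427 460) (node 427 (merge (leaf 6 395 396) (node 426 (merge (leaf 7 394 394) (leaf 7 426 458))))))))))) (merge (node 618 (merge (leaf 5 490 586) (node 619 (merge (leaf 5 522 650) (node 556 (merge (leaf 6 523 651) (node 459 (merge (leaf 4 427 427) (leaf 4 459 588))))))))) (node 618 (merge (leaf 5 490 586) (node 619 (merge (leaf 5 522 650) (node 651 (merge (leaf 6 523 556) (node 652 (merge (leaf 4 523 620) (leaf 4 555 684))))))))))))))) (node 459 (merge (node 556 (merge (leaf 4 427 427) (node 588 (merge (leaf 4 459 555) (leaf 7 491 620))))) (merge (node 427 (merge (leaf 4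 427 556) (node 394 (merge (leaf 7 394 426) (node 395 (merge (leaf 7 362 362) (leaf 4 395 492))))))) (merge (node 427 (merge (node 394 (merge (leaf 7 394 426) (node 395 (merge (leaf 7 362 362) (leaf 4 395 492))))) (merge (node 428 (merge (leaf 6 395 396) (node 460 (merge (leaf 6 427 555) (node 492 (merge (leaf 7 395 395) (leaf 4 428 557))))))) (node 428 (merge (leaf 6 395 396) (node 555 (merge (leaf 6 427 460) (node 426 (merge (leaf 7 394 394) (leaf 7 426 458)))))))))) (node 460 (merge (node 428 (merge (leaf 6 427 555) (node 396 (merge (leaf 5 363 364) (leaf 5 395 492))))) (merge (node 555 (merge (leaf 6 427 428) (node 588 (merge (leaf 4 459 556) (node 587 (merge (leaf 4 491 620) (node 586 (merge (leaf 5 458 554) (leaf 5 490 618))))))))) (merge (node 492 (merge (node 557 (merge (leaf 4 428 428) (node 589 (merge (leaf 7 460 493) (leaf 7 492 621))))) (node 556 (merge (leaf 7 459 588) (node 461 (merge (leaf 6 428 429) (node 462 (merge (leaf 1 459 463) (leaf 1 458 490))))))))) (node 492 (merge (node 555 (merge (leaf 6 459 587) (node 458 (merge (leaf 7 426 426) (node 457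 (merge (leaf 0 456 456) (leaf 0 457 493))))))) (node 556 (merge (leaf 7 459 588) (node 461 (merge (leaf 6 428 429) (node 462 (merge (leaf 1 459 463) (leaf 1 458 490))))))))))))))))))))) (merge (node 491 (merge (node 490 (merge (leaf 3 490 526) (node 489 (merge (leaf 0 488 488) (leaf 3 489 522))))) (merge (node 490 (merge (leaf 3 490 526) (node 489 (merge (leaf 0 488 488) (leaf 0 489 492))))) (merge (node 555 (merge (node 554 (merge (leaf 1 522 526) (node 586 (merge (leaf 5 458 459) (node 618 (merge (leaf 5 490 587) (leaf 6 522 650))))))) (merge (node 554 (merge (leaf 1 522 526) (node 459 (merge (leaf 5 458 586) (node 556 (merge (leaf 4 427 427) (leaf 4 459 588))))))) (merge (node 587 (merge (node 492 (merge (leaf 6 459 460) (leaf 6 491 619))) (merge (node 620 (merge (leaf 4 491 588) (node 619 (merge (leaf 4 523 652) (node 618 (merge (leaf 5 490 586) (leaf 5 522 650))))))) (node 460 (merge (leaf 6 459 492) (node 459 (merge (leaf 6 427 428) (node 588 (merge (leaf 4 459 556) (leaf 4 491 620)))))))))) (node 492 (merge (node 587 (merge (leaf 6 491 619) (node 460 (merge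 (leaf 5 427 428) (leaf 5 459 556))))) (node 526 (merge (leaf 1 522 554) (node 558 (merge (leaf 0 523 559) (node 557 (merge (leaf 0 522 522) (node 589 (merge (leaf 7 492 621) (node 494 (merge (leaf 5 461 462) (leaf 2 491 495))))))))))))))))) (node 459 (merge (node 427 (merge (leaf 4 427 556) (node 522 (merge (leaf 5 426 554) (node 490 (merge (leaf 5 394 395) (leaf 3 489 489))))))) (merge (node 427 (merge (node 396 (merge (leaf 6 395 428) (node 395 (merge (leaf 6 363 364) (leaf 4 395 492))))) (merge (node 394 (merge (leaf 7 394 426) (node 395 (merge (leaf 7 362 362) (leaf 4 395 492))))) (node 428 (merge (leaf 6 395 396) (node 555 (merge (leaf 6 427 460) (node 426 (merge (leaf 7 394 394) (leaf 7 426 458)))))))))) (node 460 (merge (node 428 (merge (leaf 6 427 555) (node 396 (merge (leaf 5 363 364) (leaf 5 395 492))))) (merge (node 557 (merge (node 558 (merge (leaf 0 522 522) (leaf 3 524 559))) (node 492 (merge (leaf 4 428 428) (node 556 (merge (leaf 7 459 588) (leaf 4 460 589))))))) (merge (node 555 (merge (leaf 6 427 428) (node 588 (merge (leaf 4 459 556) (node 587 (merge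 (leaf 4 491 620) (node 586 (merge (leaf 5 458 554) (leaf 5 490 618))))))))) (node 492 (merge (node 556 (merge (leaf 7 459 588) (node 557 (merge (leaf 4 460 589) (node 522 (merge (leaf 0 521 521) (leaf 0 522 558))))))) (merge (node 556 (merge (leaf 7 459 588) (node 461 (merge (leaf 6 428 429) (node 462 (merge (leaf 1 459 463) (leaf 1 458 490))))))) (node 490 (merge (leaf 0 489 489) (node 555 (merge (leaf 6 459 587) (node 458 (merge (leaf 7 426 426) (node 457 (merge (leaf 0 456 456) (node 425 (merge (leaf 3 424 424) (node 554 (merge (leaf 7 425 522) (leaf 5 458 586))))))))))))))))))))))))))) (hyp 0))))))) nP_280 cP_280 12 (by decide +kernel)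
def nP_281 : ℕ := 0x100000000300000000000000000000000000000000000000000000000000000000000000000000000000000000000000000000000000000000000000000000000000000000000
def cP_281 : ℕ := 0x140000001c0000007c0000007c000000ffc000004f800000df800000ff0000003f0000001e00000014000000000000000000000000000000000000000000000000000000000000000000000000000000000000000000
theorem lP_281 : S nP_281 cP_281 12 := S_of_chk [(nP_256, cP_256, 9)] ⟨lP_256, trivial⟩ (node 523 (merge (node 490 (merge (node 489 (merge (leaf 3 489 522) (node 491 (merge (leaf 0 488 488) (leaf 0 489 492))))) (merge (node 491 (merge (leaf 3 490 526) (node 489 (merge (leaf 0 488 488) (leaf 0 489 492))))) (merge (node 522 (merge (leaf 3 489 489) (node 558 (merge (leaf 0 522 557) (node 526 (merge (leaf 0 523 559) (node 554 (merge (leaf 1 521 553) (leaf 1 522 555))))))))) (node 526 (merge (leaf 3 490 491) (node 558 (merge (leaf 0 523 559) (node 522 (merge (leaf 0 522 557) (node 554 (merge (leaf 1 521 553) (leaf 1 522 555))))))))))))) (merge (node 522 (merge (node 557 (merge (leaf 0 522 558) (node 521 (merge (leaf 0 521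 556) (node 489 (merge (leaf 3 488 488) (leaf 3 489 490))))))) (merge (node 554 (merge (leaf 1 521 553) (node 526 (merge (leaf 1 522 555) (node 558 (merge (leaf 0 522 557) (leaf 0 523 559))))))) (node 553 (merge (leaf 1 521 554) (node 521 (merge (leaf 1 520 552) (node 489 (merge (leaf 3 488 488) (leaf 3 489 490)))))))))) (merge (node 522 (merge (node 558 (merge (leaf 0 522 557) (node 526 (merge (leaf 0 523 559) (node 490 (merge (leaf 3 489 489) (leaf 3 490 491))))))) (merge (node 521 (merge (node 489 (merge (leaf 3 488 488) (leaf 3 489 490))) (merge (node 552 (merge (leaf 1 520 553) (node 520 (merge (leaf 1 519 551) (node 491 (merge (leaf 2 488 492) (node 490 (merge (leaf 2 487 519) (leaf 3 490 526))))))))) (node 552 (merge (leaf 1 520 553) (node 520 (merge (leaf 1 519 551) (node 488 (merge (leaf 3 487 487) (leaf 3 488 489)))))))))) (merge (node 557 (merge (leaf 0 522 558) (node 521 (merge (leaf 0 521 556) (node 552 (merge (leaf 1 520 553) (node 520 (merge (leaf 1 519 551) (node 491 (merge (leaf 2 488 492) (node 490 (merge (leaf 2 487 519) (leaf 3 490 526)))))))))))))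 (node 557 (merge (leaf 0 522 558) (node 521 (merge (leaf 0 521 556) (node 552 (merge (leaf 1 520 553) (node 520 (merge (leaf 1 519 551) (node 488 (merge (leaf 3 487 487) (leaf 3 488 489))))))))))))))) (merge (hyp 0) (merge (node 555 (merge (node 554 (merge (leaf 1 522 526) (node 553 (merge (leaf 2 520 552) (leaf 2 521 556))))) (merge (node 554 (merge (leaf 1 522 526) (node 553 (merge (leaf 1 521 522) (leaf 2 520 552))))) (merge (node 587 (merge (node 492 (merge (leaf 6 491 619) (node 460 (merge (leaf 5 427 428) (leaf 6 459 491))))) (merge (node 619 (merge (leaf 6 491 492) (node 651 (merge (leaf 6 523 556) (node 650 (merge (leaf 5 522 618) (leaf 5 554 682))))))) (merge (node 558 (merge (node 559 (merge (leaf 0 523 526) (leaf 3 524 557))) (merge (node 557 (merge (leaf 0 522 522) (node 586 (merge (leaf 1 554 556) (node 588 (merge (leaf 2 554 589) (node 491 (merge (leaf 5 490 618) (leaf 4 491 620))))))))) (node 526 (merge (leaf 0 523 559) (node 491 (merge (leaf 3 490 490) (node 460 (merge (leaf 6 459 492) (node 459 (merge (leaf 6 427 428) (node 588 (merge (leaf 4 459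 556) (leaf 4 491 620)))))))))))))) (node 558 (merge (node 557 (merge (leaf 0 522 522) (leaf 3 524 559))) (merge (node 522 (merge (leaf 0 522 557) (node 490 (merge (leaf 7 490 619) (node 491 (merge (leaf 7 458 458) (leaf 3 490 526))))))) (node 526 (merge (leaf 0 523 559) (node 491 (merge (leaf 3 490 490) (node 588 (merge (leaf 4 491 620) (node 556 (merge (leaf 4 459 459) (node 619 (merge (leaf 6 523 651) (node 618 (merge (leaf 5 490 586) (leaf 5 522 650)))))))))))))))))))) (node 587 (merge (node 492 (merge (leaf 6 491 619) (node 460 (merge (leaf 5 427 428) (leaf 6 459 491))))) (merge (node 492 (merge (leaf 6 491 619) (node 460 (merge (leaf 5 427 428) (leaf 5 459 556))))) (merge (node 619 (merge (node 651 (merge (leaf 6 523 556) (node 650 (merge (leaf 5 522 618) (leaf 5 554 682))))) (merge (node 651 (merge (leaf 6 523 556) (node 652 (merge (leaf 4 523 620) (leaf 4 555 684))))) (node 620 (merge (leaf 4 523 652) (node 491 (merge (leaf 4 491 588) (node 618 (merge (leaf 5 490 586) (leaf 5 522 650)))))))))) (node 588 (merge (node 620 (merge (leaf 4 491 491) (node 652 (merge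 (leaf 7 523 556) (leaf 7 555 684))))) (merge (node 491 (merge (leaf 4 491 620) (node 460 (merge (leaf 6 459 492) (node 459 (merge (leaf 6 427 428) (node 586 (merge (leaf 5 458 554) (leaf 5 490 618))))))))) (node 589 (merge (node 554 (merge (leaf 3 554 590) (node 553 (merge (leaf 0 552 552) (leaf 3 553 586))))) (node 492 (merge (node 460 (merge (leaf 5 427 428) (leaf 5 459 556))) (node 557 (merge (leaf 7 492 621) (node 558 (merge (leaf 0 522 522) (leaf 1 556 559)))))))))))))))))))) (merge (node 522 (merge (node 554 (merge (leaf 1 521 553) (node 526 (merge (leaf 1 522 555) (node 558 (merge (leaf 0 522 557) (leaf 0 523 559))))))) (merge (node 521 (merge (node 553 (merge (leaf 1 520 552) (leaf 1 521 554))) (merge (node 488 (merge (leaf 3 488 489) (node 520 (merge (leaf 3 487 487) (node 555 (merge (leaf 0 520 556) (node 554 (merge (leaf 0 519 519) (leaf 1 522 526))))))))) (node 552 (merge (leaf 1 520 553) (node 520 (merge (leaf 1 519 551) (node 488 (merge (leaf 3 487 487) (leaf 3 488 489)))))))))) (merge (node 557 (merge (leaf 0 522 558) (node 521 (merge (leaf 0 521 556)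 (node 552 (merge (leaf 1 520 553) (node 520 (merge (leaf 1 519 551) (node 488 (merge (leaf 3 487 487) (leaf 3 488 489))))))))))) (node 555 (merge (node 526 (merge (leaf 1 522 554) (node 558 (merge (leaf 0 522 557) (leaf 0 523 559))))) (merge (node 492 (merge (node 587 (merge (leaf 6 491 619) (node 460 (merge (leaf 5 427 428) (leaf 6 459 491))))) (merge (node 587 (merge (leaf 6 491 619) (node 460 (merge (leaf 5 427 428) (leaf 5 459 556))))) (node 557 (merge (leaf 0 522 558) (node 521 (merge (leaf 0 521 556) (node 520 (merge (leaf 2 488 491) (node 488 (merge (leaf 3 487 487) (leaf 3 488 489)))))))))))) (node 587 (merge (node 492 (merge (leaf 6 491 619) (node 460 (merge (leaf 5 427 428) (leaf 6 459 491))))) (merge (node 619 (merge (leaf 6 491 492) (node 651 (merge (leaf 6 523 556) (node 650 (merge (leaf 5 522 618) (leaf 5 554 682))))))) (merge (node 618 (merge (node 586 (merge (leaf 5 490 491) (node 650 (merge (leaf 5 522 619) (leaf 6 554 682))))) (merge (node 619 (merge (leaf 5 522 650) (node 651 (merge (leaf 6 523 556) (node 652 (merge (leaf 4 523 620) (leaf 4 555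 684))))))) (node 491 (merge (leaf 5 490 586) (node 588 (merge (leaf 4 491 620) (node 459 (merge (leaf 4 459 556) (node 428 (merge (leaf 6 427 460) (node 427 (merge (leaf 6 395 396) (node 426 (merge (leaf 7 394 394) (leaf 7 426 458)))))))))))))))) (node 491 (merge (node 460 (merge (leaf 6 459 492) (node 459 (merge (leaf 6 427 428) (node 586 (merge (leaf 5 458 554) (leaf 5 490 618))))))) (merge (node 460 (merge (leaf 6 459 492) (node 459 (merge (leaf 6 427 428) (node 588 (merge (leaf 4 459 556) (leaf 4 491 620))))))) (merge (node 588 (merge (leaf 4 491 620) (node 459 (merge (leaf 4 459 556) (node 586 (merge (leaf 5 458 554) (leaf 5 490 618))))))) (node 492 (merge (leaf 6 459 460) (node 554 (merge (leaf 1 522 526) (node 586 (merge (leaf 6 490 618) (node 588 (merge (leaf 4 491 620) (node 589 (merge (leaf 3 554 590) (node 621 (merge (leaf 4 492 556) (leaf 0 586 622)))))))))))))))))))))))))))) (merge (node 491 (merge (node 522 (merge (node 554 (merge (leaf 1 521 553) (node 586 (merge (leaf 6 490 618) (node 490 (merge (leaf 6 458 459) (leaf 3 489 489))))))) (merge (node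 557 (merge (leaf 0 522 558) (node 521 (merge (leaf 0 521 556) (node 489 (merge (leaf 3 488 488) (leaf 3 489 490))))))) (node 557 (merge (leaf 0 522 558) (node 521 (merge (leaf 0 521 556) (node 553 (merge (leaf 1 520 552) (leaf 1 521 554)))))))))) (merge (node 459 (merge (node 556 (merge (leaf 4 427 427) (node 588 (merge (leaf 4 459 555) (leaf 7 491 620))))) (merge (node 427 (merge (leaf 4 427 556) (node 396 (merge (leaf 6 395 428) (node 395 (merge (leaf 6 363 364) (leaf 4 395 492))))))) (merge (node 427 (merge (node 396 (merge (leaf 6 395 428) (node 395 (merge (leaf 6 363 364) (leaf 4 395 492))))) (merge (node 394 (merge (leaf 7 394 426) (node 395 (merge (leaf 7 362 362) (leaf 4 395 492))))) (node 428 (merge (leaf 6 395 396) (node 555 (merge (leaf 6 427 460) (node 426 (merge (leaf 7 394 394) (leaf 7 426 458)))))))))) (node 555 (merge (node 556 (merge (leaf 4 459 588) (node 554 (merge (leaf 2 521 553) (leaf 5 458 586))))) (node 460 (merge (leaf 6 427 428) (node 587 (merge (leaf 6 459 492) (node 458 (merge (leaf 7 426 426) (leaf 7 458 490))))))))))))) (merge (node 459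 (merge (node 556 (merge (leaf 4 427 427) (node 588 (merge (leaf 4 459 555) (leaf 7 491 620))))) (merge (node 427 (merge (leaf 4 427 556) (node 394 (merge (leaf 7 394 426) (node 395 (merge (leaf 7 362 362) (leaf 4 395 492))))))) (merge (node 427 (merge (node 396 (merge (leaf 6 395 428) (node 395 (merge (leaf 6 363 364) (leaf 4 395 492))))) (merge (node 394 (merge (leaf 7 394 426) (node 395 (merge (leaf 7 362 362) (leaf 4 395 492))))) (node 428 (merge (leaf 6 395 396) (node 555 (merge (leaf 6 427 460) (node 426 (merge (leaf 7 394 394) (leaf 7 426 458)))))))))) (node 557 (merge (node 558 (merge (leaf 0 522 522) (leaf 3 524 559))) (merge (node 555 (merge (node 458 (merge (leaf 7 426 426) (node 587 (merge (leaf 7 458 490) (node 588 (merge (leaf 4 459 556) (leaf 4 491 620))))))) (merge (node 588 (merge (leaf 4 459 556) (node 587 (merge (leaf 4 491 620) (node 492 (merge (leaf 6 459 460) (leaf 6 491 619))))))) (merge (node 460 (merge (leaf 6 427 428) (node 587 (merge (leaf 6 459 492) (node 458 (merge (leaf 7 426 426) (leaf 7 458 490))))))) (node 460 (merge (leaf 6 427 428)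 (node 556 (merge (leaf 4 459 588) (node 492 (merge (leaf 4 460 589) (node 461 (merge (leaf 6 428 429) (node 490 (merge (leaf 1 458 462) (leaf 0 489 489))))))))))))))) (node 555 (merge (node 458 (merge (leaf 7 426 426) (node 587 (merge (leaf 7 458 490) (node 588 (merge (leaf 4 459 556) (leaf 4 491 620))))))) (merge (node 588 (merge (leaf 4 459 556) (node 587 (merge (leaf 4 491 620) (node 492 (merge (leaf 6 459 460) (leaf 6 491 619))))))) (merge (node 460 (merge (leaf 6 427 428) (node 587 (merge (leaf 6 459 492) (node 458 (merge (leaf 7 426 426) (leaf 7 458 490))))))) (node 460 (merge (leaf 6 427 428) (node 556 (merge (leaf 4 459 588) (node 492 (merge (leaf 4 460 589) (node 461 (merge (leaf 6 428 429) (node 490 (merge (leaf 1 458 462) (leaf 0 489 489)))))))))))))))))))))) (merge (node 522 (merge (node 554 (merge (leaf 1 521 553) (node 586 (merge (leaf 6 490 618) (node 459 (merge (leaf 5 426 427) (leaf 5 458 555))))))) (node 557 (merge (leaf 0 522 558) (node 521 (merge (leaf 0 521 556) (node 520 (merge (leaf 2 488 492) (node 488 (merge (leaf 3 487 487) (leaf 3 488 489)))))))))))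 (merge (node 522 (merge (node 554 (merge (leaf 1 521 553) (node 586 (merge (leaf 6 490 618) (node 459 (merge (leaf 5 426 427) (leaf 5 458 555))))))) (node 521 (merge (node 489 (merge (leaf 3 488 488) (leaf 3 489 490))) (merge (node 520 (merge (leaf 2 488 492) (node 551 (merge (leaf 1 519 552) (node 519 (merge (leaf 2 487 490) (leaf 1 518 550))))))) (node 520 (merge (leaf 2 488 492) (node 488 (merge (leaf 3 487 487) (leaf 3 488 489)))))))))) (node 490 (merge (node 489 (merge (leaf 0 488 488) (leaf 3 489 522))) (merge (node 489 (merge (leaf 0 488 488) (leaf 0 489 492))) (node 522 (merge (node 554 (merge (leaf 1 521 553) (node 586 (merge (leaf 6 490 618) (node 587 (merge (leaf 4 490 619) (node 458 (merge (leaf 7 458 555) (node 425 (merge (leaf 7 425 457) (node 426 (merge (leaf 7 393 393) (leaf 4 394 394))))))))))))) (node 557 (merge (leaf 0 522 558) (node 521 (merge (leaf 0 521 556) (node 520 (merge (leaf 2 488 492) (node 551 (merge (leaf 1 519 552) (node 519 (merge (leaf 2 487 490) (leaf 1 518 550)))))))))))))))))))))) (node 491 (merge (node 490 (merge (leaf 3 490 526)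 (node 489 (merge (leaf 0 488 488) (leaf 3 489 522))))) (merge (node 490 (merge (leaf 3 490 526) (node 489 (merge (leaf 0 488 488) (leaf 0 489 492))))) (merge (node 555 (merge (node 554 (merge (leaf 1 522 526) (node 586 (merge (leaf 5 458 459) (node 618 (merge (leaf 5 490 587) (leaf 6 522 650))))))) (merge (node 554 (merge (leaf 1 522 526) (node 459 (merge (leaf 5 458 586) (node 556 (merge (leaf 4 427 427) (leaf 4 459 588))))))) (merge (node 587 (merge (node 492 (merge (leaf 6 459 460) (leaf 6 491 619))) (merge (node 620 (merge (leaf 4 491 588) (node 619 (merge (leaf 4 523 652) (node 618 (merge (leaf 5 490 586) (leaf 5 522 650))))))) (node 460 (merge (leaf 6 459 492) (node 459 (merge (leaf 6 427 428) (node 588 (merge (leaf 4 459 556) (leaf 4 491 620)))))))))) (node 492 (merge (node 587 (merge (leaf 6 491 619) (node 460 (merge (leaf 5 427 428) (leaf 5 459 556))))) (node 526 (merge (leaf 1 522 554) (node 558 (merge (leaf 0 523 559) (node 557 (merge (leaf 0 522 522) (node 589 (merge (leaf 7 492 621) (node 494 (merge (leaf 5 461 462) (leaf 2 491 495))))))))))))))))) (node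 459 (merge (node 427 (merge (leaf 4 427 556) (node 522 (merge (leaf 5 426 554) (node 490 (merge (leaf 5 394 395) (leaf 3 489 489))))))) (merge (node 427 (merge (node 396 (merge (leaf 6 395 428) (node 395 (merge (leaf 6 363 364) (leaf 4 395 492))))) (merge (node 394 (merge (leaf 7 394 426) (node 395 (merge (leaf 7 362 362) (leaf 4 395 492))))) (node 428 (merge (leaf 6 395 396) (node 555 (merge (leaf 6 427 460) (node 426 (merge (leaf 7 394 394) (leaf 7 426 458)))))))))) (node 460 (merge (node 428 (merge (leaf 6 427 555) (node 396 (merge (leaf 5 363 364) (leaf 5 395 492))))) (merge (node 557 (merge (node 558 (merge (leaf 0 522 522) (leaf 3 524 559))) (node 492 (merge (leaf 4 428 428) (node 556 (merge (leaf 7 459 588) (leaf 4 460 589))))))) (merge (node 555 (merge (leaf 6 427 428) (node 588 (merge (leaf 4 459 556) (node 587 (merge (leaf 4 491 620) (node 586 (merge (leaf 5 458 554) (leaf 5 490 618))))))))) (node 492 (merge (node 556 (merge (leaf 7 459 588) (node 557 (merge (leaf 4 460 589) (node 522 (merge (leaf 0 521 521) (leaf 0 522 558))))))) (merge (node 556 (merge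 (leaf 7 459 588) (node 461 (merge (leaf 6 428 429) (node 462 (merge (leaf 1 459 463) (leaf 1 458 490))))))) (node 490 (merge (leaf 0 489 489) (node 555 (merge (leaf 6 459 587) (node 458 (merge (leaf 7 426 426) (node 457 (merge (leaf 0 456 456) (node 425 (merge (leaf 3 424 424) (node 554 (merge (leaf 7 425 522) (leaf 5 458 586))))))))))))))))))))))))))))))))))) nP_281 cP_281 12 (by decide +kernel)
def nP_282 : ℕ := 0x40000000300000000000000080000000000000000000000000000000000000000000000000000000000000000000000000000000000000000000000000000000000000000000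
def cP_282 : ℕ := 0x140000007c0000007c000000fe0000003f0000004e000001f000000070000000f00000005000000000000000000000000000000000000000000000000000000000000000000000000000000000000000000000000000
theorem lP_282 : S nP_282 cP_282 11 := S_of_chk [] trivial (node 557 (merge (node 493 (merge (node 590 (merge (leaf 4 461 461) (node 622 (merge (leaf 4 493 589) (leaf 7 525 654))))) (merge (node 461 (merge (leaf 4 461 590) (node 428 (merge (leaf 7 428 460) (node 429 (merge (leaf 7 396 396) (leaf 4 429 526))))))) (node 494 (merge (node 589 (merge (leaf 6 461 462) (node 492 (merge (leaf 7 460 460) (leaf 7 492 621))))) (node 523 (merge (leaf 0 522 522) (node 495 (merge (leaf 1 492 496) (leaf 2 491 526)))))))))) (merge (node 493 (merge (node 461 (merge (leaf 4 461 590) (node 429 (merge (leaf 4 429 526) (leaf 5 428 556))))) (merge (node 590 (merge (leaf 4 461 461) (node 622 (merge (leaf 4 493 589) (leaf 7 525 654))))) (merge (node 461 (merge (node 428 (merge (leaf 7 428 460) (node 429 (merge (leaf 7 396 396) (leaf 4 429 526))))) (node 462 (merge (leaf 6 429 430) (node 589 (merge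 (leaf 6 461 494) (node 588 (merge (leaf 5 460 556) (leaf 5 492 620))))))))) (node 494 (merge (node 462 (merge (leaf 6 461 589) (node 526 (merge (leaf 5 429 430) (leaf 6 430 431))))) (merge (node 495 (merge (leaf 1 492 496) (node 590 (merge (leaf 6 462 526) (node 622 (merge (leaf 4 493 589) (leaf 7 525 654))))))) (merge (node 495 (merge (leaf 1 492 496) (node 526 (merge (leaf 6 462 590) (node 462 (merge (leaf 5 429 430) (leaf 6 430 431))))))) (node 589 (merge (leaf 6 461 462) (node 622 (merge (leaf 4 493 590) (node 621 (merge (leaf 4 525 654) (node 620 (merge (leaf 5 492 588) (leaf 5 524 652))))))))))))))))) (merge (node 493 (merge (node 461 (merge (leaf 4 461 590) (node 556 (merge (leaf 5 428 429) (leaf 5 460 588))))) (merge (node 590 (merge (leaf 4 461 461) (node 622 (merge (leaf 4 493 589) (leaf 7 525 654))))) (merge (node 589 (merge (node 492 (merge (leaf 7 492 621) (node 460 (merge (leaf 4 428 428) (leaf 7 460 493))))) (node 462 (merge (leaf 6 461 494) (node 461 (merge (leaf 6 429 430) (node 588 (merge (leaf 5 460 556) (leaf 5 492 620))))))))) (node 589 (merge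 (node 492 (merge (leaf 7 492 621) (node 460 (merge (leaf 4 428 428) (leaf 7 460 493))))) (merge (node 494 (merge (leaf 6 461 462) (node 492 (merge (leaf 7 460 460) (node 495 (merge (leaf 1 492 496) (leaf 1 491 523))))))) (node 622 (merge (leaf 4 493 590) (node 621 (merge (leaf 4 525 654) (node 620 (merge (leaf 5 492 588) (leaf 5 524 652)))))))))))))) (merge (node 493 (merge (node 590 (merge (leaf 4 461 461) (node 622 (merge (leaf 4 493 589) (leaf 7 525 654))))) (merge (node 590 (merge (leaf 4 461 461) (node 622 (merge (leaf 7 493 526) (leaf 7 525 654))))) (merge (node 494 (merge (node 523 (merge (leaf 2 490 522) (node 495 (merge (leaf 1 492 496) (leaf 2 491 526))))) (node 462 (merge (leaf 6 461 589) (node 430 (merge (leaf 5 397 398) (leaf 6 429 461))))))) (node 589 (merge (node 494 (merge (leaf 6 461 462) (node 495 (merge (leaf 1 492 496) (node 523 (merge (leaf 2 490 522) (leaf 2 491 526))))))) (node 622 (merge (leaf 4 493 590) (node 621 (merge (leaf 4 525 654) (node 620 (merge (leaf 5 492 588) (leaf 5 524 652))))))))))))) (merge (node 556 (merge (node 555 (merge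 (node 586 (merge (leaf 1 554 587) (node 554 (merge (leaf 2 522 526) (leaf 1 553 585))))) (merge (node 522 (merge (leaf 3 522 523) (node 554 (merge (leaf 3 521 521) (leaf 2 522 526))))) (node 523 (merge (leaf 0 522 522) (node 587 (merge (leaf 1 554 586) (node 619 (merge (leaf 6 491 492) (leaf 6 523 651)))))))))) (merge (node 555 (merge (node 522 (merge (leaf 3 522 523) (node 554 (merge (leaf 3 521 521) (leaf 2 522 526))))) (node 590 (merge (leaf 0 555 591) (node 622 (merge (leaf 7 525 654) (node 493 (merge (leaf 4 461 461) (leaf 4 493 589))))))))) (node 588 (merge (node 620 (merge (leaf 6 492 493) (leaf 6 524 652))) (merge (node 620 (merge (leaf 6 524 652) (node 619 (merge (leaf 5 523 651) (node 492 (merge (leaf 5 491 587) (node 460 (merge (leaf 4 428 428) (leaf 4 460 589))))))))) (node 589 (merge (node 587 (merge (leaf 2 554 586) (node 492 (merge (leaf 4 460 460) (leaf 5 491 619))))) (node 621 (merge (leaf 7 524 653) (node 622 (merge (leaf 4 525 654) (node 493 (merge (leaf 5 460 461) (leaf 4 493 590))))))))))))))) (merge (node 493 (merge (node 494 (merge (node 589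 (merge (leaf 6 461 462) (node 492 (merge (leaf 7 460 460) (leaf 7 492 621))))) (node 523 (merge (leaf 0 522 522) (node 495 (merge (leaf 1 492 496) (leaf 2 491 526))))))) (merge (node 461 (merge (node 556 (merge (leaf 5 460 588) (node 429 (merge (leaf 5 428 524) (leaf 4 429 526))))) (merge (node 428 (merge (leaf 7 428 460) (node 429 (merge (leaf 7 396 396) (leaf 4 429 526))))) (node 460 (merge (leaf 7 428 428) (node 589 (merge (leaf 7 460 492) (node 588 (merge (leaf 5 460 556) (leaf 5 492 620)))))))))) (merge (node 494 (merge (node 462 (merge (leaf 6 461 589) (node 430 (merge (leaf 5 397 398) (leaf 6 429 461))))) (node 523 (merge (leaf 0 522 522) (node 495 (merge (leaf 1 491 492) (leaf 1 492 496))))))) (merge (node 494 (merge (node 523 (merge (leaf 2 490 522) (node 495 (merge (leaf 1 492 496) (leaf 2 491 526))))) (node 462 (merge (leaf 6 461 589) (node 430 (merge (leaf 5 397 398) (leaf 6 429 461))))))) (node 556 (merge (node 588 (merge (leaf 5 460 461) (leaf 6 492 620))) (node 555 (merge (node 586 (merge (leaf 1 554 587) (node 554 (merge (leaf 2 522 526) (leaf 1 553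 585))))) (merge (node 522 (merge (leaf 3 522 523) (node 554 (merge (leaf 3 521 521) (leaf 2 522 526))))) (node 523 (merge (leaf 0 522 522) (node 587 (merge (leaf 1 554 586) (node 619 (merge (leaf 6 491 492) (leaf 6 523 651))))))))))))))))) (merge (node 555 (merge (node 523 (merge (leaf 0 522 522) (node 526 (merge (leaf 1 522 554) (node 494 (merge (leaf 2 491 495) (node 462 (merge (leaf 5 429 430) (leaf 6 430 431))))))))) (merge (node 556 (merge (node 522 (merge (leaf 0 522 523) (node 554 (merge (leaf 3 521 521) (leaf 2 521 553))))) (merge (node 586 (merge (leaf 1 554 587) (node 554 (merge (leaf 2 521 553) (leaf 1 553 585))))) (node 523 (merge (leaf 0 522 522) (node 587 (merge (leaf 1 554 586) (node 619 (merge (leaf 6 491 492) (leaf 6 523 651)))))))))) (node 556 (merge (node 590 (merge (leaf 0 555 591) (node 622 (merge (leaf 7 525 654) (node 493 (merge (leaf 4 461 461) (leaf 7 493 526))))))) (node 587 (merge (leaf 1 554 586) (node 619 (merge (leaf 6 523 651) (node 492 (merge (leaf 5 459 460) (leaf 5 491 588)))))))))))) (node 555 (merge (node 523 (merge (leaf 0 522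 522) (node 554 (merge (leaf 1 522 526) (node 553 (merge (leaf 2 520 552) (leaf 2 521 556))))))) (merge (node 523 (merge (leaf 0 522 522) (node 526 (merge (leaf 1 522 554) (node 494 (merge (leaf 2 491 495) (node 462 (merge (leaf 5 429 430) (leaf 5 461 589))))))))) (merge (node 556 (merge (node 590 (merge (leaf 0 555 591) (node 554 (merge (leaf 2 522 526) (leaf 0 554 589))))) (node 587 (merge (leaf 1 554 586) (node 619 (merge (leaf 6 523 651) (node 492 (merge (leaf 5 459 460) (leaf 5 491 588))))))))) (merge (node 556 (merge (node 587 (merge (leaf 1 554 586) (node 619 (merge (leaf 6 523 651) (node 492 (merge (leaf 5 459 460) (leaf 5 491 588))))))) (node 590 (merge (leaf 0 555 591) (node 554 (merge (leaf 0 554 589) (node 522 (merge (leaf 3 521 521) (leaf 3 522 523))))))))) (node 523 (merge (leaf 0 522 522) (node 587 (merge (node 619 (merge (leaf 6 491 492) (node 652 (merge (leaf 4 523 620) (node 651 (merge (leaf 4 555 684) (node 650 (merge (leaf 5 522 618) (leaf 5 554 682))))))))) (merge (node 556 (merge (leaf 1 554 586) (node 590 (merge (leaf 0 555 591) (node 619 (merge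 (leaf 6 523 651) (node 620 (merge (leaf 4 523 652) (node 618 (merge (leaf 5 522 650) (node 589 (merge (leaf 1 586 588) (leaf 2 586 621))))))))))))) (node 586 (merge (leaf 1 554 556) (node 589 (merge (leaf 2 554 588) (node 621 (merge (leaf 7 492 492) (node 526 (merge (leaf 6 493 494) (leaf 6 525 653))))))))))))))))))))))))))) nP_282 cP_282 11 (by decide +kernel)
def nP_283 : ℕ := 0x120000001300000000000000000000000000000000000000000000000000000000000000000000000000000000000000000000000000000000000000000000000000000000000
def cP_283 : ℕ := 0xc0000005c000000fc000003ff000000fe000000df0000000e0000001c00000018000000100000000000000000000000000000000000000000000000000000000000000000000000000000000000000000000000000000000000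
theorem lP_283 : S nP_283 cP_283 12 := S_of_chk [] trivial (node 589 (merge (node 492 (merge (leaf 7 492 621) (node 460 (merge (leaf 4 428 428) (leaf 4 460 556))))) (merge (node 621 (merge (leaf 7 492 492) (node 654 (merge (leaf 4 525 622) (node 653 (merge (leaf 4 557 686) (node 652 (merge (leaf 5 524 620) (leaf 5 556 684))))))))) (merge (node 587 (merge (node 492 (merge (node 460 (merge (leaf 4 428 428) (leaf 4 460 556))) (merge (node 558 (merge (leaf 3 524 559) (node 523 (merge (leaf 0 522 522) (node 555 (merge (leaf 6 491 619) (node 586 (merge (leaf 1 554 556) (leaf 2 554 588))))))))) (node 558 (merge (leaf 3 524 559) (node 523 (merge (leaf 0 522 522) (node 555 (merge (leaf 6 491 619) (node 460 (merge (leaf 4 428 428) (leaf 6 459 491)))))))))))) (merge (node 588 (merge (node 558 (merge (leaf 1 556 559) (leaf 2 554 586))) (merge (node 590 (merge (node 559 (merge (leaf 1 556 558) (leaf 2 556 591))) (merge (node 622 (merge (leaf 0 587 623) (node 654 (merge (leaf 7 525 558) (leaf 7 557 686))))) (node 623 (merge (leaf 0 587 622) (node 591 (merge (leaf 2 556 559) (leaf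 0 588 624)))))))) (merge (node 590 (merge (node 623 (merge (leaf 0 587 622) (node 591 (merge (leaf 2 556 559) (leaf 0 588 624))))) (node 618 (merge (leaf 1 586 619) (node 586 (merge (leaf 1 585 617) (node 554 (merge (leaf 3 553 553) (leaf 3 554 555))))))))) (node 586 (merge (leaf 2 554 558) (node 618 (merge (leaf 1 585 617) (node 590 (merge (leaf 1 586 619) (node 554 (merge (leaf 3 553 553) (leaf 3 554 555))))))))))))) (merge (node 492 (merge (node 460 (merge (leaf 4 428 428) (leaf 4 460 556))) (merge (node 558 (merge (leaf 3 524 559) (node 523 (merge (leaf 0 522 522) (node 555 (merge (leaf 6 491 619) (node 556 (merge (leaf 1 554 586) (node 590 (merge (leaf 0 554 554) (leaf 0 555 591))))))))))) (node 558 (merge (leaf 3 524 559) (node 523 (merge (leaf 0 522 522) (node 555 (merge (leaf 6 491 619) (node 460 (merge (leaf 4 428 428) (leaf 6 459 491)))))))))))) (merge (node 492 (merge (node 460 (merge (leaf 4 428 428) (leaf 4 460 556))) (merge (node 558 (merge (leaf 3 524 559) (node 523 (merge (leaf 0 522 522) (node 619 (merge (leaf 6 491 555) (node 588 (merge (leaf 5 491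 556) (node 590 (merge (leaf 1 586 618) (node 622 (merge (leaf 0 587 623) (leaf 7 525 654))))))))))))) (node 558 (merge (leaf 3 524 559) (node 523 (merge (leaf 0 522 522) (node 555 (merge (leaf 6 491 619) (node 460 (merge (leaf 4 428 428) (leaf 6 459 491)))))))))))) (merge (node 588 (merge (node 558 (merge (leaf 1 556 559) (leaf 2 554 586))) (merge (node 586 (merge (leaf 2 554 558) (node 585 (merge (leaf 2 553 556) (node 553 (merge (leaf 3 552 552) (leaf 3 553 554))))))) (merge (node 590 (merge (node 559 (merge (leaf 1 556 558) (leaf 2 556 591))) (merge (node 622 (merge (leaf 0 587 623) (node 654 (merge (leaf 7 525 558) (leaf 7 557 686))))) (node 591 (merge (leaf 2 556 559) (node 623 (merge (leaf 0 588 624) (node 587 (merge (leaf 0 587 622) (node 555 (merge (leaf 3 554 554) (leaf 3 555 556)))))))))))) (node 586 (merge (node 617 (merge (leaf 1 585 618) (node 585 (merge (leaf 2 553 556) (leaf 1 584 616))))) (merge (node 585 (merge (leaf 2 553 556) (node 553 (merge (leaf 3 552 552) (leaf 3 553 554))))) (node 554 (merge (leaf 3 553 553) (node 590 (merge (leaf 3 554 555)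 (node 623 (merge (leaf 0 587 622) (node 591 (merge (leaf 2 556 559) (leaf 0 588 624)))))))))))))))) (merge (node 588 (merge (node 586 (merge (leaf 2 554 558) (node 585 (merge (leaf 2 553 556) (node 553 (merge (leaf 3 552 552) (leaf 3 553 554))))))) (merge (node 586 (merge (leaf 2 554 558) (node 618 (merge (leaf 1 585 617) (node 590 (merge (leaf 1 586 619) (node 554 (merge (leaf 3 553 553) (leaf 3 554 555))))))))) (merge (node 586 (merge (node 617 (merge (leaf 1 585 618) (node 585 (merge (leaf 2 553 556) (leaf 1 584 616))))) (merge (node 585 (merge (leaf 2 553 556) (node 553 (merge (leaf 3 552 552) (leaf 3 553 554))))) (node 618 (merge (leaf 1 585 617) (node 590 (merge (leaf 1 586 619) (node 554 (merge (leaf 3 553 553) (leaf 3 554 555)))))))))) (node 590 (merge (node 622 (merge (leaf 0 587 623) (node 654 (merge (leaf 7 525 558) (leaf 7 557 686))))) (node 619 (merge (leaf 1 586 618) (node 556 (merge (leaf 5 491 492) (node 620 (merge (leaf 5 523 651) (leaf 6 524 652))))))))))))) (merge (node 588 (merge (node 558 (merge (leaf 1 556 559) (leaf 2 554 586))) (node 556 (merge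 (node 492 (merge (leaf 4 460 460) (leaf 5 491 619))) (merge (node 620 (merge (leaf 6 524 652) (node 619 (merge (leaf 5 523 651) (node 590 (merge (leaf 1 587 591) (node 618 (merge (leaf 1 586 587) (leaf 2 585 617))))))))) (node 620 (merge (leaf 6 524 652) (node 491 (merge (leaf 7 491 523) (node 492 (merge (leaf 7 459 459) (leaf 4 460 460)))))))))))) (node 588 (merge (node 556 (merge (node 492 (merge (leaf 4 460 460) (leaf 5 491 619))) (merge (node 620 (merge (leaf 6 524 652) (node 619 (merge (leaf 5 523 651) (node 590 (merge (leaf 1 587 591) (node 618 (merge (leaf 1 586 587) (leaf 2 585 617))))))))) (node 620 (merge (leaf 6 524 652) (node 491 (merge (leaf 7 491 523) (node 492 (merge (leaf 7 459 459) (leaf 4 460 460)))))))))) (merge (node 556 (merge (node 492 (merge (leaf 4 460 460) (leaf 5 491 619))) (merge (node 620 (merge (leaf 6 524 652) (node 491 (merge (leaf 7 491 523) (node 492 (merge (leaf 7 459 459) (leaf 4 460 460))))))) (node 620 (merge (leaf 6 524 652) (node 523 (merge (leaf 7 491 491) (node 522 (merge (leaf 0 521 521) (node 554 (merge (leaf 1 521 553) (node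 586 (merge (leaf 2 553 585) (node 619 (merge (leaf 4 490 490) (leaf 5 523 651)))))))))))))))) (merge (node 590 (merge (node 623 (merge (leaf 0 587 622) (node 591 (merge (leaf 2 556 559) (leaf 0 588 624))))) (node 618 (merge (leaf 1 586 619) (node 586 (merge (leaf 1 585 617) (node 554 (merge (leaf 3 553 553) (leaf 3 554 555))))))))) (node 586 (merge (node 617 (merge (leaf 1 585 618) (node 585 (merge (leaf 2 553 556) (leaf 1 584 616))))) (merge (node 585 (merge (leaf 2 553 556) (node 553 (merge (leaf 3 552 552) (leaf 3 553 554))))) (node 554 (merge (leaf 3 553 553) (node 590 (merge (leaf 3 554 555) (node 623 (merge (leaf 0 587 622) (node 591 (merge (leaf 2 556 559) (leaf 0 588 624)))))))))))))))))))))))) (node 588 (merge (node 621 (merge (node 653 (merge (leaf 7 524 556) (node 652 (merge (leaf 5 524 620) (leaf 5 556 684))))) (merge (node 653 (merge (leaf 7 524 556) (node 654 (merge (leaf 4 525 622) (leaf 4 557 686))))) (node 622 (merge (leaf 4 525 654) (node 623 (merge (leaf 3 588 624) (node 620 (merge (leaf 3 587 587) (leaf 5 524 652)))))))))) (merge (node 590 (merge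 (node 559 (merge (leaf 1 556 558) (leaf 2 556 591))) (merge (node 558 (merge (leaf 1 556 559) (node 622 (merge (leaf 7 525 654) (node 587 (merge (leaf 2 554 586) (leaf 0 587 623))))))) (merge (node 622 (merge (node 654 (merge (leaf 7 525 558) (leaf 7 557 686))) (node 623 (merge (leaf 0 587 587) (node 624 (merge (leaf 0 588 591) (leaf 3 589 625))))))) (node 591 (merge (leaf 2 556 559) (node 623 (merge (leaf 0 588 624) (node 587 (merge (leaf 0 587 622) (node 555 (merge (leaf 3 554 554) (leaf 3 555 556))))))))))))) (merge (node 621 (merge (node 653 (merge (leaf 7 524 556) (node 652 (merge (leaf 5 524 620) (leaf 5 556 684))))) (node 559 (merge (leaf 1 556 558) (node 591 (merge (leaf 2 556 590) (node 623 (merge (leaf 6 527 655) (node 622 (merge (leaf 3 588 624) (leaf 4 525 654))))))))))) (merge (node 590 (merge (node 559 (merge (leaf 1 556 558) (leaf 2 556 591))) (merge (node 558 (merge (leaf 1 556 559) (node 622 (merge (leaf 7 525 654) (node 587 (merge (leaf 2 554 586) (leaf 0 587 623))))))) (merge (node 622 (merge (node 654 (merge (leaf 7 525 558) (leaf 7 557 686)))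 (node 623 (merge (leaf 0 587 587) (node 624 (merge (leaf 0 588 591) (leaf 3 589 625))))))) (node 591 (merge (leaf 2 556 559) (node 623 (merge (leaf 0 588 624) (node 587 (merge (leaf 0 587 622) (node 619 (merge (leaf 1 586 618) (leaf 1 587 620))))))))))))) (node 587 (merge (node 558 (merge (leaf 1 556 559) (leaf 2 554 586))) (merge (node 586 (merge (node 617 (merge (leaf 1 585 618) (node 585 (merge (leaf 2 553 556) (leaf 1 584 616))))) (merge (node 585 (merge (leaf 2 553 556) (node 553 (merge (leaf 3 552 552) (leaf 3 553 554))))) (node 618 (merge (leaf 1 585 617) (node 590 (merge (leaf 1 586 619) (node 554 (merge (leaf 3 553 553) (leaf 3 554 555)))))))))) (node 620 (merge (node 652 (merge (leaf 5 524 621) (leaf 6 556 684))) (node 559 (merge (leaf 1 556 558) (node 590 (merge (leaf 2 556 591) (node 619 (merge (leaf 1 586 618) (node 555 (merge (leaf 3 554 554) (node 651 (merge (leaf 6 523 556) (node 683 (merge (leaf 6 587 715) (node 682 (merge (leaf 5 554 650) (leaf 5 586 714))))))))))))))))))))))))))))) nP_283 cP_283 12 (by decide +kernel)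
def nP_284 : ℕ := 0x100000001300000000000000080000000000000000000000000000000000000000000000000000000000000000000000000000000000000000000000000000000000000000000
def cP_284 : ℕ := 0xc0000005c000000fc000003ff000000fe000000ff0000000e000001fe0000007f0000007c0000007c00000008000000000000000000000000000000000000000000000000000000000000000000000000000000000000000000
theorem lP_284 : S nP_284 cP_284 13 := S_of_chk [(nP_283, cP_283, 12)] ⟨lP_283, trivial⟩ (node 557 (merge (node 493 (merge (node 558 (merge (leaf 3 524 559) (node 590 (merge (leaf 4 461 461) (node 622 (merge (leaf 4 493 589) (leaf 7 525 654))))))) (merge (node 558 (merge (leaf 3 524 559) (node 461 (merge (leaf 4 461 590) (node 556 (merge (leaf 5 428 429) (leaf 5 460 588))))))) (merge (node 589 (merge (node 621 (merge (leaf 7 492 492) (node 620 (merge (leaf 5 492 588) (leaf 5 524 652))))) (merge (node 462 (merge (leaf 6 461 494) (node 461 (merge (leaf 6 429 430) (node 588 (merge (leaf 5 460 556) (leaf 5 492 620))))))) (node 621 (merge (leaf 7 492 492) (node 653 (merge (leaf 7 524 556) (node 654 (merge (leaf 4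 525 622) (leaf 4 557 686)))))))))) (node 589 (merge (node 621 (merge (leaf 7 492 492) (node 620 (merge (leaf 5 492 588) (leaf 5 524 652))))) (merge (node 621 (merge (leaf 7 492 492) (node 622 (merge (leaf 4 493 590) (leaf 4 525 654))))) (node 559 (merge (leaf 3 524 558) (node 590 (merge (leaf 4 493 622) (node 588 (merge (leaf 2 556 591) (leaf 5 492 620)))))))))))))) (merge (node 589 (merge (node 492 (merge (leaf 7 492 621) (node 460 (merge (leaf 4 428 428) (leaf 7 460 493))))) (merge (node 621 (merge (leaf 7 492 492) (node 653 (merge (leaf 7 524 556) (node 654 (merge (leaf 4 525 622) (leaf 4 557 686))))))) (merge (node 493 (merge (node 494 (merge (leaf 6 461 462) (node 492 (merge (leaf 7 460 460) (node 495 (merge (leaf 1 492 496) (leaf 1 491 523))))))) (merge (node 462 (merge (leaf 6 461 494) (node 461 (merge (leaf 6 429 430) (node 588 (merge (leaf 5 460 556) (leaf 5 492 620))))))) (node 460 (merge (leaf 7 460 492) (node 461 (merge (leaf 7 428 428) (node 588 (merge (leaf 5 460 556) (leaf 5 492 620)))))))))) (node 620 (merge (node 588 (merge (leaf 5 492 493) (node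 652 (merge (leaf 5 524 621) (leaf 6 556 684))))) (merge (node 621 (merge (leaf 5 524 652) (node 653 (merge (leaf 7 524 556) (node 654 (merge (leaf 4 525 622) (leaf 4 557 686))))))) (merge (node 588 (merge (leaf 5 492 493) (node 652 (merge (leaf 6 524 556) (leaf 6 556 684))))) (node 493 (merge (leaf 5 492 588) (node 462 (merge (leaf 6 461 494) (node 461 (merge (leaf 6 429 430) (node 622 (merge (leaf 4 493 590) (node 621 (merge (leaf 4 525 654) (node 556 (merge (leaf 5 428 429) (leaf 7 524 653))))))))))))))))))))) (merge (node 558 (merge (leaf 3 524 559) (node 493 (merge (node 590 (merge (leaf 4 461 461) (node 622 (merge (leaf 4 493 589) (leaf 7 525 654))))) (merge (node 461 (merge (leaf 4 461 590) (node 430 (merge (leaf 6 429 462) (node 429 (merge (leaf 6 397 398) (node 428 (merge (leaf 7 396 396) (leaf 7 428 460))))))))) (merge (node 494 (merge (node 523 (merge (leaf 0 522 522) (node 495 (merge (leaf 1 491 492) (leaf 1 492 496))))) (node 462 (merge (leaf 6 461 589) (node 430 (merge (leaf 5 397 398) (leaf 6 429 461))))))) (node 589 (merge (node 622 (merge (leaf 4 493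 590) (node 621 (merge (leaf 4 525 654) (node 620 (merge (leaf 5 492 588) (leaf 5 524 652))))))) (node 494 (merge (leaf 6 461 462) (node 492 (merge (leaf 7 460 460) (node 495 (merge (leaf 1 492 496) (leaf 1 491 523))))))))))))))) (merge (node 558 (merge (leaf 3 524 559) (node 589 (merge (node 492 (merge (leaf 7 492 621) (node 460 (merge (leaf 4 428 428) (leaf 7 460 493))))) (merge (node 621 (merge (leaf 7 492 492) (node 653 (merge (leaf 7 524 556) (node 652 (merge (leaf 5 524 620) (leaf 5 556 684))))))) (merge (node 493 (merge (node 494 (merge (leaf 6 461 462) (node 492 (merge (leaf 7 460 460) (node 495 (merge (leaf 1 492 496) (leaf 1 491 523))))))) (merge (node 462 (merge (leaf 6 461 494) (node 461 (merge (leaf 6 429 430) (node 588 (merge (leaf 5 460 556) (leaf 5 492 620))))))) (node 460 (merge (leaf 7 460 492) (node 461 (merge (leaf 7 428 428) (node 588 (merge (leaf 5 460 556) (leaf 5 492 620)))))))))) (node 620 (merge (node 588 (merge (leaf 5 492 493) (node 652 (merge (leaf 5 524 621) (leaf 6 556 684))))) (merge (node 621 (merge (leaf 5 524 652) (node 653 (merge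 (leaf 7 524 556) (node 654 (merge (leaf 4 525 622) (leaf 4 557 686))))))) (node 493 (merge (leaf 5 492 588) (node 462 (merge (leaf 6 461 494) (node 461 (merge (leaf 6 429 430) (node 428 (merge (leaf 7 428 460) (node 429 (merge (leaf 7 396 396) (leaf 5 428 556)))))))))))))))))))) (merge (node 558 (merge (leaf 3 524 559) (node 556 (merge (node 555 (merge (node 586 (merge (leaf 1 554 587) (node 554 (merge (leaf 2 521 553) (leaf 1 553 585))))) (merge (node 522 (merge (leaf 3 522 523) (node 554 (merge (leaf 3 521 521) (leaf 2 521 553))))) (node 523 (merge (leaf 0 522 522) (node 587 (merge (leaf 1 554 586) (node 492 (merge (leaf 5 459 460) (leaf 6 491 619)))))))))) (merge (node 492 (merge (node 588 (merge (node 493 (merge (leaf 5 460 461) (leaf 6 492 620))) (node 587 (merge (leaf 5 491 619) (node 586 (merge (leaf 1 554 555) (leaf 2 553 585))))))) (merge (node 460 (merge (leaf 4 428 428) (node 459 (merge (leaf 7 427 427) (node 588 (merge (leaf 7 459 491) (node 587 (merge (leaf 5 459 555) (leaf 5 491 619))))))))) (node 460 (merge (leaf 4 428 428) (node 461 (merge (leaf 6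 428 429) (node 459 (merge (leaf 7 427 427) (node 493 (merge (leaf 4 461 590) (node 458 (merge (leaf 0 457 457) (leaf 0 458 494)))))))))))))) (merge (node 492 (merge (node 460 (merge (leaf 4 428 428) (node 461 (merge (leaf 6 428 429) (node 493 (merge (leaf 6 460 588) (leaf 4 461 590))))))) (merge (node 460 (merge (leaf 4 428 428) (node 459 (merge (leaf 7 427 427) (node 588 (merge (leaf 7 459 491) (node 620 (merge (leaf 6 492 493) (leaf 6 524 652))))))))) (merge (node 493 (merge (node 461 (merge (leaf 5 428 429) (leaf 4 461 590))) (node 522 (merge (leaf 0 522 523) (node 588 (merge (leaf 6 492 620) (node 491 (merge (leaf 7 459 459) (node 490 (merge (leaf 0 489 489) (leaf 1 489 521))))))))))) (merge (node 460 (merge (leaf 4 428 428) (node 461 (merge (leaf 6 428 429) (node 459 (merge (leaf 7 427 427) (node 491 (merge (leaf 7 459 588) (node 490 (merge (leaf 1 458 462) (leaf 0 489 489))))))))))) (node 460 (merge (leaf 4 428 428) (node 461 (merge (leaf 6 428 429) (node 459 (merge (leaf 7 427 427) (node 493 (merge (leaf 4 461 590) (node 458 (merge (leaf 0 457 457) (leaf 0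 458 494)))))))))))))))) (node 555 (merge (node 586 (merge (leaf 1 554 587) (node 554 (merge (leaf 2 521 553) (leaf 1 553 585))))) (merge (node 522 (merge (leaf 3 522 523) (node 554 (merge (leaf 3 521 521) (leaf 2 521 553))))) (node 523 (merge (leaf 0 522 522) (node 590 (merge (leaf 0 555 591) (node 587 (merge (leaf 1 554 586) (node 619 (merge (leaf 6 523 651) (node 493 (merge (leaf 4 461 461) (node 620 (merge (leaf 6 492 588) (leaf 4 523 652)))))))))))))))))))))) (merge (node 493 (merge (node 558 (merge (leaf 3 524 559) (node 590 (merge (leaf 4 461 461) (node 622 (merge (leaf 4 493 589) (leaf 7 525 654))))))) (merge (node 558 (merge (leaf 3 524 559) (node 461 (merge (leaf 4 461 590) (node 556 (merge (leaf 5 428 429) (leaf 5 460 588))))))) (node 492 (merge (node 589 (merge (leaf 7 492 621) (node 460 (merge (leaf 7 460 493) (leaf 4 460 556))))) (merge (node 589 (merge (leaf 7 492 621) (node 494 (merge (leaf 6 461 462) (node 495 (merge (leaf 1 492 496) (leaf 1 491 523))))))) (node 491 (merge (node 459 (merge (node 458 (merge (leaf 3 458 494) (node 457 (merge (leaf 0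 456 456) (leaf 0 457 460))))) (node 556 (merge (leaf 7 459 588) (node 427 (merge (leaf 4 395 395) (leaf 4 427 523))))))) (merge (node 490 (merge (leaf 0 489 489) (node 522 (merge (leaf 1 489 521) (node 523 (merge (leaf 1 490 494) (node 554 (merge (leaf 1 521 553) (node 459 (merge (leaf 5 426 427) (leaf 6 458 586))))))))))) (merge (node 490 (merge (leaf 0 489 489) (node 522 (merge (leaf 1 489 521) (node 458 (merge (leaf 3 457 457) (node 459 (merge (leaf 3 458 494) (node 427 (merge (leaf 4 395 395) (leaf 6 426 554))))))))))) (merge (node 459 (merge (node 556 (merge (leaf 7 459 588) (node 427 (merge (leaf 4 395 395) (leaf 4 427 523))))) (merge (node 490 (merge (leaf 0 489 489) (node 522 (merge (leaf 1 489 521) (node 554 (merge (leaf 6 458 586) (node 427 (merge (leaf 4 395 395) (leaf 6 426 458))))))))) (node 490 (merge (leaf 0 489 489) (node 522 (merge (leaf 1 489 521) (node 554 (merge (leaf 6 458 586) (node 556 (merge (leaf 7 459 588) (node 553 (merge (leaf 1 521 523) (leaf 2 521 555)))))))))))))) (node 490 (merge (leaf 0 489 489) (node 522 (merge (leaf 1 489 521) (node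 523 (merge (leaf 1 490 494) (node 458 (merge (leaf 3 457 457) (node 426 (merge (leaf 4 394 394) (leaf 4 426 555)))))))))))))))))))))) (merge (node 493 (merge (node 558 (merge (leaf 3 524 559) (node 590 (merge (leaf 4 461 461) (node 622 (merge (leaf 4 493 589) (leaf 7 525 654))))))) (merge (node 558 (merge (leaf 3 524 559) (node 461 (merge (leaf 4 461 590) (node 430 (merge (leaf 6 429 462) (node 429 (merge (leaf 6 397 398) (leaf 5 428 556))))))))) (merge (node 492 (merge (node 460 (merge (leaf 4 428 428) (leaf 7 460 589))) (merge (node 589 (merge (leaf 7 492 621) (node 462 (merge (leaf 6 461 494) (node 461 (merge (leaf 6 429 430) (node 429 (merge (leaf 5 396 397) (leaf 5 428 556))))))))) (node 460 (merge (node 428 (merge (leaf 4 396 396) (leaf 4 428 557))) (node 459 (merge (node 458 (merge (leaf 0 457 457) (node 494 (merge (leaf 0 458 461) (leaf 3 459 495))))) (node 427 (merge (leaf 7 427 556) (node 395 (merge (leaf 4 363 363) (leaf 4 395 491)))))))))))) (node 589 (merge (node 621 (merge (leaf 7 492 492) (node 653 (merge (leaf 7 524 556) (node 654 (merge (leaf 4 525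 622) (leaf 4 557 686))))))) (merge (node 494 (merge (leaf 6 461 462) (node 492 (merge (leaf 7 460 460) (node 495 (merge (leaf 1 492 496) (leaf 1 491 523))))))) (node 622 (merge (leaf 4 493 590) (node 621 (merge (leaf 4 525 654) (node 653 (merge (leaf 7 524 556) (node 652 (merge (leaf 5 524 620) (leaf 5 556 684)))))))))))))))) (merge (hyp 0) (node 556 (merge (node 558 (merge (leaf 3 524 559) (node 590 (merge (node 622 (merge (leaf 7 525 654) (node 493 (merge (leaf 4 461 461) (leaf 4 493 589))))) (node 522 (merge (leaf 0 522 523) (node 555 (merge (leaf 0 555 591) (node 554 (merge (leaf 3 521 521) (leaf 2 521 553))))))))))) (merge (node 493 (merge (node 588 (merge (leaf 5 460 461) (leaf 6 492 620))) (merge (node 558 (merge (leaf 3 524 559) (node 590 (merge (leaf 4 461 461) (node 622 (merge (leaf 4 493 589) (leaf 7 525 654))))))) (node 589 (merge (node 621 (merge (leaf 7 524 653) (node 622 (merge (leaf 4 493 590) (leaf 4 525 654))))) (merge (node 559 (merge (leaf 3 524 558) (node 590 (merge (leaf 4 493 622) (node 588 (merge (leaf 2 556 591) (leaf 5 492 620))))))) (node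 621 (merge (leaf 7 524 653) (node 558 (merge (leaf 3 524 559) (node 523 (merge (leaf 0 522 522) (node 620 (merge (leaf 5 524 652) (node 588 (merge (leaf 7 491 491) (leaf 6 492 493))))))))))))))))) (merge (node 493 (merge (node 588 (merge (leaf 5 460 461) (leaf 6 492 620))) (merge (node 461 (merge (leaf 5 428 429) (node 462 (merge (leaf 6 429 430) (node 494 (merge (leaf 6 461 589) (node 460 (merge (leaf 7 428 428) (node 495 (merge (leaf 0 459 459) (leaf 0 460 496))))))))))) (node 589 (merge (node 620 (merge (leaf 6 492 588) (node 621 (merge (leaf 5 524 652) (leaf 7 524 653))))) (merge (node 621 (merge (leaf 7 524 653) (node 622 (merge (leaf 4 493 590) (leaf 4 525 654))))) (node 588 (merge (leaf 6 492 620) (node 590 (merge (leaf 4 493 622) (node 555 (merge (leaf 0 554 554) (leaf 3 555 591))))))))))))) (merge (node 523 (merge (node 522 (merge (leaf 0 521 521) (leaf 0 522 558))) (node 555 (merge (node 554 (merge (leaf 2 521 553) (node 586 (merge (leaf 1 553 585) (node 618 (merge (leaf 6 522 650) (node 491 (merge (leaf 5 458 459) (leaf 5 490 587))))))))) (merge (node 554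 (merge (leaf 2 521 553) (node 589 (merge (leaf 0 554 590) (node 621 (merge (leaf 7 524 653) (node 620 (merge (leaf 5 524 652) (node 491 (merge (leaf 7 491 588) (node 459 (merge (leaf 4 427 427) (leaf 5 458 586))))))))))))) (merge (node 554 (merge (leaf 2 521 553) (node 589 (merge (leaf 0 554 590) (node 586 (merge (leaf 1 553 585) (node 621 (merge (leaf 7 524 653) (node 622 (merge (leaf 4 525 654) (node 587 (merge (leaf 0 586 588) (node 620 (merge (leaf 3 586 619) (leaf 5 524 652))))))))))))))) (merge (node 491 (merge (node 588 (merge (leaf 4 459 459) (leaf 7 491 620))) (merge (node 587 (merge (node 588 (merge (leaf 7 491 620) (node 586 (merge (leaf 2 553 585) (leaf 5 490 618))))) (merge (node 619 (merge (leaf 6 523 651) (node 620 (merge (leaf 7 491 588) (leaf 4 523 652))))) (node 619 (merge (leaf 6 523 651) (node 618 (merge (leaf 5 490 586) (leaf 5 522 650)))))))) (node 459 (merge (leaf 4 427 427) (node 458 (merge (leaf 7 426 426) (node 587 (merge (leaf 7 458 490) (node 619 (merge (leaf 6 523 651) (node 618 (merge (leaf 5 490 586) (leaf 5 522 650)))))))))))))) (node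 554 (merge (leaf 2 521 553) (node 589 (merge (leaf 0 554 590) (node 621 (merge (leaf 7 524 653) (node 622 (merge (leaf 4 525 654) (node 620 (merge (leaf 5 524 652) (node 588 (merge (leaf 7 491 491) (node 623 (merge (leaf 3 587 587) (leaf 3 588 624)))))))))))))))))))))) (node 555 (merge (node 554 (merge (leaf 2 521 553) (node 586 (merge (leaf 1 553 585) (node 558 (merge (leaf 3 524 559) (leaf 1 554 587))))))) (merge (node 554 (merge (leaf 2 521 553) (node 522 (merge (leaf 3 521 521) (node 558 (merge (leaf 0 522 523) (leaf 3 524 559))))))) (merge (node 493 (merge (node 588 (merge (leaf 5 460 461) (leaf 6 492 620))) (node 554 (merge (leaf 2 521 553) (node 586 (merge (leaf 1 553 585) (node 522 (merge (leaf 3 521 521) (node 523 (merge (leaf 2 490 494) (node 491 (merge (leaf 5 458 459) (leaf 6 490 618))))))))))))) (node 523 (merge (node 558 (merge (leaf 0 522 522) (leaf 3 523 559))) (node 491 (merge (node 588 (merge (leaf 4 459 459) (leaf 7 491 620))) (merge (node 587 (merge (node 588 (merge (leaf 7 491 620) (node 586 (merge (leaf 2 553 585) (leaf 5 490 618))))) (merge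 (node 619 (merge (leaf 6 523 651) (node 620 (merge (leaf 7 491 588) (leaf 4 523 652))))) (node 619 (merge (leaf 6 523 651) (node 618 (merge (leaf 5 490 586) (leaf 5 522 650)))))))) (node 459 (merge (leaf 4 427 427) (node 458 (merge (leaf 7 426 426) (node 587 (merge (leaf 7 458 490) (node 619 (merge (leaf 6 523 651) (node 618 (merge (leaf 5 490 586) (leaf 5 522 650)))))))))))))))))))))))))))))))))) nP_284 cP_284 13 (by decide +kernel)
def nP_285 : ℕ := 0x120000001300000000000000080000000000000000000000000000000000000000000000000000000000000000000000000000000000000000000000000000000000000000000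
def cP_285 : ℕ := 0x10000007ff000007fc000006fe000006de00000040000000d800000078000000f80000000000000000000000000000000000000000000000000000000000000000000000000000000000000000000000000000000000
theorem lP_285 : S nP_285 cP_285 14 := S_of_chk [] trivial (node 556 (merge (node 555 (merge (node 554 (merge (leaf 2 522 526) (leaf 2 521 553))) (node 558 (merge (leaf 3 524 559) (node 587 (merge (leaf 1 554 586) (node 619 (merge (leaf 6 523 651) (node 492 (merge (leaf 5 459 460) (leaf 5 491 588))))))))))) (merge (node 492 (merge (node 589 (merge (leaf 4 460 460) (leaf 7 492 621))) (merge (node 460 (merge (leaf 4 428 428) (node 459 (merge (leaf 7 427 427) (node 588 (merge (leaf 7 459 491) (node 620 (merge (leaf 6 524 652) (node 619 (merge (leaf 5 491 587) (leaf 5 523 651))))))))))) (node 588 (merge (node 620 (merge (leaf 6 524 652) (node 619 (merge (leaf 5 491 587) (leaf 5 523 651))))) (merge (node 621 (merge (leaf 7 492 589) (node 620 (merge (leaf 6 524 652) (leaf 4 524 653))))) (node 589 (merge (leaf 7 492 621) (node 587 (merge (leaf 5 491 619) (node 586 (merge (leaf 2 554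 558) (leaf 2 553 585))))))))))))) (merge (node 492 (merge (node 589 (merge (leaf 4 460 460) (leaf 7 492 621))) (merge (node 460 (merge (leaf 4 428 428) (node 555 (merge (leaf 5 459 587) (node 554 (merge (leaf 2 522 526) (leaf 2 521 553))))))) (node 554 (merge (node 555 (merge (leaf 2 522 526) (leaf 2 521 553))) (merge (node 589 (merge (leaf 7 492 621) (node 555 (merge (leaf 2 522 526) (leaf 0 554 590))))) (node 588 (merge (node 620 (merge (leaf 6 524 652) (node 619 (merge (leaf 5 491 587) (leaf 5 523 651))))) (merge (node 621 (merge (leaf 7 492 589) (node 620 (merge (leaf 6 524 652) (leaf 4 524 653))))) (node 589 (merge (leaf 7 492 621) (node 587 (merge (leaf 5 491 619) (node 586 (merge (leaf 3 553 553) (leaf 2 553 585)))))))))))))))) (merge (node 555 (merge (node 554 (merge (leaf 2 522 526) (leaf 2 521 553))) (merge (node 554 (merge (leaf 2 521 553) (node 589 (merge (leaf 0 554 590) (node 492 (merge (leaf 4 460 460) (leaf 7 492 621))))))) (node 621 (merge (node 589 (merge (leaf 7 492 492) (leaf 7 524 653))) (merge (node 492 (merge (leaf 7 492 589) (node 460 (merge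 (leaf 4 428 428) (leaf 5 459 587))))) (node 558 (merge (leaf 3 524 559) (node 590 (merge (leaf 0 555 591) (node 622 (merge (leaf 7 525 654) (node 526 (merge (leaf 5 525 653) (node 494 (merge (leaf 6 462 495) (node 462 (merge (leaf 5 429 430) (leaf 6 430 431))))))))))))))))))) (merge (node 555 (merge (node 554 (merge (leaf 2 522 526) (leaf 2 521 553))) (merge (node 554 (merge (leaf 2 521 553) (node 590 (merge (leaf 0 554 589) (node 558 (merge (leaf 3 524 559) (leaf 0 555 591))))))) (node 621 (merge (node 620 (merge (node 653 (merge (leaf 4 524 588) (leaf 7 524 589))) (merge (node 589 (merge (leaf 5 524 652) (leaf 7 524 653))) (merge (node 588 (merge (leaf 6 524 652) (leaf 4 524 653))) (node 652 (merge (leaf 6 524 588) (leaf 5 524 589))))))) (merge (node 653 (merge (leaf 7 524 589) (node 558 (merge (leaf 3 524 559) (node 590 (merge (leaf 0 555 591) (node 622 (merge (leaf 5 525 526) (leaf 7 525 654))))))))) (merge (node 558 (merge (leaf 3 524 559) (node 590 (merge (leaf 0 555 591) (node 587 (merge (leaf 1 554 586) (node 651 (merge (leaf 6 523 619) (node 622 (merge (leaf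 7 525 654) (node 526 (merge (leaf 5 525 653) (node 623 (merge (leaf 4 526 655) (node 620 (merge (leaf 3 587 588) (leaf 1 619 652))))))))))))))))) (node 620 (merge (node 652 (merge (leaf 6 524 588) (leaf 5 524 589))) (merge (node 558 (merge (leaf 3 524 559) (node 590 (merge (leaf 0 555 591) (node 587 (merge (leaf 1 554 586) (node 622 (merge (leaf 7 525 654) (node 623 (merge (leaf 3 587 588) (node 655 (merge (leaf 4 526 526) (leaf 0 620 656))))))))))))) (node 558 (merge (leaf 3 524 559) (node 590 (merge (leaf 0 555 591) (node 587 (merge (leaf 1 554 586) (node 619 (merge (leaf 6 523 651) (node 589 (merge (leaf 2 586 618) (leaf 5 524 652))))))))))))))))))))) (node 621 (merge (node 589 (merge (leaf 7 492 492) (node 653 (merge (leaf 7 524 556) (node 652 (merge (leaf 5 524 620) (leaf 5 556 684))))))) (merge (node 492 (merge (leaf 7 492 589) (node 460 (merge (leaf 4 428 428) (node 461 (merge (leaf 6 428 429) (node 459 (merge (leaf 7 427 427) (node 491 (merge (leaf 1 459 462) (leaf 7 459 588))))))))))) (node 620 (merge (node 588 (merge (leaf 6 524 652) (leaf 4 524 653))) (merge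 (node 622 (merge (node 652 (merge (leaf 6 524 588) (node 651 (merge (leaf 1 619 623) (node 650 (merge (leaf 1 618 619) (leaf 2 617 649))))))) (node 558 (merge (leaf 3 524 559) (node 590 (merge (leaf 7 525 654) (node 555 (merge (leaf 0 555 591) (node 554 (merge (leaf 2 522 526) (leaf 2 521 553))))))))))) (merge (node 619 (merge (node 588 (merge (leaf 5 523 651) (leaf 4 524 653))) (merge (node 653 (merge (leaf 4 524 588) (node 654 (merge (leaf 0 618 618) (node 655 (merge (leaf 0 619 622) (leaf 3 620 656))))))) (merge (node 651 (merge (leaf 5 523 588) (node 650 (merge (leaf 1 618 622) (node 649 (merge (leaf 1 617 618) (leaf 2 616 648))))))) (node 591 (merge (node 559 (merge (leaf 3 524 558) (node 655 (merge (leaf 6 527 623) (node 654 (merge (leaf 0 619 622) (node 653 (merge (leaf 0 618 618) (leaf 3 620 656))))))))) (merge (node 558 (merge (leaf 3 524 559) (node 555 (merge (leaf 0 555 590) (node 554 (merge (leaf 2 522 526) (leaf 2 521 553))))))) (node 622 (merge (leaf 2 587 590) (node 654 (merge (leaf 0 619 655) (node 618 (merge (leaf 0 618 653) (node 650 (merge (leaf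 1 617 649) (leaf 1 618 651)))))))))))))))) (node 622 (merge (node 558 (merge (leaf 3 524 559) (node 654 (merge (leaf 7 525 590) (node 655 (merge (leaf 0 619 619) (node 656 (merge (leaf 0 620 623) (leaf 3 620 653))))))))) (merge (node 558 (merge (leaf 3 524 559) (node 590 (merge (leaf 7 525 654) (node 555 (merge (leaf 0 555 591) (node 554 (merge (leaf 2 522 526) (leaf 2 521 553))))))))) (merge (node 590 (merge (node 591 (merge (leaf 2 587 619) (node 555 (merge (leaf 0 555 558) (node 554 (merge (leaf 2 522 526) (leaf 2 521 553))))))) (merge (node 654 (merge (leaf 7 525 558) (node 655 (merge (leaf 0 619 619) (node 656 (merge (leaf 0 620 623) (leaf 3 620 653))))))) (merge (node 558 (merge (leaf 7 525 654) (node 555 (merge (leaf 0 555 591) (node 554 (merge (leaf 2 522 526) (leaf 2 521 553))))))) (node 619 (merge (leaf 2 587 591) (node 655 (merge (leaf 0 619 654) (node 623 (merge (leaf 0 620 656) (node 651 (merge (leaf 1 618 650) (leaf 1 619 652))))))))))))) (merge (node 655 (merge (node 623 (merge (leaf 0 620 656) (node 559 (merge (leaf 3 524 558) (leaf 6 527 591)))))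 (merge (node 654 (merge (leaf 0 619 619) (node 656 (merge (leaf 3 620 653) (leaf 3 621 657))))) (node 619 (merge (leaf 0 619 654) (node 651 (merge (leaf 1 618 650) (node 623 (merge (leaf 1 619 652) (node 559 (merge (leaf 3 524 558) (leaf 6 527 591)))))))))))) (merge (node 651 (merge (node 652 (merge (leaf 1 619 623) (node 650 (merge (leaf 2 617 649) (leaf 2 618 653))))) (merge (node 650 (merge (leaf 1 618 619) (node 652 (merge (leaf 2 617 649) (leaf 2 618 653))))) (merge (node 619 (merge (leaf 1 618 650) (node 655 (merge (leaf 0 619 654) (node 623 (merge (leaf 0 620 656) (node 591 (merge (leaf 6 527 559) (leaf 2 587 590))))))))) (node 623 (merge (leaf 1 619 652) (node 655 (merge (leaf 0 620 656) (node 591 (merge (leaf 6 527 559) (node 619 (merge (leaf 2 587 590) (leaf 0 619 654))))))))))))) (node 623 (merge (node 655 (merge (leaf 0 620 656) (node 559 (merge (leaf 3 524 558) (leaf 6 527 591))))) (merge (node 652 (merge (leaf 1 619 651) (node 624 (merge (leaf 1 620 653) (node 657 (merge (leaf 0 621 656) (node 625 (merge (leaf 0 622 658) (node 593 (merge (leaf 7 528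 561) (leaf 2 590 594))))))))))) (node 652 (merge (leaf 1 619 651) (node 624 (merge (leaf 1 620 653) (node 559 (merge (leaf 3 524 558) (node 591 (merge (leaf 6 527 655) (node 590 (merge (leaf 2 587 619) (node 561 (merge (leaf 1 558 562) (node 625 (merge (leaf 3 590 626) (node 657 (merge (leaf 7 528 593) (leaf 0 622 658))))))))))))))))))))))))))))))))))))))) nP_285 cP_285 14 (by decide +kernel)
def nP_286 : ℕ := 0x100000001300000000000000080000000000000000000000000000000000000000000000000000000000000000000000000000000000000000000000000000000000000000000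
def cP_286 : ℕ := 0x58000007ff000007ff000006fe000006ff00000040000003fe0000007e000001f80000007800000008000000000000000000000000000000000000000000000000000000000000000000000000000000000000000000
theorem lP_286 : S nP_286 cP_286 15 := S_of_chk [(nP_285, cP_285, 14)] ⟨lP_285, trivial⟩ (node 557 (merge (node 493 (merge (node 558 (merge (leaf 3 524 559) (node 590 (merge (leaf 4 461 461) (node 622 (merge (leaf 7 493 526) (leaf 4 493 589))))))) (merge (node 558 (merge (leaf 3 524 559) (node 461 (merge (leaf 4 461 590) (node 556 (merge (leaf 5 428 429) (leaf 5 460 588))))))) (merge (node 460 (merge (node 428 (merge (leaf 7 428 461) (leaf 4 428 492))) (merge (node 461 (merge (leaf 7 428 428) (node 556 (merge (leaf 5 428 429) (leaf 5 460 588))))) (node 589 (merge (leaf 7 460 492) (node 622 (merge (leaf 4 493 590) (node 621 (merge (leaf 4 525 654) (node 620 (merge (leaf 5 492 588) (leaf 5 524 652)))))))))))) (merge (node 589 (merge (node 621 (merge (leaf 7 492 492) (node 620 (merge (leaf 5 492 588) (leaf 5 524 652))))) (merge (node 492 (merge (leaf 7 492 621) (node 460 (merge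 (leaf 4 428 428) (leaf 7 460 493))))) (node 558 (merge (leaf 3 524 559) (node 588 (merge (leaf 5 492 620) (node 461 (merge (leaf 5 460 556) (node 428 (merge (leaf 7 428 460) (node 429 (merge (leaf 7 396 396) (leaf 4 429 526)))))))))))))) (node 589 (merge (node 492 (merge (leaf 7 492 621) (node 460 (merge (leaf 4 428 428) (leaf 7 460 493))))) (node 590 (merge (leaf 4 493 622) (node 559 (merge (leaf 3 524 558) (node 588 (merge (leaf 2 556 591) (leaf 5 492 620)))))))))))))) (merge (node 589 (merge (node 492 (merge (leaf 7 492 621) (node 460 (merge (leaf 7 460 493) (leaf 4 460 556))))) (merge (node 621 (merge (leaf 7 492 492) (node 526 (merge (leaf 6 493 494) (node 558 (merge (leaf 3 524 559) (leaf 6 525 653))))))) (merge (node 621 (merge (node 526 (merge (leaf 6 493 494) (node 558 (merge (leaf 3 524 559) (leaf 6 525 653))))) (merge (node 653 (merge (leaf 7 524 556) (node 654 (merge (leaf 4 525 622) (leaf 4 557 686))))) (node 494 (merge (leaf 6 493 526) (node 493 (merge (leaf 6 461 462) (node 622 (merge (leaf 4 493 590) (leaf 4 525 654)))))))))) (node 558 (merge (leaf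 3 524 559) (node 493 (merge (node 461 (merge (leaf 4 461 590) (node 429 (merge (leaf 4 429 526) (leaf 5 428 556))))) (merge (node 462 (merge (leaf 6 461 494) (node 461 (merge (leaf 6 429 430) (node 460 (merge (leaf 7 428 428) (leaf 7 460 492))))))) (node 494 (merge (leaf 6 461 462) (node 495 (merge (leaf 1 492 496) (node 590 (merge (leaf 6 462 526) (leaf 4 493 622)))))))))))))))) (merge (node 493 (merge (node 558 (merge (leaf 3 524 559) (node 590 (merge (leaf 4 461 461) (node 622 (merge (leaf 4 493 589) (leaf 7 525 654))))))) (merge (node 558 (merge (leaf 3 524 559) (node 461 (merge (leaf 4 461 590) (node 556 (merge (leaf 5 428 429) (leaf 5 460 588))))))) (merge (node 589 (merge (node 621 (merge (leaf 7 492 492) (node 620 (merge (leaf 5 492 588) (leaf 5 524 652))))) (merge (node 462 (merge (leaf 6 461 494) (node 461 (merge (leaf 6 429 430) (node 588 (merge (leaf 5 460 556) (leaf 5 492 620))))))) (node 621 (merge (leaf 7 492 492) (node 653 (merge (leaf 7 524 556) (node 654 (merge (leaf 4 525 622) (leaf 4 557 686)))))))))) (node 589 (merge (node 621 (merge (leaf 7 492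 492) (node 620 (merge (leaf 5 492 588) (leaf 5 524 652))))) (merge (node 621 (merge (leaf 7 492 492) (node 622 (merge (leaf 4 493 590) (leaf 4 525 654))))) (node 559 (merge (leaf 3 524 558) (node 590 (merge (leaf 4 493 622) (node 588 (merge (leaf 2 556 591) (leaf 5 492 620)))))))))))))) (merge (node 558 (merge (leaf 3 524 559) (node 493 (merge (node 461 (merge (leaf 4 461 590) (node 429 (merge (leaf 4 429 526) (leaf 5 428 556))))) (merge (node 590 (merge (leaf 4 461 461) (node 622 (merge (leaf 4 493 589) (leaf 7 525 654))))) (merge (node 461 (merge (node 428 (merge (leaf 7 428 460) (node 429 (merge (leaf 7 396 396) (leaf 4 429 526))))) (node 462 (merge (leaf 6 429 430) (node 589 (merge (leaf 6 461 494) (node 588 (merge (leaf 5 460 556) (leaf 5 492 620))))))))) (node 494 (merge (node 462 (merge (leaf 6 461 589) (node 526 (merge (leaf 5 429 430) (leaf 6 430 431))))) (merge (node 495 (merge (leaf 1 492 496) (node 590 (merge (leaf 6 462 526) (node 622 (merge (leaf 4 493 589) (leaf 7 525 654))))))) (merge (node 495 (merge (leaf 1 492 496) (node 526 (merge (leaf 6 462 590)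 (node 462 (merge (leaf 5 429 430) (leaf 6 430 431))))))) (node 589 (merge (leaf 6 461 462) (node 622 (merge (leaf 4 493 590) (node 621 (merge (leaf 4 525 654) (node 620 (merge (leaf 5 492 588) (leaf 5 524 652))))))))))))))))))) (merge (node 589 (merge (node 492 (merge (leaf 7 492 621) (node 460 (merge (leaf 7 460 493) (leaf 4 460 556))))) (merge (node 621 (merge (leaf 7 492 492) (node 526 (merge (leaf 6 493 494) (node 558 (merge (leaf 3 524 559) (leaf 6 525 653))))))) (merge (node 558 (merge (leaf 3 524 559) (node 526 (merge (node 621 (merge (leaf 6 493 494) (leaf 6 525 653))) (merge (node 494 (merge (leaf 5 461 462) (node 495 (merge (leaf 6 462 590) (node 496 (merge (leaf 1 492 493) (leaf 1 493 497))))))) (node 621 (merge (leaf 6 525 653) (node 620 (merge (leaf 5 524 652) (node 493 (merge (leaf 5 492 588) (node 461 (merge (leaf 4 429 429) (leaf 4 461 590)))))))))))))) (node 493 (merge (node 558 (merge (leaf 3 524 559) (node 461 (merge (leaf 4 461 590) (node 429 (merge (leaf 4 429 526) (leaf 5 428 556))))))) (merge (node 462 (merge (leaf 6 461 494) (node 461 (merge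 (leaf 6 429 430) (node 460 (merge (leaf 7 428 428) (leaf 7 460 492))))))) (node 494 (merge (leaf 6 461 462) (node 492 (merge (leaf 7 460 460) (node 495 (merge (leaf 1 492 496) (node 558 (merge (leaf 3 524 559) (node 526 (merge (leaf 6 462 590) (node 491 (merge (leaf 0 490 490) (node 459 (merge (leaf 3 458 458) (node 588 (merge (leaf 7 459 556) (leaf 5 492 620)))))))))))))))))))))))) (merge (node 493 (merge (node 558 (merge (leaf 3 524 559) (node 590 (merge (leaf 4 461 461) (node 622 (merge (leaf 7 493 526) (leaf 7 525 654))))))) (merge (node 460 (merge (node 492 (merge (leaf 4 428 428) (leaf 7 460 589))) (merge (node 589 (merge (leaf 7 460 492) (node 494 (merge (leaf 6 461 462) (node 621 (merge (leaf 6 493 526) (node 620 (merge (leaf 5 492 588) (leaf 5 524 652))))))))) (merge (node 461 (merge (leaf 7 428 428) (node 462 (merge (leaf 6 429 430) (node 495 (merge (leaf 0 460 496) (node 494 (merge (leaf 0 459 459) (leaf 6 461 589))))))))) (node 428 (merge (leaf 4 428 492) (node 461 (merge (leaf 7 428 493) (node 462 (merge (leaf 3 427 427) (node 495 (merge (leaf 0 460 496)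 (node 459 (merge (leaf 0 459 494) (node 431 (merge (leaf 2 427 430) (leaf 2 428 432))))))))))))))))) (node 589 (merge (node 492 (merge (leaf 7 492 621) (node 460 (merge (leaf 4 428 428) (leaf 7 460 493))))) (node 559 (merge (leaf 3 524 558) (node 590 (merge (leaf 4 493 622) (node 588 (merge (leaf 2 556 591) (leaf 5 492 620)))))))))))) (merge (node 556 (merge (node 555 (merge (node 554 (merge (leaf 2 522 526) (leaf 2 521 553))) (node 558 (merge (leaf 3 524 559) (node 587 (merge (leaf 1 554 586) (node 619 (merge (leaf 6 523 651) (node 492 (merge (leaf 5 459 460) (leaf 5 491 588))))))))))) (merge (node 555 (merge (node 554 (merge (leaf 2 522 526) (leaf 2 521 553))) (merge (node 558 (merge (leaf 3 524 559) (node 590 (merge (leaf 0 555 591) (node 622 (merge (leaf 7 525 654) (node 493 (merge (leaf 4 461 461) (leaf 7 493 526))))))))) (node 554 (merge (leaf 2 521 553) (node 586 (merge (leaf 1 553 585) (node 558 (merge (leaf 3 524 559) (leaf 1 554 587)))))))))) (merge (node 558 (merge (leaf 3 524 559) (node 492 (merge (node 460 (merge (leaf 4 428 428) (node 461 (merge (leaf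 6 428 429) (node 493 (merge (leaf 6 460 588) (leaf 4 461 590))))))) (merge (node 460 (merge (leaf 4 428 428) (node 459 (merge (leaf 7 427 427) (node 588 (merge (leaf 7 459 491) (node 620 (merge (leaf 6 492 493) (leaf 6 524 652))))))))) (merge (node 460 (merge (leaf 4 428 428) (node 461 (merge (leaf 6 428 429) (node 459 (merge (leaf 7 427 427) (node 491 (merge (leaf 1 459 462) (leaf 7 459 588))))))))) (merge (node 460 (merge (leaf 4 428 428) (node 461 (merge (leaf 6 428 429) (node 462 (merge (leaf 1 459 491) (node 493 (merge (leaf 6 429 430) (leaf 4 461 590))))))))) (node 493 (merge (node 588 (merge (leaf 5 460 461) (leaf 6 492 620))) (merge (node 461 (merge (leaf 5 428 429) (node 462 (merge (leaf 6 429 430) (node 491 (merge (leaf 2 458 490) (leaf 2 459 494))))))) (node 588 (merge (leaf 6 492 620) (node 491 (merge (leaf 7 459 459) (node 490 (merge (leaf 0 489 489) (leaf 0 490 526))))))))))))))))) (merge (node 492 (merge (node 460 (merge (leaf 4 428 428) (node 555 (merge (leaf 5 459 587) (node 554 (merge (leaf 2 522 526) (leaf 2 521 553))))))) (merge (node 460 (merge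 (leaf 4 428 428) (node 461 (merge (leaf 6 428 429) (node 459 (merge (leaf 7 427 427) (node 491 (merge (leaf 1 459 462) (leaf 7 459 588))))))))) (node 493 (merge (node 588 (merge (leaf 5 460 461) (leaf 6 492 620))) (merge (node 461 (merge (leaf 5 428 429) (node 462 (merge (leaf 6 429 430) (node 491 (merge (leaf 2 458 490) (leaf 2 459 494))))))) (node 588 (merge (leaf 6 492 620) (node 491 (merge (leaf 7 459 459) (node 490 (merge (leaf 0 489 489) (leaf 0 490 526))))))))))))) (node 558 (merge (leaf 3 524 559) (node 492 (merge (node 588 (merge (node 493 (merge (leaf 5 460 461) (leaf 6 492 620))) (node 587 (merge (leaf 5 491 619) (node 586 (merge (leaf 1 554 555) (leaf 2 553 585))))))) (merge (node 460 (merge (leaf 4 428 428) (node 459 (merge (leaf 7 427 427) (node 588 (merge (leaf 7 459 491) (node 587 (merge (leaf 5 459 555) (leaf 5 491 619))))))))) (node 460 (merge (leaf 4 428 428) (node 461 (merge (leaf 6 428 429) (node 459 (merge (leaf 7 427 427) (node 493 (merge (leaf 4 461 590) (node 458 (merge (leaf 0 457 457) (leaf 0 458 494))))))))))))))))))))) (merge (node 493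 (merge (node 460 (merge (node 492 (merge (leaf 4 428 428) (leaf 7 460 589))) (merge (node 589 (merge (leaf 7 460 492) (node 462 (merge (leaf 6 461 494) (node 461 (merge (leaf 6 429 430) (node 588 (merge (leaf 5 460 556) (leaf 5 492 620))))))))) (merge (node 461 (merge (leaf 7 428 428) (node 462 (merge (leaf 6 429 430) (node 589 (merge (leaf 6 461 494) (node 588 (merge (leaf 5 460 556) (leaf 5 492 620))))))))) (node 428 (merge (leaf 4 428 492) (node 461 (merge (leaf 7 428 493) (node 462 (merge (leaf 3 427 427) (node 495 (merge (leaf 0 460 496) (node 459 (merge (leaf 0 459 494) (node 431 (merge (leaf 2 427 430) (leaf 2 428 432))))))))))))))))) (merge (node 462 (merge (node 461 (merge (leaf 6 429 430) (node 556 (merge (leaf 5 428 429) (leaf 5 460 588))))) (merge (node 494 (merge (leaf 6 461 589) (node 430 (merge (leaf 5 397 398) (leaf 5 429 526))))) (node 589 (merge (leaf 6 461 494) (node 620 (merge (leaf 5 492 588) (node 621 (merge (leaf 5 524 652) (node 653 (merge (leaf 7 524 556) (node 654 (merge (leaf 4 525 622) (leaf 4 557 686)))))))))))))) (merge (node 460 (merge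 (node 492 (merge (leaf 4 428 428) (leaf 7 460 589))) (merge (node 589 (merge (leaf 7 460 492) (node 494 (merge (leaf 6 461 462) (node 621 (merge (leaf 6 493 526) (node 620 (merge (leaf 5 492 588) (leaf 5 524 652))))))))) (merge (node 461 (merge (leaf 7 428 428) (node 462 (merge (leaf 6 429 430) (node 495 (merge (leaf 0 460 496) (node 494 (merge (leaf 0 459 459) (leaf 6 461 589))))))))) (node 428 (merge (leaf 4 428 492) (node 461 (merge (leaf 7 428 493) (node 462 (merge (leaf 3 427 427) (node 495 (merge (leaf 0 460 496) (node 459 (merge (leaf 0 459 494) (node 431 (merge (leaf 2 427 430) (leaf 2 428 432))))))))))))))))) (merge (node 492 (merge (node 589 (merge (leaf 7 492 621) (node 460 (merge (leaf 7 460 493) (leaf 4 460 556))))) (merge (node 491 (merge (node 490 (merge (leaf 0 489 489) (leaf 0 490 526))) (node 494 (merge (leaf 2 459 462) (node 495 (merge (leaf 1 492 496) (node 460 (merge (leaf 3 459 459) (node 428 (merge (leaf 4 396 396) (leaf 4 428 557))))))))))) (node 589 (merge (leaf 7 492 621) (node 558 (merge (leaf 3 524 559) (node 588 (merge (leaf 5 492 620)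 (node 587 (merge (leaf 2 554 586) (node 556 (merge (leaf 5 491 619) (node 491 (merge (leaf 7 459 459) (node 490 (merge (leaf 0 489 489) (leaf 0 490 526)))))))))))))))))) (merge (node 492 (merge (node 589 (merge (leaf 7 492 621) (node 460 (merge (leaf 7 460 493) (leaf 4 460 556))))) (merge (node 491 (merge (node 490 (merge (leaf 0 489 489) (leaf 0 490 526))) (node 494 (merge (leaf 2 459 462) (node 495 (merge (leaf 1 492 496) (node 459 (merge (leaf 3 458 458) (leaf 3 459 460))))))))) (node 589 (merge (leaf 7 492 621) (node 462 (merge (leaf 6 461 494) (node 461 (merge (leaf 6 429 430) (node 429 (merge (leaf 5 396 397) (leaf 5 428 556)))))))))))) (merge (node 492 (merge (node 460 (merge (leaf 7 460 589) (node 428 (merge (leaf 7 428 461) (leaf 4 428 524))))) (merge (node 589 (merge (leaf 7 492 621) (node 460 (merge (leaf 7 460 493) (leaf 4 460 556))))) (merge (node 556 (merge (node 461 (merge (leaf 5 428 429) (leaf 6 460 588))) (node 460 (merge (leaf 4 428 428) (node 555 (merge (leaf 5 459 587) (node 554 (merge (leaf 2 522 526) (leaf 2 521 553))))))))) (node 589 (merge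 (leaf 7 492 621) (node 558 (merge (leaf 3 524 559) (node 588 (merge (leaf 5 492 620) (node 556 (merge (leaf 6 460 461) (node 587 (merge (leaf 2 554 586) (leaf 5 491 619))))))))))))))) (node 492 (merge (node 556 (merge (node 461 (merge (leaf 5 428 429) (leaf 6 460 588))) (node 460 (merge (leaf 4 428 428) (node 555 (merge (leaf 5 459 587) (node 554 (merge (leaf 2 522 526) (leaf 2 521 553))))))))) (merge (node 491 (merge (node 490 (merge (leaf 0 489 489) (leaf 0 490 526))) (node 494 (merge (leaf 2 459 462) (node 495 (merge (leaf 1 492 496) (node 459 (merge (leaf 3 458 458) (leaf 3 459 460))))))))) (merge (node 556 (merge (node 461 (merge (leaf 5 428 429) (leaf 6 460 588))) (merge (node 461 (merge (leaf 5 428 429) (node 462 (merge (leaf 6 429 430) (node 491 (merge (leaf 2 458 490) (leaf 2 459 494))))))) (node 588 (merge (leaf 6 492 620) (node 491 (merge (leaf 7 459 459) (node 490 (merge (leaf 0 489 489) (leaf 0 490 526)))))))))) (node 460 (merge (node 428 (merge (leaf 4 396 396) (node 429 (merge (leaf 6 396 397) (node 427 (merge (leaf 7 395 395) (node 462 (merge (leaf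 0 427 430) (leaf 3 427 461))))))))) (merge (node 428 (merge (leaf 4 396 396) (node 427 (merge (leaf 7 395 395) (node 556 (merge (leaf 7 427 459) (node 461 (merge (leaf 3 427 462) (leaf 6 460 588))))))))) (merge (node 428 (merge (leaf 4 396 396) (node 429 (merge (leaf 6 396 397) (node 427 (merge (leaf 7 395 395) (node 430 (merge (leaf 0 427 462) (node 459 (merge (leaf 1 426 458) (leaf 7 427 556))))))))))) (merge (node 556 (merge (node 461 (merge (leaf 6 428 429) (node 588 (merge (leaf 6 460 493) (node 587 (merge (leaf 5 459 555) (leaf 5 491 619))))))) (merge (node 461 (merge (leaf 6 428 429) (node 459 (merge (leaf 7 427 427) (node 491 (merge (leaf 1 459 462) (leaf 7 459 588))))))) (merge (node 459 (merge (leaf 7 427 427) (node 588 (merge (leaf 7 459 491) (node 587 (merge (leaf 5 459 555) (leaf 5 491 619))))))) (node 461 (merge (leaf 6 428 429) (node 459 (merge (leaf 7 427 427) (node 462 (merge (leaf 1 459 491) (node 431 (merge (leaf 2 427 430) (leaf 2 428 432))))))))))))) (node 428 (merge (leaf 4 396 396) (node 429 (merge (leaf 6 396 397) (node 461 (merge (leaf 6 428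 556) (node 430 (merge (leaf 6 397 398) (node 431 (merge (leaf 1 428 432) (leaf 1 427 459))))))))))))))))))))))))))) (merge (node 493 (merge (node 589 (merge (node 494 (merge (leaf 6 461 462) (node 621 (merge (leaf 6 493 526) (node 622 (merge (leaf 4 493 590) (leaf 4 525 654))))))) (merge (node 462 (merge (leaf 6 461 494) (node 461 (merge (leaf 6 429 430) (node 588 (merge (leaf 5 460 556) (leaf 5 492 620))))))) (node 622 (merge (leaf 4 493 590) (node 621 (merge (leaf 4 525 654) (node 620 (merge (leaf 5 492 588) (leaf 5 524 652)))))))))) (merge (node 589 (merge (node 622 (merge (leaf 4 493 590) (node 621 (merge (leaf 4 525 654) (node 620 (merge (leaf 5 492 588) (leaf 5 524 652))))))) (node 462 (merge (leaf 6 461 494) (node 461 (merge (leaf 6 429 430) (node 460 (merge (leaf 7 428 428) (leaf 7 460 492))))))))) (merge (node 589 (merge (node 492 (merge (leaf 7 460 460) (node 621 (merge (leaf 7 492 524) (node 622 (merge (leaf 4 493 590) (leaf 4 525 654))))))) (merge (node 492 (merge (leaf 7 460 460) (node 621 (merge (leaf 7 492 524) (node 620 (merge (leaf 5 492 588) (leaf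 5 524 652))))))) (node 590 (merge (leaf 4 493 622) (node 588 (merge (leaf 5 492 620) (node 591 (merge (leaf 2 556 559) (node 556 (merge (leaf 5 460 461) (leaf 3 555 555)))))))))))) (merge (node 492 (merge (node 589 (merge (leaf 7 492 621) (node 460 (merge (leaf 7 460 493) (leaf 4 460 556))))) (merge (node 491 (merge (node 490 (merge (leaf 0 489 489) (leaf 0 490 526))) (node 494 (merge (leaf 2 459 462) (node 495 (merge (leaf 1 492 496) (node 460 (merge (leaf 3 459 459) (node 428 (merge (leaf 4 396 396) (leaf 4 428 557))))))))))) (node 588 (merge (node 589 (merge (leaf 5 492 620) (leaf 7 492 621))) (merge (node 556 (merge (leaf 6 492 620) (node 491 (merge (leaf 7 459 459) (node 490 (merge (leaf 0 489 489) (leaf 0 490 526))))))) (node 589 (merge (leaf 7 492 621) (node 590 (merge (leaf 4 493 622) (node 591 (merge (leaf 2 556 559) (node 556 (merge (leaf 3 555 555) (node 491 (merge (leaf 7 459 459) (node 490 (merge (leaf 0 489 489) (leaf 0 490 526))))))))))))))))))) (merge (node 492 (merge (node 460 (merge (leaf 4 428 428) (leaf 7 460 589))) (merge (node 589 (merge (leaf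 7 492 621) (node 462 (merge (leaf 6 461 494) (node 461 (merge (leaf 6 429 430) (node 429 (merge (leaf 5 396 397) (leaf 5 428 556))))))))) (node 460 (merge (node 428 (merge (leaf 4 396 396) (leaf 4 428 557))) (node 459 (merge (node 458 (merge (leaf 0 457 457) (node 494 (merge (leaf 0 458 461) (leaf 3 459 495))))) (node 427 (merge (leaf 7 427 556) (node 395 (merge (leaf 4 363 363) (leaf 4 395 491)))))))))))) (node 492 (merge (node 556 (merge (node 461 (merge (leaf 5 428 429) (leaf 6 460 588))) (node 460 (merge (leaf 4 428 428) (node 555 (merge (leaf 5 459 587) (node 554 (merge (leaf 2 522 526) (leaf 2 521 553))))))))) (merge (node 491 (merge (node 490 (merge (leaf 0 489 489) (leaf 0 490 526))) (node 494 (merge (leaf 2 459 462) (node 495 (merge (leaf 1 492 496) (node 459 (merge (leaf 3 458 458) (leaf 3 459 460))))))))) (merge (node 556 (merge (node 461 (merge (leaf 5 428 429) (leaf 6 460 588))) (merge (node 461 (merge (leaf 5 428 429) (node 462 (merge (leaf 6 429 430) (node 491 (merge (leaf 2 458 490) (leaf 2 459 494))))))) (node 588 (merge (leaf 6 492 620) (node 491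 (merge (leaf 7 459 459) (node 490 (merge (leaf 0 489 489) (leaf 0 490 526)))))))))) (node 460 (merge (node 428 (merge (leaf 4 396 396) (node 429 (merge (leaf 6 396 397) (node 427 (merge (leaf 7 395 395) (node 462 (merge (leaf 0 427 430) (leaf 3 427 461))))))))) (merge (node 428 (merge (leaf 4 396 396) (node 427 (merge (leaf 7 395 395) (node 556 (merge (leaf 7 427 459) (node 461 (merge (leaf 3 427 462) (leaf 6 460 588))))))))) (merge (node 428 (merge (leaf 4 396 396) (node 429 (merge (leaf 6 396 397) (node 427 (merge (leaf 7 395 395) (node 430 (merge (leaf 0 427 462) (node 459 (merge (leaf 1 426 458) (leaf 7 427 556))))))))))) (merge (node 556 (merge (node 461 (merge (leaf 6 428 429) (node 588 (merge (leaf 6 460 493) (node 587 (merge (leaf 5 459 555) (leaf 5 491 619))))))) (merge (node 461 (merge (leaf 6 428 429) (node 459 (merge (leaf 7 427 427) (node 491 (merge (leaf 1 459 462) (leaf 7 459 588))))))) (merge (node 459 (merge (leaf 7 427 427) (node 588 (merge (leaf 7 459 491) (node 587 (merge (leaf 5 459 555) (leaf 5 491 619))))))) (node 461 (merge (leaf 6 428 429)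 (node 459 (merge (leaf 7 427 427) (node 462 (merge (leaf 1 459 491) (node 431 (merge (leaf 2 427 430) (leaf 2 428 432))))))))))))) (node 428 (merge (leaf 4 396 396) (node 429 (merge (leaf 6 396 397) (node 461 (merge (leaf 6 428 556) (node 430 (merge (leaf 6 397 398) (node 431 (merge (leaf 1 428 432) (leaf 1 427 459)))))))))))))))))))))))))) (merge (node 589 (merge (node 621 (merge (leaf 7 492 492) (node 526 (merge (leaf 6 493 494) (node 558 (merge (leaf 3 524 559) (leaf 6 525 653))))))) (merge (node 621 (merge (node 653 (merge (leaf 7 524 556) (node 654 (merge (leaf 4 525 622) (leaf 4 557 686))))) (node 494 (merge (leaf 6 493 526) (node 493 (merge (leaf 6 461 462) (node 620 (merge (leaf 5 492 588) (leaf 5 524 652))))))))) (node 588 (merge (node 620 (merge (leaf 5 492 493) (node 652 (merge (leaf 6 524 556) (leaf 6 556 684))))) (merge (node 590 (merge (node 559 (merge (leaf 1 556 558) (leaf 2 556 591))) (merge (node 558 (merge (leaf 1 556 559) (node 622 (merge (leaf 7 525 654) (node 587 (merge (leaf 2 554 586) (leaf 0 587 623))))))) (merge (node 622 (merge (node 654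 (merge (leaf 7 525 558) (leaf 7 557 686))) (node 623 (merge (leaf 0 587 587) (node 624 (merge (leaf 0 588 591) (leaf 3 589 625))))))) (node 591 (merge (leaf 2 556 559) (node 623 (merge (leaf 0 588 624) (node 587 (merge (leaf 0 587 622) (node 619 (merge (leaf 1 586 618) (leaf 1 587 620))))))))))))) (node 590 (merge (node 559 (merge (leaf 1 556 558) (leaf 2 556 591))) (merge (node 558 (merge (leaf 1 556 559) (node 622 (merge (leaf 7 525 654) (node 587 (merge (leaf 2 554 586) (leaf 0 587 623))))))) (merge (node 622 (merge (node 654 (merge (leaf 7 525 558) (leaf 7 557 686))) (node 623 (merge (leaf 0 587 587) (node 624 (merge (leaf 0 588 591) (leaf 3 589 625))))))) (node 591 (merge (leaf 2 556 559) (node 623 (merge (leaf 0 588 624) (node 587 (merge (leaf 0 587 622) (node 555 (merge (leaf 3 554 554) (leaf 3 555 556))))))))))))))))))) (merge (node 589 (merge (node 492 (merge (leaf 7 492 621) (node 460 (merge (leaf 4 428 428) (leaf 7 460 493))))) (merge (node 621 (merge (leaf 7 492 492) (node 653 (merge (leaf 7 524 556) (node 652 (merge (leaf 5 524 620) (leaf 5 556 684)))))))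 (merge (node 621 (merge (node 653 (merge (leaf 7 524 556) (node 654 (merge (leaf 4 525 622) (leaf 4 557 686))))) (node 494 (merge (leaf 6 493 526) (node 493 (merge (leaf 6 461 462) (node 620 (merge (leaf 5 492 588) (leaf 5 524 652))))))))) (node 588 (merge (node 620 (merge (leaf 5 492 493) (node 652 (merge (leaf 6 524 556) (leaf 6 556 684))))) (merge (node 493 (merge (leaf 5 492 620) (node 460 (merge (leaf 7 460 492) (node 461 (merge (leaf 7 428 428) (node 590 (merge (leaf 4 461 558) (leaf 4 493 622))))))))) (merge (node 556 (merge (node 493 (merge (leaf 5 460 461) (node 590 (merge (leaf 4 493 622) (node 555 (merge (leaf 0 554 554) (leaf 3 555 591))))))) (merge (node 492 (merge (leaf 4 460 460) (node 493 (merge (leaf 6 460 461) (node 491 (merge (leaf 7 459 459) (node 490 (merge (leaf 0 489 489) (leaf 0 490 526))))))))) (node 492 (merge (leaf 4 460 460) (node 587 (merge (leaf 5 491 619) (node 586 (merge (leaf 2 553 585) (node 554 (merge (leaf 3 553 553) (node 555 (merge (leaf 2 522 526) (leaf 0 554 590)))))))))))))) (node 587 (merge (node 586 (merge (leaf 2 554 558)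 (node 585 (merge (leaf 2 553 556) (node 553 (merge (leaf 3 552 552) (leaf 3 553 554))))))) (merge (node 586 (merge (leaf 2 554 558) (node 617 (merge (leaf 1 585 618) (node 585 (merge (leaf 2 553 556) (leaf 1 584 616))))))) (merge (node 586 (merge (leaf 2 554 558) (node 618 (merge (leaf 1 585 617) (node 590 (merge (leaf 1 586 619) (node 554 (merge (leaf 3 553 553) (leaf 3 554 555))))))))) (merge (node 590 (merge (node 622 (merge (leaf 0 587 623) (node 654 (merge (leaf 7 525 558) (leaf 7 557 686))))) (node 619 (merge (leaf 1 586 618) (node 591 (merge (leaf 1 587 620) (node 555 (merge (leaf 3 554 554) (leaf 3 555 556))))))))) (node 556 (merge (node 619 (merge (leaf 5 491 492) (node 651 (merge (leaf 6 523 555) (leaf 6 555 683))))) (merge (node 586 (merge (leaf 2 553 585) (node 554 (merge (leaf 3 553 553) (node 555 (merge (leaf 2 522 526) (leaf 0 554 590))))))) (node 620 (merge (leaf 6 524 652) (node 619 (merge (leaf 5 523 651) (node 590 (merge (leaf 1 587 591) (node 618 (merge (leaf 1 586 587) (leaf 2 585 617))))))))))))))))))))))))) (hyp 0))))))))))))) nP_286 cP_286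 15 (by decide +kernel)
def nP_287 : ℕ := 0x100000001200000000000000080000000000000000000000000000000000000000000000000000000000000000000000000000000000000000000000000000000000000000000
def cP_287 : ℕ := 0xc000000fc000007ff000007ff00000eff000006ffc000005f800003ffc000007f000001ff000000fe0000007c000000000000000000000000000000000000000000000000000000000000000000000000000000000000000000
theorem lP_287 : S nP_287 cP_287 16 := S_of_chk [(nP_256, cP_256, 9), (nP_275, cP_275, 12), (nP_277, cP_277, 12), (nP_278, cP_278, 12), (nP_262, cP_262, 11), (nP_279, cP_279, 11), (nP_280, cP_280, 12), (nP_281, cP_281, 12), (nP_282, cP_282, 11), (nP_284, cP_284, 13), (nP_286, cP_286, 15)] ⟨lP_256, lP_275, lP_277, lP_278, lP_262, lP_279, lP_280, lP_281, lP_282, lP_284, lP_286, trivial⟩ (node 524 (merge (node 523 (merge (node 558 (merge (node 559 (merge (leaf 0 523 526) (leaf 3 524 557))) (merge (node 557 (merge (leaf 0 522 522) (leaf 3 524 559))) (merge (node 522 (merge (leaf 0 522 557) (node 554 (merge (leaf 1 521 553) (node 526 (merge (leaf 1 522 555) (node 494 (merge (leaf 2 490 493)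 (leaf 2 491 495))))))))) (node 526 (merge (leaf 0 523 559) (node 554 (merge (leaf 1 522 555) (node 522 (merge (leaf 1 521 553) (node 494 (merge (leaf 2 490 493) (leaf 2 491 495))))))))))))) (merge (node 522 (merge (node 558 (merge (leaf 0 522 557) (node 526 (merge (leaf 0 523 559) (node 494 (merge (leaf 2 490 493) (leaf 2 491 495))))))) (merge (node 557 (merge (leaf 0 522 558) (node 521 (merge (leaf 0 521 556) (node 489 (merge (leaf 3 488 488) (leaf 3 489 490))))))) (node 494 (merge (leaf 2 490 493) (node 526 (merge (leaf 2 491 495) (node 490 (merge (leaf 3 489 489) (leaf 3 490 491)))))))))) (merge (hyp 0) (node 491 (merge (node 522 (merge (node 554 (merge (leaf 1 521 553) (node 586 (merge (leaf 6 490 618) (node 490 (merge (leaf 6 458 459) (leaf 3 489 489))))))) (merge (node 557 (merge (leaf 0 522 558) (node 521 (merge (leaf 0 521 556) (node 489 (merge (leaf 3 488 488) (leaf 3 489 490))))))) (node 557 (merge (leaf 0 522 558) (node 521 (merge (leaf 0 521 556) (node 553 (merge (leaf 1 520 552) (leaf 1 521 554)))))))))) (merge (node 522 (merge (node 489 (merge (leaf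 3 489 490) (node 521 (merge (leaf 3 488 488) (node 492 (merge (leaf 2 489 493) (leaf 2 488 520))))))) (node 554 (merge (leaf 1 521 553) (node 586 (merge (leaf 6 490 618) (node 459 (merge (leaf 5 426 427) (leaf 5 458 555))))))))) (merge (node 522 (merge (node 554 (merge (leaf 1 521 553) (node 586 (merge (leaf 6 490 618) (node 459 (merge (leaf 5 426 427) (leaf 5 458 555))))))) (node 557 (merge (leaf 0 522 558) (node 521 (merge (leaf 0 521 556) (node 493 (merge (leaf 2 489 492) (leaf 2 490 494))))))))) (merge (node 459 (merge (node 427 (merge (leaf 4 427 556) (node 394 (merge (leaf 7 394 426) (node 395 (merge (leaf 7 362 362) (leaf 4 395 492))))))) (merge (node 427 (merge (leaf 4 427 556) (node 396 (merge (leaf 6 395 428) (node 395 (merge (leaf 6 363 364) (leaf 4 395 492))))))) (merge (node 427 (merge (leaf 4 427 556) (node 428 (merge (leaf 6 395 396) (node 555 (merge (leaf 6 427 460) (node 426 (merge (leaf 7 394 394) (leaf 7 426 458))))))))) (merge (node 427 (merge (node 396 (merge (leaf 6 395 428) (node 395 (merge (leaf 6 363 364) (leaf 4 395 492))))) (merge (node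 394 (merge (leaf 7 394 426) (node 395 (merge (leaf 7 362 362) (leaf 4 395 492))))) (node 428 (merge (leaf 6 395 396) (node 555 (merge (leaf 6 427 460) (node 426 (merge (leaf 7 394 394) (leaf 7 426 458)))))))))) (node 555 (merge (node 556 (merge (leaf 4 459 588) (node 554 (merge (leaf 2 521 553) (leaf 5 458 586))))) (node 460 (merge (leaf 6 427 428) (node 587 (merge (leaf 6 459 492) (node 458 (merge (leaf 7 426 426) (leaf 7 458 490)))))))))))))) (merge (node 459 (merge (node 556 (merge (leaf 4 427 427) (node 588 (merge (leaf 4 459 555) (leaf 7 491 620))))) (merge (node 427 (merge (leaf 4 427 556) (node 394 (merge (leaf 7 394 426) (node 395 (merge (leaf 7 362 362) (leaf 4 395 492))))))) (merge (node 427 (merge (node 394 (merge (leaf 7 394 426) (node 395 (merge (leaf 7 362 362) (leaf 4 395 492))))) (merge (node 428 (merge (leaf 6 395 396) (node 460 (merge (leaf 6 427 555) (node 492 (merge (leaf 7 395 395) (leaf 4 428 557))))))) (node 428 (merge (leaf 6 395 396) (node 555 (merge (leaf 6 427 460) (node 426 (merge (leaf 7 394 394) (leaf 7 426 458)))))))))) (node 460 (merge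 (node 428 (merge (leaf 6 427 555) (node 396 (merge (leaf 5 363 364) (leaf 5 395 492))))) (merge (node 557 (merge (node 558 (merge (leaf 0 522 522) (leaf 3 524 559))) (node 492 (merge (leaf 4 428 428) (node 556 (merge (leaf 7 459 588) (leaf 4 460 589))))))) (merge (node 555 (merge (leaf 6 427 428) (node 458 (merge (leaf 7 426 426) (node 587 (merge (leaf 7 458 490) (node 588 (merge (leaf 4 459 556) (leaf 4 491 620))))))))) (node 492 (merge (node 555 (merge (leaf 6 459 587) (node 458 (merge (leaf 7 426 426) (node 457 (merge (leaf 0 456 456) (leaf 0 457 493))))))) (node 556 (merge (leaf 7 459 588) (node 557 (merge (leaf 4 460 589) (node 522 (merge (leaf 0 521 521) (leaf 0 522 558))))))))))))))))) (node 490 (merge (node 489 (merge (leaf 0 488 488) (leaf 3 489 522))) (merge (node 489 (merge (leaf 0 488 488) (leaf 0 489 492))) (node 522 (merge (node 554 (merge (leaf 1 521 553) (node 586 (merge (leaf 6 490 618) (node 587 (merge (leaf 4 490 619) (node 458 (merge (leaf 7 458 555) (node 425 (merge (leaf 7 425 457) (node 426 (merge (leaf 7 393 393) (leaf 4 394 394)))))))))))))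 (node 557 (merge (leaf 0 522 558) (node 521 (merge (leaf 0 521 556) (node 520 (merge (leaf 2 488 492) (node 551 (merge (leaf 1 519 552) (node 519 (merge (leaf 2 487 490) (leaf 1 518 550)))))))))))))))))))))))))) (merge (node 523 (merge (node 558 (merge (node 559 (merge (leaf 0 523 526) (leaf 3 524 557))) (merge (node 557 (merge (leaf 0 522 522) (leaf 3 524 559))) (merge (node 522 (merge (leaf 0 522 557) (node 554 (merge (leaf 1 521 553) (node 526 (merge (leaf 1 522 555) (node 494 (merge (leaf 2 490 493) (leaf 2 491 495))))))))) (node 526 (merge (leaf 0 523 559) (node 554 (merge (leaf 1 522 555) (node 522 (merge (leaf 1 521 553) (node 494 (merge (leaf 2 490 493) (leaf 2 491 495))))))))))))) (merge (node 522 (merge (node 558 (merge (leaf 0 522 557) (node 526 (merge (leaf 0 523 559) (node 494 (merge (leaf 2 490 493) (leaf 2 491 495))))))) (merge (node 557 (merge (leaf 0 522 558) (node 521 (merge (leaf 0 521 556) (node 489 (merge (leaf 3 488 488) (leaf 3 489 490))))))) (node 494 (merge (leaf 2 490 493) (node 526 (merge (leaf 2 491 495) (node 490 (merge (leaf 3 489 489)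 (leaf 3 490 491)))))))))) (merge (node 493 (merge (node 522 (merge (leaf 2 490 494) (node 553 (merge (leaf 1 521 554) (node 521 (merge (leaf 1 520 552) (node 489 (merge (leaf 3 488 488) (leaf 3 489 490))))))))) (merge (node 557 (merge (node 558 (merge (leaf 3 524 559) (node 461 (merge (leaf 4 461 590) (node 556 (merge (leaf 5 428 429) (leaf 5 460 588))))))) (merge (node 494 (merge (node 495 (merge (leaf 1 491 492) (leaf 1 492 496))) (node 589 (merge (leaf 6 461 462) (node 622 (merge (leaf 4 493 590) (node 621 (merge (leaf 4 525 654) (node 620 (merge (leaf 5 492 588) (leaf 5 524 652))))))))))) (node 558 (merge (leaf 3 524 559) (node 494 (merge (node 495 (merge (leaf 1 491 492) (leaf 1 492 496))) (node 462 (merge (leaf 6 461 589) (node 430 (merge (leaf 5 397 398) (leaf 6 429 461)))))))))))) (node 557 (merge (node 522 (merge (leaf 0 522 558) (node 553 (merge (leaf 1 521 554) (node 521 (merge (leaf 2 489 492) (leaf 1 520 552))))))) (merge (node 558 (merge (leaf 3 524 559) (node 590 (merge (leaf 4 461 461) (node 622 (merge (leaf 4 493 589) (leaf 7 525 654))))))) (node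 461 (merge (node 556 (merge (leaf 5 428 429) (leaf 5 460 588))) (merge (node 430 (merge (leaf 6 429 462) (node 429 (merge (leaf 6 397 398) (node 396 (merge (leaf 7 396 428) (node 397 (merge (leaf 7 364 364) (leaf 5 396 492))))))))) (node 588 (merge (leaf 5 460 556) (node 589 (merge (leaf 5 492 620) (node 621 (merge (leaf 7 492 492) (node 622 (merge (leaf 4 493 590) (leaf 4 525 654)))))))))))))))))) (node 491 (merge (node 490 (merge (leaf 3 490 526) (node 489 (merge (leaf 0 488 488) (leaf 0 489 492))))) (merge (node 555 (merge (node 554 (merge (leaf 1 522 526) (node 553 (merge (leaf 2 520 552) (leaf 2 521 556))))) (merge (node 554 (merge (node 553 (merge (leaf 2 520 552) (leaf 2 521 556))) (node 586 (merge (leaf 5 458 459) (node 618 (merge (leaf 5 490 587) (leaf 6 522 650))))))) (node 490 (merge (leaf 3 490 526) (node 458 (merge (leaf 7 458 587) (node 426 (merge (leaf 4 394 394) (leaf 7 426 459)))))))))) (merge (node 555 (merge (node 554 (merge (leaf 1 522 526) (node 553 (merge (leaf 2 520 552) (leaf 2 521 556))))) (merge (node 554 (merge (leaf 1 522 526) (node 586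 (merge (leaf 5 458 459) (node 618 (merge (leaf 5 490 587) (leaf 6 522 650))))))) (node 459 (merge (node 556 (merge (leaf 4 427 427) (node 588 (merge (leaf 4 459 555) (leaf 7 491 620))))) (merge (node 426 (merge (leaf 7 426 458) (node 427 (merge (leaf 7 394 394) (node 396 (merge (leaf 6 395 428) (node 395 (merge (leaf 6 363 364) (leaf 4 395 492))))))))) (node 588 (merge (leaf 4 459 556) (node 587 (merge (leaf 4 491 620) (node 619 (merge (leaf 6 491 492) (node 618 (merge (leaf 5 490 586) (leaf 5 522 650))))))))))))))) (node 459 (merge (node 556 (merge (leaf 4 427 427) (node 588 (merge (leaf 4 459 555) (leaf 7 491 620))))) (merge (node 427 (merge (leaf 4 427 556) (node 394 (merge (leaf 7 394 426) (node 395 (merge (leaf 7 362 362) (leaf 4 395 492))))))) (merge (node 555 (merge (node 556 (merge (leaf 4 459 588) (node 554 (merge (leaf 2 521 553) (leaf 5 458 586))))) (merge (node 458 (merge (leaf 7 426 426) (node 587 (merge (leaf 7 458 490) (node 588 (merge (leaf 4 459 556) (leaf 4 491 620))))))) (node 458 (merge (leaf 7 426 426) (node 587 (merge (leaf 7 458 490) (node 586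 (merge (leaf 5 458 554) (leaf 5 490 618)))))))))) (node 427 (merge (node 396 (merge (leaf 6 395 428) (node 395 (merge (leaf 6 363 364) (leaf 4 395 492))))) (merge (node 396 (merge (leaf 6 395 428) (node 395 (merge (leaf 6 363 364) (node 394 (merge (leaf 7 362 362) (leaf 7 394 426))))))) (node 426 (merge (leaf 7 394 394) (node 555 (merge (leaf 7 426 458) (node 586 (merge (leaf 5 458 554) (node 587 (merge (leaf 5 490 618) (node 619 (merge (leaf 6 491 492) (node 620 (merge (leaf 4 491 588) (leaf 4 523 652)))))))))))))))))))))))))))) (merge (node 523 (merge (node 558 (merge (node 559 (merge (leaf 0 523 526) (leaf 3 524 557))) (merge (node 557 (merge (leaf 0 522 522) (leaf 3 524 559))) (merge (node 522 (merge (leaf 0 522 557) (node 554 (merge (leaf 1 521 553) (node 526 (merge (leaf 1 522 555) (node 494 (merge (leaf 2 490 493) (leaf 2 491 495))))))))) (node 526 (merge (leaf 0 523 559) (node 554 (merge (leaf 1 522 555) (node 522 (merge (leaf 1 521 553) (node 494 (merge (leaf 2 490 493) (leaf 2 491 495))))))))))))) (merge (node 522 (merge (node 558 (merge (leaf 0 522 557)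 (node 526 (merge (leaf 0 523 559) (node 494 (merge (leaf 2 490 493) (leaf 2 491 495))))))) (merge (node 557 (merge (leaf 0 522 558) (node 521 (merge (leaf 0 521 556) (node 489 (merge (leaf 3 488 488) (leaf 3 489 490))))))) (node 494 (merge (leaf 2 490 493) (node 526 (merge (leaf 2 491 495) (node 490 (merge (leaf 3 489 489) (leaf 3 490 491)))))))))) (merge (node 493 (merge (node 522 (merge (leaf 2 490 494) (node 553 (merge (leaf 1 521 554) (node 521 (merge (leaf 1 520 552) (node 489 (merge (leaf 3 488 488) (leaf 3 489 490))))))))) (merge (node 461 (merge (node 429 (merge (leaf 5 428 556) (node 396 (merge (leaf 7 396 428) (node 397 (merge (leaf 7 364 364) (leaf 5 396 492))))))) (merge (node 429 (merge (leaf 5 428 556) (node 398 (merge (leaf 6 397 430) (node 397 (merge (leaf 6 365 366) (leaf 5 396 492))))))) (merge (node 429 (merge (leaf 5 428 556) (node 398 (merge (leaf 6 397 430) (node 397 (merge (leaf 6 365 366) (node 396 (merge (leaf 7 364 364) (leaf 7 396 428))))))))) (node 557 (merge (node 558 (merge (leaf 3 524 559) (leaf 4 461 590))) (node 462 (merge (leaf 6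 429 430) (node 589 (merge (leaf 6 461 494) (node 460 (merge (leaf 7 428 428) (leaf 7 460 492))))))))))))) (node 557 (merge (node 558 (merge (leaf 0 522 522) (leaf 3 524 559))) (node 461 (merge (node 556 (merge (leaf 5 428 429) (leaf 5 460 588))) (merge (node 430 (merge (leaf 6 429 462) (node 429 (merge (leaf 6 397 398) (node 428 (merge (leaf 7 396 396) (leaf 7 428 460))))))) (node 460 (merge (leaf 7 428 428) (node 589 (merge (leaf 7 460 492) (node 622 (merge (leaf 4 493 590) (node 621 (merge (leaf 4 525 654) (node 556 (merge (leaf 5 460 588) (leaf 7 524 653))))))))))))))))))) (node 491 (merge (node 490 (merge (leaf 3 490 526) (node 489 (merge (leaf 0 488 488) (leaf 0 489 492))))) (merge (node 555 (merge (node 554 (merge (leaf 1 522 526) (node 553 (merge (leaf 2 520 552) (leaf 2 521 556))))) (merge (node 554 (merge (node 553 (merge (leaf 2 520 552) (leaf 2 521 556))) (node 586 (merge (leaf 5 458 459) (node 618 (merge (leaf 5 490 587) (leaf 6 522 650))))))) (node 490 (merge (leaf 3 490 526) (node 458 (merge (leaf 7 458 587) (node 426 (merge (leaf 4 394 394) (leaf 7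 426 459)))))))))) (merge (node 555 (merge (node 554 (merge (leaf 1 522 526) (node 553 (merge (leaf 2 520 552) (leaf 2 521 556))))) (merge (node 554 (merge (leaf 1 522 526) (node 586 (merge (leaf 5 458 459) (node 618 (merge (leaf 5 490 587) (leaf 6 522 650))))))) (node 587 (merge (node 492 (merge (leaf 6 459 460) (leaf 6 491 619))) (merge (node 618 (merge (leaf 5 490 586) (node 619 (merge (leaf 5 522 650) (node 556 (merge (leaf 6 523 651) (node 459 (merge (leaf 4 427 427) (leaf 4 459 588))))))))) (node 460 (merge (leaf 6 459 492) (node 459 (merge (leaf 6 427 428) (node 426 (merge (leaf 7 426 458) (node 427 (merge (leaf 7 394 394) (leaf 4 427 556))))))))))))))) (node 459 (merge (node 427 (merge (leaf 4 427 556) (node 394 (merge (leaf 7 394 426) (node 395 (merge (leaf 7 362 362) (leaf 4 395 492))))))) (merge (node 427 (merge (leaf 4 427 556) (node 396 (merge (leaf 6 395 428) (node 395 (merge (leaf 6 363 364) (leaf 4 395 492))))))) (merge (node 427 (merge (leaf 4 427 556) (node 428 (merge (leaf 6 395 396) (node 555 (merge (leaf 6 427 460) (node 426 (merge (leaf 7 394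 394) (leaf 7 426 458))))))))) (merge (node 427 (merge (node 396 (merge (leaf 6 395 428) (node 395 (merge (leaf 6 363 364) (leaf 4 395 492))))) (merge (node 394 (merge (leaf 7 394 426) (node 395 (merge (leaf 7 362 362) (leaf 4 395 492))))) (node 428 (merge (leaf 6 395 396) (node 555 (merge (leaf 6 427 460) (node 426 (merge (leaf 7 394 394) (leaf 7 426 458)))))))))) (node 555 (merge (node 556 (merge (leaf 4 459 588) (node 554 (merge (leaf 2 521 553) (leaf 5 458 586))))) (node 460 (merge (leaf 6 427 428) (node 587 (merge (leaf 6 459 492) (node 458 (merge (leaf 7 426 426) (leaf 7 458 490)))))))))))))))))))))) (merge (hyp 1) (merge (hyp 2) (merge (hyp 3) (merge (hyp 4) (merge (hyp 5) (merge (node 523 (merge (node 558 (merge (node 559 (merge (leaf 0 523 526) (leaf 3 524 557))) (merge (node 557 (merge (leaf 0 522 522) (leaf 3 524 559))) (merge (node 522 (merge (leaf 0 522 557) (node 554 (merge (leaf 1 521 553) (node 526 (merge (leaf 1 522 555) (node 494 (merge (leaf 2 490 493) (leaf 2 491 495))))))))) (node 526 (merge (leaf 0 523 559) (node 554 (merge (leaf 1 522 555) (node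 522 (merge (leaf 1 521 553) (node 494 (merge (leaf 2 490 493) (leaf 2 491 495))))))))))))) (merge (node 522 (merge (node 558 (merge (leaf 0 522 557) (node 526 (merge (leaf 0 523 559) (node 494 (merge (leaf 2 490 493) (leaf 2 491 495))))))) (merge (node 557 (merge (leaf 0 522 558) (node 521 (merge (leaf 0 521 556) (node 489 (merge (leaf 3 488 488) (leaf 3 489 490))))))) (node 494 (merge (leaf 2 490 493) (node 526 (merge (leaf 2 491 495) (node 490 (merge (leaf 3 489 489) (leaf 3 490 491)))))))))) (merge (node 493 (merge (node 522 (merge (leaf 2 490 494) (node 553 (merge (leaf 1 521 554) (node 521 (merge (leaf 1 520 552) (node 489 (merge (leaf 3 488 488) (leaf 3 489 490))))))))) (merge (node 557 (merge (node 558 (merge (leaf 0 522 522) (leaf 3 524 559))) (node 588 (merge (node 620 (merge (leaf 6 492 556) (leaf 5 492 589))) (merge (node 556 (merge (leaf 6 492 620) (node 461 (merge (leaf 6 460 492) (leaf 5 460 557))))) (merge (node 589 (merge (leaf 5 492 620) (node 492 (merge (leaf 7 460 460) (leaf 7 492 621))))) (node 461 (merge (leaf 5 460 556) (node 430 (merge (leaf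 6 429 462) (node 429 (merge (leaf 6 397 398) (node 492 (merge (leaf 5 396 397) (node 589 (merge (leaf 7 460 460) (leaf 7 492 621))))))))))))))))) (node 557 (merge (node 558 (merge (leaf 3 524 559) (node 590 (merge (leaf 4 461 461) (node 622 (merge (leaf 4 493 589) (leaf 7 525 654))))))) (merge (node 558 (merge (leaf 3 524 559) (node 461 (merge (leaf 4 461 590) (node 556 (merge (leaf 5 428 429) (leaf 5 460 588))))))) (merge (node 588 (merge (node 620 (merge (leaf 6 492 556) (leaf 5 492 589))) (merge (node 556 (merge (leaf 6 492 620) (node 461 (merge (leaf 6 460 492) (leaf 5 460 557))))) (merge (node 589 (merge (leaf 5 492 620) (node 492 (merge (leaf 7 460 460) (leaf 7 492 621))))) (node 461 (merge (leaf 5 460 556) (node 430 (merge (leaf 6 429 462) (node 429 (merge (leaf 6 397 398) (node 492 (merge (leaf 5 396 397) (node 589 (merge (leaf 7 460 460) (leaf 7 492 621))))))))))))))) (node 589 (merge (node 494 (merge (leaf 6 461 462) (node 492 (merge (leaf 7 460 460) (leaf 1 491 495))))) (merge (node 559 (merge (leaf 3 524 558) (node 590 (merge (leaf 4 493 622) (node 588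 (merge (leaf 2 556 591) (leaf 5 492 620))))))) (node 559 (merge (leaf 3 524 558) (node 590 (merge (leaf 4 493 622) (node 588 (merge (leaf 2 556 591) (leaf 5 492 620))))))))))))))))) (node 555 (merge (node 554 (merge (leaf 1 522 526) (node 553 (merge (leaf 2 520 552) (leaf 2 521 556))))) (merge (node 491 (merge (node 490 (merge (leaf 3 490 526) (node 489 (merge (leaf 0 488 488) (leaf 0 489 492))))) (merge (node 554 (merge (leaf 1 522 526) (node 586 (merge (leaf 5 458 459) (node 618 (merge (leaf 5 490 587) (leaf 6 522 650))))))) (node 587 (merge (node 492 (merge (leaf 6 459 460) (leaf 6 491 619))) (node 458 (merge (leaf 7 458 490) (node 459 (merge (leaf 7 426 426) (node 586 (merge (leaf 5 458 554) (leaf 5 490 618)))))))))))) (merge (node 491 (merge (node 490 (merge (leaf 3 490 526) (node 489 (merge (leaf 0 488 488) (leaf 0 489 492))))) (merge (node 490 (merge (leaf 3 490 526) (node 458 (merge (leaf 7 458 587) (node 426 (merge (leaf 4 394 394) (leaf 7 426 459))))))) (node 587 (merge (node 492 (merge (leaf 6 459 460) (leaf 6 491 619))) (merge (node 620 (merge (leaf 4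 491 588) (node 619 (merge (leaf 4 523 652) (node 618 (merge (leaf 5 490 586) (leaf 5 522 650))))))) (node 492 (merge (leaf 6 459 460) (node 588 (merge (leaf 4 491 620) (node 459 (merge (leaf 7 459 556) (node 426 (merge (leaf 7 426 458) (node 427 (merge (leaf 7 394 394) (leaf 4 395 395))))))))))))))))) (node 587 (merge (node 492 (merge (leaf 6 491 619) (node 460 (merge (leaf 6 459 491) (leaf 5 459 556))))) (merge (node 619 (merge (leaf 6 491 492) (node 652 (merge (leaf 4 523 620) (node 651 (merge (leaf 4 555 684) (node 650 (merge (leaf 5 522 618) (leaf 5 554 682))))))))) (merge (node 491 (merge (node 492 (merge (leaf 6 459 460) (node 490 (merge (leaf 7 458 458) (leaf 0 489 489))))) (node 588 (merge (leaf 4 491 620) (node 459 (merge (leaf 4 459 556) (node 586 (merge (leaf 5 458 554) (leaf 5 490 618))))))))) (node 491 (merge (node 620 (merge (leaf 4 491 588) (node 619 (merge (leaf 4 523 652) (node 618 (merge (leaf 5 490 586) (leaf 5 522 650))))))) (merge (node 554 (merge (node 553 (merge (leaf 2 520 552) (leaf 2 521 556))) (node 586 (merge (leaf 5 458 459) (node 618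 (merge (leaf 5 490 587) (leaf 6 522 650))))))) (merge (node 620 (merge (leaf 4 491 588) (node 619 (merge (leaf 4 523 652) (node 651 (merge (leaf 6 523 556) (node 650 (merge (leaf 5 522 618) (leaf 5 554 682))))))))) (node 620 (merge (leaf 4 491 588) (node 619 (merge (leaf 4 523 652) (node 556 (merge (leaf 6 523 651) (node 554 (merge (leaf 2 521 553) (node 459 (merge (leaf 4 427 427) (leaf 5 458 586))))))))))))))))))))))))))) (merge (node 523 (merge (node 558 (merge (node 559 (merge (leaf 0 523 526) (leaf 3 524 557))) (merge (node 557 (merge (leaf 0 522 522) (leaf 3 524 559))) (merge (node 522 (merge (leaf 0 522 557) (node 554 (merge (leaf 1 521 553) (node 526 (merge (leaf 1 522 555) (node 494 (merge (leaf 2 490 493) (leaf 2 491 495))))))))) (node 526 (merge (leaf 0 523 559) (node 554 (merge (leaf 1 522 555) (node 522 (merge (leaf 1 521 553) (node 494 (merge (leaf 2 490 493) (leaf 2 491 495))))))))))))) (merge (node 522 (merge (node 558 (merge (leaf 0 522 557) (node 526 (merge (leaf 0 523 559) (node 494 (merge (leaf 2 490 493) (leaf 2 491 495))))))) (merge (node 557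 (merge (leaf 0 522 558) (node 521 (merge (leaf 0 521 556) (node 489 (merge (leaf 3 488 488) (leaf 3 489 490))))))) (node 494 (merge (leaf 2 490 493) (node 526 (merge (leaf 2 491 495) (node 490 (merge (leaf 3 489 489) (leaf 3 490 491)))))))))) (merge (node 555 (merge (node 554 (merge (leaf 1 522 526) (node 553 (merge (leaf 2 520 552) (leaf 2 521 556))))) (merge (node 491 (merge (node 490 (merge (leaf 3 490 526) (node 489 (merge (leaf 0 488 488) (leaf 0 489 492))))) (merge (node 554 (merge (leaf 1 522 526) (node 586 (merge (leaf 5 458 459) (node 618 (merge (leaf 5 490 587) (leaf 6 522 650))))))) (node 587 (merge (node 492 (merge (leaf 6 459 460) (leaf 6 491 619))) (node 458 (merge (leaf 7 458 490) (node 459 (merge (leaf 7 426 426) (node 586 (merge (leaf 5 458 554) (leaf 5 490 618)))))))))))) (merge (node 491 (merge (node 490 (merge (leaf 3 490 526) (node 489 (merge (leaf 0 488 488) (leaf 0 489 492))))) (merge (node 490 (merge (leaf 3 490 526) (node 458 (merge (leaf 7 458 587) (node 426 (merge (leaf 4 394 394) (leaf 7 426 459))))))) (node 587 (merge (node 492 (merge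 (leaf 6 459 460) (leaf 6 491 619))) (merge (node 618 (merge (leaf 5 490 586) (node 619 (merge (leaf 5 522 650) (node 651 (merge (leaf 6 523 556) (node 652 (merge (leaf 4 523 620) (leaf 4 555 684))))))))) (node 460 (merge (leaf 6 459 492) (node 459 (merge (leaf 6 427 428) (node 426 (merge (leaf 7 426 458) (node 427 (merge (leaf 7 394 394) (leaf 4 427 556))))))))))))))) (node 491 (merge (node 554 (merge (node 553 (merge (leaf 2 520 552) (leaf 2 521 556))) (node 586 (merge (leaf 5 458 459) (node 618 (merge (leaf 5 490 587) (leaf 6 522 650))))))) (merge (node 587 (merge (node 492 (merge (leaf 6 459 460) (leaf 6 491 619))) (node 458 (merge (leaf 7 458 490) (node 459 (merge (leaf 7 426 426) (node 586 (merge (leaf 5 458 554) (leaf 5 490 618))))))))) (merge (node 587 (merge (node 492 (merge (leaf 6 459 460) (leaf 6 491 619))) (merge (node 490 (merge (leaf 7 458 458) (node 489 (merge (leaf 0 488 488) (leaf 0 489 492))))) (node 458 (merge (leaf 7 458 490) (node 459 (merge (leaf 7 426 426) (node 428 (merge (leaf 6 427 460) (node 427 (merge (leaf 6 395 396) (leaf 4 427 556))))))))))))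 (merge (node 554 (merge (node 553 (merge (leaf 2 520 552) (leaf 2 521 556))) (node 459 (merge (leaf 5 458 586) (node 428 (merge (leaf 6 427 460) (node 427 (merge (leaf 6 395 396) (node 426 (merge (leaf 7 394 394) (leaf 7 426 458))))))))))) (node 587 (merge (node 490 (merge (leaf 7 458 458) (node 489 (merge (leaf 0 488 488) (leaf 0 489 492))))) (node 618 (merge (leaf 5 490 586) (node 619 (merge (leaf 5 522 650) (node 651 (merge (leaf 6 523 556) (node 652 (merge (leaf 4 523 620) (leaf 4 555 684)))))))))))))))))))) (node 493 (merge (node 522 (merge (leaf 2 490 494) (node 553 (merge (leaf 1 521 554) (node 521 (merge (leaf 1 520 552) (node 489 (merge (leaf 3 488 488) (leaf 3 489 490))))))))) (merge (node 461 (merge (node 429 (merge (leaf 5 428 556) (node 396 (merge (leaf 7 396 428) (node 397 (merge (leaf 7 364 364) (leaf 5 396 492))))))) (merge (node 429 (merge (leaf 5 428 556) (node 398 (merge (leaf 6 397 430) (node 397 (merge (leaf 6 365 366) (leaf 5 396 492))))))) (merge (node 429 (merge (leaf 5 428 556) (node 398 (merge (leaf 6 397 430) (node 397 (merge (leaf 6 365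 366) (node 396 (merge (leaf 7 364 364) (leaf 7 396 428))))))))) (node 557 (merge (node 558 (merge (leaf 3 524 559) (leaf 4 461 590))) (node 462 (merge (leaf 6 429 430) (node 589 (merge (leaf 6 461 494) (node 460 (merge (leaf 7 428 428) (leaf 7 460 492))))))))))))) (node 557 (merge (node 522 (merge (leaf 0 522 558) (node 553 (merge (leaf 1 521 554) (node 521 (merge (leaf 2 489 492) (leaf 1 520 552))))))) (merge (node 558 (merge (leaf 3 524 559) (node 590 (merge (leaf 4 461 461) (node 622 (merge (leaf 4 493 589) (leaf 7 525 654))))))) (node 460 (merge (node 492 (merge (leaf 4 428 428) (leaf 7 460 589))) (merge (node 461 (merge (leaf 7 428 428) (node 430 (merge (leaf 6 429 462) (node 429 (merge (leaf 6 397 398) (leaf 5 428 556))))))) (node 589 (merge (leaf 7 460 492) (node 622 (merge (leaf 4 493 590) (node 621 (merge (leaf 4 525 654) (node 653 (merge (leaf 7 524 556) (node 652 (merge (leaf 5 524 620) (leaf 5 556 684)))))))))))))))))))))))) (merge (hyp 6) (merge (hyp 7) (merge (node 526 (merge (node 558 (merge (node 559 (merge (leaf 3 524 557) (leaf 3 525 561))) (merge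 (node 559 (merge (leaf 0 523 523) (leaf 3 525 561))) (node 494 (merge (node 495 (merge (leaf 2 491 523) (node 496 (merge (leaf 1 492 493) (leaf 1 493 497))))) (merge (node 523 (merge (leaf 2 491 495) (node 522 (merge (leaf 0 522 557) (node 490 (merge (leaf 3 489 489) (leaf 3 490 491))))))) (node 590 (merge (node 493 (merge (leaf 7 493 622) (node 461 (merge (leaf 4 429 429) (leaf 7 461 494))))) (merge (node 623 (merge (leaf 4 494 591) (node 622 (merge (leaf 4 526 655) (node 621 (merge (leaf 5 493 589) (leaf 5 525 653))))))) (node 461 (merge (leaf 7 461 493) (node 462 (merge (leaf 7 429 429) (node 589 (merge (leaf 5 461 557) (leaf 5 493 621)))))))))))))))) (merge (node 523 (merge (node 554 (merge (leaf 1 522 555) (node 522 (merge (leaf 1 521 553) (node 494 (merge (leaf 2 490 493) (leaf 2 491 495))))))) (merge (node 494 (merge (leaf 2 491 495) (node 522 (merge (leaf 2 490 493) (node 490 (merge (leaf 3 489 489) (leaf 3 490 491))))))) (node 491 (merge (leaf 3 490 490) (node 555 (merge (node 554 (merge (leaf 1 522 526) (node 553 (merge (leaf 2 520 552) (leaf 2 521 556)))))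 (merge (node 554 (merge (leaf 1 522 526) (node 586 (merge (leaf 5 458 459) (node 618 (merge (leaf 5 490 587) (leaf 6 522 650))))))) (node 587 (merge (node 620 (merge (leaf 4 491 588) (node 619 (merge (leaf 4 523 652) (node 618 (merge (leaf 5 490 586) (leaf 5 522 650))))))) (merge (node 588 (merge (leaf 4 491 620) (node 459 (merge (leaf 4 459 556) (node 428 (merge (leaf 6 427 460) (node 427 (merge (leaf 6 395 396) (node 426 (merge (leaf 7 394 394) (leaf 7 426 458))))))))))) (merge (node 618 (merge (leaf 5 490 586) (node 619 (merge (leaf 5 522 650) (node 556 (merge (leaf 6 523 651) (node 459 (merge (leaf 4 427 427) (leaf 4 459 588))))))))) (node 618 (merge (leaf 5 490 586) (node 619 (merge (leaf 5 522 650) (node 651 (merge (leaf 6 523 556) (node 652 (merge (leaf 4 523 620) (leaf 4 555 684))))))))))))))))))))) (merge (node 523 (merge (node 558 (merge (leaf 0 523 559) (node 522 (merge (leaf 0 522 557) (node 490 (merge (leaf 3 489 489) (leaf 3 490 491))))))) (merge (node 554 (merge (leaf 1 522 555) (node 522 (merge (leaf 1 521 553) (node 558 (merge (leaf 0 522 557) (leaf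 0 523 559))))))) (node 491 (merge (leaf 3 490 490) (node 555 (merge (node 554 (merge (leaf 1 522 526) (node 553 (merge (leaf 2 520 552) (leaf 2 521 556))))) (merge (node 554 (merge (leaf 1 522 526) (node 586 (merge (leaf 5 458 459) (node 618 (merge (leaf 5 490 587) (leaf 6 522 650))))))) (node 587 (merge (node 620 (merge (leaf 4 491 588) (node 619 (merge (leaf 4 523 652) (node 618 (merge (leaf 5 490 586) (leaf 5 522 650))))))) (merge (node 588 (merge (leaf 4 491 620) (node 459 (merge (leaf 4 459 556) (node 428 (merge (leaf 6 427 460) (node 427 (merge (leaf 6 395 396) (node 426 (merge (leaf 7 394 394) (leaf 7 426 458))))))))))) (merge (node 618 (merge (leaf 5 490 586) (node 619 (merge (leaf 5 522 650) (node 556 (merge (leaf 6 523 651) (node 459 (merge (leaf 4 427 427) (leaf 4 459 588))))))))) (node 618 (merge (leaf 5 490 586) (node 619 (merge (leaf 5 522 650) (node 651 (merge (leaf 6 523 556) (node 652 (merge (leaf 4 523 620) (leaf 4 555 684))))))))))))))))))))) (node 558 (merge (node 559 (merge (leaf 3 524 557) (leaf 3 525 561))) (merge (node 590 (merge (node 493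 (merge (leaf 7 493 622) (node 461 (merge (leaf 4 429 429) (leaf 7 461 494))))) (merge (node 622 (merge (leaf 7 493 493) (node 654 (merge (leaf 7 525 557) (node 655 (merge (leaf 4 526 623) (leaf 4 558 687))))))) (merge (node 494 (merge (node 463 (merge (leaf 6 462 495) (node 462 (merge (leaf 6 430 431) (node 589 (merge (leaf 5 461 557) (leaf 5 493 621))))))) (merge (node 495 (merge (leaf 6 462 463) (node 493 (merge (leaf 7 461 461) (node 496 (merge (leaf 1 493 497) (leaf 1 492 524))))))) (node 461 (merge (leaf 7 461 493) (node 462 (merge (leaf 7 429 429) (node 589 (merge (leaf 5 461 557) (leaf 5 493 621)))))))))) (node 621 (merge (node 589 (merge (leaf 5 493 494) (node 653 (merge (leaf 5 525 622) (leaf 6 557 685))))) (merge (node 622 (merge (leaf 5 525 653) (node 654 (merge (leaf 7 525 557) (node 655 (merge (leaf 4 526 623) (leaf 4 558 687))))))) (merge (node 589 (merge (leaf 5 493 494) (node 653 (merge (leaf 6 525 557) (leaf 6 557 685))))) (node 494 (merge (leaf 5 493 589) (node 463 (merge (leaf 6 462 495) (node 462 (merge (leaf 6 430 431) (node 623 (merge (leaf 4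 494 591) (node 622 (merge (leaf 4 526 655) (node 557 (merge (leaf 5 429 430) (leaf 7 525 654))))))))))))))))))))) (node 590 (merge (node 493 (merge (leaf 7 493 622) (node 461 (merge (leaf 4 429 429) (leaf 7 461 494))))) (merge (node 622 (merge (leaf 7 493 493) (node 655 (merge (leaf 4 526 623) (node 654 (merge (leaf 4 558 687) (node 653 (merge (leaf 5 525 621) (leaf 5 557 685))))))))) (merge (node 589 (merge (node 621 (merge (leaf 5 493 494) (node 653 (merge (leaf 5 525 622) (leaf 6 557 685))))) (node 559 (merge (leaf 1 557 561) (node 588 (merge (leaf 2 555 587) (leaf 2 556 591))))))) (node 494 (merge (node 495 (merge (leaf 6 462 463) (node 493 (merge (leaf 7 461 461) (node 496 (merge (leaf 1 493 497) (leaf 1 492 524))))))) (node 559 (merge (leaf 3 525 561) (node 591 (merge (leaf 4 494 623) (node 589 (merge (leaf 2 556 588) (leaf 5 493 621)))))))))))))))))))) (merge (node 526 (merge (node 558 (merge (node 559 (merge (leaf 3 525 561) (node 524 (merge (leaf 0 523 523) (leaf 3 524 557))))) (merge (node 494 (merge (node 462 (merge (leaf 6 430 431) (node 557 (merge (leaf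 5 429 430) (leaf 5 461 589))))) (node 590 (merge (leaf 6 462 495) (node 622 (merge (leaf 7 493 493) (node 623 (merge (leaf 4 494 591) (leaf 4 526 655))))))))) (node 494 (merge (node 431 (merge (leaf 6 430 462) (node 495 (merge (leaf 5 398 399) (leaf 6 462 590))))) (merge (node 462 (merge (leaf 6 430 431) (node 559 (merge (leaf 3 525 561) (leaf 4 462 591))))) (node 590 (merge (leaf 6 462 495) (node 622 (merge (leaf 7 493 493) (node 623 (merge (leaf 4 494 591) (leaf 4 526 655))))))))))))) (merge (node 523 (merge (node 554 (merge (leaf 1 522 555) (node 522 (merge (leaf 1 521 553) (node 494 (merge (leaf 2 490 493) (leaf 2 491 495))))))) (merge (node 494 (merge (leaf 2 491 495) (node 522 (merge (leaf 2 490 493) (node 490 (merge (leaf 3 489 489) (leaf 3 490 491))))))) (node 555 (merge (leaf 1 522 554) (node 491 (merge (leaf 3 490 490) (node 459 (merge (node 428 (merge (leaf 6 427 460) (node 427 (merge (leaf 6 395 396) (node 426 (merge (leaf 7 394 394) (leaf 7 426 458))))))) (merge (node 460 (merge (leaf 6 427 428) (node 587 (merge (leaf 6 459 492) (node 620 (merge (leaf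 4 491 588) (node 619 (merge (leaf 4 523 652) (node 618 (merge (leaf 5 490 586) (leaf 5 522 650))))))))))) (merge (node 426 (merge (leaf 7 426 458) (node 427 (merge (leaf 7 394 394) (node 492 (merge (leaf 4 395 395) (node 587 (merge (leaf 6 459 460) (leaf 6 491 619))))))))) (node 426 (merge (leaf 7 426 458) (node 427 (merge (leaf 7 394 394) (node 396 (merge (leaf 6 395 428) (node 395 (merge (leaf 6 363 364) (leaf 4 395 492)))))))))))))))))))) (merge (node 523 (merge (node 558 (merge (leaf 0 523 559) (node 522 (merge (leaf 0 522 557) (node 490 (merge (leaf 3 489 489) (leaf 3 490 491))))))) (merge (node 554 (merge (leaf 1 522 555) (node 522 (merge (leaf 1 521 553) (node 558 (merge (leaf 0 522 557) (leaf 0 523 559))))))) (node 555 (merge (leaf 1 522 554) (node 491 (merge (leaf 3 490 490) (node 459 (merge (node 428 (merge (leaf 6 427 460) (node 427 (merge (leaf 6 395 396) (node 426 (merge (leaf 7 394 394) (leaf 7 426 458))))))) (merge (node 460 (merge (leaf 6 427 428) (node 587 (merge (leaf 6 459 492) (node 620 (merge (leaf 4 491 588) (node 619 (merge (leaf 4 523 652)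 (node 618 (merge (leaf 5 490 586) (leaf 5 522 650))))))))))) (merge (node 426 (merge (leaf 7 426 458) (node 427 (merge (leaf 7 394 394) (node 492 (merge (leaf 4 395 395) (node 587 (merge (leaf 6 459 460) (leaf 6 491 619))))))))) (node 426 (merge (leaf 7 426 458) (node 427 (merge (leaf 7 394 394) (node 396 (merge (leaf 6 395 428) (node 395 (merge (leaf 6 363 364) (leaf 4 395 492)))))))))))))))))))) (node 558 (merge (node 559 (merge (leaf 3 524 557) (leaf 3 525 561))) (merge (node 590 (merge (node 493 (merge (leaf 7 493 622) (node 461 (merge (leaf 4 429 429) (leaf 7 461 494))))) (merge (node 622 (merge (leaf 7 493 493) (node 654 (merge (leaf 7 525 557) (node 655 (merge (leaf 4 526 623) (leaf 4 558 687))))))) (merge (node 494 (merge (node 463 (merge (leaf 6 462 495) (node 462 (merge (leaf 6 430 431) (node 589 (merge (leaf 5 461 557) (leaf 5 493 621))))))) (merge (node 495 (merge (leaf 6 462 463) (node 493 (merge (leaf 7 461 461) (node 496 (merge (leaf 1 493 497) (leaf 1 492 524))))))) (node 461 (merge (leaf 7 461 493) (node 462 (merge (leaf 7 429 429) (node 589 (merge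 (leaf 5 461 557) (leaf 5 493 621)))))))))) (node 621 (merge (node 589 (merge (leaf 5 493 494) (node 653 (merge (leaf 5 525 622) (leaf 6 557 685))))) (merge (node 622 (merge (leaf 5 525 653) (node 654 (merge (leaf 7 525 557) (node 655 (merge (leaf 4 526 623) (leaf 4 558 687))))))) (merge (node 589 (merge (leaf 5 493 494) (node 653 (merge (leaf 6 525 557) (leaf 6 557 685))))) (node 494 (merge (leaf 5 493 589) (node 463 (merge (leaf 6 462 495) (node 462 (merge (leaf 6 430 431) (node 623 (merge (leaf 4 494 591) (node 622 (merge (leaf 4 526 655) (node 557 (merge (leaf 5 429 430) (leaf 7 525 654))))))))))))))))))))) (node 590 (merge (node 493 (merge (leaf 7 493 622) (node 461 (merge (leaf 4 429 429) (leaf 7 461 494))))) (merge (node 622 (merge (leaf 7 493 493) (node 655 (merge (leaf 4 526 623) (node 654 (merge (leaf 4 558 687) (node 653 (merge (leaf 5 525 621) (leaf 5 557 685))))))))) (merge (node 589 (merge (node 621 (merge (leaf 5 493 494) (node 653 (merge (leaf 5 525 622) (leaf 6 557 685))))) (node 559 (merge (leaf 1 557 561) (node 588 (merge (leaf 2 555 587) (leaf 2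 556 591))))))) (node 494 (merge (node 495 (merge (leaf 6 462 463) (node 493 (merge (leaf 7 461 461) (node 496 (merge (leaf 1 493 497) (leaf 1 492 524))))))) (node 559 (merge (leaf 3 525 561) (node 591 (merge (leaf 4 494 623) (node 589 (merge (leaf 2 556 588) (leaf 5 493 621)))))))))))))))))))) (merge (node 558 (merge (node 559 (merge (leaf 3 524 557) (node 526 (merge (leaf 0 523 523) (leaf 3 525 561))))) (merge (node 559 (merge (leaf 3 524 557) (node 561 (merge (leaf 3 525 526) (node 594 (merge (leaf 0 558 593) (node 562 (merge (leaf 0 559 595) (node 590 (merge (leaf 1 557 589) (leaf 1 558 591))))))))))) (merge (node 557 (merge (leaf 3 524 559) (node 493 (merge (node 461 (merge (leaf 4 461 590) (node 556 (merge (leaf 5 428 429) (leaf 5 460 588))))) (merge (node 590 (merge (leaf 4 461 461) (node 622 (merge (leaf 4 493 589) (leaf 7 525 654))))) (merge (node 589 (merge (node 492 (merge (leaf 7 492 621) (node 460 (merge (leaf 4 428 428) (leaf 7 460 493))))) (node 462 (merge (leaf 6 461 494) (node 461 (merge (leaf 6 429 430) (node 588 (merge (leaf 5 460 556) (leaf 5 492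 620))))))))) (node 589 (merge (node 492 (merge (leaf 7 492 621) (node 460 (merge (leaf 4 428 428) (leaf 7 460 493))))) (merge (node 494 (merge (leaf 6 461 462) (node 492 (merge (leaf 7 460 460) (node 495 (merge (leaf 1 492 496) (leaf 1 491 523))))))) (node 622 (merge (leaf 4 493 590) (node 621 (merge (leaf 4 525 654) (node 620 (merge (leaf 5 492 588) (leaf 5 524 652)))))))))))))))) (merge (node 526 (merge (node 559 (merge (leaf 0 523 523) (leaf 3 525 561))) (merge (node 590 (merge (node 622 (merge (leaf 7 493 493) (node 655 (merge (leaf 4 526 623) (node 654 (merge (leaf 4 558 687) (node 653 (merge (leaf 5 525 621) (leaf 5 557 685))))))))) (merge (node 589 (merge (node 621 (merge (leaf 5 493 494) (node 653 (merge (leaf 5 525 622) (leaf 6 557 685))))) (node 559 (merge (leaf 1 557 561) (node 588 (merge (leaf 2 555 587) (leaf 2 556 591))))))) (node 494 (merge (node 495 (merge (leaf 6 462 463) (node 493 (merge (leaf 7 461 461) (node 496 (merge (leaf 1 493 497) (leaf 1 492 524))))))) (node 559 (merge (leaf 3 525 561) (node 591 (merge (leaf 4 462 462) (node 623 (merge (leaf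 4 494 590) (leaf 6 527 655)))))))))))) (node 494 (merge (node 495 (merge (leaf 2 491 523) (node 496 (merge (leaf 1 492 493) (leaf 1 493 497))))) (merge (node 495 (merge (leaf 2 491 523) (node 463 (merge (leaf 6 462 590) (node 431 (merge (leaf 5 398 399) (leaf 6 430 462))))))) (node 462 (merge (node 431 (merge (leaf 6 430 463) (node 430 (merge (leaf 6 398 399) (node 429 (merge (leaf 7 397 397) (leaf 7 429 461))))))) (merge (node 461 (merge (leaf 7 429 429) (node 590 (merge (leaf 7 461 493) (node 623 (merge (leaf 4 494 591) (node 622 (merge (leaf 4 526 655) (node 621 (merge (leaf 5 493 589) (leaf 5 525 653))))))))))) (merge (node 431 (merge (leaf 6 430 463) (node 430 (merge (leaf 6 398 399) (node 493 (merge (leaf 5 397 398) (node 590 (merge (leaf 7 461 461) (leaf 7 493 622))))))))) (node 431 (merge (leaf 6 430 463) (node 430 (merge (leaf 6 398 399) (node 397 (merge (leaf 7 397 429) (node 398 (merge (leaf 7 365 365) (leaf 5 397 493))))))))))))))))))) (hyp 8)))))) (merge (hyp 9) (hyp 10)))))))))))))))))) nP_287 cP_287 16 (by decide +kernel)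
def nP_288 : ℕ := 0x1000000012000000000000000c0000000000000000000000000000000000000000000000000000000000000000000000000000000000000000000000000000000000000000000
def cP_288 : ℕ := 0x70000000f0000002f000000040000001fc0000003800001ffc00000ff800000ff8000001f8000001e0000001c0000001000000000000000000000000000000000000000000000000000000000000
theorem lP_288 : S nP_288 cP_288 12 := S_of_chk [] trivial (node 431 (merge (node 494 (merge (node 399 (merge (leaf 5 366 367) (node 495 (merge (leaf 4 399 496) (leaf 5 398 526))))) (merge (node 526 (merge (leaf 6 430 558) (node 557 (merge (leaf 5 429 430) (node 589 (merge (leaf 6 461 493) (leaf 6 493 621))))))) (node 399 (merge (leaf 5 366 367) (node 495 (merge (leaf 4 399 496) (node 400 (merge (leaf 6 367 368) (node 398 (merge (leaf 7 366 366) (node 430 (merge (leaf 5 397 493) (node 401 (merge (leaf 1 398 402) (leaf 1 397 429)))))))))))))))) (merge (node 494 (merge (node 399 (merge (leaf 5 366 367) (node 495 (merge (leaf 4 399 496) (leaf 5 398 526))))) (merge (node 526 (merge (leaf 6 430 558) (node 557 (merge (leaf 5 429 430) (node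 589 (merge (leaf 6 461 493) (leaf 6 493 621))))))) (node 399 (merge (leaf 5 366 367) (node 495 (merge (leaf 4 399 496) (node 398 (merge (leaf 7 366 366) (node 493 (merge (leaf 5 397 430) (node 557 (merge (leaf 6 461 589) (node 492 (merge (leaf 2 459 491) (node 460 (merge (leaf 3 459 459) (node 461 (merge (leaf 7 428 428) (leaf 2 428 432)))))))))))))))))))) (merge (node 430 (merge (node 494 (merge (node 526 (merge (leaf 5 429 557) (leaf 6 430 558))) (node 398 (merge (leaf 5 397 493) (node 366 (merge (leaf 4 334 334) (leaf 4 366 495))))))) (merge (node 461 (merge (node 432 (merge (leaf 1 429 433) (leaf 2 428 460))) (node 493 (merge (leaf 6 429 557) (node 398 (merge (leaf 5 365 366) (leaf 6 397 429))))))) (merge (node 432 (merge (node 461 (merge (leaf 1 429 433) (leaf 2 428 460))) (merge (node 433 (merge (leaf 1 430 434) (node 401 (merge (leaf 2 398 402) (node 429 (merge (leaf 2 397 400) (node 397 (merge (leaf 3 396 396) (leaf 3 397 398))))))))) (node 429 (merge (node 428 (merge (leaf 0 427 427) (node 396 (merge (leaf 3 395 395) (leaf 3 396 397))))) (merge (node 428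 (merge (leaf 0 427 427) (node 460 (merge (leaf 1 427 459) (leaf 1 428 461))))) (node 461 (merge (leaf 1 428 460) (node 397 (merge (leaf 3 396 396) (node 365 (merge (leaf 4 333 333) (leaf 4 365 494))))))))))))) (node 429 (merge (node 428 (merge (leaf 0 427 427) (node 460 (merge (leaf 1 427 459) (node 396 (merge (leaf 3 395 395) (node 493 (merge (leaf 7 396 461) (leaf 4 396 492))))))))) (merge (node 428 (merge (leaf 0 427 427) (node 396 (merge (leaf 3 395 395) (node 432 (merge (leaf 3 396 397) (node 433 (merge (leaf 1 430 434) (leaf 1 429 461))))))))) (merge (node 428 (merge (leaf 0 427 427) (node 460 (merge (leaf 1 427 459) (node 396 (merge (leaf 3 395 395) (node 397 (merge (leaf 3 396 432) (node 492 (merge (leaf 6 364 365) (leaf 4 396 493))))))))))) (merge (node 432 (merge (node 433 (merge (leaf 1 430 434) (node 401 (merge (leaf 2 397 400) (leaf 2 398 402))))) (node 461 (merge (leaf 1 428 460) (node 397 (merge (leaf 3 396 396) (node 365 (merge (leaf 4 333 333) (leaf 4 365 494))))))))) (node 428 (merge (leaf 0 427 427) (node 460 (merge (leaf 1 427 459) (node 432 (merge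 (leaf 1 428 461) (node 433 (merge (leaf 1 430 434) (node 401 (merge (leaf 2 397 400) (leaf 2 398 402)))))))))))))))))))) (merge (node 430 (merge (node 461 (merge (node 460 (merge (leaf 2 428 432) (leaf 2 427 459))) (node 493 (merge (leaf 6 429 557) (node 398 (merge (leaf 5 365 366) (leaf 5 397 494))))))) (merge (node 461 (merge (node 432 (merge (leaf 1 429 433) (leaf 2 428 460))) (node 493 (merge (leaf 6 429 557) (node 398 (merge (leaf 5 365 366) (leaf 6 397 429))))))) (merge (node 398 (merge (node 397 (merge (node 365 (merge (leaf 7 365 494) (node 333 (merge (leaf 4 301 301) (leaf 4 333 429))))) (node 396 (merge (leaf 0 395 395) (node 432 (merge (leaf 0 396 399) (leaf 3 397 433))))))) (merge (node 366 (merge (leaf 4 334 334) (node 367 (merge (leaf 6 334 335) (node 365 (merge (leaf 7 333 333) (node 397 (merge (leaf 7 365 494) (node 396 (merge (leaf 1 364 368) (leaf 0 395 395))))))))))) (merge (node 397 (merge (node 396 (merge (leaf 0 395 395) (node 432 (merge (leaf 0 396 399) (leaf 3 397 433))))) (merge (node 396 (merge (leaf 0 395 395) (node 366 (merge (leaf 4 334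 334) (node 367 (merge (leaf 6 334 335) (node 368 (merge (leaf 1 364 365) (leaf 1 365 369))))))))) (node 432 (merge (leaf 3 397 433) (node 366 (merge (leaf 4 334 334) (node 367 (merge (leaf 6 334 335) (node 368 (merge (leaf 1 365 369) (node 336 (merge (leaf 6 335 399) (leaf 5 335 400)))))))))))))) (merge (node 366 (merge (leaf 4 334 334) (node 367 (merge (leaf 6 334 335) (node 399 (merge (leaf 6 366 494) (node 368 (merge (leaf 6 335 336) (node 369 (merge (leaf 1 366 370) (leaf 1 365 397))))))))))) (node 366 (merge (leaf 4 334 334) (node 367 (merge (leaf 6 334 335) (node 399 (merge (leaf 6 366 494) (node 365 (merge (leaf 7 333 333) (node 364 (merge (leaf 0 363 363) (leaf 0 364 400)))))))))))))))) (merge (node 398 (merge (node 493 (merge (leaf 5 397 494) (node 461 (merge (leaf 6 397 429) (leaf 6 429 557))))) (merge (node 366 (merge (leaf 4 334 334) (node 367 (merge (leaf 6 334 335) (node 365 (merge (leaf 7 333 333) (node 397 (merge (leaf 7 365 494) (node 396 (merge (leaf 1 364 368) (leaf 0 395 395))))))))))) (node 399 (merge (node 367 (merge (leaf 5 334 335) (node 368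 (merge (leaf 6 335 336) (node 369 (merge (leaf 1 366 370) (node 397 (merge (leaf 2 364 396) (leaf 2 365 400))))))))) (merge (node 367 (merge (leaf 5 334 335) (node 368 (merge (leaf 6 335 336) (node 369 (merge (leaf 1 366 370) (node 397 (merge (leaf 1 365 366) (leaf 2 364 396))))))))) (node 366 (merge (leaf 4 334 334) (node 365 (merge (leaf 7 333 333) (node 400 (merge (leaf 3 365 401) (node 428 (merge (leaf 2 396 429) (node 461 (merge (leaf 5 365 493) (node 460 (merge (leaf 3 427 427) (leaf 2 427 459))))))))))))))))))) (node 429 (merge (node 428 (merge (leaf 0 427 427) (node 460 (merge (leaf 1 427 459) (node 396 (merge (leaf 3 395 395) (node 493 (merge (leaf 7 396 461) (leaf 4 396 492))))))))) (merge (node 428 (merge (leaf 0 427 427) (node 396 (merge (leaf 3 395 395) (node 432 (merge (leaf 3 396 397) (node 433 (merge (leaf 1 430 434) (leaf 1 429 461))))))))) (merge (node 428 (merge (leaf 0 427 427) (node 460 (merge (leaf 1 427 459) (node 396 (merge (leaf 3 395 395) (node 397 (merge (leaf 3 396 432) (node 492 (merge (leaf 6 364 365) (leaf 4 396 493))))))))))) (merge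 (node 432 (merge (node 433 (merge (leaf 1 430 434) (node 401 (merge (leaf 2 397 400) (leaf 2 398 402))))) (node 461 (merge (leaf 1 428 460) (node 397 (merge (leaf 3 396 396) (node 365 (merge (leaf 4 333 333) (leaf 4 365 494))))))))) (node 428 (merge (leaf 0 427 427) (node 460 (merge (leaf 1 427 459) (node 432 (merge (leaf 1 428 461) (node 433 (merge (leaf 1 430 434) (node 401 (merge (leaf 2 397 400) (leaf 2 398 402))))))))))))))))))))) (merge (node 399 (merge (node 494 (merge (leaf 5 366 367) (node 495 (merge (leaf 4 399 496) (leaf 5 398 526))))) (merge (node 367 (merge (leaf 5 366 494) (node 336 (merge (leaf 6 335 368) (node 335 (merge (leaf 6 303 304) (node 334 (merge (leaf 7 302 302) (leaf 7 334 366))))))))) (node 495 (merge (leaf 4 399 496) (node 398 (merge (leaf 7 366 366) (node 400 (merge (leaf 6 367 368) (node 401 (merge (node 434 (merge (leaf 0 398 433) (node 402 (merge (leaf 0 399 435) (node 370 (merge (leaf 2 366 369) (leaf 2 367 371))))))) (merge (node 433 (merge (leaf 0 398 434) (node 397 (merge (leaf 0 397 432) (node 428 (merge (leaf 1 396 429) (node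 396 (merge (leaf 1 395 427) (node 364 (merge (leaf 3 363 363) (leaf 3 364 365))))))))))) (merge (node 370 (merge (leaf 2 366 369) (node 402 (merge (leaf 2 367 371) (node 432 (merge (leaf 1 399 403) (node 397 (merge (leaf 0 396 396) (leaf 0 397 433))))))))) (node 370 (merge (leaf 2 366 369) (node 402 (merge (leaf 2 367 371) (node 435 (merge (leaf 0 399 434) (node 403 (merge (leaf 1 399 432) (leaf 0 400 436)))))))))))))))))))))) (merge (node 399 (merge (node 495 (merge (leaf 4 399 496) (node 366 (merge (leaf 7 366 398) (node 367 (merge (leaf 7 334 334) (node 336 (merge (leaf 6 335 368) (node 335 (merge (leaf 6 303 304) (leaf 5 334 430))))))))))) (merge (node 367 (merge (node 335 (merge (leaf 5 334 430) (node 334 (merge (leaf 7 302 302) (leaf 7 334 366))))) (merge (node 336 (merge (leaf 6 335 368) (node 335 (merge (leaf 6 303 304) (leaf 5 334 430))))) (node 366 (merge (leaf 7 334 334) (node 365 (merge (node 400 (merge (leaf 0 364 364) (node 401 (merge (leaf 3 365 398) (leaf 3 366 402))))) (merge (node 368 (merge (leaf 6 335 336) (node 400 (merge (leaf 0 364 364) (leaf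 0 365 401))))) (merge (node 368 (merge (leaf 6 335 336) (node 397 (merge (leaf 1 364 396) (node 398 (merge (leaf 1 365 369) (node 364 (merge (leaf 0 363 363) (node 332 (merge (leaf 3 331 331) (leaf 3 332 333))))))))))) (node 368 (merge (leaf 6 335 336) (node 401 (merge (leaf 0 365 400) (node 369 (merge (leaf 0 366 402) (node 397 (merge (leaf 1 364 396) (leaf 1 365 398)))))))))))))))))) (merge (node 495 (merge (leaf 4 399 496) (node 398 (merge (leaf 7 366 366) (node 400 (merge (leaf 6 367 368) (node 401 (merge (node 434 (merge (leaf 0 398 433) (node 402 (merge (leaf 0 399 435) (node 370 (merge (leaf 2 366 369) (leaf 2 367 371))))))) (merge (node 433 (merge (leaf 0 398 434) (node 397 (merge (leaf 0 397 432) (node 428 (merge (leaf 1 396 429) (node 396 (merge (leaf 1 395 427) (node 364 (merge (leaf 3 363 363) (leaf 3 364 365))))))))))) (merge (node 370 (merge (leaf 2 366 369) (node 402 (merge (leaf 2 367 371) (node 432 (merge (leaf 1 399 403) (node 397 (merge (leaf 0 396 396) (leaf 0 397 433))))))))) (node 370 (merge (leaf 2 366 369) (node 402 (merge (leaf 2 367 371)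 (node 435 (merge (leaf 0 399 434) (node 403 (merge (leaf 1 399 432) (leaf 0 400 436))))))))))))))))))) (merge (node 432 (merge (node 461 (merge (leaf 2 428 460) (node 433 (merge (leaf 1 429 430) (leaf 1 430 434))))) (merge (node 433 (merge (leaf 1 430 434) (node 495 (merge (leaf 4 399 496) (node 398 (merge (leaf 7 366 366) (node 397 (merge (leaf 0 396 396) (leaf 0 397 400))))))))) (node 495 (merge (leaf 4 399 496) (node 366 (merge (leaf 7 366 398) (node 367 (merge (leaf 7 334 334) (node 335 (merge (leaf 5 334 430) (node 304 (merge (leaf 6 303 336) (node 303 (merge (leaf 6 271 272) (leaf 4 303 400)))))))))))))))) (node 367 (merge (node 368 (merge (leaf 6 335 336) (node 495 (merge (leaf 6 367 400) (leaf 4 399 496))))) (merge (node 335 (merge (leaf 5 334 430) (node 304 (merge (leaf 6 303 336) (node 303 (merge (leaf 6 271 272) (node 302 (merge (leaf 7 270 270) (leaf 7 302 334))))))))) (node 335 (merge (leaf 5 334 430) (node 302 (merge (leaf 7 302 334) (node 303 (merge (leaf 7 270 270) (node 272 (merge (leaf 6 271 304) (node 271 (merge (leaf 6 239 240) (node 400 (merge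 (leaf 4 271 368) (leaf 4 303 432))))))))))))))))))))) (node 461 (merge (node 432 (merge (leaf 2 428 460) (node 433 (merge (leaf 1 429 430) (leaf 1 430 434))))) (merge (node 460 (merge (node 495 (merge (leaf 0 460 496) (node 459 (merge (leaf 0 459 494) (node 491 (merge (leaf 1 458 490) (leaf 1 459 492))))))) (node 428 (merge (leaf 3 427 427) (node 493 (merge (leaf 7 428 557) (node 396 (merge (leaf 4 364 364) (leaf 7 396 429))))))))) (node 493 (merge (node 557 (merge (leaf 6 429 430) (node 589 (merge (leaf 6 461 494) (node 588 (merge (leaf 5 460 556) (leaf 5 492 620))))))) (merge (node 557 (merge (leaf 6 429 430) (node 590 (merge (leaf 4 461 558) (node 589 (merge (leaf 4 493 622) (node 588 (merge (leaf 5 460 556) (leaf 5 492 620))))))))) (merge (node 557 (merge (node 589 (merge (leaf 6 461 494) (node 588 (merge (leaf 5 460 556) (leaf 5 492 620))))) (merge (node 558 (merge (leaf 4 461 590) (node 588 (merge (leaf 5 460 556) (node 589 (merge (leaf 1 556 559) (leaf 5 492 620))))))) (node 558 (merge (leaf 4 461 590) (node 526 (merge (leaf 4 429 429) (node 494 (merge (leaf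 6 430 431) (node 559 (merge (leaf 3 525 561) (leaf 4 462 591)))))))))))) (node 429 (merge (node 428 (merge (leaf 7 396 396) (node 427 (merge (leaf 0 426 426) (leaf 0 427 430))))) (node 526 (merge (leaf 4 429 558) (node 494 (merge (leaf 4 397 397) (node 399 (merge (leaf 5 366 367) (leaf 5 398 495))))))))))))))))))))))) nP_288 cP_288 12 (by decide +kernel)
def nP_289 : ℕ := 0x100000001200000000000000080000000000000000000000000000000000000000000000000000000000000000000000000000000000000000000000000000000000000000000
def cP_289 : ℕ := 0x50000002f0000003f000000efc00000efc00000cc0000007fc0000007c00001ffe00000ff800000ff8000001f8000001e0000001c0000001000000000000000000000000000000000000000000000000000000000000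
theorem lP_289 : S nP_289 cP_289 13 := S_of_chk [(nP_288, cP_288, 12)] ⟨lP_288, trivial⟩ (node 462 (merge (node 526 (merge (node 527 (merge (leaf 0 525 561) (node 431 (merge (leaf 4 431 495) (node 494 (merge (leaf 6 430 558) (node 399 (merge (leaf 5 366 367) (leaf 6 398 430))))))))) (merge (node 494 (merge (node 431 (merge (leaf 6 430 558) (node 399 (merge (leaf 5 366 367) (leaf 5 398 495))))) (node 557 (merge (leaf 5 429 430) (node 589 (merge (leaf 6 461 493) (leaf 6 493 621))))))) (merge (node 527 (merge (leaf 0 525 561) (node 557 (merge (leaf 1 524 556) (node 494 (merge (leaf 5 429 430) (node 589 (merge (leaf 6 461 493) (leaf 6 493 621))))))))) (merge (node 527 (merge (leaf 0 525 561) (node 557 (merge (leaf 1 524 556) (node 493 (merge (leaf 3 492 492) (node 494 (merge (leaf 6 461 589) (node 431 (merge (leaf 4 431 495) (leaf 6 430 558))))))))))) (node 527 (merge (leaf 0 525 561) (node 557 (merge (leaf 1 524 556) (node 493 (merge (leaf 3 492 492) (node 430 (merge (leaf 6 429 461) (node 495 (merge (leaf 4 431 431) (leaf 7 430 559)))))))))))))))) (merge (node 527 (merge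 (node 495 (merge (leaf 4 431 431) (node 430 (merge (leaf 7 430 559) (node 398 (merge (leaf 4 366 366) (leaf 4 398 494))))))) (merge (node 526 (merge (leaf 0 525 561) (node 557 (merge (leaf 1 524 556) (node 494 (merge (leaf 5 429 430) (node 558 (merge (leaf 6 430 431) (leaf 5 461 589))))))))) (merge (node 526 (merge (leaf 0 525 561) (node 496 (merge (leaf 2 493 497) (node 495 (merge (leaf 4 431 431) (node 559 (merge (leaf 7 430 430) (node 591 (merge (leaf 6 495 623) (node 590 (merge (leaf 5 462 558) (leaf 5 494 622))))))))))))) (node 559 (merge (node 561 (merge (leaf 0 525 526) (node 562 (merge (leaf 3 527 563) (node 591 (merge (leaf 1 558 590) (node 623 (merge (leaf 6 495 496) (leaf 6 527 655))))))))) (merge (node 591 (merge (node 623 (merge (leaf 6 495 496) (leaf 6 527 655))) (node 495 (merge (leaf 7 462 494) (node 590 (merge (leaf 5 462 558) (leaf 5 494 622))))))) (node 561 (merge (leaf 0 525 526) (node 562 (merge (leaf 3 527 563) (node 594 (merge (leaf 0 559 595) (node 593 (merge (leaf 0 558 558) (node 625 (merge (leaf 7 528 657) (node 530 (merge (leaf 5 497 498)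 (leaf 2 527 531)))))))))))))))))))) (merge (node 461 (merge (node 460 (merge (node 495 (merge (leaf 0 460 496) (node 431 (merge (leaf 2 428 432) (leaf 4 431 527))))) (node 428 (merge (leaf 3 427 427) (node 493 (merge (leaf 7 428 557) (node 396 (merge (leaf 4 364 364) (leaf 7 396 429))))))))) (merge (node 460 (merge (node 495 (merge (leaf 0 460 496) (node 431 (merge (leaf 2 428 432) (leaf 4 431 527))))) (node 491 (merge (leaf 1 459 492) (node 459 (merge (leaf 1 458 490) (node 427 (merge (leaf 3 426 426) (leaf 3 427 428))))))))) (merge (node 460 (merge (node 428 (merge (leaf 3 427 427) (node 493 (merge (leaf 7 428 557) (node 396 (merge (leaf 4 364 364) (leaf 7 396 429))))))) (node 491 (merge (leaf 1 459 492) (node 459 (merge (leaf 1 458 490) (node 431 (merge (leaf 2 427 430) (leaf 2 428 432))))))))) (merge (node 527 (merge (node 526 (merge (leaf 0 525 561) (node 557 (merge (leaf 1 524 556) (node 493 (merge (leaf 6 429 430) (leaf 3 492 492))))))) (merge (node 495 (merge (leaf 4 431 431) (node 559 (merge (leaf 7 430 430) (node 590 (merge (leaf 5 462 558) (node 591 (merge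 (leaf 5 494 622) (node 623 (merge (leaf 6 495 496) (leaf 6 527 655))))))))))) (node 526 (merge (leaf 0 525 561) (node 557 (merge (leaf 1 524 556) (node 493 (merge (leaf 3 492 492) (node 558 (merge (leaf 4 429 429) (leaf 4 461 590)))))))))))) (node 526 (merge (node 527 (merge (leaf 0 525 561) (node 557 (merge (leaf 1 524 556) (node 493 (merge (leaf 6 429 430) (leaf 3 492 492))))))) (merge (node 527 (merge (leaf 0 525 561) (node 496 (merge (leaf 2 493 497) (node 460 (merge (leaf 0 460 495) (node 492 (merge (leaf 1 459 491) (leaf 3 492 493))))))))) (merge (node 493 (merge (node 558 (merge (leaf 4 429 429) (node 590 (merge (leaf 4 461 557) (leaf 7 493 622))))) (merge (node 429 (merge (leaf 4 429 558) (node 430 (merge (leaf 6 397 398) (node 428 (merge (leaf 7 396 396) (leaf 0 427 427))))))) (node 557 (merge (leaf 6 429 430) (node 460 (merge (leaf 7 428 428) (node 492 (merge (leaf 1 459 491) (leaf 7 460 589)))))))))) (node 527 (merge (leaf 0 525 561) (node 496 (merge (leaf 2 493 497) (node 495 (merge (leaf 0 460 460) (node 559 (merge (leaf 7 430 430) (node 591 (merge (leaf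 6 495 623) (node 590 (merge (leaf 5 462 558) (leaf 5 494 622)))))))))))))))))))))) (merge (node 526 (merge (node 527 (merge (leaf 0 525 561) (node 557 (merge (leaf 1 524 556) (node 494 (merge (leaf 5 429 430) (node 558 (merge (leaf 6 430 431) (leaf 5 461 589))))))))) (merge (node 527 (merge (leaf 0 525 561) (node 557 (merge (leaf 1 524 556) (node 493 (merge (leaf 3 492 492) (node 430 (merge (leaf 6 429 461) (leaf 5 429 494))))))))) (merge (node 494 (merge (node 431 (merge (leaf 6 430 558) (node 399 (merge (leaf 5 366 367) (leaf 6 398 430))))) (merge (node 557 (merge (leaf 5 429 430) (node 589 (merge (leaf 6 461 493) (leaf 6 493 621))))) (node 558 (merge (leaf 6 430 431) (node 461 (merge (leaf 7 429 429) (node 590 (merge (leaf 7 461 493) (node 589 (merge (leaf 5 461 557) (leaf 5 493 621)))))))))))) (merge (node 561 (merge (leaf 0 525 527) (node 558 (merge (leaf 3 525 559) (node 494 (merge (leaf 6 430 431) (node 461 (merge (leaf 7 429 429) (node 590 (merge (leaf 7 461 493) (node 623 (merge (leaf 4 494 591) (node 622 (merge (leaf 4 526 655) (node 621 (merge (leaf 5 493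 589) (leaf 5 525 653))))))))))))))))) (node 493 (merge (node 527 (merge (leaf 3 492 492) (leaf 0 525 561))) (merge (node 561 (merge (leaf 0 525 527) (node 558 (merge (leaf 3 525 559) (node 590 (merge (leaf 7 493 622) (node 461 (merge (leaf 4 429 429) (leaf 4 461 557))))))))) (node 461 (merge (node 558 (merge (leaf 4 429 429) (node 590 (merge (leaf 4 461 557) (leaf 7 493 622))))) (merge (node 429 (merge (leaf 4 429 558) (node 398 (merge (leaf 6 397 430) (node 397 (merge (leaf 6 365 366) (node 396 (merge (leaf 7 364 364) (leaf 7 396 428))))))))) (node 557 (merge (leaf 6 429 430) (node 460 (merge (leaf 7 428 428) (node 492 (merge (leaf 1 459 491) (leaf 7 460 589)))))))))))))))))) (merge (node 527 (merge (node 495 (merge (leaf 4 431 431) (node 430 (merge (leaf 7 430 559) (node 398 (merge (leaf 4 366 366) (leaf 4 398 494))))))) (merge (node 526 (merge (leaf 0 525 561) (node 431 (merge (leaf 4 431 495) (node 494 (merge (leaf 6 430 558) (node 399 (merge (leaf 5 366 367) (leaf 6 398 430))))))))) (merge (node 526 (merge (leaf 0 525 561) (node 496 (merge (leaf 2 493 497) (node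 495 (merge (leaf 4 431 431) (node 559 (merge (leaf 7 430 430) (node 591 (merge (leaf 6 495 623) (node 590 (merge (leaf 5 462 558) (leaf 5 494 622))))))))))))) (merge (node 559 (merge (node 561 (merge (leaf 0 525 526) (node 562 (merge (leaf 3 527 563) (node 591 (merge (leaf 1 558 590) (node 623 (merge (leaf 6 495 496) (leaf 6 527 655))))))))) (merge (node 591 (merge (node 623 (merge (leaf 6 495 496) (leaf 6 527 655))) (node 495 (merge (leaf 7 462 494) (node 590 (merge (leaf 5 462 558) (leaf 5 494 622))))))) (node 561 (merge (leaf 0 525 526) (node 562 (merge (leaf 3 527 563) (node 594 (merge (leaf 0 559 595) (node 593 (merge (leaf 0 558 558) (node 625 (merge (leaf 7 528 657) (node 530 (merge (leaf 5 497 498) (leaf 2 527 531)))))))))))))))) (node 526 (merge (node 561 (merge (leaf 0 525 525) (node 562 (merge (leaf 3 526 559) (leaf 3 527 563))))) (merge (node 494 (merge (node 559 (merge (leaf 4 430 430) (node 591 (merge (leaf 4 462 558) (leaf 7 494 623))))) (merge (node 431 (merge (leaf 6 430 558) (node 399 (merge (leaf 5 366 367) (leaf 6 398 430))))) (merge (node 430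 (merge (leaf 4 430 559) (node 399 (merge (leaf 6 398 431) (node 398 (merge (leaf 6 366 367) (node 397 (merge (leaf 7 365 365) (leaf 7 397 429))))))))) (node 558 (merge (leaf 6 430 431) (node 461 (merge (leaf 7 429 429) (node 590 (merge (leaf 7 461 493) (node 591 (merge (leaf 4 462 559) (leaf 4 494 623))))))))))))) (node 494 (merge (node 431 (merge (leaf 6 430 558) (node 399 (merge (leaf 5 366 367) (leaf 6 398 430))))) (merge (node 558 (merge (leaf 6 430 431) (node 525 (merge (leaf 0 525 561) (node 461 (merge (leaf 7 429 429) (node 493 (merge (leaf 3 492 492) (leaf 7 461 590))))))))) (merge (node 525 (merge (leaf 0 525 561) (node 493 (merge (leaf 3 492 492) (node 430 (merge (leaf 5 397 398) (node 429 (merge (leaf 7 397 397) (node 428 (merge (leaf 0 427 427) (node 461 (merge (leaf 7 396 396) (leaf 7 429 558))))))))))))) (node 525 (merge (leaf 0 525 561) (node 493 (merge (leaf 3 492 492) (node 430 (merge (leaf 5 397 398) (node 431 (merge (leaf 6 398 399) (node 429 (merge (leaf 7 397 397) (node 428 (merge (leaf 0 427 427) (node 396 (merge (leaf 3 395 395) (leaf 7 396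 461))))))))))))))))))))))))))) (merge (node 431 (merge (node 495 (merge (leaf 4 431 527) (node 496 (merge (leaf 4 399 399) (node 461 (merge (leaf 0 460 460) (node 497 (merge (leaf 3 461 494) (leaf 3 462 498))))))))) (merge (node 495 (merge (leaf 4 431 527) (node 399 (merge (leaf 4 399 496) (node 368 (merge (leaf 6 367 400) (node 367 (merge (leaf 6 335 336) (node 366 (merge (leaf 7 334 334) (leaf 7 366 398))))))))))) (merge (node 430 (merge (node 461 (merge (node 460 (merge (leaf 2 428 432) (leaf 2 427 459))) (node 493 (merge (leaf 6 429 557) (node 398 (merge (leaf 5 365 366) (leaf 5 397 494))))))) (merge (node 461 (merge (node 432 (merge (leaf 1 429 433) (leaf 2 428 460))) (node 493 (merge (leaf 6 429 557) (node 398 (merge (leaf 5 365 366) (leaf 6 397 429))))))) (merge (node 398 (merge (node 397 (merge (node 365 (merge (leaf 7 365 494) (node 333 (merge (leaf 4 301 301) (leaf 4 333 429))))) (node 396 (merge (leaf 0 395 395) (node 432 (merge (leaf 0 396 399) (leaf 3 397 433))))))) (merge (node 366 (merge (leaf 4 334 334) (node 367 (merge (leaf 6 334 335) (node 365 (merge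 (leaf 7 333 333) (node 397 (merge (leaf 7 365 494) (node 396 (merge (leaf 1 364 368) (leaf 0 395 395))))))))))) (merge (node 397 (merge (node 396 (merge (leaf 0 395 395) (node 432 (merge (leaf 0 396 399) (leaf 3 397 433))))) (merge (node 396 (merge (leaf 0 395 395) (node 366 (merge (leaf 4 334 334) (node 367 (merge (leaf 6 334 335) (node 368 (merge (leaf 1 364 365) (leaf 1 365 369))))))))) (node 432 (merge (leaf 3 397 433) (node 366 (merge (leaf 4 334 334) (node 367 (merge (leaf 6 334 335) (node 368 (merge (leaf 1 365 369) (node 336 (merge (leaf 6 335 399) (leaf 5 335 400)))))))))))))) (merge (node 366 (merge (leaf 4 334 334) (node 367 (merge (leaf 6 334 335) (node 399 (merge (leaf 6 366 494) (node 368 (merge (leaf 6 335 336) (node 369 (merge (leaf 1 366 370) (leaf 1 365 397))))))))))) (node 366 (merge (leaf 4 334 334) (node 367 (merge (leaf 6 334 335) (node 399 (merge (leaf 6 366 494) (node 365 (merge (leaf 7 333 333) (node 364 (merge (leaf 0 363 363) (leaf 0 364 400)))))))))))))))) (merge (node 398 (merge (node 493 (merge (leaf 5 397 494) (node 461 (merge (leaf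 6 397 429) (leaf 6 429 557))))) (merge (node 366 (merge (leaf 4 334 334) (node 367 (merge (leaf 6 334 335) (node 365 (merge (leaf 7 333 333) (node 397 (merge (leaf 7 365 494) (node 396 (merge (leaf 1 364 368) (leaf 0 395 395))))))))))) (node 399 (merge (node 367 (merge (leaf 5 334 335) (node 368 (merge (leaf 6 335 336) (node 369 (merge (leaf 1 366 370) (node 397 (merge (leaf 2 364 396) (leaf 2 365 400))))))))) (merge (node 367 (merge (leaf 5 334 335) (node 368 (merge (leaf 6 335 336) (node 369 (merge (leaf 1 366 370) (node 397 (merge (leaf 1 365 366) (leaf 2 364 396))))))))) (node 366 (merge (leaf 4 334 334) (node 365 (merge (leaf 7 333 333) (node 400 (merge (leaf 3 365 401) (node 428 (merge (leaf 2 396 429) (node 461 (merge (leaf 5 365 493) (node 460 (merge (leaf 3 427 427) (leaf 2 427 459))))))))))))))))))) (node 429 (merge (node 428 (merge (leaf 0 427 427) (node 460 (merge (leaf 1 427 459) (node 396 (merge (leaf 3 395 395) (node 493 (merge (leaf 7 396 461) (leaf 4 396 492))))))))) (merge (node 428 (merge (leaf 0 427 427) (node 396 (merge (leaf 3 395 395) (node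 432 (merge (leaf 3 396 397) (node 433 (merge (leaf 1 430 434) (leaf 1 429 461))))))))) (merge (node 428 (merge (leaf 0 427 427) (node 460 (merge (leaf 1 427 459) (node 396 (merge (leaf 3 395 395) (node 397 (merge (leaf 3 396 432) (node 492 (merge (leaf 6 364 365) (leaf 4 396 493))))))))))) (merge (node 432 (merge (node 433 (merge (leaf 1 430 434) (node 401 (merge (leaf 2 397 400) (leaf 2 398 402))))) (node 461 (merge (leaf 1 428 460) (node 397 (merge (leaf 3 396 396) (node 365 (merge (leaf 4 333 333) (leaf 4 365 494))))))))) (node 428 (merge (leaf 0 427 427) (node 460 (merge (leaf 1 427 459) (node 432 (merge (leaf 1 428 461) (node 433 (merge (leaf 1 430 434) (node 401 (merge (leaf 2 397 400) (leaf 2 398 402))))))))))))))))))))) (node 430 (merge (node 495 (merge (leaf 4 431 527) (node 398 (merge (leaf 4 366 366) (node 493 (merge (leaf 5 397 494) (node 461 (merge (leaf 6 429 557) (node 460 (merge (leaf 2 428 432) (leaf 2 427 459))))))))))) (merge (node 461 (merge (node 460 (merge (leaf 2 427 459) (node 495 (merge (leaf 0 460 496) (leaf 4 431 527))))) (node 493 (merge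 (leaf 6 429 557) (node 429 (merge (leaf 6 397 398) (node 428 (merge (leaf 7 396 396) (leaf 0 427 427))))))))) (merge (node 495 (merge (leaf 4 431 527) (node 398 (merge (leaf 4 366 366) (node 494 (merge (leaf 5 397 493) (node 397 (merge (leaf 7 365 365) (node 396 (merge (leaf 0 395 395) (node 432 (merge (leaf 3 396 429) (leaf 3 397 433))))))))))))) (merge (node 432 (merge (node 461 (merge (leaf 1 429 433) (leaf 2 428 460))) (merge (node 433 (merge (leaf 1 430 434) (node 398 (merge (leaf 3 397 397) (node 495 (merge (leaf 4 366 366) (leaf 7 398 527))))))) (node 429 (merge (node 397 (merge (leaf 3 396 396) (node 365 (merge (leaf 4 333 333) (node 494 (merge (leaf 7 365 398) (leaf 4 365 461))))))) (merge (node 428 (merge (leaf 0 427 427) (node 460 (merge (leaf 1 427 459) (node 461 (merge (leaf 1 428 432) (node 495 (merge (leaf 0 460 496) (leaf 4 431 527))))))))) (node 397 (merge (leaf 3 396 396) (node 365 (merge (leaf 4 333 333) (node 398 (merge (leaf 7 365 494) (node 495 (merge (leaf 4 366 366) (leaf 7 398 527))))))))))))))) (node 429 (merge (node 428 (merge (leaf 0 427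 427) (node 460 (merge (leaf 1 427 459) (node 396 (merge (leaf 3 395 395) (node 493 (merge (leaf 7 396 461) (leaf 4 396 492))))))))) (merge (node 428 (merge (leaf 0 427 427) (node 396 (merge (leaf 3 395 395) (node 432 (merge (leaf 3 396 397) (node 433 (merge (leaf 1 430 434) (leaf 1 429 461))))))))) (merge (node 428 (merge (leaf 0 427 427) (node 460 (merge (leaf 1 427 459) (node 396 (merge (leaf 3 395 395) (node 397 (merge (leaf 3 396 432) (node 492 (merge (leaf 6 364 365) (leaf 4 396 493))))))))))) (merge (node 432 (merge (node 433 (merge (leaf 1 430 434) (node 401 (merge (leaf 2 397 400) (leaf 2 398 402))))) (node 461 (merge (leaf 1 428 460) (node 397 (merge (leaf 3 396 396) (node 365 (merge (leaf 4 333 333) (leaf 4 365 494))))))))) (node 428 (merge (leaf 0 427 427) (node 460 (merge (leaf 1 427 459) (node 432 (merge (leaf 1 428 461) (node 433 (merge (leaf 1 430 434) (node 401 (merge (leaf 2 397 400) (leaf 2 398 402))))))))))))))))))))))))) (merge (node 431 (merge (node 495 (merge (leaf 4 431 527) (node 399 (merge (leaf 4 399 496) (node 368 (merge (leaf 6 367 400)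 (node 367 (merge (leaf 6 335 336) (node 366 (merge (leaf 7 334 334) (leaf 7 366 398))))))))))) (merge (node 399 (merge (node 494 (merge (leaf 5 366 367) (node 495 (merge (leaf 4 399 496) (leaf 5 398 526))))) (merge (node 367 (merge (leaf 5 366 494) (node 336 (merge (leaf 6 335 368) (node 335 (merge (leaf 6 303 304) (node 334 (merge (leaf 7 302 302) (leaf 7 334 366))))))))) (node 495 (merge (leaf 4 399 496) (node 398 (merge (leaf 7 366 366) (node 400 (merge (leaf 6 367 368) (node 401 (merge (node 434 (merge (leaf 0 398 433) (node 402 (merge (leaf 0 399 435) (node 370 (merge (leaf 2 366 369) (leaf 2 367 371))))))) (merge (node 433 (merge (leaf 0 398 434) (node 397 (merge (leaf 0 397 432) (node 428 (merge (leaf 1 396 429) (node 396 (merge (leaf 1 395 427) (node 364 (merge (leaf 3 363 363) (leaf 3 364 365))))))))))) (merge (node 370 (merge (leaf 2 366 369) (node 402 (merge (leaf 2 367 371) (node 432 (merge (leaf 1 399 403) (node 397 (merge (leaf 0 396 396) (leaf 0 397 433))))))))) (node 370 (merge (leaf 2 366 369) (node 402 (merge (leaf 2 367 371) (node 435 (merge (leaf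 0 399 434) (node 403 (merge (leaf 1 399 432) (leaf 0 400 436)))))))))))))))))))))) (node 526 (merge (node 558 (merge (leaf 6 430 494) (node 561 (merge (leaf 0 525 527) (leaf 3 525 559))))) (merge (node 461 (merge (node 558 (merge (leaf 6 430 494) (node 493 (merge (leaf 4 429 429) (node 590 (merge (leaf 4 461 557) (leaf 7 493 622))))))) (node 460 (merge (leaf 2 428 432) (node 491 (merge (leaf 1 459 492) (node 459 (merge (leaf 1 458 490) (node 427 (merge (leaf 3 426 426) (leaf 3 427 428))))))))))) (merge (node 461 (merge (node 460 (merge (leaf 2 428 432) (node 428 (merge (leaf 3 427 427) (node 493 (merge (leaf 7 428 557) (node 396 (merge (leaf 4 364 364) (leaf 7 396 429))))))))) (merge (node 527 (merge (leaf 0 525 561) (node 557 (merge (leaf 1 524 556) (node 493 (merge (leaf 3 492 492) (node 558 (merge (leaf 4 429 429) (leaf 4 461 590))))))))) (node 460 (merge (leaf 2 428 432) (node 491 (merge (leaf 1 459 492) (node 459 (merge (leaf 1 458 490) (node 427 (merge (leaf 3 426 426) (leaf 3 427 428)))))))))))) (node 557 (merge (node 527 (merge (leaf 1 524 556) (leaf 0 525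 561))) (merge (node 589 (merge (node 493 (merge (leaf 6 461 494) (node 460 (merge (leaf 7 460 492) (node 461 (merge (leaf 7 428 428) (leaf 2 428 432))))))) (merge (node 621 (merge (leaf 6 493 494) (node 654 (merge (leaf 4 525 622) (node 653 (merge (leaf 4 557 686) (node 652 (merge (leaf 5 524 620) (leaf 5 556 684))))))))) (node 493 (merge (node 460 (merge (leaf 7 460 492) (node 461 (merge (leaf 7 428 428) (leaf 2 428 432))))) (merge (node 590 (merge (leaf 4 493 622) (node 588 (merge (leaf 5 492 620) (node 591 (merge (leaf 2 556 559) (node 556 (merge (leaf 5 460 461) (leaf 3 555 555))))))))) (node 622 (merge (leaf 4 493 590) (node 621 (merge (leaf 4 525 654) (node 620 (merge (leaf 5 492 588) (leaf 5 524 652))))))))))))) (node 527 (merge (leaf 0 525 561) (node 493 (merge (leaf 3 492 492) (node 589 (merge (leaf 6 461 494) (node 622 (merge (leaf 4 493 590) (node 621 (merge (leaf 4 525 654) (node 620 (merge (leaf 5 492 588) (leaf 5 524 652))))))))))))))))))))))) (merge (node 557 (merge (node 526 (merge (node 527 (merge (leaf 1 524 556) (leaf 0 525 561))) (node 494 (merge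 (leaf 5 429 430) (node 589 (merge (leaf 5 461 558) (leaf 6 493 621))))))) (merge (node 493 (merge (node 461 (merge (leaf 6 429 430) (node 460 (merge (leaf 7 428 428) (node 492 (merge (leaf 1 459 491) (leaf 7 460 589))))))) (merge (node 430 (merge (leaf 6 429 461) (node 494 (merge (leaf 5 397 398) (leaf 5 429 526))))) (node 494 (merge (leaf 6 461 589) (node 492 (merge (leaf 2 459 491) (node 527 (merge (leaf 0 492 495) (leaf 3 492 526)))))))))) (merge (node 493 (merge (node 461 (merge (leaf 6 429 430) (node 590 (merge (leaf 4 461 558) (node 589 (merge (leaf 4 493 622) (node 588 (merge (leaf 5 460 556) (leaf 5 492 620))))))))) (merge (node 589 (merge (leaf 6 461 494) (node 590 (merge (leaf 4 493 622) (node 588 (merge (leaf 5 492 620) (node 559 (merge (leaf 1 556 558) (leaf 2 556 591))))))))) (node 461 (merge (leaf 6 429 430) (node 460 (merge (leaf 7 428 428) (node 491 (merge (leaf 1 459 492) (node 459 (merge (leaf 1 458 490) (node 458 (merge (leaf 0 458 494) (node 426 (merge (leaf 3 425 425) (leaf 3 426 427)))))))))))))))) (merge (node 526 (merge (node 527 (merge (leaf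 1 524 556) (leaf 0 525 561))) (merge (node 461 (merge (node 430 (merge (leaf 6 429 493) (leaf 5 429 494))) (merge (node 493 (merge (leaf 6 429 430) (node 558 (merge (leaf 4 429 429) (leaf 4 461 590))))) (merge (node 494 (merge (leaf 5 429 430) (node 558 (merge (leaf 7 429 429) (node 559 (merge (leaf 3 525 561) (leaf 4 462 591))))))) (node 558 (merge (node 493 (merge (leaf 4 429 429) (leaf 4 461 590))) (merge (node 494 (merge (leaf 7 429 429) (node 559 (merge (leaf 3 525 561) (leaf 4 462 591))))) (node 590 (merge (leaf 4 461 493) (node 494 (merge (leaf 6 462 495) (node 622 (merge (leaf 7 525 654) (node 623 (merge (leaf 4 494 591) (leaf 4 526 655)))))))))))))))) (node 527 (merge (leaf 1 524 556) (node 493 (merge (leaf 3 492 492) (node 461 (merge (leaf 6 429 430) (node 558 (merge (leaf 4 429 429) (leaf 4 461 590)))))))))))) (merge (node 493 (merge (node 461 (merge (leaf 6 429 430) (node 460 (merge (leaf 7 428 428) (node 492 (merge (leaf 1 459 491) (leaf 7 460 589))))))) (merge (node 461 (merge (leaf 6 429 430) (node 590 (merge (leaf 4 461 558) (node 589 (merge (leaf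 4 493 622) (node 588 (merge (leaf 5 460 556) (leaf 5 492 620))))))))) (merge (node 461 (merge (leaf 6 429 430) (node 428 (merge (leaf 7 428 460) (node 429 (merge (leaf 7 396 396) (node 558 (merge (leaf 4 429 526) (leaf 4 461 590))))))))) (node 589 (merge (node 622 (merge (leaf 4 493 590) (node 621 (merge (leaf 4 525 654) (node 620 (merge (leaf 5 492 588) (leaf 5 524 652))))))) (merge (node 492 (merge (leaf 7 460 460) (node 526 (merge (leaf 3 492 527) (node 622 (merge (leaf 4 493 590) (node 621 (merge (leaf 4 525 654) (node 558 (merge (leaf 6 525 653) (node 559 (merge (leaf 3 525 561) (leaf 1 556 588))))))))))))) (merge (node 492 (merge (leaf 7 460 460) (node 526 (merge (leaf 3 492 527) (node 622 (merge (leaf 4 493 590) (node 621 (merge (leaf 4 525 654) (node 653 (merge (leaf 6 525 558) (node 652 (merge (leaf 5 524 620) (leaf 5 556 684))))))))))))) (merge (node 492 (merge (leaf 7 460 460) (node 526 (merge (leaf 3 492 527) (node 620 (merge (leaf 5 492 588) (node 621 (merge (leaf 5 524 652) (node 653 (merge (leaf 6 525 558) (node 654 (merge (leaf 4 525 622) (leaf 4 557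 686))))))))))))) (node 492 (merge (leaf 7 460 460) (node 527 (merge (leaf 3 492 526) (node 588 (merge (leaf 5 492 620) (node 559 (merge (leaf 1 556 558) (node 591 (merge (leaf 2 556 590) (node 623 (merge (leaf 6 495 496) (leaf 6 527 655)))))))))))))))))))))) (node 526 (merge (node 527 (merge (leaf 1 524 556) (leaf 0 525 561))) (merge (node 527 (merge (leaf 0 525 561) (node 493 (merge (leaf 3 492 492) (node 589 (merge (leaf 6 461 494) (node 622 (merge (leaf 4 493 590) (node 621 (merge (leaf 4 525 654) (node 620 (merge (leaf 5 492 588) (leaf 5 524 652))))))))))))) (node 589 (merge (node 621 (merge (leaf 6 493 494) (node 653 (merge (leaf 6 525 558) (node 652 (merge (leaf 5 524 620) (leaf 5 556 684))))))) (merge (node 621 (merge (leaf 6 493 494) (node 653 (merge (leaf 6 525 558) (node 654 (merge (leaf 4 525 622) (leaf 4 557 686))))))) (merge (node 621 (merge (leaf 6 493 494) (node 622 (merge (leaf 4 525 654) (node 493 (merge (leaf 4 493 590) (node 620 (merge (leaf 5 492 588) (leaf 5 524 652))))))))) (node 588 (merge (node 620 (merge (leaf 5 492 493) (node 652 (merge (leaf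 6 524 556) (leaf 6 556 684))))) (merge (node 558 (merge (leaf 1 556 559) (node 493 (merge (leaf 5 492 620) (node 461 (merge (leaf 4 429 429) (leaf 4 461 590))))))) (node 590 (merge (node 559 (merge (leaf 1 556 558) (leaf 2 556 591))) (merge (node 558 (merge (leaf 1 556 559) (node 622 (merge (leaf 7 525 654) (node 587 (merge (leaf 2 554 586) (leaf 0 587 623))))))) (merge (node 591 (merge (leaf 2 556 559) (node 623 (merge (leaf 0 588 624) (node 587 (merge (leaf 0 587 622) (node 555 (merge (leaf 3 554 554) (leaf 3 555 556))))))))) (node 555 (merge (node 556 (merge (leaf 0 554 554) (leaf 3 555 591))) (merge (node 587 (merge (leaf 3 554 554) (node 622 (merge (leaf 0 587 623) (node 558 (merge (leaf 2 554 586) (leaf 7 525 654))))))) (node 591 (merge (leaf 3 555 556) (node 623 (merge (leaf 0 588 624) (node 622 (merge (leaf 0 587 587) (node 558 (merge (leaf 7 525 654) (leaf 4 526 655)))))))))))))))))))))))))))))))) (hyp 0)))))))))) nP_289 cP_289 13 (by decide +kernel)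
def nP_290 : ℕ := 0x120000001200000000000000080000000000000000000000000000000000000000000000000000000000000000000000000000000000000000000000000000000000000000000
def cP_290 : ℕ := 0x80000000c000000ed000000edc00001cdc000003bc0000007c000001fc0000007000000050000000000000000000000000000000000000000000000000000000000000000000000000000000000000000000
theorem lP_290 : S nP_290 cP_290 13 := S_of_chk [] trivial (node 462 (merge (node 527 (merge (node 526 (merge (leaf 0 525 561) (node 524 (merge (leaf 0 524 559) (node 556 (merge (leaf 1 523 555) (leaf 1 524 557))))))) (merge (node 526 (merge (leaf 0 525 561) (node 496 (merge (leaf 2 493 497) (node 495 (merge (leaf 4 431 431) (leaf 2 492 524))))))) (node 495 (merge (leaf 4 431 431) (node 559 (merge (leaf 7 430 430) (node 590 (merge (leaf 5 462 558) (node 591 (merge (leaf 5 494 622) (node 623 (merge (leaf 6 495 496) (leaf 6 527 655)))))))))))))) (merge (node 527 (merge (node 526 (merge (leaf 0 525 561) (node 524 (merge (leaf 0 524 559) (node 492 (merge (leaf 3 491 491) (leaf 3 492 493))))))) (merge (node 526 (merge (leaf 0 525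 561) (node 496 (merge (leaf 2 493 497) (node 495 (merge (leaf 4 431 431) (leaf 2 492 524))))))) (node 495 (merge (leaf 4 431 431) (node 559 (merge (leaf 7 430 430) (node 590 (merge (leaf 5 462 558) (node 591 (merge (leaf 5 494 622) (node 623 (merge (leaf 6 495 496) (leaf 6 527 655)))))))))))))) (merge (node 461 (merge (node 493 (merge (leaf 6 429 430) (node 558 (merge (leaf 4 461 590) (node 526 (merge (leaf 4 429 429) (node 556 (merge (leaf 1 524 527) (leaf 5 460 588))))))))) (merge (node 460 (merge (node 495 (merge (leaf 0 460 496) (node 431 (merge (leaf 2 428 432) (leaf 4 431 527))))) (node 491 (merge (leaf 1 459 492) (node 459 (merge (leaf 1 458 490) (node 427 (merge (leaf 3 426 426) (leaf 3 427 428))))))))) (node 460 (merge (node 428 (merge (leaf 3 427 427) (node 493 (merge (leaf 7 428 557) (node 396 (merge (leaf 4 364 364) (leaf 7 396 429))))))) (node 491 (merge (leaf 1 459 492) (node 459 (merge (leaf 1 458 490) (node 431 (merge (leaf 2 427 430) (leaf 2 428 432)))))))))))) (merge (node 461 (merge (node 493 (merge (leaf 6 429 430) (node 558 (merge (leaf 4 461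 590) (node 559 (merge (leaf 3 524 524) (node 556 (merge (leaf 2 524 527) (leaf 5 460 588))))))))) (merge (node 460 (merge (node 495 (merge (leaf 0 460 496) (node 431 (merge (leaf 2 428 432) (leaf 4 431 527))))) (node 491 (merge (leaf 1 459 492) (node 459 (merge (leaf 1 458 490) (node 427 (merge (leaf 3 426 426) (leaf 3 427 428))))))))) (node 460 (merge (node 492 (merge (leaf 1 459 491) (node 428 (merge (leaf 3 427 427) (node 557 (merge (leaf 7 428 493) (leaf 4 428 524))))))) (merge (node 431 (merge (leaf 2 428 432) (node 459 (merge (leaf 2 427 430) (node 427 (merge (leaf 3 426 426) (leaf 3 427 428))))))) (node 491 (merge (leaf 1 459 492) (node 459 (merge (leaf 1 458 490) (node 431 (merge (leaf 2 427 430) (leaf 2 428 432))))))))))))) (merge (node 461 (merge (node 460 (merge (node 495 (merge (leaf 0 460 496) (node 431 (merge (leaf 2 428 432) (leaf 4 431 527))))) (node 428 (merge (leaf 3 427 427) (node 493 (merge (leaf 7 428 557) (node 396 (merge (leaf 4 364 364) (leaf 7 396 429))))))))) (merge (node 460 (merge (node 495 (merge (leaf 0 460 496) (node 431 (merge (leaf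 2 428 432) (leaf 4 431 527))))) (node 491 (merge (leaf 1 459 492) (node 459 (merge (leaf 1 458 490) (node 427 (merge (leaf 3 426 426) (leaf 3 427 428))))))))) (merge (node 460 (merge (node 428 (merge (leaf 3 427 427) (node 493 (merge (leaf 7 428 557) (node 396 (merge (leaf 4 364 364) (leaf 7 396 429))))))) (node 491 (merge (leaf 1 459 492) (node 459 (merge (leaf 1 458 490) (node 431 (merge (leaf 2 427 430) (leaf 2 428 432))))))))) (merge (node 527 (merge (node 526 (merge (leaf 0 525 561) (node 524 (merge (leaf 0 524 559) (node 496 (merge (leaf 2 492 495) (leaf 2 493 497))))))) (merge (node 526 (merge (leaf 0 525 561) (node 557 (merge (leaf 1 524 556) (node 493 (merge (leaf 6 429 430) (leaf 3 492 492))))))) (node 495 (merge (leaf 4 431 431) (node 430 (merge (leaf 7 430 559) (node 493 (merge (leaf 6 429 557) (node 398 (merge (leaf 4 366 366) (leaf 6 397 429)))))))))))) (node 527 (merge (node 526 (merge (leaf 0 525 561) (node 492 (merge (leaf 3 492 493) (node 491 (merge (leaf 1 459 460) (leaf 3 491 524))))))) (merge (node 526 (merge (leaf 0 525 561) (node 524 (merge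 (leaf 0 524 559) (node 496 (merge (leaf 2 492 495) (leaf 2 493 497))))))) (merge (node 526 (merge (leaf 0 525 561) (node 496 (merge (leaf 2 493 497) (node 460 (merge (leaf 0 460 495) (node 492 (merge (leaf 1 459 491) (leaf 3 492 493))))))))) (node 460 (merge (node 491 (merge (leaf 1 459 492) (node 459 (merge (leaf 1 458 490) (node 427 (merge (leaf 3 426 426) (leaf 3 427 428))))))) (merge (node 495 (merge (leaf 0 460 496) (node 430 (merge (leaf 7 430 559) (node 427 (merge (leaf 3 427 428) (node 459 (merge (leaf 3 426 426) (node 429 (merge (leaf 2 426 458) (node 398 (merge (leaf 4 366 366) (leaf 6 397 493))))))))))))) (merge (node 495 (merge (leaf 0 460 496) (node 491 (merge (leaf 1 459 492) (node 459 (merge (leaf 1 458 490) (node 430 (merge (leaf 7 430 559) (node 429 (merge (leaf 2 426 458) (node 398 (merge (leaf 4 366 366) (leaf 6 397 493))))))))))))) (node 495 (merge (leaf 0 460 496) (node 492 (merge (leaf 1 459 491) (node 430 (merge (leaf 7 430 559) (node 428 (merge (leaf 3 427 427) (node 398 (merge (leaf 4 366 366) (node 429 (merge (leaf 6 397 493) (node 524 (merge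 (leaf 6 396 397) (leaf 6 428 556)))))))))))))))))))))))))))) (merge (node 461 (merge (node 493 (merge (leaf 6 429 430) (node 558 (merge (leaf 4 461 590) (node 559 (merge (leaf 3 524 524) (node 526 (merge (leaf 4 429 429) (leaf 3 525 561))))))))) (merge (node 493 (merge (leaf 6 429 430) (node 558 (merge (leaf 4 461 590) (node 559 (merge (leaf 3 524 524) (node 556 (merge (leaf 2 524 527) (leaf 5 460 588))))))))) (merge (node 493 (merge (leaf 6 429 430) (node 558 (merge (leaf 4 461 590) (node 526 (merge (leaf 4 429 429) (node 556 (merge (leaf 1 524 527) (leaf 5 460 588))))))))) (merge (node 493 (merge (node 558 (merge (leaf 4 461 590) (node 559 (merge (leaf 3 524 524) (node 526 (merge (leaf 4 429 429) (leaf 3 525 561))))))) (merge (node 558 (merge (leaf 4 461 590) (node 556 (merge (leaf 5 460 588) (node 527 (merge (leaf 1 524 526) (leaf 2 524 559))))))) (node 428 (merge (leaf 7 428 460) (node 429 (merge (leaf 7 396 396) (node 556 (merge (leaf 5 428 524) (leaf 5 460 588)))))))))) (merge (node 527 (merge (node 526 (merge (leaf 0 525 561) (node 524 (merge (leaf 0 524 559)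 (node 556 (merge (leaf 1 523 555) (leaf 1 524 557))))))) (merge (node 460 (merge (node 491 (merge (leaf 1 459 492) (node 459 (merge (leaf 1 458 490) (node 427 (merge (leaf 3 426 426) (leaf 3 427 428))))))) (merge (node 495 (merge (leaf 0 460 496) (node 559 (merge (leaf 7 430 430) (node 558 (merge (leaf 5 462 590) (node 557 (merge (leaf 3 524 524) (leaf 2 524 556))))))))) (node 495 (merge (leaf 0 460 496) (node 559 (merge (leaf 7 430 430) (node 558 (merge (leaf 5 462 590) (node 557 (merge (leaf 3 524 524) (leaf 2 524 556)))))))))))) (node 526 (merge (leaf 0 525 561) (node 496 (merge (leaf 2 493 497) (node 460 (merge (leaf 0 460 495) (node 491 (merge (leaf 1 459 492) (node 459 (merge (leaf 1 458 490) (node 427 (merge (leaf 3 426 426) (leaf 3 427 428)))))))))))))))) (node 527 (merge (node 526 (merge (leaf 0 525 561) (node 492 (merge (leaf 3 492 493) (node 491 (merge (leaf 1 459 460) (leaf 3 491 524))))))) (merge (node 526 (merge (leaf 0 525 561) (node 524 (merge (leaf 0 524 559) (node 496 (merge (leaf 2 492 495) (leaf 2 493 497))))))) (merge (node 526 (merge (leaf 0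 525 561) (node 496 (merge (leaf 2 493 497) (node 460 (merge (leaf 0 460 495) (node 492 (merge (leaf 1 459 491) (leaf 3 492 493))))))))) (node 460 (merge (node 491 (merge (leaf 1 459 492) (node 459 (merge (leaf 1 458 490) (node 427 (merge (leaf 3 426 426) (leaf 3 427 428))))))) (merge (node 495 (merge (leaf 0 460 496) (node 430 (merge (leaf 7 430 559) (node 427 (merge (leaf 3 427 428) (node 459 (merge (leaf 3 426 426) (node 429 (merge (leaf 2 426 458) (node 398 (merge (leaf 4 366 366) (leaf 6 397 493))))))))))))) (merge (node 495 (merge (leaf 0 460 496) (node 491 (merge (leaf 1 459 492) (node 459 (merge (leaf 1 458 490) (node 430 (merge (leaf 7 430 559) (node 429 (merge (leaf 2 426 458) (node 398 (merge (leaf 4 366 366) (leaf 6 397 493))))))))))))) (node 495 (merge (leaf 0 460 496) (node 492 (merge (leaf 1 459 491) (node 430 (merge (leaf 7 430 559) (node 428 (merge (leaf 3 427 427) (node 398 (merge (leaf 4 366 366) (node 429 (merge (leaf 6 397 493) (node 524 (merge (leaf 6 396 397) (leaf 6 428 556))))))))))))))))))))))))))))) (merge (node 461 (merge (node 493 (merge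 (leaf 6 429 430) (node 558 (merge (leaf 4 461 590) (node 429 (merge (leaf 4 429 526) (node 556 (merge (leaf 5 428 524) (leaf 5 460 588))))))))) (merge (node 460 (merge (node 492 (merge (leaf 1 459 491) (node 428 (merge (leaf 3 427 427) (leaf 4 428 524))))) (merge (node 431 (merge (leaf 2 428 432) (node 459 (merge (leaf 2 427 430) (node 427 (merge (leaf 3 426 426) (leaf 3 427 428))))))) (node 491 (merge (leaf 1 459 492) (node 459 (merge (leaf 1 458 490) (node 431 (merge (leaf 2 427 430) (leaf 2 428 432)))))))))) (merge (node 460 (merge (node 428 (merge (leaf 3 427 427) (node 493 (merge (leaf 7 428 557) (node 396 (merge (leaf 4 364 364) (leaf 7 396 429))))))) (node 491 (merge (leaf 1 459 492) (node 459 (merge (leaf 1 458 490) (node 431 (merge (leaf 2 427 430) (leaf 2 428 432))))))))) (node 493 (merge (node 558 (merge (leaf 4 461 590) (node 559 (merge (leaf 3 524 524) (node 526 (merge (leaf 4 429 429) (leaf 3 525 561))))))) (merge (node 428 (merge (leaf 7 428 460) (node 429 (merge (leaf 7 396 396) (node 556 (merge (leaf 5 428 524) (leaf 5 460 588))))))) (merge (node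 460 (merge (leaf 7 428 428) (node 491 (merge (leaf 1 459 492) (node 490 (merge (leaf 1 458 459) (node 558 (merge (leaf 4 461 590) (node 524 (merge (leaf 3 524 559) (node 523 (merge (leaf 0 522 522) (leaf 3 490 526))))))))))))) (node 460 (merge (leaf 7 428 428) (node 491 (merge (leaf 1 459 492) (node 459 (merge (leaf 1 458 490) (node 426 (merge (leaf 3 426 427) (node 558 (merge (leaf 4 461 590) (node 526 (merge (leaf 4 429 429) (node 556 (merge (leaf 5 460 588) (node 555 (merge (leaf 2 522 554) (node 523 (merge (leaf 7 426 458) (leaf 3 522 522))))))))))))))))))))))))))) (node 461 (merge (node 460 (merge (node 495 (merge (leaf 0 460 496) (node 431 (merge (leaf 2 428 432) (leaf 4 431 527))))) (node 491 (merge (leaf 1 459 492) (node 459 (merge (leaf 1 458 490) (node 427 (merge (leaf 3 426 426) (leaf 3 427 428))))))))) (merge (node 558 (merge (node 559 (merge (leaf 3 524 524) (node 526 (merge (leaf 3 525 561) (node 493 (merge (leaf 4 429 429) (leaf 4 461 590))))))) (merge (node 559 (merge (leaf 3 524 524) (node 527 (merge (leaf 2 524 556) (node 495 (merge (leaf 4 431 431)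 (leaf 5 462 590))))))) (merge (node 526 (merge (node 561 (merge (leaf 0 525 527) (leaf 3 525 559))) (node 493 (merge (leaf 4 429 429) (node 590 (merge (leaf 4 461 557) (leaf 7 493 622))))))) (merge (node 526 (merge (node 493 (merge (leaf 4 429 429) (node 590 (merge (leaf 4 461 557) (leaf 7 493 622))))) (node 527 (merge (leaf 0 525 561) (node 496 (merge (leaf 2 493 497) (node 495 (merge (leaf 4 431 431) (leaf 2 492 524))))))))) (node 559 (merge (leaf 3 524 524) (node 561 (merge (leaf 3 525 526) (node 594 (merge (leaf 0 558 593) (node 562 (merge (leaf 0 559 595) (node 531 (merge (leaf 2 527 530) (node 563 (merge (leaf 3 527 527) (leaf 2 528 532)))))))))))))))))) (node 493 (merge (node 558 (merge (leaf 4 461 590) (node 559 (merge (leaf 3 524 524) (node 526 (merge (leaf 4 429 429) (leaf 3 525 561))))))) (merge (node 428 (merge (leaf 7 428 460) (node 429 (merge (leaf 7 396 396) (node 556 (merge (leaf 5 428 524) (leaf 5 460 588))))))) (merge (node 460 (merge (leaf 7 428 428) (node 491 (merge (leaf 1 459 492) (node 490 (merge (leaf 1 458 459) (node 558 (merge (leaf 4 461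 590) (node 524 (merge (leaf 3 524 559) (node 523 (merge (leaf 0 522 522) (leaf 3 490 526))))))))))))) (node 460 (merge (leaf 7 428 428) (node 491 (merge (leaf 1 459 492) (node 459 (merge (leaf 1 458 490) (node 426 (merge (leaf 3 426 427) (node 558 (merge (leaf 4 461 590) (node 526 (merge (leaf 4 429 429) (node 556 (merge (leaf 5 460 588) (node 555 (merge (leaf 2 522 554) (node 523 (merge (leaf 7 426 458) (leaf 3 522 522)))))))))))))))))))))))))))))))))) nP_290 cP_290 13 (by decide +kernel)

end Crest.Agent.H26Snaky
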