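import Crest.Agent.H26SnP019
import Crest.Agent.H26SnP021

/-! certificate data for S0047, part P 22 (computer generated) -/

set_option autoImplicit false
set_option maxRecDepth 100000

namespace Crest.Agent.H26Snaky

open T

def nP_291 : ℕ := 0x120000001200000000000000080000000000000000000000000000000000000000000000000000000000000000000000000000000000000000000000000000000000000000000
def cP_291 : ℕ := 0x4000000070000000f0000003fc00000efe00000edc00001ccc000000bc00000078000000f00000005000000000000000000000000000000000000000000000000000000000000000000000000000000000000000000000000000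
theorem lP_291 : S nP_291 cP_291 13 := S_of_chk [] trivial (node 558 (merge (node 527 (merge (node 526 (merge (leaf 1 524 556) (leaf 0 525 561))) (merge (node 559 (merge (leaf 2 524 556) (node 495 (merge (leaf 4 431 431) (leaf 5 462 590))))) (node 526 (merge (leaf 0 525 561) (node 495 (merge (leaf 4 431 431) (node 590 (merge (leaf 5 462 559) (leaf 6 494 622)))))))))) (merge (node 527 (merge (node 556 (merge (leaf 1 524 526) (leaf 2 524 559))) (merge (node 559 (merge (leaf 2 524 556) (node 495 (merge (leaf 4 431 431) (leaf 5 462 590))))) (merge (node 526 (merge (leaf 1 524 556) (node 493 (merge (leaf 3 492 492) (node 461 (merge (leaf 4 429 429) (leaf 4 461 590))))))) (node 495 (merge (leaf 4 431 431) (node 590 (merge (leaf 5 462 559) (node 622 (merge (leaf 6 494 526) (node 557 (merge (leaf 7 525 654) (node 493 (merge (leaf 4 461 461) (leaf 4 493 589))))))))))))))) (merge (node 589 (merge (node 588 (merge (leaf 1 556 559) (node 620 (merge (leaf 5 492 493) (node 652 (merge (leaf 6 524 556) (leaf 5 524 621))))))) (merge (node 559 (merge (leaf 1 556 588) (node 590 (merge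 (leaf 1 557 561) (node 622 (merge (leaf 4 493 493) (leaf 7 525 654))))))) (merge (node 621 (merge (node 654 (merge (leaf 4 525 622) (node 653 (merge (leaf 4 557 686) (node 652 (merge (leaf 5 524 620) (leaf 5 556 684))))))) (merge (node 653 (merge (node 654 (merge (leaf 4 525 622) (leaf 4 557 686))) (merge (node 590 (merge (leaf 6 557 685) (node 493 (merge (leaf 4 461 461) (leaf 4 493 622))))) (node 685 (merge (leaf 6 557 590) (node 686 (merge (leaf 4 557 654) (leaf 4 589 718)))))))) (merge (node 652 (merge (leaf 5 524 620) (node 653 (merge (leaf 5 556 684) (node 590 (merge (leaf 6 557 685) (node 493 (merge (leaf 4 461 461) (leaf 4 493 622))))))))) (merge (node 652 (merge (leaf 5 524 620) (node 653 (merge (leaf 5 556 684) (node 685 (merge (leaf 6 557 590) (node 686 (merge (leaf 4 557 654) (leaf 4 589 718))))))))) (node 622 (merge (leaf 4 525 654) (node 590 (merge (leaf 4 493 493) (node 620 (merge (leaf 5 524 652) (node 619 (merge (leaf 2 587 591) (leaf 2 586 618)))))))))))))) (node 622 (merge (node 654 (merge (leaf 7 525 590) (leaf 4 525 621))) (merge (node 559 (merge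 (leaf 1 556 588) (node 590 (merge (leaf 1 557 561) (leaf 7 525 654))))) (merge (node 588 (merge (leaf 1 556 559) (node 587 (merge (leaf 2 554 586) (node 623 (merge (leaf 0 587 590) (node 621 (merge (leaf 3 587 620) (leaf 3 588 624))))))))) (node 588 (merge (leaf 1 556 559) (node 621 (merge (leaf 4 525 654) (node 623 (merge (leaf 3 588 624) (node 620 (merge (leaf 3 587 587) (leaf 5 524 652))))))))))))))))) (merge (node 589 (merge (node 588 (merge (leaf 1 556 559) (node 620 (merge (leaf 5 492 493) (node 652 (merge (leaf 5 524 621) (leaf 6 556 684))))))) (merge (node 621 (merge (node 654 (merge (leaf 4 525 622) (node 653 (merge (leaf 4 557 686) (node 652 (merge (leaf 5 524 620) (leaf 5 556 684))))))) (merge (node 653 (merge (node 654 (merge (leaf 4 525 622) (leaf 4 557 686))) (merge (node 590 (merge (leaf 6 557 685) (node 493 (merge (leaf 4 461 461) (leaf 4 493 622))))) (node 685 (merge (leaf 6 557 590) (node 686 (merge (leaf 4 557 654) (leaf 4 589 718)))))))) (merge (node 652 (merge (leaf 5 524 620) (node 653 (merge (leaf 5 556 684) (node 590 (merge (leaf 6 557 685)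 (node 493 (merge (leaf 4 461 461) (leaf 4 493 622))))))))) (merge (node 652 (merge (leaf 5 524 620) (node 653 (merge (leaf 5 556 684) (node 685 (merge (leaf 6 557 590) (node 686 (merge (leaf 4 557 654) (leaf 4 589 718))))))))) (node 622 (merge (leaf 4 525 654) (node 590 (merge (leaf 4 493 493) (node 620 (merge (leaf 5 524 652) (node 619 (merge (leaf 2 587 591) (leaf 2 586 618)))))))))))))) (node 559 (merge (leaf 1 556 588) (node 561 (merge (leaf 1 557 590) (node 594 (merge (leaf 0 558 593) (node 562 (merge (leaf 0 559 595) (node 531 (merge (leaf 2 527 530) (node 563 (merge (leaf 3 527 527) (leaf 2 528 532)))))))))))))))) (merge (node 526 (merge (node 527 (merge (leaf 1 524 556) (leaf 0 525 561))) (merge (node 527 (merge (leaf 0 525 561) (node 493 (merge (leaf 3 492 492) (node 461 (merge (leaf 4 429 429) (leaf 4 461 590))))))) (node 589 (merge (node 621 (merge (leaf 6 525 653) (node 622 (merge (leaf 4 525 654) (node 590 (merge (leaf 7 493 493) (node 623 (merge (leaf 4 526 655) (node 588 (merge (leaf 0 587 587) (leaf 3 588 624))))))))))) (merge (node 621 (merge (leaf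 6 525 653) (node 622 (merge (leaf 4 525 654) (node 590 (merge (leaf 7 493 493) (node 620 (merge (leaf 5 524 652) (node 619 (merge (leaf 2 587 591) (leaf 2 586 618))))))))))) (merge (node 621 (merge (leaf 6 525 653) (node 620 (merge (leaf 5 524 652) (node 493 (merge (leaf 5 492 588) (node 460 (merge (leaf 7 460 492) (node 461 (merge (leaf 7 428 428) (leaf 4 429 429))))))))))) (merge (node 590 (merge (node 622 (merge (leaf 7 493 493) (leaf 7 525 654))) (merge (node 622 (merge (leaf 7 525 654) (node 623 (merge (leaf 4 526 655) (node 588 (merge (leaf 0 587 587) (node 624 (merge (leaf 0 588 591) (leaf 3 589 625))))))))) (node 493 (merge (leaf 4 461 461) (node 492 (merge (leaf 7 460 460) (node 491 (merge (leaf 0 490 490) (node 588 (merge (leaf 5 492 620) (node 587 (merge (leaf 2 554 586) (node 555 (merge (leaf 3 554 554) (node 556 (merge (leaf 0 555 591) (node 523 (merge (leaf 4 459 459) (leaf 3 522 522)))))))))))))))))))) (node 590 (merge (node 622 (merge (leaf 7 525 654) (node 623 (merge (leaf 4 526 655) (node 588 (merge (leaf 0 587 587) (node 624 (merge (leaf 0 588 591)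 (leaf 3 589 625))))))))) (merge (node 621 (merge (leaf 6 525 653) (node 622 (merge (leaf 7 525 654) (node 620 (merge (leaf 5 524 652) (node 619 (merge (leaf 2 587 591) (leaf 2 586 618))))))))) (merge (node 621 (merge (leaf 6 525 653) (node 622 (merge (leaf 7 525 654) (node 623 (merge (leaf 4 526 655) (node 624 (merge (leaf 3 588 588) (leaf 3 589 625))))))))) (node 621 (merge (leaf 6 525 653) (node 620 (merge (leaf 5 524 652) (node 619 (merge (leaf 2 586 618) (node 588 (merge (leaf 1 587 591) (node 587 (merge (leaf 2 554 586) (node 555 (merge (leaf 3 554 554) (node 523 (merge (leaf 4 491 491) (node 522 (merge (leaf 7 490 490) (leaf 3 522 556))))))))))))))))))))))))))))) (node 588 (merge (node 589 (merge (leaf 1 556 559) (node 620 (merge (leaf 5 492 493) (node 652 (merge (leaf 6 524 556) (leaf 5 524 621))))))) (merge (node 556 (merge (node 527 (merge (leaf 1 524 526) (leaf 2 524 559))) (merge (node 587 (merge (leaf 1 555 559) (node 586 (merge (leaf 1 554 555) (leaf 2 553 585))))) (node 620 (merge (leaf 6 524 652) (node 526 (merge (leaf 1 524 527) (node 555 (merge (leaf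 2 522 554) (node 523 (merge (leaf 3 522 522) (node 491 (merge (leaf 4 459 459) (leaf 4 491 587)))))))))))))) (merge (node 493 (merge (node 461 (merge (leaf 5 460 556) (node 430 (merge (leaf 6 429 462) (node 429 (merge (leaf 6 397 398) (node 428 (merge (leaf 7 396 396) (leaf 7 428 460))))))))) (merge (node 589 (merge (leaf 5 492 620) (node 460 (merge (leaf 7 460 492) (node 461 (merge (leaf 7 428 428) (node 430 (merge (leaf 6 429 462) (node 429 (merge (leaf 6 397 398) (leaf 4 429 526))))))))))) (node 620 (merge (leaf 5 492 589) (node 556 (merge (leaf 6 524 652) (node 526 (merge (leaf 1 524 527) (node 555 (merge (leaf 2 522 554) (node 587 (merge (leaf 1 554 586) (node 523 (merge (leaf 4 491 491) (leaf 3 522 522)))))))))))))))) (node 559 (merge (leaf 1 556 589) (node 561 (merge (leaf 3 525 526) (node 594 (merge (leaf 0 558 593) (node 562 (merge (leaf 0 559 595) (node 531 (merge (leaf 2 527 530) (node 563 (merge (leaf 3 527 527) (leaf 2 528 532))))))))))))))))))))))) nP_291 cP_291 13 (by decide +kernel)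
def nP_292 : ℕ := 0x3000000120000000200000000000000000000000000000000000000000000000000000000000000000000000000000000000000000000000000000000000000000000000000000000000
def cP_292 : ℕ := 0x1c0000001c000001dfc00000cf8000009fc000001f8000001f8000001e000000140000000000000000000000000000000000000000000000000000000000000000000000000000000000000000000000000000000000
theorem lP_292 : S nP_292 cP_292 11 := S_of_chk [] trivial (node 587 (merge (node 590 (merge (node 623 (merge (leaf 0 587 622) (node 591 (merge (leaf 2 556 559) (leaf 0 588 624))))) (merge (node 555 (merge (leaf 3 554 554) (node 591 (merge (leaf 3 555 556) (leaf 2 556 559))))) (node 554 (merge (leaf 3 554 555) (node 586 (merge (leaf 3 553 553) (node 617 (merge (leaf 1 585 618) (node 585 (merge (leaf 2 553 556) (leaf 1 584 616)))))))))))) (merge (node 590 (merge (node 623 (merge (leaf 0 587 622) (node 591 (merge (leaf 2 556 559) (leaf 0 588 624))))) (node 618 (merge (leaf 1 586 619) (node 586 (merge (leaf 1 585 617) (node 554 (merge (leaf 3 553 553) (leaf 3 554 555))))))))) (merge (node 586 (merge (node 618 (merge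 (leaf 1 585 617) (node 590 (merge (leaf 1 586 619) (node 623 (merge (leaf 0 587 622) (node 591 (merge (leaf 2 556 559) (leaf 0 588 624))))))))) (merge (node 585 (merge (leaf 2 553 556) (node 616 (merge (leaf 1 584 617) (node 584 (merge (leaf 1 583 615) (node 552 (merge (leaf 3 551 551) (leaf 3 552 553))))))))) (node 585 (merge (leaf 2 553 556) (node 552 (merge (leaf 3 552 553) (node 584 (merge (leaf 3 551 551) (node 619 (merge (leaf 0 584 620) (node 618 (merge (leaf 0 583 583) (leaf 1 586 590)))))))))))))) (merge (node 590 (merge (node 623 (merge (leaf 0 587 622) (node 591 (merge (leaf 2 556 559) (leaf 0 588 624))))) (merge (node 619 (merge (leaf 1 586 618) (node 591 (merge (leaf 2 556 559) (leaf 1 587 620))))) (node 619 (merge (leaf 1 586 618) (node 554 (merge (leaf 3 554 555) (node 586 (merge (leaf 3 553 553) (node 585 (merge (leaf 2 553 556) (node 584 (merge (leaf 0 584 620) (node 615 (merge (leaf 1 583 616) (node 583 (merge (leaf 1 582 614) (node 551 (merge (leaf 3 550 550) (leaf 3 551 552)))))))))))))))))))) (merge (node 586 (merge (node 554 (merge (leaf 3 553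 553) (node 590 (merge (leaf 3 554 555) (node 623 (merge (leaf 0 587 622) (node 591 (merge (leaf 2 556 559) (leaf 0 588 624))))))))) (merge (node 585 (merge (leaf 2 553 556) (node 616 (merge (leaf 1 584 617) (node 584 (merge (leaf 1 583 615) (node 552 (merge (leaf 3 551 551) (leaf 3 552 553))))))))) (node 555 (merge (node 620 (merge (node 652 (merge (leaf 6 524 556) (leaf 7 555 684))) (merge (node 585 (merge (leaf 2 553 556) (node 584 (merge (leaf 0 584 619) (node 616 (merge (leaf 1 583 615) (leaf 1 584 617))))))) (node 652 (merge (leaf 6 556 684) (node 523 (merge (leaf 4 491 491) (leaf 4 523 619)))))))) (node 590 (merge (leaf 3 554 554) (node 623 (merge (leaf 0 587 622) (node 591 (merge (leaf 2 556 559) (leaf 0 588 624)))))))))))) (merge (node 555 (merge (node 590 (merge (leaf 3 554 554) (node 623 (merge (leaf 0 587 622) (node 591 (merge (leaf 3 555 556) (leaf 0 588 624))))))) (merge (node 590 (merge (leaf 3 554 554) (node 623 (merge (leaf 0 587 622) (node 591 (merge (leaf 0 588 624) (node 619 (merge (leaf 1 586 618) (leaf 1 587 620))))))))) (node 523 (merge (node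 620 (merge (leaf 4 491 491) (node 652 (merge (leaf 6 524 556) (leaf 6 556 684))))) (merge (node 620 (merge (leaf 4 491 491) (node 652 (merge (leaf 4 523 619) (leaf 6 556 684))))) (merge (node 491 (merge (node 460 (merge (leaf 6 459 492) (node 459 (merge (leaf 6 427 428) (leaf 4 459 556))))) (merge (node 458 (merge (leaf 7 458 490) (node 459 (merge (leaf 7 426 426) (leaf 4 459 556))))) (node 492 (merge (leaf 6 459 460) (node 619 (merge (leaf 6 491 524) (node 490 (merge (leaf 7 458 458) (leaf 7 490 522)))))))))) (node 619 (merge (node 620 (merge (leaf 4 523 652) (node 618 (merge (leaf 2 585 617) (leaf 5 522 650))))) (node 524 (merge (leaf 6 491 492) (node 556 (merge (leaf 6 523 651) (node 522 (merge (leaf 7 490 490) (leaf 0 521 521)))))))))))))))) (node 555 (merge (node 586 (merge (node 617 (merge (leaf 1 585 618) (node 585 (merge (leaf 2 553 556) (leaf 1 584 616))))) (merge (node 585 (merge (leaf 2 553 556) (node 553 (merge (leaf 3 552 552) (leaf 3 553 554))))) (node 618 (merge (leaf 1 585 617) (node 650 (merge (leaf 6 554 682) (node 554 (merge (leaf 6 522 523) (leaf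 3 553 553)))))))))) (merge (node 523 (merge (node 620 (merge (leaf 4 491 491) (node 652 (merge (leaf 6 524 556) (leaf 4 523 619))))) (merge (node 491 (merge (leaf 4 491 620) (node 460 (merge (leaf 6 459 492) (node 459 (merge (leaf 6 427 428) (node 458 (merge (leaf 7 426 426) (leaf 7 458 490))))))))) (merge (node 491 (merge (node 460 (merge (leaf 6 459 492) (node 459 (merge (leaf 6 427 428) (leaf 4 459 556))))) (merge (node 458 (merge (leaf 7 458 490) (node 459 (merge (leaf 7 426 426) (leaf 4 459 556))))) (node 492 (merge (leaf 6 459 460) (node 524 (merge (leaf 6 491 619) (node 490 (merge (leaf 7 458 458) (leaf 0 489 489)))))))))) (node 619 (merge (node 620 (merge (leaf 4 523 652) (node 618 (merge (leaf 2 585 617) (leaf 5 522 650))))) (node 524 (merge (leaf 6 491 492) (node 556 (merge (leaf 6 523 651) (node 522 (merge (leaf 7 490 490) (leaf 0 521 521))))))))))))) (merge (node 523 (merge (node 620 (merge (leaf 4 491 491) (node 652 (merge (leaf 4 523 619) (leaf 6 556 684))))) (merge (node 491 (merge (leaf 4 491 620) (node 586 (merge (leaf 5 490 618) (node 554 (merge (leaf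 5 458 459) (leaf 3 553 553))))))) (merge (node 618 (merge (node 586 (merge (leaf 1 585 617) (node 554 (merge (leaf 3 553 553) (leaf 6 522 650))))) (merge (node 619 (merge (leaf 5 522 650) (node 617 (merge (leaf 2 584 616) (leaf 2 585 620))))) (merge (node 617 (merge (leaf 1 585 586) (node 619 (merge (leaf 2 584 616) (leaf 2 585 620))))) (node 650 (merge (leaf 5 522 619) (node 586 (merge (leaf 6 522 554) (leaf 6 554 682))))))))) (node 586 (merge (node 618 (merge (leaf 5 490 491) (leaf 1 585 617))) (merge (node 618 (merge (leaf 1 585 617) (node 650 (merge (leaf 6 554 682) (node 554 (merge (leaf 6 522 523) (leaf 3 553 553))))))) (node 554 (merge (leaf 3 553 553) (node 491 (merge (leaf 5 458 459) (node 492 (merge (leaf 6 459 460) (node 524 (merge (leaf 6 491 619) (node 490 (merge (leaf 7 458 458) (leaf 0 489 489)))))))))))))))))) (merge (node 523 (merge (node 620 (merge (leaf 4 491 491) (node 652 (merge (leaf 6 524 556) (leaf 6 556 684))))) (merge (node 620 (merge (leaf 4 491 491) (node 652 (merge (leaf 4 523 619) (leaf 6 556 684))))) (node 522 (merge (node 490 (merge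 (leaf 7 490 619) (node 458 (merge (leaf 4 426 426) (leaf 4 458 554))))) (merge (node 619 (merge (leaf 7 490 490) (node 524 (merge (leaf 6 491 492) (node 556 (merge (leaf 0 521 521) (leaf 6 523 651))))))) (merge (node 556 (merge (node 521 (merge (leaf 0 520 520) (leaf 0 521 524))) (merge (node 554 (merge (leaf 3 521 521) (leaf 0 553 553))) (node 554 (merge (leaf 0 553 553) (node 586 (merge (leaf 1 553 585) (node 490 (merge (leaf 4 458 458) (node 489 (merge (leaf 7 457 457) (leaf 3 489 524)))))))))))) (node 554 (merge (node 553 (merge (leaf 0 553 556) (leaf 3 553 586))) (merge (node 553 (merge (leaf 1 521 524) (leaf 3 553 586))) (node 619 (merge (leaf 7 522 651) (node 524 (merge (leaf 6 491 492) (node 521 (merge (leaf 0 521 556) (node 520 (merge (leaf 0 519 519) (node 488 (merge (leaf 3 487 487) (leaf 3 488 489))))))))))))))))))))) (node 554 (merge (node 553 (merge (leaf 0 552 552) (leaf 0 553 556))) (merge (node 553 (merge (leaf 0 552 552) (leaf 3 553 586))) (node 586 (merge (node 617 (merge (leaf 1 585 618) (node 585 (merge (leaf 2 553 556) (leaf 1 584 616))))) (merge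 (node 556 (merge (leaf 1 553 585) (node 522 (merge (leaf 3 521 521) (node 490 (merge (leaf 4 458 458) (leaf 4 490 619))))))) (node 618 (merge (leaf 1 585 617) (node 650 (merge (leaf 6 554 682) (node 651 (merge (leaf 4 554 683) (node 522 (merge (leaf 7 522 619) (node 489 (merge (leaf 7 489 521) (node 490 (merge (leaf 7 457 457) (leaf 4 458 458))))))))))))))))))))))))))))))) nP_292 cP_292 11 (by decide +kernel)
def nP_293 : ℕ := 0x2000000120000001200000000000000000000000000000000000000000000000000000000000000000000000000000000000000000000000000000000000000000000000000000000000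
def cP_293 : ℕ := 0x5c000000dc000001dfc00000df800002dfc00000df8000011f8000001e000000140000000000000000000000000000000000000000000000000000000000000000000000000000000000000000000000000000000000
theorem lP_293 : S nP_293 cP_293 12 := S_of_chk [(nP_292, cP_292, 11)] ⟨lP_292, trivial⟩ (node 588 (merge (node 559 (merge (leaf 1 556 558) (node 591 (merge (leaf 2 556 590) (node 623 (merge (leaf 6 527 655) (node 527 (merge (leaf 6 495 496) (node 526 (merge (leaf 0 524 524) (leaf 0 525 561))))))))))) (merge (node 587 (merge (node 586 (merge (leaf 2 554 558) (node 585 (merge (leaf 2 553 556) (node 553 (merge (leaf 3 552 552) (leaf 3 553 554))))))) (merge (node 586 (merge (leaf 2 554 558) (node 617 (merge (leaf 1 585 618) (node 585 (merge (leaf 2 553 556) (leaf 1 584 616))))))) (merge (node 586 (merge (leaf 2 554 558) (node 618 (merge (leaf 1 585 617) (node 590 (merge (leaf 1 586 619) (node 554 (merge (leaf 3 553 553) (leaf 3 554 555))))))))) (merge (node 586 (merge (node 617 (merge (leaf 1 585 618) (node 585 (merge (leaf 2 553 556) (leaf 1 584 616))))) (merge (node 585 (merge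 (leaf 2 553 556) (node 553 (merge (leaf 3 552 552) (leaf 3 553 554))))) (node 618 (merge (leaf 1 585 617) (node 590 (merge (leaf 1 586 619) (node 554 (merge (leaf 3 553 553) (leaf 3 554 555)))))))))) (node 590 (merge (node 622 (merge (leaf 0 587 623) (node 654 (merge (leaf 7 525 558) (leaf 7 557 686))))) (node 619 (merge (leaf 1 586 618) (node 591 (merge (leaf 1 587 620) (node 555 (merge (leaf 3 554 554) (leaf 3 555 556)))))))))))))) (merge (node 587 (merge (node 558 (merge (leaf 1 556 559) (leaf 2 554 586))) (merge (node 523 (merge (node 524 (merge (node 558 (merge (leaf 0 522 522) (leaf 1 556 559))) (node 556 (merge (node 620 (merge (leaf 7 491 491) (leaf 6 524 652))) (node 492 (merge (leaf 4 460 460) (leaf 5 491 619))))))) (merge (node 558 (merge (leaf 1 556 559) (node 522 (merge (leaf 0 522 524) (node 555 (merge (leaf 3 522 556) (node 490 (merge (leaf 7 490 619) (node 458 (merge (leaf 4 426 426) (leaf 4 458 554))))))))))) (merge (node 555 (merge (node 620 (merge (leaf 4 491 491) (node 652 (merge (leaf 6 524 556) (leaf 6 556 684))))) (merge (node 620 (merge (leaf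 4 491 491) (node 652 (merge (leaf 4 523 619) (leaf 6 556 684))))) (node 558 (merge (leaf 1 556 559) (node 522 (merge (leaf 3 522 556) (node 490 (merge (leaf 7 490 619) (node 458 (merge (leaf 4 426 426) (leaf 4 458 554)))))))))))) (merge (node 555 (merge (node 620 (merge (leaf 4 491 491) (node 652 (merge (leaf 6 524 556) (leaf 6 556 684))))) (merge (node 620 (merge (leaf 4 491 491) (node 652 (merge (leaf 4 523 619) (leaf 6 556 684))))) (merge (node 491 (merge (node 460 (merge (leaf 6 459 492) (node 459 (merge (leaf 6 427 428) (leaf 4 459 556))))) (merge (node 458 (merge (leaf 7 458 490) (node 459 (merge (leaf 7 426 426) (leaf 4 459 556))))) (node 492 (merge (leaf 6 459 460) (node 524 (merge (leaf 6 491 619) (node 490 (merge (leaf 7 458 458) (leaf 0 489 489)))))))))) (node 619 (merge (node 620 (merge (leaf 4 523 652) (node 618 (merge (leaf 2 585 617) (leaf 5 522 650))))) (merge (node 524 (merge (leaf 6 491 492) (node 651 (merge (leaf 6 523 556) (node 650 (merge (leaf 5 522 618) (leaf 5 554 682))))))) (node 524 (merge (leaf 6 491 492) (node 651 (merge (leaf 6 523 556)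 (node 652 (merge (leaf 4 523 620) (leaf 4 555 684)))))))))))))) (merge (node 555 (merge (node 620 (merge (leaf 4 491 491) (node 652 (merge (leaf 4 523 619) (leaf 6 556 684))))) (merge (node 558 (merge (leaf 1 556 559) (node 522 (merge (leaf 0 522 524) (node 490 (merge (leaf 7 490 619) (node 458 (merge (leaf 4 426 426) (leaf 4 458 554))))))))) (node 491 (merge (leaf 4 491 620) (node 460 (merge (leaf 6 459 492) (node 459 (merge (leaf 6 427 428) (node 458 (merge (leaf 7 426 426) (leaf 7 458 490)))))))))))) (node 558 (merge (leaf 1 556 559) (node 522 (merge (leaf 0 522 524) (node 555 (merge (leaf 3 522 556) (node 491 (merge (leaf 4 491 620) (node 460 (merge (leaf 6 459 492) (node 459 (merge (leaf 6 427 428) (node 458 (merge (leaf 7 426 426) (leaf 7 458 490))))))))))))))))))))) (node 555 (merge (node 586 (merge (node 617 (merge (leaf 1 585 618) (node 585 (merge (leaf 2 553 556) (leaf 1 584 616))))) (merge (node 585 (merge (leaf 2 553 556) (node 553 (merge (leaf 3 552 552) (leaf 3 553 554))))) (node 618 (merge (leaf 1 585 617) (node 650 (merge (leaf 6 554 682) (node 554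 (merge (leaf 6 522 523) (leaf 3 553 553)))))))))) (merge (node 523 (merge (node 620 (merge (leaf 4 491 491) (node 652 (merge (leaf 6 524 556) (leaf 4 523 619))))) (merge (node 491 (merge (leaf 4 491 620) (node 460 (merge (leaf 6 459 492) (node 459 (merge (leaf 6 427 428) (node 458 (merge (leaf 7 426 426) (leaf 7 458 490))))))))) (merge (node 491 (merge (node 460 (merge (leaf 6 459 492) (node 459 (merge (leaf 6 427 428) (leaf 4 459 556))))) (merge (node 458 (merge (leaf 7 458 490) (node 459 (merge (leaf 7 426 426) (leaf 4 459 556))))) (node 492 (merge (leaf 6 459 460) (node 524 (merge (leaf 6 491 619) (node 490 (merge (leaf 7 458 458) (leaf 0 489 489)))))))))) (node 619 (merge (node 620 (merge (leaf 4 523 652) (node 618 (merge (leaf 2 585 617) (leaf 5 522 650))))) (node 524 (merge (leaf 6 491 492) (node 556 (merge (leaf 6 523 651) (node 522 (merge (leaf 7 490 490) (leaf 0 521 521))))))))))))) (merge (node 523 (merge (node 620 (merge (leaf 4 491 491) (node 652 (merge (leaf 4 523 619) (leaf 6 556 684))))) (merge (node 491 (merge (leaf 4 491 620) (node 586 (merge (leaf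 5 490 618) (node 554 (merge (leaf 5 458 459) (leaf 3 553 553))))))) (merge (node 618 (merge (node 586 (merge (leaf 1 585 617) (node 554 (merge (leaf 3 553 553) (leaf 6 522 650))))) (merge (node 619 (merge (leaf 5 522 650) (node 617 (merge (leaf 2 584 616) (leaf 2 585 620))))) (merge (node 617 (merge (leaf 1 585 586) (node 619 (merge (leaf 2 584 616) (leaf 2 585 620))))) (node 650 (merge (leaf 5 522 619) (node 586 (merge (leaf 6 522 554) (leaf 6 554 682))))))))) (node 586 (merge (node 618 (merge (leaf 5 490 491) (leaf 1 585 617))) (merge (node 618 (merge (leaf 1 585 617) (node 650 (merge (leaf 6 554 682) (node 554 (merge (leaf 6 522 523) (leaf 3 553 553))))))) (node 554 (merge (leaf 3 553 553) (node 491 (merge (leaf 5 458 459) (node 492 (merge (leaf 6 459 460) (node 524 (merge (leaf 6 491 619) (node 490 (merge (leaf 7 458 458) (leaf 0 489 489)))))))))))))))))) (merge (node 523 (merge (node 620 (merge (leaf 4 491 491) (node 652 (merge (leaf 6 524 556) (leaf 6 556 684))))) (merge (node 620 (merge (leaf 4 491 491) (node 652 (merge (leaf 4 523 619) (leaf 6 556 684)))))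 (node 522 (merge (node 490 (merge (leaf 7 490 619) (node 458 (merge (leaf 4 426 426) (leaf 4 458 554))))) (merge (node 619 (merge (leaf 7 490 490) (node 524 (merge (leaf 6 491 492) (node 556 (merge (leaf 0 521 521) (leaf 6 523 651))))))) (merge (node 556 (merge (node 521 (merge (leaf 0 520 520) (leaf 0 521 524))) (merge (node 554 (merge (leaf 3 521 521) (leaf 0 553 553))) (node 554 (merge (leaf 0 553 553) (node 586 (merge (leaf 1 553 585) (node 490 (merge (leaf 4 458 458) (node 489 (merge (leaf 7 457 457) (leaf 3 489 524)))))))))))) (node 554 (merge (node 553 (merge (leaf 0 553 556) (leaf 3 553 586))) (merge (node 553 (merge (leaf 1 521 524) (leaf 3 553 586))) (node 619 (merge (leaf 7 522 651) (node 524 (merge (leaf 6 491 492) (node 521 (merge (leaf 0 521 556) (node 520 (merge (leaf 0 519 519) (node 488 (merge (leaf 3 487 487) (leaf 3 488 489))))))))))))))))))))) (node 554 (merge (node 553 (merge (leaf 0 552 552) (leaf 0 553 556))) (merge (node 553 (merge (leaf 0 552 552) (leaf 3 553 586))) (node 586 (merge (node 617 (merge (leaf 1 585 618) (node 585 (merge (leaf 2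 553 556) (leaf 1 584 616))))) (merge (node 556 (merge (leaf 1 553 585) (node 522 (merge (leaf 3 521 521) (node 490 (merge (leaf 4 458 458) (leaf 4 490 619))))))) (node 618 (merge (leaf 1 585 617) (node 650 (merge (leaf 6 554 682) (node 651 (merge (leaf 4 554 683) (node 522 (merge (leaf 7 522 619) (node 489 (merge (leaf 7 489 521) (node 490 (merge (leaf 7 457 457) (leaf 4 458 458))))))))))))))))))))))))))) (hyp 0))))) nP_293 cP_293 12 (by decide +kernel)
def nP_294 : ℕ := 0x120000001200000000000000080000000000000000000000000000000000000000000000000000000000000000000000000000000000000000000000000000000000000000000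
def cP_294 : ℕ := 0x5c000003ff000003ffc00000ff800002dfc00000df8000019f8000007e000000dc0000000000000000000000000000000000000000000000000000000000000000000000000000000000000000000000000000000000
theorem lP_294 : S nP_294 cP_294 13 := S_of_chk [(nP_293, cP_293, 12)] ⟨lP_293, trivial⟩ (node 589 (merge (node 621 (merge (node 524 (merge (leaf 7 492 492) (node 653 (merge (leaf 7 524 556) (node 558 (merge (leaf 6 525 526) (leaf 3 524 559))))))) (merge (node 524 (merge (leaf 7 492 492) (node 653 (merge (leaf 7 524 556) (node 654 (merge (leaf 4 525 622) (leaf 4 557 686))))))) (merge (node 654 (merge (leaf 4 525 622) (node 653 (merge (leaf 4 557 686) (node 526 (merge (leaf 6 525 558) (node 527 (merge (leaf 1 524 556) (leaf 0 525 561))))))))) (node 524 (merge (leaf 7 492 492) (node 559 (merge (leaf 3 524 558) (node 527 (merge (leaf 0 524 526) (node 495 (merge (leaf 4 431 431) (node 622 (merge (leaf 4 525 654) (node 591 (merge (leaf 5 494 590) (node 623 (merge (leaf 6 495 496) (leaf 6 527 655))))))))))))))))))) (merge (node 621 (merge (node 652 (merge (leaf 5 524 620) (node 653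 (merge (leaf 5 556 684) (node 526 (merge (leaf 6 525 558) (node 527 (merge (leaf 1 524 556) (leaf 0 525 561))))))))) (merge (node 654 (merge (leaf 4 525 622) (node 653 (merge (leaf 4 557 686) (node 526 (merge (leaf 6 525 558) (node 527 (merge (leaf 1 524 556) (leaf 0 525 561))))))))) (node 620 (merge (leaf 5 524 652) (node 619 (merge (node 618 (merge (leaf 2 586 590) (node 649 (merge (leaf 1 617 650) (node 617 (merge (leaf 2 585 588) (leaf 1 616 648))))))) (merge (node 622 (merge (leaf 4 525 654) (node 650 (merge (leaf 1 618 651) (node 618 (merge (leaf 1 617 649) (node 586 (merge (leaf 3 585 585) (leaf 3 586 587))))))))) (node 622 (merge (leaf 4 525 654) (node 590 (merge (leaf 2 587 591) (node 587 (merge (leaf 3 586 586) (node 623 (merge (leaf 0 587 588) (node 656 (merge (leaf 0 620 655) (node 624 (merge (leaf 3 589 625) (leaf 0 621 657))))))))))))))))))))) (merge (node 621 (merge (node 524 (merge (leaf 7 492 492) (node 558 (merge (leaf 3 524 559) (node 653 (merge (leaf 6 525 526) (node 652 (merge (leaf 5 524 620) (leaf 5 556 684))))))))) (merge (node 524 (merge (leaf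 7 492 492) (node 558 (merge (leaf 3 524 559) (node 653 (merge (leaf 6 525 526) (node 654 (merge (leaf 4 525 622) (leaf 4 557 686))))))))) (node 620 (merge (leaf 5 524 652) (node 619 (merge (node 618 (merge (leaf 2 586 590) (node 649 (merge (leaf 1 617 650) (node 617 (merge (leaf 2 585 588) (leaf 1 616 648))))))) (merge (node 622 (merge (leaf 4 525 654) (node 650 (merge (leaf 1 618 651) (node 618 (merge (leaf 1 617 649) (node 586 (merge (leaf 3 585 585) (leaf 3 586 587))))))))) (node 622 (merge (leaf 4 525 654) (node 590 (merge (leaf 2 587 591) (node 587 (merge (leaf 3 586 586) (node 623 (merge (leaf 0 587 588) (node 656 (merge (leaf 0 620 655) (node 624 (merge (leaf 3 589 625) (leaf 0 621 657))))))))))))))))))))) (merge (node 621 (merge (node 524 (merge (leaf 7 492 492) (node 653 (merge (leaf 7 524 556) (node 654 (merge (leaf 4 525 622) (leaf 4 557 686))))))) (merge (node 524 (merge (leaf 7 492 492) (node 653 (merge (leaf 7 524 556) (node 652 (merge (leaf 5 524 620) (leaf 5 556 684))))))) (node 620 (merge (leaf 5 524 652) (node 619 (merge (node 618 (merge (leaf 2 586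 590) (node 649 (merge (leaf 1 617 650) (node 617 (merge (leaf 2 585 588) (leaf 1 616 648))))))) (merge (node 622 (merge (leaf 4 525 654) (node 650 (merge (leaf 1 618 651) (node 618 (merge (leaf 1 617 649) (node 586 (merge (leaf 3 585 585) (leaf 3 586 587))))))))) (node 622 (merge (leaf 4 525 654) (node 590 (merge (leaf 2 587 591) (node 587 (merge (leaf 3 586 586) (node 623 (merge (leaf 0 587 588) (node 656 (merge (leaf 0 620 655) (node 624 (merge (leaf 3 589 625) (leaf 0 621 657))))))))))))))))))))) (merge (node 524 (merge (node 621 (merge (leaf 7 492 492) (node 653 (merge (leaf 7 524 556) (node 652 (merge (leaf 5 524 620) (leaf 5 556 684))))))) (merge (node 621 (merge (leaf 7 492 492) (node 558 (merge (leaf 3 524 559) (node 653 (merge (leaf 6 525 526) (node 652 (merge (leaf 5 524 620) (leaf 5 556 684))))))))) (merge (node 523 (merge (node 558 (merge (leaf 0 522 522) (leaf 3 524 559))) (merge (node 522 (merge (node 521 (merge (leaf 0 521 556) (node 553 (merge (leaf 1 520 552) (leaf 1 521 554))))) (merge (node 521 (merge (leaf 0 521 556) (node 489 (merge (leaf 3 488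 488) (leaf 3 489 490))))) (node 554 (merge (leaf 1 521 553) (node 526 (merge (leaf 1 522 555) (node 490 (merge (leaf 3 489 489) (leaf 3 490 491)))))))))) (node 460 (merge (node 492 (merge (leaf 4 428 428) (leaf 4 460 556))) (merge (node 559 (merge (leaf 3 524 558) (node 526 (merge (leaf 0 524 527) (node 555 (merge (leaf 1 522 554) (node 491 (merge (leaf 3 490 490) (node 428 (merge (leaf 6 427 459) (leaf 4 428 492))))))))))) (merge (node 556 (merge (leaf 4 460 492) (node 526 (merge (leaf 1 524 527) (node 555 (merge (leaf 1 522 554) (node 491 (merge (leaf 3 490 490) (node 459 (merge (leaf 4 427 427) (leaf 4 459 588))))))))))) (node 559 (merge (leaf 3 524 558) (node 527 (merge (leaf 0 524 526) (node 495 (merge (leaf 4 431 431) (node 462 (merge (leaf 7 430 430) (node 461 (merge (leaf 0 460 496) (node 427 (merge (leaf 3 427 428) (node 459 (merge (leaf 3 426 426) (node 491 (merge (leaf 1 458 490) (leaf 4 427 556)))))))))))))))))))))))) (node 588 (merge (node 559 (merge (leaf 1 556 558) (node 527 (merge (leaf 0 524 526) (node 591 (merge (leaf 2 556 590) (node 623 (merge (leaf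 6 495 496) (leaf 6 527 655))))))))) (merge (node 620 (merge (node 652 (merge (leaf 5 524 621) (leaf 6 556 684))) (merge (node 652 (merge (leaf 6 524 556) (leaf 6 556 684))) (node 619 (merge (node 590 (merge (leaf 1 587 591) (node 618 (merge (leaf 2 585 617) (leaf 2 586 621))))) (node 556 (merge (leaf 5 523 651) (node 523 (merge (leaf 7 491 491) (node 522 (merge (leaf 0 521 521) (node 554 (merge (leaf 1 521 553) (node 490 (merge (leaf 3 489 489) (node 587 (merge (leaf 7 490 555) (leaf 4 490 586)))))))))))))))))) (node 556 (merge (node 620 (merge (leaf 6 524 652) (node 523 (merge (leaf 7 491 491) (node 558 (merge (leaf 0 522 522) (leaf 3 523 559))))))) (merge (node 620 (merge (leaf 6 524 652) (node 558 (merge (leaf 1 556 559) (node 621 (merge (leaf 7 524 653) (node 586 (merge (leaf 2 554 587) (node 619 (merge (leaf 5 523 651) (node 618 (merge (leaf 3 585 585) (leaf 2 585 617))))))))))))) (merge (node 526 (merge (leaf 1 524 527) (node 555 (merge (leaf 2 522 554) (node 558 (merge (leaf 3 524 559) (node 523 (merge (leaf 0 522 522) (node 491 (merge (leaf 3 490 490) (node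 459 (merge (leaf 4 427 427) (leaf 4 459 588))))))))))))) (node 620 (merge (leaf 6 524 652) (node 526 (merge (leaf 1 524 527) (node 523 (merge (leaf 7 491 491) (node 522 (merge (leaf 0 521 521) (node 554 (merge (leaf 1 521 553) (leaf 1 522 555)))))))))))))))))))))) (merge (node 524 (merge (node 621 (merge (leaf 7 492 492) (node 653 (merge (leaf 7 524 556) (node 652 (merge (leaf 5 524 620) (leaf 5 556 684))))))) (merge (node 621 (merge (leaf 7 492 492) (node 558 (merge (leaf 3 524 559) (node 653 (merge (leaf 6 525 526) (node 652 (merge (leaf 5 524 620) (leaf 5 556 684))))))))) (merge (node 523 (merge (node 558 (merge (leaf 0 522 522) (leaf 3 524 559))) (merge (node 522 (merge (node 521 (merge (leaf 0 521 556) (node 553 (merge (leaf 1 520 552) (leaf 1 521 554))))) (merge (node 521 (merge (leaf 0 521 556) (node 489 (merge (leaf 3 488 488) (leaf 3 489 490))))) (node 554 (merge (leaf 1 521 553) (node 526 (merge (leaf 1 522 555) (node 490 (merge (leaf 3 489 489) (leaf 3 490 491)))))))))) (node 620 (merge (node 652 (merge (leaf 5 524 621) (node 588 (merge (leaf 6 524 556)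 (leaf 6 556 684))))) (merge (node 559 (merge (leaf 3 524 558) (node 526 (merge (leaf 0 524 527) (node 555 (merge (leaf 1 522 554) (node 491 (merge (leaf 3 490 490) (node 588 (merge (leaf 7 491 556) (leaf 4 491 587))))))))))) (node 558 (merge (leaf 3 524 559) (node 621 (merge (leaf 5 524 652) (node 653 (merge (leaf 6 525 526) (node 654 (merge (leaf 4 525 622) (leaf 4 557 686))))))))))))))) (node 523 (merge (node 558 (merge (leaf 0 522 522) (leaf 3 524 559))) (merge (node 522 (merge (node 521 (merge (leaf 0 521 556) (node 553 (merge (leaf 1 520 552) (leaf 1 521 554))))) (merge (node 521 (merge (leaf 0 521 556) (node 489 (merge (leaf 3 488 488) (leaf 3 489 490))))) (node 554 (merge (leaf 1 521 553) (node 526 (merge (leaf 1 522 555) (node 490 (merge (leaf 3 489 489) (leaf 3 490 491)))))))))) (node 460 (merge (node 492 (merge (leaf 4 428 428) (leaf 4 460 556))) (merge (node 559 (merge (leaf 3 524 558) (node 526 (merge (leaf 0 524 527) (node 555 (merge (leaf 1 522 554) (node 491 (merge (leaf 3 490 490) (node 428 (merge (leaf 6 427 459) (leaf 4 428 492))))))))))) (merge (node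 556 (merge (leaf 4 460 492) (node 526 (merge (leaf 1 524 527) (node 555 (merge (leaf 1 522 554) (node 491 (merge (leaf 3 490 490) (node 459 (merge (leaf 4 427 427) (leaf 4 459 588))))))))))) (node 559 (merge (leaf 3 524 558) (node 527 (merge (leaf 0 524 526) (node 495 (merge (leaf 4 431 431) (node 462 (merge (leaf 7 430 430) (node 461 (merge (leaf 0 460 496) (node 427 (merge (leaf 3 427 428) (node 459 (merge (leaf 3 426 426) (node 491 (merge (leaf 1 458 490) (leaf 4 427 556)))))))))))))))))))))))))))) (hyp 0)))))))) nP_294 cP_294 13 (by decide +kernel)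
def nP_295 : ℕ := 0x120000001300000000000000080000000000000000000000000000000000000000000000000000000000000000000000000000000000000000000000000000000000000000000
def cP_295 : ℕ := 0xa0000007e000000fe0000003e0000001e000000cf800001bf8000007f800001ff800001ce000001c0000001400000000000000000000000000000000000000000000000000000000000000000000000000000000000
theorem lP_295 : S nP_295 cP_295 13 := S_of_chk [] trivial (node 556 (merge (node 523 (merge (node 522 (merge (leaf 0 521 521) (node 526 (merge (leaf 1 524 527) (node 490 (merge (leaf 3 489 489) (leaf 3 490 491))))))) (merge (node 522 (merge (leaf 0 521 521) (node 554 (merge (leaf 1 521 553) (node 526 (merge (leaf 1 524 527) (leaf 1 522 555))))))) (merge (node 526 (merge (leaf 1 524 527) (node 555 (merge (leaf 1 522 554) (node 491 (merge (leaf 3 490 490) (node 459 (merge (leaf 4 427 427) (leaf 4 459 588))))))))) (node 555 (merge (node 522 (merge (leaf 0 521 521) (node 554 (merge (leaf 1 521 553) (node 586 (merge (leaf 1 553 585) (node 491 (merge (leaf 5 458 459) (leaf 6 490 618))))))))) (merge (node 522 (merge (leaf 0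 521 521) (node 554 (merge (leaf 1 521 553) (node 490 (merge (leaf 3 489 489) (node 587 (merge (leaf 4 458 458) (leaf 7 490 619))))))))) (node 491 (merge (node 588 (merge (leaf 4 459 459) (leaf 7 491 620))) (merge (node 587 (merge (node 588 (merge (leaf 7 491 620) (node 586 (merge (leaf 2 553 585) (leaf 5 490 618))))) (merge (node 619 (merge (leaf 6 523 651) (node 620 (merge (leaf 7 491 588) (leaf 4 523 652))))) (node 619 (merge (leaf 6 523 651) (node 618 (merge (leaf 5 490 586) (leaf 5 522 650)))))))) (node 459 (merge (leaf 4 427 427) (node 458 (merge (leaf 7 426 426) (node 587 (merge (leaf 7 458 490) (node 619 (merge (leaf 6 523 651) (node 618 (merge (leaf 5 490 586) (leaf 5 522 650))))))))))))))))))))) (merge (node 589 (merge (node 492 (merge (leaf 7 492 621) (node 460 (merge (leaf 4 428 428) (leaf 4 460 556))))) (merge (node 621 (merge (leaf 7 524 653) (node 622 (merge (leaf 4 525 654) (node 620 (merge (leaf 5 524 652) (node 588 (merge (leaf 6 492 493) (node 587 (merge (leaf 0 586 586) (leaf 3 587 623))))))))))) (node 493 (merge (node 588 (merge (leaf 5 460 461)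 (leaf 6 492 620))) (merge (node 461 (merge (leaf 5 428 429) (node 462 (merge (leaf 6 429 430) (node 460 (merge (leaf 7 428 428) (node 492 (merge (leaf 1 459 491) (leaf 7 460 589))))))))) (node 588 (merge (leaf 6 492 620) (node 492 (merge (leaf 7 460 460) (node 526 (merge (leaf 1 524 527) (node 554 (merge (leaf 2 522 555) (node 587 (merge (leaf 5 491 619) (node 586 (merge (leaf 3 553 553) (leaf 2 553 585))))))))))))))))))) (merge (node 588 (merge (node 620 (merge (leaf 6 492 493) (leaf 6 524 652))) (merge (node 620 (merge (leaf 6 524 652) (node 619 (merge (leaf 5 523 651) (node 492 (merge (leaf 5 491 587) (node 459 (merge (leaf 7 459 491) (node 460 (merge (leaf 7 427 427) (leaf 4 428 428))))))))))) (node 492 (merge (node 493 (merge (leaf 6 460 461) (node 491 (merge (leaf 7 459 459) (node 490 (merge (leaf 0 489 489) (leaf 0 490 526))))))) (merge (node 460 (merge (leaf 4 460 589) (node 555 (merge (leaf 5 459 587) (node 554 (merge (leaf 2 522 526) (leaf 2 521 553))))))) (node 460 (merge (leaf 4 428 428) (node 461 (merge (leaf 6 428 429) (node 459 (merge (leaf 7 427 427)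 (node 491 (merge (leaf 1 459 462) (leaf 7 459 588))))))))))))))) (merge (node 431 (merge (node 495 (merge (leaf 4 431 527) (node 399 (merge (leaf 4 399 496) (node 368 (merge (leaf 6 367 400) (node 367 (merge (leaf 6 335 336) (node 366 (merge (leaf 7 334 334) (leaf 7 366 398))))))))))) (node 461 (merge (node 493 (merge (leaf 5 428 429) (leaf 5 460 588))) (merge (node 460 (merge (node 492 (merge (leaf 6 428 429) (leaf 4 460 589))) (node 462 (merge (leaf 2 428 432) (node 459 (merge (leaf 2 427 430) (node 427 (merge (leaf 3 426 426) (leaf 3 427 428))))))))) (node 493 (merge (leaf 5 460 588) (node 462 (merge (leaf 6 429 430) (node 460 (merge (leaf 7 428 428) (leaf 2 428 432)))))))))))) (node 554 (merge (node 526 (merge (leaf 1 524 527) (leaf 2 522 555))) (node 522 (merge (node 523 (merge (leaf 0 521 521) (leaf 1 521 553))) (merge (node 490 (merge (node 523 (merge (leaf 3 489 489) (leaf 1 521 553))) (merge (node 492 (merge (node 460 (merge (leaf 4 428 428) (leaf 4 460 589))) (node 489 (merge (leaf 0 489 491) (node 457 (merge (leaf 7 457 586) (node 425 (merge (leaf 4 393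 393) (leaf 7 425 458))))))))) (node 553 (merge (leaf 1 521 523) (node 585 (merge (leaf 5 457 458) (node 617 (merge (leaf 5 489 586) (leaf 6 521 649)))))))))) (merge (node 586 (merge (node 523 (merge (leaf 0 521 521) (node 491 (merge (leaf 6 490 618) (node 459 (merge (leaf 4 427 427) (leaf 6 458 490))))))) (merge (node 490 (merge (node 489 (merge (leaf 7 457 457) (leaf 3 489 523))) (merge (node 491 (merge (leaf 6 458 459) (node 492 (merge (leaf 0 489 489) (node 589 (merge (leaf 7 492 621) (node 460 (merge (leaf 4 428 428) (leaf 4 460 556))))))))) (node 459 (merge (leaf 6 458 491) (node 458 (merge (leaf 6 426 427) (node 425 (merge (leaf 7 425 457) (node 426 (merge (leaf 7 393 393) (node 460 (merge (leaf 3 425 461) (node 492 (merge (leaf 4 428 428) (node 589 (merge (leaf 4 460 556) (leaf 7 492 621)))))))))))))))))) (merge (node 490 (merge (node 489 (merge (leaf 7 457 457) (node 618 (merge (leaf 7 489 521) (node 617 (merge (leaf 5 489 585) (leaf 5 521 649))))))) (merge (node 491 (merge (leaf 6 458 459) (node 492 (merge (leaf 0 489 489) (node 589 (merge (leaf 7 492 621)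 (node 460 (merge (leaf 4 428 428) (leaf 4 460 556))))))))) (node 459 (merge (leaf 6 458 491) (node 458 (merge (leaf 6 426 427) (node 425 (merge (leaf 7 425 457) (node 426 (merge (leaf 7 393 393) (node 460 (merge (leaf 3 425 461) (node 492 (merge (leaf 4 428 428) (node 589 (merge (leaf 4 460 556) (leaf 7 492 621)))))))))))))))))) (node 521 (merge (leaf 0 521 523) (node 618 (merge (leaf 7 489 489) (node 651 (merge (leaf 4 522 619) (node 650 (merge (leaf 4 554 683) (node 649 (merge (leaf 5 521 617) (leaf 5 553 681))))))))))))))) (node 490 (merge (node 492 (merge (node 460 (merge (leaf 4 428 428) (leaf 4 460 589))) (node 489 (merge (leaf 0 489 491) (node 457 (merge (leaf 7 457 586) (node 425 (merge (leaf 4 393 393) (leaf 4 425 521))))))))) (merge (node 458 (merge (node 457 (merge (leaf 7 425 425) (node 586 (merge (leaf 7 457 489) (node 585 (merge (leaf 5 457 553) (leaf 5 489 617))))))) (merge (node 427 (merge (leaf 6 426 459) (node 426 (merge (leaf 6 394 395) (node 425 (merge (leaf 7 393 393) (leaf 7 425 457))))))) (node 459 (merge (leaf 6 426 427) (node 586 (merge (leaf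 6 458 491) (node 585 (merge (leaf 5 457 553) (leaf 5 489 617)))))))))) (merge (node 458 (merge (node 425 (merge (leaf 7 425 457) (node 426 (merge (leaf 7 393 393) (node 553 (merge (leaf 5 425 521) (leaf 5 457 585))))))) (merge (node 459 (merge (leaf 6 426 427) (node 586 (merge (leaf 6 458 491) (node 585 (merge (leaf 5 457 553) (leaf 5 489 617))))))) (node 427 (merge (leaf 6 426 459) (node 426 (merge (leaf 6 394 395) (node 425 (merge (leaf 7 393 393) (leaf 7 425 457)))))))))) (merge (node 458 (merge (node 427 (merge (leaf 6 426 459) (node 426 (merge (leaf 6 394 395) (node 553 (merge (leaf 5 425 521) (leaf 5 457 585))))))) (merge (node 457 (merge (leaf 7 425 425) (node 586 (merge (leaf 7 457 489) (node 585 (merge (leaf 5 457 553) (leaf 5 489 617))))))) (node 427 (merge (leaf 6 426 459) (node 426 (merge (leaf 6 394 395) (node 425 (merge (leaf 7 393 393) (leaf 7 425 457)))))))))) (merge (node 586 (merge (node 459 (merge (leaf 6 458 491) (node 458 (merge (leaf 6 426 427) (node 585 (merge (leaf 5 457 553) (leaf 5 489 617))))))) (merge (node 491 (merge (leaf 6 458 459) (node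 492 (merge (leaf 0 489 489) (node 589 (merge (leaf 7 492 621) (node 460 (merge (leaf 4 428 428) (leaf 4 460 556))))))))) (node 617 (merge (leaf 5 489 585) (node 618 (merge (leaf 5 521 649) (node 521 (merge (leaf 7 489 489) (node 650 (merge (leaf 7 521 553) (node 651 (merge (leaf 4 522 619) (leaf 4 554 683)))))))))))))) (node 489 (merge (node 492 (merge (leaf 0 489 491) (node 589 (merge (leaf 4 460 460) (leaf 7 492 621))))) (merge (node 458 (merge (node 459 (merge (leaf 6 426 427) (node 457 (merge (leaf 7 425 425) (node 460 (merge (leaf 1 457 461) (leaf 1 456 488))))))) (merge (node 425 (merge (leaf 7 425 457) (node 426 (merge (leaf 7 393 393) (node 553 (merge (leaf 5 425 521) (leaf 5 457 585))))))) (node 427 (merge (leaf 6 426 459) (node 426 (merge (leaf 6 394 395) (node 553 (merge (leaf 5 425 521) (leaf 5 457 585)))))))))) (node 458 (merge (node 425 (merge (leaf 7 425 457) (node 426 (merge (leaf 7 393 393) (node 521 (merge (leaf 5 393 394) (leaf 5 425 553))))))) (merge (node 427 (merge (leaf 6 426 459) (node 426 (merge (leaf 6 394 395) (node 553 (merge (leaf 5 425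 521) (leaf 5 457 585))))))) (merge (node 427 (merge (leaf 6 426 459) (node 426 (merge (leaf 6 394 395) (node 425 (merge (leaf 7 393 393) (leaf 7 425 457))))))) (node 491 (merge (node 492 (merge (leaf 0 489 524) (node 457 (merge (leaf 3 456 456) (node 425 (merge (leaf 4 393 393) (leaf 7 425 458))))))) (merge (node 459 (merge (leaf 6 426 427) (node 492 (merge (leaf 0 489 524) (node 520 (merge (leaf 1 488 521) (node 488 (merge (leaf 2 455 487) (leaf 1 487 519))))))))) (node 459 (merge (leaf 6 426 427) (node 457 (merge (leaf 7 425 425) (node 456 (merge (leaf 0 455 455) (node 424 (merge (leaf 3 423 423) (node 553 (merge (leaf 7 424 521) (leaf 5 457 585)))))))))))))))))))))))))))))))))))))) nP_295 cP_295 13 (by decide +kernel)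
def nP_296 : ℕ := 0x120000000300000000000000080000000000000000000000000000000000000000000000000000000000000000000000000000000000000000000000000000000000000000000
def cP_296 : ℕ := 0xa0000007e000000fe0000003e000000de0000004e0000003e0000007e0000003e0000000a00000000000000000000000000000000000000000000000000000000000000000000000000000000000000000000000000
theorem lP_296 : S nP_296 cP_296 13 := S_of_chk [] trivial (node 556 (merge (node 558 (merge (leaf 3 524 559) (node 555 (merge (node 522 (merge (leaf 3 522 523) (node 554 (merge (leaf 3 521 521) (leaf 2 521 553))))) (merge (node 586 (merge (leaf 1 554 587) (node 554 (merge (leaf 2 521 553) (leaf 1 553 585))))) (node 523 (merge (leaf 0 522 522) (node 587 (merge (leaf 1 554 586) (node 492 (merge (leaf 5 459 460) (leaf 6 491 619)))))))))))) (merge (node 588 (merge (node 620 (merge (leaf 6 492 493) (leaf 6 524 652))) (merge (node 620 (merge (leaf 6 524 652) (node 619 (merge (leaf 5 523 651) (node 492 (merge (leaf 5 491 587) (node 459 (merge (leaf 7 459 491) (node 460 (merge (leaf 7 427 427) (leaf 4 428 428))))))))))) (node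 492 (merge (node 493 (merge (leaf 6 460 461) (node 491 (merge (leaf 7 459 459) (node 490 (merge (leaf 0 489 489) (leaf 0 490 526))))))) (merge (node 460 (merge (leaf 4 460 589) (node 555 (merge (leaf 5 459 587) (node 554 (merge (leaf 2 522 526) (leaf 2 521 553))))))) (node 460 (merge (leaf 4 428 428) (node 461 (merge (leaf 6 428 429) (node 459 (merge (leaf 7 427 427) (node 491 (merge (leaf 1 459 462) (leaf 7 459 588))))))))))))))) (merge (node 588 (merge (node 620 (merge (leaf 6 524 652) (node 523 (merge (leaf 7 491 491) (node 522 (merge (leaf 0 521 521) (leaf 0 522 558))))))) (merge (node 620 (merge (leaf 6 524 652) (node 619 (merge (leaf 5 523 651) (node 492 (merge (leaf 5 491 587) (node 460 (merge (leaf 4 428 428) (leaf 4 460 589))))))))) (node 587 (merge (node 558 (merge (leaf 1 555 559) (node 586 (merge (leaf 2 553 585) (leaf 2 554 589))))) (node 492 (merge (leaf 5 491 619) (node 459 (merge (leaf 7 459 491) (node 460 (merge (leaf 7 427 427) (leaf 4 428 428)))))))))))) (merge (node 555 (merge (node 554 (merge (leaf 2 521 553) (node 586 (merge (leaf 1 553 585) (node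 558 (merge (leaf 3 524 559) (leaf 1 554 587))))))) (merge (node 554 (merge (leaf 2 521 553) (node 522 (merge (leaf 3 521 521) (node 558 (merge (leaf 0 522 523) (leaf 3 524 559))))))) (merge (node 523 (merge (node 558 (merge (leaf 0 522 522) (leaf 3 523 559))) (node 491 (merge (node 588 (merge (leaf 4 459 459) (leaf 7 491 620))) (merge (node 587 (merge (node 588 (merge (leaf 7 491 620) (node 586 (merge (leaf 2 553 585) (leaf 5 490 618))))) (merge (node 619 (merge (leaf 6 523 651) (node 620 (merge (leaf 7 491 588) (leaf 4 523 652))))) (node 619 (merge (leaf 6 523 651) (node 618 (merge (leaf 5 490 586) (leaf 5 522 650)))))))) (node 459 (merge (leaf 4 427 427) (node 458 (merge (leaf 7 426 426) (node 587 (merge (leaf 7 458 490) (node 619 (merge (leaf 6 523 651) (node 618 (merge (leaf 5 490 586) (leaf 5 522 650)))))))))))))))) (node 523 (merge (node 522 (merge (leaf 0 521 521) (node 554 (merge (leaf 1 521 553) (node 586 (merge (leaf 1 553 585) (node 491 (merge (leaf 5 458 459) (leaf 6 490 618))))))))) (merge (node 522 (merge (leaf 0 521 521) (node 554 (merge (leaf 1 521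 553) (node 490 (merge (leaf 3 489 489) (node 587 (merge (leaf 4 458 458) (leaf 7 490 619))))))))) (node 491 (merge (node 588 (merge (leaf 4 459 459) (leaf 7 491 620))) (merge (node 587 (merge (node 588 (merge (leaf 7 491 620) (node 586 (merge (leaf 2 553 585) (leaf 5 490 618))))) (merge (node 619 (merge (leaf 6 523 651) (node 620 (merge (leaf 7 491 588) (leaf 4 523 652))))) (node 619 (merge (leaf 6 523 651) (node 618 (merge (leaf 5 490 586) (leaf 5 522 650)))))))) (node 459 (merge (leaf 4 427 427) (node 458 (merge (leaf 7 426 426) (node 587 (merge (leaf 7 458 490) (node 619 (merge (leaf 6 523 651) (node 618 (merge (leaf 5 490 586) (leaf 5 522 650))))))))))))))))))))) (merge (node 588 (merge (node 620 (merge (leaf 6 492 493) (leaf 6 524 652))) (merge (node 620 (merge (leaf 6 524 652) (node 621 (merge (leaf 4 524 653) (node 589 (merge (leaf 7 492 492) (node 622 (merge (leaf 4 525 654) (node 587 (merge (leaf 0 586 586) (leaf 3 587 623))))))))))) (node 492 (merge (node 493 (merge (leaf 6 460 461) (node 491 (merge (leaf 7 459 459) (node 490 (merge (leaf 0 489 489) (leaf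 0 490 526))))))) (merge (node 460 (merge (leaf 4 460 589) (node 555 (merge (leaf 5 459 587) (node 554 (merge (leaf 2 522 526) (leaf 2 521 553))))))) (node 460 (merge (leaf 4 428 428) (node 461 (merge (leaf 6 428 429) (node 459 (merge (leaf 7 427 427) (node 491 (merge (leaf 1 459 462) (leaf 7 459 588))))))))))))))) (node 554 (merge (node 555 (merge (leaf 2 522 526) (leaf 2 521 553))) (merge (node 555 (merge (leaf 2 522 526) (node 522 (merge (leaf 3 521 521) (node 558 (merge (leaf 0 522 523) (leaf 3 524 559))))))) (node 522 (merge (node 523 (merge (leaf 0 521 521) (leaf 1 521 553))) (merge (node 490 (merge (node 523 (merge (leaf 3 489 489) (leaf 1 521 553))) (merge (node 492 (merge (node 460 (merge (leaf 4 428 428) (leaf 4 460 589))) (node 489 (merge (leaf 0 489 491) (node 457 (merge (leaf 7 457 586) (node 425 (merge (leaf 4 393 393) (leaf 7 425 458))))))))) (node 553 (merge (leaf 1 521 523) (node 585 (merge (leaf 5 457 458) (node 617 (merge (leaf 5 489 586) (leaf 6 521 649)))))))))) (merge (node 490 (merge (node 492 (merge (node 460 (merge (leaf 4 428 428) (leaf 4 460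 589))) (node 491 (merge (leaf 0 489 489) (node 459 (merge (leaf 7 459 588) (node 427 (merge (leaf 4 395 395) (leaf 6 426 458))))))))) (merge (node 492 (merge (node 460 (merge (leaf 4 428 428) (leaf 4 460 589))) (node 489 (merge (leaf 0 489 491) (node 457 (merge (leaf 7 457 586) (node 425 (merge (leaf 4 393 393) (leaf 4 425 521))))))))) (merge (node 458 (merge (node 425 (merge (leaf 7 425 457) (node 426 (merge (leaf 7 393 393) (node 553 (merge (leaf 5 425 521) (leaf 5 457 585))))))) (merge (node 459 (merge (leaf 6 426 427) (node 586 (merge (leaf 6 458 491) (node 585 (merge (leaf 5 457 553) (leaf 5 489 617))))))) (node 427 (merge (leaf 6 426 459) (node 426 (merge (leaf 6 394 395) (node 425 (merge (leaf 7 393 393) (leaf 7 425 457)))))))))) (node 585 (merge (node 553 (merge (leaf 5 457 458) (node 617 (merge (leaf 6 489 521) (leaf 6 521 649))))) (merge (node 458 (merge (leaf 5 457 553) (node 427 (merge (leaf 6 426 459) (node 426 (merge (leaf 6 394 395) (node 425 (merge (leaf 7 393 393) (leaf 7 425 457))))))))) (node 586 (merge (leaf 5 489 617) (node 489 (merge (leaf 7 457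 457) (node 618 (merge (leaf 7 489 521) (node 619 (merge (leaf 4 522 651) (node 621 (merge (leaf 3 585 620) (node 589 (merge (leaf 7 492 492) (leaf 7 524 653)))))))))))))))))))) (node 586 (merge (node 521 (merge (leaf 0 521 523) (node 489 (merge (leaf 7 489 618) (node 457 (merge (leaf 4 425 425) (leaf 7 457 490))))))) (merge (node 523 (merge (leaf 0 521 521) (node 491 (merge (leaf 6 490 618) (node 588 (merge (leaf 7 491 620) (node 459 (merge (leaf 4 427 427) (leaf 7 459 492))))))))) (merge (node 490 (merge (node 489 (merge (leaf 7 457 457) (leaf 3 489 523))) (merge (node 491 (merge (leaf 6 458 459) (node 618 (merge (leaf 6 490 523) (node 617 (merge (leaf 5 489 585) (leaf 5 521 649))))))) (node 491 (merge (leaf 6 458 459) (node 489 (merge (leaf 7 457 457) (leaf 0 489 492)))))))) (merge (node 489 (merge (node 490 (merge (leaf 7 457 457) (node 491 (merge (leaf 6 458 459) (leaf 0 489 492))))) (node 618 (merge (leaf 7 489 521) (node 651 (merge (leaf 4 522 619) (node 650 (merge (leaf 4 554 683) (node 649 (merge (leaf 5 521 617) (leaf 5 553 681))))))))))) (node 523 (merge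 (leaf 0 521 521) (node 490 (merge (leaf 3 489 489) (node 459 (merge (leaf 6 458 491) (node 458 (merge (leaf 6 426 427) (node 425 (merge (leaf 7 425 457) (node 426 (merge (leaf 7 393 393) (node 460 (merge (leaf 3 425 461) (node 492 (merge (leaf 4 428 428) (leaf 4 460 589))))))))))))))))))))))))))))))))))) nP_296 cP_296 13 (by decide +kernel)
def nP_297 : ℕ := 0x120000001200000000000000080000000000000000000000000000000000000000000000000000000000000000000000000000000000000000000000000000000000000000000
def cP_297 : ℕ := 0x1e0000007e000000ff0000003e000002df800000df800003bf8000007f800001ff800001fe000001f8000001780000000000000000000000000000000000000000000000000000000000000000000000000000000000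
theorem lP_297 : S nP_297 cP_297 14 := S_of_chk [(nP_295, cP_295, 13), (nP_296, cP_296, 13)] ⟨lP_295, lP_296, trivial⟩ (node 524 (merge (node 460 (merge (node 492 (merge (leaf 4 428 428) (node 589 (merge (leaf 7 460 493) (leaf 7 492 621))))) (merge (node 559 (merge (leaf 3 524 558) (node 527 (merge (leaf 0 524 526) (node 495 (merge (leaf 4 431 431) (node 462 (merge (leaf 7 430 430) (node 461 (merge (leaf 0 460 496) (node 428 (merge (leaf 3 427 427) (leaf 7 428 493))))))))))))) (merge (node 559 (merge (leaf 3 524 558) (node 527 (merge (leaf 0 524 526) (node 428 (merge (leaf 4 428 492) (node 495 (merge (leaf 4 431 431) (node 462 (merge (leaf 7 430 430) (node 461 (merge (leaf 3 427 427) (leaf 0 460 496))))))))))))) (node 559 (merge (leaf 3 524 558) (node 527 (merge (leaf 0 524 526) (node 495 (merge (leaf 4 431 431) (node 462 (merge (leaf 7 430 430) (node 461 (merge (leaf 0 460 496) (node 492 (merge (leaf 1 459 491) (node 589 (merge (leaf 7 460 493) (leaf 7 492 621))))))))))))))))))) (merge (node 492 (merge (node 589 (merge (leaf 7 492 621) (node 460 (merge (leaf 4 428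 428) (leaf 7 460 493))))) (node 526 (merge (node 527 (merge (leaf 3 491 491) (leaf 0 524 559))) (merge (node 527 (merge (leaf 1 524 556) (leaf 0 525 561))) (node 558 (merge (leaf 3 524 559) (node 523 (merge (leaf 0 522 522) (node 555 (merge (leaf 1 522 554) (node 587 (merge (leaf 6 491 619) (node 586 (merge (leaf 1 554 556) (node 491 (merge (leaf 3 490 490) (leaf 5 490 618)))))))))))))))))) (merge (node 492 (merge (node 589 (merge (leaf 7 492 621) (node 460 (merge (leaf 4 428 428) (leaf 4 460 556))))) (merge (node 526 (merge (node 527 (merge (leaf 3 491 491) (leaf 0 524 559))) (merge (node 527 (merge (leaf 1 524 556) (leaf 0 525 561))) (node 558 (merge (leaf 3 524 559) (node 523 (merge (leaf 0 522 522) (node 555 (merge (leaf 1 522 554) (node 587 (merge (leaf 6 491 619) (node 586 (merge (leaf 1 554 556) (node 491 (merge (leaf 3 490 490) (leaf 5 490 618)))))))))))))))) (node 460 (merge (node 428 (merge (leaf 4 428 557) (node 397 (merge (leaf 6 396 429) (node 396 (merge (leaf 6 364 365) (node 523 (merge (leaf 5 395 491) (leaf 5 427 555))))))))) (merge (node 559 (merge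 (leaf 3 524 558) (node 527 (merge (leaf 0 524 526) (node 495 (merge (leaf 4 431 431) (node 462 (merge (leaf 7 430 430) (node 461 (merge (leaf 1 459 491) (leaf 0 460 496))))))))))) (node 559 (merge (leaf 3 524 558) (node 527 (merge (leaf 0 524 526) (node 428 (merge (leaf 4 428 492) (node 495 (merge (leaf 4 431 431) (node 462 (merge (leaf 7 430 430) (node 461 (merge (leaf 3 427 427) (leaf 0 460 496))))))))))))))))))) (merge (node 556 (merge (node 526 (merge (leaf 1 524 527) (node 555 (merge (leaf 2 522 554) (node 558 (merge (leaf 3 524 559) (node 523 (merge (leaf 0 522 522) (node 587 (merge (leaf 1 554 586) (node 619 (merge (leaf 6 491 492) (leaf 6 523 651))))))))))))) (merge (node 523 (merge (node 558 (merge (leaf 0 522 522) (leaf 3 524 559))) (merge (node 522 (merge (leaf 0 521 521) (node 526 (merge (leaf 1 524 527) (node 490 (merge (leaf 3 489 489) (leaf 3 490 491))))))) (node 526 (merge (leaf 1 524 527) (node 491 (merge (leaf 3 490 490) (node 588 (merge (leaf 7 491 620) (node 459 (merge (leaf 4 427 427) (leaf 7 459 492)))))))))))) (merge (node 588 (merge (node 620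 (merge (leaf 6 492 493) (leaf 6 524 652))) (node 587 (merge (node 619 (merge (leaf 5 491 492) (node 651 (merge (leaf 6 523 555) (leaf 6 555 683))))) (node 558 (merge (leaf 1 555 559) (node 586 (merge (leaf 2 553 585) (leaf 2 554 589))))))))) (node 523 (merge (node 522 (merge (leaf 0 521 521) (node 526 (merge (leaf 1 524 527) (node 490 (merge (leaf 3 489 489) (leaf 3 490 491))))))) (merge (node 522 (merge (leaf 0 521 521) (node 554 (merge (leaf 1 521 553) (node 526 (merge (leaf 1 524 527) (leaf 1 522 555))))))) (merge (node 526 (merge (leaf 1 524 527) (node 555 (merge (leaf 1 522 554) (node 491 (merge (leaf 3 490 490) (node 459 (merge (leaf 4 427 427) (leaf 4 459 588))))))))) (node 555 (merge (node 522 (merge (leaf 0 521 521) (node 554 (merge (leaf 1 521 553) (node 586 (merge (leaf 1 553 585) (node 491 (merge (leaf 5 458 459) (leaf 6 490 618))))))))) (merge (node 522 (merge (leaf 0 521 521) (node 554 (merge (leaf 1 521 553) (node 490 (merge (leaf 3 489 489) (node 587 (merge (leaf 4 458 458) (leaf 7 490 619))))))))) (node 491 (merge (node 588 (merge (leaf 4 459 459)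 (leaf 7 491 620))) (merge (node 587 (merge (node 588 (merge (leaf 7 491 620) (node 586 (merge (leaf 2 553 585) (leaf 5 490 618))))) (merge (node 619 (merge (leaf 6 523 651) (node 620 (merge (leaf 7 491 588) (leaf 4 523 652))))) (node 619 (merge (leaf 6 523 651) (node 618 (merge (leaf 5 490 586) (leaf 5 522 650)))))))) (node 459 (merge (leaf 4 427 427) (node 458 (merge (leaf 7 426 426) (node 587 (merge (leaf 7 458 490) (node 619 (merge (leaf 6 523 651) (node 618 (merge (leaf 5 490 586) (leaf 5 522 650))))))))))))))))))))))))) (merge (node 492 (merge (node 526 (merge (node 527 (merge (leaf 3 491 491) (leaf 0 524 559))) (merge (node 527 (merge (leaf 1 524 556) (leaf 0 525 561))) (node 558 (merge (leaf 3 524 559) (node 523 (merge (leaf 0 522 522) (node 555 (merge (leaf 1 522 554) (node 587 (merge (leaf 6 491 619) (node 586 (merge (leaf 1 554 556) (node 491 (merge (leaf 3 490 490) (leaf 5 490 618)))))))))))))))) (merge (node 491 (merge (node 490 (merge (leaf 0 489 489) (node 526 (merge (leaf 3 490 523) (leaf 3 491 527))))) (node 460 (merge (leaf 4 428 428) (node 461 (merge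 (leaf 1 459 462) (node 556 (merge (leaf 6 428 429) (node 459 (merge (leaf 7 427 427) (leaf 7 459 588))))))))))) (merge (node 556 (merge (node 460 (merge (leaf 4 428 428) (node 555 (merge (leaf 5 459 587) (node 554 (merge (leaf 2 522 526) (leaf 2 521 553))))))) (merge (node 460 (merge (leaf 4 428 428) (node 461 (merge (leaf 6 428 429) (node 588 (merge (leaf 6 460 493) (node 587 (merge (leaf 5 459 555) (leaf 5 491 619))))))))) (merge (node 555 (merge (node 554 (merge (leaf 2 522 526) (leaf 2 521 553))) (node 558 (merge (leaf 3 524 559) (node 587 (merge (leaf 1 554 586) (node 619 (merge (leaf 6 523 651) (node 588 (merge (leaf 5 491 492) (node 493 (merge (leaf 5 460 461) (leaf 6 492 620))))))))))))) (node 527 (merge (leaf 1 524 526) (node 460 (merge (leaf 4 428 428) (node 461 (merge (leaf 6 428 429) (node 459 (merge (leaf 7 427 427) (node 431 (merge (leaf 4 431 495) (node 462 (merge (leaf 2 427 430) (leaf 2 428 432))))))))))))))))) (merge (node 460 (merge (node 428 (merge (leaf 4 428 557) (node 397 (merge (leaf 6 396 429) (node 396 (merge (leaf 6 364 365) (node 523 (merge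 (leaf 5 395 491) (leaf 5 427 555))))))))) (merge (node 559 (merge (leaf 3 524 558) (node 527 (merge (leaf 0 524 526) (node 495 (merge (leaf 4 431 431) (node 462 (merge (leaf 7 430 430) (node 461 (merge (leaf 1 459 491) (leaf 0 460 496))))))))))) (node 559 (merge (leaf 3 524 558) (node 527 (merge (leaf 0 524 526) (node 428 (merge (leaf 4 428 492) (node 495 (merge (leaf 4 431 431) (node 462 (merge (leaf 7 430 430) (node 461 (merge (leaf 3 427 427) (leaf 0 460 496)))))))))))))))) (node 460 (merge (node 428 (merge (node 396 (merge (leaf 4 396 493) (node 523 (merge (leaf 5 395 491) (leaf 5 427 555))))) (merge (node 397 (merge (leaf 6 396 429) (node 396 (merge (leaf 6 364 365) (leaf 4 396 493))))) (node 429 (merge (leaf 6 396 397) (node 556 (merge (leaf 6 428 461) (node 555 (merge (leaf 5 427 523) (leaf 5 459 587)))))))))) (merge (node 428 (merge (node 397 (merge (leaf 6 396 429) (node 396 (merge (leaf 6 364 365) (leaf 4 396 493))))) (merge (node 395 (merge (leaf 7 395 427) (node 396 (merge (leaf 7 363 363) (leaf 4 396 493))))) (node 429 (merge (leaf 6 396 397) (node 427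 (merge (leaf 7 395 395) (node 462 (merge (leaf 0 427 430) (leaf 3 427 461)))))))))) (merge (node 428 (merge (node 429 (merge (leaf 6 396 397) (node 556 (merge (leaf 6 428 461) (node 555 (merge (leaf 5 427 523) (leaf 5 459 587))))))) (merge (node 429 (merge (leaf 6 396 397) (node 427 (merge (leaf 7 395 395) (node 462 (merge (leaf 0 427 430) (leaf 3 427 461))))))) (node 427 (merge (leaf 7 395 395) (node 556 (merge (leaf 7 427 459) (node 555 (merge (leaf 5 427 523) (leaf 5 459 587)))))))))) (merge (node 428 (merge (node 397 (merge (leaf 6 396 429) (node 396 (merge (leaf 6 364 365) (leaf 4 396 493))))) (node 427 (merge (leaf 7 395 395) (node 556 (merge (leaf 7 427 459) (node 555 (merge (leaf 5 427 523) (leaf 5 459 587))))))))) (merge (node 556 (merge (node 461 (merge (leaf 6 428 429) (node 588 (merge (leaf 6 460 493) (node 587 (merge (leaf 5 459 555) (leaf 5 491 619))))))) (merge (node 461 (merge (leaf 6 428 429) (node 459 (merge (leaf 7 427 427) (node 491 (merge (leaf 1 459 462) (leaf 7 459 588))))))) (merge (node 459 (merge (leaf 7 427 427) (node 588 (merge (leaf 7 459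 491) (node 587 (merge (leaf 5 459 555) (leaf 5 491 619))))))) (node 461 (merge (leaf 6 428 429) (node 459 (merge (leaf 7 427 427) (node 462 (merge (leaf 1 459 491) (node 431 (merge (leaf 2 427 430) (leaf 2 428 432))))))))))))) (node 428 (merge (node 396 (merge (leaf 4 396 493) (node 365 (merge (leaf 6 364 397) (node 364 (merge (leaf 6 332 333) (node 459 (merge (leaf 5 363 491) (node 427 (merge (leaf 5 331 332) (leaf 7 427 556))))))))))) (merge (node 396 (merge (node 395 (merge (leaf 7 363 363) (leaf 7 395 427))) (merge (node 365 (merge (leaf 6 364 397) (node 364 (merge (leaf 6 332 333) (node 459 (merge (leaf 5 363 491) (node 427 (merge (leaf 5 331 332) (leaf 7 427 556))))))))) (node 365 (merge (leaf 6 364 397) (node 364 (merge (leaf 6 332 333) (node 363 (merge (leaf 7 331 331) (leaf 7 363 395)))))))))) (merge (node 396 (merge (leaf 4 396 493) (node 365 (merge (leaf 6 364 397) (node 364 (merge (leaf 6 332 333) (node 363 (merge (leaf 7 331 331) (leaf 7 363 395))))))))) (node 427 (merge (leaf 7 395 395) (node 556 (merge (leaf 7 427 459) (node 587 (merge (leaf 5 459 555)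 (node 588 (merge (leaf 5 491 619) (node 493 (merge (leaf 6 460 461) (leaf 6 492 620)))))))))))))))))))))))))) (merge (node 556 (merge (node 558 (merge (leaf 3 524 559) (node 555 (merge (node 522 (merge (leaf 3 522 523) (node 554 (merge (leaf 3 521 521) (leaf 2 521 553))))) (merge (node 586 (merge (leaf 1 554 587) (node 554 (merge (leaf 2 521 553) (leaf 1 553 585))))) (node 523 (merge (leaf 0 522 522) (node 587 (merge (leaf 1 554 586) (node 492 (merge (leaf 5 459 460) (leaf 6 491 619)))))))))))) (merge (node 431 (merge (node 495 (merge (leaf 4 431 527) (node 399 (merge (leaf 4 399 496) (node 368 (merge (leaf 6 367 400) (node 367 (merge (leaf 6 335 336) (node 366 (merge (leaf 7 334 334) (leaf 7 366 398))))))))))) (node 461 (merge (node 493 (merge (leaf 5 428 429) (leaf 5 460 588))) (merge (node 460 (merge (node 492 (merge (leaf 6 428 429) (leaf 4 460 589))) (node 462 (merge (leaf 2 428 432) (node 459 (merge (leaf 2 427 430) (node 427 (merge (leaf 3 426 426) (leaf 3 427 428))))))))) (node 493 (merge (leaf 5 460 588) (node 462 (merge (leaf 6 429 430) (node 460 (merge (leaf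 7 428 428) (leaf 2 428 432)))))))))))) (node 555 (merge (node 554 (merge (leaf 2 521 553) (node 586 (merge (leaf 1 553 585) (node 558 (merge (leaf 3 524 559) (leaf 1 554 587))))))) (merge (node 554 (merge (leaf 2 521 553) (node 522 (merge (leaf 3 521 521) (node 558 (merge (leaf 0 522 523) (leaf 3 524 559))))))) (merge (node 523 (merge (node 558 (merge (leaf 0 522 522) (leaf 3 523 559))) (node 491 (merge (node 588 (merge (leaf 4 459 459) (leaf 7 491 620))) (merge (node 587 (merge (node 588 (merge (leaf 7 491 620) (node 586 (merge (leaf 2 553 585) (leaf 5 490 618))))) (merge (node 619 (merge (leaf 6 523 651) (node 620 (merge (leaf 7 491 588) (leaf 4 523 652))))) (node 619 (merge (leaf 6 523 651) (node 618 (merge (leaf 5 490 586) (leaf 5 522 650)))))))) (node 459 (merge (leaf 4 427 427) (node 458 (merge (leaf 7 426 426) (node 587 (merge (leaf 7 458 490) (node 619 (merge (leaf 6 523 651) (node 618 (merge (leaf 5 490 586) (leaf 5 522 650)))))))))))))))) (node 523 (merge (node 522 (merge (leaf 0 521 521) (node 554 (merge (leaf 1 521 553) (node 586 (merge (leaf 1 553 585)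 (node 491 (merge (leaf 5 458 459) (leaf 6 490 618))))))))) (merge (node 522 (merge (leaf 0 521 521) (node 554 (merge (leaf 1 521 553) (node 490 (merge (leaf 3 489 489) (node 587 (merge (leaf 4 458 458) (leaf 7 490 619))))))))) (node 491 (merge (node 588 (merge (leaf 4 459 459) (leaf 7 491 620))) (merge (node 587 (merge (node 588 (merge (leaf 7 491 620) (node 586 (merge (leaf 2 553 585) (leaf 5 490 618))))) (merge (node 619 (merge (leaf 6 523 651) (node 620 (merge (leaf 7 491 588) (leaf 4 523 652))))) (node 619 (merge (leaf 6 523 651) (node 618 (merge (leaf 5 490 586) (leaf 5 522 650)))))))) (node 459 (merge (leaf 4 427 427) (node 458 (merge (leaf 7 426 426) (node 587 (merge (leaf 7 458 490) (node 619 (merge (leaf 6 523 651) (node 618 (merge (leaf 5 490 586) (leaf 5 522 650)))))))))))))))))))))))) (merge (node 556 (merge (node 558 (merge (leaf 3 524 559) (node 555 (merge (node 522 (merge (leaf 3 522 523) (node 554 (merge (leaf 3 521 521) (leaf 2 521 553))))) (merge (node 586 (merge (leaf 1 554 587) (node 554 (merge (leaf 2 521 553) (leaf 1 553 585))))) (node 523 (merge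 (leaf 0 522 522) (node 587 (merge (leaf 1 554 586) (node 492 (merge (leaf 5 459 460) (leaf 6 491 619)))))))))))) (merge (node 431 (merge (node 495 (merge (leaf 4 431 527) (node 399 (merge (leaf 4 399 496) (node 368 (merge (leaf 6 367 400) (node 367 (merge (leaf 6 335 336) (node 366 (merge (leaf 7 334 334) (leaf 7 366 398))))))))))) (node 461 (merge (node 493 (merge (leaf 5 428 429) (leaf 5 460 588))) (merge (node 460 (merge (node 492 (merge (leaf 6 428 429) (leaf 4 460 589))) (node 462 (merge (leaf 2 428 432) (node 459 (merge (leaf 2 427 430) (node 427 (merge (leaf 3 426 426) (leaf 3 427 428))))))))) (node 493 (merge (leaf 5 460 588) (node 462 (merge (leaf 6 429 430) (node 460 (merge (leaf 7 428 428) (leaf 2 428 432)))))))))))) (node 526 (merge (leaf 1 524 527) (node 555 (merge (leaf 2 522 554) (node 558 (merge (leaf 3 524 559) (node 523 (merge (leaf 0 522 522) (node 587 (merge (leaf 1 554 586) (node 619 (merge (leaf 6 523 651) (node 620 (merge (leaf 4 523 652) (node 588 (merge (leaf 6 492 493) (node 618 (merge (leaf 5 522 650) (node 617 (merge (leaf 2 585 589) (leaf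 2 584 616)))))))))))))))))))))))) (merge (hyp 0) (merge (hyp 1) (node 555 (merge (node 554 (merge (node 526 (merge (leaf 1 522 523) (leaf 2 522 556))) (merge (node 556 (merge (leaf 2 522 526) (leaf 2 521 553))) (merge (node 523 (merge (leaf 1 522 526) (node 553 (merge (leaf 1 521 522) (leaf 2 520 552))))) (node 553 (merge (leaf 2 521 556) (node 523 (merge (leaf 1 521 522) (leaf 2 520 552))))))))) (merge (node 559 (merge (leaf 3 524 558) (node 526 (merge (leaf 0 524 527) (node 554 (merge (leaf 1 522 523) (leaf 2 522 556))))))) (merge (node 558 (merge (leaf 3 524 559) (node 523 (merge (leaf 0 522 522) (node 526 (merge (leaf 1 522 554) (node 527 (merge (leaf 0 525 561) (node 496 (merge (leaf 2 492 495) (leaf 2 493 497))))))))))) (merge (node 556 (merge (node 554 (merge (leaf 2 521 553) (node 586 (merge (leaf 1 553 585) (node 558 (merge (leaf 3 524 559) (leaf 1 554 587))))))) (merge (node 554 (merge (leaf 2 521 553) (node 522 (merge (leaf 3 521 521) (node 558 (merge (leaf 0 522 523) (leaf 3 524 559))))))) (merge (node 523 (merge (node 558 (merge (leaf 0 522 522) (leaf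 3 523 559))) (node 491 (merge (node 588 (merge (leaf 4 459 459) (leaf 7 491 620))) (merge (node 587 (merge (node 588 (merge (leaf 7 491 620) (node 586 (merge (leaf 2 553 585) (leaf 5 490 618))))) (merge (node 619 (merge (leaf 6 523 651) (node 620 (merge (leaf 7 491 588) (leaf 4 523 652))))) (node 619 (merge (leaf 6 523 651) (node 618 (merge (leaf 5 490 586) (leaf 5 522 650)))))))) (node 459 (merge (leaf 4 427 427) (node 458 (merge (leaf 7 426 426) (node 587 (merge (leaf 7 458 490) (node 619 (merge (leaf 6 523 651) (node 618 (merge (leaf 5 490 586) (leaf 5 522 650)))))))))))))))) (node 523 (merge (node 522 (merge (leaf 0 521 521) (node 554 (merge (leaf 1 521 553) (node 586 (merge (leaf 1 553 585) (node 491 (merge (leaf 5 458 459) (leaf 6 490 618))))))))) (merge (node 522 (merge (leaf 0 521 521) (node 554 (merge (leaf 1 521 553) (node 490 (merge (leaf 3 489 489) (node 587 (merge (leaf 4 458 458) (leaf 7 490 619))))))))) (node 491 (merge (node 588 (merge (leaf 4 459 459) (leaf 7 491 620))) (merge (node 587 (merge (node 588 (merge (leaf 7 491 620) (node 586 (merge (leaf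 2 553 585) (leaf 5 490 618))))) (merge (node 619 (merge (leaf 6 523 651) (node 620 (merge (leaf 7 491 588) (leaf 4 523 652))))) (node 619 (merge (leaf 6 523 651) (node 618 (merge (leaf 5 490 586) (leaf 5 522 650)))))))) (node 459 (merge (leaf 4 427 427) (node 458 (merge (leaf 7 426 426) (node 587 (merge (leaf 7 458 490) (node 619 (merge (leaf 6 523 651) (node 618 (merge (leaf 5 490 586) (leaf 5 522 650))))))))))))))))))))) (merge (node 461 (merge (node 556 (merge (node 493 (merge (leaf 5 428 429) (leaf 5 460 588))) (node 554 (merge (leaf 2 522 526) (leaf 2 521 553))))) (merge (node 559 (merge (leaf 3 524 558) (node 527 (merge (leaf 0 524 526) (node 495 (merge (leaf 4 431 431) (node 462 (merge (leaf 7 430 430) (node 460 (merge (leaf 0 460 496) (node 428 (merge (leaf 3 427 427) (leaf 7 428 493))))))))))))) (merge (node 493 (merge (node 430 (merge (leaf 6 429 462) (node 429 (merge (leaf 6 397 398) (node 428 (merge (leaf 7 396 396) (leaf 7 428 460))))))) (node 558 (merge (leaf 3 524 559) (node 556 (merge (leaf 5 460 588) (node 586 (merge (leaf 1 554 587) (node 554 (merge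 (leaf 2 521 553) (leaf 1 553 585))))))))))) (node 554 (merge (node 556 (merge (leaf 2 522 526) (leaf 2 521 553))) (merge (node 556 (merge (leaf 2 521 553) (node 586 (merge (leaf 1 553 585) (node 558 (merge (leaf 3 524 559) (leaf 1 554 587))))))) (node 559 (merge (leaf 3 524 558) (node 527 (merge (leaf 0 524 526) (node 495 (merge (leaf 4 431 431) (node 462 (merge (leaf 7 430 430) (node 460 (merge (leaf 0 460 496) (node 427 (merge (leaf 3 427 428) (node 459 (merge (leaf 3 426 426) (node 490 (merge (leaf 1 458 491) (node 458 (merge (leaf 1 457 489) (leaf 6 426 522)))))))))))))))))))))))))) (node 523 (merge (node 558 (merge (leaf 0 522 522) (leaf 3 524 559))) (merge (node 522 (merge (node 490 (merge (leaf 3 489 489) (node 587 (merge (leaf 7 490 619) (node 458 (merge (leaf 4 426 426) (leaf 7 458 491))))))) (merge (node 521 (merge (leaf 0 521 556) (node 552 (merge (leaf 1 520 553) (node 520 (merge (leaf 1 519 551) (node 488 (merge (leaf 3 487 487) (leaf 3 488 489))))))))) (node 556 (merge (leaf 0 521 521) (node 526 (merge (leaf 1 523 527) (node 491 (merge (leaf 3 490 490)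 (node 459 (merge (leaf 4 427 427) (leaf 4 459 588)))))))))))) (node 587 (merge (node 619 (merge (node 651 (merge (leaf 6 523 556) (node 650 (merge (leaf 5 522 618) (leaf 5 554 682))))) (merge (node 651 (merge (leaf 6 523 556) (node 652 (merge (leaf 4 523 620) (leaf 4 555 684))))) (node 620 (merge (leaf 4 523 652) (node 491 (merge (leaf 4 491 588) (node 618 (merge (leaf 5 490 586) (leaf 5 522 650)))))))))) (merge (node 559 (merge (leaf 3 524 558) (node 526 (merge (leaf 0 524 527) (node 491 (merge (leaf 3 490 490) (node 620 (merge (leaf 4 491 588) (node 619 (merge (leaf 4 523 652) (node 618 (merge (leaf 5 490 586) (leaf 5 522 650))))))))))))) (merge (node 559 (merge (leaf 3 524 558) (node 526 (merge (leaf 0 524 527) (node 491 (merge (leaf 3 490 490) (node 618 (merge (leaf 5 490 586) (node 619 (merge (leaf 5 522 650) (node 651 (merge (leaf 6 523 556) (node 652 (merge (leaf 4 523 620) (leaf 4 555 684))))))))))))))) (merge (node 558 (merge (leaf 3 524 559) (node 556 (merge (leaf 1 554 586) (node 526 (merge (leaf 1 523 527) (node 491 (merge (leaf 3 490 490) (node 459 (merge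 (leaf 4 427 427) (leaf 4 459 588))))))))))) (merge (node 559 (merge (leaf 3 524 558) (node 526 (merge (leaf 0 524 527) (node 491 (merge (leaf 3 490 490) (node 588 (merge (leaf 4 491 620) (node 459 (merge (leaf 4 459 556) (node 428 (merge (leaf 6 427 460) (node 427 (merge (leaf 6 395 396) (node 426 (merge (leaf 7 394 394) (leaf 7 426 458))))))))))))))))) (node 558 (merge (leaf 3 524 559) (node 556 (merge (leaf 1 554 586) (node 619 (merge (leaf 6 523 651) (node 620 (merge (leaf 4 523 652) (node 588 (merge (leaf 6 492 493) (node 618 (merge (leaf 5 522 650) (node 617 (merge (leaf 2 585 589) (leaf 2 584 616)))))))))))))))))))))))))))))))))))))))) nP_297 cP_297 14 (by decide +kernel)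
def nP_298 : ℕ := 0x120000001200000000000000080000000000000000000000000000000000000000000000000000000000000000000000000000000000000000000000000000000000000000000
def cP_298 : ℕ := 0xc0000000c000000ee000000ed000001cd0000001be0000007e000007ff000001fc000001f8000001f80000007800000000000000000000000000000000000000000000000000000000000000000000000000
theorem lP_298 : S nP_298 cP_298 14 := S_of_chk [] trivial (node 461 (merge (node 493 (merge (node 430 (merge (leaf 6 429 462) (node 429 (merge (leaf 6 397 398) (node 558 (merge (leaf 4 429 526) (leaf 4 461 590))))))) (merge (node 460 (merge (leaf 7 428 428) (node 589 (merge (leaf 7 460 492) (node 590 (merge (leaf 4 461 558) (leaf 4 493 622))))))) (node 462 (merge (leaf 6 429 430) (node 460 (merge (leaf 7 428 428) (node 492 (merge (leaf 1 459 491) (leaf 7 460 589)))))))))) (merge (node 558 (merge (node 493 (merge (leaf 4 461 590) (node 430 (merge (leaf 6 429 462) (node 429 (merge (leaf 6 397 398) (leaf 4 429 526))))))) (merge (node 559 (merge (leaf 3 524 524) (node 527 (merge (leaf 2 524 556) (node 495 (merge (leaf 4 431 431)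 (leaf 5 462 590))))))) (node 559 (merge (leaf 3 524 524) (node 527 (merge (leaf 2 524 556) (node 526 (merge (leaf 0 525 561) (node 493 (merge (leaf 4 429 429) (leaf 3 492 492)))))))))))) (merge (node 559 (merge (node 558 (merge (leaf 3 524 524) (node 527 (merge (leaf 2 524 556) (node 495 (merge (leaf 4 431 431) (leaf 5 462 590))))))) (merge (node 558 (merge (leaf 3 524 524) (node 561 (merge (leaf 3 525 526) (node 594 (merge (leaf 0 558 593) (node 562 (merge (leaf 0 559 595) (node 590 (merge (leaf 1 557 589) (leaf 1 558 591))))))))))) (merge (node 527 (merge (node 526 (merge (leaf 1 524 556) (leaf 0 525 561))) (node 495 (merge (leaf 4 431 431) (node 462 (merge (leaf 7 430 430) (node 460 (merge (leaf 0 460 496) (node 492 (merge (leaf 1 459 491) (node 428 (merge (leaf 3 427 427) (leaf 4 428 524))))))))))))) (node 527 (merge (node 526 (merge (leaf 1 524 556) (leaf 0 525 561))) (node 495 (merge (leaf 4 431 431) (node 590 (merge (leaf 5 462 558) (node 591 (merge (leaf 5 494 622) (node 623 (merge (leaf 6 495 496) (leaf 6 527 655))))))))))))))) (merge (node 493 (merge (node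 430 (merge (leaf 6 429 462) (node 429 (merge (leaf 6 397 398) (node 428 (merge (leaf 7 396 396) (leaf 7 428 460))))))) (node 558 (merge (leaf 4 461 590) (node 559 (merge (leaf 3 524 524) (node 561 (merge (leaf 3 525 526) (node 594 (merge (leaf 0 558 593) (node 562 (merge (leaf 0 559 595) (node 531 (merge (leaf 2 527 530) (node 563 (merge (leaf 3 527 527) (leaf 2 528 532))))))))))))))))) (merge (node 493 (merge (node 460 (merge (leaf 7 428 428) (node 589 (merge (leaf 7 460 492) (node 590 (merge (leaf 4 461 558) (leaf 4 493 622))))))) (merge (node 460 (merge (leaf 7 428 428) (node 492 (merge (leaf 7 460 589) (node 491 (merge (leaf 1 459 462) (node 526 (merge (leaf 0 490 490) (leaf 3 492 527))))))))) (node 558 (merge (leaf 4 461 590) (node 559 (merge (leaf 3 524 524) (node 561 (merge (leaf 3 525 526) (node 594 (merge (leaf 0 558 593) (node 562 (merge (leaf 0 559 595) (node 531 (merge (leaf 2 527 530) (node 563 (merge (leaf 3 527 527) (leaf 2 528 532)))))))))))))))))) (merge (node 493 (merge (node 460 (merge (leaf 7 428 428) (node 589 (merge (leaf 7 460 492) (node 590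 (merge (leaf 4 461 558) (leaf 4 493 622))))))) (merge (node 428 (merge (leaf 7 428 460) (node 429 (merge (leaf 7 396 396) (node 398 (merge (leaf 6 397 430) (node 397 (merge (leaf 6 365 366) (node 524 (merge (leaf 5 396 492) (leaf 5 428 556))))))))))) (merge (node 429 (merge (node 398 (merge (leaf 6 397 430) (node 397 (merge (leaf 6 365 366) (node 396 (merge (leaf 7 364 364) (leaf 7 396 428))))))) (node 526 (merge (leaf 4 429 558) (node 527 (merge (leaf 0 525 561) (node 524 (merge (leaf 5 428 556) (leaf 0 524 559))))))))) (node 558 (merge (node 590 (merge (leaf 4 461 461) (node 622 (merge (leaf 4 493 589) (leaf 7 525 654))))) (node 559 (merge (leaf 3 524 524) (node 526 (merge (leaf 3 525 561) (node 527 (merge (leaf 3 492 492) (leaf 1 524 556))))))))))))) (node 431 (merge (node 495 (merge (leaf 4 431 527) (node 399 (merge (leaf 4 399 496) (node 368 (merge (leaf 6 367 400) (node 367 (merge (leaf 6 335 336) (node 366 (merge (leaf 7 334 334) (leaf 7 366 398))))))))))) (merge (node 460 (merge (node 462 (merge (leaf 2 428 432) (node 459 (merge (leaf 2 427 430) (node 427 (merge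 (leaf 3 426 426) (leaf 3 427 428))))))) (merge (node 462 (merge (leaf 2 428 432) (node 491 (merge (leaf 1 459 492) (node 459 (merge (leaf 2 427 430) (leaf 1 458 490))))))) (merge (node 462 (merge (leaf 2 428 432) (node 491 (merge (leaf 1 459 492) (node 459 (merge (leaf 1 458 490) (node 427 (merge (leaf 3 426 426) (leaf 3 427 428))))))))) (merge (node 429 (merge (node 432 (merge (leaf 1 428 430) (leaf 2 428 462))) (merge (node 462 (merge (leaf 2 428 432) (node 492 (merge (leaf 1 459 491) (node 524 (merge (leaf 6 428 556) (node 397 (merge (leaf 5 364 365) (leaf 5 396 493))))))))) (merge (node 430 (merge (leaf 1 428 432) (node 493 (merge (leaf 6 397 398) (node 396 (merge (leaf 7 396 428) (node 397 (merge (leaf 7 364 364) (node 524 (merge (leaf 5 396 492) (leaf 5 428 556))))))))))) (node 492 (merge (node 524 (merge (leaf 6 428 556) (node 397 (merge (leaf 5 364 365) (leaf 5 396 493))))) (merge (node 524 (merge (leaf 6 428 556) (node 397 (merge (leaf 5 364 365) (leaf 6 396 428))))) (node 462 (merge (leaf 1 459 491) (node 428 (merge (leaf 3 427 427) (node 396 (merge (leaf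 7 396 493) (node 395 (merge (leaf 7 363 363) (leaf 3 395 430)))))))))))))))) (merge (node 429 (merge (node 430 (merge (leaf 1 428 432) (node 459 (merge (leaf 1 427 428) (leaf 2 426 458))))) (merge (node 397 (merge (node 492 (merge (leaf 5 364 365) (node 524 (merge (leaf 5 396 493) (leaf 6 428 556))))) (merge (node 492 (merge (leaf 5 364 365) (node 524 (merge (leaf 6 396 428) (leaf 6 428 556))))) (merge (node 493 (merge (node 524 (merge (leaf 5 396 492) (leaf 5 428 556))) (node 396 (merge (leaf 7 364 364) (leaf 7 396 428))))) (node 493 (merge (node 396 (merge (leaf 7 364 364) (leaf 7 396 428))) (merge (node 366 (merge (leaf 6 365 398) (node 365 (merge (leaf 6 333 334) (node 428 (merge (leaf 5 332 333) (leaf 7 396 396))))))) (merge (node 366 (merge (leaf 6 365 398) (node 365 (merge (leaf 6 333 334) (node 364 (merge (leaf 7 332 332) (leaf 7 364 396))))))) (node 366 (merge (leaf 6 365 398) (node 365 (merge (leaf 6 333 334) (node 332 (merge (leaf 7 332 364) (node 333 (merge (leaf 7 300 300) (leaf 5 332 428))))))))))))))))) (node 397 (merge (node 365 (merge (leaf 5 364 492)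 (node 334 (merge (leaf 6 333 366) (node 333 (merge (leaf 6 301 302) (node 332 (merge (leaf 7 300 300) (leaf 7 332 364))))))))) (merge (node 430 (merge (leaf 1 428 432) (node 493 (merge (leaf 6 397 398) (node 524 (merge (leaf 5 396 492) (leaf 5 428 556))))))) (node 396 (merge (node 364 (merge (leaf 7 364 493) (node 332 (merge (leaf 4 300 300) (leaf 7 332 365))))) (node 430 (merge (leaf 1 428 432) (node 395 (merge (leaf 0 394 394) (leaf 0 395 398))))))))))))) (node 428 (merge (node 462 (merge (leaf 3 427 427) (node 491 (merge (leaf 1 459 492) (node 459 (merge (leaf 2 427 430) (leaf 1 458 490))))))) (merge (node 396 (merge (node 493 (merge (leaf 4 364 364) (leaf 7 396 429))) (merge (node 493 (merge (leaf 4 364 364) (leaf 4 396 492))) (merge (node 493 (merge (leaf 7 396 429) (leaf 4 396 492))) (node 364 (merge (node 333 (merge (leaf 6 332 365) (node 332 (merge (leaf 6 300 301) (leaf 4 332 429))))) (merge (node 331 (merge (leaf 7 331 363) (node 332 (merge (leaf 7 299 299) (leaf 4 332 429))))) (node 365 (merge (leaf 6 332 333) (node 492 (merge (leaf 6 364 397) (node 363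 (merge (leaf 7 331 331) (leaf 7 363 395)))))))))))))) (node 462 (merge (leaf 3 427 427) (node 459 (merge (leaf 2 427 430) (node 490 (merge (leaf 1 458 491) (node 458 (merge (leaf 1 457 489) (node 457 (merge (leaf 2 425 429) (node 425 (merge (leaf 3 424 424) (leaf 3 425 426)))))))))))))))))))))) (merge (node 495 (merge (leaf 4 431 527) (node 399 (merge (leaf 4 399 496) (node 368 (merge (leaf 6 367 400) (node 367 (merge (leaf 6 335 336) (node 334 (merge (leaf 7 334 366) (node 335 (merge (leaf 7 302 302) (node 462 (merge (leaf 5 334 430) (node 460 (merge (leaf 2 428 432) (node 491 (merge (leaf 1 459 492) (node 459 (merge (leaf 1 458 490) (node 427 (merge (leaf 3 426 426) (leaf 3 427 428))))))))))))))))))))))) (node 462 (merge (node 432 (merge (leaf 2 428 460) (node 433 (merge (leaf 1 429 430) (leaf 1 430 434))))) (merge (node 460 (merge (leaf 2 428 432) (node 495 (merge (leaf 0 460 496) (leaf 4 431 527))))) (node 495 (merge (leaf 4 431 527) (node 399 (merge (leaf 4 399 496) (node 368 (merge (leaf 6 367 400) (node 367 (merge (leaf 6 335 336) (node 430 (merge (leaf 5 334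 335) (node 493 (merge (leaf 6 429 557) (node 429 (merge (leaf 6 397 398) (node 428 (merge (leaf 7 396 396) (leaf 0 427 427))))))))))))))))))))))))))))))) nP_298 cP_298 14 (by decide +kernel)
def nP_299 : ℕ := 0x100000001200000000000000080000000000000000000000000000000000000000000000000000000000000000000000000000000000000000000000000000000000000000000
def cP_299 : ℕ := 0x700000007e000003ff000003ffc0000eff80000effc0001cdf800003bf8000007f800007ff800001fe000001f8000001f80000007800000000000000000000000000000000000000000000000000000000000000000000000000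
theorem lP_299 : S nP_299 cP_299 16 := S_of_chk [(nP_290, cP_290, 13), (nP_291, cP_291, 13), (nP_294, cP_294, 13), (nP_292, cP_292, 11), (nP_297, cP_297, 14), (nP_298, cP_298, 14)] ⟨lP_290, lP_291, lP_294, lP_292, lP_297, lP_298, trivial⟩ (node 557 (merge (node 527 (merge (node 526 (merge (leaf 1 524 556) (leaf 0 525 561))) (merge (node 526 (merge (leaf 0 525 561) (node 496 (merge (leaf 2 493 497) (node 495 (merge (leaf 4 431 431) (leaf 2 492 524))))))) (node 589 (merge (node 590 (merge (node 622 (merge (leaf 4 493 493) (node 654 (merge (leaf 4 525 621) (leaf 7 557 686))))) (node 495 (merge (leaf 4 431 431) (node 559 (merge (leaf 5 462 558) (node 591 (merge (leaf 2 556 588) (node 623 (merge (leaf 6 495 496) (leaf 6 527 655))))))))))) (merge (node 431 (merge (leaf 4 431 495) (node 621 (merge (node 654 (merge (leaf 4 525 622) (node 653 (merge (leaf 4 557 686) (node 652 (merge (leaf 5 524 620) (leaf 5 556 684))))))) (merge (node 622 (merge (leaf 4 525 654) (node 620 (merge (leaf 5 524 652) (node 588 (merge (leaf 5 492 493) (node 587 (merge (leaf 0 586 586) (leaf 3 587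 623))))))))) (merge (node 653 (merge (node 652 (merge (leaf 5 524 620) (leaf 5 556 684))) (merge (node 556 (merge (leaf 7 524 524) (node 588 (merge (leaf 7 556 685) (node 493 (merge (leaf 5 460 461) (leaf 5 492 620))))))) (node 556 (merge (leaf 7 524 524) (node 685 (merge (leaf 7 556 588) (node 684 (merge (leaf 5 556 652) (leaf 5 588 716)))))))))) (merge (node 654 (merge (leaf 4 525 622) (node 653 (merge (leaf 4 557 686) (node 556 (merge (leaf 7 524 524) (node 685 (merge (leaf 7 556 588) (node 684 (merge (leaf 5 556 652) (leaf 5 588 716))))))))))) (node 654 (merge (leaf 4 525 622) (node 653 (merge (leaf 4 557 686) (node 556 (merge (leaf 7 524 524) (node 588 (merge (leaf 7 556 685) (node 493 (merge (leaf 5 460 461) (leaf 5 492 620)))))))))))))))))) (merge (node 588 (merge (node 620 (merge (leaf 5 492 493) (node 652 (merge (leaf 6 524 556) (leaf 6 556 684))))) (node 559 (merge (leaf 1 556 558) (node 591 (merge (leaf 2 556 590) (node 623 (merge (leaf 6 495 496) (leaf 6 527 655))))))))) (merge (node 558 (merge (node 559 (merge (leaf 3 524 524) (leaf 2 524 556))) (node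 621 (merge (node 654 (merge (leaf 4 525 622) (node 653 (merge (leaf 4 557 686) (node 652 (merge (leaf 5 524 620) (leaf 5 556 684))))))) (merge (node 653 (merge (node 654 (merge (leaf 4 525 622) (leaf 4 557 686))) (merge (node 590 (merge (leaf 6 557 685) (node 493 (merge (leaf 4 461 461) (leaf 4 493 622))))) (node 685 (merge (leaf 6 557 590) (node 686 (merge (leaf 4 557 654) (leaf 4 589 718)))))))) (merge (node 652 (merge (leaf 5 524 620) (node 653 (merge (leaf 5 556 684) (node 590 (merge (leaf 6 557 685) (node 493 (merge (leaf 4 461 461) (leaf 4 493 622))))))))) (merge (node 652 (merge (leaf 5 524 620) (node 653 (merge (leaf 5 556 684) (node 685 (merge (leaf 6 557 590) (node 686 (merge (leaf 4 557 654) (leaf 4 589 718))))))))) (node 622 (merge (leaf 4 525 654) (node 590 (merge (leaf 4 493 493) (node 620 (merge (leaf 5 524 652) (node 619 (merge (leaf 2 587 591) (leaf 2 586 618)))))))))))))))) (node 621 (merge (node 654 (merge (leaf 4 525 622) (node 653 (merge (leaf 4 557 686) (node 652 (merge (leaf 5 524 620) (leaf 5 556 684))))))) (merge (node 652 (merge (leaf 5 524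 620) (node 653 (merge (leaf 5 556 684) (node 556 (merge (leaf 7 524 524) (node 685 (merge (leaf 7 556 588) (node 558 (merge (leaf 2 524 559) (leaf 6 557 590))))))))))) (merge (node 654 (merge (leaf 4 525 622) (node 653 (merge (leaf 4 557 686) (node 556 (merge (leaf 7 524 524) (node 685 (merge (leaf 7 556 588) (node 558 (merge (leaf 2 524 559) (leaf 6 557 590))))))))))) (node 620 (merge (leaf 5 524 652) (node 619 (merge (node 618 (merge (leaf 2 586 590) (node 649 (merge (leaf 1 617 650) (node 617 (merge (leaf 2 585 588) (leaf 1 616 648))))))) (merge (node 622 (merge (leaf 4 525 654) (node 650 (merge (leaf 1 618 651) (node 618 (merge (leaf 1 617 649) (node 586 (merge (leaf 3 585 585) (leaf 3 586 587))))))))) (node 622 (merge (leaf 4 525 654) (node 590 (merge (leaf 2 587 591) (node 587 (merge (leaf 3 586 586) (node 623 (merge (leaf 0 587 588) (node 656 (merge (leaf 0 620 655) (node 624 (merge (leaf 3 589 625) (leaf 0 621 657)))))))))))))))))))))))))))))) (merge (node 589 (merge (node 493 (merge (node 492 (merge (leaf 7 460 460) (node 621 (merge (leaf 7 492 524) (node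 622 (merge (leaf 4 493 590) (leaf 4 525 654))))))) (merge (node 492 (merge (leaf 7 460 460) (node 621 (merge (leaf 7 492 524) (node 620 (merge (leaf 5 492 588) (leaf 5 524 652))))))) (node 590 (merge (leaf 4 493 622) (node 588 (merge (leaf 5 492 620) (node 559 (merge (leaf 1 556 558) (leaf 2 556 591)))))))))) (merge (node 527 (merge (node 526 (merge (leaf 1 524 556) (leaf 0 525 561))) (merge (node 526 (merge (leaf 0 525 561) (node 496 (merge (leaf 2 493 497) (node 495 (merge (leaf 4 431 431) (leaf 2 492 524))))))) (node 588 (merge (node 620 (merge (leaf 5 492 493) (node 652 (merge (leaf 6 524 556) (leaf 6 556 684))))) (node 559 (merge (leaf 1 556 558) (node 591 (merge (leaf 2 556 590) (node 623 (merge (leaf 6 495 496) (leaf 6 527 655)))))))))))) (merge (node 492 (merge (node 460 (merge (leaf 7 460 493) (node 524 (merge (leaf 4 428 428) (leaf 4 460 556))))) (merge (node 621 (merge (leaf 7 492 524) (node 654 (merge (leaf 4 525 622) (node 653 (merge (leaf 4 557 686) (node 526 (merge (leaf 6 525 558) (node 527 (merge (leaf 1 524 556) (leaf 0 525 561))))))))))) (node 493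 (merge (leaf 7 460 460) (node 526 (merge (leaf 3 492 527) (node 622 (merge (leaf 4 493 590) (node 621 (merge (leaf 4 525 654) (node 558 (merge (leaf 6 525 653) (node 559 (merge (leaf 3 525 561) (leaf 1 556 588)))))))))))))))) (merge (node 492 (merge (node 460 (merge (leaf 7 460 493) (node 524 (merge (leaf 4 428 428) (leaf 4 460 556))))) (merge (node 621 (merge (leaf 7 492 524) (node 654 (merge (leaf 4 525 622) (node 653 (merge (leaf 4 557 686) (node 526 (merge (leaf 6 525 558) (node 527 (merge (leaf 1 524 556) (leaf 0 525 561))))))))))) (node 493 (merge (leaf 7 460 460) (node 526 (merge (leaf 3 492 527) (node 620 (merge (leaf 5 492 588) (node 621 (merge (leaf 5 524 652) (node 653 (merge (leaf 6 525 558) (node 654 (merge (leaf 4 525 622) (leaf 4 557 686)))))))))))))))) (merge (node 492 (merge (node 460 (merge (leaf 7 460 493) (node 524 (merge (leaf 4 428 428) (leaf 4 460 556))))) (merge (node 621 (merge (leaf 7 492 524) (node 654 (merge (leaf 4 525 622) (node 653 (merge (leaf 4 557 686) (node 526 (merge (leaf 6 525 558) (node 527 (merge (leaf 1 524 556) (leaf 0 525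 561))))))))))) (node 493 (merge (leaf 7 460 460) (node 526 (merge (leaf 3 492 527) (node 622 (merge (leaf 4 493 590) (node 621 (merge (leaf 4 525 654) (node 653 (merge (leaf 6 525 558) (node 652 (merge (leaf 5 524 620) (leaf 5 556 684)))))))))))))))) (merge (node 493 (merge (node 622 (merge (leaf 4 493 590) (node 621 (merge (leaf 4 525 654) (node 620 (merge (leaf 5 492 588) (leaf 5 524 652))))))) (merge (node 492 (merge (leaf 7 460 460) (node 526 (merge (leaf 3 492 527) (node 620 (merge (leaf 5 492 588) (node 621 (merge (leaf 5 524 652) (node 653 (merge (leaf 6 525 558) (node 654 (merge (leaf 4 525 622) (leaf 4 557 686))))))))))))) (merge (node 492 (merge (leaf 7 460 460) (node 526 (merge (leaf 3 492 527) (node 622 (merge (leaf 4 493 590) (node 621 (merge (leaf 4 525 654) (node 558 (merge (leaf 6 525 653) (node 559 (merge (leaf 3 525 561) (leaf 1 556 588))))))))))))) (merge (node 622 (merge (leaf 4 493 590) (node 621 (merge (leaf 4 525 654) (node 652 (merge (leaf 5 524 620) (node 653 (merge (leaf 5 556 684) (node 526 (merge (leaf 6 525 558) (node 527 (merge (leaf 1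 524 556) (leaf 0 525 561))))))))))))) (node 492 (merge (leaf 7 460 460) (node 527 (merge (leaf 3 492 526) (node 588 (merge (leaf 5 492 620) (node 559 (merge (leaf 1 556 558) (node 591 (merge (leaf 2 556 590) (node 623 (merge (leaf 6 495 496) (leaf 6 527 655)))))))))))))))))) (node 621 (merge (node 524 (merge (leaf 7 492 492) (node 653 (merge (leaf 7 524 556) (node 654 (merge (leaf 4 525 622) (leaf 4 557 686))))))) (merge (node 524 (merge (leaf 7 492 492) (node 653 (merge (leaf 7 524 556) (node 652 (merge (leaf 5 524 620) (leaf 5 556 684))))))) (node 620 (merge (leaf 5 524 652) (node 619 (merge (node 618 (merge (leaf 2 586 590) (node 649 (merge (leaf 1 617 650) (node 617 (merge (leaf 2 585 588) (leaf 1 616 648))))))) (merge (node 622 (merge (leaf 4 525 654) (node 650 (merge (leaf 1 618 651) (node 618 (merge (leaf 1 617 649) (node 586 (merge (leaf 3 585 585) (leaf 3 586 587))))))))) (node 622 (merge (leaf 4 525 654) (node 590 (merge (leaf 2 587 591) (node 587 (merge (leaf 3 586 586) (node 623 (merge (leaf 0 587 588) (node 656 (merge (leaf 0 620 655) (node 624 (merge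 (leaf 3 589 625) (leaf 0 621 657)))))))))))))))))))))))))))) (merge (node 493 (merge (node 461 (merge (node 430 (merge (leaf 6 429 462) (node 429 (merge (leaf 6 397 398) (node 556 (merge (leaf 5 428 524) (leaf 5 460 588))))))) (merge (node 558 (merge (leaf 4 461 590) (node 556 (merge (leaf 5 460 588) (node 527 (merge (leaf 1 524 526) (leaf 2 524 559))))))) (node 430 (merge (leaf 6 429 462) (node 429 (merge (leaf 6 397 398) (node 558 (merge (leaf 4 429 526) (leaf 4 461 590)))))))))) (merge (node 461 (merge (node 428 (merge (leaf 7 428 460) (node 429 (merge (leaf 7 396 396) (node 556 (merge (leaf 5 428 524) (leaf 5 460 588))))))) (merge (node 462 (merge (leaf 6 429 430) (node 460 (merge (leaf 7 428 428) (node 492 (merge (leaf 1 459 491) (leaf 7 460 589))))))) (node 430 (merge (leaf 6 429 462) (node 429 (merge (leaf 6 397 398) (node 556 (merge (leaf 5 428 524) (leaf 5 460 588)))))))))) (merge (node 461 (merge (node 558 (merge (leaf 4 461 590) (node 556 (merge (leaf 5 460 588) (node 527 (merge (leaf 1 524 526) (leaf 2 524 559))))))) (node 430 (merge (leaf 6 429 462) (node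 429 (merge (leaf 6 397 398) (node 428 (merge (leaf 7 396 396) (leaf 7 428 460))))))))) (merge (node 589 (merge (node 492 (merge (leaf 7 460 460) (node 621 (merge (leaf 7 492 524) (node 620 (merge (leaf 5 492 588) (leaf 5 524 652))))))) (merge (node 492 (merge (leaf 7 460 460) (node 527 (merge (leaf 3 492 526) (node 588 (merge (leaf 5 492 620) (node 559 (merge (leaf 1 556 558) (node 591 (merge (leaf 2 556 590) (node 623 (merge (leaf 6 495 496) (leaf 6 527 655))))))))))))) (merge (node 492 (merge (leaf 7 460 460) (node 621 (merge (leaf 7 492 524) (node 526 (merge (leaf 3 492 527) (node 653 (merge (leaf 6 525 558) (node 652 (merge (leaf 5 524 620) (leaf 5 556 684))))))))))) (merge (node 492 (merge (leaf 7 460 460) (node 621 (merge (leaf 7 492 524) (node 526 (merge (leaf 3 492 527) (node 558 (merge (leaf 6 525 653) (node 559 (merge (leaf 3 525 561) (leaf 1 556 588))))))))))) (node 527 (merge (node 526 (merge (leaf 1 524 556) (leaf 0 525 561))) (merge (node 526 (merge (leaf 0 525 561) (node 496 (merge (leaf 2 493 497) (node 495 (merge (leaf 4 431 431) (leaf 2 492 524)))))))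 (node 588 (merge (node 620 (merge (leaf 5 492 493) (node 652 (merge (leaf 6 524 556) (leaf 6 556 684))))) (node 559 (merge (leaf 1 556 558) (node 591 (merge (leaf 2 556 590) (node 623 (merge (leaf 6 495 496) (leaf 6 527 655))))))))))))))))) (node 461 (merge (node 430 (merge (leaf 6 429 462) (node 429 (merge (leaf 6 397 398) (node 428 (merge (leaf 7 396 396) (leaf 7 428 460))))))) (node 558 (merge (leaf 4 461 590) (node 559 (merge (leaf 3 524 524) (node 561 (merge (leaf 3 525 526) (node 594 (merge (leaf 0 558 593) (node 562 (merge (leaf 0 559 595) (node 531 (merge (leaf 2 527 530) (node 563 (merge (leaf 3 527 527) (leaf 2 528 532)))))))))))))))))))))) (merge (node 493 (merge (node 589 (merge (node 492 (merge (leaf 7 460 460) (node 621 (merge (leaf 7 492 524) (node 622 (merge (leaf 4 493 590) (leaf 4 525 654))))))) (merge (node 590 (merge (leaf 4 493 622) (node 588 (merge (leaf 5 492 620) (node 559 (merge (leaf 1 556 558) (leaf 2 556 591))))))) (node 492 (merge (leaf 7 460 460) (node 621 (merge (leaf 7 492 524) (node 620 (merge (leaf 5 492 588) (leaf 5 524 652))))))))))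 (merge (node 558 (merge (node 590 (merge (leaf 4 461 461) (node 622 (merge (leaf 4 493 589) (leaf 7 525 654))))) (node 559 (merge (leaf 3 524 524) (node 561 (merge (leaf 3 525 526) (node 594 (merge (leaf 0 558 593) (node 562 (merge (leaf 0 559 595) (node 531 (merge (leaf 2 527 530) (node 563 (merge (leaf 3 527 527) (leaf 2 528 532))))))))))))))) (merge (node 461 (merge (node 430 (merge (leaf 6 429 462) (node 429 (merge (leaf 6 397 398) (node 428 (merge (leaf 7 396 396) (leaf 7 428 460))))))) (node 558 (merge (leaf 4 461 590) (node 559 (merge (leaf 3 524 524) (node 561 (merge (leaf 3 525 526) (node 594 (merge (leaf 0 558 593) (node 562 (merge (leaf 0 559 595) (node 531 (merge (leaf 2 527 530) (node 563 (merge (leaf 3 527 527) (leaf 2 528 532))))))))))))))))) (merge (node 589 (merge (node 622 (merge (leaf 4 493 590) (node 621 (merge (leaf 4 525 654) (node 620 (merge (leaf 5 492 588) (leaf 5 524 652))))))) (node 460 (merge (leaf 7 460 492) (node 461 (merge (leaf 7 428 428) (node 462 (merge (leaf 6 429 430) (node 495 (merge (leaf 0 460 496) (node 431 (merge (leaf 2 428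 432) (leaf 4 431 527))))))))))))) (node 589 (merge (node 492 (merge (leaf 7 460 460) (node 621 (merge (leaf 7 492 524) (node 620 (merge (leaf 5 492 588) (leaf 5 524 652))))))) (merge (node 460 (merge (leaf 7 460 492) (node 461 (merge (leaf 7 428 428) (node 462 (merge (leaf 6 429 430) (node 495 (merge (leaf 0 460 496) (node 431 (merge (leaf 2 428 432) (leaf 4 431 527))))))))))) (node 620 (merge (leaf 5 492 588) (node 621 (merge (leaf 5 524 652) (node 654 (merge (leaf 4 525 622) (node 653 (merge (leaf 4 557 686) (node 526 (merge (leaf 6 525 558) (node 527 (merge (leaf 0 525 561) (node 524 (merge (leaf 0 524 559) (node 495 (merge (leaf 4 431 431) (leaf 2 492 496))))))))))))))))))))))))) (merge (hyp 0) (merge (hyp 1) (merge (node 589 (merge (node 493 (merge (node 460 (merge (leaf 7 460 492) (node 461 (merge (leaf 7 428 428) (node 590 (merge (leaf 4 461 558) (leaf 4 493 622))))))) (merge (node 590 (merge (leaf 4 493 622) (node 588 (merge (leaf 5 492 620) (node 559 (merge (leaf 1 556 558) (leaf 2 556 591))))))) (node 460 (merge (leaf 7 460 492) (node 461 (merge (leaf 7 428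 428) (node 588 (merge (leaf 5 460 556) (leaf 5 492 620)))))))))) (merge (node 493 (merge (node 460 (merge (leaf 7 460 492) (node 461 (merge (leaf 7 428 428) (node 588 (merge (leaf 5 460 556) (leaf 5 492 620))))))) (merge (node 622 (merge (leaf 4 493 590) (node 621 (merge (leaf 4 525 654) (node 620 (merge (leaf 5 492 588) (leaf 5 524 652))))))) (node 492 (merge (leaf 7 460 460) (node 621 (merge (leaf 7 492 524) (node 622 (merge (leaf 4 493 590) (leaf 4 525 654)))))))))) (merge (node 588 (merge (node 620 (merge (leaf 5 492 493) (node 652 (merge (leaf 6 524 556) (leaf 6 556 684))))) (merge (node 590 (merge (node 559 (merge (leaf 2 556 591) (node 558 (merge (leaf 1 557 561) (leaf 2 555 587))))) (merge (node 559 (merge (leaf 2 556 591) (node 558 (merge (leaf 1 556 557) (leaf 1 557 561))))) (node 587 (merge (node 622 (merge (leaf 0 587 623) (node 557 (merge (leaf 4 493 493) (node 654 (merge (leaf 4 525 621) (leaf 7 557 686))))))) (node 618 (merge (leaf 1 586 619) (node 586 (merge (leaf 1 585 617) (node 554 (merge (leaf 3 553 553) (leaf 3 554 555)))))))))))) (node 587 (merge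 (node 586 (merge (leaf 2 554 558) (node 621 (merge (leaf 0 586 622) (node 620 (merge (leaf 0 585 585) (leaf 5 524 652))))))) (merge (node 586 (merge (leaf 2 554 558) (node 618 (merge (leaf 1 585 617) (node 590 (merge (leaf 1 586 619) (node 554 (merge (leaf 3 553 553) (leaf 3 554 555))))))))) (merge (node 586 (merge (node 621 (merge (leaf 0 586 622) (node 620 (merge (leaf 0 585 585) (leaf 5 524 652))))) (node 618 (merge (leaf 1 585 617) (node 590 (merge (leaf 1 586 619) (node 554 (merge (leaf 3 553 553) (leaf 3 554 555))))))))) (node 590 (merge (node 619 (merge (leaf 1 586 618) (node 620 (merge (leaf 1 587 591) (node 652 (merge (leaf 5 524 621) (leaf 6 556 684))))))) (node 622 (merge (leaf 0 587 623) (node 654 (merge (leaf 7 525 558) (leaf 7 557 686)))))))))))))) (merge (node 493 (merge (node 460 (merge (leaf 7 460 492) (node 461 (merge (leaf 7 428 428) (node 590 (merge (leaf 4 461 558) (leaf 4 493 622))))))) (merge (node 590 (merge (leaf 4 493 622) (node 558 (merge (leaf 4 461 461) (node 559 (merge (leaf 3 524 524) (leaf 1 557 561))))))) (merge (node 492 (merge (leaf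 7 460 460) (node 621 (merge (leaf 7 492 524) (node 654 (merge (leaf 4 525 622) (node 653 (merge (leaf 4 557 686) (node 652 (merge (leaf 5 524 620) (leaf 5 556 684))))))))))) (node 492 (merge (leaf 7 460 460) (node 621 (merge (leaf 7 492 524) (node 652 (merge (leaf 5 524 620) (node 653 (merge (leaf 5 556 684) (node 558 (merge (leaf 6 525 526) (node 590 (merge (leaf 4 461 461) (leaf 6 557 685))))))))))))))))) (merge (node 493 (merge (node 460 (merge (leaf 7 460 492) (node 461 (merge (leaf 7 428 428) (node 590 (merge (leaf 4 461 558) (leaf 4 493 622))))))) (merge (node 590 (merge (leaf 4 493 622) (node 558 (merge (leaf 4 461 461) (node 559 (merge (leaf 3 524 524) (leaf 1 557 561))))))) (merge (node 492 (merge (leaf 7 460 460) (node 621 (merge (leaf 7 492 524) (node 622 (merge (leaf 4 493 590) (leaf 4 525 654))))))) (merge (node 492 (merge (leaf 7 460 460) (node 524 (merge (leaf 7 492 621) (node 558 (merge (leaf 3 524 559) (node 461 (merge (leaf 4 461 590) (node 429 (merge (leaf 5 396 397) (leaf 4 429 526))))))))))) (node 492 (merge (leaf 7 460 460) (node 621 (merge (leaf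 7 492 524) (node 654 (merge (leaf 4 525 622) (node 653 (merge (leaf 4 557 686) (node 558 (merge (leaf 6 525 526) (node 588 (merge (leaf 1 556 559) (node 685 (merge (leaf 7 556 556) (node 684 (merge (leaf 5 556 652) (leaf 5 588 716)))))))))))))))))))))) (merge (node 493 (merge (node 492 (merge (leaf 7 460 460) (node 621 (merge (leaf 7 492 524) (node 620 (merge (leaf 5 492 588) (leaf 5 524 652))))))) (merge (node 492 (merge (leaf 7 460 460) (node 524 (merge (leaf 7 492 621) (node 558 (merge (leaf 3 524 559) (node 461 (merge (leaf 4 461 590) (node 429 (merge (leaf 5 396 397) (leaf 4 429 526))))))))))) (node 588 (merge (leaf 5 492 620) (node 461 (merge (leaf 5 460 556) (node 430 (merge (leaf 6 429 462) (node 429 (merge (leaf 6 397 398) (node 558 (merge (leaf 4 429 526) (leaf 4 461 590)))))))))))))) (merge (node 493 (merge (node 588 (merge (leaf 5 492 620) (node 558 (merge (leaf 1 556 559) (node 461 (merge (leaf 5 460 556) (node 430 (merge (leaf 6 429 462) (node 429 (merge (leaf 6 397 398) (leaf 4 429 526))))))))))) (merge (node 492 (merge (leaf 7 460 460) (node 621 (merge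 (leaf 7 492 524) (node 654 (merge (leaf 4 525 622) (node 653 (merge (leaf 4 557 686) (node 652 (merge (leaf 5 524 620) (leaf 5 556 684))))))))))) (node 492 (merge (leaf 7 460 460) (node 621 (merge (leaf 7 492 524) (node 654 (merge (leaf 4 525 622) (node 653 (merge (leaf 4 557 686) (node 558 (merge (leaf 6 525 526) (node 588 (merge (leaf 1 556 559) (node 685 (merge (leaf 7 556 556) (node 684 (merge (leaf 5 556 652) (leaf 5 588 716)))))))))))))))))))) (node 621 (merge (node 524 (merge (leaf 7 492 492) (node 653 (merge (leaf 7 524 556) (node 654 (merge (leaf 4 525 622) (leaf 4 557 686))))))) (merge (node 654 (merge (leaf 4 525 622) (node 653 (merge (leaf 4 557 686) (node 652 (merge (leaf 5 524 620) (leaf 5 556 684))))))) (merge (node 524 (merge (leaf 7 492 492) (node 653 (merge (leaf 7 524 556) (node 652 (merge (leaf 5 524 620) (leaf 5 556 684))))))) (node 620 (merge (leaf 5 524 652) (node 588 (merge (node 622 (merge (leaf 4 525 654) (node 623 (merge (leaf 3 587 587) (leaf 3 588 624))))) (merge (node 524 (merge (leaf 7 492 492) (node 558 (merge (leaf 1 556 559) (node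 523 (merge (leaf 0 522 522) (node 491 (merge (leaf 7 491 556) (node 587 (merge (leaf 4 491 555) (leaf 2 554 586))))))))))) (node 524 (merge (leaf 7 492 492) (node 558 (merge (leaf 1 556 559) (node 523 (merge (leaf 0 522 522) (node 556 (merge (leaf 7 491 491) (node 619 (merge (leaf 5 523 651) (node 618 (merge (leaf 2 586 590) (leaf 2 585 617)))))))))))))))))))))))))))))) (merge (node 589 (merge (node 493 (merge (node 460 (merge (leaf 7 460 492) (node 461 (merge (leaf 7 428 428) (node 590 (merge (leaf 4 461 558) (leaf 4 493 622))))))) (merge (node 590 (merge (leaf 4 493 622) (node 588 (merge (leaf 5 492 620) (node 559 (merge (leaf 1 556 558) (leaf 2 556 591))))))) (node 460 (merge (leaf 7 460 492) (node 461 (merge (leaf 7 428 428) (node 588 (merge (leaf 5 460 556) (leaf 5 492 620)))))))))) (merge (node 493 (merge (node 492 (merge (leaf 7 460 460) (node 621 (merge (leaf 7 492 524) (node 622 (merge (leaf 4 493 590) (leaf 4 525 654))))))) (merge (node 492 (merge (leaf 7 460 460) (node 621 (merge (leaf 7 492 524) (node 620 (merge (leaf 5 492 588) (leaf 5 524 652))))))) (node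 590 (merge (leaf 4 493 622) (node 588 (merge (leaf 5 492 620) (node 559 (merge (leaf 1 556 558) (leaf 2 556 591)))))))))) (merge (node 492 (merge (node 460 (merge (leaf 7 460 493) (node 524 (merge (leaf 4 428 428) (leaf 7 492 621))))) (merge (node 621 (merge (leaf 7 492 524) (node 652 (merge (leaf 5 524 620) (node 653 (merge (leaf 5 556 684) (node 686 (merge (leaf 4 557 654) (node 685 (merge (leaf 4 589 718) (node 558 (merge (leaf 6 557 590) (node 588 (merge (leaf 7 556 556) (leaf 1 556 559))))))))))))))) (node 493 (merge (leaf 7 460 460) (node 588 (merge (leaf 5 492 620) (node 558 (merge (leaf 1 556 559) (node 461 (merge (leaf 5 460 556) (leaf 4 461 590)))))))))))) (merge (node 492 (merge (node 524 (merge (leaf 7 492 621) (node 460 (merge (leaf 4 428 428) (leaf 4 460 556))))) (merge (node 621 (merge (leaf 7 492 524) (node 622 (merge (leaf 4 525 654) (node 590 (merge (leaf 4 493 493) (node 652 (merge (leaf 5 524 620) (node 653 (merge (leaf 5 556 684) (node 685 (merge (leaf 6 557 558) (leaf 6 589 717))))))))))))) (node 493 (merge (leaf 7 460 460) (node 590 (merge (leaf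 4 493 622) (node 558 (merge (leaf 4 461 461) (node 559 (merge (leaf 1 557 561) (node 556 (merge (leaf 2 524 527) (node 555 (merge (leaf 0 554 554) (leaf 0 555 591)))))))))))))))) (merge (node 588 (merge (node 620 (merge (leaf 5 492 493) (node 652 (merge (leaf 6 524 556) (leaf 6 556 684))))) (merge (node 590 (merge (node 559 (merge (leaf 2 556 591) (node 558 (merge (leaf 1 557 561) (leaf 2 555 587))))) (merge (node 559 (merge (leaf 2 556 591) (node 558 (merge (leaf 1 556 557) (leaf 1 557 561))))) (node 587 (merge (node 622 (merge (leaf 0 587 623) (node 557 (merge (leaf 4 493 493) (node 654 (merge (leaf 4 525 621) (leaf 7 557 686))))))) (node 618 (merge (leaf 1 586 619) (node 586 (merge (leaf 1 585 617) (node 554 (merge (leaf 3 553 553) (leaf 3 554 555)))))))))))) (node 587 (merge (node 586 (merge (leaf 2 554 558) (node 621 (merge (leaf 0 586 622) (node 620 (merge (leaf 0 585 585) (leaf 5 524 652))))))) (merge (node 586 (merge (leaf 2 554 558) (node 618 (merge (leaf 1 585 617) (node 590 (merge (leaf 1 586 619) (node 554 (merge (leaf 3 553 553) (leaf 3 554 555)))))))))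 (merge (node 586 (merge (node 621 (merge (leaf 0 586 622) (node 620 (merge (leaf 0 585 585) (leaf 5 524 652))))) (node 618 (merge (leaf 1 585 617) (node 590 (merge (leaf 1 586 619) (node 554 (merge (leaf 3 553 553) (leaf 3 554 555))))))))) (node 590 (merge (node 619 (merge (leaf 1 586 618) (node 620 (merge (leaf 1 587 591) (node 652 (merge (leaf 5 524 621) (leaf 6 556 684))))))) (node 622 (merge (leaf 0 587 623) (node 654 (merge (leaf 7 525 558) (leaf 7 557 686)))))))))))))) (merge (node 621 (merge (node 524 (merge (leaf 7 492 492) (node 653 (merge (leaf 7 524 556) (node 654 (merge (leaf 4 525 622) (leaf 4 557 686))))))) (merge (node 654 (merge (leaf 4 525 622) (node 653 (merge (leaf 4 557 686) (node 652 (merge (leaf 5 524 620) (leaf 5 556 684))))))) (merge (node 524 (merge (leaf 7 492 492) (node 653 (merge (leaf 7 524 556) (node 652 (merge (leaf 5 524 620) (leaf 5 556 684))))))) (node 620 (merge (leaf 5 524 652) (node 588 (merge (node 622 (merge (leaf 4 525 654) (node 623 (merge (leaf 3 587 587) (leaf 3 588 624))))) (merge (node 524 (merge (leaf 7 492 492) (node 558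 (merge (leaf 1 556 559) (node 523 (merge (leaf 0 522 522) (node 491 (merge (leaf 7 491 556) (node 587 (merge (leaf 4 491 555) (leaf 2 554 586))))))))))) (node 524 (merge (leaf 7 492 492) (node 558 (merge (leaf 1 556 559) (node 523 (merge (leaf 0 522 522) (node 556 (merge (leaf 7 491 491) (node 619 (merge (leaf 5 523 651) (node 618 (merge (leaf 2 586 590) (leaf 2 585 617)))))))))))))))))))))) (merge (node 493 (merge (node 492 (merge (leaf 7 460 460) (node 621 (merge (leaf 7 492 524) (node 622 (merge (leaf 4 493 590) (leaf 4 525 654))))))) (merge (node 460 (merge (leaf 7 460 492) (node 461 (merge (leaf 7 428 428) (node 462 (merge (leaf 6 429 430) (node 495 (merge (leaf 0 460 496) (node 431 (merge (leaf 2 428 432) (leaf 4 431 527))))))))))) (node 590 (merge (leaf 4 493 622) (node 461 (merge (leaf 4 461 558) (node 430 (merge (leaf 6 429 462) (node 429 (merge (leaf 6 397 398) (node 556 (merge (leaf 5 428 524) (leaf 5 460 588)))))))))))))) (node 493 (merge (node 460 (merge (leaf 7 460 492) (node 461 (merge (leaf 7 428 428) (node 462 (merge (leaf 6 429 430) (node 495 (merge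 (leaf 0 460 496) (node 431 (merge (leaf 2 428 432) (leaf 4 431 527))))))))))) (merge (node 588 (merge (leaf 5 492 620) (node 461 (merge (leaf 5 460 556) (node 430 (merge (leaf 6 429 462) (node 429 (merge (leaf 6 397 398) (node 428 (merge (leaf 7 396 396) (leaf 7 428 460))))))))))) (node 620 (merge (leaf 5 492 588) (node 621 (merge (leaf 5 524 652) (node 524 (merge (leaf 7 492 492) (node 653 (merge (leaf 7 524 556) (node 654 (merge (leaf 4 525 622) (leaf 4 557 686)))))))))))))))))))))) (merge (node 589 (merge (node 621 (merge (node 492 (merge (leaf 7 492 524) (node 493 (merge (leaf 7 460 460) (node 622 (merge (leaf 4 493 590) (leaf 4 525 654))))))) (merge (node 654 (merge (leaf 4 525 622) (node 653 (merge (leaf 4 557 686) (node 652 (merge (leaf 5 524 620) (leaf 5 556 684))))))) (node 524 (merge (leaf 7 492 492) (node 653 (merge (leaf 7 524 556) (node 652 (merge (leaf 5 524 620) (leaf 5 556 684)))))))))) (merge (node 493 (merge (node 622 (merge (leaf 4 493 590) (node 621 (merge (leaf 4 525 654) (node 620 (merge (leaf 5 492 588) (leaf 5 524 652))))))) (node 460 (merge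 (leaf 7 460 492) (node 461 (merge (leaf 7 428 428) (node 462 (merge (leaf 6 429 430) (node 495 (merge (leaf 0 460 496) (node 431 (merge (leaf 2 428 432) (leaf 4 431 527))))))))))))) (merge (node 493 (merge (node 492 (merge (leaf 7 460 460) (node 621 (merge (leaf 7 492 524) (node 622 (merge (leaf 4 493 590) (leaf 4 525 654))))))) (merge (node 460 (merge (leaf 7 460 492) (node 461 (merge (leaf 7 428 428) (node 462 (merge (leaf 6 429 430) (node 495 (merge (leaf 0 460 496) (node 431 (merge (leaf 2 428 432) (leaf 4 431 527))))))))))) (node 590 (merge (leaf 4 493 622) (node 461 (merge (leaf 4 461 558) (node 430 (merge (leaf 6 429 462) (node 429 (merge (leaf 6 397 398) (node 556 (merge (leaf 5 428 524) (leaf 5 460 588)))))))))))))) (merge (node 493 (merge (node 492 (merge (leaf 7 460 460) (node 621 (merge (leaf 7 492 524) (node 620 (merge (leaf 5 492 588) (leaf 5 524 652))))))) (merge (node 588 (merge (leaf 5 492 620) (node 461 (merge (leaf 5 460 556) (node 430 (merge (leaf 6 429 462) (node 429 (merge (leaf 6 397 398) (node 558 (merge (leaf 4 429 526) (leaf 4 461 590)))))))))))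 (node 460 (merge (leaf 7 460 492) (node 461 (merge (leaf 7 428 428) (node 462 (merge (leaf 6 429 430) (node 495 (merge (leaf 0 460 496) (node 431 (merge (leaf 2 428 432) (leaf 4 431 527)))))))))))))) (merge (node 492 (merge (node 460 (merge (leaf 7 460 493) (node 524 (merge (leaf 4 428 428) (leaf 4 460 556))))) (merge (node 621 (merge (leaf 7 492 524) (node 654 (merge (leaf 4 525 622) (node 653 (merge (leaf 4 557 686) (node 526 (merge (leaf 6 525 558) (node 527 (merge (leaf 1 524 556) (leaf 0 525 561))))))))))) (node 493 (merge (leaf 7 460 460) (node 526 (merge (leaf 3 492 527) (node 620 (merge (leaf 5 492 588) (node 621 (merge (leaf 5 524 652) (node 653 (merge (leaf 6 525 558) (node 654 (merge (leaf 4 525 622) (leaf 4 557 686)))))))))))))))) (merge (node 621 (merge (node 652 (merge (leaf 5 524 620) (node 653 (merge (leaf 5 556 684) (node 526 (merge (leaf 6 525 558) (node 527 (merge (leaf 1 524 556) (leaf 0 525 561))))))))) (merge (node 654 (merge (leaf 4 525 622) (node 653 (merge (leaf 4 557 686) (node 526 (merge (leaf 6 525 558) (node 527 (merge (leaf 1 524 556)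 (leaf 0 525 561))))))))) (node 620 (merge (leaf 5 524 652) (node 619 (merge (node 618 (merge (leaf 2 586 590) (node 649 (merge (leaf 1 617 650) (node 617 (merge (leaf 2 585 588) (leaf 1 616 648))))))) (merge (node 622 (merge (leaf 4 525 654) (node 650 (merge (leaf 1 618 651) (node 618 (merge (leaf 1 617 649) (node 586 (merge (leaf 3 585 585) (leaf 3 586 587))))))))) (node 622 (merge (leaf 4 525 654) (node 590 (merge (leaf 2 587 591) (node 587 (merge (leaf 3 586 586) (node 623 (merge (leaf 0 587 588) (node 656 (merge (leaf 0 620 655) (node 624 (merge (leaf 3 589 625) (leaf 0 621 657))))))))))))))))))))) (node 588 (merge (node 493 (merge (leaf 5 492 620) (node 460 (merge (leaf 7 460 492) (node 461 (merge (leaf 7 428 428) (leaf 5 460 556))))))) (merge (node 493 (merge (leaf 5 492 620) (node 460 (merge (leaf 7 460 492) (node 461 (merge (leaf 7 428 428) (node 590 (merge (leaf 4 461 558) (leaf 4 493 622))))))))) (merge (node 587 (merge (node 586 (merge (leaf 2 554 558) (node 585 (merge (leaf 2 553 556) (node 553 (merge (leaf 3 552 552) (leaf 3 553 554))))))) (merge (node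 586 (merge (leaf 2 554 558) (node 617 (merge (leaf 1 585 618) (node 585 (merge (leaf 2 553 556) (leaf 1 584 616))))))) (merge (node 586 (merge (leaf 2 554 558) (node 618 (merge (leaf 1 585 617) (node 590 (merge (leaf 1 586 619) (node 554 (merge (leaf 3 553 553) (leaf 3 554 555))))))))) (merge (node 586 (merge (node 617 (merge (leaf 1 585 618) (node 585 (merge (leaf 2 553 556) (leaf 1 584 616))))) (merge (node 585 (merge (leaf 2 553 556) (node 553 (merge (leaf 3 552 552) (leaf 3 553 554))))) (node 618 (merge (leaf 1 585 617) (node 590 (merge (leaf 1 586 619) (node 554 (merge (leaf 3 553 553) (leaf 3 554 555)))))))))) (node 590 (merge (node 622 (merge (leaf 0 587 623) (node 654 (merge (leaf 7 525 558) (leaf 7 557 686))))) (node 619 (merge (leaf 1 586 618) (node 591 (merge (leaf 1 587 620) (node 555 (merge (leaf 3 554 554) (leaf 3 555 556)))))))))))))) (node 556 (merge (node 493 (merge (leaf 5 460 461) (node 590 (merge (leaf 4 493 622) (node 555 (merge (leaf 0 554 554) (leaf 3 555 591))))))) (merge (node 526 (merge (leaf 1 524 527) (node 493 (merge (leaf 5 460 461) (node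 492 (merge (leaf 7 460 460) (node 491 (merge (leaf 0 490 490) (node 524 (merge (leaf 7 459 459) (node 587 (merge (leaf 5 491 619) (node 586 (merge (leaf 2 554 558) (leaf 2 553 585))))))))))))))) (node 587 (merge (node 526 (merge (leaf 1 524 527) (node 554 (merge (leaf 2 522 555) (node 586 (merge (leaf 3 553 553) (leaf 2 553 585))))))) (merge (node 586 (merge (leaf 2 554 558) (node 617 (merge (leaf 1 585 618) (node 585 (merge (leaf 2 553 556) (leaf 1 584 616))))))) (node 526 (merge (leaf 1 524 527) (node 555 (merge (leaf 2 522 554) (node 590 (merge (leaf 3 555 591) (node 622 (merge (leaf 0 587 623) (node 654 (merge (leaf 7 525 558) (leaf 7 557 686)))))))))))))))))))))))))))) (merge (hyp 2) (merge (node 589 (merge (node 621 (merge (node 492 (merge (leaf 7 492 524) (node 493 (merge (leaf 7 460 460) (node 622 (merge (leaf 4 493 590) (leaf 4 525 654))))))) (merge (node 654 (merge (leaf 4 525 622) (node 653 (merge (leaf 4 557 686) (node 652 (merge (leaf 5 524 620) (leaf 5 556 684))))))) (node 524 (merge (leaf 7 492 492) (node 653 (merge (leaf 7 524 556) (node 652 (merge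 (leaf 5 524 620) (leaf 5 556 684)))))))))) (merge (node 493 (merge (node 622 (merge (leaf 4 493 590) (node 621 (merge (leaf 4 525 654) (node 620 (merge (leaf 5 492 588) (leaf 5 524 652))))))) (node 460 (merge (leaf 7 460 492) (node 461 (merge (leaf 7 428 428) (node 462 (merge (leaf 6 429 430) (node 495 (merge (leaf 0 460 496) (node 431 (merge (leaf 2 428 432) (leaf 4 431 527))))))))))))) (merge (node 493 (merge (node 492 (merge (leaf 7 460 460) (node 621 (merge (leaf 7 492 524) (node 622 (merge (leaf 4 493 590) (leaf 4 525 654))))))) (merge (node 460 (merge (leaf 7 460 492) (node 461 (merge (leaf 7 428 428) (node 462 (merge (leaf 6 429 430) (node 495 (merge (leaf 0 460 496) (node 431 (merge (leaf 2 428 432) (leaf 4 431 527))))))))))) (merge (node 622 (merge (leaf 4 493 590) (node 621 (merge (leaf 4 525 654) (node 524 (merge (leaf 7 492 492) (node 556 (merge (leaf 7 524 653) (node 461 (merge (leaf 5 428 429) (leaf 5 460 588))))))))))) (node 461 (merge (node 428 (merge (leaf 7 428 460) (node 429 (merge (leaf 7 396 396) (node 556 (merge (leaf 5 428 524) (leaf 5 460 588)))))))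 (merge (node 430 (merge (leaf 6 429 462) (node 429 (merge (leaf 6 397 398) (node 556 (merge (leaf 5 428 524) (leaf 5 460 588))))))) (merge (node 430 (merge (leaf 6 429 462) (node 429 (merge (leaf 6 397 398) (node 428 (merge (leaf 7 396 396) (leaf 7 428 460))))))) (node 462 (merge (leaf 6 429 430) (node 460 (merge (leaf 7 428 428) (node 495 (merge (leaf 0 460 496) (node 527 (merge (leaf 4 431 431) (node 556 (merge (leaf 1 524 526) (leaf 5 460 588))))))))))))))))))) (merge (node 621 (merge (node 620 (merge (leaf 5 524 652) (node 493 (merge (leaf 5 492 588) (node 460 (merge (leaf 7 460 492) (node 461 (merge (leaf 7 428 428) (node 462 (merge (leaf 6 429 430) (node 495 (merge (leaf 0 460 496) (node 431 (merge (leaf 2 428 432) (leaf 4 431 527))))))))))))))) (merge (node 652 (merge (leaf 5 524 620) (node 653 (merge (leaf 5 556 684) (node 556 (merge (leaf 7 524 524) (node 685 (merge (leaf 7 556 588) (node 686 (merge (leaf 4 557 654) (leaf 4 589 718))))))))))) (merge (node 524 (merge (leaf 7 492 492) (node 653 (merge (leaf 7 524 556) (node 686 (merge (leaf 4 557 654) (node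 685 (merge (leaf 4 589 718) (node 684 (merge (leaf 5 556 652) (leaf 5 588 716))))))))))) (node 492 (merge (leaf 7 492 524) (node 493 (merge (leaf 7 460 460) (node 527 (merge (leaf 3 492 526) (node 431 (merge (leaf 4 431 495) (node 588 (merge (leaf 5 492 620) (node 461 (merge (leaf 5 460 556) (node 430 (merge (leaf 6 429 462) (node 429 (merge (leaf 6 397 398) (node 396 (merge (leaf 7 396 428) (node 397 (merge (leaf 7 364 364) (leaf 3 396 432))))))))))))))))))))))))) (merge (node 621 (merge (node 654 (merge (leaf 4 525 622) (node 653 (merge (leaf 4 557 686) (node 652 (merge (leaf 5 524 620) (leaf 5 556 684))))))) (merge (node 622 (merge (leaf 4 525 654) (node 493 (merge (leaf 4 493 590) (node 588 (merge (leaf 5 492 620) (node 556 (merge (leaf 5 460 461) (node 653 (merge (leaf 7 524 524) (leaf 7 556 685))))))))))) (merge (node 652 (merge (leaf 5 524 620) (node 653 (merge (leaf 5 556 684) (node 556 (merge (leaf 7 524 524) (node 685 (merge (leaf 7 556 588) (node 686 (merge (leaf 4 557 654) (leaf 4 589 718))))))))))) (merge (node 654 (merge (leaf 4 525 622) (node 653 (merge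 (leaf 4 557 686) (node 556 (merge (leaf 7 524 524) (node 685 (merge (leaf 7 556 588) (node 684 (merge (leaf 5 556 652) (leaf 5 588 716))))))))))) (merge (node 652 (merge (leaf 5 524 620) (node 653 (merge (leaf 5 556 684) (node 556 (merge (leaf 7 524 524) (node 588 (merge (leaf 7 556 685) (node 493 (merge (leaf 5 460 461) (node 590 (merge (leaf 4 493 622) (node 591 (merge (leaf 3 555 555) (leaf 2 556 559))))))))))))))) (node 620 (merge (leaf 5 524 652) (node 619 (merge (node 618 (merge (leaf 2 586 590) (node 649 (merge (leaf 1 617 650) (node 617 (merge (leaf 2 585 588) (leaf 1 616 648))))))) (merge (node 622 (merge (leaf 4 525 654) (node 650 (merge (leaf 1 618 651) (node 618 (merge (leaf 1 617 649) (node 586 (merge (leaf 3 585 585) (leaf 3 586 587))))))))) (node 622 (merge (leaf 4 525 654) (node 590 (merge (leaf 2 587 591) (node 587 (merge (leaf 3 586 586) (node 623 (merge (leaf 0 587 588) (node 656 (merge (leaf 0 620 655) (node 624 (merge (leaf 3 589 625) (leaf 0 621 657)))))))))))))))))))))))) (merge (node 621 (merge (node 524 (merge (leaf 7 492 492) (node 653 (merge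 (leaf 7 524 556) (node 654 (merge (leaf 4 525 622) (leaf 4 557 686))))))) (merge (node 524 (merge (leaf 7 492 492) (node 653 (merge (leaf 7 524 556) (node 652 (merge (leaf 5 524 620) (leaf 5 556 684))))))) (node 620 (merge (leaf 5 524 652) (node 619 (merge (node 618 (merge (leaf 2 586 590) (node 649 (merge (leaf 1 617 650) (node 617 (merge (leaf 2 585 588) (leaf 1 616 648))))))) (merge (node 622 (merge (leaf 4 525 654) (node 650 (merge (leaf 1 618 651) (node 618 (merge (leaf 1 617 649) (node 586 (merge (leaf 3 585 585) (leaf 3 586 587))))))))) (node 622 (merge (leaf 4 525 654) (node 590 (merge (leaf 2 587 591) (node 587 (merge (leaf 3 586 586) (node 623 (merge (leaf 0 587 588) (node 656 (merge (leaf 0 620 655) (node 624 (merge (leaf 3 589 625) (leaf 0 621 657))))))))))))))))))))) (node 588 (merge (node 620 (merge (leaf 5 492 493) (node 652 (merge (leaf 6 524 556) (leaf 6 556 684))))) (merge (node 493 (merge (leaf 5 492 620) (node 460 (merge (leaf 7 460 492) (node 461 (merge (leaf 7 428 428) (node 462 (merge (leaf 6 429 430) (node 495 (merge (leaf 0 460 496) (node 431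 (merge (leaf 2 428 432) (leaf 4 431 527))))))))))))) (merge (node 493 (merge (node 461 (merge (leaf 5 460 556) (node 430 (merge (leaf 6 429 462) (node 429 (merge (leaf 6 397 398) (node 428 (merge (leaf 7 396 396) (leaf 7 428 460))))))))) (merge (node 460 (merge (leaf 7 460 492) (node 461 (merge (leaf 7 428 428) (node 462 (merge (leaf 6 429 430) (node 495 (merge (leaf 0 460 496) (node 431 (merge (leaf 2 428 432) (leaf 4 431 527))))))))))) (merge (node 492 (merge (leaf 7 460 460) (node 526 (merge (leaf 3 492 527) (node 490 (merge (leaf 0 490 491) (node 590 (merge (leaf 4 493 622) (node 591 (merge (leaf 2 556 559) (node 555 (merge (leaf 3 555 556) (node 587 (merge (leaf 3 554 554) (node 619 (merge (leaf 1 586 618) (node 523 (merge (leaf 7 490 522) (leaf 6 491 524))))))))))))))))))) (node 461 (merge (leaf 5 460 556) (node 430 (merge (leaf 6 429 462) (node 429 (merge (leaf 6 397 398) (node 396 (merge (leaf 7 396 428) (node 397 (merge (leaf 7 364 364) (node 431 (merge (leaf 3 396 432) (node 495 (merge (leaf 4 431 527) (node 399 (merge (leaf 4 399 496) (node 368 (merge (leaf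 6 367 400) (node 367 (merge (leaf 6 335 336) (node 366 (merge (leaf 7 334 334) (leaf 1 364 365))))))))))))))))))))))))))) (hyp 3)))))))))))) (merge (hyp 4) (hyp 5)))))))))))))) nP_299 cP_299 16 (by decide +kernel)
def nP_300 : ℕ := 0x100000001300000000000000080000000000000000000000000000000000000000000000000000000000000000000000000000000000000000000000000000000000000000000
def cP_300 : ℕ := 0xac000000fc000000fe000002df800000cf800001bf8000007f000001fe000001fc000001f8000001780000000000000000000000000000000000000000000000000000000000000000000000000000000000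
theorem lP_300 : S nP_300 cP_300 11 := S_of_chk [] trivial (node 492 (merge (node 526 (merge (node 527 (merge (leaf 3 491 491) (leaf 0 525 561))) (merge (node 527 (merge (leaf 3 492 493) (leaf 0 524 559))) (node 523 (merge (node 555 (merge (leaf 1 522 554) (node 587 (merge (leaf 6 491 619) (node 491 (merge (leaf 6 459 460) (leaf 3 490 490))))))) (merge (node 554 (merge (leaf 1 522 555) (node 522 (merge (leaf 1 521 553) (node 521 (merge (leaf 2 489 493) (node 489 (merge (leaf 3 488 488) (leaf 3 489 490))))))))) (merge (node 554 (merge (leaf 1 522 555) (node 522 (merge (leaf 1 521 553) (node 521 (merge (leaf 2 489 493) (node 520 (merge (leaf 2 488 491) (node 488 (merge (leaf 3 487 487) (leaf 3 488 489))))))))))) (node 558 (merge (leaf 0 523 559) (node 522 (merge (node 490 (merge (leaf 3 489 489) (leaf 3 490 491))) (merge (node 521 (merge (leaf 2 489 493) (node 552 (merge (leaf 1 520 553) (node 520 (merge (leaf 2 488 491) (leaf 1 519 551))))))) (node 521 (merge (leaf 2 489 493) (node 552 (merge (leaf 1 520 553) (node 520 (merge (leaf 1 519 551) (node 488 (merge (leaf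 3 487 487) (leaf 3 488 489))))))))))))))))))))) (merge (node 460 (merge (node 428 (merge (node 396 (merge (leaf 4 396 493) (node 523 (merge (leaf 5 395 491) (leaf 5 427 555))))) (merge (node 397 (merge (leaf 6 396 429) (node 396 (merge (leaf 6 364 365) (leaf 4 396 493))))) (node 429 (merge (leaf 6 396 397) (node 556 (merge (leaf 6 428 461) (node 555 (merge (leaf 5 427 523) (leaf 5 459 587)))))))))) (merge (node 428 (merge (node 397 (merge (leaf 6 396 429) (node 396 (merge (leaf 6 364 365) (leaf 4 396 493))))) (merge (node 395 (merge (leaf 7 395 427) (node 396 (merge (leaf 7 363 363) (leaf 4 396 493))))) (node 429 (merge (leaf 6 396 397) (node 427 (merge (leaf 7 395 395) (node 462 (merge (leaf 0 427 430) (leaf 3 427 461)))))))))) (merge (node 428 (merge (node 429 (merge (leaf 6 396 397) (node 556 (merge (leaf 6 428 461) (node 555 (merge (leaf 5 427 523) (leaf 5 459 587))))))) (merge (node 429 (merge (leaf 6 396 397) (node 427 (merge (leaf 7 395 395) (node 462 (merge (leaf 0 427 430) (leaf 3 427 461))))))) (node 427 (merge (leaf 7 395 395) (node 556 (merge (leaf 7 427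 459) (node 555 (merge (leaf 5 427 523) (leaf 5 459 587)))))))))) (merge (node 428 (merge (node 397 (merge (leaf 6 396 429) (node 396 (merge (leaf 6 364 365) (leaf 4 396 493))))) (node 427 (merge (leaf 7 395 395) (node 556 (merge (leaf 7 427 459) (node 555 (merge (leaf 5 427 523) (leaf 5 459 587))))))))) (merge (node 556 (merge (node 461 (merge (leaf 6 428 429) (node 588 (merge (leaf 6 460 493) (node 587 (merge (leaf 5 459 555) (leaf 5 491 619))))))) (merge (node 461 (merge (leaf 6 428 429) (node 459 (merge (leaf 7 427 427) (node 491 (merge (leaf 1 459 462) (leaf 7 459 588))))))) (merge (node 459 (merge (leaf 7 427 427) (node 588 (merge (leaf 7 459 491) (node 587 (merge (leaf 5 459 555) (leaf 5 491 619))))))) (node 461 (merge (leaf 6 428 429) (node 459 (merge (leaf 7 427 427) (node 462 (merge (leaf 1 459 491) (node 431 (merge (leaf 2 427 430) (leaf 2 428 432))))))))))))) (node 428 (merge (node 396 (merge (leaf 4 396 493) (node 365 (merge (leaf 6 364 397) (node 364 (merge (leaf 6 332 333) (node 459 (merge (leaf 5 363 491) (node 427 (merge (leaf 5 331 332) (leaf 7 427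 556))))))))))) (merge (node 396 (merge (node 395 (merge (leaf 7 363 363) (leaf 7 395 427))) (merge (node 365 (merge (leaf 6 364 397) (node 364 (merge (leaf 6 332 333) (node 459 (merge (leaf 5 363 491) (node 427 (merge (leaf 5 331 332) (leaf 7 427 556))))))))) (node 365 (merge (leaf 6 364 397) (node 364 (merge (leaf 6 332 333) (node 363 (merge (leaf 7 331 331) (leaf 7 363 395)))))))))) (merge (node 396 (merge (leaf 4 396 493) (node 365 (merge (leaf 6 364 397) (node 364 (merge (leaf 6 332 333) (node 363 (merge (leaf 7 331 331) (leaf 7 363 395))))))))) (node 427 (merge (leaf 7 395 395) (node 556 (merge (leaf 7 427 459) (node 587 (merge (leaf 5 459 555) (node 588 (merge (leaf 5 491 619) (node 493 (merge (leaf 6 460 461) (leaf 6 492 620))))))))))))))))))))) (merge (node 491 (merge (node 490 (merge (leaf 0 489 489) (node 526 (merge (leaf 3 490 523) (leaf 3 491 527))))) (merge (node 490 (merge (leaf 0 489 489) (node 522 (merge (node 521 (merge (leaf 1 489 493) (node 520 (merge (leaf 2 487 519) (leaf 2 488 523))))) (merge (node 493 (merge (leaf 1 489 521) (node 461 (merge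 (leaf 2 458 462) (node 429 (merge (leaf 5 396 397) (leaf 5 428 556))))))) (node 459 (merge (node 556 (merge (leaf 7 459 588) (node 427 (merge (leaf 7 427 460) (leaf 4 427 523))))) (merge (node 554 (merge (leaf 6 458 586) (node 427 (merge (leaf 5 394 395) (leaf 6 426 458))))) (node 554 (merge (leaf 6 458 586) (node 553 (merge (leaf 1 521 523) (node 458 (merge (leaf 5 457 585) (node 457 (merge (leaf 7 425 425) (leaf 0 456 456))))))))))))))))) (node 460 (merge (node 428 (merge (node 397 (merge (leaf 6 396 429) (node 396 (merge (leaf 6 364 365) (leaf 4 396 493))))) (merge (node 395 (merge (leaf 7 395 427) (node 396 (merge (leaf 7 363 363) (leaf 4 396 493))))) (node 429 (merge (leaf 6 396 397) (node 556 (merge (leaf 6 428 461) (node 427 (merge (leaf 7 395 395) (leaf 7 427 459)))))))))) (merge (node 428 (merge (node 397 (merge (leaf 6 396 429) (node 396 (merge (leaf 6 364 365) (leaf 4 396 493))))) (merge (node 395 (merge (leaf 7 395 427) (node 396 (merge (leaf 7 363 363) (leaf 4 396 493))))) (node 429 (merge (leaf 6 396 397) (node 427 (merge (leaf 7 395 395) (node 430 (merge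 (leaf 0 427 462) (node 459 (merge (leaf 1 426 458) (leaf 7 427 556)))))))))))) (node 462 (merge (leaf 1 459 461) (node 527 (merge (leaf 3 491 526) (node 495 (merge (leaf 4 431 431) (node 559 (merge (leaf 7 430 430) (node 590 (merge (leaf 5 462 558) (node 591 (merge (leaf 5 494 622) (node 623 (merge (leaf 6 495 496) (leaf 6 527 655))))))))))))))))))))) (merge (node 526 (merge (node 527 (merge (leaf 3 491 491) (leaf 0 525 561))) (merge (node 527 (merge (leaf 3 492 493) (leaf 0 524 559))) (node 523 (merge (node 554 (merge (leaf 1 522 555) (node 522 (merge (leaf 1 521 553) (node 521 (merge (leaf 2 489 493) (node 489 (merge (leaf 3 488 488) (leaf 3 489 490))))))))) (merge (node 554 (merge (leaf 1 522 555) (node 522 (merge (leaf 1 521 553) (node 521 (merge (leaf 2 489 493) (node 520 (merge (leaf 2 488 491) (node 488 (merge (leaf 3 487 487) (leaf 3 488 489))))))))))) (merge (node 558 (merge (leaf 0 523 559) (node 522 (merge (node 490 (merge (leaf 3 489 489) (leaf 3 490 491))) (merge (node 521 (merge (leaf 2 489 493) (node 552 (merge (leaf 1 520 553) (node 520 (merge (leaf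 2 488 491) (leaf 1 519 551))))))) (node 521 (merge (leaf 2 489 493) (node 552 (merge (leaf 1 520 553) (node 520 (merge (leaf 1 519 551) (node 488 (merge (leaf 3 487 487) (leaf 3 488 489)))))))))))))) (node 491 (merge (leaf 3 490 490) (node 459 (merge (node 556 (merge (leaf 4 427 427) (node 588 (merge (leaf 7 459 492) (leaf 7 491 620))))) (merge (node 555 (merge (leaf 1 522 554) (node 556 (merge (leaf 4 427 427) (leaf 4 459 588))))) (merge (node 555 (merge (leaf 1 522 554) (node 426 (merge (leaf 7 426 458) (node 427 (merge (leaf 7 394 394) (node 396 (merge (leaf 6 395 428) (node 395 (merge (leaf 6 363 364) (leaf 4 395 492))))))))))) (node 555 (merge (leaf 1 522 554) (node 588 (merge (leaf 4 459 556) (node 587 (merge (leaf 4 491 620) (node 619 (merge (leaf 6 491 492) (node 618 (merge (leaf 5 490 586) (leaf 5 522 650)))))))))))))))))))))))) (merge (node 460 (merge (node 428 (merge (node 429 (merge (leaf 6 396 397) (node 556 (merge (leaf 6 428 461) (node 555 (merge (leaf 5 427 523) (leaf 5 459 587))))))) (merge (node 429 (merge (leaf 6 396 397) (node 427 (merge (leaf 7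 395 395) (node 462 (merge (leaf 0 427 430) (leaf 3 427 461))))))) (node 427 (merge (leaf 7 395 395) (node 556 (merge (leaf 7 427 459) (node 555 (merge (leaf 5 427 523) (leaf 5 459 587)))))))))) (merge (node 428 (merge (node 397 (merge (leaf 6 396 429) (node 396 (merge (leaf 6 364 365) (leaf 4 396 493))))) (merge (node 395 (merge (leaf 7 395 427) (node 396 (merge (leaf 7 363 363) (leaf 4 396 493))))) (node 429 (merge (leaf 6 396 397) (node 427 (merge (leaf 7 395 395) (node 462 (merge (leaf 0 427 430) (leaf 3 427 461)))))))))) (merge (node 428 (merge (node 397 (merge (leaf 6 396 429) (node 396 (merge (leaf 6 364 365) (leaf 4 396 493))))) (node 427 (merge (leaf 7 395 395) (node 556 (merge (leaf 7 427 459) (node 555 (merge (leaf 5 427 523) (leaf 5 459 587))))))))) (merge (node 428 (merge (node 397 (merge (leaf 6 396 429) (node 396 (merge (leaf 6 364 365) (leaf 4 396 493))))) (merge (node 429 (merge (leaf 6 396 397) (node 556 (merge (leaf 6 428 461) (node 555 (merge (leaf 5 427 523) (leaf 5 459 587))))))) (merge (node 493 (merge (leaf 4 396 396) (node 555 (merge (leaf 5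 427 523) (node 556 (merge (leaf 5 459 587) (node 461 (merge (leaf 6 428 429) (leaf 6 460 588))))))))) (node 396 (merge (leaf 4 396 493) (node 365 (merge (leaf 6 364 397) (node 364 (merge (leaf 6 332 333) (node 363 (merge (leaf 7 331 331) (leaf 7 363 395))))))))))))) (merge (node 556 (merge (node 555 (merge (leaf 5 459 587) (node 526 (merge (leaf 1 523 527) (node 554 (merge (leaf 1 522 523) (leaf 2 521 553))))))) (node 427 (merge (leaf 7 427 459) (node 428 (merge (leaf 7 395 395) (node 461 (merge (leaf 3 427 462) (node 493 (merge (leaf 4 396 396) (leaf 6 460 588))))))))))) (node 556 (merge (node 555 (merge (leaf 5 459 587) (node 526 (merge (leaf 1 523 527) (node 554 (merge (leaf 1 522 523) (leaf 2 521 553))))))) (merge (node 461 (merge (leaf 6 428 429) (node 588 (merge (leaf 6 460 493) (node 621 (merge (leaf 4 492 589) (node 620 (merge (leaf 4 524 653) (node 619 (merge (leaf 5 491 587) (leaf 5 523 651))))))))))) (node 461 (merge (leaf 6 428 429) (node 493 (merge (leaf 6 460 588) (node 459 (merge (leaf 7 427 427) (node 527 (merge (leaf 3 492 526) (node 431 (merge (leaf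 4 431 495) (node 462 (merge (leaf 2 427 430) (leaf 2 428 432)))))))))))))))))))))) (merge (node 460 (merge (node 428 (merge (node 397 (merge (leaf 6 396 429) (node 396 (merge (leaf 6 364 365) (leaf 4 396 493))))) (merge (node 395 (merge (leaf 7 395 427) (node 396 (merge (leaf 7 363 363) (leaf 4 396 493))))) (node 429 (merge (leaf 6 396 397) (node 427 (merge (leaf 7 395 395) (node 462 (merge (leaf 0 427 430) (leaf 3 427 461)))))))))) (merge (node 461 (merge (node 429 (merge (leaf 6 428 556) (node 397 (merge (leaf 6 396 428) (leaf 5 396 493))))) (node 462 (merge (leaf 1 459 491) (node 495 (merge (leaf 0 460 496) (node 431 (merge (leaf 2 428 432) (leaf 4 431 527))))))))) (merge (node 428 (merge (node 397 (merge (leaf 6 396 429) (node 396 (merge (leaf 6 364 365) (leaf 4 396 493))))) (merge (node 395 (merge (leaf 7 395 427) (node 396 (merge (leaf 7 363 363) (leaf 4 396 493))))) (node 429 (merge (leaf 6 396 397) (node 427 (merge (leaf 7 395 395) (node 430 (merge (leaf 0 427 462) (node 459 (merge (leaf 1 426 458) (leaf 7 427 556)))))))))))) (merge (node 431 (merge (node 495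 (merge (leaf 4 431 527) (node 399 (merge (leaf 4 399 496) (node 368 (merge (leaf 6 367 400) (node 367 (merge (leaf 6 335 336) (node 366 (merge (leaf 7 334 334) (leaf 7 366 398))))))))))) (node 556 (merge (node 461 (merge (leaf 6 428 429) (node 462 (merge (leaf 2 428 432) (leaf 1 459 491))))) (merge (node 459 (merge (leaf 7 427 427) (node 588 (merge (leaf 7 459 491) (node 587 (merge (leaf 5 459 555) (leaf 5 491 619))))))) (node 461 (merge (leaf 6 428 429) (node 459 (merge (leaf 7 427 427) (node 462 (merge (leaf 2 427 430) (leaf 2 428 432)))))))))))) (node 428 (merge (node 396 (merge (leaf 4 396 493) (node 365 (merge (leaf 6 364 397) (node 364 (merge (leaf 6 332 333) (node 459 (merge (leaf 5 363 491) (node 427 (merge (leaf 5 331 332) (leaf 7 427 556))))))))))) (merge (node 396 (merge (node 395 (merge (leaf 7 363 363) (leaf 7 395 427))) (merge (node 365 (merge (leaf 6 364 397) (node 364 (merge (leaf 6 332 333) (node 459 (merge (leaf 5 363 491) (node 427 (merge (leaf 5 331 332) (leaf 7 427 556))))))))) (node 365 (merge (leaf 6 364 397) (node 364 (merge (leaf 6 332 333)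 (node 363 (merge (leaf 7 331 331) (leaf 7 363 395)))))))))) (merge (node 396 (merge (leaf 4 396 493) (node 365 (merge (leaf 6 364 397) (node 364 (merge (leaf 6 332 333) (node 363 (merge (leaf 7 331 331) (leaf 7 363 395))))))))) (node 427 (merge (leaf 7 395 395) (node 556 (merge (leaf 7 427 459) (node 587 (merge (leaf 5 459 555) (node 588 (merge (leaf 5 491 619) (node 493 (merge (leaf 6 460 461) (leaf 6 492 620)))))))))))))))))))) (node 460 (merge (node 428 (merge (node 429 (merge (leaf 6 396 397) (node 556 (merge (leaf 6 428 461) (node 555 (merge (leaf 5 427 523) (leaf 5 459 587))))))) (merge (node 429 (merge (leaf 6 396 397) (node 427 (merge (leaf 7 395 395) (node 462 (merge (leaf 0 427 430) (leaf 3 427 461))))))) (node 427 (merge (leaf 7 395 395) (node 556 (merge (leaf 7 427 459) (node 555 (merge (leaf 5 427 523) (leaf 5 459 587)))))))))) (merge (node 428 (merge (node 427 (merge (leaf 7 395 395) (node 556 (merge (leaf 7 427 459) (node 461 (merge (leaf 6 428 429) (leaf 3 427 462))))))) (merge (node 395 (merge (leaf 7 395 427) (node 396 (merge (leaf 7 363 363) (node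 365 (merge (leaf 6 364 397) (node 364 (merge (leaf 6 332 333) (node 491 (merge (leaf 5 363 459) (leaf 5 395 523))))))))))) (node 429 (merge (leaf 6 396 397) (node 461 (merge (leaf 6 428 556) (node 462 (merge (leaf 1 459 491) (node 495 (merge (leaf 0 460 496) (node 431 (merge (leaf 2 428 432) (leaf 4 431 527)))))))))))))) (merge (node 428 (merge (node 429 (merge (leaf 6 396 397) (node 461 (merge (leaf 6 428 556) (node 462 (merge (leaf 3 427 427) (leaf 1 459 491))))))) (merge (node 427 (merge (leaf 7 395 395) (node 461 (merge (leaf 3 427 462) (node 556 (merge (leaf 6 428 429) (node 555 (merge (leaf 5 427 523) (leaf 5 459 587))))))))) (node 523 (merge (leaf 5 427 555) (node 396 (merge (leaf 5 395 491) (node 365 (merge (leaf 6 364 397) (node 364 (merge (leaf 6 332 333) (node 363 (merge (leaf 7 331 331) (leaf 7 363 395)))))))))))))) (merge (node 428 (merge (node 429 (merge (leaf 6 396 397) (node 556 (merge (leaf 6 428 461) (node 555 (merge (leaf 5 427 523) (leaf 5 459 587))))))) (merge (node 429 (merge (leaf 6 396 397) (node 461 (merge (leaf 6 428 556) (node 462 (merge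 (leaf 1 459 491) (node 495 (merge (leaf 0 460 496) (node 431 (merge (leaf 2 428 432) (leaf 4 431 527))))))))))) (merge (node 523 (merge (leaf 5 427 555) (node 491 (merge (leaf 5 395 396) (node 461 (merge (leaf 1 459 462) (node 556 (merge (leaf 6 428 429) (node 588 (merge (leaf 7 459 459) (leaf 7 491 620))))))))))) (node 523 (merge (leaf 5 427 555) (node 396 (merge (leaf 5 395 491) (node 365 (merge (leaf 6 364 397) (node 364 (merge (leaf 6 332 333) (node 363 (merge (leaf 7 331 331) (leaf 7 363 395))))))))))))))) (merge (node 428 (merge (node 427 (merge (leaf 7 395 395) (node 556 (merge (leaf 7 427 459) (node 555 (merge (leaf 5 427 523) (leaf 5 459 587))))))) (merge (node 523 (merge (leaf 5 427 555) (node 396 (merge (leaf 5 395 491) (node 365 (merge (leaf 6 364 397) (node 364 (merge (leaf 6 332 333) (node 363 (merge (leaf 7 331 331) (leaf 7 363 395))))))))))) (merge (node 396 (merge (node 395 (merge (leaf 7 363 363) (leaf 7 395 427))) (merge (node 365 (merge (leaf 6 364 397) (node 364 (merge (leaf 6 332 333) (node 459 (merge (leaf 5 363 491) (node 427 (merge (leaf 5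 331 332) (leaf 7 427 556))))))))) (node 365 (merge (leaf 6 364 397) (node 364 (merge (leaf 6 332 333) (node 363 (merge (leaf 7 331 331) (leaf 7 363 395)))))))))) (node 556 (merge (node 555 (merge (leaf 5 427 523) (leaf 5 459 587))) (merge (node 459 (merge (leaf 7 427 427) (node 588 (merge (leaf 7 459 491) (node 621 (merge (leaf 4 492 589) (node 620 (merge (leaf 4 524 653) (node 619 (merge (leaf 5 491 587) (leaf 5 523 651))))))))))) (node 459 (merge (leaf 7 427 427) (node 491 (merge (leaf 7 459 588) (node 523 (merge (leaf 5 395 396) (leaf 6 427 555)))))))))))))) (merge (node 428 (merge (node 397 (merge (leaf 6 396 429) (node 396 (merge (leaf 6 364 365) (node 523 (merge (leaf 5 395 491) (leaf 5 427 555))))))) (merge (node 429 (merge (leaf 6 396 397) (node 427 (merge (leaf 7 395 395) (node 462 (merge (leaf 0 427 430) (leaf 3 427 461))))))) (node 427 (merge (leaf 7 395 395) (node 461 (merge (leaf 3 427 462) (node 426 (merge (leaf 0 425 425) (node 523 (merge (leaf 5 427 555) (node 491 (merge (leaf 5 395 396) (node 490 (merge (leaf 0 489 489) (node 394 (merge (leaf 4 394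 458) (leaf 7 394 459)))))))))))))))))) (node 431 (merge (node 495 (merge (leaf 4 431 527) (node 399 (merge (leaf 4 399 496) (node 368 (merge (leaf 6 367 400) (node 367 (merge (leaf 6 335 336) (node 366 (merge (leaf 7 334 334) (leaf 7 366 398))))))))))) (node 556 (merge (node 461 (merge (leaf 6 428 429) (node 462 (merge (leaf 2 428 432) (leaf 1 459 491))))) (merge (node 459 (merge (leaf 7 427 427) (node 588 (merge (leaf 7 459 491) (node 587 (merge (leaf 5 459 555) (leaf 5 491 619))))))) (node 461 (merge (leaf 6 428 429) (node 459 (merge (leaf 7 427 427) (node 462 (merge (leaf 2 427 430) (leaf 2 428 432)))))))))))))))))))))))))) nP_300 cP_300 11 (by decide +kernel)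
def nP_301 : ℕ := 0x1000000013000000000000000a0000000000000000000000000000000000000000000000000000000000000000000000000000000000000000000000000000000000000000000
def cP_301 : ℕ := 0x80000000d0000000d0000002d0000000c0000003ff0000005e0000077f000003fc000003fe000000700000005000000000000000000000000000000000000000000000000000000000000000000000000000
theorem lP_301 : S nP_301 cP_301 13 := S_of_chk [] trivial (node 462 (merge (node 460 (merge (node 495 (merge (leaf 0 460 496) (node 459 (merge (leaf 0 459 494) (node 427 (merge (leaf 3 426 426) (leaf 3 427 428))))))) (merge (node 492 (merge (leaf 1 459 491) (node 429 (merge (leaf 6 428 556) (node 428 (merge (leaf 6 396 397) (leaf 3 427 427))))))) (merge (node 495 (merge (leaf 0 460 496) (node 459 (merge (leaf 0 459 494) (node 490 (merge (leaf 1 458 491) (node 458 (merge (leaf 1 457 489) (node 426 (merge (leaf 3 425 425) (leaf 3 426 427))))))))))) (node 495 (merge (leaf 0 460 496) (node 459 (merge (leaf 0 459 494) (node 490 (merge (leaf 1 458 491) (node 458 (merge (leaf 1 457 489) (node 429 (merge (leaf 2 426 430) (node 457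 (merge (leaf 2 425 428) (node 425 (merge (leaf 3 424 424) (leaf 3 425 426))))))))))))))))))) (merge (node 527 (merge (node 526 (merge (leaf 0 525 561) (node 524 (merge (leaf 0 524 559) (node 496 (merge (leaf 2 492 495) (leaf 2 493 497))))))) (merge (node 526 (merge (leaf 0 525 561) (node 524 (merge (leaf 0 524 559) (node 492 (merge (leaf 3 491 491) (leaf 3 492 493))))))) (merge (node 526 (merge (leaf 0 525 561) (node 496 (merge (leaf 2 493 497) (node 460 (merge (leaf 0 460 495) (node 492 (merge (leaf 1 459 491) (leaf 3 492 493))))))))) (node 460 (merge (node 495 (merge (leaf 0 460 496) (node 430 (merge (leaf 7 430 559) (node 398 (merge (leaf 4 366 366) (leaf 4 398 494))))))) (node 491 (merge (leaf 1 459 492) (node 459 (merge (leaf 1 458 490) (node 427 (merge (leaf 3 426 426) (leaf 3 427 428))))))))))))) (merge (node 493 (merge (node 556 (merge (leaf 5 428 429) (node 588 (merge (leaf 6 460 492) (leaf 6 492 620))))) (merge (node 429 (merge (leaf 5 428 556) (node 526 (merge (leaf 4 429 558) (node 527 (merge (leaf 0 524 559) (leaf 0 525 561))))))) (node 527 (merge (node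 492 (merge (leaf 3 492 526) (node 491 (merge (leaf 2 458 490) (leaf 2 459 494))))) (merge (node 526 (merge (leaf 0 525 561) (node 524 (merge (leaf 0 524 559) (node 496 (merge (leaf 2 492 495) (leaf 2 493 497))))))) (node 495 (merge (node 494 (merge (leaf 0 492 492) (node 496 (merge (leaf 3 461 497) (leaf 1 492 524))))) (merge (node 494 (merge (leaf 0 492 492) (node 559 (merge (leaf 7 430 430) (leaf 7 462 591))))) (node 559 (merge (leaf 7 430 430) (node 590 (merge (leaf 5 462 558) (node 591 (merge (leaf 5 494 622) (node 623 (merge (leaf 6 495 496) (leaf 6 527 655)))))))))))))))))) (merge (node 526 (merge (node 527 (merge (leaf 0 525 561) (node 492 (merge (leaf 3 492 493) (node 491 (merge (leaf 1 459 460) (leaf 3 491 524))))))) (merge (node 527 (merge (leaf 0 525 561) (node 524 (merge (leaf 0 524 559) (node 496 (merge (leaf 2 492 495) (leaf 2 493 497))))))) (merge (node 527 (merge (leaf 0 525 561) (node 496 (merge (leaf 2 493 497) (node 460 (merge (leaf 0 460 495) (node 492 (merge (leaf 1 459 491) (leaf 3 492 493))))))))) (node 429 (merge (node 558 (merge (leaf 4 429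 493) (leaf 7 429 494))) (merge (node 493 (merge (leaf 4 429 558) (node 428 (merge (leaf 7 396 396) (node 427 (merge (leaf 0 426 426) (leaf 3 427 460))))))) (merge (node 460 (merge (node 495 (merge (leaf 0 460 496) (node 494 (merge (leaf 0 459 459) (leaf 7 429 558))))) (node 492 (merge (leaf 1 459 491) (node 524 (merge (leaf 6 428 556) (node 428 (merge (leaf 6 396 397) (leaf 3 427 427))))))))) (node 460 (merge (node 495 (merge (leaf 0 460 496) (node 459 (merge (leaf 0 459 494) (node 427 (merge (leaf 3 426 426) (leaf 3 427 428))))))) (node 492 (merge (leaf 1 459 491) (node 524 (merge (leaf 6 428 556) (node 397 (merge (leaf 5 364 365) (leaf 5 396 493))))))))))))))))) (merge (node 429 (merge (node 428 (merge (node 427 (merge (leaf 0 427 430) (leaf 3 427 460))) (node 493 (merge (leaf 7 396 396) (node 526 (merge (leaf 4 429 558) (node 527 (merge (leaf 0 525 561) (node 524 (merge (leaf 5 428 556) (leaf 0 524 559))))))))))) (merge (node 493 (merge (node 526 (merge (leaf 4 429 558) (node 527 (merge (leaf 3 492 492) (leaf 0 525 561))))) (merge (node 398 (merge (leaf 6 397 430)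 (node 397 (merge (leaf 6 365 366) (node 524 (merge (leaf 5 396 492) (leaf 5 428 556))))))) (node 526 (merge (leaf 4 429 558) (node 527 (merge (leaf 0 525 561) (node 524 (merge (leaf 5 428 556) (leaf 0 524 559)))))))))) (merge (node 493 (merge (node 526 (merge (leaf 4 429 558) (node 527 (merge (leaf 3 492 492) (leaf 0 525 561))))) (node 398 (merge (leaf 6 397 430) (node 397 (merge (leaf 6 365 366) (node 396 (merge (leaf 7 364 364) (leaf 7 396 428))))))))) (merge (node 493 (merge (node 428 (merge (leaf 7 396 396) (node 427 (merge (leaf 0 426 426) (leaf 3 427 460))))) (merge (node 524 (merge (leaf 5 428 556) (node 492 (merge (leaf 5 396 397) (node 491 (merge (leaf 1 459 460) (leaf 2 458 490))))))) (node 396 (merge (leaf 7 396 428) (node 397 (merge (leaf 7 364 364) (node 524 (merge (leaf 5 396 492) (leaf 5 428 556)))))))))) (node 460 (merge (node 492 (merge (leaf 1 459 491) (node 524 (merge (leaf 6 428 556) (node 397 (merge (leaf 5 364 365) (leaf 6 396 428))))))) (merge (node 459 (merge (node 427 (merge (leaf 3 426 426) (leaf 3 427 428))) (merge (node 458 (merge (leaf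 2 426 430) (node 489 (merge (leaf 1 457 490) (node 457 (merge (leaf 2 425 428) (leaf 1 456 488))))))) (node 458 (merge (leaf 2 426 430) (node 426 (merge (leaf 3 425 425) (leaf 3 426 427)))))))) (node 491 (merge (leaf 1 459 492) (node 459 (merge (leaf 1 458 490) (node 458 (merge (leaf 2 426 430) (node 426 (merge (leaf 3 425 425) (leaf 3 426 427))))))))))))))))) (node 526 (merge (node 527 (merge (leaf 0 524 559) (leaf 0 525 561))) (node 429 (merge (node 558 (merge (leaf 4 429 493) (leaf 7 429 494))) (merge (node 494 (merge (leaf 7 429 558) (node 397 (merge (leaf 4 365 365) (leaf 7 397 430))))) (merge (node 493 (merge (leaf 4 429 558) (node 430 (merge (leaf 6 397 398) (node 428 (merge (leaf 7 396 396) (leaf 0 427 427))))))) (node 397 (merge (node 494 (merge (leaf 4 365 365) (node 526 (merge (leaf 7 397 430) (leaf 4 397 493))))) (merge (node 365 (merge (leaf 4 365 494) (node 334 (merge (leaf 6 333 366) (node 333 (merge (leaf 6 301 302) (node 332 (merge (leaf 7 300 300) (leaf 7 332 364))))))))) (merge (node 365 (merge (node 334 (merge (leaf 6 333 366) (node 333 (merge (leaf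 6 301 302) (leaf 4 333 430))))) (merge (node 332 (merge (leaf 7 332 364) (node 333 (merge (leaf 7 300 300) (leaf 4 333 430))))) (node 366 (merge (leaf 6 333 334) (node 493 (merge (leaf 6 365 398) (node 364 (merge (leaf 7 332 332) (leaf 7 364 396)))))))))) (node 398 (merge (node 493 (merge (leaf 6 365 366) (leaf 4 397 494))) (merge (node 399 (merge (node 428 (merge (leaf 1 396 400) (node 427 (merge (leaf 1 395 396) (leaf 2 394 426))))) (merge (node 400 (merge (leaf 1 396 428) (node 433 (merge (leaf 0 397 432) (node 401 (merge (leaf 1 397 430) (leaf 0 398 434))))))) (merge (node 493 (merge (leaf 4 397 494) (node 396 (merge (leaf 7 364 364) (node 368 (merge (leaf 2 364 367) (node 400 (merge (leaf 2 365 369) (node 433 (merge (leaf 0 397 432) (node 401 (merge (leaf 1 397 430) (leaf 0 398 434))))))))))))) (node 493 (merge (leaf 4 397 494) (node 396 (merge (leaf 7 364 364) (node 427 (merge (leaf 1 395 428) (node 395 (merge (leaf 1 394 426) (node 394 (merge (leaf 0 394 430) (node 362 (merge (leaf 3 361 361) (leaf 3 362 363))))))))))))))))) (node 396 (merge (node 366 (merge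 (node 334 (merge (leaf 5 301 302) (leaf 5 333 430))) (node 367 (merge (leaf 2 363 395) (node 368 (merge (leaf 1 365 369) (leaf 2 364 399))))))) (merge (node 364 (merge (node 332 (merge (leaf 4 300 300) (leaf 4 332 428))) (node 363 (merge (leaf 3 363 399) (node 362 (merge (leaf 0 361 361) (leaf 3 362 395))))))) (merge (node 366 (merge (node 334 (merge (leaf 5 301 302) (leaf 5 333 430))) (node 395 (merge (leaf 2 363 367) (node 426 (merge (leaf 1 394 427) (node 394 (merge (leaf 1 393 425) (node 362 (merge (leaf 3 361 361) (leaf 3 362 363))))))))))) (node 364 (merge (node 332 (merge (leaf 4 300 300) (leaf 4 332 428))) (node 399 (merge (leaf 3 363 363) (node 368 (merge (leaf 2 364 367) (node 400 (merge (leaf 2 365 369) (node 433 (merge (leaf 0 397 432) (node 401 (merge (leaf 1 397 430) (leaf 0 398 434)))))))))))))))))))))))))))))))))))) nP_301 cP_301 13 (by decide +kernel)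
def nP_302 : ℕ := 0x100000001300000000000000080000000000000000000000000000000000000000000000000000000000000000000000000000000000000000000000000000000000000000000
def cP_302 : ℕ := 0xa8000000f8000000f8000002dc000000c6000007ff0000007e000007ff000003fc000003fe000001f80000017000000000000000000000000000000000000000000000000000000000000000000000000000
theorem lP_302 : S nP_302 cP_302 14 := S_of_chk [(nP_258, cP_258, 13), (nP_301, cP_301, 13), (nP_259, cP_259, 10)] ⟨lP_258, lP_301, lP_259, trivial⟩ (node 461 (merge (node 493 (merge (node 556 (merge (leaf 5 428 429) (node 588 (merge (leaf 6 460 492) (leaf 6 492 620))))) (merge (node 429 (merge (leaf 5 428 556) (node 526 (merge (leaf 4 429 558) (node 527 (merge (leaf 0 524 559) (leaf 0 525 561))))))) (node 527 (merge (node 526 (merge (leaf 3 492 492) (leaf 0 525 561))) (merge (node 495 (merge (leaf 4 431 431) (node 494 (merge (leaf 0 492 492) (leaf 1 492 496))))) (node 526 (merge (leaf 0 525 561) (node 495 (merge (leaf 4 431 431) (leaf 2 492 496))))))))))) (merge (node 431 (merge (node 527 (merge (leaf 4 431 495) (node 526 (merge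 (leaf 0 524 559) (leaf 0 525 561))))) (node 429 (merge (node 493 (merge (leaf 5 428 556) (node 396 (merge (leaf 7 396 428) (node 397 (merge (leaf 7 364 364) (leaf 5 396 492))))))) (merge (node 493 (merge (leaf 5 428 556) (node 398 (merge (leaf 6 397 430) (node 397 (merge (leaf 6 365 366) (leaf 5 396 492))))))) (merge (node 493 (merge (leaf 5 428 556) (node 430 (merge (leaf 6 397 398) (node 428 (merge (leaf 7 396 396) (node 460 (merge (leaf 1 428 432) (leaf 1 427 459))))))))) (merge (node 430 (merge (node 460 (merge (leaf 1 428 432) (node 459 (merge (leaf 1 427 428) (leaf 2 426 458))))) (merge (node 493 (merge (leaf 6 397 398) (node 396 (merge (leaf 7 396 428) (node 397 (merge (leaf 7 364 364) (leaf 5 396 492))))))) (node 493 (merge (leaf 6 397 398) (node 432 (merge (leaf 1 428 460) (node 397 (merge (leaf 3 396 396) (leaf 5 396 492)))))))))) (node 460 (merge (node 432 (merge (leaf 1 428 430) (leaf 2 428 462))) (node 492 (merge (leaf 6 428 556) (node 397 (merge (leaf 5 364 365) (leaf 6 396 428)))))))))))))) (merge (node 431 (merge (node 495 (merge (leaf 4 431 527) (node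 496 (merge (leaf 4 399 399) (node 462 (merge (leaf 0 460 460) (node 497 (merge (leaf 3 461 494) (leaf 3 462 498))))))))) (merge (node 495 (merge (leaf 4 431 527) (node 496 (merge (leaf 4 399 399) (node 493 (merge (leaf 1 492 494) (node 556 (merge (leaf 5 428 429) (node 588 (merge (leaf 6 460 492) (leaf 6 492 620))))))))))) (node 429 (merge (node 493 (merge (leaf 5 428 556) (node 396 (merge (leaf 7 396 428) (node 397 (merge (leaf 7 364 364) (leaf 5 396 492))))))) (merge (node 493 (merge (leaf 5 428 556) (node 398 (merge (leaf 6 397 430) (node 397 (merge (leaf 6 365 366) (leaf 5 396 492))))))) (merge (node 493 (merge (leaf 5 428 556) (node 430 (merge (leaf 6 397 398) (node 428 (merge (leaf 7 396 396) (node 460 (merge (leaf 1 428 432) (leaf 1 427 459))))))))) (merge (node 430 (merge (node 460 (merge (leaf 1 428 432) (node 459 (merge (leaf 1 427 428) (leaf 2 426 458))))) (merge (node 493 (merge (leaf 6 397 398) (node 396 (merge (leaf 7 396 428) (node 397 (merge (leaf 7 364 364) (leaf 5 396 492))))))) (node 493 (merge (leaf 6 397 398) (node 432 (merge (leaf 1 428 460) (node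 397 (merge (leaf 3 396 396) (leaf 5 396 492)))))))))) (node 460 (merge (node 432 (merge (leaf 1 428 430) (leaf 2 428 462))) (node 492 (merge (leaf 6 428 556) (node 397 (merge (leaf 5 364 365) (leaf 6 396 428))))))))))))))) (merge (node 493 (merge (node 429 (merge (leaf 5 428 556) (node 526 (merge (leaf 4 429 558) (node 527 (merge (leaf 0 524 559) (leaf 0 525 561))))))) (merge (node 429 (merge (leaf 5 428 556) (node 398 (merge (leaf 6 397 430) (node 397 (merge (leaf 6 365 366) (node 396 (merge (leaf 7 364 364) (leaf 7 396 428))))))))) (node 527 (merge (node 526 (merge (leaf 0 524 559) (leaf 0 525 561))) (merge (node 526 (merge (leaf 0 525 561) (node 495 (merge (leaf 4 431 431) (leaf 2 492 496))))) (node 495 (merge (leaf 4 431 431) (node 496 (merge (leaf 1 492 494) (node 462 (merge (leaf 0 460 460) (node 559 (merge (leaf 7 430 430) (node 591 (merge (leaf 6 495 623) (node 590 (merge (leaf 5 462 558) (leaf 5 494 622))))))))))))))))))) (merge (node 462 (merge (node 431 (merge (node 432 (merge (leaf 2 428 460) (node 433 (merge (leaf 1 429 430) (leaf 1 430 434))))) (node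 527 (merge (leaf 4 431 495) (node 526 (merge (leaf 0 524 559) (leaf 0 525 561))))))) (merge (node 495 (merge (node 496 (merge (leaf 0 460 460) (node 494 (merge (leaf 1 492 493) (leaf 3 461 497))))) (node 527 (merge (leaf 4 431 431) (node 526 (merge (leaf 0 524 559) (leaf 0 525 561))))))) (merge (node 460 (merge (node 495 (merge (leaf 0 460 496) (node 431 (merge (leaf 2 428 432) (leaf 4 431 527))))) (merge (node 495 (merge (leaf 0 460 496) (node 459 (merge (leaf 0 459 494) (node 427 (merge (leaf 3 426 426) (leaf 3 427 428))))))) (node 431 (merge (leaf 2 428 432) (node 459 (merge (leaf 2 427 430) (node 427 (merge (leaf 3 426 426) (leaf 3 427 428)))))))))) (merge (node 527 (merge (node 526 (merge (leaf 0 524 559) (node 492 (merge (leaf 3 491 491) (leaf 3 492 493))))) (merge (node 495 (merge (leaf 4 431 431) (node 526 (merge (leaf 2 492 496) (node 492 (merge (leaf 3 491 491) (leaf 3 492 493))))))) (node 495 (merge (leaf 4 431 431) (node 430 (merge (leaf 7 430 559) (node 398 (merge (leaf 4 366 366) (leaf 4 398 494)))))))))) (merge (node 527 (merge (node 526 (merge (leaf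 0 525 561) (node 524 (merge (leaf 0 524 559) (node 496 (merge (leaf 2 492 495) (leaf 2 493 497))))))) (merge (node 526 (merge (leaf 0 525 561) (node 524 (merge (leaf 0 524 559) (node 492 (merge (leaf 3 491 491) (leaf 3 492 493))))))) (merge (node 526 (merge (leaf 0 525 561) (node 496 (merge (leaf 2 493 497) (node 460 (merge (leaf 0 460 495) (node 492 (merge (leaf 1 459 491) (leaf 3 492 493))))))))) (node 460 (merge (node 495 (merge (leaf 0 460 496) (node 430 (merge (leaf 7 430 559) (node 398 (merge (leaf 4 366 366) (leaf 4 398 494))))))) (node 491 (merge (leaf 1 459 492) (node 459 (merge (leaf 1 458 490) (node 427 (merge (leaf 3 426 426) (leaf 3 427 428))))))))))))) (merge (node 431 (merge (node 432 (merge (leaf 2 428 460) (node 433 (merge (leaf 1 429 430) (leaf 1 430 434))))) (merge (node 460 (merge (leaf 2 428 432) (node 491 (merge (leaf 1 459 492) (node 459 (merge (leaf 1 458 490) (node 427 (merge (leaf 3 426 426) (leaf 3 427 428))))))))) (node 526 (merge (node 494 (merge (leaf 6 430 558) (node 399 (merge (leaf 5 366 367) (leaf 6 398 430))))) (node 527 (merge (leaf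 0 525 561) (node 524 (merge (leaf 0 524 559) (node 492 (merge (leaf 3 491 491) (leaf 3 492 493)))))))))))) (node 431 (merge (node 460 (merge (leaf 2 428 432) (node 491 (merge (leaf 1 459 492) (node 459 (merge (leaf 1 458 490) (node 427 (merge (leaf 3 426 426) (leaf 3 427 428))))))))) (merge (node 399 (merge (node 494 (merge (leaf 5 366 367) (node 526 (merge (leaf 6 398 430) (leaf 6 430 558))))) (merge (node 494 (merge (leaf 5 366 367) (node 495 (merge (leaf 4 399 496) (leaf 5 398 526))))) (merge (node 495 (merge (leaf 4 399 496) (node 366 (merge (leaf 7 366 398) (node 367 (merge (leaf 7 334 334) (node 336 (merge (leaf 6 335 368) (node 335 (merge (leaf 6 303 304) (leaf 5 334 430))))))))))) (node 495 (merge (leaf 4 399 496) (node 398 (merge (leaf 7 366 366) (node 494 (merge (leaf 5 398 526) (node 460 (merge (leaf 0 459 459) (node 492 (merge (leaf 1 459 491) (node 428 (merge (leaf 3 427 427) (node 493 (merge (leaf 4 396 396) (leaf 5 397 430))))))))))))))))))) (node 399 (merge (node 494 (merge (leaf 5 366 367) (node 526 (merge (leaf 6 398 430) (leaf 6 430 558))))) (merge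 (node 495 (merge (leaf 4 399 496) (node 368 (merge (leaf 6 367 400) (node 367 (merge (leaf 6 335 336) (node 366 (merge (leaf 7 334 334) (leaf 7 366 398))))))))) (node 494 (merge (node 526 (merge (leaf 6 398 430) (leaf 6 430 558))) (merge (node 526 (merge (leaf 6 430 558) (node 495 (merge (leaf 5 398 399) (node 496 (merge (leaf 1 492 493) (leaf 1 493 497))))))) (node 495 (merge (leaf 4 399 496) (node 398 (merge (leaf 7 366 366) (node 430 (merge (leaf 5 397 493) (node 397 (merge (leaf 7 365 365) (node 396 (merge (leaf 0 395 395) (leaf 0 396 432))))))))))))))))))))))))))) (merge (node 431 (merge (node 527 (merge (leaf 4 431 495) (node 526 (merge (leaf 0 524 559) (leaf 0 525 561))))) (merge (node 495 (merge (leaf 4 431 527) (node 399 (merge (leaf 4 399 496) (node 368 (merge (leaf 6 367 400) (node 367 (merge (leaf 6 335 336) (node 366 (merge (leaf 7 334 334) (leaf 7 366 398))))))))))) (merge (node 462 (merge (node 526 (merge (node 527 (merge (leaf 0 524 559) (leaf 0 525 561))) (node 494 (merge (leaf 6 430 558) (node 399 (merge (leaf 5 366 367) (leaf 6 398 430))))))) (node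 460 (merge (leaf 2 428 432) (node 491 (merge (leaf 1 459 492) (node 459 (merge (leaf 1 458 490) (node 427 (merge (leaf 3 426 426) (leaf 3 427 428))))))))))) (node 399 (merge (node 495 (merge (leaf 4 399 496) (node 368 (merge (leaf 6 367 400) (node 367 (merge (leaf 6 335 336) (node 366 (merge (leaf 7 334 334) (leaf 7 366 398))))))))) (merge (node 495 (merge (leaf 4 399 496) (node 368 (merge (leaf 6 367 400) (node 367 (merge (leaf 6 335 336) (node 494 (merge (leaf 5 366 462) (leaf 5 398 526))))))))) (merge (node 462 (merge (node 432 (merge (leaf 2 428 460) (node 433 (merge (leaf 1 429 430) (leaf 1 430 434))))) (node 367 (merge (leaf 5 366 494) (node 336 (merge (leaf 6 335 368) (node 335 (merge (leaf 6 303 304) (node 334 (merge (leaf 7 302 302) (leaf 7 334 366))))))))))) (node 432 (merge (node 462 (merge (leaf 2 428 460) (node 433 (merge (leaf 1 429 430) (leaf 1 430 434))))) (merge (node 495 (merge (leaf 4 399 496) (node 398 (merge (leaf 7 366 366) (node 397 (merge (leaf 0 396 396) (node 433 (merge (leaf 0 397 400) (leaf 3 398 434))))))))) (node 460 (merge (leaf 2 428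 462) (node 429 (merge (leaf 1 428 430) (node 492 (merge (leaf 6 428 556) (node 397 (merge (leaf 5 364 365) (leaf 6 396 428)))))))))))))))))))) (merge (hyp 0) (merge (hyp 1) (hyp 2)))))))))) nP_302 cP_302 14 (by decide +kernel)
def nP_303 : ℕ := 0x3000000000000000a0000000000000000000000000000000000000000000000000000000000000000000000000000000000000000000000000000000000000000000
def cP_303 : ℕ := 0x1000000010000000180000000e0000007f0000005e000007ff000007fe000007f8000001f0000001d000000000000000000000000000000000000000000000000000000000000000000000000000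
theorem lP_303 : S nP_303 cP_303 11 := S_of_chk [] trivial (node 429 (merge (node 493 (merge (leaf 5 428 556) (node 396 (merge (leaf 7 396 428) (node 397 (merge (leaf 7 364 364) (leaf 5 396 492))))))) (merge (node 493 (merge (leaf 5 428 556) (node 398 (merge (leaf 6 397 430) (node 397 (merge (leaf 6 365 366) (leaf 5 396 492))))))) (merge (node 493 (merge (leaf 5 428 556) (node 398 (merge (leaf 6 397 430) (node 397 (merge (leaf 6 365 366) (node 396 (merge (leaf 7 364 364) (leaf 7 396 428))))))))) (merge (node 460 (merge (node 556 (merge (leaf 6 428 492) (leaf 5 428 493))) (merge (node 493 (merge (leaf 5 428 556) (node 430 (merge (leaf 6 397 398) (node 431 (merge (leaf 1 428 432) (node 459 (merge (leaf 2 426 458) (leaf 2 427 462))))))))) (merge (node 430 (merge (node 431 (merge (leaf 1 428 432) (node 459 (merge (leaf 2 426 458) (leaf 2 427 462))))) (merge (node 431 (merge (leaf 1 428 432) (node 459 (merge (leaf 1 427 428) (leaf 2 426 458))))) (node 493 (merge (leaf 6 397 398) (node 428 (merge (leaf 7 396 396) (node 427 (merge (leaf 0 427 462) (node 395 (merge (leaf 3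 394 394) (leaf 7 395 492)))))))))))) (node 459 (merge (node 458 (merge (leaf 2 426 430) (node 489 (merge (leaf 1 457 490) (node 457 (merge (leaf 2 425 428) (leaf 1 456 488))))))) (merge (node 458 (merge (leaf 2 426 430) (node 489 (merge (leaf 1 457 490) (node 457 (merge (leaf 1 456 488) (node 425 (merge (leaf 3 424 424) (leaf 3 425 426))))))))) (node 427 (merge (node 492 (merge (leaf 6 428 556) (node 395 (merge (leaf 4 363 363) (leaf 4 395 491))))) (node 426 (merge (leaf 3 426 462) (node 425 (merge (leaf 0 424 424) (leaf 0 425 428)))))))))))))) (merge (node 460 (merge (node 492 (merge (leaf 6 428 556) (node 397 (merge (leaf 5 364 365) (leaf 6 396 428))))) (merge (node 459 (merge (node 430 (merge (leaf 2 426 458) (node 431 (merge (leaf 1 428 432) (leaf 2 427 462))))) (merge (node 458 (merge (leaf 2 426 430) (node 489 (merge (leaf 1 457 490) (node 457 (merge (leaf 2 425 428) (leaf 1 456 488))))))) (merge (node 462 (merge (node 431 (merge (leaf 2 427 430) (leaf 2 428 432))) (node 427 (merge (leaf 3 426 426) (leaf 3 427 428))))) (node 462 (merge (node 427 (merge (leaf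 3 426 426) (leaf 3 427 428))) (merge (node 490 (merge (leaf 1 458 491) (node 458 (merge (leaf 1 457 489) (node 426 (merge (leaf 3 425 425) (leaf 3 426 427))))))) (merge (node 490 (merge (leaf 1 458 491) (node 458 (merge (leaf 1 457 489) (node 428 (merge (leaf 3 427 427) (leaf 2 425 457))))))) (node 490 (merge (leaf 1 458 491) (node 458 (merge (leaf 1 457 489) (node 457 (merge (leaf 2 425 428) (node 425 (merge (leaf 3 424 424) (leaf 3 425 426))))))))))))))))) (node 459 (merge (node 430 (merge (leaf 2 426 458) (node 431 (merge (leaf 1 428 432) (leaf 2 427 462))))) (merge (node 458 (merge (leaf 2 426 430) (node 489 (merge (leaf 1 457 490) (node 457 (merge (leaf 1 456 488) (node 425 (merge (leaf 3 424 424) (leaf 3 425 426))))))))) (merge (node 492 (merge (leaf 6 428 556) (node 462 (merge (leaf 1 459 491) (node 431 (merge (leaf 2 427 430) (leaf 2 428 432))))))) (node 491 (merge (node 490 (merge (leaf 1 458 462) (node 489 (merge (leaf 1 457 458) (leaf 2 456 488))))) (node 556 (merge (leaf 6 428 492) (node 523 (merge (leaf 4 427 427) (node 588 (merge (leaf 4 459 555) (leaf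 7 491 620)))))))))))))))) (node 431 (merge (node 430 (merge (node 460 (merge (leaf 1 428 432) (node 459 (merge (leaf 1 427 428) (leaf 2 426 458))))) (merge (node 493 (merge (leaf 6 397 398) (node 396 (merge (leaf 7 396 428) (node 397 (merge (leaf 7 364 364) (leaf 5 396 492))))))) (node 493 (merge (leaf 6 397 398) (node 432 (merge (leaf 1 428 460) (node 397 (merge (leaf 3 396 396) (leaf 5 396 492)))))))))) (merge (node 460 (merge (node 432 (merge (leaf 1 428 430) (leaf 2 428 462))) (merge (node 430 (merge (leaf 1 428 432) (node 459 (merge (leaf 1 427 428) (leaf 2 426 458))))) (merge (node 462 (merge (leaf 2 428 432) (node 491 (merge (leaf 1 459 492) (node 459 (merge (leaf 1 458 490) (node 427 (merge (leaf 3 426 426) (leaf 3 427 428))))))))) (node 462 (merge (node 491 (merge (leaf 1 459 492) (node 459 (merge (leaf 2 427 430) (leaf 1 458 490))))) (merge (node 459 (merge (leaf 2 427 430) (node 427 (merge (leaf 3 426 426) (leaf 3 427 428))))) (node 492 (merge (leaf 1 459 491) (node 428 (merge (leaf 6 396 397) (leaf 3 427 427)))))))))))) (merge (node 430 (merge (node 460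 (merge (leaf 1 428 432) (node 459 (merge (leaf 1 427 428) (leaf 2 426 458))))) (merge (node 432 (merge (leaf 1 428 460) (node 433 (merge (leaf 1 429 462) (node 401 (merge (leaf 2 397 400) (leaf 2 398 402))))))) (node 493 (merge (leaf 6 397 398) (node 428 (merge (leaf 7 396 396) (node 427 (merge (leaf 0 427 462) (node 458 (merge (leaf 1 426 459) (node 426 (merge (leaf 1 425 457) (node 394 (merge (leaf 3 393 393) (leaf 3 394 395)))))))))))))))) (merge (node 493 (merge (node 430 (merge (leaf 6 397 398) (node 460 (merge (leaf 1 428 432) (node 459 (merge (leaf 2 426 458) (leaf 2 427 462))))))) (merge (node 397 (merge (leaf 5 396 492) (node 366 (merge (leaf 6 365 398) (node 365 (merge (leaf 6 333 334) (node 364 (merge (leaf 7 332 332) (leaf 7 364 396))))))))) (node 397 (merge (leaf 5 396 492) (node 364 (merge (leaf 7 364 396) (node 365 (merge (leaf 7 332 332) (node 334 (merge (leaf 6 333 366) (node 333 (merge (leaf 6 301 302) (node 462 (merge (leaf 4 333 430) (leaf 4 365 494)))))))))))))))) (merge (node 397 (merge (node 492 (merge (leaf 5 396 493) (node 460 (merge (leaf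 5 364 365) (leaf 6 396 428))))) (merge (node 493 (merge (leaf 5 396 492) (node 396 (merge (leaf 7 364 364) (leaf 7 396 428))))) (merge (node 493 (merge (leaf 5 396 492) (node 366 (merge (leaf 6 365 398) (node 365 (merge (leaf 6 333 334) (node 364 (merge (leaf 7 332 332) (leaf 7 364 396))))))))) (merge (node 493 (merge (node 396 (merge (leaf 7 364 364) (leaf 7 396 428))) (merge (node 366 (merge (leaf 6 365 398) (node 365 (merge (leaf 6 333 334) (node 462 (merge (leaf 4 365 494) (node 460 (merge (leaf 2 428 432) (node 428 (merge (leaf 5 332 333) (leaf 3 427 427))))))))))) (node 366 (merge (leaf 6 365 398) (node 365 (merge (leaf 6 333 334) (node 364 (merge (leaf 7 332 332) (leaf 7 364 396)))))))))) (node 460 (merge (node 492 (merge (leaf 5 364 365) (leaf 6 396 428))) (merge (node 492 (merge (leaf 6 396 428) (node 462 (merge (leaf 2 428 432) (leaf 1 459 491))))) (node 462 (merge (leaf 2 428 432) (node 365 (merge (leaf 4 365 494) (node 334 (merge (leaf 6 333 366) (node 333 (merge (leaf 6 301 302) (node 332 (merge (leaf 7 300 300) (leaf 7 332 364))))))))))))))))))) (merge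 (node 428 (merge (node 493 (merge (leaf 7 396 396) (node 398 (merge (leaf 6 397 430) (node 397 (merge (leaf 6 365 366) (leaf 5 396 492))))))) (merge (node 430 (merge (node 427 (merge (leaf 0 427 462) (node 459 (merge (leaf 1 426 458) (leaf 1 427 460))))) (merge (node 427 (merge (leaf 0 427 462) (node 395 (merge (leaf 3 394 394) (leaf 3 395 396))))) (node 460 (merge (leaf 1 427 459) (node 396 (merge (leaf 3 395 395) (node 493 (merge (leaf 7 396 461) (leaf 4 396 492)))))))))) (merge (node 493 (merge (leaf 7 396 396) (node 430 (merge (leaf 6 397 398) (node 427 (merge (leaf 0 427 462) (node 458 (merge (leaf 1 426 459) (node 426 (merge (leaf 1 425 457) (node 394 (merge (leaf 3 393 393) (leaf 3 394 395))))))))))))) (merge (node 430 (merge (node 427 (merge (leaf 0 427 462) (node 399 (merge (leaf 2 395 398) (leaf 2 396 400))))) (merge (node 459 (merge (leaf 1 427 460) (node 427 (merge (leaf 1 426 458) (node 399 (merge (leaf 2 395 398) (leaf 2 396 400))))))) (node 460 (merge (leaf 1 427 459) (node 492 (merge (leaf 6 396 397) (node 491 (merge (leaf 1 459 462) (node 396 (merge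 (leaf 3 395 395) (leaf 5 395 523)))))))))))) (merge (node 493 (merge (leaf 7 396 396) (node 397 (merge (leaf 5 396 492) (node 398 (merge (leaf 6 365 366) (node 399 (merge (leaf 1 396 400) (node 427 (merge (leaf 2 394 426) (node 462 (merge (leaf 3 427 460) (node 494 (merge (leaf 4 365 365) (leaf 5 366 367))))))))))))))) (node 430 (merge (node 427 (merge (leaf 0 427 462) (node 459 (merge (leaf 1 426 458) (leaf 1 427 460))))) (merge (node 427 (merge (leaf 0 427 462) (node 399 (merge (leaf 2 395 398) (leaf 2 396 400))))) (node 493 (merge (leaf 6 397 398) (node 460 (merge (leaf 1 427 459) (node 492 (merge (leaf 6 396 397) (node 523 (merge (leaf 5 427 555) (node 522 (merge (leaf 2 490 494) (leaf 2 489 521)))))))))))))))))))) (node 430 (merge (node 428 (merge (node 427 (merge (leaf 0 427 462) (node 395 (merge (leaf 3 394 394) (leaf 3 395 396))))) (merge (node 400 (merge (leaf 2 396 399) (node 432 (merge (leaf 2 397 401) (node 396 (merge (leaf 3 395 395) (leaf 3 396 397))))))) (node 462 (merge (leaf 0 427 427) (node 400 (merge (leaf 2 396 399) (node 432 (merge (leaf 2 397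 401) (node 433 (merge (leaf 1 430 434) (leaf 1 429 461)))))))))))) (merge (node 493 (merge (leaf 6 397 398) (node 397 (merge (leaf 5 396 492) (node 364 (merge (leaf 7 364 396) (node 365 (merge (leaf 7 332 332) (node 462 (merge (leaf 4 333 333) (leaf 4 365 494))))))))))) (merge (node 493 (merge (leaf 6 397 398) (node 428 (merge (leaf 7 396 396) (node 427 (merge (leaf 0 427 462) (node 458 (merge (leaf 1 426 459) (node 426 (merge (leaf 1 425 457) (node 394 (merge (leaf 3 393 393) (leaf 3 394 395))))))))))))) (node 399 (merge (node 400 (merge (leaf 2 396 428) (node 401 (merge (leaf 1 398 402) (leaf 2 397 432))))) (node 367 (merge (node 398 (merge (leaf 6 397 493) (node 334 (merge (leaf 7 334 366) (node 335 (merge (leaf 7 302 302) (leaf 5 302 303))))))) (merge (node 336 (merge (leaf 6 335 368) (node 335 (merge (leaf 6 303 304) (node 398 (merge (leaf 5 302 303) (leaf 6 397 493))))))) (merge (node 336 (merge (leaf 6 335 368) (node 335 (merge (leaf 6 303 304) (node 334 (merge (leaf 7 302 302) (leaf 7 334 366))))))) (node 368 (merge (leaf 6 335 336) (node 398 (merge (leaf 6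 397 493) (node 366 (merge (leaf 7 334 334) (node 369 (merge (leaf 1 366 370) (leaf 1 365 397)))))))))))))))))))))))))))))))) nP_303 cP_303 11 (by decide +kernel)
def nP_304 : ℕ := 0x1000000013000000000000000a0000000000000000000000000000000000000000000000000000000000000000000000000000000000000000000000000000000000000000000
def cP_304 : ℕ := 0x80000008e000007fc0000005e000007fc000007fe000007f0000001f0000001d000000000000000000000000000000000000000000000000000000000000000000000000000
theorem lP_304 : S nP_304 cP_304 11 := S_of_chk [] trivial (node 431 (merge (node 495 (merge (leaf 4 431 527) (node 496 (merge (leaf 4 399 399) (node 462 (merge (leaf 0 460 460) (node 497 (merge (leaf 3 461 494) (leaf 3 462 498))))))))) (merge (node 495 (merge (leaf 4 431 527) (node 399 (merge (leaf 4 399 496) (node 368 (merge (leaf 6 367 400) (node 367 (merge (leaf 6 335 336) (node 366 (merge (leaf 7 334 334) (leaf 7 366 398))))))))))) (merge (node 429 (merge (node 430 (merge (node 460 (merge (leaf 1 428 432) (node 459 (merge (leaf 1 427 428) (leaf 2 426 458))))) (merge (node 493 (merge (leaf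 6 397 398) (node 396 (merge (leaf 7 396 428) (node 397 (merge (leaf 7 364 364) (leaf 5 396 492))))))) (node 493 (merge (leaf 6 397 398) (node 432 (merge (leaf 1 428 460) (node 397 (merge (leaf 3 396 396) (leaf 5 396 492)))))))))) (merge (node 460 (merge (node 432 (merge (leaf 1 428 430) (leaf 2 428 462))) (merge (node 430 (merge (leaf 1 428 432) (node 459 (merge (leaf 1 427 428) (leaf 2 426 458))))) (merge (node 462 (merge (leaf 2 428 432) (node 491 (merge (leaf 1 459 492) (node 459 (merge (leaf 1 458 490) (node 427 (merge (leaf 3 426 426) (leaf 3 427 428))))))))) (node 462 (merge (node 491 (merge (leaf 1 459 492) (node 459 (merge (leaf 2 427 430) (leaf 1 458 490))))) (merge (node 459 (merge (leaf 2 427 430) (node 427 (merge (leaf 3 426 426) (leaf 3 427 428))))) (node 492 (merge (leaf 1 459 491) (node 428 (merge (leaf 6 396 397) (leaf 3 427 427)))))))))))) (merge (node 430 (merge (node 460 (merge (leaf 1 428 432) (node 459 (merge (leaf 1 427 428) (leaf 2 426 458))))) (merge (node 432 (merge (leaf 1 428 460) (node 433 (merge (leaf 1 429 462) (node 401 (merge (leaf 2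 397 400) (leaf 2 398 402))))))) (node 493 (merge (leaf 6 397 398) (node 428 (merge (leaf 7 396 396) (node 427 (merge (leaf 0 427 462) (node 458 (merge (leaf 1 426 459) (node 426 (merge (leaf 1 425 457) (node 394 (merge (leaf 3 393 393) (leaf 3 394 395)))))))))))))))) (merge (node 493 (merge (node 430 (merge (leaf 6 397 398) (node 460 (merge (leaf 1 428 432) (node 459 (merge (leaf 2 426 458) (leaf 2 427 462))))))) (merge (node 397 (merge (leaf 5 396 492) (node 366 (merge (leaf 6 365 398) (node 365 (merge (leaf 6 333 334) (node 364 (merge (leaf 7 332 332) (leaf 7 364 396))))))))) (node 397 (merge (leaf 5 396 492) (node 364 (merge (leaf 7 364 396) (node 365 (merge (leaf 7 332 332) (node 334 (merge (leaf 6 333 366) (node 333 (merge (leaf 6 301 302) (node 462 (merge (leaf 4 333 430) (leaf 4 365 494)))))))))))))))) (merge (node 397 (merge (node 492 (merge (leaf 5 396 493) (node 460 (merge (leaf 5 364 365) (leaf 6 396 428))))) (merge (node 493 (merge (leaf 5 396 492) (node 396 (merge (leaf 7 364 364) (leaf 7 396 428))))) (merge (node 493 (merge (leaf 5 396 492) (node 366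 (merge (leaf 6 365 398) (node 365 (merge (leaf 6 333 334) (node 364 (merge (leaf 7 332 332) (leaf 7 364 396))))))))) (merge (node 493 (merge (node 396 (merge (leaf 7 364 364) (leaf 7 396 428))) (merge (node 366 (merge (leaf 6 365 398) (node 365 (merge (leaf 6 333 334) (node 462 (merge (leaf 4 365 494) (node 460 (merge (leaf 2 428 432) (node 428 (merge (leaf 5 332 333) (leaf 3 427 427))))))))))) (node 366 (merge (leaf 6 365 398) (node 365 (merge (leaf 6 333 334) (node 364 (merge (leaf 7 332 332) (leaf 7 364 396)))))))))) (node 460 (merge (node 492 (merge (leaf 5 364 365) (leaf 6 396 428))) (merge (node 492 (merge (leaf 6 396 428) (node 462 (merge (leaf 2 428 432) (leaf 1 459 491))))) (node 462 (merge (leaf 2 428 432) (node 365 (merge (leaf 4 365 494) (node 334 (merge (leaf 6 333 366) (node 333 (merge (leaf 6 301 302) (node 332 (merge (leaf 7 300 300) (leaf 7 332 364))))))))))))))))))) (merge (node 428 (merge (node 493 (merge (leaf 7 396 396) (node 398 (merge (leaf 6 397 430) (node 397 (merge (leaf 6 365 366) (leaf 5 396 492))))))) (merge (node 430 (merge (node 427 (merge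 (leaf 0 427 462) (node 459 (merge (leaf 1 426 458) (leaf 1 427 460))))) (merge (node 427 (merge (leaf 0 427 462) (node 395 (merge (leaf 3 394 394) (leaf 3 395 396))))) (node 460 (merge (leaf 1 427 459) (node 396 (merge (leaf 3 395 395) (node 493 (merge (leaf 7 396 461) (leaf 4 396 492)))))))))) (merge (node 493 (merge (leaf 7 396 396) (node 430 (merge (leaf 6 397 398) (node 427 (merge (leaf 0 427 462) (node 458 (merge (leaf 1 426 459) (node 426 (merge (leaf 1 425 457) (node 394 (merge (leaf 3 393 393) (leaf 3 394 395))))))))))))) (merge (node 430 (merge (node 427 (merge (leaf 0 427 462) (node 399 (merge (leaf 2 395 398) (leaf 2 396 400))))) (merge (node 459 (merge (leaf 1 427 460) (node 427 (merge (leaf 1 426 458) (node 399 (merge (leaf 2 395 398) (leaf 2 396 400))))))) (node 460 (merge (leaf 1 427 459) (node 492 (merge (leaf 6 396 397) (node 491 (merge (leaf 1 459 462) (node 396 (merge (leaf 3 395 395) (leaf 5 395 523)))))))))))) (merge (node 493 (merge (leaf 7 396 396) (node 397 (merge (leaf 5 396 492) (node 398 (merge (leaf 6 365 366) (node 399 (merge (leaf 1 396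 400) (node 427 (merge (leaf 2 394 426) (node 462 (merge (leaf 3 427 460) (node 494 (merge (leaf 4 365 365) (leaf 5 366 367))))))))))))))) (node 430 (merge (node 427 (merge (leaf 0 427 462) (node 459 (merge (leaf 1 426 458) (leaf 1 427 460))))) (merge (node 427 (merge (leaf 0 427 462) (node 399 (merge (leaf 2 395 398) (leaf 2 396 400))))) (node 493 (merge (leaf 6 397 398) (node 460 (merge (leaf 1 427 459) (node 492 (merge (leaf 6 396 397) (node 523 (merge (leaf 5 427 555) (node 522 (merge (leaf 2 490 494) (leaf 2 489 521)))))))))))))))))))) (node 430 (merge (node 428 (merge (node 427 (merge (leaf 0 427 462) (node 395 (merge (leaf 3 394 394) (leaf 3 395 396))))) (merge (node 400 (merge (leaf 2 396 399) (node 432 (merge (leaf 2 397 401) (node 396 (merge (leaf 3 395 395) (leaf 3 396 397))))))) (node 462 (merge (leaf 0 427 427) (node 400 (merge (leaf 2 396 399) (node 432 (merge (leaf 2 397 401) (node 433 (merge (leaf 1 430 434) (leaf 1 429 461)))))))))))) (merge (node 493 (merge (leaf 6 397 398) (node 397 (merge (leaf 5 396 492) (node 364 (merge (leaf 7 364 396) (node 365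 (merge (leaf 7 332 332) (node 462 (merge (leaf 4 333 333) (leaf 4 365 494))))))))))) (merge (node 493 (merge (leaf 6 397 398) (node 428 (merge (leaf 7 396 396) (node 427 (merge (leaf 0 427 462) (node 458 (merge (leaf 1 426 459) (node 426 (merge (leaf 1 425 457) (node 394 (merge (leaf 3 393 393) (leaf 3 394 395))))))))))))) (node 399 (merge (node 400 (merge (leaf 2 396 428) (node 401 (merge (leaf 1 398 402) (leaf 2 397 432))))) (node 367 (merge (node 398 (merge (leaf 6 397 493) (node 334 (merge (leaf 7 334 366) (node 335 (merge (leaf 7 302 302) (leaf 5 302 303))))))) (merge (node 336 (merge (leaf 6 335 368) (node 335 (merge (leaf 6 303 304) (node 398 (merge (leaf 5 302 303) (leaf 6 397 493))))))) (merge (node 336 (merge (leaf 6 335 368) (node 335 (merge (leaf 6 303 304) (node 334 (merge (leaf 7 302 302) (leaf 7 334 366))))))) (node 368 (merge (leaf 6 335 336) (node 398 (merge (leaf 6 397 493) (node 366 (merge (leaf 7 334 334) (node 369 (merge (leaf 1 366 370) (leaf 1 365 397)))))))))))))))))))))))))) (node 493 (merge (node 495 (merge (leaf 4 431 527) (node 494 (merge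 (leaf 1 492 496) (node 523 (merge (leaf 1 491 492) (leaf 2 490 522))))))) (merge (node 429 (merge (node 398 (merge (leaf 6 397 430) (node 397 (merge (leaf 6 365 366) (leaf 5 396 492))))) (merge (node 396 (merge (leaf 7 396 428) (node 397 (merge (leaf 7 364 364) (leaf 5 396 492))))) (node 430 (merge (leaf 6 397 398) (node 428 (merge (leaf 7 396 396) (node 460 (merge (leaf 1 428 432) (leaf 1 427 459)))))))))) (node 429 (merge (node 430 (merge (leaf 6 397 398) (node 460 (merge (leaf 1 428 432) (node 459 (merge (leaf 2 426 458) (leaf 2 427 462))))))) (merge (node 398 (merge (leaf 6 397 430) (node 397 (merge (leaf 6 365 366) (node 396 (merge (leaf 7 364 364) (leaf 7 396 428))))))) (merge (node 396 (merge (leaf 7 396 428) (node 397 (merge (leaf 7 364 364) (node 432 (merge (leaf 3 396 430) (node 462 (merge (leaf 2 428 460) (node 494 (merge (leaf 4 365 365) (node 495 (merge (leaf 1 492 496) (leaf 4 431 527))))))))))))) (node 396 (merge (leaf 7 396 428) (node 397 (merge (leaf 7 364 364) (node 366 (merge (leaf 6 365 398) (node 365 (merge (leaf 6 333 334) (node 494 (merge (leaf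 4 365 462) (node 495 (merge (leaf 1 492 496) (leaf 4 431 527)))))))))))))))))))))))) nP_304 cP_304 11 (by decide +kernel)

end Crest.Agent.H26Snaky
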