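import Crest.Agent.H26SnP017
import Crest.Agent.H26SnP020
import Crest.Agent.H26SnP022

/-! certificate data for S0047, part P 23 (computer generated) -/

set_option autoImplicit false
set_option maxRecDepth 100000

namespace Crest.Agent.H26Snaky

open T

def nP_305 : ℕ := 0xa0000000a00000000000000000000000000000000000000000000000000000000000000000000000000000000000000000000000000000000000
def cP_305 : ℕ := 0x4c0000005e0000075e000007ff000001fc000001f8000001f000000030000000100000000000000000000000000000000000000000000000000000000000
theorem lP_305 : S nP_305 cP_305 12 := S_of_chk [] trivial (node 397 (merge (node 462 (merge (node 432 (merge (leaf 2 428 460) (node 433 (merge (leaf 1 429 430) (leaf 1 430 434))))) (node 365 (merge (leaf 4 365 494) (node 334 (merge (leaf 6 333 366) (node 333 (merge (leaf 6 301 302) (node 332 (merge (leaf 7 300 300) (leaf 7 332 364))))))))))) (merge (node 430 (merge (node 460 (merge (leaf 1 428 432) (node 459 (merge (leaf 1 427 428) (leaf 2 426 458))))) (merge (node 396 (merge (leaf 3 396 432) (node 395 (merge (leaf 0 394 394) (leaf 0 395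 398))))) (node 428 (merge (node 459 (merge (leaf 1 427 460) (node 427 (merge (leaf 1 426 458) (node 395 (merge (leaf 3 394 394) (leaf 3 395 396))))))) (merge (node 399 (merge (leaf 2 396 400) (node 398 (merge (leaf 2 395 427) (node 396 (merge (leaf 0 395 395) (node 364 (merge (leaf 4 332 332) (leaf 3 363 363))))))))) (merge (node 460 (merge (leaf 1 427 459) (node 399 (merge (leaf 2 396 400) (node 396 (merge (leaf 3 395 395) (node 364 (merge (leaf 4 332 332) (node 363 (merge (leaf 7 331 331) (leaf 3 363 398))))))))))) (merge (node 399 (merge (leaf 2 396 400) (node 427 (merge (leaf 2 395 398) (node 458 (merge (leaf 1 426 459) (node 426 (merge (leaf 1 425 457) (node 394 (merge (leaf 3 393 393) (leaf 3 394 395))))))))))) (node 399 (merge (leaf 2 396 400) (node 427 (merge (leaf 2 395 398) (node 458 (merge (leaf 1 426 459) (node 426 (merge (leaf 1 425 457) (node 425 (merge (leaf 2 393 396) (node 393 (merge (leaf 3 392 392) (leaf 3 393 394))))))))))))))))))))) (merge (node 430 (merge (node 460 (merge (leaf 1 428 432) (node 459 (merge (leaf 2 426 458) (leaf 2 427 462)))))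 (merge (node 432 (merge (leaf 3 396 396) (node 401 (merge (leaf 2 397 400) (node 433 (merge (leaf 3 397 398) (leaf 2 398 402))))))) (node 462 (merge (node 365 (merge (leaf 4 333 333) (node 494 (merge (leaf 7 365 398) (leaf 4 365 461))))) (merge (node 428 (merge (leaf 0 427 427) (node 399 (merge (leaf 2 396 400) (node 367 (merge (leaf 5 334 335) (leaf 5 366 494))))))) (node 428 (merge (leaf 0 427 427) (node 399 (merge (leaf 2 396 400) (node 396 (merge (leaf 3 395 395) (node 365 (merge (leaf 4 333 333) (node 367 (merge (leaf 5 334 335) (node 368 (merge (leaf 1 364 366) (leaf 2 364 398))))))))))))))))))) (merge (node 430 (merge (node 396 (merge (leaf 3 396 432) (node 395 (merge (leaf 0 394 394) (leaf 3 395 428))))) (merge (node 432 (merge (leaf 3 396 396) (node 401 (merge (leaf 2 397 400) (node 433 (merge (leaf 3 397 398) (leaf 2 398 402))))))) (merge (node 432 (merge (node 433 (merge (leaf 3 397 398) (leaf 1 429 462))) (merge (node 401 (merge (leaf 2 397 400) (node 433 (merge (leaf 3 397 398) (leaf 2 398 402))))) (node 400 (merge (leaf 2 397 401) (node 428 (merge (leaf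 2 396 399) (node 462 (merge (leaf 0 427 427) (node 365 (merge (leaf 4 333 333) (leaf 4 365 494)))))))))))) (node 365 (merge (node 462 (merge (leaf 4 333 333) (node 494 (merge (leaf 7 365 398) (leaf 4 365 461))))) (merge (node 334 (merge (leaf 6 333 366) (node 333 (merge (leaf 6 301 302) (node 332 (merge (leaf 7 300 300) (leaf 7 332 364))))))) (node 366 (merge (leaf 6 333 334) (node 462 (merge (leaf 4 365 494) (node 428 (merge (leaf 0 427 427) (node 399 (merge (leaf 2 396 400) (node 396 (merge (leaf 3 395 395) (node 367 (merge (leaf 5 334 335) (leaf 1 364 368)))))))))))))))))))) (merge (node 365 (merge (node 334 (merge (leaf 6 333 366) (node 333 (merge (leaf 6 301 302) (node 332 (merge (leaf 7 300 300) (leaf 7 332 364))))))) (merge (node 332 (merge (leaf 7 332 364) (node 333 (merge (leaf 7 300 300) (node 462 (merge (leaf 4 365 494) (node 460 (merge (leaf 5 332 428) (leaf 2 428 432))))))))) (merge (node 334 (merge (leaf 6 333 366) (node 333 (merge (leaf 6 301 302) (node 462 (merge (leaf 4 365 494) (node 460 (merge (leaf 5 332 428) (leaf 2 428 432))))))))) (node 366 (merge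 (leaf 6 333 334) (node 364 (merge (leaf 7 332 332) (node 462 (merge (leaf 4 365 494) (node 460 (merge (leaf 2 428 432) (node 427 (merge (leaf 3 427 428) (node 459 (merge (leaf 3 426 426) (node 491 (merge (leaf 1 458 490) (node 395 (merge (leaf 6 363 396) (node 394 (merge (leaf 7 362 362) (leaf 1 362 363))))))))))))))))))))))) (node 428 (merge (node 427 (merge (node 426 (merge (leaf 2 394 398) (leaf 0 426 462))) (merge (node 462 (merge (leaf 0 427 430) (leaf 3 427 460))) (node 398 (merge (leaf 2 394 426) (node 399 (merge (leaf 1 396 400) (leaf 2 395 430)))))))) (merge (node 462 (merge (node 427 (merge (leaf 0 426 426) (leaf 3 427 460))) (node 365 (merge (leaf 4 365 494) (node 332 (merge (leaf 7 332 364) (node 333 (merge (leaf 7 300 300) (leaf 4 333 430))))))))) (merge (node 427 (merge (node 426 (merge (leaf 2 394 398) (leaf 0 426 462))) (merge (node 426 (merge (leaf 2 394 398) (node 425 (merge (leaf 2 393 396) (leaf 0 425 460))))) (node 462 (merge (leaf 3 427 460) (node 365 (merge (leaf 4 365 494) (node 334 (merge (leaf 6 333 366) (node 333 (merge (leaf 6 301 302) (node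 332 (merge (leaf 7 300 300) (leaf 7 332 364)))))))))))))) (merge (node 364 (merge (node 332 (merge (leaf 7 332 365) (leaf 4 332 396))) (merge (node 365 (merge (leaf 7 332 332) (node 334 (merge (leaf 6 333 366) (node 333 (merge (leaf 6 301 302) (leaf 5 332 460))))))) (merge (node 396 (merge (leaf 4 332 332) (node 430 (merge (leaf 3 395 395) (node 460 (merge (leaf 1 427 459) (node 363 (merge (leaf 7 331 331) (node 399 (merge (leaf 3 363 398) (leaf 2 396 400))))))))))) (node 396 (merge (node 365 (merge (node 333 (merge (leaf 5 300 301) (leaf 6 332 460))) (node 366 (merge (leaf 6 333 334) (node 367 (merge (leaf 1 364 368) (leaf 1 363 395))))))) (merge (node 430 (merge (leaf 3 395 395) (node 460 (merge (leaf 1 427 459) (node 363 (merge (leaf 7 331 331) (node 399 (merge (leaf 3 363 398) (leaf 2 396 400))))))))) (merge (node 430 (merge (leaf 3 395 395) (node 399 (merge (leaf 2 396 400) (node 398 (merge (leaf 3 363 363) (node 367 (merge (leaf 2 364 368) (node 335 (merge (leaf 5 302 303) (leaf 5 334 462))))))))))) (node 365 (merge (node 333 (merge (leaf 5 300 301) (leaf 6 332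 460))) (node 366 (merge (leaf 6 333 334) (node 367 (merge (leaf 1 364 368) (node 399 (merge (leaf 0 364 400) (node 335 (merge (leaf 2 332 336) (node 462 (merge (leaf 5 334 430) (leaf 4 365 494))))))))))))))))))))) (merge (node 430 (merge (node 459 (merge (leaf 1 427 460) (node 427 (merge (leaf 1 426 458) (node 395 (merge (leaf 3 394 394) (leaf 3 395 396))))))) (merge (node 399 (merge (leaf 2 396 400) (node 398 (merge (leaf 2 395 427) (node 396 (merge (leaf 0 395 395) (node 364 (merge (leaf 4 332 332) (leaf 3 363 363))))))))) (merge (node 460 (merge (leaf 1 427 459) (node 399 (merge (leaf 2 396 400) (node 396 (merge (leaf 3 395 395) (node 364 (merge (leaf 4 332 332) (node 363 (merge (leaf 7 331 331) (leaf 3 363 398))))))))))) (merge (node 399 (merge (leaf 2 396 400) (node 427 (merge (leaf 2 395 398) (node 458 (merge (leaf 1 426 459) (node 426 (merge (leaf 1 425 457) (node 394 (merge (leaf 3 393 393) (leaf 3 394 395))))))))))) (node 399 (merge (leaf 2 396 400) (node 427 (merge (leaf 2 395 398) (node 458 (merge (leaf 1 426 459) (node 426 (merge (leaf 1 425 457) (node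 425 (merge (leaf 2 393 396) (node 393 (merge (leaf 3 392 392) (leaf 3 393 394)))))))))))))))))) (node 430 (merge (node 462 (merge (leaf 0 427 427) (node 365 (merge (leaf 4 333 333) (leaf 4 365 494))))) (merge (node 399 (merge (leaf 2 396 400) (node 398 (merge (leaf 2 395 427) (node 396 (merge (leaf 0 395 395) (node 364 (merge (leaf 4 332 332) (leaf 3 363 363))))))))) (node 367 (merge (node 399 (merge (node 462 (merge (leaf 5 334 335) (leaf 5 366 494))) (node 400 (merge (leaf 2 396 428) (node 401 (merge (leaf 1 397 398) (leaf 1 398 402))))))) (merge (node 399 (merge (node 400 (merge (leaf 2 396 428) (node 401 (merge (leaf 1 397 398) (leaf 1 398 402))))) (node 336 (merge (leaf 6 335 368) (node 335 (merge (leaf 6 303 304) (node 334 (merge (leaf 7 302 302) (leaf 7 334 366))))))))) (merge (node 365 (merge (node 332 (merge (leaf 7 332 364) (node 333 (merge (leaf 7 300 300) (leaf 4 333 462))))) (merge (node 366 (merge (leaf 6 333 334) (node 364 (merge (leaf 7 332 332) (node 396 (merge (leaf 1 364 368) (leaf 1 363 395))))))) (merge (node 334 (merge (leaf 6 333 366) (node 333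 (merge (leaf 6 301 302) (node 300 (merge (leaf 7 300 332) (node 301 (merge (leaf 7 268 268) (leaf 4 301 398))))))))) (node 334 (merge (leaf 6 333 366) (node 333 (merge (leaf 6 301 302) (node 301 (merge (leaf 4 301 398) (node 268 (merge (leaf 7 268 300) (node 269 (merge (leaf 7 236 236) (node 396 (merge (leaf 5 268 364) (leaf 5 300 428))))))))))))))))) (node 462 (merge (node 399 (merge (leaf 5 334 335) (leaf 5 366 494))) (node 365 (merge (leaf 4 333 333) (node 366 (merge (leaf 6 333 334) (node 364 (merge (leaf 7 332 332) (node 396 (merge (leaf 1 364 368) (leaf 1 363 395)))))))))))))))))))))))))))))) nP_305 cP_305 12 (by decide +kernel)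
def nP_306 : ℕ := 0x1000000013000000000000000a0000000000000000000000000000000000000000000000000000000000000000000000000000000000000000000000000000000000000000000
def cP_306 : ℕ := 0x80000003800000038000000380000001e0000008e000001fe0000005e000001de000001f8000001f8000001780000000000000000000000000000000000000000000000000000000000000000000000000000000000
theorem lP_306 : S nP_306 cP_306 13 := S_of_chk [] trivial (node 460 (merge (node 462 (merge (node 495 (merge (leaf 0 460 496) (node 431 (merge (leaf 2 428 432) (leaf 4 431 527))))) (merge (node 495 (merge (leaf 0 460 496) (node 459 (merge (leaf 0 459 494) (node 427 (merge (leaf 3 426 426) (leaf 3 427 428))))))) (node 431 (merge (leaf 2 428 432) (node 459 (merge (leaf 2 427 430) (node 427 (merge (leaf 3 426 426) (leaf 3 427 428)))))))))) (merge (node 462 (merge (node 495 (merge (leaf 0 460 496) (node 431 (merge (leaf 2 428 432) (leaf 4 431 527))))) (merge (node 491 (merge (leaf 1 459 492) (node 459 (merge (leaf 1 458 490) (node 431 (merge (leaf 2 427 430) (leaf 2 428 432))))))) (node 495 (merge (leaf 0 460 496) (node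 459 (merge (leaf 0 459 494) (node 491 (merge (leaf 1 458 490) (leaf 1 459 492)))))))))) (merge (node 492 (merge (node 428 (merge (node 395 (merge (leaf 7 395 427) (node 396 (merge (leaf 7 363 363) (leaf 4 396 493))))) (merge (node 427 (merge (leaf 7 395 395) (node 556 (merge (leaf 7 427 459) (node 555 (merge (leaf 5 427 523) (leaf 5 459 587))))))) (node 493 (merge (leaf 4 396 396) (node 555 (merge (leaf 5 427 523) (node 556 (merge (leaf 5 459 587) (node 588 (merge (leaf 6 460 461) (leaf 6 492 620)))))))))))) (merge (node 462 (merge (leaf 1 459 491) (node 428 (merge (leaf 3 427 427) (node 396 (merge (leaf 4 396 493) (node 365 (merge (leaf 6 364 397) (node 364 (merge (leaf 6 332 333) (node 363 (merge (leaf 7 331 331) (leaf 7 363 395))))))))))))) (merge (node 462 (merge (leaf 1 459 491) (node 431 (merge (leaf 2 428 432) (node 459 (merge (leaf 2 427 430) (node 427 (merge (leaf 3 426 426) (leaf 7 427 556))))))))) (node 556 (merge (node 555 (merge (leaf 5 459 587) (node 428 (merge (leaf 5 427 523) (node 396 (merge (leaf 4 396 493) (node 365 (merge (leaf 6 364 397) (node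 364 (merge (leaf 6 332 333) (node 363 (merge (leaf 7 331 331) (leaf 7 363 395))))))))))))) (merge (node 588 (merge (leaf 6 460 493) (node 621 (merge (leaf 4 492 589) (node 620 (merge (leaf 4 524 653) (node 619 (merge (leaf 5 491 587) (leaf 5 523 651))))))))) (merge (node 588 (merge (leaf 6 460 493) (node 621 (merge (leaf 4 492 589) (node 620 (merge (leaf 4 524 653) (node 523 (merge (leaf 7 491 491) (node 555 (merge (leaf 5 427 428) (leaf 7 523 652))))))))))) (node 588 (merge (node 587 (merge (leaf 5 459 555) (leaf 5 491 619))) (merge (node 621 (merge (leaf 4 492 589) (node 620 (merge (leaf 4 524 653) (node 619 (merge (leaf 5 491 587) (leaf 5 523 651))))))) (merge (node 621 (merge (leaf 4 492 589) (node 620 (merge (leaf 4 524 653) (node 523 (merge (leaf 7 491 491) (node 555 (merge (leaf 7 523 652) (node 460 (merge (leaf 5 427 428) (leaf 5 459 587))))))))))) (node 621 (merge (leaf 4 492 589) (node 620 (merge (leaf 4 524 653) (node 523 (merge (leaf 7 491 491) (node 652 (merge (leaf 7 523 555) (node 651 (merge (leaf 5 523 619) (leaf 5 555 683))))))))))))))))))))))) (merge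 (node 492 (merge (node 428 (merge (node 395 (merge (leaf 7 395 427) (node 396 (merge (leaf 7 363 363) (leaf 4 396 493))))) (merge (node 427 (merge (leaf 7 395 395) (node 556 (merge (leaf 7 427 459) (node 555 (merge (leaf 5 427 523) (leaf 5 459 587))))))) (node 493 (merge (leaf 4 396 396) (node 555 (merge (leaf 5 427 523) (node 556 (merge (leaf 5 459 587) (node 588 (merge (leaf 6 460 461) (leaf 6 492 620)))))))))))) (merge (node 462 (merge (leaf 1 459 491) (node 428 (merge (leaf 3 427 427) (node 396 (merge (leaf 4 396 493) (node 365 (merge (leaf 6 364 397) (node 364 (merge (leaf 6 332 333) (node 363 (merge (leaf 7 331 331) (leaf 7 363 395))))))))))))) (merge (node 462 (merge (leaf 1 459 491) (node 495 (merge (leaf 0 460 496) (node 459 (merge (leaf 0 459 494) (node 427 (merge (leaf 3 426 426) (leaf 7 427 556))))))))) (node 556 (merge (node 555 (merge (leaf 5 459 587) (node 428 (merge (leaf 5 427 523) (node 396 (merge (leaf 4 396 493) (node 365 (merge (leaf 6 364 397) (node 364 (merge (leaf 6 332 333) (node 363 (merge (leaf 7 331 331) (leaf 7 363 395))))))))))))) (merge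 (node 588 (merge (leaf 6 460 493) (node 621 (merge (leaf 4 492 589) (node 620 (merge (leaf 4 524 653) (node 619 (merge (leaf 5 491 587) (leaf 5 523 651))))))))) (merge (node 588 (merge (leaf 6 460 493) (node 621 (merge (leaf 4 492 589) (node 620 (merge (leaf 4 524 653) (node 523 (merge (leaf 7 491 491) (node 555 (merge (leaf 5 427 428) (leaf 7 523 652))))))))))) (node 588 (merge (node 587 (merge (leaf 5 459 555) (leaf 5 491 619))) (merge (node 621 (merge (leaf 4 492 589) (node 620 (merge (leaf 4 524 653) (node 619 (merge (leaf 5 491 587) (leaf 5 523 651))))))) (merge (node 621 (merge (leaf 4 492 589) (node 620 (merge (leaf 4 524 653) (node 523 (merge (leaf 7 491 491) (node 555 (merge (leaf 7 523 652) (node 460 (merge (leaf 5 427 428) (leaf 5 459 587))))))))))) (node 621 (merge (leaf 4 492 589) (node 620 (merge (leaf 4 524 653) (node 523 (merge (leaf 7 491 491) (node 652 (merge (leaf 7 523 555) (node 651 (merge (leaf 5 523 619) (leaf 5 555 683))))))))))))))))))))))) (merge (node 492 (merge (node 462 (merge (leaf 1 459 491) (node 495 (merge (leaf 0 460 496) (node 431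 (merge (leaf 2 428 432) (leaf 4 431 527))))))) (merge (node 428 (merge (node 462 (merge (leaf 3 427 427) (node 495 (merge (leaf 0 460 496) (node 431 (merge (leaf 2 428 432) (leaf 4 431 527))))))) (node 493 (merge (leaf 4 396 396) (node 555 (merge (leaf 5 427 523) (node 556 (merge (leaf 5 459 587) (node 588 (merge (leaf 6 460 461) (leaf 6 492 620))))))))))) (node 556 (merge (node 555 (merge (leaf 5 459 587) (node 428 (merge (leaf 5 427 523) (node 396 (merge (leaf 4 396 493) (node 365 (merge (leaf 6 364 397) (node 364 (merge (leaf 6 332 333) (node 363 (merge (leaf 7 331 331) (leaf 7 363 395))))))))))))) (merge (node 588 (merge (leaf 6 460 493) (node 621 (merge (leaf 4 492 589) (node 620 (merge (leaf 4 524 653) (node 619 (merge (leaf 5 491 587) (leaf 5 523 651))))))))) (merge (node 588 (merge (leaf 6 460 493) (node 621 (merge (leaf 4 492 589) (node 620 (merge (leaf 4 524 653) (node 523 (merge (leaf 7 491 491) (node 555 (merge (leaf 5 427 428) (leaf 7 523 652))))))))))) (node 588 (merge (node 587 (merge (leaf 5 459 555) (leaf 5 491 619))) (merge (node 621 (merge (leaf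 4 492 589) (node 620 (merge (leaf 4 524 653) (node 619 (merge (leaf 5 491 587) (leaf 5 523 651))))))) (merge (node 621 (merge (leaf 4 492 589) (node 620 (merge (leaf 4 524 653) (node 523 (merge (leaf 7 491 491) (node 555 (merge (leaf 7 523 652) (node 460 (merge (leaf 5 427 428) (leaf 5 459 587))))))))))) (node 621 (merge (leaf 4 492 589) (node 620 (merge (leaf 4 524 653) (node 523 (merge (leaf 7 491 491) (node 652 (merge (leaf 7 523 555) (node 651 (merge (leaf 5 523 619) (leaf 5 555 683)))))))))))))))))))))) (node 492 (merge (node 428 (merge (node 395 (merge (leaf 7 395 427) (node 396 (merge (leaf 7 363 363) (leaf 4 396 493))))) (merge (node 427 (merge (leaf 7 395 395) (node 556 (merge (leaf 7 427 459) (node 555 (merge (leaf 5 427 523) (leaf 5 459 587))))))) (node 493 (merge (leaf 4 396 396) (node 555 (merge (leaf 5 427 523) (node 556 (merge (leaf 5 459 587) (node 588 (merge (leaf 6 460 461) (leaf 6 492 620)))))))))))) (merge (node 427 (merge (node 459 (merge (leaf 7 427 556) (node 395 (merge (leaf 4 363 363) (leaf 4 395 491))))) (merge (node 395 (merge (leaf 7 395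 428) (node 459 (merge (leaf 4 363 363) (leaf 7 427 556))))) (merge (node 428 (merge (leaf 7 395 395) (node 396 (merge (leaf 4 396 493) (node 523 (merge (leaf 5 395 491) (leaf 5 427 555))))))) (node 556 (merge (leaf 7 427 459) (node 588 (merge (leaf 6 460 493) (node 621 (merge (leaf 4 492 589) (node 620 (merge (leaf 4 524 653) (node 523 (merge (leaf 7 491 491) (node 555 (merge (leaf 5 427 428) (leaf 7 523 652))))))))))))))))) (merge (node 428 (merge (node 396 (merge (leaf 4 396 493) (node 365 (merge (leaf 6 364 397) (node 364 (merge (leaf 6 332 333) (node 459 (merge (leaf 5 363 491) (node 427 (merge (leaf 5 331 332) (leaf 7 427 556))))))))))) (merge (node 396 (merge (leaf 4 396 493) (node 365 (merge (leaf 6 364 397) (node 364 (merge (leaf 6 332 333) (node 363 (merge (leaf 7 331 331) (leaf 7 363 395))))))))) (merge (node 396 (merge (node 395 (merge (leaf 7 363 363) (leaf 7 395 427))) (merge (node 365 (merge (leaf 6 364 397) (node 364 (merge (leaf 6 332 333) (node 459 (merge (leaf 5 363 491) (node 427 (merge (leaf 5 331 332) (leaf 7 427 556))))))))) (node 365 (merge (leaf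 6 364 397) (node 364 (merge (leaf 6 332 333) (node 363 (merge (leaf 7 331 331) (leaf 7 363 395)))))))))) (node 427 (merge (leaf 7 395 395) (node 556 (merge (leaf 7 427 459) (node 588 (merge (leaf 6 460 493) (node 621 (merge (leaf 4 492 589) (node 620 (merge (leaf 4 524 653) (node 619 (merge (leaf 5 491 587) (leaf 5 523 651))))))))))))))))) (merge (node 556 (merge (node 555 (merge (leaf 5 459 587) (node 428 (merge (leaf 5 427 523) (node 396 (merge (leaf 4 396 493) (node 365 (merge (leaf 6 364 397) (node 364 (merge (leaf 6 332 333) (node 363 (merge (leaf 7 331 331) (leaf 7 363 395))))))))))))) (merge (node 588 (merge (leaf 6 460 493) (node 621 (merge (leaf 4 492 589) (node 620 (merge (leaf 4 524 653) (node 619 (merge (leaf 5 491 587) (leaf 5 523 651))))))))) (merge (node 588 (merge (leaf 6 460 493) (node 621 (merge (leaf 4 492 589) (node 620 (merge (leaf 4 524 653) (node 523 (merge (leaf 7 491 491) (node 555 (merge (leaf 5 427 428) (leaf 7 523 652))))))))))) (node 588 (merge (node 587 (merge (leaf 5 459 555) (leaf 5 491 619))) (merge (node 621 (merge (leaf 4 492 589)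 (node 620 (merge (leaf 4 524 653) (node 619 (merge (leaf 5 491 587) (leaf 5 523 651))))))) (merge (node 621 (merge (leaf 4 492 589) (node 620 (merge (leaf 4 524 653) (node 523 (merge (leaf 7 491 491) (node 555 (merge (leaf 7 523 652) (node 460 (merge (leaf 5 427 428) (leaf 5 459 587))))))))))) (node 621 (merge (leaf 4 492 589) (node 620 (merge (leaf 4 524 653) (node 523 (merge (leaf 7 491 491) (node 652 (merge (leaf 7 523 555) (node 651 (merge (leaf 5 523 619) (leaf 5 555 683))))))))))))))))))) (merge (node 428 (merge (node 427 (merge (leaf 7 395 395) (node 556 (merge (leaf 7 427 459) (node 555 (merge (leaf 5 427 523) (leaf 5 459 587))))))) (merge (node 523 (merge (leaf 5 427 555) (node 396 (merge (leaf 5 395 491) (node 365 (merge (leaf 6 364 397) (node 364 (merge (leaf 6 332 333) (node 363 (merge (leaf 7 331 331) (leaf 7 363 395))))))))))) (merge (node 396 (merge (node 395 (merge (leaf 7 363 363) (leaf 7 395 427))) (merge (node 365 (merge (leaf 6 364 397) (node 364 (merge (leaf 6 332 333) (node 459 (merge (leaf 5 363 491) (node 427 (merge (leaf 5 331 332) (leaf 7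 427 556))))))))) (node 365 (merge (leaf 6 364 397) (node 364 (merge (leaf 6 332 333) (node 363 (merge (leaf 7 331 331) (leaf 7 363 395)))))))))) (node 556 (merge (node 555 (merge (leaf 5 427 523) (leaf 5 459 587))) (merge (node 459 (merge (leaf 7 427 427) (node 588 (merge (leaf 7 459 491) (node 621 (merge (leaf 4 492 589) (node 620 (merge (leaf 4 524 653) (node 619 (merge (leaf 5 491 587) (leaf 5 523 651))))))))))) (node 459 (merge (leaf 7 427 427) (node 491 (merge (leaf 7 459 588) (node 523 (merge (leaf 5 395 396) (leaf 6 427 555)))))))))))))) (merge (node 495 (merge (node 431 (merge (leaf 4 431 527) (node 399 (merge (leaf 4 399 496) (node 368 (merge (leaf 6 367 400) (node 367 (merge (leaf 6 335 336) (node 366 (merge (leaf 7 334 334) (leaf 7 366 398))))))))))) (merge (node 493 (merge (node 494 (merge (leaf 3 459 459) (leaf 1 492 496))) (merge (node 494 (merge (leaf 1 492 496) (node 523 (merge (leaf 1 491 492) (leaf 2 490 522))))) (node 556 (merge (leaf 6 460 588) (node 459 (merge (leaf 7 427 427) (node 458 (merge (leaf 0 457 457) (node 490 (merge (leaf 1 457 489)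 (node 426 (merge (leaf 3 425 425) (node 555 (merge (leaf 5 459 587) (node 523 (merge (leaf 7 426 491) (leaf 4 426 522)))))))))))))))))) (node 527 (merge (leaf 4 431 431) (node 493 (merge (leaf 0 492 494) (node 556 (merge (leaf 6 460 588) (node 459 (merge (leaf 7 427 427) (node 458 (merge (leaf 0 457 457) (node 490 (merge (leaf 1 457 489) (node 426 (merge (leaf 3 425 425) (node 555 (merge (leaf 5 459 587) (node 523 (merge (leaf 7 426 491) (leaf 4 426 522)))))))))))))))))))))) (node 495 (merge (node 431 (merge (leaf 4 431 527) (node 399 (merge (leaf 4 399 496) (node 368 (merge (leaf 6 367 400) (node 367 (merge (leaf 6 335 336) (node 366 (merge (leaf 7 334 334) (leaf 7 366 398))))))))))) (node 523 (merge (node 555 (merge (leaf 5 427 428) (node 587 (merge (leaf 6 459 491) (leaf 6 491 619))))) (merge (node 428 (merge (leaf 5 427 555) (node 395 (merge (leaf 7 395 427) (node 396 (merge (leaf 7 363 363) (leaf 4 396 493))))))) (merge (node 427 (merge (node 395 (merge (leaf 7 395 428) (node 459 (merge (leaf 4 363 363) (leaf 4 395 491))))) (merge (node 428 (merge (leaf 7 395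 395) (node 493 (merge (leaf 4 396 396) (leaf 1 491 494))))) (node 493 (merge (leaf 1 491 494) (node 522 (merge (leaf 2 489 521) (node 554 (merge (leaf 1 521 553) (node 490 (merge (leaf 3 489 489) (node 459 (merge (leaf 6 426 458) (leaf 5 426 491)))))))))))))) (node 555 (merge (node 587 (merge (leaf 6 459 491) (leaf 6 491 619))) (merge (node 493 (merge (leaf 1 491 494) (node 522 (merge (leaf 2 489 521) (node 490 (merge (leaf 3 489 489) (node 458 (merge (leaf 4 426 426) (node 457 (merge (leaf 0 457 459) (leaf 3 457 491))))))))))) (node 587 (merge (leaf 6 491 619) (node 493 (merge (leaf 1 491 494) (node 522 (merge (leaf 2 489 521) (node 490 (merge (leaf 3 489 489) (node 458 (merge (leaf 4 426 426) (leaf 4 458 554))))))))))))))))))))))))))))))))) nP_306 cP_306 13 (by decide +kernel)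
def nP_307 : ℕ := 0x100000001300000000000000080000000000000000000000000000000000000000000000000000000000000000000000000000000000000000000000000000000000000000000
def cP_307 : ℕ := 0x8000000380000007c000000fc000000df0000008f000007ff0000007e000007ff000007ff000007fc000001f8000001f000000030000000100000000000000000000000000000000000000000000000000000000000
theorem lP_307 : S nP_307 cP_307 15 := S_of_chk [(nP_303, cP_303, 11), (nP_304, cP_304, 11), (nP_305, cP_305, 12), (nP_306, cP_306, 13)] ⟨lP_303, lP_304, lP_305, lP_306, trivial⟩ (node 461 (merge (node 431 (merge (node 495 (merge (leaf 4 431 527) (node 496 (merge (leaf 4 399 399) (node 462 (merge (leaf 0 460 460) (node 497 (merge (leaf 3 461 494) (leaf 3 462 498))))))))) (merge (node 495 (merge (leaf 4 431 527) (node 496 (merge (leaf 4 399 399) (node 493 (merge (leaf 1 492 494) (node 556 (merge (leaf 5 428 429) (node 588 (merge (leaf 6 460 492) (leaf 6 492 620))))))))))) (node 460 (merge (node 432 (merge (leaf 2 428 462) (node 429 (merge (leaf 1 428 430) (node 556 (merge (leaf 6 428 492) (leaf 5 428 493))))))) (merge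 (node 462 (merge (leaf 2 428 432) (node 459 (merge (leaf 2 427 430) (node 427 (merge (leaf 3 426 426) (leaf 3 427 428))))))) (merge (node 429 (merge (node 556 (merge (leaf 6 428 492) (leaf 5 428 493))) (node 430 (merge (leaf 1 428 432) (node 459 (merge (leaf 1 427 428) (leaf 2 426 458))))))) (merge (node 462 (merge (leaf 2 428 432) (node 492 (merge (leaf 1 459 491) (node 556 (merge (leaf 6 428 429) (node 427 (merge (leaf 3 427 428) (leaf 7 427 459))))))))) (node 462 (merge (node 491 (merge (leaf 1 459 492) (node 459 (merge (leaf 2 427 430) (leaf 1 458 490))))) (merge (node 459 (merge (leaf 2 427 430) (node 427 (merge (leaf 3 426 426) (leaf 3 427 428))))) (node 492 (merge (leaf 1 459 491) (node 429 (merge (leaf 6 428 556) (node 428 (merge (leaf 6 396 397) (leaf 3 427 427)))))))))))))))))) (merge (node 431 (merge (node 495 (merge (leaf 4 431 527) (node 496 (merge (leaf 4 399 399) (node 462 (merge (leaf 0 460 460) (node 497 (merge (leaf 3 461 494) (leaf 3 462 498))))))))) (merge (node 495 (merge (leaf 4 431 527) (node 496 (merge (leaf 4 399 399) (node 493 (merge (leaf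 1 492 494) (node 556 (merge (leaf 5 428 429) (node 588 (merge (leaf 6 460 492) (leaf 6 492 620))))))))))) (node 429 (merge (node 493 (merge (leaf 5 428 556) (node 396 (merge (leaf 7 396 428) (node 397 (merge (leaf 7 364 364) (leaf 5 396 492))))))) (merge (node 493 (merge (leaf 5 428 556) (node 398 (merge (leaf 6 397 430) (node 397 (merge (leaf 6 365 366) (leaf 5 396 492))))))) (merge (node 493 (merge (leaf 5 428 556) (node 430 (merge (leaf 6 397 398) (node 428 (merge (leaf 7 396 396) (node 460 (merge (leaf 1 428 432) (leaf 1 427 459))))))))) (merge (node 430 (merge (node 460 (merge (leaf 1 428 432) (node 459 (merge (leaf 1 427 428) (leaf 2 426 458))))) (merge (node 493 (merge (leaf 6 397 398) (node 396 (merge (leaf 7 396 428) (node 397 (merge (leaf 7 364 364) (leaf 5 396 492))))))) (node 493 (merge (leaf 6 397 398) (node 432 (merge (leaf 1 428 460) (node 397 (merge (leaf 3 396 396) (leaf 5 396 492)))))))))) (node 460 (merge (node 432 (merge (leaf 1 428 430) (leaf 2 428 462))) (node 492 (merge (leaf 6 428 556) (node 397 (merge (leaf 5 364 365) (leaf 6 396 428)))))))))))))))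 (merge (node 493 (merge (node 556 (merge (leaf 5 428 429) (node 588 (merge (leaf 6 460 492) (leaf 6 492 620))))) (merge (node 431 (merge (node 495 (merge (leaf 4 431 527) (node 496 (merge (leaf 4 399 399) (leaf 1 492 494))))) (merge (node 430 (merge (node 398 (merge (leaf 6 397 429) (node 462 (merge (leaf 5 365 366) (leaf 5 397 494))))) (merge (node 429 (merge (leaf 6 397 398) (node 460 (merge (leaf 1 428 432) (node 459 (merge (leaf 1 427 428) (leaf 2 426 458))))))) (merge (node 462 (merge (node 460 (merge (leaf 2 428 432) (leaf 2 427 459))) (node 398 (merge (leaf 5 365 366) (leaf 5 397 494))))) (node 460 (merge (node 462 (merge (leaf 2 428 432) (leaf 2 427 459))) (merge (node 432 (merge (leaf 1 428 429) (leaf 2 428 462))) (merge (node 459 (merge (leaf 2 427 462) (node 429 (merge (leaf 1 427 428) (leaf 2 426 458))))) (node 429 (merge (leaf 1 428 432) (node 459 (merge (leaf 1 427 428) (leaf 2 426 458))))))))))))) (node 495 (merge (leaf 4 431 527) (node 399 (merge (leaf 4 399 496) (node 368 (merge (leaf 6 367 400) (node 367 (merge (leaf 6 335 336) (node 366 (merge (leaf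 7 334 334) (leaf 7 366 398)))))))))))))) (node 460 (merge (node 428 (merge (node 396 (merge (leaf 4 364 364) (leaf 4 396 492))) (node 462 (merge (leaf 3 427 427) (node 495 (merge (leaf 0 460 496) (node 431 (merge (leaf 2 428 432) (leaf 4 431 527))))))))) (merge (node 462 (merge (node 495 (merge (leaf 0 460 496) (node 431 (merge (leaf 2 428 432) (leaf 4 431 527))))) (merge (node 491 (merge (leaf 1 459 492) (node 459 (merge (leaf 1 458 490) (node 431 (merge (leaf 2 427 430) (leaf 2 428 432))))))) (node 495 (merge (leaf 0 460 496) (node 494 (merge (leaf 0 459 459) (node 492 (merge (leaf 1 459 491) (leaf 0 492 527)))))))))) (merge (node 428 (merge (node 396 (merge (leaf 4 364 364) (leaf 4 396 492))) (node 462 (merge (leaf 3 427 427) (node 431 (merge (leaf 2 428 432) (node 430 (merge (leaf 2 427 459) (node 398 (merge (leaf 5 365 366) (leaf 5 397 494))))))))))) (merge (node 462 (merge (node 428 (merge (leaf 3 427 427) (node 396 (merge (leaf 4 364 364) (leaf 4 396 492))))) (merge (node 495 (merge (leaf 0 460 496) (node 494 (merge (leaf 0 459 459) (node 492 (merge (leaf 1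 459 491) (leaf 0 492 527))))))) (node 495 (merge (leaf 0 460 496) (node 459 (merge (leaf 0 459 494) (node 427 (merge (leaf 3 426 426) (leaf 3 427 428)))))))))) (merge (node 462 (merge (node 495 (merge (leaf 0 460 496) (node 431 (merge (leaf 2 428 432) (leaf 4 431 527))))) (merge (node 495 (merge (leaf 0 460 496) (node 459 (merge (leaf 0 459 494) (node 427 (merge (leaf 3 426 426) (leaf 3 427 428))))))) (node 431 (merge (leaf 2 428 432) (node 430 (merge (leaf 2 427 459) (node 398 (merge (leaf 5 365 366) (leaf 5 397 494)))))))))) (node 495 (merge (node 494 (merge (leaf 1 492 496) (node 459 (merge (leaf 0 458 458) (leaf 3 459 492))))) (merge (node 527 (merge (leaf 4 431 431) (node 492 (merge (leaf 0 492 494) (node 556 (merge (leaf 6 460 588) (node 427 (merge (leaf 7 427 459) (node 428 (merge (leaf 7 395 395) (leaf 4 396 396))))))))))) (node 431 (merge (leaf 4 431 527) (node 399 (merge (leaf 4 399 496) (node 368 (merge (leaf 6 367 400) (node 367 (merge (leaf 6 335 336) (node 366 (merge (leaf 7 334 334) (leaf 7 366 398))))))))))))))))))))))) (merge (node 493 (merge (node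 556 (merge (leaf 5 428 429) (node 588 (merge (leaf 6 460 492) (leaf 6 492 620))))) (merge (node 429 (merge (leaf 5 428 556) (node 398 (merge (leaf 6 397 430) (node 397 (merge (leaf 6 365 366) (node 396 (merge (leaf 7 364 364) (leaf 7 396 428))))))))) (merge (node 492 (merge (node 494 (merge (node 495 (merge (leaf 1 492 496) (leaf 0 492 527))) (node 491 (merge (leaf 2 459 462) (node 490 (merge (leaf 0 489 489) (node 522 (merge (leaf 1 489 521) (leaf 1 490 523))))))))) (merge (node 494 (merge (node 495 (merge (leaf 1 492 496) (leaf 0 492 527))) (node 491 (merge (leaf 2 459 462) (node 490 (merge (leaf 0 489 489) (node 458 (merge (leaf 3 457 457) (leaf 3 458 459))))))))) (merge (node 460 (merge (node 556 (merge (leaf 6 460 588) (node 459 (merge (leaf 7 427 427) (node 458 (merge (leaf 0 457 457) (leaf 0 458 494))))))) (merge (node 428 (merge (leaf 4 396 396) (node 523 (merge (leaf 5 427 555) (node 522 (merge (leaf 2 490 494) (leaf 2 489 521))))))) (node 428 (merge (leaf 4 396 396) (node 427 (merge (leaf 7 395 395) (node 556 (merge (leaf 7 427 459) (node 588 (merge (leaf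 6 460 461) (leaf 6 492 620)))))))))))) (node 460 (merge (node 428 (merge (leaf 4 396 396) (node 427 (merge (leaf 7 395 395) (node 556 (merge (leaf 7 427 459) (node 588 (merge (leaf 6 460 461) (leaf 6 492 620))))))))) (merge (node 428 (merge (leaf 4 396 396) (node 555 (merge (leaf 5 427 523) (node 556 (merge (leaf 5 459 587) (node 588 (merge (leaf 6 460 461) (leaf 6 492 620))))))))) (merge (node 428 (merge (leaf 4 396 396) (node 427 (merge (leaf 7 395 395) (node 523 (merge (leaf 5 427 555) (node 522 (merge (leaf 2 489 521) (node 554 (merge (leaf 1 521 553) (node 490 (merge (leaf 3 489 489) (node 459 (merge (leaf 6 426 458) (leaf 5 426 491))))))))))))))) (node 556 (merge (leaf 6 460 588) (node 459 (merge (leaf 7 427 427) (node 458 (merge (leaf 0 457 457) (node 490 (merge (leaf 1 457 489) (node 426 (merge (leaf 3 425 425) (node 555 (merge (leaf 5 459 587) (node 523 (merge (leaf 7 426 491) (leaf 4 426 522))))))))))))))))))))))) (node 492 (merge (node 494 (merge (node 495 (merge (leaf 1 492 496) (leaf 0 492 527))) (node 491 (merge (leaf 2 459 462) (node 490 (merge (leaf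 0 489 489) (node 522 (merge (leaf 1 489 521) (leaf 1 490 523))))))))) (merge (node 494 (merge (node 495 (merge (leaf 1 492 496) (leaf 0 492 527))) (node 491 (merge (leaf 2 459 462) (node 490 (merge (leaf 0 489 489) (node 458 (merge (leaf 3 457 457) (leaf 3 458 459))))))))) (merge (node 523 (merge (node 522 (merge (leaf 2 490 494) (leaf 2 489 521))) (merge (node 429 (merge (leaf 5 396 397) (node 428 (merge (leaf 7 396 396) (node 460 (merge (leaf 5 427 555) (node 427 (merge (leaf 7 395 395) (leaf 3 427 462))))))))) (node 494 (merge (leaf 1 491 495) (node 429 (merge (leaf 5 396 397) (node 428 (merge (leaf 7 396 396) (node 460 (merge (leaf 5 427 555) (node 458 (merge (leaf 0 458 459) (node 427 (merge (leaf 7 395 395) (node 426 (merge (leaf 0 425 425) (leaf 1 425 457)))))))))))))))))) (merge (node 523 (merge (node 429 (merge (leaf 5 396 397) (node 428 (merge (leaf 7 396 396) (node 460 (merge (leaf 5 427 555) (node 462 (merge (leaf 3 427 427) (leaf 1 459 491))))))))) (merge (node 522 (merge (leaf 2 489 521) (node 554 (merge (leaf 1 521 553) (node 490 (merge (leaf 3 489 489)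 (node 491 (merge (leaf 2 458 462) (node 586 (merge (leaf 6 458 459) (leaf 6 490 618))))))))))) (merge (node 429 (merge (leaf 5 396 397) (node 428 (merge (leaf 7 396 396) (node 460 (merge (leaf 5 427 555) (node 427 (merge (leaf 7 395 395) (leaf 3 427 462))))))))) (node 522 (merge (leaf 2 489 521) (node 554 (merge (leaf 1 521 553) (node 490 (merge (leaf 3 489 489) (node 429 (merge (leaf 5 396 397) (node 428 (merge (leaf 7 396 396) (node 460 (merge (leaf 5 427 555) (node 427 (merge (leaf 7 395 395) (node 459 (merge (leaf 6 426 458) (leaf 5 426 491))))))))))))))))))))) (node 523 (merge (node 522 (merge (leaf 2 490 494) (leaf 2 489 521))) (merge (node 494 (merge (leaf 1 491 495) (node 429 (merge (leaf 5 396 397) (node 428 (merge (leaf 7 396 396) (node 460 (merge (leaf 5 427 555) (node 458 (merge (leaf 0 458 459) (node 427 (merge (leaf 7 395 395) (node 426 (merge (leaf 0 425 425) (leaf 1 425 457))))))))))))))) (node 522 (merge (leaf 2 489 521) (node 554 (merge (leaf 1 521 553) (node 490 (merge (leaf 3 489 489) (node 429 (merge (leaf 5 396 397) (node 428 (merge (leaf 7 396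 396) (node 460 (merge (leaf 5 427 555) (node 427 (merge (leaf 7 395 395) (node 459 (merge (leaf 6 426 458) (leaf 5 426 491))))))))))))))))))))))))))))) (merge (node 493 (merge (node 556 (merge (leaf 5 428 429) (node 588 (merge (leaf 6 460 492) (leaf 6 492 620))))) (merge (node 429 (merge (leaf 5 428 556) (node 398 (merge (leaf 6 397 430) (node 397 (merge (leaf 6 365 366) (node 396 (merge (leaf 7 364 364) (leaf 7 396 428))))))))) (merge (node 431 (merge (node 495 (merge (leaf 4 431 527) (node 496 (merge (leaf 4 399 399) (leaf 1 492 494))))) (node 429 (merge (node 398 (merge (leaf 6 397 430) (node 397 (merge (leaf 6 365 366) (leaf 5 396 492))))) (merge (node 396 (merge (leaf 7 396 428) (node 397 (merge (leaf 7 364 364) (leaf 5 396 492))))) (node 430 (merge (leaf 6 397 398) (node 428 (merge (leaf 7 396 396) (node 460 (merge (leaf 1 428 432) (leaf 1 427 459)))))))))))) (node 495 (merge (node 494 (merge (leaf 1 492 496) (node 523 (merge (leaf 1 491 492) (leaf 2 490 522))))) (merge (node 431 (merge (leaf 4 431 527) (node 399 (merge (leaf 4 399 496) (node 368 (merge (leaf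 6 367 400) (node 367 (merge (leaf 6 335 336) (node 366 (merge (leaf 7 334 334) (leaf 7 366 398))))))))))) (node 492 (merge (node 527 (merge (leaf 4 431 431) (leaf 0 492 494))) (node 460 (merge (node 428 (merge (leaf 4 396 396) (node 427 (merge (leaf 7 395 395) (node 556 (merge (leaf 7 427 459) (node 588 (merge (leaf 6 460 461) (leaf 6 492 620))))))))) (merge (node 428 (merge (leaf 4 396 396) (node 555 (merge (leaf 5 427 523) (node 556 (merge (leaf 5 459 587) (node 588 (merge (leaf 6 460 461) (leaf 6 492 620))))))))) (merge (node 428 (merge (leaf 4 396 396) (node 427 (merge (leaf 7 395 395) (node 523 (merge (leaf 5 427 555) (node 522 (merge (leaf 2 489 521) (node 554 (merge (leaf 1 521 553) (node 490 (merge (leaf 3 489 489) (node 459 (merge (leaf 6 426 458) (leaf 5 426 491))))))))))))))) (node 556 (merge (leaf 6 460 588) (node 459 (merge (leaf 7 427 427) (node 458 (merge (leaf 0 457 457) (node 490 (merge (leaf 1 457 489) (node 426 (merge (leaf 3 425 425) (node 555 (merge (leaf 5 459 587) (node 523 (merge (leaf 7 426 491) (leaf 4 426 522)))))))))))))))))))))))))))) (merge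 (node 493 (merge (node 556 (merge (leaf 5 428 429) (node 588 (merge (leaf 6 460 492) (leaf 6 492 620))))) (merge (node 429 (merge (leaf 5 428 556) (node 462 (merge (node 428 (merge (leaf 7 396 396) (node 427 (merge (leaf 0 426 426) (leaf 3 427 460))))) (merge (node 396 (merge (leaf 7 396 428) (node 397 (merge (leaf 7 364 364) (node 366 (merge (leaf 6 365 398) (node 365 (merge (leaf 6 333 334) (leaf 4 365 494))))))))) (node 495 (merge (node 496 (merge (leaf 0 460 460) (leaf 1 492 494))) (merge (node 460 (merge (leaf 0 460 496) (node 431 (merge (leaf 2 428 432) (leaf 4 431 527))))) (merge (node 496 (merge (leaf 1 492 494) (node 431 (merge (leaf 4 399 399) (leaf 4 431 527))))) (node 431 (merge (leaf 4 431 527) (node 460 (merge (leaf 2 428 432) (node 459 (merge (leaf 0 459 494) (node 490 (merge (leaf 1 458 491) (node 458 (merge (leaf 1 457 489) (node 426 (merge (leaf 3 425 425) (leaf 3 426 427)))))))))))))))))))))) (merge (node 492 (merge (node 494 (merge (node 495 (merge (leaf 1 492 496) (leaf 0 492 527))) (node 491 (merge (leaf 2 459 462) (node 490 (merge (leaf 0 489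 489) (node 522 (merge (leaf 1 489 521) (leaf 1 490 523))))))))) (merge (node 494 (merge (node 495 (merge (leaf 1 492 496) (leaf 0 492 527))) (node 491 (merge (leaf 2 459 462) (node 490 (merge (leaf 0 489 489) (node 458 (merge (leaf 3 457 457) (leaf 3 458 459))))))))) (merge (node 460 (merge (node 556 (merge (leaf 6 460 588) (node 459 (merge (leaf 7 427 427) (node 458 (merge (leaf 0 457 457) (leaf 0 458 494))))))) (merge (node 428 (merge (leaf 4 396 396) (node 523 (merge (leaf 5 427 555) (node 522 (merge (leaf 2 490 494) (leaf 2 489 521))))))) (node 428 (merge (leaf 4 396 396) (node 427 (merge (leaf 7 395 395) (node 556 (merge (leaf 7 427 459) (node 588 (merge (leaf 6 460 461) (leaf 6 492 620)))))))))))) (node 460 (merge (node 428 (merge (leaf 4 396 396) (node 427 (merge (leaf 7 395 395) (node 556 (merge (leaf 7 427 459) (node 588 (merge (leaf 6 460 461) (leaf 6 492 620))))))))) (merge (node 428 (merge (leaf 4 396 396) (node 555 (merge (leaf 5 427 523) (node 556 (merge (leaf 5 459 587) (node 588 (merge (leaf 6 460 461) (leaf 6 492 620))))))))) (merge (node 428 (merge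 (leaf 4 396 396) (node 427 (merge (leaf 7 395 395) (node 523 (merge (leaf 5 427 555) (node 522 (merge (leaf 2 489 521) (node 554 (merge (leaf 1 521 553) (node 490 (merge (leaf 3 489 489) (node 459 (merge (leaf 6 426 458) (leaf 5 426 491))))))))))))))) (node 556 (merge (leaf 6 460 588) (node 459 (merge (leaf 7 427 427) (node 458 (merge (leaf 0 457 457) (node 490 (merge (leaf 1 457 489) (node 426 (merge (leaf 3 425 425) (node 555 (merge (leaf 5 459 587) (node 523 (merge (leaf 7 426 491) (leaf 4 426 522))))))))))))))))))))))) (node 492 (merge (node 494 (merge (node 495 (merge (leaf 1 492 496) (leaf 0 492 527))) (node 491 (merge (leaf 2 459 462) (node 490 (merge (leaf 0 489 489) (node 458 (merge (leaf 3 457 457) (leaf 3 458 459))))))))) (merge (node 495 (merge (node 494 (merge (leaf 1 491 523) (leaf 0 492 527))) (merge (node 494 (merge (leaf 1 492 496) (leaf 1 491 523))) (node 431 (merge (leaf 4 431 527) (node 399 (merge (leaf 4 399 496) (node 368 (merge (leaf 6 367 400) (node 367 (merge (leaf 6 335 336) (node 366 (merge (leaf 7 334 334) (leaf 7 366 398)))))))))))))) (node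 523 (merge (node 429 (merge (leaf 5 396 397) (node 428 (merge (leaf 7 396 396) (node 460 (merge (leaf 5 427 555) (node 462 (merge (leaf 3 427 427) (leaf 1 459 491))))))))) (merge (node 522 (merge (leaf 2 489 521) (node 554 (merge (leaf 1 521 553) (node 490 (merge (leaf 3 489 489) (node 491 (merge (leaf 2 458 462) (node 586 (merge (leaf 6 458 459) (leaf 6 490 618))))))))))) (merge (node 429 (merge (leaf 5 396 397) (node 428 (merge (leaf 7 396 396) (node 460 (merge (leaf 5 427 555) (node 427 (merge (leaf 7 395 395) (leaf 3 427 462))))))))) (node 522 (merge (leaf 2 489 521) (node 554 (merge (leaf 1 521 553) (node 490 (merge (leaf 3 489 489) (node 429 (merge (leaf 5 396 397) (node 428 (merge (leaf 7 396 396) (node 460 (merge (leaf 5 427 555) (node 427 (merge (leaf 7 395 395) (node 459 (merge (leaf 6 426 458) (leaf 5 426 491)))))))))))))))))))))))))))) (merge (node 495 (merge (node 431 (merge (leaf 4 431 527) (node 496 (merge (leaf 4 399 399) (node 493 (merge (leaf 1 492 494) (node 556 (merge (leaf 5 428 429) (node 588 (merge (leaf 6 460 492) (leaf 6 492 620)))))))))))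 (merge (node 431 (merge (leaf 4 431 527) (node 399 (merge (leaf 4 399 496) (node 368 (merge (leaf 6 367 400) (node 367 (merge (leaf 6 335 336) (node 366 (merge (leaf 7 334 334) (leaf 7 366 398))))))))))) (merge (node 493 (merge (node 494 (merge (leaf 1 492 496) (node 523 (merge (leaf 1 491 492) (leaf 2 490 522))))) (node 429 (merge (leaf 5 428 556) (node 398 (merge (leaf 6 397 430) (node 397 (merge (leaf 6 365 366) (node 396 (merge (leaf 7 364 364) (leaf 7 396 428))))))))))) (node 431 (merge (leaf 4 431 527) (node 429 (merge (node 493 (merge (leaf 5 428 556) (node 396 (merge (leaf 7 396 428) (node 397 (merge (leaf 7 364 364) (leaf 5 396 492))))))) (merge (node 399 (merge (node 400 (merge (leaf 6 367 368) (node 430 (merge (leaf 2 396 428) (node 401 (merge (leaf 1 398 402) (leaf 2 397 432))))))) (merge (node 368 (merge (leaf 6 367 400) (node 367 (merge (leaf 6 335 336) (node 366 (merge (leaf 7 334 334) (leaf 7 366 398))))))) (merge (node 366 (merge (leaf 7 366 398) (node 367 (merge (leaf 7 334 334) (node 336 (merge (leaf 6 335 368) (node 335 (merge (leaf 6 303 304) (node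 462 (merge (leaf 5 334 430) (leaf 5 366 494))))))))))) (node 430 (merge (node 428 (merge (leaf 2 396 400) (node 427 (merge (leaf 2 395 398) (leaf 0 427 462))))) (merge (node 400 (merge (leaf 2 396 428) (node 401 (merge (leaf 1 398 402) (leaf 2 397 432))))) (merge (node 462 (merge (node 367 (merge (leaf 5 334 335) (leaf 5 366 494))) (node 428 (merge (leaf 0 427 427) (node 432 (merge (leaf 1 429 433) (node 396 (merge (leaf 3 395 395) (leaf 3 396 397))))))))) (node 462 (merge (node 367 (merge (leaf 5 334 335) (leaf 5 366 494))) (merge (node 432 (merge (leaf 1 429 433) (node 397 (merge (leaf 3 396 396) (node 365 (merge (leaf 4 333 333) (leaf 4 365 494))))))) (node 432 (merge (leaf 1 429 433) (node 400 (merge (leaf 2 397 401) (node 397 (merge (leaf 3 396 396) (node 365 (merge (leaf 4 333 333) (node 366 (merge (leaf 6 333 334) (node 367 (merge (leaf 5 334 335) (leaf 0 364 364)))))))))))))))))))))))) (node 493 (merge (leaf 5 428 556) (node 398 (merge (leaf 6 397 430) (node 399 (merge (leaf 7 366 366) (node 368 (merge (leaf 6 367 400) (node 367 (merge (leaf 6 335 336) (node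 494 (merge (leaf 5 366 462) (node 523 (merge (leaf 1 491 492) (leaf 2 490 522)))))))))))))))))))))))) (merge (hyp 0) (merge (hyp 1) (merge (node 429 (merge (node 493 (merge (leaf 5 428 556) (node 398 (merge (leaf 6 397 430) (node 397 (merge (leaf 6 365 366) (node 396 (merge (leaf 7 364 364) (leaf 7 396 428))))))))) (merge (node 431 (merge (node 495 (merge (leaf 4 431 527) (node 496 (merge (leaf 4 399 399) (node 493 (merge (leaf 1 492 494) (leaf 5 428 556))))))) (merge (node 493 (merge (leaf 5 428 556) (node 430 (merge (leaf 6 397 398) (node 460 (merge (leaf 1 428 432) (node 459 (merge (leaf 2 426 458) (leaf 2 427 462))))))))) (node 495 (merge (leaf 4 431 527) (node 496 (merge (leaf 4 399 399) (node 462 (merge (leaf 0 460 460) (node 497 (merge (leaf 3 461 494) (leaf 3 462 498)))))))))))) (merge (node 431 (merge (node 495 (merge (leaf 4 431 527) (node 496 (merge (leaf 4 399 399) (node 493 (merge (leaf 1 492 494) (leaf 5 428 556))))))) (merge (node 495 (merge (leaf 4 431 527) (node 399 (merge (leaf 4 399 496) (node 400 (merge (leaf 6 367 368) (node 430 (merge (leaf 2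 396 428) (node 401 (merge (leaf 1 398 402) (leaf 2 397 432))))))))))) (node 460 (merge (node 432 (merge (leaf 1 428 430) (leaf 2 428 462))) (merge (node 462 (merge (leaf 2 428 432) (node 428 (merge (leaf 3 427 427) (node 493 (merge (leaf 7 396 396) (leaf 5 428 556))))))) (node 493 (merge (leaf 5 428 556) (node 428 (merge (leaf 7 396 396) (node 459 (merge (leaf 1 427 430) (node 458 (merge (leaf 2 425 457) (leaf 0 458 494))))))))))))))) (merge (node 430 (merge (node 398 (merge (leaf 6 397 493) (node 366 (merge (leaf 5 333 334) (node 495 (merge (leaf 4 366 462) (node 431 (merge (leaf 7 366 399) (leaf 7 398 527))))))))) (merge (node 493 (merge (leaf 6 397 398) (node 428 (merge (leaf 7 396 396) (node 427 (merge (leaf 0 427 462) (node 458 (merge (leaf 1 426 459) (node 426 (merge (leaf 1 425 457) (node 394 (merge (leaf 3 393 393) (leaf 3 394 395))))))))))))) (merge (node 431 (merge (node 460 (merge (leaf 1 428 432) (node 459 (merge (leaf 2 426 458) (leaf 2 427 462))))) (node 495 (merge (leaf 4 431 527) (node 399 (merge (leaf 4 399 496) (node 400 (merge (leaf 6 367 368) (leaf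 2 396 428))))))))) (node 493 (merge (leaf 6 397 398) (node 396 (merge (leaf 7 396 428) (node 397 (merge (leaf 7 364 364) (node 431 (merge (leaf 3 396 432) (node 495 (merge (leaf 4 431 527) (node 496 (merge (leaf 4 399 399) (leaf 1 492 494))))))))))))))))) (merge (node 493 (merge (leaf 5 428 556) (node 462 (merge (node 428 (merge (leaf 7 396 396) (node 427 (merge (leaf 0 426 426) (leaf 3 427 460))))) (merge (node 396 (merge (leaf 7 396 428) (node 397 (merge (leaf 7 364 364) (node 366 (merge (leaf 6 365 398) (node 365 (merge (leaf 6 333 334) (leaf 4 365 494))))))))) (node 495 (merge (node 496 (merge (leaf 0 460 460) (leaf 1 492 494))) (merge (node 460 (merge (leaf 0 460 496) (node 431 (merge (leaf 2 428 432) (leaf 4 431 527))))) (merge (node 496 (merge (leaf 1 492 494) (node 431 (merge (leaf 4 399 399) (leaf 4 431 527))))) (node 431 (merge (leaf 4 431 527) (node 460 (merge (leaf 2 428 432) (node 459 (merge (leaf 0 459 494) (node 490 (merge (leaf 1 458 491) (node 458 (merge (leaf 1 457 489) (node 426 (merge (leaf 3 425 425) (leaf 3 426 427)))))))))))))))))))))) (node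 431 (merge (node 495 (merge (leaf 4 431 527) (node 496 (merge (leaf 4 399 399) (node 462 (merge (leaf 0 460 460) (node 497 (merge (leaf 3 461 494) (leaf 3 462 498))))))))) (merge (node 495 (merge (leaf 4 431 527) (node 399 (merge (leaf 4 399 496) (node 400 (merge (leaf 6 367 368) (node 430 (merge (leaf 2 396 428) (node 401 (merge (leaf 1 398 402) (leaf 2 397 432))))))))))) (merge (node 460 (merge (node 430 (merge (leaf 1 428 432) (node 459 (merge (leaf 1 427 428) (leaf 2 426 458))))) (merge (node 462 (merge (leaf 2 428 432) (node 495 (merge (leaf 0 460 496) (leaf 4 431 527))))) (node 495 (merge (leaf 4 431 527) (node 462 (merge (leaf 0 460 496) (node 459 (merge (leaf 2 427 430) (leaf 0 459 494)))))))))) (hyp 2))))))))))) (merge (node 431 (merge (node 495 (merge (leaf 4 431 527) (node 399 (merge (leaf 4 399 496) (node 368 (merge (leaf 6 367 400) (node 367 (merge (leaf 6 335 336) (node 366 (merge (leaf 7 334 334) (leaf 7 366 398))))))))))) (node 460 (merge (node 462 (merge (leaf 2 428 432) (node 459 (merge (leaf 2 427 430) (node 427 (merge (leaf 3 426 426) (leaf 3 427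 428))))))) (merge (node 462 (merge (leaf 2 428 432) (node 491 (merge (leaf 1 459 492) (node 459 (merge (leaf 2 427 430) (leaf 1 458 490))))))) (merge (node 462 (merge (node 491 (merge (leaf 1 459 492) (node 459 (merge (leaf 2 427 430) (leaf 1 458 490))))) (merge (node 459 (merge (leaf 2 427 430) (node 427 (merge (leaf 3 426 426) (leaf 3 427 428))))) (node 492 (merge (leaf 1 459 491) (node 429 (merge (leaf 6 428 556) (node 428 (merge (leaf 6 396 397) (leaf 3 427 427)))))))))) (merge (node 462 (merge (leaf 2 428 432) (node 492 (merge (leaf 1 459 491) (node 429 (merge (leaf 6 428 556) (node 428 (merge (leaf 6 396 397) (leaf 3 427 427))))))))) (node 492 (merge (node 429 (merge (leaf 6 428 556) (node 397 (merge (leaf 5 364 365) (leaf 6 396 428))))) (merge (node 556 (merge (leaf 6 428 429) (node 459 (merge (leaf 7 427 427) (node 588 (merge (leaf 7 459 491) (node 587 (merge (leaf 5 459 555) (leaf 5 491 619))))))))) (merge (node 428 (merge (node 427 (merge (leaf 7 395 395) (node 556 (merge (leaf 7 427 459) (node 555 (merge (leaf 5 427 523) (leaf 5 459 587))))))) (merge (node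 523 (merge (leaf 5 427 555) (node 396 (merge (leaf 5 395 491) (node 365 (merge (leaf 6 364 397) (node 364 (merge (leaf 6 332 333) (node 363 (merge (leaf 7 331 331) (leaf 7 363 395))))))))))) (merge (node 396 (merge (node 395 (merge (leaf 7 363 363) (leaf 7 395 427))) (merge (node 365 (merge (leaf 6 364 397) (node 364 (merge (leaf 6 332 333) (node 459 (merge (leaf 5 363 491) (node 427 (merge (leaf 5 331 332) (leaf 7 427 556))))))))) (node 365 (merge (leaf 6 364 397) (node 364 (merge (leaf 6 332 333) (node 363 (merge (leaf 7 331 331) (leaf 7 363 395)))))))))) (node 556 (merge (node 555 (merge (leaf 5 427 523) (leaf 5 459 587))) (merge (node 459 (merge (leaf 7 427 427) (node 588 (merge (leaf 7 459 491) (node 621 (merge (leaf 4 492 589) (node 620 (merge (leaf 4 524 653) (node 619 (merge (leaf 5 491 587) (leaf 5 523 651))))))))))) (node 459 (merge (leaf 7 427 427) (node 491 (merge (leaf 7 459 588) (node 523 (merge (leaf 5 395 396) (leaf 6 427 555)))))))))))))) (node 428 (merge (node 429 (merge (leaf 6 396 397) (node 430 (merge (leaf 1 428 432) (leaf 1 427 459))))) (merge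 (node 523 (merge (leaf 5 427 555) (node 396 (merge (leaf 5 395 491) (node 365 (merge (leaf 6 364 397) (node 364 (merge (leaf 6 332 333) (node 363 (merge (leaf 7 331 331) (leaf 7 363 395))))))))))) (node 427 (merge (leaf 7 395 395) (node 426 (merge (leaf 0 425 425) (node 523 (merge (leaf 5 427 555) (node 491 (merge (leaf 5 395 396) (node 490 (merge (leaf 0 489 489) (node 394 (merge (leaf 4 394 458) (leaf 7 394 459))))))))))))))))))))))))))) (merge (hyp 3) (node 493 (merge (node 556 (merge (leaf 5 428 429) (node 588 (merge (leaf 6 460 492) (leaf 6 492 620))))) (merge (node 495 (merge (node 431 (merge (leaf 4 431 527) (node 496 (merge (leaf 4 399 399) (leaf 1 492 494))))) (merge (node 431 (merge (leaf 4 431 527) (node 429 (merge (leaf 5 428 556) (node 398 (merge (leaf 6 397 430) (node 366 (merge (leaf 6 365 397) (leaf 7 366 399))))))))) (node 494 (merge (leaf 1 492 496) (node 429 (merge (leaf 5 428 556) (node 398 (merge (leaf 6 397 430) (node 397 (merge (leaf 6 365 366) (node 364 (merge (leaf 7 364 396) (node 365 (merge (leaf 7 332 332) (leaf 4 365 462))))))))))))))))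 (merge (node 495 (merge (node 494 (merge (leaf 1 492 496) (node 523 (merge (leaf 1 491 492) (leaf 2 490 522))))) (merge (node 431 (merge (leaf 4 431 527) (node 399 (merge (leaf 4 399 496) (node 368 (merge (leaf 6 367 400) (node 367 (merge (leaf 6 335 336) (node 366 (merge (leaf 7 334 334) (leaf 7 366 398))))))))))) (node 527 (merge (leaf 4 431 431) (node 492 (merge (leaf 0 492 494) (node 429 (merge (leaf 5 396 397) (node 430 (merge (leaf 6 397 398) (node 462 (merge (leaf 7 430 559) (node 491 (merge (leaf 1 459 460) (leaf 2 458 490)))))))))))))))) (node 462 (merge (node 523 (merge (node 522 (merge (leaf 2 490 494) (node 553 (merge (leaf 1 521 554) (node 521 (merge (leaf 2 489 492) (leaf 1 520 552))))))) (merge (node 522 (merge (leaf 2 490 494) (node 553 (merge (leaf 1 521 554) (node 521 (merge (leaf 1 520 552) (node 489 (merge (leaf 3 488 488) (leaf 3 489 490))))))))) (merge (node 495 (merge (node 496 (merge (leaf 0 460 460) (leaf 1 492 494))) (merge (node 494 (merge (leaf 1 491 492) (leaf 1 492 496))) (merge (node 492 (merge (leaf 1 491 494) (node 491 (merge (leaf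 1 459 460) (leaf 2 458 490))))) (node 460 (merge (leaf 0 460 496) (node 491 (merge (leaf 1 459 492) (node 459 (merge (leaf 1 458 490) (node 427 (merge (leaf 3 426 426) (leaf 4 427 556))))))))))))) (node 522 (merge (node 492 (merge (leaf 2 489 521) (node 490 (merge (leaf 3 489 489) (leaf 2 458 491))))) (merge (node 553 (merge (leaf 1 521 554) (node 521 (merge (leaf 1 520 552) (node 489 (merge (leaf 3 488 488) (leaf 3 489 490))))))) (merge (node 553 (merge (leaf 1 521 554) (node 521 (merge (leaf 1 520 552) (node 492 (merge (leaf 2 489 493) (node 491 (merge (leaf 1 459 460) (leaf 2 488 520))))))))) (node 554 (merge (leaf 1 521 553) (node 490 (merge (leaf 3 489 489) (node 491 (merge (leaf 2 458 492) (node 459 (merge (leaf 5 426 427) (leaf 1 458 460))))))))))))))))) (merge (node 523 (merge (node 522 (merge (leaf 2 490 494) (node 553 (merge (leaf 1 521 554) (node 521 (merge (leaf 2 489 492) (leaf 1 520 552))))))) (merge (node 522 (merge (leaf 2 490 494) (node 553 (merge (leaf 1 521 554) (node 521 (merge (leaf 1 520 552) (node 489 (merge (leaf 3 488 488) (leaf 3 489 490)))))))))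 (merge (node 522 (merge (node 492 (merge (leaf 2 489 521) (node 490 (merge (leaf 3 489 489) (leaf 2 458 491))))) (merge (node 553 (merge (leaf 1 521 554) (node 521 (merge (leaf 1 520 552) (node 489 (merge (leaf 3 488 488) (leaf 3 489 490))))))) (merge (node 553 (merge (leaf 1 521 554) (node 521 (merge (leaf 1 520 552) (node 492 (merge (leaf 2 489 493) (node 491 (merge (leaf 1 459 460) (leaf 2 488 520))))))))) (node 554 (merge (leaf 1 521 553) (node 490 (merge (leaf 3 489 489) (node 491 (merge (leaf 2 458 492) (node 459 (merge (leaf 5 426 427) (leaf 1 458 460))))))))))))) (node 491 (merge (node 492 (merge (leaf 1 459 460) (leaf 2 459 494))) (merge (node 492 (merge (leaf 2 458 490) (leaf 2 459 494))) (node 459 (merge (node 460 (merge (leaf 1 458 490) (node 431 (merge (leaf 2 427 430) (leaf 2 428 432))))) (node 556 (merge (leaf 4 427 427) (node 588 (merge (leaf 4 459 555) (leaf 7 491 620)))))))))))))) (merge (node 495 (merge (node 494 (merge (leaf 1 492 496) (node 523 (merge (leaf 1 491 492) (leaf 2 490 522))))) (merge (node 496 (merge (leaf 1 492 494) (node 431 (merge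 (leaf 4 399 399) (leaf 4 431 527))))) (node 527 (merge (leaf 4 431 431) (node 559 (merge (leaf 7 430 430) (node 590 (merge (leaf 5 462 558) (node 591 (merge (leaf 5 494 622) (node 588 (merge (leaf 2 556 589) (node 556 (merge (leaf 6 460 492) (leaf 6 492 620)))))))))))))))) (node 431 (merge (node 432 (merge (leaf 2 428 460) (node 433 (merge (leaf 1 429 430) (leaf 1 430 434))))) (node 495 (merge (leaf 4 431 527) (node 399 (merge (leaf 4 399 496) (node 368 (merge (leaf 6 367 400) (node 367 (merge (leaf 6 335 336) (node 366 (merge (leaf 7 334 334) (leaf 7 366 398)))))))))))))))))))))))))))))))))) nP_307 cP_307 15 (by decide +kernel)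
def nP_308 : ℕ := 0x380000000000000000000000000000000000000000000000000000000000000000000000000000000000000000000000000000000000000000000000000000000000
def cP_308 : ℕ := 0x140000001c0000007fc000007f8000001fc00000078000001f0000001f8000001e0000001c00000010000000000000000000000000000000000000000000000000000000000000000000000000000000000000000000
theorem lP_308 : S nP_308 cP_308 11 := S_of_chk [] trivial (node 555 (merge (node 522 (merge (node 554 (merge (leaf 1 521 553) (node 490 (merge (leaf 3 489 489) (node 458 (merge (leaf 4 426 426) (leaf 4 458 587))))))) (merge (node 521 (merge (node 553 (merge (leaf 1 520 552) (leaf 1 521 554))) (merge (node 520 (merge (leaf 0 520 556) (node 552 (merge (leaf 1 519 551) (leaf 1 520 553))))) (merge (node 520 (merge (leaf 0 520 556) (node 554 (merge (leaf 0 519 519) (leaf 1 521 553))))) (node 520 (merge (leaf 0 520 556) (node 519 (merge (leaf 0 519 554) (node 551 (merge (leaf 1 518 550) (leaf 1 519 552))))))))))) (merge (node 489 (merge (leaf 3 489 490) (node 521 (merge (leaf 3 488 488) (node 520 (merge (leaf 0 520 556) (node 519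 (merge (leaf 0 519 554) (node 551 (merge (leaf 1 518 550) (leaf 1 519 552))))))))))) (node 489 (merge (leaf 3 489 490) (node 521 (merge (leaf 3 488 488) (node 520 (merge (leaf 0 520 556) (node 552 (merge (leaf 1 519 551) (leaf 1 520 553))))))))))))) (merge (node 587 (merge (node 492 (merge (leaf 6 491 619) (node 460 (merge (leaf 5 427 428) (leaf 6 459 491))))) (merge (node 619 (merge (leaf 6 491 492) (node 522 (merge (leaf 7 490 490) (node 554 (merge (leaf 1 521 553) (leaf 7 522 651))))))) (merge (node 491 (merge (node 490 (merge (leaf 7 458 458) (node 489 (merge (leaf 0 488 488) (leaf 3 489 522))))) (node 460 (merge (leaf 6 459 492) (node 459 (merge (leaf 6 427 428) (node 586 (merge (leaf 5 458 554) (leaf 5 490 618))))))))) (node 619 (merge (node 522 (merge (leaf 7 490 490) (node 554 (merge (leaf 1 521 553) (leaf 7 522 651))))) (node 620 (merge (leaf 4 523 652) (node 491 (merge (leaf 4 491 588) (node 618 (merge (leaf 5 490 586) (leaf 5 522 650))))))))))))) (merge (node 587 (merge (node 492 (merge (leaf 6 491 619) (node 460 (merge (leaf 5 427 428) (leaf 6 459 491)))))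 (merge (node 619 (merge (leaf 6 491 492) (node 522 (merge (leaf 7 490 490) (node 554 (merge (leaf 1 521 553) (leaf 7 522 651))))))) (merge (node 619 (merge (node 522 (merge (leaf 7 490 490) (node 554 (merge (leaf 1 521 553) (leaf 7 522 651))))) (node 620 (merge (leaf 4 523 652) (node 491 (merge (leaf 4 491 588) (node 618 (merge (leaf 5 490 586) (leaf 5 522 650))))))))) (node 586 (merge (node 618 (merge (leaf 5 490 491) (node 650 (merge (leaf 6 522 554) (leaf 6 554 682))))) (merge (node 491 (merge (leaf 5 490 618) (node 460 (merge (leaf 6 459 492) (node 459 (merge (leaf 6 427 428) (node 588 (merge (leaf 4 459 556) (leaf 4 491 620))))))))) (merge (node 554 (merge (node 553 (merge (leaf 1 521 522) (leaf 2 520 552))) (node 491 (merge (leaf 5 458 459) (node 492 (merge (leaf 6 459 460) (node 588 (merge (leaf 4 491 620) (node 589 (merge (leaf 3 554 590) (node 621 (merge (leaf 4 492 556) (leaf 0 586 622))))))))))))) (node 585 (merge (node 584 (merge (leaf 2 552 556) (node 615 (merge (leaf 1 583 616) (node 583 (merge (leaf 2 551 554) (leaf 1 582 614))))))) (merge (node 584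 (merge (leaf 2 552 556) (node 616 (merge (leaf 1 583 615) (node 588 (merge (leaf 1 584 617) (node 552 (merge (leaf 3 551 551) (leaf 3 552 553))))))))) (merge (node 588 (merge (node 620 (merge (leaf 0 585 621) (node 652 (merge (leaf 7 523 556) (leaf 7 555 684))))) (node 554 (merge (node 553 (merge (leaf 1 521 522) (leaf 0 552 552))) (node 618 (merge (leaf 6 522 650) (node 589 (merge (leaf 3 554 590) (leaf 1 585 617))))))))) (node 554 (merge (node 553 (merge (leaf 1 521 522) (leaf 2 520 552))) (node 584 (merge (leaf 2 551 583) (node 616 (merge (leaf 1 583 615) (node 588 (merge (leaf 1 584 617) (node 621 (merge (leaf 0 585 620) (node 589 (merge (leaf 3 554 590) (leaf 0 586 622))))))))))))))))))))))))) (merge (node 587 (merge (node 492 (merge (leaf 6 491 619) (node 460 (merge (leaf 5 427 428) (leaf 6 459 491))))) (merge (node 619 (merge (leaf 6 491 492) (node 651 (merge (leaf 6 523 556) (node 652 (merge (leaf 4 523 620) (leaf 4 555 684))))))) (merge (node 619 (merge (node 651 (merge (leaf 6 523 556) (node 650 (merge (leaf 5 522 618) (leaf 5 554 682))))) (merge (node 651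 (merge (leaf 6 523 556) (node 652 (merge (leaf 4 523 620) (leaf 4 555 684))))) (node 620 (merge (leaf 4 523 652) (node 491 (merge (leaf 4 491 588) (node 618 (merge (leaf 5 490 586) (leaf 5 522 650)))))))))) (node 586 (merge (node 618 (merge (leaf 5 490 491) (node 650 (merge (leaf 6 522 554) (leaf 6 554 682))))) (merge (node 491 (merge (leaf 5 490 618) (node 460 (merge (leaf 6 459 492) (node 459 (merge (leaf 6 427 428) (node 588 (merge (leaf 4 459 556) (leaf 4 491 620))))))))) (merge (node 554 (merge (node 553 (merge (leaf 1 521 522) (leaf 2 520 552))) (node 491 (merge (leaf 5 458 459) (node 492 (merge (leaf 6 459 460) (node 588 (merge (leaf 4 491 620) (node 589 (merge (leaf 3 554 590) (node 621 (merge (leaf 4 492 556) (leaf 0 586 622))))))))))))) (node 585 (merge (node 584 (merge (leaf 2 552 556) (node 615 (merge (leaf 1 583 616) (node 583 (merge (leaf 2 551 554) (leaf 1 582 614))))))) (merge (node 584 (merge (leaf 2 552 556) (node 552 (merge (leaf 3 551 551) (node 553 (merge (leaf 3 552 588) (node 521 (merge (leaf 1 520 522) (node 489 (merge (leaf 5 456 457) (leaf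 4 489 618))))))))))) (merge (node 554 (merge (node 553 (merge (leaf 1 521 522) (leaf 2 520 552))) (node 584 (merge (leaf 2 551 583) (node 616 (merge (leaf 1 583 615) (node 588 (merge (leaf 1 584 617) (node 621 (merge (leaf 0 585 620) (node 589 (merge (leaf 3 554 590) (leaf 0 586 622))))))))))))) (node 588 (merge (node 620 (merge (leaf 0 585 621) (node 652 (merge (leaf 7 523 556) (leaf 7 555 684))))) (node 554 (merge (node 553 (merge (leaf 1 521 522) (leaf 0 552 552))) (node 618 (merge (leaf 6 522 650) (node 589 (merge (leaf 3 554 590) (leaf 1 585 617))))))))))))))))))))) (merge (node 522 (merge (node 521 (merge (node 553 (merge (leaf 1 520 552) (leaf 1 521 554))) (merge (node 520 (merge (leaf 0 520 556) (node 552 (merge (leaf 1 519 551) (leaf 1 520 553))))) (merge (node 520 (merge (leaf 0 520 556) (node 554 (merge (leaf 0 519 519) (leaf 1 521 553))))) (node 520 (merge (leaf 0 520 556) (node 519 (merge (leaf 0 519 554) (node 551 (merge (leaf 1 518 550) (leaf 1 519 552))))))))))) (merge (node 489 (merge (leaf 3 489 490) (node 521 (merge (leaf 3 488 488) (node 520 (merge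 (leaf 0 520 556) (node 519 (merge (leaf 0 519 554) (node 551 (merge (leaf 1 518 550) (leaf 1 519 552))))))))))) (merge (node 489 (merge (leaf 3 489 490) (node 521 (merge (leaf 3 488 488) (node 520 (merge (leaf 0 520 556) (node 552 (merge (leaf 1 519 551) (leaf 1 520 553))))))))) (node 554 (merge (leaf 1 521 553) (node 490 (merge (leaf 3 489 489) (node 458 (merge (leaf 4 426 426) (node 459 (merge (leaf 6 426 427) (node 491 (merge (leaf 6 458 586) (node 457 (merge (leaf 7 425 425) (node 456 (merge (leaf 0 455 455) (leaf 0 456 492))))))))))))))))))) (node 587 (merge (node 492 (merge (leaf 6 491 619) (node 460 (merge (leaf 5 427 428) (leaf 6 459 491))))) (merge (node 619 (merge (leaf 6 491 492) (node 651 (merge (leaf 6 523 556) (node 652 (merge (leaf 4 523 620) (leaf 4 555 684))))))) (merge (node 619 (merge (node 651 (merge (leaf 6 523 556) (node 650 (merge (leaf 5 522 618) (leaf 5 554 682))))) (merge (node 651 (merge (leaf 6 523 556) (node 652 (merge (leaf 4 523 620) (leaf 4 555 684))))) (node 620 (merge (leaf 4 523 652) (node 491 (merge (leaf 4 491 588) (node 618 (merge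 (leaf 5 490 586) (leaf 5 522 650)))))))))) (node 491 (merge (node 492 (merge (leaf 6 459 460) (node 490 (merge (leaf 7 458 458) (leaf 0 489 489))))) (merge (node 460 (merge (leaf 6 459 492) (node 459 (merge (leaf 6 427 428) (node 588 (merge (leaf 4 459 556) (leaf 4 491 620))))))) (merge (node 588 (merge (leaf 4 491 620) (node 459 (merge (leaf 4 459 556) (node 428 (merge (leaf 6 427 460) (node 427 (merge (leaf 6 395 396) (node 426 (merge (leaf 7 394 394) (leaf 7 426 458))))))))))) (node 588 (merge (leaf 4 491 620) (node 459 (merge (leaf 4 459 556) (node 426 (merge (leaf 7 426 458) (node 427 (merge (leaf 7 394 394) (node 396 (merge (leaf 6 395 428) (node 395 (merge (leaf 6 363 364) (leaf 4 395 492))))))))))))))))))))))))))) nP_308 cP_308 11 (by decide +kernel)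
def nP_309 : ℕ := 0x1380000000000000080000000800000000000000000000000000000000000000000000000000000000000000000000000000000000000000000000000000000000000
def cP_309 : ℕ := 0x4f00000044000001d00000007000001f7c00000ff800001ff8000003f0000003c0000001c0000001000000000000000000000000000000000000000000000000000000000000
theorem lP_309 : S nP_309 cP_309 10 := S_of_chk [] trivial (node 399 (merge (node 495 (merge (leaf 4 399 496) (node 368 (merge (leaf 6 367 400) (node 367 (merge (leaf 6 335 336) (node 366 (merge (leaf 7 334 334) (leaf 7 366 398))))))))) (merge (node 495 (merge (leaf 4 399 496) (node 368 (merge (leaf 6 367 400) (node 367 (merge (leaf 6 335 336) (node 494 (merge (leaf 5 366 462) (leaf 2 491 526))))))))) (merge (node 495 (merge (leaf 4 399 496) (node 366 (merge (leaf 7 366 398) (node 367 (merge (leaf 7 334 334) (node 494 (merge (leaf 5 366 462) (leaf 2 491 526))))))))) (merge (node 398 (merge (node 495 (merge (leaf 7 366 366) (leaf 4 399 496))) (merge (node 400 (merge (node 401 (merge (node 430 (merge (leaf 1 398 402) (leaf 1 397 429))) (node 369 (merge (leaf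 2 366 370) (node 397 (merge (leaf 2 365 368) (node 365 (merge (leaf 3 364 364) (leaf 3 365 366))))))))) (merge (node 401 (merge (node 430 (merge (leaf 1 398 402) (leaf 1 397 429))) (node 433 (merge (leaf 0 398 434) (node 397 (merge (leaf 0 397 432) (node 369 (merge (leaf 2 365 368) (leaf 2 366 370))))))))) (merge (node 397 (merge (node 432 (merge (leaf 0 396 396) (leaf 0 397 433))) (merge (node 428 (merge (leaf 1 396 429) (node 396 (merge (leaf 1 395 427) (node 364 (merge (leaf 3 363 363) (leaf 3 364 365))))))) (node 433 (merge (leaf 0 397 432) (node 401 (merge (leaf 0 398 434) (node 365 (merge (leaf 3 364 364) (leaf 3 365 366)))))))))) (merge (node 397 (merge (node 428 (merge (leaf 1 396 429) (node 396 (merge (leaf 1 395 427) (node 364 (merge (leaf 3 363 363) (leaf 3 364 365))))))) (node 432 (merge (leaf 0 397 433) (node 368 (merge (leaf 5 335 336) (leaf 2 365 369))))))) (merge (node 433 (merge (node 432 (merge (leaf 0 397 397) (leaf 3 398 434))) (merge (node 401 (merge (leaf 0 398 434) (node 402 (merge (leaf 1 398 430) (node 370 (merge (leaf 2 366 369) (leaf 2 367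 371))))))) (node 397 (merge (leaf 0 397 432) (node 365 (merge (leaf 3 364 364) (node 366 (merge (leaf 3 365 401) (node 334 (merge (leaf 4 302 302) (leaf 4 334 430)))))))))))) (node 401 (merge (node 430 (merge (leaf 1 398 402) (leaf 1 397 429))) (merge (node 430 (merge (leaf 1 397 429) (node 366 (merge (leaf 4 334 334) (leaf 3 365 365))))) (node 434 (merge (leaf 0 398 433) (node 402 (merge (leaf 0 399 435) (node 370 (merge (leaf 2 366 369) (leaf 2 367 371)))))))))))))))) (node 397 (merge (node 432 (merge (leaf 0 396 396) (node 433 (merge (leaf 0 397 400) (leaf 3 398 434))))) (merge (node 396 (merge (leaf 0 396 432) (node 395 (merge (leaf 0 395 430) (node 427 (merge (leaf 1 394 426) (leaf 1 395 428))))))) (merge (node 495 (merge (leaf 4 399 496) (node 400 (merge (leaf 6 367 368) (node 433 (merge (leaf 0 397 432) (node 401 (merge (leaf 0 398 434) (node 429 (merge (leaf 1 396 428) (leaf 1 397 430))))))))))) (node 495 (merge (leaf 4 399 496) (node 400 (merge (leaf 6 367 368) (node 429 (merge (leaf 1 396 428) (node 430 (merge (leaf 1 397 401) (node 396 (merge (leaf 0 395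 395) (node 364 (merge (leaf 3 363 363) (leaf 3 364 365)))))))))))))))))))) (node 400 (merge (node 367 (merge (node 368 (merge (leaf 6 335 336) (node 366 (merge (leaf 7 334 334) (node 365 (merge (leaf 0 364 364) (leaf 0 365 401))))))) (merge (node 336 (merge (leaf 6 335 368) (node 335 (merge (leaf 6 303 304) (node 462 (merge (leaf 5 334 430) (leaf 5 366 494))))))) (node 334 (merge (leaf 7 334 366) (node 335 (merge (leaf 7 302 302) (node 462 (merge (leaf 5 334 430) (leaf 5 366 494)))))))))) (merge (node 367 (merge (node 366 (merge (leaf 7 334 334) (node 365 (merge (leaf 0 364 364) (node 401 (merge (leaf 3 365 398) (leaf 3 366 402))))))) (node 335 (merge (node 336 (merge (leaf 6 303 304) (leaf 6 335 368))) (merge (node 304 (merge (leaf 6 303 336) (node 303 (merge (leaf 6 271 272) (leaf 4 303 432))))) (merge (node 368 (merge (leaf 6 335 336) (node 303 (merge (leaf 4 271 271) (leaf 4 303 432))))) (node 303 (merge (leaf 4 303 432) (node 272 (merge (leaf 6 271 304) (node 271 (merge (leaf 6 239 240) (leaf 4 271 368))))))))))))) (merge (node 367 (merge (node 366 (merge (leaf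 7 334 334) (node 365 (merge (leaf 0 364 364) (node 401 (merge (leaf 3 365 398) (leaf 3 366 402))))))) (node 462 (merge (leaf 5 366 494) (node 335 (merge (leaf 5 334 430) (node 303 (merge (leaf 4 303 432) (node 272 (merge (leaf 6 271 304) (node 271 (merge (leaf 6 239 240) (leaf 4 271 368))))))))))))) (merge (node 367 (merge (node 366 (merge (leaf 7 334 334) (node 365 (merge (leaf 0 364 364) (node 401 (merge (leaf 3 365 398) (leaf 3 366 402))))))) (node 462 (merge (leaf 5 366 494) (node 335 (merge (leaf 5 334 430) (node 304 (merge (leaf 6 303 336) (node 303 (merge (leaf 6 271 272) (leaf 4 303 432))))))))))) (merge (node 401 (merge (node 430 (merge (leaf 1 398 402) (node 429 (merge (leaf 2 396 428) (leaf 2 397 432))))) (merge (node 430 (merge (leaf 1 398 402) (node 429 (merge (leaf 1 397 398) (leaf 2 396 428))))) (merge (node 402 (merge (node 435 (merge (leaf 0 399 434) (node 403 (merge (leaf 1 399 432) (leaf 0 400 436))))) (merge (node 403 (merge (leaf 1 399 432) (node 371 (merge (leaf 2 367 370) (leaf 2 368 372))))) (node 434 (merge (leaf 0 399 435) (node 398 (merge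 (leaf 0 398 433) (node 370 (merge (leaf 2 366 369) (leaf 2 367 371)))))))))) (node 433 (merge (node 434 (merge (leaf 0 398 398) (node 435 (merge (leaf 3 399 432) (leaf 3 400 436))))) (merge (node 398 (merge (leaf 0 398 434) (node 429 (merge (leaf 1 397 430) (node 397 (merge (leaf 1 396 428) (node 369 (merge (leaf 2 365 368) (leaf 2 366 370))))))))) (merge (node 432 (merge (node 430 (merge (leaf 2 397 429) (node 462 (merge (leaf 1 429 461) (node 367 (merge (leaf 5 334 335) (leaf 5 366 494))))))) (node 398 (merge (leaf 0 397 397) (node 369 (merge (leaf 2 366 370) (node 337 (merge (leaf 5 304 305) (node 336 (merge (leaf 7 304 304) (leaf 5 335 368))))))))))) (node 462 (merge (node 432 (merge (leaf 1 430 434) (node 461 (merge (leaf 1 429 430) (leaf 2 428 460))))) (merge (node 494 (merge (leaf 5 366 367) (node 526 (merge (leaf 6 398 430) (leaf 6 430 558))))) (node 432 (merge (leaf 1 430 434) (node 336 (merge (leaf 5 335 368) (node 367 (merge (leaf 5 366 494) (node 335 (merge (leaf 4 303 303) (leaf 6 303 304)))))))))))))))))))) (merge (node 398 (merge (node 401 (merge (node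 430 (merge (leaf 1 398 402) (leaf 1 397 429))) (node 369 (merge (leaf 2 366 370) (node 397 (merge (leaf 2 365 368) (node 365 (merge (leaf 3 364 364) (leaf 3 365 366))))))))) (merge (node 401 (merge (node 430 (merge (leaf 1 398 402) (leaf 1 397 429))) (node 433 (merge (leaf 0 398 434) (node 397 (merge (leaf 0 397 432) (node 369 (merge (leaf 2 365 368) (leaf 2 366 370))))))))) (merge (node 397 (merge (node 432 (merge (leaf 0 396 396) (leaf 0 397 433))) (merge (node 428 (merge (leaf 1 396 429) (node 396 (merge (leaf 1 395 427) (node 364 (merge (leaf 3 363 363) (leaf 3 364 365))))))) (node 433 (merge (leaf 0 397 432) (node 401 (merge (leaf 0 398 434) (node 365 (merge (leaf 3 364 364) (leaf 3 365 366)))))))))) (merge (node 397 (merge (node 428 (merge (leaf 1 396 429) (node 396 (merge (leaf 1 395 427) (node 364 (merge (leaf 3 363 363) (leaf 3 364 365))))))) (node 432 (merge (leaf 0 397 433) (node 368 (merge (leaf 5 335 336) (leaf 2 365 369))))))) (merge (node 433 (merge (node 432 (merge (leaf 0 397 397) (leaf 3 398 434))) (merge (node 401 (merge (leaf 0 398 434) (node 402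 (merge (leaf 1 398 430) (node 370 (merge (leaf 2 366 369) (leaf 2 367 371))))))) (node 397 (merge (leaf 0 397 432) (node 365 (merge (leaf 3 364 364) (node 366 (merge (leaf 3 365 401) (node 334 (merge (leaf 4 302 302) (leaf 4 334 430)))))))))))) (node 401 (merge (node 430 (merge (leaf 1 398 402) (leaf 1 397 429))) (merge (node 430 (merge (leaf 1 397 429) (node 366 (merge (leaf 4 334 334) (leaf 3 365 365))))) (node 434 (merge (leaf 0 398 433) (node 402 (merge (leaf 0 399 435) (node 370 (merge (leaf 2 366 369) (leaf 2 367 371)))))))))))))))) (node 398 (merge (node 397 (merge (node 368 (merge (leaf 2 365 369) (node 336 (merge (leaf 5 303 304) (leaf 6 335 367))))) (node 428 (merge (leaf 1 396 429) (node 396 (merge (leaf 1 395 427) (node 364 (merge (leaf 3 363 363) (leaf 3 364 365))))))))) (merge (node 397 (merge (node 428 (merge (leaf 1 396 429) (node 396 (merge (leaf 1 395 427) (node 364 (merge (leaf 3 363 363) (leaf 3 364 365))))))) (node 432 (merge (leaf 0 397 433) (node 368 (merge (leaf 5 335 336) (leaf 2 365 369))))))) (merge (node 367 (merge (node 462 (merge (leaf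 5 366 494) (node 335 (merge (leaf 5 334 430) (node 303 (merge (leaf 4 303 432) (node 271 (merge (leaf 5 270 366) (leaf 4 271 368))))))))) (merge (node 336 (merge (leaf 6 335 368) (node 335 (merge (leaf 6 303 304) (node 302 (merge (leaf 7 302 334) (node 303 (merge (leaf 7 270 270) (leaf 4 303 432))))))))) (merge (node 368 (merge (leaf 6 335 336) (node 366 (merge (leaf 7 334 334) (node 365 (merge (leaf 0 364 364) (node 333 (merge (leaf 3 332 332) (node 462 (merge (leaf 7 333 430) (leaf 5 366 494))))))))))) (node 462 (merge (leaf 5 366 494) (node 335 (merge (leaf 5 334 430) (node 304 (merge (leaf 6 303 336) (node 303 (merge (leaf 6 271 272) (leaf 4 303 432))))))))))))) (node 462 (merge (node 494 (merge (leaf 5 366 367) (node 526 (merge (leaf 6 398 430) (leaf 6 430 558))))) (merge (node 367 (merge (leaf 5 366 494) (node 334 (merge (leaf 7 334 366) (node 335 (merge (leaf 7 302 302) (node 432 (merge (leaf 4 303 303) (node 397 (merge (leaf 0 396 396) (leaf 0 397 433))))))))))) (node 555 (merge (node 554 (merge (leaf 1 522 526) (node 553 (merge (leaf 1 521 522) (leaf 2 520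 552))))) (node 432 (merge (node 433 (merge (leaf 0 397 397) (leaf 3 398 434))) (merge (node 397 (merge (leaf 0 396 396) (node 428 (merge (leaf 1 396 429) (node 460 (merge (leaf 2 428 461) (leaf 5 427 492))))))) (node 433 (merge (leaf 1 430 434) (node 461 (merge (leaf 1 429 430) (leaf 2 428 460))))))))))))))))))))))))))))) nP_309 cP_309 10 (by decide +kernel)
def nP_310 : ℕ := 0x100000001300000000000000080000000000000000000000000000000000000000000000000000000000000000000000000000000000000000000000000000000000000000000
def cP_310 : ℕ := 0x140000001c0000007fc000007f800002dfc00000cf800001df0000007f80001ffe00000ffc00001ff8000003f0000003c0000001c0000001000000000000000000000000000000000000000000000000000000000000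
theorem lP_310 : S nP_310 cP_310 14 := S_of_chk [(nP_308, cP_308, 11), (nP_309, cP_309, 10)] ⟨lP_308, lP_309, trivial⟩ (node 523 (merge (node 526 (merge (node 527 (merge (leaf 0 524 559) (leaf 0 525 561))) (node 554 (merge (leaf 1 522 555) (node 522 (merge (leaf 1 521 553) (node 490 (merge (leaf 3 489 489) (leaf 3 490 491))))))))) (merge (node 526 (merge (node 559 (merge (leaf 0 524 527) (leaf 0 523 558))) (merge (node 495 (merge (leaf 2 491 494) (node 527 (merge (leaf 4 431 431) (leaf 2 492 496))))) (node 491 (merge (leaf 3 490 490) (node 558 (merge (leaf 0 523 559) (node 494 (merge (leaf 2 491 495) (node 462 (merge (leaf 6 430 431) (node 461 (merge (leaf 7 429 429) (node 460 (merge (leaf 1 459 492) (node 427 (merge (leaf 3 427 428) (node 459 (merge (leaf 3 426 426) (leaf 4 427 556)))))))))))))))))))) (merge (hyp 0) (merge (node 555 (merge (node 526 (merge (leaf 1 522 554) (node 559 (merge (leaf 0 524 527) (leaf 0 523 558))))) (merge (node 587 (merge (node 492 (merge (leaf 6 491 619) (node 460 (merge (leaf 5 427 428) (leaf 6 459 491))))) (merge (node 619 (merge (leaf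 6 491 492) (node 651 (merge (leaf 6 523 556) (node 652 (merge (leaf 4 523 620) (leaf 4 555 684))))))) (merge (node 619 (merge (node 651 (merge (leaf 6 523 556) (node 650 (merge (leaf 5 522 618) (leaf 5 554 682))))) (merge (node 651 (merge (leaf 6 523 556) (node 652 (merge (leaf 4 523 620) (leaf 4 555 684))))) (node 620 (merge (leaf 4 523 652) (node 491 (merge (leaf 4 491 588) (node 618 (merge (leaf 5 490 586) (leaf 5 522 650)))))))))) (node 586 (merge (node 618 (merge (leaf 5 490 491) (node 650 (merge (leaf 6 522 554) (leaf 6 554 682))))) (merge (node 491 (merge (leaf 5 490 618) (node 460 (merge (leaf 6 459 492) (node 459 (merge (leaf 6 427 428) (node 588 (merge (leaf 4 459 556) (leaf 4 491 620))))))))) (merge (node 554 (merge (node 553 (merge (leaf 1 521 522) (leaf 2 520 552))) (node 491 (merge (leaf 5 458 459) (node 492 (merge (leaf 6 459 460) (node 588 (merge (leaf 4 491 620) (node 589 (merge (leaf 3 554 590) (node 621 (merge (leaf 4 492 556) (leaf 0 586 622))))))))))))) (node 585 (merge (node 584 (merge (leaf 2 552 556) (node 615 (merge (leaf 1 583 616) (node 583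 (merge (leaf 2 551 554) (leaf 1 582 614))))))) (merge (node 584 (merge (leaf 2 552 556) (node 552 (merge (leaf 3 551 551) (node 553 (merge (leaf 3 552 588) (node 521 (merge (leaf 1 520 522) (node 489 (merge (leaf 5 456 457) (leaf 4 489 618))))))))))) (merge (node 554 (merge (node 553 (merge (leaf 1 521 522) (leaf 2 520 552))) (node 584 (merge (leaf 2 551 583) (node 616 (merge (leaf 1 583 615) (node 588 (merge (leaf 1 584 617) (node 621 (merge (leaf 0 585 620) (node 589 (merge (leaf 3 554 590) (leaf 0 586 622))))))))))))) (node 588 (merge (node 620 (merge (leaf 0 585 621) (node 652 (merge (leaf 7 523 556) (leaf 7 555 684))))) (node 554 (merge (node 553 (merge (leaf 1 521 522) (leaf 0 552 552))) (node 618 (merge (leaf 6 522 650) (node 589 (merge (leaf 3 554 590) (leaf 1 585 617))))))))))))))))))))) (node 460 (merge (node 492 (merge (leaf 5 427 428) (node 587 (merge (leaf 6 459 491) (leaf 6 491 619))))) (merge (node 492 (merge (leaf 5 427 428) (node 587 (merge (leaf 5 459 556) (leaf 6 491 619))))) (merge (node 587 (merge (node 492 (merge (leaf 6 459 491) (leaf 5 459 556)))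 (merge (node 619 (merge (leaf 6 491 492) (node 652 (merge (leaf 4 523 620) (node 651 (merge (leaf 4 555 684) (node 650 (merge (leaf 5 522 618) (leaf 5 554 682))))))))) (node 619 (merge (node 651 (merge (leaf 6 523 556) (node 650 (merge (leaf 5 522 618) (leaf 5 554 682))))) (merge (node 651 (merge (leaf 6 523 556) (node 652 (merge (leaf 4 523 620) (leaf 4 555 684))))) (node 620 (merge (leaf 4 523 652) (node 491 (merge (leaf 4 491 588) (node 618 (merge (leaf 5 490 586) (leaf 5 522 650))))))))))))) (node 431 (merge (node 495 (merge (leaf 4 431 527) (node 399 (merge (leaf 4 399 496) (node 368 (merge (leaf 6 367 400) (node 367 (merge (leaf 6 335 336) (node 366 (merge (leaf 7 334 334) (leaf 7 366 398))))))))))) (merge (node 526 (merge (node 527 (merge (leaf 1 523 556) (leaf 0 525 561))) (node 558 (merge (leaf 0 523 559) (node 462 (merge (leaf 6 430 494) (node 461 (merge (leaf 2 428 432) (node 459 (merge (leaf 2 427 430) (node 427 (merge (leaf 3 426 426) (leaf 3 427 428))))))))))))) (node 399 (merge (node 495 (merge (leaf 4 399 496) (node 368 (merge (leaf 6 367 400) (node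 367 (merge (leaf 6 335 336) (node 366 (merge (leaf 7 334 334) (leaf 7 366 398))))))))) (merge (node 495 (merge (leaf 4 399 496) (node 366 (merge (leaf 7 366 398) (node 367 (merge (leaf 7 334 334) (node 494 (merge (leaf 5 366 462) (leaf 2 491 526))))))))) (merge (node 495 (merge (leaf 4 399 496) (node 368 (merge (leaf 6 367 400) (node 367 (merge (leaf 6 335 336) (node 494 (merge (leaf 5 366 462) (leaf 2 491 526))))))))) (merge (node 367 (merge (node 336 (merge (leaf 6 335 368) (node 335 (merge (leaf 6 303 304) (node 334 (merge (leaf 7 302 302) (leaf 7 334 366))))))) (node 462 (merge (leaf 5 366 494) (node 461 (merge (leaf 2 428 432) (node 459 (merge (leaf 2 427 430) (node 427 (merge (leaf 3 426 426) (leaf 3 427 428))))))))))) (node 430 (merge (node 461 (merge (node 432 (merge (leaf 1 428 429) (leaf 2 428 462))) (merge (node 462 (merge (leaf 2 428 432) (leaf 2 427 459))) (merge (node 429 (merge (leaf 1 428 432) (node 459 (merge (leaf 1 427 428) (leaf 2 426 458))))) (node 459 (merge (leaf 2 427 462) (node 429 (merge (leaf 1 427 428) (leaf 2 426 458))))))))) (merge (node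 495 (merge (leaf 4 399 496) (node 400 (merge (leaf 6 367 368) (node 398 (merge (leaf 7 366 366) (node 401 (merge (leaf 1 398 402) (leaf 1 397 429))))))))) (node 459 (merge (node 491 (merge (leaf 6 427 428) (node 556 (merge (leaf 4 427 427) (leaf 4 459 588))))) (node 462 (merge (leaf 2 427 461) (node 494 (merge (leaf 6 398 526) (node 495 (merge (leaf 4 399 496) (node 398 (merge (leaf 7 366 366) (node 397 (merge (leaf 7 365 365) (node 396 (merge (leaf 0 395 395) (leaf 0 396 432))))))))))))))))))))))))))))))))) (node 431 (merge (node 527 (merge (leaf 4 431 495) (node 526 (merge (leaf 0 524 559) (leaf 0 525 561))))) (merge (node 495 (merge (leaf 4 431 527) (node 399 (merge (leaf 4 399 496) (node 368 (merge (leaf 6 367 400) (node 367 (merge (leaf 6 335 336) (node 366 (merge (leaf 7 334 334) (leaf 7 366 398))))))))))) (merge (node 555 (merge (node 526 (merge (leaf 1 522 554) (node 559 (merge (leaf 0 524 527) (leaf 0 523 558))))) (merge (node 522 (merge (node 554 (merge (leaf 1 521 553) (node 490 (merge (leaf 3 489 489) (node 458 (merge (leaf 4 426 426) (leaf 4 458 587)))))))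 (merge (node 521 (merge (node 553 (merge (leaf 1 520 552) (leaf 1 521 554))) (merge (node 520 (merge (leaf 0 520 556) (node 552 (merge (leaf 1 519 551) (leaf 1 520 553))))) (merge (node 520 (merge (leaf 0 520 556) (node 554 (merge (leaf 0 519 519) (leaf 1 521 553))))) (node 520 (merge (leaf 0 520 556) (node 519 (merge (leaf 0 519 554) (node 551 (merge (leaf 1 518 550) (leaf 1 519 552))))))))))) (merge (node 489 (merge (leaf 3 489 490) (node 521 (merge (leaf 3 488 488) (node 520 (merge (leaf 0 520 556) (node 519 (merge (leaf 0 519 554) (node 551 (merge (leaf 1 518 550) (leaf 1 519 552))))))))))) (node 489 (merge (leaf 3 489 490) (node 521 (merge (leaf 3 488 488) (node 520 (merge (leaf 0 520 556) (node 552 (merge (leaf 1 519 551) (leaf 1 520 553))))))))))))) (node 460 (merge (node 492 (merge (leaf 5 427 428) (node 587 (merge (leaf 5 459 556) (leaf 6 491 619))))) (merge (node 526 (merge (node 527 (merge (leaf 1 523 556) (leaf 0 525 561))) (node 558 (merge (leaf 0 523 559) (node 462 (merge (leaf 6 430 494) (node 461 (merge (leaf 2 428 432) (node 459 (merge (leaf 2 427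 430) (node 426 (merge (leaf 3 426 427) (node 458 (merge (leaf 3 425 425) (node 490 (merge (leaf 1 457 489) (leaf 4 426 522))))))))))))))))) (node 430 (merge (node 428 (merge (leaf 5 427 492) (node 429 (merge (leaf 1 427 459) (node 427 (merge (leaf 0 427 462) (node 395 (merge (leaf 3 394 394) (leaf 3 395 396))))))))) (merge (node 462 (merge (node 461 (merge (leaf 2 428 432) (leaf 2 427 459))) (node 526 (merge (node 494 (merge (leaf 6 398 399) (leaf 6 430 558))) (node 527 (merge (leaf 0 524 559) (leaf 0 525 561))))))) (merge (node 428 (merge (leaf 5 427 492) (node 429 (merge (leaf 1 427 459) (node 432 (merge (leaf 1 428 461) (node 400 (merge (leaf 2 396 399) (leaf 2 397 401))))))))) (node 462 (merge (node 461 (merge (leaf 2 428 432) (node 428 (merge (leaf 3 427 427) (leaf 5 427 492))))) (merge (node 432 (merge (leaf 2 428 461) (node 433 (merge (leaf 1 430 434) (node 401 (merge (leaf 2 398 402) (node 429 (merge (leaf 2 397 400) (node 397 (merge (leaf 3 396 396) (leaf 3 397 398))))))))))) (node 428 (merge (leaf 5 427 492) (node 429 (merge (leaf 0 427 427) (node 399 (merge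 (leaf 2 396 400) (node 367 (merge (leaf 5 334 335) (leaf 5 366 494)))))))))))))))))))))) (hyp 1)))))))))) nP_310 cP_310 14 (by decide +kernel)
def nP_311 : ℕ := 0x100000001200000000000000080000000000000000000000000000000000000000000000000000000000000000000000000000000000000000000000000000000000000000000
def cP_311 : ℕ := 0xbc000000fc000000ffc00000ff800002dfc00000df800007ff8000007f80001fff00000fff00001ffe000003f8000003f0000001f0000001100000000000000000000000000000000000000000000000000000000000
theorem lP_311 : S nP_311 cP_311 16 := S_of_chk [(nP_277, cP_277, 12), (nP_300, cP_300, 11), (nP_302, cP_302, 14), (nP_307, cP_307, 15), (nP_310, cP_310, 14)] ⟨lP_277, lP_300, lP_302, lP_307, lP_310, trivial⟩ (node 524 (merge (node 495 (merge (node 527 (merge (leaf 4 431 431) (node 526 (merge (leaf 0 525 561) (node 492 (merge (leaf 3 491 491) (leaf 3 492 493))))))) (merge (node 494 (merge (node 526 (merge (leaf 2 491 523) (node 527 (merge (leaf 2 492 496) (leaf 0 525 561))))) (merge (node 493 (merge (leaf 1 492 496) (node 492 (merge (leaf 1 491 523) (leaf 0 492 527))))) (merge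 (node 523 (merge (leaf 2 491 526) (node 493 (merge (leaf 1 491 492) (leaf 2 490 522))))) (node 496 (merge (leaf 1 492 493) (node 497 (merge (leaf 1 493 526) (node 462 (merge (leaf 3 461 461) (leaf 3 462 498))))))))))) (merge (node 494 (merge (node 526 (merge (leaf 2 491 523) (node 558 (merge (leaf 6 462 590) (node 431 (merge (leaf 5 398 399) (leaf 6 430 462))))))) (merge (node 493 (merge (leaf 1 492 496) (node 523 (merge (leaf 1 491 492) (leaf 2 490 522))))) (node 496 (merge (leaf 1 492 493) (node 497 (merge (leaf 1 493 526) (node 462 (merge (leaf 3 461 461) (leaf 3 462 498)))))))))) (node 431 (merge (leaf 4 431 527) (node 399 (merge (leaf 4 399 496) (node 368 (merge (leaf 6 367 400) (node 367 (merge (leaf 6 335 336) (node 366 (merge (leaf 7 334 334) (leaf 7 366 398))))))))))))))) (merge (node 526 (merge (node 527 (merge (leaf 0 524 559) (leaf 0 525 561))) (merge (node 527 (merge (leaf 0 525 561) (node 492 (merge (leaf 3 491 491) (leaf 3 492 493))))) (node 523 (merge (node 554 (merge (leaf 1 522 555) (node 522 (merge (leaf 1 521 553) (node 490 (merge (leaf 3 489 489)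 (leaf 3 490 491))))))) (merge (node 491 (merge (leaf 3 490 490) (node 459 (merge (node 556 (merge (leaf 4 427 427) (node 588 (merge (leaf 7 459 492) (leaf 7 491 620))))) (merge (node 555 (merge (leaf 1 522 554) (node 556 (merge (leaf 4 427 427) (leaf 4 459 588))))) (merge (node 555 (merge (leaf 1 522 554) (node 460 (merge (leaf 6 427 428) (node 492 (merge (leaf 6 459 587) (node 426 (merge (leaf 7 426 458) (node 427 (merge (leaf 7 394 394) (leaf 4 395 395))))))))))) (node 555 (merge (leaf 1 522 554) (node 460 (merge (leaf 6 427 428) (node 587 (merge (leaf 6 459 492) (node 588 (merge (leaf 4 459 556) (leaf 4 491 620))))))))))))))) (merge (node 490 (merge (leaf 3 490 491) (node 522 (merge (leaf 3 489 489) (node 553 (merge (leaf 1 521 554) (node 521 (merge (leaf 1 520 552) (node 493 (merge (leaf 2 489 492) (leaf 2 490 494))))))))))) (merge (node 522 (merge (node 554 (merge (leaf 1 521 553) (leaf 1 522 555))) (merge (node 493 (merge (leaf 2 490 494) (node 521 (merge (leaf 2 489 492) (node 552 (merge (leaf 1 520 553) (node 520 (merge (leaf 1 519 551) (node 488 (merge (leaf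 3 487 487) (leaf 3 488 489))))))))))) (node 555 (merge (leaf 1 522 554) (node 493 (merge (leaf 2 490 494) (node 521 (merge (leaf 2 489 492) (node 520 (merge (leaf 0 520 556) (node 488 (merge (leaf 3 487 487) (leaf 3 488 489)))))))))))))) (node 522 (merge (node 490 (merge (leaf 3 489 489) (leaf 3 490 491))) (merge (node 493 (merge (leaf 2 490 494) (node 521 (merge (leaf 2 489 492) (node 552 (merge (leaf 1 520 553) (node 520 (merge (leaf 1 519 551) (node 488 (merge (leaf 3 487 487) (leaf 3 488 489))))))))))) (node 558 (merge (leaf 0 523 559) (node 493 (merge (leaf 2 490 494) (node 492 (merge (leaf 2 489 521) (node 491 (merge (leaf 0 490 490) (node 461 (merge (leaf 4 429 429) (node 460 (merge (leaf 1 459 462) (node 428 (merge (leaf 4 396 396) (leaf 5 427 555)))))))))))))))))))))))))) (merge (node 495 (merge (node 527 (merge (leaf 4 431 431) (node 526 (merge (leaf 0 524 559) (leaf 0 525 561))))) (merge (node 494 (merge (node 523 (merge (leaf 2 491 526) (node 493 (merge (leaf 1 491 492) (leaf 2 490 522))))) (merge (node 493 (merge (leaf 1 492 496) (node 523 (merge (leaf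 1 491 492) (leaf 2 490 522))))) (merge (node 496 (merge (leaf 1 492 493) (node 497 (merge (leaf 1 493 526) (node 462 (merge (leaf 3 461 461) (leaf 3 462 498))))))) (node 526 (merge (leaf 2 491 523) (node 558 (merge (leaf 6 462 590) (node 496 (merge (leaf 1 493 497) (node 559 (merge (leaf 3 525 561) (node 462 (merge (leaf 4 462 591) (node 461 (merge (leaf 7 429 429) (leaf 0 460 460))))))))))))))))) (node 431 (merge (leaf 4 431 527) (node 399 (merge (leaf 4 399 496) (node 368 (merge (leaf 6 367 400) (node 367 (merge (leaf 6 335 336) (node 366 (merge (leaf 7 334 334) (leaf 7 366 398)))))))))))))) (merge (node 526 (merge (node 527 (merge (leaf 0 524 559) (leaf 0 525 561))) (node 523 (merge (node 554 (merge (leaf 1 522 555) (node 522 (merge (leaf 1 521 553) (node 494 (merge (leaf 2 490 493) (leaf 2 491 495))))))) (merge (node 494 (merge (leaf 2 491 495) (node 522 (merge (leaf 2 490 493) (node 490 (merge (leaf 3 489 489) (leaf 3 490 491))))))) (node 491 (merge (leaf 3 490 490) (node 555 (merge (node 554 (merge (leaf 1 522 526) (node 553 (merge (leaf 2 520 552) (leaf 2 521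 556))))) (merge (node 554 (merge (leaf 1 522 526) (node 586 (merge (leaf 5 458 459) (node 618 (merge (leaf 5 490 587) (leaf 6 522 650))))))) (node 587 (merge (node 620 (merge (leaf 4 491 588) (node 619 (merge (leaf 4 523 652) (node 618 (merge (leaf 5 490 586) (leaf 5 522 650))))))) (merge (node 588 (merge (leaf 4 491 620) (node 459 (merge (leaf 4 459 556) (node 428 (merge (leaf 6 427 460) (node 427 (merge (leaf 6 395 396) (node 426 (merge (leaf 7 394 394) (leaf 7 426 458))))))))))) (merge (node 618 (merge (leaf 5 490 586) (node 619 (merge (leaf 5 522 650) (node 556 (merge (leaf 6 523 651) (node 459 (merge (leaf 4 427 427) (leaf 4 459 588))))))))) (node 618 (merge (leaf 5 490 586) (node 619 (merge (leaf 5 522 650) (node 651 (merge (leaf 6 523 556) (node 652 (merge (leaf 4 523 620) (leaf 4 555 684))))))))))))))))))))))) (merge (hyp 0) (merge (node 495 (merge (node 527 (merge (leaf 4 431 431) (node 526 (merge (leaf 0 524 559) (leaf 0 525 561))))) (merge (node 431 (merge (leaf 4 431 527) (node 399 (merge (leaf 4 399 496) (node 368 (merge (leaf 6 367 400) (node 367 (merge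 (leaf 6 335 336) (node 366 (merge (leaf 7 334 334) (leaf 7 366 398))))))))))) (merge (node 494 (merge (node 523 (merge (leaf 2 491 526) (node 493 (merge (leaf 1 491 492) (leaf 1 492 496))))) (merge (node 526 (merge (leaf 2 491 523) (node 558 (merge (leaf 6 462 590) (node 431 (merge (leaf 5 398 399) (leaf 6 430 462))))))) (merge (node 496 (merge (leaf 1 492 493) (node 497 (merge (leaf 1 493 526) (node 462 (merge (leaf 3 461 461) (leaf 3 462 498))))))) (node 493 (merge (leaf 1 492 496) (node 492 (merge (leaf 1 491 523) (node 491 (merge (leaf 2 459 462) (node 459 (merge (leaf 3 458 458) (leaf 3 459 460))))))))))))) (node 526 (merge (node 527 (merge (leaf 0 525 561) (node 496 (merge (leaf 2 493 497) (leaf 2 492 524))))) (merge (node 524 (merge (node 527 (merge (leaf 2 492 496) (leaf 0 524 559))) (merge (node 494 (merge (leaf 2 491 523) (node 496 (merge (leaf 1 492 493) (leaf 1 493 497))))) (node 559 (merge (leaf 0 524 527) (node 523 (merge (leaf 2 491 494) (leaf 0 523 558)))))))) (merge (node 561 (merge (leaf 0 525 527) (node 558 (merge (leaf 3 525 559) (node 590 (merge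 (leaf 6 462 494) (node 622 (merge (leaf 7 493 493) (node 655 (merge (leaf 4 526 623) (node 654 (merge (leaf 4 558 687) (node 653 (merge (leaf 5 525 621) (leaf 5 557 685))))))))))))))) (node 494 (merge (node 524 (merge (leaf 2 491 523) (node 496 (merge (leaf 1 492 493) (leaf 1 493 497))))) (merge (node 558 (merge (leaf 6 462 590) (node 496 (merge (leaf 1 493 497) (node 559 (merge (leaf 3 525 561) (node 462 (merge (leaf 4 462 591) (node 461 (merge (leaf 7 429 429) (leaf 0 460 460))))))))))) (node 558 (merge (node 590 (merge (leaf 6 462 463) (node 493 (merge (leaf 7 461 461) (leaf 7 493 622))))) (merge (node 590 (merge (leaf 6 462 463) (node 559 (merge (leaf 3 525 561) (node 591 (merge (leaf 4 494 623) (node 589 (merge (leaf 2 556 588) (leaf 5 493 621))))))))) (merge (node 590 (merge (node 493 (merge (leaf 7 461 461) (node 622 (merge (leaf 7 493 525) (node 623 (merge (leaf 4 494 591) (leaf 4 526 655))))))) (merge (node 591 (merge (leaf 4 494 623) (node 589 (merge (leaf 5 493 621) (node 559 (merge (leaf 1 557 561) (leaf 2 556 588))))))) (node 493 (merge (leaf 7 461 461)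 (node 622 (merge (leaf 7 493 525) (node 621 (merge (leaf 5 493 589) (leaf 5 525 653)))))))))) (node 559 (merge (leaf 3 525 561) (node 462 (merge (leaf 4 462 591) (node 429 (merge (leaf 7 429 461) (node 430 (merge (leaf 7 397 397) (node 398 (merge (leaf 5 397 493) (node 367 (merge (leaf 6 366 399) (node 366 (merge (leaf 6 334 335) (leaf 4 366 463)))))))))))))))))))))))))))))) (merge (hyp 1) (merge (hyp 2) (merge (hyp 3) (hyp 4))))))))))) nP_311 cP_311 16 (by decide +kernel)
def nP_312 : ℕ := 0x1000000012000000000000000a0000000000000000000000000000000000000000000000000000000000000000000000000000000000000000000000000000000000000000000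
def cP_312 : ℕ := 0x500000007000000070000000f00000009c000007fc0000005c000001e0000001f0000001f0000001500000000000000000000000000000000000000000000000000000000000000000000000000000000000
theorem lP_312 : S nP_312 cP_312 14 := S_of_chk [] trivial (node 493 (merge (node 557 (merge (node 462 (merge (leaf 6 429 430) (node 589 (merge (leaf 6 461 494) (node 590 (merge (leaf 4 461 558) (leaf 4 493 622))))))) (merge (node 556 (merge (leaf 5 460 588) (node 558 (merge (leaf 4 461 590) (node 559 (merge (leaf 3 524 524) (leaf 2 524 527))))))) (node 462 (merge (leaf 6 429 430) (node 589 (merge (leaf 6 461 494) (node 588 (merge (leaf 5 460 556) (leaf 5 492 620)))))))))) (merge (node 557 (merge (node 462 (merge (leaf 6 429 430) (node 589 (merge (leaf 6 461 494) (node 590 (merge (leaf 4 461 558) (leaf 4 493 622))))))) (merge (node 558 (merge (leaf 4 461 590) (node 524 (merge (leaf 3 524 559) (node 556 (merge (leaf 5 428 429) (leaf 5 460 588))))))) (node 430 (merge (leaf 6 429 462) (node 429 (merge (leaf 6 397 398) (node 556 (merge (leaf 5 428 524) (leaf 5 460 588)))))))))) (merge (node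 462 (merge (node 430 (merge (leaf 6 429 557) (node 398 (merge (leaf 5 365 366) (leaf 6 397 429))))) (merge (node 557 (merge (leaf 6 429 430) (node 589 (merge (leaf 6 461 494) (node 588 (merge (leaf 5 460 556) (leaf 5 492 620))))))) (node 495 (merge (node 496 (merge (leaf 0 460 460) (node 497 (merge (leaf 3 461 494) (leaf 3 462 498))))) (merge (node 431 (merge (leaf 4 431 527) (node 460 (merge (leaf 2 428 432) (node 459 (merge (leaf 0 459 494) (node 491 (merge (leaf 1 458 490) (leaf 1 459 492))))))))) (node 431 (merge (leaf 4 431 527) (node 399 (merge (leaf 4 399 496) (node 368 (merge (leaf 6 367 400) (node 367 (merge (leaf 6 335 336) (node 366 (merge (leaf 7 334 334) (leaf 7 366 398))))))))))))))))) (merge (node 557 (merge (node 558 (merge (leaf 4 461 590) (node 588 (merge (leaf 5 460 556) (node 589 (merge (leaf 1 556 559) (leaf 5 492 620))))))) (merge (node 558 (merge (leaf 4 461 590) (node 524 (merge (leaf 3 524 559) (node 556 (merge (leaf 5 428 429) (leaf 5 460 588))))))) (merge (node 494 (merge (node 589 (merge (leaf 6 461 462) (node 588 (merge (leaf 5 460 556)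 (leaf 5 492 620))))) (merge (node 462 (merge (leaf 6 461 589) (node 492 (merge (leaf 2 459 491) (node 495 (merge (leaf 0 492 527) (node 524 (merge (leaf 1 492 496) (leaf 1 491 523))))))))) (node 556 (merge (leaf 5 460 588) (node 524 (merge (leaf 5 428 429) (node 495 (merge (leaf 1 492 496) (node 523 (merge (leaf 1 491 492) (leaf 2 490 522)))))))))))) (node 494 (merge (node 589 (merge (leaf 6 461 462) (node 590 (merge (leaf 4 461 558) (leaf 4 493 622))))) (merge (node 558 (merge (leaf 4 461 590) (node 524 (merge (leaf 3 524 559) (node 523 (merge (leaf 0 522 522) (node 495 (merge (leaf 1 491 492) (leaf 1 492 496))))))))) (node 462 (merge (leaf 6 461 589) (node 492 (merge (leaf 2 459 491) (node 495 (merge (leaf 0 492 527) (node 524 (merge (leaf 1 492 496) (leaf 1 491 523)))))))))))))))) (merge (node 495 (merge (node 431 (merge (leaf 4 431 527) (node 399 (merge (leaf 4 399 496) (node 368 (merge (leaf 6 367 400) (node 367 (merge (leaf 6 335 336) (node 366 (merge (leaf 7 334 334) (leaf 7 366 398))))))))))) (merge (node 494 (merge (node 492 (merge (leaf 0 492 527) (node 524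 (merge (leaf 1 491 523) (node 429 (merge (leaf 5 396 397) (leaf 5 428 556))))))) (node 460 (merge (leaf 3 460 496) (node 459 (merge (leaf 0 458 458) (leaf 0 459 462))))))) (merge (node 429 (merge (node 527 (merge (leaf 4 431 431) (node 492 (merge (leaf 0 492 494) (node 524 (merge (leaf 5 396 397) (leaf 5 428 556))))))) (merge (node 398 (merge (leaf 6 397 430) (node 366 (merge (leaf 6 365 397) (node 431 (merge (leaf 7 366 399) (leaf 4 431 527))))))) (merge (node 398 (merge (leaf 6 397 430) (node 397 (merge (leaf 6 365 366) (node 524 (merge (leaf 5 396 492) (leaf 5 428 556))))))) (node 430 (merge (leaf 6 397 398) (node 527 (merge (leaf 4 431 431) (node 492 (merge (leaf 0 492 494) (node 462 (merge (leaf 7 430 559) (node 491 (merge (leaf 1 459 460) (leaf 2 458 490))))))))))))))) (node 524 (merge (node 494 (merge (leaf 1 492 496) (node 523 (merge (leaf 1 491 492) (leaf 2 490 522))))) (merge (node 556 (merge (leaf 5 428 429) (node 588 (merge (leaf 6 460 492) (leaf 6 492 620))))) (node 494 (merge (leaf 1 492 496) (node 429 (merge (leaf 5 428 556) (node 398 (merge (leaf 6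 397 430) (node 397 (merge (leaf 6 365 366) (node 364 (merge (leaf 7 364 396) (node 365 (merge (leaf 7 332 332) (leaf 4 365 462)))))))))))))))))))) (merge (node 430 (merge (node 557 (merge (leaf 6 429 462) (node 590 (merge (leaf 4 461 558) (node 589 (merge (leaf 4 493 622) (node 588 (merge (leaf 5 460 556) (leaf 5 492 620))))))))) (merge (node 398 (merge (leaf 6 397 429) (node 366 (merge (leaf 5 365 462) (node 431 (merge (leaf 4 334 334) (node 495 (merge (leaf 7 366 399) (leaf 7 398 527))))))))) (node 429 (merge (leaf 6 397 398) (node 524 (merge (leaf 5 428 556) (node 397 (merge (leaf 5 396 492) (node 396 (merge (leaf 7 364 364) (node 431 (merge (leaf 3 396 432) (node 495 (merge (leaf 4 431 527) (node 399 (merge (leaf 4 399 496) (node 368 (merge (leaf 6 367 400) (node 367 (merge (leaf 6 335 336) (node 366 (merge (leaf 7 334 334) (leaf 1 364 365)))))))))))))))))))))))) (merge (node 430 (merge (node 462 (merge (leaf 6 429 557) (node 398 (merge (leaf 5 365 366) (leaf 5 397 494))))) (merge (node 557 (merge (leaf 6 429 462) (node 558 (merge (leaf 4 461 590) (node 524 (merge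 (leaf 3 524 559) (node 429 (merge (leaf 5 428 556) (node 492 (merge (leaf 5 396 397) (node 589 (merge (leaf 7 460 460) (leaf 7 492 621))))))))))))) (node 429 (merge (leaf 6 397 398) (node 524 (merge (leaf 5 428 556) (node 397 (merge (leaf 5 396 492) (node 396 (merge (leaf 7 364 364) (node 431 (merge (leaf 3 396 432) (node 495 (merge (leaf 4 431 527) (node 496 (merge (leaf 4 399 399) (leaf 1 492 494)))))))))))))))))) (merge (node 557 (merge (node 590 (merge (leaf 4 461 558) (node 589 (merge (leaf 4 493 622) (node 492 (merge (leaf 7 460 460) (node 621 (merge (leaf 7 492 524) (node 620 (merge (leaf 5 492 588) (leaf 5 524 652))))))))))) (merge (node 462 (merge (leaf 6 429 430) (node 589 (merge (leaf 6 461 494) (node 622 (merge (leaf 4 493 590) (node 621 (merge (leaf 4 525 654) (node 620 (merge (leaf 5 492 588) (leaf 5 524 652))))))))))) (merge (node 462 (merge (leaf 6 429 430) (node 494 (merge (leaf 6 461 589) (node 492 (merge (leaf 2 459 491) (node 495 (merge (leaf 0 492 527) (node 524 (merge (leaf 1 492 496) (leaf 1 491 523))))))))))) (node 430 (merge (leaf 6 429 462)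 (node 429 (merge (leaf 6 397 398) (node 558 (merge (leaf 4 461 590) (node 524 (merge (leaf 3 524 559) (node 397 (merge (leaf 5 396 492) (node 396 (merge (leaf 7 364 364) (node 431 (merge (leaf 3 396 432) (node 495 (merge (leaf 4 431 527) (node 496 (merge (leaf 4 399 399) (leaf 1 492 494))))))))))))))))))))))) (node 557 (merge (node 558 (merge (leaf 4 461 590) (node 588 (merge (leaf 5 460 556) (node 589 (merge (leaf 1 556 559) (leaf 5 492 620))))))) (merge (node 588 (merge (leaf 5 460 556) (node 589 (merge (leaf 5 492 620) (node 492 (merge (leaf 7 460 460) (node 621 (merge (leaf 7 492 524) (node 622 (merge (leaf 4 493 590) (leaf 4 525 654))))))))))) (merge (node 590 (merge (leaf 4 461 558) (node 589 (merge (leaf 4 493 622) (node 492 (merge (leaf 7 460 460) (node 621 (merge (leaf 7 492 524) (node 620 (merge (leaf 5 492 588) (leaf 5 524 652))))))))))) (merge (node 558 (merge (leaf 4 461 590) (node 524 (merge (leaf 3 524 559) (node 429 (merge (leaf 5 428 556) (node 398 (merge (leaf 6 397 430) (node 397 (merge (leaf 6 365 366) (leaf 5 396 492))))))))))) (node 588 (merge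 (leaf 5 460 556) (node 589 (merge (leaf 5 492 620) (node 492 (merge (leaf 7 460 460) (node 524 (merge (leaf 7 492 621) (node 558 (merge (leaf 1 556 559) (node 523 (merge (leaf 0 522 522) (node 495 (merge (leaf 1 491 494) (node 431 (merge (leaf 4 431 527) (node 399 (merge (leaf 4 399 496) (node 398 (merge (leaf 7 366 366) (node 429 (merge (leaf 5 396 397) (leaf 6 397 430))))))))))))))))))))))))))))))))))))) nP_312 cP_312 14 (by decide +kernel)
def nP_313 : ℕ := 0x1000000012000000000000000a0000000000000000000000000000000000000000000000000000000000000000000000000000000000000000000000000000000000000000000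
def cP_313 : ℕ := 0x500000007000000070000000e00000009c000003fc0000005e000001fc000001fe000001f0000001f00000004000000000000000000000000000000000000000000000000000000000000000000000000000
theorem lP_313 : S nP_313 cP_313 12 := S_of_chk [] trivial (node 493 (merge (node 460 (merge (node 428 (merge (leaf 7 428 557) (node 396 (merge (leaf 4 364 364) (leaf 4 396 492))))) (node 495 (merge (node 496 (merge (leaf 0 460 462) (leaf 3 460 494))) (merge (node 462 (merge (leaf 0 460 496) (node 431 (merge (leaf 2 428 432) (leaf 4 431 527))))) (merge (node 496 (merge (leaf 3 460 494) (node 431 (merge (leaf 4 399 399) (leaf 4 431 527))))) (node 431 (merge (leaf 4 431 527) (node 462 (merge (leaf 2 428 432) (node 459 (merge (leaf 2 427 430) (leaf 0 459 494))))))))))))) (merge (node 557 (merge (node 460 (merge (leaf 7 428 428) (node 589 (merge (leaf 7 460 492) (node 590 (merge (leaf 4 461 558) (leaf 4 493 622))))))) (merge (node 462 (merge (leaf 6 429 430) (node 589 (merge (leaf 6 461 494) (node 590 (merge (leaf 4 461 558) (leaf 4 493 622))))))) (merge (node 462 (merge (leaf 6 429 430)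 (node 460 (merge (leaf 7 428 428) (node 492 (merge (leaf 1 459 491) (leaf 7 460 589))))))) (node 462 (merge (leaf 6 429 430) (node 428 (merge (leaf 7 428 460) (node 429 (merge (leaf 7 396 396) (node 558 (merge (leaf 4 461 590) (node 524 (merge (leaf 3 524 559) (node 492 (merge (leaf 5 396 397) (node 491 (merge (leaf 2 458 490) (leaf 2 459 494))))))))))))))))))) (merge (node 460 (merge (node 428 (merge (leaf 7 428 557) (node 396 (merge (leaf 4 364 364) (leaf 7 396 429))))) (node 495 (merge (node 496 (merge (leaf 0 460 462) (leaf 3 460 494))) (merge (node 494 (merge (leaf 3 460 496) (node 492 (merge (leaf 3 459 459) (leaf 0 492 527))))) (merge (node 462 (merge (leaf 0 460 496) (node 431 (merge (leaf 2 428 432) (leaf 4 431 527))))) (node 431 (merge (leaf 4 431 527) (node 462 (merge (leaf 2 428 432) (node 459 (merge (leaf 0 459 494) (node 491 (merge (leaf 1 458 490) (leaf 1 459 492))))))))))))))) (merge (node 557 (merge (node 460 (merge (leaf 7 428 428) (node 589 (merge (leaf 7 460 492) (node 590 (merge (leaf 4 461 558) (leaf 4 493 622))))))) (merge (node 462 (merge (leaf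 6 429 430) (node 589 (merge (leaf 6 461 494) (node 590 (merge (leaf 4 461 558) (leaf 4 493 622))))))) (merge (node 462 (merge (leaf 6 429 430) (node 460 (merge (leaf 7 428 428) (node 492 (merge (leaf 1 459 491) (leaf 7 460 589))))))) (node 462 (merge (leaf 6 429 430) (node 460 (merge (leaf 7 428 428) (node 495 (merge (leaf 0 460 496) (node 431 (merge (leaf 2 428 432) (leaf 4 431 527))))))))))))) (merge (node 460 (merge (node 495 (merge (node 496 (merge (leaf 0 460 462) (leaf 3 460 494))) (merge (node 462 (merge (leaf 0 460 496) (node 431 (merge (leaf 2 428 432) (leaf 4 431 527))))) (merge (node 496 (merge (leaf 3 460 494) (node 431 (merge (leaf 4 399 399) (leaf 4 431 527))))) (node 431 (merge (leaf 4 431 527) (node 462 (merge (leaf 2 428 432) (node 459 (merge (leaf 2 427 430) (leaf 0 459 494))))))))))) (merge (node 462 (merge (node 428 (merge (leaf 3 427 427) (node 396 (merge (leaf 4 364 364) (leaf 7 396 429))))) (node 495 (merge (leaf 0 460 496) (node 459 (merge (leaf 0 459 494) (node 491 (merge (leaf 1 458 490) (leaf 1 459 492))))))))) (merge (node 462 (merge (node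 428 (merge (leaf 3 427 427) (node 396 (merge (leaf 4 364 364) (leaf 7 396 429))))) (node 491 (merge (leaf 1 459 492) (node 459 (merge (leaf 1 458 490) (node 431 (merge (leaf 2 427 430) (leaf 2 428 432))))))))) (node 429 (merge (node 430 (merge (leaf 6 397 398) (node 431 (merge (leaf 1 428 432) (node 495 (merge (leaf 4 431 527) (node 496 (merge (leaf 4 399 399) (leaf 3 460 494))))))))) (node 397 (merge (node 396 (merge (leaf 7 364 364) (leaf 7 396 428))) (merge (node 365 (merge (leaf 5 364 492) (node 334 (merge (leaf 6 333 366) (node 333 (merge (leaf 6 301 302) (leaf 5 332 428))))))) (node 364 (merge (leaf 7 364 396) (node 365 (merge (leaf 7 332 332) (leaf 5 364 492)))))))))))))) (merge (node 428 (merge (node 396 (merge (leaf 7 396 429) (node 460 (merge (leaf 4 364 364) (leaf 7 428 557))))) (merge (node 460 (merge (leaf 7 428 557) (node 462 (merge (leaf 3 427 427) (node 495 (merge (leaf 0 460 496) (node 431 (merge (leaf 2 428 432) (leaf 4 431 527))))))))) (node 429 (merge (leaf 7 396 396) (node 430 (merge (leaf 6 397 398) (node 427 (merge (leaf 0 427 462) (node 458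 (merge (leaf 1 426 459) (node 426 (merge (leaf 1 425 457) (node 394 (merge (leaf 3 393 393) (leaf 3 394 395)))))))))))))))) (merge (node 460 (merge (node 428 (merge (leaf 7 428 557) (node 396 (merge (leaf 4 364 364) (leaf 7 396 429))))) (merge (node 557 (merge (leaf 7 428 428) (node 589 (merge (leaf 7 460 492) (node 590 (merge (leaf 4 461 558) (leaf 4 493 622))))))) (merge (node 429 (merge (node 396 (merge (leaf 7 396 428) (node 397 (merge (leaf 7 364 364) (node 492 (merge (leaf 5 364 365) (leaf 5 396 524))))))) (node 430 (merge (leaf 6 397 398) (node 431 (merge (leaf 1 428 432) (node 495 (merge (leaf 4 431 527) (node 496 (merge (leaf 4 399 399) (leaf 3 460 494))))))))))) (node 495 (merge (node 494 (merge (leaf 3 460 496) (node 459 (merge (leaf 0 458 458) (leaf 3 459 492))))) (merge (node 431 (merge (leaf 4 431 527) (node 399 (merge (leaf 4 399 496) (node 368 (merge (leaf 6 367 400) (node 367 (merge (leaf 6 335 336) (node 366 (merge (leaf 7 334 334) (leaf 7 366 398))))))))))) (node 492 (merge (node 527 (merge (leaf 4 431 431) (leaf 0 492 494))) (merge (node 557 (merge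 (leaf 7 460 589) (node 494 (merge (leaf 3 459 459) (node 524 (merge (leaf 1 491 523) (node 558 (merge (leaf 3 524 559) (leaf 4 461 590))))))))) (node 557 (merge (leaf 7 460 589) (node 431 (merge (leaf 4 431 527) (node 558 (merge (leaf 4 461 590) (node 524 (merge (leaf 3 524 559) (node 429 (merge (leaf 5 396 397) (node 430 (merge (leaf 6 397 398) (leaf 1 428 432))))))))))))))))))))))) (merge (node 495 (merge (node 431 (merge (leaf 4 431 527) (node 399 (merge (leaf 4 399 496) (node 368 (merge (leaf 6 367 400) (node 367 (merge (leaf 6 335 336) (node 366 (merge (leaf 7 334 334) (leaf 7 366 398))))))))))) (merge (node 431 (merge (leaf 4 431 527) (node 399 (merge (leaf 4 399 496) (node 368 (merge (leaf 6 367 400) (node 367 (merge (leaf 6 335 336) (node 334 (merge (leaf 7 334 366) (node 335 (merge (leaf 7 302 302) (node 462 (merge (leaf 5 334 430) (leaf 5 366 494))))))))))))))) (merge (node 557 (merge (node 462 (merge (leaf 6 429 430) (node 494 (merge (leaf 6 461 589) (node 496 (merge (leaf 3 461 497) (leaf 1 492 524))))))) (merge (node 462 (merge (leaf 6 429 430) (node 589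 (merge (leaf 6 461 494) (node 590 (merge (leaf 4 461 558) (leaf 4 493 622))))))) (merge (node 558 (merge (leaf 4 461 590) (node 524 (merge (leaf 3 524 559) (node 523 (merge (leaf 0 522 522) (node 494 (merge (leaf 1 491 492) (leaf 1 492 496))))))))) (node 430 (merge (leaf 6 429 462) (node 429 (merge (leaf 6 397 398) (node 396 (merge (leaf 7 396 428) (node 397 (merge (leaf 7 364 364) (node 558 (merge (leaf 4 461 590) (node 524 (merge (leaf 5 396 492) (leaf 3 524 559))))))))))))))))) (node 430 (merge (node 462 (merge (leaf 6 429 557) (node 527 (merge (leaf 4 431 431) (leaf 7 430 559))))) (merge (node 398 (merge (leaf 6 397 429) (node 462 (merge (leaf 5 365 366) (leaf 5 397 494))))) (node 429 (merge (leaf 6 397 398) (node 396 (merge (leaf 7 396 428) (node 397 (merge (leaf 7 364 364) (node 527 (merge (leaf 4 431 431) (node 492 (merge (leaf 0 492 494) (leaf 5 396 524)))))))))))))))))) (node 557 (merge (node 590 (merge (leaf 4 461 558) (node 589 (merge (leaf 4 493 622) (node 492 (merge (leaf 7 460 460) (node 621 (merge (leaf 7 492 524) (node 620 (merge (leaf 5 492 588) (leaf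 5 524 652))))))))))) (merge (node 462 (merge (leaf 6 429 430) (node 589 (merge (leaf 6 461 494) (node 622 (merge (leaf 4 493 590) (node 621 (merge (leaf 4 525 654) (node 620 (merge (leaf 5 492 588) (leaf 5 524 652))))))))))) (merge (node 462 (merge (leaf 6 429 430) (node 494 (merge (leaf 6 461 589) (node 492 (merge (leaf 2 459 491) (node 495 (merge (leaf 0 492 527) (node 524 (merge (leaf 1 492 496) (leaf 1 491 523))))))))))) (node 430 (merge (leaf 6 429 462) (node 429 (merge (leaf 6 397 398) (node 558 (merge (leaf 4 461 590) (node 524 (merge (leaf 3 524 559) (node 397 (merge (leaf 5 396 492) (node 396 (merge (leaf 7 364 364) (node 431 (merge (leaf 3 396 432) (node 495 (merge (leaf 4 431 527) (node 496 (merge (leaf 4 399 399) (leaf 1 492 494)))))))))))))))))))))))))))))))) nP_313 cP_313 12 (by decide +kernel)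
def nP_314 : ℕ := 0x1000000002000000000000000a0000000000000000000000000000000000000000000000000000000000000000000000000000000000000000000000000000000000000000000
def cP_314 : ℕ := 0x5000000078000000f80000001e000001ff0000005e000001ff000000f8000000f8000000780000003000000000000000000000000000000000000000000000000000000000000000000000000000
theorem lP_314 : S nP_314 cP_314 11 := S_of_chk [(nP_232, cP_232, 9)] ⟨lP_232, trivial⟩ (node 462 (merge (node 460 (merge (node 431 (merge (leaf 2 428 432) (node 459 (merge (leaf 2 427 430) (node 427 (merge (leaf 3 426 426) (leaf 3 427 428))))))) (merge (node 428 (merge (leaf 3 427 427) (node 493 (merge (leaf 7 428 557) (node 396 (merge (leaf 4 364 364) (leaf 7 396 429))))))) (node 431 (merge (leaf 2 428 432) (node 430 (merge (leaf 2 427 459) (node 493 (merge (leaf 6 429 557) (node 398 (merge (leaf 5 365 366) (leaf 5 397 494)))))))))))) (merge (node 460 (merge (node 492 (merge (leaf 1 459 491) (node 428 (merge (leaf 3 427 427) (node 557 (merge (leaf 7 428 493) (leaf 4 428 524))))))) (merge (node 491 (merge (leaf 1 459 492) (node 459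 (merge (leaf 1 458 490) (node 431 (merge (leaf 2 427 430) (leaf 2 428 432))))))) (node 431 (merge (leaf 2 428 432) (node 430 (merge (leaf 2 427 459) (node 493 (merge (leaf 6 429 557) (node 398 (merge (leaf 5 365 366) (leaf 5 397 494)))))))))))) (merge (node 493 (merge (node 430 (merge (leaf 6 429 557) (node 398 (merge (leaf 5 365 366) (leaf 6 397 429))))) (merge (node 557 (merge (leaf 6 429 430) (node 589 (merge (leaf 6 461 494) (node 590 (merge (leaf 4 461 558) (leaf 4 493 622))))))) (merge (node 429 (merge (node 430 (merge (leaf 6 397 398) (node 428 (merge (leaf 7 396 396) (leaf 0 427 427))))) (node 524 (merge (leaf 5 428 556) (node 492 (merge (leaf 5 396 397) (node 491 (merge (leaf 2 458 490) (leaf 2 459 494))))))))) (node 429 (merge (node 396 (merge (leaf 7 396 428) (node 397 (merge (leaf 7 364 364) (node 524 (merge (leaf 5 396 492) (leaf 5 428 556))))))) (merge (node 524 (merge (leaf 5 428 556) (node 492 (merge (leaf 5 396 397) (node 491 (merge (leaf 2 458 490) (leaf 2 459 494))))))) (merge (node 396 (merge (leaf 7 396 428) (node 397 (merge (leaf 7 364 364) (node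 366 (merge (leaf 6 365 398) (node 365 (merge (leaf 6 333 334) (leaf 4 365 494))))))))) (node 556 (merge (leaf 5 428 524) (node 557 (merge (leaf 5 460 588) (node 589 (merge (leaf 6 461 494) (node 590 (merge (leaf 4 461 558) (leaf 4 493 622))))))))))))))))) (merge (node 493 (merge (node 557 (merge (node 589 (merge (leaf 6 461 494) (node 590 (merge (leaf 4 461 558) (leaf 4 493 622))))) (merge (node 589 (merge (leaf 6 461 494) (node 588 (merge (leaf 5 460 556) (leaf 5 492 620))))) (node 558 (merge (leaf 4 461 590) (node 524 (merge (leaf 3 524 559) (node 556 (merge (leaf 5 428 429) (leaf 5 460 588)))))))))) (merge (node 460 (merge (node 428 (merge (leaf 7 428 557) (node 396 (merge (leaf 4 364 364) (leaf 7 396 429))))) (node 491 (merge (leaf 1 459 492) (node 459 (merge (leaf 1 458 490) (node 458 (merge (leaf 0 458 494) (node 426 (merge (leaf 3 425 425) (leaf 3 426 427))))))))))) (merge (node 460 (merge (node 491 (merge (leaf 1 459 492) (node 459 (merge (leaf 1 458 490) (node 458 (merge (leaf 0 458 494) (node 426 (merge (leaf 3 425 425) (leaf 3 426 427))))))))) (node 557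 (merge (leaf 7 428 428) (node 590 (merge (leaf 4 461 558) (node 589 (merge (leaf 4 493 622) (node 588 (merge (leaf 5 460 556) (leaf 5 492 620))))))))))) (merge (node 557 (merge (node 460 (merge (leaf 7 428 428) (node 589 (merge (leaf 7 460 492) (node 590 (merge (leaf 4 461 558) (leaf 4 493 622))))))) (merge (node 558 (merge (leaf 4 461 590) (node 524 (merge (leaf 3 524 559) (node 556 (merge (leaf 5 428 429) (leaf 5 460 588))))))) (node 460 (merge (leaf 7 428 428) (node 589 (merge (leaf 7 460 492) (node 588 (merge (leaf 5 460 556) (leaf 5 492 620)))))))))) (node 428 (merge (node 429 (merge (leaf 7 396 396) (node 427 (merge (leaf 0 426 426) (leaf 3 427 460))))) (merge (node 460 (merge (leaf 3 427 427) (node 396 (merge (leaf 4 364 364) (leaf 4 396 492))))) (merge (node 429 (merge (leaf 7 396 396) (node 524 (merge (leaf 5 428 556) (node 492 (merge (leaf 5 396 397) (node 491 (merge (leaf 2 458 490) (leaf 2 459 494))))))))) (node 460 (merge (leaf 3 427 427) (node 491 (merge (leaf 1 459 492) (node 459 (merge (leaf 1 458 490) (node 458 (merge (leaf 0 458 494) (node 457 (merge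 (leaf 2 425 429) (node 425 (merge (leaf 3 424 424) (leaf 3 425 426)))))))))))))))))))))) (merge (node 493 (merge (node 430 (merge (leaf 6 429 557) (node 398 (merge (leaf 5 365 366) (leaf 6 397 429))))) (merge (node 430 (merge (leaf 6 429 557) (node 398 (merge (leaf 5 365 366) (leaf 5 397 494))))) (merge (node 557 (merge (node 589 (merge (leaf 6 461 494) (node 590 (merge (leaf 4 461 558) (leaf 4 493 622))))) (merge (node 589 (merge (leaf 6 461 494) (node 588 (merge (leaf 5 460 556) (leaf 5 492 620))))) (node 558 (merge (leaf 4 461 590) (node 524 (merge (leaf 3 524 559) (node 556 (merge (leaf 5 428 429) (leaf 5 460 588)))))))))) (node 524 (merge (node 556 (merge (leaf 5 428 429) (node 588 (merge (leaf 6 460 492) (leaf 6 492 620))))) (merge (node 429 (merge (leaf 5 428 556) (node 398 (merge (leaf 6 397 430) (node 397 (merge (leaf 6 365 366) (node 364 (merge (leaf 7 364 396) (node 365 (merge (leaf 7 332 332) (leaf 4 365 494))))))))))) (merge (node 460 (merge (node 491 (merge (leaf 1 459 492) (node 459 (merge (leaf 1 458 490) (node 431 (merge (leaf 2 427 430) (leaf 2 428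 432))))))) (merge (node 431 (merge (leaf 2 428 432) (node 430 (merge (leaf 2 427 459) (node 398 (merge (leaf 5 365 366) (leaf 5 397 494))))))) (merge (node 491 (merge (leaf 1 459 492) (node 459 (merge (leaf 1 458 490) (node 458 (merge (leaf 0 458 494) (node 426 (merge (leaf 3 425 425) (leaf 3 426 427))))))))) (node 495 (merge (leaf 0 460 496) (node 492 (merge (leaf 1 459 491) (node 494 (merge (leaf 1 491 523) (node 431 (merge (leaf 2 428 432) (node 399 (merge (leaf 5 366 367) (node 398 (merge (leaf 7 366 366) (leaf 5 397 430))))))))))))))))) (node 460 (merge (node 491 (merge (leaf 1 459 492) (node 459 (merge (leaf 1 458 490) (node 431 (merge (leaf 2 427 430) (leaf 2 428 432))))))) (merge (node 431 (merge (leaf 2 428 432) (node 430 (merge (leaf 2 427 459) (node 398 (merge (leaf 5 365 366) (leaf 5 397 494))))))) (merge (node 491 (merge (leaf 1 459 492) (node 459 (merge (leaf 1 458 490) (node 458 (merge (leaf 0 458 494) (node 426 (merge (leaf 3 425 425) (leaf 3 426 427))))))))) (node 495 (merge (leaf 0 460 496) (node 492 (merge (leaf 1 459 491) (node 494 (merge (leaf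 1 491 523) (node 431 (merge (leaf 2 428 432) (node 399 (merge (leaf 5 366 367) (node 398 (merge (leaf 7 366 366) (leaf 5 397 430))))))))))))))))))))))))) (merge (node 493 (merge (node 557 (merge (leaf 6 429 430) (node 460 (merge (leaf 7 428 428) (node 492 (merge (leaf 1 459 491) (leaf 7 460 589))))))) (merge (node 557 (merge (node 589 (merge (leaf 6 461 494) (node 590 (merge (leaf 4 461 558) (leaf 4 493 622))))) (merge (node 589 (merge (leaf 6 461 494) (node 588 (merge (leaf 5 460 556) (leaf 5 492 620))))) (node 558 (merge (leaf 4 461 590) (node 524 (merge (leaf 3 524 559) (node 556 (merge (leaf 5 428 429) (leaf 5 460 588)))))))))) (node 460 (merge (node 431 (merge (leaf 2 428 432) (node 430 (merge (leaf 2 427 459) (node 398 (merge (leaf 5 365 366) (leaf 5 397 494))))))) (merge (node 491 (merge (leaf 1 459 492) (node 459 (merge (leaf 1 458 490) (node 431 (merge (leaf 2 427 430) (leaf 2 428 432))))))) (merge (node 429 (merge (node 492 (merge (leaf 1 459 491) (node 524 (merge (leaf 6 428 556) (node 397 (merge (leaf 5 364 365) (leaf 5 396 493))))))) (merge (node 428 (merge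 (leaf 7 396 396) (node 491 (merge (leaf 1 459 492) (node 459 (merge (leaf 1 458 490) (node 458 (merge (leaf 2 425 457) (leaf 0 458 494))))))))) (node 396 (merge (leaf 7 396 428) (node 397 (merge (leaf 7 364 364) (node 366 (merge (leaf 6 365 398) (node 365 (merge (leaf 6 333 334) (leaf 4 365 494)))))))))))) (node 524 (merge (node 492 (merge (leaf 1 459 491) (node 429 (merge (leaf 5 396 397) (leaf 6 428 556))))) (merge (node 492 (merge (leaf 1 459 491) (node 428 (merge (leaf 4 396 396) (node 523 (merge (leaf 5 427 555) (node 522 (merge (leaf 2 490 494) (leaf 2 489 521))))))))) (node 429 (merge (leaf 5 428 556) (node 398 (merge (leaf 6 397 430) (node 397 (merge (leaf 6 365 366) (node 364 (merge (leaf 7 364 396) (node 365 (merge (leaf 7 332 332) (leaf 4 365 494))))))))))))))))))))) (merge (node 460 (merge (node 431 (merge (leaf 2 428 432) (node 459 (merge (leaf 2 427 430) (node 427 (merge (leaf 3 426 426) (leaf 3 427 428))))))) (merge (node 491 (merge (leaf 1 459 492) (node 459 (merge (leaf 1 458 490) (node 431 (merge (leaf 2 427 430) (leaf 2 428 432))))))) (node 492 (merge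 (leaf 1 459 491) (node 428 (merge (leaf 3 427 427) (node 396 (merge (node 365 (merge (leaf 6 364 397) (node 364 (merge (leaf 6 332 333) (node 363 (merge (leaf 7 331 331) (leaf 7 363 395))))))) (merge (node 397 (merge (leaf 6 364 365) (node 524 (merge (leaf 6 396 429) (node 557 (merge (leaf 4 428 525) (node 556 (merge (leaf 4 460 589) (node 555 (merge (leaf 5 427 523) (leaf 5 459 587))))))))))) (merge (node 363 (merge (leaf 7 363 395) (node 364 (merge (leaf 7 331 331) (node 429 (merge (leaf 4 332 332) (node 524 (merge (leaf 6 396 397) (leaf 6 428 556))))))))) (node 363 (merge (leaf 7 363 395) (node 364 (merge (leaf 7 331 331) (node 333 (merge (leaf 6 332 365) (node 332 (merge (leaf 6 300 301) (leaf 4 332 429)))))))))))))))))))) (hyp 0))))))))) nP_314 cP_314 11 (by decide +kernel)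
def nP_315 : ℕ := 0x1000000012000000000000000a0000000000000000000000000000000000000000000000000000000000000000000000000000000000000000000000000000000000000000000
def cP_315 : ℕ := 0x7000000070000000f8000000ff0000009e000001ff0000005e0000007f0000007800000078000000780000002000000000000000000000000000000000000000000000000000000000000000000000000000
theorem lP_315 : S nP_315 cP_315 13 := S_of_chk [] trivial (node 462 (merge (node 460 (merge (node 428 (merge (leaf 3 427 427) (node 493 (merge (leaf 7 428 557) (node 396 (merge (leaf 4 364 364) (leaf 7 396 429))))))) (merge (node 495 (merge (leaf 0 460 496) (node 459 (merge (leaf 0 459 494) (node 490 (merge (leaf 1 458 491) (node 458 (merge (leaf 1 457 489) (node 426 (merge (leaf 3 425 425) (leaf 3 426 427))))))))))) (node 495 (merge (leaf 0 460 496) (node 459 (merge (leaf 0 459 494) (node 490 (merge (leaf 1 458 491) (node 458 (merge (leaf 1 457 489) (node 429 (merge (leaf 2 426 430) (node 457 (merge (leaf 2 425 428) (node 425 (merge (leaf 3 424 424) (leaf 3 425 426)))))))))))))))))) (merge (node 493 (merge (node 430 (merge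 (leaf 6 429 557) (node 398 (merge (leaf 5 365 366) (leaf 5 397 494))))) (merge (node 429 (merge (node 430 (merge (leaf 6 397 398) (node 428 (merge (leaf 7 396 396) (leaf 0 427 427))))) (merge (node 396 (merge (leaf 7 396 428) (node 397 (merge (leaf 7 364 364) (node 524 (merge (leaf 5 396 492) (leaf 5 428 556))))))) (node 398 (merge (leaf 6 397 430) (node 397 (merge (leaf 6 365 366) (node 524 (merge (leaf 5 396 492) (leaf 5 428 556)))))))))) (node 557 (merge (node 460 (merge (leaf 7 428 428) (node 589 (merge (leaf 7 460 492) (node 590 (merge (leaf 4 461 558) (leaf 4 493 622))))))) (merge (node 558 (merge (leaf 4 461 590) (node 524 (merge (leaf 3 524 559) (node 556 (merge (leaf 5 428 429) (leaf 5 460 588))))))) (node 460 (merge (leaf 7 428 428) (node 589 (merge (leaf 7 460 492) (node 588 (merge (leaf 5 460 556) (leaf 5 492 620))))))))))))) (merge (node 493 (merge (node 430 (merge (leaf 6 429 557) (node 398 (merge (leaf 5 365 366) (leaf 6 397 429))))) (merge (node 430 (merge (leaf 6 429 557) (node 398 (merge (leaf 5 365 366) (leaf 5 397 494))))) (merge (node 557 (merge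 (node 589 (merge (leaf 6 461 494) (node 588 (merge (leaf 5 460 556) (leaf 5 492 620))))) (merge (node 589 (merge (leaf 6 461 494) (node 590 (merge (leaf 4 461 558) (leaf 4 493 622))))) (node 558 (merge (leaf 4 461 590) (node 524 (merge (leaf 3 524 559) (node 556 (merge (leaf 5 428 429) (leaf 5 460 588)))))))))) (node 429 (merge (node 430 (merge (leaf 6 397 398) (node 428 (merge (leaf 7 396 396) (leaf 0 427 427))))) (node 524 (merge (leaf 5 428 556) (node 492 (merge (leaf 5 396 397) (node 491 (merge (leaf 2 458 490) (leaf 2 459 494))))))))))))) (merge (node 460 (merge (node 492 (merge (leaf 1 459 491) (node 428 (merge (leaf 3 427 427) (node 557 (merge (leaf 7 428 493) (leaf 4 428 524))))))) (merge (node 495 (merge (leaf 0 460 496) (node 459 (merge (leaf 0 459 494) (node 491 (merge (leaf 1 458 490) (leaf 1 459 492))))))) (merge (node 495 (merge (leaf 0 460 496) (node 459 (merge (leaf 0 459 494) (node 490 (merge (leaf 1 458 491) (node 458 (merge (leaf 1 457 489) (node 429 (merge (leaf 2 426 430) (node 428 (merge (leaf 3 427 427) (leaf 2 425 457))))))))))))) (node 495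 (merge (leaf 0 460 496) (node 494 (merge (leaf 0 459 459) (node 428 (merge (leaf 3 427 427) (node 557 (merge (leaf 7 428 493) (node 524 (merge (leaf 4 428 492) (node 559 (merge (leaf 3 524 558) (node 527 (merge (leaf 7 430 430) (leaf 7 462 591))))))))))))))))))) (merge (node 460 (merge (node 428 (merge (leaf 3 427 427) (node 493 (merge (leaf 7 428 557) (node 396 (merge (leaf 4 364 364) (leaf 4 396 492))))))) (merge (node 491 (merge (leaf 1 459 492) (node 459 (merge (leaf 1 458 490) (node 427 (merge (leaf 3 426 426) (leaf 3 427 428))))))) (merge (node 557 (merge (node 493 (merge (leaf 7 428 428) (leaf 6 429 430))) (merge (node 492 (merge (leaf 1 459 491) (node 524 (merge (leaf 4 428 428) (node 589 (merge (leaf 4 460 556) (leaf 7 492 621))))))) (node 493 (merge (leaf 6 429 430) (node 589 (merge (leaf 6 461 494) (node 588 (merge (leaf 5 460 556) (leaf 5 492 620)))))))))) (merge (node 427 (merge (leaf 3 427 428) (node 459 (merge (leaf 3 426 426) (node 490 (merge (leaf 1 458 491) (node 458 (merge (leaf 1 457 489) (node 522 (merge (leaf 6 426 554) (node 493 (merge (leaf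 0 458 494) (node 557 (merge (leaf 6 429 430) (node 558 (merge (leaf 4 461 590) (node 524 (merge (leaf 0 522 523) (leaf 3 524 559))))))))))))))))))) (node 491 (merge (leaf 1 459 492) (node 459 (merge (leaf 1 458 490) (node 426 (merge (leaf 3 426 427) (node 458 (merge (leaf 3 425 425) (node 493 (merge (leaf 0 458 494) (node 557 (merge (leaf 6 429 430) (node 523 (merge (leaf 7 426 555) (node 558 (merge (leaf 4 461 590) (node 524 (merge (leaf 0 522 522) (leaf 3 524 559)))))))))))))))))))))))) (merge (node 493 (merge (node 557 (merge (leaf 6 429 430) (node 460 (merge (leaf 7 428 428) (node 492 (merge (leaf 1 459 491) (leaf 7 460 589))))))) (merge (node 557 (merge (node 589 (merge (leaf 6 461 494) (node 590 (merge (leaf 4 461 558) (leaf 4 493 622))))) (merge (node 589 (merge (leaf 6 461 494) (node 588 (merge (leaf 5 460 556) (leaf 5 492 620))))) (node 558 (merge (leaf 4 461 590) (node 524 (merge (leaf 3 524 559) (node 556 (merge (leaf 5 428 429) (leaf 5 460 588)))))))))) (node 524 (merge (node 556 (merge (leaf 5 428 429) (node 588 (merge (leaf 6 460 492) (leaf 6 492 620)))))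 (merge (node 429 (merge (leaf 5 428 556) (node 398 (merge (leaf 6 397 430) (node 397 (merge (leaf 6 365 366) (node 396 (merge (leaf 7 364 364) (leaf 7 396 428))))))))) (merge (node 495 (merge (node 496 (merge (leaf 0 460 460) (leaf 1 492 494))) (merge (node 494 (merge (leaf 1 492 496) (node 492 (merge (leaf 2 459 491) (leaf 1 491 523))))) (merge (node 492 (merge (node 491 (merge (leaf 1 459 460) (leaf 2 458 490))) (node 494 (merge (leaf 1 491 523) (leaf 0 492 527))))) (node 460 (merge (leaf 0 460 496) (node 492 (merge (leaf 1 459 491) (node 556 (merge (leaf 6 460 588) (node 428 (merge (leaf 4 396 396) (node 555 (merge (leaf 5 427 523) (leaf 5 459 587))))))))))))))) (node 492 (merge (node 491 (merge (leaf 1 459 460) (leaf 2 459 494))) (merge (node 491 (merge (leaf 1 459 460) (leaf 2 458 490))) (merge (node 491 (merge (leaf 2 458 490) (leaf 2 459 494))) (node 523 (merge (node 522 (merge (leaf 2 490 494) (leaf 2 489 521))) (merge (node 495 (merge (leaf 1 491 494) (node 460 (merge (leaf 0 460 496) (node 428 (merge (leaf 4 396 396) (leaf 5 427 555))))))) (node 522 (merge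 (leaf 2 489 521) (node 554 (merge (leaf 1 521 553) (node 490 (merge (leaf 3 489 489) (node 429 (merge (leaf 5 396 397) (node 428 (merge (leaf 7 396 396) (node 555 (merge (leaf 5 427 460) (node 458 (merge (leaf 4 426 426) (leaf 4 458 587))))))))))))))))))))))))))))) (merge (node 493 (merge (node 430 (merge (leaf 6 429 557) (node 398 (merge (leaf 5 365 366) (leaf 6 397 429))))) (merge (node 430 (merge (leaf 6 429 557) (node 398 (merge (leaf 5 365 366) (leaf 5 397 494))))) (merge (node 557 (merge (node 589 (merge (leaf 6 461 494) (node 590 (merge (leaf 4 461 558) (leaf 4 493 622))))) (merge (node 589 (merge (leaf 6 461 494) (node 588 (merge (leaf 5 460 556) (leaf 5 492 620))))) (node 558 (merge (leaf 4 461 590) (node 524 (merge (leaf 3 524 559) (node 556 (merge (leaf 5 428 429) (leaf 5 460 588)))))))))) (node 524 (merge (node 429 (merge (leaf 5 428 556) (node 398 (merge (leaf 6 397 430) (node 397 (merge (leaf 6 365 366) (leaf 5 396 492))))))) (merge (node 429 (merge (leaf 5 428 556) (node 398 (merge (leaf 6 397 430) (node 397 (merge (leaf 6 365 366) (node 364 (merge (leaf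 7 364 396) (node 365 (merge (leaf 7 332 332) (leaf 4 365 494))))))))))) (node 523 (merge (node 494 (merge (leaf 2 490 522) (node 495 (merge (leaf 1 491 492) (leaf 1 492 496))))) (merge (node 522 (merge (leaf 2 490 494) (node 553 (merge (leaf 1 521 554) (node 521 (merge (leaf 1 520 552) (node 489 (merge (leaf 3 488 488) (leaf 3 489 490))))))))) (merge (node 522 (merge (node 553 (merge (leaf 1 521 554) (node 521 (merge (leaf 2 489 492) (leaf 1 520 552))))) (merge (node 492 (merge (leaf 2 489 521) (node 490 (merge (leaf 3 489 489) (leaf 2 458 491))))) (merge (node 553 (merge (leaf 1 521 554) (node 521 (merge (leaf 1 520 552) (node 489 (merge (leaf 3 488 488) (leaf 3 489 490))))))) (node 554 (merge (leaf 1 521 553) (node 490 (merge (leaf 3 489 489) (node 491 (merge (leaf 2 458 492) (node 459 (merge (leaf 5 426 427) (leaf 1 458 460))))))))))))) (node 495 (merge (node 496 (merge (leaf 0 460 460) (leaf 1 492 494))) (merge (node 494 (merge (leaf 1 492 496) (node 492 (merge (leaf 2 459 491) (leaf 1 491 523))))) (merge (node 492 (merge (node 491 (merge (leaf 1 459 460) (leaf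 2 458 490))) (node 494 (merge (leaf 1 491 523) (leaf 0 492 527))))) (node 460 (merge (leaf 0 460 496) (node 491 (merge (leaf 1 459 492) (node 459 (merge (leaf 1 458 490) (node 426 (merge (leaf 3 426 427) (node 458 (merge (leaf 3 425 425) (leaf 7 426 555)))))))))))))))))))))))))) (merge (node 493 (merge (node 460 (merge (node 492 (merge (leaf 1 459 491) (node 428 (merge (leaf 4 396 396) (leaf 3 427 427))))) (merge (node 495 (merge (leaf 0 460 496) (node 459 (merge (leaf 0 459 494) (node 427 (merge (leaf 3 426 426) (leaf 3 427 428))))))) (node 495 (merge (leaf 0 460 496) (node 459 (merge (leaf 0 459 494) (node 491 (merge (leaf 1 458 490) (leaf 1 459 492)))))))))) (merge (node 429 (merge (node 430 (merge (leaf 6 397 398) (node 428 (merge (leaf 7 396 396) (leaf 0 427 427))))) (merge (node 396 (merge (leaf 7 396 428) (node 397 (merge (leaf 7 364 364) (node 524 (merge (leaf 5 396 492) (leaf 5 428 556))))))) (node 398 (merge (leaf 6 397 430) (node 397 (merge (leaf 6 365 366) (node 524 (merge (leaf 5 396 492) (leaf 5 428 556)))))))))) (merge (node 492 (merge (node 491 (merge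 (leaf 1 459 460) (leaf 2 458 490))) (merge (node 491 (merge (leaf 2 458 490) (leaf 2 459 494))) (node 495 (merge (node 460 (merge (leaf 0 460 496) (node 494 (merge (leaf 3 459 459) (leaf 0 492 527))))) (merge (node 494 (merge (leaf 0 492 527) (node 524 (merge (leaf 1 491 523) (node 429 (merge (leaf 5 396 397) (leaf 5 428 556))))))) (node 460 (merge (leaf 0 460 496) (node 427 (merge (leaf 3 427 428) (node 459 (merge (leaf 3 426 426) (node 458 (merge (leaf 0 457 457) (node 524 (merge (leaf 7 427 556) (node 429 (merge (leaf 5 396 397) (leaf 2 426 430))))))))))))))))))) (merge (node 460 (merge (node 428 (merge (leaf 3 427 427) (node 396 (merge (leaf 4 364 364) (leaf 7 396 429))))) (merge (node 495 (merge (leaf 0 460 496) (node 459 (merge (leaf 0 459 494) (node 490 (merge (leaf 1 458 491) (node 458 (merge (leaf 1 457 489) (node 426 (merge (leaf 3 425 425) (leaf 3 426 427))))))))))) (node 495 (merge (leaf 0 460 496) (node 459 (merge (leaf 0 459 494) (node 490 (merge (leaf 1 458 491) (node 458 (merge (leaf 1 457 489) (node 429 (merge (leaf 2 426 430) (node 457 (merge (leaf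 2 425 428) (node 425 (merge (leaf 3 424 424) (leaf 3 425 426)))))))))))))))))) (merge (node 524 (merge (node 556 (merge (leaf 5 428 429) (node 588 (merge (leaf 6 460 492) (leaf 6 492 620))))) (merge (node 429 (merge (leaf 5 428 556) (node 398 (merge (leaf 6 397 430) (node 397 (merge (leaf 6 365 366) (node 396 (merge (leaf 7 364 364) (leaf 7 396 428))))))))) (merge (node 495 (merge (node 496 (merge (leaf 0 460 460) (leaf 1 492 494))) (merge (node 494 (merge (leaf 1 492 496) (node 492 (merge (leaf 2 459 491) (leaf 1 491 523))))) (merge (node 492 (merge (node 491 (merge (leaf 1 459 460) (leaf 2 458 490))) (node 494 (merge (leaf 1 491 523) (leaf 0 492 527))))) (node 460 (merge (leaf 0 460 496) (node 492 (merge (leaf 1 459 491) (node 556 (merge (leaf 6 460 588) (node 428 (merge (leaf 4 396 396) (node 555 (merge (leaf 5 427 523) (leaf 5 459 587))))))))))))))) (node 492 (merge (node 491 (merge (leaf 1 459 460) (leaf 2 459 494))) (merge (node 491 (merge (leaf 1 459 460) (leaf 2 458 490))) (merge (node 491 (merge (leaf 2 458 490) (leaf 2 459 494))) (node 523 (merge (node 522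 (merge (leaf 2 490 494) (leaf 2 489 521))) (merge (node 495 (merge (leaf 1 491 494) (node 460 (merge (leaf 0 460 496) (node 428 (merge (leaf 4 396 396) (leaf 5 427 555))))))) (node 522 (merge (leaf 2 489 521) (node 554 (merge (leaf 1 521 553) (node 490 (merge (leaf 3 489 489) (node 429 (merge (leaf 5 396 397) (node 428 (merge (leaf 7 396 396) (node 555 (merge (leaf 5 427 460) (node 458 (merge (leaf 4 426 426) (leaf 4 458 587)))))))))))))))))))))))))) (node 524 (merge (node 429 (merge (leaf 5 428 556) (node 398 (merge (leaf 6 397 430) (node 397 (merge (leaf 6 365 366) (leaf 5 396 492))))))) (merge (node 429 (merge (leaf 5 428 556) (node 398 (merge (leaf 6 397 430) (node 397 (merge (leaf 6 365 366) (node 364 (merge (leaf 7 364 396) (node 365 (merge (leaf 7 332 332) (leaf 4 365 494))))))))))) (node 523 (merge (node 494 (merge (leaf 2 490 522) (node 495 (merge (leaf 1 491 492) (leaf 1 492 496))))) (merge (node 522 (merge (leaf 2 490 494) (node 553 (merge (leaf 1 521 554) (node 521 (merge (leaf 1 520 552) (node 489 (merge (leaf 3 488 488) (leaf 3 489 490))))))))) (merge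 (node 522 (merge (node 553 (merge (leaf 1 521 554) (node 521 (merge (leaf 2 489 492) (leaf 1 520 552))))) (merge (node 492 (merge (leaf 2 489 521) (node 490 (merge (leaf 3 489 489) (leaf 2 458 491))))) (merge (node 553 (merge (leaf 1 521 554) (node 521 (merge (leaf 1 520 552) (node 489 (merge (leaf 3 488 488) (leaf 3 489 490))))))) (node 554 (merge (leaf 1 521 553) (node 490 (merge (leaf 3 489 489) (node 491 (merge (leaf 2 458 492) (node 459 (merge (leaf 5 426 427) (leaf 1 458 460))))))))))))) (node 495 (merge (node 496 (merge (leaf 0 460 460) (leaf 1 492 494))) (merge (node 494 (merge (leaf 1 492 496) (node 492 (merge (leaf 2 459 491) (leaf 1 491 523))))) (merge (node 492 (merge (node 491 (merge (leaf 1 459 460) (leaf 2 458 490))) (node 494 (merge (leaf 1 491 523) (leaf 0 492 527))))) (node 460 (merge (leaf 0 460 496) (node 491 (merge (leaf 1 459 492) (node 459 (merge (leaf 1 458 490) (node 426 (merge (leaf 3 426 427) (node 458 (merge (leaf 3 425 425) (leaf 7 426 555)))))))))))))))))))))))))))) (merge (node 493 (merge (node 430 (merge (leaf 6 429 557) (node 398 (merge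 (leaf 5 365 366) (leaf 6 397 429))))) (merge (node 557 (merge (leaf 6 429 430) (node 460 (merge (leaf 7 428 428) (node 492 (merge (leaf 1 459 491) (leaf 7 460 589))))))) (merge (node 428 (merge (node 429 (merge (leaf 7 396 396) (node 427 (merge (leaf 0 426 426) (leaf 0 427 430))))) (merge (node 460 (merge (leaf 3 427 427) (node 396 (merge (leaf 4 364 364) (leaf 4 396 492))))) (merge (node 427 (merge (leaf 3 427 460) (node 429 (merge (leaf 0 426 426) (leaf 0 427 430))))) (node 396 (merge (leaf 7 396 429) (node 460 (merge (leaf 4 364 364) (leaf 4 396 492))))))))) (node 557 (merge (node 428 (merge (leaf 7 428 460) (node 429 (merge (leaf 7 396 396) (node 556 (merge (leaf 5 428 524) (leaf 5 460 588))))))) (merge (node 589 (merge (node 588 (merge (leaf 5 460 556) (leaf 5 492 620))) (merge (node 622 (merge (leaf 4 493 590) (node 621 (merge (leaf 4 525 654) (node 524 (merge (leaf 7 492 492) (node 556 (merge (leaf 5 428 429) (leaf 7 524 653))))))))) (node 622 (merge (leaf 4 493 590) (node 621 (merge (leaf 4 525 654) (node 620 (merge (leaf 5 492 588) (leaf 5 524 652))))))))))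 (merge (node 460 (merge (leaf 7 428 428) (node 589 (merge (leaf 7 460 492) (node 622 (merge (leaf 4 493 590) (node 621 (merge (leaf 4 525 654) (node 620 (merge (leaf 5 492 588) (leaf 5 524 652))))))))))) (node 429 (merge (node 428 (merge (leaf 7 396 396) (leaf 7 428 460))) (merge (node 524 (merge (leaf 5 428 556) (node 397 (merge (leaf 5 396 492) (node 366 (merge (leaf 6 365 398) (node 365 (merge (leaf 6 333 334) (node 364 (merge (leaf 7 332 332) (leaf 7 364 396))))))))))) (node 460 (merge (leaf 7 428 428) (node 492 (merge (leaf 7 460 589) (node 524 (merge (leaf 5 396 397) (leaf 6 428 556)))))))))))))))))) (node 460 (merge (node 495 (merge (leaf 0 460 496) (node 459 (merge (leaf 0 459 494) (node 427 (merge (leaf 3 426 426) (leaf 3 427 428))))))) (merge (node 495 (merge (leaf 0 460 496) (node 459 (merge (leaf 0 459 494) (node 491 (merge (leaf 1 458 490) (leaf 1 459 492))))))) (node 492 (merge (leaf 1 459 491) (node 428 (merge (leaf 3 427 427) (node 396 (merge (node 365 (merge (leaf 6 364 397) (node 364 (merge (leaf 6 332 333) (node 363 (merge (leaf 7 331 331) (leaf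 7 363 395))))))) (merge (node 397 (merge (leaf 6 364 365) (node 524 (merge (leaf 6 396 429) (node 557 (merge (leaf 4 428 525) (node 556 (merge (leaf 4 460 589) (node 555 (merge (leaf 5 427 523) (leaf 5 459 587))))))))))) (merge (node 363 (merge (leaf 7 363 395) (node 364 (merge (leaf 7 331 331) (node 429 (merge (leaf 4 332 332) (node 524 (merge (leaf 6 396 397) (leaf 6 428 556))))))))) (node 363 (merge (leaf 7 363 395) (node 364 (merge (leaf 7 331 331) (node 333 (merge (leaf 6 332 365) (node 332 (merge (leaf 6 300 301) (leaf 4 332 429)))))))))))))))))))))))))))))) nP_315 cP_315 13 (by decide +kernel)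
def nP_316 : ℕ := 0x80000000800000000000000040000000400000000000000000000000000000000000000000000000000000000000000000000000000000000000
def cP_316 : ℕ := 0x100000015000000378000003be000003be000003fc000003fc000001f8000000f800000000000000000000000000000000000000000000000000
theorem lP_316 : S nP_316 cP_316 12 := S_of_chk [] trivial (node 302 (merge (node 398 (merge (leaf 4 334 430) (node 271 (merge (leaf 6 270 303) (node 270 (merge (leaf 6 238 239) (node 269 (merge (leaf 7 237 237) (leaf 7 269 301))))))))) (merge (node 398 (merge (leaf 4 334 430) (node 269 (merge (leaf 7 269 301) (node 270 (merge (leaf 7 237 237) (node 239 (merge (leaf 6 238 271) (node 238 (merge (leaf 6 206 207) (node 365 (merge (leaf 5 237 333) (leaf 5 269 397))))))))))))) (merge (node 398 (merge (leaf 4 334 430) (node 271 (merge (leaf 6 270 303) (node 270 (merge (leaf 6 238 239) (node 237 (merge (leaf 7 237 269) (node 238 (merge (leaf 7 205 205) (node 365 (merge (leaf 5 237 333) (leaf 5 269 397))))))))))))) (merge (node 333 (merge (node 398 (merge (leaf 4 334 430) (node 271 (merge (leaf 6 270 303)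 (node 270 (merge (leaf 6 238 239) (node 365 (merge (leaf 5 237 238) (leaf 5 269 397))))))))) (merge (node 303 (merge (node 304 (merge (leaf 1 301 305) (node 332 (merge (leaf 1 300 301) (leaf 2 299 331))))) (node 271 (merge (leaf 6 270 398) (node 239 (merge (leaf 5 206 207) (leaf 5 238 335))))))) (node 365 (merge (node 270 (merge (leaf 5 237 238) (leaf 5 269 397))) (node 364 (merge (node 363 (merge (leaf 2 331 335) (leaf 2 330 362))) (node 367 (merge (node 368 (merge (leaf 3 333 369) (node 400 (merge (leaf 0 365 401) (node 336 (merge (leaf 2 333 337) (leaf 5 335 432))))))) (node 332 (merge (leaf 0 331 331) (node 396 (merge (leaf 1 363 395) (node 428 (merge (leaf 6 300 301) (leaf 6 332 460)))))))))))))))) (merge (node 333 (merge (node 398 (merge (leaf 4 334 430) (node 269 (merge (leaf 7 269 301) (node 270 (merge (leaf 7 237 237) (node 365 (merge (leaf 5 237 238) (leaf 5 269 397))))))))) (merge (node 335 (merge (node 398 (merge (leaf 4 334 430) (node 301 (merge (leaf 7 269 269) (node 300 (merge (leaf 0 299 299) (leaf 3 300 336))))))) (merge (node 332 (merge (node 367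 (merge (leaf 0 331 331) (leaf 0 332 368))) (merge (node 303 (merge (leaf 2 300 304) (leaf 2 299 331))) (node 368 (merge (leaf 0 332 367) (node 336 (merge (leaf 0 333 369) (node 304 (merge (leaf 2 300 303) (leaf 2 301 305)))))))))) (node 332 (merge (node 367 (merge (leaf 0 331 331) (leaf 0 332 368))) (node 303 (merge (leaf 2 300 304) (node 398 (merge (leaf 6 302 430) (node 301 (merge (leaf 7 269 269) (node 300 (merge (leaf 0 299 299) (node 268 (merge (leaf 3 267 267) (node 236 (merge (leaf 4 204 204) (leaf 4 236 365)))))))))))))))))) (merge (node 335 (merge (node 365 (merge (node 336 (merge (leaf 1 333 337) (leaf 1 332 364))) (node 270 (merge (leaf 5 237 238) (leaf 5 269 397))))) (merge (node 332 (merge (node 367 (merge (leaf 0 331 331) (leaf 0 332 368))) (merge (node 303 (merge (leaf 2 300 304) (leaf 2 299 331))) (node 368 (merge (leaf 0 332 367) (node 336 (merge (leaf 0 333 369) (node 304 (merge (leaf 2 300 303) (leaf 2 301 305)))))))))) (node 332 (merge (node 367 (merge (leaf 0 331 331) (leaf 0 332 368))) (merge (node 303 (merge (leaf 2 300 304) (leaf 2 299 331)))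 (node 367 (merge (leaf 0 332 368) (node 303 (merge (leaf 2 300 304) (node 300 (merge (leaf 3 299 299) (node 270 (merge (leaf 4 238 238) (node 269 (merge (leaf 7 237 237) (node 268 (merge (leaf 0 267 267) (node 365 (merge (leaf 4 236 236) (leaf 5 269 397))))))))))))))))))))) (merge (node 335 (merge (node 398 (merge (leaf 4 334 430) (node 301 (merge (leaf 7 269 269) (node 300 (merge (leaf 0 299 299) (leaf 3 300 336))))))) (merge (node 332 (merge (node 367 (merge (leaf 0 331 331) (leaf 0 332 368))) (merge (node 303 (merge (leaf 2 300 304) (leaf 2 299 331))) (node 368 (merge (leaf 0 332 367) (node 336 (merge (leaf 0 333 369) (node 304 (merge (leaf 2 300 303) (leaf 2 301 305)))))))))) (node 398 (merge (leaf 4 334 430) (node 269 (merge (leaf 7 269 301) (node 270 (merge (leaf 7 237 237) (node 367 (merge (leaf 4 238 238) (node 332 (merge (leaf 0 331 331) (leaf 0 332 368)))))))))))))) (node 335 (merge (node 365 (merge (node 336 (merge (leaf 1 333 337) (leaf 1 332 364))) (node 270 (merge (leaf 5 237 238) (leaf 5 269 397))))) (merge (node 332 (merge (node 367 (merge (leaf 0 331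 331) (leaf 0 332 368))) (merge (node 303 (merge (leaf 2 300 304) (leaf 2 299 331))) (node 368 (merge (leaf 0 332 367) (node 336 (merge (leaf 0 333 369) (node 304 (merge (leaf 2 300 303) (leaf 2 301 305)))))))))) (node 332 (merge (node 367 (merge (leaf 0 331 331) (leaf 0 332 368))) (merge (node 303 (merge (leaf 2 300 304) (leaf 2 299 331))) (node 367 (merge (leaf 0 332 368) (node 364 (merge (leaf 1 331 363) (node 270 (merge (leaf 4 238 238) (node 365 (merge (leaf 5 269 397) (node 396 (merge (leaf 1 363 395) (node 428 (merge (leaf 6 300 301) (leaf 6 332 460)))))))))))))))))))))))) (merge (node 301 (merge (node 398 (merge (leaf 7 269 269) (leaf 4 334 430))) (merge (node 300 (merge (node 335 (merge (leaf 0 299 299) (node 336 (merge (leaf 0 300 303) (leaf 3 301 337))))) (merge (node 335 (merge (leaf 0 299 299) (node 336 (merge (leaf 3 300 333) (leaf 3 301 337))))) (merge (node 398 (merge (leaf 4 334 430) (node 303 (merge (leaf 6 270 271) (node 332 (merge (leaf 1 299 331) (node 333 (merge (leaf 1 300 304) (node 299 (merge (leaf 0 298 298) (node 267 (merge (leaf 3 266 266)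 (leaf 3 267 268))))))))))))) (node 398 (merge (leaf 4 334 430) (node 303 (merge (leaf 6 270 271) (node 336 (merge (leaf 0 300 335) (node 304 (merge (leaf 0 301 337) (node 332 (merge (leaf 1 299 331) (leaf 1 300 333))))))))))))))) (node 300 (merge (node 335 (merge (leaf 0 299 299) (node 336 (merge (leaf 0 300 303) (leaf 3 301 337))))) (merge (node 299 (merge (leaf 0 299 335) (node 298 (merge (leaf 0 298 333) (node 330 (merge (leaf 1 297 329) (leaf 1 298 331))))))) (merge (node 303 (merge (node 335 (merge (leaf 0 300 336) (node 271 (merge (leaf 5 238 239) (leaf 2 268 272))))) (node 332 (merge (leaf 1 299 331) (node 304 (merge (leaf 1 300 333) (node 268 (merge (leaf 3 267 267) (leaf 3 268 269))))))))) (node 333 (merge (node 299 (merge (leaf 0 298 298) (node 331 (merge (leaf 1 298 330) (node 332 (merge (leaf 1 299 303) (leaf 0 331 367))))))) (merge (node 299 (merge (leaf 0 298 298) (node 267 (merge (leaf 3 266 266) (node 303 (merge (leaf 3 267 268) (node 304 (merge (leaf 1 301 305) (node 272 (merge (leaf 2 268 271) (leaf 2 269 273))))))))))) (merge (node 332 (merge (node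 331 (merge (leaf 2 298 330) (leaf 0 331 367))) (node 303 (merge (leaf 1 300 304) (node 268 (merge (leaf 3 267 267) (node 236 (merge (leaf 4 204 204) (leaf 4 236 365))))))))) (node 299 (merge (leaf 0 298 298) (node 331 (merge (leaf 1 298 330) (node 332 (merge (leaf 0 331 367) (node 267 (merge (leaf 3 266 266) (node 235 (merge (leaf 4 203 203) (leaf 4 235 364)))))))))))))))))))))) (node 333 (merge (node 332 (merge (node 367 (merge (leaf 0 331 331) (node 368 (merge (leaf 0 332 335) (leaf 3 333 369))))) (merge (node 303 (merge (leaf 2 299 331) (node 304 (merge (leaf 1 300 301) (leaf 1 301 305))))) (node 335 (merge (node 368 (merge (leaf 0 332 367) (node 336 (merge (leaf 0 333 369) (node 300 (merge (leaf 3 299 299) (leaf 3 300 301))))))) (merge (node 368 (merge (leaf 0 332 367) (node 336 (merge (leaf 0 333 369) (node 304 (merge (leaf 2 300 303) (leaf 2 301 305))))))) (merge (node 304 (merge (leaf 2 300 303) (node 336 (merge (leaf 2 301 305) (node 300 (merge (leaf 3 299 299) (leaf 3 300 301))))))) (node 367 (merge (leaf 0 332 368) (node 303 (merge (leaf 2 300 304) (node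 300 (merge (leaf 3 299 299) (node 271 (merge (leaf 5 238 239) (node 272 (merge (leaf 6 239 240) (leaf 2 268 301)))))))))))))))))) (merge (node 365 (merge (node 270 (merge (leaf 5 237 238) (leaf 5 269 397))) (node 364 (merge (node 363 (merge (leaf 2 331 335) (leaf 2 330 362))) (node 367 (merge (node 368 (merge (leaf 3 333 369) (node 400 (merge (leaf 0 365 401) (node 336 (merge (leaf 2 333 337) (leaf 5 335 432))))))) (node 332 (merge (leaf 0 331 331) (node 396 (merge (leaf 1 363 395) (node 428 (merge (leaf 6 300 301) (leaf 6 332 460))))))))))))) (merge (node 332 (merge (node 303 (merge (leaf 2 299 331) (node 304 (merge (leaf 1 301 305) (leaf 2 300 335))))) (merge (node 331 (merge (leaf 2 299 303) (node 362 (merge (leaf 1 330 363) (node 330 (merge (leaf 2 298 301) (leaf 1 329 361))))))) (merge (node 331 (merge (node 330 (merge (leaf 2 298 301) (leaf 0 330 365))) (node 363 (merge (leaf 1 330 362) (node 335 (merge (leaf 1 331 364) (node 299 (merge (leaf 3 298 298) (leaf 3 299 300))))))))) (node 364 (merge (node 335 (merge (leaf 1 331 363) (node 336 (merge (leaf 1 332 365)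 (node 304 (merge (leaf 2 300 303) (leaf 2 301 305))))))) (merge (node 335 (merge (leaf 1 331 363) (node 303 (merge (leaf 2 300 304) (node 300 (merge (leaf 3 299 299) (node 301 (merge (leaf 0 300 336) (node 271 (merge (leaf 5 238 239) (leaf 2 268 272))))))))))) (merge (node 270 (merge (node 365 (merge (leaf 5 237 238) (leaf 5 269 397))) (merge (node 239 (merge (leaf 6 238 271) (node 238 (merge (leaf 6 206 207) (node 237 (merge (leaf 7 205 205) (leaf 7 237 269))))))) (node 271 (merge (leaf 6 238 239) (node 269 (merge (leaf 7 237 237) (node 365 (merge (leaf 5 269 397) (node 301 (merge (leaf 5 268 396) (node 300 (merge (leaf 1 268 272) (leaf 2 267 299)))))))))))))) (node 270 (merge (node 365 (merge (leaf 5 237 238) (leaf 5 269 397))) (merge (node 239 (merge (leaf 6 238 271) (node 238 (merge (leaf 6 206 207) (node 237 (merge (leaf 7 205 205) (leaf 7 237 269))))))) (node 271 (merge (leaf 6 238 239) (node 269 (merge (leaf 7 237 237) (node 365 (merge (leaf 5 269 397) (node 301 (merge (leaf 5 268 396) (node 272 (merge (leaf 1 269 273) (leaf 1 268 300)))))))))))))))))))))) (merge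 (node 301 (merge (node 270 (merge (node 238 (merge (leaf 5 205 206) (leaf 5 237 365))) (node 271 (merge (leaf 6 238 239) (node 272 (merge (leaf 1 269 273) (node 300 (merge (leaf 2 267 299) (leaf 2 268 303))))))))) (merge (node 365 (merge (node 270 (merge (leaf 5 237 238) (leaf 5 269 397))) (node 269 (merge (leaf 4 237 237) (node 364 (merge (leaf 5 268 396) (node 363 (merge (leaf 2 331 335) (leaf 2 330 362))))))))) (merge (node 270 (merge (node 237 (merge (leaf 7 237 269) (node 238 (merge (leaf 7 205 205) (leaf 5 205 206))))) (node 271 (merge (leaf 6 238 239) (node 272 (merge (leaf 1 269 273) (node 300 (merge (leaf 2 267 299) (leaf 2 268 303))))))))) (node 365 (merge (node 269 (merge (leaf 4 237 237) (node 364 (merge (leaf 5 268 396) (node 335 (merge (leaf 1 332 336) (leaf 2 331 363))))))) (merge (node 269 (merge (leaf 4 237 237) (node 268 (merge (leaf 7 236 236) (node 267 (merge (leaf 0 266 266) (node 303 (merge (leaf 3 267 300) (leaf 3 268 304))))))))) (node 335 (merge (node 336 (merge (leaf 1 333 337) (leaf 1 332 364))) (merge (node 336 (merge (leaf 3 300 300) (leaf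 3 301 337))) (node 300 (merge (leaf 0 299 299) (node 397 (merge (leaf 7 268 268) (node 364 (merge (leaf 2 331 363) (node 396 (merge (leaf 5 300 428) (node 367 (merge (leaf 1 364 368) (leaf 1 363 395))))))))))))))))))))) (merge (node 335 (merge (node 365 (merge (node 336 (merge (leaf 1 333 337) (leaf 1 332 364))) (node 270 (merge (leaf 5 237 238) (leaf 5 269 397))))) (merge (node 332 (merge (node 367 (merge (leaf 0 331 331) (leaf 0 332 368))) (merge (node 303 (merge (leaf 2 300 304) (leaf 2 299 331))) (node 368 (merge (leaf 0 332 367) (node 336 (merge (leaf 0 333 369) (node 304 (merge (leaf 2 300 303) (leaf 2 301 305)))))))))) (node 332 (merge (node 367 (merge (leaf 0 331 331) (leaf 0 332 368))) (merge (node 303 (merge (leaf 2 300 304) (leaf 2 299 331))) (node 367 (merge (leaf 0 332 368) (node 303 (merge (leaf 2 300 304) (node 300 (merge (leaf 3 299 299) (node 270 (merge (leaf 4 238 238) (node 269 (merge (leaf 7 237 237) (node 268 (merge (leaf 0 267 267) (node 365 (merge (leaf 4 236 236) (leaf 5 269 397))))))))))))))))))))) (node 301 (merge (node 270 (merge (node 365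 (merge (leaf 5 237 238) (leaf 5 269 397))) (node 271 (merge (leaf 6 238 239) (node 272 (merge (leaf 1 269 273) (node 300 (merge (leaf 1 268 269) (leaf 2 267 299))))))))) (merge (node 270 (merge (node 237 (merge (leaf 7 237 269) (node 238 (merge (leaf 7 205 205) (leaf 5 205 206))))) (node 271 (merge (leaf 6 238 239) (node 272 (merge (leaf 1 269 273) (node 300 (merge (leaf 2 267 299) (leaf 2 268 303))))))))) (merge (node 300 (merge (node 299 (merge (leaf 0 298 298) (node 331 (merge (leaf 1 298 330) (node 332 (merge (leaf 1 299 303) (leaf 0 331 367))))))) (merge (node 299 (merge (leaf 0 298 298) (node 267 (merge (leaf 3 266 266) (node 303 (merge (leaf 3 267 268) (node 304 (merge (leaf 1 301 305) (node 272 (merge (leaf 2 268 271) (leaf 2 269 273))))))))))) (merge (node 332 (merge (node 331 (merge (leaf 2 298 330) (leaf 0 331 367))) (node 303 (merge (leaf 1 300 304) (node 268 (merge (leaf 3 267 267) (node 236 (merge (leaf 4 204 204) (leaf 4 236 365))))))))) (node 299 (merge (leaf 0 298 298) (node 331 (merge (leaf 1 298 330) (node 332 (merge (leaf 0 331 367) (node 267 (merge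 (leaf 3 266 266) (node 235 (merge (leaf 4 203 203) (leaf 4 235 364))))))))))))))) (node 365 (merge (node 270 (merge (leaf 5 237 238) (leaf 5 269 397))) (node 269 (merge (leaf 4 237 237) (node 268 (merge (leaf 7 236 236) (node 303 (merge (leaf 3 268 304) (node 331 (merge (leaf 2 299 332) (node 364 (merge (leaf 5 268 396) (node 363 (merge (leaf 3 330 330) (leaf 2 330 362)))))))))))))))))))))))))))))))) nP_316 cP_316 12 (by decide +kernel)
def nP_317 : ℕ := 0x2000000020000000a0000000800000000000000000000000400000000000000000000000000000000000000000000000000000000000000000000000000000000000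
def cP_317 : ℕ := 0x37c000003fe000007fe000003bc000007fc000003fc000001f00000000000000000000000000000000000000000000000000000000000
theorem lP_317 : S nP_317 cP_317 12 := S_of_chk [] trivial (node 366 (merge (node 399 (merge (leaf 7 334 367) (node 398 (merge (leaf 4 302 302) (leaf 4 334 430))))) (merge (node 367 (merge (leaf 7 334 399) (node 365 (merge (node 397 (merge (leaf 6 333 429) (node 368 (merge (leaf 1 364 396) (node 333 (merge (leaf 3 332 332) (leaf 3 333 369))))))) (merge (node 429 (merge (leaf 6 333 397) (node 396 (merge (leaf 7 396 428) (node 364 (merge (leaf 1 363 395) (node 335 (merge (leaf 2 332 336) (leaf 2 331 363))))))))) (merge (node 336 (merge (node 335 (merge (leaf 1 333 337) (leaf 2 332 364))) (merge (node 368 (merge (leaf 2 333 337) (node 333 (merge (leaf 3 332 332) (leaf 3 333 369))))) (node 364 (merge (leaf 2 332 335) (node 396 (merge (leaf 1 363 395) (node 368 (merge (leaf 1 364 397) (node 332 (merge (leaf 3 331 331) (leaf 3 332 333)))))))))))) (merge (node 336 (merge (node 335 (merge (leaf 1 333 337) (leaf 2 332 364))) (merge (node 368 (merge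 (leaf 2 333 337) (node 333 (merge (leaf 3 332 332) (leaf 3 333 369))))) (node 364 (merge (leaf 2 332 335) (node 396 (merge (leaf 1 363 395) (node 428 (merge (leaf 7 396 429) (node 332 (merge (leaf 3 331 331) (node 333 (merge (leaf 6 300 301) (leaf 3 332 368)))))))))))))) (node 336 (merge (node 335 (merge (leaf 1 333 337) (leaf 2 332 364))) (merge (node 368 (merge (leaf 2 333 337) (node 333 (merge (leaf 3 332 332) (leaf 3 333 369))))) (node 364 (merge (leaf 2 332 335) (node 332 (merge (leaf 3 331 331) (node 368 (merge (leaf 3 332 333) (node 400 (merge (leaf 0 365 401) (leaf 5 335 432))))))))))))))))))) (merge (node 398 (merge (leaf 4 334 430) (node 302 (merge (leaf 4 302 399) (node 271 (merge (leaf 6 270 303) (node 270 (merge (leaf 6 238 239) (node 269 (merge (leaf 7 237 237) (leaf 7 269 301))))))))))) (node 302 (merge (node 398 (merge (leaf 4 334 430) (node 271 (merge (leaf 6 270 303) (node 270 (merge (leaf 6 238 239) (node 269 (merge (leaf 7 237 237) (leaf 7 269 301))))))))) (merge (node 398 (merge (leaf 4 334 430) (node 397 (merge (leaf 6 365 429) (node 269 (merge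 (leaf 7 269 301) (node 270 (merge (leaf 7 237 237) (leaf 5 269 365))))))))) (merge (node 398 (merge (leaf 4 334 430) (node 271 (merge (leaf 6 270 303) (node 270 (merge (leaf 6 238 239) (node 397 (merge (leaf 5 269 365) (leaf 6 365 429))))))))) (merge (node 365 (merge (node 397 (merge (leaf 5 269 270) (leaf 6 333 429))) (merge (node 364 (merge (node 335 (merge (leaf 2 331 363) (node 336 (merge (leaf 1 333 337) (leaf 2 332 367))))) (merge (node 363 (merge (leaf 2 331 335) (node 394 (merge (leaf 1 362 395) (node 362 (merge (leaf 2 330 333) (leaf 1 361 393))))))) (merge (node 429 (merge (leaf 6 333 397) (node 396 (merge (leaf 7 396 428) (node 395 (merge (leaf 1 363 367) (node 394 (merge (leaf 1 362 363) (leaf 2 361 393))))))))) (node 429 (merge (leaf 6 333 397) (node 396 (merge (leaf 7 396 428) (node 367 (merge (leaf 1 363 395) (node 336 (merge (leaf 2 332 335) (node 368 (merge (leaf 2 333 337) (node 332 (merge (leaf 3 331 331) (leaf 3 332 333))))))))))))))))) (node 333 (merge (node 303 (merge (node 304 (merge (leaf 1 301 305) (node 332 (merge (leaf 1 300 301) (leaf 2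 299 331))))) (merge (node 304 (merge (leaf 1 301 305) (node 270 (merge (leaf 5 237 238) (node 269 (merge (leaf 7 237 237) (node 268 (merge (leaf 0 267 267) (leaf 0 268 271))))))))) (node 332 (merge (leaf 2 299 331) (node 270 (merge (leaf 5 237 238) (node 269 (merge (leaf 7 237 237) (node 268 (merge (leaf 0 267 267) (node 236 (merge (leaf 4 236 300) (leaf 7 236 301)))))))))))))) (merge (node 364 (merge (node 335 (merge (leaf 2 331 363) (node 336 (merge (leaf 1 332 333) (leaf 1 333 337))))) (node 270 (merge (leaf 5 237 238) (node 269 (merge (leaf 7 237 237) (node 301 (merge (leaf 5 268 396) (node 268 (merge (leaf 7 236 236) (node 267 (merge (leaf 0 266 266) (leaf 0 267 303))))))))))))) (merge (node 332 (merge (node 303 (merge (leaf 2 299 331) (node 304 (merge (leaf 1 301 305) (leaf 2 300 335))))) (merge (node 367 (merge (leaf 0 331 331) (node 368 (merge (leaf 3 332 365) (leaf 3 333 369))))) (node 335 (merge (node 364 (merge (leaf 1 331 363) (node 336 (merge (leaf 1 332 365) (node 300 (merge (leaf 3 299 299) (leaf 3 300 301))))))) (merge (node 368 (merge (leaf 0 332 367)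 (node 336 (merge (leaf 0 333 369) (node 364 (merge (leaf 1 331 363) (leaf 1 332 365))))))) (node 367 (merge (leaf 0 332 368) (node 303 (merge (leaf 2 300 304) (node 300 (merge (leaf 3 299 299) (node 271 (merge (leaf 5 238 239) (node 272 (merge (leaf 6 239 240) (leaf 2 268 301))))))))))))))))) (merge (node 303 (merge (node 304 (merge (leaf 1 301 305) (node 332 (merge (leaf 2 299 331) (leaf 2 300 335))))) (merge (node 304 (merge (leaf 1 301 305) (node 270 (merge (leaf 5 237 238) (node 269 (merge (leaf 7 237 237) (node 268 (merge (leaf 0 267 267) (leaf 0 268 271))))))))) (node 332 (merge (leaf 2 299 331) (node 270 (merge (leaf 5 237 238) (node 271 (merge (leaf 6 238 239) (node 269 (merge (leaf 7 237 237) (node 268 (merge (leaf 0 267 267) (node 300 (merge (leaf 4 236 236) (leaf 1 267 299)))))))))))))))) (node 364 (merge (node 363 (merge (leaf 2 331 335) (node 394 (merge (leaf 1 362 395) (node 362 (merge (leaf 2 330 333) (leaf 1 361 393))))))) (node 270 (merge (leaf 5 237 238) (node 271 (merge (leaf 6 238 239) (node 269 (merge (leaf 7 237 237) (node 301 (merge (leaf 5 268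 396) (node 272 (merge (leaf 1 269 273) (leaf 1 268 300))))))))))))))))))))) (node 333 (merge (node 398 (merge (leaf 4 334 430) (node 303 (merge (leaf 6 270 271) (node 301 (merge (leaf 7 269 269) (node 332 (merge (leaf 1 300 304) (leaf 2 299 331))))))))) (merge (node 398 (merge (leaf 4 334 430) (node 303 (merge (leaf 6 270 271) (node 304 (merge (leaf 1 301 305) (node 332 (merge (leaf 2 299 331) (leaf 2 300 335))))))))) (merge (node 332 (merge (node 367 (merge (leaf 0 331 331) (node 368 (merge (leaf 3 332 365) (leaf 3 333 369))))) (merge (node 331 (merge (leaf 2 299 303) (node 362 (merge (leaf 1 330 363) (node 330 (merge (leaf 2 298 301) (leaf 1 329 361))))))) (node 364 (merge (node 363 (merge (leaf 1 331 335) (node 362 (merge (leaf 2 329 361) (leaf 2 330 365))))) (node 398 (merge (leaf 4 334 430) (node 397 (merge (leaf 6 365 429) (node 301 (merge (leaf 7 269 269) (node 396 (merge (leaf 6 300 428) (node 395 (merge (leaf 2 363 367) (node 427 (merge (leaf 5 299 300) (leaf 1 394 426)))))))))))))))))) (merge (node 332 (merge (node 367 (merge (leaf 0 331 331) (node 368 (merge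 (leaf 3 332 365) (leaf 3 333 369))))) (merge (node 331 (merge (leaf 2 299 303) (node 362 (merge (leaf 1 330 363) (node 330 (merge (leaf 2 298 301) (leaf 1 329 361))))))) (node 335 (merge (node 364 (merge (leaf 1 331 363) (node 336 (merge (leaf 1 332 365) (node 300 (merge (leaf 3 299 299) (leaf 3 300 301))))))) (merge (node 368 (merge (leaf 0 332 367) (node 336 (merge (leaf 0 333 369) (node 364 (merge (leaf 1 331 363) (leaf 1 332 365))))))) (node 367 (merge (leaf 0 332 368) (node 303 (merge (leaf 2 300 304) (node 300 (merge (leaf 3 299 299) (node 271 (merge (leaf 5 238 239) (node 272 (merge (leaf 6 239 240) (leaf 2 268 301))))))))))))))))) (merge (node 335 (merge (node 398 (merge (leaf 4 334 430) (node 301 (merge (leaf 7 269 269) (node 336 (merge (leaf 3 300 300) (leaf 3 301 337))))))) (merge (node 336 (merge (node 365 (merge (leaf 1 333 337) (leaf 1 332 364))) (merge (node 369 (merge (leaf 0 333 368) (node 337 (merge (leaf 0 334 370) (node 305 (merge (leaf 2 301 304) (leaf 2 302 306))))))) (node 368 (merge (leaf 0 333 369) (node 367 (merge (leaf 0 332 332) (node 365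 (merge (leaf 1 332 364) (node 397 (merge (leaf 1 364 396) (leaf 6 301 429)))))))))))) (node 332 (merge (node 367 (merge (leaf 0 331 331) (leaf 0 332 368))) (merge (node 363 (merge (leaf 1 331 364) (node 331 (merge (leaf 1 330 362) (node 299 (merge (leaf 3 298 298) (leaf 3 299 300))))))) (node 367 (merge (leaf 0 332 368) (node 364 (merge (leaf 1 331 363) (node 398 (merge (leaf 4 334 430) (node 397 (merge (leaf 6 365 429) (node 301 (merge (leaf 7 269 269) (node 396 (merge (leaf 2 363 395) (leaf 6 300 428))))))))))))))))))) (node 335 (merge (node 398 (merge (leaf 4 334 430) (node 301 (merge (leaf 7 269 269) (node 336 (merge (leaf 3 300 300) (leaf 3 301 337))))))) (merge (node 336 (merge (node 301 (merge (leaf 3 300 300) (leaf 3 301 337))) (merge (node 365 (merge (leaf 1 333 337) (leaf 1 332 364))) (node 368 (merge (leaf 0 333 369) (node 365 (merge (leaf 1 332 364) (node 397 (merge (leaf 6 301 429) (node 396 (merge (leaf 1 364 367) (node 301 (merge (leaf 3 300 300) (leaf 5 300 428)))))))))))))) (merge (node 336 (merge (node 365 (merge (leaf 1 333 337) (leaf 1 332 364)))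 (merge (node 369 (merge (leaf 0 333 368) (node 337 (merge (leaf 0 334 370) (node 305 (merge (leaf 2 301 304) (leaf 2 302 306))))))) (node 368 (merge (leaf 0 333 369) (node 365 (merge (leaf 1 332 364) (node 304 (merge (leaf 2 301 305) (node 400 (merge (leaf 5 335 432) (node 401 (merge (leaf 0 365 367) (leaf 4 304 433)))))))))))))) (node 398 (merge (leaf 4 334 430) (node 303 (merge (leaf 6 270 271) (node 397 (merge (leaf 6 365 429) (node 301 (merge (leaf 7 269 269) (node 300 (merge (leaf 0 299 299) (node 268 (merge (leaf 3 267 267) (leaf 7 268 365)))))))))))))))))))))))))))))))) nP_317 cP_317 12 (by decide +kernel)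
def nP_318 : ℕ := 0x2000000020000000a0000000800000000000000000000000400000000000000000000000000000000000000000000000000000000000000000000000000000000000
def cP_318 : ℕ := 0x10000000300000001000000000000000100000073000000ffe00000ffc00000fbc00000ff8000003f8000003e0000002e000000000000000000000000000000000000000000000000000
theorem lP_318 : S nP_318 cP_318 12 := S_of_chk [] trivial (node 366 (merge (node 429 (merge (node 397 (merge (leaf 6 333 365) (leaf 6 365 398))) (node 428 (merge (leaf 7 396 396) (node 557 (merge (leaf 7 428 460) (node 556 (merge (leaf 5 428 524) (leaf 5 460 588))))))))) (merge (node 399 (merge (leaf 7 334 367) (node 398 (merge (leaf 4 302 302) (node 397 (merge (leaf 6 365 429) (node 432 (merge (leaf 0 396 396) (node 433 (merge (leaf 0 397 400) (leaf 3 398 434))))))))))) (merge (node 367 (merge (leaf 7 334 399) (node 368 (merge (node 333 (merge (leaf 3 333 369) (node 332 (merge (leaf 0 331 331) (leaf 3 332 365))))) (merge (node 369 (merge (leaf 3 333 333) (node 402 (merge (leaf 0 366 401) (node 370 (merge (leaf 3 334 335) (leaf 0 367 403))))))) (merge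 (node 365 (merge (node 400 (merge (leaf 0 365 401) (node 336 (merge (leaf 2 333 337) (leaf 5 335 432))))) (merge (node 396 (merge (leaf 1 364 397) (node 364 (merge (leaf 1 363 395) (node 336 (merge (leaf 2 332 335) (leaf 2 333 337))))))) (merge (node 401 (merge (leaf 0 365 400) (node 369 (merge (leaf 0 366 402) (node 335 (merge (leaf 3 334 370) (node 364 (merge (leaf 2 332 336) (leaf 2 331 363))))))))) (node 401 (merge (leaf 0 365 400) (node 369 (merge (leaf 0 366 402) (node 338 (merge (leaf 2 334 337) (node 370 (merge (leaf 3 334 335) (leaf 2 335 339))))))))))))) (node 365 (merge (node 400 (merge (leaf 0 365 401) (node 336 (merge (leaf 2 333 337) (leaf 5 335 432))))) (node 364 (merge (node 363 (merge (leaf 2 331 335) (node 331 (merge (leaf 3 330 330) (leaf 3 331 332))))) (merge (node 396 (merge (leaf 1 363 395) (node 368 (merge (leaf 1 364 397) (node 332 (merge (leaf 3 331 331) (leaf 3 332 333))))))) (node 363 (merge (leaf 2 331 335) (node 394 (merge (leaf 1 362 395) (node 362 (merge (leaf 2 330 333) (leaf 1 361 393)))))))))))))))))) (node 302 (merge (node 399 (merge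 (leaf 7 334 367) (leaf 4 302 398))) (merge (node 398 (merge (leaf 4 302 399) (node 271 (merge (leaf 6 270 303) (node 270 (merge (leaf 6 238 239) (node 269 (merge (leaf 7 237 237) (leaf 7 269 301))))))))) (merge (node 270 (merge (node 271 (merge (leaf 6 238 239) (node 398 (merge (leaf 6 270 303) (node 269 (merge (leaf 7 237 237) (leaf 7 269 301))))))) (merge (node 239 (merge (leaf 6 238 271) (node 238 (merge (leaf 6 206 207) (node 237 (merge (leaf 7 205 205) (leaf 7 237 269))))))) (merge (node 237 (merge (leaf 7 237 269) (node 238 (merge (leaf 7 205 205) (node 335 (merge (leaf 4 238 367) (node 206 (merge (leaf 4 206 303) (node 333 (merge (leaf 5 205 301) (leaf 5 237 365))))))))))) (node 239 (merge (leaf 6 238 271) (node 238 (merge (leaf 6 206 207) (node 335 (merge (leaf 4 238 367) (node 206 (merge (leaf 4 206 303) (node 333 (merge (leaf 5 205 301) (leaf 5 237 365))))))))))))))) (node 335 (merge (node 301 (merge (node 300 (merge (leaf 0 299 299) (node 336 (merge (leaf 0 300 303) (leaf 3 301 337))))) (merge (node 300 (merge (leaf 0 299 299) (node 367 (merge (leaf 7 302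 399) (node 270 (merge (leaf 4 238 238) (node 271 (merge (leaf 6 238 239) (node 272 (merge (leaf 1 268 269) (leaf 1 269 273))))))))))) (node 367 (merge (leaf 7 302 399) (node 336 (merge (leaf 3 301 337) (node 270 (merge (leaf 4 238 238) (node 271 (merge (leaf 6 238 239) (node 272 (merge (leaf 1 269 273) (node 240 (merge (leaf 6 239 303) (leaf 5 239 304)))))))))))))))) (merge (node 367 (merge (leaf 7 302 399) (node 368 (merge (node 333 (merge (leaf 3 333 369) (node 332 (merge (leaf 0 331 331) (leaf 0 332 335))))) (node 270 (merge (leaf 4 238 238) (node 271 (merge (leaf 6 238 239) (node 269 (merge (leaf 7 237 237) (node 303 (merge (leaf 4 271 400) (node 268 (merge (leaf 0 267 267) (leaf 0 268 304))))))))))))))) (merge (node 336 (merge (node 337 (merge (leaf 1 333 365) (node 367 (merge (leaf 1 334 338) (leaf 7 334 399))))) (merge (node 365 (merge (leaf 1 333 337) (node 364 (merge (leaf 1 332 333) (leaf 2 331 363))))) (merge (node 367 (merge (leaf 7 334 399) (node 337 (merge (leaf 1 334 338) (node 305 (merge (leaf 2 302 306) (node 333 (merge (leaf 2 301 304) (node 332 (merge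 (leaf 0 331 331) (leaf 0 332 368))))))))))) (node 333 (merge (node 368 (merge (leaf 0 333 369) (node 304 (merge (leaf 2 301 305) (node 400 (merge (leaf 5 303 399) (leaf 5 335 432))))))) (node 364 (merge (leaf 1 332 365) (node 332 (merge (leaf 1 331 363) (node 300 (merge (leaf 3 299 299) (leaf 3 300 301))))))))))))) (merge (node 301 (merge (node 300 (merge (leaf 0 299 299) (node 336 (merge (leaf 0 300 303) (leaf 3 300 333))))) (merge (node 367 (merge (leaf 7 302 399) (node 270 (merge (leaf 4 238 238) (node 271 (merge (leaf 6 238 239) (node 269 (merge (leaf 7 237 237) (node 272 (merge (leaf 1 269 273) (leaf 1 268 300))))))))))) (node 367 (merge (leaf 7 302 399) (node 270 (merge (leaf 4 238 238) (node 271 (merge (leaf 6 238 239) (node 269 (merge (leaf 7 237 237) (node 272 (merge (leaf 1 269 273) (node 240 (merge (leaf 2 237 241) (leaf 6 239 303)))))))))))))))) (merge (node 336 (merge (node 365 (merge (leaf 1 333 337) (node 364 (merge (leaf 1 332 333) (leaf 2 331 363))))) (merge (node 337 (merge (leaf 1 333 365) (node 370 (merge (leaf 0 334 369) (node 338 (merge (leaf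 0 335 371) (node 302 (merge (leaf 3 301 301) (leaf 3 302 303))))))))) (merge (node 337 (merge (node 370 (merge (leaf 0 334 369) (node 338 (merge (leaf 0 335 371) (node 302 (merge (leaf 3 301 301) (leaf 3 302 303))))))) (merge (node 306 (merge (leaf 2 302 305) (node 338 (merge (leaf 2 303 307) (node 302 (merge (leaf 3 301 301) (leaf 3 302 303))))))) (node 369 (merge (leaf 0 334 370) (node 333 (merge (leaf 0 333 368) (node 305 (merge (leaf 2 301 304) (leaf 2 302 306)))))))))) (node 333 (merge (node 368 (merge (leaf 0 333 369) (node 304 (merge (leaf 2 301 305) (node 400 (merge (leaf 5 303 399) (leaf 5 335 432))))))) (node 364 (merge (leaf 1 332 365) (node 332 (merge (leaf 1 331 363) (node 300 (merge (leaf 3 299 299) (leaf 3 300 301))))))))))))) (node 336 (merge (node 365 (merge (leaf 1 333 337) (node 364 (merge (leaf 1 332 333) (leaf 2 331 363))))) (merge (node 337 (merge (leaf 1 333 365) (node 370 (merge (leaf 0 334 369) (node 338 (merge (leaf 0 335 371) (node 302 (merge (leaf 3 301 301) (leaf 3 302 303))))))))) (merge (node 337 (merge (node 370 (merge (leaf 0 334 369)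 (node 338 (merge (leaf 0 335 371) (node 302 (merge (leaf 3 301 301) (leaf 3 302 303))))))) (merge (node 306 (merge (leaf 2 302 305) (node 338 (merge (leaf 2 303 307) (node 302 (merge (leaf 3 301 301) (leaf 3 302 303))))))) (node 369 (merge (leaf 0 334 370) (node 333 (merge (leaf 0 333 368) (node 305 (merge (leaf 2 301 304) (leaf 2 302 306)))))))))) (node 304 (merge (node 305 (merge (leaf 2 301 333) (node 306 (merge (leaf 1 302 303) (leaf 1 303 307))))) (merge (node 333 (merge (leaf 2 301 305) (node 368 (merge (leaf 0 333 369) (node 332 (merge (leaf 0 332 367) (node 364 (merge (leaf 1 331 363) (leaf 1 332 365))))))))) (merge (node 368 (merge (node 369 (merge (leaf 0 333 333) (node 370 (merge (leaf 3 334 367) (leaf 3 335 371))))) (merge (node 400 (merge (leaf 5 335 432) (node 271 (merge (leaf 7 271 303) (node 272 (merge (leaf 7 239 239) (node 401 (merge (leaf 4 272 369) (leaf 4 304 433))))))))) (node 400 (merge (leaf 5 335 432) (node 271 (merge (leaf 7 271 303) (node 272 (merge (leaf 7 239 239) (node 241 (merge (leaf 6 240 273) (node 240 (merge (leaf 6 208 209) (leaf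 5 239 367)))))))))))))) (node 368 (merge (node 400 (merge (leaf 5 335 432) (node 305 (merge (leaf 6 272 273) (node 303 (merge (leaf 7 271 271) (leaf 1 302 306))))))) (merge (node 400 (merge (leaf 5 335 432) (node 271 (merge (leaf 7 271 303) (node 272 (merge (leaf 7 239 239) (node 401 (merge (leaf 4 272 369) (leaf 4 304 433))))))))) (merge (node 400 (merge (leaf 5 335 432) (node 273 (merge (leaf 6 272 305) (node 272 (merge (leaf 6 240 241) (node 401 (merge (leaf 4 272 369) (leaf 4 304 433))))))))) (node 369 (merge (node 370 (merge (leaf 3 334 367) (leaf 3 335 371))) (node 272 (merge (leaf 4 272 401) (node 241 (merge (leaf 6 240 273) (node 240 (merge (leaf 6 208 209) (node 239 (merge (leaf 7 207 207) (leaf 7 239 271))))))))))))))))))))))))))))))))))))) nP_318 cP_318 12 (by decide +kernel)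
def nP_319 : ℕ := 0x1000000012000000020000000a0000000800000000000000080000000400000000000000000000000000000000000000000000000000000000000000000000000000000000000
def cP_319 : ℕ := 0x1000000070000000f0000000900000000000000018000001780000033c0000077e000003bc000007fe000003fc000001f80000007000000000000000000000000000000000000000000000000000
theorem lP_319 : S nP_319 cP_319 12 := S_of_chk [] trivial (node 333 (merge (node 368 (merge (node 332 (merge (leaf 0 332 335) (node 366 (merge (leaf 0 331 331) (leaf 3 332 365))))) (merge (node 335 (merge (leaf 0 332 332) (node 369 (merge (leaf 0 333 336) (leaf 3 334 370))))) (merge (node 366 (merge (leaf 3 333 369) (node 332 (merge (leaf 0 331 331) (leaf 3 332 365))))) (node 369 (merge (leaf 3 333 366) (node 335 (merge (leaf 0 333 336) (leaf 3 334 370))))))))) (merge (node 335 (merge (node 368 (merge (leaf 0 332 332) (node 369 (merge (leaf 0 333 336) (leaf 3 334 370))))) (merge (node 332 (merge (leaf 0 332 368) (node 363 (merge (leaf 1 331 364) (node 331 (merge (leaf 1 330 362) (node 299 (merge (leaf 3 298 298) (leaf 3 299 300)))))))))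 (merge (node 332 (merge (node 363 (merge (leaf 1 331 364) (node 331 (merge (leaf 1 330 362) (node 299 (merge (leaf 3 298 298) (leaf 3 299 300))))))) (merge (node 363 (merge (leaf 1 331 364) (node 331 (merge (leaf 1 330 362) (node 303 (merge (leaf 2 299 302) (leaf 2 300 304))))))) (node 304 (merge (leaf 2 300 303) (node 336 (merge (leaf 2 301 305) (node 300 (merge (leaf 3 299 299) (leaf 3 300 301)))))))))) (node 336 (merge (node 369 (merge (leaf 0 333 368) (node 337 (merge (leaf 0 334 370) (node 301 (merge (leaf 3 300 300) (leaf 3 301 302))))))) (merge (node 305 (merge (leaf 2 301 304) (node 337 (merge (leaf 2 302 306) (node 301 (merge (leaf 3 300 300) (leaf 3 301 302))))))) (node 368 (merge (leaf 0 333 369) (node 304 (merge (leaf 2 301 305) (node 272 (merge (leaf 5 239 240) (node 271 (merge (leaf 7 239 239) (node 400 (merge (leaf 7 271 303) (leaf 5 335 432)))))))))))))))))) (merge (node 332 (merge (node 331 (merge (leaf 0 331 366) (node 302 (merge (leaf 2 299 303) (node 330 (merge (leaf 2 298 301) (node 298 (merge (leaf 3 297 297) (leaf 3 298 299))))))))) (merge (node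 331 (merge (leaf 0 331 366) (node 363 (merge (leaf 1 330 362) (node 335 (merge (leaf 1 331 364) (node 299 (merge (leaf 3 298 298) (leaf 3 299 300))))))))) (merge (node 363 (merge (node 364 (merge (leaf 1 331 335) (node 362 (merge (leaf 2 329 361) (leaf 2 330 365))))) (merge (node 335 (merge (leaf 1 331 364) (node 303 (merge (leaf 2 300 304) (node 331 (merge (leaf 2 299 302) (node 299 (merge (leaf 3 298 298) (leaf 3 299 300))))))))) (node 331 (merge (leaf 1 330 362) (node 302 (merge (leaf 2 299 303) (node 330 (merge (leaf 2 298 301) (node 298 (merge (leaf 3 297 297) (leaf 3 298 299)))))))))))) (node 556 (merge (node 557 (merge (leaf 5 460 588) (node 558 (merge (leaf 4 461 590) (node 559 (merge (leaf 3 524 524) (leaf 2 524 527))))))) (merge (node 429 (merge (leaf 5 428 524) (node 396 (merge (leaf 7 396 428) (node 397 (merge (leaf 7 364 364) (node 365 (merge (leaf 6 301 302) (leaf 6 333 366))))))))) (node 557 (merge (leaf 5 460 588) (node 428 (merge (leaf 7 428 460) (node 396 (merge (leaf 7 396 429) (node 364 (merge (leaf 6 300 301) (node 363 (merge (leaf 1 331 335) (node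 362 (merge (leaf 2 329 361) (leaf 2 330 365)))))))))))))))))))) (merge (node 332 (merge (node 366 (merge (leaf 0 331 331) (node 368 (merge (leaf 3 332 365) (leaf 3 333 369))))) (merge (node 331 (merge (leaf 0 331 366) (node 302 (merge (leaf 2 299 303) (node 330 (merge (leaf 2 298 301) (node 298 (merge (leaf 3 297 297) (leaf 3 298 299))))))))) (node 428 (merge (node 557 (merge (leaf 7 428 460) (node 558 (merge (leaf 4 461 590) (node 559 (merge (leaf 3 524 524) (node 556 (merge (leaf 2 524 527) (leaf 5 460 588))))))))) (node 396 (merge (leaf 7 396 429) (node 364 (merge (leaf 6 300 301) (node 427 (merge (leaf 5 331 459) (node 300 (merge (leaf 5 299 395) (node 267 (merge (leaf 7 267 299) (node 268 (merge (leaf 7 235 235) (node 365 (merge (leaf 4 236 236) (leaf 4 268 397)))))))))))))))))))) (node 365 (merge (node 429 (merge (node 397 (merge (leaf 6 301 302) (leaf 6 333 366))) (node 428 (merge (leaf 7 396 396) (node 460 (merge (leaf 7 428 557) (node 430 (merge (leaf 1 428 432) (leaf 1 427 459))))))))) (merge (node 366 (merge (node 368 (merge (leaf 3 333 369) (node 400 (merge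 (leaf 0 365 401) (node 336 (merge (leaf 2 333 337) (leaf 5 335 432))))))) (node 364 (merge (node 363 (merge (leaf 2 331 335) (leaf 2 330 362))) (node 396 (merge (leaf 1 363 395) (node 428 (merge (leaf 7 396 429) (leaf 4 364 460))))))))) (merge (node 366 (merge (node 368 (merge (leaf 3 333 369) (node 400 (merge (leaf 0 365 401) (node 336 (merge (leaf 2 333 337) (leaf 5 335 432))))))) (merge (node 368 (merge (leaf 3 333 369) (node 396 (merge (leaf 1 364 397) (node 364 (merge (leaf 1 363 395) (node 363 (merge (leaf 2 331 335) (leaf 2 330 362))))))))) (node 364 (merge (node 335 (merge (leaf 2 332 336) (leaf 2 331 363))) (node 396 (merge (leaf 1 363 395) (node 428 (merge (leaf 6 332 460) (node 301 (merge (leaf 5 268 269) (leaf 5 300 397)))))))))))) (merge (node 366 (merge (node 397 (merge (leaf 6 333 429) (node 396 (merge (leaf 1 364 368) (node 395 (merge (leaf 1 363 364) (leaf 2 362 394))))))) (merge (node 368 (merge (leaf 3 333 369) (node 400 (merge (leaf 0 365 401) (node 336 (merge (leaf 2 333 337) (leaf 5 335 432))))))) (node 364 (merge (node 335 (merge (leaf 2 332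 336) (leaf 2 331 363))) (merge (node 395 (merge (leaf 1 363 396) (node 363 (merge (leaf 2 330 362) (leaf 1 362 394))))) (node 397 (merge (leaf 6 333 429) (node 335 (merge (leaf 1 332 336) (node 396 (merge (leaf 1 363 395) (node 301 (merge (leaf 5 268 269) (node 300 (merge (leaf 7 268 268) (node 299 (merge (leaf 0 298 298) (leaf 0 299 302))))))))))))))))))) (merge (node 557 (merge (node 428 (merge (leaf 7 428 460) (node 429 (merge (leaf 7 396 396) (node 556 (merge (leaf 5 428 524) (leaf 5 460 588))))))) (merge (node 558 (merge (leaf 4 461 590) (node 588 (merge (leaf 5 460 556) (node 589 (merge (leaf 1 556 559) (leaf 5 492 620))))))) (node 428 (merge (leaf 7 428 460) (node 396 (merge (leaf 7 396 429) (node 301 (merge (leaf 5 300 397) (node 269 (merge (leaf 5 268 364) (node 238 (merge (leaf 6 237 270) (node 236 (merge (leaf 7 236 268) (node 237 (merge (leaf 7 204 204) (leaf 6 205 206)))))))))))))))))) (node 302 (merge (node 397 (merge (leaf 6 301 429) (node 270 (merge (leaf 5 237 238) (leaf 5 269 366))))) (merge (node 397 (merge (leaf 6 301 429) (node 270 (merge (leaf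 5 237 238) (leaf 6 269 301))))) (merge (node 301 (merge (node 269 (merge (node 237 (merge (leaf 4 205 205) (leaf 4 237 366))) (node 268 (merge (leaf 7 236 236) (node 267 (merge (leaf 0 266 266) (node 303 (merge (leaf 3 267 300) (leaf 3 268 304))))))))) (merge (node 269 (merge (node 238 (merge (leaf 6 237 270) (node 237 (merge (leaf 4 205 205) (leaf 6 205 206))))) (node 268 (merge (leaf 7 236 236) (node 267 (merge (leaf 0 266 266) (node 303 (merge (leaf 3 267 300) (leaf 3 268 304))))))))) (merge (node 269 (merge (node 238 (merge (leaf 6 237 270) (node 237 (merge (leaf 6 205 206) (leaf 4 237 366))))) (merge (node 236 (merge (leaf 7 236 268) (node 237 (merge (leaf 7 204 204) (leaf 4 237 366))))) (node 270 (merge (leaf 6 237 238) (node 268 (merge (leaf 7 236 236) (node 303 (merge (leaf 0 267 267) (leaf 3 268 304)))))))))) (merge (node 366 (merge (node 368 (merge (leaf 3 333 369) (node 400 (merge (leaf 0 365 401) (node 336 (merge (leaf 2 333 337) (leaf 5 335 432))))))) (node 270 (merge (leaf 5 237 238) (node 271 (merge (leaf 6 238 239) (node 272 (merge (leaf 1 269 273)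 (node 300 (merge (leaf 1 268 269) (leaf 2 267 299))))))))))) (node 366 (merge (node 368 (merge (leaf 3 333 369) (node 400 (merge (leaf 0 365 401) (node 336 (merge (leaf 2 333 337) (leaf 5 335 432))))))) (node 270 (merge (leaf 5 237 238) (node 271 (merge (leaf 6 238 239) (node 272 (merge (leaf 1 269 273) (node 300 (merge (leaf 2 267 299) (leaf 2 268 303)))))))))))))))) (node 336 (merge (node 335 (merge (leaf 1 332 364) (node 337 (merge (leaf 1 333 366) (node 305 (merge (leaf 2 301 304) (leaf 2 302 306))))))) (merge (node 335 (merge (leaf 1 332 364) (node 368 (merge (leaf 0 333 369) (node 304 (merge (leaf 2 301 305) (node 272 (merge (leaf 5 239 240) (node 271 (merge (leaf 7 239 239) (node 400 (merge (leaf 7 271 303) (leaf 5 335 432))))))))))))) (node 429 (merge (leaf 6 301 397) (node 556 (merge (leaf 5 428 524) (node 557 (merge (leaf 5 460 588) (node 460 (merge (leaf 7 428 428) (node 432 (merge (leaf 1 428 430) (node 368 (merge (leaf 5 335 400) (node 366 (merge (leaf 2 333 337) (leaf 3 333 369))))))))))))))))))))))))))))))))) nP_319 cP_319 12 (by decide +kernel)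

end Crest.Agent.H26Snaky
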