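import Crest.Agent.H26SnP023

/-! certificate data for S0047, part P 24 (computer generated) -/

set_option autoImplicit false
set_option maxRecDepth 100000

namespace Crest.Agent.H26Snaky

open T

def nP_320 : ℕ := 0x1000000012000000020000000a0000000800000000000000000000000400000000000000000000000000000000000000000000000000000000000000000000000000000000000
def cP_320 : ℕ := 0x5000000070000000f000000090000000000000001c0000017800000fbe00000ffe00000fbc00000ffe000003fc000001f80000007000000000000000000000000000000000000000000000000000
theorem lP_320 : S nP_320 cP_320 13 := S_of_chk [(nP_319, cP_319, 12)] ⟨lP_319, trivial⟩ (node 367 (merge (node 399 (merge (leaf 7 334 366) (node 336 (merge (leaf 6 335 368) (node 335 (merge (leaf 7 302 302) (leaf 6 303 304))))))) (merge (node 366 (merge (leaf 7 334 399) (node 368 (merge (node 333 (merge (leaf 3 333 369) (node 332 (merge (leaf 0 331 331) (leaf 3 332 365))))) (merge (node 369 (merge (leaf 3 333 333) (node 402 (merge (leaf 0 366 401) (node 370 (merge (leaf 0 367 403) (node 338 (merge (leaf 2 334 337) (leaf 2 335 339)))))))))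 (node 365 (merge (node 400 (merge (leaf 0 365 401) (node 336 (merge (leaf 2 333 337) (leaf 5 335 432))))) (node 429 (merge (leaf 6 333 397) (node 428 (merge (leaf 7 396 396) (node 557 (merge (leaf 7 428 460) (node 556 (merge (leaf 5 428 524) (leaf 5 460 588)))))))))))))))) (merge (node 428 (merge (node 396 (merge (leaf 7 396 429) (node 460 (merge (leaf 4 364 364) (leaf 7 428 557))))) (merge (node 557 (merge (leaf 7 428 460) (node 590 (merge (leaf 4 461 558) (node 589 (merge (leaf 4 493 622) (node 588 (merge (leaf 5 460 556) (leaf 5 492 620))))))))) (node 399 (merge (leaf 7 334 366) (node 335 (merge (leaf 7 302 302) (node 304 (merge (leaf 6 303 336) (node 303 (merge (leaf 6 271 272) (node 429 (merge (leaf 7 396 396) (node 400 (merge (leaf 2 396 430) (leaf 4 303 432)))))))))))))))) (merge (node 366 (merge (leaf 7 334 399) (node 365 (merge (node 429 (merge (leaf 6 333 397) (node 428 (merge (leaf 7 396 396) (node 557 (merge (leaf 7 428 460) (node 556 (merge (leaf 5 428 524) (leaf 5 460 588))))))))) (merge (node 364 (merge (node 396 (merge (leaf 1 363 395) (node 428 (merge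 (leaf 7 396 429) (leaf 4 364 460))))) (node 363 (merge (leaf 2 331 335) (node 331 (merge (leaf 3 330 330) (leaf 3 331 332))))))) (merge (node 364 (merge (node 363 (merge (leaf 2 331 335) (node 331 (merge (leaf 3 330 330) (leaf 3 331 332))))) (merge (node 396 (merge (leaf 1 363 395) (node 368 (merge (leaf 1 364 397) (node 332 (merge (leaf 3 331 331) (leaf 3 332 333))))))) (node 363 (merge (leaf 2 331 335) (node 394 (merge (leaf 1 362 395) (node 362 (merge (leaf 2 330 333) (leaf 1 361 393)))))))))) (node 460 (merge (node 429 (merge (leaf 6 333 397) (node 430 (merge (leaf 1 428 432) (node 459 (merge (leaf 1 427 428) (leaf 2 426 458))))))) (merge (node 557 (merge (leaf 7 428 428) (node 590 (merge (leaf 4 461 558) (node 589 (merge (leaf 4 493 622) (node 588 (merge (leaf 5 460 556) (leaf 5 492 620))))))))) (node 332 (merge (node 331 (merge (leaf 0 331 333) (leaf 3 331 364))) (merge (node 368 (merge (leaf 3 332 333) (node 401 (merge (leaf 0 365 400) (node 369 (merge (leaf 0 366 402) (node 338 (merge (leaf 2 334 337) (node 370 (merge (leaf 3 334 335) (leaf 2 335 339)))))))))))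 (node 429 (merge (leaf 6 333 397) (node 430 (merge (leaf 1 428 432) (node 459 (merge (leaf 2 426 458) (node 364 (merge (leaf 3 331 331) (node 363 (merge (leaf 2 331 335) (node 395 (merge (leaf 1 362 394) (leaf 6 331 427))))))))))))))))))))))))) (merge (node 335 (merge (node 399 (merge (leaf 7 302 302) (node 336 (merge (leaf 6 303 304) (leaf 6 335 368))))) (merge (node 556 (merge (node 557 (merge (leaf 5 460 588) (node 558 (merge (leaf 4 461 590) (node 559 (merge (leaf 3 524 524) (leaf 2 524 527))))))) (merge (node 399 (merge (leaf 7 302 302) (node 429 (merge (leaf 5 428 524) (node 428 (merge (leaf 7 396 396) (node 430 (merge (leaf 2 396 400) (node 460 (merge (leaf 1 428 432) (leaf 1 427 459))))))))))) (node 399 (merge (leaf 7 302 302) (node 304 (merge (leaf 6 303 336) (node 303 (merge (leaf 6 271 272) (node 400 (merge (leaf 4 303 432) (node 557 (merge (leaf 5 460 588) (node 428 (merge (leaf 7 428 460) (node 429 (merge (leaf 7 396 396) (leaf 2 396 430)))))))))))))))))) (merge (node 428 (merge (node 557 (merge (leaf 7 428 460) (node 590 (merge (leaf 4 461 558) (node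 589 (merge (leaf 4 493 622) (node 588 (merge (leaf 5 460 556) (leaf 5 492 620))))))))) (merge (node 399 (merge (leaf 7 302 302) (node 429 (merge (leaf 7 396 396) (node 430 (merge (leaf 2 396 400) (node 460 (merge (leaf 1 428 432) (leaf 1 427 459))))))))) (node 399 (merge (leaf 7 302 302) (node 429 (merge (leaf 7 396 396) (node 400 (merge (leaf 2 396 430) (node 303 (merge (leaf 4 303 432) (node 272 (merge (leaf 6 271 304) (node 271 (merge (leaf 6 239 240) (leaf 4 271 368)))))))))))))))) (merge (node 336 (merge (node 399 (merge (leaf 7 302 302) (leaf 6 335 368))) (merge (node 368 (merge (node 333 (merge (leaf 0 333 369) (node 364 (merge (leaf 1 332 365) (node 332 (merge (leaf 1 331 363) (node 300 (merge (leaf 3 299 299) (leaf 3 300 301))))))))) (node 428 (merge (node 399 (merge (leaf 6 335 367) (node 429 (merge (leaf 7 396 396) (node 400 (merge (leaf 2 396 430) (leaf 5 335 432))))))) (node 557 (merge (leaf 7 428 460) (node 558 (merge (leaf 4 461 590) (node 559 (merge (leaf 3 524 524) (node 556 (merge (leaf 2 524 527) (leaf 5 460 588))))))))))))) (node 301 (merge (node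 333 (merge (leaf 3 300 300) (node 364 (merge (leaf 1 332 365) (node 332 (merge (leaf 1 331 363) (node 428 (merge (leaf 6 300 396) (node 557 (merge (leaf 7 428 460) (node 558 (merge (leaf 4 461 590) (node 559 (merge (leaf 3 524 524) (node 556 (merge (leaf 2 524 527) (leaf 5 460 588))))))))))))))))) (node 337 (merge (leaf 3 301 302) (node 370 (merge (leaf 0 334 369) (node 338 (merge (leaf 0 335 371) (node 306 (merge (leaf 2 302 305) (leaf 2 303 307)))))))))))))) (merge (node 336 (merge (node 399 (merge (leaf 6 303 304) (leaf 6 335 368))) (merge (node 304 (merge (leaf 6 303 399) (node 305 (merge (leaf 2 301 333) (node 306 (merge (leaf 1 302 303) (leaf 1 303 307))))))) (merge (node 337 (merge (node 370 (merge (leaf 0 334 369) (node 338 (merge (leaf 0 335 371) (node 306 (merge (leaf 2 302 305) (leaf 2 303 307))))))) (merge (node 305 (merge (leaf 2 302 306) (node 333 (merge (leaf 2 301 304) (node 364 (merge (leaf 1 332 365) (node 332 (merge (leaf 1 331 363) (node 300 (merge (leaf 3 299 299) (leaf 3 300 301))))))))))) (node 369 (merge (leaf 0 334 370) (node 333 (merge (leaf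 0 333 368) (node 364 (merge (leaf 1 332 365) (node 332 (merge (leaf 1 331 363) (node 300 (merge (leaf 3 299 299) (leaf 3 300 301)))))))))))))) (node 368 (merge (node 333 (merge (leaf 0 333 369) (node 364 (merge (leaf 1 332 365) (node 332 (merge (leaf 1 331 363) (node 300 (merge (leaf 3 299 299) (leaf 3 300 301))))))))) (node 428 (merge (node 399 (merge (leaf 6 335 367) (node 429 (merge (leaf 7 396 396) (node 400 (merge (leaf 2 396 430) (leaf 5 335 432))))))) (node 557 (merge (leaf 7 428 460) (node 558 (merge (leaf 4 461 590) (node 559 (merge (leaf 3 524 524) (node 556 (merge (leaf 2 524 527) (leaf 5 460 588))))))))))))))))) (node 333 (merge (node 368 (merge (leaf 0 332 332) (node 369 (merge (leaf 0 333 336) (leaf 3 334 370))))) (merge (node 332 (merge (leaf 0 332 368) (node 363 (merge (leaf 1 331 364) (node 331 (merge (leaf 1 330 362) (node 299 (merge (leaf 3 298 298) (leaf 3 299 300))))))))) (merge (node 332 (merge (node 363 (merge (leaf 1 331 364) (node 331 (merge (leaf 1 330 362) (node 299 (merge (leaf 3 298 298) (leaf 3 299 300))))))) (merge (node 364 (merge (leaf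 1 331 363) (node 336 (merge (leaf 1 332 365) (node 304 (merge (leaf 2 300 303) (leaf 2 301 305))))))) (node 304 (merge (leaf 2 300 303) (node 336 (merge (leaf 2 301 305) (node 300 (merge (leaf 3 299 299) (leaf 3 300 301)))))))))) (node 336 (merge (node 369 (merge (leaf 0 333 368) (node 337 (merge (leaf 0 334 370) (node 301 (merge (leaf 3 300 300) (leaf 3 301 302))))))) (merge (node 305 (merge (leaf 2 301 304) (node 337 (merge (leaf 2 302 306) (node 301 (merge (leaf 3 300 300) (leaf 3 301 302))))))) (node 368 (merge (leaf 0 333 369) (node 304 (merge (leaf 2 301 305) (node 272 (merge (leaf 5 239 240) (node 271 (merge (leaf 7 239 239) (node 400 (merge (leaf 7 271 303) (leaf 5 335 432)))))))))))))))))))))))) (hyp 0))))))) nP_320 cP_320 13 (by decide +kernel)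
def nP_321 : ℕ := 0x80000000800000000000000000000001c00000000000000000000000000000000000000000000000000000000000000000000000000000000000
def cP_321 : ℕ := 0x3000000038000003f8000001e0000003fe000000300000003000000000000000000000000000000000000000000000000000000000000
theorem lP_321 : S nP_321 cP_321 10 := S_of_chk [] trivial (node 305 (merge (node 306 (merge (leaf 2 302 337) (node 304 (merge (leaf 1 302 303) (leaf 1 303 307))))) (merge (node 337 (merge (leaf 2 302 306) (node 370 (merge (leaf 0 334 369) (node 338 (merge (leaf 0 335 371) (node 302 (merge (leaf 3 301 301) (leaf 3 302 303))))))))) (merge (node 337 (merge (leaf 2 302 306) (node 370 (merge (leaf 0 334 369) (node 338 (merge (leaf 0 335 371) (node 302 (merge (leaf 3 301 301) (node 367 (merge (leaf 7 302 399) (node 339 (merge (leaf 1 335 368) (node 308 (merge (leaf 2 304 307) (node 340 (merge (leaf 3 304 304) (leaf 2 305 309))))))))))))))))) (merge (node 304 (merge (node 306 (merge (leaf 1 302 303) (leaf 1 303 307))) (node 368 (merge (node 399 (merge (leaf 6 335 367) (leaf 5 303 400))) (merge (node 400 (merge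 (leaf 5 335 432) (node 273 (merge (leaf 6 272 305) (node 272 (merge (leaf 6 240 241) (node 401 (merge (leaf 4 272 369) (leaf 4 304 433))))))))) (node 367 (merge (leaf 6 303 399) (node 369 (merge (leaf 3 334 370) (node 272 (merge (leaf 5 239 240) (leaf 4 272 401)))))))))))) (node 337 (merge (node 370 (merge (leaf 0 334 369) (node 338 (merge (leaf 0 335 371) (node 302 (merge (leaf 3 301 301) (leaf 3 302 303))))))) (merge (node 400 (merge (node 432 (merge (leaf 6 304 368) (node 369 (merge (leaf 0 334 370) (leaf 5 304 401))))) (merge (node 368 (merge (leaf 5 335 432) (node 304 (merge (leaf 6 272 273) (leaf 5 303 399))))) (merge (node 369 (merge (leaf 0 334 370) (node 368 (merge (leaf 5 272 273) (node 399 (merge (leaf 5 303 304) (leaf 6 335 367))))))) (node 369 (merge (leaf 0 334 370) (node 401 (merge (leaf 5 304 432) (node 304 (merge (leaf 7 272 272) (leaf 7 304 433))))))))))) (merge (node 367 (merge (node 399 (merge (leaf 6 303 304) (leaf 6 335 368))) (merge (node 304 (merge (leaf 6 303 399) (node 369 (merge (leaf 0 334 370) (node 272 (merge (leaf 4 240 240) (leaf 7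 272 401))))))) (merge (node 369 (merge (leaf 0 334 370) (node 368 (merge (leaf 6 335 399) (node 273 (merge (leaf 5 240 241) (leaf 5 272 400))))))) (node 370 (merge (leaf 0 334 369) (node 338 (merge (leaf 0 335 371) (node 339 (merge (leaf 1 335 368) (node 304 (merge (leaf 3 303 303) (leaf 3 304 340))))))))))))) (node 302 (merge (leaf 3 301 301) (node 367 (merge (leaf 7 302 399) (node 338 (merge (leaf 3 302 303) (node 339 (merge (leaf 1 335 368) (node 372 (merge (leaf 0 336 371) (node 340 (merge (leaf 3 304 304) (leaf 0 337 373)))))))))))))))))))))) nP_321 cP_321 10 (by decide +kernel)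
def nP_322 : ℕ := 0x1000000012000000020000000a0000000800000000000000000000000400000000000000000000000000000000000000000000000000000000000000000000000000000000000
def cP_322 : ℕ := 0x50000000f000000090000000000000001c00000370000003e000003ff800001fb800003ff8000003e0000003e0000002a000000000000000000000000000000000000000000000000000
theorem lP_322 : S nP_322 cP_322 12 := S_of_chk [(nP_321, cP_321, 10)] ⟨lP_321, trivial⟩ (node 336 (merge (node 399 (merge (node 368 (merge (leaf 6 335 367) (node 400 (merge (leaf 5 303 304) (leaf 5 335 432))))) (merge (node 366 (merge (leaf 7 334 367) (node 398 (merge (leaf 4 302 302) (leaf 4 334 430))))) (node 400 (merge (node 368 (merge (leaf 5 303 304) (leaf 5 335 432))) (node 556 (merge (node 429 (merge (leaf 5 428 524) (node 430 (merge (leaf 6 397 398) (leaf 2 396 428))))) (merge (node 557 (merge (leaf 5 460 588) (node 558 (merge (leaf 4 461 590) (node 559 (merge (leaf 3 524 524) (leaf 2 524 527))))))) (node 557 (merge (leaf 5 460 588) (node 428 (merge (leaf 7 428 460) (node 429 (merge (leaf 2 396 430) (node 397 (merge (leaf 1 396 398)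 (node 365 (merge (leaf 6 333 366) (node 333 (merge (leaf 6 301 302) (node 332 (merge (leaf 7 300 300) (leaf 7 332 364))))))))))))))))))))))) (merge (node 335 (merge (node 366 (merge (node 399 (merge (leaf 7 334 367) (node 398 (merge (leaf 4 302 302) (leaf 4 334 430))))) (node 365 (merge (leaf 1 333 337) (node 364 (merge (leaf 1 332 333) (leaf 2 331 363))))))) (merge (node 337 (merge (node 370 (merge (leaf 0 334 369) (node 338 (merge (leaf 0 335 371) (node 302 (merge (leaf 3 301 301) (leaf 3 302 303))))))) (merge (node 306 (merge (leaf 2 302 305) (node 338 (merge (leaf 2 303 307) (node 302 (merge (leaf 3 301 301) (leaf 3 302 303))))))) (node 369 (merge (leaf 0 334 370) (node 333 (merge (leaf 0 333 368) (node 305 (merge (leaf 2 301 304) (leaf 2 302 306)))))))))) (merge (node 337 (merge (node 366 (merge (leaf 1 333 365) (node 302 (merge (leaf 3 301 301) (node 398 (merge (leaf 4 302 399) (leaf 4 334 430))))))) (node 370 (merge (leaf 0 334 369) (node 338 (merge (leaf 0 335 371) (node 306 (merge (leaf 2 302 305) (leaf 2 303 307))))))))) (merge (node 337 (merge (node 366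 (merge (leaf 1 333 365) (node 367 (merge (leaf 1 334 338) (leaf 7 334 399))))) (merge (node 370 (merge (leaf 0 334 369) (node 338 (merge (leaf 0 335 371) (node 306 (merge (leaf 2 302 305) (leaf 2 303 307))))))) (node 365 (merge (leaf 1 333 366) (node 333 (merge (leaf 1 332 364) (node 305 (merge (leaf 2 301 304) (leaf 2 302 306)))))))))) (node 366 (merge (node 399 (merge (leaf 7 334 367) (node 398 (merge (leaf 4 302 302) (leaf 4 334 430))))) (merge (node 333 (merge (node 367 (merge (leaf 7 334 399) (node 368 (merge (leaf 0 332 332) (leaf 3 333 369))))) (node 365 (merge (leaf 1 332 364) (node 301 (merge (leaf 3 300 300) (node 269 (merge (leaf 4 237 237) (leaf 4 269 398))))))))) (merge (node 398 (merge (leaf 4 334 430) (node 302 (merge (leaf 4 302 399) (node 303 (merge (leaf 6 270 271) (node 301 (merge (leaf 7 269 269) (leaf 0 300 300))))))))) (merge (node 301 (merge (node 398 (merge (leaf 4 334 430) (node 269 (merge (leaf 7 269 302) (node 333 (merge (leaf 4 237 237) (leaf 4 269 365))))))) (merge (node 398 (merge (leaf 4 334 430) (node 302 (merge (leaf 7 269 269) (node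 300 (merge (leaf 0 299 299) (leaf 0 300 303))))))) (node 333 (merge (leaf 3 300 300) (node 368 (merge (leaf 0 333 369) (node 332 (merge (leaf 0 332 367) (node 364 (merge (leaf 1 331 363) (leaf 1 332 365)))))))))))) (node 333 (merge (node 304 (merge (leaf 2 301 305) (node 332 (merge (leaf 2 300 303) (node 300 (merge (leaf 3 299 299) (leaf 3 300 301))))))) (merge (node 364 (merge (leaf 1 332 365) (node 332 (merge (leaf 1 331 363) (node 300 (merge (leaf 3 299 299) (leaf 3 300 301))))))) (merge (node 364 (merge (leaf 1 332 365) (node 332 (merge (leaf 1 331 363) (node 304 (merge (leaf 2 300 303) (leaf 2 301 305))))))) (node 365 (merge (leaf 1 332 364) (node 397 (merge (leaf 6 333 429) (node 301 (merge (leaf 3 300 300) (node 270 (merge (leaf 6 269 302) (node 269 (merge (leaf 4 237 237) (leaf 6 237 238))))))))))))))))))))))))) (merge (node 335 (merge (node 368 (merge (node 369 (merge (leaf 0 333 333) (node 370 (merge (leaf 0 334 337) (leaf 3 335 371))))) (node 399 (merge (leaf 6 335 367) (node 400 (merge (leaf 5 303 304) (leaf 5 335 432))))))) (merge (node 333 (merge (node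 368 (merge (leaf 0 333 369) (node 304 (merge (leaf 2 301 305) (node 400 (merge (leaf 5 303 399) (leaf 5 335 432))))))) (node 364 (merge (leaf 1 332 365) (node 332 (merge (leaf 1 331 363) (node 300 (merge (leaf 3 299 299) (leaf 3 300 301))))))))) (merge (node 337 (merge (node 370 (merge (leaf 0 334 369) (node 338 (merge (leaf 0 335 371) (node 306 (merge (leaf 2 302 305) (leaf 2 303 307))))))) (merge (node 305 (merge (leaf 2 302 306) (node 333 (merge (leaf 2 301 304) (node 364 (merge (leaf 1 332 365) (node 332 (merge (leaf 1 331 363) (node 300 (merge (leaf 3 299 299) (leaf 3 300 301))))))))))) (node 369 (merge (leaf 0 334 370) (node 333 (merge (leaf 0 333 368) (node 364 (merge (leaf 1 332 365) (node 332 (merge (leaf 1 331 363) (node 300 (merge (leaf 3 299 299) (leaf 3 300 301)))))))))))))) (merge (node 337 (merge (node 366 (merge (leaf 1 333 365) (node 367 (merge (leaf 1 334 338) (leaf 7 334 399))))) (merge (node 370 (merge (leaf 0 334 369) (node 338 (merge (leaf 0 335 371) (node 306 (merge (leaf 2 302 305) (leaf 2 303 307))))))) (node 365 (merge (leaf 1 333 366) (node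 333 (merge (leaf 1 332 364) (node 305 (merge (leaf 2 301 304) (leaf 2 302 306)))))))))) (merge (node 337 (merge (node 366 (merge (leaf 1 333 365) (node 367 (merge (leaf 1 334 338) (leaf 7 334 399))))) (merge (node 305 (merge (leaf 2 302 306) (node 333 (merge (leaf 2 301 304) (node 364 (merge (leaf 1 332 365) (node 332 (merge (leaf 1 331 363) (node 300 (merge (leaf 3 299 299) (leaf 3 300 301))))))))))) (node 305 (merge (leaf 2 302 306) (node 333 (merge (leaf 2 301 304) (node 300 (merge (leaf 3 300 301) (node 332 (merge (leaf 3 299 299) (node 367 (merge (leaf 0 332 368) (node 366 (merge (leaf 0 331 331) (leaf 1 334 338)))))))))))))))) (node 366 (merge (node 337 (merge (leaf 1 333 365) (node 370 (merge (leaf 0 334 369) (node 338 (merge (leaf 0 335 371) (node 306 (merge (leaf 2 302 305) (leaf 2 303 307))))))))) (merge (node 367 (merge (leaf 7 334 399) (node 337 (merge (leaf 1 334 338) (node 369 (merge (leaf 0 334 370) (node 398 (merge (leaf 4 334 430) (node 397 (merge (leaf 1 365 368) (leaf 6 365 429))))))))))) (node 367 (merge (leaf 7 334 399) (node 365 (merge (leaf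 2 332 364) (node 429 (merge (leaf 6 333 397) (node 430 (merge (leaf 6 397 398) (node 432 (merge (leaf 1 428 460) (node 400 (merge (leaf 5 335 368) (leaf 2 397 401)))))))))))))))))))))) (merge (node 366 (merge (node 337 (merge (node 365 (merge (leaf 1 333 335) (node 367 (merge (leaf 2 333 368) (leaf 7 334 399))))) (merge (node 367 (merge (leaf 7 334 399) (node 338 (merge (leaf 1 334 335) (node 368 (merge (leaf 1 335 339) (leaf 2 334 369))))))) (merge (node 367 (merge (leaf 7 334 399) (node 368 (merge (leaf 2 333 365) (node 338 (merge (leaf 1 335 339) (leaf 2 334 369))))))) (node 335 (merge (leaf 1 333 365) (node 370 (merge (leaf 0 334 369) (node 338 (merge (leaf 0 335 371) (node 306 (merge (leaf 2 302 305) (leaf 2 303 307))))))))))))) (merge (node 398 (merge (leaf 4 334 430) (node 302 (merge (leaf 4 302 399) (node 271 (merge (leaf 6 270 303) (node 270 (merge (leaf 6 238 239) (node 269 (merge (leaf 7 237 237) (leaf 7 269 301))))))))))) (node 429 (merge (node 365 (merge (leaf 6 333 397) (node 335 (merge (leaf 1 333 337) (node 364 (merge (leaf 2 331 363) (leaf 2 332 367)))))))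 (node 430 (merge (leaf 6 397 398) (node 432 (merge (leaf 1 428 460) (node 400 (merge (leaf 5 335 368) (leaf 2 397 401)))))))))))) (merge (node 335 (merge (node 337 (merge (node 370 (merge (leaf 0 334 369) (node 338 (merge (leaf 0 335 371) (node 302 (merge (leaf 3 301 301) (leaf 3 302 303))))))) (merge (node 306 (merge (leaf 2 302 305) (node 338 (merge (leaf 2 303 307) (node 302 (merge (leaf 3 301 301) (leaf 3 302 303))))))) (node 369 (merge (leaf 0 334 370) (node 333 (merge (leaf 0 333 368) (node 305 (merge (leaf 2 301 304) (leaf 2 302 306)))))))))) (merge (node 333 (merge (node 368 (merge (leaf 0 333 369) (node 304 (merge (leaf 2 301 305) (node 400 (merge (leaf 5 303 399) (leaf 5 335 432))))))) (node 364 (merge (leaf 1 332 365) (node 332 (merge (leaf 1 331 363) (node 300 (merge (leaf 3 299 299) (leaf 3 300 301))))))))) (merge (node 337 (merge (node 365 (merge (leaf 1 333 366) (node 333 (merge (leaf 1 332 364) (node 305 (merge (leaf 2 301 304) (leaf 2 302 306))))))) (merge (node 370 (merge (leaf 0 334 369) (node 338 (merge (leaf 0 335 371) (node 306 (merge (leaf 2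 302 305) (leaf 2 303 307))))))) (node 369 (merge (leaf 0 334 370) (node 333 (merge (leaf 0 333 368) (node 364 (merge (leaf 1 332 365) (node 332 (merge (leaf 1 331 363) (node 303 (merge (leaf 2 300 304) (node 302 (merge (leaf 2 299 331) (leaf 3 302 338)))))))))))))))) (merge (node 337 (merge (node 366 (merge (leaf 1 333 365) (node 302 (merge (leaf 3 301 301) (node 398 (merge (leaf 4 302 399) (leaf 4 334 430))))))) (merge (node 365 (merge (leaf 1 333 366) (node 333 (merge (leaf 1 332 364) (node 305 (merge (leaf 2 301 304) (leaf 2 302 306))))))) (node 306 (merge (leaf 2 302 305) (node 338 (merge (leaf 2 303 307) (node 302 (merge (leaf 3 301 301) (leaf 3 302 303)))))))))) (merge (node 337 (merge (node 366 (merge (leaf 1 333 365) (node 302 (merge (leaf 3 301 301) (node 398 (merge (leaf 4 302 399) (leaf 4 334 430))))))) (node 370 (merge (leaf 0 334 369) (node 338 (merge (leaf 0 335 371) (node 306 (merge (leaf 2 302 305) (leaf 2 303 307))))))))) (node 368 (merge (node 369 (merge (leaf 0 333 333) (node 370 (merge (leaf 0 334 337) (leaf 3 335 371))))) (merge (node 400 (merge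 (leaf 5 335 432) (node 304 (merge (leaf 5 303 399) (node 271 (merge (leaf 7 271 303) (node 272 (merge (leaf 7 239 239) (node 401 (merge (leaf 4 272 369) (leaf 4 304 433))))))))))) (node 400 (merge (leaf 5 335 432) (node 304 (merge (leaf 5 303 399) (node 303 (merge (leaf 7 271 271) (node 333 (merge (leaf 2 300 332) (node 365 (merge (leaf 1 332 364) (node 337 (merge (leaf 1 333 366) (node 301 (merge (leaf 3 300 300) (leaf 0 301 302)))))))))))))))))))))))) (merge (node 335 (merge (node 368 (merge (node 369 (merge (leaf 0 333 333) (node 370 (merge (leaf 0 334 337) (leaf 3 335 371))))) (node 399 (merge (leaf 6 335 367) (node 400 (merge (leaf 5 303 304) (leaf 5 335 432))))))) (merge (node 337 (merge (node 370 (merge (leaf 0 334 369) (node 338 (merge (leaf 0 335 371) (node 302 (merge (leaf 3 301 301) (leaf 3 302 303))))))) (merge (node 306 (merge (leaf 2 302 305) (node 338 (merge (leaf 2 303 307) (node 302 (merge (leaf 3 301 301) (leaf 3 302 303))))))) (node 369 (merge (leaf 0 334 370) (node 333 (merge (leaf 0 333 368) (node 305 (merge (leaf 2 301 304) (leaf 2 302 306))))))))))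 (merge (node 368 (merge (node 333 (merge (leaf 0 333 369) (node 367 (merge (leaf 0 332 332) (leaf 6 335 399))))) (merge (node 399 (merge (leaf 6 335 367) (node 400 (merge (leaf 5 303 304) (leaf 5 335 432))))) (merge (node 333 (merge (leaf 0 333 369) (node 332 (merge (leaf 0 332 367) (node 304 (merge (leaf 2 300 303) (leaf 2 301 305))))))) (node 400 (merge (leaf 5 335 432) (node 304 (merge (leaf 5 303 399) (node 305 (merge (leaf 6 272 273) (node 303 (merge (leaf 7 271 271) (node 333 (merge (leaf 1 301 302) (leaf 2 301 335))))))))))))))) (merge (node 301 (merge (node 302 (merge (leaf 3 301 337) (node 300 (merge (leaf 0 299 299) (leaf 0 300 303))))) (merge (node 333 (merge (leaf 3 300 300) (node 368 (merge (leaf 0 333 369) (node 367 (merge (leaf 0 332 332) (leaf 6 335 399))))))) (node 337 (merge (leaf 3 301 302) (node 370 (merge (leaf 0 334 369) (node 338 (merge (leaf 0 335 371) (node 306 (merge (leaf 2 302 305) (leaf 2 303 307)))))))))))) (merge (node 337 (merge (node 370 (merge (leaf 0 334 369) (node 338 (merge (leaf 0 335 371) (node 306 (merge (leaf 2 302 305) (leaf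 2 303 307))))))) (merge (node 370 (merge (leaf 0 334 369) (node 338 (merge (leaf 0 335 371) (node 302 (merge (leaf 3 301 301) (leaf 3 302 303))))))) (merge (node 306 (merge (leaf 2 302 305) (node 338 (merge (leaf 2 303 307) (node 302 (merge (leaf 3 301 301) (leaf 3 302 303))))))) (node 369 (merge (leaf 0 334 370) (node 305 (merge (leaf 2 302 306) (node 304 (merge (leaf 2 301 333) (node 272 (merge (leaf 4 240 240) (leaf 7 272 401))))))))))))) (merge (node 337 (merge (node 306 (merge (leaf 2 302 305) (node 338 (merge (leaf 2 303 307) (node 302 (merge (leaf 3 301 301) (leaf 3 302 303))))))) (merge (node 305 (merge (leaf 2 302 306) (node 304 (merge (leaf 2 301 333) (node 367 (merge (leaf 6 303 399) (node 338 (merge (leaf 1 334 366) (node 339 (merge (leaf 3 303 303) (leaf 1 335 368))))))))))) (merge (node 305 (merge (leaf 2 302 306) (node 333 (merge (leaf 2 301 304) (node 302 (merge (leaf 3 301 301) (node 367 (merge (leaf 7 302 399) (node 332 (merge (leaf 0 332 368) (node 331 (merge (leaf 2 299 303) (leaf 0 331 366))))))))))))) (merge (node 305 (merge (leaf 2 302 306)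 (node 333 (merge (leaf 2 301 304) (node 300 (merge (leaf 3 300 301) (node 332 (merge (leaf 3 299 299) (node 367 (merge (leaf 0 332 368) (node 366 (merge (leaf 0 331 331) (leaf 1 334 338))))))))))))) (node 302 (merge (leaf 3 301 301) (node 367 (merge (leaf 7 302 399) (node 338 (merge (leaf 3 302 303) (node 371 (merge (leaf 0 335 370) (node 339 (merge (leaf 1 335 368) (leaf 0 336 372)))))))))))))))) (hyp 0)))))))) (merge (node 335 (merge (node 368 (merge (node 369 (merge (leaf 0 333 333) (node 370 (merge (leaf 0 334 337) (leaf 3 335 371))))) (node 399 (merge (leaf 6 335 367) (node 400 (merge (leaf 5 303 304) (leaf 5 335 432))))))) (merge (node 337 (merge (node 370 (merge (leaf 0 334 369) (node 338 (merge (leaf 0 335 371) (node 302 (merge (leaf 3 301 301) (leaf 3 302 303))))))) (merge (node 306 (merge (leaf 2 302 305) (node 338 (merge (leaf 2 303 307) (node 302 (merge (leaf 3 301 301) (leaf 3 302 303))))))) (node 369 (merge (leaf 0 334 370) (node 333 (merge (leaf 0 333 368) (node 305 (merge (leaf 2 301 304) (leaf 2 302 306)))))))))) (merge (node 368 (merge (node 333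 (merge (leaf 0 333 369) (node 367 (merge (leaf 0 332 332) (leaf 6 335 399))))) (merge (node 399 (merge (leaf 6 335 367) (node 400 (merge (leaf 5 303 304) (leaf 5 335 432))))) (merge (node 333 (merge (leaf 0 333 369) (node 332 (merge (leaf 0 332 367) (node 304 (merge (leaf 2 300 303) (leaf 2 301 305))))))) (node 400 (merge (leaf 5 335 432) (node 304 (merge (leaf 5 303 399) (node 305 (merge (leaf 6 272 273) (node 303 (merge (leaf 7 271 271) (node 333 (merge (leaf 1 301 302) (leaf 2 301 335))))))))))))))) (merge (node 301 (merge (node 302 (merge (leaf 3 301 337) (node 300 (merge (leaf 0 299 299) (leaf 0 300 303))))) (merge (node 333 (merge (leaf 3 300 300) (node 368 (merge (leaf 0 333 369) (node 367 (merge (leaf 0 332 332) (leaf 6 335 399))))))) (node 337 (merge (leaf 3 301 302) (node 370 (merge (leaf 0 334 369) (node 338 (merge (leaf 0 335 371) (node 306 (merge (leaf 2 302 305) (leaf 2 303 307)))))))))))) (merge (node 337 (merge (node 370 (merge (leaf 0 334 369) (node 338 (merge (leaf 0 335 371) (node 306 (merge (leaf 2 302 305) (leaf 2 303 307))))))) (merge (node 370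 (merge (leaf 0 334 369) (node 338 (merge (leaf 0 335 371) (node 302 (merge (leaf 3 301 301) (leaf 3 302 303))))))) (merge (node 306 (merge (leaf 2 302 305) (node 338 (merge (leaf 2 303 307) (node 302 (merge (leaf 3 301 301) (leaf 3 302 303))))))) (node 369 (merge (leaf 0 334 370) (node 305 (merge (leaf 2 302 306) (node 304 (merge (leaf 2 301 333) (node 272 (merge (leaf 4 240 240) (leaf 7 272 401))))))))))))) (merge (node 337 (merge (node 305 (merge (leaf 2 302 306) (node 333 (merge (leaf 2 301 304) (node 364 (merge (leaf 1 332 365) (node 332 (merge (leaf 1 331 363) (node 300 (merge (leaf 3 299 299) (leaf 3 300 301))))))))))) (merge (node 302 (merge (leaf 3 301 301) (node 367 (merge (leaf 7 302 399) (node 338 (merge (leaf 3 302 303) (node 371 (merge (leaf 0 335 370) (node 339 (merge (leaf 1 335 368) (leaf 0 336 372))))))))))) (node 305 (merge (leaf 2 302 306) (node 333 (merge (leaf 2 301 304) (node 364 (merge (leaf 1 332 365) (node 332 (merge (leaf 1 331 363) (node 367 (merge (leaf 0 332 368) (node 302 (merge (leaf 7 302 399) (node 303 (merge (leaf 2 299 331) (leaf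 3 302 338)))))))))))))))))) (hyp 0)))))))) (merge (node 335 (merge (node 366 (merge (node 399 (merge (leaf 7 334 367) (node 398 (merge (leaf 4 302 302) (leaf 4 334 430))))) (node 365 (merge (leaf 1 333 337) (node 364 (merge (leaf 1 332 333) (leaf 2 331 363))))))) (merge (node 337 (merge (node 366 (merge (leaf 1 333 365) (node 367 (merge (leaf 1 334 338) (leaf 7 334 399))))) (merge (node 306 (merge (leaf 2 302 305) (node 338 (merge (leaf 2 303 307) (node 302 (merge (leaf 3 301 301) (leaf 3 302 303))))))) (node 366 (merge (leaf 1 333 365) (node 399 (merge (leaf 7 334 367) (node 302 (merge (leaf 3 301 301) (leaf 4 302 398)))))))))) (merge (node 337 (merge (node 366 (merge (leaf 1 333 365) (node 338 (merge (leaf 1 334 367) (node 302 (merge (leaf 3 301 301) (leaf 3 302 303))))))) (merge (node 365 (merge (leaf 1 333 366) (node 333 (merge (leaf 1 332 364) (node 305 (merge (leaf 2 301 304) (leaf 2 302 306))))))) (node 306 (merge (leaf 2 302 305) (node 338 (merge (leaf 2 303 307) (node 302 (merge (leaf 3 301 301) (leaf 3 302 303)))))))))) (merge (node 337 (merge (node 366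 (merge (leaf 1 333 365) (node 302 (merge (leaf 3 301 301) (node 398 (merge (leaf 4 302 399) (leaf 4 334 430))))))) (merge (node 365 (merge (leaf 1 333 366) (node 333 (merge (leaf 1 332 364) (node 305 (merge (leaf 2 301 304) (leaf 2 302 306))))))) (node 306 (merge (leaf 2 302 305) (node 338 (merge (leaf 2 303 307) (node 302 (merge (leaf 3 301 301) (leaf 3 302 303)))))))))) (merge (node 337 (merge (node 370 (merge (leaf 0 334 369) (node 338 (merge (leaf 0 335 371) (node 306 (merge (leaf 2 302 305) (leaf 2 303 307))))))) (merge (node 370 (merge (leaf 0 334 369) (node 338 (merge (leaf 0 335 371) (node 302 (merge (leaf 3 301 301) (leaf 3 302 303))))))) (merge (node 306 (merge (leaf 2 302 305) (node 338 (merge (leaf 2 303 307) (node 302 (merge (leaf 3 301 301) (leaf 3 302 303))))))) (node 369 (merge (leaf 0 334 370) (node 305 (merge (leaf 2 302 306) (node 304 (merge (leaf 2 301 333) (node 272 (merge (leaf 4 240 240) (leaf 7 272 401))))))))))))) (merge (node 337 (merge (node 366 (merge (leaf 1 333 365) (node 367 (merge (leaf 1 334 338) (leaf 7 334 399))))) (merge (node 370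 (merge (leaf 0 334 369) (node 338 (merge (leaf 0 335 371) (node 306 (merge (leaf 2 302 305) (leaf 2 303 307))))))) (node 365 (merge (leaf 1 333 366) (node 333 (merge (leaf 1 332 364) (node 305 (merge (leaf 2 301 304) (leaf 2 302 306)))))))))) (node 366 (merge (node 398 (merge (leaf 4 334 430) (node 302 (merge (leaf 4 302 399) (node 303 (merge (leaf 6 270 271) (node 301 (merge (leaf 7 269 269) (leaf 0 300 300))))))))) (merge (node 333 (merge (node 304 (merge (leaf 2 301 305) (node 332 (merge (leaf 2 300 303) (node 300 (merge (leaf 3 299 299) (leaf 3 300 301))))))) (merge (node 364 (merge (leaf 1 332 365) (node 332 (merge (leaf 1 331 363) (node 300 (merge (leaf 3 299 299) (leaf 3 300 301))))))) (merge (node 364 (merge (leaf 1 332 365) (node 332 (merge (leaf 1 331 363) (node 304 (merge (leaf 2 300 303) (leaf 2 301 305))))))) (node 365 (merge (leaf 1 332 364) (node 397 (merge (leaf 6 333 429) (node 301 (merge (leaf 3 300 300) (node 270 (merge (leaf 6 269 302) (node 269 (merge (leaf 4 237 237) (leaf 6 237 238))))))))))))))) (merge (node 301 (merge (node 398 (merge (leaf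 4 334 430) (node 269 (merge (leaf 7 269 302) (node 333 (merge (leaf 4 237 237) (leaf 4 269 365))))))) (merge (node 398 (merge (leaf 4 334 430) (node 302 (merge (leaf 7 269 269) (node 300 (merge (leaf 0 299 299) (leaf 0 300 303))))))) (node 333 (merge (leaf 3 300 300) (node 364 (merge (leaf 1 332 365) (node 332 (merge (leaf 1 331 363) (node 304 (merge (leaf 2 300 303) (leaf 2 301 305)))))))))))) (node 367 (merge (leaf 7 334 399) (node 365 (merge (leaf 2 332 364) (node 429 (merge (leaf 6 333 397) (node 430 (merge (leaf 6 397 398) (node 460 (merge (leaf 1 428 432) (node 459 (merge (leaf 1 427 428) (leaf 2 426 458)))))))))))))))))))))))) (node 335 (merge (node 337 (merge (node 366 (merge (leaf 1 333 365) (node 338 (merge (leaf 1 334 367) (node 302 (merge (leaf 3 301 301) (leaf 3 302 303))))))) (merge (node 365 (merge (leaf 1 333 366) (node 333 (merge (leaf 1 332 364) (node 305 (merge (leaf 2 301 304) (leaf 2 302 306))))))) (node 306 (merge (leaf 2 302 305) (node 338 (merge (leaf 2 303 307) (node 302 (merge (leaf 3 301 301) (leaf 3 302 303)))))))))) (merge (node 337 (merge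 (node 370 (merge (leaf 0 334 369) (node 338 (merge (leaf 0 335 371) (node 302 (merge (leaf 3 301 301) (leaf 3 302 303))))))) (merge (node 306 (merge (leaf 2 302 305) (node 338 (merge (leaf 2 303 307) (node 302 (merge (leaf 3 301 301) (leaf 3 302 303))))))) (node 369 (merge (leaf 0 334 370) (node 333 (merge (leaf 0 333 368) (node 305 (merge (leaf 2 301 304) (leaf 2 302 306)))))))))) (merge (node 337 (merge (node 366 (merge (leaf 1 333 365) (node 338 (merge (leaf 1 334 367) (node 302 (merge (leaf 3 301 301) (leaf 3 302 303))))))) (merge (node 370 (merge (leaf 0 334 369) (node 338 (merge (leaf 0 335 371) (node 302 (merge (leaf 3 301 301) (leaf 3 302 303))))))) (merge (node 369 (merge (leaf 0 334 370) (node 333 (merge (leaf 0 333 368) (node 364 (merge (leaf 1 332 365) (node 332 (merge (leaf 1 331 363) (node 300 (merge (leaf 3 299 299) (leaf 3 300 301))))))))))) (node 369 (merge (leaf 0 334 370) (node 333 (merge (leaf 0 333 368) (node 364 (merge (leaf 1 332 365) (node 332 (merge (leaf 1 331 363) (node 303 (merge (leaf 2 300 304) (node 302 (merge (leaf 2 299 331) (leaf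 3 302 338))))))))))))))))) (merge (node 337 (merge (node 370 (merge (leaf 0 334 369) (node 338 (merge (leaf 0 335 371) (node 306 (merge (leaf 2 302 305) (leaf 2 303 307))))))) (merge (node 305 (merge (leaf 2 302 306) (node 333 (merge (leaf 2 301 304) (node 364 (merge (leaf 1 332 365) (node 332 (merge (leaf 1 331 363) (node 300 (merge (leaf 3 299 299) (leaf 3 300 301))))))))))) (node 369 (merge (leaf 0 334 370) (node 333 (merge (leaf 0 333 368) (node 364 (merge (leaf 1 332 365) (node 332 (merge (leaf 1 331 363) (node 300 (merge (leaf 3 299 299) (leaf 3 300 301)))))))))))))) (merge (node 304 (merge (node 305 (merge (leaf 2 301 333) (node 306 (merge (leaf 1 302 303) (leaf 1 303 307))))) (merge (node 333 (merge (leaf 2 301 305) (node 368 (merge (leaf 0 333 369) (node 332 (merge (leaf 0 332 367) (node 364 (merge (leaf 1 331 363) (leaf 1 332 365))))))))) (merge (node 368 (merge (node 369 (merge (leaf 0 333 333) (node 370 (merge (leaf 3 334 367) (leaf 3 335 371))))) (merge (node 400 (merge (leaf 5 335 432) (node 271 (merge (leaf 7 271 303) (node 272 (merge (leaf 7 239 239)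 (node 401 (merge (leaf 4 272 369) (leaf 4 304 433))))))))) (node 400 (merge (leaf 5 335 432) (node 271 (merge (leaf 7 271 303) (node 272 (merge (leaf 7 239 239) (node 241 (merge (leaf 6 240 273) (node 240 (merge (leaf 6 208 209) (leaf 5 239 367)))))))))))))) (node 368 (merge (node 400 (merge (leaf 5 335 432) (node 305 (merge (leaf 6 272 273) (node 303 (merge (leaf 7 271 271) (leaf 1 302 306))))))) (merge (node 400 (merge (leaf 5 335 432) (node 271 (merge (leaf 7 271 303) (node 272 (merge (leaf 7 239 239) (node 401 (merge (leaf 4 272 369) (leaf 4 304 433))))))))) (merge (node 400 (merge (leaf 5 335 432) (node 273 (merge (leaf 6 272 305) (node 272 (merge (leaf 6 240 241) (node 401 (merge (leaf 4 272 369) (leaf 4 304 433))))))))) (node 369 (merge (node 370 (merge (leaf 3 334 367) (leaf 3 335 371))) (node 272 (merge (leaf 4 272 401) (node 241 (merge (leaf 6 240 273) (node 240 (merge (leaf 6 208 209) (node 239 (merge (leaf 7 207 207) (leaf 7 239 271))))))))))))))))))) (node 337 (merge (node 370 (merge (leaf 0 334 369) (node 338 (merge (leaf 0 335 371) (node 306 (merge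 (leaf 2 302 305) (leaf 2 303 307))))))) (node 366 (merge (leaf 1 333 365) (node 302 (merge (leaf 3 301 301) (node 398 (merge (leaf 4 334 430) (node 271 (merge (leaf 6 270 303) (node 270 (merge (leaf 6 238 239) (node 237 (merge (leaf 7 237 269) (node 238 (merge (leaf 7 205 205) (leaf 4 238 367)))))))))))))))))))))))))))))))) nP_322 cP_322 12 (by decide +kernel)
def nP_323 : ℕ := 0x1000000002000000020000000a0000000800000000000000000000000400000000000000000000000000000000000000000000000000000000000000000000000000000000000
def cP_323 : ℕ := 0x70000000f000000010000000000000001000000760000007f800003ffc00001fb800003ffc000007f8000003e0000002a000000000000000000000000000000000000000000000000000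
theorem lP_323 : S nP_323 cP_323 13 := S_of_chk [(nP_321, cP_321, 10)] ⟨lP_321, trivial⟩ (node 335 (merge (node 336 (merge (node 366 (merge (node 399 (merge (leaf 7 334 367) (node 398 (merge (leaf 4 302 302) (leaf 4 334 430))))) (node 365 (merge (leaf 1 333 337) (node 364 (merge (leaf 1 332 333) (leaf 2 331 363))))))) (merge (node 368 (merge (node 369 (merge (leaf 0 333 333) (node 370 (merge (leaf 0 334 337) (leaf 3 335 371))))) (node 399 (merge (leaf 6 335 367) (node 400 (merge (leaf 5 303 304) (leaf 5 335 432))))))) (merge (node 337 (merge (node 365 (merge (leaf 1 333 366) (node 333 (merge (leaf 1 332 364) (node 305 (merge (leaf 2 301 304) (leaf 2 302 306))))))) (merge (node 370 (merge (leaf 0 334 369) (node 338 (merge (leaf 0 335 371) (node 306 (merge (leaf 2 302 305) (leaf 2 303 307))))))) (node 369 (merge (leaf 0 334 370) (node 333 (merge (leaf 0 333 368) (node 364 (merge (leaf 1 332 365) (node 332 (merge (leaf 1 331 363) (node 303 (merge (leaf 2 300 304) (node 302 (merge (leaf 2 299 331) (leaf 3 302 338)))))))))))))))) (merge (node 366 (merge (node 399 (merge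 (leaf 7 334 367) (node 398 (merge (leaf 4 302 302) (leaf 4 334 430))))) (node 337 (merge (leaf 1 333 365) (node 370 (merge (leaf 0 334 369) (node 338 (merge (leaf 0 335 371) (node 306 (merge (leaf 2 302 305) (leaf 2 303 307))))))))))) (node 368 (merge (node 369 (merge (leaf 0 333 333) (node 370 (merge (leaf 3 334 367) (leaf 3 335 371))))) (merge (node 399 (merge (leaf 6 335 367) (node 400 (merge (leaf 5 303 304) (leaf 5 335 432))))) (node 400 (merge (leaf 5 335 432) (node 304 (merge (leaf 5 303 399) (node 305 (merge (leaf 6 272 273) (node 303 (merge (leaf 7 271 271) (node 333 (merge (leaf 1 301 302) (leaf 2 301 335))))))))))))))))))) (merge (node 336 (merge (node 368 (merge (node 369 (merge (leaf 0 333 333) (node 370 (merge (leaf 0 334 337) (leaf 3 335 371))))) (node 399 (merge (leaf 6 335 367) (node 400 (merge (leaf 5 303 304) (leaf 5 335 432))))))) (merge (node 333 (merge (node 368 (merge (leaf 0 333 369) (node 304 (merge (leaf 2 301 305) (node 400 (merge (leaf 5 303 399) (leaf 5 335 432))))))) (node 364 (merge (leaf 1 332 365) (node 332 (merge (leaf 1 331 363)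 (node 300 (merge (leaf 3 299 299) (leaf 3 300 301))))))))) (merge (node 337 (merge (node 370 (merge (leaf 0 334 369) (node 338 (merge (leaf 0 335 371) (node 306 (merge (leaf 2 302 305) (leaf 2 303 307))))))) (merge (node 305 (merge (leaf 2 302 306) (node 333 (merge (leaf 2 301 304) (node 364 (merge (leaf 1 332 365) (node 332 (merge (leaf 1 331 363) (node 300 (merge (leaf 3 299 299) (leaf 3 300 301))))))))))) (node 369 (merge (leaf 0 334 370) (node 333 (merge (leaf 0 333 368) (node 364 (merge (leaf 1 332 365) (node 332 (merge (leaf 1 331 363) (node 300 (merge (leaf 3 299 299) (leaf 3 300 301)))))))))))))) (merge (node 337 (merge (node 366 (merge (leaf 1 333 365) (node 367 (merge (leaf 1 334 338) (leaf 7 334 399))))) (merge (node 370 (merge (leaf 0 334 369) (node 338 (merge (leaf 0 335 371) (node 306 (merge (leaf 2 302 305) (leaf 2 303 307))))))) (node 365 (merge (leaf 1 333 366) (node 333 (merge (leaf 1 332 364) (node 305 (merge (leaf 2 301 304) (leaf 2 302 306)))))))))) (merge (node 337 (merge (node 366 (merge (leaf 1 333 365) (node 367 (merge (leaf 1 334 338) (leaf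 7 334 399))))) (merge (node 305 (merge (leaf 2 302 306) (node 333 (merge (leaf 2 301 304) (node 364 (merge (leaf 1 332 365) (node 332 (merge (leaf 1 331 363) (node 300 (merge (leaf 3 299 299) (leaf 3 300 301))))))))))) (node 305 (merge (leaf 2 302 306) (node 333 (merge (leaf 2 301 304) (node 300 (merge (leaf 3 300 301) (node 332 (merge (leaf 3 299 299) (node 367 (merge (leaf 0 332 368) (node 366 (merge (leaf 0 331 331) (leaf 1 334 338)))))))))))))))) (node 366 (merge (node 337 (merge (leaf 1 333 365) (node 370 (merge (leaf 0 334 369) (node 338 (merge (leaf 0 335 371) (node 306 (merge (leaf 2 302 305) (leaf 2 303 307))))))))) (merge (node 367 (merge (leaf 7 334 399) (node 337 (merge (leaf 1 334 338) (node 369 (merge (leaf 0 334 370) (node 398 (merge (leaf 4 334 430) (node 397 (merge (leaf 1 365 368) (leaf 6 365 429))))))))))) (node 367 (merge (leaf 7 334 399) (node 365 (merge (leaf 2 332 364) (node 429 (merge (leaf 6 333 397) (node 430 (merge (leaf 6 397 398) (node 432 (merge (leaf 1 428 460) (node 400 (merge (leaf 5 335 368) (leaf 2 397 401)))))))))))))))))))))) (merge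 (node 336 (merge (node 366 (merge (node 399 (merge (leaf 7 334 367) (node 398 (merge (leaf 4 302 302) (leaf 4 334 430))))) (node 365 (merge (leaf 1 333 337) (node 364 (merge (leaf 1 332 333) (leaf 2 331 363))))))) (merge (node 366 (merge (node 399 (merge (leaf 7 334 367) (node 398 (merge (leaf 4 302 302) (leaf 4 334 430))))) (merge (node 337 (merge (leaf 1 333 365) (node 367 (merge (leaf 1 334 338) (leaf 7 334 399))))) (node 337 (merge (leaf 1 333 365) (node 370 (merge (leaf 0 334 369) (node 338 (merge (leaf 0 335 371) (node 302 (merge (leaf 3 301 301) (leaf 3 302 303)))))))))))) (merge (node 337 (merge (node 366 (merge (leaf 1 333 365) (node 338 (merge (leaf 1 334 367) (node 302 (merge (leaf 3 301 301) (leaf 3 302 303))))))) (merge (node 370 (merge (leaf 0 334 369) (node 338 (merge (leaf 0 335 371) (node 302 (merge (leaf 3 301 301) (leaf 3 302 303))))))) (merge (node 369 (merge (leaf 0 334 370) (node 333 (merge (leaf 0 333 368) (node 364 (merge (leaf 1 332 365) (node 332 (merge (leaf 1 331 363) (node 300 (merge (leaf 3 299 299) (leaf 3 300 301))))))))))) (node 369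 (merge (leaf 0 334 370) (node 333 (merge (leaf 0 333 368) (node 364 (merge (leaf 1 332 365) (node 332 (merge (leaf 1 331 363) (node 303 (merge (leaf 2 300 304) (node 302 (merge (leaf 2 299 331) (leaf 3 302 338))))))))))))))))) (merge (node 368 (merge (node 369 (merge (leaf 0 333 333) (node 370 (merge (leaf 0 334 337) (leaf 3 335 371))))) (merge (node 400 (merge (leaf 5 335 432) (node 304 (merge (leaf 5 303 399) (node 271 (merge (leaf 7 271 303) (node 272 (merge (leaf 7 239 239) (node 401 (merge (leaf 4 272 369) (leaf 4 304 433))))))))))) (node 400 (merge (leaf 5 335 432) (node 304 (merge (leaf 5 303 399) (node 303 (merge (leaf 7 271 271) (node 333 (merge (leaf 2 300 332) (node 365 (merge (leaf 1 332 364) (node 337 (merge (leaf 1 333 366) (node 301 (merge (leaf 3 300 300) (leaf 0 301 302)))))))))))))))))) (node 368 (merge (node 369 (merge (leaf 0 333 333) (node 370 (merge (leaf 3 334 367) (leaf 3 335 371))))) (merge (node 399 (merge (leaf 6 335 367) (node 400 (merge (leaf 5 303 304) (leaf 5 335 432))))) (node 400 (merge (leaf 5 335 432) (node 304 (merge (leaf 5 303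 399) (node 271 (merge (leaf 7 271 303) (node 272 (merge (leaf 7 239 239) (node 401 (merge (leaf 4 272 369) (leaf 4 304 433))))))))))))))))))) (merge (node 336 (merge (node 337 (merge (node 370 (merge (leaf 0 334 369) (node 338 (merge (leaf 0 335 371) (node 302 (merge (leaf 3 301 301) (leaf 3 302 303))))))) (merge (node 306 (merge (leaf 2 302 305) (node 338 (merge (leaf 2 303 307) (node 302 (merge (leaf 3 301 301) (leaf 3 302 303))))))) (node 369 (merge (leaf 0 334 370) (node 333 (merge (leaf 0 333 368) (node 305 (merge (leaf 2 301 304) (leaf 2 302 306)))))))))) (merge (node 333 (merge (node 368 (merge (leaf 0 333 369) (node 304 (merge (leaf 2 301 305) (node 400 (merge (leaf 5 303 399) (leaf 5 335 432))))))) (node 364 (merge (leaf 1 332 365) (node 332 (merge (leaf 1 331 363) (node 300 (merge (leaf 3 299 299) (leaf 3 300 301))))))))) (merge (node 337 (merge (node 365 (merge (leaf 1 333 366) (node 333 (merge (leaf 1 332 364) (node 305 (merge (leaf 2 301 304) (leaf 2 302 306))))))) (merge (node 370 (merge (leaf 0 334 369) (node 338 (merge (leaf 0 335 371) (node 306 (merge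 (leaf 2 302 305) (leaf 2 303 307))))))) (node 369 (merge (leaf 0 334 370) (node 333 (merge (leaf 0 333 368) (node 364 (merge (leaf 1 332 365) (node 332 (merge (leaf 1 331 363) (node 303 (merge (leaf 2 300 304) (node 302 (merge (leaf 2 299 331) (leaf 3 302 338)))))))))))))))) (merge (node 337 (merge (node 366 (merge (leaf 1 333 365) (node 302 (merge (leaf 3 301 301) (node 398 (merge (leaf 4 302 399) (leaf 4 334 430))))))) (merge (node 365 (merge (leaf 1 333 366) (node 333 (merge (leaf 1 332 364) (node 305 (merge (leaf 2 301 304) (leaf 2 302 306))))))) (node 306 (merge (leaf 2 302 305) (node 338 (merge (leaf 2 303 307) (node 302 (merge (leaf 3 301 301) (leaf 3 302 303)))))))))) (merge (node 337 (merge (node 366 (merge (leaf 1 333 365) (node 302 (merge (leaf 3 301 301) (node 398 (merge (leaf 4 302 399) (leaf 4 334 430))))))) (node 370 (merge (leaf 0 334 369) (node 338 (merge (leaf 0 335 371) (node 306 (merge (leaf 2 302 305) (leaf 2 303 307))))))))) (node 368 (merge (node 369 (merge (leaf 0 333 333) (node 370 (merge (leaf 0 334 337) (leaf 3 335 371))))) (merge (node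 400 (merge (leaf 5 335 432) (node 304 (merge (leaf 5 303 399) (node 271 (merge (leaf 7 271 303) (node 272 (merge (leaf 7 239 239) (node 401 (merge (leaf 4 272 369) (leaf 4 304 433))))))))))) (node 400 (merge (leaf 5 335 432) (node 304 (merge (leaf 5 303 399) (node 303 (merge (leaf 7 271 271) (node 333 (merge (leaf 2 300 332) (node 365 (merge (leaf 1 332 364) (node 337 (merge (leaf 1 333 366) (node 301 (merge (leaf 3 300 300) (leaf 0 301 302)))))))))))))))))))))))) (merge (node 336 (merge (node 366 (merge (node 399 (merge (leaf 7 334 367) (node 398 (merge (leaf 4 302 302) (leaf 4 334 430))))) (node 365 (merge (leaf 1 333 337) (node 364 (merge (leaf 1 332 333) (leaf 2 331 363))))))) (merge (node 337 (merge (node 370 (merge (leaf 0 334 369) (node 338 (merge (leaf 0 335 371) (node 302 (merge (leaf 3 301 301) (leaf 3 302 303))))))) (merge (node 306 (merge (leaf 2 302 305) (node 338 (merge (leaf 2 303 307) (node 302 (merge (leaf 3 301 301) (leaf 3 302 303))))))) (node 369 (merge (leaf 0 334 370) (node 333 (merge (leaf 0 333 368) (node 305 (merge (leaf 2 301 304) (leaf 2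 302 306)))))))))) (merge (node 337 (merge (node 366 (merge (leaf 1 333 365) (node 302 (merge (leaf 3 301 301) (node 398 (merge (leaf 4 302 399) (leaf 4 334 430))))))) (node 370 (merge (leaf 0 334 369) (node 338 (merge (leaf 0 335 371) (node 306 (merge (leaf 2 302 305) (leaf 2 303 307))))))))) (merge (node 337 (merge (node 366 (merge (leaf 1 333 365) (node 367 (merge (leaf 1 334 338) (leaf 7 334 399))))) (merge (node 370 (merge (leaf 0 334 369) (node 338 (merge (leaf 0 335 371) (node 306 (merge (leaf 2 302 305) (leaf 2 303 307))))))) (node 365 (merge (leaf 1 333 366) (node 333 (merge (leaf 1 332 364) (node 305 (merge (leaf 2 301 304) (leaf 2 302 306)))))))))) (node 366 (merge (node 399 (merge (leaf 7 334 367) (node 398 (merge (leaf 4 302 302) (leaf 4 334 430))))) (merge (node 367 (merge (leaf 7 334 399) (node 365 (merge (leaf 2 332 364) (node 397 (merge (leaf 6 333 429) (node 368 (merge (leaf 1 364 396) (node 333 (merge (leaf 0 332 332) (leaf 0 333 369))))))))))) (node 301 (merge (node 398 (merge (leaf 4 334 430) (node 269 (merge (leaf 7 269 302) (node 333 (merge (leaf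 4 237 237) (leaf 4 269 365))))))) (merge (node 398 (merge (leaf 4 334 430) (node 302 (merge (leaf 7 269 269) (node 300 (merge (leaf 0 299 299) (leaf 0 300 303))))))) (node 333 (merge (leaf 3 300 300) (node 364 (merge (leaf 1 332 365) (node 332 (merge (leaf 1 331 363) (node 304 (merge (leaf 2 300 303) (leaf 2 301 305)))))))))))))))))))) (merge (node 336 (merge (node 337 (merge (node 366 (merge (leaf 1 333 365) (node 367 (merge (leaf 1 334 338) (leaf 7 334 399))))) (merge (node 306 (merge (leaf 2 302 305) (node 338 (merge (leaf 2 303 307) (node 302 (merge (leaf 3 301 301) (leaf 3 302 303))))))) (node 366 (merge (leaf 1 333 365) (node 399 (merge (leaf 7 334 367) (node 302 (merge (leaf 3 301 301) (leaf 4 302 398)))))))))) (merge (node 337 (merge (node 370 (merge (leaf 0 334 369) (node 338 (merge (leaf 0 335 371) (node 306 (merge (leaf 2 302 305) (leaf 2 303 307))))))) (merge (node 306 (merge (leaf 2 302 305) (node 338 (merge (leaf 2 303 307) (node 302 (merge (leaf 3 301 301) (leaf 3 302 303))))))) (node 369 (merge (leaf 0 334 370) (node 333 (merge (leaf 0 333 368) (node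 364 (merge (leaf 1 332 365) (node 332 (merge (leaf 1 331 363) (node 300 (merge (leaf 3 299 299) (leaf 3 300 301)))))))))))))) (merge (node 301 (merge (node 302 (merge (leaf 3 301 337) (node 300 (merge (leaf 0 299 299) (leaf 0 300 303))))) (merge (node 333 (merge (leaf 3 300 300) (node 368 (merge (leaf 0 333 369) (node 367 (merge (leaf 0 332 332) (leaf 6 335 399))))))) (node 337 (merge (leaf 3 301 302) (node 370 (merge (leaf 0 334 369) (node 338 (merge (leaf 0 335 371) (node 306 (merge (leaf 2 302 305) (leaf 2 303 307)))))))))))) (merge (node 337 (merge (node 366 (merge (leaf 1 333 365) (node 367 (merge (leaf 1 334 338) (leaf 7 334 399))))) (merge (node 370 (merge (leaf 0 334 369) (node 338 (merge (leaf 0 335 371) (node 306 (merge (leaf 2 302 305) (leaf 2 303 307))))))) (node 369 (merge (leaf 0 334 370) (node 368 (merge (leaf 0 333 333) (node 305 (merge (leaf 2 302 306) (node 400 (merge (leaf 5 272 273) (leaf 6 304 432)))))))))))) (node 366 (merge (node 399 (merge (leaf 7 334 367) (node 398 (merge (leaf 4 302 302) (leaf 4 334 430))))) (merge (node 367 (merge (leaf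 7 334 399) (node 365 (merge (leaf 2 332 364) (node 397 (merge (leaf 6 333 429) (node 368 (merge (leaf 1 364 396) (node 400 (merge (leaf 0 365 401) (leaf 5 335 432))))))))))) (merge (node 398 (merge (leaf 4 334 430) (node 397 (merge (leaf 6 365 429) (node 302 (merge (leaf 4 302 399) (node 271 (merge (leaf 6 270 303) (node 270 (merge (leaf 6 238 239) (leaf 5 269 365))))))))))) (node 301 (merge (node 398 (merge (leaf 4 334 430) (node 269 (merge (leaf 7 269 302) (node 333 (merge (leaf 4 237 237) (leaf 4 269 365))))))) (merge (node 398 (merge (leaf 4 334 430) (node 302 (merge (leaf 7 269 269) (node 300 (merge (leaf 0 299 299) (leaf 0 300 303))))))) (node 333 (merge (leaf 3 300 300) (node 368 (merge (leaf 0 333 369) (node 332 (merge (leaf 0 332 367) (node 364 (merge (leaf 1 331 363) (leaf 1 332 365))))))))))))))))))))) (merge (node 333 (merge (node 367 (merge (node 399 (merge (leaf 7 302 302) (leaf 7 334 366))) (merge (node 368 (merge (leaf 0 332 332) (node 399 (merge (leaf 7 302 302) (leaf 6 335 336))))) (merge (node 399 (merge (leaf 7 334 366) (node 336 (merge (leaf 6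 303 304) (leaf 6 335 368))))) (node 332 (merge (leaf 0 332 368) (node 331 (merge (leaf 0 331 366) (node 303 (merge (leaf 2 299 302) (leaf 2 300 304))))))))))) (merge (node 332 (merge (node 363 (merge (leaf 1 331 364) (node 331 (merge (leaf 1 330 362) (node 299 (merge (leaf 3 298 298) (leaf 3 299 300))))))) (merge (node 364 (merge (leaf 1 331 363) (node 336 (merge (leaf 1 332 365) (node 304 (merge (leaf 2 300 303) (leaf 2 301 305))))))) (node 304 (merge (leaf 2 300 303) (node 336 (merge (leaf 2 301 305) (node 300 (merge (leaf 3 299 299) (leaf 3 300 301)))))))))) (merge (node 367 (merge (node 399 (merge (leaf 7 302 302) (leaf 7 334 366))) (node 332 (merge (leaf 0 332 368) (node 363 (merge (leaf 1 331 364) (node 331 (merge (leaf 1 330 362) (node 299 (merge (leaf 3 298 298) (leaf 3 299 300))))))))))) (node 365 (merge (node 364 (merge (leaf 1 332 336) (node 363 (merge (leaf 2 330 362) (leaf 2 331 366))))) (merge (node 336 (merge (leaf 1 332 364) (node 368 (merge (leaf 0 333 369) (node 304 (merge (leaf 2 301 305) (node 400 (merge (leaf 5 303 399) (leaf 5 335 432)))))))))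 (node 366 (merge (node 399 (merge (leaf 7 334 367) (node 398 (merge (leaf 4 302 302) (leaf 4 334 430))))) (merge (node 397 (merge (leaf 6 333 429) (node 367 (merge (leaf 7 334 399) (node 368 (merge (leaf 3 333 369) (leaf 1 364 396))))))) (node 398 (merge (leaf 4 334 430) (node 397 (merge (leaf 6 333 429) (node 301 (merge (leaf 4 269 269) (node 302 (merge (leaf 6 269 270) (node 300 (merge (leaf 7 268 268) (leaf 0 299 299))))))))))))))))))))) (merge (node 336 (merge (node 366 (merge (node 399 (merge (leaf 7 334 367) (node 398 (merge (leaf 4 302 302) (leaf 4 334 430))))) (node 365 (merge (leaf 1 333 337) (node 364 (merge (leaf 1 332 333) (leaf 2 331 363))))))) (merge (node 337 (merge (node 366 (merge (leaf 1 333 365) (node 367 (merge (leaf 1 334 338) (leaf 7 334 399))))) (merge (node 306 (merge (leaf 2 302 305) (node 338 (merge (leaf 2 303 307) (node 302 (merge (leaf 3 301 301) (leaf 3 302 303))))))) (node 366 (merge (leaf 1 333 365) (node 399 (merge (leaf 7 334 367) (node 302 (merge (leaf 3 301 301) (leaf 4 302 398)))))))))) (merge (node 337 (merge (node 366 (merge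 (leaf 1 333 365) (node 338 (merge (leaf 1 334 367) (node 302 (merge (leaf 3 301 301) (leaf 3 302 303))))))) (merge (node 365 (merge (leaf 1 333 366) (node 333 (merge (leaf 1 332 364) (node 305 (merge (leaf 2 301 304) (leaf 2 302 306))))))) (node 306 (merge (leaf 2 302 305) (node 338 (merge (leaf 2 303 307) (node 302 (merge (leaf 3 301 301) (leaf 3 302 303)))))))))) (merge (node 337 (merge (node 366 (merge (leaf 1 333 365) (node 302 (merge (leaf 3 301 301) (node 398 (merge (leaf 4 302 399) (leaf 4 334 430))))))) (merge (node 365 (merge (leaf 1 333 366) (node 333 (merge (leaf 1 332 364) (node 305 (merge (leaf 2 301 304) (leaf 2 302 306))))))) (node 306 (merge (leaf 2 302 305) (node 338 (merge (leaf 2 303 307) (node 302 (merge (leaf 3 301 301) (leaf 3 302 303)))))))))) (merge (node 337 (merge (node 366 (merge (leaf 1 333 365) (node 367 (merge (leaf 1 334 338) (leaf 7 334 399))))) (merge (node 305 (merge (leaf 2 302 306) (node 333 (merge (leaf 2 301 304) (node 364 (merge (leaf 1 332 365) (node 332 (merge (leaf 1 331 363) (node 300 (merge (leaf 3 299 299) (leaf 3 300 301)))))))))))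 (node 305 (merge (leaf 2 302 306) (node 333 (merge (leaf 2 301 304) (node 300 (merge (leaf 3 300 301) (node 332 (merge (leaf 3 299 299) (node 367 (merge (leaf 0 332 368) (node 366 (merge (leaf 0 331 331) (leaf 1 334 338)))))))))))))))) (merge (node 337 (merge (node 306 (merge (leaf 2 302 305) (node 338 (merge (leaf 2 303 307) (node 302 (merge (leaf 3 301 301) (leaf 3 302 303))))))) (merge (node 305 (merge (leaf 2 302 306) (node 304 (merge (leaf 2 301 333) (node 367 (merge (leaf 6 303 399) (node 338 (merge (leaf 1 334 366) (node 339 (merge (leaf 3 303 303) (leaf 1 335 368))))))))))) (merge (node 305 (merge (leaf 2 302 306) (node 333 (merge (leaf 2 301 304) (node 302 (merge (leaf 3 301 301) (node 367 (merge (leaf 7 302 399) (node 332 (merge (leaf 0 332 368) (node 331 (merge (leaf 2 299 303) (leaf 0 331 366))))))))))))) (merge (node 305 (merge (leaf 2 302 306) (node 333 (merge (leaf 2 301 304) (node 300 (merge (leaf 3 300 301) (node 332 (merge (leaf 3 299 299) (node 367 (merge (leaf 0 332 368) (node 366 (merge (leaf 0 331 331) (leaf 1 334 338))))))))))))) (node 302 (merge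 (leaf 3 301 301) (node 367 (merge (leaf 7 302 399) (node 338 (merge (leaf 3 302 303) (node 371 (merge (leaf 0 335 370) (node 339 (merge (leaf 1 335 368) (leaf 0 336 372)))))))))))))))) (merge (node 337 (merge (node 305 (merge (leaf 2 302 306) (node 333 (merge (leaf 2 301 304) (node 364 (merge (leaf 1 332 365) (node 332 (merge (leaf 1 331 363) (node 300 (merge (leaf 3 299 299) (leaf 3 300 301))))))))))) (merge (node 302 (merge (leaf 3 301 301) (node 367 (merge (leaf 7 302 399) (node 338 (merge (leaf 3 302 303) (node 371 (merge (leaf 0 335 370) (node 339 (merge (leaf 1 335 368) (leaf 0 336 372))))))))))) (node 305 (merge (leaf 2 302 306) (node 333 (merge (leaf 2 301 304) (node 364 (merge (leaf 1 332 365) (node 332 (merge (leaf 1 331 363) (node 367 (merge (leaf 0 332 368) (node 302 (merge (leaf 7 302 399) (node 303 (merge (leaf 2 299 331) (leaf 3 302 338)))))))))))))))))) (node 366 (merge (node 398 (merge (leaf 4 334 430) (node 302 (merge (leaf 4 302 399) (node 303 (merge (leaf 6 270 271) (node 301 (merge (leaf 7 269 269) (leaf 0 300 300))))))))) (merge (node 333 (merge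 (node 304 (merge (leaf 2 301 305) (node 332 (merge (leaf 2 300 303) (node 300 (merge (leaf 3 299 299) (leaf 3 300 301))))))) (merge (node 364 (merge (leaf 1 332 365) (node 332 (merge (leaf 1 331 363) (node 300 (merge (leaf 3 299 299) (leaf 3 300 301))))))) (merge (node 364 (merge (leaf 1 332 365) (node 332 (merge (leaf 1 331 363) (node 304 (merge (leaf 2 300 303) (leaf 2 301 305))))))) (node 365 (merge (leaf 1 332 364) (node 397 (merge (leaf 6 333 429) (node 301 (merge (leaf 3 300 300) (node 270 (merge (leaf 6 269 302) (node 269 (merge (leaf 4 237 237) (leaf 6 237 238))))))))))))))) (merge (node 301 (merge (node 398 (merge (leaf 4 334 430) (node 269 (merge (leaf 7 269 302) (node 333 (merge (leaf 4 237 237) (leaf 4 269 365))))))) (merge (node 398 (merge (leaf 4 334 430) (node 302 (merge (leaf 7 269 269) (node 300 (merge (leaf 0 299 299) (leaf 0 300 303))))))) (node 333 (merge (leaf 3 300 300) (node 364 (merge (leaf 1 332 365) (node 332 (merge (leaf 1 331 363) (node 304 (merge (leaf 2 300 303) (leaf 2 301 305)))))))))))) (node 367 (merge (leaf 7 334 399) (node 365 (merge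 (leaf 2 332 364) (node 429 (merge (leaf 6 333 397) (node 430 (merge (leaf 6 397 398) (node 432 (merge (leaf 1 428 460) (node 400 (merge (leaf 5 335 368) (leaf 2 397 401))))))))))))))))))))))))) (merge (node 336 (merge (node 366 (merge (node 399 (merge (leaf 7 334 367) (node 398 (merge (leaf 4 302 302) (leaf 4 334 430))))) (node 365 (merge (leaf 1 333 337) (node 364 (merge (leaf 1 332 333) (leaf 2 331 363))))))) (merge (node 337 (merge (node 366 (merge (leaf 1 333 365) (node 367 (merge (leaf 1 334 338) (leaf 7 334 399))))) (merge (node 306 (merge (leaf 2 302 305) (node 338 (merge (leaf 2 303 307) (node 302 (merge (leaf 3 301 301) (leaf 3 302 303))))))) (node 366 (merge (leaf 1 333 365) (node 399 (merge (leaf 7 334 367) (node 302 (merge (leaf 3 301 301) (leaf 4 302 398)))))))))) (merge (node 337 (merge (node 366 (merge (leaf 1 333 365) (node 338 (merge (leaf 1 334 367) (node 302 (merge (leaf 3 301 301) (leaf 3 302 303))))))) (merge (node 365 (merge (leaf 1 333 366) (node 333 (merge (leaf 1 332 364) (node 305 (merge (leaf 2 301 304) (leaf 2 302 306))))))) (node 306 (merge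 (leaf 2 302 305) (node 338 (merge (leaf 2 303 307) (node 302 (merge (leaf 3 301 301) (leaf 3 302 303)))))))))) (merge (node 337 (merge (node 366 (merge (leaf 1 333 365) (node 302 (merge (leaf 3 301 301) (node 398 (merge (leaf 4 302 399) (leaf 4 334 430))))))) (merge (node 365 (merge (leaf 1 333 366) (node 333 (merge (leaf 1 332 364) (node 305 (merge (leaf 2 301 304) (leaf 2 302 306))))))) (node 306 (merge (leaf 2 302 305) (node 338 (merge (leaf 2 303 307) (node 302 (merge (leaf 3 301 301) (leaf 3 302 303)))))))))) (merge (node 337 (merge (node 370 (merge (leaf 0 334 369) (node 338 (merge (leaf 0 335 371) (node 306 (merge (leaf 2 302 305) (leaf 2 303 307))))))) (merge (node 370 (merge (leaf 0 334 369) (node 338 (merge (leaf 0 335 371) (node 302 (merge (leaf 3 301 301) (leaf 3 302 303))))))) (merge (node 306 (merge (leaf 2 302 305) (node 338 (merge (leaf 2 303 307) (node 302 (merge (leaf 3 301 301) (leaf 3 302 303))))))) (node 369 (merge (leaf 0 334 370) (node 305 (merge (leaf 2 302 306) (node 304 (merge (leaf 2 301 333) (node 272 (merge (leaf 4 240 240) (leaf 7 272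 401))))))))))))) (merge (node 337 (merge (node 366 (merge (leaf 1 333 365) (node 367 (merge (leaf 1 334 338) (leaf 7 334 399))))) (merge (node 370 (merge (leaf 0 334 369) (node 338 (merge (leaf 0 335 371) (node 306 (merge (leaf 2 302 305) (leaf 2 303 307))))))) (node 365 (merge (leaf 1 333 366) (node 333 (merge (leaf 1 332 364) (node 305 (merge (leaf 2 301 304) (leaf 2 302 306)))))))))) (node 366 (merge (node 301 (merge (node 398 (merge (leaf 4 334 430) (node 269 (merge (leaf 7 269 302) (node 333 (merge (leaf 4 237 237) (leaf 4 269 365))))))) (merge (node 398 (merge (leaf 4 334 430) (node 302 (merge (leaf 7 269 269) (node 300 (merge (leaf 0 299 299) (leaf 0 300 303))))))) (node 333 (merge (leaf 3 300 300) (node 364 (merge (leaf 1 332 365) (node 332 (merge (leaf 1 331 363) (node 304 (merge (leaf 2 300 303) (leaf 2 301 305)))))))))))) (merge (node 333 (merge (node 304 (merge (leaf 2 301 305) (node 332 (merge (leaf 2 300 303) (node 300 (merge (leaf 3 299 299) (leaf 3 300 301))))))) (merge (node 364 (merge (leaf 1 332 365) (node 332 (merge (leaf 1 331 363) (node 300 (merge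 (leaf 3 299 299) (leaf 3 300 301))))))) (merge (node 364 (merge (leaf 1 332 365) (node 332 (merge (leaf 1 331 363) (node 304 (merge (leaf 2 300 303) (leaf 2 301 305))))))) (node 365 (merge (leaf 1 332 364) (node 397 (merge (leaf 6 333 429) (node 301 (merge (leaf 3 300 300) (node 270 (merge (leaf 6 269 302) (node 269 (merge (leaf 4 237 237) (leaf 6 237 238))))))))))))))) (node 399 (merge (leaf 7 334 367) (node 398 (merge (leaf 4 334 430) (node 397 (merge (leaf 6 365 429) (node 432 (merge (leaf 0 396 396) (node 433 (merge (leaf 0 397 400) (leaf 3 398 434))))))))))))))))))))) (merge (node 336 (merge (node 368 (merge (node 369 (merge (leaf 0 333 333) (node 370 (merge (leaf 0 334 337) (leaf 3 335 371))))) (node 399 (merge (leaf 6 335 367) (node 400 (merge (leaf 5 303 304) (leaf 5 335 432))))))) (merge (node 337 (merge (node 370 (merge (leaf 0 334 369) (node 338 (merge (leaf 0 335 371) (node 302 (merge (leaf 3 301 301) (leaf 3 302 303))))))) (merge (node 306 (merge (leaf 2 302 305) (node 338 (merge (leaf 2 303 307) (node 302 (merge (leaf 3 301 301) (leaf 3 302 303)))))))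 (node 369 (merge (leaf 0 334 370) (node 333 (merge (leaf 0 333 368) (node 305 (merge (leaf 2 301 304) (leaf 2 302 306)))))))))) (merge (node 368 (merge (node 333 (merge (leaf 0 333 369) (node 367 (merge (leaf 0 332 332) (leaf 6 335 399))))) (merge (node 399 (merge (leaf 6 335 367) (node 400 (merge (leaf 5 303 304) (leaf 5 335 432))))) (merge (node 333 (merge (leaf 0 333 369) (node 332 (merge (leaf 0 332 367) (node 304 (merge (leaf 2 300 303) (leaf 2 301 305))))))) (node 400 (merge (leaf 5 335 432) (node 304 (merge (leaf 5 303 399) (node 305 (merge (leaf 6 272 273) (node 303 (merge (leaf 7 271 271) (node 333 (merge (leaf 1 301 302) (leaf 2 301 335))))))))))))))) (merge (node 301 (merge (node 302 (merge (leaf 3 301 337) (node 300 (merge (leaf 0 299 299) (leaf 0 300 303))))) (merge (node 333 (merge (leaf 3 300 300) (node 368 (merge (leaf 0 333 369) (node 367 (merge (leaf 0 332 332) (leaf 6 335 399))))))) (node 337 (merge (leaf 3 301 302) (node 370 (merge (leaf 0 334 369) (node 338 (merge (leaf 0 335 371) (node 306 (merge (leaf 2 302 305) (leaf 2 303 307)))))))))))) (merge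 (node 337 (merge (node 370 (merge (leaf 0 334 369) (node 338 (merge (leaf 0 335 371) (node 306 (merge (leaf 2 302 305) (leaf 2 303 307))))))) (merge (node 370 (merge (leaf 0 334 369) (node 338 (merge (leaf 0 335 371) (node 302 (merge (leaf 3 301 301) (leaf 3 302 303))))))) (merge (node 306 (merge (leaf 2 302 305) (node 338 (merge (leaf 2 303 307) (node 302 (merge (leaf 3 301 301) (leaf 3 302 303))))))) (node 369 (merge (leaf 0 334 370) (node 305 (merge (leaf 2 302 306) (node 304 (merge (leaf 2 301 333) (node 272 (merge (leaf 4 240 240) (leaf 7 272 401))))))))))))) (merge (node 337 (merge (node 305 (merge (leaf 2 302 306) (node 333 (merge (leaf 2 301 304) (node 364 (merge (leaf 1 332 365) (node 332 (merge (leaf 1 331 363) (node 300 (merge (leaf 3 299 299) (leaf 3 300 301))))))))))) (merge (node 302 (merge (leaf 3 301 301) (node 367 (merge (leaf 7 302 399) (node 338 (merge (leaf 3 302 303) (node 371 (merge (leaf 0 335 370) (node 339 (merge (leaf 1 335 368) (leaf 0 336 372))))))))))) (node 305 (merge (leaf 2 302 306) (node 333 (merge (leaf 2 301 304) (node 364 (merge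 (leaf 1 332 365) (node 332 (merge (leaf 1 331 363) (node 367 (merge (leaf 0 332 368) (node 302 (merge (leaf 7 302 399) (node 303 (merge (leaf 2 299 331) (leaf 3 302 338)))))))))))))))))) (hyp 0)))))))) (merge (node 336 (merge (node 368 (merge (node 369 (merge (leaf 0 333 333) (node 370 (merge (leaf 0 334 337) (leaf 3 335 371))))) (node 399 (merge (leaf 6 335 367) (node 400 (merge (leaf 5 303 304) (leaf 5 335 432))))))) (merge (node 337 (merge (node 370 (merge (leaf 0 334 369) (node 338 (merge (leaf 0 335 371) (node 302 (merge (leaf 3 301 301) (leaf 3 302 303))))))) (merge (node 306 (merge (leaf 2 302 305) (node 338 (merge (leaf 2 303 307) (node 302 (merge (leaf 3 301 301) (leaf 3 302 303))))))) (node 369 (merge (leaf 0 334 370) (node 333 (merge (leaf 0 333 368) (node 305 (merge (leaf 2 301 304) (leaf 2 302 306)))))))))) (merge (node 368 (merge (node 333 (merge (leaf 0 333 369) (node 367 (merge (leaf 0 332 332) (leaf 6 335 399))))) (merge (node 399 (merge (leaf 6 335 367) (node 400 (merge (leaf 5 303 304) (leaf 5 335 432))))) (merge (node 333 (merge (leaf 0 333 369)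 (node 332 (merge (leaf 0 332 367) (node 304 (merge (leaf 2 300 303) (leaf 2 301 305))))))) (node 400 (merge (leaf 5 335 432) (node 304 (merge (leaf 5 303 399) (node 305 (merge (leaf 6 272 273) (node 303 (merge (leaf 7 271 271) (node 333 (merge (leaf 1 301 302) (leaf 2 301 335))))))))))))))) (merge (node 301 (merge (node 302 (merge (leaf 3 301 337) (node 300 (merge (leaf 0 299 299) (leaf 0 300 303))))) (merge (node 333 (merge (leaf 3 300 300) (node 368 (merge (leaf 0 333 369) (node 367 (merge (leaf 0 332 332) (leaf 6 335 399))))))) (node 337 (merge (leaf 3 301 302) (node 370 (merge (leaf 0 334 369) (node 338 (merge (leaf 0 335 371) (node 306 (merge (leaf 2 302 305) (leaf 2 303 307)))))))))))) (merge (node 337 (merge (node 370 (merge (leaf 0 334 369) (node 338 (merge (leaf 0 335 371) (node 306 (merge (leaf 2 302 305) (leaf 2 303 307))))))) (merge (node 370 (merge (leaf 0 334 369) (node 338 (merge (leaf 0 335 371) (node 302 (merge (leaf 3 301 301) (leaf 3 302 303))))))) (merge (node 306 (merge (leaf 2 302 305) (node 338 (merge (leaf 2 303 307) (node 302 (merge (leaf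 3 301 301) (leaf 3 302 303))))))) (node 369 (merge (leaf 0 334 370) (node 305 (merge (leaf 2 302 306) (node 304 (merge (leaf 2 301 333) (node 272 (merge (leaf 4 240 240) (leaf 7 272 401))))))))))))) (merge (node 337 (merge (node 306 (merge (leaf 2 302 305) (node 338 (merge (leaf 2 303 307) (node 302 (merge (leaf 3 301 301) (leaf 3 302 303))))))) (merge (node 305 (merge (leaf 2 302 306) (node 304 (merge (leaf 2 301 333) (node 367 (merge (leaf 6 303 399) (node 338 (merge (leaf 1 334 366) (node 339 (merge (leaf 3 303 303) (leaf 1 335 368))))))))))) (merge (node 305 (merge (leaf 2 302 306) (node 333 (merge (leaf 2 301 304) (node 302 (merge (leaf 3 301 301) (node 367 (merge (leaf 7 302 399) (node 332 (merge (leaf 0 332 368) (node 331 (merge (leaf 2 299 303) (leaf 0 331 366))))))))))))) (merge (node 305 (merge (leaf 2 302 306) (node 333 (merge (leaf 2 301 304) (node 300 (merge (leaf 3 300 301) (node 332 (merge (leaf 3 299 299) (node 367 (merge (leaf 0 332 368) (node 366 (merge (leaf 0 331 331) (leaf 1 334 338))))))))))))) (node 302 (merge (leaf 3 301 301) (node 367 (merge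 (leaf 7 302 399) (node 338 (merge (leaf 3 302 303) (node 371 (merge (leaf 0 335 370) (node 339 (merge (leaf 1 335 368) (leaf 0 336 372)))))))))))))))) (hyp 0)))))))) (merge (node 336 (merge (node 337 (merge (node 366 (merge (leaf 1 333 365) (node 338 (merge (leaf 1 334 367) (node 302 (merge (leaf 3 301 301) (leaf 3 302 303))))))) (merge (node 365 (merge (leaf 1 333 366) (node 333 (merge (leaf 1 332 364) (node 305 (merge (leaf 2 301 304) (leaf 2 302 306))))))) (node 306 (merge (leaf 2 302 305) (node 338 (merge (leaf 2 303 307) (node 302 (merge (leaf 3 301 301) (leaf 3 302 303)))))))))) (merge (node 337 (merge (node 370 (merge (leaf 0 334 369) (node 338 (merge (leaf 0 335 371) (node 302 (merge (leaf 3 301 301) (leaf 3 302 303))))))) (merge (node 306 (merge (leaf 2 302 305) (node 338 (merge (leaf 2 303 307) (node 302 (merge (leaf 3 301 301) (leaf 3 302 303))))))) (node 369 (merge (leaf 0 334 370) (node 333 (merge (leaf 0 333 368) (node 305 (merge (leaf 2 301 304) (leaf 2 302 306)))))))))) (merge (node 337 (merge (node 366 (merge (leaf 1 333 365) (node 338 (merge (leaf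 1 334 367) (node 302 (merge (leaf 3 301 301) (leaf 3 302 303))))))) (merge (node 370 (merge (leaf 0 334 369) (node 338 (merge (leaf 0 335 371) (node 302 (merge (leaf 3 301 301) (leaf 3 302 303))))))) (merge (node 369 (merge (leaf 0 334 370) (node 333 (merge (leaf 0 333 368) (node 364 (merge (leaf 1 332 365) (node 332 (merge (leaf 1 331 363) (node 300 (merge (leaf 3 299 299) (leaf 3 300 301))))))))))) (node 369 (merge (leaf 0 334 370) (node 333 (merge (leaf 0 333 368) (node 364 (merge (leaf 1 332 365) (node 332 (merge (leaf 1 331 363) (node 303 (merge (leaf 2 300 304) (node 302 (merge (leaf 2 299 331) (leaf 3 302 338))))))))))))))))) (merge (node 337 (merge (node 370 (merge (leaf 0 334 369) (node 338 (merge (leaf 0 335 371) (node 306 (merge (leaf 2 302 305) (leaf 2 303 307))))))) (merge (node 305 (merge (leaf 2 302 306) (node 333 (merge (leaf 2 301 304) (node 364 (merge (leaf 1 332 365) (node 332 (merge (leaf 1 331 363) (node 300 (merge (leaf 3 299 299) (leaf 3 300 301))))))))))) (node 369 (merge (leaf 0 334 370) (node 333 (merge (leaf 0 333 368) (node 364 (merge (leaf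 1 332 365) (node 332 (merge (leaf 1 331 363) (node 300 (merge (leaf 3 299 299) (leaf 3 300 301)))))))))))))) (merge (node 304 (merge (node 305 (merge (leaf 2 301 333) (node 306 (merge (leaf 1 302 303) (leaf 1 303 307))))) (merge (node 333 (merge (leaf 2 301 305) (node 368 (merge (leaf 0 333 369) (node 332 (merge (leaf 0 332 367) (node 364 (merge (leaf 1 331 363) (leaf 1 332 365))))))))) (merge (node 368 (merge (node 369 (merge (leaf 0 333 333) (node 370 (merge (leaf 3 334 367) (leaf 3 335 371))))) (merge (node 400 (merge (leaf 5 335 432) (node 271 (merge (leaf 7 271 303) (node 272 (merge (leaf 7 239 239) (node 401 (merge (leaf 4 272 369) (leaf 4 304 433))))))))) (node 400 (merge (leaf 5 335 432) (node 271 (merge (leaf 7 271 303) (node 272 (merge (leaf 7 239 239) (node 241 (merge (leaf 6 240 273) (node 240 (merge (leaf 6 208 209) (leaf 5 239 367)))))))))))))) (node 368 (merge (node 400 (merge (leaf 5 335 432) (node 305 (merge (leaf 6 272 273) (node 303 (merge (leaf 7 271 271) (leaf 1 302 306))))))) (merge (node 400 (merge (leaf 5 335 432) (node 271 (merge (leaf 7 271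 303) (node 272 (merge (leaf 7 239 239) (node 401 (merge (leaf 4 272 369) (leaf 4 304 433))))))))) (merge (node 400 (merge (leaf 5 335 432) (node 273 (merge (leaf 6 272 305) (node 272 (merge (leaf 6 240 241) (node 401 (merge (leaf 4 272 369) (leaf 4 304 433))))))))) (node 369 (merge (node 370 (merge (leaf 3 334 367) (leaf 3 335 371))) (node 272 (merge (leaf 4 272 401) (node 241 (merge (leaf 6 240 273) (node 240 (merge (leaf 6 208 209) (node 239 (merge (leaf 7 207 207) (leaf 7 239 271))))))))))))))))))) (node 337 (merge (node 370 (merge (leaf 0 334 369) (node 338 (merge (leaf 0 335 371) (node 306 (merge (leaf 2 302 305) (leaf 2 303 307))))))) (node 366 (merge (leaf 1 333 365) (node 302 (merge (leaf 3 301 301) (node 398 (merge (leaf 4 334 430) (node 271 (merge (leaf 6 270 303) (node 270 (merge (leaf 6 238 239) (node 237 (merge (leaf 7 237 269) (node 238 (merge (leaf 7 205 205) (leaf 4 238 367))))))))))))))))))))))) (merge (node 366 (merge (node 399 (merge (leaf 7 334 367) (node 398 (merge (leaf 4 302 302) (leaf 4 334 430))))) (merge (node 398 (merge (leaf 4 334 430)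 (node 397 (merge (leaf 6 365 429) (node 302 (merge (leaf 4 302 399) (node 271 (merge (leaf 6 270 303) (node 270 (merge (leaf 6 238 239) (leaf 5 269 365))))))))))) (merge (node 429 (merge (node 398 (merge (leaf 6 365 397) (leaf 6 397 430))) (merge (node 365 (merge (leaf 6 333 397) (node 336 (merge (leaf 1 333 337) (node 364 (merge (leaf 2 331 363) (leaf 2 332 367))))))) (node 430 (merge (leaf 6 397 398) (node 432 (merge (leaf 1 428 460) (node 400 (merge (leaf 2 397 401) (node 336 (merge (leaf 5 335 368) (node 365 (merge (leaf 1 333 337) (node 364 (merge (leaf 2 331 363) (leaf 2 332 367)))))))))))))))) (node 336 (merge (node 337 (merge (leaf 1 333 365) (node 370 (merge (leaf 0 334 369) (node 338 (merge (leaf 0 335 371) (node 302 (merge (leaf 3 301 301) (leaf 3 302 303))))))))) (merge (node 367 (merge (leaf 7 334 399) (node 365 (merge (leaf 2 332 364) (node 397 (merge (leaf 6 333 429) (node 368 (merge (leaf 1 364 396) (node 400 (merge (leaf 0 365 401) (leaf 5 335 432))))))))))) (hyp 0)))))))) (node 366 (merge (node 399 (merge (leaf 7 334 367) (node 398 (merge (leaf 4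 302 302) (leaf 4 334 430))))) (merge (node 398 (merge (leaf 4 334 430) (node 397 (merge (leaf 6 365 429) (node 302 (merge (leaf 4 302 399) (node 271 (merge (leaf 6 270 303) (node 270 (merge (leaf 6 238 239) (leaf 5 269 365))))))))))) (merge (node 367 (merge (leaf 7 334 399) (node 398 (merge (leaf 4 334 430) (node 397 (merge (leaf 6 365 429) (node 368 (merge (leaf 1 365 369) (node 396 (merge (leaf 1 364 365) (leaf 2 363 395))))))))))) (merge (node 367 (merge (leaf 7 334 399) (node 365 (merge (node 397 (merge (leaf 6 333 429) (node 396 (merge (leaf 1 364 368) (node 364 (merge (leaf 2 331 363) (leaf 1 363 395))))))) (merge (node 397 (merge (leaf 6 333 429) (node 368 (merge (leaf 1 364 396) (node 333 (merge (leaf 3 332 332) (leaf 3 333 369))))))) (merge (node 364 (merge (leaf 2 331 363) (node 332 (merge (leaf 3 331 331) (node 368 (merge (leaf 0 332 333) (node 401 (merge (leaf 0 365 400) (node 369 (merge (leaf 3 334 370) (leaf 0 366 402))))))))))) (node 397 (merge (leaf 6 333 429) (node 364 (merge (leaf 2 331 363) (node 332 (merge (leaf 3 331 331) (node 300 (merge (leaf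 4 268 268) (node 299 (merge (leaf 3 299 333) (node 302 (merge (leaf 5 269 270) (leaf 0 299 301))))))))))))))))))) (node 367 (merge (node 398 (merge (leaf 4 334 430) (node 397 (merge (leaf 6 365 429) (node 368 (merge (leaf 1 365 369) (node 396 (merge (leaf 1 364 365) (leaf 2 363 395))))))))) (merge (node 588 (merge (node 557 (merge (leaf 5 460 556) (node 558 (merge (leaf 4 461 590) (node 559 (merge (leaf 3 524 524) (leaf 1 556 589))))))) (node 302 (merge (node 270 (merge (leaf 4 238 238) (node 269 (merge (leaf 7 237 237) (node 398 (merge (leaf 7 269 301) (leaf 4 334 430))))))) (merge (node 270 (merge (leaf 4 238 238) (node 271 (merge (leaf 6 238 239) (node 398 (merge (leaf 6 270 303) (leaf 4 334 430))))))) (merge (node 368 (merge (node 333 (merge (leaf 3 333 369) (node 332 (merge (leaf 0 331 331) (leaf 0 332 335))))) (node 270 (merge (leaf 4 238 238) (node 271 (merge (leaf 6 238 239) (node 269 (merge (leaf 7 237 237) (node 303 (merge (leaf 4 271 400) (node 268 (merge (leaf 0 267 267) (leaf 0 268 304))))))))))))) (node 303 (merge (node 271 (merge (leaf 5 238 239) (leaf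 6 270 398))) (merge (node 271 (merge (leaf 5 238 239) (node 368 (merge (leaf 4 271 400) (node 333 (merge (leaf 0 332 332) (leaf 3 333 369))))))) (node 398 (merge (leaf 6 302 430) (node 301 (merge (leaf 7 269 269) (node 300 (merge (leaf 0 299 299) (node 332 (merge (leaf 1 299 331) (node 333 (merge (leaf 1 300 304) (leaf 0 332 368)))))))))))))))))))) (merge (node 365 (merge (node 397 (merge (leaf 6 333 429) (node 396 (merge (leaf 1 364 368) (node 364 (merge (leaf 2 331 363) (leaf 1 363 395))))))) (merge (node 397 (merge (leaf 6 333 429) (node 368 (merge (leaf 1 364 396) (node 333 (merge (leaf 3 332 332) (leaf 3 333 369))))))) (merge (node 364 (merge (leaf 2 331 363) (node 332 (merge (leaf 3 331 331) (node 368 (merge (leaf 0 332 333) (node 401 (merge (leaf 0 365 400) (node 369 (merge (leaf 3 334 370) (leaf 0 366 402))))))))))) (node 397 (merge (leaf 6 333 429) (node 364 (merge (leaf 2 331 363) (node 332 (merge (leaf 3 331 331) (node 300 (merge (leaf 4 268 268) (node 299 (merge (leaf 3 299 333) (node 302 (merge (leaf 5 269 270) (leaf 0 299 301))))))))))))))))) (node 302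 (merge (node 398 (merge (leaf 4 334 430) (node 269 (merge (leaf 7 269 301) (node 270 (merge (leaf 7 237 237) (node 238 (merge (leaf 4 238 335) (node 365 (merge (leaf 5 237 333) (leaf 5 269 397))))))))))) (merge (node 398 (merge (leaf 4 334 430) (node 271 (merge (leaf 6 270 303) (node 270 (merge (leaf 6 238 239) (node 397 (merge (leaf 5 269 365) (leaf 6 365 429))))))))) (merge (node 270 (merge (leaf 4 238 238) (node 271 (merge (leaf 6 238 239) (node 269 (merge (leaf 7 237 237) (node 365 (merge (leaf 5 269 397) (node 364 (merge (leaf 2 331 363) (node 396 (merge (leaf 1 363 395) (node 301 (merge (leaf 5 268 333) (node 300 (merge (leaf 1 268 272) (leaf 0 299 299))))))))))))))))) (node 303 (merge (node 398 (merge (leaf 5 270 271) (leaf 6 302 430))) (merge (node 271 (merge (leaf 5 238 239) (node 272 (merge (leaf 6 239 240) (node 273 (merge (leaf 1 270 274) (node 301 (merge (leaf 2 268 300) (leaf 2 269 304))))))))) (node 398 (merge (leaf 6 302 430) (node 301 (merge (leaf 7 269 269) (node 300 (merge (leaf 0 299 299) (node 332 (merge (leaf 1 299 331) (node 304 (merge (leaf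 1 300 333) (node 305 (merge (leaf 1 302 306) (node 273 (merge (leaf 2 269 272) (leaf 2 270 274))))))))))))))))))))))))))))))))))))))))))))) nP_323 cP_323 13 (by decide +kernel)
def nP_324 : ℕ := 0x80000000800000000000000000000001400000000000000000000000000000000000000000000000000000000000000000000000000000000000
def cP_324 : ℕ := 0x2000000028000001fb800000eb800001ff800000fe0000007f0000007c000000000000000000000000000000000000000000000000000
theorem lP_324 : S nP_324 cP_324 12 := S_of_chk [] trivial (node 335 (merge (node 301 (merge (node 333 (merge (leaf 3 300 300) (node 368 (merge (leaf 0 333 369) (node 367 (merge (leaf 0 332 332) (leaf 6 335 399))))))) (merge (node 302 (merge (leaf 3 301 337) (node 300 (merge (leaf 0 299 299) (leaf 0 300 303))))) (node 337 (merge (leaf 3 301 302) (node 369 (merge (leaf 0 334 370) (node 333 (merge (leaf 0 333 368) (node 364 (merge (leaf 1 332 365) (node 332 (merge (leaf 1 331 363) (node 304 (merge (leaf 2 300 303) (leaf 2 301 305)))))))))))))))) (merge (node 337 (merge (node 370 (merge (leaf 0 334 369) (node 338 (merge (leaf 0 335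 371) (node 306 (merge (leaf 2 302 305) (leaf 2 303 307))))))) (merge (node 305 (merge (leaf 2 302 306) (node 333 (merge (leaf 2 301 304) (node 364 (merge (leaf 1 332 365) (node 332 (merge (leaf 1 331 363) (node 300 (merge (leaf 3 299 299) (leaf 3 300 301))))))))))) (node 369 (merge (leaf 0 334 370) (node 333 (merge (leaf 0 333 368) (node 364 (merge (leaf 1 332 365) (node 332 (merge (leaf 1 331 363) (node 300 (merge (leaf 3 299 299) (leaf 3 300 301)))))))))))))) (merge (node 337 (merge (node 370 (merge (leaf 0 334 369) (node 338 (merge (leaf 0 335 371) (node 306 (merge (leaf 2 302 305) (leaf 2 303 307))))))) (merge (node 306 (merge (leaf 2 302 305) (node 338 (merge (leaf 2 303 307) (node 302 (merge (leaf 3 301 301) (leaf 3 302 303))))))) (node 369 (merge (leaf 0 334 370) (node 333 (merge (leaf 0 333 368) (node 364 (merge (leaf 1 332 365) (node 332 (merge (leaf 1 331 363) (node 300 (merge (leaf 3 299 299) (leaf 3 300 301)))))))))))))) (merge (node 301 (merge (node 300 (merge (leaf 3 300 333) (node 302 (merge (leaf 0 299 299) (leaf 3 301 337))))) (merge (node 333 (merge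 (leaf 3 300 300) (node 364 (merge (leaf 1 332 365) (node 332 (merge (leaf 1 331 363) (node 304 (merge (leaf 2 300 303) (leaf 2 301 305))))))))) (node 337 (merge (leaf 3 301 302) (node 370 (merge (leaf 0 334 369) (node 338 (merge (leaf 0 335 371) (node 306 (merge (leaf 2 302 305) (leaf 2 303 307)))))))))))) (merge (node 337 (merge (node 370 (merge (leaf 0 334 369) (node 338 (merge (leaf 0 335 371) (node 306 (merge (leaf 2 302 305) (leaf 2 303 307))))))) (merge (node 369 (merge (leaf 0 334 370) (node 333 (merge (leaf 0 333 368) (node 305 (merge (leaf 2 301 304) (leaf 2 302 306))))))) (merge (node 369 (merge (leaf 0 334 370) (node 333 (merge (leaf 0 333 368) (node 364 (merge (leaf 1 332 365) (node 332 (merge (leaf 1 331 363) (node 303 (merge (leaf 2 300 304) (node 302 (merge (leaf 2 299 331) (leaf 3 302 338))))))))))))) (node 305 (merge (leaf 2 302 306) (node 333 (merge (leaf 2 301 304) (node 364 (merge (leaf 1 332 365) (node 332 (merge (leaf 1 331 363) (node 367 (merge (leaf 0 332 368) (node 302 (merge (leaf 7 302 399) (node 303 (merge (leaf 2 299 331) (leaf 3 302 338)))))))))))))))))))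 (merge (node 337 (merge (node 306 (merge (leaf 2 302 305) (node 338 (merge (leaf 2 303 307) (node 302 (merge (leaf 3 301 301) (leaf 3 302 303))))))) (merge (node 305 (merge (leaf 2 302 306) (node 333 (merge (leaf 2 301 304) (node 364 (merge (leaf 1 332 365) (node 332 (merge (leaf 1 331 363) (node 300 (merge (leaf 3 299 299) (leaf 3 300 301))))))))))) (merge (node 302 (merge (leaf 3 301 301) (node 367 (merge (leaf 7 302 399) (node 338 (merge (leaf 3 302 303) (node 368 (merge (leaf 1 335 339) (node 333 (merge (leaf 0 332 332) (leaf 0 333 369))))))))))) (node 305 (merge (leaf 2 302 306) (node 333 (merge (leaf 2 301 304) (node 364 (merge (leaf 1 332 365) (node 332 (merge (leaf 1 331 363) (node 367 (merge (leaf 0 332 368) (node 302 (merge (leaf 7 302 399) (node 303 (merge (leaf 2 299 331) (leaf 3 302 338))))))))))))))))))) (merge (node 337 (merge (node 305 (merge (leaf 2 302 306) (node 333 (merge (leaf 2 301 304) (node 364 (merge (leaf 1 332 365) (node 332 (merge (leaf 1 331 363) (node 300 (merge (leaf 3 299 299) (leaf 3 300 301))))))))))) (merge (node 302 (merge (leaf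 3 301 301) (node 367 (merge (leaf 7 302 399) (node 338 (merge (leaf 3 302 303) (node 371 (merge (leaf 0 335 370) (node 339 (merge (leaf 1 335 368) (leaf 0 336 372))))))))))) (node 305 (merge (leaf 2 302 306) (node 333 (merge (leaf 2 301 304) (node 364 (merge (leaf 1 332 365) (node 332 (merge (leaf 1 331 363) (node 367 (merge (leaf 0 332 368) (node 302 (merge (leaf 7 302 399) (node 303 (merge (leaf 2 299 331) (leaf 3 302 338)))))))))))))))))) (merge (node 337 (merge (node 370 (merge (leaf 0 334 369) (node 338 (merge (leaf 0 335 371) (node 302 (merge (leaf 3 301 301) (leaf 3 302 303))))))) (merge (node 369 (merge (leaf 0 334 370) (node 333 (merge (leaf 0 333 368) (node 364 (merge (leaf 1 332 365) (node 332 (merge (leaf 1 331 363) (node 300 (merge (leaf 3 299 299) (leaf 3 300 301))))))))))) (merge (node 369 (merge (leaf 0 334 370) (node 333 (merge (leaf 0 333 368) (node 364 (merge (leaf 1 332 365) (node 332 (merge (leaf 1 331 363) (node 303 (merge (leaf 2 300 304) (node 302 (merge (leaf 2 299 331) (leaf 3 302 338))))))))))))) (node 302 (merge (leaf 3 301 301) (node 367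 (merge (leaf 7 302 399) (node 338 (merge (leaf 3 302 303) (node 339 (merge (leaf 1 335 368) (node 307 (merge (leaf 2 303 306) (leaf 2 304 308))))))))))))))) (merge (node 337 (merge (node 370 (merge (leaf 0 334 369) (node 338 (merge (leaf 0 335 371) (node 306 (merge (leaf 2 302 305) (leaf 2 303 307))))))) (merge (node 370 (merge (leaf 0 334 369) (node 338 (merge (leaf 0 335 371) (node 302 (merge (leaf 3 301 301) (leaf 3 302 303))))))) (merge (node 306 (merge (leaf 2 302 305) (node 338 (merge (leaf 2 303 307) (node 302 (merge (leaf 3 301 301) (leaf 3 302 303))))))) (node 369 (merge (leaf 0 334 370) (node 272 (merge (node 304 (merge (leaf 4 240 240) (node 401 (merge (leaf 4 272 368) (leaf 7 304 433))))) (merge (node 305 (merge (leaf 2 302 306) (node 273 (merge (leaf 7 240 240) (node 242 (merge (leaf 6 241 274) (node 241 (merge (leaf 6 209 210) (leaf 5 240 368))))))))) (node 305 (merge (leaf 2 302 306) (node 304 (merge (leaf 7 272 401) (node 367 (merge (leaf 6 303 399) (node 302 (merge (leaf 3 301 301) (node 270 (merge (leaf 4 238 238) (node 269 (merge (leaf 0 269 271)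 (leaf 3 269 303)))))))))))))))))))))) (node 304 (merge (node 305 (merge (leaf 2 301 333) (node 306 (merge (leaf 1 302 303) (leaf 1 303 307))))) (merge (node 367 (merge (leaf 6 303 399) (node 333 (merge (leaf 2 301 305) (node 368 (merge (leaf 0 332 332) (leaf 0 333 369))))))) (merge (node 272 (merge (node 367 (merge (leaf 5 239 240) (leaf 6 303 399))) (merge (node 333 (merge (node 364 (merge (leaf 1 332 365) (node 332 (merge (leaf 1 331 363) (node 300 (merge (leaf 3 299 299) (leaf 3 300 301))))))) (node 368 (merge (leaf 0 333 369) (node 241 (merge (leaf 6 240 273) (node 240 (merge (leaf 6 208 209) (node 239 (merge (leaf 7 207 207) (leaf 7 239 271))))))))))) (node 301 (merge (node 300 (merge (leaf 3 300 333) (node 302 (merge (leaf 0 299 299) (leaf 0 300 303))))) (merge (node 367 (merge (leaf 6 303 399) (node 333 (merge (leaf 3 300 300) (node 368 (merge (leaf 0 332 332) (leaf 0 333 369))))))) (merge (node 302 (merge (node 300 (merge (leaf 0 299 299) (leaf 0 300 303))) (merge (node 367 (merge (leaf 6 303 399) (node 273 (merge (leaf 2 269 303) (node 270 (merge (leaf 4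 238 238) (leaf 1 269 271))))))) (node 300 (merge (leaf 0 299 299) (node 367 (merge (leaf 6 303 399) (node 270 (merge (leaf 4 238 238) (node 271 (merge (leaf 1 268 269) (leaf 1 269 273)))))))))))) (node 368 (merge (node 369 (merge (leaf 0 333 333) (leaf 4 272 401))) (node 273 (merge (leaf 6 240 241) (node 271 (merge (leaf 7 239 239) (node 302 (merge (leaf 1 269 270) (leaf 2 269 303)))))))))))))))) (node 272 (merge (node 367 (merge (leaf 5 239 240) (leaf 6 303 399))) (merge (node 271 (merge (node 367 (merge (leaf 6 303 399) (node 368 (merge (leaf 7 239 239) (node 369 (merge (leaf 3 334 370) (leaf 4 272 401))))))) (merge (node 270 (merge (node 305 (merge (leaf 0 269 269) (node 306 (merge (leaf 0 270 273) (leaf 1 303 307))))) (node 367 (merge (leaf 6 303 399) (node 238 (merge (leaf 4 238 302) (leaf 7 238 303))))))) (node 239 (merge (leaf 7 239 368) (node 303 (merge (leaf 4 207 207) (node 238 (merge (leaf 7 206 206) (node 305 (merge (leaf 1 302 306) (node 270 (merge (leaf 0 269 269) (node 273 (merge (leaf 3 237 237) (leaf 3 238 274)))))))))))))))) (node 273 (merge (node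 241 (merge (leaf 6 240 368) (node 305 (merge (leaf 5 208 209) (node 306 (merge (leaf 1 302 303) (leaf 1 303 307))))))) (merge (node 303 (merge (node 305 (merge (leaf 1 302 306) (node 302 (merge (leaf 2 270 274) (leaf 2 269 301))))) (node 240 (merge (leaf 5 207 208) (node 239 (merge (leaf 7 207 207) (node 271 (merge (leaf 7 239 368) (node 238 (merge (leaf 7 206 206) (node 237 (merge (leaf 0 236 236) (leaf 0 237 273))))))))))))) (merge (node 241 (merge (leaf 6 240 368) (node 240 (merge (leaf 6 208 209) (node 239 (merge (leaf 7 207 207) (node 238 (merge (leaf 0 237 237) (leaf 0 238 274))))))))) (node 303 (merge (node 274 (merge (leaf 1 271 275) (node 302 (merge (leaf 1 270 271) (leaf 2 269 301))))) (merge (node 274 (merge (leaf 1 271 275) (node 240 (merge (leaf 5 207 208) (node 239 (merge (leaf 7 207 207) (node 238 (merge (leaf 0 237 237) (leaf 0 238 241))))))))) (node 305 (merge (leaf 1 302 306) (node 302 (merge (leaf 2 269 301) (node 270 (merge (leaf 3 269 269) (node 238 (merge (leaf 4 206 206) (node 239 (merge (leaf 6 206 207) (node 240 (merge (leaf 5 207 208) (leaf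 0 237 237))))))))))))))))))))))))))))))))))))) nP_324 cP_324 12 (by decide +kernel)
def nP_325 : ℕ := 0x1000000012000000000000000a0000000000000000000000000000000000000000000000000000000000000000000000000000000000000000000000000000000000000000000
def cP_325 : ℕ := 0x500000007000000070000000f00000009c000001f00000001c000007fc00000ffe00003ffe00001ffe00003ffe00000ffc000007f8000007f800000000000000000000000000000000000000000000000000
theorem lP_325 : S nP_325 cP_325 16 := S_of_chk [(nP_316, cP_316, 12), (nP_317, cP_317, 12), (nP_318, cP_318, 12), (nP_320, cP_320, 13), (nP_322, cP_322, 12), (nP_323, cP_323, 13), (nP_324, cP_324, 12)] ⟨lP_316, lP_317, lP_318, lP_320, lP_322, lP_323, lP_324, trivial⟩ (node 493 (merge (node 557 (merge (node 460 (merge (leaf 7 428 428) (node 589 (merge (leaf 7 460 492) (node 590 (merge (leaf 4 461 558) (leaf 4 493 622))))))) (merge (node 460 (merge (leaf 7 428 428) (node 589 (merge (leaf 7 460 492) (node 588 (merge (leaf 5 460 556) (leaf 5 492 620))))))) (node 556 (merge (leaf 5 460 588) (node 558 (merge (leaf 4 461 590) (node 559 (merge (leaf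 3 524 524) (leaf 2 524 527)))))))))) (merge (node 429 (merge (node 398 (merge (leaf 6 397 430) (node 397 (merge (leaf 6 365 366) (node 524 (merge (leaf 5 396 492) (leaf 5 428 556))))))) (merge (node 398 (merge (leaf 6 397 430) (node 397 (merge (leaf 6 365 366) (node 396 (merge (leaf 7 364 364) (leaf 7 396 428))))))) (node 428 (merge (leaf 7 396 396) (node 557 (merge (leaf 7 428 460) (node 558 (merge (leaf 4 461 590) (node 524 (merge (leaf 5 428 556) (leaf 3 524 559)))))))))))) (merge (node 431 (merge (node 495 (merge (leaf 4 431 527) (node 496 (merge (leaf 4 399 399) (node 494 (merge (leaf 3 460 460) (leaf 1 492 524))))))) (merge (node 429 (merge (node 430 (merge (leaf 6 397 398) (node 428 (merge (leaf 7 396 396) (node 460 (merge (leaf 1 428 432) (leaf 1 427 459))))))) (merge (node 396 (merge (leaf 7 396 428) (node 397 (merge (leaf 7 364 364) (node 524 (merge (leaf 5 396 492) (leaf 5 428 556))))))) (node 398 (merge (leaf 6 397 430) (node 397 (merge (leaf 6 365 366) (node 524 (merge (leaf 5 396 492) (leaf 5 428 556)))))))))) (node 495 (merge (leaf 4 431 527) (node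 399 (merge (leaf 4 399 496) (node 400 (merge (leaf 6 367 368) (node 398 (merge (leaf 7 366 366) (node 429 (merge (leaf 6 397 430) (node 428 (merge (leaf 7 396 396) (leaf 1 396 397)))))))))))))))) (merge (node 495 (merge (node 527 (merge (leaf 4 431 431) (node 494 (merge (leaf 0 492 492) (node 524 (merge (leaf 1 492 496) (node 556 (merge (leaf 5 428 429) (node 588 (merge (leaf 5 460 557) (leaf 6 492 620))))))))))) (merge (node 431 (merge (leaf 4 431 527) (node 399 (merge (leaf 4 399 496) (node 368 (merge (leaf 6 367 400) (node 367 (merge (leaf 6 335 336) (node 366 (merge (leaf 7 334 334) (leaf 7 366 398))))))))))) (merge (node 429 (merge (node 524 (merge (leaf 5 428 556) (node 494 (merge (leaf 1 492 496) (node 523 (merge (leaf 1 491 492) (leaf 2 490 522))))))) (node 398 (merge (leaf 6 397 430) (node 397 (merge (leaf 6 365 366) (node 396 (merge (leaf 7 364 364) (leaf 7 396 428))))))))) (node 429 (merge (node 398 (merge (leaf 6 397 430) (node 366 (merge (leaf 6 365 397) (node 431 (merge (leaf 7 366 399) (leaf 4 431 527))))))) (merge (node 396 (merge (leaf 7 396 428)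 (node 397 (merge (leaf 7 364 364) (node 524 (merge (leaf 5 396 492) (leaf 5 428 556))))))) (node 527 (merge (leaf 4 431 431) (node 556 (merge (leaf 5 428 524) (node 557 (merge (leaf 5 460 588) (node 558 (merge (leaf 2 524 559) (leaf 4 461 590)))))))))))))))) (merge (node 460 (merge (node 428 (merge (leaf 7 428 557) (node 396 (merge (leaf 4 364 364) (leaf 7 396 429))))) (merge (node 557 (merge (leaf 7 428 428) (node 589 (merge (leaf 7 460 492) (node 590 (merge (leaf 4 461 558) (leaf 4 493 622))))))) (merge (node 429 (merge (node 396 (merge (leaf 7 396 428) (node 397 (merge (leaf 7 364 364) (node 492 (merge (leaf 5 364 365) (leaf 5 396 524))))))) (node 430 (merge (leaf 6 397 398) (node 431 (merge (leaf 1 428 432) (node 495 (merge (leaf 4 431 527) (node 496 (merge (leaf 4 399 399) (leaf 3 460 494))))))))))) (node 495 (merge (node 494 (merge (leaf 3 460 496) (node 459 (merge (leaf 0 458 458) (leaf 3 459 492))))) (merge (node 431 (merge (leaf 4 431 527) (node 399 (merge (leaf 4 399 496) (node 368 (merge (leaf 6 367 400) (node 367 (merge (leaf 6 335 336) (node 366 (merge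 (leaf 7 334 334) (leaf 7 366 398))))))))))) (node 492 (merge (node 527 (merge (leaf 4 431 431) (leaf 0 492 494))) (merge (node 557 (merge (leaf 7 460 589) (node 494 (merge (leaf 3 459 459) (node 524 (merge (leaf 1 491 523) (node 558 (merge (leaf 3 524 559) (leaf 4 461 590))))))))) (node 557 (merge (leaf 7 460 589) (node 431 (merge (leaf 4 431 527) (node 558 (merge (leaf 4 461 590) (node 524 (merge (leaf 3 524 559) (node 429 (merge (leaf 5 396 397) (node 430 (merge (leaf 6 397 398) (leaf 1 428 432))))))))))))))))))))))) (merge (node 460 (merge (node 428 (merge (leaf 7 428 557) (node 396 (merge (leaf 4 364 364) (leaf 7 396 429))))) (merge (node 429 (merge (node 430 (merge (leaf 6 397 398) (node 431 (merge (leaf 1 428 432) (node 495 (merge (leaf 4 431 527) (node 496 (merge (leaf 4 399 399) (leaf 3 460 494))))))))) (node 397 (merge (node 396 (merge (leaf 7 364 364) (leaf 7 396 428))) (merge (node 365 (merge (leaf 5 364 492) (node 334 (merge (leaf 6 333 366) (node 333 (merge (leaf 6 301 302) (leaf 5 332 428))))))) (node 364 (merge (leaf 7 364 396) (node 365 (merge (leaf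 7 332 332) (leaf 5 364 492)))))))))) (node 495 (merge (node 494 (merge (leaf 3 460 496) (node 459 (merge (leaf 0 458 458) (leaf 3 459 492))))) (merge (node 527 (merge (leaf 4 431 431) (node 492 (merge (leaf 0 492 494) (node 557 (merge (leaf 7 460 589) (node 558 (merge (leaf 4 461 590) (node 556 (merge (leaf 2 524 559) (leaf 5 460 588))))))))))) (node 431 (merge (leaf 4 431 527) (node 399 (merge (leaf 4 399 496) (node 368 (merge (leaf 6 367 400) (node 367 (merge (leaf 6 335 336) (node 366 (merge (leaf 7 334 334) (leaf 7 366 398))))))))))))))))) (merge (node 557 (merge (node 558 (merge (leaf 4 461 590) (node 588 (merge (leaf 5 460 556) (node 589 (merge (leaf 1 556 559) (leaf 5 492 620))))))) (merge (node 588 (merge (leaf 5 460 556) (node 589 (merge (leaf 5 492 620) (node 492 (merge (leaf 7 460 460) (node 621 (merge (leaf 7 492 524) (node 622 (merge (leaf 4 493 590) (leaf 4 525 654))))))))))) (merge (node 590 (merge (leaf 4 461 558) (node 589 (merge (leaf 4 493 622) (node 492 (merge (leaf 7 460 460) (node 621 (merge (leaf 7 492 524) (node 620 (merge (leaf 5 492 588)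 (leaf 5 524 652))))))))))) (merge (node 558 (merge (leaf 4 461 590) (node 524 (merge (leaf 3 524 559) (node 429 (merge (leaf 5 428 556) (node 398 (merge (leaf 6 397 430) (node 397 (merge (leaf 6 365 366) (leaf 5 396 492))))))))))) (node 588 (merge (leaf 5 460 556) (node 589 (merge (leaf 5 492 620) (node 492 (merge (leaf 7 460 460) (node 524 (merge (leaf 7 492 621) (node 558 (merge (leaf 1 556 559) (node 523 (merge (leaf 0 522 522) (node 495 (merge (leaf 1 491 494) (node 431 (merge (leaf 4 431 527) (node 399 (merge (leaf 4 399 496) (node 398 (merge (leaf 7 366 366) (node 429 (merge (leaf 5 396 397) (leaf 6 397 430)))))))))))))))))))))))))))) (node 431 (merge (node 495 (merge (leaf 4 431 527) (node 496 (merge (leaf 4 399 399) (node 494 (merge (leaf 3 460 460) (leaf 1 492 524))))))) (merge (node 495 (merge (leaf 4 431 527) (node 399 (merge (leaf 4 399 496) (node 368 (merge (leaf 6 367 400) (node 367 (merge (leaf 6 335 336) (node 366 (merge (leaf 7 334 334) (leaf 7 366 398))))))))))) (merge (node 429 (merge (node 428 (merge (leaf 7 396 396) (node 557 (merge (leaf 7 428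 460) (node 556 (merge (leaf 5 428 524) (leaf 5 460 588))))))) (merge (node 398 (merge (leaf 6 397 430) (node 397 (merge (leaf 6 365 366) (node 396 (merge (leaf 7 364 364) (leaf 7 396 428))))))) (node 527 (merge (leaf 4 431 495) (node 556 (merge (leaf 5 428 524) (node 557 (merge (leaf 5 460 588) (node 558 (merge (leaf 2 524 559) (leaf 4 461 590)))))))))))) (merge (node 557 (merge (node 558 (merge (leaf 4 461 590) (node 588 (merge (leaf 5 460 556) (node 589 (merge (leaf 1 556 559) (leaf 5 492 620))))))) (merge (node 556 (merge (leaf 5 460 588) (node 429 (merge (leaf 5 428 524) (node 398 (merge (leaf 6 397 430) (node 397 (merge (leaf 6 365 366) (node 396 (merge (leaf 7 364 364) (leaf 7 396 428))))))))))) (node 428 (merge (leaf 7 428 460) (node 429 (merge (leaf 7 396 396) (node 398 (merge (leaf 6 397 430) (node 366 (merge (leaf 6 365 397) (node 399 (merge (leaf 7 366 495) (node 334 (merge (leaf 4 302 302) (leaf 7 334 367)))))))))))))))) (node 334 (merge (node 557 (merge (node 558 (merge (leaf 4 461 590) (node 588 (merge (leaf 5 460 556) (node 589 (merge (leaf 1 556 559)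 (leaf 5 492 620))))))) (node 429 (merge (node 428 (merge (leaf 7 396 396) (leaf 7 428 460))) (merge (node 430 (merge (leaf 6 397 398) (node 460 (merge (leaf 7 428 428) (leaf 1 428 432))))) (node 397 (merge (node 398 (merge (leaf 6 365 366) (leaf 6 397 430))) (merge (node 365 (merge (leaf 6 333 366) (node 364 (merge (leaf 7 332 332) (leaf 7 364 396))))) (node 430 (merge (leaf 6 397 398) (node 396 (merge (leaf 7 364 364) (leaf 3 396 432))))))))))))) (merge (node 557 (merge (node 558 (merge (leaf 4 461 590) (node 588 (merge (leaf 5 460 556) (node 589 (merge (leaf 1 556 559) (leaf 5 492 620))))))) (merge (node 428 (merge (leaf 7 428 460) (node 429 (merge (leaf 7 396 396) (node 556 (merge (leaf 5 428 524) (leaf 5 460 588))))))) (node 428 (merge (leaf 7 428 460) (node 429 (merge (leaf 7 396 396) (node 430 (merge (leaf 6 397 398) (node 399 (merge (leaf 2 396 400) (node 367 (merge (leaf 7 334 366) (node 336 (merge (leaf 6 335 368) (node 335 (merge (leaf 7 302 302) (leaf 6 303 304)))))))))))))))))) (merge (node 366 (merge (node 398 (merge (leaf 4 334 430) (node 302 (merge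 (leaf 4 302 399) (node 271 (merge (leaf 6 270 303) (node 270 (merge (leaf 6 238 239) (node 269 (merge (leaf 7 237 237) (leaf 7 269 301))))))))))) (merge (node 367 (merge (leaf 7 334 399) (node 368 (merge (node 333 (merge (leaf 3 333 369) (node 332 (merge (leaf 0 331 331) (leaf 3 332 365))))) (merge (node 369 (merge (leaf 3 333 333) (node 402 (merge (leaf 0 366 401) (node 370 (merge (leaf 3 334 335) (leaf 0 367 403))))))) (merge (node 365 (merge (node 400 (merge (leaf 0 365 401) (node 336 (merge (leaf 2 333 337) (leaf 5 335 432))))) (merge (node 396 (merge (leaf 1 364 397) (node 364 (merge (leaf 1 363 395) (node 336 (merge (leaf 2 332 335) (leaf 2 333 337))))))) (merge (node 401 (merge (leaf 0 365 400) (node 369 (merge (leaf 0 366 402) (node 335 (merge (leaf 3 334 370) (node 364 (merge (leaf 2 332 336) (leaf 2 331 363))))))))) (node 401 (merge (leaf 0 365 400) (node 369 (merge (leaf 0 366 402) (node 338 (merge (leaf 2 334 337) (node 370 (merge (leaf 3 334 335) (leaf 2 335 339))))))))))))) (node 365 (merge (node 400 (merge (leaf 0 365 401) (node 336 (merge (leaf 2 333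 337) (leaf 5 335 432))))) (node 364 (merge (node 363 (merge (leaf 2 331 335) (node 331 (merge (leaf 3 330 330) (leaf 3 331 332))))) (merge (node 396 (merge (leaf 1 363 395) (node 368 (merge (leaf 1 364 397) (node 332 (merge (leaf 3 331 331) (leaf 3 332 333))))))) (node 363 (merge (leaf 2 331 335) (node 394 (merge (leaf 1 362 395) (node 362 (merge (leaf 2 330 333) (leaf 1 361 393)))))))))))))))))) (hyp 0)))) (merge (hyp 1) (merge (hyp 2) (merge (hyp 3) (merge (hyp 4) (merge (hyp 5) (node 336 (merge (node 428 (merge (node 557 (merge (leaf 7 428 460) (node 590 (merge (leaf 4 461 558) (node 589 (merge (leaf 4 493 622) (node 588 (merge (leaf 5 460 556) (leaf 5 492 620))))))))) (merge (node 429 (merge (leaf 7 396 396) (node 430 (merge (leaf 6 397 398) (node 399 (merge (leaf 2 396 400) (node 367 (merge (leaf 6 335 368) (node 335 (merge (leaf 7 302 302) (leaf 6 303 304))))))))))) (node 429 (merge (leaf 7 396 396) (node 430 (merge (leaf 6 397 398) (node 399 (merge (leaf 2 396 400) (node 367 (merge (leaf 6 335 368) (node 335 (merge (leaf 7 302 302) (leaf 6 303 304))))))))))))))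 (merge (node 429 (merge (node 430 (merge (leaf 6 397 398) (node 432 (merge (leaf 1 428 460) (node 400 (merge (leaf 5 335 368) (leaf 2 397 401))))))) (merge (node 430 (merge (leaf 6 397 398) (node 396 (merge (leaf 7 396 428) (node 397 (merge (leaf 7 364 364) (leaf 3 396 432))))))) (node 428 (merge (leaf 7 396 396) (node 557 (merge (leaf 7 428 460) (node 558 (merge (leaf 4 461 590) (node 524 (merge (leaf 5 428 556) (leaf 3 524 559)))))))))))) (merge (node 335 (merge (node 301 (merge (node 302 (merge (leaf 3 301 337) (node 300 (merge (leaf 0 299 299) (leaf 0 300 303))))) (merge (node 333 (merge (leaf 3 300 300) (node 364 (merge (leaf 1 332 365) (node 332 (merge (leaf 1 331 363) (node 304 (merge (leaf 2 300 303) (leaf 2 301 305))))))))) (node 337 (merge (leaf 3 301 302) (node 369 (merge (leaf 0 334 370) (node 305 (merge (leaf 2 302 306) (node 304 (merge (leaf 2 301 333) (node 272 (merge (leaf 4 240 240) (leaf 7 272 401)))))))))))))) (merge (node 557 (merge (node 558 (merge (leaf 4 461 590) (node 588 (merge (leaf 5 460 556) (node 589 (merge (leaf 1 556 559) (leaf 5 492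 620))))))) (merge (node 460 (merge (leaf 7 428 428) (node 556 (merge (leaf 5 460 588) (node 429 (merge (leaf 5 428 524) (node 430 (merge (leaf 6 397 398) (leaf 1 428 432))))))))) (node 428 (merge (leaf 7 428 460) (node 429 (merge (leaf 7 396 396) (node 430 (merge (leaf 6 397 398) (node 399 (merge (leaf 2 396 400) (node 367 (merge (leaf 7 302 302) (leaf 6 303 304)))))))))))))) (merge (node 557 (merge (node 558 (merge (leaf 4 461 590) (node 588 (merge (leaf 5 460 556) (node 589 (merge (leaf 1 556 559) (leaf 5 492 620))))))) (merge (node 460 (merge (leaf 7 428 428) (node 556 (merge (leaf 5 460 588) (node 429 (merge (leaf 5 428 524) (node 430 (merge (leaf 6 397 398) (leaf 1 428 432))))))))) (node 428 (merge (leaf 7 428 460) (node 429 (merge (leaf 7 396 396) (node 430 (merge (leaf 6 397 398) (node 399 (merge (leaf 2 396 400) (node 304 (merge (leaf 6 303 367) (node 305 (merge (leaf 2 301 333) (node 306 (merge (leaf 1 302 303) (leaf 1 303 307)))))))))))))))))) (node 301 (merge (node 333 (merge (leaf 3 300 300) (node 364 (merge (leaf 1 332 365) (node 332 (merge (leaf 1 331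 363) (node 428 (merge (leaf 6 300 396) (node 557 (merge (leaf 7 428 460) (node 558 (merge (leaf 4 461 590) (node 559 (merge (leaf 3 524 524) (node 556 (merge (leaf 2 524 527) (leaf 5 460 588))))))))))))))))) (node 337 (merge (leaf 3 301 302) (node 370 (merge (leaf 0 334 369) (node 338 (merge (leaf 0 335 371) (node 306 (merge (leaf 2 302 305) (leaf 2 303 307))))))))))))))) (hyp 6))))))))))))))))))))))))))) nP_325 cP_325 16 (by decide +kernel)
def nP_326 : ℕ := 0x200000000000000030000000100000000000000000000000000000000000000000000000000000000000000000000000000000000000000000000000000000000000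
def cP_326 : ℕ := 0xa0000003e0000001e0000001e0000000e000001ee0000007f000000ff000000fe0000000a00000000000000000000000000000000000000000000000000000000000000000000000000
theorem lP_326 : S nP_326 cP_326 12 := S_of_chk [] trivial (node 429 (merge (node 427 (merge (node 395 (merge (node 492 (merge (leaf 7 395 524) (node 363 (merge (leaf 4 331 331) (leaf 4 363 459))))) (node 394 (merge (leaf 3 394 430) (node 393 (merge (leaf 0 392 392) (leaf 0 393 396))))))) (merge (node 426 (merge (leaf 0 425 425) (node 458 (merge (leaf 1 425 457) (node 394 (merge (leaf 3 393 393) (node 395 (merge (leaf 3 394 430) (node 363 (merge (leaf 4 331 331) (leaf 6 362 490))))))))))) (merge (node 395 (merge (node 492 (merge (leaf 7 395 524) (node 363 (merge (leaf 4 331 331) (leaf 7 363 396))))) (merge (node 426 (merge (leaf 0 425 425) (node 458 (merge (leaf 1 425 457) (node 490 (merge (leaf 6 394 522) (node 363 (merge (leaf 4 331 331) (leaf 5 362 459))))))))) (node 426 (merge (leaf 0 425 425) (node 492 (merge (leaf 7 395 524) (node 458 (merge (leaf 1 425 457) (node 490 (merge (leaf 6 394 522) (node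 489 (merge (leaf 1 457 459) (leaf 2 457 491)))))))))))))) (node 426 (merge (leaf 0 425 425) (node 458 (merge (leaf 1 425 457) (node 459 (merge (leaf 1 426 430) (node 394 (merge (leaf 3 393 393) (node 362 (merge (leaf 4 330 330) (leaf 4 362 491))))))))))))))) (merge (node 427 (merge (node 426 (merge (leaf 0 425 425) (node 397 (merge (leaf 2 394 398) (node 492 (merge (leaf 5 364 365) (leaf 6 396 524))))))) (merge (node 426 (merge (leaf 0 425 425) (node 458 (merge (leaf 1 425 457) (node 430 (merge (leaf 1 426 459) (node 394 (merge (leaf 3 393 393) (leaf 3 394 395))))))))) (node 459 (merge (node 458 (merge (leaf 1 426 430) (leaf 2 425 457))) (merge (node 492 (merge (node 397 (merge (leaf 5 364 365) (leaf 6 396 524))) (node 395 (merge (leaf 4 363 363) (node 394 (merge (leaf 3 394 430) (node 491 (merge (leaf 7 362 362) (node 490 (merge (leaf 2 457 489) (leaf 5 394 522))))))))))) (node 458 (merge (leaf 2 425 457) (node 490 (merge (leaf 1 457 489) (node 522 (merge (leaf 6 426 554) (node 395 (merge (leaf 5 362 363) (leaf 5 394 491))))))))))))))) (merge (node 396 (merge (node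 364 (merge (leaf 4 332 332) (node 459 (merge (leaf 5 363 491) (node 430 (merge (leaf 1 427 431) (leaf 2 426 458))))))) (merge (node 364 (merge (leaf 4 332 332) (node 365 (merge (leaf 6 332 333) (node 492 (merge (leaf 6 364 397) (node 524 (merge (leaf 6 428 556) (leaf 4 428 557))))))))) (node 427 (merge (node 426 (merge (leaf 0 425 425) (node 397 (merge (leaf 2 394 398) (node 365 (merge (leaf 5 332 333) (leaf 5 364 492))))))) (merge (node 492 (merge (node 524 (merge (leaf 6 428 556) (leaf 4 428 557))) (node 395 (merge (leaf 7 363 363) (node 430 (merge (leaf 3 395 431) (node 459 (merge (leaf 1 426 458) (node 491 (merge (leaf 6 395 523) (node 490 (merge (leaf 2 457 489) (leaf 5 394 522))))))))))))) (node 426 (merge (leaf 0 425 425) (node 458 (merge (leaf 1 425 457) (node 459 (merge (leaf 1 426 430) (node 490 (merge (leaf 1 457 489) (node 395 (merge (leaf 5 362 363) (leaf 6 394 522))))))))))))))))) (merge (node 396 (merge (node 364 (merge (leaf 4 332 332) (node 459 (merge (leaf 5 363 491) (node 430 (merge (leaf 1 427 431) (leaf 2 426 458))))))) (merge (node 364 (merge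 (leaf 4 332 332) (node 365 (merge (leaf 6 332 333) (node 492 (merge (leaf 6 364 397) (node 524 (merge (leaf 6 428 556) (leaf 4 428 557))))))))) (node 427 (merge (node 426 (merge (leaf 0 425 425) (node 397 (merge (leaf 2 394 398) (node 492 (merge (leaf 5 364 365) (leaf 6 396 524))))))) (merge (node 430 (merge (node 459 (merge (leaf 1 427 431) (leaf 2 426 458))) (merge (node 431 (merge (leaf 1 428 432) (node 395 (merge (leaf 3 394 394) (leaf 3 395 396))))) (node 458 (merge (leaf 1 426 459) (node 426 (merge (leaf 1 425 457) (node 394 (merge (leaf 3 393 393) (leaf 3 394 395)))))))))) (node 430 (merge (node 459 (merge (leaf 1 427 431) (leaf 1 426 458))) (merge (node 431 (merge (leaf 3 395 395) (leaf 1 428 432))) (node 459 (merge (leaf 1 426 458) (node 491 (merge (leaf 6 395 523) (node 395 (merge (leaf 3 394 394) (node 492 (merge (leaf 7 395 524) (node 490 (merge (leaf 2 457 489) (leaf 5 394 522)))))))))))))))))))) (merge (node 427 (merge (node 426 (merge (leaf 0 425 425) (node 394 (merge (leaf 3 393 393) (node 430 (merge (leaf 3 394 395) (node 431 (merge (leaf 1 428 432)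 (leaf 1 427 459))))))))) (merge (node 426 (merge (leaf 0 425 425) (node 458 (merge (leaf 1 425 457) (node 459 (merge (leaf 1 426 430) (node 394 (merge (leaf 3 393 393) (node 362 (merge (leaf 4 330 330) (leaf 4 362 491))))))))))) (merge (node 426 (merge (leaf 0 425 425) (node 458 (merge (leaf 1 425 457) (node 394 (merge (leaf 3 393 393) (node 395 (merge (leaf 3 394 430) (node 363 (merge (leaf 4 331 331) (leaf 6 362 490))))))))))) (merge (node 426 (merge (leaf 0 425 425) (node 458 (merge (leaf 1 425 457) (node 459 (merge (leaf 1 426 430) (node 490 (merge (leaf 1 457 489) (node 395 (merge (leaf 5 362 363) (leaf 6 394 522))))))))))) (merge (node 459 (merge (node 426 (merge (leaf 0 425 425) (node 458 (merge (leaf 1 425 457) (node 394 (merge (leaf 3 393 393) (node 362 (merge (leaf 4 330 330) (leaf 4 362 491))))))))) (merge (node 458 (merge (leaf 2 425 457) (node 490 (merge (leaf 1 457 489) (node 522 (merge (leaf 6 426 554) (node 395 (merge (leaf 5 362 363) (leaf 5 394 491))))))))) (merge (node 426 (merge (leaf 0 425 425) (node 458 (merge (leaf 1 425 457) (node 490 (merge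 (leaf 1 457 489) (node 395 (merge (leaf 5 362 363) (leaf 6 394 522))))))))) (node 426 (merge (leaf 0 425 425) (node 394 (merge (leaf 3 393 393) (node 491 (merge (leaf 7 394 523) (node 362 (merge (leaf 4 330 330) (leaf 7 362 395))))))))))))) (node 459 (merge (node 458 (merge (leaf 1 426 430) (leaf 2 425 457))) (merge (node 430 (merge (leaf 1 427 431) (node 395 (merge (leaf 3 394 394) (node 363 (merge (leaf 4 331 331) (node 364 (merge (leaf 6 331 332) (node 396 (merge (leaf 6 363 491) (node 362 (merge (leaf 7 330 330) (node 361 (merge (leaf 0 360 360) (leaf 0 361 397))))))))))))))) (node 458 (merge (leaf 2 425 457) (node 490 (merge (leaf 1 457 489) (node 395 (merge (leaf 5 362 363) (node 491 (merge (leaf 5 394 522) (node 396 (merge (leaf 6 363 364) (leaf 6 395 523)))))))))))))))))))) (merge (node 396 (merge (node 364 (merge (leaf 4 332 332) (node 365 (merge (leaf 6 332 333) (node 492 (merge (leaf 6 364 397) (node 524 (merge (leaf 6 428 556) (leaf 4 428 557))))))))) (merge (node 364 (merge (leaf 4 332 332) (node 363 (merge (leaf 7 331 331) (node 492 (merge (leaf 7 363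 395) (node 524 (merge (leaf 6 428 556) (leaf 4 428 557))))))))) (merge (node 395 (merge (node 394 (merge (leaf 0 393 393) (node 430 (merge (leaf 0 394 397) (leaf 3 395 431))))) (node 492 (merge (leaf 7 363 363) (node 524 (merge (leaf 6 428 556) (leaf 4 428 557))))))) (node 395 (merge (node 394 (merge (leaf 0 393 393) (node 430 (merge (leaf 0 394 397) (leaf 3 395 431))))) (merge (node 394 (merge (leaf 0 393 393) (node 364 (merge (leaf 4 332 332) (node 365 (merge (leaf 6 332 333) (node 366 (merge (leaf 1 362 363) (leaf 1 363 367))))))))) (node 364 (merge (leaf 4 332 332) (node 365 (merge (leaf 6 332 333) (node 363 (merge (leaf 7 331 331) (node 366 (merge (leaf 1 363 367) (node 334 (merge (leaf 2 331 335) (leaf 6 333 397)))))))))))))))))) (node 426 (merge (node 458 (merge (node 457 (merge (leaf 1 425 427) (leaf 2 425 459))) (merge (node 427 (merge (leaf 0 425 425) (leaf 1 425 457))) (merge (node 459 (merge (leaf 3 425 425) (leaf 2 425 457))) (node 425 (merge (leaf 0 425 427) (leaf 3 425 459))))))) (merge (node 427 (merge (leaf 0 425 425) (node 397 (merge (leaf 2 394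 398) (node 492 (merge (leaf 5 364 365) (leaf 6 396 524))))))) (merge (node 458 (merge (node 457 (merge (leaf 1 425 427) (leaf 2 425 459))) (merge (node 427 (merge (leaf 1 425 457) (node 397 (merge (leaf 2 394 398) (node 365 (merge (leaf 5 332 333) (leaf 5 364 492))))))) (merge (node 394 (merge (node 393 (merge (leaf 3 393 427) (node 490 (merge (leaf 7 361 361) (node 489 (merge (leaf 1 457 459) (leaf 5 393 521))))))) (merge (node 427 (merge (leaf 3 393 393) (node 397 (merge (leaf 2 394 398) (node 492 (merge (leaf 5 364 365) (leaf 6 396 524))))))) (node 490 (merge (node 489 (merge (leaf 1 457 459) (leaf 5 393 521))) (merge (node 491 (merge (leaf 4 394 523) (node 489 (merge (leaf 2 457 492) (leaf 5 393 521))))) (node 491 (merge (leaf 4 394 523) (node 362 (merge (leaf 4 362 459) (node 331 (merge (leaf 6 330 363) (node 330 (merge (leaf 6 298 299) (node 329 (merge (leaf 7 297 297) (leaf 7 329 361))))))))))))))))) (node 394 (merge (node 459 (merge (leaf 2 425 457) (node 491 (merge (leaf 4 362 362) (node 523 (merge (leaf 4 394 490) (leaf 7 426 555))))))) (merge (node 459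 (merge (leaf 2 425 457) (node 490 (merge (leaf 1 457 489) (node 523 (merge (leaf 4 394 491) (node 522 (merge (leaf 4 426 555) (node 553 (merge (leaf 5 425 521) (node 554 (merge (leaf 1 521 524) (leaf 5 457 585))))))))))))) (merge (node 490 (merge (node 491 (merge (leaf 4 394 523) (node 489 (merge (leaf 2 457 492) (leaf 5 393 521))))) (merge (node 361 (merge (leaf 7 361 393) (node 362 (merge (leaf 7 329 329) (node 489 (merge (leaf 5 361 457) (leaf 5 393 521))))))) (merge (node 361 (merge (leaf 7 361 393) (node 362 (merge (leaf 7 329 329) (node 491 (merge (leaf 4 394 523) (node 489 (merge (leaf 5 361 457) (leaf 2 457 492))))))))) (node 523 (merge (leaf 4 394 491) (node 522 (merge (leaf 4 426 555) (node 553 (merge (leaf 5 425 521) (node 554 (merge (leaf 1 521 524) (leaf 5 457 585))))))))))))) (merge (node 490 (merge (node 489 (merge (leaf 1 457 459) (leaf 5 393 521))) (merge (node 491 (merge (leaf 4 394 523) (node 489 (merge (leaf 2 457 492) (leaf 5 393 521))))) (node 491 (merge (leaf 4 394 523) (node 362 (merge (leaf 4 362 459) (node 331 (merge (leaf 6 330 363) (node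 330 (merge (leaf 6 298 299) (node 329 (merge (leaf 7 297 297) (leaf 7 329 361)))))))))))))) (node 457 (merge (leaf 2 425 459) (node 362 (merge (leaf 5 361 489) (node 331 (merge (leaf 6 330 363) (node 330 (merge (leaf 6 298 299) (node 329 (merge (leaf 7 297 297) (leaf 7 329 361)))))))))))))))))))) (node 458 (merge (node 459 (merge (leaf 3 425 425) (leaf 2 425 457))) (merge (node 490 (merge (node 425 (merge (leaf 3 425 459) (node 393 (merge (leaf 7 393 522) (node 361 (merge (leaf 4 329 329) (leaf 7 361 394))))))) (node 492 (merge (node 524 (merge (leaf 6 428 556) (leaf 4 428 557))) (node 491 (merge (leaf 2 457 489) (node 365 (merge (leaf 5 364 397) (node 396 (merge (leaf 5 395 523) (node 364 (merge (leaf 4 332 332) (leaf 6 332 333))))))))))))) (merge (node 490 (merge (node 491 (merge (node 523 (merge (leaf 4 394 394) (node 555 (merge (leaf 4 426 522) (leaf 7 458 587))))) (merge (node 489 (merge (leaf 2 457 492) (node 394 (merge (leaf 5 393 521) (leaf 4 394 523))))) (merge (node 492 (merge (leaf 2 457 489) (node 523 (merge (leaf 5 395 396) (node 555 (merge (leaf 4 426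 522) (leaf 6 459 587))))))) (node 489 (merge (leaf 2 457 492) (node 521 (merge (leaf 5 393 394) (node 553 (merge (leaf 6 425 457) (leaf 5 425 522))))))))))) (merge (node 489 (merge (node 521 (merge (leaf 5 393 394) (node 553 (merge (leaf 6 425 457) (leaf 6 457 585))))) (node 492 (merge (leaf 2 457 491) (node 524 (merge (leaf 6 428 556) (node 397 (merge (leaf 5 364 365) (leaf 6 396 428))))))))) (merge (node 492 (merge (node 524 (merge (leaf 6 428 556) (leaf 4 428 557))) (node 491 (merge (leaf 2 457 489) (node 365 (merge (leaf 5 364 397) (node 396 (merge (leaf 5 395 523) (node 364 (merge (leaf 4 332 332) (leaf 6 332 333))))))))))) (merge (node 523 (merge (node 491 (merge (leaf 4 394 394) (node 555 (merge (leaf 4 426 522) (leaf 7 458 587))))) (merge (node 522 (merge (leaf 4 426 555) (node 553 (merge (leaf 5 425 521) (node 554 (merge (leaf 1 521 524) (leaf 5 457 585))))))) (merge (node 491 (merge (leaf 4 394 394) (node 555 (merge (leaf 7 458 587) (node 492 (merge (leaf 5 395 396) (leaf 5 427 524))))))) (node 394 (merge (leaf 4 394 491) (node 393 (merge (leaf 7 361 361)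 (node 522 (merge (leaf 7 393 425) (node 553 (merge (leaf 5 425 521) (node 554 (merge (leaf 1 521 524) (leaf 5 457 585))))))))))))))) (merge (node 523 (merge (node 491 (merge (leaf 4 394 394) (node 555 (merge (leaf 4 426 522) (leaf 7 458 587))))) (merge (node 522 (merge (leaf 4 426 555) (node 524 (merge (leaf 3 489 489) (node 553 (merge (leaf 5 425 521) (leaf 1 521 554))))))) (node 394 (merge (leaf 4 394 491) (node 361 (merge (leaf 7 361 393) (node 362 (merge (leaf 7 329 329) (node 489 (merge (leaf 5 361 457) (leaf 5 393 521)))))))))))) (node 393 (merge (node 425 (merge (leaf 7 393 522) (node 361 (merge (leaf 4 329 329) (leaf 4 361 457))))) (merge (node 394 (merge (leaf 7 361 361) (node 489 (merge (leaf 5 393 521) (node 362 (merge (leaf 5 361 457) (node 363 (merge (leaf 6 330 331) (node 365 (merge (leaf 1 361 364) (node 397 (merge (leaf 5 332 333) (leaf 5 364 492))))))))))))) (node 522 (merge (leaf 7 393 425) (node 523 (merge (leaf 4 426 555) (node 489 (merge (leaf 3 489 524) (node 521 (merge (leaf 5 393 394) (leaf 5 425 553)))))))))))))))))) (node 394 (merge (node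 459 (merge (leaf 2 425 457) (node 491 (merge (leaf 4 362 362) (node 523 (merge (leaf 4 394 490) (leaf 7 426 555))))))) (merge (node 459 (merge (leaf 2 425 457) (node 490 (merge (leaf 1 457 489) (node 523 (merge (leaf 4 394 491) (node 522 (merge (leaf 4 426 555) (node 553 (merge (leaf 5 425 521) (node 554 (merge (leaf 1 521 524) (leaf 5 457 585))))))))))))) (merge (node 490 (merge (node 491 (merge (leaf 4 394 523) (node 489 (merge (leaf 2 457 492) (leaf 5 393 521))))) (merge (node 361 (merge (leaf 7 361 393) (node 362 (merge (leaf 7 329 329) (node 489 (merge (leaf 5 361 457) (leaf 5 393 521))))))) (merge (node 361 (merge (leaf 7 361 393) (node 362 (merge (leaf 7 329 329) (node 491 (merge (leaf 4 394 523) (node 489 (merge (leaf 5 361 457) (leaf 2 457 492))))))))) (node 523 (merge (leaf 4 394 491) (node 522 (merge (leaf 4 426 555) (node 553 (merge (leaf 5 425 521) (node 554 (merge (leaf 1 521 524) (leaf 5 457 585))))))))))))) (merge (node 490 (merge (node 489 (merge (leaf 1 457 459) (leaf 5 393 521))) (merge (node 491 (merge (leaf 4 394 523) (node 489 (merge (leaf 2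 457 492) (leaf 5 393 521))))) (node 491 (merge (leaf 4 394 523) (node 362 (merge (leaf 4 362 459) (node 331 (merge (leaf 6 330 363) (node 330 (merge (leaf 6 298 299) (node 329 (merge (leaf 7 297 297) (leaf 7 329 361)))))))))))))) (node 457 (merge (leaf 2 425 459) (node 362 (merge (leaf 5 361 489) (node 331 (merge (leaf 6 330 363) (node 330 (merge (leaf 6 298 299) (node 329 (merge (leaf 7 297 297) (leaf 7 329 361))))))))))))))))))))))))))))))) nP_326 cP_326 12 (by decide +kernel)
def nP_327 : ℕ := 0x1000000012000000000000000b0000000100000000000000000000000000000000000000000000000000000000000000000000000000000000000000000000000000000000000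
def cP_327 : ℕ := 0xa0000007e0000009e0000019e0000000e000001ee000001ff000001ee0000014e0000000a00000000000000000000000000000000000000000000000000000000000000000000000000
theorem lP_327 : S nP_327 cP_327 11 := S_of_chk [] trivial (node 429 (merge (node 431 (merge (node 430 (merge (leaf 1 428 432) (leaf 1 427 459))) (node 495 (merge (leaf 4 431 527) (node 399 (merge (leaf 4 399 496) (node 400 (merge (leaf 6 367 368) (node 398 (merge (leaf 7 366 366) (leaf 1 396 397))))))))))) (merge (node 427 (merge (node 426 (merge (leaf 0 425 425) (node 397 (merge (leaf 2 394 398) (node 492 (merge (leaf 5 364 365) (leaf 6 396 524))))))) (merge (node 426 (merge (leaf 0 425 425) (node 458 (merge (leaf 1 425 457) (node 430 (merge (leaf 1 426 459) (node 394 (merge (leaf 3 393 393) (leaf 3 394 395))))))))) (node 395 (merge (node 492 (merge (leaf 7 395 524) (node 363 (merge (leaf 7 363 396) (leaf 4 363 459))))) (merge (node 394 (merge (leaf 3 394 430) (node 393 (merge (leaf 0 392 392) (leaf 0 393 396))))) (node 492 (merge (leaf 7 395 524) (node 430 (merge (leaf 3 394 394) (node 459 (merge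 (leaf 4 363 363) (leaf 1 426 458))))))))))))) (merge (node 431 (merge (node 495 (merge (leaf 4 431 527) (node 399 (merge (leaf 4 399 496) (node 400 (merge (leaf 6 367 368) (leaf 2 396 430))))))) (merge (node 495 (merge (leaf 4 431 527) (node 399 (merge (leaf 4 399 496) (node 398 (merge (leaf 7 366 366) (node 397 (merge (leaf 1 396 400) (node 396 (merge (leaf 1 395 427) (leaf 0 396 432))))))))))) (node 430 (merge (leaf 1 428 432) (node 395 (merge (leaf 3 395 396) (node 427 (merge (leaf 3 394 394) (node 426 (merge (leaf 0 425 425) (node 492 (merge (leaf 7 395 524) (node 397 (merge (leaf 5 364 365) (leaf 2 394 398)))))))))))))))) (merge (node 427 (merge (node 395 (merge (node 492 (merge (leaf 7 395 524) (node 363 (merge (leaf 4 331 331) (leaf 4 363 459))))) (node 394 (merge (leaf 3 394 430) (node 393 (merge (leaf 0 392 392) (leaf 0 393 396))))))) (merge (node 426 (merge (leaf 0 425 425) (node 458 (merge (leaf 1 425 457) (node 394 (merge (leaf 3 393 393) (node 395 (merge (leaf 3 394 430) (node 363 (merge (leaf 4 331 331) (leaf 6 362 490))))))))))) (merge (node 395 (merge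 (node 492 (merge (leaf 7 395 524) (node 363 (merge (leaf 4 331 331) (leaf 7 363 396))))) (merge (node 426 (merge (leaf 0 425 425) (node 458 (merge (leaf 1 425 457) (node 490 (merge (leaf 6 394 522) (node 363 (merge (leaf 4 331 331) (leaf 5 362 459))))))))) (node 426 (merge (leaf 0 425 425) (node 492 (merge (leaf 7 395 524) (node 458 (merge (leaf 1 425 457) (node 490 (merge (leaf 6 394 522) (node 489 (merge (leaf 1 457 459) (leaf 2 457 491)))))))))))))) (node 426 (merge (leaf 0 425 425) (node 458 (merge (leaf 1 425 457) (node 430 (merge (leaf 1 426 459) (node 431 (merge (leaf 1 428 432) (node 399 (merge (leaf 2 396 400) (node 495 (merge (leaf 4 399 496) (leaf 4 431 527))))))))))))))))) (node 426 (merge (node 458 (merge (node 457 (merge (leaf 1 425 427) (leaf 2 425 459))) (merge (node 427 (merge (leaf 0 425 425) (leaf 1 425 457))) (merge (node 459 (merge (leaf 3 425 425) (leaf 2 425 457))) (node 425 (merge (leaf 0 425 427) (leaf 3 425 459))))))) (merge (node 427 (merge (leaf 0 425 425) (node 397 (merge (leaf 2 394 398) (node 492 (merge (leaf 5 364 365) (leaf 6 396 524)))))))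 (merge (node 394 (merge (node 427 (merge (leaf 3 393 393) (node 397 (merge (leaf 2 394 398) (node 492 (merge (leaf 5 364 365) (leaf 6 396 524))))))) (merge (node 458 (merge (node 457 (merge (leaf 1 425 427) (leaf 2 425 459))) (merge (node 457 (merge (leaf 1 425 427) (node 489 (merge (leaf 5 361 362) (node 521 (merge (leaf 5 393 490) (leaf 6 425 553))))))) (merge (node 457 (merge (leaf 2 425 459) (node 489 (merge (leaf 5 361 362) (node 521 (merge (leaf 5 393 490) (leaf 6 425 553))))))) (node 490 (merge (node 489 (merge (leaf 1 457 459) (leaf 5 393 521))) (node 395 (merge (leaf 6 362 363) (node 522 (merge (leaf 6 394 427) (node 523 (merge (leaf 4 394 491) (leaf 4 426 555))))))))))))) (node 458 (merge (node 459 (merge (leaf 2 425 457) (node 491 (merge (leaf 4 362 362) (node 523 (merge (leaf 4 394 490) (leaf 7 426 555))))))) (merge (node 490 (merge (node 395 (merge (leaf 6 362 363) (node 393 (merge (leaf 7 361 361) (leaf 0 393 396))))) (node 491 (merge (leaf 4 394 523) (node 489 (merge (leaf 2 457 492) (leaf 5 393 521))))))) (node 457 (merge (leaf 2 425 459) (node 362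 (merge (leaf 5 361 489) (node 331 (merge (leaf 6 330 363) (node 330 (merge (leaf 6 298 299) (node 329 (merge (leaf 7 297 297) (leaf 7 329 361))))))))))))))))) (node 458 (merge (node 459 (merge (leaf 3 425 425) (leaf 2 425 457))) (merge (node 431 (merge (node 495 (merge (leaf 4 431 527) (node 399 (merge (leaf 4 399 496) (node 368 (merge (leaf 6 367 400) (node 367 (merge (leaf 6 335 336) (node 366 (merge (leaf 7 334 334) (leaf 7 366 398))))))))))) (node 490 (merge (node 425 (merge (leaf 3 425 459) (node 393 (merge (leaf 7 393 522) (node 361 (merge (leaf 4 329 329) (leaf 7 361 394))))))) (merge (node 489 (merge (leaf 1 457 459) (node 492 (merge (leaf 2 457 491) (node 524 (merge (leaf 4 428 557) (node 429 (merge (leaf 6 396 397) (leaf 6 428 556))))))))) (node 491 (merge (node 523 (merge (leaf 4 394 394) (node 555 (merge (leaf 4 426 522) (leaf 7 458 587))))) (node 492 (merge (leaf 2 457 489) (node 524 (merge (leaf 4 428 557) (node 429 (merge (leaf 6 396 397) (leaf 6 428 556)))))))))))))) (merge (node 431 (merge (node 495 (merge (leaf 4 431 527) (node 399 (merge (leaf 4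 399 496) (node 368 (merge (leaf 6 367 400) (node 367 (merge (leaf 6 335 336) (node 366 (merge (leaf 7 334 334) (leaf 7 366 398))))))))))) (node 490 (merge (node 489 (merge (leaf 1 457 459) (node 521 (merge (leaf 5 393 394) (node 553 (merge (leaf 6 425 457) (leaf 5 425 522))))))) (merge (node 489 (merge (leaf 1 457 459) (node 491 (merge (leaf 2 457 492) (node 394 (merge (leaf 5 393 521) (leaf 4 394 523))))))) (merge (node 489 (merge (leaf 1 457 459) (node 492 (merge (leaf 2 457 491) (node 524 (merge (leaf 4 428 557) (node 523 (merge (leaf 3 489 522) (leaf 5 427 555))))))))) (node 523 (merge (node 522 (merge (leaf 4 426 555) (node 553 (merge (leaf 5 425 521) (node 554 (merge (leaf 1 521 524) (leaf 5 457 585))))))) (node 394 (merge (leaf 4 394 491) (node 363 (merge (leaf 6 362 395) (node 362 (merge (leaf 6 330 331) (node 361 (merge (leaf 7 329 329) (leaf 7 361 393))))))))))))))))) (node 431 (merge (node 495 (merge (leaf 4 431 527) (node 399 (merge (leaf 4 399 496) (node 368 (merge (leaf 6 367 400) (node 367 (merge (leaf 6 335 336) (node 366 (merge (leaf 7 334 334) (leaf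 7 366 398))))))))))) (node 490 (merge (node 491 (merge (node 523 (merge (leaf 4 394 394) (node 555 (merge (leaf 4 426 522) (leaf 7 458 587))))) (merge (node 489 (merge (leaf 2 457 492) (node 394 (merge (leaf 5 393 521) (leaf 4 394 523))))) (merge (node 492 (merge (leaf 2 457 489) (node 523 (merge (leaf 5 395 396) (node 555 (merge (leaf 4 426 522) (leaf 6 459 587))))))) (node 489 (merge (leaf 2 457 492) (node 521 (merge (leaf 5 393 394) (node 553 (merge (leaf 6 425 457) (leaf 5 425 522))))))))))) (merge (node 492 (merge (node 524 (merge (leaf 4 428 557) (node 429 (merge (leaf 6 396 397) (leaf 6 428 556))))) (node 489 (merge (leaf 2 457 491) (node 521 (merge (leaf 5 393 394) (node 553 (merge (leaf 6 425 457) (leaf 5 425 522))))))))) (merge (node 522 (merge (node 523 (merge (leaf 4 426 555) (node 524 (merge (leaf 3 489 489) (node 557 (merge (leaf 4 428 492) (leaf 0 522 558))))))) (node 425 (merge (leaf 7 393 393) (node 554 (merge (leaf 7 425 457) (node 553 (merge (leaf 5 425 521) (leaf 5 457 585))))))))) (merge (node 523 (merge (node 522 (merge (leaf 4 426 555) (node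 553 (merge (leaf 5 425 521) (node 554 (merge (leaf 1 521 524) (leaf 5 457 585))))))) (node 394 (merge (leaf 4 394 491) (node 363 (merge (leaf 6 362 395) (node 362 (merge (leaf 6 330 331) (node 361 (merge (leaf 7 329 329) (leaf 7 361 393))))))))))) (node 491 (merge (node 492 (merge (leaf 2 457 489) (node 524 (merge (leaf 4 428 557) (node 429 (merge (leaf 6 396 397) (leaf 6 428 556))))))) (node 394 (merge (leaf 4 394 523) (node 363 (merge (leaf 6 362 395) (node 362 (merge (leaf 6 330 331) (node 361 (merge (leaf 7 329 329) (leaf 7 361 393))))))))))))))))))))))))))))))) nP_327 cP_327 11 (by decide +kernel)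
def nP_328 : ℕ := 0x1000000012000000000000000b0000000100000000000000000000000000000000000000000000000000000000000000000000000000000000000000000000000000000000000
def cP_328 : ℕ := 0x38000000980000019e00000006000001ef000001fe000001ff000001f80000002800000000000000000000000000000000000000000000000000000000000000000000000000
theorem lP_328 : S nP_328 cP_328 13 := S_of_chk [] trivial (node 431 (merge (node 495 (merge (leaf 4 431 527) (node 399 (merge (leaf 4 399 496) (node 368 (merge (leaf 6 367 400) (node 367 (merge (leaf 6 335 336) (node 366 (merge (leaf 7 334 334) (leaf 7 366 398))))))))))) (merge (node 495 (merge (leaf 4 431 527) (node 399 (merge (leaf 4 399 496) (node 400 (merge (leaf 6 367 368) (node 429 (merge (leaf 2 396 430) (node 397 (merge (leaf 1 396 398) (node 492 (merge (leaf 5 364 365) (leaf 6 396 524))))))))))))) (merge (node 429 (merge (node 430 (merge (leaf 1 428 432) (node 396 (merge (leaf 3 395 395) (node 364 (merge (leaf 4 332 332) (node 365 (merge (leaf 6 332 333) (node 492 (merge (leaf 6 364 397) (node 524 (merge (leaf 6 428 556) (leaf 4 428 557)))))))))))))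 (merge (node 365 (merge (node 492 (merge (leaf 5 364 397) (node 524 (merge (leaf 6 428 556) (leaf 4 428 557))))) (node 430 (merge (leaf 1 428 432) (node 399 (merge (leaf 2 396 400) (node 398 (merge (leaf 2 395 427) (node 366 (merge (leaf 4 334 334) (node 364 (merge (leaf 0 363 363) (node 396 (merge (leaf 4 332 332) (leaf 6 332 333))))))))))))))) (merge (node 430 (merge (leaf 1 428 432) (node 399 (merge (leaf 2 396 400) (node 427 (merge (leaf 2 395 398) (node 426 (merge (leaf 0 425 425) (node 394 (merge (leaf 3 393 393) (leaf 3 394 395))))))))))) (node 396 (merge (node 364 (merge (leaf 4 332 332) (node 365 (merge (leaf 6 332 333) (node 492 (merge (leaf 6 364 397) (node 524 (merge (leaf 6 428 556) (leaf 4 428 557))))))))) (merge (node 364 (merge (leaf 4 332 332) (node 363 (merge (leaf 7 331 331) (node 492 (merge (leaf 7 363 395) (node 524 (merge (leaf 6 428 556) (leaf 4 428 557))))))))) (merge (node 397 (merge (node 364 (merge (leaf 4 332 332) (node 363 (merge (leaf 7 331 331) (node 362 (merge (leaf 0 361 361) (node 398 (merge (leaf 3 362 395) (leaf 3 363 399)))))))))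 (merge (node 364 (merge (leaf 4 332 332) (node 365 (merge (leaf 6 332 333) (node 363 (merge (leaf 7 331 331) (node 362 (merge (leaf 0 361 361) (leaf 0 362 398))))))))) (merge (node 364 (merge (leaf 4 332 332) (node 365 (merge (leaf 6 332 333) (node 366 (merge (leaf 6 333 334) (node 367 (merge (leaf 1 364 368) (leaf 1 363 395))))))))) (node 365 (merge (leaf 5 332 333) (node 366 (merge (leaf 6 333 334) (node 367 (merge (leaf 1 364 368) (node 395 (merge (leaf 2 362 394) (leaf 2 363 398))))))))))))) (node 397 (merge (node 365 (merge (leaf 5 332 333) (leaf 5 364 492))) (merge (node 365 (merge (leaf 5 332 333) (node 366 (merge (leaf 6 333 334) (node 367 (merge (leaf 1 364 368) (node 395 (merge (leaf 2 362 394) (leaf 2 363 398))))))))) (node 492 (merge (leaf 6 396 524) (node 395 (merge (leaf 7 363 363) (node 394 (merge (leaf 0 393 393) (node 426 (merge (leaf 1 393 425) (node 398 (merge (leaf 1 394 427) (node 399 (merge (leaf 1 396 400) (node 367 (merge (leaf 2 363 366) (leaf 2 364 368)))))))))))))))))))))))))) (merge (node 365 (merge (node 397 (merge (node 429 (merge (leaf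 5 332 333) (leaf 5 364 492))) (merge (node 492 (merge (leaf 6 364 396) (leaf 5 364 429))) (merge (node 333 (merge (leaf 5 332 429) (node 396 (merge (leaf 5 300 301) (leaf 6 332 364))))) (node 396 (merge (leaf 6 364 492) (node 333 (merge (leaf 5 300 301) (leaf 6 332 364))))))))) (merge (node 495 (merge (leaf 4 431 527) (node 399 (merge (leaf 4 399 496) (node 366 (merge (leaf 7 366 398) (node 334 (merge (leaf 7 334 367) (node 429 (merge (leaf 6 333 397) (node 430 (merge (leaf 2 396 400) (leaf 1 428 432))))))))))))) (node 495 (merge (leaf 4 431 527) (node 399 (merge (leaf 4 399 496) (node 366 (merge (leaf 7 366 398) (node 367 (merge (leaf 7 334 334) (node 364 (merge (leaf 0 364 400) (node 396 (merge (leaf 6 332 333) (leaf 1 363 395)))))))))))))))) (merge (node 365 (merge (node 397 (merge (node 429 (merge (leaf 5 332 333) (leaf 5 364 492))) (merge (node 492 (merge (leaf 6 364 396) (leaf 5 364 429))) (merge (node 333 (merge (leaf 5 332 429) (node 396 (merge (leaf 5 300 301) (leaf 6 332 364))))) (node 396 (merge (leaf 6 364 492) (node 333 (merge (leaf 5 300 301) (leaf 6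 332 364))))))))) (merge (node 495 (merge (leaf 4 431 527) (node 399 (merge (leaf 4 399 496) (node 400 (merge (leaf 6 367 368) (node 429 (merge (leaf 2 396 430) (node 397 (merge (leaf 5 332 333) (leaf 5 364 492))))))))))) (merge (node 495 (merge (leaf 4 431 527) (node 399 (merge (leaf 4 399 496) (node 368 (merge (leaf 6 367 400) (node 367 (merge (leaf 6 335 336) (node 366 (merge (leaf 7 334 334) (node 396 (merge (leaf 1 364 397) (node 364 (merge (leaf 6 332 333) (leaf 1 363 395))))))))))))))) (merge (node 495 (merge (leaf 4 431 527) (node 399 (merge (leaf 4 399 496) (node 368 (merge (leaf 6 367 400) (node 367 (merge (leaf 6 335 336) (node 366 (merge (leaf 7 334 334) (node 332 (merge (leaf 3 332 333) (node 364 (merge (leaf 3 331 331) (node 396 (merge (leaf 1 363 395) (leaf 4 332 429))))))))))))))))) (node 495 (merge (leaf 4 431 527) (node 399 (merge (leaf 4 399 496) (node 368 (merge (leaf 6 367 400) (node 367 (merge (leaf 6 335 336) (node 366 (merge (leaf 7 334 334) (node 396 (merge (leaf 1 364 397) (node 364 (merge (leaf 1 363 395) (node 332 (merge (leaf 3 331 331)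 (leaf 4 332 429)))))))))))))))))))))) (node 396 (merge (node 492 (merge (node 395 (merge (leaf 7 363 363) (node 524 (merge (leaf 7 395 427) (leaf 4 428 557))))) (merge (node 524 (merge (leaf 4 428 557) (node 429 (merge (leaf 6 396 397) (leaf 6 428 556))))) (node 397 (merge (leaf 6 364 365) (node 395 (merge (leaf 7 363 363) (node 430 (merge (leaf 0 395 398) (leaf 3 395 429)))))))))) (merge (node 429 (merge (node 430 (merge (leaf 3 395 395) (leaf 1 428 432))) (node 364 (merge (leaf 4 332 332) (node 365 (merge (leaf 6 332 333) (node 492 (merge (leaf 6 364 397) (node 524 (merge (leaf 6 428 556) (leaf 4 428 557))))))))))) (merge (node 364 (merge (node 429 (merge (leaf 4 332 332) (node 430 (merge (leaf 3 395 395) (leaf 1 428 432))))) (merge (node 331 (merge (leaf 7 331 363) (node 332 (merge (leaf 7 299 299) (leaf 4 332 429))))) (node 363 (merge (leaf 7 331 331) (node 492 (merge (leaf 7 363 395) (node 524 (merge (leaf 4 428 557) (node 523 (merge (leaf 5 395 491) (leaf 5 427 555)))))))))))) (merge (node 492 (merge (node 524 (merge (leaf 4 428 557) (node 523 (merge (leaf 5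 395 491) (leaf 5 427 555))))) (merge (node 524 (merge (leaf 4 428 557) (node 429 (merge (leaf 6 396 397) (leaf 6 428 556))))) (node 365 (merge (leaf 6 364 397) (node 364 (merge (leaf 6 332 333) (node 331 (merge (leaf 7 331 363) (node 332 (merge (leaf 7 299 299) (leaf 4 332 429)))))))))))) (merge (node 492 (merge (node 524 (merge (leaf 4 428 557) (node 523 (merge (leaf 5 395 491) (leaf 5 427 555))))) (node 365 (merge (leaf 6 364 397) (node 364 (merge (leaf 6 332 333) (node 363 (merge (leaf 7 331 331) (leaf 7 363 395))))))))) (node 397 (merge (node 395 (merge (node 430 (merge (leaf 0 395 398) (leaf 3 395 429))) (merge (node 429 (merge (leaf 3 395 430) (node 365 (merge (leaf 5 332 333) (node 366 (merge (leaf 6 333 334) (leaf 2 362 394))))))) (merge (node 365 (merge (node 333 (merge (leaf 5 300 301) (leaf 5 332 429))) (node 366 (merge (leaf 2 362 394) (node 367 (merge (leaf 1 364 368) (leaf 2 363 398))))))) (node 398 (merge (leaf 0 395 430) (node 426 (merge (leaf 1 394 427) (node 394 (merge (leaf 1 393 425) (node 366 (merge (leaf 2 362 365) (leaf 2 363 367)))))))))))))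 (merge (node 495 (merge (leaf 4 431 527) (node 364 (merge (node 333 (merge (leaf 6 332 365) (node 332 (merge (leaf 6 300 301) (leaf 4 332 429))))) (merge (node 331 (merge (leaf 7 331 363) (node 332 (merge (leaf 7 299 299) (leaf 4 332 429))))) (node 365 (merge (leaf 6 332 333) (node 363 (merge (leaf 7 331 331) (node 362 (merge (leaf 0 361 361) (leaf 0 362 398)))))))))))) (merge (node 395 (merge (node 398 (merge (leaf 0 395 430) (node 427 (merge (leaf 1 394 426) (node 363 (merge (leaf 4 331 331) (leaf 3 362 362))))))) (merge (node 398 (merge (leaf 0 395 430) (node 426 (merge (leaf 1 394 427) (node 394 (merge (leaf 1 393 425) (node 366 (merge (leaf 2 362 365) (leaf 2 363 367))))))))) (merge (node 363 (merge (node 331 (merge (leaf 4 299 299) (leaf 7 331 364))) (node 362 (merge (leaf 3 362 398) (node 361 (merge (leaf 0 360 360) (leaf 3 361 394))))))) (node 365 (merge (node 333 (merge (leaf 5 300 301) (leaf 6 332 364))) (node 394 (merge (leaf 2 362 366) (node 425 (merge (leaf 1 393 426) (node 393 (merge (leaf 1 392 424) (node 361 (merge (leaf 3 360 360) (leaf 3 361 362)))))))))))))))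 (merge (node 365 (merge (node 333 (merge (leaf 5 300 301) (leaf 6 332 364))) (merge (node 333 (merge (leaf 5 300 301) (leaf 5 332 429))) (node 364 (merge (node 331 (merge (leaf 7 331 363) (node 332 (merge (leaf 7 299 299) (leaf 7 332 429))))) (merge (node 429 (merge (leaf 7 332 332) (node 430 (merge (leaf 3 395 395) (leaf 1 428 432))))) (node 363 (merge (leaf 7 331 331) (node 362 (merge (leaf 0 361 361) (node 394 (merge (leaf 1 361 393) (node 366 (merge (leaf 1 362 395) (node 367 (merge (leaf 1 364 368) (node 335 (merge (leaf 2 331 334) (leaf 2 332 336))))))))))))))))))) (node 395 (merge (node 430 (merge (leaf 0 395 398) (leaf 3 395 429))) (merge (node 363 (merge (node 331 (merge (leaf 4 299 299) (leaf 7 331 364))) (node 362 (merge (leaf 3 362 398) (node 361 (merge (leaf 0 360 360) (leaf 3 361 394))))))) (node 429 (merge (leaf 3 395 430) (node 394 (merge (leaf 0 393 393) (node 426 (merge (leaf 1 393 425) (node 362 (merge (leaf 3 361 361) (node 364 (merge (leaf 4 332 332) (node 363 (merge (leaf 7 331 331) (node 458 (merge (leaf 6 362 490) (node 457 (merge (leaf 1 425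 427) (leaf 5 361 489))))))))))))))))))))))))))))))))))))) nP_328 cP_328 13 (by decide +kernel)
def nP_329 : ℕ := 0x1000000012000000000000000b0000000100000000000000000000000000000000000000000000000000000000000000000000000000000000000000000000000000000000000
def cP_329 : ℕ := 0xa0000003e0000009e0000019e0000000e000001ee000001f6000001fe0000017e0000004a00000000000000000000000000000000000000000000000000000000000000000000000000
theorem lP_329 : S nP_329 cP_329 12 := S_of_chk [] trivial (node 429 (merge (node 426 (merge (node 458 (merge (node 457 (merge (leaf 1 425 427) (leaf 2 425 459))) (merge (node 427 (merge (leaf 0 425 425) (leaf 1 425 457))) (merge (node 459 (merge (leaf 3 425 425) (leaf 2 425 457))) (node 425 (merge (leaf 0 425 427) (leaf 3 425 459))))))) (merge (node 427 (merge (leaf 0 425 425) (node 397 (merge (leaf 2 394 398) (node 492 (merge (leaf 5 364 365) (leaf 6 396 524))))))) (merge (node 458 (merge (node 457 (merge (leaf 1 425 427) (leaf 2 425 459))) (merge (node 427 (merge (leaf 1 425 457) (node 397 (merge (leaf 2 394 398) (node 365 (merge (leaf 5 332 333)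 (leaf 5 364 492))))))) (merge (node 394 (merge (node 393 (merge (leaf 3 393 427) (node 490 (merge (leaf 7 361 361) (node 489 (merge (leaf 1 457 459) (leaf 5 393 521))))))) (merge (node 427 (merge (leaf 3 393 393) (node 397 (merge (leaf 2 394 398) (node 492 (merge (leaf 5 364 365) (leaf 6 396 524))))))) (node 490 (merge (node 489 (merge (leaf 1 457 459) (leaf 5 393 521))) (merge (node 491 (merge (leaf 4 394 523) (node 489 (merge (leaf 2 457 492) (leaf 5 393 521))))) (node 491 (merge (leaf 4 394 523) (node 362 (merge (leaf 4 362 459) (node 331 (merge (leaf 6 330 363) (node 330 (merge (leaf 6 298 299) (node 329 (merge (leaf 7 297 297) (leaf 7 329 361))))))))))))))))) (node 394 (merge (node 459 (merge (leaf 2 425 457) (node 491 (merge (leaf 4 362 362) (node 523 (merge (leaf 4 394 490) (leaf 7 426 555))))))) (merge (node 459 (merge (leaf 2 425 457) (node 490 (merge (leaf 1 457 489) (node 523 (merge (leaf 4 394 491) (node 522 (merge (leaf 4 426 555) (node 553 (merge (leaf 5 425 521) (node 554 (merge (leaf 1 521 524) (leaf 5 457 585))))))))))))) (merge (node 490 (merge (node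 491 (merge (leaf 4 394 523) (node 489 (merge (leaf 2 457 492) (leaf 5 393 521))))) (merge (node 361 (merge (leaf 7 361 393) (node 362 (merge (leaf 7 329 329) (node 489 (merge (leaf 5 361 457) (leaf 5 393 521))))))) (merge (node 361 (merge (leaf 7 361 393) (node 362 (merge (leaf 7 329 329) (node 491 (merge (leaf 4 394 523) (node 489 (merge (leaf 5 361 457) (leaf 2 457 492))))))))) (node 523 (merge (leaf 4 394 491) (node 522 (merge (leaf 4 426 555) (node 553 (merge (leaf 5 425 521) (node 554 (merge (leaf 1 521 524) (leaf 5 457 585))))))))))))) (merge (node 490 (merge (node 489 (merge (leaf 1 457 459) (leaf 5 393 521))) (merge (node 491 (merge (leaf 4 394 523) (node 489 (merge (leaf 2 457 492) (leaf 5 393 521))))) (node 491 (merge (leaf 4 394 523) (node 362 (merge (leaf 4 362 459) (node 331 (merge (leaf 6 330 363) (node 330 (merge (leaf 6 298 299) (node 329 (merge (leaf 7 297 297) (leaf 7 329 361)))))))))))))) (node 457 (merge (leaf 2 425 459) (node 362 (merge (leaf 5 361 489) (node 331 (merge (leaf 6 330 363) (node 330 (merge (leaf 6 298 299) (node 329 (merge (leaf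 7 297 297) (leaf 7 329 361)))))))))))))))))))) (node 458 (merge (node 459 (merge (leaf 3 425 425) (leaf 2 425 457))) (merge (node 490 (merge (node 425 (merge (leaf 3 425 459) (node 393 (merge (leaf 7 393 522) (node 361 (merge (leaf 4 329 329) (leaf 7 361 394))))))) (node 492 (merge (node 524 (merge (leaf 6 428 556) (leaf 4 428 557))) (node 491 (merge (leaf 2 457 489) (node 365 (merge (leaf 5 364 397) (node 396 (merge (leaf 5 395 523) (node 364 (merge (leaf 4 332 332) (leaf 6 332 333))))))))))))) (merge (node 490 (merge (node 491 (merge (node 523 (merge (leaf 4 394 394) (node 555 (merge (leaf 4 426 522) (leaf 7 458 587))))) (merge (node 489 (merge (leaf 2 457 492) (node 394 (merge (leaf 5 393 521) (leaf 4 394 523))))) (merge (node 492 (merge (leaf 2 457 489) (node 523 (merge (leaf 5 395 396) (node 555 (merge (leaf 4 426 522) (leaf 6 459 587))))))) (node 489 (merge (leaf 2 457 492) (node 521 (merge (leaf 5 393 394) (node 553 (merge (leaf 6 425 457) (leaf 5 425 522))))))))))) (merge (node 489 (merge (node 521 (merge (leaf 5 393 394) (node 553 (merge (leaf 6 425 457)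 (leaf 6 457 585))))) (node 492 (merge (leaf 2 457 491) (node 524 (merge (leaf 6 428 556) (node 397 (merge (leaf 5 364 365) (leaf 6 396 428))))))))) (merge (node 492 (merge (node 524 (merge (leaf 6 428 556) (leaf 4 428 557))) (node 491 (merge (leaf 2 457 489) (node 365 (merge (leaf 5 364 397) (node 396 (merge (leaf 5 395 523) (node 364 (merge (leaf 4 332 332) (leaf 6 332 333))))))))))) (merge (node 523 (merge (node 491 (merge (leaf 4 394 394) (node 555 (merge (leaf 4 426 522) (leaf 7 458 587))))) (merge (node 522 (merge (leaf 4 426 555) (node 553 (merge (leaf 5 425 521) (node 554 (merge (leaf 1 521 524) (leaf 5 457 585))))))) (merge (node 491 (merge (leaf 4 394 394) (node 555 (merge (leaf 7 458 587) (node 492 (merge (leaf 5 395 396) (leaf 5 427 524))))))) (node 394 (merge (leaf 4 394 491) (node 393 (merge (leaf 7 361 361) (node 522 (merge (leaf 7 393 425) (node 553 (merge (leaf 5 425 521) (node 554 (merge (leaf 1 521 524) (leaf 5 457 585))))))))))))))) (merge (node 523 (merge (node 491 (merge (leaf 4 394 394) (node 555 (merge (leaf 4 426 522) (leaf 7 458 587))))) (merge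 (node 522 (merge (leaf 4 426 555) (node 524 (merge (leaf 3 489 489) (node 553 (merge (leaf 5 425 521) (leaf 1 521 554))))))) (node 394 (merge (leaf 4 394 491) (node 361 (merge (leaf 7 361 393) (node 362 (merge (leaf 7 329 329) (node 489 (merge (leaf 5 361 457) (leaf 5 393 521)))))))))))) (node 393 (merge (node 425 (merge (leaf 7 393 522) (node 361 (merge (leaf 4 329 329) (leaf 4 361 457))))) (merge (node 394 (merge (leaf 7 361 361) (node 489 (merge (leaf 5 393 521) (node 362 (merge (leaf 5 361 457) (node 363 (merge (leaf 6 330 331) (node 365 (merge (leaf 1 361 364) (node 397 (merge (leaf 5 332 333) (leaf 5 364 492))))))))))))) (node 522 (merge (leaf 7 393 425) (node 523 (merge (leaf 4 426 555) (node 489 (merge (leaf 3 489 524) (node 521 (merge (leaf 5 393 394) (leaf 5 425 553)))))))))))))))))) (node 394 (merge (node 459 (merge (leaf 2 425 457) (node 491 (merge (leaf 4 362 362) (node 523 (merge (leaf 4 394 490) (leaf 7 426 555))))))) (merge (node 459 (merge (leaf 2 425 457) (node 490 (merge (leaf 1 457 489) (node 523 (merge (leaf 4 394 491) (node 522 (merge (leaf 4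 426 555) (node 553 (merge (leaf 5 425 521) (node 554 (merge (leaf 1 521 524) (leaf 5 457 585))))))))))))) (merge (node 490 (merge (node 491 (merge (leaf 4 394 523) (node 489 (merge (leaf 2 457 492) (leaf 5 393 521))))) (merge (node 361 (merge (leaf 7 361 393) (node 362 (merge (leaf 7 329 329) (node 489 (merge (leaf 5 361 457) (leaf 5 393 521))))))) (merge (node 361 (merge (leaf 7 361 393) (node 362 (merge (leaf 7 329 329) (node 491 (merge (leaf 4 394 523) (node 489 (merge (leaf 5 361 457) (leaf 2 457 492))))))))) (node 523 (merge (leaf 4 394 491) (node 522 (merge (leaf 4 426 555) (node 553 (merge (leaf 5 425 521) (node 554 (merge (leaf 1 521 524) (leaf 5 457 585))))))))))))) (merge (node 490 (merge (node 489 (merge (leaf 1 457 459) (leaf 5 393 521))) (merge (node 491 (merge (leaf 4 394 523) (node 489 (merge (leaf 2 457 492) (leaf 5 393 521))))) (node 491 (merge (leaf 4 394 523) (node 362 (merge (leaf 4 362 459) (node 331 (merge (leaf 6 330 363) (node 330 (merge (leaf 6 298 299) (node 329 (merge (leaf 7 297 297) (leaf 7 329 361)))))))))))))) (node 457 (merge (leaf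 2 425 459) (node 362 (merge (leaf 5 361 489) (node 331 (merge (leaf 6 330 363) (node 330 (merge (leaf 6 298 299) (node 329 (merge (leaf 7 297 297) (leaf 7 329 361)))))))))))))))))))))))) (merge (node 399 (merge (node 431 (merge (node 430 (merge (leaf 2 396 400) (leaf 1 428 432))) (node 495 (merge (leaf 4 399 496) (leaf 4 431 527))))) (merge (node 397 (merge (node 365 (merge (leaf 5 332 333) (leaf 5 364 492))) (node 398 (merge (leaf 1 396 400) (node 427 (merge (leaf 1 395 396) (leaf 2 394 426))))))) (node 398 (merge (node 430 (merge (leaf 2 395 427) (node 431 (merge (leaf 1 428 432) (node 495 (merge (leaf 4 399 496) (leaf 7 398 527))))))) (merge (node 397 (merge (node 427 (merge (leaf 1 395 396) (leaf 2 394 426))) (node 492 (merge (leaf 5 364 365) (leaf 6 396 524))))) (node 366 (merge (node 431 (merge (leaf 7 366 495) (node 334 (merge (leaf 4 302 302) (leaf 7 334 367))))) (merge (node 334 (merge (leaf 5 333 430) (node 397 (merge (leaf 5 301 302) (leaf 6 333 365))))) (node 431 (merge (leaf 7 366 495) (node 432 (merge (leaf 1 428 430) (node 397 (merge (leaf 0 396 396)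 (node 365 (merge (leaf 5 332 333) (leaf 5 364 492)))))))))))))))))) (merge (node 431 (merge (node 430 (merge (leaf 1 428 432) (leaf 1 427 459))) (node 365 (merge (node 492 (merge (leaf 5 364 397) (node 524 (merge (leaf 6 428 556) (leaf 4 428 557))))) (node 495 (merge (leaf 4 431 527) (node 399 (merge (leaf 4 399 496) (node 368 (merge (leaf 6 367 400) (node 367 (merge (leaf 6 335 336) (node 366 (merge (leaf 7 334 334) (node 332 (merge (leaf 3 332 333) (node 364 (merge (leaf 3 331 331) (leaf 4 332 396))))))))))))))))))) (node 431 (merge (node 430 (merge (leaf 1 428 432) (node 459 (merge (leaf 1 427 428) (leaf 2 426 458))))) (node 495 (merge (leaf 4 431 527) (node 399 (merge (leaf 4 399 496) (node 368 (merge (leaf 6 367 400) (node 367 (merge (leaf 6 335 336) (node 366 (merge (leaf 7 334 334) (leaf 7 366 398))))))))))))))))) nP_329 cP_329 12 (by decide +kernel)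
def nP_330 : ℕ := 0x1000000012000000000000000b0000000100000000000000000000000000000000000000000000000000000000000000000000000000000000000000000000000000000000000
def cP_330 : ℕ := 0x60000003e0000009e0000019e0000000e000001ee000001bf000001ff000001fc0000000000000000000000000000000000000000000000000000000000000000000000000000000000
theorem lP_330 : S nP_330 cP_330 13 := S_of_chk [] trivial (node 429 (merge (node 396 (merge (node 364 (merge (leaf 4 332 332) (node 365 (merge (leaf 6 332 333) (node 492 (merge (leaf 6 364 397) (node 524 (merge (leaf 6 428 556) (leaf 4 428 557))))))))) (merge (node 364 (merge (leaf 4 332 332) (node 363 (merge (leaf 7 331 331) (node 492 (merge (leaf 7 363 395) (node 524 (merge (leaf 6 428 556) (leaf 4 428 557))))))))) (merge (node 395 (merge (node 394 (merge (leaf 0 393 393) (node 430 (merge (leaf 0 394 397) (leaf 3 395 431))))) (node 492 (merge (leaf 7 363 363) (node 524 (merge (leaf 6 428 556) (leaf 4 428 557))))))) (node 395 (merge (node 394 (merge (leaf 0 393 393) (node 430 (merge (leaf 0 394 397) (leaf 3 395 431))))) (merge (node 394 (merge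 (leaf 0 393 393) (node 364 (merge (leaf 4 332 332) (node 365 (merge (leaf 6 332 333) (node 366 (merge (leaf 1 362 363) (leaf 1 363 367))))))))) (node 364 (merge (leaf 4 332 332) (node 365 (merge (leaf 6 332 333) (node 363 (merge (leaf 7 331 331) (node 366 (merge (leaf 1 363 367) (node 334 (merge (leaf 2 331 335) (leaf 6 333 397)))))))))))))))))) (merge (node 431 (merge (node 430 (merge (leaf 1 428 432) (leaf 1 427 459))) (node 365 (merge (node 492 (merge (leaf 5 364 397) (node 524 (merge (leaf 6 428 556) (leaf 4 428 557))))) (node 495 (merge (leaf 4 431 527) (node 399 (merge (leaf 4 399 496) (node 368 (merge (leaf 6 367 400) (node 367 (merge (leaf 6 335 336) (node 366 (merge (leaf 7 334 334) (node 332 (merge (leaf 3 332 333) (node 364 (merge (leaf 3 331 331) (leaf 4 332 396))))))))))))))))))) (merge (node 427 (merge (node 426 (merge (leaf 0 425 425) (node 458 (merge (leaf 1 425 457) (node 430 (merge (leaf 1 426 459) (node 431 (merge (leaf 1 428 432) (node 399 (merge (leaf 2 396 400) (node 495 (merge (leaf 4 399 496) (leaf 4 431 527))))))))))))) (merge (node 426 (merge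 (leaf 0 425 425) (node 394 (merge (leaf 3 393 393) (node 430 (merge (leaf 3 394 395) (node 431 (merge (leaf 1 428 432) (node 399 (merge (leaf 2 396 400) (node 495 (merge (leaf 4 399 496) (leaf 4 431 527))))))))))))) (merge (node 459 (merge (node 458 (merge (leaf 1 426 430) (leaf 2 425 457))) (merge (node 430 (merge (leaf 1 427 431) (node 395 (merge (leaf 3 394 394) (node 363 (merge (leaf 4 331 331) (leaf 4 363 492))))))) (node 458 (merge (leaf 2 425 457) (node 490 (merge (leaf 1 457 489) (node 522 (merge (leaf 6 426 554) (node 395 (merge (leaf 5 362 363) (leaf 5 394 491)))))))))))) (node 459 (merge (node 458 (merge (leaf 2 425 457) (node 490 (merge (leaf 1 457 489) (node 522 (merge (leaf 6 426 554) (node 395 (merge (leaf 5 362 363) (leaf 6 394 426))))))))) (merge (node 426 (merge (leaf 0 425 425) (node 394 (merge (leaf 3 393 393) (node 491 (merge (leaf 7 394 523) (node 362 (merge (leaf 4 330 330) (leaf 4 362 458))))))))) (merge (node 426 (merge (leaf 0 425 425) (node 394 (merge (leaf 3 393 393) (node 491 (merge (leaf 7 394 523) (node 362 (merge (leaf 4 330 330) (leaf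 7 362 395))))))))) (node 458 (merge (leaf 2 425 457) (node 490 (merge (leaf 1 457 489) (node 522 (merge (leaf 6 426 554) (node 395 (merge (leaf 5 362 363) (leaf 5 394 491))))))))))))))))) (merge (node 427 (merge (node 426 (merge (leaf 0 425 425) (node 458 (merge (leaf 1 425 457) (node 430 (merge (leaf 1 426 459) (node 431 (merge (leaf 1 428 432) (node 399 (merge (leaf 2 396 400) (node 495 (merge (leaf 4 399 496) (leaf 4 431 527))))))))))))) (merge (node 426 (merge (leaf 0 425 425) (node 394 (merge (leaf 3 393 393) (node 430 (merge (leaf 3 394 395) (node 431 (merge (leaf 1 428 432) (node 399 (merge (leaf 2 396 400) (node 495 (merge (leaf 4 399 496) (leaf 4 431 527))))))))))))) (merge (node 459 (merge (node 458 (merge (leaf 2 425 457) (node 490 (merge (leaf 1 457 489) (node 522 (merge (leaf 6 426 554) (node 395 (merge (leaf 5 362 363) (leaf 6 394 426))))))))) (merge (node 426 (merge (leaf 0 425 425) (node 394 (merge (leaf 3 393 393) (node 491 (merge (leaf 7 394 523) (node 362 (merge (leaf 4 330 330) (leaf 4 362 458))))))))) (merge (node 426 (merge (leaf 0 425 425) (node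 394 (merge (leaf 3 393 393) (node 491 (merge (leaf 7 394 523) (node 362 (merge (leaf 4 330 330) (leaf 7 362 395))))))))) (node 458 (merge (leaf 2 425 457) (node 490 (merge (leaf 1 457 489) (node 522 (merge (leaf 6 426 554) (node 395 (merge (leaf 5 362 363) (leaf 5 394 491))))))))))))) (node 459 (merge (node 458 (merge (leaf 1 426 430) (leaf 2 425 457))) (merge (node 430 (merge (leaf 1 427 431) (node 395 (merge (leaf 3 394 394) (node 363 (merge (leaf 4 331 331) (node 364 (merge (leaf 6 331 332) (node 396 (merge (leaf 6 363 491) (node 362 (merge (leaf 7 330 330) (node 361 (merge (leaf 0 360 360) (leaf 0 361 397))))))))))))))) (node 458 (merge (leaf 2 425 457) (node 490 (merge (leaf 1 457 489) (node 395 (merge (leaf 5 362 363) (node 491 (merge (leaf 5 394 522) (node 396 (merge (leaf 6 363 364) (leaf 6 395 523)))))))))))))))))) (node 491 (merge (node 492 (merge (node 524 (merge (leaf 6 428 556) (leaf 4 428 557))) (node 365 (merge (leaf 5 364 397) (node 396 (merge (leaf 5 395 523) (node 364 (merge (leaf 4 332 332) (leaf 6 332 333))))))))) (merge (node 459 (merge (node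 523 (merge (leaf 6 427 555) (node 396 (merge (leaf 5 363 364) (leaf 6 395 427))))) (merge (node 523 (merge (leaf 6 427 555) (node 458 (merge (leaf 2 425 457) (node 426 (merge (leaf 3 425 425) (node 394 (merge (leaf 4 362 362) (leaf 4 394 490))))))))) (node 458 (merge (leaf 2 425 457) (node 426 (merge (leaf 3 425 425) (node 394 (merge (leaf 4 362 362) (node 393 (merge (leaf 3 393 427) (node 396 (merge (leaf 5 363 364) (leaf 0 393 395)))))))))))))) (merge (node 459 (merge (node 458 (merge (leaf 2 425 457) (node 490 (merge (leaf 1 457 489) (node 426 (merge (leaf 3 425 425) (node 394 (merge (leaf 4 362 362) (leaf 4 394 523))))))))) (merge (node 524 (merge (node 492 (merge (leaf 6 396 397) (leaf 4 428 557))) (node 523 (merge (leaf 6 427 555) (node 427 (merge (leaf 4 427 556) (node 426 (merge (leaf 7 394 394) (leaf 0 425 425))))))))) (merge (node 524 (merge (node 492 (merge (leaf 6 396 397) (leaf 4 428 557))) (node 523 (merge (leaf 6 427 555) (node 427 (merge (leaf 4 427 556) (node 522 (merge (leaf 5 426 554) (node 490 (merge (leaf 5 394 395) (leaf 3 489 489)))))))))))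 (node 458 (merge (leaf 2 425 457) (node 490 (merge (leaf 1 457 489) (node 426 (merge (leaf 3 425 425) (node 394 (merge (leaf 4 362 362) (node 393 (merge (leaf 7 361 361) (leaf 3 393 427))))))))))))))) (node 459 (merge (node 458 (merge (leaf 2 425 457) (node 490 (merge (leaf 1 457 489) (node 426 (merge (leaf 3 425 425) (node 394 (merge (leaf 4 362 362) (node 393 (merge (leaf 7 361 361) (leaf 3 393 427))))))))))) (merge (node 492 (merge (node 524 (merge (leaf 6 428 556) (leaf 4 428 557))) (node 490 (merge (leaf 2 457 489) (node 396 (merge (leaf 5 363 364) (node 395 (merge (leaf 7 363 363) (node 427 (merge (leaf 5 394 522) (node 394 (merge (leaf 7 362 362) (node 393 (merge (leaf 0 392 392) (leaf 0 393 429))))))))))))))) (merge (node 492 (merge (node 524 (merge (leaf 6 428 556) (leaf 4 428 557))) (node 458 (merge (leaf 2 425 457) (node 426 (merge (leaf 3 425 425) (node 394 (merge (leaf 4 362 362) (node 396 (merge (leaf 5 363 364) (node 395 (merge (leaf 7 363 363) (leaf 0 393 393))))))))))))) (node 492 (merge (node 524 (merge (leaf 6 428 556) (leaf 4 428 557))) (node 458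 (merge (leaf 2 425 457) (node 490 (merge (leaf 1 457 489) (node 426 (merge (leaf 3 425 425) (node 396 (merge (leaf 5 363 364) (node 395 (merge (leaf 7 363 363) (node 522 (merge (leaf 6 394 427) (node 554 (merge (leaf 6 458 586) (node 553 (merge (leaf 5 425 521) (leaf 5 457 585)))))))))))))))))))))))))))))))) nP_330 cP_330 13 (by decide +kernel)
def nP_331 : ℕ := 0x200000000000000030000000100000000000000000000000000000000000000000000000000000000000000000000000000000000000000000000000000000000000
def cP_331 : ℕ := 0x380000001c0000001f0000000f0000002f800000ff000000ff800000fc0000003c00000000000000000000000000000000000000000000000000000000000000000000000000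
theorem lP_331 : S nP_331 cP_331 11 := S_of_chk [] trivial (node 396 (merge (node 364 (merge (node 333 (merge (leaf 6 332 365) (node 332 (merge (leaf 6 300 301) (leaf 4 332 429))))) (merge (node 331 (merge (leaf 7 331 363) (node 332 (merge (leaf 7 299 299) (leaf 4 332 429))))) (node 365 (merge (leaf 6 332 333) (node 492 (merge (leaf 6 364 397) (node 363 (merge (leaf 7 331 331) (leaf 7 363 395)))))))))) (merge (node 492 (merge (node 524 (merge (leaf 4 428 557) (node 523 (merge (leaf 5 395 491) (leaf 5 427 555))))) (merge (node 395 (merge (leaf 7 363 363) (node 524 (merge (leaf 7 395 427) (leaf 4 428 557))))) (node 363 (merge (leaf 7 363 395) (node 364 (merge (leaf 7 331 331) (node 491 (merge (leaf 5 363 459) (leaf 5 395 523)))))))))) (merge (node 492 (merge (node 524 (merge (leaf 4 428 557) (node 523 (merge (leaf 5 395 491) (leaf 5 427 555))))) (merge (node 524 (merge (leaf 4 428 557) (node 429 (merge (leaf 6 396 397) (leaf 6 428 556))))) (node 365 (merge (leaf 6 364 397) (node 364 (merge (leaf 6 332 333) (node 491 (merge (leaf 5 363 459) (leaf 5 395 523))))))))))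 (merge (node 395 (merge (node 492 (merge (leaf 7 363 363) (node 524 (merge (leaf 4 428 557) (node 523 (merge (leaf 5 395 491) (leaf 5 427 555))))))) (merge (node 394 (merge (node 393 (merge (leaf 0 393 429) (node 392 (merge (leaf 0 392 427) (node 360 (merge (leaf 3 359 359) (leaf 3 360 361))))))) (merge (node 393 (merge (leaf 0 393 429) (node 425 (merge (leaf 1 392 424) (node 426 (merge (leaf 1 393 397) (leaf 0 425 427))))))) (merge (node 425 (merge (node 426 (merge (leaf 1 393 397) (leaf 0 425 427))) (merge (node 393 (merge (leaf 1 392 424) (node 392 (merge (leaf 0 392 427) (node 360 (merge (leaf 3 359 359) (leaf 3 360 361))))))) (node 424 (merge (leaf 1 392 393) (node 426 (merge (leaf 1 393 397) (leaf 2 391 423)))))))) (merge (node 393 (merge (leaf 0 393 429) (node 425 (merge (leaf 1 392 424) (node 397 (merge (leaf 1 393 426) (node 361 (merge (leaf 3 360 360) (leaf 3 361 362))))))))) (node 397 (merge (node 365 (merge (leaf 2 362 366) (node 333 (merge (leaf 5 300 301) (leaf 5 332 429))))) (node 426 (merge (leaf 1 393 425) (node 398 (merge (leaf 1 394 427) (node 362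 (merge (leaf 3 361 361) (leaf 3 362 363)))))))))))))) (node 397 (merge (node 492 (merge (leaf 6 364 365) (node 524 (merge (leaf 7 395 427) (leaf 4 428 557))))) (merge (node 365 (merge (leaf 6 364 492) (node 333 (merge (leaf 5 300 301) (leaf 5 332 429))))) (merge (node 426 (merge (node 427 (merge (leaf 0 425 425) (node 398 (merge (leaf 1 394 395) (leaf 1 395 399))))) (merge (node 394 (merge (leaf 1 393 425) (node 393 (merge (leaf 0 393 429) (node 361 (merge (leaf 3 360 360) (leaf 3 361 362))))))) (node 398 (merge (leaf 1 394 427) (node 366 (merge (leaf 2 363 367) (node 365 (merge (leaf 2 362 394) (node 333 (merge (leaf 5 300 301) (leaf 5 332 429)))))))))))) (node 427 (merge (node 398 (merge (leaf 1 395 399) (leaf 1 394 426))) (merge (node 426 (merge (leaf 0 425 425) (node 492 (merge (leaf 7 395 524) (node 491 (merge (leaf 5 395 523) (node 490 (merge (leaf 2 457 489) (node 522 (merge (leaf 6 394 458) (leaf 5 394 459))))))))))) (node 492 (merge (leaf 7 395 524) (node 491 (merge (leaf 5 395 523) (node 490 (merge (leaf 2 457 489) (node 459 (merge (leaf 5 394 522) (node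 394 (merge (leaf 7 362 362) (node 393 (merge (leaf 0 392 392) (leaf 0 393 429))))))))))))))))))))))) (node 395 (merge (node 364 (merge (node 333 (merge (leaf 6 332 365) (node 332 (merge (leaf 6 300 301) (leaf 4 332 429))))) (merge (node 331 (merge (leaf 7 331 363) (node 332 (merge (leaf 7 299 299) (leaf 4 332 429))))) (node 365 (merge (leaf 6 332 333) (node 363 (merge (leaf 7 331 331) (node 394 (merge (leaf 1 362 366) (leaf 2 361 393)))))))))) (merge (node 364 (merge (node 332 (merge (leaf 4 332 429) (node 459 (merge (leaf 5 331 427) (leaf 5 363 491))))) (node 365 (merge (leaf 6 332 333) (node 366 (merge (leaf 1 363 367) (node 394 (merge (leaf 2 361 393) (leaf 2 362 397))))))))) (merge (node 364 (merge (node 331 (merge (leaf 7 331 363) (node 332 (merge (leaf 7 299 299) (node 427 (merge (leaf 5 299 300) (leaf 5 331 459))))))) (merge (node 365 (merge (leaf 6 332 333) (node 363 (merge (leaf 7 331 331) (node 366 (merge (leaf 1 363 367) (leaf 1 362 394))))))) (node 333 (merge (leaf 6 332 365) (node 332 (merge (leaf 6 300 301) (node 459 (merge (leaf 5 331 427) (leaf 5 363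 491)))))))))) (merge (node 427 (merge (node 459 (merge (node 491 (merge (leaf 5 363 364) (leaf 6 395 523))) (node 363 (merge (leaf 4 331 331) (node 458 (merge (leaf 5 362 490) (node 457 (merge (leaf 2 425 429) (leaf 2 424 456))))))))) (merge (node 394 (merge (node 393 (merge (leaf 0 393 429) (node 392 (merge (leaf 0 392 427) (node 360 (merge (leaf 3 359 359) (leaf 3 360 361))))))) (merge (node 393 (merge (leaf 0 393 429) (node 425 (merge (leaf 1 392 424) (node 426 (merge (leaf 1 393 397) (leaf 0 425 427))))))) (node 426 (merge (leaf 0 425 425) (node 397 (merge (leaf 1 394 398) (node 362 (merge (leaf 3 361 361) (node 330 (merge (leaf 4 298 298) (leaf 4 330 459)))))))))))) (merge (node 394 (merge (node 393 (merge (leaf 0 393 429) (node 392 (merge (leaf 0 392 427) (node 360 (merge (leaf 3 359 359) (leaf 3 360 361))))))) (merge (node 393 (merge (leaf 0 393 429) (node 425 (merge (leaf 1 392 424) (node 426 (merge (leaf 1 393 397) (leaf 0 425 427))))))) (merge (node 393 (merge (leaf 0 392 392) (node 425 (merge (leaf 1 392 424) (node 397 (merge (leaf 1 393 426) (node 361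 (merge (leaf 3 360 360) (leaf 3 361 362))))))))) (node 426 (merge (leaf 0 425 425) (node 397 (merge (leaf 1 394 398) (node 362 (merge (leaf 3 361 361) (node 363 (merge (leaf 4 331 331) (node 458 (merge (leaf 6 362 490) (node 457 (merge (leaf 1 425 429) (leaf 5 361 489))))))))))))))))) (node 459 (merge (node 491 (merge (leaf 5 363 364) (leaf 6 395 523))) (node 458 (merge (node 489 (merge (leaf 1 457 490) (node 457 (merge (leaf 2 424 456) (leaf 1 456 488))))) (merge (node 425 (merge (leaf 0 425 426) (node 457 (merge (leaf 3 424 424) (leaf 2 424 456))))) (node 490 (merge (leaf 1 457 489) (node 426 (merge (leaf 3 425 425) (node 395 (merge (leaf 5 362 363) (leaf 6 394 522)))))))))))))))) (merge (node 394 (merge (node 393 (merge (leaf 0 393 429) (node 392 (merge (leaf 0 392 427) (node 360 (merge (leaf 3 359 359) (leaf 3 360 361))))))) (merge (node 393 (merge (leaf 0 393 429) (node 425 (merge (leaf 1 392 424) (node 426 (merge (leaf 1 393 397) (leaf 0 425 427))))))) (merge (node 425 (merge (node 426 (merge (leaf 1 393 397) (leaf 0 425 427))) (merge (node 393 (merge (leaf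 1 392 424) (node 392 (merge (leaf 0 392 427) (node 360 (merge (leaf 3 359 359) (leaf 3 360 361))))))) (node 424 (merge (leaf 1 392 393) (node 426 (merge (leaf 1 393 397) (leaf 2 391 423)))))))) (merge (node 393 (merge (leaf 0 393 429) (node 425 (merge (leaf 1 392 424) (node 397 (merge (leaf 1 393 426) (node 361 (merge (leaf 3 360 360) (leaf 3 361 362))))))))) (node 397 (merge (node 365 (merge (leaf 2 362 366) (node 333 (merge (leaf 5 300 301) (leaf 5 332 429))))) (node 426 (merge (leaf 1 393 425) (node 398 (merge (leaf 1 394 427) (node 362 (merge (leaf 3 361 361) (leaf 3 362 363)))))))))))))) (node 363 (merge (node 331 (merge (leaf 4 299 299) (leaf 4 331 427))) (merge (node 331 (merge (leaf 4 299 299) (leaf 7 331 364))) (node 364 (merge (node 332 (merge (leaf 4 332 429) (node 459 (merge (leaf 5 331 427) (leaf 5 363 491))))) (merge (node 365 (merge (leaf 6 332 333) (node 366 (merge (leaf 1 363 367) (node 398 (merge (leaf 0 363 399) (node 397 (merge (leaf 0 362 362) (node 334 (merge (leaf 2 331 335) (leaf 6 333 429))))))))))) (node 459 (merge (leaf 5 363 491) (node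 427 (merge (leaf 6 331 332) (node 362 (merge (leaf 7 330 330) (node 361 (merge (leaf 0 360 360) (leaf 0 361 397)))))))))))))))))))))))))) nP_331 cP_331 11 (by decide +kernel)
def nP_332 : ℕ := 0x1000000012000000000000000b0000000100000000000000000000000000000000000000000000000000000000000000000000000000000000000000000000000000000000000
def cP_332 : ℕ := 0x60000003e0000009e0000019e0000000e000001ef800001ff000001df800001fc0000004c00000000000000000000000000000000000000000000000000000000000000000000000000
theorem lP_332 : S nP_332 cP_332 14 := S_of_chk [] trivial (node 431 (merge (node 495 (merge (leaf 4 431 527) (node 399 (merge (leaf 4 399 496) (node 368 (merge (leaf 6 367 400) (node 367 (merge (leaf 6 335 336) (node 366 (merge (leaf 7 334 334) (leaf 7 366 398))))))))))) (merge (node 396 (merge (node 492 (merge (node 524 (merge (leaf 4 428 557) (node 523 (merge (leaf 5 395 491) (leaf 5 427 555))))) (merge (node 395 (merge (leaf 7 363 363) (node 524 (merge (leaf 7 395 427) (leaf 4 428 557))))) (node 363 (merge (leaf 7 363 395) (node 364 (merge (leaf 7 331 331) (node 491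 (merge (leaf 5 363 459) (leaf 5 395 523)))))))))) (merge (node 429 (merge (node 430 (merge (leaf 3 395 395) (leaf 1 428 432))) (node 364 (merge (leaf 4 332 332) (node 491 (merge (leaf 5 363 459) (node 492 (merge (leaf 5 395 523) (node 524 (merge (leaf 6 428 556) (leaf 4 428 557))))))))))) (merge (node 429 (merge (node 430 (merge (leaf 1 428 432) (leaf 1 427 459))) (node 364 (merge (leaf 4 332 332) (node 363 (merge (leaf 7 331 331) (node 492 (merge (leaf 7 363 395) (node 524 (merge (leaf 6 428 556) (leaf 4 428 557))))))))))) (merge (node 364 (merge (node 429 (merge (leaf 4 332 332) (node 430 (merge (leaf 3 395 395) (leaf 1 428 432))))) (merge (node 331 (merge (leaf 7 331 363) (node 332 (merge (leaf 7 299 299) (leaf 4 332 429))))) (node 363 (merge (leaf 7 331 331) (node 492 (merge (leaf 7 363 395) (node 524 (merge (leaf 4 428 557) (node 523 (merge (leaf 5 395 491) (leaf 5 427 555)))))))))))) (merge (node 364 (merge (node 331 (merge (leaf 7 331 363) (node 332 (merge (leaf 7 299 299) (leaf 4 332 429))))) (merge (node 331 (merge (leaf 7 331 363) (node 332 (merge (leaf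 7 299 299) (node 459 (merge (leaf 5 331 427) (leaf 5 363 491))))))) (node 491 (merge (leaf 5 363 459) (node 492 (merge (leaf 5 395 523) (node 524 (merge (leaf 4 428 557) (node 429 (merge (leaf 6 396 397) (leaf 6 428 556)))))))))))) (merge (node 459 (merge (node 491 (merge (leaf 5 363 364) (node 523 (merge (leaf 6 395 427) (leaf 6 427 555))))) (merge (node 429 (merge (leaf 1 427 430) (node 364 (merge (leaf 4 332 332) (leaf 5 363 491))))) (merge (node 491 (merge (node 523 (merge (leaf 6 395 427) (leaf 6 427 555))) (merge (node 429 (merge (leaf 1 427 430) (node 458 (merge (leaf 2 425 457) (node 490 (merge (leaf 1 457 489) (node 426 (merge (leaf 3 425 425) (node 394 (merge (leaf 4 362 362) (node 393 (merge (leaf 7 361 361) (leaf 3 393 427))))))))))))) (node 523 (merge (leaf 6 427 555) (node 429 (merge (leaf 1 427 430) (node 458 (merge (leaf 2 425 457) (node 490 (merge (leaf 1 457 489) (node 426 (merge (leaf 4 394 394) (leaf 3 425 425)))))))))))))) (node 363 (merge (node 364 (merge (leaf 7 331 331) (node 429 (merge (leaf 4 332 332) (leaf 1 427 430))))) (merge (node 331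 (merge (leaf 7 331 364) (node 395 (merge (leaf 4 299 299) (leaf 4 331 427))))) (node 429 (merge (leaf 1 427 430) (node 458 (merge (leaf 2 425 457) (node 490 (merge (leaf 1 457 489) (node 426 (merge (leaf 3 425 425) (node 395 (merge (leaf 6 362 394) (leaf 5 362 427)))))))))))))))))) (node 395 (merge (node 492 (merge (leaf 7 363 363) (node 524 (merge (leaf 7 395 427) (leaf 4 428 557))))) (merge (node 492 (merge (leaf 7 363 363) (node 429 (merge (leaf 3 395 430) (node 524 (merge (leaf 6 396 397) (leaf 4 428 557))))))) (merge (node 427 (merge (node 426 (merge (leaf 0 425 425) (node 492 (merge (leaf 7 395 524) (node 491 (merge (leaf 5 395 523) (node 490 (merge (leaf 2 457 489) (node 522 (merge (leaf 6 394 458) (leaf 5 394 459))))))))))) (merge (node 426 (merge (leaf 0 425 425) (node 397 (merge (leaf 1 394 398) (node 429 (merge (leaf 3 395 430) (node 394 (merge (leaf 0 393 393) (node 362 (merge (leaf 3 361 361) (node 330 (merge (leaf 4 298 298) (leaf 4 330 459))))))))))))) (merge (node 492 (merge (leaf 7 395 524) (node 429 (merge (leaf 3 395 430) (node 394 (merge (leaf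 0 393 393) (node 491 (merge (leaf 5 395 523) (node 459 (merge (leaf 7 362 362) (node 490 (merge (leaf 2 457 489) (leaf 5 394 522))))))))))))) (node 426 (merge (leaf 0 425 425) (node 492 (merge (leaf 7 395 524) (node 429 (merge (leaf 3 395 430) (node 458 (merge (leaf 1 425 457) (node 490 (merge (leaf 6 394 522) (node 491 (merge (leaf 2 457 489) (leaf 5 395 523))))))))))))))))) (node 394 (merge (node 429 (merge (leaf 0 393 393) (leaf 3 395 430))) (merge (node 425 (merge (node 426 (merge (leaf 1 393 397) (leaf 0 425 427))) (merge (node 393 (merge (leaf 1 392 424) (node 392 (merge (leaf 0 392 427) (node 360 (merge (leaf 3 359 359) (leaf 3 360 361))))))) (node 424 (merge (leaf 1 392 393) (node 426 (merge (leaf 1 393 397) (leaf 2 391 423)))))))) (node 427 (merge (node 426 (merge (leaf 0 425 425) (node 397 (merge (leaf 1 394 398) (node 362 (merge (leaf 3 361 361) (node 330 (merge (leaf 4 298 298) (leaf 4 330 459))))))))) (merge (node 426 (merge (leaf 0 425 425) (node 429 (merge (leaf 3 395 430) (node 458 (merge (leaf 1 425 457) (node 490 (merge (leaf 6 394 522) (node 363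 (merge (leaf 4 331 331) (leaf 6 362 394))))))))))) (node 430 (merge (leaf 3 394 429) (node 397 (merge (leaf 0 395 398) (node 362 (merge (leaf 3 361 361) (node 459 (merge (leaf 7 362 491) (node 363 (merge (leaf 7 330 330) (leaf 4 331 331)))))))))))))))))))))))))))) (node 429 (merge (node 430 (merge (leaf 1 428 432) (leaf 1 427 459))) (merge (node 495 (merge (leaf 4 431 527) (node 399 (merge (leaf 4 399 496) (node 400 (merge (leaf 6 367 368) (leaf 2 396 430))))))) (node 491 (merge (node 459 (merge (node 523 (merge (leaf 6 427 555) (node 396 (merge (leaf 5 363 364) (leaf 6 395 427))))) (merge (node 523 (merge (leaf 6 427 555) (node 458 (merge (leaf 2 425 457) (node 426 (merge (leaf 3 425 425) (node 394 (merge (leaf 4 362 362) (leaf 4 394 490))))))))) (node 458 (merge (leaf 2 425 457) (node 426 (merge (leaf 3 425 425) (node 394 (merge (leaf 4 362 362) (node 393 (merge (leaf 3 393 427) (node 396 (merge (leaf 5 363 364) (leaf 0 393 395)))))))))))))) (merge (node 459 (merge (node 458 (merge (leaf 2 425 457) (node 490 (merge (leaf 1 457 489) (node 426 (merge (leaf 3 425 425)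 (node 394 (merge (leaf 4 362 362) (leaf 4 394 523))))))))) (merge (node 524 (merge (node 492 (merge (leaf 6 396 397) (leaf 4 428 557))) (node 523 (merge (leaf 6 427 555) (node 427 (merge (leaf 4 427 556) (node 426 (merge (leaf 7 394 394) (leaf 0 425 425))))))))) (merge (node 524 (merge (node 492 (merge (leaf 6 396 397) (leaf 4 428 557))) (node 523 (merge (leaf 6 427 555) (node 427 (merge (leaf 4 427 556) (node 522 (merge (leaf 5 426 554) (node 490 (merge (leaf 5 394 395) (leaf 3 489 489))))))))))) (node 458 (merge (leaf 2 425 457) (node 490 (merge (leaf 1 457 489) (node 426 (merge (leaf 3 425 425) (node 394 (merge (leaf 4 362 362) (node 393 (merge (leaf 7 361 361) (leaf 3 393 427))))))))))))))) (merge (node 459 (merge (node 458 (merge (leaf 2 425 457) (node 490 (merge (leaf 1 457 489) (node 426 (merge (leaf 3 425 425) (node 394 (merge (leaf 4 362 362) (node 393 (merge (leaf 7 361 361) (leaf 3 393 427))))))))))) (merge (node 492 (merge (node 524 (merge (leaf 6 428 556) (leaf 4 428 557))) (node 490 (merge (leaf 2 457 489) (node 396 (merge (leaf 5 363 364) (node 395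 (merge (leaf 7 363 363) (node 427 (merge (leaf 5 394 522) (node 394 (merge (leaf 7 362 362) (node 393 (merge (leaf 0 392 392) (leaf 0 393 429))))))))))))))) (merge (node 492 (merge (node 524 (merge (leaf 6 428 556) (leaf 4 428 557))) (node 458 (merge (leaf 2 425 457) (node 426 (merge (leaf 3 425 425) (node 394 (merge (leaf 4 362 362) (node 396 (merge (leaf 5 363 364) (node 395 (merge (leaf 7 363 363) (leaf 0 393 393))))))))))))) (node 492 (merge (node 524 (merge (leaf 6 428 556) (leaf 4 428 557))) (node 458 (merge (leaf 2 425 457) (node 490 (merge (leaf 1 457 489) (node 426 (merge (leaf 3 425 425) (node 396 (merge (leaf 5 363 364) (node 395 (merge (leaf 7 363 363) (node 522 (merge (leaf 6 394 427) (node 554 (merge (leaf 6 458 586) (node 553 (merge (leaf 5 425 521) (leaf 5 457 585))))))))))))))))))))))) (node 495 (merge (leaf 4 431 527) (node 399 (merge (leaf 4 399 496) (node 368 (merge (leaf 6 367 400) (node 367 (merge (leaf 6 335 336) (node 334 (merge (leaf 7 334 366) (node 335 (merge (leaf 7 302 302) (node 332 (merge (leaf 0 332 333) (node 396 (merge (leaf 4 332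 364) (node 492 (merge (leaf 5 395 523) (node 524 (merge (leaf 6 396 397) (leaf 4 428 557))))))))))))))))))))))))))))))) nP_332 cP_332 14 (by decide +kernel)
def nP_333 : ℕ := 0x1000000012000000000000000b0000000100000000000000000000000000000000000000000000000000000000000000000000000000000000000000000000000000000000000
def cP_333 : ℕ := 0xa0000003e0000009e0000019f0000000e000003ef800003ff000003f7000001700000002000000000000000000000000000000000000000000000000000000000000000000000000000
theorem lP_333 : S nP_333 cP_333 13 := S_of_chk [] trivial (node 396 (merge (node 492 (merge (node 524 (merge (leaf 4 428 557) (node 523 (merge (leaf 5 395 491) (leaf 5 427 555))))) (merge (node 524 (merge (leaf 4 428 557) (node 429 (merge (leaf 6 396 397) (leaf 6 428 556))))) (node 365 (merge (leaf 6 364 397) (node 364 (merge (leaf 6 332 333) (node 491 (merge (leaf 5 363 459) (leaf 5 395 523)))))))))) (merge (node 431 (merge (node 495 (merge (leaf 4 431 527) (node 399 (merge (leaf 4 399 496) (node 398 (merge (leaf 7 366 366) (node 397 (merge (leaf 1 395 427) (leaf 0 396 432))))))))) (merge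 (node 429 (merge (node 430 (merge (leaf 3 395 395) (leaf 1 428 432))) (node 364 (merge (leaf 4 332 332) (node 365 (merge (leaf 6 332 333) (node 492 (merge (leaf 6 364 397) (node 524 (merge (leaf 6 428 556) (leaf 4 428 557))))))))))) (node 495 (merge (leaf 4 431 527) (node 399 (merge (leaf 4 399 496) (node 400 (merge (leaf 6 367 368) (node 366 (merge (leaf 7 366 398) (node 367 (merge (leaf 7 334 334) (node 364 (merge (leaf 0 364 365) (node 429 (merge (leaf 4 332 332) (leaf 2 396 430)))))))))))))))))) (merge (node 431 (merge (node 495 (merge (leaf 4 431 527) (node 399 (merge (leaf 4 399 496) (node 398 (merge (leaf 7 366 366) (node 397 (merge (leaf 1 395 427) (leaf 0 396 432))))))))) (merge (node 429 (merge (node 430 (merge (leaf 3 395 395) (leaf 1 428 432))) (node 364 (merge (leaf 4 332 332) (node 491 (merge (leaf 5 363 459) (node 492 (merge (leaf 5 395 523) (node 524 (merge (leaf 6 428 556) (leaf 4 428 557))))))))))) (node 495 (merge (leaf 4 431 527) (node 399 (merge (leaf 4 399 496) (node 400 (merge (leaf 6 367 368) (node 429 (merge (leaf 2 396 430) (node 364 (merge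 (leaf 4 332 332) (node 491 (merge (leaf 5 363 459) (node 492 (merge (leaf 5 395 523) (node 524 (merge (leaf 6 428 556) (leaf 4 428 557)))))))))))))))))))) (merge (node 492 (merge (node 524 (merge (leaf 4 428 557) (node 523 (merge (leaf 5 395 491) (leaf 5 427 555))))) (merge (node 524 (merge (leaf 4 428 557) (node 556 (merge (leaf 6 428 429) (node 427 (merge (leaf 7 395 395) (leaf 7 427 459))))))) (node 491 (merge (leaf 5 395 523) (node 364 (merge (leaf 5 363 459) (node 333 (merge (leaf 6 332 365) (node 332 (merge (leaf 6 300 301) (leaf 4 332 429)))))))))))) (merge (node 492 (merge (node 524 (merge (leaf 4 428 557) (node 523 (merge (leaf 5 395 491) (leaf 5 427 555))))) (merge (node 365 (merge (leaf 6 364 397) (node 364 (merge (leaf 6 332 333) (node 491 (merge (leaf 5 363 459) (leaf 5 395 523))))))) (merge (node 365 (merge (leaf 6 364 397) (node 364 (merge (leaf 6 332 333) (node 524 (merge (leaf 4 428 557) (node 459 (merge (leaf 5 363 491) (node 427 (merge (leaf 5 331 332) (leaf 7 427 556))))))))))) (node 524 (merge (leaf 4 428 557) (node 427 (merge (leaf 7 395 395)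 (node 556 (merge (leaf 7 427 459) (node 555 (merge (leaf 5 427 523) (leaf 5 459 587))))))))))))) (merge (node 429 (merge (node 364 (merge (leaf 4 332 332) (node 459 (merge (leaf 5 363 491) (node 458 (merge (leaf 2 426 430) (leaf 2 425 457))))))) (merge (node 431 (merge (node 430 (merge (leaf 3 395 395) (leaf 1 428 432))) (node 495 (merge (leaf 4 431 527) (node 399 (merge (leaf 4 399 496) (node 400 (merge (leaf 6 367 368) (node 398 (merge (leaf 7 366 366) (leaf 1 396 397))))))))))) (node 397 (merge (node 365 (merge (leaf 5 332 333) (node 366 (merge (leaf 6 333 334) (node 367 (merge (leaf 1 364 368) (node 395 (merge (leaf 1 363 364) (leaf 2 362 394))))))))) (merge (node 365 (merge (leaf 5 332 333) (node 366 (merge (leaf 6 333 334) (node 367 (merge (leaf 1 364 368) (node 395 (merge (leaf 2 362 394) (leaf 2 363 398))))))))) (merge (node 364 (merge (leaf 4 332 332) (node 459 (merge (leaf 5 363 491) (node 458 (merge (leaf 2 425 457) (node 490 (merge (leaf 1 457 489) (node 426 (merge (leaf 3 425 425) (node 427 (merge (leaf 2 394 398) (node 522 (merge (leaf 6 394 395) (leaf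 6 426 554))))))))))))))) (node 364 (merge (leaf 4 332 332) (node 365 (merge (leaf 6 332 333) (node 366 (merge (leaf 6 333 334) (node 367 (merge (leaf 1 364 368) (node 399 (merge (leaf 0 364 400) (node 398 (merge (leaf 1 395 427) (node 431 (merge (leaf 0 396 432) (leaf 7 366 495)))))))))))))))))))))) (node 397 (merge (node 492 (merge (leaf 6 364 365) (node 524 (merge (leaf 4 428 557) (node 523 (merge (leaf 5 395 491) (leaf 5 427 555))))))) (merge (node 431 (merge (node 430 (merge (node 395 (merge (leaf 0 395 398) (leaf 3 395 429))) (merge (node 398 (merge (leaf 0 395 395) (node 432 (merge (leaf 0 396 399) (leaf 3 397 433))))) (merge (node 432 (merge (leaf 3 396 429) (node 398 (merge (leaf 0 396 399) (leaf 3 397 433))))) (node 429 (merge (leaf 3 395 395) (node 400 (merge (leaf 2 396 399) (node 432 (merge (leaf 3 396 397) (leaf 2 397 401))))))))))) (merge (node 495 (merge (leaf 4 431 527) (node 399 (merge (leaf 4 399 496) (node 368 (merge (leaf 6 367 400) (node 367 (merge (leaf 6 335 336) (node 366 (merge (leaf 7 334 334) (leaf 1 364 365))))))))))) (node 429 (merge (node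 430 (merge (leaf 1 428 432) (leaf 1 427 459))) (node 365 (merge (leaf 5 332 333) (node 366 (merge (leaf 6 333 334) (node 367 (merge (leaf 1 364 368) (node 395 (merge (leaf 2 362 394) (leaf 2 363 398)))))))))))))) (node 395 (merge (node 394 (merge (node 393 (merge (leaf 0 393 429) (node 361 (merge (leaf 3 360 360) (leaf 3 361 362))))) (merge (node 393 (merge (leaf 0 393 429) (node 425 (merge (leaf 1 392 424) (node 426 (merge (leaf 1 393 397) (leaf 0 425 427))))))) (merge (node 425 (merge (leaf 1 393 426) (node 393 (merge (leaf 1 392 424) (node 361 (merge (leaf 3 360 360) (leaf 3 361 362))))))) (node 429 (merge (leaf 0 394 430) (node 492 (merge (leaf 6 396 524) (node 426 (merge (leaf 1 393 425) (node 362 (merge (leaf 3 361 361) (node 491 (merge (leaf 5 395 523) (node 459 (merge (leaf 7 362 427) (leaf 4 362 458))))))))))))))))) (merge (node 394 (merge (node 393 (merge (leaf 0 393 429) (node 361 (merge (leaf 3 360 360) (leaf 3 361 362))))) (merge (node 361 (merge (leaf 3 361 362) (node 393 (merge (leaf 3 360 360) (node 392 (merge (leaf 0 392 427) (node 424 (merge (leaf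 1 391 423) (leaf 1 392 425))))))))) (node 430 (merge (leaf 0 394 429) (node 398 (merge (leaf 0 395 431) (node 399 (merge (leaf 1 395 427) (node 367 (merge (leaf 2 363 366) (leaf 2 364 368)))))))))))) (merge (node 427 (merge (node 398 (merge (leaf 1 395 399) (leaf 1 394 426))) (merge (node 426 (merge (leaf 0 425 425) (node 492 (merge (leaf 7 395 524) (node 491 (merge (leaf 5 395 523) (node 490 (merge (leaf 2 457 489) (node 522 (merge (leaf 6 394 458) (leaf 5 394 459))))))))))) (node 492 (merge (leaf 7 395 524) (node 491 (merge (leaf 5 395 523) (node 490 (merge (leaf 2 457 489) (node 459 (merge (leaf 5 394 522) (node 394 (merge (leaf 7 362 362) (node 393 (merge (leaf 0 392 392) (leaf 0 393 429)))))))))))))))) (merge (node 431 (merge (node 430 (merge (leaf 0 395 398) (leaf 3 395 429))) (merge (node 495 (merge (leaf 4 431 527) (node 399 (merge (leaf 4 399 496) (node 398 (merge (leaf 7 366 366) (leaf 1 395 427))))))) (node 429 (merge (leaf 3 395 430) (node 394 (merge (leaf 0 393 393) (node 492 (merge (leaf 6 396 524) (node 362 (merge (leaf 3 361 361) (node 491 (merge (leaf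 5 395 523) (node 459 (merge (leaf 7 362 427) (node 458 (merge (leaf 4 362 426) (leaf 2 425 457)))))))))))))))))) (merge (node 394 (merge (node 425 (merge (leaf 1 393 426) (node 393 (merge (leaf 1 392 424) (node 361 (merge (leaf 3 360 360) (leaf 3 361 362))))))) (merge (node 426 (merge (leaf 1 393 425) (node 398 (merge (leaf 1 394 427) (node 431 (merge (leaf 0 395 430) (node 399 (merge (leaf 0 396 432) (node 495 (merge (leaf 4 399 496) (leaf 4 431 527))))))))))) (merge (node 361 (merge (leaf 3 361 362) (node 393 (merge (leaf 3 360 360) (node 427 (merge (leaf 0 392 392) (node 398 (merge (leaf 1 395 399) (leaf 1 394 426))))))))) (node 361 (merge (leaf 3 361 362) (node 393 (merge (leaf 3 360 360) (node 392 (merge (leaf 0 392 427) (node 424 (merge (leaf 1 391 423) (leaf 1 392 425))))))))))))) (merge (node 398 (merge (node 431 (merge (leaf 0 395 430) (node 366 (merge (leaf 2 363 367) (node 495 (merge (leaf 7 366 399) (leaf 4 431 527))))))) (merge (node 399 (merge (node 400 (merge (leaf 1 396 429) (node 368 (merge (leaf 2 364 367) (leaf 2 365 369))))) (node 431 (merge (leaf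 0 396 432) (node 495 (merge (leaf 4 399 496) (leaf 4 431 527))))))) (merge (node 367 (merge (leaf 2 363 366) (node 399 (merge (leaf 2 364 368) (node 429 (merge (leaf 1 396 400) (node 394 (merge (leaf 0 393 393) (leaf 0 394 430))))))))) (node 430 (merge (leaf 0 395 431) (node 394 (merge (leaf 0 394 429) (node 425 (merge (leaf 1 393 426) (node 393 (merge (leaf 1 392 424) (node 361 (merge (leaf 3 360 360) (leaf 3 361 362))))))))))))))) (node 459 (merge (node 427 (merge (node 426 (merge (leaf 1 394 398) (leaf 0 425 425))) (node 491 (merge (leaf 6 395 523) (node 492 (merge (leaf 7 395 524) (node 490 (merge (leaf 2 457 489) (leaf 5 394 522))))))))) (merge (node 398 (merge (node 367 (merge (leaf 2 363 366) (node 399 (merge (leaf 2 364 368) (node 429 (merge (leaf 1 396 400) (node 458 (merge (leaf 2 426 430) (leaf 2 425 457))))))))) (merge (node 367 (merge (leaf 2 363 366) (node 399 (merge (leaf 2 364 368) (node 431 (merge (leaf 0 396 432) (node 495 (merge (leaf 4 399 496) (leaf 4 431 527))))))))) (node 430 (merge (leaf 0 395 431) (node 458 (merge (leaf 2 426 429) (node 489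 (merge (leaf 1 457 490) (node 457 (merge (leaf 1 456 488) (node 425 (merge (leaf 3 424 424) (leaf 3 425 426)))))))))))))) (merge (node 429 (merge (node 458 (merge (leaf 2 426 430) (leaf 2 425 457))) (merge (node 431 (merge (leaf 1 427 430) (node 495 (merge (leaf 4 431 527) (node 399 (merge (leaf 4 399 496) (node 398 (merge (leaf 1 396 400) (leaf 1 395 427))))))))) (node 458 (merge (leaf 2 425 457) (node 426 (merge (leaf 3 425 425) (node 398 (merge (leaf 1 394 427) (node 399 (merge (leaf 1 396 400) (node 367 (merge (leaf 2 363 366) (leaf 2 364 368)))))))))))))) (merge (node 427 (merge (node 398 (merge (leaf 1 395 399) (node 430 (merge (leaf 0 395 431) (node 429 (merge (leaf 1 426 458) (node 366 (merge (leaf 5 333 334) (leaf 2 363 367))))))))) (node 491 (merge (leaf 6 395 523) (node 492 (merge (leaf 7 395 524) (node 490 (merge (leaf 2 457 489) (leaf 5 394 522))))))))) (node 458 (merge (node 429 (merge (leaf 2 426 430) (leaf 2 425 457))) (merge (node 489 (merge (leaf 1 457 490) (node 457 (merge (leaf 1 456 488) (node 425 (merge (leaf 3 424 424) (leaf 3 425 426)))))))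 (node 490 (merge (leaf 1 457 489) (node 429 (merge (leaf 2 426 430) (node 524 (merge (leaf 6 396 492) (node 426 (merge (leaf 3 425 425) (node 522 (merge (leaf 6 394 427) (node 553 (merge (leaf 5 425 521) (node 554 (merge (leaf 1 521 523) (leaf 5 457 585)))))))))))))))))))))))))))))))))))))))) nP_333 cP_333 13 (by decide +kernel)

end Crest.Agent.H26Snaky
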