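import Crest.Agent.H26SnP017
import Crest.Agent.H26SnP019
import Crest.Agent.H26SnP020
import Crest.Agent.H26SnP021
import Crest.Agent.H26SnP022
import Crest.Agent.H26SnP023
import Crest.Agent.H26SnP024

/-! certificate data for S0047, part P 25 (computer generated) -/

set_option autoImplicit false
set_option maxRecDepth 100000

namespace Crest.Agent.H26Snaky

open T

def nP_334 : ℕ := 0x1000000012000000000000000b0000000100000000000000000000000000000000000000000000000000000000000000000000000000000000000000000000000000000000000
def cP_334 : ℕ := 0x1e0000003e0000009e0000019fc000000f800000ef800001df000001fe0000017c0000002800000000000000000000000000000000000000000000000000000000000000000000000000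
theorem lP_334 : S nP_334 cP_334 14 := S_of_chk [] trivial (node 396 (merge (node 492 (merge (node 524 (merge (leaf 4 428 557) (node 523 (merge (leaf 5 395 491) (leaf 5 427 555))))) (merge (node 395 (merge (leaf 7 363 363) (node 524 (merge (leaf 7 395 427) (leaf 4 428 557))))) (node 363 (merge (leaf 7 363 395) (node 364 (merge (leaf 7 331 331) (node 491 (merge (leaf 5 363 459) (leaf 5 395 523)))))))))) (merge (node 492 (merge (node 524 (merge (leaf 4 428 557) (node 523 (merge (leaf 5 395 491) (leaf 5 427 555))))) (node 363 (merge (leaf 7 363 395) (node 364 (merge (leaf 7 331 331) (node 333 (merge (leaf 6 332 365) (node 332 (merge (leaf 6 300 301) (leaf 4 332 429))))))))))) (merge (node 492 (merge (node 524 (merge (leaf 4 428 557) (node 523 (merge (leaf 5 395 491) (leaf 5 427 555))))) (merge (node 524 (merge (leaf 4 428 557) (node 556 (merge (leaf 6 428 429) (node 427 (merge (leaf 7 395 395) (leaf 7 427 459))))))) (node 491 (merge (leaf 5 395 523) (node 364 (merge (leaf 5 363 459) (node 333 (merge (leaf 6 332 365) (node 332 (merge (leaf 6 300 301) (leaf 4 332 429))))))))))))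 (merge (node 492 (merge (node 395 (merge (leaf 7 363 363) (node 524 (merge (leaf 7 395 427) (leaf 4 428 557))))) (merge (node 363 (merge (leaf 7 363 395) (node 364 (merge (leaf 7 331 331) (node 333 (merge (leaf 6 332 365) (node 332 (merge (leaf 6 300 301) (leaf 4 332 429))))))))) (node 524 (merge (leaf 4 428 557) (node 556 (merge (leaf 6 428 429) (node 459 (merge (leaf 7 427 427) (node 491 (merge (leaf 5 363 364) (leaf 7 459 588)))))))))))) (merge (node 492 (merge (node 395 (merge (leaf 7 363 363) (node 524 (merge (leaf 7 395 427) (leaf 4 428 557))))) (merge (node 524 (merge (leaf 4 428 557) (node 556 (merge (leaf 6 428 429) (node 555 (merge (leaf 5 427 523) (leaf 5 459 587))))))) (node 363 (merge (leaf 7 363 395) (node 364 (merge (leaf 7 331 331) (node 333 (merge (leaf 6 332 365) (node 332 (merge (leaf 6 300 301) (leaf 4 332 429)))))))))))) (merge (node 492 (merge (node 524 (merge (leaf 4 428 557) (node 523 (merge (leaf 5 395 491) (leaf 5 427 555))))) (merge (node 491 (merge (leaf 5 395 523) (node 364 (merge (leaf 5 363 459) (node 331 (merge (leaf 7 331 363) (node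 332 (merge (leaf 7 299 299) (leaf 4 332 429))))))))) (merge (node 524 (merge (leaf 4 428 557) (node 556 (merge (leaf 6 428 429) (node 555 (merge (leaf 5 427 523) (leaf 5 459 587))))))) (node 524 (merge (leaf 4 428 557) (node 556 (merge (leaf 6 428 429) (node 459 (merge (leaf 7 427 427) (node 491 (merge (leaf 5 363 364) (leaf 7 459 588))))))))))))) (merge (node 431 (merge (node 495 (merge (leaf 4 431 527) (node 399 (merge (leaf 4 399 496) (node 368 (merge (leaf 6 367 400) (node 367 (merge (leaf 6 335 336) (node 366 (merge (leaf 7 334 334) (leaf 7 366 398))))))))))) (node 459 (merge (node 491 (merge (leaf 5 363 364) (node 523 (merge (leaf 6 395 427) (leaf 6 427 555))))) (merge (node 429 (merge (leaf 1 427 430) (node 364 (merge (leaf 4 332 332) (leaf 5 363 491))))) (merge (node 491 (merge (node 523 (merge (leaf 6 395 427) (leaf 6 427 555))) (merge (node 429 (merge (leaf 1 427 430) (node 458 (merge (leaf 2 425 457) (node 490 (merge (leaf 1 457 489) (node 426 (merge (leaf 3 425 425) (node 394 (merge (leaf 4 362 362) (node 393 (merge (leaf 7 361 361) (leaf 3 393 427)))))))))))))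 (node 523 (merge (leaf 6 427 555) (node 429 (merge (leaf 1 427 430) (node 458 (merge (leaf 2 425 457) (node 490 (merge (leaf 1 457 489) (node 426 (merge (leaf 4 394 394) (leaf 3 425 425)))))))))))))) (node 363 (merge (node 364 (merge (leaf 7 331 331) (node 429 (merge (leaf 4 332 332) (leaf 1 427 430))))) (merge (node 331 (merge (leaf 7 331 364) (node 395 (merge (leaf 4 299 299) (leaf 4 331 427))))) (node 429 (merge (leaf 1 427 430) (node 458 (merge (leaf 2 425 457) (node 490 (merge (leaf 1 457 489) (node 426 (merge (leaf 3 425 425) (node 395 (merge (leaf 6 362 394) (leaf 5 362 427)))))))))))))))))))) (node 459 (merge (node 458 (merge (node 429 (merge (leaf 2 426 430) (leaf 2 425 457))) (merge (node 489 (merge (leaf 1 457 490) (node 457 (merge (leaf 1 456 488) (node 425 (merge (leaf 3 424 424) (leaf 3 425 426))))))) (node 490 (merge (leaf 1 457 489) (node 395 (merge (node 363 (merge (leaf 5 362 427) (leaf 7 363 492))) (merge (node 363 (merge (leaf 7 363 492) (node 426 (merge (leaf 6 362 394) (leaf 3 425 425))))) (node 426 (merge (leaf 3 425 425) (node 522 (merge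 (leaf 6 394 427) (node 555 (merge (leaf 4 426 523) (node 554 (merge (leaf 4 458 587) (node 553 (merge (leaf 5 425 521) (leaf 5 457 585))))))))))))))))))) (merge (node 395 (merge (node 492 (merge (leaf 7 363 363) (node 524 (merge (leaf 7 395 427) (leaf 4 428 557))))) (merge (node 492 (merge (leaf 7 363 363) (node 524 (merge (leaf 4 428 557) (node 523 (merge (leaf 5 395 491) (leaf 5 427 555))))))) (merge (node 492 (merge (node 524 (merge (leaf 7 395 427) (leaf 4 428 557))) (merge (node 524 (merge (leaf 4 428 557) (node 523 (merge (leaf 5 395 491) (leaf 5 427 555))))) (node 491 (merge (leaf 5 395 523) (node 490 (merge (leaf 2 457 489) (node 427 (merge (leaf 5 394 522) (node 425 (merge (leaf 0 425 426) (node 394 (merge (leaf 7 362 362) (node 393 (merge (leaf 0 392 392) (leaf 1 392 424)))))))))))))))) (node 427 (merge (node 491 (merge (leaf 6 395 523) (node 490 (merge (leaf 5 394 522) (node 489 (merge (leaf 1 457 458) (leaf 2 456 488))))))) (merge (node 363 (merge (leaf 4 331 331) (node 362 (merge (leaf 7 330 330) (node 491 (merge (leaf 7 362 394) (node 523 (merge (leaf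 6 395 396) (leaf 6 427 555))))))))) (node 425 (merge (leaf 0 425 426) (node 363 (merge (leaf 4 331 331) (node 458 (merge (leaf 5 362 490) (node 457 (merge (leaf 3 424 424) (leaf 2 424 456)))))))))))))))) (merge (node 431 (merge (node 495 (merge (leaf 4 431 527) (node 399 (merge (leaf 4 399 496) (node 368 (merge (leaf 6 367 400) (node 367 (merge (leaf 6 335 336) (node 366 (merge (leaf 7 334 334) (leaf 7 366 398))))))))))) (node 492 (merge (node 524 (merge (leaf 4 428 557) (node 523 (merge (leaf 5 395 491) (leaf 5 427 555))))) (merge (node 395 (merge (leaf 7 363 363) (node 524 (merge (leaf 7 395 427) (leaf 4 428 557))))) (node 395 (merge (leaf 7 363 363) (node 429 (merge (leaf 1 427 430) (node 394 (merge (leaf 0 393 393) (node 491 (merge (leaf 5 395 523) (node 427 (merge (leaf 7 362 362) (node 490 (merge (leaf 2 457 489) (leaf 5 394 522)))))))))))))))))) (merge (node 431 (merge (node 495 (merge (leaf 4 431 527) (node 399 (merge (leaf 4 399 496) (node 368 (merge (leaf 6 367 400) (node 367 (merge (leaf 6 335 336) (node 366 (merge (leaf 7 334 334) (leaf 7 366 398)))))))))))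 (node 491 (merge (node 523 (merge (leaf 5 395 492) (leaf 6 427 555))) (node 429 (merge (leaf 1 427 430) (node 458 (merge (leaf 2 425 457) (node 426 (merge (leaf 3 425 425) (node 394 (merge (leaf 4 362 362) (node 393 (merge (leaf 0 393 395) (leaf 3 393 427))))))))))))))) (merge (node 431 (merge (node 495 (merge (leaf 4 431 527) (node 399 (merge (leaf 4 399 496) (node 368 (merge (leaf 6 367 400) (node 367 (merge (leaf 6 335 336) (node 366 (merge (leaf 7 334 334) (leaf 7 366 398))))))))))) (node 492 (merge (node 524 (merge (leaf 4 428 557) (node 523 (merge (leaf 5 395 491) (leaf 5 427 555))))) (merge (node 395 (merge (leaf 7 363 363) (node 524 (merge (leaf 7 395 427) (leaf 4 428 557))))) (node 395 (merge (leaf 7 363 363) (node 429 (merge (leaf 1 427 430) (node 458 (merge (leaf 2 425 457) (node 490 (merge (leaf 1 457 489) (node 426 (merge (leaf 3 425 425) (node 522 (merge (leaf 6 394 427) (node 491 (merge (leaf 5 395 523) (node 554 (merge (leaf 6 458 586) (node 553 (merge (leaf 5 425 521) (leaf 5 457 585)))))))))))))))))))))))) (merge (node 431 (merge (node 495 (merge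 (leaf 4 431 527) (node 399 (merge (leaf 4 399 496) (node 368 (merge (leaf 6 367 400) (node 367 (merge (leaf 6 335 336) (node 366 (merge (leaf 7 334 334) (leaf 7 366 398))))))))))) (node 491 (merge (node 523 (merge (leaf 6 395 427) (leaf 6 427 555))) (merge (node 429 (merge (leaf 1 427 430) (node 458 (merge (leaf 2 425 457) (node 490 (merge (leaf 1 457 489) (node 426 (merge (leaf 3 425 425) (node 394 (merge (leaf 4 362 362) (node 393 (merge (leaf 7 361 361) (leaf 3 393 427))))))))))))) (node 523 (merge (leaf 6 427 555) (node 429 (merge (leaf 1 427 430) (node 458 (merge (leaf 2 425 457) (node 490 (merge (leaf 1 457 489) (node 426 (merge (leaf 4 394 394) (leaf 3 425 425)))))))))))))))) (merge (node 431 (merge (node 495 (merge (leaf 4 431 527) (node 399 (merge (leaf 4 399 496) (node 368 (merge (leaf 6 367 400) (node 367 (merge (leaf 6 335 336) (node 366 (merge (leaf 7 334 334) (leaf 7 366 398))))))))))) (node 492 (merge (node 524 (merge (leaf 4 428 557) (node 523 (merge (leaf 5 395 491) (leaf 5 427 555))))) (merge (node 429 (merge (leaf 1 427 430) (node 524 (merge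 (leaf 6 428 556) (leaf 4 428 557))))) (node 429 (merge (leaf 1 427 430) (node 458 (merge (leaf 2 425 457) (node 490 (merge (leaf 1 457 489) (node 426 (merge (leaf 3 425 425) (node 491 (merge (leaf 5 395 523) (node 394 (merge (leaf 4 362 362) (node 393 (merge (leaf 7 361 361) (leaf 0 393 395)))))))))))))))))))) (node 427 (merge (node 458 (merge (node 457 (merge (leaf 2 425 429) (leaf 2 424 456))) (node 490 (merge (leaf 1 457 489) (node 522 (merge (leaf 6 426 554) (node 395 (merge (leaf 6 394 426) (leaf 5 394 491))))))))) (merge (node 458 (merge (node 489 (merge (leaf 1 457 490) (node 457 (merge (leaf 2 424 456) (leaf 1 456 488))))) (merge (node 425 (merge (leaf 0 425 426) (node 457 (merge (leaf 3 424 424) (leaf 2 424 456))))) (node 490 (merge (leaf 1 457 489) (node 426 (merge (leaf 3 425 425) (node 395 (merge (leaf 5 362 363) (leaf 6 394 522)))))))))) (merge (node 458 (merge (node 490 (merge (leaf 1 457 489) (node 522 (merge (leaf 6 426 554) (node 395 (merge (leaf 5 362 363) (leaf 5 394 491))))))) (merge (node 429 (merge (leaf 2 426 430) (node 457 (merge (leaf 2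 425 428) (node 488 (merge (leaf 1 456 489) (node 456 (merge (leaf 1 455 487) (node 424 (merge (leaf 3 423 423) (leaf 3 424 425))))))))))) (node 429 (merge (leaf 2 426 430) (node 457 (merge (leaf 2 425 428) (node 424 (merge (leaf 3 424 425) (node 456 (merge (leaf 3 423 423) (node 491 (merge (leaf 0 456 492) (node 455 (merge (leaf 0 455 490) (node 487 (merge (leaf 1 454 486) (leaf 1 455 488)))))))))))))))))) (merge (node 429 (merge (node 426 (merge (leaf 0 425 425) (node 394 (merge (leaf 3 393 393) (node 362 (merge (leaf 4 330 330) (node 395 (merge (leaf 7 362 491) (node 363 (merge (leaf 4 331 331) (leaf 4 363 492))))))))))) (node 431 (merge (leaf 1 427 430) (node 495 (merge (leaf 4 431 527) (node 399 (merge (leaf 4 399 496) (node 368 (merge (leaf 6 367 400) (node 367 (merge (leaf 6 335 336) (node 366 (merge (leaf 7 334 334) (leaf 7 366 398))))))))))))))) (node 429 (merge (node 426 (merge (leaf 0 425 425) (node 458 (merge (leaf 1 425 457) (node 394 (merge (leaf 3 393 393) (node 362 (merge (leaf 4 330 330) (leaf 4 362 491))))))))) (node 431 (merge (leaf 1 427 430)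 (node 495 (merge (leaf 4 431 527) (node 399 (merge (leaf 4 399 496) (node 368 (merge (leaf 6 367 400) (node 367 (merge (leaf 6 335 336) (node 366 (merge (leaf 7 334 334) (leaf 7 366 398)))))))))))))))))))))))))))))))))))) nP_334 cP_334 14 (by decide +kernel)
def nP_335 : ℕ := 0x1000000010000000000000000b8000000100000000000000000000000000000000000000000000000000000000000000000000000000000000000000000000000000000000000
def cP_335 : ℕ := 0x8000000880000018800000002000001ef000001ff800001ff0000017c0000000400000000000000000000000000000000000000000000000000000000000000000000000000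
theorem lP_335 : S nP_335 cP_335 12 := S_of_chk [] trivial (node 427 (merge (node 394 (merge (node 426 (merge (leaf 0 425 425) (node 491 (merge (leaf 7 394 523) (node 362 (merge (leaf 4 330 330) (leaf 7 362 395))))))) (merge (node 426 (merge (leaf 0 425 425) (node 393 (merge (leaf 3 393 429) (node 392 (merge (leaf 0 391 391) (leaf 0 392 395))))))) (merge (node 395 (merge (node 491 (merge (leaf 7 362 362) (node 523 (merge (leaf 6 395 396) (leaf 6 427 555))))) (merge (node 393 (merge (leaf 0 392 392) (node 429 (merge (leaf 0 393 396) (leaf 3 394 430))))) (node 363 (merge (leaf 4 331 331) (node 364 (merge (leaf 6 331 332) (node 362 (merge (leaf 7 330 330) (node 394 (merge (leaf 7 362 491) (node 393 (merge (leaf 1 361 365) (leaf 0 392 392)))))))))))))) (node 364 (merge (node 396 (merge (leaf 5 331 332) (leaf 5 363 491))) (node 426 (merge (leaf 0 425 425) (node 393 (merge (leaf 3 393 429) (node 392 (merge (leaf 0 391 391) (node 362 (merge (leaf 4 330 330) (node 363 (merge (leaf 1 360 361) (leaf 1 361 365))))))))))))))))) (merge (node 429 (merge (node 426 (merge (leaf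 0 425 425) (node 394 (merge (leaf 3 393 393) (node 491 (merge (leaf 7 394 523) (node 362 (merge (leaf 4 330 330) (leaf 7 362 395))))))))) (node 431 (merge (leaf 1 427 430) (node 495 (merge (leaf 4 431 527) (node 399 (merge (leaf 4 399 496) (node 368 (merge (leaf 6 367 400) (node 367 (merge (leaf 6 335 336) (node 366 (merge (leaf 7 334 334) (leaf 7 366 398))))))))))))))) (merge (node 429 (merge (node 426 (merge (leaf 0 425 425) (node 430 (merge (leaf 1 427 431) (node 398 (merge (leaf 2 394 397) (leaf 2 395 399))))))) (merge (node 431 (merge (leaf 1 427 430) (node 495 (merge (leaf 4 431 527) (node 399 (merge (leaf 4 399 496) (node 368 (merge (leaf 6 367 400) (node 367 (merge (leaf 6 335 336) (node 366 (merge (leaf 7 334 334) (leaf 7 366 398))))))))))))) (merge (node 426 (merge (leaf 0 425 425) (node 397 (merge (leaf 2 394 398) (node 365 (merge (leaf 5 332 333) (node 366 (merge (leaf 6 333 334) (node 364 (merge (leaf 7 332 332) (node 396 (merge (leaf 5 363 491) (node 367 (merge (leaf 1 364 368) (leaf 1 363 395))))))))))))))) (node 365 (merge (node 364 (merge (node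 396 (merge (leaf 4 332 332) (leaf 6 332 333))) (merge (node 397 (merge (leaf 7 332 332) (leaf 5 332 333))) (merge (node 333 (merge (leaf 6 332 396) (leaf 5 332 397))) (node 332 (merge (leaf 4 332 396) (leaf 7 332 397))))))) (merge (node 431 (merge (leaf 1 427 430) (node 495 (merge (leaf 4 431 527) (node 399 (merge (leaf 4 399 496) (node 368 (merge (leaf 6 367 400) (node 367 (merge (leaf 6 335 336) (node 366 (merge (leaf 7 334 334) (node 333 (merge (leaf 3 332 332) (leaf 5 332 397))))))))))))))) (merge (node 431 (merge (leaf 1 427 430) (node 495 (merge (leaf 4 431 527) (node 399 (merge (leaf 4 399 496) (node 368 (merge (leaf 6 367 400) (node 367 (merge (leaf 6 335 336) (node 366 (merge (leaf 7 334 334) (node 397 (merge (leaf 5 332 333) (leaf 1 364 396))))))))))))))) (merge (node 431 (merge (leaf 1 427 430) (node 495 (merge (leaf 4 431 527) (node 399 (merge (leaf 4 399 496) (node 368 (merge (leaf 6 367 400) (node 367 (merge (leaf 6 335 336) (node 366 (merge (leaf 7 334 334) (node 396 (merge (leaf 1 364 397) (node 364 (merge (leaf 4 332 332) (leaf 1 363 395)))))))))))))))))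 (node 431 (merge (leaf 1 427 430) (node 495 (merge (leaf 4 431 527) (node 399 (merge (leaf 4 399 496) (node 368 (merge (leaf 6 367 400) (node 367 (merge (leaf 6 335 336) (node 366 (merge (leaf 7 334 334) (node 332 (merge (leaf 3 332 333) (node 364 (merge (leaf 3 331 331) (leaf 4 332 396)))))))))))))))))))))))))) (merge (node 429 (merge (node 426 (merge (leaf 0 425 425) (node 397 (merge (leaf 2 394 398) (node 365 (merge (leaf 5 332 333) (node 364 (merge (leaf 7 332 332) (node 491 (merge (leaf 5 363 396) (node 523 (merge (leaf 7 394 394) (leaf 6 427 555))))))))))))) (merge (node 431 (merge (leaf 1 427 430) (node 495 (merge (leaf 4 431 527) (node 399 (merge (leaf 4 399 496) (node 368 (merge (leaf 6 367 400) (node 367 (merge (leaf 6 335 336) (node 366 (merge (leaf 7 334 334) (leaf 7 366 398))))))))))))) (node 431 (merge (leaf 1 427 430) (node 365 (merge (node 426 (merge (leaf 0 425 425) (node 394 (merge (leaf 3 393 393) (node 491 (merge (leaf 7 394 523) (node 397 (merge (leaf 5 332 333) (node 364 (merge (leaf 7 332 332) (leaf 5 363 396))))))))))) (merge (node 495 (merge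 (leaf 4 431 527) (node 399 (merge (leaf 4 399 496) (node 400 (merge (leaf 6 367 368) (node 397 (merge (leaf 5 332 333) (node 366 (merge (leaf 6 333 334) (node 364 (merge (leaf 7 332 332) (leaf 0 364 367))))))))))))) (merge (node 495 (merge (leaf 4 431 527) (node 399 (merge (leaf 4 399 496) (node 368 (merge (leaf 6 367 400) (node 367 (merge (leaf 6 335 336) (node 366 (merge (leaf 7 334 334) (node 333 (merge (leaf 3 332 332) (leaf 5 332 397))))))))))))) (merge (node 495 (merge (leaf 4 431 527) (node 399 (merge (leaf 4 399 496) (node 368 (merge (leaf 6 367 400) (node 367 (merge (leaf 6 335 336) (node 366 (merge (leaf 7 334 334) (node 397 (merge (leaf 5 332 333) (leaf 1 364 396))))))))))))) (merge (node 495 (merge (leaf 4 431 527) (node 399 (merge (leaf 4 399 496) (node 368 (merge (leaf 6 367 400) (node 367 (merge (leaf 6 335 336) (node 366 (merge (leaf 7 334 334) (node 396 (merge (leaf 1 364 397) (node 364 (merge (leaf 4 332 332) (leaf 5 363 491))))))))))))))) (node 495 (merge (leaf 4 431 527) (node 399 (merge (leaf 4 399 496) (node 368 (merge (leaf 6 367 400) (node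 367 (merge (leaf 6 335 336) (node 366 (merge (leaf 7 334 334) (node 332 (merge (leaf 3 332 333) (node 364 (merge (leaf 3 331 331) (leaf 4 332 396)))))))))))))))))))))))))) (merge (node 395 (merge (node 363 (merge (leaf 4 331 331) (node 362 (merge (leaf 7 330 330) (node 491 (merge (leaf 7 362 394) (node 523 (merge (leaf 6 395 396) (leaf 6 427 555))))))))) (merge (node 363 (merge (leaf 4 331 331) (node 364 (merge (leaf 6 331 332) (node 396 (merge (leaf 6 363 491) (node 365 (merge (leaf 6 332 333) (node 366 (merge (leaf 1 363 367) (leaf 1 362 394))))))))))) (merge (node 396 (merge (node 491 (merge (leaf 5 363 364) (leaf 6 395 523))) (merge (node 491 (merge (leaf 6 395 523) (node 394 (merge (leaf 7 362 362) (node 393 (merge (leaf 0 392 392) (leaf 0 393 429))))))) (node 364 (merge (leaf 5 331 332) (node 365 (merge (leaf 6 332 333) (node 366 (merge (leaf 1 363 367) (node 394 (merge (leaf 2 361 393) (leaf 2 362 397)))))))))))) (merge (node 363 (merge (leaf 4 331 331) (node 364 (merge (leaf 6 331 332) (node 362 (merge (leaf 7 330 330) (node 394 (merge (leaf 7 362 491)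 (node 393 (merge (leaf 1 361 365) (leaf 0 392 392))))))))))) (merge (node 394 (merge (node 393 (merge (leaf 0 392 392) (node 429 (merge (leaf 0 393 396) (leaf 3 394 430))))) (merge (node 393 (merge (leaf 0 392 392) (node 363 (merge (leaf 4 331 331) (node 364 (merge (leaf 6 331 332) (node 365 (merge (leaf 1 361 362) (leaf 1 362 366))))))))) (node 429 (merge (leaf 3 394 430) (node 363 (merge (leaf 4 331 331) (node 364 (merge (leaf 6 331 332) (node 365 (merge (leaf 1 362 366) (node 333 (merge (leaf 6 332 396) (leaf 5 332 397)))))))))))))) (node 363 (merge (leaf 4 331 331) (node 364 (merge (leaf 6 331 332) (node 396 (merge (leaf 6 363 491) (node 362 (merge (leaf 7 330 330) (node 361 (merge (leaf 0 360 360) (leaf 0 361 397))))))))))))))))) (merge (node 429 (merge (node 426 (merge (leaf 0 425 425) (node 430 (merge (leaf 1 427 431) (node 398 (merge (leaf 2 394 397) (leaf 2 395 399))))))) (merge (node 426 (merge (leaf 0 425 425) (node 394 (merge (leaf 3 393 393) (node 430 (merge (leaf 3 394 395) (node 431 (merge (leaf 1 428 432) (leaf 1 427 459))))))))) (merge (node 431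 (merge (node 430 (merge (leaf 1 427 460) (node 395 (merge (leaf 3 394 394) (leaf 3 395 396))))) (merge (node 430 (merge (leaf 1 427 460) (node 399 (merge (leaf 2 395 398) (leaf 2 396 400))))) (node 495 (merge (leaf 4 431 527) (node 399 (merge (leaf 4 399 496) (node 398 (merge (leaf 7 366 366) (node 397 (merge (leaf 1 395 396) (leaf 1 396 400)))))))))))) (node 426 (merge (leaf 0 425 425) (node 397 (merge (leaf 2 394 398) (node 394 (merge (leaf 3 393 393) (node 365 (merge (leaf 5 332 333) (node 366 (merge (leaf 6 333 334) (node 364 (merge (leaf 7 332 332) (node 395 (merge (leaf 1 362 363) (leaf 2 362 396))))))))))))))))))) (node 395 (merge (node 363 (merge (leaf 4 331 331) (node 362 (merge (leaf 7 330 330) (node 491 (merge (leaf 7 362 394) (node 523 (merge (leaf 6 395 396) (leaf 6 427 555))))))))) (merge (node 426 (merge (leaf 0 425 425) (node 363 (merge (leaf 4 331 331) (node 364 (merge (leaf 6 331 332) (node 491 (merge (leaf 6 363 396) (node 523 (merge (leaf 7 394 394) (leaf 6 427 555))))))))))) (merge (node 363 (merge (leaf 4 331 331) (node 364 (merge (leaf 6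 331 332) (node 362 (merge (leaf 7 330 330) (node 394 (merge (leaf 7 362 491) (node 393 (merge (leaf 1 361 365) (leaf 0 392 392))))))))))) (merge (node 363 (merge (leaf 4 331 331) (node 364 (merge (leaf 6 331 332) (node 396 (merge (leaf 6 363 491) (node 362 (merge (leaf 7 330 330) (node 361 (merge (leaf 0 360 360) (leaf 0 361 397))))))))))) (merge (node 396 (merge (node 491 (merge (leaf 5 363 364) (leaf 6 395 523))) (node 394 (merge (node 393 (merge (leaf 0 392 392) (node 425 (merge (leaf 1 392 424) (leaf 0 425 426))))) (merge (node 426 (merge (leaf 0 425 425) (node 397 (merge (leaf 1 394 398) (node 362 (merge (leaf 3 361 361) (node 330 (merge (leaf 4 298 298) (leaf 4 330 459))))))))) (merge (node 393 (merge (leaf 0 392 392) (node 425 (merge (leaf 1 392 424) (node 361 (merge (leaf 3 360 360) (node 362 (merge (leaf 3 361 397) (node 330 (merge (leaf 4 298 298) (leaf 6 329 457))))))))))) (node 393 (merge (leaf 0 392 392) (node 361 (merge (leaf 3 360 360) (node 397 (merge (leaf 3 361 362) (node 398 (merge (leaf 1 395 399) (leaf 1 394 426))))))))))))))) (node 396 (merge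 (node 363 (merge (leaf 4 331 331) (node 364 (merge (leaf 6 331 332) (node 362 (merge (leaf 7 330 330) (node 361 (merge (leaf 0 360 360) (leaf 0 361 397))))))))) (merge (node 363 (merge (leaf 4 331 331) (node 364 (merge (leaf 6 331 332) (node 365 (merge (leaf 6 332 333) (node 366 (merge (leaf 1 363 367) (leaf 1 362 394))))))))) (node 394 (merge (node 393 (merge (leaf 0 392 392) (node 425 (merge (leaf 1 392 424) (leaf 0 425 426))))) (merge (node 426 (merge (leaf 0 425 425) (node 397 (merge (leaf 1 394 398) (node 362 (merge (leaf 3 361 361) (node 330 (merge (leaf 4 298 298) (leaf 4 330 459))))))))) (merge (node 393 (merge (leaf 0 392 392) (node 425 (merge (leaf 1 392 424) (node 361 (merge (leaf 3 360 360) (node 362 (merge (leaf 3 361 397) (node 330 (merge (leaf 4 298 298) (leaf 6 329 457))))))))))) (node 393 (merge (leaf 0 392 392) (node 361 (merge (leaf 3 360 360) (node 397 (merge (leaf 3 361 362) (node 398 (merge (leaf 1 395 399) (leaf 1 394 426))))))))))))))))))))))))))))) nP_335 cP_335 12 (by decide +kernel)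
def nP_336 : ℕ := 0x1000000010000000000000000b8000000100000000000000010000000000000000000000000000000000000000000000000000000000000000000000000000000000000000000
def cP_336 : ℕ := 0x800000018000000004000001e8000007ef000003ee000003ff0000000000000000000000000000000000000000000000000000000000000000000000000000000000
theorem lP_336 : S nP_336 cP_336 10 := S_of_chk [] trivial (node 365 (merge (node 429 (merge (node 397 (merge (leaf 7 332 332) (leaf 5 332 333))) (node 430 (merge (leaf 1 427 431) (leaf 2 426 458))))) (merge (node 363 (merge (node 362 (merge (node 397 (merge (leaf 0 362 398) (node 333 (merge (leaf 2 330 334) (leaf 5 332 429))))) (node 393 (merge (leaf 1 361 394) (node 361 (merge (leaf 1 360 392) (node 329 (merge (leaf 3 328 328) (leaf 3 329 330))))))))) (merge (node 366 (merge (node 395 (merge (leaf 1 362 394) (node 331 (merge (leaf 3 330 330) (leaf 4 331 427))))) (node 399 (merge (leaf 0 363 398) (node 367 (merge (leaf 0 364 400) (node 335 (merge (leaf 2 331 334) (leaf 2 332 336))))))))) (merge (node 366 (merge (node 398 (merge (leaf 0 363 399) (node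 362 (merge (leaf 0 362 397) (node 394 (merge (leaf 1 361 393) (leaf 1 362 395))))))) (merge (node 399 (merge (leaf 0 363 398) (node 367 (merge (leaf 0 364 400) (node 335 (merge (leaf 2 331 334) (leaf 2 332 336))))))) (node 394 (merge (leaf 1 362 395) (node 362 (merge (leaf 1 361 393) (node 334 (merge (leaf 2 330 333) (leaf 2 331 335)))))))))) (merge (node 366 (merge (node 399 (merge (leaf 0 363 398) (node 367 (merge (leaf 0 364 400) (node 331 (merge (leaf 3 330 330) (leaf 3 331 332))))))) (merge (node 399 (merge (leaf 0 363 398) (node 367 (merge (leaf 0 364 400) (node 335 (merge (leaf 2 331 334) (leaf 2 332 336))))))) (merge (node 335 (merge (leaf 2 331 334) (node 367 (merge (leaf 2 332 336) (node 331 (merge (leaf 3 330 330) (leaf 3 331 332))))))) (node 398 (merge (leaf 0 363 399) (node 362 (merge (leaf 0 362 397) (node 334 (merge (leaf 2 330 333) (leaf 2 331 335))))))))))) (merge (node 366 (merge (node 395 (merge (leaf 1 362 394) (node 331 (merge (leaf 3 330 330) (leaf 4 331 427))))) (merge (node 399 (merge (leaf 0 363 398) (node 367 (merge (leaf 0 364 400) (node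 331 (merge (leaf 3 330 330) (leaf 3 331 332))))))) (node 398 (merge (leaf 0 363 399) (node 362 (merge (leaf 0 362 397) (node 394 (merge (leaf 1 361 393) (leaf 1 362 395)))))))))) (node 366 (merge (node 395 (merge (leaf 1 362 394) (node 331 (merge (leaf 3 330 330) (leaf 4 331 427))))) (merge (node 335 (merge (leaf 2 331 334) (node 367 (merge (leaf 2 332 336) (node 331 (merge (leaf 3 330 330) (leaf 3 331 332))))))) (node 394 (merge (leaf 1 362 395) (node 362 (merge (leaf 1 361 393) (node 334 (merge (leaf 2 330 333) (leaf 2 331 335)))))))))))))))) (merge (node 366 (merge (node 429 (merge (node 397 (merge (leaf 5 332 333) (leaf 6 333 334))) (node 430 (merge (leaf 1 427 431) (leaf 2 426 458))))) (merge (node 363 (merge (node 395 (merge (leaf 1 362 394) (node 331 (merge (leaf 3 330 330) (leaf 4 331 427))))) (node 399 (merge (leaf 0 363 398) (node 367 (merge (leaf 0 364 400) (node 335 (merge (leaf 2 331 334) (leaf 2 332 336))))))))) (node 399 (merge (node 367 (merge (leaf 0 364 400) (node 336 (merge (leaf 2 332 335) (node 368 (merge (leaf 2 333 337) (leaf 6 335 431)))))))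 (node 363 (merge (leaf 0 363 398) (node 394 (merge (leaf 1 362 395) (node 362 (merge (leaf 1 361 393) (node 330 (merge (leaf 3 329 329) (leaf 3 330 331)))))))))))))) (merge (node 366 (merge (node 367 (merge (node 399 (merge (leaf 0 364 400) (node 336 (merge (leaf 2 332 335) (node 368 (merge (leaf 2 333 337) (leaf 6 335 431))))))) (merge (node 336 (merge (leaf 2 332 335) (node 368 (merge (leaf 2 333 337) (node 332 (merge (leaf 3 331 331) (leaf 3 332 333))))))) (node 399 (merge (leaf 0 364 400) (node 431 (merge (leaf 7 334 334) (node 495 (merge (leaf 4 399 496) (leaf 4 431 527)))))))))) (merge (node 363 (merge (node 395 (merge (leaf 1 362 394) (node 331 (merge (leaf 3 330 330) (leaf 4 331 427))))) (merge (node 398 (merge (leaf 0 363 399) (node 362 (merge (leaf 0 362 397) (node 394 (merge (leaf 1 361 393) (leaf 1 362 395))))))) (node 398 (merge (leaf 0 363 399) (node 362 (merge (leaf 0 362 397) (node 334 (merge (leaf 2 330 333) (leaf 2 331 335)))))))))) (merge (node 363 (merge (node 395 (merge (leaf 1 362 394) (node 331 (merge (leaf 3 330 330) (leaf 4 331 427)))))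 (merge (node 399 (merge (leaf 0 363 398) (node 367 (merge (leaf 0 364 400) (node 331 (merge (leaf 3 330 330) (leaf 3 331 332))))))) (node 398 (merge (leaf 0 363 399) (node 362 (merge (leaf 0 362 397) (node 394 (merge (leaf 1 361 393) (leaf 1 362 395)))))))))) (merge (node 363 (merge (node 395 (merge (leaf 1 362 394) (node 331 (merge (leaf 3 330 330) (leaf 4 331 427))))) (merge (node 335 (merge (leaf 2 331 334) (node 367 (merge (leaf 2 332 336) (node 331 (merge (leaf 3 330 330) (leaf 3 331 332))))))) (node 394 (merge (leaf 1 362 395) (node 362 (merge (leaf 1 361 393) (node 334 (merge (leaf 2 330 333) (leaf 2 331 335)))))))))) (node 363 (merge (node 399 (merge (leaf 0 363 398) (node 367 (merge (leaf 0 364 400) (node 335 (merge (leaf 2 331 334) (leaf 2 332 336))))))) (merge (node 394 (merge (leaf 1 362 395) (node 362 (merge (leaf 1 361 393) (node 334 (merge (leaf 2 330 333) (leaf 2 331 335))))))) (merge (node 399 (merge (leaf 0 363 398) (node 367 (merge (leaf 0 364 400) (node 334 (merge (leaf 7 334 431) (node 394 (merge (leaf 1 362 395) (node 362 (merge (leaf 2 330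 333) (leaf 1 361 393))))))))))) (node 399 (merge (leaf 0 363 398) (node 367 (merge (leaf 0 364 400) (node 336 (merge (leaf 2 332 335) (node 368 (merge (leaf 2 333 337) (leaf 6 335 431)))))))))))))))))) (merge (node 366 (merge (node 367 (merge (node 399 (merge (leaf 0 364 400) (node 336 (merge (leaf 2 332 335) (node 368 (merge (leaf 2 333 337) (leaf 6 335 431))))))) (merge (node 336 (merge (leaf 2 332 335) (node 368 (merge (leaf 2 333 337) (node 332 (merge (leaf 3 331 331) (leaf 3 332 333))))))) (node 399 (merge (leaf 0 364 400) (node 431 (merge (leaf 7 334 334) (node 495 (merge (leaf 4 399 496) (leaf 4 431 527)))))))))) (merge (node 363 (merge (node 395 (merge (leaf 1 362 394) (node 331 (merge (leaf 3 330 330) (leaf 4 331 427))))) (merge (node 335 (merge (leaf 2 331 334) (node 367 (merge (leaf 2 332 336) (node 331 (merge (leaf 3 330 330) (leaf 3 331 332))))))) (node 394 (merge (leaf 1 362 395) (node 362 (merge (leaf 1 361 393) (node 334 (merge (leaf 2 330 333) (leaf 2 331 335)))))))))) (merge (node 363 (merge (node 395 (merge (leaf 1 362 394) (node 331 (merge (leaf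 3 330 330) (leaf 4 331 427))))) (merge (node 399 (merge (leaf 0 363 398) (node 367 (merge (leaf 0 364 400) (node 331 (merge (leaf 3 330 330) (leaf 3 331 332))))))) (node 399 (merge (leaf 0 363 398) (node 367 (merge (leaf 0 364 400) (node 334 (merge (leaf 7 334 431) (node 394 (merge (leaf 1 362 395) (node 362 (merge (leaf 2 330 333) (leaf 1 361 393)))))))))))))) (merge (node 363 (merge (node 399 (merge (leaf 0 363 398) (node 367 (merge (leaf 0 364 400) (node 335 (merge (leaf 2 331 334) (leaf 2 332 336))))))) (merge (node 394 (merge (leaf 1 362 395) (node 362 (merge (leaf 1 361 393) (node 334 (merge (leaf 2 330 333) (leaf 2 331 335))))))) (merge (node 399 (merge (leaf 0 363 398) (node 367 (merge (leaf 0 364 400) (node 334 (merge (leaf 7 334 431) (node 394 (merge (leaf 1 362 395) (node 362 (merge (leaf 2 330 333) (leaf 1 361 393))))))))))) (node 399 (merge (leaf 0 363 398) (node 367 (merge (leaf 0 364 400) (node 336 (merge (leaf 2 332 335) (node 368 (merge (leaf 2 333 337) (leaf 6 335 431))))))))))))) (merge (node 363 (merge (node 395 (merge (leaf 1 362 394) (node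 331 (merge (leaf 3 330 330) (leaf 4 331 427))))) (merge (node 399 (merge (leaf 0 363 398) (node 367 (merge (leaf 0 364 400) (node 331 (merge (leaf 3 330 330) (leaf 3 331 332))))))) (node 399 (merge (leaf 0 363 398) (node 367 (merge (leaf 0 364 400) (node 336 (merge (leaf 2 332 335) (node 368 (merge (leaf 2 333 337) (leaf 6 335 431)))))))))))) (node 363 (merge (node 395 (merge (leaf 1 362 394) (node 331 (merge (leaf 3 330 330) (leaf 4 331 427))))) (merge (node 394 (merge (leaf 1 362 395) (node 362 (merge (leaf 1 361 393) (node 334 (merge (leaf 2 330 333) (leaf 2 331 335))))))) (node 398 (merge (leaf 0 363 399) (node 334 (merge (leaf 2 331 335) (node 430 (merge (leaf 5 333 429) (leaf 4 334 431)))))))))))))))) (node 366 (merge (node 363 (merge (node 395 (merge (leaf 1 362 394) (node 331 (merge (leaf 3 330 330) (leaf 4 331 427))))) (node 399 (merge (leaf 0 363 398) (node 367 (merge (leaf 0 364 400) (node 335 (merge (leaf 2 331 334) (leaf 2 332 336))))))))) (merge (node 363 (merge (node 395 (merge (leaf 1 362 394) (node 331 (merge (leaf 3 330 330) (leaf 4 331 427)))))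 (merge (node 399 (merge (leaf 0 363 398) (node 367 (merge (leaf 0 364 400) (node 331 (merge (leaf 3 330 330) (leaf 3 331 332))))))) (node 398 (merge (leaf 0 363 399) (node 362 (merge (leaf 0 362 397) (node 394 (merge (leaf 1 361 393) (leaf 1 362 395)))))))))) (merge (node 367 (merge (node 399 (merge (leaf 0 364 400) (node 398 (merge (leaf 0 363 363) (node 431 (merge (leaf 7 334 334) (leaf 7 366 495))))))) (merge (node 399 (merge (leaf 0 364 400) (node 336 (merge (leaf 2 332 335) (node 368 (merge (leaf 2 333 337) (leaf 6 335 431))))))) (merge (node 399 (merge (leaf 0 364 400) (node 363 (merge (leaf 0 363 398) (node 335 (merge (leaf 2 331 334) (leaf 2 332 336))))))) (node 335 (merge (leaf 2 332 336) (node 334 (merge (leaf 2 331 363) (node 429 (merge (leaf 6 333 397) (node 430 (merge (leaf 5 333 398) (node 431 (merge (leaf 1 428 432) (leaf 1 427 459))))))))))))))) (merge (node 363 (merge (node 395 (merge (leaf 1 362 394) (node 331 (merge (leaf 3 330 330) (leaf 4 331 427))))) (merge (node 335 (merge (leaf 2 331 334) (node 367 (merge (leaf 2 332 336) (node 331 (merge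 (leaf 3 330 330) (leaf 3 331 332))))))) (node 334 (merge (leaf 2 331 335) (node 429 (merge (leaf 6 333 397) (node 430 (merge (leaf 5 333 398) (node 431 (merge (leaf 1 428 432) (leaf 1 427 459)))))))))))) (merge (node 363 (merge (node 395 (merge (leaf 1 362 394) (node 331 (merge (leaf 3 330 330) (leaf 4 331 427))))) (merge (node 398 (merge (leaf 0 363 399) (node 362 (merge (leaf 0 362 397) (node 394 (merge (leaf 1 361 393) (leaf 1 362 395))))))) (node 398 (merge (leaf 0 363 399) (node 334 (merge (leaf 2 331 335) (node 430 (merge (leaf 5 333 429) (leaf 4 334 431)))))))))) (merge (node 334 (merge (node 335 (merge (leaf 2 331 363) (node 336 (merge (leaf 1 333 337) (leaf 2 332 367))))) (merge (node 363 (merge (leaf 2 331 335) (node 395 (merge (leaf 1 362 394) (node 331 (merge (leaf 3 330 330) (leaf 4 331 427))))))) (node 431 (merge (node 399 (merge (leaf 7 334 367) (node 495 (merge (leaf 4 399 496) (leaf 4 431 527))))) (node 429 (merge (leaf 6 333 397) (node 430 (merge (leaf 1 428 432) (node 459 (merge (leaf 1 427 428) (leaf 2 426 458)))))))))))) (node 367 (merge (node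 399 (merge (leaf 0 364 400) (node 336 (merge (leaf 2 332 335) (node 368 (merge (leaf 2 333 337) (leaf 6 335 431))))))) (merge (node 399 (merge (leaf 0 364 400) (node 431 (merge (leaf 7 334 334) (node 495 (merge (leaf 4 399 496) (leaf 4 431 527))))))) (merge (node 336 (merge (leaf 2 332 335) (node 368 (merge (leaf 2 333 337) (node 401 (merge (leaf 0 365 400) (node 369 (merge (leaf 0 366 402) (node 397 (merge (leaf 1 365 398) (node 332 (merge (leaf 3 331 331) (leaf 7 332 429))))))))))))) (node 336 (merge (leaf 2 332 335) (node 368 (merge (leaf 2 333 337) (node 431 (merge (leaf 6 335 399) (node 332 (merge (leaf 3 331 331) (node 429 (merge (leaf 7 332 397) (node 430 (merge (leaf 1 428 432) (leaf 1 427 459)))))))))))))))))))))))))))))) nP_336 cP_336 10 (by decide +kernel)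
def nP_337 : ℕ := 0x1000000012000000000000000b0000000100000000000000000000000000000000000000000000000000000000000000000000000000000000000000000000000000000000000
def cP_337 : ℕ := 0x20000007f0000009f0000018f0000000f800001ef000007ff800003ff000003ff0000002e00000000000000000000000000000000000000000000000000000000000000000000000000
theorem lP_337 : S nP_337 cP_337 13 := S_of_chk [(nP_335, cP_335, 12), (nP_336, cP_336, 10)] ⟨lP_335, lP_336, trivial⟩ (node 459 (merge (node 458 (merge (node 429 (merge (leaf 2 426 430) (leaf 2 425 457))) (node 426 (merge (leaf 3 425 425) (node 394 (merge (node 490 (merge (node 489 (merge (leaf 1 457 459) (leaf 5 393 521))) (node 363 (merge (leaf 6 362 395) (node 362 (merge (leaf 6 330 331) (node 361 (merge (leaf 7 329 329) (leaf 7 361 393))))))))) (merge (node 362 (merge (leaf 4 362 491) (node 331 (merge (leaf 6 330 363) (node 330 (merge (leaf 6 298 299) (node 329 (merge (leaf 7 297 297) (leaf 7 329 361))))))))) (node 490 (merge (leaf 1 457 489) (node 523 (merge (leaf 4 394 491) (node 522 (merge (leaf 4 426 555) (node 553 (merge (leaf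 5 425 521) (node 554 (merge (leaf 1 521 524) (leaf 5 457 585)))))))))))))))))) (merge (node 431 (merge (node 495 (merge (leaf 4 431 527) (node 399 (merge (leaf 4 399 496) (node 368 (merge (leaf 6 367 400) (node 367 (merge (leaf 6 335 336) (node 366 (merge (leaf 7 334 334) (leaf 7 366 398))))))))))) (node 491 (merge (node 523 (merge (leaf 6 427 555) (node 396 (merge (leaf 5 363 364) (leaf 6 395 427))))) (merge (node 429 (merge (leaf 1 427 430) (node 458 (merge (leaf 2 425 457) (node 490 (merge (leaf 1 457 489) (node 426 (merge (leaf 3 425 425) (node 394 (merge (leaf 4 362 362) (node 393 (merge (leaf 7 361 361) (leaf 3 393 427))))))))))))) (node 523 (merge (leaf 6 427 555) (node 429 (merge (leaf 1 427 430) (node 458 (merge (leaf 2 425 457) (node 426 (merge (leaf 3 425 425) (node 394 (merge (leaf 4 362 362) (leaf 4 394 490)))))))))))))))) (merge (node 429 (merge (node 430 (merge (leaf 2 426 458) (node 431 (merge (leaf 1 427 428) (leaf 1 428 432))))) (merge (node 431 (merge (node 430 (merge (leaf 1 428 432) (leaf 1 427 459))) (node 495 (merge (leaf 4 431 527) (node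 399 (merge (leaf 4 399 496) (node 400 (merge (leaf 6 367 368) (node 398 (merge (leaf 7 366 366) (leaf 1 396 397))))))))))) (node 397 (merge (node 458 (merge (leaf 2 425 457) (node 490 (merge (leaf 1 457 489) (node 426 (merge (leaf 3 425 425) (node 427 (merge (leaf 2 394 398) (node 522 (merge (leaf 6 394 395) (leaf 6 426 554))))))))))) (merge (node 398 (merge (node 399 (merge (leaf 1 396 400) (node 427 (merge (leaf 1 395 396) (leaf 2 394 426))))) (merge (node 399 (merge (leaf 1 396 400) (node 365 (merge (leaf 5 332 333) (node 364 (merge (leaf 7 332 332) (node 363 (merge (leaf 0 362 362) (leaf 0 363 366))))))))) (node 365 (merge (leaf 5 332 333) (node 366 (merge (leaf 6 333 334) (node 364 (merge (leaf 7 332 332) (node 363 (merge (leaf 0 362 362) (node 331 (merge (leaf 3 330 330) (leaf 7 331 396)))))))))))))) (merge (node 396 (merge (node 364 (merge (leaf 4 332 332) (node 363 (merge (leaf 7 331 331) (node 362 (merge (leaf 0 361 361) (node 398 (merge (leaf 3 362 395) (leaf 3 363 399))))))))) (merge (node 364 (merge (leaf 4 332 332) (node 365 (merge (leaf 6 332 333)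 (node 363 (merge (leaf 7 331 331) (node 362 (merge (leaf 0 361 361) (leaf 0 362 398))))))))) (merge (node 364 (merge (leaf 4 332 332) (node 365 (merge (leaf 6 332 333) (node 366 (merge (leaf 6 333 334) (node 367 (merge (leaf 1 364 368) (leaf 1 363 395))))))))) (node 365 (merge (leaf 5 332 333) (node 366 (merge (leaf 6 333 334) (node 367 (merge (leaf 1 364 368) (node 395 (merge (leaf 2 362 394) (leaf 2 363 398))))))))))))) (node 395 (merge (node 365 (merge (leaf 5 332 333) (node 366 (merge (leaf 6 333 334) (node 396 (merge (leaf 2 362 394) (node 367 (merge (leaf 1 363 364) (leaf 1 364 368))))))))) (node 458 (merge (leaf 2 425 457) (node 490 (merge (leaf 1 457 489) (node 427 (merge (leaf 5 362 363) (node 522 (merge (leaf 6 394 426) (leaf 6 426 554)))))))))))))))))) (merge (node 429 (merge (node 430 (merge (leaf 2 426 458) (node 431 (merge (leaf 1 427 428) (leaf 1 428 432))))) (merge (node 431 (merge (leaf 1 427 430) (node 495 (merge (leaf 4 431 527) (node 399 (merge (leaf 4 399 496) (node 368 (merge (leaf 6 367 400) (node 367 (merge (leaf 6 335 336) (node 366 (merge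 (leaf 7 334 334) (leaf 7 366 398))))))))))))) (node 427 (merge (node 426 (merge (leaf 0 425 425) (node 394 (merge (leaf 3 393 393) (node 491 (merge (leaf 7 394 523) (node 362 (merge (leaf 4 330 330) (leaf 4 362 458))))))))) (merge (node 426 (merge (leaf 0 425 425) (node 397 (merge (leaf 2 394 398) (node 365 (merge (leaf 5 332 333) (node 366 (merge (leaf 6 333 334) (node 364 (merge (leaf 7 332 332) (node 396 (merge (leaf 5 363 491) (node 367 (merge (leaf 1 364 368) (leaf 1 363 395))))))))))))))) (merge (node 426 (merge (leaf 0 425 425) (node 397 (merge (leaf 2 394 398) (node 394 (merge (leaf 3 393 393) (node 365 (merge (leaf 5 332 333) (node 366 (merge (leaf 6 333 334) (node 364 (merge (leaf 7 332 332) (node 395 (merge (leaf 1 362 363) (leaf 2 362 396))))))))))))))) (node 491 (merge (node 523 (merge (leaf 6 395 396) (leaf 6 427 555))) (merge (node 523 (merge (leaf 6 427 555) (node 524 (merge (leaf 4 427 556) (node 522 (merge (leaf 5 426 554) (node 490 (merge (leaf 5 394 395) (leaf 3 489 489))))))))) (node 490 (merge (node 489 (merge (leaf 1 457 458) (leaf 2 456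 488))) (node 395 (merge (leaf 5 394 522) (node 364 (merge (leaf 6 363 396) (node 363 (merge (leaf 6 331 332) (node 362 (merge (leaf 7 330 330) (leaf 7 362 394))))))))))))))))))))) (merge (node 427 (merge (node 458 (merge (node 489 (merge (leaf 1 457 490) (node 457 (merge (leaf 2 424 456) (leaf 1 456 488))))) (merge (node 425 (merge (leaf 0 425 426) (node 457 (merge (leaf 3 424 424) (leaf 2 424 456))))) (node 490 (merge (leaf 1 457 489) (node 426 (merge (leaf 3 425 425) (node 395 (merge (leaf 5 362 363) (leaf 6 394 522)))))))))) (merge (node 395 (merge (node 363 (merge (leaf 4 331 331) (node 362 (merge (leaf 7 330 330) (node 491 (merge (leaf 7 362 394) (node 523 (merge (leaf 6 395 396) (leaf 6 427 555))))))))) (merge (node 426 (merge (leaf 0 425 425) (node 363 (merge (leaf 4 331 331) (node 364 (merge (leaf 6 331 332) (node 491 (merge (leaf 6 363 396) (node 523 (merge (leaf 7 394 394) (leaf 6 427 555))))))))))) (merge (node 363 (merge (leaf 4 331 331) (node 364 (merge (leaf 6 331 332) (node 362 (merge (leaf 7 330 330) (node 394 (merge (leaf 7 362 491) (node 393 (merge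 (leaf 1 361 365) (leaf 0 392 392))))))))))) (merge (node 363 (merge (leaf 4 331 331) (node 364 (merge (leaf 6 331 332) (node 396 (merge (leaf 6 363 491) (node 362 (merge (leaf 7 330 330) (node 361 (merge (leaf 0 360 360) (leaf 0 361 397))))))))))) (merge (node 396 (merge (node 491 (merge (leaf 5 363 364) (leaf 6 395 523))) (node 394 (merge (node 393 (merge (leaf 0 392 392) (node 425 (merge (leaf 1 392 424) (leaf 0 425 426))))) (merge (node 426 (merge (leaf 0 425 425) (node 397 (merge (leaf 1 394 398) (node 362 (merge (leaf 3 361 361) (node 330 (merge (leaf 4 298 298) (leaf 4 330 459))))))))) (merge (node 393 (merge (leaf 0 392 392) (node 425 (merge (leaf 1 392 424) (node 361 (merge (leaf 3 360 360) (node 362 (merge (leaf 3 361 397) (node 330 (merge (leaf 4 298 298) (leaf 6 329 457))))))))))) (node 393 (merge (leaf 0 392 392) (node 361 (merge (leaf 3 360 360) (node 397 (merge (leaf 3 361 362) (node 398 (merge (leaf 1 395 399) (leaf 1 394 426))))))))))))))) (node 396 (merge (node 363 (merge (leaf 4 331 331) (node 364 (merge (leaf 6 331 332) (node 362 (merge (leaf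 7 330 330) (node 361 (merge (leaf 0 360 360) (leaf 0 361 397))))))))) (merge (node 363 (merge (leaf 4 331 331) (node 364 (merge (leaf 6 331 332) (node 365 (merge (leaf 6 332 333) (node 366 (merge (leaf 1 363 367) (leaf 1 362 394))))))))) (node 394 (merge (node 393 (merge (leaf 0 392 392) (node 425 (merge (leaf 1 392 424) (leaf 0 425 426))))) (merge (node 426 (merge (leaf 0 425 425) (node 397 (merge (leaf 1 394 398) (node 362 (merge (leaf 3 361 361) (node 330 (merge (leaf 4 298 298) (leaf 4 330 459))))))))) (merge (node 393 (merge (leaf 0 392 392) (node 425 (merge (leaf 1 392 424) (node 361 (merge (leaf 3 360 360) (node 362 (merge (leaf 3 361 397) (node 330 (merge (leaf 4 298 298) (leaf 6 329 457))))))))))) (node 393 (merge (leaf 0 392 392) (node 361 (merge (leaf 3 360 360) (node 397 (merge (leaf 3 361 362) (node 398 (merge (leaf 1 395 399) (leaf 1 394 426)))))))))))))))))))))) (merge (node 431 (merge (node 495 (merge (leaf 4 431 527) (node 399 (merge (leaf 4 399 496) (node 368 (merge (leaf 6 367 400) (node 367 (merge (leaf 6 335 336) (node 366 (merge (leaf 7 334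 334) (leaf 7 366 398))))))))))) (node 491 (merge (node 523 (merge (leaf 6 395 396) (leaf 6 427 555))) (merge (node 523 (merge (leaf 6 427 555) (node 524 (merge (leaf 4 427 556) (node 522 (merge (leaf 5 426 554) (node 490 (merge (leaf 5 394 395) (leaf 3 489 489))))))))) (node 395 (merge (node 490 (merge (leaf 5 394 522) (node 489 (merge (leaf 1 457 458) (leaf 2 456 488))))) (node 364 (merge (leaf 6 363 396) (node 363 (merge (leaf 6 331 332) (node 362 (merge (leaf 7 330 330) (leaf 7 362 394)))))))))))))) (node 523 (merge (node 491 (merge (leaf 6 395 396) (leaf 6 427 555))) (merge (node 491 (merge (leaf 6 395 396) (node 426 (merge (leaf 7 394 394) (node 425 (merge (leaf 0 425 460) (node 456 (merge (leaf 1 424 457) (node 424 (merge (leaf 1 423 455) (node 392 (merge (leaf 3 391 391) (leaf 3 392 393))))))))))))) (node 458 (merge (node 489 (merge (leaf 1 457 490) (node 457 (merge (leaf 2 424 456) (leaf 1 456 488))))) (merge (node 425 (merge (leaf 0 425 426) (node 457 (merge (leaf 3 424 424) (leaf 2 424 456))))) (node 490 (merge (leaf 1 457 489) (node 522 (merge (leaf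 6 426 554) (node 426 (merge (leaf 3 425 425) (leaf 4 426 555))))))))))))))))) (merge (hyp 0) (merge (node 427 (merge (node 458 (merge (node 457 (merge (leaf 2 425 429) (leaf 2 424 456))) (node 490 (merge (leaf 1 457 489) (node 522 (merge (leaf 6 426 554) (node 395 (merge (leaf 5 362 363) (leaf 5 394 491))))))))) (merge (node 458 (merge (node 489 (merge (leaf 1 457 490) (node 457 (merge (leaf 2 424 456) (leaf 1 456 488))))) (merge (node 425 (merge (leaf 0 425 426) (node 457 (merge (leaf 3 424 424) (leaf 2 424 456))))) (node 490 (merge (leaf 1 457 489) (node 426 (merge (leaf 3 425 425) (node 395 (merge (leaf 5 362 363) (leaf 6 394 522)))))))))) (merge (node 429 (merge (node 426 (merge (leaf 0 425 425) (node 430 (merge (leaf 1 427 431) (node 398 (merge (leaf 2 394 397) (leaf 2 395 399))))))) (merge (node 431 (merge (leaf 1 427 430) (node 495 (merge (leaf 4 431 527) (node 399 (merge (leaf 4 399 496) (node 368 (merge (leaf 6 367 400) (node 367 (merge (leaf 6 335 336) (node 366 (merge (leaf 7 334 334) (leaf 7 366 398))))))))))))) (merge (node 426 (merge (leaf 0 425 425)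 (node 397 (merge (leaf 2 394 398) (node 365 (merge (leaf 5 332 333) (node 366 (merge (leaf 6 333 334) (node 364 (merge (leaf 7 332 332) (node 396 (merge (leaf 5 363 491) (node 367 (merge (leaf 1 364 368) (leaf 1 363 395))))))))))))))) (node 365 (merge (node 364 (merge (node 396 (merge (leaf 4 332 332) (leaf 6 332 333))) (merge (node 397 (merge (leaf 7 332 332) (leaf 5 332 333))) (merge (node 333 (merge (leaf 6 332 396) (leaf 5 332 397))) (node 332 (merge (leaf 4 332 396) (leaf 7 332 397))))))) (merge (node 431 (merge (leaf 1 427 430) (node 495 (merge (leaf 4 431 527) (node 399 (merge (leaf 4 399 496) (node 368 (merge (leaf 6 367 400) (node 367 (merge (leaf 6 335 336) (node 366 (merge (leaf 7 334 334) (node 333 (merge (leaf 3 332 332) (leaf 5 332 397))))))))))))))) (merge (node 431 (merge (leaf 1 427 430) (node 495 (merge (leaf 4 431 527) (node 399 (merge (leaf 4 399 496) (node 368 (merge (leaf 6 367 400) (node 367 (merge (leaf 6 335 336) (node 366 (merge (leaf 7 334 334) (node 397 (merge (leaf 5 332 333) (leaf 1 364 396))))))))))))))) (merge (node 431 (merge (leaf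 1 427 430) (node 495 (merge (leaf 4 431 527) (node 399 (merge (leaf 4 399 496) (node 368 (merge (leaf 6 367 400) (node 367 (merge (leaf 6 335 336) (node 366 (merge (leaf 7 334 334) (node 396 (merge (leaf 1 364 397) (node 364 (merge (leaf 4 332 332) (leaf 1 363 395))))))))))))))))) (node 431 (merge (leaf 1 427 430) (node 495 (merge (leaf 4 431 527) (node 399 (merge (leaf 4 399 496) (node 368 (merge (leaf 6 367 400) (node 367 (merge (leaf 6 335 336) (node 366 (merge (leaf 7 334 334) (node 332 (merge (leaf 3 332 333) (node 364 (merge (leaf 3 331 331) (leaf 4 332 396)))))))))))))))))))))))))) (node 429 (merge (node 458 (merge (leaf 1 426 430) (leaf 2 425 457))) (merge (node 426 (merge (leaf 0 425 425) (node 430 (merge (leaf 1 427 431) (node 398 (merge (leaf 2 394 397) (leaf 2 395 399))))))) (node 523 (merge (node 491 (merge (leaf 6 395 396) (leaf 6 427 555))) (merge (node 426 (merge (leaf 0 425 425) (node 458 (merge (leaf 1 425 457) (node 490 (merge (leaf 1 457 489) (node 522 (merge (leaf 6 426 554) (leaf 4 426 555))))))))) (node 524 (merge (node 491 (merge (leaf 6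 395 396) (leaf 4 427 556))) (merge (node 426 (merge (leaf 0 425 425) (node 458 (merge (leaf 1 425 457) (node 490 (merge (leaf 1 457 489) (node 522 (merge (leaf 6 426 554) (node 557 (merge (leaf 0 522 558) (node 521 (merge (leaf 5 425 553) (leaf 0 521 556))))))))))))) (node 425 (merge (leaf 0 425 426) (node 491 (merge (leaf 6 395 396) (node 457 (merge (leaf 2 425 458) (node 522 (merge (leaf 5 426 554) (node 489 (merge (leaf 3 489 490) (node 521 (merge (leaf 3 488 488) (node 552 (merge (leaf 5 424 520) (leaf 1 520 553)))))))))))))))))))))))))))) (node 364 (merge (node 396 (merge (leaf 5 363 491) (node 332 (merge (leaf 5 331 427) (leaf 4 332 429))))) (merge (node 429 (merge (node 458 (merge (leaf 2 426 430) (leaf 2 425 457))) (node 365 (merge (node 396 (merge (leaf 4 332 332) (leaf 6 332 333))) (merge (node 397 (merge (leaf 7 332 332) (leaf 5 332 333))) (merge (node 333 (merge (leaf 6 332 396) (leaf 5 332 397))) (node 332 (merge (leaf 4 332 396) (leaf 7 332 397))))))))) (merge (node 396 (merge (leaf 5 363 491) (node 333 (merge (leaf 6 332 365) (node 332 (merge (leaf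 6 300 301) (leaf 5 331 427))))))) (merge (node 363 (merge (node 396 (merge (leaf 7 331 331) (leaf 5 363 491))) (merge (node 365 (merge (node 429 (merge (node 458 (merge (leaf 2 426 430) (leaf 2 425 457))) (node 397 (merge (leaf 5 332 333) (node 398 (merge (leaf 0 362 362) (node 399 (merge (leaf 0 363 366) (leaf 1 396 400))))))))) (merge (node 366 (merge (node 395 (merge (leaf 1 362 394) (node 331 (merge (leaf 3 330 330) (leaf 4 331 427))))) (node 399 (merge (leaf 0 363 398) (node 367 (merge (leaf 0 364 400) (node 335 (merge (leaf 2 331 334) (leaf 2 332 336))))))))) (merge (node 362 (merge (node 394 (merge (leaf 1 361 393) (node 366 (merge (leaf 1 362 395) (node 334 (merge (leaf 2 330 333) (leaf 2 331 335))))))) (merge (node 393 (merge (leaf 1 361 394) (node 361 (merge (leaf 1 360 392) (node 329 (merge (leaf 3 328 328) (leaf 3 329 330))))))) (node 334 (merge (leaf 2 330 333) (node 366 (merge (leaf 2 331 335) (node 330 (merge (leaf 3 329 329) (leaf 3 330 331)))))))))) (node 362 (merge (node 397 (merge (leaf 0 362 398) (node 333 (merge (leaf 2 330 334) (leaf 5 332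 429))))) (node 393 (merge (leaf 1 361 394) (node 361 (merge (leaf 1 360 392) (node 329 (merge (leaf 3 328 328) (leaf 3 329 330))))))))))))) (node 365 (merge (node 396 (merge (leaf 6 332 333) (leaf 5 363 491))) (node 362 (merge (node 393 (merge (leaf 1 361 394) (node 361 (merge (leaf 1 360 392) (node 329 (merge (leaf 3 328 328) (leaf 3 329 330))))))) (node 398 (merge (leaf 0 362 397) (node 366 (merge (leaf 0 363 399) (node 334 (merge (leaf 2 331 335) (node 430 (merge (leaf 5 333 429) (leaf 4 334 431)))))))))))))))) (hyp 1)))))))))))))) nP_337 cP_337 13 (by decide +kernel)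
def nP_338 : ℕ := 0x1000000010000000000000000b0000000100000001000000000000000000000000000000000000000000000000000000000000000000000000000000000000000000000000000
def cP_338 : ℕ := 0x40000008c0000008f0000000f000000cfc00000efc00000ffc000003f0000003e0000003a000000080000000000000000000000000000000000000000000000000000000000
theorem lP_338 : S nP_338 cP_338 11 := S_of_chk [] trivial (node 395 (merge (node 364 (merge (node 331 (merge (leaf 7 331 363) (node 332 (merge (leaf 7 299 299) (node 427 (merge (leaf 5 299 300) (leaf 5 331 459))))))) (merge (node 365 (merge (leaf 6 332 333) (node 363 (merge (leaf 7 331 331) (node 366 (merge (leaf 1 363 367) (leaf 1 362 394))))))) (node 333 (merge (leaf 6 332 365) (node 332 (merge (leaf 6 300 301) (node 459 (merge (leaf 5 331 427) (leaf 5 363 491)))))))))) (merge (node 397 (merge (node 363 (merge (node 331 (merge (leaf 4 299 299) (leaf 7 331 364))) (node 362 (merge (leaf 3 362 398) (node 361 (merge (leaf 0 360 360) (leaf 3 361 394))))))) (merge (node 366 (merge (node 365 (merge (leaf 2 362 394) (node 333 (merge (leaf 5 300 301)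 (leaf 6 332 364))))) (node 398 (merge (leaf 2 363 367) (node 431 (merge (leaf 0 395 430) (node 495 (merge (leaf 7 366 399) (leaf 4 431 527))))))))) (merge (node 398 (merge (node 363 (merge (leaf 3 362 362) (node 331 (merge (leaf 4 299 299) (leaf 7 331 364))))) (node 431 (merge (leaf 0 395 430) (node 366 (merge (leaf 2 363 367) (node 495 (merge (leaf 7 366 399) (leaf 4 431 527))))))))) (merge (node 394 (merge (node 365 (merge (leaf 2 362 366) (node 333 (merge (leaf 5 300 301) (leaf 6 332 364))))) (node 425 (merge (leaf 1 393 426) (node 393 (merge (leaf 1 392 424) (node 361 (merge (leaf 3 360 360) (leaf 3 361 362))))))))) (node 394 (merge (node 425 (merge (leaf 1 393 426) (node 393 (merge (leaf 1 392 424) (node 361 (merge (leaf 3 360 360) (leaf 3 361 362))))))) (merge (node 366 (merge (leaf 2 362 365) (node 398 (merge (leaf 2 363 367) (node 362 (merge (leaf 3 361 361) (leaf 3 362 363))))))) (node 366 (merge (leaf 2 362 365) (node 398 (merge (leaf 2 363 367) (node 431 (merge (leaf 0 395 430) (node 495 (merge (leaf 7 366 399) (leaf 4 431 527))))))))))))))))) (merge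 (node 364 (merge (node 365 (merge (leaf 6 332 333) (node 366 (merge (leaf 1 363 367) (node 394 (merge (leaf 2 361 393) (leaf 2 362 397))))))) (merge (node 333 (merge (leaf 6 332 365) (node 332 (merge (leaf 6 300 301) (node 459 (merge (leaf 5 331 427) (leaf 5 363 491))))))) (node 363 (merge (leaf 7 331 331) (node 459 (merge (leaf 5 363 491) (node 427 (merge (leaf 6 331 332) (node 362 (merge (leaf 7 330 330) (node 361 (merge (leaf 0 360 360) (leaf 0 361 397)))))))))))))) (merge (node 427 (merge (node 459 (merge (node 491 (merge (leaf 5 363 364) (leaf 6 395 523))) (node 363 (merge (leaf 4 331 331) (node 362 (merge (leaf 7 330 330) (node 361 (merge (leaf 0 360 360) (node 397 (merge (leaf 3 361 394) (leaf 3 362 398))))))))))) (merge (node 459 (merge (node 364 (merge (leaf 5 331 332) (leaf 5 363 491))) (node 458 (merge (node 489 (merge (leaf 1 457 490) (node 457 (merge (leaf 2 424 456) (leaf 1 456 488))))) (merge (node 425 (merge (leaf 0 425 426) (node 457 (merge (leaf 3 424 424) (leaf 2 424 456))))) (node 490 (merge (leaf 1 457 489) (node 522 (merge (leaf 6 426 554)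 (node 426 (merge (leaf 6 394 395) (leaf 3 425 425)))))))))))) (node 394 (merge (node 393 (merge (leaf 0 392 392) (node 425 (merge (leaf 1 392 424) (leaf 0 425 426))))) (merge (node 426 (merge (leaf 0 425 425) (node 397 (merge (leaf 1 394 398) (node 362 (merge (leaf 3 361 361) (node 330 (merge (leaf 4 298 298) (node 331 (merge (leaf 6 298 299) (leaf 4 331 363))))))))))) (merge (node 393 (merge (leaf 0 392 392) (node 425 (merge (leaf 1 392 424) (node 361 (merge (leaf 3 360 360) (node 362 (merge (leaf 3 361 397) (node 330 (merge (leaf 4 298 298) (leaf 6 329 457))))))))))) (node 393 (merge (leaf 0 392 392) (node 361 (merge (leaf 3 360 360) (node 397 (merge (leaf 3 361 362) (node 398 (merge (leaf 1 395 399) (leaf 1 394 426)))))))))))))))) (merge (node 364 (merge (node 365 (merge (leaf 6 332 333) (node 366 (merge (leaf 1 363 367) (node 394 (merge (leaf 2 361 393) (leaf 2 362 397))))))) (merge (node 459 (merge (leaf 5 363 491) (node 332 (merge (leaf 5 331 427) (node 301 (merge (leaf 6 300 333) (node 300 (merge (leaf 6 268 269) (node 299 (merge (leaf 7 267 267) (leaf 7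 299 331))))))))))) (node 394 (merge (node 365 (merge (leaf 2 361 393) (node 366 (merge (leaf 1 363 367) (leaf 2 362 397))))) (merge (node 393 (merge (leaf 2 361 365) (node 427 (merge (leaf 0 392 392) (node 459 (merge (leaf 5 331 332) (leaf 6 363 491))))))) (node 459 (merge (leaf 5 363 491) (node 427 (merge (leaf 5 331 332) (node 426 (merge (leaf 0 425 425) (node 397 (merge (leaf 1 394 398) (node 362 (merge (leaf 4 330 330) (leaf 3 361 361))))))))))))))))) (merge (node 364 (merge (node 365 (merge (leaf 6 332 333) (node 366 (merge (leaf 1 363 367) (node 394 (merge (leaf 1 362 363) (leaf 2 361 393))))))) (merge (node 459 (merge (leaf 5 363 491) (node 332 (merge (leaf 5 331 427) (node 301 (merge (leaf 6 300 333) (node 300 (merge (leaf 6 268 269) (node 267 (merge (leaf 7 267 299) (node 268 (merge (leaf 7 235 235) (leaf 5 267 363))))))))))))) (node 394 (merge (node 365 (merge (leaf 2 361 393) (node 366 (merge (leaf 1 363 367) (leaf 2 362 397))))) (merge (node 393 (merge (leaf 2 361 365) (node 427 (merge (leaf 0 392 392) (node 459 (merge (leaf 5 331 332) (leaf 6 363 491)))))))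 (node 459 (merge (leaf 5 363 491) (node 427 (merge (leaf 5 331 332) (node 426 (merge (leaf 0 425 425) (node 397 (merge (leaf 1 394 398) (node 362 (merge (leaf 4 330 330) (leaf 3 361 361))))))))))))))))) (merge (node 363 (merge (node 331 (merge (leaf 4 299 299) (leaf 4 331 427))) (merge (node 331 (merge (leaf 4 299 299) (leaf 7 331 364))) (merge (node 331 (merge (leaf 7 331 364) (leaf 4 331 427))) (node 364 (merge (node 459 (merge (leaf 5 363 491) (node 427 (merge (leaf 6 331 332) (node 362 (merge (leaf 7 330 330) (node 361 (merge (leaf 0 360 360) (leaf 0 361 397))))))))) (merge (node 459 (merge (leaf 5 363 491) (node 332 (merge (leaf 5 331 427) (node 301 (merge (leaf 6 300 333) (node 300 (merge (leaf 6 268 269) (node 267 (merge (leaf 7 267 299) (node 268 (merge (leaf 7 235 235) (leaf 5 267 395))))))))))))) (node 365 (merge (leaf 6 332 333) (node 366 (merge (leaf 1 363 367) (node 398 (merge (leaf 0 363 399) (node 362 (merge (leaf 0 362 397) (node 361 (merge (leaf 0 360 360) (node 329 (merge (leaf 3 328 328) (leaf 3 329 330)))))))))))))))))))) (node 394 (merge (node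 425 (merge (node 426 (merge (leaf 1 393 397) (leaf 0 425 427))) (merge (node 393 (merge (leaf 1 392 424) (node 392 (merge (leaf 0 392 427) (node 360 (merge (leaf 3 359 359) (leaf 3 360 361))))))) (node 424 (merge (leaf 1 392 393) (node 426 (merge (leaf 1 393 397) (leaf 2 391 423)))))))) (merge (node 397 (merge (node 425 (merge (leaf 1 393 426) (node 393 (merge (leaf 1 392 424) (node 361 (merge (leaf 3 360 360) (leaf 3 361 362))))))) (merge (node 366 (merge (leaf 2 362 365) (node 398 (merge (leaf 2 363 367) (node 362 (merge (leaf 3 361 361) (leaf 3 362 363))))))) (node 366 (merge (leaf 2 362 365) (node 398 (merge (leaf 2 363 367) (node 431 (merge (leaf 0 395 430) (node 495 (merge (leaf 7 366 399) (leaf 4 431 527)))))))))))) (merge (node 393 (merge (node 361 (merge (leaf 3 360 360) (node 397 (merge (leaf 3 361 362) (node 366 (merge (leaf 2 362 365) (node 398 (merge (leaf 2 363 367) (node 431 (merge (leaf 0 395 430) (node 495 (merge (leaf 7 366 399) (leaf 4 431 527))))))))))))) (merge (node 392 (merge (leaf 0 392 427) (node 423 (merge (leaf 1 391 424) (node 391 (merge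 (leaf 1 390 422) (node 359 (merge (leaf 3 358 358) (leaf 3 359 360))))))))) (node 392 (merge (leaf 0 392 427) (node 423 (merge (leaf 1 391 424) (node 391 (merge (leaf 1 390 422) (node 362 (merge (leaf 2 359 363) (node 361 (merge (leaf 2 358 390) (leaf 3 361 397)))))))))))))) (merge (node 397 (merge (node 426 (merge (leaf 1 393 425) (node 398 (merge (leaf 1 394 427) (node 362 (merge (leaf 3 361 361) (leaf 3 362 363))))))) (merge (node 366 (merge (leaf 2 362 365) (node 398 (merge (leaf 2 363 367) (node 362 (merge (leaf 3 361 361) (leaf 3 362 363))))))) (merge (node 366 (merge (leaf 2 362 365) (node 398 (merge (leaf 2 363 367) (node 431 (merge (leaf 0 395 430) (node 495 (merge (leaf 7 366 399) (leaf 4 431 527))))))))) (node 425 (merge (leaf 1 393 426) (node 393 (merge (leaf 1 392 424) (node 427 (merge (leaf 0 392 392) (node 362 (merge (leaf 3 361 361) (node 459 (merge (leaf 7 362 491) (node 330 (merge (leaf 4 298 298) (leaf 7 330 363))))))))))))))))) (merge (node 426 (merge (node 425 (merge (leaf 1 393 397) (leaf 0 425 427))) (merge (node 397 (merge (leaf 1 393 425)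 (node 362 (merge (leaf 3 361 361) (node 363 (merge (leaf 3 362 398) (node 331 (merge (leaf 4 299 299) (leaf 6 330 458))))))))) (merge (node 425 (merge (leaf 0 425 427) (node 458 (merge (leaf 3 425 459) (node 363 (merge (leaf 6 362 490) (node 331 (merge (leaf 5 298 299) (leaf 6 330 362))))))))) (node 362 (merge (node 361 (merge (leaf 3 361 397) (node 360 (merge (leaf 0 359 359) (leaf 0 360 363))))) (merge (node 397 (merge (leaf 3 361 361) (node 398 (merge (leaf 1 394 427) (node 366 (merge (leaf 2 362 365) (leaf 2 363 367))))))) (node 330 (merge (node 427 (merge (leaf 4 298 298) (leaf 4 330 459))) (merge (node 299 (merge (leaf 6 298 331) (node 298 (merge (leaf 6 266 267) (node 297 (merge (leaf 7 265 265) (leaf 7 297 329))))))) (node 331 (merge (leaf 6 298 299) (node 427 (merge (leaf 4 331 363) (leaf 4 330 459))))))))))))))) (merge (node 425 (merge (node 393 (merge (leaf 1 392 424) (node 392 (merge (leaf 0 392 427) (node 360 (merge (leaf 3 359 359) (leaf 3 360 361))))))) (merge (node 426 (merge (leaf 0 425 427) (node 458 (merge (leaf 3 425 459) (node 363 (merge (leaf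 6 362 490) (node 331 (merge (leaf 4 299 299) (leaf 6 330 362))))))))) (node 424 (merge (leaf 1 392 393) (node 426 (merge (leaf 2 391 423) (node 458 (merge (leaf 3 425 459) (node 363 (merge (leaf 6 362 490) (node 331 (merge (leaf 4 299 299) (leaf 6 330 362)))))))))))))) (node 393 (merge (node 392 (merge (leaf 0 392 427) (node 423 (merge (leaf 1 391 424) (node 391 (merge (leaf 1 390 422) (node 359 (merge (leaf 3 358 358) (leaf 3 359 360))))))))) (merge (node 425 (merge (leaf 1 392 424) (node 397 (merge (leaf 1 393 426) (node 366 (merge (leaf 2 362 365) (node 398 (merge (leaf 2 363 367) (node 431 (merge (leaf 0 395 430) (node 495 (merge (leaf 7 366 399) (leaf 4 431 527))))))))))))) (node 427 (merge (leaf 0 392 392) (node 459 (merge (node 491 (merge (leaf 7 362 362) (leaf 6 395 523))) (merge (node 425 (merge (leaf 0 425 426) (node 363 (merge (leaf 4 331 331) (node 362 (merge (leaf 7 330 330) (node 457 (merge (leaf 6 361 489) (node 458 (merge (leaf 2 424 456) (leaf 5 362 490))))))))))) (node 491 (merge (leaf 6 395 523) (node 363 (merge (leaf 4 331 331) (node 490 (merge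 (leaf 5 362 458) (leaf 5 394 522)))))))))))))))))))))))))))))) nP_338 cP_338 11 (by decide +kernel)
def nP_339 : ℕ := 0x1000000012000000000000000b0000000100000000000000000000000000000000000000000000000000000000000000000000000000000000000000000000000000000000000
def cP_339 : ℕ := 0x80000003c0000009c0000019f0000000f000001cfc00000ffc00001ffc000003f0000003e0000003a000000080000000000000000000000000000000000000000000000000000000000
theorem lP_339 : S nP_339 cP_339 12 := S_of_chk [(nP_338, cP_338, 11)] ⟨lP_338, trivial⟩ (node 396 (merge (node 492 (merge (node 524 (merge (leaf 4 428 557) (node 523 (merge (leaf 5 395 491) (leaf 5 427 555))))) (merge (node 395 (merge (leaf 7 363 363) (node 524 (merge (leaf 7 395 427) (leaf 4 428 557))))) (node 363 (merge (leaf 7 363 395) (node 364 (merge (leaf 7 331 331) (node 491 (merge (leaf 5 363 459) (leaf 5 395 523)))))))))) (merge (node 364 (merge (node 331 (merge (leaf 7 331 363) (node 332 (merge (leaf 7 299 299) (node 459 (merge (leaf 5 331 427) (leaf 5 363 491))))))) (merge (node 365 (merge (leaf 6 332 333) (node 492 (merge (leaf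 6 364 397) (node 491 (merge (leaf 5 363 459) (leaf 5 395 523))))))) (node 333 (merge (leaf 6 332 365) (node 332 (merge (leaf 6 300 301) (node 331 (merge (leaf 7 299 299) (leaf 7 331 363)))))))))) (merge (node 492 (merge (node 524 (merge (leaf 4 428 557) (node 523 (merge (leaf 5 395 491) (leaf 5 427 555))))) (node 365 (merge (leaf 6 364 397) (node 364 (merge (leaf 6 332 333) (node 363 (merge (leaf 7 331 331) (leaf 7 363 395))))))))) (merge (node 492 (merge (node 524 (merge (leaf 4 428 557) (node 523 (merge (leaf 5 395 491) (leaf 5 427 555))))) (merge (node 365 (merge (leaf 6 364 397) (node 364 (merge (leaf 6 332 333) (node 491 (merge (leaf 5 363 459) (leaf 5 395 523))))))) (merge (node 365 (merge (leaf 6 364 397) (node 364 (merge (leaf 6 332 333) (node 524 (merge (leaf 4 428 557) (node 459 (merge (leaf 5 363 491) (node 427 (merge (leaf 5 331 332) (leaf 7 427 556))))))))))) (node 524 (merge (leaf 4 428 557) (node 427 (merge (leaf 7 395 395) (node 556 (merge (leaf 7 427 459) (node 555 (merge (leaf 5 427 523) (leaf 5 459 587))))))))))))) (merge (node 364 (merge (node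 365 (merge (leaf 6 332 333) (node 492 (merge (leaf 6 364 397) (node 363 (merge (leaf 7 331 331) (leaf 7 363 395))))))) (merge (node 333 (merge (leaf 6 332 365) (node 332 (merge (leaf 6 300 301) (node 331 (merge (leaf 7 299 299) (leaf 7 331 363))))))) (merge (node 365 (merge (leaf 6 332 333) (node 492 (merge (leaf 6 364 397) (node 524 (merge (leaf 4 428 557) (node 427 (merge (leaf 7 395 395) (node 459 (merge (leaf 5 331 332) (leaf 7 427 556))))))))))) (merge (node 331 (merge (leaf 7 331 363) (node 332 (merge (leaf 7 299 299) (node 301 (merge (leaf 6 300 333) (node 300 (merge (leaf 6 268 269) (node 427 (merge (leaf 5 299 395) (leaf 5 331 459))))))))))) (node 331 (merge (leaf 7 331 363) (node 332 (merge (leaf 7 299 299) (node 427 (merge (leaf 5 331 459) (node 426 (merge (leaf 0 425 425) (node 395 (merge (leaf 5 299 300) (node 397 (merge (leaf 1 394 398) (node 492 (merge (leaf 6 364 365) (leaf 7 395 524)))))))))))))))))))) (merge (node 395 (merge (node 492 (merge (leaf 7 363 363) (node 524 (merge (leaf 4 428 557) (node 523 (merge (leaf 5 395 491) (leaf 5 427 555)))))))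 (merge (node 397 (merge (node 492 (merge (leaf 6 364 365) (node 524 (merge (leaf 7 395 427) (leaf 4 428 557))))) (merge (node 365 (merge (leaf 6 364 492) (node 366 (merge (leaf 2 362 394) (node 367 (merge (leaf 1 364 368) (leaf 2 363 398))))))) (node 394 (merge (node 425 (merge (leaf 1 393 426) (node 393 (merge (leaf 1 392 424) (node 361 (merge (leaf 3 360 360) (leaf 3 361 362))))))) (merge (node 426 (merge (leaf 1 393 425) (node 398 (merge (leaf 1 394 427) (node 431 (merge (leaf 0 395 430) (node 399 (merge (leaf 0 396 432) (node 495 (merge (leaf 4 399 496) (leaf 4 431 527))))))))))) (merge (node 361 (merge (leaf 3 361 362) (node 393 (merge (leaf 3 360 360) (node 427 (merge (leaf 0 392 392) (node 398 (merge (leaf 1 395 399) (leaf 1 394 426))))))))) (node 361 (merge (leaf 3 361 362) (node 393 (merge (leaf 3 360 360) (node 392 (merge (leaf 0 392 427) (node 424 (merge (leaf 1 391 423) (leaf 1 392 425)))))))))))))))) (node 394 (merge (node 425 (merge (node 426 (merge (leaf 1 393 397) (leaf 0 425 427))) (merge (node 393 (merge (leaf 1 392 424) (node 392 (merge (leaf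 0 392 427) (node 360 (merge (leaf 3 359 359) (leaf 3 360 361))))))) (node 424 (merge (leaf 1 392 393) (node 426 (merge (leaf 1 393 397) (leaf 2 391 423)))))))) (merge (node 397 (merge (node 425 (merge (leaf 1 393 426) (node 393 (merge (leaf 1 392 424) (node 361 (merge (leaf 3 360 360) (leaf 3 361 362))))))) (merge (node 366 (merge (leaf 2 362 365) (node 398 (merge (leaf 2 363 367) (node 362 (merge (leaf 3 361 361) (leaf 3 362 363))))))) (node 366 (merge (leaf 2 362 365) (node 398 (merge (leaf 2 363 367) (node 431 (merge (leaf 0 395 430) (node 495 (merge (leaf 7 366 399) (leaf 4 431 527)))))))))))) (merge (node 393 (merge (node 361 (merge (leaf 3 360 360) (node 397 (merge (leaf 3 361 362) (node 366 (merge (leaf 2 362 365) (node 398 (merge (leaf 2 363 367) (node 431 (merge (leaf 0 395 430) (node 495 (merge (leaf 7 366 399) (leaf 4 431 527))))))))))))) (merge (node 392 (merge (leaf 0 392 427) (node 423 (merge (leaf 1 391 424) (node 391 (merge (leaf 1 390 422) (node 359 (merge (leaf 3 358 358) (leaf 3 359 360))))))))) (node 392 (merge (leaf 0 392 427) (node 423 (merge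 (leaf 1 391 424) (node 391 (merge (leaf 1 390 422) (node 362 (merge (leaf 2 359 363) (node 361 (merge (leaf 2 358 390) (leaf 3 361 397)))))))))))))) (merge (node 397 (merge (node 426 (merge (leaf 1 393 425) (node 398 (merge (leaf 1 394 427) (node 362 (merge (leaf 3 361 361) (leaf 3 362 363))))))) (merge (node 366 (merge (leaf 2 362 365) (node 398 (merge (leaf 2 363 367) (node 362 (merge (leaf 3 361 361) (leaf 3 362 363))))))) (merge (node 366 (merge (leaf 2 362 365) (node 398 (merge (leaf 2 363 367) (node 431 (merge (leaf 0 395 430) (node 495 (merge (leaf 7 366 399) (leaf 4 431 527))))))))) (node 425 (merge (leaf 1 393 426) (node 393 (merge (leaf 1 392 424) (node 427 (merge (leaf 0 392 392) (node 362 (merge (leaf 3 361 361) (node 459 (merge (leaf 7 362 491) (node 330 (merge (leaf 4 298 298) (leaf 7 330 363))))))))))))))))) (merge (node 426 (merge (node 425 (merge (leaf 1 393 397) (leaf 0 425 427))) (merge (node 397 (merge (leaf 1 393 425) (node 362 (merge (leaf 3 361 361) (node 363 (merge (leaf 3 362 398) (node 331 (merge (leaf 4 299 299) (leaf 6 330 458)))))))))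 (merge (node 425 (merge (leaf 0 425 427) (node 458 (merge (leaf 3 425 459) (node 363 (merge (leaf 6 362 490) (node 331 (merge (leaf 5 298 299) (leaf 6 330 362))))))))) (node 362 (merge (node 361 (merge (leaf 3 361 397) (node 360 (merge (leaf 0 359 359) (leaf 0 360 363))))) (merge (node 397 (merge (leaf 3 361 361) (node 398 (merge (leaf 1 394 427) (node 366 (merge (leaf 2 362 365) (leaf 2 363 367))))))) (node 330 (merge (node 427 (merge (leaf 4 298 298) (leaf 4 330 459))) (merge (node 299 (merge (leaf 6 298 331) (node 298 (merge (leaf 6 266 267) (node 297 (merge (leaf 7 265 265) (leaf 7 297 329))))))) (node 331 (merge (leaf 6 298 299) (node 427 (merge (leaf 4 331 363) (leaf 4 330 459))))))))))))))) (merge (node 425 (merge (node 393 (merge (leaf 1 392 424) (node 392 (merge (leaf 0 392 427) (node 360 (merge (leaf 3 359 359) (leaf 3 360 361))))))) (merge (node 426 (merge (leaf 0 425 427) (node 458 (merge (leaf 3 425 459) (node 363 (merge (leaf 6 362 490) (node 331 (merge (leaf 4 299 299) (leaf 6 330 362))))))))) (node 424 (merge (leaf 1 392 393) (node 426 (merge (leaf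 2 391 423) (node 458 (merge (leaf 3 425 459) (node 363 (merge (leaf 6 362 490) (node 331 (merge (leaf 4 299 299) (leaf 6 330 362)))))))))))))) (node 393 (merge (node 392 (merge (leaf 0 392 427) (node 423 (merge (leaf 1 391 424) (node 391 (merge (leaf 1 390 422) (node 359 (merge (leaf 3 358 358) (leaf 3 359 360))))))))) (merge (node 425 (merge (leaf 1 392 424) (node 397 (merge (leaf 1 393 426) (node 366 (merge (leaf 2 362 365) (node 398 (merge (leaf 2 363 367) (node 431 (merge (leaf 0 395 430) (node 495 (merge (leaf 7 366 399) (leaf 4 431 527))))))))))))) (node 427 (merge (leaf 0 392 392) (node 459 (merge (node 491 (merge (leaf 7 362 362) (leaf 6 395 523))) (merge (node 425 (merge (leaf 0 425 426) (node 363 (merge (leaf 4 331 331) (node 362 (merge (leaf 7 330 330) (node 457 (merge (leaf 6 361 489) (node 458 (merge (leaf 2 424 456) (leaf 5 362 490))))))))))) (node 491 (merge (leaf 6 395 523) (node 363 (merge (leaf 4 331 331) (node 490 (merge (leaf 5 362 458) (leaf 5 394 522))))))))))))))))))))))))) (hyp 0)))))))) nP_339 cP_339 12 (by decide +kernel)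
def nP_340 : ℕ := 0x1000000012000000000000000b0000000300000000000000000000000000000000000000000000000000000000000000000000000000000000000000000000000000000000000
def cP_340 : ℕ := 0xa0000007e0000009e0000019e0000000e0000008e000001ee000001ee0000016e0000000a00000000000000000000000000000000000000000000000000000000000000000000000000
theorem lP_340 : S nP_340 cP_340 11 := S_of_chk [] trivial (node 426 (merge (node 458 (merge (node 457 (merge (leaf 1 425 427) (leaf 2 425 459))) (merge (node 427 (merge (leaf 0 425 425) (leaf 1 425 457))) (merge (node 459 (merge (leaf 3 425 425) (leaf 2 425 457))) (node 425 (merge (leaf 0 425 427) (leaf 3 425 459))))))) (merge (node 427 (merge (leaf 0 425 425) (node 397 (merge (leaf 2 394 398) (node 492 (merge (leaf 5 364 365) (leaf 6 396 524))))))) (merge (node 458 (merge (node 457 (merge (leaf 1 425 427) (leaf 2 425 459))) (merge (node 427 (merge (leaf 1 425 457) (node 397 (merge (leaf 2 394 398) (node 365 (merge (leaf 5 332 333) (leaf 5 364 492))))))) (merge (node 394 (merge (node 393 (merge (leaf 3 393 427) (node 490 (merge (leaf 7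 361 361) (node 489 (merge (leaf 1 457 459) (leaf 5 393 521))))))) (merge (node 427 (merge (leaf 3 393 393) (node 397 (merge (leaf 2 394 398) (node 492 (merge (leaf 5 364 365) (leaf 6 396 524))))))) (node 490 (merge (node 489 (merge (leaf 1 457 459) (leaf 5 393 521))) (merge (node 491 (merge (leaf 4 394 523) (node 489 (merge (leaf 2 457 492) (leaf 5 393 521))))) (node 491 (merge (leaf 4 394 523) (node 362 (merge (leaf 4 362 459) (node 331 (merge (leaf 6 330 363) (node 330 (merge (leaf 6 298 299) (node 329 (merge (leaf 7 297 297) (leaf 7 329 361))))))))))))))))) (node 394 (merge (node 459 (merge (leaf 2 425 457) (node 491 (merge (leaf 4 362 362) (node 523 (merge (leaf 4 394 490) (leaf 7 426 555))))))) (merge (node 459 (merge (leaf 2 425 457) (node 490 (merge (leaf 1 457 489) (node 523 (merge (leaf 4 394 491) (node 522 (merge (leaf 4 426 555) (node 553 (merge (leaf 5 425 521) (node 554 (merge (leaf 1 521 524) (leaf 5 457 585))))))))))))) (merge (node 490 (merge (node 491 (merge (leaf 4 394 523) (node 489 (merge (leaf 2 457 492) (leaf 5 393 521))))) (merge (node 361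 (merge (leaf 7 361 393) (node 362 (merge (leaf 7 329 329) (node 489 (merge (leaf 5 361 457) (leaf 5 393 521))))))) (merge (node 361 (merge (leaf 7 361 393) (node 362 (merge (leaf 7 329 329) (node 491 (merge (leaf 4 394 523) (node 489 (merge (leaf 5 361 457) (leaf 2 457 492))))))))) (node 523 (merge (leaf 4 394 491) (node 522 (merge (leaf 4 426 555) (node 553 (merge (leaf 5 425 521) (node 554 (merge (leaf 1 521 524) (leaf 5 457 585))))))))))))) (merge (node 490 (merge (node 489 (merge (leaf 1 457 459) (leaf 5 393 521))) (merge (node 491 (merge (leaf 4 394 523) (node 489 (merge (leaf 2 457 492) (leaf 5 393 521))))) (node 491 (merge (leaf 4 394 523) (node 362 (merge (leaf 4 362 459) (node 331 (merge (leaf 6 330 363) (node 330 (merge (leaf 6 298 299) (node 329 (merge (leaf 7 297 297) (leaf 7 329 361)))))))))))))) (node 457 (merge (leaf 2 425 459) (node 362 (merge (leaf 5 361 489) (node 331 (merge (leaf 6 330 363) (node 330 (merge (leaf 6 298 299) (node 329 (merge (leaf 7 297 297) (leaf 7 329 361)))))))))))))))))))) (node 458 (merge (node 459 (merge (leaf 3 425 425)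 (leaf 2 425 457))) (merge (node 394 (merge (node 459 (merge (leaf 2 425 457) (node 491 (merge (leaf 4 362 362) (node 523 (merge (leaf 4 394 490) (leaf 7 426 555))))))) (merge (node 459 (merge (leaf 2 425 457) (node 490 (merge (leaf 1 457 489) (node 523 (merge (leaf 4 394 491) (node 522 (merge (leaf 4 426 555) (node 553 (merge (leaf 5 425 521) (node 554 (merge (leaf 1 521 524) (leaf 5 457 585))))))))))))) (merge (node 490 (merge (node 491 (merge (leaf 4 394 523) (node 489 (merge (leaf 2 457 492) (leaf 5 393 521))))) (merge (node 361 (merge (leaf 7 361 393) (node 362 (merge (leaf 7 329 329) (node 489 (merge (leaf 5 361 457) (leaf 5 393 521))))))) (merge (node 361 (merge (leaf 7 361 393) (node 362 (merge (leaf 7 329 329) (node 491 (merge (leaf 4 394 523) (node 489 (merge (leaf 5 361 457) (leaf 2 457 492))))))))) (node 523 (merge (leaf 4 394 491) (node 522 (merge (leaf 4 426 555) (node 553 (merge (leaf 5 425 521) (node 554 (merge (leaf 1 521 524) (leaf 5 457 585))))))))))))) (merge (node 490 (merge (node 489 (merge (leaf 1 457 459) (leaf 5 393 521))) (merge (node 491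 (merge (leaf 4 394 523) (node 489 (merge (leaf 2 457 492) (leaf 5 393 521))))) (node 491 (merge (leaf 4 394 523) (node 362 (merge (leaf 4 362 459) (node 331 (merge (leaf 6 330 363) (node 330 (merge (leaf 6 298 299) (node 329 (merge (leaf 7 297 297) (leaf 7 329 361)))))))))))))) (node 457 (merge (leaf 2 425 459) (node 362 (merge (leaf 5 361 489) (node 331 (merge (leaf 6 330 363) (node 330 (merge (leaf 6 298 299) (node 329 (merge (leaf 7 297 297) (leaf 7 329 361)))))))))))))))) (merge (node 490 (merge (node 394 (merge (node 491 (merge (leaf 4 394 523) (node 489 (merge (leaf 2 457 492) (leaf 5 393 521))))) (node 363 (merge (leaf 6 362 395) (node 362 (merge (leaf 6 330 331) (node 361 (merge (leaf 7 329 329) (leaf 7 361 393))))))))) (merge (node 522 (merge (node 523 (merge (leaf 4 426 555) (node 524 (merge (leaf 3 489 489) (node 557 (merge (leaf 4 428 492) (leaf 0 522 558))))))) (node 425 (merge (leaf 7 393 393) (node 554 (merge (leaf 7 425 457) (node 553 (merge (leaf 5 425 521) (leaf 5 457 585))))))))) (merge (node 523 (merge (node 522 (merge (leaf 4 426 555) (node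 524 (merge (leaf 3 489 489) (node 557 (merge (leaf 4 428 492) (leaf 0 522 558))))))) (node 394 (merge (leaf 4 394 491) (node 363 (merge (leaf 6 362 395) (node 362 (merge (leaf 6 330 331) (node 361 (merge (leaf 7 329 329) (leaf 7 361 393))))))))))) (merge (node 393 (merge (node 361 (merge (leaf 7 361 394) (node 425 (merge (leaf 4 329 329) (leaf 4 361 457))))) (merge (node 522 (merge (leaf 7 393 425) (node 523 (merge (leaf 4 426 555) (node 553 (merge (leaf 5 425 521) (node 554 (merge (leaf 1 521 524) (leaf 5 457 585))))))))) (node 394 (merge (leaf 7 361 361) (node 523 (merge (leaf 4 394 491) (node 522 (merge (leaf 4 426 555) (node 553 (merge (leaf 5 425 521) (node 554 (merge (leaf 1 521 524) (leaf 5 457 585)))))))))))))) (merge (node 394 (merge (node 491 (merge (leaf 4 394 523) (node 489 (merge (leaf 2 457 492) (leaf 5 393 521))))) (merge (node 363 (merge (leaf 6 362 395) (node 362 (merge (leaf 6 330 331) (node 489 (merge (leaf 5 361 457) (leaf 5 393 521))))))) (merge (node 363 (merge (leaf 6 362 395) (node 362 (merge (leaf 6 330 331) (node 491 (merge (leaf 4 394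 523) (node 489 (merge (leaf 5 361 457) (leaf 2 457 492))))))))) (node 523 (merge (leaf 4 394 491) (node 522 (merge (leaf 4 426 555) (node 553 (merge (leaf 5 425 521) (node 554 (merge (leaf 1 521 524) (leaf 5 457 585))))))))))))) (node 393 (merge (node 425 (merge (leaf 7 393 522) (node 361 (merge (leaf 4 329 329) (leaf 4 361 457))))) (merge (node 394 (merge (leaf 7 361 361) (node 363 (merge (leaf 6 362 395) (node 362 (merge (leaf 6 330 331) (node 489 (merge (leaf 5 361 457) (leaf 5 393 521))))))))) (node 522 (merge (leaf 7 393 425) (node 521 (merge (leaf 5 425 553) (node 489 (merge (leaf 5 393 394) (node 492 (merge (leaf 2 457 491) (node 524 (merge (leaf 4 428 557) (node 429 (merge (leaf 6 396 397) (leaf 6 428 556)))))))))))))))))))))) (node 431 (merge (node 495 (merge (leaf 4 431 527) (node 399 (merge (leaf 4 399 496) (node 368 (merge (leaf 6 367 400) (node 367 (merge (leaf 6 335 336) (node 366 (merge (leaf 7 334 334) (leaf 7 366 398))))))))))) (node 490 (merge (node 425 (merge (leaf 3 425 459) (node 393 (merge (leaf 7 393 522) (node 361 (merge (leaf 4 329 329)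 (leaf 7 361 394))))))) (merge (node 489 (merge (leaf 1 457 459) (node 492 (merge (leaf 2 457 491) (node 524 (merge (leaf 4 428 557) (node 429 (merge (leaf 6 396 397) (leaf 6 428 556))))))))) (node 491 (merge (node 523 (merge (leaf 4 394 394) (node 555 (merge (leaf 4 426 522) (leaf 7 458 587))))) (node 492 (merge (leaf 2 457 489) (node 524 (merge (leaf 4 428 557) (node 429 (merge (leaf 6 396 397) (leaf 6 428 556)))))))))))))))))))))) nP_340 cP_340 11 (by decide +kernel)
def nP_341 : ℕ := 0x1000000012000000000000000b0000000100000000000000000000000000000000000000000000000000000000000000000000000000000000000000000000000000000000000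
def cP_341 : ℕ := 0xa0000007e0000049e0000079e0000060e00001fee00000fee00001ffe000007ee000007ca00000740000005000000000000000000000000000000000000000000000000000000000000
theorem lP_341 : S nP_341 cP_341 14 := S_of_chk [(nP_340, cP_340, 11)] ⟨lP_340, trivial⟩ (node 429 (merge (node 431 (merge (node 430 (merge (leaf 1 428 432) (leaf 1 427 459))) (node 495 (merge (leaf 4 431 527) (node 399 (merge (leaf 4 399 496) (node 400 (merge (leaf 6 367 368) (node 398 (merge (leaf 7 366 366) (leaf 1 396 397))))))))))) (merge (node 427 (merge (node 426 (merge (leaf 0 425 425) (node 397 (merge (leaf 2 394 398) (node 492 (merge (leaf 5 364 365) (leaf 6 396 524))))))) (merge (node 426 (merge (leaf 0 425 425) (node 458 (merge (leaf 1 425 457) (node 430 (merge (leaf 1 426 459) (node 394 (merge (leaf 3 393 393) (leaf 3 394 395))))))))) (node 459 (merge (node 458 (merge (leaf 1 426 430) (leaf 2 425 457))) (merge (node 492 (merge (node 397 (merge (leaf 5 364 365) (leaf 6 396 524))) (node 395 (merge (leaf 4 363 363) (node 394 (merge (leaf 3 394 430) (node 491 (merge (leaf 7 362 362) (node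 490 (merge (leaf 2 457 489) (leaf 5 394 522))))))))))) (node 458 (merge (leaf 2 425 457) (node 490 (merge (leaf 1 457 489) (node 522 (merge (leaf 6 426 554) (node 395 (merge (leaf 5 362 363) (leaf 5 394 491))))))))))))))) (merge (node 427 (merge (node 426 (merge (leaf 0 425 425) (node 458 (merge (leaf 1 425 457) (node 430 (merge (leaf 1 426 459) (node 431 (merge (leaf 1 428 432) (node 399 (merge (leaf 2 396 400) (node 495 (merge (leaf 4 399 496) (leaf 4 431 527))))))))))))) (merge (node 426 (merge (leaf 0 425 425) (node 394 (merge (leaf 3 393 393) (node 430 (merge (leaf 3 394 395) (node 431 (merge (leaf 1 428 432) (node 399 (merge (leaf 2 396 400) (node 495 (merge (leaf 4 399 496) (leaf 4 431 527))))))))))))) (merge (node 459 (merge (node 458 (merge (leaf 1 426 430) (leaf 2 425 457))) (merge (node 430 (merge (leaf 1 427 431) (node 395 (merge (leaf 3 394 394) (node 363 (merge (leaf 4 331 331) (leaf 4 363 492))))))) (node 458 (merge (leaf 2 425 457) (node 490 (merge (leaf 1 457 489) (node 522 (merge (leaf 6 426 554) (node 395 (merge (leaf 5 362 363) (leaf 5 394 491))))))))))))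 (node 459 (merge (node 458 (merge (leaf 2 425 457) (node 490 (merge (leaf 1 457 489) (node 522 (merge (leaf 6 426 554) (node 395 (merge (leaf 5 362 363) (leaf 6 394 426))))))))) (merge (node 426 (merge (leaf 0 425 425) (node 394 (merge (leaf 3 393 393) (node 491 (merge (leaf 7 394 523) (node 362 (merge (leaf 4 330 330) (leaf 4 362 458))))))))) (merge (node 426 (merge (leaf 0 425 425) (node 394 (merge (leaf 3 393 393) (node 491 (merge (leaf 7 394 523) (node 362 (merge (leaf 4 330 330) (leaf 7 362 395))))))))) (node 458 (merge (leaf 2 425 457) (node 490 (merge (leaf 1 457 489) (node 522 (merge (leaf 6 426 554) (node 395 (merge (leaf 5 362 363) (leaf 5 394 491))))))))))))))))) (merge (hyp 0) (node 399 (merge (node 431 (merge (node 430 (merge (leaf 2 396 400) (leaf 1 428 432))) (node 495 (merge (leaf 4 399 496) (leaf 4 431 527))))) (merge (node 492 (merge (node 524 (merge (leaf 6 428 556) (leaf 4 428 557))) (node 397 (merge (leaf 5 364 365) (node 398 (merge (leaf 1 396 400) (node 427 (merge (leaf 2 394 426) (leaf 2 395 430))))))))) (merge (node 431 (merge (node 495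 (merge (leaf 4 399 496) (leaf 4 431 527))) (node 430 (merge (leaf 1 428 432) (node 427 (merge (leaf 2 395 398) (node 426 (merge (leaf 0 425 425) (node 394 (merge (leaf 3 393 393) (leaf 3 394 395))))))))))) (node 400 (merge (node 397 (merge (leaf 1 396 398) (node 365 (merge (leaf 5 332 333) (leaf 5 364 492))))) (merge (node 367 (merge (node 492 (merge (node 524 (merge (leaf 6 428 556) (leaf 4 428 557))) (node 365 (merge (leaf 5 364 397) (node 366 (merge (leaf 0 364 364) (node 401 (merge (leaf 0 365 368) (leaf 3 366 402))))))))) (merge (node 492 (merge (node 524 (merge (leaf 6 428 556) (leaf 4 428 557))) (node 365 (merge (leaf 5 364 397) (node 366 (merge (leaf 0 364 364) (node 431 (merge (leaf 7 334 334) (node 495 (merge (leaf 4 399 496) (leaf 4 431 527))))))))))) (node 431 (merge (node 495 (merge (leaf 4 399 496) (leaf 4 431 527))) (node 336 (merge (leaf 6 335 368) (node 335 (merge (leaf 6 303 304) (node 302 (merge (leaf 7 302 334) (node 303 (merge (leaf 7 270 270) (leaf 4 303 432)))))))))))))) (merge (node 401 (merge (node 370 (merge (node 369 (merge (leaf 2 366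 398) (node 371 (merge (leaf 1 367 368) (leaf 1 368 372))))) (merge (node 371 (merge (leaf 2 367 402) (node 369 (merge (leaf 1 367 368) (leaf 1 368 372))))) (merge (node 398 (merge (leaf 2 366 369) (node 434 (merge (leaf 0 398 433) (node 402 (merge (leaf 0 399 435) (node 366 (merge (leaf 3 365 365) (leaf 3 366 367))))))))) (node 402 (merge (leaf 2 367 371) (node 434 (merge (leaf 0 399 435) (node 398 (merge (leaf 0 398 433) (node 366 (merge (leaf 3 365 365) (leaf 3 366 367))))))))))))) (merge (node 434 (merge (node 433 (merge (leaf 0 398 398) (node 435 (merge (leaf 3 399 432) (leaf 3 400 436))))) (merge (node 398 (merge (leaf 0 398 433) (node 366 (merge (leaf 3 365 365) (node 431 (merge (leaf 7 366 495) (node 367 (merge (leaf 7 334 334) (leaf 3 366 402))))))))) (node 402 (merge (leaf 0 399 435) (node 367 (merge (leaf 3 366 366) (node 368 (merge (leaf 3 367 403) (node 431 (merge (leaf 6 335 336) (leaf 6 367 495)))))))))))) (merge (node 370 (merge (node 371 (merge (leaf 2 367 402) (node 369 (merge (leaf 1 367 368) (leaf 1 368 372))))) (merge (node 402 (merge (leaf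 2 367 371) (node 367 (merge (leaf 3 366 366) (node 368 (merge (leaf 3 367 403) (node 431 (merge (leaf 6 335 336) (leaf 6 367 495))))))))) (node 398 (merge (leaf 2 366 369) (node 366 (merge (leaf 3 365 365) (node 431 (merge (leaf 7 366 495) (node 334 (merge (leaf 4 302 302) (leaf 7 334 367)))))))))))) (merge (node 402 (merge (node 434 (merge (leaf 0 399 435) (node 398 (merge (leaf 0 398 433) (node 370 (merge (leaf 2 366 369) (leaf 2 367 371))))))) (merge (node 371 (merge (leaf 2 367 370) (node 403 (merge (leaf 2 368 372) (node 431 (merge (leaf 1 399 432) (node 495 (merge (leaf 4 399 496) (leaf 4 431 527))))))))) (node 435 (merge (leaf 0 399 434) (node 403 (merge (leaf 0 400 436) (node 431 (merge (leaf 1 399 432) (node 495 (merge (leaf 4 399 496) (leaf 4 431 527)))))))))))) (merge (node 367 (merge (node 402 (merge (leaf 3 366 366) (node 435 (merge (leaf 0 399 434) (node 403 (merge (leaf 0 400 436) (node 371 (merge (leaf 2 367 370) (leaf 2 368 372))))))))) (node 431 (merge (node 495 (merge (leaf 4 399 496) (leaf 4 431 527))) (node 336 (merge (leaf 6 335 368) (node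 335 (merge (leaf 6 303 304) (node 302 (merge (leaf 7 302 334) (node 303 (merge (leaf 7 270 270) (leaf 4 303 432))))))))))))) (node 433 (merge (node 398 (merge (leaf 0 398 434) (node 366 (merge (leaf 3 365 365) (node 431 (merge (leaf 7 366 495) (node 334 (merge (leaf 4 302 302) (leaf 7 334 367))))))))) (merge (node 369 (merge (node 398 (merge (leaf 2 366 370) (node 366 (merge (leaf 3 365 365) (node 431 (merge (leaf 7 366 495) (node 334 (merge (leaf 4 302 302) (leaf 7 334 367))))))))) (node 465 (merge (node 498 (merge (leaf 4 369 466) (node 497 (merge (leaf 5 400 496) (leaf 4 401 530))))) (node 336 (merge (leaf 7 336 368) (node 337 (merge (leaf 7 304 304) (node 306 (merge (leaf 6 305 338) (node 305 (merge (leaf 6 273 274) (leaf 5 304 432))))))))))))) (node 465 (merge (node 497 (merge (leaf 7 368 368) (leaf 5 400 496))) (merge (node 497 (merge (leaf 5 400 496) (node 498 (merge (leaf 4 401 530) (node 369 (merge (leaf 4 369 466) (node 338 (merge (leaf 6 337 370) (node 337 (merge (leaf 6 305 306) (node 304 (merge (leaf 7 304 336) (node 305 (merge (leaf 7 272 272) (leaf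 5 304 432))))))))))))))) (node 369 (merge (node 370 (merge (leaf 6 337 338) (node 368 (merge (leaf 7 336 336) (leaf 1 367 371))))) (merge (node 368 (merge (leaf 7 336 336) (node 466 (merge (leaf 4 369 498) (node 337 (merge (leaf 4 337 434) (node 305 (merge (leaf 5 272 273) (leaf 5 304 432))))))))) (node 466 (merge (leaf 4 369 498) (node 434 (merge (leaf 4 337 337) (node 435 (merge (leaf 3 399 432) (leaf 3 400 436)))))))))))))))))))))) (node 401 (merge (node 398 (merge (leaf 1 396 397) (node 434 (merge (leaf 0 398 433) (node 402 (merge (leaf 0 399 435) (node 370 (merge (leaf 2 366 369) (leaf 2 367 371))))))))) (merge (node 398 (merge (leaf 1 396 397) (node 370 (merge (leaf 2 366 369) (node 402 (merge (leaf 2 367 371) (node 367 (merge (leaf 3 366 366) (node 368 (merge (leaf 3 367 403) (node 431 (merge (leaf 6 335 336) (leaf 6 367 495))))))))))))) (merge (node 398 (merge (leaf 1 396 397) (node 434 (merge (leaf 0 398 433) (node 402 (merge (leaf 0 399 435) (node 367 (merge (leaf 3 366 366) (node 368 (merge (leaf 3 367 403) (node 431 (merge (leaf 6 335 336) (leaf 6 367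 495))))))))))))) (merge (node 367 (merge (node 402 (merge (leaf 3 366 366) (node 435 (merge (leaf 0 399 434) (node 403 (merge (leaf 0 400 436) (node 371 (merge (leaf 2 367 370) (leaf 2 368 372))))))))) (node 431 (merge (node 495 (merge (leaf 4 399 496) (leaf 4 431 527))) (node 336 (merge (leaf 6 335 368) (node 335 (merge (leaf 6 303 304) (node 302 (merge (leaf 7 302 334) (node 303 (merge (leaf 7 270 270) (leaf 4 303 432))))))))))))) (node 369 (merge (node 398 (merge (leaf 2 366 370) (leaf 1 396 397))) (node 337 (merge (node 305 (merge (leaf 5 304 432) (node 274 (merge (leaf 6 273 306) (node 273 (merge (leaf 6 241 242) (leaf 5 272 368))))))) (merge (node 305 (merge (leaf 5 304 432) (node 306 (merge (leaf 6 273 274) (node 433 (merge (leaf 6 305 338) (node 304 (merge (leaf 7 272 272) (leaf 7 304 336))))))))) (merge (node 368 (merge (node 431 (merge (leaf 6 367 495) (node 336 (merge (leaf 5 303 304) (leaf 6 335 367))))) (node 305 (merge (leaf 5 272 273) (node 306 (merge (leaf 6 273 274) (node 433 (merge (leaf 6 305 338) (node 465 (merge (leaf 7 368 497) (node 466 (merge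 (leaf 4 337 434) (leaf 4 369 498))))))))))))) (node 336 (merge (node 304 (merge (leaf 7 304 433) (node 272 (merge (leaf 4 240 240) (leaf 4 272 368))))) (merge (node 431 (merge (node 368 (merge (leaf 6 335 367) (leaf 5 335 432))) (node 495 (merge (leaf 4 399 496) (leaf 4 431 527))))) (node 433 (merge (leaf 7 304 304) (node 434 (merge (leaf 4 337 466) (node 435 (merge (leaf 3 399 432) (leaf 3 400 436)))))))))))))))))))))))))))))))))) nP_341 cP_341 14 (by decide +kernel)
def nP_342 : ℕ := 0x1000000012000000000000000b0000000000000000000000000000000000000000000000000000000000000000000000000000000000000000000000000000000000000000000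
def cP_342 : ℕ := 0x1e0000007f0000049f0000079fc000060f80001fffc0000fffc0001fffc00007ff000007fe0000077a000005080000000000000000000000000000000000000000000000000000000000
theorem lP_342 : S nP_342 cP_342 15 := S_of_chk [(nP_326, cP_326, 12), (nP_327, cP_327, 11), (nP_328, cP_328, 13), (nP_329, cP_329, 12), (nP_330, cP_330, 13), (nP_331, cP_331, 11), (nP_332, cP_332, 14), (nP_333, cP_333, 13), (nP_334, cP_334, 14), (nP_337, cP_337, 13), (nP_339, cP_339, 12), (nP_341, cP_341, 14)] ⟨lP_326, lP_327, lP_328, lP_329, lP_330, lP_331, lP_332, lP_333, lP_334, lP_337, lP_339, lP_341, trivial⟩ (node 428 (merge (node 431 (merge (node 495 (merge (leaf 4 431 527) (node 399 (merge (leaf 4 399 496) (node 368 (merge (leaf 6 367 400) (node 367 (merge (leaf 6 335 336) (node 366 (merge (leaf 7 334 334) (leaf 7 366 398))))))))))) (merge (node 492 (merge (node 524 (merge (leaf 4 428 557) (node 429 (merge (leaf 6 396 397) (leaf 6 428 556))))) (merge (node 524 (merge (leaf 4 428 557) (node 556 (merge (leaf 6 428 429) (node 555 (merge (leaf 5 427 523) (leaf 5 459 587))))))) (merge (node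 396 (merge (node 397 (merge (leaf 6 364 365) (node 395 (merge (leaf 7 363 363) (node 430 (merge (leaf 0 395 398) (leaf 3 395 429))))))) (merge (node 363 (merge (leaf 7 363 395) (node 364 (merge (leaf 7 331 331) (node 491 (merge (leaf 5 363 459) (leaf 5 395 523))))))) (node 365 (merge (leaf 6 364 397) (node 364 (merge (leaf 6 332 333) (node 491 (merge (leaf 5 363 459) (leaf 5 395 523)))))))))) (node 524 (merge (leaf 4 428 557) (node 523 (merge (leaf 5 427 555) (node 396 (merge (leaf 5 395 491) (node 365 (merge (leaf 6 364 397) (node 364 (merge (leaf 6 332 333) (node 363 (merge (leaf 7 331 331) (leaf 7 363 395))))))))))))))))) (node 365 (merge (node 397 (merge (node 429 (merge (leaf 5 332 333) (leaf 5 364 492))) (merge (node 492 (merge (leaf 6 364 396) (leaf 5 364 429))) (merge (node 333 (merge (leaf 5 332 429) (node 396 (merge (leaf 5 300 301) (leaf 6 332 364))))) (node 396 (merge (leaf 6 364 492) (node 333 (merge (leaf 5 300 301) (leaf 6 332 364))))))))) (merge (node 495 (merge (leaf 4 431 527) (node 399 (merge (leaf 4 399 496) (node 400 (merge (leaf 6 367 368)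 (node 429 (merge (leaf 2 396 430) (node 397 (merge (leaf 5 332 333) (leaf 5 364 492))))))))))) (merge (node 495 (merge (leaf 4 431 527) (node 399 (merge (leaf 4 399 496) (node 368 (merge (leaf 6 367 400) (node 367 (merge (leaf 6 335 336) (node 366 (merge (leaf 7 334 334) (node 396 (merge (leaf 1 364 397) (node 364 (merge (leaf 6 332 333) (leaf 1 363 395))))))))))))))) (merge (node 495 (merge (leaf 4 431 527) (node 399 (merge (leaf 4 399 496) (node 368 (merge (leaf 6 367 400) (node 367 (merge (leaf 6 335 336) (node 366 (merge (leaf 7 334 334) (node 332 (merge (leaf 3 332 333) (node 364 (merge (leaf 3 331 331) (node 396 (merge (leaf 1 363 395) (leaf 4 332 429))))))))))))))))) (node 495 (merge (leaf 4 431 527) (node 399 (merge (leaf 4 399 496) (node 368 (merge (leaf 6 367 400) (node 367 (merge (leaf 6 335 336) (node 366 (merge (leaf 7 334 334) (node 396 (merge (leaf 1 364 397) (node 364 (merge (leaf 1 363 395) (node 332 (merge (leaf 3 331 331) (leaf 4 332 429))))))))))))))))))))))))) (merge (node 429 (merge (node 396 (merge (node 364 (merge (leaf 4 332 332) (node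 459 (merge (leaf 5 363 491) (node 430 (merge (leaf 1 427 431) (leaf 2 426 458))))))) (merge (node 364 (merge (leaf 4 332 332) (node 365 (merge (leaf 6 332 333) (node 492 (merge (leaf 6 364 397) (node 363 (merge (leaf 7 331 331) (leaf 7 363 395))))))))) (node 395 (merge (node 394 (merge (leaf 0 393 393) (node 430 (merge (leaf 0 394 397) (leaf 3 395 431))))) (node 363 (merge (leaf 7 363 492) (node 331 (merge (leaf 4 299 299) (leaf 4 331 427)))))))))) (merge (node 396 (merge (node 364 (merge (leaf 4 332 332) (node 459 (merge (leaf 5 363 491) (node 458 (merge (leaf 2 426 430) (leaf 2 425 457))))))) (merge (node 364 (merge (leaf 4 332 332) (node 365 (merge (leaf 6 332 333) (node 492 (merge (leaf 6 364 397) (node 363 (merge (leaf 7 331 331) (leaf 7 363 395))))))))) (node 395 (merge (node 363 (merge (leaf 7 363 492) (node 331 (merge (leaf 4 299 299) (leaf 4 331 427))))) (node 394 (merge (leaf 0 393 393) (node 397 (merge (leaf 0 394 430) (node 365 (merge (leaf 5 332 333) (leaf 2 362 366)))))))))))) (merge (node 431 (merge (node 495 (merge (leaf 4 431 527) (node 399 (merge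 (leaf 4 399 496) (node 400 (merge (leaf 6 367 368) (leaf 2 396 430))))))) (merge (node 495 (merge (leaf 4 431 527) (node 399 (merge (leaf 4 399 496) (node 398 (merge (leaf 7 366 366) (node 397 (merge (leaf 1 396 400) (node 396 (merge (leaf 1 395 427) (leaf 0 396 432))))))))))) (node 430 (merge (leaf 1 428 432) (node 396 (merge (leaf 3 395 395) (node 364 (merge (leaf 4 332 332) (node 365 (merge (leaf 6 332 333) (node 397 (merge (leaf 6 364 492) (node 363 (merge (leaf 7 331 331) (node 362 (merge (leaf 0 361 361) (leaf 0 362 398)))))))))))))))))) (merge (node 431 (merge (node 430 (merge (leaf 1 428 432) (node 459 (merge (leaf 1 427 428) (leaf 2 426 458))))) (node 495 (merge (leaf 4 431 527) (node 399 (merge (leaf 4 399 496) (node 368 (merge (leaf 6 367 400) (node 367 (merge (leaf 6 335 336) (node 366 (merge (leaf 7 334 334) (leaf 7 366 398))))))))))))) (node 396 (merge (node 364 (merge (leaf 4 332 332) (node 363 (merge (leaf 7 331 331) (node 395 (merge (leaf 7 363 492) (node 459 (merge (leaf 5 363 491) (node 458 (merge (leaf 2 425 457) (node 490 (merge (leaf 5 362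 427) (leaf 1 457 489))))))))))))) (merge (node 364 (merge (leaf 4 332 332) (node 365 (merge (leaf 6 332 333) (node 397 (merge (leaf 6 364 492) (node 366 (merge (leaf 6 333 334) (node 367 (merge (leaf 1 364 368) (leaf 1 363 395))))))))))) (merge (node 364 (merge (node 331 (merge (leaf 7 331 363) (node 332 (merge (leaf 7 299 299) (leaf 4 332 429))))) (node 365 (merge (leaf 6 332 333) (node 492 (merge (leaf 6 364 397) (node 491 (merge (leaf 5 363 459) (leaf 5 395 523))))))))) (merge (node 397 (merge (node 364 (merge (leaf 4 332 332) (node 363 (merge (leaf 7 331 331) (node 362 (merge (leaf 0 361 361) (node 398 (merge (leaf 3 362 395) (leaf 3 363 399))))))))) (merge (node 364 (merge (leaf 4 332 332) (node 365 (merge (leaf 6 332 333) (node 363 (merge (leaf 7 331 331) (node 362 (merge (leaf 0 361 361) (leaf 0 362 398))))))))) (merge (node 364 (merge (leaf 4 332 332) (node 365 (merge (leaf 6 332 333) (node 366 (merge (leaf 6 333 334) (node 367 (merge (leaf 1 364 368) (leaf 1 363 395))))))))) (node 365 (merge (leaf 5 332 333) (node 366 (merge (leaf 6 333 334) (node 367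 (merge (leaf 1 364 368) (node 395 (merge (leaf 2 362 394) (leaf 2 363 398))))))))))))) (node 397 (merge (node 365 (merge (leaf 5 332 333) (leaf 5 364 492))) (merge (node 365 (merge (leaf 5 332 333) (node 366 (merge (leaf 6 333 334) (node 367 (merge (leaf 1 364 368) (node 395 (merge (leaf 2 362 394) (leaf 2 363 398))))))))) (node 395 (merge (node 363 (merge (leaf 7 363 492) (node 331 (merge (leaf 4 299 299) (leaf 4 331 427))))) (merge (node 394 (merge (leaf 0 393 393) (node 426 (merge (leaf 1 393 425) (node 362 (merge (leaf 3 361 361) (node 363 (merge (leaf 3 362 398) (node 331 (merge (leaf 4 299 299) (leaf 6 330 458))))))))))) (node 394 (merge (leaf 0 393 393) (node 426 (merge (leaf 1 393 425) (node 398 (merge (leaf 1 394 427) (node 399 (merge (leaf 1 396 400) (node 431 (merge (leaf 0 396 432) (node 495 (merge (leaf 4 399 496) (leaf 4 431 527))))))))))))))))))))))))))))) (merge (node 429 (merge (node 427 (merge (node 426 (merge (leaf 0 425 425) (node 397 (merge (leaf 2 394 398) (node 492 (merge (leaf 5 364 365) (leaf 6 396 524))))))) (merge (node 426 (merge (leaf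 0 425 425) (node 458 (merge (leaf 1 425 457) (node 430 (merge (leaf 1 426 459) (node 394 (merge (leaf 3 393 393) (leaf 3 394 395))))))))) (node 395 (merge (node 492 (merge (leaf 7 395 524) (node 363 (merge (leaf 7 363 396) (leaf 4 363 459))))) (merge (node 394 (merge (leaf 3 394 430) (node 393 (merge (leaf 0 392 392) (leaf 0 393 396))))) (node 492 (merge (leaf 7 395 524) (node 430 (merge (leaf 3 394 394) (node 459 (merge (leaf 4 363 363) (leaf 1 426 458))))))))))))) (merge (node 431 (merge (node 430 (merge (leaf 1 428 432) (node 459 (merge (leaf 1 427 428) (leaf 2 426 458))))) (node 495 (merge (leaf 4 431 527) (node 399 (merge (leaf 4 399 496) (node 368 (merge (leaf 6 367 400) (node 367 (merge (leaf 6 335 336) (node 366 (merge (leaf 7 334 334) (leaf 7 366 398))))))))))))) (merge (node 396 (merge (node 364 (merge (leaf 4 332 332) (node 365 (merge (leaf 6 332 333) (node 492 (merge (leaf 6 364 397) (node 524 (merge (leaf 6 428 556) (leaf 4 428 557))))))))) (merge (node 364 (merge (leaf 4 332 332) (node 363 (merge (leaf 7 331 331) (node 492 (merge (leaf 7 363 395)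 (node 524 (merge (leaf 6 428 556) (leaf 4 428 557))))))))) (merge (node 395 (merge (node 394 (merge (leaf 0 393 393) (node 430 (merge (leaf 0 394 397) (leaf 3 395 431))))) (node 492 (merge (leaf 7 363 363) (node 524 (merge (leaf 6 428 556) (leaf 4 428 557))))))) (node 395 (merge (node 394 (merge (leaf 0 393 393) (node 430 (merge (leaf 0 394 397) (leaf 3 395 431))))) (merge (node 394 (merge (leaf 0 393 393) (node 364 (merge (leaf 4 332 332) (node 365 (merge (leaf 6 332 333) (node 366 (merge (leaf 1 362 363) (leaf 1 363 367))))))))) (node 364 (merge (leaf 4 332 332) (node 365 (merge (leaf 6 332 333) (node 363 (merge (leaf 7 331 331) (node 366 (merge (leaf 1 363 367) (node 334 (merge (leaf 2 331 335) (leaf 6 333 397)))))))))))))))))) (node 396 (merge (node 364 (merge (leaf 4 332 332) (node 365 (merge (leaf 6 332 333) (node 492 (merge (leaf 6 364 397) (node 524 (merge (leaf 6 428 556) (leaf 4 428 557))))))))) (merge (node 364 (merge (leaf 4 332 332) (node 363 (merge (leaf 7 331 331) (node 492 (merge (leaf 7 363 395) (node 524 (merge (leaf 6 428 556) (leaf 4 428 557)))))))))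 (merge (node 397 (merge (node 364 (merge (leaf 4 332 332) (node 363 (merge (leaf 7 331 331) (node 362 (merge (leaf 0 361 361) (node 398 (merge (leaf 3 362 395) (leaf 3 363 399))))))))) (merge (node 364 (merge (leaf 4 332 332) (node 365 (merge (leaf 6 332 333) (node 363 (merge (leaf 7 331 331) (node 362 (merge (leaf 0 361 361) (leaf 0 362 398))))))))) (merge (node 364 (merge (leaf 4 332 332) (node 365 (merge (leaf 6 332 333) (node 366 (merge (leaf 6 333 334) (node 367 (merge (leaf 1 364 368) (leaf 1 363 395))))))))) (node 365 (merge (leaf 5 332 333) (node 366 (merge (leaf 6 333 334) (node 367 (merge (leaf 1 364 368) (node 395 (merge (leaf 2 362 394) (leaf 2 363 398))))))))))))) (node 397 (merge (node 365 (merge (leaf 5 332 333) (leaf 5 364 492))) (merge (node 365 (merge (leaf 5 332 333) (node 366 (merge (leaf 6 333 334) (node 367 (merge (leaf 1 364 368) (node 395 (merge (leaf 2 362 394) (leaf 2 363 398))))))))) (node 492 (merge (leaf 6 396 524) (node 395 (merge (leaf 7 363 363) (node 394 (merge (leaf 0 393 393) (node 426 (merge (leaf 1 393 425) (node 398 (merge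 (leaf 1 394 427) (node 399 (merge (leaf 1 396 400) (node 367 (merge (leaf 2 363 366) (leaf 2 364 368)))))))))))))))))))))))))) (merge (hyp 0) (merge (hyp 1) (merge (node 429 (merge (node 431 (merge (node 430 (merge (leaf 1 428 432) (node 459 (merge (leaf 1 427 428) (leaf 2 426 458))))) (node 495 (merge (leaf 4 431 527) (node 399 (merge (leaf 4 399 496) (node 400 (merge (leaf 6 367 368) (node 397 (merge (leaf 1 396 398) (node 365 (merge (leaf 5 332 333) (leaf 5 364 492))))))))))))) (merge (node 427 (merge (node 426 (merge (leaf 0 425 425) (node 397 (merge (leaf 2 394 398) (node 492 (merge (leaf 5 364 365) (leaf 6 396 524))))))) (merge (node 395 (merge (node 492 (merge (leaf 7 395 524) (node 363 (merge (leaf 4 331 331) (leaf 4 363 459))))) (node 394 (merge (leaf 3 394 430) (node 393 (merge (leaf 0 392 392) (leaf 0 393 396))))))) (node 426 (merge (node 425 (merge (leaf 0 425 460) (node 397 (merge (leaf 2 393 396) (leaf 2 394 398))))) (merge (node 425 (merge (leaf 0 425 460) (node 393 (merge (leaf 3 392 392) (leaf 3 393 394))))) (node 398 (merge (leaf 2 394 397) (node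 430 (merge (leaf 2 395 399) (node 394 (merge (leaf 3 393 393) (leaf 3 394 395))))))))))))) (merge (node 427 (merge (node 395 (merge (node 492 (merge (leaf 7 395 524) (node 363 (merge (leaf 4 331 331) (leaf 4 363 459))))) (node 394 (merge (leaf 3 394 430) (node 393 (merge (leaf 0 392 392) (leaf 0 393 396))))))) (merge (node 426 (merge (leaf 0 425 425) (node 458 (merge (leaf 1 425 457) (node 394 (merge (leaf 3 393 393) (node 395 (merge (leaf 3 394 430) (node 363 (merge (leaf 4 331 331) (leaf 6 362 490))))))))))) (merge (node 395 (merge (node 492 (merge (leaf 7 395 524) (node 363 (merge (leaf 4 331 331) (leaf 7 363 396))))) (merge (node 426 (merge (leaf 0 425 425) (node 458 (merge (leaf 1 425 457) (node 490 (merge (leaf 6 394 522) (node 363 (merge (leaf 4 331 331) (leaf 5 362 459))))))))) (node 426 (merge (leaf 0 425 425) (node 492 (merge (leaf 7 395 524) (node 458 (merge (leaf 1 425 457) (node 490 (merge (leaf 6 394 522) (node 489 (merge (leaf 1 457 459) (leaf 2 457 491)))))))))))))) (node 426 (merge (leaf 0 425 425) (node 458 (merge (leaf 1 425 457) (node 430 (merge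 (leaf 1 426 459) (node 431 (merge (leaf 1 428 432) (node 399 (merge (leaf 2 396 400) (node 495 (merge (leaf 4 399 496) (leaf 4 431 527))))))))))))))))) (merge (node 430 (merge (node 431 (merge (leaf 1 428 432) (node 399 (merge (leaf 2 396 400) (node 495 (merge (leaf 4 399 496) (leaf 4 431 527))))))) (node 427 (merge (node 395 (merge (leaf 3 394 394) (node 492 (merge (leaf 7 395 524) (node 363 (merge (leaf 4 331 331) (leaf 7 363 396))))))) (merge (node 426 (merge (leaf 0 425 425) (node 397 (merge (leaf 2 394 398) (node 365 (merge (leaf 5 332 333) (leaf 5 364 492))))))) (node 426 (merge (leaf 0 425 425) (node 458 (merge (leaf 1 425 457) (node 394 (merge (leaf 3 393 393) (node 395 (merge (leaf 3 394 430) (node 363 (merge (leaf 4 331 331) (leaf 6 362 490)))))))))))))))) (merge (node 427 (merge (node 426 (merge (leaf 0 425 425) (node 458 (merge (leaf 1 425 457) (node 430 (merge (leaf 1 426 459) (node 394 (merge (leaf 3 393 393) (leaf 3 394 395))))))))) (merge (node 426 (merge (leaf 0 425 425) (node 458 (merge (leaf 1 425 457) (node 430 (merge (leaf 1 426 459) (node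 431 (merge (leaf 1 428 432) (node 399 (merge (leaf 2 395 398) (leaf 2 396 400))))))))))) (merge (node 426 (merge (leaf 0 425 425) (node 394 (merge (leaf 3 393 393) (node 430 (merge (leaf 3 394 395) (node 431 (merge (leaf 1 428 432) (node 399 (merge (leaf 2 395 398) (leaf 2 396 400))))))))))) (merge (node 459 (merge (node 426 (merge (leaf 0 425 425) (node 458 (merge (leaf 1 425 457) (node 394 (merge (leaf 3 393 393) (node 362 (merge (leaf 4 330 330) (leaf 4 362 491))))))))) (merge (node 458 (merge (leaf 2 425 457) (node 490 (merge (leaf 1 457 489) (node 522 (merge (leaf 6 426 554) (node 395 (merge (leaf 5 362 363) (leaf 5 394 491))))))))) (merge (node 426 (merge (leaf 0 425 425) (node 458 (merge (leaf 1 425 457) (node 490 (merge (leaf 1 457 489) (node 395 (merge (leaf 5 362 363) (leaf 6 394 522))))))))) (node 426 (merge (leaf 0 425 425) (node 394 (merge (leaf 3 393 393) (node 491 (merge (leaf 7 394 523) (node 362 (merge (leaf 4 330 330) (leaf 7 362 395))))))))))))) (node 459 (merge (node 430 (merge (leaf 1 426 458) (node 431 (merge (leaf 1 427 460) (node 399 (merge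 (leaf 2 395 398) (leaf 2 396 400))))))) (merge (node 458 (merge (leaf 2 425 457) (node 490 (merge (leaf 1 457 489) (node 522 (merge (leaf 6 426 554) (node 395 (merge (leaf 5 362 363) (leaf 5 394 491))))))))) (node 430 (merge (leaf 1 427 431) (node 398 (merge (leaf 2 395 399) (node 395 (merge (leaf 3 394 394) (node 363 (merge (leaf 4 331 331) (node 364 (merge (leaf 6 331 332) (node 396 (merge (leaf 6 363 491) (node 362 (merge (leaf 7 330 330) (leaf 3 362 397))))))))))))))))))))))) (node 427 (merge (node 426 (merge (leaf 0 425 425) (node 397 (merge (leaf 2 394 398) (node 365 (merge (leaf 5 332 333) (leaf 5 364 492))))))) (merge (node 395 (merge (node 492 (merge (leaf 7 395 524) (node 363 (merge (leaf 4 331 331) (leaf 7 363 396))))) (merge (node 426 (merge (leaf 0 425 425) (node 458 (merge (leaf 1 425 457) (node 490 (merge (leaf 6 394 522) (node 363 (merge (leaf 4 331 331) (leaf 5 362 459))))))))) (node 426 (merge (leaf 0 425 425) (node 492 (merge (leaf 7 395 524) (node 458 (merge (leaf 1 425 457) (node 490 (merge (leaf 6 394 522) (node 489 (merge (leaf 1 457 459)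 (leaf 2 457 491)))))))))))))) (merge (node 396 (merge (node 364 (merge (leaf 4 332 332) (node 365 (merge (leaf 6 332 333) (node 492 (merge (leaf 6 364 397) (node 524 (merge (leaf 6 428 556) (leaf 4 428 557))))))))) (merge (node 364 (merge (leaf 4 332 332) (node 363 (merge (leaf 7 331 331) (node 459 (merge (leaf 5 363 491) (node 458 (merge (leaf 2 425 457) (node 490 (merge (leaf 5 362 395) (leaf 1 457 489))))))))))) (node 492 (merge (node 524 (merge (leaf 6 396 397) (leaf 6 428 556))) (merge (node 395 (merge (leaf 7 363 363) (leaf 7 395 524))) (node 397 (merge (leaf 6 364 365) (node 395 (merge (leaf 7 363 363) (node 394 (merge (leaf 0 393 393) (node 362 (merge (leaf 3 361 361) (node 491 (merge (leaf 7 362 459) (leaf 5 395 523))))))))))))))))) (node 459 (merge (node 426 (merge (leaf 0 425 425) (node 458 (merge (leaf 1 425 457) (node 394 (merge (leaf 3 393 393) (node 362 (merge (leaf 4 330 330) (leaf 4 362 491))))))))) (merge (node 458 (merge (leaf 2 425 457) (node 490 (merge (leaf 1 457 489) (node 522 (merge (leaf 6 426 554) (node 395 (merge (leaf 5 362 363) (leaf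 5 394 491))))))))) (merge (node 426 (merge (leaf 0 425 425) (node 458 (merge (leaf 1 425 457) (node 490 (merge (leaf 1 457 489) (node 395 (merge (leaf 5 362 363) (leaf 6 394 522))))))))) (node 426 (merge (leaf 0 425 425) (node 394 (merge (leaf 3 393 393) (node 491 (merge (leaf 7 394 523) (node 362 (merge (leaf 4 330 330) (leaf 7 362 395))))))))))))))))))))))) (merge (hyp 2) (merge (hyp 3) (merge (hyp 4) (merge (hyp 5) (merge (hyp 6) (merge (hyp 7) (merge (hyp 8) (merge (hyp 9) (merge (hyp 10) (hyp 11))))))))))))))))) nP_342 cP_342 15 (by decide +kernel)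
def nP_343 : ℕ := 0x100000001200000000000000080000000000000000000000000000000000000000000000000000000000000000000000000000000000000000000000000000000000000000000
def cP_343 : ℕ := 0x7000000078000000fe000000ff0000049f00000fffc0000e7f80001fffc0000fffc0003fffc0001fff00003ffe00000ffe000007f8000007f800000000000000000000000000000000000000000000000000
theorem lP_343 : S nP_343 cP_343 17 := S_of_chk [(nP_312, cP_312, 14), (nP_313, cP_313, 12), (nP_314, cP_314, 11), (nP_315, cP_315, 13), (nP_325, cP_325, 16), (nP_342, cP_342, 15)] ⟨lP_312, lP_313, lP_314, lP_315, lP_325, lP_342, trivial⟩ (node 461 (merge (node 462 (merge (node 495 (merge (node 496 (merge (leaf 0 460 460) (node 497 (merge (leaf 3 461 494) (leaf 3 462 498))))) (merge (node 460 (merge (leaf 0 460 496) (node 431 (merge (leaf 2 428 432) (leaf 4 431 527))))) (merge (node 431 (merge (leaf 4 431 527) (node 496 (merge (leaf 4 399 399) (node 497 (merge (leaf 3 461 494) (leaf 3 462 498))))))) (node 431 (merge (leaf 4 431 527) (node 460 (merge (leaf 2 428 432) (node 459 (merge (leaf 2 427 430) (leaf 0 459 494)))))))))))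 (merge (node 460 (merge (node 495 (merge (leaf 0 460 496) (node 431 (merge (leaf 2 428 432) (leaf 4 431 527))))) (node 492 (merge (leaf 1 459 491) (node 428 (merge (leaf 3 427 427) (node 493 (merge (leaf 4 396 396) (leaf 7 428 557))))))))) (merge (node 493 (merge (node 557 (merge (leaf 6 429 430) (node 589 (merge (leaf 6 461 494) (node 590 (merge (leaf 4 461 558) (leaf 4 493 622))))))) (merge (node 557 (merge (leaf 6 429 430) (node 558 (merge (leaf 4 461 590) (node 559 (merge (leaf 3 524 524) (node 556 (merge (leaf 2 524 527) (leaf 5 460 588))))))))) (merge (node 557 (merge (node 589 (merge (leaf 6 461 494) (node 590 (merge (leaf 4 461 558) (leaf 4 493 622))))) (merge (node 589 (merge (leaf 6 461 494) (node 588 (merge (leaf 5 460 556) (leaf 5 492 620))))) (node 558 (merge (leaf 4 461 590) (node 524 (merge (leaf 3 524 559) (node 556 (merge (leaf 5 428 429) (leaf 5 460 588)))))))))) (node 429 (merge (node 428 (merge (leaf 7 396 396) (node 427 (merge (leaf 0 426 426) (leaf 0 427 430))))) (node 524 (merge (leaf 5 428 556) (node 492 (merge (leaf 5 396 397) (node 491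 (merge (leaf 2 458 490) (leaf 2 459 494))))))))))))) (node 460 (merge (node 495 (merge (leaf 0 460 496) (node 459 (merge (leaf 0 459 494) (node 491 (merge (leaf 1 458 490) (leaf 1 459 492))))))) (merge (node 495 (merge (leaf 0 460 496) (node 459 (merge (leaf 0 459 494) (node 427 (merge (leaf 3 426 426) (leaf 3 427 428))))))) (node 492 (merge (leaf 1 459 491) (node 524 (merge (node 429 (merge (leaf 6 428 556) (node 428 (merge (leaf 6 396 397) (leaf 3 427 427))))) (merge (node 429 (merge (leaf 6 428 556) (node 397 (merge (leaf 5 364 365) (leaf 5 396 493))))) (merge (node 428 (merge (leaf 3 427 427) (node 525 (merge (leaf 4 428 557) (node 493 (merge (leaf 4 396 396) (node 556 (merge (leaf 6 460 588) (node 555 (merge (leaf 5 427 523) (leaf 5 459 587))))))))))) (node 428 (merge (leaf 3 427 427) (node 397 (merge (leaf 6 396 429) (node 396 (merge (leaf 6 364 365) (node 525 (merge (leaf 4 396 493) (leaf 4 428 557)))))))))))))))))))))) (merge (node 431 (merge (node 495 (merge (leaf 4 431 527) (node 399 (merge (leaf 4 399 496) (node 368 (merge (leaf 6 367 400) (node 367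 (merge (leaf 6 335 336) (node 366 (merge (leaf 7 334 334) (leaf 7 366 398))))))))))) (merge (node 460 (merge (node 462 (merge (leaf 2 428 432) (node 459 (merge (leaf 2 427 430) (node 427 (merge (leaf 3 426 426) (leaf 3 427 428))))))) (merge (node 462 (merge (leaf 2 428 432) (node 491 (merge (leaf 1 459 492) (node 459 (merge (leaf 2 427 430) (leaf 1 458 490))))))) (merge (node 462 (merge (leaf 2 428 432) (node 491 (merge (leaf 1 459 492) (node 459 (merge (leaf 1 458 490) (node 427 (merge (leaf 3 426 426) (leaf 3 427 428))))))))) (merge (node 429 (merge (node 432 (merge (leaf 1 428 430) (leaf 2 428 462))) (merge (node 462 (merge (leaf 2 428 432) (node 492 (merge (leaf 1 459 491) (node 524 (merge (leaf 6 428 556) (node 397 (merge (leaf 5 364 365) (leaf 5 396 493))))))))) (merge (node 430 (merge (leaf 1 428 432) (node 493 (merge (leaf 6 397 398) (node 396 (merge (leaf 7 396 428) (node 397 (merge (leaf 7 364 364) (node 524 (merge (leaf 5 396 492) (leaf 5 428 556))))))))))) (node 492 (merge (node 524 (merge (leaf 6 428 556) (node 397 (merge (leaf 5 364 365) (leaf 5 396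 493))))) (merge (node 524 (merge (leaf 6 428 556) (node 397 (merge (leaf 5 364 365) (leaf 6 396 428))))) (node 462 (merge (leaf 1 459 491) (node 428 (merge (leaf 3 427 427) (node 396 (merge (leaf 7 396 493) (node 395 (merge (leaf 7 363 363) (leaf 3 395 430)))))))))))))))) (merge (node 429 (merge (node 430 (merge (leaf 1 428 432) (node 459 (merge (leaf 1 427 428) (leaf 2 426 458))))) (merge (node 397 (merge (node 492 (merge (leaf 5 364 365) (node 524 (merge (leaf 5 396 493) (leaf 6 428 556))))) (merge (node 492 (merge (leaf 5 364 365) (node 524 (merge (leaf 6 396 428) (leaf 6 428 556))))) (merge (node 493 (merge (node 524 (merge (leaf 5 396 492) (leaf 5 428 556))) (node 396 (merge (leaf 7 364 364) (leaf 7 396 428))))) (node 493 (merge (node 396 (merge (leaf 7 364 364) (leaf 7 396 428))) (merge (node 366 (merge (leaf 6 365 398) (node 365 (merge (leaf 6 333 334) (node 428 (merge (leaf 5 332 333) (leaf 7 396 396))))))) (merge (node 366 (merge (leaf 6 365 398) (node 365 (merge (leaf 6 333 334) (node 364 (merge (leaf 7 332 332) (leaf 7 364 396))))))) (node 366 (merge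 (leaf 6 365 398) (node 365 (merge (leaf 6 333 334) (node 332 (merge (leaf 7 332 364) (node 333 (merge (leaf 7 300 300) (leaf 5 332 428))))))))))))))))) (node 397 (merge (node 365 (merge (leaf 5 364 492) (node 334 (merge (leaf 6 333 366) (node 333 (merge (leaf 6 301 302) (node 332 (merge (leaf 7 300 300) (leaf 7 332 364))))))))) (merge (node 430 (merge (leaf 1 428 432) (node 493 (merge (leaf 6 397 398) (node 524 (merge (leaf 5 396 492) (leaf 5 428 556))))))) (node 396 (merge (node 364 (merge (leaf 7 364 493) (node 332 (merge (leaf 4 300 300) (leaf 7 332 365))))) (node 430 (merge (leaf 1 428 432) (node 395 (merge (leaf 0 394 394) (leaf 0 395 398))))))))))))) (node 428 (merge (node 462 (merge (leaf 3 427 427) (node 491 (merge (leaf 1 459 492) (node 459 (merge (leaf 2 427 430) (leaf 1 458 490))))))) (merge (node 396 (merge (node 493 (merge (leaf 4 364 364) (leaf 7 396 429))) (merge (node 493 (merge (leaf 4 364 364) (leaf 4 396 492))) (merge (node 493 (merge (leaf 7 396 429) (leaf 4 396 492))) (node 364 (merge (node 333 (merge (leaf 6 332 365) (node 332 (merge (leaf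 6 300 301) (leaf 4 332 429))))) (merge (node 331 (merge (leaf 7 331 363) (node 332 (merge (leaf 7 299 299) (leaf 4 332 429))))) (node 365 (merge (leaf 6 332 333) (node 492 (merge (leaf 6 364 397) (node 363 (merge (leaf 7 331 331) (leaf 7 363 395)))))))))))))) (node 462 (merge (leaf 3 427 427) (node 459 (merge (leaf 2 427 430) (node 490 (merge (leaf 1 458 491) (node 458 (merge (leaf 1 457 489) (node 457 (merge (leaf 2 425 429) (node 425 (merge (leaf 3 424 424) (leaf 3 425 426)))))))))))))))))))))) (merge (node 495 (merge (leaf 4 431 527) (node 399 (merge (leaf 4 399 496) (node 368 (merge (leaf 6 367 400) (node 367 (merge (leaf 6 335 336) (node 334 (merge (leaf 7 334 366) (node 335 (merge (leaf 7 302 302) (node 462 (merge (leaf 5 334 430) (node 460 (merge (leaf 2 428 432) (node 491 (merge (leaf 1 459 492) (node 459 (merge (leaf 1 458 490) (node 427 (merge (leaf 3 426 426) (leaf 3 427 428))))))))))))))))))))))) (node 462 (merge (node 432 (merge (leaf 2 428 460) (node 433 (merge (leaf 1 429 430) (leaf 1 430 434))))) (merge (node 460 (merge (leaf 2 428 432) (node 495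 (merge (leaf 0 460 496) (leaf 4 431 527))))) (node 495 (merge (leaf 4 431 527) (node 399 (merge (leaf 4 399 496) (node 368 (merge (leaf 6 367 400) (node 367 (merge (leaf 6 335 336) (node 430 (merge (leaf 5 334 335) (node 493 (merge (leaf 6 429 557) (node 429 (merge (leaf 6 397 398) (node 428 (merge (leaf 7 396 396) (leaf 0 427 427)))))))))))))))))))))))) (merge (node 493 (merge (node 460 (merge (node 428 (merge (leaf 7 428 557) (node 396 (merge (leaf 4 364 364) (leaf 4 396 492))))) (node 495 (merge (node 496 (merge (leaf 0 460 462) (leaf 3 460 494))) (merge (node 462 (merge (leaf 0 460 496) (node 431 (merge (leaf 2 428 432) (leaf 4 431 527))))) (merge (node 496 (merge (leaf 3 460 494) (node 431 (merge (leaf 4 399 399) (leaf 4 431 527))))) (node 431 (merge (leaf 4 431 527) (node 462 (merge (leaf 2 428 432) (node 459 (merge (leaf 2 427 430) (leaf 0 459 494))))))))))))) (merge (node 428 (merge (node 396 (merge (leaf 7 396 429) (node 460 (merge (leaf 4 364 364) (leaf 4 396 492))))) (merge (node 429 (merge (leaf 7 396 396) (node 430 (merge (leaf 6 397 398) (node 462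 (merge (leaf 0 427 427) (leaf 6 429 557))))))) (node 557 (merge (leaf 7 428 460) (node 462 (merge (leaf 6 429 430) (node 589 (merge (leaf 6 461 494) (node 588 (merge (leaf 5 460 556) (leaf 5 492 620)))))))))))) (merge (node 460 (merge (node 428 (merge (leaf 7 428 557) (node 396 (merge (leaf 4 364 364) (leaf 7 396 429))))) (node 495 (merge (node 496 (merge (leaf 0 460 462) (leaf 3 460 494))) (merge (node 494 (merge (leaf 3 460 496) (node 492 (merge (leaf 3 459 459) (leaf 0 492 527))))) (merge (node 462 (merge (leaf 0 460 496) (node 431 (merge (leaf 2 428 432) (leaf 4 431 527))))) (node 431 (merge (leaf 4 431 527) (node 462 (merge (leaf 2 428 432) (node 459 (merge (leaf 0 459 494) (node 491 (merge (leaf 1 458 490) (leaf 1 459 492))))))))))))))) (merge (node 462 (merge (node 430 (merge (leaf 6 429 557) (node 398 (merge (leaf 5 365 366) (leaf 6 397 429))))) (merge (node 557 (merge (leaf 6 429 430) (node 589 (merge (leaf 6 461 494) (node 588 (merge (leaf 5 460 556) (leaf 5 492 620))))))) (node 495 (merge (node 496 (merge (leaf 0 460 460) (node 497 (merge (leaf 3 461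 494) (leaf 3 462 498))))) (merge (node 431 (merge (leaf 4 431 527) (node 460 (merge (leaf 2 428 432) (node 459 (merge (leaf 0 459 494) (node 491 (merge (leaf 1 458 490) (leaf 1 459 492))))))))) (node 431 (merge (leaf 4 431 527) (node 399 (merge (leaf 4 399 496) (node 368 (merge (leaf 6 367 400) (node 367 (merge (leaf 6 335 336) (node 366 (merge (leaf 7 334 334) (leaf 7 366 398))))))))))))))))) (merge (node 430 (merge (node 557 (merge (leaf 6 429 462) (node 590 (merge (leaf 4 461 558) (node 589 (merge (leaf 4 493 622) (node 588 (merge (leaf 5 460 556) (leaf 5 492 620))))))))) (node 429 (merge (leaf 6 397 398) (node 396 (merge (leaf 7 396 428) (node 397 (merge (leaf 7 364 364) (node 431 (merge (leaf 3 396 432) (node 495 (merge (leaf 4 431 527) (node 399 (merge (leaf 4 399 496) (node 368 (merge (leaf 6 367 400) (node 367 (merge (leaf 6 335 336) (node 366 (merge (leaf 7 334 334) (leaf 1 364 365))))))))))))))))))))) (merge (node 460 (merge (node 495 (merge (node 496 (merge (leaf 0 460 462) (leaf 3 460 494))) (merge (node 462 (merge (leaf 0 460 496) (node 431 (merge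 (leaf 2 428 432) (leaf 4 431 527))))) (merge (node 496 (merge (leaf 3 460 494) (node 431 (merge (leaf 4 399 399) (leaf 4 431 527))))) (node 431 (merge (leaf 4 431 527) (node 462 (merge (leaf 2 428 432) (node 459 (merge (leaf 2 427 430) (leaf 0 459 494))))))))))) (merge (node 462 (merge (node 428 (merge (leaf 3 427 427) (node 396 (merge (leaf 4 364 364) (leaf 7 396 429))))) (node 495 (merge (leaf 0 460 496) (node 459 (merge (leaf 0 459 494) (node 491 (merge (leaf 1 458 490) (leaf 1 459 492))))))))) (merge (node 462 (merge (node 428 (merge (leaf 3 427 427) (node 396 (merge (leaf 4 364 364) (leaf 7 396 429))))) (node 491 (merge (leaf 1 459 492) (node 459 (merge (leaf 1 458 490) (node 431 (merge (leaf 2 427 430) (leaf 2 428 432))))))))) (node 429 (merge (node 430 (merge (leaf 6 397 398) (node 431 (merge (leaf 1 428 432) (node 495 (merge (leaf 4 431 527) (node 496 (merge (leaf 4 399 399) (leaf 3 460 494))))))))) (node 397 (merge (node 396 (merge (leaf 7 364 364) (leaf 7 396 428))) (merge (node 365 (merge (leaf 5 364 492) (node 334 (merge (leaf 6 333 366) (node 333 (merge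 (leaf 6 301 302) (leaf 5 332 428))))))) (node 364 (merge (leaf 7 364 396) (node 365 (merge (leaf 7 332 332) (leaf 5 364 492)))))))))))))) (node 460 (merge (node 428 (merge (leaf 7 428 557) (node 396 (merge (leaf 4 364 364) (leaf 7 396 429))))) (merge (node 429 (merge (node 430 (merge (leaf 6 397 398) (node 431 (merge (leaf 1 428 432) (node 495 (merge (leaf 4 431 527) (node 496 (merge (leaf 4 399 399) (leaf 3 460 494))))))))) (node 397 (merge (node 396 (merge (leaf 7 364 364) (leaf 7 396 428))) (merge (node 365 (merge (leaf 5 364 492) (node 334 (merge (leaf 6 333 366) (node 333 (merge (leaf 6 301 302) (leaf 5 332 428))))))) (node 364 (merge (leaf 7 364 396) (node 365 (merge (leaf 7 332 332) (leaf 5 364 492)))))))))) (node 495 (merge (node 494 (merge (leaf 3 460 496) (node 459 (merge (leaf 0 458 458) (leaf 3 459 492))))) (merge (node 527 (merge (leaf 4 431 431) (node 492 (merge (leaf 0 492 494) (node 557 (merge (leaf 7 460 589) (node 558 (merge (leaf 4 461 590) (node 556 (merge (leaf 2 524 559) (leaf 5 460 588))))))))))) (node 431 (merge (leaf 4 431 527) (node 399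 (merge (leaf 4 399 496) (node 368 (merge (leaf 6 367 400) (node 367 (merge (leaf 6 335 336) (node 366 (merge (leaf 7 334 334) (leaf 7 366 398)))))))))))))))))))))))) (merge (node 431 (merge (node 495 (merge (leaf 4 431 527) (node 496 (merge (leaf 4 399 399) (node 462 (merge (leaf 0 460 460) (node 497 (merge (leaf 3 461 494) (leaf 3 462 498))))))))) (merge (node 495 (merge (leaf 4 431 527) (node 399 (merge (leaf 4 399 496) (node 368 (merge (leaf 6 367 400) (node 367 (merge (leaf 6 335 336) (node 366 (merge (leaf 7 334 334) (leaf 7 366 398))))))))))) (node 460 (merge (node 462 (merge (leaf 2 428 432) (node 459 (merge (leaf 2 427 430) (node 427 (merge (leaf 3 426 426) (leaf 3 427 428))))))) (merge (node 462 (merge (leaf 2 428 432) (node 491 (merge (leaf 1 459 492) (node 459 (merge (leaf 2 427 430) (leaf 1 458 490))))))) (merge (node 462 (merge (leaf 2 428 432) (node 491 (merge (leaf 1 459 492) (node 459 (merge (leaf 1 458 490) (node 427 (merge (leaf 3 426 426) (leaf 3 427 428))))))))) (merge (node 429 (merge (node 432 (merge (leaf 1 428 430) (leaf 2 428 462))) (merge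 (node 462 (merge (leaf 2 428 432) (node 492 (merge (leaf 1 459 491) (node 524 (merge (leaf 6 428 556) (node 397 (merge (leaf 5 364 365) (leaf 5 396 493))))))))) (merge (node 430 (merge (leaf 1 428 432) (node 493 (merge (leaf 6 397 398) (node 396 (merge (leaf 7 396 428) (node 397 (merge (leaf 7 364 364) (node 524 (merge (leaf 5 396 492) (leaf 5 428 556))))))))))) (node 492 (merge (node 524 (merge (leaf 6 428 556) (node 397 (merge (leaf 5 364 365) (leaf 5 396 493))))) (merge (node 524 (merge (leaf 6 428 556) (node 397 (merge (leaf 5 364 365) (leaf 6 396 428))))) (node 462 (merge (leaf 1 459 491) (node 428 (merge (leaf 3 427 427) (node 396 (merge (leaf 7 396 493) (node 395 (merge (leaf 7 363 363) (leaf 3 395 430)))))))))))))))) (merge (node 429 (merge (node 430 (merge (leaf 1 428 432) (node 459 (merge (leaf 1 427 428) (leaf 2 426 458))))) (merge (node 397 (merge (node 492 (merge (leaf 5 364 365) (node 524 (merge (leaf 5 396 493) (leaf 6 428 556))))) (merge (node 492 (merge (leaf 5 364 365) (node 524 (merge (leaf 6 396 428) (leaf 6 428 556))))) (merge (node 493 (merge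 (node 524 (merge (leaf 5 396 492) (leaf 5 428 556))) (node 396 (merge (leaf 7 364 364) (leaf 7 396 428))))) (node 493 (merge (node 396 (merge (leaf 7 364 364) (leaf 7 396 428))) (merge (node 366 (merge (leaf 6 365 398) (node 365 (merge (leaf 6 333 334) (node 428 (merge (leaf 5 332 333) (leaf 7 396 396))))))) (merge (node 366 (merge (leaf 6 365 398) (node 365 (merge (leaf 6 333 334) (node 364 (merge (leaf 7 332 332) (leaf 7 364 396))))))) (node 366 (merge (leaf 6 365 398) (node 365 (merge (leaf 6 333 334) (node 332 (merge (leaf 7 332 364) (node 333 (merge (leaf 7 300 300) (leaf 5 332 428))))))))))))))))) (node 397 (merge (node 365 (merge (leaf 5 364 492) (node 334 (merge (leaf 6 333 366) (node 333 (merge (leaf 6 301 302) (node 332 (merge (leaf 7 300 300) (leaf 7 332 364))))))))) (merge (node 430 (merge (leaf 1 428 432) (node 493 (merge (leaf 6 397 398) (node 524 (merge (leaf 5 396 492) (leaf 5 428 556))))))) (node 396 (merge (node 364 (merge (leaf 7 364 493) (node 332 (merge (leaf 4 300 300) (leaf 7 332 365))))) (node 430 (merge (leaf 1 428 432) (node 395 (merge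 (leaf 0 394 394) (leaf 0 395 398))))))))))))) (node 428 (merge (node 462 (merge (leaf 3 427 427) (node 491 (merge (leaf 1 459 492) (node 459 (merge (leaf 2 427 430) (leaf 1 458 490))))))) (merge (node 396 (merge (node 493 (merge (leaf 4 364 364) (leaf 7 396 429))) (merge (node 493 (merge (leaf 4 364 364) (leaf 4 396 492))) (merge (node 493 (merge (leaf 7 396 429) (leaf 4 396 492))) (node 364 (merge (node 333 (merge (leaf 6 332 365) (node 332 (merge (leaf 6 300 301) (leaf 4 332 429))))) (merge (node 331 (merge (leaf 7 331 363) (node 332 (merge (leaf 7 299 299) (leaf 4 332 429))))) (node 365 (merge (leaf 6 332 333) (node 492 (merge (leaf 6 364 397) (node 363 (merge (leaf 7 331 331) (leaf 7 363 395)))))))))))))) (node 462 (merge (leaf 3 427 427) (node 459 (merge (leaf 2 427 430) (node 490 (merge (leaf 1 458 491) (node 458 (merge (leaf 1 457 489) (node 457 (merge (leaf 2 425 429) (node 425 (merge (leaf 3 424 424) (leaf 3 425 426))))))))))))))))))))))))) (merge (node 495 (merge (node 431 (merge (leaf 4 431 527) (node 399 (merge (leaf 4 399 496) (node 368 (merge (leaf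 6 367 400) (node 367 (merge (leaf 6 335 336) (node 366 (merge (leaf 7 334 334) (leaf 7 366 398))))))))))) (merge (node 493 (merge (node 557 (merge (node 462 (merge (leaf 6 429 430) (node 460 (merge (leaf 7 428 428) (leaf 0 460 496))))) (node 558 (merge (leaf 4 461 590) (node 588 (merge (leaf 5 460 556) (node 589 (merge (leaf 1 556 559) (leaf 5 492 620))))))))) (merge (node 557 (merge (node 558 (merge (leaf 4 461 590) (node 588 (merge (leaf 5 460 556) (node 589 (merge (leaf 1 556 559) (leaf 5 492 620))))))) (merge (node 462 (merge (leaf 6 429 430) (node 589 (merge (leaf 6 461 494) (node 588 (merge (leaf 5 460 556) (leaf 5 492 620))))))) (node 558 (merge (leaf 4 461 590) (node 524 (merge (leaf 3 524 559) (node 523 (merge (leaf 0 522 522) (node 494 (merge (leaf 1 491 492) (leaf 1 492 496)))))))))))) (merge (node 557 (merge (node 558 (merge (leaf 4 461 590) (node 588 (merge (leaf 5 460 556) (node 589 (merge (leaf 1 556 559) (leaf 5 492 620))))))) (merge (node 462 (merge (leaf 6 429 430) (node 460 (merge (leaf 7 428 428) (node 492 (merge (leaf 1 459 491) (leaf 7 460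 589))))))) (node 462 (merge (leaf 6 429 430) (node 460 (merge (leaf 7 428 428) (node 492 (merge (leaf 1 459 491) (node 558 (merge (leaf 4 461 590) (node 524 (merge (leaf 3 524 559) (node 523 (merge (leaf 1 491 494) (leaf 0 522 522)))))))))))))))) (merge (node 460 (merge (node 494 (merge (leaf 3 460 496) (node 459 (merge (leaf 0 458 458) (leaf 3 459 492))))) (node 557 (merge (leaf 7 428 428) (node 590 (merge (leaf 4 461 558) (node 589 (merge (leaf 4 493 622) (node 588 (merge (leaf 5 460 556) (leaf 5 492 620))))))))))) (node 460 (merge (node 496 (merge (leaf 0 460 462) (leaf 3 460 494))) (merge (node 494 (merge (leaf 3 460 496) (node 459 (merge (leaf 0 458 458) (leaf 3 459 492))))) (merge (node 462 (merge (leaf 0 460 496) (node 492 (merge (leaf 1 459 491) (node 428 (merge (leaf 4 396 396) (leaf 3 427 427))))))) (node 428 (merge (node 396 (merge (leaf 4 364 364) (leaf 4 396 492))) (node 462 (merge (leaf 3 427 427) (node 459 (merge (leaf 0 459 494) (node 431 (merge (leaf 2 427 430) (leaf 2 428 432)))))))))))))))))) (merge (node 462 (merge (node 496 (merge (leaf 0 460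 460) (node 497 (merge (leaf 3 461 494) (leaf 3 462 498))))) (merge (node 460 (merge (leaf 0 460 496) (node 491 (merge (leaf 1 459 492) (node 459 (merge (leaf 1 458 490) (node 427 (merge (leaf 3 426 426) (leaf 3 427 428))))))))) (merge (node 493 (merge (node 430 (merge (leaf 6 429 557) (node 398 (merge (leaf 5 365 366) (leaf 5 397 494))))) (merge (node 494 (merge (node 492 (merge (leaf 2 459 491) (leaf 0 492 527))) (node 496 (merge (leaf 3 461 497) (leaf 1 492 524))))) (node 557 (merge (leaf 6 429 430) (node 558 (merge (leaf 4 461 590) (node 559 (merge (leaf 3 524 524) (node 588 (merge (leaf 5 460 556) (leaf 1 556 589)))))))))))) (node 460 (merge (node 428 (merge (leaf 3 427 427) (node 493 (merge (leaf 7 428 557) (node 396 (merge (leaf 4 364 364) (leaf 4 396 492))))))) (merge (node 491 (merge (leaf 1 459 492) (node 459 (merge (leaf 1 458 490) (node 427 (merge (leaf 3 426 426) (leaf 3 427 428))))))) (merge (node 557 (merge (node 493 (merge (leaf 7 428 428) (leaf 6 429 430))) (merge (node 492 (merge (leaf 1 459 491) (node 524 (merge (leaf 4 428 428) (node 589 (merge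 (leaf 4 460 556) (leaf 7 492 621))))))) (node 493 (merge (leaf 6 429 430) (node 589 (merge (leaf 6 461 494) (node 588 (merge (leaf 5 460 556) (leaf 5 492 620)))))))))) (merge (node 427 (merge (leaf 3 427 428) (node 459 (merge (leaf 3 426 426) (node 490 (merge (leaf 1 458 491) (node 458 (merge (leaf 1 457 489) (node 522 (merge (leaf 6 426 554) (node 493 (merge (leaf 0 458 494) (node 557 (merge (leaf 6 429 430) (node 558 (merge (leaf 4 461 590) (node 524 (merge (leaf 0 522 523) (leaf 3 524 559))))))))))))))))))) (node 491 (merge (leaf 1 459 492) (node 459 (merge (leaf 1 458 490) (node 426 (merge (leaf 3 426 427) (node 458 (merge (leaf 3 425 425) (node 493 (merge (leaf 0 458 494) (node 557 (merge (leaf 6 429 430) (node 523 (merge (leaf 7 426 555) (node 558 (merge (leaf 4 461 590) (node 524 (merge (leaf 0 522 522) (leaf 3 524 559)))))))))))))))))))))))))))) (node 462 (merge (node 527 (merge (leaf 4 431 431) (node 430 (merge (leaf 7 430 559) (node 398 (merge (leaf 4 366 366) (leaf 4 398 494))))))) (merge (node 431 (merge (leaf 4 431 527) (node 432 (merge (leaf 2 428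 460) (node 433 (merge (leaf 1 429 430) (leaf 1 430 434))))))) (merge (node 431 (merge (leaf 4 431 527) (node 460 (merge (leaf 2 428 432) (node 459 (merge (leaf 0 459 494) (node 491 (merge (leaf 1 458 490) (leaf 1 459 492))))))))) (node 460 (merge (node 428 (merge (leaf 3 427 427) (node 493 (merge (leaf 7 428 557) (node 396 (merge (leaf 4 364 364) (leaf 4 396 492))))))) (merge (node 491 (merge (leaf 1 459 492) (node 459 (merge (leaf 1 458 490) (node 427 (merge (leaf 3 426 426) (leaf 3 427 428))))))) (merge (node 557 (merge (node 493 (merge (leaf 7 428 428) (leaf 6 429 430))) (merge (node 492 (merge (leaf 1 459 491) (node 524 (merge (leaf 4 428 428) (node 589 (merge (leaf 4 460 556) (leaf 7 492 621))))))) (node 493 (merge (leaf 6 429 430) (node 589 (merge (leaf 6 461 494) (node 588 (merge (leaf 5 460 556) (leaf 5 492 620)))))))))) (merge (node 427 (merge (leaf 3 427 428) (node 459 (merge (leaf 3 426 426) (node 490 (merge (leaf 1 458 491) (node 458 (merge (leaf 1 457 489) (node 522 (merge (leaf 6 426 554) (node 493 (merge (leaf 0 458 494) (node 557 (merge (leaf 6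 429 430) (node 558 (merge (leaf 4 461 590) (node 524 (merge (leaf 0 522 523) (leaf 3 524 559))))))))))))))))))) (node 491 (merge (leaf 1 459 492) (node 459 (merge (leaf 1 458 490) (node 426 (merge (leaf 3 426 427) (node 458 (merge (leaf 3 425 425) (node 493 (merge (leaf 0 458 494) (node 557 (merge (leaf 6 429 430) (node 523 (merge (leaf 7 426 555) (node 558 (merge (leaf 4 461 590) (node 524 (merge (leaf 0 522 522) (leaf 3 524 559)))))))))))))))))))))))))))))))) (merge (node 493 (merge (node 557 (merge (node 462 (merge (leaf 6 429 430) (node 589 (merge (leaf 6 461 494) (node 590 (merge (leaf 4 461 558) (leaf 4 493 622))))))) (merge (node 556 (merge (leaf 5 460 588) (node 558 (merge (leaf 4 461 590) (node 559 (merge (leaf 3 524 524) (leaf 2 524 527))))))) (node 462 (merge (leaf 6 429 430) (node 589 (merge (leaf 6 461 494) (node 588 (merge (leaf 5 460 556) (leaf 5 492 620)))))))))) (merge (node 557 (merge (node 460 (merge (leaf 7 428 428) (node 589 (merge (leaf 7 460 492) (node 590 (merge (leaf 4 461 558) (leaf 4 493 622))))))) (merge (node 558 (merge (leaf 4 461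 590) (node 524 (merge (leaf 3 524 559) (node 556 (merge (leaf 5 428 429) (leaf 5 460 588))))))) (node 460 (merge (leaf 7 428 428) (node 589 (merge (leaf 7 460 492) (node 588 (merge (leaf 5 460 556) (leaf 5 492 620)))))))))) (merge (node 557 (merge (node 460 (merge (leaf 7 428 428) (node 589 (merge (leaf 7 460 492) (node 590 (merge (leaf 4 461 558) (leaf 4 493 622))))))) (merge (node 462 (merge (leaf 6 429 430) (node 589 (merge (leaf 6 461 494) (node 590 (merge (leaf 4 461 558) (leaf 4 493 622))))))) (merge (node 462 (merge (leaf 6 429 430) (node 460 (merge (leaf 7 428 428) (node 492 (merge (leaf 1 459 491) (leaf 7 460 589))))))) (node 462 (merge (leaf 6 429 430) (node 460 (merge (leaf 7 428 428) (node 495 (merge (leaf 0 460 496) (node 431 (merge (leaf 2 428 432) (leaf 4 431 527))))))))))))) (merge (node 462 (merge (node 430 (merge (leaf 6 429 557) (node 398 (merge (leaf 5 365 366) (leaf 6 397 429))))) (merge (node 557 (merge (leaf 6 429 430) (node 589 (merge (leaf 6 461 494) (node 588 (merge (leaf 5 460 556) (leaf 5 492 620))))))) (node 495 (merge (node 496 (merge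 (leaf 0 460 460) (node 497 (merge (leaf 3 461 494) (leaf 3 462 498))))) (merge (node 431 (merge (leaf 4 431 527) (node 460 (merge (leaf 2 428 432) (node 459 (merge (leaf 0 459 494) (node 491 (merge (leaf 1 458 490) (leaf 1 459 492))))))))) (node 431 (merge (leaf 4 431 527) (node 399 (merge (leaf 4 399 496) (node 368 (merge (leaf 6 367 400) (node 367 (merge (leaf 6 335 336) (node 366 (merge (leaf 7 334 334) (leaf 7 366 398))))))))))))))))) (node 495 (merge (node 431 (merge (leaf 4 431 527) (node 399 (merge (leaf 4 399 496) (node 368 (merge (leaf 6 367 400) (node 367 (merge (leaf 6 335 336) (node 366 (merge (leaf 7 334 334) (leaf 7 366 398))))))))))) (merge (node 494 (merge (node 492 (merge (leaf 0 492 527) (node 524 (merge (leaf 1 491 523) (node 429 (merge (leaf 5 396 397) (leaf 5 428 556))))))) (node 460 (merge (leaf 3 460 496) (node 459 (merge (leaf 0 458 458) (leaf 0 459 462))))))) (merge (node 429 (merge (node 527 (merge (leaf 4 431 431) (node 492 (merge (leaf 0 492 494) (node 524 (merge (leaf 5 396 397) (leaf 5 428 556))))))) (merge (node 398 (merge (leaf 6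 397 430) (node 366 (merge (leaf 6 365 397) (node 431 (merge (leaf 7 366 399) (leaf 4 431 527))))))) (merge (node 398 (merge (leaf 6 397 430) (node 397 (merge (leaf 6 365 366) (node 524 (merge (leaf 5 396 492) (leaf 5 428 556))))))) (node 430 (merge (leaf 6 397 398) (node 527 (merge (leaf 4 431 431) (node 492 (merge (leaf 0 492 494) (node 462 (merge (leaf 7 430 559) (node 491 (merge (leaf 1 459 460) (leaf 2 458 490))))))))))))))) (node 524 (merge (node 494 (merge (leaf 1 492 496) (node 523 (merge (leaf 1 491 492) (leaf 2 490 522))))) (merge (node 556 (merge (leaf 5 428 429) (node 588 (merge (leaf 6 460 492) (leaf 6 492 620))))) (node 496 (merge (leaf 1 492 494) (node 460 (merge (leaf 0 460 462) (node 431 (merge (leaf 4 399 399) (node 429 (merge (leaf 5 428 556) (node 430 (merge (leaf 6 397 398) (leaf 1 428 432))))))))))))))))))))))) (merge (node 493 (merge (node 557 (merge (node 462 (merge (leaf 6 429 430) (node 589 (merge (leaf 6 461 494) (node 590 (merge (leaf 4 461 558) (leaf 4 493 622))))))) (merge (node 556 (merge (leaf 5 460 588) (node 558 (merge (leaf 4 461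 590) (node 559 (merge (leaf 3 524 524) (leaf 2 524 527))))))) (node 462 (merge (leaf 6 429 430) (node 589 (merge (leaf 6 461 494) (node 588 (merge (leaf 5 460 556) (leaf 5 492 620)))))))))) (merge (node 430 (merge (node 462 (merge (leaf 6 429 557) (node 398 (merge (leaf 5 365 366) (leaf 5 397 494))))) (merge (node 429 (merge (leaf 6 397 398) (node 396 (merge (leaf 7 396 428) (node 397 (merge (leaf 7 364 364) (node 524 (merge (leaf 5 396 492) (leaf 5 428 556))))))))) (node 557 (merge (leaf 6 429 462) (node 558 (merge (leaf 4 461 590) (node 524 (merge (leaf 3 524 559) (node 429 (merge (leaf 5 428 556) (node 396 (merge (leaf 7 396 428) (node 397 (merge (leaf 7 364 364) (leaf 5 396 492)))))))))))))))) (merge (node 430 (merge (node 557 (merge (leaf 6 429 462) (node 590 (merge (leaf 4 461 558) (node 589 (merge (leaf 4 493 622) (node 588 (merge (leaf 5 460 556) (leaf 5 492 620))))))))) (node 429 (merge (leaf 6 397 398) (node 396 (merge (leaf 7 396 428) (node 397 (merge (leaf 7 364 364) (node 431 (merge (leaf 3 396 432) (node 495 (merge (leaf 4 431 527) (node 399 (merge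 (leaf 4 399 496) (node 368 (merge (leaf 6 367 400) (node 367 (merge (leaf 6 335 336) (node 366 (merge (leaf 7 334 334) (leaf 1 364 365))))))))))))))))))))) (merge (node 495 (merge (node 527 (merge (leaf 4 431 431) (node 494 (merge (leaf 0 492 492) (node 524 (merge (leaf 1 492 496) (node 556 (merge (leaf 5 428 429) (node 588 (merge (leaf 5 460 557) (leaf 6 492 620))))))))))) (merge (node 431 (merge (leaf 4 431 527) (node 399 (merge (leaf 4 399 496) (node 368 (merge (leaf 6 367 400) (node 367 (merge (leaf 6 335 336) (node 366 (merge (leaf 7 334 334) (leaf 7 366 398))))))))))) (merge (node 429 (merge (node 524 (merge (leaf 5 428 556) (node 494 (merge (leaf 1 492 496) (node 523 (merge (leaf 1 491 492) (leaf 2 490 522))))))) (node 398 (merge (leaf 6 397 430) (node 397 (merge (leaf 6 365 366) (node 396 (merge (leaf 7 364 364) (leaf 7 396 428))))))))) (node 429 (merge (node 398 (merge (leaf 6 397 430) (node 366 (merge (leaf 6 365 397) (node 431 (merge (leaf 7 366 399) (leaf 4 431 527))))))) (merge (node 396 (merge (leaf 7 396 428) (node 397 (merge (leaf 7 364 364) (node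 524 (merge (leaf 5 396 492) (leaf 5 428 556))))))) (node 527 (merge (leaf 4 431 431) (node 556 (merge (leaf 5 428 524) (node 557 (merge (leaf 5 460 588) (node 558 (merge (leaf 2 524 559) (leaf 4 461 590)))))))))))))))) (merge (node 557 (merge (node 558 (merge (leaf 4 461 590) (node 588 (merge (leaf 5 460 556) (node 589 (merge (leaf 1 556 559) (leaf 5 492 620))))))) (merge (node 558 (merge (leaf 4 461 590) (node 524 (merge (leaf 3 524 559) (node 556 (merge (leaf 5 428 429) (leaf 5 460 588))))))) (merge (node 494 (merge (node 589 (merge (leaf 6 461 462) (node 588 (merge (leaf 5 460 556) (leaf 5 492 620))))) (merge (node 462 (merge (leaf 6 461 589) (node 492 (merge (leaf 2 459 491) (node 495 (merge (leaf 0 492 527) (node 524 (merge (leaf 1 492 496) (leaf 1 491 523))))))))) (node 556 (merge (leaf 5 460 588) (node 524 (merge (leaf 5 428 429) (node 495 (merge (leaf 1 492 496) (node 523 (merge (leaf 1 491 492) (leaf 2 490 522)))))))))))) (node 494 (merge (node 589 (merge (leaf 6 461 462) (node 590 (merge (leaf 4 461 558) (leaf 4 493 622))))) (merge (node 558 (merge (leaf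 4 461 590) (node 524 (merge (leaf 3 524 559) (node 523 (merge (leaf 0 522 522) (node 495 (merge (leaf 1 491 492) (leaf 1 492 496))))))))) (node 462 (merge (leaf 6 461 589) (node 492 (merge (leaf 2 459 491) (node 495 (merge (leaf 0 492 527) (node 524 (merge (leaf 1 492 496) (leaf 1 491 523)))))))))))))))) (merge (node 495 (merge (node 431 (merge (leaf 4 431 527) (node 399 (merge (leaf 4 399 496) (node 368 (merge (leaf 6 367 400) (node 367 (merge (leaf 6 335 336) (node 366 (merge (leaf 7 334 334) (leaf 7 366 398))))))))))) (merge (node 431 (merge (leaf 4 431 527) (node 399 (merge (leaf 4 399 496) (node 368 (merge (leaf 6 367 400) (node 367 (merge (leaf 6 335 336) (node 334 (merge (leaf 7 334 366) (node 335 (merge (leaf 7 302 302) (node 462 (merge (leaf 5 334 430) (leaf 5 366 494))))))))))))))) (merge (node 557 (merge (node 462 (merge (leaf 6 429 430) (node 494 (merge (leaf 6 461 589) (node 496 (merge (leaf 3 461 497) (leaf 1 492 524))))))) (merge (node 462 (merge (leaf 6 429 430) (node 589 (merge (leaf 6 461 494) (node 590 (merge (leaf 4 461 558) (leaf 4 493 622)))))))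 (merge (node 558 (merge (leaf 4 461 590) (node 524 (merge (leaf 3 524 559) (node 523 (merge (leaf 0 522 522) (node 494 (merge (leaf 1 491 492) (leaf 1 492 496))))))))) (node 430 (merge (leaf 6 429 462) (node 429 (merge (leaf 6 397 398) (node 396 (merge (leaf 7 396 428) (node 397 (merge (leaf 7 364 364) (node 558 (merge (leaf 4 461 590) (node 524 (merge (leaf 5 396 492) (leaf 3 524 559))))))))))))))))) (node 430 (merge (node 462 (merge (leaf 6 429 557) (node 527 (merge (leaf 4 431 431) (leaf 7 430 559))))) (merge (node 398 (merge (leaf 6 397 429) (node 462 (merge (leaf 5 365 366) (leaf 5 397 494))))) (node 429 (merge (leaf 6 397 398) (node 396 (merge (leaf 7 396 428) (node 397 (merge (leaf 7 364 364) (node 527 (merge (leaf 4 431 431) (node 492 (merge (leaf 0 492 494) (leaf 5 396 524)))))))))))))))))) (node 495 (merge (node 431 (merge (leaf 4 431 527) (node 399 (merge (leaf 4 399 496) (node 368 (merge (leaf 6 367 400) (node 367 (merge (leaf 6 335 336) (node 366 (merge (leaf 7 334 334) (leaf 7 366 398))))))))))) (merge (node 527 (merge (leaf 4 431 431) (node 494 (merge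 (leaf 0 492 492) (node 496 (merge (leaf 1 492 524) (node 497 (merge (leaf 3 461 462) (node 498 (merge (leaf 1 495 499) (node 466 (merge (leaf 2 462 465) (leaf 2 463 467))))))))))))) (merge (node 524 (merge (node 494 (merge (leaf 1 492 496) (node 523 (merge (leaf 1 491 492) (leaf 2 490 522))))) (node 429 (merge (leaf 5 428 556) (node 398 (merge (leaf 6 397 430) (node 397 (merge (leaf 6 365 366) (node 396 (merge (leaf 7 364 364) (leaf 7 396 428))))))))))) (node 429 (merge (node 396 (merge (leaf 7 396 428) (node 397 (merge (leaf 7 364 364) (node 524 (merge (leaf 5 396 492) (leaf 5 428 556))))))) (merge (node 398 (merge (leaf 6 397 430) (node 397 (merge (leaf 6 365 366) (node 524 (merge (leaf 5 396 492) (leaf 5 428 556))))))) (node 430 (merge (leaf 6 397 398) (node 428 (merge (leaf 7 396 396) (node 462 (merge (leaf 0 427 427) (node 527 (merge (leaf 4 431 431) (leaf 7 430 559))))))))))))))))))))))) (merge (hyp 0) (merge (node 493 (merge (node 557 (merge (node 462 (merge (leaf 6 429 430) (node 589 (merge (leaf 6 461 494) (node 590 (merge (leaf 4 461 558) (leaf 4 493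 622))))))) (merge (node 556 (merge (leaf 5 460 588) (node 558 (merge (leaf 4 461 590) (node 559 (merge (leaf 3 524 524) (leaf 2 524 527))))))) (node 462 (merge (leaf 6 429 430) (node 589 (merge (leaf 6 461 494) (node 588 (merge (leaf 5 460 556) (leaf 5 492 620)))))))))) (merge (node 557 (merge (node 460 (merge (leaf 7 428 428) (node 589 (merge (leaf 7 460 492) (node 590 (merge (leaf 4 461 558) (leaf 4 493 622))))))) (merge (node 558 (merge (leaf 4 461 590) (node 524 (merge (leaf 3 524 559) (node 556 (merge (leaf 5 428 429) (leaf 5 460 588))))))) (node 460 (merge (leaf 7 428 428) (node 589 (merge (leaf 7 460 492) (node 588 (merge (leaf 5 460 556) (leaf 5 492 620)))))))))) (merge (node 557 (merge (node 460 (merge (leaf 7 428 428) (node 589 (merge (leaf 7 460 492) (node 590 (merge (leaf 4 461 558) (leaf 4 493 622))))))) (merge (node 462 (merge (leaf 6 429 430) (node 589 (merge (leaf 6 461 494) (node 590 (merge (leaf 4 461 558) (leaf 4 493 622))))))) (merge (node 462 (merge (leaf 6 429 430) (node 460 (merge (leaf 7 428 428) (node 492 (merge (leaf 1 459 491) (leaf 7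 460 589))))))) (node 462 (merge (leaf 6 429 430) (node 428 (merge (leaf 7 428 460) (node 429 (merge (leaf 7 396 396) (node 558 (merge (leaf 4 461 590) (node 524 (merge (leaf 3 524 559) (node 492 (merge (leaf 5 396 397) (node 491 (merge (leaf 2 458 490) (leaf 2 459 494))))))))))))))))))) (merge (node 428 (merge (node 396 (merge (leaf 7 396 429) (node 460 (merge (leaf 4 364 364) (leaf 4 396 492))))) (merge (node 429 (merge (leaf 7 396 396) (node 430 (merge (leaf 6 397 398) (node 462 (merge (leaf 0 427 427) (leaf 6 429 557))))))) (node 557 (merge (leaf 7 428 460) (node 462 (merge (leaf 6 429 430) (node 589 (merge (leaf 6 461 494) (node 588 (merge (leaf 5 460 556) (leaf 5 492 620)))))))))))) (node 492 (merge (node 462 (merge (node 491 (merge (leaf 1 459 460) (leaf 2 458 490))) (node 429 (merge (node 430 (merge (leaf 6 397 398) (node 428 (merge (leaf 7 396 396) (leaf 0 427 427))))) (merge (node 396 (merge (leaf 7 396 428) (node 397 (merge (leaf 7 364 364) (node 524 (merge (leaf 5 396 492) (leaf 5 428 556))))))) (node 398 (merge (leaf 6 397 430) (node 397 (merge (leaf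 6 365 366) (node 524 (merge (leaf 5 396 492) (leaf 5 428 556)))))))))))) (merge (node 462 (merge (node 491 (merge (leaf 2 458 490) (leaf 2 459 494))) (node 429 (merge (node 430 (merge (leaf 6 397 398) (node 428 (merge (leaf 7 396 396) (leaf 0 427 427))))) (merge (node 396 (merge (leaf 7 396 428) (node 397 (merge (leaf 7 364 364) (node 524 (merge (leaf 5 396 492) (leaf 5 428 556))))))) (node 398 (merge (leaf 6 397 430) (node 397 (merge (leaf 6 365 366) (node 524 (merge (leaf 5 396 492) (leaf 5 428 556)))))))))))) (merge (node 460 (merge (node 428 (merge (leaf 4 396 396) (node 427 (merge (leaf 3 427 462) (node 524 (merge (leaf 7 395 395) (node 429 (merge (leaf 6 396 397) (leaf 6 428 556))))))))) (merge (node 428 (merge (leaf 4 396 396) (node 462 (merge (leaf 3 427 427) (node 431 (merge (leaf 2 428 432) (node 459 (merge (leaf 2 427 430) (node 458 (merge (leaf 0 457 457) (leaf 0 458 494))))))))))) (merge (node 429 (merge (node 524 (merge (leaf 5 396 397) (leaf 5 428 556))) (node 430 (merge (leaf 6 397 398) (node 431 (merge (leaf 1 428 432) (node 459 (merge (leaf 2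 426 458) (leaf 2 427 462))))))))) (node 429 (merge (node 524 (merge (leaf 5 396 397) (leaf 5 428 556))) (node 430 (merge (leaf 6 397 398) (node 431 (merge (leaf 1 428 432) (node 459 (merge (leaf 1 427 428) (leaf 2 426 458))))))))))))) (merge (node 491 (merge (node 462 (merge (leaf 1 459 460) (leaf 2 459 494))) (merge (node 462 (merge (leaf 1 459 460) (leaf 2 458 490))) (merge (node 462 (merge (leaf 2 458 490) (leaf 2 459 494))) (node 490 (merge (node 521 (merge (leaf 1 489 522) (node 489 (merge (leaf 2 457 460) (leaf 1 488 520))))) (merge (node 489 (merge (leaf 2 457 460) (node 457 (merge (leaf 3 456 456) (leaf 3 457 458))))) (node 522 (merge (leaf 1 489 521) (node 494 (merge (leaf 1 490 523) (node 458 (merge (leaf 3 457 457) (leaf 3 458 459)))))))))))))) (node 524 (merge (node 429 (merge (leaf 5 428 556) (node 396 (merge (leaf 7 396 428) (node 397 (merge (leaf 7 364 364) (leaf 5 396 492))))))) (merge (node 523 (merge (node 522 (merge (leaf 2 490 494) (leaf 2 489 521))) (node 429 (merge (leaf 5 396 397) (node 430 (merge (leaf 6 397 398) (node 428 (merge (leaf 7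 396 396) (node 460 (merge (leaf 5 427 555) (node 431 (merge (leaf 1 428 432) (leaf 1 427 459))))))))))))) (node 491 (merge (node 459 (merge (node 458 (merge (leaf 3 458 494) (node 457 (merge (leaf 0 456 456) (leaf 0 457 460))))) (node 556 (merge (leaf 7 459 588) (node 427 (merge (leaf 4 395 395) (leaf 4 427 523))))))) (merge (node 490 (merge (leaf 0 489 489) (node 522 (merge (leaf 1 489 521) (node 523 (merge (leaf 1 490 494) (node 554 (merge (leaf 1 521 553) (node 459 (merge (leaf 5 426 427) (leaf 6 458 586))))))))))) (merge (node 490 (merge (leaf 0 489 489) (node 522 (merge (leaf 1 489 521) (node 458 (merge (leaf 3 457 457) (node 459 (merge (leaf 3 458 494) (node 427 (merge (leaf 4 395 395) (leaf 6 426 554))))))))))) (merge (node 459 (merge (node 556 (merge (leaf 7 459 588) (node 427 (merge (leaf 4 395 395) (leaf 4 427 523))))) (merge (node 490 (merge (leaf 0 489 489) (node 522 (merge (leaf 1 489 521) (node 554 (merge (leaf 6 458 586) (node 427 (merge (leaf 4 395 395) (leaf 6 426 458))))))))) (node 490 (merge (leaf 0 489 489) (node 522 (merge (leaf 1 489 521)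 (node 554 (merge (leaf 6 458 586) (node 556 (merge (leaf 7 459 588) (node 553 (merge (leaf 1 521 523) (leaf 2 521 555)))))))))))))) (node 490 (merge (leaf 0 489 489) (node 522 (merge (leaf 1 489 521) (node 523 (merge (leaf 1 490 494) (node 458 (merge (leaf 3 457 457) (node 426 (merge (leaf 4 394 394) (leaf 4 426 555))))))))))))))))))))))))))))) (merge (hyp 1) (merge (node 495 (merge (node 431 (merge (leaf 4 431 527) (node 399 (merge (leaf 4 399 496) (node 368 (merge (leaf 6 367 400) (node 367 (merge (leaf 6 335 336) (node 366 (merge (leaf 7 334 334) (leaf 7 366 398))))))))))) (merge (node 493 (merge (node 460 (merge (node 496 (merge (leaf 0 460 462) (leaf 3 460 494))) (node 428 (merge (leaf 7 428 557) (node 396 (merge (leaf 4 364 364) (leaf 7 396 429))))))) (merge (node 460 (merge (node 496 (merge (leaf 0 460 462) (leaf 3 460 494))) (node 428 (merge (leaf 7 428 557) (node 396 (merge (leaf 4 364 364) (leaf 4 396 492))))))) (merge (node 557 (merge (node 460 (merge (leaf 7 428 428) (node 589 (merge (leaf 7 460 492) (node 590 (merge (leaf 4 461 558) (leaf 4 493 622)))))))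 (merge (node 558 (merge (leaf 4 461 590) (node 524 (merge (leaf 3 524 559) (node 556 (merge (leaf 5 428 429) (leaf 5 460 588))))))) (node 460 (merge (leaf 7 428 428) (node 589 (merge (leaf 7 460 492) (node 588 (merge (leaf 5 460 556) (leaf 5 492 620)))))))))) (merge (node 557 (merge (node 558 (merge (leaf 4 461 590) (node 588 (merge (leaf 5 460 556) (node 589 (merge (leaf 1 556 559) (leaf 5 492 620))))))) (merge (node 556 (merge (leaf 5 460 588) (node 524 (merge (leaf 5 428 429) (node 494 (merge (leaf 1 492 496) (node 523 (merge (leaf 1 491 492) (leaf 2 490 522))))))))) (node 558 (merge (leaf 4 461 590) (node 524 (merge (leaf 3 524 559) (node 523 (merge (leaf 0 522 522) (node 494 (merge (leaf 1 491 492) (leaf 1 492 496)))))))))))) (node 524 (merge (node 494 (merge (leaf 1 492 496) (node 523 (merge (leaf 1 491 492) (leaf 2 490 522))))) (merge (node 556 (merge (leaf 5 428 429) (node 588 (merge (leaf 6 460 492) (leaf 6 492 620))))) (node 494 (merge (leaf 1 492 496) (node 429 (merge (leaf 5 428 556) (node 396 (merge (leaf 7 396 428) (node 397 (merge (leaf 7 364 364)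 (node 366 (merge (leaf 6 365 398) (node 365 (merge (leaf 6 333 334) (leaf 4 365 462))))))))))))))))))))) (node 460 (merge (node 431 (merge (leaf 4 431 527) (node 462 (merge (leaf 2 428 432) (node 459 (merge (leaf 0 459 494) (node 427 (merge (leaf 3 426 426) (leaf 3 427 428))))))))) (merge (node 431 (merge (leaf 4 431 527) (node 462 (merge (leaf 2 428 432) (node 459 (merge (leaf 0 459 494) (node 491 (merge (leaf 1 458 490) (leaf 1 459 492))))))))) (merge (node 462 (merge (node 459 (merge (leaf 0 459 494) (node 427 (merge (leaf 3 426 426) (leaf 3 427 428))))) (merge (node 459 (merge (leaf 0 459 494) (node 491 (merge (leaf 1 458 490) (leaf 1 459 492))))) (node 492 (merge (leaf 1 459 491) (node 428 (merge (leaf 3 427 427) (node 557 (merge (leaf 7 428 493) (leaf 4 428 524)))))))))) (merge (node 431 (merge (leaf 4 431 527) (node 462 (merge (leaf 2 428 432) (node 492 (merge (leaf 1 459 491) (node 428 (merge (leaf 3 427 427) (node 493 (merge (leaf 4 396 396) (leaf 7 428 557))))))))))) (node 492 (merge (node 527 (merge (leaf 4 431 431) (node 493 (merge (leaf 0 492 494)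 (node 428 (merge (leaf 4 396 396) (leaf 7 428 557))))))) (merge (node 524 (merge (node 429 (merge (leaf 6 428 556) (node 397 (merge (leaf 5 364 365) (leaf 6 396 428))))) (merge (node 557 (merge (leaf 4 428 428) (node 589 (merge (leaf 4 460 556) (leaf 7 492 621))))) (merge (node 428 (merge (leaf 4 428 557) (node 397 (merge (leaf 6 396 429) (node 396 (merge (leaf 6 364 365) (node 523 (merge (leaf 5 395 491) (leaf 5 427 555))))))))) (node 556 (merge (leaf 6 428 429) (node 459 (merge (leaf 7 427 427) (node 588 (merge (leaf 7 459 491) (node 587 (merge (leaf 5 459 555) (leaf 5 491 619))))))))))))) (merge (node 527 (merge (leaf 4 431 431) (node 493 (merge (leaf 0 492 494) (node 557 (merge (leaf 7 460 589) (node 558 (merge (leaf 4 461 590) (node 556 (merge (leaf 2 524 559) (leaf 5 460 588))))))))))) (node 524 (merge (node 429 (merge (leaf 6 428 556) (node 397 (merge (leaf 5 364 365) (leaf 6 396 428))))) (merge (node 556 (merge (leaf 6 428 429) (node 493 (merge (leaf 6 460 588) (node 527 (merge (leaf 4 431 431) (leaf 0 492 494))))))) (node 527 (merge (leaf 4 431 431) (node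 493 (merge (leaf 0 492 494) (node 428 (merge (leaf 4 396 396) (node 427 (merge (leaf 7 395 395) (node 523 (merge (leaf 5 427 555) (node 522 (merge (leaf 2 489 521) (node 554 (merge (leaf 1 521 553) (node 490 (merge (leaf 3 489 489) (node 459 (merge (leaf 6 426 458) (leaf 5 426 491)))))))))))))))))))))))))))))))))) (merge (hyp 2) (merge (hyp 3) (merge (node 431 (merge (node 495 (merge (leaf 4 431 527) (node 496 (merge (leaf 4 399 399) (node 462 (merge (leaf 0 460 460) (node 497 (merge (leaf 3 461 494) (leaf 3 462 498))))))))) (merge (node 495 (merge (leaf 4 431 527) (node 399 (merge (leaf 4 399 496) (node 368 (merge (leaf 6 367 400) (node 367 (merge (leaf 6 335 336) (node 366 (merge (leaf 7 334 334) (leaf 7 366 398))))))))))) (merge (node 462 (merge (node 432 (merge (leaf 2 428 460) (node 433 (merge (leaf 1 429 430) (leaf 1 430 434))))) (merge (node 460 (merge (leaf 2 428 432) (node 428 (merge (leaf 3 427 427) (node 493 (merge (leaf 7 428 557) (node 396 (merge (leaf 4 364 364) (leaf 7 396 429))))))))) (merge (node 460 (merge (node 428 (merge (leaf 3 427 427) (node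 493 (merge (leaf 7 428 557) (node 396 (merge (leaf 4 364 364) (leaf 7 396 429))))))) (merge (node 459 (merge (leaf 2 427 430) (node 490 (merge (leaf 1 458 491) (node 458 (merge (leaf 1 457 489) (node 426 (merge (leaf 3 425 425) (leaf 3 426 427))))))))) (node 459 (merge (leaf 2 427 430) (node 490 (merge (leaf 1 458 491) (node 458 (merge (leaf 1 457 489) (node 493 (merge (leaf 0 458 494) (node 428 (merge (leaf 7 428 557) (node 429 (merge (leaf 7 396 396) (leaf 2 425 457)))))))))))))))) (node 493 (merge (node 430 (merge (leaf 6 429 557) (node 398 (merge (leaf 5 365 366) (leaf 6 397 429))))) (merge (node 430 (merge (leaf 6 429 557) (node 398 (merge (leaf 5 365 366) (leaf 5 397 494))))) (merge (node 557 (merge (node 589 (merge (leaf 6 461 494) (node 590 (merge (leaf 4 461 558) (leaf 4 493 622))))) (merge (node 589 (merge (leaf 6 461 494) (node 588 (merge (leaf 5 460 556) (leaf 5 492 620))))) (node 558 (merge (leaf 4 461 590) (node 524 (merge (leaf 3 524 559) (node 556 (merge (leaf 5 428 429) (leaf 5 460 588)))))))))) (node 429 (merge (node 428 (merge (leaf 7 396 396)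 (node 427 (merge (leaf 0 426 426) (leaf 0 427 430))))) (merge (node 396 (merge (leaf 7 396 428) (node 397 (merge (leaf 7 364 364) (node 366 (merge (leaf 6 365 398) (node 365 (merge (leaf 6 333 334) (leaf 4 365 494))))))))) (merge (node 398 (merge (leaf 6 397 430) (node 397 (merge (leaf 6 365 366) (node 364 (merge (leaf 7 364 396) (node 365 (merge (leaf 7 332 332) (leaf 4 365 494))))))))) (node 430 (merge (leaf 6 397 398) (node 428 (merge (leaf 0 427 427) (node 432 (merge (leaf 1 429 433) (node 400 (merge (leaf 2 396 399) (leaf 2 397 401))))))))))))))))))))) (node 462 (merge (node 432 (merge (leaf 2 428 460) (node 433 (merge (leaf 1 429 430) (leaf 1 430 434))))) (merge (node 460 (merge (leaf 2 428 432) (node 495 (merge (leaf 0 460 496) (leaf 4 431 527))))) (node 493 (merge (node 430 (merge (leaf 6 429 557) (node 398 (merge (leaf 5 365 366) (leaf 6 397 429))))) (merge (node 430 (merge (leaf 6 429 557) (node 398 (merge (leaf 5 365 366) (leaf 5 397 494))))) (merge (node 557 (merge (node 589 (merge (leaf 6 461 494) (node 590 (merge (leaf 4 461 558) (leaf 4 493 622)))))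 (merge (node 589 (merge (leaf 6 461 494) (node 588 (merge (leaf 5 460 556) (leaf 5 492 620))))) (node 558 (merge (leaf 4 461 590) (node 524 (merge (leaf 3 524 559) (node 556 (merge (leaf 5 428 429) (leaf 5 460 588)))))))))) (node 495 (merge (leaf 4 431 527) (node 429 (merge (node 430 (merge (leaf 6 397 398) (node 428 (merge (leaf 7 396 396) (leaf 0 427 427))))) (merge (node 398 (merge (leaf 6 397 430) (node 397 (merge (leaf 6 365 366) (node 494 (merge (leaf 4 365 365) (node 524 (merge (leaf 1 492 496) (leaf 5 428 556))))))))) (node 396 (merge (leaf 7 396 428) (node 397 (merge (leaf 7 364 364) (node 494 (merge (leaf 4 365 365) (node 524 (merge (leaf 1 492 496) (leaf 5 428 556))))))))))))))))))))))))) (merge (hyp 4) (node 460 (merge (node 431 (merge (node 462 (merge (leaf 2 428 432) (node 491 (merge (leaf 1 459 492) (node 459 (merge (leaf 2 427 430) (leaf 1 458 490))))))) (node 495 (merge (leaf 4 431 527) (node 399 (merge (leaf 4 399 496) (node 368 (merge (leaf 6 367 400) (node 367 (merge (leaf 6 335 336) (node 366 (merge (leaf 7 334 334) (leaf 7 366 398)))))))))))))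 (merge (node 431 (merge (node 462 (merge (leaf 2 428 432) (node 459 (merge (leaf 2 427 430) (node 427 (merge (leaf 3 426 426) (leaf 3 427 428))))))) (node 495 (merge (leaf 4 431 527) (node 399 (merge (leaf 4 399 496) (node 368 (merge (leaf 6 367 400) (node 367 (merge (leaf 6 335 336) (node 366 (merge (leaf 7 334 334) (leaf 7 366 398))))))))))))) (merge (node 462 (merge (node 495 (merge (leaf 0 460 496) (node 459 (merge (leaf 0 459 494) (node 427 (merge (leaf 3 426 426) (leaf 3 427 428))))))) (merge (node 495 (merge (leaf 0 460 496) (node 459 (merge (leaf 0 459 494) (node 491 (merge (leaf 1 458 490) (leaf 1 459 492))))))) (node 492 (merge (leaf 1 459 491) (node 428 (merge (leaf 3 427 427) (node 396 (merge (node 365 (merge (leaf 6 364 397) (node 364 (merge (leaf 6 332 333) (node 363 (merge (leaf 7 331 331) (leaf 7 363 395))))))) (merge (node 397 (merge (leaf 6 364 365) (node 524 (merge (leaf 6 396 429) (node 557 (merge (leaf 4 428 525) (node 556 (merge (leaf 4 460 589) (node 555 (merge (leaf 5 427 523) (leaf 5 459 587))))))))))) (merge (node 363 (merge (leaf 7 363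 395) (node 364 (merge (leaf 7 331 331) (node 429 (merge (leaf 4 332 332) (node 524 (merge (leaf 6 396 397) (leaf 6 428 556))))))))) (node 363 (merge (leaf 7 363 395) (node 364 (merge (leaf 7 331 331) (node 333 (merge (leaf 6 332 365) (node 332 (merge (leaf 6 300 301) (leaf 4 332 429)))))))))))))))))))) (merge (node 462 (merge (node 431 (merge (leaf 2 428 432) (node 459 (merge (leaf 2 427 430) (node 427 (merge (leaf 3 426 426) (leaf 3 427 428))))))) (merge (node 491 (merge (leaf 1 459 492) (node 459 (merge (leaf 1 458 490) (node 431 (merge (leaf 2 427 430) (leaf 2 428 432))))))) (node 492 (merge (leaf 1 459 491) (node 428 (merge (leaf 3 427 427) (node 396 (merge (node 365 (merge (leaf 6 364 397) (node 364 (merge (leaf 6 332 333) (node 363 (merge (leaf 7 331 331) (leaf 7 363 395))))))) (merge (node 397 (merge (leaf 6 364 365) (node 524 (merge (leaf 6 396 429) (node 557 (merge (leaf 4 428 525) (node 556 (merge (leaf 4 460 589) (node 555 (merge (leaf 5 427 523) (leaf 5 459 587))))))))))) (merge (node 363 (merge (leaf 7 363 395) (node 364 (merge (leaf 7 331 331) (node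 429 (merge (leaf 4 332 332) (node 524 (merge (leaf 6 396 397) (leaf 6 428 556))))))))) (node 363 (merge (leaf 7 363 395) (node 364 (merge (leaf 7 331 331) (node 333 (merge (leaf 6 332 365) (node 332 (merge (leaf 6 300 301) (leaf 4 332 429)))))))))))))))))))) (merge (node 462 (merge (node 495 (merge (leaf 0 460 496) (node 431 (merge (leaf 2 428 432) (leaf 4 431 527))))) (node 492 (merge (leaf 1 459 491) (node 428 (merge (leaf 3 427 427) (node 396 (merge (node 365 (merge (leaf 6 364 397) (node 364 (merge (leaf 6 332 333) (node 363 (merge (leaf 7 331 331) (leaf 7 363 395))))))) (merge (node 397 (merge (leaf 6 364 365) (node 524 (merge (leaf 6 396 429) (node 557 (merge (leaf 4 428 525) (node 556 (merge (leaf 4 460 589) (node 555 (merge (leaf 5 427 523) (leaf 5 459 587))))))))))) (merge (node 363 (merge (leaf 7 363 395) (node 364 (merge (leaf 7 331 331) (node 429 (merge (leaf 4 332 332) (node 524 (merge (leaf 6 396 397) (leaf 6 428 556))))))))) (node 363 (merge (leaf 7 363 395) (node 364 (merge (leaf 7 331 331) (node 333 (merge (leaf 6 332 365) (node 332 (merge (leaf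 6 300 301) (leaf 4 332 429))))))))))))))))))) (hyp 5))))))))))))))))))))))) nP_343 cP_343 17 (by decide +kernel)
def nP_344 : ℕ := 0x100000001000000000000000080000000000000000000000000000000000000000000000000000000000000000000000000000000000000000000000000000000000000000000
def cP_344 : ℕ := 0x280000007c000000fe000007ff000007ffc0000effc0000effc0001cffc0000fffc0000e7f80001fffc0000fffc0003fffc0001fff00003ffe00000ffe000007f8000007f800000000000000000000000000000000000000000000000000
theorem lP_344 : S nP_344 cP_344 18 := S_of_chk [(nP_234, cP_234, 9), (nP_261, cP_261, 17), (nP_262, cP_262, 11), (nP_263, cP_263, 14), (nP_264, cP_264, 12), (nP_266, cP_266, 16), (nP_271, cP_271, 17), (nP_274, cP_274, 13), (nP_287, cP_287, 16), (nP_289, cP_289, 13), (nP_299, cP_299, 16), (nP_311, cP_311, 16), (nP_343, cP_343, 17)] ⟨lP_234, lP_261, lP_262, lP_263, lP_264, lP_266, lP_271, lP_274, lP_287, lP_289, lP_299, lP_311, lP_343, trivial⟩ (node 525 (merge (node 526 (merge (node 527 (merge (leaf 0 525 561) (node 496 (merge (leaf 2 493 497) (node 495 (merge (leaf 4 431 431) (leaf 2 492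 524))))))) (merge (node 527 (merge (leaf 0 525 561) (node 492 (merge (leaf 3 492 493) (node 524 (merge (leaf 3 491 491) (leaf 0 524 559))))))) (merge (node 558 (merge (node 561 (merge (leaf 0 525 527) (leaf 3 525 559))) (merge (node 527 (merge (leaf 0 525 561) (node 495 (merge (leaf 4 431 431) (node 590 (merge (leaf 6 462 494) (leaf 6 494 622))))))) (merge (node 494 (merge (node 590 (merge (leaf 6 462 495) (node 493 (merge (leaf 7 461 461) (leaf 7 493 622))))) (node 462 (merge (leaf 6 430 431) (node 559 (merge (leaf 3 525 561) (leaf 4 462 591))))))) (node 590 (merge (node 493 (merge (leaf 7 493 622) (node 461 (merge (leaf 4 429 429) (leaf 4 461 557))))) (node 495 (merge (leaf 6 462 494) (node 527 (merge (leaf 5 430 431) (leaf 5 462 559))))))))))) (merge (node 527 (merge (node 524 (merge (leaf 0 524 559) (node 495 (merge (leaf 4 431 431) (leaf 2 492 496))))) (node 557 (merge (leaf 1 524 556) (node 589 (merge (node 494 (merge (leaf 6 493 621) (node 462 (merge (leaf 5 429 430) (leaf 6 461 493))))) (merge (node 621 (merge (leaf 6 493 494) (node 653 (merge (leaf 6 525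 558) (node 652 (merge (leaf 5 524 620) (leaf 5 556 684))))))) (merge (node 493 (merge (leaf 3 492 492) (node 462 (merge (leaf 6 461 494) (node 461 (merge (leaf 6 429 430) (node 590 (merge (leaf 4 461 558) (leaf 4 493 622))))))))) (node 493 (merge (leaf 3 492 492) (node 590 (merge (leaf 4 493 622) (node 558 (merge (leaf 4 461 461) (node 621 (merge (leaf 6 525 653) (node 620 (merge (leaf 5 492 588) (leaf 5 524 652))))))))))))))))))) (node 558 (merge (node 559 (merge (leaf 3 525 561) (node 557 (merge (leaf 3 524 524) (node 589 (merge (leaf 1 556 588) (node 494 (merge (leaf 5 461 462) (leaf 6 493 621))))))))) (merge (node 494 (merge (node 590 (merge (leaf 6 462 495) (node 493 (merge (leaf 7 461 461) (leaf 7 493 622))))) (node 462 (merge (leaf 6 430 431) (node 559 (merge (leaf 3 525 561) (leaf 4 462 591))))))) (merge (node 494 (merge (node 590 (merge (leaf 6 462 495) (node 493 (merge (leaf 7 461 461) (leaf 7 493 622))))) (merge (node 431 (merge (leaf 6 430 462) (node 495 (merge (leaf 5 398 399) (leaf 6 462 590))))) (node 462 (merge (leaf 6 430 431) (node 429 (merge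 (leaf 7 429 461) (node 430 (merge (leaf 7 397 397) (leaf 5 429 557)))))))))) (node 559 (merge (leaf 3 525 561) (node 557 (merge (leaf 3 524 524) (node 589 (merge (leaf 1 556 588) (node 621 (merge (leaf 6 525 653) (node 622 (merge (leaf 4 525 654) (node 493 (merge (leaf 7 493 590) (node 460 (merge (leaf 7 460 492) (node 461 (merge (leaf 7 428 428) (leaf 4 429 429)))))))))))))))))))))))))) (merge (node 526 (merge (node 527 (merge (leaf 0 525 561) (node 496 (merge (leaf 2 493 497) (node 495 (merge (leaf 4 431 431) (leaf 2 492 524))))))) (merge (node 527 (merge (leaf 0 525 561) (node 492 (merge (leaf 3 492 493) (node 524 (merge (leaf 3 491 491) (leaf 0 524 559))))))) (merge (node 558 (merge (node 561 (merge (leaf 0 525 527) (leaf 3 525 559))) (merge (node 527 (merge (leaf 0 525 561) (node 495 (merge (leaf 4 431 431) (node 590 (merge (leaf 6 462 494) (leaf 6 494 622))))))) (merge (node 494 (merge (node 590 (merge (leaf 6 462 495) (node 493 (merge (leaf 7 461 461) (leaf 7 493 622))))) (node 462 (merge (leaf 6 430 431) (node 559 (merge (leaf 3 525 561) (leaf 4 462 591)))))))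 (node 590 (merge (node 493 (merge (leaf 7 493 622) (node 461 (merge (leaf 4 429 429) (leaf 4 461 557))))) (node 495 (merge (leaf 6 462 494) (node 527 (merge (leaf 5 430 431) (leaf 5 462 559))))))))))) (merge (node 558 (merge (node 559 (merge (leaf 3 525 561) (node 524 (merge (leaf 0 523 523) (leaf 3 524 557))))) (merge (node 494 (merge (node 590 (merge (leaf 6 462 495) (node 493 (merge (leaf 7 461 461) (leaf 7 493 622))))) (merge (node 431 (merge (leaf 6 430 462) (node 495 (merge (leaf 5 398 399) (leaf 6 462 590))))) (node 462 (merge (leaf 6 430 431) (node 429 (merge (leaf 7 429 461) (node 430 (merge (leaf 7 397 397) (leaf 5 429 557)))))))))) (node 494 (merge (node 590 (merge (leaf 6 462 495) (node 493 (merge (leaf 7 461 461) (leaf 7 493 622))))) (node 462 (merge (leaf 6 430 431) (node 559 (merge (leaf 3 525 561) (leaf 4 462 591)))))))))) (node 524 (merge (node 527 (merge (leaf 0 524 559) (node 492 (merge (leaf 3 491 491) (leaf 3 492 493))))) (merge (node 527 (merge (leaf 0 524 559) (node 556 (merge (leaf 1 523 555) (leaf 1 524 557))))) (node 523 (merge (node 554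 (merge (leaf 1 522 555) (node 522 (merge (leaf 1 521 553) (node 490 (merge (leaf 3 489 489) (leaf 3 490 491))))))) (merge (node 554 (merge (leaf 1 522 555) (node 522 (merge (leaf 1 521 553) (node 494 (merge (leaf 2 490 493) (leaf 2 491 495))))))) (merge (node 494 (merge (leaf 2 491 495) (node 522 (merge (leaf 2 490 493) (node 490 (merge (leaf 3 489 489) (leaf 3 490 491))))))) (node 494 (merge (leaf 2 491 495) (node 491 (merge (leaf 3 490 490) (node 459 (merge (node 556 (merge (leaf 4 427 427) (node 588 (merge (leaf 7 459 492) (leaf 7 491 620))))) (merge (node 555 (merge (leaf 1 522 554) (node 556 (merge (leaf 4 427 427) (leaf 4 459 588))))) (node 555 (merge (leaf 1 522 554) (node 460 (merge (leaf 6 427 428) (node 492 (merge (leaf 6 459 587) (node 458 (merge (leaf 7 426 426) (leaf 3 458 493)))))))))))))))))))))))))))) (merge (node 526 (merge (node 527 (merge (leaf 0 525 561) (node 496 (merge (leaf 2 493 497) (node 495 (merge (leaf 4 431 431) (leaf 2 492 524))))))) (merge (node 527 (merge (leaf 0 525 561) (node 492 (merge (leaf 3 492 493) (node 524 (merge (leaf 3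 491 491) (leaf 0 524 559))))))) (merge (node 558 (merge (node 561 (merge (leaf 0 525 527) (leaf 3 525 559))) (merge (node 527 (merge (leaf 0 525 561) (node 495 (merge (leaf 4 431 431) (node 590 (merge (leaf 6 462 494) (leaf 6 494 622))))))) (merge (node 590 (merge (node 493 (merge (leaf 7 493 622) (node 461 (merge (leaf 4 429 429) (leaf 4 461 557))))) (node 495 (merge (leaf 6 462 494) (node 527 (merge (leaf 5 430 431) (leaf 5 462 559))))))) (node 590 (merge (node 493 (merge (leaf 7 493 622) (node 494 (merge (leaf 7 461 461) (leaf 6 462 495))))) (merge (node 493 (merge (leaf 7 493 622) (node 461 (merge (leaf 4 429 429) (leaf 4 461 557))))) (node 494 (merge (leaf 6 462 495) (node 559 (merge (leaf 3 525 561) (node 589 (merge (leaf 5 493 621) (node 588 (merge (leaf 1 556 557) (leaf 2 555 587)))))))))))))))) (merge (node 524 (merge (node 527 (merge (leaf 0 524 559) (node 492 (merge (leaf 3 491 491) (leaf 3 492 493))))) (merge (node 527 (merge (leaf 0 524 559) (node 556 (merge (leaf 1 523 555) (leaf 1 524 557))))) (node 523 (merge (node 554 (merge (leaf 1 522 555) (node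 522 (merge (leaf 1 521 553) (node 490 (merge (leaf 3 489 489) (leaf 3 490 491))))))) (merge (node 554 (merge (leaf 1 522 555) (node 522 (merge (leaf 1 521 553) (node 494 (merge (leaf 2 490 493) (leaf 2 491 495))))))) (merge (node 494 (merge (leaf 2 491 495) (node 522 (merge (leaf 2 490 493) (node 490 (merge (leaf 3 489 489) (leaf 3 490 491))))))) (node 494 (merge (leaf 2 491 495) (node 491 (merge (leaf 3 490 490) (node 459 (merge (node 556 (merge (leaf 4 427 427) (node 588 (merge (leaf 7 459 492) (leaf 7 491 620))))) (merge (node 555 (merge (leaf 1 522 554) (node 556 (merge (leaf 4 427 427) (leaf 4 459 588))))) (node 555 (merge (leaf 1 522 554) (node 460 (merge (leaf 6 427 428) (node 492 (merge (leaf 6 459 587) (node 458 (merge (leaf 7 426 426) (leaf 3 458 493))))))))))))))))))))))) (node 558 (merge (node 559 (merge (leaf 3 525 561) (node 524 (merge (leaf 0 523 523) (leaf 3 524 557))))) (merge (node 590 (merge (node 493 (merge (leaf 7 493 622) (node 494 (merge (leaf 7 461 461) (leaf 6 462 495))))) (merge (node 493 (merge (leaf 7 493 622) (node 461 (merge (leaf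 4 429 429) (leaf 4 461 557))))) (node 494 (merge (leaf 6 462 495) (node 559 (merge (leaf 3 525 561) (node 589 (merge (leaf 5 493 621) (node 588 (merge (leaf 1 556 557) (leaf 2 555 587)))))))))))) (merge (node 590 (merge (node 493 (merge (leaf 7 493 622) (node 461 (merge (leaf 4 429 429) (leaf 7 461 494))))) (merge (node 622 (merge (leaf 7 493 493) (node 655 (merge (leaf 4 526 623) (node 654 (merge (leaf 4 558 687) (node 653 (merge (leaf 5 525 621) (leaf 5 557 685))))))))) (merge (node 589 (merge (node 621 (merge (leaf 5 493 494) (node 653 (merge (leaf 5 525 622) (leaf 6 557 685))))) (node 559 (merge (leaf 1 557 561) (node 588 (merge (leaf 2 555 587) (leaf 2 556 591))))))) (node 494 (merge (node 495 (merge (leaf 6 462 463) (node 493 (merge (leaf 7 461 461) (node 496 (merge (leaf 1 493 497) (leaf 1 492 524))))))) (node 559 (merge (leaf 3 525 561) (node 591 (merge (leaf 4 494 623) (node 589 (merge (leaf 2 556 588) (leaf 5 493 621))))))))))))) (node 590 (merge (node 493 (merge (leaf 7 493 622) (node 461 (merge (leaf 4 429 429) (leaf 4 461 557))))) (merge (node 494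 (merge (leaf 6 462 495) (node 623 (merge (leaf 4 494 591) (node 622 (merge (leaf 4 526 655) (node 621 (merge (leaf 5 493 589) (leaf 5 525 653))))))))) (node 493 (merge (node 461 (merge (leaf 4 429 429) (leaf 7 461 494))) (merge (node 461 (merge (leaf 4 429 429) (leaf 4 461 557))) (node 589 (merge (node 621 (merge (leaf 5 493 494) (node 653 (merge (leaf 6 525 557) (leaf 6 557 685))))) (merge (node 494 (merge (leaf 5 493 621) (node 495 (merge (leaf 6 462 463) (node 496 (merge (leaf 1 493 497) (leaf 1 492 524))))))) (merge (node 557 (merge (node 621 (merge (leaf 6 525 653) (node 492 (merge (leaf 7 460 460) (leaf 7 492 524))))) (merge (node 621 (merge (leaf 6 525 653) (node 620 (merge (leaf 5 492 588) (leaf 5 524 652))))) (node 492 (merge (leaf 7 460 460) (node 588 (merge (leaf 5 492 620) (node 587 (merge (leaf 2 554 586) (node 619 (merge (leaf 1 586 618) (node 524 (merge (leaf 5 491 556) (node 523 (merge (leaf 0 522 522) (leaf 6 491 555)))))))))))))))) (node 588 (merge (node 620 (merge (leaf 5 492 557) (node 591 (merge (leaf 1 587 619) (node 623 (merge (leaf 4 494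 494) (leaf 0 588 624))))))) (merge (node 557 (merge (leaf 5 492 620) (node 492 (merge (leaf 7 460 460) (node 587 (merge (leaf 2 554 586) (node 619 (merge (leaf 1 586 618) (node 524 (merge (leaf 5 491 556) (node 523 (merge (leaf 0 522 522) (leaf 6 491 555))))))))))))) (merge (node 591 (merge (node 623 (merge (leaf 4 494 494) (leaf 0 588 624))) (node 620 (merge (leaf 1 587 619) (node 556 (merge (leaf 6 492 524) (leaf 3 555 555))))))) (merge (node 557 (merge (leaf 5 492 620) (node 587 (merge (leaf 2 554 586) (node 555 (merge (leaf 3 554 554) (node 591 (merge (leaf 0 555 556) (node 623 (merge (leaf 4 494 494) (leaf 0 588 624))))))))))) (node 591 (merge (node 623 (merge (leaf 4 494 494) (leaf 0 588 624))) (node 555 (merge (leaf 3 555 556) (node 587 (merge (leaf 3 554 554) (node 618 (merge (leaf 1 586 619) (node 586 (merge (leaf 2 554 557) (leaf 1 585 617))))))))))))))))))))))))))))))))))) (merge (node 526 (merge (node 527 (merge (leaf 0 525 561) (node 524 (merge (leaf 0 524 559) (node 496 (merge (leaf 2 492 495) (leaf 2 493 497))))))) (merge (node 527 (merge (leaf 0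 525 561) (node 557 (merge (leaf 1 524 556) (node 589 (merge (node 494 (merge (leaf 6 493 621) (node 462 (merge (leaf 5 429 430) (leaf 6 461 493))))) (merge (node 621 (merge (leaf 6 493 494) (node 653 (merge (leaf 6 525 558) (node 652 (merge (leaf 5 524 620) (leaf 5 556 684))))))) (merge (node 493 (merge (leaf 3 492 492) (node 462 (merge (leaf 6 461 494) (node 461 (merge (leaf 6 429 430) (node 590 (merge (leaf 4 461 558) (leaf 4 493 622))))))))) (node 493 (merge (leaf 3 492 492) (node 590 (merge (leaf 4 493 622) (node 558 (merge (leaf 4 461 461) (node 621 (merge (leaf 6 525 653) (node 620 (merge (leaf 5 492 588) (leaf 5 524 652))))))))))))))))))) (merge (node 524 (merge (node 527 (merge (leaf 0 524 559) (node 492 (merge (leaf 3 491 491) (leaf 3 492 493))))) (merge (node 527 (merge (leaf 0 524 559) (node 556 (merge (leaf 1 523 555) (leaf 1 524 557))))) (node 523 (merge (node 554 (merge (leaf 1 522 555) (node 522 (merge (leaf 1 521 553) (node 490 (merge (leaf 3 489 489) (leaf 3 490 491))))))) (merge (node 554 (merge (leaf 1 522 555) (node 522 (merge (leaf 1 521 553)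 (node 494 (merge (leaf 2 490 493) (leaf 2 491 495))))))) (merge (node 494 (merge (leaf 2 491 495) (node 522 (merge (leaf 2 490 493) (node 490 (merge (leaf 3 489 489) (leaf 3 490 491))))))) (node 494 (merge (leaf 2 491 495) (node 491 (merge (leaf 3 490 490) (node 459 (merge (node 556 (merge (leaf 4 427 427) (node 588 (merge (leaf 7 459 492) (leaf 7 491 620))))) (merge (node 555 (merge (leaf 1 522 554) (node 556 (merge (leaf 4 427 427) (leaf 4 459 588))))) (node 555 (merge (leaf 1 522 554) (node 460 (merge (leaf 6 427 428) (node 492 (merge (leaf 6 459 587) (node 458 (merge (leaf 7 426 426) (leaf 3 458 493))))))))))))))))))))))) (node 558 (merge (node 559 (merge (leaf 3 525 561) (node 524 (merge (leaf 0 523 523) (leaf 3 524 557))))) (merge (node 590 (merge (node 494 (merge (leaf 6 462 495) (node 591 (merge (leaf 4 494 623) (node 559 (merge (leaf 4 462 462) (leaf 3 525 561))))))) (node 493 (merge (leaf 7 493 622) (node 461 (merge (leaf 4 429 429) (leaf 4 461 557))))))) (merge (node 590 (merge (node 493 (merge (leaf 7 493 622) (node 461 (merge (leaf 4 429 429) (leaf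 4 461 557))))) (merge (node 494 (merge (leaf 6 462 495) (node 623 (merge (leaf 4 494 591) (node 622 (merge (leaf 4 526 655) (node 621 (merge (leaf 5 493 589) (leaf 5 525 653))))))))) (node 493 (merge (node 461 (merge (leaf 4 429 429) (leaf 7 461 494))) (merge (node 461 (merge (leaf 4 429 429) (leaf 4 461 557))) (node 589 (merge (node 621 (merge (leaf 5 493 494) (node 653 (merge (leaf 6 525 557) (leaf 6 557 685))))) (merge (node 494 (merge (leaf 5 493 621) (node 495 (merge (leaf 6 462 463) (node 496 (merge (leaf 1 493 497) (leaf 1 492 524))))))) (merge (node 557 (merge (node 621 (merge (leaf 6 525 653) (node 492 (merge (leaf 7 460 460) (leaf 7 492 524))))) (merge (node 621 (merge (leaf 6 525 653) (node 620 (merge (leaf 5 492 588) (leaf 5 524 652))))) (node 492 (merge (leaf 7 460 460) (node 588 (merge (leaf 5 492 620) (node 587 (merge (leaf 2 554 586) (node 619 (merge (leaf 1 586 618) (node 524 (merge (leaf 5 491 556) (node 523 (merge (leaf 0 522 522) (leaf 6 491 555)))))))))))))))) (node 588 (merge (node 620 (merge (leaf 5 492 557) (node 591 (merge (leaf 1 587 619)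 (node 623 (merge (leaf 4 494 494) (leaf 0 588 624))))))) (merge (node 557 (merge (leaf 5 492 620) (node 492 (merge (leaf 7 460 460) (node 587 (merge (leaf 2 554 586) (node 619 (merge (leaf 1 586 618) (node 524 (merge (leaf 5 491 556) (node 523 (merge (leaf 0 522 522) (leaf 6 491 555))))))))))))) (merge (node 591 (merge (node 623 (merge (leaf 4 494 494) (leaf 0 588 624))) (node 620 (merge (leaf 1 587 619) (node 556 (merge (leaf 6 492 524) (leaf 3 555 555))))))) (merge (node 557 (merge (leaf 5 492 620) (node 587 (merge (leaf 2 554 586) (node 555 (merge (leaf 3 554 554) (node 591 (merge (leaf 0 555 556) (node 623 (merge (leaf 4 494 494) (leaf 0 588 624))))))))))) (node 591 (merge (node 623 (merge (leaf 4 494 494) (leaf 0 588 624))) (node 555 (merge (leaf 3 555 556) (node 587 (merge (leaf 3 554 554) (node 618 (merge (leaf 1 586 619) (node 586 (merge (leaf 2 554 557) (leaf 1 585 617)))))))))))))))))))))))))) (node 590 (merge (node 493 (merge (leaf 7 493 622) (node 461 (merge (leaf 4 429 429) (leaf 7 461 494))))) (merge (node 622 (merge (leaf 7 493 493) (node 655 (merge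 (leaf 4 526 623) (node 654 (merge (leaf 4 558 687) (node 653 (merge (leaf 5 525 621) (leaf 5 557 685))))))))) (merge (node 589 (merge (node 621 (merge (leaf 5 493 494) (node 653 (merge (leaf 5 525 622) (leaf 6 557 685))))) (node 559 (merge (leaf 1 557 561) (node 588 (merge (leaf 2 555 587) (leaf 2 556 591))))))) (node 494 (merge (node 495 (merge (leaf 6 462 463) (node 493 (merge (leaf 7 461 461) (node 496 (merge (leaf 1 493 497) (leaf 1 492 524))))))) (node 559 (merge (leaf 3 525 561) (node 591 (merge (leaf 4 494 623) (node 589 (merge (leaf 2 556 588) (leaf 5 493 621))))))))))))))))))))) (merge (node 526 (merge (node 527 (merge (leaf 0 525 561) (node 496 (merge (leaf 2 493 497) (node 495 (merge (leaf 4 431 431) (leaf 2 492 524))))))) (merge (node 527 (merge (node 524 (merge (leaf 0 524 559) (node 495 (merge (leaf 4 431 431) (leaf 2 492 496))))) (node 557 (merge (leaf 1 524 556) (node 589 (merge (node 494 (merge (leaf 6 493 621) (node 462 (merge (leaf 5 429 430) (leaf 6 461 493))))) (merge (node 621 (merge (leaf 6 493 494) (node 653 (merge (leaf 6 525 558) (node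 652 (merge (leaf 5 524 620) (leaf 5 556 684))))))) (merge (node 493 (merge (leaf 3 492 492) (node 462 (merge (leaf 6 461 494) (node 461 (merge (leaf 6 429 430) (node 590 (merge (leaf 4 461 558) (leaf 4 493 622))))))))) (node 493 (merge (leaf 3 492 492) (node 590 (merge (leaf 4 493 622) (node 558 (merge (leaf 4 461 461) (node 621 (merge (leaf 6 525 653) (node 620 (merge (leaf 5 492 588) (leaf 5 524 652))))))))))))))))))) (merge (node 527 (merge (leaf 0 525 561) (node 557 (merge (leaf 1 524 556) (node 589 (merge (node 494 (merge (leaf 6 493 621) (node 462 (merge (leaf 5 429 430) (leaf 6 461 493))))) (merge (node 621 (merge (leaf 6 493 494) (node 653 (merge (leaf 6 525 558) (node 652 (merge (leaf 5 524 620) (leaf 5 556 684))))))) (merge (node 493 (merge (leaf 3 492 492) (node 462 (merge (leaf 6 461 494) (node 461 (merge (leaf 6 429 430) (node 590 (merge (leaf 4 461 558) (leaf 4 493 622))))))))) (node 493 (merge (leaf 3 492 492) (node 590 (merge (leaf 4 493 622) (node 558 (merge (leaf 4 461 461) (node 621 (merge (leaf 6 525 653) (node 620 (merge (leaf 5 492 588) (leaf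 5 524 652))))))))))))))))))) (node 558 (merge (node 559 (merge (leaf 3 525 561) (node 524 (merge (leaf 0 523 523) (leaf 3 524 557))))) (merge (node 590 (merge (node 494 (merge (leaf 6 462 495) (node 591 (merge (leaf 4 494 623) (node 559 (merge (leaf 4 462 462) (leaf 3 525 561))))))) (node 493 (merge (leaf 7 493 622) (node 461 (merge (leaf 4 429 429) (leaf 4 461 557))))))) (merge (node 590 (merge (node 493 (merge (leaf 7 493 622) (node 461 (merge (leaf 4 429 429) (leaf 4 461 557))))) (merge (node 494 (merge (leaf 6 462 495) (node 623 (merge (leaf 4 494 591) (node 622 (merge (leaf 4 526 655) (node 621 (merge (leaf 5 493 589) (leaf 5 525 653))))))))) (node 493 (merge (node 461 (merge (leaf 4 429 429) (leaf 7 461 494))) (merge (node 461 (merge (leaf 4 429 429) (leaf 4 461 557))) (node 589 (merge (node 621 (merge (leaf 5 493 494) (node 653 (merge (leaf 6 525 557) (leaf 6 557 685))))) (merge (node 494 (merge (leaf 5 493 621) (node 495 (merge (leaf 6 462 463) (node 496 (merge (leaf 1 493 497) (leaf 1 492 524))))))) (merge (node 557 (merge (node 621 (merge (leaf 6 525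 653) (node 492 (merge (leaf 7 460 460) (leaf 7 492 524))))) (merge (node 621 (merge (leaf 6 525 653) (node 620 (merge (leaf 5 492 588) (leaf 5 524 652))))) (node 492 (merge (leaf 7 460 460) (node 588 (merge (leaf 5 492 620) (node 587 (merge (leaf 2 554 586) (node 619 (merge (leaf 1 586 618) (node 524 (merge (leaf 5 491 556) (node 523 (merge (leaf 0 522 522) (leaf 6 491 555)))))))))))))))) (node 588 (merge (node 620 (merge (leaf 5 492 557) (node 591 (merge (leaf 1 587 619) (node 623 (merge (leaf 4 494 494) (leaf 0 588 624))))))) (merge (node 557 (merge (leaf 5 492 620) (node 492 (merge (leaf 7 460 460) (node 587 (merge (leaf 2 554 586) (node 619 (merge (leaf 1 586 618) (node 524 (merge (leaf 5 491 556) (node 523 (merge (leaf 0 522 522) (leaf 6 491 555))))))))))))) (merge (node 591 (merge (node 623 (merge (leaf 4 494 494) (leaf 0 588 624))) (node 620 (merge (leaf 1 587 619) (node 556 (merge (leaf 6 492 524) (leaf 3 555 555))))))) (merge (node 557 (merge (leaf 5 492 620) (node 587 (merge (leaf 2 554 586) (node 555 (merge (leaf 3 554 554) (node 591 (merge (leaf 0 555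 556) (node 623 (merge (leaf 4 494 494) (leaf 0 588 624))))))))))) (node 591 (merge (node 623 (merge (leaf 4 494 494) (leaf 0 588 624))) (node 555 (merge (leaf 3 555 556) (node 587 (merge (leaf 3 554 554) (node 618 (merge (leaf 1 586 619) (node 586 (merge (leaf 2 554 557) (leaf 1 585 617)))))))))))))))))))))))))) (node 590 (merge (node 493 (merge (leaf 7 493 622) (node 461 (merge (leaf 4 429 429) (leaf 7 461 494))))) (merge (node 622 (merge (leaf 7 493 493) (node 655 (merge (leaf 4 526 623) (node 654 (merge (leaf 4 558 687) (node 653 (merge (leaf 5 525 621) (leaf 5 557 685))))))))) (merge (node 589 (merge (node 621 (merge (leaf 5 493 494) (node 653 (merge (leaf 5 525 622) (leaf 6 557 685))))) (node 559 (merge (leaf 1 557 561) (node 588 (merge (leaf 2 555 587) (leaf 2 556 591))))))) (node 494 (merge (node 495 (merge (leaf 6 462 463) (node 493 (merge (leaf 7 461 461) (node 496 (merge (leaf 1 493 497) (leaf 1 492 524))))))) (node 559 (merge (leaf 3 525 561) (node 591 (merge (leaf 4 494 623) (node 589 (merge (leaf 2 556 588) (leaf 5 493 621))))))))))))))))))))) (merge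 (node 526 (merge (node 527 (merge (leaf 0 525 561) (node 496 (merge (leaf 2 493 497) (node 495 (merge (leaf 4 431 431) (leaf 2 492 524))))))) (merge (node 527 (merge (leaf 0 525 561) (node 556 (merge (leaf 1 524 557) (node 524 (merge (leaf 1 523 555) (leaf 0 524 559))))))) (merge (node 558 (merge (node 561 (merge (leaf 0 525 527) (leaf 3 525 559))) (merge (node 527 (merge (leaf 0 525 561) (node 495 (merge (leaf 4 431 431) (node 590 (merge (leaf 6 462 494) (leaf 6 494 622))))))) (merge (node 590 (merge (node 493 (merge (leaf 7 493 622) (node 461 (merge (leaf 4 429 429) (leaf 4 461 557))))) (node 495 (merge (leaf 6 462 494) (node 527 (merge (leaf 5 430 431) (leaf 5 462 559))))))) (node 590 (merge (node 493 (merge (leaf 7 493 622) (node 494 (merge (leaf 7 461 461) (leaf 6 462 495))))) (merge (node 493 (merge (leaf 7 493 622) (node 461 (merge (leaf 4 429 429) (leaf 4 461 557))))) (node 494 (merge (leaf 6 462 495) (node 559 (merge (leaf 3 525 561) (node 589 (merge (leaf 5 493 621) (node 588 (merge (leaf 1 556 557) (leaf 2 555 587)))))))))))))))) (merge (node 558 (merge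 (node 559 (merge (leaf 3 525 561) (node 524 (merge (leaf 0 523 523) (leaf 3 524 557))))) (merge (node 590 (merge (node 494 (merge (leaf 6 462 495) (node 462 (merge (leaf 6 430 431) (node 589 (merge (leaf 5 461 557) (leaf 5 493 621))))))) (merge (node 493 (merge (leaf 7 493 622) (node 494 (merge (leaf 7 461 461) (leaf 6 462 495))))) (node 493 (merge (leaf 7 493 622) (node 461 (merge (leaf 4 429 429) (leaf 4 461 557)))))))) (node 559 (merge (leaf 3 525 561) (node 494 (merge (node 462 (merge (leaf 6 430 431) (leaf 4 462 591))) (merge (node 431 (merge (leaf 6 430 462) (node 495 (merge (leaf 5 398 399) (leaf 6 462 590))))) (node 590 (merge (leaf 6 462 495) (node 493 (merge (leaf 7 461 461) (node 622 (merge (leaf 7 493 525) (node 621 (merge (leaf 5 493 589) (leaf 5 525 653))))))))))))))))) (node 524 (merge (node 527 (merge (leaf 0 524 559) (node 556 (merge (leaf 1 523 555) (leaf 1 524 557))))) (merge (node 527 (merge (leaf 0 524 559) (node 496 (merge (leaf 2 492 495) (leaf 2 493 497))))) (node 523 (merge (node 554 (merge (leaf 1 522 555) (node 522 (merge (leaf 1 521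 553) (node 494 (merge (leaf 2 490 493) (leaf 2 491 495))))))) (merge (node 494 (merge (leaf 2 491 495) (node 522 (merge (leaf 2 490 493) (node 490 (merge (leaf 3 489 489) (leaf 3 490 491))))))) (node 491 (merge (leaf 3 490 490) (node 555 (merge (node 554 (merge (leaf 1 522 526) (node 553 (merge (leaf 2 520 552) (leaf 2 521 556))))) (merge (node 554 (merge (leaf 1 522 526) (node 586 (merge (leaf 5 458 459) (node 618 (merge (leaf 5 490 587) (leaf 6 522 650))))))) (node 587 (merge (node 620 (merge (leaf 4 491 588) (node 619 (merge (leaf 4 523 652) (node 618 (merge (leaf 5 490 586) (leaf 5 522 650))))))) (merge (node 588 (merge (leaf 4 491 620) (node 459 (merge (leaf 4 459 556) (node 428 (merge (leaf 6 427 460) (node 427 (merge (leaf 6 395 396) (node 426 (merge (leaf 7 394 394) (leaf 7 426 458))))))))))) (merge (node 618 (merge (leaf 5 490 586) (node 619 (merge (leaf 5 522 650) (node 556 (merge (leaf 6 523 651) (node 459 (merge (leaf 4 427 427) (leaf 4 459 588))))))))) (node 618 (merge (leaf 5 490 586) (node 619 (merge (leaf 5 522 650) (node 651 (merge (leaf 6 523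 556) (node 652 (merge (leaf 4 523 620) (leaf 4 555 684))))))))))))))))))))))))))))) (merge (node 526 (merge (node 527 (merge (leaf 0 525 561) (node 496 (merge (leaf 2 493 497) (node 495 (merge (leaf 4 431 431) (leaf 2 492 524))))))) (merge (node 558 (merge (node 559 (merge (leaf 3 525 561) (node 524 (merge (leaf 0 523 523) (leaf 3 524 557))))) (merge (node 494 (merge (node 462 (merge (leaf 6 430 431) (node 557 (merge (leaf 5 429 430) (leaf 5 461 589))))) (node 590 (merge (leaf 6 462 495) (node 622 (merge (leaf 7 493 493) (node 623 (merge (leaf 4 494 591) (leaf 4 526 655))))))))) (node 494 (merge (node 431 (merge (leaf 6 430 462) (node 495 (merge (leaf 5 398 399) (leaf 6 462 590))))) (merge (node 462 (merge (leaf 6 430 431) (node 559 (merge (leaf 3 525 561) (leaf 4 462 591))))) (node 590 (merge (leaf 6 462 495) (node 622 (merge (leaf 7 493 493) (node 623 (merge (leaf 4 494 591) (leaf 4 526 655))))))))))))) (merge (node 494 (merge (node 561 (merge (leaf 0 525 527) (node 558 (merge (leaf 3 525 559) (node 590 (merge (leaf 6 462 495) (node 493 (merge (leaf 7 461 461)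 (leaf 7 493 622))))))))) (merge (node 527 (merge (leaf 0 525 561) (node 557 (merge (leaf 1 524 556) (node 589 (merge (leaf 6 493 621) (node 493 (merge (leaf 6 461 462) (leaf 3 492 492))))))))) (merge (node 558 (merge (node 590 (merge (leaf 6 462 495) (node 493 (merge (leaf 7 461 461) (leaf 7 493 622))))) (node 462 (merge (leaf 6 430 431) (node 559 (merge (leaf 3 525 561) (leaf 4 462 591))))))) (node 558 (merge (node 431 (merge (leaf 6 430 462) (node 495 (merge (leaf 5 398 399) (leaf 5 430 527))))) (merge (node 462 (merge (leaf 6 430 431) (node 591 (merge (leaf 4 462 559) (node 590 (merge (leaf 4 494 623) (node 589 (merge (leaf 5 461 557) (leaf 5 493 621))))))))) (node 590 (merge (leaf 6 462 495) (node 623 (merge (leaf 4 494 591) (node 622 (merge (leaf 4 526 655) (node 621 (merge (leaf 5 493 589) (leaf 5 525 653)))))))))))))))) (node 524 (merge (node 527 (merge (leaf 0 524 559) (node 492 (merge (leaf 3 491 491) (leaf 3 492 493))))) (merge (node 527 (merge (leaf 0 524 559) (node 556 (merge (leaf 1 523 555) (leaf 1 524 557))))) (hyp 0)))))))) (merge (node 526 (merge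 (node 527 (merge (leaf 0 525 561) (node 496 (merge (leaf 2 493 497) (node 495 (merge (leaf 4 431 431) (leaf 2 492 524))))))) (merge (node 527 (merge (leaf 0 525 561) (node 556 (merge (leaf 1 524 557) (node 524 (merge (leaf 1 523 555) (leaf 0 524 559))))))) (merge (node 558 (merge (node 559 (merge (leaf 3 525 561) (node 524 (merge (leaf 0 523 523) (leaf 3 524 557))))) (merge (node 494 (merge (node 462 (merge (leaf 6 430 431) (node 557 (merge (leaf 5 429 430) (leaf 5 461 589))))) (merge (node 431 (merge (leaf 6 430 462) (node 495 (merge (leaf 5 398 399) (leaf 6 462 590))))) (node 590 (merge (leaf 6 462 495) (node 623 (merge (leaf 4 494 591) (node 622 (merge (leaf 4 526 655) (node 621 (merge (leaf 5 493 589) (leaf 5 525 653)))))))))))) (node 494 (merge (node 431 (merge (leaf 6 430 462) (node 495 (merge (leaf 5 398 399) (leaf 6 462 590))))) (merge (node 462 (merge (leaf 6 430 431) (node 559 (merge (leaf 3 525 561) (leaf 4 462 591))))) (node 590 (merge (leaf 6 462 495) (node 559 (merge (leaf 3 525 561) (node 591 (merge (leaf 4 494 623) (node 589 (merge (leaf 2 556 588)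 (leaf 5 493 621))))))))))))))) (merge (node 558 (merge (node 561 (merge (leaf 0 525 527) (leaf 3 525 559))) (merge (node 527 (merge (leaf 0 525 561) (node 495 (merge (leaf 4 431 431) (node 590 (merge (leaf 6 462 494) (leaf 6 494 622))))))) (merge (node 494 (merge (node 462 (merge (leaf 6 430 431) (node 557 (merge (leaf 5 429 430) (leaf 5 461 589))))) (merge (node 431 (merge (leaf 6 430 462) (node 495 (merge (leaf 5 398 399) (leaf 6 462 590))))) (node 590 (merge (leaf 6 462 495) (node 559 (merge (leaf 3 525 561) (node 591 (merge (leaf 4 494 623) (node 589 (merge (leaf 2 556 588) (leaf 5 493 621)))))))))))) (node 495 (merge (node 590 (merge (leaf 6 462 494) (node 527 (merge (leaf 5 462 559) (leaf 6 494 622))))) (merge (node 494 (merge (leaf 6 462 590) (node 431 (merge (leaf 5 398 399) (leaf 6 430 462))))) (node 431 (merge (leaf 4 431 527) (node 399 (merge (leaf 4 399 496) (node 368 (merge (leaf 6 367 400) (node 367 (merge (leaf 6 335 336) (node 366 (merge (leaf 7 334 334) (leaf 7 366 398)))))))))))))))))) (node 524 (merge (node 527 (merge (leaf 0 524 559) (node 496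 (merge (leaf 2 492 495) (leaf 2 493 497))))) (merge (node 527 (merge (node 556 (merge (leaf 1 523 555) (leaf 1 524 557))) (node 496 (merge (leaf 2 492 495) (leaf 2 493 497))))) (node 523 (merge (node 558 (merge (leaf 0 523 559) (node 522 (merge (leaf 0 522 557) (node 490 (merge (leaf 3 489 489) (leaf 3 490 491))))))) (merge (node 554 (merge (leaf 1 522 555) (node 522 (merge (leaf 1 521 553) (node 558 (merge (leaf 0 522 557) (leaf 0 523 559))))))) (merge (node 554 (merge (leaf 1 522 555) (node 522 (merge (leaf 1 521 553) (node 490 (merge (leaf 3 489 489) (leaf 3 490 491))))))) (node 555 (merge (leaf 1 522 554) (node 558 (merge (leaf 0 523 559) (node 587 (merge (node 492 (merge (leaf 6 491 619) (node 491 (merge (leaf 6 459 460) (leaf 3 490 490))))) (merge (node 492 (merge (leaf 6 491 619) (node 460 (merge (leaf 5 427 428) (leaf 5 459 556))))) (node 491 (merge (leaf 3 490 490) (node 588 (merge (leaf 4 491 620) (node 586 (merge (leaf 5 490 618) (node 557 (merge (leaf 1 554 556) (leaf 2 554 589)))))))))))))))))))))))))))) (merge (node 526 (merge (node 527 (merge (leaf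 0 525 561) (node 496 (merge (leaf 2 493 497) (node 495 (merge (leaf 4 431 431) (leaf 2 492 524))))))) (merge (node 527 (merge (leaf 0 525 561) (node 492 (merge (leaf 3 492 493) (node 524 (merge (leaf 3 491 491) (leaf 0 524 559))))))) (merge (node 558 (merge (node 559 (merge (leaf 3 525 561) (node 524 (merge (leaf 0 523 523) (leaf 3 524 557))))) (merge (node 494 (merge (node 462 (merge (leaf 6 430 431) (node 557 (merge (leaf 5 429 430) (leaf 5 461 589))))) (node 590 (merge (leaf 6 462 495) (node 622 (merge (leaf 7 493 493) (node 623 (merge (leaf 4 494 591) (leaf 4 526 655))))))))) (node 494 (merge (node 431 (merge (leaf 6 430 462) (node 495 (merge (leaf 5 398 399) (leaf 6 462 590))))) (merge (node 462 (merge (leaf 6 430 431) (node 559 (merge (leaf 3 525 561) (leaf 4 462 591))))) (node 590 (merge (leaf 6 462 495) (node 622 (merge (leaf 7 493 493) (node 623 (merge (leaf 4 494 591) (leaf 4 526 655))))))))))))) (merge (node 494 (merge (node 561 (merge (leaf 0 525 527) (node 558 (merge (leaf 3 525 559) (node 590 (merge (leaf 6 462 495) (node 493 (merge (leaf 7 461 461)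 (leaf 7 493 622))))))))) (merge (node 527 (merge (leaf 0 525 561) (node 557 (merge (leaf 1 524 556) (node 589 (merge (leaf 6 493 621) (node 493 (merge (leaf 6 461 462) (leaf 3 492 492))))))))) (merge (node 558 (merge (node 590 (merge (leaf 6 462 495) (node 493 (merge (leaf 7 461 461) (leaf 7 493 622))))) (node 462 (merge (leaf 6 430 431) (node 559 (merge (leaf 3 525 561) (leaf 4 462 591))))))) (node 558 (merge (node 431 (merge (leaf 6 430 462) (node 495 (merge (leaf 5 398 399) (leaf 5 430 527))))) (merge (node 462 (merge (leaf 6 430 431) (node 591 (merge (leaf 4 462 559) (node 590 (merge (leaf 4 494 623) (node 589 (merge (leaf 5 461 557) (leaf 5 493 621))))))))) (node 590 (merge (leaf 6 462 495) (node 623 (merge (leaf 4 494 591) (node 622 (merge (leaf 4 526 655) (node 621 (merge (leaf 5 493 589) (leaf 5 525 653)))))))))))))))) (node 558 (merge (node 527 (merge (node 492 (merge (leaf 3 492 493) (node 524 (merge (leaf 3 491 491) (leaf 0 524 559))))) (node 495 (merge (leaf 5 430 431) (node 590 (merge (leaf 6 462 494) (leaf 6 494 622))))))) (merge (node 495 (merge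 (node 590 (merge (leaf 6 462 494) (node 527 (merge (leaf 5 462 559) (leaf 6 494 622))))) (merge (node 494 (merge (leaf 6 462 590) (node 431 (merge (leaf 5 398 399) (leaf 6 430 462))))) (node 431 (merge (leaf 4 431 527) (node 399 (merge (leaf 4 399 496) (node 368 (merge (leaf 6 367 400) (node 367 (merge (leaf 6 335 336) (node 366 (merge (leaf 7 334 334) (leaf 7 366 398)))))))))))))) (merge (node 527 (merge (node 495 (merge (leaf 5 430 431) (node 590 (merge (leaf 5 462 559) (leaf 6 494 622))))) (merge (node 492 (merge (leaf 3 492 493) (node 524 (merge (leaf 3 491 491) (leaf 0 524 559))))) (node 496 (merge (leaf 2 493 497) (node 495 (merge (leaf 4 431 431) (leaf 2 492 524)))))))) (merge (node 557 (merge (node 559 (merge (leaf 3 524 524) (node 589 (merge (leaf 1 556 588) (node 621 (merge (leaf 6 493 494) (leaf 6 525 653))))))) (merge (node 527 (merge (leaf 1 524 556) (node 496 (merge (leaf 2 493 497) (node 495 (merge (leaf 4 431 431) (leaf 2 492 524))))))) (node 527 (merge (leaf 1 524 556) (node 493 (merge (leaf 3 492 492) (node 461 (merge (leaf 4 429 429) (node 462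 (merge (leaf 6 429 430) (node 431 (merge (leaf 6 430 494) (leaf 4 431 495)))))))))))))) (merge (node 590 (merge (node 493 (merge (leaf 7 493 622) (node 461 (merge (leaf 4 429 429) (leaf 7 461 494))))) (merge (node 622 (merge (leaf 7 493 493) (node 654 (merge (leaf 7 525 557) (node 655 (merge (leaf 4 526 623) (leaf 4 558 687))))))) (merge (node 494 (merge (node 463 (merge (leaf 6 462 495) (node 462 (merge (leaf 6 430 431) (node 589 (merge (leaf 5 461 557) (leaf 5 493 621))))))) (merge (node 495 (merge (leaf 6 462 463) (node 493 (merge (leaf 7 461 461) (node 496 (merge (leaf 1 493 497) (leaf 1 492 524))))))) (node 461 (merge (leaf 7 461 493) (node 462 (merge (leaf 7 429 429) (node 589 (merge (leaf 5 461 557) (leaf 5 493 621)))))))))) (node 621 (merge (node 589 (merge (leaf 5 493 494) (node 653 (merge (leaf 5 525 622) (leaf 6 557 685))))) (merge (node 622 (merge (leaf 5 525 653) (node 654 (merge (leaf 7 525 557) (node 655 (merge (leaf 4 526 623) (leaf 4 558 687))))))) (merge (node 589 (merge (leaf 5 493 494) (node 653 (merge (leaf 6 525 557) (leaf 6 557 685))))) (node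 494 (merge (leaf 5 493 589) (node 463 (merge (leaf 6 462 495) (node 462 (merge (leaf 6 430 431) (node 623 (merge (leaf 4 494 591) (node 622 (merge (leaf 4 526 655) (node 557 (merge (leaf 5 429 430) (leaf 7 525 654))))))))))))))))))))) (node 559 (merge (node 524 (merge (leaf 0 523 523) (leaf 0 524 527))) (merge (node 524 (merge (leaf 0 524 527) (leaf 3 524 557))) (merge (node 524 (merge (leaf 0 523 523) (leaf 3 524 557))) (node 557 (merge (node 588 (merge (leaf 1 556 589) (node 556 (merge (leaf 2 524 527) (leaf 1 555 587))))) (merge (node 589 (merge (leaf 1 556 588) (node 621 (merge (leaf 6 525 653) (node 494 (merge (leaf 6 493 525) (leaf 5 493 590))))))) (node 591 (merge (node 623 (merge (leaf 6 527 655) (node 494 (merge (leaf 4 462 462) (leaf 4 494 590))))) (merge (node 623 (merge (leaf 7 526 655) (node 527 (merge (leaf 7 494 494) (leaf 6 495 496))))) (node 556 (merge (leaf 2 524 527) (node 555 (merge (leaf 0 555 590) (node 586 (merge (leaf 1 554 587) (node 554 (merge (leaf 1 553 585) (node 522 (merge (leaf 3 521 521) (leaf 3 522 523))))))))))))))))))))))))))))))))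 (merge (node 526 (merge (node 527 (merge (leaf 0 525 561) (node 496 (merge (leaf 2 493 497) (node 495 (merge (leaf 4 431 431) (leaf 2 492 524))))))) (merge (node 527 (merge (leaf 0 525 561) (node 492 (merge (leaf 3 492 493) (node 524 (merge (leaf 3 491 491) (leaf 0 524 559))))))) (merge (node 558 (merge (node 559 (merge (leaf 3 525 561) (node 524 (merge (leaf 0 523 523) (leaf 3 524 557))))) (merge (node 494 (merge (node 462 (merge (leaf 6 430 431) (node 557 (merge (leaf 5 429 430) (leaf 5 461 589))))) (node 590 (merge (leaf 6 462 495) (node 622 (merge (leaf 7 493 493) (node 623 (merge (leaf 4 494 591) (leaf 4 526 655))))))))) (node 494 (merge (node 431 (merge (leaf 6 430 462) (node 495 (merge (leaf 5 398 399) (leaf 6 462 590))))) (merge (node 462 (merge (leaf 6 430 431) (node 559 (merge (leaf 3 525 561) (leaf 4 462 591))))) (node 590 (merge (leaf 6 462 495) (node 622 (merge (leaf 7 493 493) (node 623 (merge (leaf 4 494 591) (leaf 4 526 655))))))))))))) (merge (node 462 (merge (node 527 (merge (leaf 0 525 561) (node 431 (merge (leaf 4 431 495) (node 494 (merge (leaf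 6 430 558) (node 430 (merge (leaf 6 398 399) (leaf 5 429 557))))))))) (merge (node 527 (merge (leaf 0 525 561) (node 495 (merge (leaf 4 431 431) (node 430 (merge (leaf 7 430 559) (node 398 (merge (leaf 4 366 366) (leaf 4 398 494))))))))) (merge (node 561 (merge (leaf 0 525 527) (node 558 (merge (leaf 3 525 559) (node 494 (merge (leaf 6 430 431) (node 557 (merge (leaf 5 429 430) (leaf 5 461 589))))))))) (merge (node 494 (merge (node 557 (merge (leaf 5 429 430) (node 589 (merge (leaf 5 461 558) (leaf 6 493 621))))) (merge (node 557 (merge (leaf 5 429 430) (node 589 (merge (leaf 6 461 493) (leaf 6 493 621))))) (node 558 (merge (node 559 (merge (leaf 3 525 561) (leaf 4 462 591))) (node 590 (merge (leaf 6 462 495) (node 493 (merge (leaf 7 461 461) (leaf 7 493 622)))))))))) (merge (node 527 (merge (leaf 0 525 561) (node 496 (merge (leaf 2 493 497) (node 495 (merge (leaf 4 431 431) (node 559 (merge (leaf 7 430 430) (node 591 (merge (leaf 6 495 623) (node 590 (merge (leaf 5 462 558) (leaf 5 494 622))))))))))))) (node 558 (merge (node 493 (merge (node 590 (merge (leaf 7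 493 622) (node 461 (merge (leaf 4 429 429) (leaf 4 461 557))))) (merge (node 492 (merge (leaf 3 492 527) (node 491 (merge (leaf 0 490 490) (node 461 (merge (leaf 4 429 429) (leaf 1 459 460))))))) (node 590 (merge (leaf 7 493 622) (node 527 (merge (leaf 3 492 492) (node 495 (merge (leaf 4 431 431) (leaf 5 462 559)))))))))) (merge (node 590 (merge (node 493 (merge (leaf 7 493 622) (node 461 (merge (leaf 4 429 429) (leaf 7 461 494))))) (merge (node 622 (merge (leaf 7 493 493) (node 654 (merge (leaf 7 525 557) (node 653 (merge (leaf 5 525 621) (leaf 5 557 685))))))) (merge (node 494 (merge (node 461 (merge (leaf 7 429 429) (leaf 7 461 493))) (node 589 (merge (leaf 5 461 557) (leaf 5 493 621))))) (node 623 (merge (node 494 (merge (leaf 4 494 591) (node 589 (merge (leaf 5 461 557) (leaf 5 493 621))))) (merge (node 591 (merge (leaf 4 494 494) (node 655 (merge (leaf 4 526 622) (leaf 7 558 687))))) (node 622 (merge (leaf 4 526 655) (node 654 (merge (leaf 7 525 557) (node 653 (merge (leaf 5 525 621) (leaf 5 557 685)))))))))))))) (node 431 (merge (leaf 6 430 494) (node 495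 (merge (leaf 4 431 527) (node 399 (merge (leaf 4 399 496) (node 368 (merge (leaf 6 367 400) (node 367 (merge (leaf 6 335 336) (node 366 (merge (leaf 7 334 334) (leaf 7 366 398)))))))))))))))))))))) (node 524 (merge (node 527 (merge (leaf 0 524 559) (node 492 (merge (leaf 3 491 491) (leaf 3 492 493))))) (merge (node 527 (merge (leaf 0 524 559) (node 496 (merge (leaf 2 492 495) (leaf 2 493 497))))) (node 523 (merge (node 554 (merge (leaf 1 522 555) (node 522 (merge (leaf 1 521 553) (node 494 (merge (leaf 2 490 493) (leaf 2 491 495))))))) (merge (node 494 (merge (leaf 2 491 495) (node 522 (merge (leaf 2 490 493) (node 490 (merge (leaf 3 489 489) (leaf 3 490 491))))))) (node 555 (merge (leaf 1 522 554) (node 491 (merge (leaf 3 490 490) (node 459 (merge (node 428 (merge (leaf 6 427 460) (node 427 (merge (leaf 6 395 396) (node 426 (merge (leaf 7 394 394) (leaf 7 426 458))))))) (merge (node 460 (merge (leaf 6 427 428) (node 587 (merge (leaf 6 459 492) (node 620 (merge (leaf 4 491 588) (node 619 (merge (leaf 4 523 652) (node 618 (merge (leaf 5 490 586) (leaf 5 522 650)))))))))))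 (merge (node 426 (merge (leaf 7 426 458) (node 427 (merge (leaf 7 394 394) (node 492 (merge (leaf 4 395 395) (node 587 (merge (leaf 6 459 460) (leaf 6 491 619))))))))) (node 426 (merge (leaf 7 426 458) (node 427 (merge (leaf 7 394 394) (node 396 (merge (leaf 6 395 428) (node 395 (merge (leaf 6 363 364) (leaf 4 395 492)))))))))))))))))))))))))))) (merge (hyp 1) (merge (node 524 (merge (node 495 (merge (node 527 (merge (leaf 4 431 431) (node 526 (merge (leaf 0 525 561) (node 492 (merge (leaf 3 491 491) (leaf 3 492 493))))))) (merge (node 494 (merge (node 526 (merge (leaf 2 491 523) (node 527 (merge (leaf 2 492 496) (leaf 0 525 561))))) (merge (node 493 (merge (leaf 1 492 496) (node 492 (merge (leaf 1 491 523) (leaf 0 492 527))))) (merge (node 523 (merge (leaf 2 491 526) (node 493 (merge (leaf 1 491 492) (leaf 2 490 522))))) (node 496 (merge (leaf 1 492 493) (node 497 (merge (leaf 1 493 526) (node 462 (merge (leaf 3 461 461) (leaf 3 462 498))))))))))) (merge (node 494 (merge (node 526 (merge (leaf 2 491 523) (node 558 (merge (leaf 6 462 590) (node 431 (merge (leaf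 5 398 399) (leaf 6 430 462))))))) (merge (node 493 (merge (leaf 1 492 496) (node 523 (merge (leaf 1 491 492) (leaf 2 490 522))))) (node 496 (merge (leaf 1 492 493) (node 497 (merge (leaf 1 493 526) (node 462 (merge (leaf 3 461 461) (leaf 3 462 498)))))))))) (node 431 (merge (leaf 4 431 527) (node 399 (merge (leaf 4 399 496) (node 368 (merge (leaf 6 367 400) (node 367 (merge (leaf 6 335 336) (node 366 (merge (leaf 7 334 334) (leaf 7 366 398))))))))))))))) (merge (node 495 (merge (node 527 (merge (leaf 4 431 431) (node 526 (merge (leaf 0 525 561) (node 556 (merge (leaf 1 523 555) (leaf 1 524 557))))))) (merge (node 431 (merge (leaf 4 431 527) (node 399 (merge (leaf 4 399 496) (node 368 (merge (leaf 6 367 400) (node 367 (merge (leaf 6 335 336) (node 366 (merge (leaf 7 334 334) (leaf 7 366 398))))))))))) (merge (node 494 (merge (node 526 (merge (leaf 2 491 523) (node 527 (merge (leaf 2 492 496) (leaf 0 525 561))))) (merge (node 493 (merge (leaf 1 492 496) (node 492 (merge (leaf 1 491 523) (leaf 0 492 527))))) (merge (node 523 (merge (leaf 2 491 526) (node 493 (merge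 (leaf 1 491 492) (leaf 2 490 522))))) (node 496 (merge (leaf 1 492 493) (node 497 (merge (leaf 1 493 526) (node 462 (merge (leaf 3 461 461) (leaf 3 462 498))))))))))) (node 494 (merge (node 526 (merge (leaf 2 491 523) (node 558 (merge (leaf 6 462 590) (node 431 (merge (leaf 5 398 399) (leaf 6 430 462))))))) (merge (node 493 (merge (leaf 1 492 496) (node 523 (merge (leaf 1 491 492) (leaf 2 490 522))))) (node 496 (merge (leaf 1 492 493) (node 497 (merge (leaf 1 493 526) (node 462 (merge (leaf 3 461 461) (leaf 3 462 498)))))))))))))) (merge (node 526 (merge (node 527 (merge (leaf 0 525 561) (node 492 (merge (leaf 3 491 491) (leaf 3 492 493))))) (merge (node 527 (merge (leaf 0 525 561) (node 556 (merge (leaf 1 523 555) (leaf 1 524 557))))) (node 523 (merge (node 554 (merge (leaf 1 522 555) (node 522 (merge (leaf 1 521 553) (node 490 (merge (leaf 3 489 489) (leaf 3 490 491))))))) (merge (node 491 (merge (leaf 3 490 490) (node 459 (merge (node 556 (merge (leaf 4 427 427) (node 588 (merge (leaf 7 459 492) (leaf 7 491 620))))) (merge (node 555 (merge (leaf 1 522 554) (node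 556 (merge (leaf 4 427 427) (leaf 4 459 588))))) (merge (node 555 (merge (leaf 1 522 554) (node 460 (merge (leaf 6 427 428) (node 492 (merge (leaf 6 459 587) (node 426 (merge (leaf 7 426 458) (node 427 (merge (leaf 7 394 394) (leaf 4 395 395))))))))))) (node 555 (merge (leaf 1 522 554) (node 460 (merge (leaf 6 427 428) (node 587 (merge (leaf 6 459 492) (node 588 (merge (leaf 4 459 556) (leaf 4 491 620))))))))))))))) (merge (node 522 (merge (node 490 (merge (leaf 3 489 489) (leaf 3 490 491))) (merge (node 557 (merge (leaf 0 522 558) (node 521 (merge (leaf 0 521 556) (node 552 (merge (leaf 1 520 553) (node 520 (merge (leaf 1 519 551) (node 492 (merge (leaf 2 488 491) (leaf 2 489 493))))))))))) (node 557 (merge (leaf 0 522 558) (node 521 (merge (leaf 0 521 556) (node 489 (merge (leaf 3 488 488) (leaf 3 489 490)))))))))) (merge (node 554 (merge (leaf 1 522 555) (node 522 (merge (leaf 1 521 553) (node 557 (merge (leaf 0 522 558) (node 521 (merge (leaf 0 521 556) (node 489 (merge (leaf 3 488 488) (leaf 3 489 490))))))))))) (node 554 (merge (leaf 1 522 555) (node 522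 (merge (leaf 1 521 553) (node 557 (merge (leaf 0 522 558) (node 521 (merge (leaf 0 521 556) (node 492 (merge (leaf 2 489 493) (node 520 (merge (leaf 2 488 491) (node 488 (merge (leaf 3 487 487) (leaf 3 488 489))))))))))))))))))))))) (merge (node 526 (merge (node 527 (merge (leaf 0 525 561) (node 496 (merge (leaf 2 492 495) (leaf 2 493 497))))) (merge (node 527 (merge (leaf 0 525 561) (node 556 (merge (leaf 1 523 555) (leaf 1 524 557))))) (node 523 (merge (node 554 (merge (leaf 1 522 555) (node 522 (merge (leaf 1 521 553) (node 494 (merge (leaf 2 490 493) (leaf 2 491 495))))))) (merge (node 494 (merge (leaf 2 491 495) (node 522 (merge (leaf 2 490 493) (node 490 (merge (leaf 3 489 489) (leaf 3 490 491))))))) (node 491 (merge (leaf 3 490 490) (node 555 (merge (node 554 (merge (leaf 1 522 526) (node 553 (merge (leaf 2 520 552) (leaf 2 521 556))))) (merge (node 554 (merge (leaf 1 522 526) (node 586 (merge (leaf 5 458 459) (node 618 (merge (leaf 5 490 587) (leaf 6 522 650))))))) (node 587 (merge (node 620 (merge (leaf 4 491 588) (node 619 (merge (leaf 4 523 652) (node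 618 (merge (leaf 5 490 586) (leaf 5 522 650))))))) (merge (node 588 (merge (leaf 4 491 620) (node 459 (merge (leaf 4 459 556) (node 428 (merge (leaf 6 427 460) (node 427 (merge (leaf 6 395 396) (node 426 (merge (leaf 7 394 394) (leaf 7 426 458))))))))))) (merge (node 618 (merge (leaf 5 490 586) (node 619 (merge (leaf 5 522 650) (node 556 (merge (leaf 6 523 651) (node 459 (merge (leaf 4 427 427) (leaf 4 459 588))))))))) (node 618 (merge (leaf 5 490 586) (node 619 (merge (leaf 5 522 650) (node 651 (merge (leaf 6 523 556) (node 652 (merge (leaf 4 523 620) (leaf 4 555 684)))))))))))))))))))))))) (merge (hyp 2) (merge (hyp 3) (merge (hyp 4) (hyp 5))))))))) (merge (hyp 6) (merge (node 526 (merge (node 527 (merge (leaf 0 525 561) (node 492 (merge (leaf 3 492 493) (node 524 (merge (leaf 3 491 491) (leaf 0 524 559))))))) (merge (node 527 (merge (leaf 0 525 561) (node 556 (merge (leaf 1 524 557) (node 524 (merge (leaf 1 523 555) (leaf 0 524 559))))))) (merge (node 527 (merge (leaf 0 525 561) (node 557 (merge (leaf 1 524 556) (node 589 (merge (node 494 (merge (leaf 6 493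 621) (node 462 (merge (leaf 5 429 430) (leaf 6 461 493))))) (merge (node 621 (merge (leaf 6 493 494) (node 653 (merge (leaf 6 525 558) (node 652 (merge (leaf 5 524 620) (leaf 5 556 684))))))) (merge (node 493 (merge (leaf 3 492 492) (node 462 (merge (leaf 6 461 494) (node 461 (merge (leaf 6 429 430) (node 590 (merge (leaf 4 461 558) (leaf 4 493 622))))))))) (node 493 (merge (leaf 3 492 492) (node 590 (merge (leaf 4 493 622) (node 558 (merge (leaf 4 461 461) (node 621 (merge (leaf 6 525 653) (node 620 (merge (leaf 5 492 588) (leaf 5 524 652))))))))))))))))))) (merge (node 524 (merge (node 527 (merge (leaf 0 524 559) (node 492 (merge (leaf 3 491 491) (leaf 3 492 493))))) (merge (node 527 (merge (leaf 0 524 559) (node 556 (merge (leaf 1 523 555) (leaf 1 524 557))))) (node 523 (merge (node 554 (merge (leaf 1 522 555) (node 522 (merge (leaf 1 521 553) (node 490 (merge (leaf 3 489 489) (leaf 3 490 491))))))) (merge (node 491 (merge (leaf 3 490 490) (node 459 (merge (node 556 (merge (leaf 4 427 427) (node 588 (merge (leaf 7 459 492) (leaf 7 491 620))))) (merge (node 555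 (merge (leaf 1 522 554) (node 556 (merge (leaf 4 427 427) (leaf 4 459 588))))) (merge (node 555 (merge (leaf 1 522 554) (node 460 (merge (leaf 6 427 428) (node 492 (merge (leaf 6 459 587) (node 426 (merge (leaf 7 426 458) (node 427 (merge (leaf 7 394 394) (leaf 4 395 395))))))))))) (node 555 (merge (leaf 1 522 554) (node 460 (merge (leaf 6 427 428) (node 587 (merge (leaf 6 459 492) (node 588 (merge (leaf 4 459 556) (leaf 4 491 620))))))))))))))) (merge (node 522 (merge (node 490 (merge (leaf 3 489 489) (leaf 3 490 491))) (merge (node 557 (merge (leaf 0 522 558) (node 521 (merge (leaf 0 521 556) (node 552 (merge (leaf 1 520 553) (node 520 (merge (leaf 1 519 551) (node 492 (merge (leaf 2 488 491) (leaf 2 489 493))))))))))) (node 557 (merge (leaf 0 522 558) (node 521 (merge (leaf 0 521 556) (node 489 (merge (leaf 3 488 488) (leaf 3 489 490)))))))))) (merge (node 554 (merge (leaf 1 522 555) (node 522 (merge (leaf 1 521 553) (node 557 (merge (leaf 0 522 558) (node 521 (merge (leaf 0 521 556) (node 489 (merge (leaf 3 488 488) (leaf 3 489 490))))))))))) (node 554 (merge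 (leaf 1 522 555) (node 522 (merge (leaf 1 521 553) (node 557 (merge (leaf 0 522 558) (node 521 (merge (leaf 0 521 556) (node 492 (merge (leaf 2 489 493) (node 520 (merge (leaf 2 488 491) (node 488 (merge (leaf 3 487 487) (leaf 3 488 489))))))))))))))))))))))) (hyp 7)))))) (merge (hyp 8) (merge (hyp 9) (merge (hyp 10) (merge (hyp 11) (hyp 12)))))))))))))))))))) nP_344 cP_344 18 (by decide +kernel)

end Crest.Agent.H26Snaky
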