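import Crest.Agent.H26SnP020

/-! certificate data for S0047, part P 26 (computer generated) -/

set_option autoImplicit false
set_option maxRecDepth 100000

namespace Crest.Agent.H26Snaky

open T

def nP_345 : ℕ := 0x80000003800000008000000000000000000000000000000000000000000000000000000000000000000000000000000000000000000000000000
def cP_345 : ℕ := 0x4000000040000000e0000001f380000087000001e7000001fb800000ff000001ff800000400000000000000000000000000000000000000000000000000000000000000000000
theorem lP_345 : S nP_345 cP_345 13 := S_of_chk [] trivial (node 336 (merge (node 367 (merge (leaf 6 335 368) (node 335 (merge (leaf 6 303 304) (leaf 4 335 464))))) (merge (node 401 (merge (node 369 (merge (node 337 (merge (leaf 7 304 304) (leaf 5 336 464))) (node 465 (merge (leaf 7 336 368) (node 466 (merge (leaf 0 430 430) (leaf 4 369 498))))))) (merge (node 430 (merge (leaf 2 398 402) (node 397 (merge (leaf 3 397 398) (node 429 (merge (leaf 3 396 396) (node 428 (merge (leaf 0 428 464) (node 460 (merge (leaf 1 427 459) (leaf 1 428 461))))))))))) (merge (node 430 (merge (leaf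 2 398 402) (node 465 (merge (leaf 0 430 466) (node 369 (merge (leaf 7 336 368) (node 338 (merge (leaf 6 337 370) (node 337 (merge (leaf 7 304 304) (leaf 6 305 306))))))))))) (node 369 (merge (node 337 (merge (leaf 7 304 304) (leaf 5 336 464))) (node 465 (merge (leaf 7 336 368) (node 370 (merge (leaf 6 337 338) (node 497 (merge (leaf 6 369 402) (node 498 (merge (leaf 4 369 466) (leaf 4 401 530))))))))))))))) (merge (node 465 (merge (node 466 (merge (leaf 0 430 430) (node 467 (merge (leaf 3 431 464) (leaf 3 432 468))))) (merge (node 368 (merge (leaf 6 335 367) (node 430 (merge (leaf 0 430 466) (node 401 (merge (leaf 7 336 369) (leaf 2 398 402))))))) (merge (node 368 (merge (leaf 6 335 367) (node 401 (merge (leaf 7 336 369) (node 430 (merge (leaf 2 398 402) (node 429 (merge (leaf 0 429 464) (node 397 (merge (leaf 3 396 396) (leaf 3 397 398))))))))))) (node 367 (merge (leaf 6 335 368) (node 464 (merge (leaf 4 335 335) (node 466 (merge (leaf 3 431 467) (node 498 (merge (leaf 0 463 499) (node 530 (merge (leaf 7 433 562) (node 401 (merge (leaf 4 369 369) (leaf 4 401 497)))))))))))))))))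 (merge (node 335 (merge (node 367 (merge (leaf 6 303 304) (leaf 4 335 464))) (merge (node 334 (merge (node 367 (merge (leaf 7 302 302) (leaf 6 303 304))) (merge (node 302 (merge (leaf 7 302 367) (node 301 (merge (leaf 3 301 337) (node 300 (merge (leaf 0 299 299) (leaf 3 300 333))))))) (merge (node 304 (merge (leaf 6 303 367) (node 305 (merge (leaf 2 301 333) (node 306 (merge (leaf 1 302 303) (leaf 1 303 307))))))) (node 337 (merge (node 370 (merge (leaf 0 334 369) (node 338 (merge (leaf 0 335 371) (node 302 (merge (leaf 3 301 301) (leaf 3 302 303))))))) (merge (node 369 (merge (leaf 0 334 370) (node 304 (merge (leaf 7 304 401) (node 305 (merge (leaf 2 302 306) (leaf 2 301 333))))))) (node 305 (merge (leaf 2 302 306) (node 333 (merge (leaf 2 301 304) (node 301 (merge (leaf 3 300 300) (leaf 3 301 302)))))))))))))) (merge (node 337 (merge (node 464 (merge (leaf 4 335 367) (node 401 (merge (leaf 5 336 369) (node 430 (merge (leaf 2 398 402) (node 429 (merge (leaf 0 428 428) (leaf 0 429 465))))))))) (merge (node 302 (merge (node 334 (merge (leaf 3 301 301) (leaf 7 302 367)))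 (node 338 (merge (leaf 3 302 303) (node 371 (merge (leaf 0 335 370) (node 339 (merge (leaf 0 336 372) (node 307 (merge (leaf 2 303 306) (leaf 2 304 308))))))))))) (node 369 (merge (node 370 (merge (leaf 0 334 334) (node 371 (merge (leaf 0 335 338) (leaf 3 336 372))))) (merge (node 401 (merge (leaf 5 336 464) (node 306 (merge (leaf 6 305 338) (node 305 (merge (leaf 6 273 274) (leaf 2 302 334))))))) (merge (node 401 (merge (leaf 5 336 464) (node 338 (merge (leaf 6 305 306) (node 370 (merge (leaf 0 335 371) (leaf 6 337 465))))))) (node 334 (merge (leaf 0 334 370) (node 301 (merge (leaf 3 301 302) (node 333 (merge (leaf 3 300 300) (node 365 (merge (leaf 1 332 364) (node 401 (merge (leaf 5 336 464) (node 430 (merge (leaf 2 398 402) (node 397 (merge (leaf 3 397 398) (node 396 (merge (leaf 5 300 428) (leaf 3 396 429)))))))))))))))))))))))) (node 337 (merge (node 369 (merge (node 401 (merge (leaf 7 304 304) (leaf 5 336 464))) (node 370 (merge (leaf 0 334 334) (node 371 (merge (leaf 0 335 338) (leaf 3 336 372))))))) (merge (node 338 (merge (node 370 (merge (leaf 0 335 371)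 (node 306 (merge (leaf 2 303 307) (node 401 (merge (leaf 6 305 369) (leaf 5 305 402))))))) (merge (node 371 (merge (leaf 0 335 370) (node 339 (merge (leaf 0 336 372) (node 303 (merge (leaf 3 302 302) (leaf 3 303 304))))))) (node 307 (merge (leaf 2 303 306) (node 339 (merge (leaf 2 304 308) (node 303 (merge (leaf 3 302 302) (leaf 3 303 304)))))))))) (merge (node 302 (merge (node 303 (merge (leaf 3 302 338) (node 301 (merge (leaf 0 300 300) (leaf 0 301 304))))) (merge (node 338 (merge (leaf 3 302 303) (node 371 (merge (leaf 0 335 370) (node 339 (merge (leaf 0 336 372) (node 307 (merge (leaf 2 303 306) (leaf 2 304 308))))))))) (node 334 (merge (leaf 3 301 301) (node 305 (merge (leaf 2 302 306) (node 333 (merge (leaf 2 301 304) (node 365 (merge (leaf 1 332 364) (node 397 (merge (leaf 6 301 429) (node 398 (merge (leaf 0 396 396) (leaf 3 397 430)))))))))))))))) (merge (node 369 (merge (node 401 (merge (leaf 7 304 304) (leaf 5 336 464))) (merge (node 334 (merge (leaf 0 334 370) (node 305 (merge (leaf 2 302 306) (node 333 (merge (leaf 2 301 304) (node 301 (merge (leaf 3 300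 300) (leaf 3 301 302))))))))) (node 334 (merge (leaf 0 334 370) (node 301 (merge (leaf 3 301 302) (node 333 (merge (leaf 3 300 300) (node 365 (merge (leaf 1 332 364) (node 401 (merge (leaf 5 336 464) (node 430 (merge (leaf 2 398 402) (node 397 (merge (leaf 3 397 398) (node 396 (merge (leaf 5 300 428) (leaf 3 396 429)))))))))))))))))))) (merge (node 369 (merge (node 370 (merge (leaf 0 334 334) (node 371 (merge (leaf 0 335 338) (leaf 3 336 372))))) (merge (node 401 (merge (leaf 5 336 464) (node 306 (merge (leaf 6 305 338) (node 305 (merge (leaf 6 273 274) (leaf 2 302 334))))))) (merge (node 401 (merge (leaf 5 336 464) (node 338 (merge (leaf 6 305 306) (node 370 (merge (leaf 0 335 371) (leaf 6 337 465))))))) (node 334 (merge (leaf 0 334 370) (node 301 (merge (leaf 3 301 302) (node 333 (merge (leaf 3 300 300) (node 365 (merge (leaf 1 332 364) (node 401 (merge (leaf 5 336 464) (node 430 (merge (leaf 2 398 402) (node 397 (merge (leaf 3 397 398) (node 396 (merge (leaf 5 300 428) (leaf 3 396 429))))))))))))))))))))) (node 306 (merge (node 305 (merge (leaf 2 302 334) (node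 307 (merge (leaf 1 303 304) (leaf 1 304 308))))) (merge (node 338 (merge (leaf 2 303 307) (node 401 (merge (leaf 6 305 369) (node 402 (merge (leaf 2 398 430) (node 403 (merge (leaf 1 400 404) (node 303 (merge (leaf 3 302 302) (node 339 (merge (leaf 3 303 304) (node 371 (merge (leaf 0 336 372) (leaf 7 306 435))))))))))))))) (node 334 (merge (leaf 2 302 305) (node 302 (merge (leaf 3 301 301) (node 338 (merge (leaf 3 302 303) (node 401 (merge (leaf 6 305 369) (node 430 (merge (leaf 2 398 402) (node 465 (merge (leaf 0 430 466) (node 429 (merge (leaf 0 429 464) (node 397 (merge (leaf 3 396 396) (leaf 3 397 398)))))))))))))))))))))))))))))) (node 335 (merge (node 367 (merge (leaf 6 303 304) (leaf 6 335 368))) (merge (node 334 (merge (node 367 (merge (leaf 7 302 302) (leaf 6 303 304))) (merge (node 302 (merge (leaf 7 302 367) (node 301 (merge (leaf 3 301 337) (node 300 (merge (leaf 0 299 299) (leaf 3 300 333))))))) (merge (node 304 (merge (leaf 6 303 367) (node 305 (merge (leaf 2 301 333) (node 306 (merge (leaf 1 302 303) (leaf 1 303 307))))))) (node 337 (merge (node 370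 (merge (leaf 0 334 369) (node 338 (merge (leaf 0 335 371) (node 302 (merge (leaf 3 301 301) (leaf 3 302 303))))))) (merge (node 369 (merge (leaf 0 334 370) (node 304 (merge (leaf 7 304 401) (node 305 (merge (leaf 2 302 306) (leaf 2 301 333))))))) (node 305 (merge (leaf 2 302 306) (node 333 (merge (leaf 2 301 304) (node 301 (merge (leaf 3 300 300) (leaf 3 301 302)))))))))))))) (merge (node 334 (merge (node 367 (merge (leaf 7 302 302) (leaf 6 335 368))) (merge (node 302 (merge (leaf 7 302 367) (node 301 (merge (leaf 3 301 337) (node 300 (merge (leaf 0 299 299) (leaf 3 300 333))))))) (node 369 (merge (node 337 (merge (leaf 0 334 370) (node 306 (merge (leaf 2 302 305) (node 338 (merge (leaf 2 303 307) (leaf 6 305 401))))))) (node 333 (merge (leaf 0 333 368) (node 364 (merge (leaf 1 332 365) (node 332 (merge (leaf 1 331 363) (node 300 (merge (leaf 3 299 299) (leaf 3 300 301)))))))))))))) (node 337 (merge (node 306 (merge (node 305 (merge (leaf 2 302 334) (node 307 (merge (leaf 1 303 304) (leaf 1 304 308))))) (merge (node 338 (merge (leaf 2 303 307) (node 369 (merge (leaf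 6 305 401) (node 370 (merge (leaf 0 334 334) (leaf 0 335 371))))))) (merge (node 334 (merge (leaf 2 302 305) (node 369 (merge (leaf 0 334 370) (node 401 (merge (leaf 7 304 304) (leaf 6 305 338))))))) (node 307 (merge (leaf 2 303 338) (node 305 (merge (leaf 1 303 304) (leaf 1 304 308))))))))) (merge (node 370 (merge (node 371 (merge (leaf 0 335 338) (node 369 (merge (leaf 3 335 368) (leaf 3 336 372))))) (merge (node 369 (merge (leaf 0 334 334) (node 371 (merge (leaf 3 335 368) (leaf 3 336 372))))) (merge (node 334 (merge (leaf 0 334 369) (node 306 (merge (leaf 2 302 305) (node 338 (merge (leaf 2 303 307) (node 302 (merge (leaf 3 301 301) (leaf 3 302 303))))))))) (node 338 (merge (leaf 0 335 371) (node 306 (merge (leaf 2 303 307) (node 334 (merge (leaf 2 302 305) (node 302 (merge (leaf 3 301 301) (leaf 3 302 303))))))))))))) (merge (node 338 (merge (node 370 (merge (leaf 0 335 371) (node 306 (merge (leaf 2 303 307) (node 401 (merge (leaf 6 305 369) (leaf 5 305 402))))))) (merge (node 371 (merge (leaf 0 335 370) (node 339 (merge (leaf 0 336 372) (node 303 (merge (leaf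 3 302 302) (leaf 3 303 304))))))) (node 307 (merge (leaf 2 303 306) (node 339 (merge (leaf 2 304 308) (node 303 (merge (leaf 3 302 302) (leaf 3 303 304)))))))))) (merge (node 302 (merge (node 301 (merge (leaf 3 301 334) (node 303 (merge (leaf 0 300 300) (leaf 3 302 338))))) (merge (node 303 (merge (leaf 3 302 338) (node 301 (merge (leaf 0 300 300) (leaf 0 301 304))))) (merge (node 338 (merge (leaf 3 302 303) (node 370 (merge (leaf 0 335 371) (node 369 (merge (leaf 0 334 334) (node 401 (merge (leaf 7 304 304) (leaf 6 337 465))))))))) (node 334 (merge (leaf 3 301 301) (node 369 (merge (leaf 0 334 370) (node 333 (merge (leaf 0 333 368) (node 304 (merge (leaf 2 301 305) (leaf 7 304 401))))))))))))) (merge (node 334 (merge (node 369 (merge (leaf 0 334 370) (node 333 (merge (leaf 0 333 368) (node 301 (merge (leaf 3 300 300) (leaf 3 301 302))))))) (merge (node 305 (merge (leaf 2 302 306) (node 333 (merge (leaf 2 301 304) (node 364 (merge (leaf 1 332 365) (node 332 (merge (leaf 1 331 363) (node 300 (merge (leaf 3 299 299) (leaf 3 300 301))))))))))) (node 369 (merge (leaf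 0 334 370) (node 401 (merge (leaf 7 304 304) (node 465 (merge (leaf 7 336 368) (node 430 (merge (leaf 2 398 402) (leaf 0 430 466)))))))))))) (merge (node 302 (merge (node 303 (merge (leaf 3 302 338) (node 301 (merge (leaf 0 300 300) (leaf 0 301 304))))) (merge (node 338 (merge (leaf 3 302 303) (node 371 (merge (leaf 0 335 370) (node 339 (merge (leaf 0 336 372) (node 307 (merge (leaf 2 303 306) (leaf 2 304 308))))))))) (node 334 (merge (leaf 3 301 301) (node 305 (merge (leaf 2 302 306) (node 333 (merge (leaf 2 301 304) (node 365 (merge (leaf 1 332 364) (node 397 (merge (leaf 6 301 429) (node 398 (merge (leaf 0 396 396) (leaf 3 397 430)))))))))))))))) (node 306 (merge (node 305 (merge (leaf 2 302 334) (node 307 (merge (leaf 1 303 304) (leaf 1 304 308))))) (merge (node 338 (merge (leaf 2 303 307) (node 401 (merge (leaf 6 305 369) (node 402 (merge (leaf 2 398 430) (node 403 (merge (leaf 1 400 404) (node 303 (merge (leaf 3 302 302) (node 339 (merge (leaf 3 303 304) (node 371 (merge (leaf 0 336 372) (leaf 7 306 435))))))))))))))) (node 334 (merge (leaf 2 302 305) (node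 302 (merge (leaf 3 301 301) (node 338 (merge (leaf 3 302 303) (node 369 (merge (leaf 6 305 401) (node 333 (merge (leaf 0 333 368) (node 365 (merge (leaf 1 332 364) (node 397 (merge (leaf 6 301 429) (node 398 (merge (leaf 0 396 396) (leaf 3 397 430)))))))))))))))))))))))))))))))))))) nP_345 cP_345 13 (by decide +kernel)
def nP_346 : ℕ := 0x100000001000000000000000080000000800000009000000000000000000000000000000000000000000000000000000000000000000000000000000000000000000000000000
def cP_346 : ℕ := 0x28000000f8000000fc000000f80000013c0000017800000048000001f8000001f8000001f8000000e8000000000000000000000000000000000000000000000000000000000000000000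
theorem lP_346 : S nP_346 cP_346 12 := S_of_chk [] trivial (node 367 (merge (node 366 (merge (leaf 7 334 334) (node 495 (merge (leaf 7 366 398) (leaf 4 431 527))))) (merge (node 336 (merge (leaf 6 335 368) (node 335 (merge (leaf 6 303 304) (node 334 (merge (leaf 7 302 302) (leaf 7 334 366))))))) (merge (node 364 (merge (node 495 (merge (leaf 4 431 527) (node 366 (merge (leaf 7 366 398) (node 365 (merge (leaf 1 363 395) (node 332 (merge (leaf 3 331 331) (node 333 (merge (leaf 3 332 368) (node 301 (merge (leaf 5 268 269) (leaf 6 300 428))))))))))))) (merge (node 336 (merge (leaf 6 335 368) (node 335 (merge (leaf 6 303 304) (node 366 (merge (leaf 2 332 365) (node 398 (merge (leaf 7 366 495) (node 303 (merge (leaf 5 270 271) (leaf 5 302 430))))))))))) (merge (node 428 (merge (node 429 (merge (node 430 (merge (leaf 3 395 395) (leaf 0 428 464))) (node 461 (merge (leaf 4 332 332) (node 493 (merge (leaf 4 364 460) (leaf 7 396 525))))))) (merge (node 332 (merge (node 299 (merge (leaf 7 299 331) (node 300 (merge (leaf 7 267 267) (node 427 (merge (leaf 5 299 395) (leaf 5 331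 459))))))) (merge (node 333 (merge (leaf 6 300 301) (node 460 (merge (leaf 6 332 365) (node 331 (merge (leaf 7 299 299) (leaf 7 331 363))))))) (node 301 (merge (leaf 6 300 333) (node 300 (merge (leaf 6 268 269) (node 427 (merge (leaf 5 299 395) (leaf 5 331 459)))))))))) (merge (node 336 (merge (leaf 6 335 368) (node 335 (merge (leaf 6 303 304) (node 365 (merge (leaf 2 332 366) (node 460 (merge (leaf 6 332 333) (node 493 (merge (leaf 4 364 461) (node 492 (merge (leaf 4 396 525) (node 491 (merge (leaf 5 363 459) (leaf 5 395 523))))))))))))))) (node 336 (merge (leaf 6 335 368) (node 335 (merge (leaf 6 303 304) (node 464 (merge (leaf 4 335 432) (node 429 (merge (leaf 0 428 430) (node 332 (merge (leaf 4 332 461) (node 301 (merge (leaf 6 300 333) (node 300 (merge (leaf 6 268 269) (node 427 (merge (leaf 5 299 395) (leaf 5 331 459))))))))))))))))))))) (merge (node 428 (merge (node 332 (merge (node 301 (merge (leaf 6 300 333) (node 300 (merge (leaf 6 268 269) (node 427 (merge (leaf 5 299 395) (leaf 5 331 459))))))) (merge (node 301 (merge (leaf 6 300 333) (node 300 (merge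 (leaf 6 268 269) (node 299 (merge (leaf 7 267 267) (leaf 7 299 331))))))) (node 331 (merge (leaf 7 299 299) (node 460 (merge (leaf 7 331 363) (node 459 (merge (leaf 5 331 427) (leaf 5 363 491)))))))))) (merge (node 429 (merge (node 430 (merge (leaf 3 395 395) (leaf 0 428 464))) (merge (node 332 (merge (leaf 4 332 461) (node 301 (merge (leaf 6 300 333) (node 300 (merge (leaf 6 268 269) (node 427 (merge (leaf 5 299 395) (leaf 5 331 459))))))))) (node 430 (merge (leaf 0 428 464) (node 427 (merge (leaf 2 395 398) (node 332 (merge (leaf 5 331 459) (leaf 4 332 461)))))))))) (node 336 (merge (leaf 6 335 368) (node 335 (merge (leaf 6 303 304) (node 464 (merge (leaf 4 335 432) (node 429 (merge (leaf 0 428 430) (node 495 (merge (leaf 4 431 527) (node 494 (merge (leaf 5 398 526) (node 493 (merge (leaf 2 460 492) (node 461 (merge (leaf 4 364 460) (leaf 7 396 525)))))))))))))))))))) (node 428 (merge (node 429 (merge (node 430 (merge (leaf 3 395 395) (leaf 0 428 464))) (node 461 (merge (leaf 4 332 332) (node 493 (merge (leaf 4 364 460) (leaf 7 396 525))))))) (merge (node 332 (merge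 (node 299 (merge (leaf 7 299 331) (node 300 (merge (leaf 7 267 267) (node 427 (merge (leaf 5 299 395) (leaf 5 331 459))))))) (merge (node 333 (merge (leaf 6 300 301) (node 460 (merge (leaf 6 332 365) (node 331 (merge (leaf 7 299 299) (leaf 7 331 363))))))) (node 301 (merge (leaf 6 300 333) (node 300 (merge (leaf 6 268 269) (node 427 (merge (leaf 5 299 395) (leaf 5 331 459)))))))))) (merge (node 429 (merge (node 430 (merge (leaf 3 395 395) (leaf 0 428 464))) (merge (node 332 (merge (leaf 4 332 461) (node 301 (merge (leaf 6 300 333) (node 300 (merge (leaf 6 268 269) (node 427 (merge (leaf 5 299 395) (leaf 5 331 459))))))))) (node 430 (merge (leaf 0 428 464) (node 427 (merge (leaf 2 395 398) (node 332 (merge (leaf 5 331 459) (leaf 4 332 461)))))))))) (merge (node 459 (merge (node 427 (merge (leaf 5 331 332) (node 491 (merge (leaf 5 363 460) (leaf 6 395 523))))) (merge (node 495 (merge (leaf 4 431 527) (node 460 (merge (leaf 5 363 491) (node 493 (merge (leaf 4 364 461) (node 494 (merge (leaf 3 459 492) (leaf 5 398 526))))))))) (node 332 (merge (leaf 5 331 427) (node 301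 (merge (leaf 6 300 333) (node 300 (merge (leaf 6 268 269) (node 299 (merge (leaf 7 267 267) (leaf 7 299 331)))))))))))) (node 493 (merge (node 461 (merge (leaf 4 364 460) (node 429 (merge (leaf 7 396 525) (node 430 (merge (leaf 3 395 395) (leaf 0 428 464))))))) (merge (node 460 (merge (leaf 4 364 461) (node 492 (merge (leaf 4 396 525) (node 491 (merge (leaf 5 363 459) (leaf 5 395 523))))))) (node 495 (merge (leaf 4 431 527) (node 494 (merge (leaf 5 398 526) (node 492 (merge (leaf 2 460 464) (node 523 (merge (leaf 1 491 524) (node 491 (merge (leaf 1 490 522) (node 459 (merge (leaf 6 395 427) (leaf 3 458 458)))))))))))))))))))))))))) (node 428 (merge (node 336 (merge (leaf 6 335 368) (node 335 (merge (leaf 6 303 304) (node 302 (merge (leaf 7 302 334) (node 303 (merge (leaf 7 270 270) (node 464 (merge (leaf 4 335 432) (node 430 (merge (leaf 5 302 398) (leaf 0 428 429))))))))))))) (merge (node 364 (merge (node 429 (merge (node 430 (merge (leaf 3 395 395) (leaf 0 428 464))) (node 461 (merge (leaf 4 332 332) (node 493 (merge (leaf 4 364 460) (leaf 7 396 525))))))) (merge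 (node 459 (merge (node 427 (merge (leaf 5 331 332) (node 491 (merge (leaf 6 363 395) (leaf 6 395 523))))) (merge (node 491 (merge (leaf 5 363 460) (node 427 (merge (leaf 6 363 395) (leaf 6 395 523))))) (merge (node 332 (merge (leaf 5 331 427) (node 333 (merge (leaf 6 300 301) (node 460 (merge (leaf 6 332 365) (node 331 (merge (leaf 7 299 299) (leaf 7 331 363))))))))) (node 460 (merge (leaf 5 363 491) (node 333 (merge (leaf 6 332 365) (node 332 (merge (leaf 6 300 301) (node 331 (merge (leaf 7 299 299) (leaf 7 331 363))))))))))))) (merge (node 459 (merge (node 427 (merge (leaf 5 331 332) (node 491 (merge (leaf 5 363 460) (leaf 6 395 523))))) (merge (node 495 (merge (leaf 4 431 527) (node 460 (merge (leaf 5 363 491) (node 493 (merge (leaf 4 364 461) (node 494 (merge (leaf 3 459 492) (leaf 5 398 526))))))))) (node 332 (merge (leaf 5 331 427) (node 301 (merge (leaf 6 300 333) (node 300 (merge (leaf 6 268 269) (node 299 (merge (leaf 7 267 267) (leaf 7 299 331)))))))))))) (merge (node 333 (merge (node 301 (merge (leaf 6 300 332) (node 365 (merge (leaf 5 268 269) (leaf 6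 332 460))))) (merge (node 332 (merge (leaf 6 300 301) (node 299 (merge (leaf 7 299 331) (node 300 (merge (leaf 7 267 267) (node 427 (merge (leaf 5 299 395) (leaf 5 331 459))))))))) (node 460 (merge (leaf 6 332 365) (node 493 (merge (leaf 4 364 461) (node 495 (merge (leaf 4 431 527) (node 459 (merge (leaf 5 363 491) (node 494 (merge (leaf 3 459 492) (leaf 5 398 526)))))))))))))) (merge (node 429 (merge (node 430 (merge (leaf 3 395 395) (leaf 0 428 464))) (merge (node 332 (merge (leaf 4 332 461) (node 301 (merge (leaf 6 300 333) (node 300 (merge (leaf 6 268 269) (node 427 (merge (leaf 5 299 395) (leaf 5 331 459))))))))) (node 430 (merge (leaf 0 428 464) (node 427 (merge (leaf 2 395 398) (node 332 (merge (leaf 5 331 459) (leaf 4 332 461)))))))))) (node 493 (merge (node 461 (merge (leaf 4 364 460) (node 429 (merge (leaf 7 396 525) (node 430 (merge (leaf 3 395 395) (leaf 0 428 464))))))) (merge (node 460 (merge (leaf 4 364 461) (node 492 (merge (leaf 4 396 525) (node 491 (merge (leaf 5 363 459) (leaf 5 395 523))))))) (node 495 (merge (leaf 4 431 527) (node 494 (merge (leaf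 5 398 526) (node 492 (merge (leaf 2 460 464) (node 523 (merge (leaf 1 491 524) (node 491 (merge (leaf 1 490 522) (node 459 (merge (leaf 6 395 427) (leaf 3 458 458)))))))))))))))))))))) (merge (node 336 (merge (leaf 6 335 368) (node 335 (merge (leaf 6 303 304) (node 302 (merge (leaf 7 302 334) (node 303 (merge (leaf 7 270 270) (node 430 (merge (leaf 5 302 398) (node 429 (merge (leaf 3 395 395) (node 460 (merge (leaf 1 427 459) (node 461 (merge (leaf 1 428 432) (node 364 (merge (leaf 4 332 332) (leaf 4 364 493))))))))))))))))))) (node 492 (merge (node 336 (merge (leaf 6 335 368) (node 335 (merge (leaf 6 303 304) (node 464 (merge (leaf 4 335 432) (node 495 (merge (leaf 4 431 527) (node 494 (merge (leaf 2 460 493) (leaf 5 398 526))))))))))) (merge (node 460 (merge (node 493 (merge (leaf 4 396 525) (node 364 (merge (leaf 4 364 461) (node 491 (merge (leaf 5 363 459) (leaf 5 395 523))))))) (merge (node 395 (merge (leaf 7 363 363) (node 524 (merge (leaf 7 395 427) (node 525 (merge (leaf 4 396 493) (leaf 4 428 557))))))) (node 395 (merge (leaf 7 363 363) (node 524 (merge (leaf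 7 395 427) (node 523 (merge (leaf 5 395 491) (leaf 5 427 555)))))))))) (node 460 (merge (node 395 (merge (leaf 7 363 363) (node 524 (merge (leaf 7 395 427) (node 523 (merge (leaf 5 395 491) (leaf 5 427 555))))))) (merge (node 336 (merge (leaf 6 335 368) (node 335 (merge (leaf 6 303 304) (node 334 (merge (leaf 7 302 302) (node 491 (merge (leaf 5 395 523) (node 364 (merge (leaf 5 363 459) (node 333 (merge (leaf 6 332 365) (node 301 (merge (leaf 3 300 300) (leaf 6 300 332))))))))))))))) (node 395 (merge (leaf 7 363 363) (node 524 (merge (leaf 7 395 427) (node 557 (merge (leaf 4 428 525) (node 527 (merge (leaf 4 431 495) (node 556 (merge (leaf 4 460 589) (node 558 (merge (leaf 2 524 559) (node 555 (merge (leaf 2 523 526) (leaf 5 459 587))))))))))))))))))))))))))))) nP_346 cP_346 12 (by decide +kernel)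
def nP_347 : ℕ := 0x10000000100000000000000008000000080000000b000000000000000000000000000000000000000000000000000000000000000000000000000000000000000000000000000
def cP_347 : ℕ := 0x2800000038000000fc000000fe0000013e0000017e0000000e0000003e000001fe0000007e0000002e0000000a0000000000000000000000000000000000000000000000000000000000
theorem lP_347 : S nP_347 cP_347 14 := S_of_chk [] trivial (node 428 (merge (node 429 (merge (node 430 (merge (leaf 3 395 395) (leaf 3 396 432))) (node 492 (merge (node 460 (merge (leaf 6 396 524) (node 365 (merge (leaf 6 364 396) (leaf 5 364 461))))) (merge (node 495 (merge (leaf 4 431 527) (node 494 (merge (leaf 5 398 526) (node 493 (merge (leaf 2 460 464) (node 461 (merge (leaf 7 364 364) (leaf 5 396 524))))))))) (node 460 (merge (leaf 6 364 365) (node 493 (merge (leaf 4 396 525) (node 495 (merge (leaf 4 431 527) (node 494 (merge (leaf 2 460 464) (leaf 5 398 526)))))))))))))) (merge (node 492 (merge (node 460 (merge (leaf 6 364 365) (node 524 (merge (leaf 6 396 429) (node 523 (merge (leaf 5 395 491) (leaf 5 427 555))))))) (merge (node 495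 (merge (leaf 4 431 527) (node 494 (merge (leaf 5 398 526) (node 493 (merge (leaf 2 460 464) (node 460 (merge (leaf 3 459 459) (leaf 4 396 525))))))))) (node 495 (merge (leaf 4 431 527) (node 494 (merge (leaf 5 398 526) (node 493 (merge (leaf 2 460 464) (node 523 (merge (leaf 1 491 524) (node 491 (merge (leaf 1 490 522) (node 459 (merge (leaf 6 395 427) (leaf 3 458 458)))))))))))))))) (merge (node 429 (merge (node 430 (merge (leaf 3 395 395) (leaf 3 396 432))) (node 493 (merge (node 461 (merge (leaf 7 396 525) (node 364 (merge (leaf 4 332 332) (leaf 7 364 397))))) (node 495 (merge (leaf 4 431 527) (node 494 (merge (leaf 5 398 526) (node 492 (merge (leaf 2 460 464) (node 523 (merge (leaf 1 491 524) (node 491 (merge (leaf 1 490 522) (node 459 (merge (leaf 6 395 427) (leaf 3 458 458))))))))))))))))) (merge (node 460 (merge (node 365 (merge (leaf 6 364 492) (node 333 (merge (leaf 5 300 301) (leaf 6 332 364))))) (merge (node 492 (merge (leaf 6 364 365) (node 524 (merge (leaf 6 396 429) (node 523 (merge (leaf 5 395 491) (leaf 5 427 555))))))) (merge (node 459 (merge (node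 491 (merge (leaf 5 363 364) (node 523 (merge (leaf 5 395 492) (leaf 6 427 555))))) (merge (node 429 (merge (leaf 1 427 430) (node 364 (merge (leaf 5 363 491) (node 332 (merge (leaf 4 300 300) (leaf 5 331 427))))))) (merge (node 429 (merge (leaf 1 427 430) (node 492 (merge (leaf 6 396 524) (node 363 (merge (leaf 7 363 395) (node 364 (merge (leaf 7 331 331) (node 332 (merge (leaf 4 300 300) (leaf 4 332 461))))))))))) (node 429 (merge (leaf 1 427 430) (node 492 (merge (leaf 6 396 524) (node 395 (merge (leaf 7 363 363) (node 394 (merge (leaf 0 393 393) (node 362 (merge (leaf 3 361 361) (node 491 (merge (leaf 7 362 427) (leaf 5 395 523))))))))))))))))) (node 364 (merge (node 333 (merge (leaf 6 332 365) (node 332 (merge (leaf 6 300 301) (node 459 (merge (leaf 5 331 427) (leaf 5 363 491))))))) (merge (node 333 (merge (leaf 6 332 365) (node 332 (merge (leaf 6 300 301) (node 429 (merge (leaf 4 300 300) (leaf 4 332 461))))))) (merge (node 459 (merge (leaf 5 363 491) (node 429 (merge (leaf 1 427 430) (node 332 (merge (leaf 4 300 300) (leaf 5 331 427))))))) (node 365 (merge (node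 333 (merge (leaf 5 300 301) (leaf 6 332 364))) (node 363 (merge (leaf 7 331 331) (node 362 (merge (leaf 0 361 361) (node 330 (merge (leaf 3 329 329) (node 459 (merge (leaf 5 363 491) (node 427 (merge (leaf 7 330 395) (node 426 (merge (leaf 4 330 394) (leaf 2 393 425))))))))))))))))))))))) (merge (node 429 (merge (node 430 (merge (leaf 3 396 432) (leaf 0 428 464))) (node 365 (merge (node 333 (merge (leaf 5 300 301) (leaf 5 332 460))) (merge (node 333 (merge (leaf 5 300 301) (node 334 (merge (leaf 6 301 302) (node 332 (merge (leaf 7 300 300) (node 364 (merge (leaf 7 332 461) (node 335 (merge (leaf 1 332 336) (leaf 1 331 363))))))))))) (node 364 (merge (node 461 (merge (leaf 7 332 332) (leaf 7 364 493))) (merge (node 460 (merge (leaf 6 364 492) (node 332 (merge (leaf 4 300 300) (node 459 (merge (leaf 5 331 427) (leaf 5 363 491))))))) (node 460 (merge (leaf 6 364 492) (node 363 (merge (leaf 7 331 331) (node 361 (merge (leaf 0 361 362) (node 461 (merge (leaf 7 364 493) (node 459 (merge (leaf 5 363 491) (node 458 (merge (leaf 2 425 457) (node 490 (merge (leaf 1 457 489)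 (node 426 (merge (leaf 3 425 425) (node 394 (merge (leaf 7 361 393) (leaf 6 362 395))))))))))))))))))))))))))) (merge (node 492 (merge (node 495 (merge (leaf 4 431 527) (node 494 (merge (leaf 5 398 526) (node 493 (merge (leaf 2 460 464) (node 460 (merge (leaf 3 459 459) (leaf 4 396 525))))))))) (merge (node 460 (merge (node 395 (merge (leaf 7 363 363) (node 524 (merge (leaf 7 395 427) (node 525 (merge (leaf 4 396 493) (leaf 4 428 557))))))) (node 365 (merge (leaf 6 364 397) (node 364 (merge (leaf 6 332 333) (node 491 (merge (leaf 5 363 459) (leaf 5 395 523))))))))) (merge (node 495 (merge (leaf 4 431 527) (node 494 (merge (leaf 5 398 526) (node 493 (merge (leaf 2 460 464) (node 523 (merge (leaf 1 491 524) (node 491 (merge (leaf 5 395 460) (leaf 1 490 522))))))))))) (merge (node 495 (merge (leaf 4 431 527) (node 494 (merge (leaf 5 398 526) (node 493 (merge (leaf 2 460 464) (node 523 (merge (leaf 1 491 524) (node 491 (merge (leaf 1 490 522) (node 459 (merge (leaf 6 395 427) (leaf 3 458 458))))))))))))) (node 460 (merge (node 365 (merge (leaf 6 364 397) (node 364 (merge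 (leaf 6 332 333) (node 491 (merge (leaf 5 363 459) (leaf 5 395 523))))))) (merge (node 395 (merge (leaf 7 363 363) (node 524 (merge (leaf 7 395 427) (node 523 (merge (leaf 5 395 491) (leaf 5 427 555))))))) (merge (node 365 (merge (leaf 6 364 397) (node 364 (merge (leaf 6 332 333) (node 395 (merge (leaf 7 363 363) (node 427 (merge (leaf 7 395 524) (node 459 (merge (leaf 5 331 332) (leaf 6 363 491))))))))))) (node 395 (merge (leaf 7 363 363) (node 524 (merge (leaf 7 395 427) (node 557 (merge (leaf 4 428 525) (node 556 (merge (leaf 4 460 589) (node 555 (merge (leaf 5 427 523) (leaf 5 459 587)))))))))))))))))))) (node 527 (merge (leaf 4 431 495) (node 364 (merge (node 429 (merge (node 332 (merge (leaf 4 300 300) (leaf 4 332 461))) (node 430 (merge (leaf 3 395 395) (leaf 0 428 464))))) (merge (node 332 (merge (node 331 (merge (leaf 7 299 299) (node 460 (merge (leaf 7 331 363) (node 459 (merge (leaf 5 331 427) (leaf 5 363 491))))))) (merge (node 301 (merge (leaf 6 300 333) (node 300 (merge (leaf 6 268 269) (node 299 (merge (leaf 7 267 267) (leaf 7 299 331))))))) (node 333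 (merge (leaf 6 300 301) (node 460 (merge (leaf 6 332 365) (node 459 (merge (leaf 5 331 427) (leaf 5 363 491)))))))))) (node 363 (merge (node 331 (merge (leaf 7 331 460) (node 299 (merge (leaf 4 267 267) (leaf 4 299 395))))) (merge (node 395 (merge (node 362 (merge (leaf 0 361 361) (node 460 (merge (leaf 7 331 331) (node 365 (merge (leaf 6 332 333) (node 330 (merge (leaf 3 329 329) (node 459 (merge (leaf 7 330 427) (leaf 5 363 491))))))))))) (merge (node 362 (merge (leaf 0 361 361) (node 429 (merge (leaf 3 395 430) (node 394 (merge (leaf 0 393 393) (node 426 (merge (leaf 1 393 425) (node 458 (merge (leaf 6 362 490) (node 457 (merge (leaf 1 425 427) (leaf 5 361 489))))))))))))) (node 460 (merge (leaf 7 331 331) (node 429 (merge (leaf 3 395 430) (node 394 (merge (leaf 0 393 393) (node 426 (merge (leaf 1 393 425) (node 458 (merge (leaf 6 362 490) (node 459 (merge (leaf 2 425 457) (leaf 5 363 491)))))))))))))))) (merge (node 362 (merge (leaf 0 361 361) (node 394 (merge (node 365 (merge (leaf 1 361 393) (node 333 (merge (leaf 5 300 301) (leaf 2 330 334))))) (node 331 (merge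 (node 299 (merge (leaf 4 267 267) (leaf 4 299 395))) (merge (node 426 (merge (leaf 6 330 458) (node 425 (merge (leaf 1 393 395) (leaf 2 393 427))))) (node 426 (merge (leaf 6 330 458) (node 299 (merge (leaf 4 267 267) (leaf 6 298 330)))))))))))) (merge (node 362 (merge (leaf 0 361 361) (node 394 (merge (node 365 (merge (leaf 1 361 393) (node 333 (merge (leaf 5 300 301) (leaf 2 330 334))))) (node 331 (merge (leaf 7 331 460) (node 426 (merge (leaf 6 330 458) (node 299 (merge (leaf 4 267 267) (leaf 6 298 330))))))))))) (node 362 (merge (leaf 0 361 361) (node 394 (merge (node 365 (merge (leaf 1 361 393) (node 333 (merge (leaf 5 300 301) (leaf 2 330 334))))) (merge (node 429 (merge (node 430 (merge (leaf 3 396 432) (leaf 0 428 464))) (node 395 (merge (leaf 0 393 393) (node 426 (merge (leaf 1 393 425) (node 458 (merge (leaf 6 362 490) (node 457 (merge (leaf 1 425 427) (leaf 5 361 489))))))))))) (node 330 (merge (node 365 (merge (leaf 3 329 329) (node 333 (merge (leaf 5 300 301) (leaf 6 332 460))))) (node 298 (merge (node 267 (merge (leaf 6 266 299) (node 266 (merge (leaf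 6 234 235) (node 265 (merge (leaf 7 233 233) (leaf 7 265 297))))))) (node 427 (merge (leaf 4 298 395) (node 426 (merge (leaf 2 393 425) (leaf 4 330 459))))))))))))))))))))))))))))))) nP_347 cP_347 14 (by decide +kernel)
def nP_348 : ℕ := 0x100000001000000000000000080000000800000009000000000000000000000000000000000000000000000000000000000000000000000000000000000000000000000000000
def cP_348 : ℕ := 0x28000002ba000000ff800000ff8000013f0000017f8000002f000001ff800001ff8000017e0000002e000000080000000000000000000000000000000000000000000000000000000000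
theorem lP_348 : S nP_348 cP_348 14 := S_of_chk [] trivial (node 428 (merge (node 429 (merge (node 430 (merge (leaf 3 395 395) (leaf 0 428 464))) (merge (node 493 (merge (node 461 (merge (leaf 7 396 525) (node 364 (merge (leaf 4 332 332) (leaf 4 364 460))))) (node 495 (merge (leaf 4 431 527) (node 494 (merge (leaf 5 398 526) (node 492 (merge (leaf 2 460 464) (node 523 (merge (leaf 1 491 524) (node 491 (merge (leaf 1 490 522) (node 459 (merge (leaf 6 395 427) (leaf 3 458 458))))))))))))))) (node 430 (merge (leaf 3 395 395) (node 460 (merge (leaf 1 427 459) (node 461 (merge (leaf 1 428 432) (node 364 (merge (leaf 4 332 332) (leaf 4 364 493)))))))))))) (merge (node 429 (merge (node 430 (merge (leaf 3 395 395) (leaf 0 428 464))) (merge (node 430 (merge (leaf 0 428 464) (node 460 (merge (leaf 1 427 459) (node 432 (merge (leaf 3 396 397) (leaf 1 428 461))))))) (node 364 (merge (node 461 (merge (leaf 4 332 332) (node 493 (merge (leaf 7 364 397) (leaf 7 396 525))))) (merge (node 461 (merge (leaf 4 332 332) (node 493 (merge (leaf 4 364 460) (leaf 7 396 525))))) (merge (node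 332 (merge (node 301 (merge (leaf 6 300 333) (node 300 (merge (leaf 6 268 269) (leaf 4 300 397))))) (merge (node 299 (merge (leaf 7 299 331) (node 300 (merge (leaf 7 267 267) (leaf 4 300 397))))) (node 333 (merge (leaf 6 300 301) (node 460 (merge (leaf 6 332 365) (node 331 (merge (leaf 7 299 299) (leaf 7 331 363)))))))))) (node 365 (merge (node 333 (merge (leaf 6 332 460) (node 301 (merge (leaf 5 268 269) (leaf 5 300 397))))) (merge (node 367 (merge (node 366 (merge (leaf 7 334 334) (leaf 1 363 395))) (merge (node 336 (merge (leaf 6 335 368) (node 335 (merge (leaf 6 303 304) (node 334 (merge (leaf 7 302 302) (leaf 1 332 333))))))) (node 336 (merge (leaf 6 335 368) (node 366 (merge (leaf 2 332 335) (leaf 1 363 395)))))))) (node 363 (merge (node 331 (merge (leaf 7 331 460) (node 299 (merge (leaf 4 267 267) (leaf 4 299 395))))) (merge (node 331 (merge (leaf 7 331 460) (node 366 (merge (leaf 3 330 330) (node 334 (merge (leaf 2 331 335) (leaf 7 334 367))))))) (merge (node 366 (merge (node 334 (merge (leaf 2 331 335) (leaf 7 334 367))) (node 395 (merge (leaf 1 362 394)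 (node 331 (merge (leaf 4 299 299) (leaf 3 330 330))))))) (node 366 (merge (node 395 (merge (leaf 1 363 367) (leaf 1 362 394))) (node 334 (merge (leaf 2 331 335) (node 461 (merge (leaf 6 333 397) (node 493 (merge (leaf 4 364 460) (leaf 7 396 525))))))))))))))))))))))) (merge (node 429 (merge (node 430 (merge (leaf 0 428 464) (node 460 (merge (leaf 1 427 459) (node 432 (merge (leaf 3 396 397) (leaf 1 428 461))))))) (merge (node 493 (merge (node 461 (merge (leaf 7 396 525) (node 364 (merge (leaf 4 332 332) (leaf 7 364 397))))) (node 495 (merge (leaf 4 431 527) (node 494 (merge (leaf 5 398 526) (node 492 (merge (leaf 2 460 464) (node 523 (merge (leaf 1 491 524) (node 491 (merge (leaf 1 490 522) (node 459 (merge (leaf 6 395 427) (leaf 3 458 458))))))))))))))) (merge (node 397 (merge (node 430 (merge (leaf 3 396 432) (leaf 0 428 464))) (merge (node 430 (merge (leaf 3 396 432) (node 460 (merge (leaf 1 427 459) (node 492 (merge (leaf 6 364 365) (leaf 6 396 524))))))) (node 492 (merge (node 460 (merge (leaf 6 364 365) (node 524 (merge (leaf 6 396 429) (node 523 (merge (leaf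 5 395 491) (leaf 5 427 555))))))) (merge (node 495 (merge (leaf 4 431 527) (node 494 (merge (leaf 5 398 526) (node 493 (merge (leaf 2 460 464) (node 460 (merge (leaf 3 459 459) (leaf 4 396 525))))))))) (node 495 (merge (leaf 4 431 527) (node 494 (merge (leaf 5 398 526) (node 493 (merge (leaf 2 460 464) (node 523 (merge (leaf 1 491 524) (node 491 (merge (leaf 1 490 522) (node 459 (merge (leaf 6 395 427) (leaf 3 458 458))))))))))))))))))) (merge (node 527 (merge (leaf 4 431 495) (node 430 (merge (leaf 0 428 464) (node 432 (merge (leaf 3 396 397) (node 461 (merge (leaf 1 428 460) (node 525 (merge (leaf 7 396 493) (node 526 (merge (leaf 0 525 561) (node 524 (merge (leaf 0 524 559) (node 556 (merge (leaf 1 523 555) (leaf 1 524 557))))))))))))))))) (node 525 (merge (node 493 (merge (leaf 7 396 461) (node 492 (merge (leaf 4 396 460) (node 527 (merge (leaf 4 431 495) (leaf 3 492 526))))))) (merge (node 527 (merge (leaf 4 431 495) (node 526 (merge (leaf 0 525 561) (node 524 (merge (leaf 0 524 559) (node 556 (merge (leaf 1 523 555) (leaf 1 524 557))))))))) (node 493 (merge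 (leaf 7 396 461) (node 460 (merge (leaf 4 396 492) (node 459 (merge (leaf 1 427 430) (node 491 (merge (leaf 5 363 364) (node 523 (merge (leaf 6 395 427) (leaf 6 427 555))))))))))))))))))) (merge (node 527 (merge (leaf 4 431 495) (node 429 (merge (node 430 (merge (leaf 3 395 395) (leaf 0 428 464))) (merge (node 364 (merge (node 461 (merge (leaf 4 332 332) (node 493 (merge (leaf 7 364 397) (leaf 7 396 525))))) (merge (node 461 (merge (leaf 4 332 332) (node 493 (merge (leaf 4 364 460) (leaf 7 396 525))))) (merge (node 332 (merge (node 301 (merge (leaf 6 300 333) (node 300 (merge (leaf 6 268 269) (leaf 4 300 397))))) (merge (node 299 (merge (leaf 7 299 331) (node 300 (merge (leaf 7 267 267) (leaf 4 300 397))))) (node 333 (merge (leaf 6 300 301) (node 460 (merge (leaf 6 332 365) (node 331 (merge (leaf 7 299 299) (leaf 7 331 363)))))))))) (node 365 (merge (node 333 (merge (leaf 6 332 460) (node 301 (merge (leaf 5 268 269) (leaf 5 300 397))))) (merge (node 460 (merge (leaf 6 332 333) (node 363 (merge (leaf 7 331 331) (node 492 (merge (leaf 7 363 395) (node 493 (merge (leaf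 4 364 461) (leaf 4 396 525))))))))) (merge (node 363 (merge (node 460 (merge (leaf 7 331 331) (node 492 (merge (leaf 6 364 397) (node 493 (merge (leaf 4 364 461) (leaf 4 396 525))))))) (merge (node 366 (merge (node 334 (merge (leaf 2 331 335) (leaf 7 334 367))) (node 395 (merge (leaf 1 362 394) (node 331 (merge (leaf 4 299 299) (leaf 3 330 330))))))) (node 366 (merge (node 395 (merge (leaf 1 363 367) (leaf 1 362 394))) (node 334 (merge (leaf 2 331 335) (node 461 (merge (leaf 6 333 397) (node 493 (merge (leaf 4 364 460) (leaf 7 396 525)))))))))))) (node 367 (merge (node 366 (merge (leaf 7 334 334) (leaf 1 363 395))) (merge (node 336 (merge (leaf 6 335 368) (node 335 (merge (leaf 6 303 304) (node 334 (merge (leaf 7 302 302) (leaf 1 332 333))))))) (node 368 (merge (leaf 6 335 336) (node 366 (merge (leaf 1 363 395) (leaf 1 364 397)))))))))))))))) (node 430 (merge (leaf 0 428 464) (node 432 (merge (leaf 3 396 397) (node 461 (merge (leaf 1 428 460) (node 525 (merge (leaf 7 396 493) (node 526 (merge (leaf 0 525 561) (node 524 (merge (leaf 0 524 559) (node 556 (merge (leaf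 1 523 555) (leaf 1 524 557)))))))))))))))))))) (merge (node 492 (merge (node 495 (merge (leaf 4 431 527) (node 494 (merge (leaf 5 398 526) (node 493 (merge (leaf 2 460 464) (node 460 (merge (leaf 3 459 459) (leaf 4 396 525))))))))) (merge (node 460 (merge (node 395 (merge (leaf 7 363 363) (node 524 (merge (leaf 7 395 427) (node 525 (merge (leaf 4 396 493) (leaf 4 428 557))))))) (node 365 (merge (leaf 6 364 397) (node 364 (merge (leaf 6 332 333) (node 491 (merge (leaf 5 363 459) (leaf 5 395 523))))))))) (merge (node 495 (merge (leaf 4 431 527) (node 494 (merge (leaf 5 398 526) (node 493 (merge (leaf 2 460 464) (node 523 (merge (leaf 1 491 524) (node 491 (merge (leaf 5 395 460) (leaf 1 490 522))))))))))) (merge (node 495 (merge (leaf 4 431 527) (node 494 (merge (leaf 5 398 526) (node 493 (merge (leaf 2 460 464) (node 523 (merge (leaf 1 491 524) (node 491 (merge (leaf 1 490 522) (node 459 (merge (leaf 6 395 427) (leaf 3 458 458))))))))))))) (node 460 (merge (node 365 (merge (leaf 6 364 397) (node 364 (merge (leaf 6 332 333) (node 491 (merge (leaf 5 363 459) (leaf 5 395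 523))))))) (merge (node 395 (merge (leaf 7 363 363) (node 524 (merge (leaf 7 395 427) (node 523 (merge (leaf 5 395 491) (leaf 5 427 555))))))) (merge (node 365 (merge (leaf 6 364 397) (node 364 (merge (leaf 6 332 333) (node 395 (merge (leaf 7 363 363) (node 427 (merge (leaf 7 395 524) (node 459 (merge (leaf 5 331 332) (leaf 6 363 491))))))))))) (node 395 (merge (leaf 7 363 363) (node 524 (merge (leaf 7 395 427) (node 557 (merge (leaf 4 428 525) (node 556 (merge (leaf 4 460 589) (node 555 (merge (leaf 5 427 523) (leaf 5 459 587)))))))))))))))))))) (merge (node 429 (merge (node 430 (merge (leaf 3 395 395) (leaf 0 428 464))) (merge (node 430 (merge (leaf 0 428 464) (node 460 (merge (leaf 1 427 459) (node 432 (merge (leaf 3 396 397) (leaf 1 428 461))))))) (node 364 (merge (node 332 (merge (leaf 4 332 461) (node 300 (merge (leaf 4 300 397) (node 427 (merge (leaf 5 299 395) (leaf 5 331 459))))))) (merge (node 332 (merge (leaf 4 332 461) (node 333 (merge (leaf 6 300 301) (node 460 (merge (leaf 6 332 365) (node 459 (merge (leaf 5 331 427) (leaf 5 363 491))))))))) (merge (node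 332 (merge (node 301 (merge (leaf 6 300 333) (node 300 (merge (leaf 6 268 269) (leaf 4 300 397))))) (merge (node 299 (merge (leaf 7 299 331) (node 300 (merge (leaf 7 267 267) (leaf 4 300 397))))) (node 333 (merge (leaf 6 300 301) (node 460 (merge (leaf 6 332 365) (node 331 (merge (leaf 7 299 299) (leaf 7 331 363)))))))))) (node 527 (merge (leaf 4 431 495) (node 365 (merge (node 333 (merge (leaf 6 332 460) (node 301 (merge (leaf 5 268 269) (leaf 5 300 397))))) (merge (node 367 (merge (node 366 (merge (leaf 7 334 334) (leaf 1 363 395))) (merge (node 336 (merge (leaf 6 335 368) (node 335 (merge (leaf 6 303 304) (node 334 (merge (leaf 7 302 302) (leaf 1 332 333))))))) (node 336 (merge (leaf 6 335 368) (node 366 (merge (leaf 2 332 335) (leaf 1 363 395)))))))) (node 363 (merge (node 460 (merge (leaf 7 331 331) (node 492 (merge (leaf 7 363 395) (leaf 6 364 397))))) (merge (node 331 (merge (leaf 7 331 460) (node 366 (merge (leaf 3 330 330) (node 334 (merge (leaf 2 331 335) (leaf 7 334 367))))))) (merge (node 366 (merge (node 334 (merge (leaf 2 331 335) (leaf 7 334 367)))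 (node 395 (merge (leaf 1 362 394) (node 331 (merge (leaf 4 299 299) (leaf 3 330 330))))))) (node 395 (merge (node 366 (merge (leaf 1 363 367) (leaf 1 362 394))) (merge (node 394 (merge (leaf 0 393 393) (node 460 (merge (leaf 7 363 492) (node 459 (merge (leaf 5 363 491) (node 458 (merge (leaf 2 425 457) (node 490 (merge (leaf 6 362 426) (leaf 5 362 427))))))))))) (node 460 (merge (leaf 7 363 492) (node 459 (merge (leaf 5 363 491) (node 458 (merge (leaf 2 425 457) (node 427 (merge (leaf 5 362 490) (node 362 (merge (leaf 7 330 330) (node 361 (merge (leaf 0 360 360) (leaf 0 361 397)))))))))))))))))))))))))))))))) (merge (node 527 (merge (leaf 4 431 495) (node 525 (merge (node 526 (merge (leaf 0 525 561) (node 524 (merge (leaf 0 524 559) (node 492 (merge (leaf 3 491 491) (leaf 3 492 493))))))) (merge (node 526 (merge (leaf 0 525 561) (node 524 (merge (leaf 0 524 559) (node 556 (merge (leaf 1 523 555) (leaf 1 524 557))))))) (merge (node 526 (merge (leaf 0 525 561) (node 557 (merge (leaf 1 524 556) (node 493 (merge (leaf 3 492 492) (node 461 (merge (leaf 7 396 429) (leaf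 7 428 460))))))))) (node 460 (merge (node 493 (merge (leaf 4 396 492) (node 461 (merge (leaf 4 364 364) (leaf 7 396 429))))) (merge (node 492 (merge (leaf 4 396 493) (node 524 (merge (leaf 4 428 557) (node 523 (merge (leaf 5 395 491) (leaf 5 427 555))))))) (merge (node 491 (merge (node 492 (merge (leaf 5 395 523) (node 397 (merge (leaf 6 364 365) (node 524 (merge (leaf 6 396 429) (leaf 4 428 557))))))) (merge (node 459 (merge (leaf 5 363 364) (node 523 (merge (leaf 6 395 427) (leaf 6 427 555))))) (node 364 (merge (leaf 5 363 459) (node 333 (merge (leaf 6 332 365) (node 332 (merge (leaf 6 300 301) (node 331 (merge (leaf 7 299 299) (leaf 7 331 363)))))))))))) (node 459 (merge (node 491 (merge (leaf 5 363 364) (node 523 (merge (leaf 6 395 427) (leaf 6 427 555))))) (merge (node 429 (merge (leaf 1 427 430) (node 461 (merge (leaf 7 396 493) (node 364 (merge (leaf 4 332 332) (leaf 5 363 491))))))) (merge (node 458 (merge (node 429 (merge (leaf 1 427 430) (leaf 2 425 457))) (merge (node 457 (merge (node 488 (merge (leaf 1 456 489) (node 456 (merge (leaf 2 424 427) (leaf 1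 455 487))))) (merge (node 456 (merge (leaf 2 424 427) (node 424 (merge (leaf 3 423 423) (leaf 3 424 425))))) (node 489 (merge (leaf 1 456 488) (node 461 (merge (leaf 1 457 490) (node 425 (merge (leaf 3 424 424) (leaf 3 425 426)))))))))) (node 491 (merge (node 523 (merge (leaf 6 395 427) (leaf 6 427 555))) (merge (node 429 (merge (leaf 1 427 430) (node 461 (merge (leaf 7 396 493) (node 490 (merge (leaf 1 457 489) (node 426 (merge (leaf 3 425 425) (node 394 (merge (leaf 4 362 362) (node 393 (merge (leaf 7 361 361) (leaf 3 393 427))))))))))))) (node 523 (merge (leaf 6 427 555) (node 429 (merge (leaf 1 427 430) (node 461 (merge (leaf 7 396 493) (node 426 (merge (leaf 3 425 425) (node 394 (merge (leaf 4 362 362) (leaf 4 394 490))))))))))))))))) (node 458 (merge (node 429 (merge (leaf 1 427 430) (leaf 2 425 457))) (merge (node 457 (merge (node 488 (merge (leaf 1 456 489) (node 456 (merge (leaf 2 424 427) (leaf 1 455 487))))) (merge (node 456 (merge (leaf 2 424 427) (node 424 (merge (leaf 3 423 423) (leaf 3 424 425))))) (node 489 (merge (leaf 1 456 488) (node 461 (merge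 (leaf 1 457 490) (node 425 (merge (leaf 3 424 424) (leaf 3 425 426)))))))))) (node 363 (merge (node 331 (merge (leaf 7 331 364) (node 395 (merge (leaf 4 299 299) (leaf 4 331 427))))) (merge (node 364 (merge (leaf 7 331 331) (node 429 (merge (leaf 1 427 430) (node 461 (merge (leaf 4 332 332) (leaf 7 396 493))))))) (node 429 (merge (leaf 1 427 430) (node 461 (merge (leaf 7 396 493) (node 490 (merge (leaf 1 457 489) (node 426 (merge (leaf 3 425 425) (node 395 (merge (leaf 6 362 394) (leaf 5 362 427))))))))))))))))))))))))))))))) (merge (node 429 (merge (node 430 (merge (leaf 3 395 395) (leaf 0 428 464))) (merge (node 493 (merge (node 461 (merge (leaf 7 396 525) (node 364 (merge (leaf 4 332 332) (leaf 7 364 397))))) (node 495 (merge (leaf 4 431 527) (node 494 (merge (leaf 5 398 526) (node 492 (merge (leaf 2 460 464) (node 523 (merge (leaf 1 491 524) (node 491 (merge (leaf 1 490 522) (node 459 (merge (leaf 6 395 427) (leaf 3 458 458))))))))))))))) (node 395 (merge (leaf 3 395 430) (node 394 (merge (leaf 0 393 393) (node 426 (merge (node 425 (merge (leaf 1 393 397) (node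 424 (merge (leaf 2 391 423) (leaf 2 392 427))))) (merge (node 458 (merge (node 363 (merge (leaf 6 362 490) (node 331 (merge (leaf 4 299 299) (leaf 6 330 362))))) (merge (node 490 (merge (leaf 6 362 363) (node 427 (merge (leaf 1 425 457) (leaf 6 394 522))))) (node 457 (merge (leaf 1 425 427) (node 489 (merge (leaf 5 361 362) (node 521 (merge (leaf 6 393 425) (leaf 6 425 553)))))))))) (merge (node 458 (merge (node 363 (merge (leaf 6 362 490) (node 331 (merge (leaf 4 299 299) (leaf 6 330 362))))) (merge (node 490 (merge (leaf 6 362 363) (node 427 (merge (leaf 1 425 457) (leaf 6 394 522))))) (node 457 (merge (leaf 1 425 427) (node 362 (merge (leaf 5 361 489) (node 361 (merge (leaf 7 329 329) (leaf 3 361 397)))))))))) (node 397 (merge (leaf 1 393 425) (node 365 (merge (leaf 2 362 366) (node 362 (merge (leaf 3 361 361) (node 333 (merge (leaf 5 300 301) (node 334 (merge (leaf 6 301 302) (node 332 (merge (leaf 7 300 300) (node 364 (merge (leaf 2 330 363) (leaf 7 332 461)))))))))))))))))))))))))) (node 492 (merge (node 495 (merge (leaf 4 431 527) (node 494 (merge (leaf 5 398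 526) (node 493 (merge (leaf 2 460 464) (node 460 (merge (leaf 3 459 459) (leaf 4 396 525))))))))) (merge (node 495 (merge (leaf 4 431 527) (node 494 (merge (leaf 5 398 526) (node 493 (merge (leaf 2 460 464) (node 523 (merge (leaf 1 491 524) (node 491 (merge (leaf 1 490 522) (node 459 (merge (leaf 6 395 427) (leaf 3 458 458))))))))))))) (merge (node 460 (merge (node 395 (merge (leaf 7 363 363) (node 524 (merge (leaf 7 395 427) (node 525 (merge (leaf 4 396 493) (leaf 4 428 557))))))) (merge (node 397 (merge (leaf 6 364 365) (node 524 (merge (leaf 6 396 429) (node 523 (merge (leaf 5 395 491) (leaf 5 427 555))))))) (node 491 (merge (leaf 5 395 523) (node 490 (merge (node 489 (merge (leaf 2 457 461) (node 457 (merge (leaf 3 456 456) (node 493 (merge (leaf 3 457 458) (leaf 4 396 525))))))) (merge (node 489 (merge (leaf 2 457 461) (node 520 (merge (leaf 1 488 521) (node 488 (merge (leaf 2 456 459) (leaf 1 487 519))))))) (node 395 (merge (leaf 7 363 363) (node 493 (merge (leaf 4 396 525) (node 522 (merge (leaf 1 489 521) (node 458 (merge (leaf 3 457 457) (node 459 (merge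 (leaf 5 394 427) (leaf 3 458 494))))))))))))))))))) (merge (node 525 (merge (node 493 (merge (leaf 4 396 460) (node 429 (merge (leaf 7 396 461) (node 430 (merge (leaf 3 395 395) (leaf 0 428 464))))))) (node 527 (merge (leaf 4 431 495) (node 526 (merge (leaf 0 525 561) (node 524 (merge (leaf 0 524 559) (node 556 (merge (leaf 1 523 555) (leaf 1 524 557))))))))))) (node 527 (merge (leaf 4 431 495) (node 395 (merge (node 460 (merge (leaf 7 363 363) (node 397 (merge (leaf 6 364 365) (node 429 (merge (leaf 3 395 430) (leaf 6 396 524))))))) (merge (node 460 (merge (leaf 7 363 363) (node 524 (merge (leaf 7 395 427) (node 523 (merge (leaf 5 395 491) (leaf 5 427 555))))))) (merge (node 394 (merge (node 429 (merge (leaf 0 393 393) (leaf 3 395 430))) (merge (node 393 (merge (node 392 (merge (leaf 0 392 427) (node 424 (merge (leaf 1 391 423) (leaf 1 392 425))))) (merge (node 392 (merge (leaf 0 392 427) (node 360 (merge (leaf 3 359 359) (leaf 3 360 361))))) (node 425 (merge (leaf 1 392 424) (node 397 (merge (leaf 1 393 426) (node 361 (merge (leaf 3 360 360) (leaf 3 361 362))))))))))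 (node 362 (merge (node 361 (merge (leaf 3 361 397) (node 360 (merge (leaf 0 359 359) (leaf 0 360 363))))) (merge (node 426 (merge (node 425 (merge (leaf 1 393 397) (node 424 (merge (leaf 2 391 423) (leaf 2 392 427))))) (merge (node 361 (merge (leaf 3 361 397) (node 329 (merge (leaf 7 329 458) (node 297 (merge (leaf 4 265 265) (leaf 7 297 330))))))) (node 425 (merge (node 424 (merge (leaf 2 391 423) (leaf 2 392 427))) (node 457 (merge (leaf 5 329 330) (node 489 (merge (leaf 5 361 458) (leaf 6 393 521)))))))))) (merge (node 426 (merge (node 425 (merge (leaf 1 393 397) (node 424 (merge (leaf 2 391 423) (leaf 2 392 427))))) (merge (node 425 (merge (leaf 1 393 397) (node 457 (merge (leaf 5 329 330) (node 489 (merge (leaf 5 361 458) (leaf 6 393 521))))))) (node 458 (merge (node 363 (merge (leaf 6 330 331) (leaf 6 362 490))) (node 429 (merge (leaf 3 395 430) (node 457 (merge (leaf 1 425 427) (leaf 5 361 489)))))))))) (node 330 (merge (node 427 (merge (leaf 4 298 298) (node 459 (merge (leaf 4 330 426) (leaf 7 362 491))))) (merge (node 298 (merge (leaf 4 298 427) (node 267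 (merge (leaf 6 266 299) (node 266 (merge (leaf 6 234 235) (leaf 4 266 363))))))) (merge (node 426 (merge (node 427 (merge (leaf 4 330 459) (node 425 (merge (leaf 2 392 424) (leaf 5 329 457))))) (node 331 (merge (leaf 6 298 299) (node 458 (merge (leaf 6 330 363) (node 329 (merge (leaf 7 297 297) (leaf 7 329 361))))))))) (node 363 (merge (node 298 (merge (leaf 4 266 266) (node 299 (merge (leaf 6 266 267) (leaf 4 299 331))))) (merge (node 298 (merge (leaf 4 266 266) (node 297 (merge (leaf 7 265 265) (node 426 (merge (leaf 7 297 329) (node 458 (merge (leaf 6 362 490) (node 457 (merge (leaf 5 329 425) (leaf 5 361 489))))))))))) (node 360 (merge (leaf 0 360 361) (node 331 (merge (leaf 4 299 299) (node 426 (merge (leaf 6 330 458) (node 329 (merge (leaf 7 297 297) (node 328 (merge (leaf 0 327 327) (leaf 1 327 359))))))))))))))))))))))))) (node 394 (merge (node 429 (merge (leaf 0 393 393) (leaf 3 395 430))) (merge (node 393 (merge (node 392 (merge (leaf 0 392 427) (node 424 (merge (leaf 1 391 423) (leaf 1 392 425))))) (merge (node 392 (merge (leaf 0 392 427) (node 360 (merge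 (leaf 3 359 359) (leaf 3 360 361))))) (node 425 (merge (leaf 1 392 424) (node 397 (merge (leaf 1 393 426) (node 361 (merge (leaf 3 360 360) (leaf 3 361 362)))))))))) (node 491 (merge (node 429 (merge (leaf 3 395 430) (node 460 (merge (leaf 5 395 523) (node 397 (merge (leaf 6 364 365) (leaf 6 396 524))))))) (merge (node 460 (merge (leaf 5 395 523) (node 524 (merge (leaf 7 395 427) (node 525 (merge (leaf 3 491 526) (leaf 4 428 557))))))) (merge (node 460 (merge (node 397 (merge (leaf 6 364 365) (node 429 (merge (leaf 0 394 430) (leaf 6 396 524))))) (merge (node 524 (merge (leaf 7 395 427) (node 525 (merge (leaf 3 491 526) (leaf 4 428 557))))) (node 397 (merge (leaf 6 364 365) (node 426 (merge (leaf 1 393 425) (node 362 (merge (leaf 3 361 361) (node 459 (merge (leaf 7 362 427) (leaf 4 362 458)))))))))))) (merge (node 460 (merge (leaf 5 395 523) (node 397 (merge (leaf 6 364 365) (node 426 (merge (leaf 1 393 425) (node 362 (merge (leaf 3 361 361) (node 459 (merge (leaf 7 362 427) (leaf 4 362 458))))))))))) (node 426 (merge (node 425 (merge (leaf 1 393 397) (node 424 (merge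 (leaf 2 391 423) (leaf 2 392 427))))) (merge (node 459 (merge (node 427 (merge (leaf 6 395 523) (leaf 4 395 524))) (merge (node 427 (merge (leaf 7 362 362) (leaf 4 395 524))) (node 458 (merge (leaf 4 362 362) (node 523 (merge (leaf 4 394 490) (leaf 7 426 555)))))))) (node 397 (merge (leaf 1 393 425) (node 362 (merge (leaf 3 361 361) (node 458 (merge (leaf 4 362 459) (node 490 (merge (leaf 4 394 523) (node 489 (merge (leaf 5 361 457) (leaf 5 393 521)))))))))))))))))))))))))))))))))))))))))) nP_348 cP_348 14 (by decide +kernel)
def nP_349 : ℕ := 0x100000001000000000000000080000000800000008000000000000000000000000000000000000000000000000000000000000000000000000000000000000000000000000000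
def cP_349 : ℕ := 0x28000002fa000000ff800000ff8000013f0000017f8000007f000001ff800001ff800001fe000001ee0000014a0000000000000000000000000000000000000000000000000000000000
theorem lP_349 : S nP_349 cP_349 16 := S_of_chk [(nP_346, cP_346, 12), (nP_347, cP_347, 14), (nP_348, cP_348, 14)] ⟨lP_346, lP_347, lP_348, trivial⟩ (node 396 (merge (node 495 (merge (leaf 4 431 527) (node 398 (merge (leaf 7 366 366) (node 397 (merge (leaf 0 396 432) (node 427 (merge (leaf 1 395 428) (node 395 (merge (leaf 1 394 426) (node 363 (merge (leaf 3 362 362) (leaf 3 363 364))))))))))))) (merge (node 367 (merge (node 368 (merge (leaf 6 335 336) (node 366 (merge (leaf 7 334 334) (node 397 (merge (leaf 1 364 365) (leaf 2 364 398))))))) (merge (node 336 (merge (leaf 6 335 368) (node 335 (merge (leaf 6 303 304) (node 334 (merge (leaf 7 302 302) (leaf 7 334 366))))))) (merge (node 335 (merge (node 334 (merge (leaf 7 302 302) (leaf 7 334 366))) (merge (node 432 (merge (leaf 4 335 464) (node 398 (merge (leaf 0 396 397) (node 303 (merge (leaf 5 302 430) (node 272 (merge (leaf 6 271 304) (node 271 (merge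 (leaf 6 239 240) (leaf 5 270 366))))))))))) (node 302 (merge (leaf 7 302 334) (node 303 (merge (leaf 7 270 270) (node 432 (merge (leaf 4 335 464) (node 398 (merge (leaf 0 396 397) (leaf 5 302 430)))))))))))) (merge (node 336 (merge (leaf 6 335 368) (node 335 (merge (leaf 6 303 304) (node 302 (merge (leaf 7 302 334) (node 303 (merge (leaf 7 270 270) (node 432 (merge (leaf 4 335 464) (node 398 (merge (leaf 0 396 397) (leaf 5 302 430))))))))))))) (node 336 (merge (leaf 6 335 368) (node 335 (merge (leaf 6 303 304) (node 432 (merge (leaf 4 335 464) (node 398 (merge (leaf 0 396 397) (node 303 (merge (leaf 5 302 430) (node 270 (merge (leaf 7 270 302) (node 271 (merge (leaf 7 238 238) (leaf 5 270 366)))))))))))))))))))) (merge (node 495 (merge (leaf 4 431 527) (node 366 (merge (leaf 7 366 398) (node 367 (merge (leaf 7 334 334) (node 368 (merge (leaf 6 335 336) (node 365 (merge (leaf 1 364 397) (node 364 (merge (leaf 1 363 395) (node 332 (merge (leaf 3 331 331) (leaf 3 332 333))))))))))))))) (merge (hyp 0) (merge (node 397 (merge (node 398 (merge (leaf 0 396 432) (node 395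 (merge (leaf 0 395 430) (node 363 (merge (leaf 3 362 362) (leaf 3 363 364))))))) (merge (node 398 (merge (leaf 0 396 432) (node 395 (merge (leaf 0 395 430) (node 427 (merge (leaf 1 394 426) (leaf 1 395 428))))))) (merge (node 398 (merge (leaf 0 396 432) (node 427 (merge (leaf 1 395 428) (node 395 (merge (leaf 1 394 426) (node 363 (merge (leaf 3 362 362) (leaf 3 363 364))))))))) (merge (node 429 (merge (node 432 (merge (leaf 0 396 398) (leaf 3 396 430))) (node 493 (merge (node 461 (merge (leaf 7 364 364) (node 525 (merge (leaf 7 396 428) (node 524 (merge (leaf 5 396 492) (leaf 5 428 556))))))) (merge (node 461 (merge (leaf 7 364 364) (node 525 (merge (leaf 7 396 428) (node 526 (merge (leaf 4 397 494) (leaf 4 429 558))))))) (merge (node 495 (merge (leaf 4 431 527) (node 494 (merge (leaf 5 398 526) (node 492 (merge (leaf 2 460 464) (node 524 (merge (leaf 5 396 461) (leaf 1 491 523))))))))) (node 495 (merge (leaf 4 431 527) (node 494 (merge (leaf 5 398 526) (node 492 (merge (leaf 2 460 464) (node 524 (merge (leaf 1 491 523) (node 460 (merge (leaf 6 396 428) (leaf 3 459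 459))))))))))))))))) (merge (node 527 (merge (leaf 4 431 495) (node 428 (merge (node 398 (merge (leaf 1 395 427) (node 395 (merge (leaf 0 395 430) (node 363 (merge (leaf 3 362 362) (leaf 3 363 364))))))) (merge (node 398 (merge (leaf 1 395 427) (node 430 (merge (leaf 0 395 395) (node 429 (merge (leaf 0 428 464) (node 460 (merge (leaf 1 427 459) (node 365 (merge (leaf 5 332 333) (leaf 6 364 492))))))))))) (merge (node 333 (merge (node 365 (merge (leaf 5 300 301) (node 460 (merge (leaf 6 332 364) (leaf 6 364 492))))) (merge (node 365 (merge (leaf 5 300 301) (node 460 (merge (leaf 5 332 429) (leaf 6 364 492))))) (merge (node 398 (merge (leaf 1 395 427) (node 364 (merge (leaf 3 363 363) (node 332 (merge (leaf 6 300 301) (node 429 (merge (leaf 4 300 300) (leaf 4 332 461))))))))) (node 398 (merge (leaf 1 395 427) (node 364 (merge (leaf 3 363 363) (node 460 (merge (leaf 6 332 365) (node 461 (merge (leaf 4 364 493) (node 429 (merge (leaf 4 332 332) (node 492 (merge (leaf 6 396 524) (node 491 (merge (leaf 5 363 459) (leaf 5 395 523))))))))))))))))))) (merge (node 364 (merge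 (node 363 (merge (leaf 3 363 398) (node 460 (merge (leaf 7 331 331) (node 365 (merge (leaf 6 332 333) (leaf 6 364 492))))))) (merge (node 398 (merge (leaf 3 363 363) (node 430 (merge (leaf 0 395 395) (node 429 (merge (leaf 0 428 464) (node 332 (merge (leaf 4 300 300) (leaf 4 332 461))))))))) (node 332 (merge (node 301 (merge (leaf 6 300 333) (node 300 (merge (leaf 6 268 269) (node 299 (merge (leaf 7 267 267) (leaf 7 299 331))))))) (node 429 (merge (leaf 4 332 461) (node 430 (merge (leaf 3 395 395) (leaf 0 428 464)))))))))) (node 525 (merge (node 526 (merge (leaf 0 525 561) (node 524 (merge (leaf 0 524 559) (node 492 (merge (leaf 3 491 491) (leaf 3 492 493))))))) (merge (node 526 (merge (leaf 0 525 561) (node 524 (merge (leaf 0 524 559) (node 556 (merge (leaf 1 523 555) (leaf 1 524 557))))))) (merge (node 526 (merge (leaf 0 525 561) (node 557 (merge (leaf 1 524 556) (node 493 (merge (leaf 3 492 492) (node 461 (merge (leaf 7 396 429) (leaf 7 428 460))))))))) (node 460 (merge (node 493 (merge (leaf 4 396 492) (node 461 (merge (leaf 4 364 364) (leaf 7 396 429))))) (merge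 (node 492 (merge (leaf 4 396 493) (node 524 (merge (leaf 4 428 557) (node 523 (merge (leaf 5 395 491) (leaf 5 427 555))))))) (merge (node 491 (merge (node 492 (merge (leaf 5 395 523) (node 397 (merge (leaf 6 364 365) (node 524 (merge (leaf 6 396 429) (leaf 4 428 557))))))) (merge (node 459 (merge (leaf 5 363 364) (node 523 (merge (leaf 6 395 427) (leaf 6 427 555))))) (node 364 (merge (leaf 5 363 459) (node 333 (merge (leaf 6 332 365) (node 332 (merge (leaf 6 300 301) (node 331 (merge (leaf 7 299 299) (leaf 7 331 363)))))))))))) (node 459 (merge (node 491 (merge (leaf 5 363 364) (node 523 (merge (leaf 6 395 427) (leaf 6 427 555))))) (merge (node 429 (merge (leaf 1 427 430) (node 461 (merge (leaf 7 396 493) (node 364 (merge (leaf 4 332 332) (leaf 5 363 491))))))) (merge (node 458 (merge (node 429 (merge (leaf 1 427 430) (leaf 2 425 457))) (merge (node 457 (merge (node 488 (merge (leaf 1 456 489) (node 456 (merge (leaf 2 424 427) (leaf 1 455 487))))) (merge (node 456 (merge (leaf 2 424 427) (node 424 (merge (leaf 3 423 423) (leaf 3 424 425))))) (node 489 (merge (leaf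 1 456 488) (node 461 (merge (leaf 1 457 490) (node 425 (merge (leaf 3 424 424) (leaf 3 425 426)))))))))) (node 491 (merge (node 523 (merge (leaf 6 395 427) (leaf 6 427 555))) (merge (node 429 (merge (leaf 1 427 430) (node 461 (merge (leaf 7 396 493) (node 490 (merge (leaf 1 457 489) (node 426 (merge (leaf 3 425 425) (node 394 (merge (leaf 4 362 362) (node 393 (merge (leaf 7 361 361) (leaf 3 393 427))))))))))))) (node 523 (merge (leaf 6 427 555) (node 429 (merge (leaf 1 427 430) (node 461 (merge (leaf 7 396 493) (node 426 (merge (leaf 3 425 425) (node 394 (merge (leaf 4 362 362) (leaf 4 394 490))))))))))))))))) (node 458 (merge (node 429 (merge (leaf 1 427 430) (leaf 2 425 457))) (merge (node 457 (merge (node 488 (merge (leaf 1 456 489) (node 456 (merge (leaf 2 424 427) (leaf 1 455 487))))) (merge (node 456 (merge (leaf 2 424 427) (node 424 (merge (leaf 3 423 423) (leaf 3 424 425))))) (node 489 (merge (leaf 1 456 488) (node 461 (merge (leaf 1 457 490) (node 425 (merge (leaf 3 424 424) (leaf 3 425 426)))))))))) (node 363 (merge (node 331 (merge (leaf 7 331 364) (node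 395 (merge (leaf 4 299 299) (leaf 4 331 427))))) (merge (node 364 (merge (leaf 7 331 331) (node 429 (merge (leaf 1 427 430) (node 461 (merge (leaf 4 332 332) (leaf 7 396 493))))))) (node 429 (merge (leaf 1 427 430) (node 461 (merge (leaf 7 396 493) (node 490 (merge (leaf 1 457 489) (node 426 (merge (leaf 3 425 425) (node 395 (merge (leaf 6 362 394) (leaf 5 362 427)))))))))))))))))))))))))))))))))))) (hyp 1))))))) (hyp 2))))))) nP_349 cP_349 16 (by decide +kernel)
def nP_350 : ℕ := 0x100000001000000000000000080000000800000000000000000000000000000000000000000000000000000000000000000000000000000000000000000000000000000000000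
def cP_350 : ℕ := 0x28000006fa000004ff80000eff80001f3f00001f7f80001fff00001fff80000fff80001ffe000005fe0000014a0000000000000000000000000000000000000000000000000000000000
theorem lP_350 : S nP_350 cP_350 17 := S_of_chk [(nP_345, cP_345, 13), (nP_349, cP_349, 16)] ⟨lP_345, lP_349, trivial⟩ (node 399 (merge (node 495 (merge (leaf 4 431 527) (node 398 (merge (leaf 7 366 366) (node 400 (merge (leaf 6 367 368) (node 401 (merge (node 434 (merge (leaf 0 398 433) (node 402 (merge (leaf 0 399 435) (node 370 (merge (leaf 2 366 369) (leaf 2 367 371))))))) (merge (node 433 (merge (leaf 0 398 434) (node 397 (merge (leaf 0 397 432) (node 428 (merge (leaf 1 396 429) (node 396 (merge (leaf 1 395 427) (node 364 (merge (leaf 3 363 363) (leaf 3 364 365))))))))))) (merge (node 370 (merge (leaf 2 366 369) (node 402 (merge (leaf 2 367 371) (node 432 (merge (leaf 1 399 403) (node 397 (merge (leaf 0 396 396) (leaf 0 397 433))))))))) (node 370 (merge (leaf 2 366 369) (node 402 (merge (leaf 2 367 371) (node 435 (merge (leaf 0 399 434) (node 403 (merge (leaf 1 399 432) (leaf 0 400 436)))))))))))))))))))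 (merge (node 366 (merge (node 398 (merge (leaf 7 366 495) (node 334 (merge (leaf 4 302 302) (leaf 4 334 430))))) (merge (node 334 (merge (leaf 7 334 367) (node 398 (merge (leaf 4 302 302) (leaf 4 334 430))))) (merge (node 367 (merge (leaf 7 334 334) (node 368 (merge (leaf 6 335 336) (node 400 (merge (leaf 6 367 495) (node 365 (merge (leaf 0 364 364) (leaf 0 365 401))))))))) (node 400 (merge (node 368 (merge (leaf 6 367 495) (node 336 (merge (leaf 5 303 304) (leaf 6 335 367))))) (merge (node 398 (merge (leaf 7 366 495) (node 401 (merge (leaf 3 365 365) (node 430 (merge (leaf 1 398 402) (leaf 1 397 429))))))) (node 401 (merge (node 402 (merge (leaf 3 366 367) (leaf 1 398 430))) (merge (node 365 (merge (leaf 3 365 398) (node 367 (merge (leaf 0 364 364) (leaf 0 365 368))))) (node 430 (merge (leaf 1 398 402) (node 398 (merge (leaf 3 365 365) (leaf 1 397 429))))))))))))))) (merge (node 367 (merge (node 368 (merge (leaf 6 335 336) (node 495 (merge (leaf 6 367 400) (leaf 4 431 527))))) (merge (node 336 (merge (leaf 6 335 368) (node 335 (merge (leaf 6 303 304) (node 334 (merge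 (leaf 7 302 302) (leaf 7 334 366))))))) (merge (node 334 (merge (leaf 7 334 366) (node 335 (merge (leaf 7 302 302) (node 432 (merge (leaf 4 335 464) (node 400 (merge (leaf 4 303 303) (node 495 (merge (leaf 6 367 368) (leaf 6 399 527))))))))))) (node 334 (merge (leaf 7 334 366) (node 335 (merge (leaf 7 302 302) (node 304 (merge (leaf 6 303 336) (node 303 (merge (leaf 6 271 272) (node 432 (merge (leaf 4 303 400) (leaf 4 335 464))))))))))))))) (merge (node 367 (merge (node 336 (merge (leaf 6 335 368) (node 335 (merge (leaf 6 303 304) (node 334 (merge (leaf 7 302 302) (leaf 7 334 366))))))) (merge (node 366 (merge (leaf 7 334 334) (node 365 (merge (node 400 (merge (leaf 0 364 364) (node 401 (merge (leaf 3 365 398) (leaf 3 366 402))))) (merge (node 368 (merge (leaf 6 335 336) (node 400 (merge (leaf 0 364 364) (leaf 0 365 401))))) (merge (node 368 (merge (leaf 6 335 336) (node 397 (merge (leaf 1 364 396) (node 398 (merge (leaf 1 365 369) (node 364 (merge (leaf 0 363 363) (node 332 (merge (leaf 3 331 331) (leaf 3 332 333))))))))))) (node 368 (merge (leaf 6 335 336) (node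 401 (merge (leaf 0 365 400) (node 369 (merge (leaf 0 366 402) (node 397 (merge (leaf 1 364 396) (leaf 1 365 398))))))))))))))) (merge (node 335 (merge (node 334 (merge (leaf 7 302 302) (leaf 7 334 366))) (merge (node 432 (merge (leaf 4 335 464) (node 303 (merge (leaf 4 303 400) (node 272 (merge (leaf 6 271 304) (node 271 (merge (leaf 6 239 240) (node 398 (merge (leaf 5 270 366) (leaf 5 302 430))))))))))) (node 302 (merge (leaf 7 302 334) (node 303 (merge (leaf 7 270 270) (node 432 (merge (leaf 4 303 400) (leaf 4 335 464)))))))))) (merge (node 335 (merge (node 336 (merge (leaf 6 303 304) (leaf 6 335 368))) (merge (node 304 (merge (leaf 6 303 336) (node 303 (merge (leaf 6 271 272) (node 302 (merge (leaf 7 270 270) (leaf 7 302 334))))))) (merge (node 302 (merge (leaf 7 302 334) (node 303 (merge (leaf 7 270 270) (node 272 (merge (leaf 6 271 304) (node 271 (merge (leaf 6 239 240) (node 400 (merge (leaf 4 271 368) (leaf 4 303 432))))))))))) (node 368 (merge (leaf 6 335 336) (node 302 (merge (leaf 7 302 334) (node 303 (merge (leaf 7 270 270) (node 400 (merge (leaf 4 271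 271) (node 398 (merge (leaf 5 302 430) (node 397 (merge (leaf 2 365 369) (leaf 2 364 396))))))))))))))))) (node 336 (merge (leaf 6 335 368) (node 335 (merge (leaf 6 303 304) (node 432 (merge (leaf 4 335 464) (node 303 (merge (leaf 4 303 400) (node 270 (merge (leaf 7 270 302) (node 271 (merge (leaf 7 238 238) (node 398 (merge (leaf 5 270 366) (leaf 5 302 430)))))))))))))))))))) (merge (node 398 (merge (node 495 (merge (leaf 7 366 366) (leaf 4 431 527))) (merge (node 366 (merge (node 334 (merge (leaf 4 302 302) (leaf 7 334 367))) (merge (node 334 (merge (leaf 4 302 302) (leaf 4 334 430))) (node 400 (merge (node 365 (merge (leaf 3 365 401) (node 364 (merge (leaf 0 363 363) (leaf 3 364 397))))) (merge (node 401 (merge (leaf 3 365 365) (node 430 (merge (leaf 1 398 402) (leaf 1 397 429))))) (merge (node 433 (merge (node 434 (merge (leaf 0 398 401) (leaf 3 398 432))) (merge (node 401 (merge (leaf 0 398 434) (node 430 (merge (leaf 1 398 402) (leaf 1 397 429))))) (node 397 (merge (leaf 0 397 432) (node 428 (merge (leaf 1 396 429) (node 396 (merge (leaf 1 395 427) (node 395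 (merge (leaf 0 395 430) (node 363 (merge (leaf 3 362 362) (leaf 3 363 364)))))))))))))) (node 397 (merge (node 432 (merge (leaf 0 396 396) (leaf 0 397 433))) (merge (node 428 (merge (leaf 1 396 429) (node 396 (merge (leaf 1 395 427) (node 395 (merge (leaf 2 363 367) (leaf 0 395 430))))))) (node 432 (merge (leaf 0 397 433) (node 429 (merge (leaf 1 396 428) (node 461 (merge (leaf 6 365 493) (node 460 (merge (leaf 1 428 430) (node 365 (merge (leaf 3 364 364) (leaf 5 364 492))))))))))))))))))))) (node 397 (merge (node 432 (merge (leaf 0 396 396) (node 433 (merge (leaf 0 397 400) (leaf 3 398 434))))) (merge (node 396 (merge (leaf 0 396 432) (node 395 (merge (leaf 0 395 430) (node 363 (merge (leaf 3 362 362) (leaf 3 363 364))))))) (merge (node 396 (merge (node 395 (merge (leaf 0 395 430) (node 427 (merge (leaf 1 394 426) (leaf 1 395 428))))) (merge (node 395 (merge (leaf 0 395 430) (node 363 (merge (leaf 3 362 362) (leaf 3 363 364))))) (node 428 (merge (leaf 1 395 427) (node 400 (merge (leaf 1 396 429) (node 364 (merge (leaf 3 363 363) (leaf 3 364 365)))))))))) (node 429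 (merge (node 400 (merge (leaf 1 396 428) (node 433 (merge (leaf 0 397 432) (node 401 (merge (leaf 1 397 430) (leaf 0 398 434))))))) (merge (node 430 (merge (node 428 (merge (leaf 2 395 427) (leaf 0 428 464))) (merge (node 428 (merge (leaf 2 395 427) (node 460 (merge (leaf 1 427 459) (node 432 (merge (leaf 1 428 461) (node 433 (merge (leaf 3 397 397) (leaf 3 398 434))))))))) (node 495 (merge (leaf 7 398 527) (node 432 (merge (leaf 3 397 433) (node 464 (merge (leaf 0 429 465) (node 461 (merge (leaf 1 428 460) (node 493 (merge (leaf 6 397 525) (node 494 (merge (leaf 2 460 492) (leaf 4 397 526)))))))))))))))) (merge (node 492 (merge (node 428 (merge (leaf 1 396 400) (node 460 (merge (leaf 6 396 524) (node 365 (merge (leaf 5 332 333) (leaf 5 364 461))))))) (merge (node 495 (merge (leaf 4 431 527) (node 494 (merge (leaf 5 398 526) (node 493 (merge (leaf 2 460 464) (node 524 (merge (leaf 5 396 461) (leaf 1 491 523))))))))) (merge (node 495 (merge (leaf 4 431 527) (node 494 (merge (leaf 5 398 526) (node 493 (merge (leaf 2 460 464) (node 524 (merge (leaf 1 491 523) (node 460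 (merge (leaf 6 396 428) (leaf 3 459 459))))))))))) (node 495 (merge (leaf 4 431 527) (node 494 (merge (leaf 5 398 526) (node 493 (merge (leaf 2 460 464) (node 460 (merge (leaf 3 459 459) (node 365 (merge (leaf 5 364 461) (node 333 (merge (leaf 5 332 428) (node 302 (merge (leaf 6 301 334) (node 301 (merge (leaf 6 269 270) (node 300 (merge (leaf 7 268 268) (leaf 7 300 332))))))))))))))))))))))) (node 365 (merge (node 364 (merge (leaf 3 364 400) (node 332 (merge (leaf 7 332 461) (node 300 (merge (leaf 4 268 268) (leaf 7 300 333))))))) (merge (node 400 (merge (leaf 3 364 364) (node 433 (merge (leaf 0 397 432) (node 401 (merge (leaf 0 398 434) (node 430 (merge (leaf 1 398 402) (leaf 1 397 429))))))))) (merge (node 461 (merge (node 460 (merge (leaf 5 364 492) (node 432 (merge (leaf 1 428 430) (node 433 (merge (leaf 0 397 400) (leaf 3 398 434))))))) (merge (node 526 (merge (node 495 (merge (leaf 5 398 494) (leaf 4 431 527))) (merge (node 493 (merge (leaf 4 397 494) (node 525 (merge (leaf 6 397 430) (leaf 4 429 558))))) (node 527 (merge (leaf 4 431 495) (node 525 (merge (leaf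 0 525 561) (node 493 (merge (leaf 6 397 430) (leaf 4 429 558)))))))))) (node 495 (merge (leaf 4 431 527) (node 492 (merge (leaf 5 364 460) (node 493 (merge (leaf 5 396 524) (node 494 (merge (leaf 2 460 464) (leaf 4 397 526)))))))))))) (node 333 (merge (node 302 (merge (leaf 6 301 334) (node 301 (merge (leaf 6 269 270) (leaf 4 301 430))))) (node 332 (merge (leaf 7 300 300) (node 461 (merge (leaf 7 332 364) (node 495 (merge (leaf 4 431 527) (node 492 (merge (leaf 5 364 460) (node 493 (merge (leaf 5 396 524) (node 494 (merge (leaf 2 460 464) (leaf 4 397 526)))))))))))))))))))))))))))))) (merge (node 432 (merge (node 367 (merge (node 336 (merge (leaf 6 335 368) (node 335 (merge (leaf 6 303 304) (leaf 4 335 464))))) (merge (node 368 (merge (leaf 6 335 336) (node 495 (merge (leaf 6 367 400) (leaf 4 431 527))))) (merge (node 335 (merge (leaf 4 335 464) (node 400 (merge (leaf 4 303 303) (node 495 (merge (leaf 6 367 368) (leaf 6 399 527))))))) (node 335 (merge (leaf 4 335 464) (node 304 (merge (leaf 6 303 336) (node 303 (merge (leaf 6 271 272) (leaf 4 303 400))))))))))) (merge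 (node 433 (merge (node 398 (merge (leaf 3 398 434) (node 397 (merge (leaf 0 396 396) (leaf 0 397 400))))) (merge (node 398 (merge (leaf 3 398 434) (node 397 (merge (leaf 0 396 396) (leaf 3 397 430))))) (merge (node 434 (merge (node 435 (merge (leaf 3 399 400) (leaf 1 431 464))) (node 466 (merge (leaf 0 431 467) (node 430 (merge (leaf 0 430 465) (node 402 (merge (leaf 2 398 401) (leaf 2 399 403))))))))) (node 430 (merge (node 465 (merge (leaf 0 430 466) (node 429 (merge (leaf 0 429 464) (node 401 (merge (leaf 2 397 400) (leaf 2 398 402))))))) (merge (node 401 (merge (leaf 2 398 402) (node 429 (merge (leaf 2 397 400) (node 397 (merge (leaf 3 396 396) (leaf 3 397 398))))))) (merge (node 465 (merge (leaf 0 430 466) (node 429 (merge (leaf 0 429 464) (node 460 (merge (leaf 1 428 461) (node 428 (merge (leaf 1 427 459) (node 398 (merge (leaf 3 397 397) (leaf 2 395 427))))))))))) (node 401 (merge (leaf 2 398 402) (node 400 (merge (node 465 (merge (leaf 0 430 466) (node 368 (merge (leaf 4 336 336) (leaf 7 368 497))))) (node 398 (merge (leaf 0 397 397) (node 369 (merge (leaf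 2 366 370) (node 337 (merge (leaf 5 304 305) (leaf 5 336 464))))))))))))))))))) (merge (node 430 (merge (node 495 (merge (leaf 4 431 527) (node 400 (merge (leaf 6 367 368) (node 429 (merge (leaf 2 397 401) (leaf 2 396 428))))))) (merge (node 429 (merge (node 464 (merge (leaf 0 428 428) (leaf 0 429 465))) (merge (node 460 (merge (leaf 1 428 461) (node 428 (merge (leaf 1 427 459) (node 396 (merge (leaf 3 395 395) (leaf 3 396 397))))))) (node 465 (merge (leaf 0 429 464) (node 433 (merge (leaf 0 430 466) (node 397 (merge (leaf 3 396 396) (leaf 3 397 398)))))))))) (node 433 (merge (node 398 (merge (leaf 3 398 434) (node 397 (merge (leaf 0 396 396) (leaf 3 397 430))))) (merge (node 402 (merge (leaf 2 398 401) (node 434 (merge (leaf 2 399 403) (node 435 (merge (leaf 3 399 400) (leaf 1 431 464))))))) (node 401 (merge (leaf 2 398 402) (node 398 (merge (leaf 3 397 397) (node 495 (merge (leaf 7 398 527) (node 400 (merge (leaf 6 367 368) (node 369 (merge (leaf 2 366 370) (node 337 (merge (leaf 5 304 305) (leaf 5 336 464))))))))))))))))))) (merge (node 430 (merge (node 495 (merge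 (leaf 4 431 527) (node 400 (merge (leaf 6 367 368) (node 429 (merge (leaf 2 397 401) (leaf 2 396 428))))))) (merge (node 495 (merge (leaf 4 431 527) (node 400 (merge (leaf 6 367 368) (node 429 (merge (leaf 2 396 428) (node 397 (merge (leaf 3 396 396) (node 433 (merge (leaf 0 397 398) (node 466 (merge (leaf 0 430 465) (node 434 (merge (leaf 3 399 435) (leaf 0 431 467))))))))))))))) (merge (node 429 (merge (node 460 (merge (leaf 1 428 461) (node 428 (merge (leaf 1 427 459) (node 396 (merge (leaf 3 395 395) (leaf 3 396 397))))))) (merge (node 460 (merge (leaf 1 428 461) (node 428 (merge (leaf 1 427 459) (node 427 (merge (leaf 2 395 398) (node 395 (merge (leaf 3 394 394) (leaf 3 395 396))))))))) (merge (node 460 (merge (leaf 1 428 461) (node 428 (merge (leaf 1 427 459) (node 398 (merge (leaf 2 395 427) (node 433 (merge (leaf 3 397 397) (leaf 3 398 434))))))))) (node 397 (merge (leaf 3 396 396) (node 433 (merge (leaf 3 397 398) (node 466 (merge (leaf 0 430 465) (node 434 (merge (leaf 0 431 467) (node 402 (merge (leaf 2 398 401) (leaf 2 399 403))))))))))))))) (node 401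 (merge (node 433 (merge (leaf 2 398 402) (node 398 (merge (leaf 3 397 397) (leaf 3 398 434))))) (merge (node 400 (merge (leaf 1 398 402) (node 495 (merge (leaf 6 367 368) (leaf 4 431 527))))) (node 433 (merge (node 398 (merge (leaf 3 397 397) (leaf 3 398 434))) (merge (node 466 (merge (leaf 0 430 465) (node 434 (merge (leaf 0 431 467) (node 400 (merge (leaf 3 399 435) (node 495 (merge (leaf 6 367 368) (leaf 6 399 527))))))))) (node 465 (merge (leaf 0 430 466) (node 495 (merge (leaf 4 431 527) (node 368 (merge (leaf 6 367 400) (node 336 (merge (leaf 6 335 367) (leaf 7 336 369))))))))))))))))))) (merge (node 495 (merge (leaf 4 431 527) (node 433 (merge (node 398 (merge (leaf 3 398 434) (node 397 (merge (leaf 0 396 396) (leaf 0 397 400))))) (merge (node 398 (merge (leaf 3 398 434) (node 397 (merge (leaf 0 396 396) (leaf 3 397 430))))) (merge (node 434 (merge (node 435 (merge (leaf 3 399 400) (leaf 1 431 464))) (node 466 (merge (leaf 0 431 467) (node 430 (merge (leaf 0 430 465) (node 402 (merge (leaf 2 398 401) (leaf 2 399 403))))))))) (node 430 (merge (node 465 (merge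 (leaf 0 430 466) (node 429 (merge (leaf 0 429 464) (node 397 (merge (leaf 3 396 396) (leaf 3 397 398))))))) (merge (node 465 (merge (leaf 0 430 466) (node 429 (merge (leaf 0 429 464) (node 401 (merge (leaf 2 397 400) (leaf 2 398 402))))))) (merge (node 397 (merge (leaf 3 397 398) (node 429 (merge (leaf 3 396 396) (node 460 (merge (leaf 1 428 461) (node 428 (merge (leaf 2 396 400) (leaf 1 427 459))))))))) (node 401 (merge (leaf 2 398 402) (node 369 (merge (node 465 (merge (leaf 0 430 466) (node 370 (merge (leaf 6 337 338) (node 398 (merge (leaf 3 397 397) (leaf 2 366 400))))))) (merge (node 337 (merge (leaf 5 336 464) (node 304 (merge (leaf 7 304 336) (node 305 (merge (leaf 7 272 272) (leaf 5 304 400))))))) (node 465 (merge (leaf 0 430 466) (node 338 (merge (leaf 6 337 370) (node 337 (merge (leaf 6 305 306) (leaf 5 336 464)))))))))))))))))))))) (node 527 (merge (leaf 4 431 495) (node 433 (merge (node 398 (merge (leaf 3 398 434) (node 397 (merge (leaf 0 396 396) (leaf 3 397 430))))) (merge (node 434 (merge (leaf 3 398 398) (node 467 (merge (leaf 0 431 466) (node 435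 (merge (leaf 1 431 464) (leaf 0 432 468))))))) (merge (node 430 (merge (node 466 (merge (leaf 0 430 465) (node 434 (merge (leaf 0 431 467) (node 402 (merge (leaf 2 398 401) (leaf 2 399 403))))))) (merge (node 465 (merge (leaf 0 430 466) (node 429 (merge (leaf 0 429 464) (node 460 (merge (leaf 1 428 461) (node 428 (merge (leaf 1 427 459) (node 396 (merge (leaf 3 395 395) (leaf 3 396 397))))))))))) (merge (node 402 (merge (leaf 2 398 401) (node 434 (merge (leaf 2 399 403) (node 464 (merge (leaf 1 431 435) (node 429 (merge (leaf 0 428 428) (leaf 0 429 465))))))))) (node 402 (merge (leaf 2 398 401) (node 434 (merge (leaf 2 399 403) (node 467 (merge (leaf 0 431 466) (node 435 (merge (leaf 1 431 464) (leaf 0 432 468))))))))))))) (hyp 0))))))))))))) (hyp 1)))))))) nP_350 cP_350 17 (by decide +kernel)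
def nP_351 : ℕ := 0x100000001200000002000000080000000800000000000000000000000000000000000000000000000000000000000000000000000000000000000000000000000000000000000
def cP_351 : ℕ := 0x3000000070000000f0000000100000011000000730000001700000007000000070000000700000000000000000000000000000000000000000000000000000000000000000000000000000000000
theorem lP_351 : S nP_351 cP_351 9 := S_of_chk [] trivial (node 464 (merge (leaf 7 431 496) (node 429 (merge (node 430 (merge (leaf 0 428 428) (node 465 (merge (leaf 0 429 432) (leaf 3 430 466))))) (merge (node 461 (merge (node 428 (merge (leaf 7 396 396) (node 557 (merge (leaf 7 428 460) (node 556 (merge (leaf 5 428 524) (leaf 5 460 588))))))) (merge (node 397 (merge (node 396 (merge (leaf 7 364 364) (leaf 7 396 428))) (merge (node 366 (merge (leaf 6 365 398) (node 365 (merge (leaf 6 333 334) (node 460 (merge (leaf 5 364 492) (node 428 (merge (leaf 5 332 333) (leaf 7 428 557))))))))) (node 366 (merge (leaf 6 365 398) (node 365 (merge (leaf 6 333 334) (node 364 (merge (leaf 7 332 332) (leaf 7 364 396)))))))))) (merge (node 524 (merge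 (leaf 5 428 556) (node 397 (merge (leaf 5 396 492) (node 366 (merge (leaf 6 365 398) (node 365 (merge (leaf 6 333 334) (node 364 (merge (leaf 7 332 332) (leaf 7 364 396))))))))))) (node 557 (merge (node 556 (merge (leaf 5 428 524) (leaf 5 460 588))) (merge (node 460 (merge (leaf 7 428 428) (node 492 (merge (leaf 7 460 589) (node 397 (merge (leaf 5 364 365) (leaf 5 396 524))))))) (node 460 (merge (leaf 7 428 428) (node 589 (merge (leaf 7 460 492) (node 588 (merge (leaf 5 460 556) (leaf 5 492 620)))))))))))))) (node 461 (merge (node 430 (merge (leaf 6 397 398) (node 432 (merge (leaf 1 428 460) (leaf 0 429 465))))) (merge (node 524 (merge (leaf 5 428 556) (node 397 (merge (leaf 5 396 492) (node 366 (merge (leaf 6 365 398) (node 365 (merge (leaf 6 333 334) (node 364 (merge (leaf 7 332 332) (leaf 7 364 396))))))))))) (node 557 (merge (node 556 (merge (leaf 5 428 524) (leaf 5 460 588))) (merge (node 558 (merge (leaf 4 461 590) (node 524 (merge (leaf 3 524 559) (node 492 (merge (leaf 5 396 397) (node 589 (merge (leaf 7 460 460) (leaf 7 492 621))))))))) (node 558 (merge (leaf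 4 461 590) (node 588 (merge (leaf 5 460 556) (node 589 (merge (leaf 1 556 559) (leaf 5 492 620)))))))))))))))))) nP_351 cP_351 9 (by decide +kernel)
def nP_352 : ℕ := 0x100000001200000000000000080000000800000000000000000000000000000000000000000000000000000000000000000000000000000000000000000000000000000000000
def cP_352 : ℕ := 0x500000007c000000fe000002fe0000009e000003fe0000073e0000037e0000077800000170000000700000000000000000000000000000000000000000000000000000000000000000000000000000000000
theorem lP_352 : S nP_352 cP_352 14 := S_of_chk [(nP_351, cP_351, 9)] ⟨lP_351, trivial⟩ (node 493 (merge (node 495 (merge (leaf 4 431 527) (node 494 (merge (node 496 (merge (leaf 7 431 464) (leaf 1 492 524))) (merge (node 464 (merge (leaf 2 460 492) (leaf 7 431 496))) (merge (node 524 (merge (leaf 1 492 496) (node 523 (merge (leaf 1 491 492) (leaf 2 490 522))))) (node 492 (merge (leaf 2 460 464) (node 523 (merge (leaf 1 491 524) (node 491 (merge (leaf 1 490 522) (node 459 (merge (leaf 3 458 458) (leaf 3 459 460))))))))))))))) (merge (node 464 (merge (leaf 7 431 496) (node 557 (merge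 (node 495 (merge (leaf 4 431 527) (node 492 (merge (leaf 2 460 494) (node 460 (merge (leaf 7 460 589) (node 428 (merge (leaf 4 396 396) (leaf 7 428 461))))))))) (merge (node 558 (merge (node 590 (merge (leaf 4 461 461) (node 622 (merge (leaf 4 493 589) (leaf 7 525 654))))) (merge (node 527 (merge (leaf 4 431 495) (node 556 (merge (leaf 2 524 559) (node 461 (merge (leaf 5 460 588) (leaf 4 461 590))))))) (merge (node 527 (merge (leaf 4 431 495) (node 559 (merge (leaf 2 524 556) (node 589 (merge (leaf 1 556 588) (node 590 (merge (leaf 1 557 561) (leaf 4 493 622))))))))) (node 527 (merge (leaf 4 431 495) (node 556 (merge (leaf 2 524 559) (node 588 (merge (leaf 5 460 461) (node 620 (merge (leaf 5 492 589) (leaf 6 524 652))))))))))))) (merge (node 461 (merge (node 428 (merge (leaf 7 428 460) (node 429 (merge (leaf 7 396 396) (leaf 0 428 430))))) (node 558 (merge (leaf 4 461 590) (node 588 (merge (leaf 5 460 556) (node 589 (merge (leaf 1 556 559) (leaf 5 492 620))))))))) (merge (node 461 (merge (node 428 (merge (leaf 7 428 460) (node 429 (merge (leaf 7 396 396) (leaf 0 428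 430))))) (node 527 (merge (leaf 4 431 495) (node 558 (merge (leaf 4 461 590) (node 556 (merge (leaf 2 524 559) (leaf 5 460 588))))))))) (node 495 (merge (leaf 4 431 527) (node 492 (merge (leaf 2 460 494) (node 589 (merge (leaf 7 460 460) (node 622 (merge (leaf 4 493 590) (node 621 (merge (leaf 4 525 654) (node 620 (merge (leaf 5 492 588) (leaf 5 524 652)))))))))))))))))))) (merge (node 495 (merge (leaf 4 431 527) (node 557 (merge (node 588 (merge (node 556 (merge (leaf 5 460 461) (node 620 (merge (leaf 6 492 524) (leaf 6 524 652))))) (merge (node 589 (merge (leaf 5 492 620) (node 559 (merge (leaf 1 556 558) (node 590 (merge (leaf 2 556 591) (leaf 4 493 622))))))) (node 461 (merge (leaf 5 460 556) (node 558 (merge (leaf 4 461 590) (node 559 (merge (leaf 3 524 524) (leaf 1 556 589)))))))))) (merge (node 461 (merge (node 460 (merge (leaf 7 428 428) (node 494 (merge (leaf 3 460 496) (node 459 (merge (leaf 0 458 458) (leaf 3 459 492))))))) (node 558 (merge (leaf 4 461 590) (node 524 (merge (leaf 3 524 559) (node 556 (merge (leaf 5 428 429) (leaf 5 460 588))))))))) (merge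 (node 460 (merge (node 461 (merge (leaf 7 428 428) (node 494 (merge (leaf 3 460 496) (node 459 (merge (leaf 0 458 458) (leaf 3 459 492))))))) (merge (node 589 (merge (leaf 7 460 492) (node 622 (merge (leaf 4 493 590) (node 621 (merge (leaf 4 525 654) (node 620 (merge (leaf 5 492 588) (leaf 5 524 652))))))))) (node 461 (merge (leaf 7 428 428) (node 590 (merge (leaf 4 461 558) (node 589 (merge (leaf 4 493 622) (node 588 (merge (leaf 5 460 556) (leaf 5 492 620)))))))))))) (merge (node 589 (merge (node 492 (merge (leaf 7 460 460) (node 621 (merge (leaf 7 492 524) (node 622 (merge (leaf 4 493 590) (leaf 4 525 654))))))) (merge (node 590 (merge (leaf 4 493 622) (node 588 (merge (leaf 5 492 620) (node 559 (merge (leaf 1 556 558) (leaf 2 556 591))))))) (node 492 (merge (leaf 7 460 460) (node 621 (merge (leaf 7 492 524) (node 620 (merge (leaf 5 492 588) (leaf 5 524 652)))))))))) (merge (node 460 (merge (node 492 (merge (leaf 7 460 589) (node 494 (merge (leaf 3 459 459) (node 524 (merge (leaf 1 492 496) (leaf 1 491 523))))))) (merge (node 428 (merge (leaf 7 428 461) (node 492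 (merge (leaf 4 396 396) (leaf 7 460 589))))) (node 461 (merge (leaf 7 428 428) (node 556 (merge (leaf 5 460 588) (node 429 (merge (leaf 5 428 524) (node 430 (merge (leaf 6 397 398) (leaf 1 428 432)))))))))))) (node 460 (merge (node 492 (merge (leaf 7 460 589) (node 428 (merge (leaf 4 396 396) (leaf 4 428 524))))) (merge (node 428 (merge (leaf 7 428 461) (node 492 (merge (leaf 4 396 396) (leaf 7 460 589))))) (merge (node 589 (merge (leaf 7 460 492) (node 590 (merge (leaf 4 493 622) (node 558 (merge (leaf 4 461 461) (node 559 (merge (leaf 3 524 524) (leaf 1 557 561))))))))) (node 461 (merge (leaf 7 428 428) (node 558 (merge (leaf 4 461 590) (node 524 (merge (leaf 3 524 559) (node 429 (merge (leaf 5 428 556) (node 430 (merge (leaf 6 397 398) (leaf 1 428 432))))))))))))))))))))))) (merge (hyp 0) (merge (node 495 (merge (leaf 4 431 527) (node 524 (merge (node 496 (merge (leaf 7 431 464) (leaf 1 492 494))) (merge (node 494 (merge (leaf 1 492 496) (node 523 (merge (leaf 1 491 492) (leaf 2 490 522))))) (merge (node 429 (merge (node 464 (merge (leaf 7 431 496) (node 430 (merge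 (leaf 0 428 428) (node 465 (merge (leaf 0 429 432) (leaf 3 430 466))))))) (merge (node 461 (merge (leaf 5 428 556) (node 396 (merge (leaf 7 396 428) (node 397 (merge (leaf 7 364 364) (leaf 5 396 492))))))) (node 461 (merge (leaf 5 428 556) (node 398 (merge (leaf 6 397 430) (node 397 (merge (leaf 6 365 366) (leaf 5 396 492)))))))))) (node 557 (merge (node 558 (merge (leaf 3 524 559) (node 590 (merge (leaf 4 461 461) (node 622 (merge (leaf 4 493 589) (leaf 7 525 654))))))) (merge (node 558 (merge (leaf 3 524 559) (node 461 (merge (leaf 4 461 590) (node 556 (merge (leaf 5 428 429) (leaf 5 460 588))))))) (merge (node 589 (merge (node 621 (merge (leaf 7 492 492) (node 620 (merge (leaf 5 492 588) (leaf 5 524 652))))) (merge (node 621 (merge (leaf 7 492 492) (node 622 (merge (leaf 4 493 590) (leaf 4 525 654))))) (node 590 (merge (leaf 4 493 622) (node 461 (merge (leaf 4 461 558) (node 588 (merge (leaf 5 460 556) (leaf 5 492 620)))))))))) (merge (node 558 (merge (leaf 3 524 559) (node 523 (merge (leaf 0 522 522) (node 492 (merge (leaf 1 491 494) (node 589 (merge (leaf 7 492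 621) (node 588 (merge (leaf 5 492 620) (node 587 (merge (leaf 2 554 586) (node 619 (merge (leaf 6 491 555) (leaf 5 491 556))))))))))))))) (node 492 (merge (node 494 (merge (leaf 2 460 464) (leaf 1 491 523))) (node 589 (merge (leaf 7 492 621) (node 590 (merge (leaf 4 493 622) (node 588 (merge (leaf 5 492 620) (node 556 (merge (leaf 6 460 461) (node 591 (merge (leaf 3 555 555) (leaf 2 556 559)))))))))))))))))))))))) (merge (node 495 (merge (leaf 4 431 527) (node 461 (merge (node 496 (merge (leaf 7 431 464) (node 494 (merge (leaf 3 460 460) (leaf 1 492 524))))) (merge (node 496 (merge (leaf 7 431 464) (node 460 (merge (leaf 3 460 494) (node 428 (merge (leaf 7 428 557) (node 396 (merge (leaf 4 364 364) (leaf 7 396 429))))))))) (merge (node 496 (merge (leaf 7 431 464) (node 524 (merge (leaf 1 492 494) (node 556 (merge (leaf 5 428 429) (node 588 (merge (leaf 5 460 557) (leaf 6 492 620))))))))) (merge (node 429 (merge (node 430 (merge (leaf 6 397 398) (node 428 (merge (leaf 7 396 396) (leaf 0 428 464))))) (merge (node 428 (merge (leaf 7 396 396) (node 557 (merge (leaf 7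 428 460) (node 556 (merge (leaf 5 428 524) (leaf 5 460 588))))))) (node 430 (merge (leaf 6 397 398) (node 432 (merge (leaf 1 428 460) (node 464 (merge (leaf 0 429 465) (node 400 (merge (leaf 5 367 368) (leaf 2 397 401)))))))))))) (node 429 (merge (node 430 (merge (leaf 6 397 398) (node 396 (merge (leaf 7 396 428) (node 397 (merge (leaf 7 364 364) (leaf 3 396 432))))))) (merge (node 428 (merge (leaf 7 396 396) (node 557 (merge (leaf 7 428 460) (node 556 (merge (leaf 5 428 524) (leaf 5 460 588))))))) (node 430 (merge (leaf 6 397 398) (node 432 (merge (leaf 1 428 460) (node 401 (merge (leaf 2 397 400) (node 433 (merge (leaf 2 398 402) (node 465 (merge (leaf 0 430 466) (node 496 (merge (leaf 5 400 497) (node 524 (merge (leaf 1 492 494) (leaf 5 428 556))))))))))))))))))))))))) (node 495 (merge (leaf 4 431 527) (node 492 (merge (node 494 (merge (leaf 2 460 464) (node 460 (merge (leaf 3 459 459) (node 557 (merge (leaf 7 460 589) (node 428 (merge (leaf 4 396 396) (leaf 7 428 461))))))))) (merge (node 494 (merge (leaf 2 460 464) (node 523 (merge (leaf 1 491 524) (node 491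 (merge (leaf 1 490 522) (node 459 (merge (leaf 3 458 458) (leaf 3 459 460))))))))) (merge (node 524 (merge (node 494 (merge (leaf 1 491 523) (node 460 (merge (leaf 3 459 459) (node 428 (merge (leaf 4 396 396) (leaf 4 428 557))))))) (merge (node 557 (merge (node 460 (merge (leaf 7 460 589) (node 428 (merge (leaf 4 396 396) (leaf 4 428 524))))) (node 558 (merge (leaf 3 524 559) (node 461 (merge (leaf 4 461 590) (node 556 (merge (leaf 5 428 429) (leaf 5 460 588))))))))) (merge (node 523 (merge (leaf 1 491 494) (node 522 (merge (leaf 2 489 521) (node 557 (merge (leaf 0 522 558) (node 554 (merge (leaf 1 521 553) (node 589 (merge (leaf 7 492 621) (node 590 (merge (leaf 4 493 622) (node 556 (merge (leaf 0 554 555) (node 588 (merge (leaf 6 460 461) (leaf 6 492 620))))))))))))))))) (node 494 (merge (leaf 1 491 523) (node 460 (merge (leaf 3 459 459) (node 428 (merge (leaf 4 396 396) (node 429 (merge (leaf 6 396 397) (node 461 (merge (leaf 6 428 556) (node 430 (merge (leaf 6 397 398) (leaf 1 428 432))))))))))))))))) (merge (node 524 (merge (node 494 (merge (leaf 2 460 464) (leaf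 1 491 523))) (node 557 (merge (node 558 (merge (leaf 3 524 559) (node 590 (merge (leaf 4 461 461) (node 622 (merge (leaf 4 493 589) (leaf 7 525 654))))))) (merge (node 558 (merge (leaf 3 524 559) (node 461 (merge (leaf 4 461 590) (node 556 (merge (leaf 5 428 429) (leaf 5 460 588))))))) (merge (node 589 (merge (node 621 (merge (leaf 7 492 492) (node 620 (merge (leaf 5 492 588) (leaf 5 524 652))))) (merge (node 621 (merge (leaf 7 492 492) (node 622 (merge (leaf 4 493 590) (leaf 4 525 654))))) (node 590 (merge (leaf 4 493 622) (node 461 (merge (leaf 4 461 558) (node 588 (merge (leaf 5 460 556) (leaf 5 492 620)))))))))) (merge (node 589 (merge (leaf 7 492 621) (node 590 (merge (leaf 4 493 622) (node 588 (merge (leaf 5 492 620) (node 556 (merge (leaf 6 460 461) (node 591 (merge (leaf 3 555 555) (leaf 2 556 559))))))))))) (merge (node 589 (merge (leaf 7 492 621) (node 558 (merge (leaf 3 524 559) (node 588 (merge (leaf 5 492 620) (node 556 (merge (leaf 6 460 461) (node 587 (merge (leaf 2 554 586) (leaf 5 491 619))))))))))) (node 589 (merge (leaf 7 492 621) (node 558 (merge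 (leaf 3 524 559) (node 590 (merge (leaf 4 493 622) (node 588 (merge (leaf 5 492 620) (node 587 (merge (leaf 2 554 586) (node 619 (merge (leaf 5 491 556) (leaf 1 586 618))))))))))))))))))))) (node 524 (merge (node 557 (merge (node 460 (merge (leaf 7 460 589) (node 428 (merge (leaf 4 396 396) (leaf 4 428 524))))) (merge (node 558 (merge (leaf 3 524 559) (node 590 (merge (leaf 4 461 461) (node 622 (merge (leaf 4 493 589) (leaf 7 525 654))))))) (node 558 (merge (leaf 3 524 559) (node 428 (merge (leaf 4 428 460) (node 461 (merge (leaf 4 461 590) (node 429 (merge (leaf 7 396 396) (leaf 5 396 397)))))))))))) (merge (node 557 (merge (node 558 (merge (leaf 3 524 559) (node 590 (merge (leaf 4 461 461) (node 622 (merge (leaf 4 493 589) (leaf 7 525 654))))))) (merge (node 558 (merge (leaf 3 524 559) (node 461 (merge (leaf 4 461 590) (node 556 (merge (leaf 5 428 429) (leaf 5 460 588))))))) (merge (node 589 (merge (node 621 (merge (leaf 7 492 492) (node 620 (merge (leaf 5 492 588) (leaf 5 524 652))))) (merge (node 621 (merge (leaf 7 492 492) (node 622 (merge (leaf 4 493 590) (leaf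 4 525 654))))) (node 590 (merge (leaf 4 493 622) (node 461 (merge (leaf 4 461 558) (node 588 (merge (leaf 5 460 556) (leaf 5 492 620)))))))))) (merge (node 589 (merge (leaf 7 492 621) (node 590 (merge (leaf 4 493 622) (node 588 (merge (leaf 5 492 620) (node 556 (merge (leaf 6 460 461) (node 591 (merge (leaf 3 555 555) (leaf 2 556 559))))))))))) (merge (node 589 (merge (leaf 7 492 621) (node 558 (merge (leaf 3 524 559) (node 588 (merge (leaf 5 492 620) (node 556 (merge (leaf 6 460 461) (node 587 (merge (leaf 2 554 586) (leaf 5 491 619))))))))))) (node 589 (merge (leaf 7 492 621) (node 558 (merge (leaf 3 524 559) (node 590 (merge (leaf 4 493 622) (node 588 (merge (leaf 5 492 620) (node 587 (merge (leaf 2 554 586) (node 619 (merge (leaf 5 491 556) (leaf 1 586 618))))))))))))))))))) (merge (node 460 (merge (node 428 (merge (leaf 4 396 396) (node 429 (merge (leaf 6 396 397) (node 430 (merge (leaf 1 427 459) (leaf 0 428 464))))))) (merge (node 428 (merge (leaf 4 396 396) (node 427 (merge (leaf 7 395 395) (node 556 (merge (leaf 7 427 459) (node 588 (merge (leaf 6 460 461)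 (leaf 6 492 620))))))))) (merge (node 428 (merge (leaf 4 396 396) (node 429 (merge (leaf 6 396 397) (node 461 (merge (leaf 6 428 556) (node 430 (merge (leaf 6 397 398) (leaf 1 428 432))))))))) (node 461 (merge (node 429 (merge (leaf 5 396 397) (node 430 (merge (leaf 6 397 398) (leaf 1 428 432))))) (node 556 (merge (leaf 6 460 588) (node 459 (merge (leaf 7 427 427) (node 458 (merge (leaf 0 457 457) (node 490 (merge (leaf 1 457 489) (node 426 (merge (leaf 3 425 425) (node 555 (merge (leaf 5 459 587) (node 523 (merge (leaf 7 426 491) (leaf 4 426 522))))))))))))))))))))) (node 556 (merge (node 588 (merge (leaf 6 492 620) (node 459 (merge (leaf 7 459 491) (node 460 (merge (leaf 7 427 427) (node 589 (merge (leaf 7 460 557) (leaf 4 492 621))))))))) (merge (node 588 (merge (leaf 6 492 620) (node 459 (merge (leaf 7 459 491) (node 460 (merge (leaf 7 427 427) (node 587 (merge (leaf 5 459 555) (leaf 5 491 619))))))))) (merge (node 557 (merge (node 589 (merge (leaf 7 460 460) (leaf 7 492 621))) (merge (node 558 (merge (leaf 3 524 559) (node 522 (merge (leaf 0 522 523) (node 460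 (merge (leaf 4 428 428) (node 555 (merge (leaf 5 459 587) (node 554 (merge (leaf 3 521 521) (leaf 2 521 553))))))))))) (node 589 (merge (leaf 7 492 621) (node 558 (merge (leaf 3 524 559) (node 590 (merge (leaf 4 493 622) (node 555 (merge (leaf 0 554 554) (leaf 0 555 591)))))))))))) (node 557 (merge (node 589 (merge (leaf 7 492 621) (node 558 (merge (leaf 3 524 559) (node 590 (merge (leaf 4 493 622) (node 555 (merge (leaf 0 554 554) (leaf 0 555 591))))))))) (merge (node 588 (merge (leaf 6 492 620) (node 589 (merge (leaf 7 492 621) (node 587 (merge (leaf 5 491 619) (node 586 (merge (leaf 2 554 558) (leaf 2 553 585))))))))) (merge (node 588 (merge (leaf 6 492 620) (node 558 (merge (leaf 3 524 559) (node 587 (merge (leaf 5 491 619) (node 586 (merge (leaf 1 554 555) (leaf 2 553 585))))))))) (node 588 (merge (leaf 6 492 620) (node 589 (merge (leaf 7 492 621) (node 590 (merge (leaf 4 493 622) (node 591 (merge (leaf 3 555 555) (leaf 2 556 559))))))))))))))))))))))))))))))))))) nP_352 cP_352 14 (by decide +kernel)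
def nP_353 : ℕ := 0x300000002000000080000000000000000000000000000000000000000000000000000000000000000000000000000000000000000000000000000000000000000000
def cP_353 : ℕ := 0x100000001c0000007c0000007e0000003f0000004e0000001f0000013e000001fe0000007c0000001c000000080000000000000000000000000000000000000000000000000000000000000000000000000000000000
theorem lP_353 : S nP_353 cP_353 13 := S_of_chk [] trivial (node 492 (merge (node 556 (merge (node 588 (merge (leaf 6 460 461) (leaf 6 492 620))) (node 555 (merge (node 587 (merge (leaf 5 459 460) (node 619 (merge (leaf 6 491 523) (leaf 6 523 651))))) (node 554 (merge (leaf 2 521 553) (node 557 (merge (leaf 2 522 526) (node 589 (merge (leaf 0 554 590) (leaf 7 492 621))))))))))) (merge (node 523 (merge (node 555 (merge (node 587 (merge (leaf 6 491 619) (node 460 (merge (leaf 5 427 428) (leaf 6 459 491))))) (node 554 (merge (leaf 1 522 526) (node 553 (merge (leaf 2 520 552) (leaf 2 521 556))))))) (merge (node 522 (merge (leaf 2 489 521) (node 554 (merge (leaf 1 521 553) (node 555 (merge (leaf 1 522 526) (node 587 (merge (leaf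 6 491 619) (node 460 (merge (leaf 5 427 428) (leaf 5 459 556))))))))))) (merge (node 555 (merge (node 587 (merge (leaf 6 491 619) (node 460 (merge (leaf 5 427 428) (leaf 5 459 556))))) (merge (node 522 (merge (leaf 2 489 521) (node 490 (merge (leaf 3 489 489) (node 458 (merge (leaf 4 426 426) (node 457 (merge (leaf 3 457 491) (node 460 (merge (leaf 5 427 428) (leaf 0 457 459))))))))))) (node 587 (merge (leaf 6 491 619) (node 522 (merge (leaf 2 489 521) (node 490 (merge (leaf 3 489 489) (node 458 (merge (leaf 4 426 426) (leaf 4 458 554)))))))))))) (merge (node 522 (merge (leaf 2 489 521) (node 490 (merge (leaf 3 489 489) (node 491 (merge (leaf 0 490 526) (node 458 (merge (leaf 3 457 457) (node 426 (merge (leaf 4 394 394) (leaf 4 426 555))))))))))) (node 522 (merge (leaf 2 489 521) (node 554 (merge (leaf 1 521 553) (node 490 (merge (leaf 3 489 489) (node 491 (merge (leaf 0 490 526) (node 459 (merge (leaf 5 426 427) (leaf 6 458 586)))))))))))))))) (merge (node 523 (merge (node 522 (merge (leaf 2 489 521) (node 554 (merge (leaf 1 521 553) (node 555 (merge (leaf 1 522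 526) (node 587 (merge (leaf 6 491 619) (node 460 (merge (leaf 5 427 428) (leaf 6 459 491))))))))))) (merge (node 522 (merge (leaf 2 489 521) (node 554 (merge (leaf 1 521 553) (node 555 (merge (leaf 1 522 526) (node 587 (merge (leaf 6 491 619) (node 490 (merge (leaf 4 458 458) (leaf 3 489 489))))))))))) (merge (node 555 (merge (node 587 (merge (leaf 6 491 619) (node 460 (merge (leaf 5 427 428) (leaf 6 459 491))))) (merge (node 587 (merge (leaf 6 491 619) (node 522 (merge (leaf 2 489 521) (node 490 (merge (leaf 3 489 489) (node 458 (merge (leaf 4 426 426) (leaf 4 458 554))))))))) (node 522 (merge (leaf 2 489 521) (node 490 (merge (leaf 3 489 489) (node 458 (merge (leaf 4 426 426) (node 457 (merge (leaf 3 457 491) (node 460 (merge (leaf 5 427 428) (leaf 0 457 459)))))))))))))) (merge (node 522 (merge (leaf 2 489 521) (node 490 (merge (leaf 3 489 489) (node 491 (merge (leaf 0 490 526) (node 458 (merge (leaf 3 457 457) (node 426 (merge (leaf 4 394 394) (leaf 4 426 555))))))))))) (merge (node 522 (merge (leaf 2 489 521) (node 554 (merge (leaf 1 521 553) (node 490 (merge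 (leaf 3 489 489) (node 491 (merge (leaf 0 490 526) (node 586 (merge (leaf 6 458 459) (leaf 6 490 618))))))))))) (node 491 (merge (node 490 (merge (leaf 0 489 489) (leaf 0 490 526))) (merge (node 490 (merge (leaf 0 489 489) (node 458 (merge (leaf 3 457 457) (node 555 (merge (leaf 7 458 587) (node 426 (merge (leaf 4 394 394) (leaf 7 426 459))))))))) (node 460 (merge (node 557 (merge (leaf 4 428 428) (leaf 7 460 589))) (node 555 (merge (leaf 6 459 587) (node 554 (merge (leaf 1 522 526) (node 459 (merge (leaf 5 458 586) (node 458 (merge (leaf 7 426 426) (leaf 0 457 457)))))))))))))))))))) (merge (node 461 (merge (node 556 (merge (leaf 5 428 429) (node 588 (merge (leaf 6 460 492) (leaf 6 492 620))))) (merge (node 429 (merge (leaf 5 396 397) (node 430 (merge (leaf 6 397 398) (node 428 (merge (leaf 7 396 396) (node 431 (merge (leaf 0 428 464) (node 460 (merge (leaf 1 428 432) (leaf 7 428 557))))))))))) (node 460 (merge (node 557 (merge (leaf 7 428 428) (leaf 7 460 589))) (node 556 (merge (leaf 6 460 588) (node 459 (merge (leaf 7 427 427) (node 458 (merge (leaf 0 457 457)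 (node 490 (merge (leaf 1 457 489) (node 491 (merge (leaf 0 490 526) (node 426 (merge (leaf 3 425 425) (node 394 (merge (leaf 4 362 362) (leaf 4 394 523)))))))))))))))))))) (merge (node 461 (merge (node 429 (merge (leaf 5 396 397) (leaf 5 428 556))) (merge (node 429 (merge (leaf 5 396 397) (node 430 (merge (leaf 6 397 398) (node 428 (merge (leaf 7 396 396) (node 431 (merge (leaf 0 428 464) (node 460 (merge (leaf 1 427 459) (leaf 7 428 557))))))))))) (node 460 (merge (node 557 (merge (leaf 4 428 428) (leaf 7 460 589))) (merge (node 556 (merge (leaf 6 460 588) (node 427 (merge (leaf 7 427 459) (node 428 (merge (leaf 7 395 395) (leaf 4 396 396))))))) (node 556 (merge (leaf 6 460 588) (node 459 (merge (leaf 7 427 427) (node 457 (merge (leaf 0 457 458) (node 557 (merge (leaf 7 460 589) (node 555 (merge (leaf 5 459 587) (node 554 (merge (leaf 2 521 553) (node 586 (merge (leaf 1 553 585) (node 522 (merge (leaf 3 521 521) (node 490 (merge (leaf 7 457 489) (leaf 6 458 491))))))))))))))))))))))))) (node 523 (merge (node 522 (merge (leaf 2 489 521) (node 490 (merge (leaf 3 489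 489) (node 491 (merge (leaf 0 490 526) (node 458 (merge (leaf 3 457 457) (node 426 (merge (leaf 4 394 394) (leaf 4 426 555))))))))))) (merge (node 522 (merge (leaf 2 489 521) (node 554 (merge (leaf 1 521 553) (node 490 (merge (leaf 3 489 489) (node 491 (merge (leaf 0 490 526) (node 586 (merge (leaf 6 458 459) (leaf 6 490 618))))))))))) (merge (node 491 (merge (node 490 (merge (leaf 0 489 489) (node 522 (merge (leaf 1 489 521) (node 458 (merge (leaf 3 457 457) (node 426 (merge (leaf 4 394 394) (leaf 4 426 555))))))))) (merge (node 522 (merge (leaf 2 489 521) (node 554 (merge (leaf 1 521 553) (node 586 (merge (leaf 6 490 618) (node 459 (merge (leaf 5 426 427) (leaf 5 458 555))))))))) (merge (node 490 (merge (leaf 0 489 489) (node 522 (merge (leaf 1 489 521) (node 554 (merge (leaf 1 521 553) (node 586 (merge (leaf 6 458 459) (leaf 6 490 618))))))))) (node 490 (merge (leaf 0 489 489) (node 458 (merge (leaf 3 457 457) (node 555 (merge (leaf 7 458 587) (node 426 (merge (leaf 4 394 394) (leaf 7 426 459))))))))))))) (merge (node 589 (merge (node 588 (merge (node 557 (merge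 (leaf 5 492 620) (leaf 7 492 621))) (merge (node 620 (merge (leaf 6 492 556) (leaf 5 492 557))) (merge (node 556 (merge (leaf 6 492 620) (leaf 4 492 621))) (node 621 (merge (leaf 4 492 556) (leaf 7 492 557))))))) (merge (node 557 (merge (leaf 7 492 621) (node 522 (merge (leaf 2 489 521) (node 554 (merge (leaf 1 521 553) (node 555 (merge (leaf 1 522 526) (node 590 (merge (leaf 0 554 556) (leaf 4 493 622))))))))))) (merge (node 557 (merge (leaf 7 492 621) (node 522 (merge (leaf 2 489 521) (node 554 (merge (leaf 1 521 553) (node 555 (merge (leaf 1 522 526) (node 590 (merge (leaf 4 493 622) (node 588 (merge (leaf 3 554 587) (leaf 5 492 620))))))))))))) (merge (node 522 (merge (leaf 2 489 521) (node 554 (merge (leaf 1 521 553) (node 555 (merge (leaf 1 522 526) (node 587 (merge (leaf 6 491 619) (node 590 (merge (leaf 3 554 588) (node 557 (merge (leaf 0 554 556) (leaf 4 493 622))))))))))))) (node 522 (merge (leaf 2 489 521) (node 554 (merge (leaf 1 521 553) (node 555 (merge (leaf 1 522 526) (node 587 (merge (leaf 6 491 619) (node 588 (merge (leaf 3 554 590) (node 556 (merge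 (leaf 6 460 461) (leaf 4 492 621)))))))))))))))))) (node 491 (merge (node 490 (merge (leaf 3 490 526) (node 489 (merge (leaf 0 488 488) (leaf 0 489 492))))) (merge (node 555 (merge (node 554 (merge (leaf 1 522 526) (node 553 (merge (leaf 2 520 552) (leaf 2 521 556))))) (merge (node 554 (merge (leaf 1 522 526) (node 586 (merge (leaf 5 458 459) (node 618 (merge (leaf 5 490 587) (leaf 6 522 650))))))) (node 587 (merge (node 588 (merge (leaf 4 491 620) (node 556 (merge (leaf 4 459 459) (node 461 (merge (leaf 5 428 429) (leaf 5 460 557))))))) (merge (node 620 (merge (leaf 4 491 588) (node 619 (merge (leaf 4 523 652) (node 618 (merge (leaf 5 490 586) (leaf 5 522 650))))))) (merge (node 618 (merge (leaf 5 490 586) (node 619 (merge (leaf 5 522 650) (node 556 (merge (leaf 6 523 651) (node 459 (merge (leaf 4 427 427) (leaf 4 459 588))))))))) (node 618 (merge (leaf 5 490 586) (node 619 (merge (leaf 5 522 650) (node 651 (merge (leaf 6 523 556) (node 652 (merge (leaf 4 523 620) (leaf 4 555 684)))))))))))))))) (node 459 (merge (node 427 (merge (leaf 4 427 556) (node 396 (merge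 (leaf 6 395 428) (node 395 (merge (leaf 6 363 364) (leaf 4 395 492))))))) (merge (node 555 (merge (node 556 (merge (leaf 4 459 588) (node 554 (merge (leaf 2 521 553) (leaf 5 458 586))))) (merge (node 458 (merge (leaf 7 426 426) (node 587 (merge (leaf 7 458 490) (node 588 (merge (leaf 4 459 556) (leaf 4 491 620))))))) (node 458 (merge (leaf 7 426 426) (node 587 (merge (leaf 7 458 490) (node 586 (merge (leaf 5 458 554) (leaf 5 490 618)))))))))) (node 427 (merge (node 396 (merge (leaf 6 395 428) (node 395 (merge (leaf 6 363 364) (leaf 4 395 492))))) (merge (node 396 (merge (leaf 6 395 428) (node 395 (merge (leaf 6 363 364) (node 426 (merge (leaf 7 394 394) (node 458 (merge (leaf 7 426 555) (node 363 (merge (leaf 5 330 331) (leaf 5 362 490))))))))))) (node 426 (merge (leaf 7 394 394) (node 555 (merge (leaf 7 426 458) (node 586 (merge (leaf 5 458 554) (node 587 (merge (leaf 5 490 618) (node 619 (merge (leaf 6 491 492) (node 620 (merge (leaf 4 491 588) (leaf 4 523 652))))))))))))))))))))))))))))))))) nP_353 cP_353 13 (by decide +kernel)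
def nP_354 : ℕ := 0x100000001300000002000000080000000000000000000000000000000000000000000000000000000000000000000000000000000000000000000000000000000000000000000
def cP_354 : ℕ := 0x400000034000000be000000be0000008e0000015e0000033f000003fc0000027c00000010000000000000000000000000000000000000000000000000000000000000000000000000000000000000000000
theorem lP_354 : S nP_354 cP_354 13 := S_of_chk [] trivial (node 492 (merge (node 491 (merge (node 459 (merge (node 458 (merge (leaf 3 458 494) (node 457 (merge (leaf 0 456 456) (leaf 0 457 460))))) (node 556 (merge (leaf 7 459 588) (node 427 (merge (leaf 4 395 395) (leaf 4 427 523))))))) (merge (node 490 (merge (leaf 0 489 489) (node 522 (merge (leaf 1 489 521) (node 523 (merge (leaf 1 490 494) (node 554 (merge (leaf 1 521 553) (node 459 (merge (leaf 5 426 427) (leaf 6 458 586))))))))))) (merge (node 490 (merge (leaf 0 489 489) (node 522 (merge (leaf 1 489 521) (node 458 (merge (leaf 3 457 457) (node 459 (merge (leaf 3 458 494) (node 427 (merge (leaf 4 395 395) (leaf 6 426 554))))))))))) (merge (node 459 (merge (node 556 (merge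 (leaf 7 459 588) (node 427 (merge (leaf 4 395 395) (leaf 4 427 523))))) (merge (node 490 (merge (leaf 0 489 489) (node 522 (merge (leaf 1 489 521) (node 554 (merge (leaf 6 458 586) (node 427 (merge (leaf 4 395 395) (leaf 6 426 458))))))))) (node 490 (merge (leaf 0 489 489) (node 522 (merge (leaf 1 489 521) (node 554 (merge (leaf 6 458 586) (node 556 (merge (leaf 7 459 588) (node 553 (merge (leaf 1 521 523) (leaf 2 521 555)))))))))))))) (node 490 (merge (leaf 0 489 489) (node 522 (merge (leaf 1 489 521) (node 523 (merge (leaf 1 490 494) (node 458 (merge (leaf 3 457 457) (node 426 (merge (leaf 4 394 394) (leaf 4 426 555)))))))))))))))) (merge (node 496 (merge (node 464 (merge (leaf 7 431 431) (node 433 (merge (leaf 6 432 465) (node 432 (merge (leaf 6 400 401) (node 559 (merge (leaf 5 431 527) (leaf 5 463 591))))))))) (node 461 (merge (node 429 (merge (leaf 5 396 397) (leaf 5 428 556))) (merge (node 429 (merge (leaf 5 396 397) (node 428 (merge (leaf 7 396 396) (node 460 (merge (leaf 7 428 557) (node 523 (merge (leaf 5 427 555) (node 522 (merge (leaf 2 490 494) (leaf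 2 489 521))))))))))) (node 460 (merge (node 428 (merge (leaf 7 428 557) (node 396 (merge (leaf 4 364 364) (leaf 4 396 492))))) (merge (node 556 (merge (leaf 6 460 588) (node 428 (merge (leaf 4 396 396) (node 555 (merge (leaf 5 427 523) (leaf 5 459 587))))))) (node 556 (merge (leaf 6 460 588) (node 557 (merge (leaf 7 460 589) (node 555 (merge (leaf 5 459 587) (node 554 (merge (leaf 2 521 553) (node 586 (merge (leaf 1 553 585) (node 522 (merge (leaf 3 521 521) (node 523 (merge (leaf 2 490 494) (node 618 (merge (leaf 6 490 491) (leaf 6 522 650))))))))))))))))))))))))) (merge (node 496 (merge (node 464 (merge (leaf 7 431 431) (node 433 (merge (leaf 6 432 465) (node 432 (merge (leaf 6 400 401) (node 559 (merge (leaf 5 431 527) (leaf 5 463 591))))))))) (node 491 (merge (node 490 (merge (leaf 0 489 489) (node 522 (merge (leaf 1 489 521) (node 523 (merge (leaf 1 490 494) (node 554 (merge (leaf 1 521 553) (node 586 (merge (leaf 6 458 459) (leaf 6 490 618))))))))))) (merge (node 490 (merge (leaf 0 489 489) (node 522 (merge (leaf 1 489 521) (node 458 (merge (leaf 3 457 457)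 (node 459 (merge (leaf 3 458 494) (node 554 (merge (leaf 6 426 427) (leaf 6 458 586))))))))))) (merge (node 490 (merge (leaf 0 489 489) (node 522 (merge (leaf 1 489 521) (node 523 (merge (leaf 1 490 494) (node 458 (merge (leaf 3 457 457) (node 426 (merge (leaf 4 394 394) (leaf 4 426 555))))))))))) (merge (node 523 (merge (node 490 (merge (leaf 0 489 489) (node 522 (merge (leaf 1 489 521) (node 554 (merge (leaf 1 521 553) (node 586 (merge (leaf 6 458 459) (leaf 6 490 618))))))))) (merge (node 490 (merge (leaf 0 489 489) (node 458 (merge (leaf 3 457 457) (node 555 (merge (leaf 7 458 587) (node 426 (merge (leaf 4 394 394) (leaf 4 426 522))))))))) (merge (node 490 (merge (leaf 0 489 489) (node 458 (merge (leaf 3 457 457) (node 555 (merge (leaf 7 458 587) (node 426 (merge (leaf 4 394 394) (leaf 7 426 459))))))))) (node 522 (merge (leaf 2 489 521) (node 554 (merge (leaf 1 521 553) (node 586 (merge (leaf 6 490 618) (node 459 (merge (leaf 5 426 427) (leaf 5 458 555))))))))))))) (merge (node 428 (merge (node 460 (merge (leaf 4 396 396) (leaf 4 428 557))) (merge (node 490 (merge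 (leaf 0 489 489) (node 458 (merge (leaf 3 457 457) (node 459 (merge (leaf 3 458 494) (node 427 (merge (leaf 4 395 395) (node 396 (merge (leaf 6 395 523) (node 429 (merge (leaf 1 426 430) (leaf 7 396 461))))))))))))) (node 490 (merge (leaf 0 489 489) (node 458 (merge (leaf 3 457 457) (node 459 (merge (leaf 3 458 494) (node 427 (merge (leaf 4 395 395) (node 429 (merge (leaf 1 426 430) (node 460 (merge (leaf 6 396 397) (leaf 4 428 557)))))))))))))))) (node 523 (merge (node 522 (merge (leaf 1 490 494) (leaf 2 489 521))) (merge (node 459 (merge (node 458 (merge (leaf 3 458 494) (node 457 (merge (leaf 0 456 456) (leaf 0 457 460))))) (merge (node 427 (merge (leaf 4 395 395) (node 428 (merge (leaf 6 395 396) (node 460 (merge (leaf 6 427 555) (leaf 4 428 557))))))) (node 458 (merge (leaf 3 458 494) (node 426 (merge (leaf 7 426 555) (node 427 (merge (leaf 7 394 394) (leaf 4 395 395)))))))))) (node 522 (merge (leaf 2 489 521) (node 554 (merge (leaf 1 521 553) (node 459 (merge (leaf 5 426 427) (node 555 (merge (leaf 5 458 586) (node 460 (merge (leaf 6 427 428) (leaf 6 459 587))))))))))))))))))))))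 (merge (node 496 (merge (node 464 (merge (leaf 7 431 431) (node 433 (merge (leaf 6 432 465) (node 432 (merge (leaf 6 400 401) (node 559 (merge (leaf 5 431 527) (leaf 5 463 591))))))))) (node 491 (merge (node 490 (merge (leaf 0 489 489) (node 458 (merge (leaf 3 457 457) (node 459 (merge (leaf 3 458 494) (node 556 (merge (leaf 7 459 588) (node 427 (merge (leaf 4 395 395) (leaf 4 427 523))))))))))) (merge (node 490 (merge (leaf 0 489 489) (node 522 (merge (leaf 1 489 521) (node 523 (merge (leaf 1 490 494) (node 554 (merge (leaf 1 521 553) (node 459 (merge (leaf 5 426 427) (leaf 6 458 586))))))))))) (merge (node 490 (merge (leaf 0 489 489) (node 522 (merge (leaf 1 489 521) (node 458 (merge (leaf 3 457 457) (node 459 (merge (leaf 3 458 494) (node 554 (merge (leaf 6 426 427) (leaf 6 458 586))))))))))) (merge (node 459 (merge (node 556 (merge (leaf 7 459 588) (node 427 (merge (leaf 4 395 395) (leaf 4 427 523))))) (merge (node 490 (merge (leaf 0 489 489) (node 522 (merge (leaf 1 489 521) (node 554 (merge (leaf 6 458 586) (node 427 (merge (leaf 4 395 395) (leaf 6 426 458)))))))))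 (node 490 (merge (leaf 0 489 489) (node 522 (merge (leaf 1 489 521) (node 554 (merge (leaf 6 458 586) (node 556 (merge (leaf 7 459 588) (node 553 (merge (leaf 1 521 523) (leaf 2 521 555)))))))))))))) (merge (node 523 (merge (node 522 (merge (leaf 1 490 494) (leaf 2 489 521))) (merge (node 522 (merge (leaf 2 489 521) (node 554 (merge (leaf 1 521 553) (node 586 (merge (leaf 6 490 618) (node 459 (merge (leaf 5 426 427) (leaf 5 458 555))))))))) (node 459 (merge (node 556 (merge (leaf 4 427 427) (leaf 7 459 588))) (merge (node 458 (merge (leaf 3 458 494) (node 426 (merge (leaf 7 426 555) (node 427 (merge (leaf 7 394 394) (leaf 4 395 395))))))) (node 556 (merge (leaf 7 459 588) (node 458 (merge (leaf 3 458 494) (node 555 (merge (leaf 7 426 426) (node 554 (merge (leaf 2 521 553) (leaf 5 458 586))))))))))))))) (node 490 (merge (leaf 0 489 489) (node 522 (merge (leaf 1 489 521) (node 523 (merge (leaf 1 490 494) (node 458 (merge (leaf 3 457 457) (node 426 (merge (leaf 4 394 394) (leaf 4 426 555))))))))))))))))))) (merge (node 461 (merge (node 429 (merge (leaf 5 396 397) (leaf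 5 428 556))) (merge (node 429 (merge (leaf 5 396 397) (node 430 (merge (leaf 6 397 398) (node 428 (merge (leaf 7 396 396) (node 431 (merge (leaf 0 428 464) (node 460 (merge (leaf 1 427 459) (leaf 7 428 557))))))))))) (node 460 (merge (node 557 (merge (leaf 4 428 428) (leaf 7 460 589))) (merge (node 556 (merge (leaf 6 460 588) (node 427 (merge (leaf 7 427 459) (node 428 (merge (leaf 7 395 395) (leaf 4 396 396))))))) (node 556 (merge (leaf 6 460 588) (node 459 (merge (leaf 7 427 427) (node 457 (merge (leaf 0 457 458) (node 557 (merge (leaf 7 460 589) (node 555 (merge (leaf 5 459 587) (node 554 (merge (leaf 2 521 553) (node 586 (merge (leaf 1 553 585) (node 522 (merge (leaf 3 521 521) (node 490 (merge (leaf 7 457 489) (leaf 6 458 491))))))))))))))))))))))))) (node 496 (merge (node 464 (merge (leaf 7 431 431) (node 433 (merge (leaf 6 432 465) (node 432 (merge (leaf 6 400 401) (node 559 (merge (leaf 5 431 527) (leaf 5 463 591))))))))) (node 460 (merge (node 557 (merge (leaf 4 428 428) (leaf 7 460 589))) (merge (node 428 (merge (leaf 4 396 396) (node 429 (merge (leaf 6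 396 397) (node 556 (merge (leaf 6 428 461) (node 427 (merge (leaf 7 395 395) (leaf 7 427 459))))))))) (node 556 (merge (node 588 (merge (leaf 6 492 620) (node 589 (merge (leaf 7 460 557) (leaf 4 492 621))))) (node 461 (merge (leaf 6 428 429) (node 459 (merge (leaf 7 427 427) (node 458 (merge (leaf 0 457 457) (leaf 0 458 494)))))))))))))))))))) nP_354 cP_354 13 (by decide +kernel)
def nP_355 : ℕ := 0x100000001200000002000000080000000000000000000000000000000000000000000000000000000000000000000000000000000000000000000000000000000000000000000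
def cP_355 : ℕ := 0x1c0000001c0000005c000001fe000000ff000002bf000000de0000015f0000033f000003ff0000027c0000005c000000080000000000000000000000000000000000000000000000000000000000000000000000000000000000
theorem lP_355 : S nP_355 cP_355 14 := S_of_chk [(nP_353, cP_353, 13), (nP_354, cP_354, 13)] ⟨lP_353, lP_354, trivial⟩ (node 524 (merge (node 492 (merge (node 523 (merge (node 522 (merge (leaf 2 490 494) (leaf 2 489 521))) (node 526 (merge (leaf 3 492 527) (node 491 (merge (leaf 0 490 490) (node 555 (merge (leaf 1 522 554) (node 587 (merge (leaf 6 459 460) (leaf 6 491 619))))))))))) (merge (node 491 (merge (node 490 (merge (leaf 0 489 489) (leaf 0 490 526))) (node 459 (merge (node 458 (merge (leaf 3 458 494) (node 457 (merge (leaf 0 456 456) (leaf 0 457 460))))) (node 556 (merge (leaf 7 459 588) (node 427 (merge (leaf 4 395 395) (leaf 4 427 523))))))))) (merge (node 556 (merge (node 588 (merge (leaf 6 460 461) (leaf 6 492 620))) (node 555 (merge (node 587 (merge (leaf 5 459 460) (node 619 (merge (leaf 6 491 523) (leaf 6 523 651))))) (node 526 (merge (leaf 1 523 527)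 (node 554 (merge (leaf 2 521 553) (leaf 2 522 557))))))))) (merge (node 556 (merge (node 588 (merge (leaf 6 460 461) (leaf 6 492 620))) (merge (node 588 (merge (leaf 6 492 620) (node 491 (merge (leaf 7 459 459) (node 490 (merge (leaf 0 489 489) (leaf 0 490 526))))))) (node 555 (merge (node 526 (merge (leaf 1 523 527) (node 554 (merge (leaf 2 521 553) (leaf 2 522 557))))) (node 461 (merge (leaf 5 428 429) (node 460 (merge (leaf 5 459 587) (node 459 (merge (leaf 7 427 427) (node 458 (merge (leaf 0 457 457) (leaf 0 458 494)))))))))))))) (merge (node 491 (merge (node 526 (merge (leaf 0 490 490) (leaf 3 492 527))) (merge (node 490 (merge (leaf 0 489 489) (node 522 (merge (leaf 1 489 521) (node 494 (merge (leaf 1 490 523) (node 458 (merge (leaf 3 457 457) (leaf 3 458 459))))))))) (node 523 (merge (node 522 (merge (leaf 2 490 494) (leaf 2 489 521))) (node 526 (merge (leaf 3 491 527) (node 555 (merge (leaf 1 522 554) (node 587 (merge (leaf 6 491 619) (node 588 (merge (leaf 4 491 620) (node 459 (merge (leaf 7 459 556) (node 426 (merge (leaf 7 426 458) (node 427 (merge (leaf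 7 394 394) (leaf 4 395 395)))))))))))))))))))) (node 491 (merge (node 459 (merge (node 458 (merge (leaf 3 458 494) (node 457 (merge (leaf 0 456 456) (leaf 0 457 460))))) (node 556 (merge (leaf 7 459 588) (node 427 (merge (leaf 4 395 395) (leaf 4 427 523))))))) (merge (node 490 (merge (leaf 0 489 489) (node 522 (merge (leaf 1 489 521) (node 523 (merge (leaf 1 490 494) (node 554 (merge (leaf 1 521 553) (node 459 (merge (leaf 5 426 427) (leaf 6 458 586))))))))))) (merge (node 490 (merge (leaf 0 489 489) (node 522 (merge (leaf 1 489 521) (node 458 (merge (leaf 3 457 457) (node 459 (merge (leaf 3 458 494) (node 427 (merge (leaf 4 395 395) (leaf 6 426 554))))))))))) (merge (node 459 (merge (node 556 (merge (leaf 7 459 588) (node 427 (merge (leaf 4 395 395) (leaf 4 427 523))))) (merge (node 490 (merge (leaf 0 489 489) (node 522 (merge (leaf 1 489 521) (node 554 (merge (leaf 6 458 586) (node 427 (merge (leaf 4 395 395) (leaf 6 426 458))))))))) (node 490 (merge (leaf 0 489 489) (node 522 (merge (leaf 1 489 521) (node 554 (merge (leaf 6 458 586) (node 556 (merge (leaf 7 459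 588) (node 553 (merge (leaf 1 521 523) (leaf 2 521 555)))))))))))))) (node 490 (merge (leaf 0 489 489) (node 522 (merge (leaf 1 489 521) (node 523 (merge (leaf 1 490 494) (node 458 (merge (leaf 3 457 457) (node 426 (merge (leaf 4 394 394) (leaf 4 426 555)))))))))))))))))))))) (merge (node 461 (merge (node 556 (merge (leaf 5 428 429) (node 588 (merge (leaf 5 460 557) (leaf 6 492 620))))) (merge (node 429 (merge (leaf 5 428 556) (node 396 (merge (leaf 7 396 428) (node 397 (merge (leaf 7 364 364) (leaf 5 396 492))))))) (merge (node 429 (merge (node 396 (merge (leaf 7 396 428) (node 397 (merge (leaf 7 364 364) (node 526 (merge (leaf 4 397 494) (node 492 (merge (leaf 5 396 524) (leaf 3 492 527))))))))) (merge (node 398 (merge (leaf 6 397 430) (node 397 (merge (leaf 6 365 366) (node 526 (merge (leaf 4 397 494) (node 527 (merge (leaf 3 492 492) (leaf 0 525 561))))))))) (node 430 (merge (leaf 6 397 398) (node 428 (merge (leaf 7 396 396) (node 431 (merge (leaf 0 428 464) (node 460 (merge (leaf 1 427 459) (leaf 7 428 557)))))))))))) (node 557 (merge (node 460 (merge (leaf 7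 428 428) (node 589 (merge (leaf 7 460 492) (node 588 (merge (leaf 5 460 556) (leaf 5 492 620))))))) (merge (node 460 (merge (leaf 7 428 428) (node 589 (merge (leaf 7 460 492) (node 622 (merge (leaf 4 493 590) (node 621 (merge (leaf 4 525 654) (node 526 (merge (leaf 6 493 494) (node 527 (merge (leaf 0 524 559) (leaf 0 525 561))))))))))))) (merge (node 588 (merge (leaf 5 460 556) (node 589 (merge (leaf 5 492 620) (node 622 (merge (leaf 4 493 590) (node 621 (merge (leaf 4 525 654) (node 526 (merge (leaf 6 493 494) (node 527 (merge (leaf 0 524 559) (leaf 0 525 561))))))))))))) (node 460 (merge (leaf 7 428 428) (node 556 (merge (leaf 5 460 588) (node 526 (merge (leaf 1 524 527) (node 555 (merge (leaf 2 522 554) (node 492 (merge (leaf 5 459 587) (node 459 (merge (leaf 7 427 427) (node 458 (merge (leaf 0 457 457) (leaf 0 458 494))))))))))))))))))))))) (merge (node 523 (merge (node 522 (merge (leaf 2 490 494) (node 521 (merge (leaf 2 489 492) (node 489 (merge (leaf 3 488 488) (leaf 3 489 490))))))) (merge (node 522 (merge (leaf 2 490 494) (node 554 (merge (leaf 1 521 553)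 (node 526 (merge (leaf 1 522 555) (node 527 (merge (leaf 0 524 559) (leaf 0 525 561))))))))) (node 491 (merge (node 526 (merge (leaf 3 490 490) (node 527 (merge (leaf 0 524 559) (leaf 0 525 561))))) (merge (node 555 (merge (node 526 (merge (leaf 1 522 554) (node 527 (merge (leaf 0 524 559) (leaf 0 525 561))))) (node 588 (merge (node 587 (merge (leaf 4 491 620) (node 492 (merge (leaf 6 459 460) (leaf 6 491 619))))) (merge (node 556 (merge (leaf 6 492 620) (node 459 (merge (leaf 4 427 427) (leaf 4 459 555))))) (node 459 (merge (leaf 4 459 556) (node 460 (merge (leaf 6 427 428) (node 492 (merge (leaf 6 459 587) (node 458 (merge (leaf 7 426 426) (leaf 0 457 457)))))))))))))) (node 459 (merge (node 556 (merge (leaf 4 427 427) (node 588 (merge (leaf 4 459 555) (leaf 6 492 620))))) (merge (node 427 (merge (leaf 4 427 556) (node 396 (merge (leaf 6 395 428) (node 395 (merge (leaf 6 363 364) (leaf 4 395 492))))))) (merge (node 427 (merge (node 396 (merge (leaf 6 395 428) (node 395 (merge (leaf 6 363 364) (leaf 4 395 492))))) (merge (node 394 (merge (leaf 7 394 426) (node 395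 (merge (leaf 7 362 362) (leaf 4 395 492))))) (node 428 (merge (leaf 6 395 396) (node 555 (merge (leaf 6 427 460) (node 426 (merge (leaf 7 394 394) (leaf 7 426 458)))))))))) (node 555 (merge (node 556 (merge (leaf 4 459 588) (node 554 (merge (leaf 2 521 553) (leaf 5 458 586))))) (node 460 (merge (leaf 6 427 428) (node 587 (merge (leaf 6 459 492) (node 458 (merge (leaf 7 426 426) (leaf 7 458 490))))))))))))))))))) (merge (node 523 (merge (node 522 (merge (leaf 2 490 494) (node 553 (merge (leaf 1 521 554) (node 521 (merge (leaf 2 489 492) (leaf 1 520 552))))))) (merge (node 490 (merge (node 526 (merge (leaf 3 490 491) (node 527 (merge (leaf 0 524 559) (leaf 0 525 561))))) (node 522 (merge (leaf 3 489 489) (node 553 (merge (leaf 1 521 554) (node 521 (merge (leaf 2 489 492) (leaf 1 520 552))))))))) (merge (node 522 (merge (leaf 2 490 494) (node 490 (merge (leaf 3 489 489) (node 526 (merge (leaf 3 490 491) (node 527 (merge (leaf 0 524 559) (leaf 0 525 561))))))))) (node 461 (merge (node 556 (merge (leaf 5 428 429) (node 588 (merge (leaf 5 460 557) (leaf 6 492 620))))) (merge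 (node 429 (merge (leaf 5 428 556) (node 396 (merge (leaf 7 396 428) (node 397 (merge (leaf 7 364 364) (leaf 5 396 492))))))) (merge (node 429 (merge (node 396 (merge (leaf 7 396 428) (node 397 (merge (leaf 7 364 364) (node 526 (merge (leaf 4 397 494) (node 527 (merge (leaf 0 524 559) (leaf 0 525 561))))))))) (merge (node 398 (merge (leaf 6 397 430) (node 397 (merge (leaf 6 365 366) (node 526 (merge (leaf 4 397 494) (node 527 (merge (leaf 0 524 559) (leaf 0 525 561))))))))) (node 430 (merge (leaf 6 397 398) (node 428 (merge (leaf 7 396 396) (node 431 (merge (leaf 0 428 464) (node 460 (merge (leaf 1 427 459) (leaf 7 428 557)))))))))))) (node 460 (merge (node 428 (merge (leaf 7 428 557) (node 396 (merge (leaf 4 364 364) (leaf 4 396 492))))) (merge (node 557 (merge (leaf 7 428 428) (node 588 (merge (leaf 5 460 556) (node 589 (merge (leaf 5 492 620) (node 622 (merge (leaf 4 493 590) (node 621 (merge (leaf 4 525 654) (node 526 (merge (leaf 6 493 494) (node 527 (merge (leaf 0 524 559) (leaf 0 525 561))))))))))))))) (node 491 (merge (node 526 (merge (leaf 3 490 490) (node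 527 (merge (leaf 0 524 559) (leaf 0 525 561))))) (node 459 (merge (node 556 (merge (leaf 4 427 427) (node 588 (merge (leaf 6 460 492) (leaf 6 492 620))))) (merge (node 458 (merge (leaf 0 458 494) (node 457 (merge (leaf 0 457 492) (node 425 (merge (leaf 3 424 424) (leaf 3 425 426))))))) (node 458 (merge (leaf 0 458 494) (node 426 (merge (leaf 3 425 425) (node 427 (merge (leaf 7 394 394) (leaf 4 427 556))))))))))))))))))))))) (merge (node 523 (merge (node 522 (merge (leaf 2 490 494) (node 521 (merge (leaf 2 489 492) (node 489 (merge (leaf 3 488 488) (leaf 3 489 490))))))) (merge (node 522 (merge (leaf 2 490 494) (node 553 (merge (leaf 1 521 554) (node 521 (merge (leaf 2 489 492) (leaf 1 520 552))))))) (merge (node 522 (merge (leaf 2 490 494) (node 554 (merge (leaf 1 521 553) (node 526 (merge (leaf 1 522 555) (node 490 (merge (leaf 3 489 489) (leaf 3 490 491))))))))) (node 491 (merge (node 490 (merge (leaf 3 490 526) (node 489 (merge (leaf 0 488 488) (leaf 0 489 492))))) (merge (node 555 (merge (node 554 (merge (leaf 1 522 526) (node 553 (merge (leaf 2 520 552) (leaf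 2 521 556))))) (merge (node 554 (merge (leaf 1 522 526) (node 586 (merge (leaf 5 458 459) (node 618 (merge (leaf 5 490 587) (leaf 6 522 650))))))) (node 587 (merge (node 588 (merge (leaf 4 491 620) (node 556 (merge (leaf 4 459 459) (node 461 (merge (leaf 5 428 429) (leaf 5 460 557))))))) (merge (node 620 (merge (leaf 4 491 588) (node 619 (merge (leaf 4 523 652) (node 618 (merge (leaf 5 490 586) (leaf 5 522 650))))))) (merge (node 618 (merge (leaf 5 490 586) (node 619 (merge (leaf 5 522 650) (node 556 (merge (leaf 6 523 651) (node 459 (merge (leaf 4 427 427) (leaf 4 459 588))))))))) (node 618 (merge (leaf 5 490 586) (node 619 (merge (leaf 5 522 650) (node 651 (merge (leaf 6 523 556) (node 652 (merge (leaf 4 523 620) (leaf 4 555 684)))))))))))))))) (node 459 (merge (node 427 (merge (leaf 4 427 556) (node 396 (merge (leaf 6 395 428) (node 395 (merge (leaf 6 363 364) (leaf 4 395 492))))))) (merge (node 555 (merge (node 556 (merge (leaf 4 459 588) (node 554 (merge (leaf 2 521 553) (leaf 5 458 586))))) (merge (node 458 (merge (leaf 7 426 426) (node 587 (merge (leaf 7 458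 490) (node 588 (merge (leaf 4 459 556) (leaf 4 491 620))))))) (node 458 (merge (leaf 7 426 426) (node 587 (merge (leaf 7 458 490) (node 586 (merge (leaf 5 458 554) (leaf 5 490 618)))))))))) (node 427 (merge (node 396 (merge (leaf 6 395 428) (node 395 (merge (leaf 6 363 364) (leaf 4 395 492))))) (merge (node 396 (merge (leaf 6 395 428) (node 395 (merge (leaf 6 363 364) (node 426 (merge (leaf 7 394 394) (node 458 (merge (leaf 7 426 555) (node 363 (merge (leaf 5 330 331) (leaf 5 362 490))))))))))) (node 426 (merge (leaf 7 394 394) (node 555 (merge (leaf 7 426 458) (node 586 (merge (leaf 5 458 554) (node 587 (merge (leaf 5 490 618) (node 619 (merge (leaf 6 491 492) (node 620 (merge (leaf 4 491 588) (leaf 4 523 652)))))))))))))))))))))))))) (merge (node 523 (merge (node 522 (merge (leaf 2 490 494) (node 521 (merge (leaf 2 489 492) (node 489 (merge (leaf 3 488 488) (leaf 3 489 490))))))) (merge (node 522 (merge (leaf 2 490 494) (node 553 (merge (leaf 1 521 554) (node 521 (merge (leaf 2 489 492) (leaf 1 520 552))))))) (merge (node 522 (merge (node 553 (merge (leaf 1 521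 554) (node 521 (merge (leaf 2 489 492) (leaf 1 520 552))))) (merge (node 521 (merge (leaf 2 489 492) (node 489 (merge (leaf 3 488 488) (leaf 3 489 490))))) (node 554 (merge (leaf 1 521 553) (node 526 (merge (leaf 1 522 555) (node 490 (merge (leaf 3 489 489) (leaf 3 490 491)))))))))) (merge (node 522 (merge (leaf 2 490 494) (node 554 (merge (leaf 1 521 553) (node 526 (merge (leaf 1 522 555) (node 490 (merge (leaf 3 489 489) (leaf 3 490 491))))))))) (node 491 (merge (node 526 (merge (leaf 3 490 490) (node 527 (merge (leaf 0 524 559) (leaf 0 525 561))))) (merge (node 555 (merge (node 526 (merge (leaf 1 522 554) (node 527 (merge (leaf 0 524 559) (leaf 0 525 561))))) (node 587 (merge (node 620 (merge (leaf 4 491 588) (node 619 (merge (leaf 4 523 652) (node 618 (merge (leaf 5 490 586) (leaf 5 522 650))))))) (node 460 (merge (leaf 6 459 492) (node 428 (merge (leaf 6 427 459) (node 461 (merge (leaf 7 428 557) (node 396 (merge (leaf 4 364 364) (leaf 7 396 429))))))))))))) (node 459 (merge (node 458 (merge (node 426 (merge (leaf 7 426 555) (node 394 (merge (leaf 4 362 362)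 (leaf 4 394 490))))) (node 492 (merge (leaf 3 458 494) (node 457 (merge (leaf 0 456 456) (leaf 0 457 460))))))) (merge (node 427 (merge (node 396 (merge (leaf 6 395 428) (node 395 (merge (leaf 6 363 364) (leaf 4 395 492))))) (merge (node 492 (merge (leaf 4 395 395) (node 490 (merge (leaf 0 489 489) (node 458 (merge (leaf 3 457 457) (leaf 3 458 494))))))) (node 428 (merge (leaf 6 395 396) (node 460 (merge (leaf 6 427 555) (node 461 (merge (leaf 7 428 557) (node 458 (merge (leaf 0 458 494) (node 457 (merge (leaf 2 425 429) (leaf 2 424 456)))))))))))))) (merge (node 427 (merge (node 394 (merge (leaf 7 394 426) (node 395 (merge (leaf 7 362 362) (leaf 4 395 492))))) (merge (node 396 (merge (leaf 6 395 428) (node 395 (merge (leaf 6 363 364) (node 394 (merge (leaf 7 362 362) (leaf 7 394 426))))))) (node 428 (merge (leaf 6 395 396) (node 460 (merge (leaf 6 427 555) (node 557 (merge (leaf 7 428 461) (leaf 4 428 492)))))))))) (merge (node 492 (merge (node 490 (merge (leaf 0 489 489) (node 458 (merge (leaf 3 457 457) (leaf 3 458 494))))) (node 427 (merge (leaf 4 395 395) (node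 428 (merge (leaf 6 395 396) (node 426 (merge (leaf 7 394 394) (node 460 (merge (leaf 4 428 557) (node 425 (merge (leaf 0 424 424) (leaf 0 425 461))))))))))))) (merge (node 428 (merge (node 555 (merge (leaf 6 427 460) (node 458 (merge (leaf 7 426 426) (node 587 (merge (leaf 7 458 490) (node 586 (merge (leaf 5 458 554) (leaf 5 490 618))))))))) (merge (node 396 (merge (leaf 6 395 427) (node 461 (merge (leaf 7 396 429) (node 460 (merge (leaf 4 364 364) (leaf 7 428 557))))))) (node 427 (merge (leaf 6 395 396) (node 426 (merge (leaf 7 394 394) (node 458 (merge (leaf 7 426 555) (node 429 (merge (leaf 1 426 430) (leaf 1 425 457)))))))))))) (node 427 (merge (node 396 (merge (leaf 6 395 428) (node 395 (merge (leaf 6 363 364) (leaf 4 395 492))))) (merge (node 396 (merge (leaf 6 395 428) (node 395 (merge (leaf 6 363 364) (node 426 (merge (leaf 7 394 394) (node 458 (merge (leaf 7 426 555) (node 363 (merge (leaf 5 330 331) (leaf 5 362 490))))))))))) (node 426 (merge (leaf 7 394 394) (node 555 (merge (leaf 7 426 458) (node 586 (merge (leaf 5 458 554) (node 587 (merge (leaf 5 490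 618) (node 619 (merge (leaf 6 491 492) (node 620 (merge (leaf 4 491 588) (leaf 4 523 652)))))))))))))))))))))))))))))) (merge (node 523 (merge (node 522 (merge (leaf 2 490 494) (node 521 (merge (leaf 2 489 492) (node 489 (merge (leaf 3 488 488) (leaf 3 489 490))))))) (merge (node 522 (merge (leaf 2 490 494) (node 553 (merge (leaf 1 521 554) (node 521 (merge (leaf 2 489 492) (leaf 1 520 552))))))) (merge (node 522 (merge (leaf 2 490 494) (node 554 (merge (leaf 1 521 553) (node 526 (merge (leaf 1 522 555) (node 490 (merge (leaf 3 489 489) (leaf 3 490 491))))))))) (node 555 (merge (node 526 (merge (leaf 1 522 554) (node 527 (merge (leaf 0 524 559) (leaf 0 525 561))))) (merge (node 587 (merge (node 492 (merge (leaf 6 491 619) (node 460 (merge (leaf 5 427 428) (leaf 6 459 491))))) (merge (node 619 (merge (node 651 (merge (leaf 6 523 556) (node 650 (merge (leaf 5 522 618) (leaf 5 554 682))))) (merge (node 651 (merge (leaf 6 523 556) (node 652 (merge (leaf 4 523 620) (leaf 4 555 684))))) (merge (node 652 (merge (leaf 4 523 620) (node 651 (merge (leaf 4 555 684) (node 650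 (merge (leaf 5 522 618) (leaf 5 554 682))))))) (node 620 (merge (leaf 4 523 652) (node 588 (merge (leaf 6 492 556) (node 589 (merge (leaf 5 492 557) (node 618 (merge (leaf 1 586 590) (leaf 5 522 650))))))))))))) (node 588 (merge (node 556 (merge (leaf 6 492 620) (node 461 (merge (leaf 5 428 429) (leaf 5 460 557))))) (merge (node 491 (merge (leaf 4 491 620) (node 492 (merge (leaf 6 459 460) (node 490 (merge (leaf 7 458 458) (leaf 0 489 489))))))) (node 556 (merge (node 461 (merge (leaf 5 428 429) (leaf 5 460 557))) (node 554 (merge (leaf 2 521 553) (node 589 (merge (leaf 3 554 590) (node 492 (merge (leaf 5 459 460) (leaf 4 492 621))))))))))))))) (node 587 (merge (node 492 (merge (leaf 6 491 619) (node 460 (merge (leaf 5 427 428) (leaf 6 459 491))))) (merge (node 619 (merge (node 651 (merge (leaf 6 523 556) (node 650 (merge (leaf 5 522 618) (leaf 5 554 682))))) (merge (node 651 (merge (leaf 6 523 556) (node 652 (merge (leaf 4 523 620) (leaf 4 555 684))))) (merge (node 652 (merge (leaf 4 523 620) (node 651 (merge (leaf 4 555 684) (node 650 (merge (leaf 5 522 618) (leaf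 5 554 682))))))) (node 620 (merge (leaf 4 523 652) (node 588 (merge (leaf 6 492 556) (node 589 (merge (leaf 5 492 557) (node 618 (merge (leaf 1 586 590) (leaf 5 522 650))))))))))))) (node 491 (merge (node 490 (merge (leaf 7 458 458) (leaf 3 490 526))) (node 492 (merge (leaf 6 459 460) (node 588 (merge (leaf 4 491 620) (node 556 (merge (leaf 6 460 461) (node 586 (merge (leaf 5 490 618) (node 585 (merge (leaf 2 553 557) (leaf 2 552 584))))))))))))))))))))))) (merge (hyp 0) (merge (node 492 (merge (node 523 (merge (node 522 (merge (leaf 2 490 494) (leaf 2 489 521))) (node 526 (merge (leaf 3 492 527) (node 491 (merge (leaf 0 490 490) (node 555 (merge (leaf 1 522 554) (node 587 (merge (leaf 6 459 460) (leaf 6 491 619))))))))))) (merge (node 523 (merge (node 522 (merge (leaf 2 490 494) (leaf 2 489 521))) (node 526 (merge (leaf 3 492 527) (node 555 (merge (leaf 1 522 554) (node 587 (merge (leaf 6 491 619) (node 460 (merge (leaf 5 427 428) (leaf 5 459 556))))))))))) (merge (node 496 (merge (node 464 (merge (leaf 7 431 431) (node 433 (merge (leaf 6 432 465) (node 432 (merge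 (leaf 6 400 401) (node 559 (merge (leaf 5 431 527) (leaf 5 463 591))))))))) (node 460 (merge (node 557 (merge (leaf 4 428 428) (leaf 7 460 589))) (node 459 (merge (node 427 (merge (leaf 7 427 556) (node 395 (merge (leaf 4 363 363) (leaf 4 395 491))))) (node 458 (merge (leaf 0 457 457) (node 461 (merge (leaf 0 458 494) (node 429 (merge (leaf 5 396 397) (leaf 2 426 430))))))))))))) (merge (node 523 (merge (node 522 (merge (leaf 2 489 521) (node 490 (merge (leaf 3 489 489) (node 526 (merge (leaf 0 490 491) (leaf 3 492 527))))))) (merge (node 526 (merge (leaf 3 492 527) (node 555 (merge (leaf 1 522 554) (node 587 (merge (leaf 6 491 619) (node 460 (merge (leaf 5 427 428) (leaf 5 459 556))))))))) (node 555 (merge (node 587 (merge (leaf 6 491 619) (node 460 (merge (leaf 5 427 428) (leaf 6 459 491))))) (merge (node 587 (merge (leaf 6 491 619) (node 522 (merge (leaf 2 489 521) (node 490 (merge (leaf 3 489 489) (node 458 (merge (leaf 4 426 426) (leaf 4 458 554))))))))) (node 522 (merge (leaf 2 489 521) (node 490 (merge (leaf 3 489 489) (node 458 (merge (leaf 4 426 426) (node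 457 (merge (leaf 3 457 491) (node 460 (merge (leaf 5 427 428) (leaf 0 457 459))))))))))))))))) (merge (node 523 (merge (node 522 (merge (leaf 2 490 494) (leaf 2 489 521))) (node 555 (merge (node 587 (merge (leaf 6 491 619) (node 460 (merge (leaf 5 427 428) (leaf 6 459 491))))) (node 554 (merge (leaf 1 522 526) (node 553 (merge (leaf 2 520 552) (leaf 2 521 556))))))))) (node 523 (merge (node 522 (merge (leaf 2 490 494) (leaf 2 489 521))) (merge (node 526 (merge (leaf 3 492 527) (node 490 (merge (leaf 0 490 491) (node 554 (merge (leaf 1 522 555) (node 522 (merge (leaf 3 489 489) (leaf 1 521 553))))))))) (node 491 (merge (node 526 (merge (leaf 3 490 490) (node 527 (merge (leaf 0 524 559) (leaf 0 525 561))))) (merge (node 490 (merge (leaf 0 489 489) (node 458 (merge (leaf 3 457 457) (node 459 (merge (leaf 3 458 494) (node 426 (merge (leaf 4 394 394) (leaf 7 426 555))))))))) (node 459 (merge (node 458 (merge (leaf 3 458 494) (node 555 (merge (leaf 7 426 426) (node 526 (merge (leaf 3 491 527) (leaf 1 522 554))))))) (node 427 (merge (leaf 4 427 556) (node 396 (merge (leaf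 6 395 428) (node 395 (merge (leaf 6 363 364) (leaf 4 395 492))))))))))))))))))))) (merge (node 523 (merge (node 522 (merge (leaf 2 490 494) (node 521 (merge (leaf 2 489 492) (node 489 (merge (leaf 3 488 488) (leaf 3 489 490))))))) (merge (node 522 (merge (leaf 2 490 494) (node 553 (merge (leaf 1 521 554) (node 521 (merge (leaf 2 489 492) (leaf 1 520 552))))))) (merge (node 522 (merge (leaf 2 490 494) (node 554 (merge (leaf 1 521 553) (node 526 (merge (leaf 1 522 555) (node 490 (merge (leaf 3 489 489) (leaf 3 490 491))))))))) (node 555 (merge (node 526 (merge (leaf 1 522 554) (node 527 (merge (leaf 0 524 559) (leaf 0 525 561))))) (merge (node 491 (merge (node 490 (merge (leaf 3 490 526) (node 489 (merge (leaf 0 488 488) (leaf 0 489 492))))) (node 587 (merge (node 588 (merge (leaf 4 491 620) (node 556 (merge (leaf 4 459 459) (node 461 (merge (leaf 5 428 429) (leaf 5 460 557))))))) (merge (node 620 (merge (leaf 4 491 588) (node 619 (merge (leaf 4 523 652) (node 618 (merge (leaf 5 490 586) (leaf 5 522 650))))))) (merge (node 618 (merge (leaf 5 490 586) (node 619 (merge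 (leaf 5 522 650) (node 556 (merge (leaf 6 523 651) (node 459 (merge (leaf 4 427 427) (leaf 4 459 588))))))))) (node 618 (merge (leaf 5 490 586) (node 619 (merge (leaf 5 522 650) (node 651 (merge (leaf 6 523 556) (node 652 (merge (leaf 4 523 620) (leaf 4 555 684))))))))))))))) (node 496 (merge (node 464 (merge (leaf 7 431 431) (node 433 (merge (leaf 6 432 465) (node 432 (merge (leaf 6 400 401) (node 559 (merge (leaf 5 431 527) (leaf 5 463 591))))))))) (node 587 (merge (node 492 (merge (leaf 6 491 619) (node 460 (merge (leaf 5 427 428) (leaf 5 459 556))))) (merge (node 492 (merge (leaf 6 491 619) (node 460 (merge (leaf 5 427 428) (leaf 6 459 491))))) (merge (node 619 (merge (node 651 (merge (leaf 6 523 556) (node 650 (merge (leaf 5 522 618) (leaf 5 554 682))))) (merge (node 651 (merge (leaf 6 523 556) (node 652 (merge (leaf 4 523 620) (leaf 4 555 684))))) (node 620 (merge (leaf 4 523 652) (node 491 (merge (leaf 4 491 588) (node 618 (merge (leaf 5 490 586) (leaf 5 522 650)))))))))) (node 588 (merge (node 620 (merge (leaf 4 491 491) (node 652 (merge (leaf 7 523 556) (leaf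 7 555 684))))) (merge (node 491 (merge (leaf 4 491 620) (node 460 (merge (leaf 6 459 492) (node 459 (merge (leaf 6 427 428) (node 586 (merge (leaf 5 458 554) (leaf 5 490 618))))))))) (merge (node 556 (merge (node 620 (merge (leaf 6 492 493) (leaf 7 523 652))) (node 554 (merge (leaf 2 521 553) (node 589 (merge (leaf 3 554 590) (node 492 (merge (leaf 5 459 460) (leaf 4 492 621))))))))) (node 556 (merge (node 491 (merge (leaf 4 459 459) (node 586 (merge (leaf 5 490 618) (node 585 (merge (leaf 2 553 557) (leaf 2 552 584))))))) (node 554 (merge (leaf 2 521 553) (node 589 (merge (leaf 3 554 590) (node 492 (merge (leaf 5 459 460) (leaf 4 492 621)))))))))))))))))))))))))) (merge (hyp 1) (merge (node 492 (merge (node 460 (merge (node 557 (merge (leaf 4 428 428) (leaf 7 460 589))) (merge (node 428 (merge (leaf 4 396 396) (node 427 (merge (leaf 7 395 395) (node 556 (merge (leaf 7 427 459) (node 588 (merge (leaf 6 460 461) (leaf 6 492 620))))))))) (node 459 (merge (node 458 (merge (leaf 0 457 457) (node 461 (merge (leaf 0 458 494) (node 429 (merge (leaf 5 396 397) (leaf 2 426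 430))))))) (node 556 (merge (leaf 7 427 427) (node 588 (merge (leaf 6 492 620) (node 589 (merge (leaf 7 460 557) (leaf 4 492 621)))))))))))) (merge (node 460 (merge (node 428 (merge (leaf 4 396 396) (node 557 (merge (leaf 7 428 461) (leaf 4 428 524))))) (merge (node 428 (merge (leaf 4 396 396) (node 523 (merge (leaf 5 427 555) (node 522 (merge (leaf 2 490 494) (leaf 2 489 521))))))) (node 589 (merge (leaf 7 460 557) (node 587 (merge (node 526 (merge (leaf 3 492 527) (node 491 (merge (leaf 0 490 490) (node 523 (merge (leaf 6 459 555) (node 522 (merge (leaf 1 490 494) (leaf 2 489 521))))))))) (node 588 (merge (node 556 (merge (leaf 6 460 461) (leaf 5 491 619))) (merge (node 556 (merge (leaf 6 460 461) (leaf 6 492 620))) (node 590 (merge (node 619 (merge (leaf 1 586 618) (node 591 (merge (leaf 2 556 559) (leaf 1 587 620))))) (merge (node 623 (merge (leaf 0 587 622) (node 591 (merge (leaf 2 556 559) (leaf 0 588 624))))) (node 622 (merge (leaf 0 587 623) (node 586 (merge (leaf 0 586 621) (node 618 (merge (leaf 1 585 617) (leaf 1 586 619)))))))))))))))))))) (merge (node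 523 (merge (node 522 (merge (leaf 2 490 494) (leaf 2 489 521))) (merge (node 522 (merge (leaf 2 489 521) (node 490 (merge (leaf 3 489 489) (node 526 (merge (leaf 0 490 491) (leaf 3 492 527))))))) (node 491 (merge (node 526 (merge (leaf 3 490 490) (node 527 (merge (leaf 0 524 559) (leaf 0 525 561))))) (node 459 (merge (node 556 (merge (leaf 7 459 588) (node 427 (merge (leaf 4 395 395) (leaf 4 427 523))))) (merge (node 458 (merge (leaf 3 458 494) (node 426 (merge (leaf 7 426 555) (node 394 (merge (leaf 4 362 362) (leaf 7 394 427))))))) (node 588 (merge (leaf 7 459 556) (node 458 (merge (leaf 3 458 494) (node 555 (merge (leaf 7 426 426) (node 587 (merge (leaf 6 491 619) (leaf 4 491 620))))))))))))))))) (merge (node 523 (merge (node 522 (merge (leaf 2 490 494) (leaf 2 489 521))) (merge (node 522 (merge (leaf 2 489 521) (node 490 (merge (leaf 3 489 489) (node 526 (merge (leaf 0 490 491) (leaf 3 492 527))))))) (node 496 (merge (node 491 (merge (node 490 (merge (leaf 0 489 489) (leaf 0 490 526))) (node 459 (merge (node 458 (merge (leaf 3 458 494) (node 457 (merge (leaf 0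 456 456) (leaf 0 457 460))))) (merge (node 427 (merge (leaf 4 395 395) (node 428 (merge (leaf 6 395 396) (node 460 (merge (leaf 6 427 555) (leaf 4 428 557))))))) (node 458 (merge (leaf 3 458 494) (node 426 (merge (leaf 7 426 555) (node 427 (merge (leaf 7 394 394) (leaf 4 395 395)))))))))))) (node 464 (merge (leaf 7 431 431) (node 433 (merge (leaf 6 432 465) (node 432 (merge (leaf 6 400 401) (node 559 (merge (leaf 5 431 527) (leaf 5 463 591)))))))))))))) (node 461 (merge (node 556 (merge (leaf 5 428 429) (node 588 (merge (leaf 6 460 492) (leaf 6 492 620))))) (merge (node 429 (merge (leaf 5 396 397) (node 430 (merge (leaf 6 397 398) (node 428 (merge (leaf 7 396 396) (node 431 (merge (leaf 0 428 464) (node 460 (merge (leaf 1 428 432) (leaf 7 428 557))))))))))) (node 460 (merge (node 557 (merge (leaf 7 428 428) (leaf 7 460 589))) (node 556 (merge (leaf 6 460 588) (node 459 (merge (leaf 7 427 427) (node 458 (merge (leaf 0 457 457) (node 490 (merge (leaf 1 457 489) (node 491 (merge (leaf 0 490 526) (node 426 (merge (leaf 3 425 425) (node 394 (merge (leaf 4 362 362) (leaf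 4 394 523))))))))))))))))))))))))) (node 523 (merge (node 522 (merge (leaf 2 490 494) (node 553 (merge (leaf 1 521 554) (node 521 (merge (leaf 1 520 552) (node 489 (merge (leaf 3 488 488) (leaf 3 489 490))))))))) (merge (node 522 (merge (leaf 2 490 494) (node 490 (merge (leaf 3 489 489) (node 526 (merge (leaf 3 490 491) (node 527 (merge (leaf 0 524 559) (leaf 0 525 561))))))))) (merge (node 522 (merge (leaf 2 490 494) (node 554 (merge (leaf 1 521 553) (node 526 (merge (leaf 1 522 555) (node 527 (merge (leaf 0 524 559) (leaf 0 525 561))))))))) (merge (node 554 (merge (node 526 (merge (leaf 1 522 555) (node 527 (merge (leaf 0 524 559) (leaf 0 525 561))))) (merge (node 553 (merge (leaf 1 521 522) (node 555 (merge (leaf 2 520 552) (leaf 2 521 556))))) (node 522 (merge (leaf 1 521 553) (node 490 (merge (leaf 3 489 489) (node 526 (merge (leaf 3 490 491) (node 527 (merge (leaf 0 524 559) (leaf 0 525 561)))))))))))) (node 461 (merge (node 556 (merge (leaf 5 428 429) (node 588 (merge (leaf 5 460 557) (leaf 6 492 620))))) (merge (node 429 (merge (leaf 5 428 556) (node 398 (merge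 (leaf 6 397 430) (node 397 (merge (leaf 6 365 366) (node 396 (merge (leaf 7 364 364) (leaf 7 396 428))))))))) (merge (node 429 (merge (node 396 (merge (leaf 7 396 428) (node 397 (merge (leaf 7 364 364) (node 526 (merge (leaf 4 397 494) (node 527 (merge (leaf 0 524 559) (leaf 0 525 561))))))))) (merge (node 398 (merge (leaf 6 397 430) (node 397 (merge (leaf 6 365 366) (node 526 (merge (leaf 4 397 494) (node 527 (merge (leaf 0 524 559) (leaf 0 525 561))))))))) (node 430 (merge (leaf 6 397 398) (node 428 (merge (leaf 7 396 396) (node 431 (merge (leaf 0 428 464) (node 460 (merge (leaf 1 427 459) (leaf 7 428 557)))))))))))) (node 555 (merge (node 526 (merge (leaf 1 522 554) (node 527 (merge (leaf 0 524 559) (leaf 0 525 561))))) (merge (node 556 (merge (node 588 (merge (leaf 5 460 557) (leaf 6 492 620))) (node 526 (merge (leaf 1 523 527) (node 491 (merge (leaf 3 490 490) (node 459 (merge (leaf 4 427 427) (node 460 (merge (leaf 6 427 428) (node 458 (merge (leaf 7 426 426) (leaf 0 458 494))))))))))))) (node 587 (merge (node 619 (merge (node 651 (merge (leaf 6 523 556) (node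 650 (merge (leaf 5 522 618) (leaf 5 554 682))))) (merge (node 651 (merge (leaf 6 523 556) (node 652 (merge (leaf 4 523 620) (leaf 4 555 684))))) (merge (node 652 (merge (leaf 4 523 620) (node 651 (merge (leaf 4 555 684) (node 650 (merge (leaf 5 522 618) (leaf 5 554 682))))))) (node 620 (merge (leaf 4 523 652) (node 588 (merge (leaf 6 492 556) (node 589 (merge (leaf 5 492 557) (node 618 (merge (leaf 1 586 590) (leaf 5 522 650))))))))))))) (merge (node 588 (merge (node 556 (merge (leaf 5 460 557) (leaf 6 492 620))) (merge (node 491 (merge (leaf 4 491 620) (node 458 (merge (leaf 7 458 490) (node 459 (merge (leaf 7 426 426) (node 586 (merge (leaf 5 458 554) (leaf 5 490 618))))))))) (node 556 (merge (leaf 5 460 557) (node 553 (merge (leaf 2 521 554) (node 491 (merge (leaf 4 459 459) (node 586 (merge (leaf 5 490 618) (node 585 (merge (leaf 3 552 552) (leaf 2 552 584)))))))))))))) (merge (node 620 (merge (node 588 (merge (leaf 4 491 491) (node 652 (merge (leaf 4 523 619) (leaf 7 555 684))))) (merge (node 491 (merge (leaf 4 491 588) (node 458 (merge (leaf 7 458 490) (node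 459 (merge (leaf 7 426 426) (node 586 (merge (leaf 5 458 554) (leaf 5 490 618))))))))) (merge (node 619 (merge (leaf 4 523 652) (node 618 (merge (leaf 5 522 650) (node 586 (merge (leaf 5 490 491) (node 585 (merge (leaf 0 584 584) (leaf 3 585 621))))))))) (node 652 (merge (leaf 4 523 619) (node 588 (merge (leaf 7 555 684) (node 589 (merge (leaf 5 492 557) (node 554 (merge (leaf 3 554 590) (node 553 (merge (leaf 0 552 552) (leaf 3 553 586))))))))))))))) (merge (node 619 (merge (node 618 (merge (leaf 5 522 650) (node 491 (merge (leaf 5 490 586) (node 458 (merge (leaf 7 458 490) (node 459 (merge (leaf 7 426 426) (node 460 (merge (leaf 6 427 428) (leaf 0 458 494))))))))))) (merge (node 651 (merge (leaf 6 523 556) (node 684 (merge (leaf 4 555 652) (node 683 (merge (leaf 4 587 716) (node 682 (merge (leaf 5 554 650) (leaf 5 586 714))))))))) (node 651 (merge (leaf 6 523 556) (node 684 (merge (leaf 4 555 652) (node 683 (merge (leaf 4 587 716) (node 586 (merge (leaf 7 554 554) (node 618 (merge (leaf 5 490 491) (leaf 7 586 715)))))))))))))) (node 619 (merge (node 556 (merge (leaf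 6 523 651) (node 588 (merge (leaf 5 460 557) (leaf 6 492 620))))) (merge (node 620 (merge (leaf 4 523 652) (node 588 (merge (leaf 4 491 491) (node 589 (merge (leaf 5 492 557) (node 590 (merge (leaf 3 554 554) (leaf 1 587 591))))))))) (node 651 (merge (leaf 6 523 556) (node 684 (merge (leaf 4 555 652) (node 683 (merge (leaf 4 587 716) (node 682 (merge (leaf 5 554 650) (leaf 5 586 714)))))))))))))))))))))))))))))))))))))))))) nP_355 cP_355 14 (by decide +kernel)
def nP_356 : ℕ := 0x108000000380000002000000000000000000000000000000000000000000000000000000000000000000000000000000000000000000000000000000000000000000000000000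
def cP_356 : ℕ := 0x140000001c000001fc000000fc000000f4000000000000001000000010000000100000000000000000000000000000000000000000000000000000000000000000000000000000000000000000000000000000000000
theorem lP_356 : S nP_356 cP_356 8 := S_of_chk [] trivial (node 587 (merge (node 492 (merge (leaf 6 491 619) (node 460 (merge (leaf 5 427 428) (leaf 5 459 556))))) (merge (node 619 (merge (leaf 6 491 492) (node 652 (merge (leaf 4 523 620) (node 651 (merge (leaf 4 555 684) (node 650 (merge (leaf 5 522 618) (leaf 5 554 682))))))))) (merge (node 619 (merge (node 651 (merge (leaf 6 523 556) (node 652 (merge (leaf 4 523 620) (leaf 4 555 684))))) (merge (node 651 (merge (leaf 6 523 556) (node 650 (merge (leaf 5 522 618) (leaf 5 554 682))))) (merge (node 652 (merge (leaf 4 523 620) (node 651 (merge (leaf 4 555 684) (node 650 (merge (leaf 5 522 618) (leaf 5 554 682))))))) (node 620 (merge (leaf 4 523 652) (node 588 (merge (leaf 6 492 556) (node 589 (merge (leaf 5 492 557) (node 618 (merge (leaf 1 586 590) (leaf 5 522 650))))))))))))) (node 589 (merge (node 588 (merge (node 590 (merge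 (leaf 3 554 554) (node 557 (merge (leaf 5 492 620) (leaf 4 493 622))))) (merge (node 590 (merge (leaf 3 554 554) (node 559 (merge (leaf 2 555 558) (leaf 2 556 591))))) (node 557 (merge (leaf 5 492 620) (node 558 (merge (leaf 1 556 559) (leaf 2 554 586)))))))) (merge (node 492 (merge (node 557 (merge (leaf 7 460 460) (leaf 7 492 621))) (merge (node 460 (merge (leaf 5 427 428) (leaf 5 459 556))) (node 621 (merge (leaf 7 492 557) (node 588 (merge (leaf 4 492 556) (node 622 (merge (leaf 0 586 586) (node 623 (merge (leaf 3 587 620) (leaf 3 588 624)))))))))))) (merge (node 588 (merge (node 556 (merge (leaf 6 492 620) (node 492 (merge (leaf 5 459 460) (leaf 4 492 621))))) (node 590 (merge (leaf 3 554 554) (node 559 (merge (leaf 2 555 558) (leaf 2 556 591))))))) (node 492 (merge (node 557 (merge (leaf 7 460 460) (leaf 7 492 621))) (merge (node 460 (merge (leaf 5 427 428) (leaf 5 459 556))) (node 557 (merge (leaf 7 492 621) (node 558 (merge (leaf 3 524 559) (node 556 (merge (leaf 1 554 586) (node 590 (merge (leaf 0 554 554) (leaf 4 493 622)))))))))))))))))))) nP_356 cP_356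 8 (by decide +kernel)
def nP_357 : ℕ := 0x100000001300000002000000080000000800000000000000000000000000000000000000000000000000000000000000000000000000000000000000000000000000000000000
def cP_357 : ℕ := 0x7c000000fe000000fe0000008f0000015e0000031f0000037c0000023c00000000000000000000000000000000000000000000000000000000000000000000000000000000000000000000000000
theorem lP_357 : S nP_357 cP_357 13 := S_of_chk [] trivial (node 492 (merge (node 491 (merge (node 459 (merge (node 427 (merge (leaf 4 395 395) (node 556 (merge (leaf 7 427 460) (leaf 4 427 523))))) (merge (node 458 (merge (leaf 3 458 494) (node 457 (merge (leaf 0 456 456) (leaf 0 457 460))))) (node 494 (merge (leaf 3 458 458) (node 523 (merge (leaf 1 490 522) (node 427 (merge (leaf 4 395 395) (leaf 4 427 556)))))))))) (merge (node 490 (merge (leaf 0 489 489) (node 458 (merge (leaf 3 457 457) (node 459 (merge (leaf 3 458 494) (node 427 (merge (leaf 4 395 395) (node 556 (merge (leaf 7 427 460) (leaf 4 427 523))))))))))) (merge (node 490 (merge (leaf 0 489 489) (node 522 (merge (leaf 1 489 521) (node 523 (merge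 (leaf 1 490 494) (node 554 (merge (leaf 1 521 553) (node 459 (merge (leaf 5 426 427) (leaf 6 458 586))))))))))) (merge (node 490 (merge (leaf 0 489 489) (node 522 (merge (leaf 1 489 521) (node 458 (merge (leaf 3 457 457) (node 459 (merge (leaf 3 458 494) (node 554 (merge (leaf 6 426 427) (leaf 6 458 586))))))))))) (merge (node 490 (merge (leaf 0 489 489) (node 522 (merge (leaf 1 489 521) (node 523 (merge (leaf 1 490 494) (node 458 (merge (leaf 3 457 457) (node 426 (merge (leaf 4 394 394) (leaf 4 426 555))))))))))) (node 523 (merge (node 522 (merge (leaf 2 489 521) (node 557 (merge (leaf 0 522 558) (node 589 (merge (leaf 7 460 460) (leaf 7 492 621))))))) (node 490 (merge (leaf 0 489 489) (node 458 (merge (leaf 3 457 457) (node 426 (merge (leaf 4 394 394) (node 459 (merge (leaf 7 426 555) (node 427 (merge (leaf 4 395 395) (leaf 4 427 556))))))))))))))))))) (merge (node 491 (merge (node 490 (merge (leaf 0 489 489) (node 522 (merge (leaf 1 489 521) (node 494 (merge (leaf 1 490 523) (node 458 (merge (leaf 3 457 457) (leaf 3 458 459))))))))) (merge (node 459 (merge (node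 458 (merge (leaf 3 458 494) (node 457 (merge (leaf 0 456 456) (leaf 0 457 460))))) (node 556 (merge (leaf 7 459 588) (node 427 (merge (leaf 4 395 395) (leaf 4 427 523))))))) (merge (node 490 (merge (leaf 0 489 489) (node 458 (merge (leaf 3 457 457) (node 459 (merge (leaf 3 458 494) (node 556 (merge (leaf 7 459 588) (node 427 (merge (leaf 4 395 395) (leaf 7 427 460))))))))))) (merge (node 490 (merge (leaf 0 489 489) (node 522 (merge (leaf 1 489 521) (node 523 (merge (leaf 1 490 494) (node 557 (merge (leaf 0 522 558) (node 589 (merge (leaf 7 460 460) (leaf 7 492 621))))))))))) (node 523 (merge (node 522 (merge (leaf 2 489 521) (node 557 (merge (leaf 0 522 558) (node 589 (merge (leaf 7 460 460) (leaf 7 492 621))))))) (node 490 (merge (leaf 0 489 489) (node 458 (merge (leaf 3 457 457) (node 426 (merge (leaf 4 394 394) (node 459 (merge (leaf 7 426 555) (node 427 (merge (leaf 4 395 395) (leaf 4 427 556)))))))))))))))))) (merge (node 491 (merge (node 459 (merge (node 458 (merge (leaf 3 458 494) (node 457 (merge (leaf 0 456 456) (leaf 0 457 460))))) (node 556 (merge (leaf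 7 459 588) (node 427 (merge (leaf 4 395 395) (leaf 4 427 523))))))) (merge (node 490 (merge (leaf 0 489 489) (node 458 (merge (leaf 3 457 457) (node 459 (merge (leaf 3 458 494) (node 556 (merge (leaf 7 459 588) (node 427 (merge (leaf 4 395 395) (leaf 7 427 460))))))))))) (merge (node 490 (merge (leaf 0 489 489) (node 522 (merge (leaf 1 489 521) (node 523 (merge (leaf 1 490 494) (node 554 (merge (leaf 1 521 553) (node 459 (merge (leaf 5 426 427) (leaf 6 458 586))))))))))) (merge (node 459 (merge (node 556 (merge (leaf 7 459 588) (node 427 (merge (leaf 4 395 395) (leaf 7 427 460))))) (node 490 (merge (leaf 0 489 489) (node 522 (merge (leaf 1 489 521) (node 554 (merge (leaf 6 458 586) (node 553 (merge (leaf 1 521 523) (node 458 (merge (leaf 3 457 457) (leaf 5 457 585))))))))))))) (node 490 (merge (leaf 0 489 489) (node 522 (merge (leaf 1 489 521) (node 523 (merge (leaf 1 490 494) (node 557 (merge (leaf 0 522 558) (node 589 (merge (leaf 7 460 460) (leaf 7 492 621)))))))))))))))) (merge (node 464 (merge (leaf 7 431 496) (node 556 (merge (node 588 (merge (leaf 6 492 620)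 (node 459 (merge (leaf 7 459 491) (node 460 (merge (leaf 7 427 427) (node 428 (merge (leaf 4 396 396) (node 429 (merge (leaf 6 396 397) (leaf 0 428 430))))))))))) (merge (node 557 (merge (node 589 (merge (leaf 4 460 460) (leaf 7 492 621))) (merge (node 589 (merge (leaf 7 492 621) (node 558 (merge (leaf 3 524 559) (node 590 (merge (leaf 4 493 622) (node 555 (merge (leaf 0 554 554) (leaf 0 555 591))))))))) (node 460 (merge (leaf 4 428 428) (node 459 (merge (leaf 7 427 427) (node 458 (merge (leaf 0 457 457) (node 491 (merge (leaf 3 458 494) (node 555 (merge (leaf 5 459 587) (node 554 (merge (leaf 2 521 553) (node 586 (merge (leaf 5 458 523) (leaf 1 553 585)))))))))))))))))) (node 557 (merge (node 589 (merge (leaf 7 492 621) (node 558 (merge (leaf 3 524 559) (node 590 (merge (leaf 4 493 622) (node 555 (merge (leaf 0 554 554) (leaf 0 555 591))))))))) (merge (node 588 (merge (leaf 6 492 620) (node 589 (merge (leaf 7 492 621) (node 587 (merge (leaf 5 491 619) (node 586 (merge (leaf 2 554 558) (leaf 2 553 585))))))))) (merge (node 588 (merge (leaf 6 492 620) (node 558 (merge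 (leaf 3 524 559) (node 587 (merge (leaf 5 491 619) (node 586 (merge (leaf 1 554 555) (leaf 2 553 585))))))))) (node 588 (merge (leaf 6 492 620) (node 589 (merge (leaf 7 492 621) (node 590 (merge (leaf 4 493 622) (node 591 (merge (leaf 3 555 555) (leaf 2 556 559)))))))))))))))))) (merge (node 556 (merge (node 588 (merge (leaf 6 492 620) (node 464 (merge (leaf 7 431 496) (node 587 (merge (leaf 5 491 619) (node 460 (merge (leaf 5 459 555) (node 428 (merge (leaf 4 396 396) (node 429 (merge (leaf 6 396 397) (leaf 0 428 430))))))))))))) (merge (node 588 (merge (leaf 6 492 620) (node 589 (merge (leaf 4 492 621) (node 460 (merge (leaf 7 460 557) (node 428 (merge (leaf 4 396 396) (node 555 (merge (leaf 5 427 523) (leaf 5 459 587))))))))))) (merge (node 588 (merge (leaf 6 492 620) (node 589 (merge (leaf 4 492 621) (node 557 (merge (leaf 7 460 460) (node 559 (merge (leaf 1 556 558) (node 590 (merge (leaf 2 556 591) (leaf 4 493 622))))))))))) (merge (node 460 (merge (node 557 (merge (leaf 4 428 428) (leaf 7 460 589))) (merge (node 464 (merge (leaf 7 431 496) (node 428 (merge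 (leaf 4 396 396) (node 429 (merge (leaf 6 396 397) (leaf 0 428 430))))))) (node 557 (merge (leaf 7 460 589) (node 558 (merge (leaf 3 524 559) (node 522 (merge (leaf 0 522 523) (node 555 (merge (leaf 5 459 587) (node 554 (merge (leaf 3 521 521) (leaf 2 521 553)))))))))))))) (node 557 (merge (node 588 (merge (leaf 6 492 620) (node 558 (merge (leaf 3 524 559) (node 587 (merge (leaf 5 491 619) (node 586 (merge (leaf 1 554 555) (leaf 2 553 585))))))))) (merge (node 589 (merge (leaf 7 492 621) (node 558 (merge (leaf 3 524 559) (node 590 (merge (leaf 4 493 622) (node 555 (merge (leaf 0 554 554) (leaf 0 555 591))))))))) (merge (node 588 (merge (leaf 6 492 620) (node 589 (merge (leaf 7 492 621) (node 590 (merge (leaf 4 493 622) (node 591 (merge (leaf 3 555 555) (leaf 2 556 559))))))))) (merge (node 589 (merge (leaf 7 492 621) (node 559 (merge (leaf 3 524 558) (node 590 (merge (leaf 4 493 622) (node 588 (merge (leaf 2 556 591) (leaf 5 492 620))))))))) (node 588 (merge (leaf 6 492 620) (node 587 (merge (leaf 5 491 619) (node 586 (merge (leaf 2 553 585) (node 558 (merge (leaf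 1 554 555) (leaf 2 554 589))))))))))))))))))) (merge (node 464 (merge (leaf 7 431 496) (node 556 (merge (node 588 (merge (leaf 6 492 620) (node 459 (merge (leaf 7 459 491) (node 460 (merge (leaf 7 427 427) (node 428 (merge (leaf 4 396 396) (node 429 (merge (leaf 6 396 397) (leaf 0 428 430))))))))))) (merge (node 557 (merge (node 589 (merge (leaf 4 460 460) (leaf 7 492 621))) (merge (node 589 (merge (leaf 7 492 621) (node 558 (merge (leaf 3 524 559) (node 590 (merge (leaf 4 493 622) (node 555 (merge (leaf 0 554 554) (leaf 0 555 591))))))))) (node 460 (merge (leaf 4 428 428) (node 459 (merge (leaf 7 427 427) (node 458 (merge (leaf 0 457 457) (node 491 (merge (leaf 3 458 494) (node 555 (merge (leaf 5 459 587) (node 554 (merge (leaf 2 521 553) (node 586 (merge (leaf 1 553 585) (node 522 (merge (leaf 6 458 490) (leaf 3 521 521)))))))))))))))))))) (node 557 (merge (node 589 (merge (leaf 7 492 621) (node 558 (merge (leaf 3 524 559) (node 590 (merge (leaf 4 493 622) (node 555 (merge (leaf 0 554 554) (leaf 0 555 591))))))))) (merge (node 588 (merge (leaf 6 492 620) (node 589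 (merge (leaf 7 492 621) (node 587 (merge (leaf 5 491 619) (node 586 (merge (leaf 2 554 558) (leaf 2 553 585))))))))) (merge (node 588 (merge (leaf 6 492 620) (node 558 (merge (leaf 3 524 559) (node 587 (merge (leaf 5 491 619) (node 586 (merge (leaf 1 554 555) (leaf 2 553 585))))))))) (node 588 (merge (leaf 6 492 620) (node 589 (merge (leaf 7 492 621) (node 590 (merge (leaf 4 493 622) (node 591 (merge (leaf 3 555 555) (leaf 2 556 559)))))))))))))))))) (merge (node 464 (merge (leaf 7 431 496) (node 491 (merge (node 557 (merge (node 460 (merge (leaf 4 428 428) (leaf 7 460 589))) (node 490 (merge (leaf 0 489 489) (node 522 (merge (leaf 1 489 521) (node 558 (merge (leaf 0 522 523) (leaf 3 524 559))))))))) (merge (node 490 (merge (leaf 0 489 489) (node 522 (merge (leaf 1 489 521) (node 458 (merge (leaf 3 457 457) (node 459 (merge (leaf 3 458 494) (node 427 (merge (leaf 4 395 395) (leaf 6 426 554))))))))))) (merge (node 557 (merge (node 589 (merge (leaf 7 492 621) (node 559 (merge (leaf 3 524 558) (node 590 (merge (leaf 4 493 622) (node 588 (merge (leaf 2 556 591) (leaf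 5 492 620))))))))) (node 490 (merge (leaf 0 489 489) (node 458 (merge (leaf 3 457 457) (node 459 (merge (leaf 3 458 494) (node 427 (merge (leaf 4 395 395) (node 428 (merge (leaf 4 428 460) (node 523 (merge (leaf 6 395 396) (node 426 (merge (leaf 7 394 394) (leaf 7 426 555))))))))))))))))) (node 523 (merge (node 522 (merge (leaf 1 490 494) (node 521 (merge (leaf 2 488 520) (leaf 2 489 524))))) (merge (node 557 (merge (node 460 (merge (leaf 4 428 428) (leaf 7 460 589))) (node 558 (merge (leaf 0 522 522) (leaf 3 524 559))))) (node 459 (merge (node 458 (merge (leaf 3 458 494) (node 457 (merge (leaf 0 456 456) (leaf 0 457 460))))) (merge (node 427 (merge (leaf 4 395 395) (node 428 (merge (leaf 6 395 396) (node 460 (merge (leaf 6 427 555) (leaf 4 428 557))))))) (node 458 (merge (leaf 3 458 494) (node 426 (merge (leaf 7 426 555) (node 427 (merge (leaf 7 394 394) (leaf 4 395 395))))))))))))))))))) (node 496 (merge (node 464 (merge (leaf 7 431 431) (node 433 (merge (leaf 6 432 465) (node 432 (merge (leaf 6 400 401) (node 559 (merge (leaf 5 431 527) (leaf 5 463 591)))))))))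 (node 491 (merge (node 490 (merge (leaf 0 489 489) (node 458 (merge (leaf 3 457 457) (node 459 (merge (leaf 3 458 494) (node 556 (merge (leaf 7 459 588) (node 427 (merge (leaf 4 395 395) (leaf 4 427 523))))))))))) (merge (node 490 (merge (leaf 0 489 489) (node 522 (merge (leaf 1 489 521) (node 523 (merge (leaf 1 490 494) (node 554 (merge (leaf 1 521 553) (node 459 (merge (leaf 5 426 427) (leaf 6 458 586))))))))))) (merge (node 490 (merge (leaf 0 489 489) (node 522 (merge (leaf 1 489 521) (node 458 (merge (leaf 3 457 457) (node 459 (merge (leaf 3 458 494) (node 554 (merge (leaf 6 426 427) (leaf 6 458 586))))))))))) (merge (node 459 (merge (node 556 (merge (leaf 7 459 588) (node 427 (merge (leaf 4 395 395) (leaf 4 427 523))))) (merge (node 490 (merge (leaf 0 489 489) (node 522 (merge (leaf 1 489 521) (node 554 (merge (leaf 6 458 586) (node 427 (merge (leaf 4 395 395) (leaf 6 426 458))))))))) (node 490 (merge (leaf 0 489 489) (node 522 (merge (leaf 1 489 521) (node 554 (merge (leaf 6 458 586) (node 556 (merge (leaf 7 459 588) (node 553 (merge (leaf 1 521 523) (leaf 2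 521 555)))))))))))))) (merge (node 523 (merge (node 522 (merge (leaf 1 490 494) (leaf 2 489 521))) (merge (node 522 (merge (leaf 2 489 521) (node 554 (merge (leaf 1 521 553) (node 586 (merge (leaf 6 490 618) (node 459 (merge (leaf 5 426 427) (leaf 5 458 555))))))))) (node 459 (merge (node 556 (merge (leaf 4 427 427) (leaf 7 459 588))) (merge (node 458 (merge (leaf 3 458 494) (node 426 (merge (leaf 7 426 555) (node 427 (merge (leaf 7 394 394) (leaf 4 395 395))))))) (node 556 (merge (leaf 7 459 588) (node 458 (merge (leaf 3 458 494) (node 555 (merge (leaf 7 426 426) (node 554 (merge (leaf 2 521 553) (leaf 5 458 586))))))))))))))) (node 490 (merge (leaf 0 489 489) (node 522 (merge (leaf 1 489 521) (node 523 (merge (leaf 1 490 494) (node 458 (merge (leaf 3 457 457) (node 426 (merge (leaf 4 394 394) (leaf 4 426 555))))))))))))))))))))))))))) nP_357 cP_357 13 (by decide +kernel)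
def nP_358 : ℕ := 0x100000001200000002000000080000000800000000000000000000000000000000000000000000000000000000000000000000000000000000000000000000000000000000000
def cP_358 : ℕ := 0x1c0000003c000000fc000001ffc0001cff80000effc0001cdf0000035f0000031f0000037e0000023c0000001c000000080000000000000000000000000000000000000000000000000000000000000000000000000000000000
theorem lP_358 : S nP_358 cP_358 15 := S_of_chk [(nP_356, cP_356, 8), (nP_268, cP_268, 11), (nP_357, cP_357, 13)] ⟨lP_356, lP_268, lP_357, trivial⟩ (node 524 (merge (node 523 (merge (node 522 (merge (leaf 2 490 494) (node 521 (merge (leaf 2 489 492) (node 489 (merge (leaf 3 488 488) (leaf 3 489 490))))))) (merge (node 522 (merge (leaf 2 490 494) (node 554 (merge (leaf 1 521 553) (node 526 (merge (leaf 1 522 555) (node 527 (merge (leaf 0 524 559) (leaf 0 525 561))))))))) (node 491 (merge (node 526 (merge (leaf 3 490 490) (node 527 (merge (leaf 0 524 559) (leaf 0 525 561))))) (merge (node 555 (merge (node 526 (merge (leaf 1 522 554) (node 527 (merge (leaf 0 524 559) (leaf 0 525 561))))) (node 588 (merge (node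 587 (merge (leaf 4 491 620) (node 492 (merge (leaf 6 459 460) (leaf 6 491 619))))) (merge (node 556 (merge (leaf 6 492 620) (node 459 (merge (leaf 4 427 427) (leaf 4 459 555))))) (node 459 (merge (leaf 4 459 556) (node 460 (merge (leaf 6 427 428) (node 492 (merge (leaf 6 459 587) (node 458 (merge (leaf 7 426 426) (leaf 0 457 457)))))))))))))) (node 459 (merge (node 556 (merge (leaf 4 427 427) (node 588 (merge (leaf 4 459 555) (leaf 6 492 620))))) (merge (node 427 (merge (leaf 4 427 556) (node 396 (merge (leaf 6 395 428) (node 395 (merge (leaf 6 363 364) (leaf 4 395 492))))))) (merge (node 427 (merge (node 396 (merge (leaf 6 395 428) (node 395 (merge (leaf 6 363 364) (leaf 4 395 492))))) (merge (node 394 (merge (leaf 7 394 426) (node 395 (merge (leaf 7 362 362) (leaf 4 395 492))))) (node 428 (merge (leaf 6 395 396) (node 555 (merge (leaf 6 427 460) (node 426 (merge (leaf 7 394 394) (leaf 7 426 458)))))))))) (node 555 (merge (node 556 (merge (leaf 4 459 588) (node 554 (merge (leaf 2 521 553) (leaf 5 458 586))))) (node 460 (merge (leaf 6 427 428) (node 587 (merge (leaf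 6 459 492) (node 458 (merge (leaf 7 426 426) (leaf 7 458 490))))))))))))))))))) (merge (node 464 (merge (leaf 7 431 496) (node 526 (merge (node 527 (merge (leaf 0 524 559) (leaf 0 525 561))) (merge (node 527 (merge (leaf 3 492 492) (leaf 0 525 561))) (node 557 (merge (node 555 (merge (node 554 (merge (leaf 1 522 523) (leaf 2 522 556))) (merge (node 523 (merge (leaf 1 522 554) (node 558 (merge (leaf 0 522 522) (leaf 0 523 559))))) (merge (node 556 (merge (leaf 2 522 554) (node 558 (merge (leaf 3 524 559) (node 590 (merge (leaf 0 555 591) (leaf 7 493 622))))))) (node 558 (merge (leaf 3 524 559) (node 523 (merge (leaf 0 522 522) (node 590 (merge (leaf 7 493 622) (node 556 (merge (leaf 0 555 591) (node 587 (merge (leaf 1 554 586) (node 619 (merge (leaf 6 491 492) (leaf 6 523 651))))))))))))))))) (merge (node 589 (merge (node 621 (merge (leaf 6 493 494) (node 620 (merge (leaf 5 492 588) (leaf 5 524 652))))) (merge (node 621 (merge (leaf 6 493 494) (node 622 (merge (leaf 4 493 590) (leaf 4 525 654))))) (node 559 (merge (leaf 3 524 558) (node 590 (merge (leaf 4 493 622)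 (node 588 (merge (leaf 2 556 591) (leaf 5 492 620)))))))))) (node 492 (merge (node 589 (merge (leaf 7 460 460) (leaf 7 492 621))) (node 491 (merge (leaf 0 490 490) (node 523 (merge (node 522 (merge (leaf 1 490 494) (leaf 2 489 521))) (merge (node 554 (merge (leaf 1 522 555) (node 522 (merge (leaf 2 489 521) (leaf 1 521 553))))) (node 555 (merge (leaf 1 522 554) (node 587 (merge (leaf 6 491 619) (node 588 (merge (leaf 4 491 620) (node 459 (merge (leaf 7 459 556) (node 458 (merge (leaf 7 426 426) (leaf 3 458 494)))))))))))))))))))))))))) (merge (node 523 (merge (node 522 (merge (leaf 2 490 494) (node 521 (merge (leaf 2 489 492) (node 489 (merge (leaf 3 488 488) (leaf 3 489 490))))))) (merge (node 522 (merge (leaf 2 490 494) (node 553 (merge (leaf 1 521 554) (node 521 (merge (leaf 2 489 492) (leaf 1 520 552))))))) (merge (node 522 (merge (leaf 2 490 494) (node 554 (merge (leaf 1 521 553) (node 526 (merge (leaf 1 522 555) (node 490 (merge (leaf 3 489 489) (leaf 3 490 491))))))))) (node 464 (merge (leaf 7 431 496) (node 555 (merge (node 554 (merge (leaf 1 522 526) (node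 553 (merge (leaf 2 520 552) (leaf 2 521 556))))) (merge (node 491 (merge (node 490 (merge (leaf 3 490 526) (node 489 (merge (leaf 0 488 488) (leaf 0 489 492))))) (merge (node 490 (merge (node 489 (merge (leaf 0 488 488) (leaf 0 489 492))) (node 458 (merge (leaf 7 458 587) (node 426 (merge (leaf 4 394 394) (leaf 7 426 459))))))) (node 554 (merge (leaf 1 522 526) (node 586 (merge (leaf 5 458 459) (node 618 (merge (leaf 5 490 587) (leaf 6 522 650)))))))))) (merge (node 491 (merge (node 490 (merge (leaf 3 490 526) (node 489 (merge (leaf 0 488 488) (leaf 0 489 492))))) (node 587 (merge (node 620 (merge (leaf 4 491 588) (node 619 (merge (leaf 4 523 652) (node 618 (merge (leaf 5 490 586) (leaf 5 522 650))))))) (merge (node 588 (merge (leaf 4 491 620) (node 459 (merge (leaf 4 459 556) (node 428 (merge (leaf 6 427 460) (node 427 (merge (leaf 6 395 396) (node 426 (merge (leaf 7 394 394) (leaf 7 426 458))))))))))) (merge (node 618 (merge (leaf 5 490 586) (node 619 (merge (leaf 5 522 650) (node 556 (merge (leaf 6 523 651) (node 459 (merge (leaf 4 427 427) (leaf 4 459 588)))))))))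 (node 618 (merge (leaf 5 490 586) (node 619 (merge (leaf 5 522 650) (node 651 (merge (leaf 6 523 556) (node 652 (merge (leaf 4 523 620) (leaf 4 555 684))))))))))))))) (node 587 (merge (node 492 (merge (leaf 6 491 619) (node 460 (merge (leaf 5 427 428) (leaf 6 459 491))))) (merge (node 619 (merge (leaf 6 491 492) (node 556 (merge (leaf 6 523 651) (node 620 (merge (leaf 6 492 588) (leaf 4 523 652))))))) (merge (node 491 (merge (node 492 (merge (leaf 6 459 460) (node 490 (merge (leaf 7 458 458) (leaf 0 489 489))))) (merge (node 588 (merge (leaf 4 491 620) (node 459 (merge (leaf 4 459 556) (node 586 (merge (leaf 5 458 554) (leaf 5 490 618))))))) (node 588 (merge (leaf 4 491 620) (node 459 (merge (leaf 4 459 556) (node 586 (merge (leaf 5 458 554) (leaf 5 490 618)))))))))) (node 556 (merge (node 620 (merge (leaf 6 492 588) (node 619 (merge (leaf 6 523 651) (leaf 4 523 652))))) (merge (node 588 (merge (leaf 6 492 620) (node 491 (merge (leaf 4 459 459) (node 586 (merge (leaf 5 490 618) (node 557 (merge (leaf 1 554 558) (leaf 2 553 585))))))))) (node 619 (merge (leaf 6 523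 651) (node 618 (merge (leaf 5 522 650) (node 491 (merge (leaf 5 490 586) (node 458 (merge (leaf 7 458 490) (node 459 (merge (leaf 7 426 426) (leaf 4 427 427)))))))))))))))))))))))))))) (merge (node 464 (merge (leaf 7 431 496) (node 492 (merge (node 526 (merge (leaf 3 492 527) (node 523 (merge (node 522 (merge (leaf 2 490 494) (leaf 2 489 521))) (node 491 (merge (leaf 0 490 490) (node 555 (merge (leaf 1 522 554) (node 460 (merge (leaf 5 427 428) (leaf 6 459 587))))))))))) (merge (node 526 (merge (leaf 3 492 527) (node 523 (merge (node 522 (merge (leaf 2 490 494) (leaf 2 489 521))) (node 555 (merge (leaf 1 522 554) (node 587 (merge (leaf 6 491 619) (node 460 (merge (leaf 5 427 428) (leaf 5 459 556))))))))))) (merge (node 491 (merge (node 526 (merge (leaf 0 490 490) (leaf 3 491 527))) (node 459 (merge (node 427 (merge (leaf 4 395 395) (node 556 (merge (leaf 7 427 460) (leaf 4 427 523))))) (merge (node 458 (merge (leaf 3 458 494) (node 457 (merge (leaf 0 456 456) (leaf 0 457 460))))) (node 494 (merge (leaf 3 458 458) (node 523 (merge (leaf 1 490 522) (node 427 (merge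 (leaf 4 395 395) (leaf 4 427 556)))))))))))) (merge (node 491 (merge (node 526 (merge (leaf 0 490 490) (leaf 3 492 527))) (node 459 (merge (node 458 (merge (leaf 3 458 494) (node 457 (merge (leaf 0 456 456) (leaf 0 457 460))))) (merge (node 427 (merge (leaf 4 395 395) (node 556 (merge (leaf 7 427 460) (leaf 4 427 523))))) (node 458 (merge (leaf 3 458 494) (node 427 (merge (leaf 4 395 395) (node 523 (merge (leaf 4 427 556) (node 426 (merge (leaf 7 394 394) (leaf 7 426 555)))))))))))))) (merge (node 523 (merge (node 522 (merge (leaf 2 489 521) (node 557 (merge (leaf 0 522 558) (node 460 (merge (leaf 4 428 428) (leaf 7 460 589))))))) (merge (node 555 (merge (node 554 (merge (leaf 1 522 526) (node 553 (merge (leaf 2 520 552) (leaf 2 521 556))))) (node 587 (merge (leaf 6 491 619) (node 460 (merge (leaf 5 427 428) (leaf 6 459 491))))))) (node 522 (merge (leaf 2 489 521) (node 554 (merge (leaf 1 521 553) (node 526 (merge (leaf 1 522 555) (node 490 (merge (leaf 3 489 489) (leaf 0 490 491)))))))))))) (merge (node 491 (merge (node 459 (merge (node 427 (merge (leaf 4 395 395)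 (node 556 (merge (leaf 7 427 460) (leaf 4 427 523))))) (merge (node 458 (merge (leaf 3 458 494) (node 457 (merge (leaf 0 456 456) (leaf 0 457 460))))) (node 494 (merge (leaf 3 458 458) (node 523 (merge (leaf 1 490 522) (node 427 (merge (leaf 4 395 395) (leaf 4 427 556)))))))))) (merge (node 490 (merge (leaf 0 489 489) (node 458 (merge (leaf 3 457 457) (node 459 (merge (leaf 3 458 494) (node 427 (merge (leaf 4 395 395) (node 556 (merge (leaf 7 427 460) (leaf 4 427 523))))))))))) (merge (node 490 (merge (leaf 0 489 489) (node 522 (merge (leaf 1 489 521) (node 523 (merge (leaf 1 490 494) (node 554 (merge (leaf 1 521 553) (node 459 (merge (leaf 5 426 427) (leaf 6 458 586))))))))))) (merge (node 490 (merge (leaf 0 489 489) (node 522 (merge (leaf 1 489 521) (node 458 (merge (leaf 3 457 457) (node 459 (merge (leaf 3 458 494) (node 554 (merge (leaf 6 426 427) (leaf 6 458 586))))))))))) (merge (node 490 (merge (leaf 0 489 489) (node 522 (merge (leaf 1 489 521) (node 523 (merge (leaf 1 490 494) (node 458 (merge (leaf 3 457 457) (node 426 (merge (leaf 4 394 394) (leaf 4 426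 555))))))))))) (node 523 (merge (node 522 (merge (leaf 2 489 521) (node 557 (merge (leaf 0 522 558) (node 589 (merge (leaf 7 460 460) (leaf 7 492 621))))))) (node 490 (merge (leaf 0 489 489) (node 458 (merge (leaf 3 457 457) (node 426 (merge (leaf 4 394 394) (node 459 (merge (leaf 7 426 555) (node 427 (merge (leaf 4 395 395) (leaf 4 427 556))))))))))))))))))) (merge (node 523 (merge (node 522 (merge (leaf 2 490 494) (leaf 2 489 521))) (merge (node 558 (merge (node 559 (merge (leaf 0 523 526) (leaf 3 524 557))) (merge (node 557 (merge (leaf 0 522 522) (leaf 3 524 559))) (merge (node 526 (merge (leaf 0 523 559) (node 554 (merge (leaf 1 522 555) (node 522 (merge (leaf 1 521 553) (node 490 (merge (leaf 3 489 489) (leaf 3 490 491))))))))) (node 522 (merge (leaf 0 522 557) (node 554 (merge (leaf 1 521 553) (node 526 (merge (leaf 1 522 555) (node 490 (merge (leaf 3 489 489) (leaf 3 490 491))))))))))))) (node 491 (merge (node 526 (merge (leaf 3 490 490) (node 559 (merge (leaf 0 524 527) (leaf 0 523 558))))) (merge (node 490 (merge (leaf 0 489 489) (node 458 (merge (leaf 3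 457 457) (node 555 (merge (leaf 7 458 587) (node 426 (merge (leaf 4 394 394) (leaf 7 426 459))))))))) (node 526 (merge (leaf 3 491 527) (node 558 (merge (leaf 0 523 559) (node 555 (merge (leaf 1 522 554) (node 587 (merge (leaf 6 491 619) (node 586 (merge (leaf 5 490 618) (node 556 (merge (leaf 1 554 557) (node 459 (merge (leaf 4 427 427) (node 458 (merge (leaf 7 426 426) (leaf 3 458 494))))))))))))))))))))))) (node 460 (merge (node 428 (merge (leaf 4 396 396) (node 429 (merge (leaf 6 396 397) (leaf 0 428 430))))) (node 556 (merge (node 557 (merge (leaf 7 460 589) (node 555 (merge (leaf 5 459 587) (node 554 (merge (leaf 2 522 526) (leaf 2 521 553))))))) (merge (node 459 (merge (leaf 7 427 427) (node 458 (merge (leaf 0 457 457) (node 491 (merge (leaf 3 458 494) (node 526 (merge (leaf 0 490 490) (leaf 3 491 527))))))))) (merge (node 459 (merge (leaf 7 427 427) (node 458 (merge (leaf 0 457 457) (node 491 (merge (leaf 3 458 494) (node 526 (merge (leaf 0 490 490) (leaf 3 491 527))))))))) (node 459 (merge (leaf 7 427 427) (node 458 (merge (leaf 0 457 457) (node 557 (merge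 (leaf 7 460 589) (node 491 (merge (leaf 3 458 494) (node 555 (merge (leaf 5 459 587) (node 554 (merge (leaf 2 521 553) (node 586 (merge (leaf 1 553 585) (node 522 (merge (leaf 6 458 490) (leaf 3 521 521))))))))))))))))))))))))))))))))) (merge (node 523 (merge (node 522 (merge (leaf 2 490 494) (node 521 (merge (leaf 2 489 492) (node 489 (merge (leaf 3 488 488) (leaf 3 489 490))))))) (merge (node 522 (merge (leaf 2 490 494) (node 558 (merge (leaf 0 522 557) (node 526 (merge (leaf 0 523 559) (node 554 (merge (leaf 1 521 553) (leaf 1 522 555))))))))) (merge (node 464 (merge (leaf 7 431 496) (node 522 (merge (node 521 (merge (leaf 2 489 492) (node 489 (merge (leaf 3 488 488) (leaf 3 489 490))))) (node 558 (merge (leaf 0 522 557) (node 526 (merge (leaf 0 523 559) (node 554 (merge (leaf 1 521 553) (leaf 1 522 555))))))))))) (node 464 (merge (leaf 7 431 496) (node 555 (merge (node 554 (merge (leaf 1 522 526) (node 553 (merge (leaf 2 520 552) (leaf 2 521 556))))) (merge (node 526 (merge (leaf 1 522 554) (node 559 (merge (leaf 0 524 527) (leaf 0 523 558))))) (merge (hyp 0)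 (node 556 (merge (node 588 (merge (leaf 6 492 620) (node 526 (merge (leaf 1 523 527) (node 558 (merge (leaf 0 523 559) (node 590 (merge (leaf 7 493 622) (node 591 (merge (leaf 0 555 557) (leaf 3 555 589))))))))))) (merge (node 526 (merge (leaf 1 523 527) (node 558 (merge (leaf 0 523 559) (node 590 (merge (leaf 7 493 622) (node 557 (merge (leaf 0 555 591) (node 587 (merge (leaf 1 554 586) (node 492 (merge (leaf 5 459 460) (leaf 6 491 619))))))))))))) (merge (node 492 (merge (node 587 (merge (leaf 6 491 619) (node 460 (merge (leaf 5 427 428) (leaf 5 459 556))))) (merge (node 588 (merge (leaf 6 492 620) (node 589 (merge (leaf 4 492 621) (node 460 (merge (leaf 5 427 428) (leaf 7 460 557))))))) (node 587 (merge (leaf 6 491 619) (node 588 (merge (leaf 6 492 620) (node 589 (merge (leaf 4 492 621) (node 590 (merge (leaf 3 555 591) (node 622 (merge (leaf 4 493 557) (leaf 0 587 623)))))))))))))) (merge (node 588 (merge (leaf 6 492 620) (node 526 (merge (leaf 1 523 527) (node 558 (merge (leaf 0 523 559) (node 590 (merge (leaf 7 493 622) (node 589 (merge (leaf 3 555 591) (node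 621 (merge (leaf 4 492 492) (leaf 5 493 494))))))))))))) (node 587 (merge (node 620 (merge (leaf 6 492 588) (node 619 (merge (leaf 6 523 651) (leaf 4 523 652))))) (merge (node 492 (merge (leaf 6 491 619) (node 460 (merge (leaf 5 427 428) (leaf 5 459 556))))) (node 588 (merge (leaf 6 492 620) (node 526 (merge (leaf 1 523 527) (node 558 (merge (leaf 0 523 559) (node 586 (merge (leaf 1 554 557) (node 585 (merge (leaf 2 552 584) (node 617 (merge (leaf 1 584 616) (node 589 (merge (leaf 1 585 618) (node 492 (merge (leaf 5 459 460) (leaf 4 492 621))))))))))))))))))))))))))))))))))) (merge (node 464 (merge (leaf 7 431 496) (node 523 (merge (node 522 (merge (leaf 2 490 494) (node 553 (merge (leaf 1 521 554) (node 521 (merge (leaf 2 489 492) (leaf 1 520 552))))))) (merge (node 522 (merge (leaf 2 490 494) (node 557 (merge (leaf 0 522 558) (node 521 (merge (leaf 2 489 492) (leaf 0 521 556))))))) (merge (node 522 (merge (leaf 2 490 494) (node 558 (merge (leaf 0 522 557) (node 526 (merge (leaf 0 523 559) (node 554 (merge (leaf 1 521 553) (leaf 1 522 555))))))))) (merge (node 492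 (merge (node 522 (merge (leaf 2 489 521) (node 557 (merge (leaf 0 522 558) (node 589 (merge (leaf 7 460 460) (leaf 7 492 621))))))) (merge (node 555 (merge (node 554 (merge (leaf 1 522 526) (node 553 (merge (leaf 2 520 552) (leaf 2 521 556))))) (node 587 (merge (leaf 6 491 619) (node 460 (merge (leaf 5 427 428) (leaf 6 459 491))))))) (node 522 (merge (leaf 2 489 521) (node 557 (merge (leaf 0 522 558) (node 554 (merge (leaf 1 521 553) (node 555 (merge (leaf 1 522 526) (node 589 (merge (leaf 7 492 621) (node 590 (merge (leaf 0 554 556) (leaf 4 493 622)))))))))))))))) (node 555 (merge (node 554 (merge (leaf 1 522 526) (node 553 (merge (leaf 2 520 552) (leaf 2 521 556))))) (merge (node 526 (merge (leaf 1 522 554) (node 559 (merge (leaf 0 524 527) (leaf 0 523 558))))) (merge (node 556 (merge (node 588 (merge (leaf 6 492 620) (node 526 (merge (leaf 1 523 527) (node 558 (merge (leaf 0 523 559) (node 590 (merge (leaf 7 493 622) (node 591 (merge (leaf 0 555 557) (leaf 3 555 589))))))))))) (merge (node 492 (merge (node 587 (merge (leaf 6 491 619) (node 460 (merge (leaf 6 459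 491) (leaf 5 459 556))))) (merge (node 588 (merge (leaf 6 492 620) (node 589 (merge (leaf 4 492 621) (node 460 (merge (leaf 5 427 428) (leaf 7 460 557))))))) (node 587 (merge (leaf 6 491 619) (node 588 (merge (leaf 6 492 620) (node 491 (merge (leaf 7 459 459) (node 586 (merge (leaf 5 490 618) (node 585 (merge (leaf 2 553 557) (leaf 2 552 584)))))))))))))) (merge (node 526 (merge (leaf 1 523 527) (node 558 (merge (leaf 0 523 559) (node 590 (merge (leaf 7 493 622) (node 557 (merge (leaf 0 555 591) (node 587 (merge (leaf 1 554 586) (node 492 (merge (leaf 5 459 460) (leaf 6 491 619))))))))))))) (node 588 (merge (leaf 6 492 620) (node 526 (merge (leaf 1 523 527) (node 558 (merge (leaf 0 523 559) (node 590 (merge (leaf 7 493 622) (node 589 (merge (leaf 3 555 591) (node 621 (merge (leaf 4 492 492) (leaf 5 493 494))))))))))))))))) (hyp 0)))))))))))) (merge (node 523 (merge (node 522 (merge (leaf 2 490 494) (node 521 (merge (leaf 2 489 492) (node 489 (merge (leaf 3 488 488) (leaf 3 489 490))))))) (merge (node 522 (merge (leaf 2 490 494) (node 553 (merge (leaf 1 521 554) (node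 521 (merge (leaf 2 489 492) (leaf 1 520 552))))))) (merge (node 522 (merge (leaf 2 490 494) (node 554 (merge (leaf 1 521 553) (node 526 (merge (leaf 1 522 555) (node 490 (merge (leaf 3 489 489) (leaf 3 490 491))))))))) (merge (node 464 (merge (leaf 7 431 496) (node 522 (merge (node 553 (merge (leaf 1 521 554) (node 521 (merge (leaf 2 489 492) (leaf 1 520 552))))) (merge (node 521 (merge (leaf 2 489 492) (node 489 (merge (leaf 3 488 488) (leaf 3 489 490))))) (node 554 (merge (leaf 1 521 553) (node 526 (merge (leaf 1 522 555) (node 490 (merge (leaf 3 489 489) (leaf 3 490 491)))))))))))) (node 464 (merge (leaf 7 431 496) (node 555 (merge (node 526 (merge (leaf 1 522 554) (node 559 (merge (leaf 0 524 527) (leaf 0 523 558))))) (merge (node 491 (merge (node 490 (merge (leaf 3 490 526) (node 489 (merge (leaf 0 488 488) (leaf 0 489 492))))) (merge (node 490 (merge (leaf 3 490 526) (node 458 (merge (leaf 7 458 587) (node 426 (merge (leaf 4 394 394) (leaf 7 426 459))))))) (node 459 (merge (node 458 (merge (leaf 7 426 426) (node 492 (merge (leaf 3 458 494) (node 457 (merge (leaf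 0 456 456) (leaf 0 457 460))))))) (merge (node 428 (merge (leaf 6 427 460) (node 427 (merge (leaf 6 395 396) (node 426 (merge (leaf 7 394 394) (leaf 7 426 458))))))) (merge (node 426 (merge (leaf 7 426 458) (node 427 (merge (leaf 7 394 394) (node 396 (merge (leaf 6 395 428) (node 395 (merge (leaf 6 363 364) (leaf 4 395 492))))))))) (node 460 (merge (leaf 6 427 428) (node 587 (merge (leaf 6 459 492) (node 620 (merge (leaf 4 491 588) (node 619 (merge (leaf 4 523 652) (node 618 (merge (leaf 5 490 586) (leaf 5 522 650)))))))))))))))))) (node 587 (merge (node 492 (merge (leaf 6 491 619) (node 460 (merge (leaf 5 427 428) (leaf 6 459 491))))) (merge (node 619 (merge (leaf 6 491 492) (node 652 (merge (leaf 4 523 620) (node 651 (merge (leaf 4 555 684) (node 650 (merge (leaf 5 522 618) (leaf 5 554 682))))))))) (merge (node 491 (merge (node 492 (merge (leaf 6 459 460) (node 490 (merge (leaf 7 458 458) (leaf 0 489 489))))) (merge (node 458 (merge (leaf 7 458 490) (node 459 (merge (leaf 7 426 426) (node 586 (merge (leaf 5 458 554) (leaf 5 490 618))))))) (node 588 (merge (leaf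 4 491 620) (node 586 (merge (leaf 5 490 618) (node 554 (merge (leaf 5 458 459) (node 553 (merge (leaf 0 552 552) (leaf 3 553 589)))))))))))) (node 620 (merge (node 491 (merge (leaf 4 491 588) (node 458 (merge (leaf 7 458 490) (node 459 (merge (leaf 7 426 426) (node 586 (merge (leaf 5 458 554) (leaf 5 490 618))))))))) (merge (node 619 (merge (leaf 4 523 652) (node 618 (merge (leaf 5 522 650) (node 586 (merge (leaf 5 490 491) (node 585 (merge (leaf 0 584 584) (leaf 3 585 621))))))))) (node 652 (merge (leaf 4 523 619) (node 588 (merge (leaf 7 555 684) (node 589 (merge (leaf 5 492 557) (node 590 (merge (leaf 3 554 554) (node 559 (merge (leaf 2 555 558) (leaf 2 556 591)))))))))))))))))))))))))))) (merge (node 492 (merge (node 491 (merge (node 526 (merge (leaf 0 490 490) (leaf 3 491 527))) (node 459 (merge (node 427 (merge (leaf 4 395 395) (node 556 (merge (leaf 7 427 460) (leaf 4 427 523))))) (merge (node 458 (merge (leaf 3 458 494) (node 457 (merge (leaf 0 456 456) (leaf 0 457 460))))) (node 494 (merge (leaf 3 458 458) (node 523 (merge (leaf 1 490 522) (node 427 (merge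 (leaf 4 395 395) (leaf 4 427 556)))))))))))) (merge (node 496 (merge (leaf 7 431 464) (node 559 (merge (node 557 (merge (leaf 3 524 558) (node 460 (merge (leaf 4 428 428) (leaf 7 460 589))))) (merge (node 526 (merge (leaf 0 524 527) (node 558 (merge (leaf 0 523 523) (leaf 3 525 561))))) (node 589 (merge (node 557 (merge (leaf 7 460 460) (leaf 7 492 621))) (merge (node 527 (merge (leaf 0 524 526) (node 591 (merge (leaf 6 495 623) (node 588 (merge (leaf 2 556 590) (node 556 (merge (leaf 6 492 620) (leaf 4 492 621))))))))) (node 557 (merge (leaf 7 460 460) (node 590 (merge (leaf 4 493 622) (node 588 (merge (leaf 2 556 591) (leaf 5 492 620))))))))))))))) (merge (node 460 (merge (node 557 (merge (leaf 4 428 428) (leaf 7 460 589))) (merge (node 428 (merge (leaf 4 396 396) (node 429 (merge (leaf 6 396 397) (node 427 (merge (leaf 7 395 395) (node 459 (merge (leaf 1 427 430) (leaf 7 427 556))))))))) (node 459 (merge (node 458 (merge (leaf 0 457 457) (node 491 (merge (leaf 3 458 494) (node 490 (merge (leaf 0 489 489) (leaf 0 490 526))))))) (node 556 (merge (leaf 7 427 427)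 (node 588 (merge (leaf 6 492 620) (node 589 (merge (leaf 7 460 557) (leaf 4 492 621)))))))))))) (merge (node 491 (merge (node 490 (merge (leaf 0 489 489) (leaf 0 490 526))) (merge (node 490 (merge (leaf 0 489 489) (node 522 (merge (leaf 1 489 521) (node 494 (merge (leaf 1 490 523) (node 458 (merge (leaf 3 457 457) (leaf 3 458 459))))))))) (node 523 (merge (node 522 (merge (leaf 2 490 494) (leaf 2 489 521))) (merge (node 522 (merge (leaf 2 489 521) (node 557 (merge (leaf 0 522 558) (node 589 (merge (leaf 7 460 460) (leaf 7 492 621))))))) (node 459 (merge (node 458 (merge (leaf 3 458 494) (node 457 (merge (leaf 0 456 456) (leaf 0 457 460))))) (merge (node 427 (merge (leaf 4 395 395) (node 428 (merge (leaf 6 395 396) (node 460 (merge (leaf 4 428 557) (node 429 (merge (leaf 6 396 397) (leaf 1 427 430))))))))) (node 458 (merge (leaf 3 458 494) (node 427 (merge (leaf 4 395 395) (node 428 (merge (leaf 6 395 396) (node 426 (merge (leaf 7 394 394) (node 429 (merge (leaf 1 426 430) (leaf 1 425 457)))))))))))))))))))) (merge (node 491 (merge (node 459 (merge (node 458 (merge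 (leaf 3 458 494) (node 457 (merge (leaf 0 456 456) (leaf 0 457 460))))) (node 556 (merge (leaf 7 459 588) (node 427 (merge (leaf 4 395 395) (leaf 4 427 523))))))) (merge (node 490 (merge (leaf 0 489 489) (node 458 (merge (leaf 3 457 457) (node 459 (merge (leaf 3 458 494) (node 556 (merge (leaf 7 459 588) (node 427 (merge (leaf 4 395 395) (leaf 7 427 460))))))))))) (merge (node 490 (merge (leaf 0 489 489) (node 522 (merge (leaf 1 489 521) (node 523 (merge (leaf 1 490 494) (node 554 (merge (leaf 1 521 553) (node 459 (merge (leaf 5 426 427) (leaf 6 458 586))))))))))) (merge (node 459 (merge (node 556 (merge (leaf 7 459 588) (node 427 (merge (leaf 4 395 395) (leaf 7 427 460))))) (node 490 (merge (leaf 0 489 489) (node 522 (merge (leaf 1 489 521) (node 554 (merge (leaf 6 458 586) (node 553 (merge (leaf 1 521 523) (node 458 (merge (leaf 3 457 457) (leaf 5 457 585))))))))))))) (node 490 (merge (leaf 0 489 489) (node 522 (merge (leaf 1 489 521) (node 523 (merge (leaf 1 490 494) (node 557 (merge (leaf 0 522 558) (node 589 (merge (leaf 7 460 460) (leaf 7 492 621))))))))))))))))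 (node 589 (merge (node 588 (merge (node 557 (merge (leaf 5 492 620) (leaf 7 492 621))) (merge (node 620 (merge (leaf 6 492 556) (leaf 5 492 557))) (merge (node 556 (merge (leaf 6 492 620) (leaf 4 492 621))) (node 621 (merge (leaf 4 492 556) (leaf 7 492 557))))))) (merge (node 558 (merge (node 557 (merge (leaf 3 524 559) (leaf 7 492 621))) (merge (node 526 (merge (leaf 3 492 527) (node 559 (merge (leaf 0 523 523) (leaf 3 525 561))))) (node 526 (merge (leaf 3 492 527) (node 590 (merge (leaf 7 493 622) (node 621 (merge (leaf 5 493 494) (node 653 (merge (leaf 6 525 557) (leaf 6 557 685)))))))))))) (merge (node 588 (merge (node 557 (merge (leaf 5 492 620) (node 559 (merge (leaf 1 556 558) (node 590 (merge (leaf 2 556 591) (leaf 4 493 622))))))) (merge (node 556 (merge (leaf 6 492 620) (node 491 (merge (leaf 7 459 459) (node 490 (merge (leaf 0 489 489) (leaf 0 490 526))))))) (node 590 (merge (node 559 (merge (leaf 2 556 591) (node 558 (merge (leaf 1 557 561) (leaf 2 555 587))))) (merge (node 622 (merge (leaf 4 493 557) (node 587 (merge (leaf 0 587 623) (node 619 (merge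 (leaf 5 491 556) (leaf 1 586 618))))))) (node 559 (merge (leaf 2 556 591) (node 558 (merge (leaf 1 557 561) (node 526 (merge (leaf 0 523 523) (leaf 7 493 622))))))))))))) (node 590 (merge (node 526 (merge (leaf 3 492 527) (node 558 (merge (leaf 7 493 622) (node 559 (merge (leaf 0 523 523) (leaf 1 557 561))))))) (merge (node 588 (merge (node 556 (merge (leaf 6 492 620) (leaf 4 492 621))) (node 559 (merge (leaf 2 556 591) (node 558 (merge (leaf 1 557 561) (leaf 2 555 587))))))) (merge (node 588 (merge (node 556 (merge (leaf 6 492 620) (leaf 4 492 621))) (merge (node 591 (merge (leaf 2 556 559) (node 623 (merge (leaf 0 588 624) (node 587 (merge (leaf 0 587 622) (node 556 (merge (leaf 5 491 619) (leaf 4 492 621))))))))) (node 591 (merge (leaf 2 556 559) (node 623 (merge (leaf 0 588 624) (node 587 (merge (leaf 0 587 622) (node 619 (merge (leaf 1 586 618) (leaf 1 587 620)))))))))))) (node 526 (merge (leaf 3 492 527) (node 491 (merge (leaf 0 490 490) (node 558 (merge (leaf 7 493 622) (node 494 (merge (leaf 5 493 621) (node 459 (merge (leaf 3 458 458) (node 556 (merge (leaf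 7 459 588) (node 427 (merge (leaf 4 395 395) (leaf 4 427 523))))))))))))))))))))))))))))) (merge (node 523 (merge (node 522 (merge (leaf 2 490 494) (node 521 (merge (leaf 2 489 492) (node 489 (merge (leaf 3 488 488) (leaf 3 489 490))))))) (merge (node 522 (merge (leaf 2 490 494) (node 553 (merge (leaf 1 521 554) (node 521 (merge (leaf 2 489 492) (leaf 1 520 552))))))) (merge (node 522 (merge (leaf 2 490 494) (node 554 (merge (leaf 1 521 553) (node 526 (merge (leaf 1 522 555) (node 490 (merge (leaf 3 489 489) (leaf 3 490 491))))))))) (merge (node 464 (merge (leaf 7 431 496) (node 522 (merge (node 553 (merge (leaf 1 521 554) (node 521 (merge (leaf 2 489 492) (leaf 1 520 552))))) (merge (node 521 (merge (leaf 2 489 492) (node 489 (merge (leaf 3 488 488) (leaf 3 489 490))))) (node 554 (merge (leaf 1 521 553) (node 526 (merge (leaf 1 522 555) (node 490 (merge (leaf 3 489 489) (leaf 3 490 491)))))))))))) (node 491 (merge (node 496 (merge (leaf 7 431 464) (node 526 (merge (leaf 3 490 490) (node 527 (merge (leaf 2 493 497) (leaf 0 525 561))))))) (merge (node 459 (merge (node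 427 (merge (leaf 4 427 556) (node 396 (merge (leaf 6 395 428) (node 395 (merge (leaf 6 363 364) (leaf 4 395 492))))))) (merge (node 555 (merge (node 556 (merge (leaf 4 459 588) (node 554 (merge (leaf 2 521 553) (leaf 5 458 586))))) (merge (node 458 (merge (leaf 7 426 426) (node 587 (merge (leaf 7 458 490) (node 588 (merge (leaf 4 459 556) (leaf 4 491 620))))))) (node 458 (merge (leaf 7 426 426) (node 587 (merge (leaf 7 458 490) (node 586 (merge (leaf 5 458 554) (leaf 5 490 618)))))))))) (node 427 (merge (node 396 (merge (leaf 6 395 428) (node 395 (merge (leaf 6 363 364) (leaf 4 395 492))))) (merge (node 396 (merge (leaf 6 395 428) (node 395 (merge (leaf 6 363 364) (node 426 (merge (leaf 7 394 394) (node 458 (merge (leaf 7 426 555) (node 363 (merge (leaf 5 330 331) (leaf 5 362 490))))))))))) (node 426 (merge (leaf 7 394 394) (node 555 (merge (leaf 7 426 458) (node 586 (merge (leaf 5 458 554) (node 587 (merge (leaf 5 490 618) (node 619 (merge (leaf 6 491 492) (node 620 (merge (leaf 4 491 588) (leaf 4 523 652))))))))))))))))))) (node 555 (merge (node 526 (merge (leaf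 1 522 554) (node 559 (merge (leaf 0 524 527) (leaf 0 523 558))))) (merge (node 554 (merge (node 553 (merge (leaf 2 520 552) (leaf 2 521 556))) (node 586 (merge (leaf 5 458 459) (node 618 (merge (leaf 5 490 587) (leaf 6 522 650))))))) (node 556 (merge (node 459 (merge (leaf 4 427 427) (node 588 (merge (leaf 7 459 492) (leaf 4 459 555))))) (merge (node 588 (merge (leaf 6 492 620) (node 526 (merge (leaf 1 523 527) (node 558 (merge (leaf 0 523 559) (node 590 (merge (leaf 7 493 622) (node 591 (merge (leaf 0 555 557) (leaf 3 555 589))))))))))) (node 526 (merge (leaf 1 523 527) (node 558 (merge (leaf 0 523 559) (node 459 (merge (leaf 4 427 427) (node 458 (merge (leaf 7 426 426) (node 492 (merge (leaf 3 458 494) (node 587 (merge (leaf 6 491 619) (node 586 (merge (leaf 1 554 557) (leaf 5 490 618))))))))))))))))))))))))))))) (merge (node 523 (merge (node 464 (merge (leaf 7 431 496) (node 522 (merge (node 521 (merge (leaf 2 489 492) (node 489 (merge (leaf 3 488 488) (leaf 3 489 490))))) (merge (node 557 (merge (leaf 0 522 558) (node 521 (merge (leaf 2 489 492) (leaf 0 521 556)))))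 (node 558 (merge (leaf 0 522 557) (node 526 (merge (leaf 0 523 559) (node 490 (merge (leaf 3 489 489) (leaf 3 490 491)))))))))))) (merge (node 464 (merge (leaf 7 431 496) (node 522 (merge (node 553 (merge (leaf 1 521 554) (node 521 (merge (leaf 2 489 492) (leaf 1 520 552))))) (merge (node 521 (merge (leaf 2 489 492) (node 489 (merge (leaf 3 488 488) (leaf 3 489 490))))) (node 554 (merge (leaf 1 521 553) (node 526 (merge (leaf 1 522 555) (node 490 (merge (leaf 3 489 489) (leaf 3 490 491)))))))))))) (merge (node 554 (merge (node 555 (merge (leaf 1 522 526) (node 553 (merge (leaf 2 520 552) (leaf 2 521 556))))) (merge (node 526 (merge (leaf 1 522 555) (node 558 (merge (leaf 0 523 559) (node 522 (merge (leaf 0 522 557) (node 490 (merge (leaf 3 489 489) (leaf 3 490 491))))))))) (node 522 (merge (leaf 1 521 553) (node 557 (merge (leaf 0 522 558) (node 521 (merge (leaf 0 521 556) (node 489 (merge (leaf 3 488 488) (leaf 3 489 490)))))))))))) (merge (node 464 (merge (leaf 7 431 496) (node 522 (merge (node 521 (merge (leaf 2 489 492) (node 489 (merge (leaf 3 488 488) (leaf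 3 489 490))))) (node 558 (merge (leaf 0 522 557) (node 526 (merge (leaf 0 523 559) (node 554 (merge (leaf 1 521 553) (leaf 1 522 555))))))))))) (merge (node 464 (merge (leaf 7 431 496) (node 492 (merge (node 522 (merge (leaf 2 489 521) (node 557 (merge (leaf 0 522 558) (node 589 (merge (leaf 7 460 460) (leaf 7 492 621))))))) (merge (node 555 (merge (node 554 (merge (leaf 1 522 526) (node 553 (merge (leaf 2 520 552) (leaf 2 521 556))))) (node 587 (merge (leaf 6 491 619) (node 460 (merge (leaf 5 427 428) (leaf 6 459 491))))))) (node 522 (merge (leaf 2 489 521) (node 557 (merge (leaf 0 522 558) (node 554 (merge (leaf 1 521 553) (node 555 (merge (leaf 1 522 526) (node 589 (merge (leaf 7 492 621) (node 590 (merge (leaf 0 554 556) (leaf 4 493 622)))))))))))))))))) (merge (node 464 (merge (leaf 7 431 496) (node 555 (merge (node 554 (merge (leaf 1 522 526) (node 553 (merge (leaf 2 520 552) (leaf 2 521 556))))) (merge (node 491 (merge (node 490 (merge (leaf 3 490 526) (node 489 (merge (leaf 0 488 488) (leaf 0 489 492))))) (merge (node 490 (merge (node 489 (merge (leaf 0 488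 488) (leaf 0 489 492))) (node 458 (merge (leaf 7 458 587) (node 426 (merge (leaf 4 394 394) (leaf 7 426 459))))))) (node 554 (merge (leaf 1 522 526) (node 586 (merge (leaf 5 458 459) (node 618 (merge (leaf 5 490 587) (leaf 6 522 650)))))))))) (merge (node 491 (merge (node 490 (merge (leaf 3 490 526) (node 489 (merge (leaf 0 488 488) (leaf 0 489 492))))) (node 587 (merge (node 620 (merge (leaf 4 491 588) (node 619 (merge (leaf 4 523 652) (node 618 (merge (leaf 5 490 586) (leaf 5 522 650))))))) (merge (node 588 (merge (leaf 4 491 620) (node 459 (merge (leaf 4 459 556) (node 428 (merge (leaf 6 427 460) (node 427 (merge (leaf 6 395 396) (node 426 (merge (leaf 7 394 394) (leaf 7 426 458))))))))))) (merge (node 618 (merge (leaf 5 490 586) (node 619 (merge (leaf 5 522 650) (node 556 (merge (leaf 6 523 651) (node 459 (merge (leaf 4 427 427) (leaf 4 459 588))))))))) (node 618 (merge (leaf 5 490 586) (node 619 (merge (leaf 5 522 650) (node 651 (merge (leaf 6 523 556) (node 652 (merge (leaf 4 523 620) (leaf 4 555 684))))))))))))))) (node 587 (merge (node 492 (merge (leaf 6 491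 619) (node 460 (merge (leaf 5 427 428) (leaf 6 459 491))))) (merge (node 619 (merge (leaf 6 491 492) (node 556 (merge (leaf 6 523 651) (node 620 (merge (leaf 6 492 588) (leaf 4 523 652))))))) (merge (node 491 (merge (node 492 (merge (leaf 6 459 460) (node 490 (merge (leaf 7 458 458) (leaf 0 489 489))))) (merge (node 588 (merge (leaf 4 491 620) (node 459 (merge (leaf 4 459 556) (node 586 (merge (leaf 5 458 554) (leaf 5 490 618))))))) (node 588 (merge (leaf 4 491 620) (node 459 (merge (leaf 4 459 556) (node 586 (merge (leaf 5 458 554) (leaf 5 490 618)))))))))) (node 556 (merge (node 620 (merge (leaf 6 492 588) (node 619 (merge (leaf 6 523 651) (leaf 4 523 652))))) (merge (node 588 (merge (leaf 6 492 620) (node 491 (merge (leaf 4 459 459) (node 586 (merge (leaf 5 490 618) (node 557 (merge (leaf 1 554 558) (leaf 2 553 585))))))))) (node 619 (merge (leaf 6 523 651) (node 618 (merge (leaf 5 522 650) (node 491 (merge (leaf 5 490 586) (node 458 (merge (leaf 7 458 490) (node 459 (merge (leaf 7 426 426) (leaf 4 427 427)))))))))))))))))))))))) (hyp 1)))))))) (merge (hyp 2) (merge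 (node 492 (merge (node 496 (merge (leaf 7 431 464) (node 559 (merge (node 557 (merge (leaf 3 524 558) (node 460 (merge (leaf 4 428 428) (leaf 7 460 589))))) (merge (node 526 (merge (leaf 0 524 527) (node 558 (merge (leaf 0 523 523) (leaf 3 525 561))))) (node 589 (merge (node 557 (merge (leaf 7 460 460) (leaf 7 492 621))) (merge (node 527 (merge (leaf 0 524 526) (node 591 (merge (leaf 6 495 623) (node 588 (merge (leaf 2 556 590) (node 556 (merge (leaf 6 492 620) (leaf 4 492 621))))))))) (node 557 (merge (leaf 7 460 460) (node 590 (merge (leaf 4 493 622) (node 588 (merge (leaf 2 556 591) (leaf 5 492 620))))))))))))))) (merge (node 491 (merge (node 490 (merge (leaf 0 489 489) (node 522 (merge (leaf 1 489 521) (node 494 (merge (leaf 1 490 523) (node 458 (merge (leaf 3 457 457) (leaf 3 458 459))))))))) (merge (node 459 (merge (node 458 (merge (leaf 3 458 494) (node 457 (merge (leaf 0 456 456) (leaf 0 457 460))))) (node 556 (merge (leaf 7 459 588) (node 427 (merge (leaf 4 395 395) (leaf 4 427 523))))))) (merge (node 490 (merge (leaf 0 489 489) (node 458 (merge (leaf 3 457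 457) (node 459 (merge (leaf 3 458 494) (node 556 (merge (leaf 7 459 588) (node 427 (merge (leaf 4 395 395) (leaf 7 427 460))))))))))) (merge (node 490 (merge (leaf 0 489 489) (node 522 (merge (leaf 1 489 521) (node 523 (merge (leaf 1 490 494) (node 557 (merge (leaf 0 522 558) (node 589 (merge (leaf 7 460 460) (leaf 7 492 621))))))))))) (node 523 (merge (node 522 (merge (leaf 2 489 521) (node 557 (merge (leaf 0 522 558) (node 589 (merge (leaf 7 460 460) (leaf 7 492 621))))))) (node 490 (merge (leaf 0 489 489) (node 458 (merge (leaf 3 457 457) (node 426 (merge (leaf 4 394 394) (node 459 (merge (leaf 7 426 555) (node 427 (merge (leaf 4 395 395) (leaf 4 427 556)))))))))))))))))) (merge (node 460 (merge (node 557 (merge (leaf 4 428 428) (leaf 7 460 589))) (merge (node 428 (merge (leaf 4 396 396) (node 429 (merge (leaf 6 396 397) (node 427 (merge (leaf 7 395 395) (node 459 (merge (leaf 1 427 430) (leaf 7 427 556))))))))) (node 459 (merge (node 458 (merge (leaf 0 457 457) (node 491 (merge (leaf 3 458 494) (node 490 (merge (leaf 0 489 489) (leaf 0 490 526))))))) (node 556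 (merge (leaf 7 427 427) (node 588 (merge (leaf 6 492 620) (node 589 (merge (leaf 7 460 557) (leaf 4 492 621)))))))))))) (merge (node 523 (merge (node 522 (merge (leaf 2 490 494) (leaf 2 489 521))) (merge (node 526 (merge (leaf 3 492 527) (node 490 (merge (leaf 0 490 491) (node 554 (merge (leaf 1 522 555) (node 522 (merge (leaf 3 489 489) (leaf 1 521 553))))))))) (node 491 (merge (node 526 (merge (leaf 3 490 490) (node 527 (merge (leaf 0 524 559) (leaf 0 525 561))))) (merge (node 490 (merge (leaf 0 489 489) (node 458 (merge (leaf 3 457 457) (node 459 (merge (leaf 3 458 494) (node 426 (merge (leaf 4 394 394) (leaf 7 426 555))))))))) (node 459 (merge (node 458 (merge (leaf 3 458 494) (node 555 (merge (leaf 7 426 426) (node 526 (merge (leaf 3 491 527) (leaf 1 522 554))))))) (node 427 (merge (leaf 4 427 556) (node 396 (merge (leaf 6 395 428) (node 395 (merge (leaf 6 363 364) (leaf 4 395 492))))))))))))))) (node 523 (merge (node 522 (merge (leaf 2 490 494) (leaf 2 489 521))) (merge (node 522 (merge (leaf 2 489 521) (node 490 (merge (leaf 3 489 489) (node 526 (merge (leaf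 0 490 491) (leaf 3 492 527))))))) (node 496 (merge (node 491 (merge (node 490 (merge (leaf 0 489 489) (leaf 0 490 526))) (node 459 (merge (node 458 (merge (leaf 3 458 494) (node 457 (merge (leaf 0 456 456) (leaf 0 457 460))))) (merge (node 427 (merge (leaf 4 395 395) (node 428 (merge (leaf 6 395 396) (node 460 (merge (leaf 6 427 555) (leaf 4 428 557))))))) (node 458 (merge (leaf 3 458 494) (node 426 (merge (leaf 7 426 555) (node 427 (merge (leaf 7 394 394) (leaf 4 395 395)))))))))))) (node 464 (merge (leaf 7 431 431) (node 433 (merge (leaf 6 432 465) (node 432 (merge (leaf 6 400 401) (node 559 (merge (leaf 5 431 527) (leaf 5 463 591))))))))))))))))))) (merge (node 492 (merge (node 460 (merge (node 557 (merge (leaf 4 428 428) (leaf 7 460 589))) (merge (node 428 (merge (leaf 4 396 396) (node 429 (merge (leaf 6 396 397) (node 427 (merge (leaf 7 395 395) (node 459 (merge (leaf 1 427 430) (leaf 7 427 556))))))))) (node 459 (merge (node 458 (merge (leaf 0 457 457) (node 491 (merge (leaf 3 458 494) (node 490 (merge (leaf 0 489 489) (leaf 0 490 526))))))) (node 556 (merge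 (leaf 7 427 427) (node 588 (merge (leaf 6 492 620) (node 589 (merge (leaf 7 460 557) (leaf 4 492 621)))))))))))) (merge (node 523 (merge (node 522 (merge (leaf 2 490 494) (leaf 2 489 521))) (merge (node 522 (merge (leaf 2 489 521) (node 490 (merge (leaf 3 489 489) (node 526 (merge (leaf 0 490 491) (leaf 3 492 527))))))) (node 491 (merge (node 526 (merge (leaf 3 490 490) (node 527 (merge (leaf 0 524 559) (leaf 0 525 561))))) (node 459 (merge (node 556 (merge (leaf 7 459 588) (node 427 (merge (leaf 4 395 395) (leaf 4 427 523))))) (merge (node 458 (merge (leaf 3 458 494) (node 426 (merge (leaf 7 426 555) (node 394 (merge (leaf 4 362 362) (leaf 7 394 427))))))) (node 588 (merge (leaf 7 459 556) (node 458 (merge (leaf 3 458 494) (node 555 (merge (leaf 7 426 426) (node 587 (merge (leaf 6 491 619) (leaf 4 491 620))))))))))))))))) (merge (node 460 (merge (node 557 (merge (leaf 4 428 428) (leaf 7 460 589))) (merge (node 464 (merge (leaf 7 431 496) (node 428 (merge (leaf 4 396 396) (node 429 (merge (leaf 6 396 397) (leaf 0 428 430))))))) (node 556 (merge (node 588 (merge (leaf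 6 492 620) (node 587 (merge (leaf 5 459 555) (leaf 5 491 619))))) (merge (node 588 (merge (leaf 6 492 620) (node 589 (merge (leaf 4 492 621) (node 557 (merge (leaf 7 460 460) (node 559 (merge (leaf 1 556 558) (node 590 (merge (leaf 2 556 591) (leaf 4 493 622))))))))))) (node 557 (merge (leaf 7 460 589) (node 558 (merge (leaf 3 524 559) (node 555 (merge (leaf 5 459 587) (node 590 (merge (leaf 0 555 591) (node 622 (merge (leaf 7 493 526) (leaf 7 525 654))))))))))))))))) (merge (node 491 (merge (node 490 (merge (leaf 0 489 489) (node 522 (merge (leaf 1 489 521) (node 494 (merge (leaf 1 490 523) (node 458 (merge (leaf 3 457 457) (leaf 3 458 459))))))))) (merge (node 459 (merge (node 458 (merge (leaf 3 458 494) (node 457 (merge (leaf 0 456 456) (leaf 0 457 460))))) (node 556 (merge (leaf 7 459 588) (node 427 (merge (leaf 4 395 395) (leaf 4 427 523))))))) (merge (node 490 (merge (leaf 0 489 489) (node 458 (merge (leaf 3 457 457) (node 459 (merge (leaf 3 458 494) (node 556 (merge (leaf 7 459 588) (node 427 (merge (leaf 4 395 395) (leaf 7 427 460))))))))))) (merge (node 490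 (merge (leaf 0 489 489) (node 522 (merge (leaf 1 489 521) (node 523 (merge (leaf 1 490 494) (node 557 (merge (leaf 0 522 558) (node 589 (merge (leaf 7 460 460) (leaf 7 492 621))))))))))) (node 523 (merge (node 522 (merge (leaf 2 489 521) (node 557 (merge (leaf 0 522 558) (node 589 (merge (leaf 7 460 460) (leaf 7 492 621))))))) (node 490 (merge (leaf 0 489 489) (node 458 (merge (leaf 3 457 457) (node 426 (merge (leaf 4 394 394) (node 459 (merge (leaf 7 426 555) (node 427 (merge (leaf 4 395 395) (leaf 4 427 556)))))))))))))))))) (node 523 (merge (node 522 (merge (leaf 2 490 494) (leaf 2 489 521))) (merge (node 522 (merge (leaf 2 489 521) (node 490 (merge (leaf 3 489 489) (node 526 (merge (leaf 0 490 491) (leaf 3 492 527))))))) (node 496 (merge (node 491 (merge (node 490 (merge (leaf 0 489 489) (leaf 0 490 526))) (node 459 (merge (node 458 (merge (leaf 3 458 494) (node 457 (merge (leaf 0 456 456) (leaf 0 457 460))))) (merge (node 427 (merge (leaf 4 395 395) (node 428 (merge (leaf 6 395 396) (node 460 (merge (leaf 6 427 555) (leaf 4 428 557))))))) (node 458 (merge (leaf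 3 458 494) (node 426 (merge (leaf 7 426 555) (node 427 (merge (leaf 7 394 394) (leaf 4 395 395)))))))))))) (node 464 (merge (leaf 7 431 431) (node 433 (merge (leaf 6 432 465) (node 432 (merge (leaf 6 400 401) (node 559 (merge (leaf 5 431 527) (leaf 5 463 591))))))))))))))))))) (merge (node 559 (merge (node 558 (merge (leaf 3 524 557) (node 526 (merge (leaf 0 524 527) (leaf 3 525 561))))) (merge (node 557 (merge (leaf 3 524 558) (node 589 (merge (node 492 (merge (leaf 7 460 460) (leaf 7 492 621))) (node 590 (merge (leaf 4 493 622) (node 588 (merge (leaf 2 556 591) (leaf 5 492 620))))))))) (merge (node 561 (merge (node 526 (merge (leaf 0 525 527) (leaf 3 525 558))) (merge (node 562 (merge (node 595 (merge (leaf 0 559 594) (node 563 (merge (leaf 0 560 596) (node 531 (merge (leaf 2 527 530) (leaf 2 528 532))))))) (node 496 (merge (leaf 7 431 464) (node 591 (merge (leaf 1 558 590) (node 623 (merge (leaf 6 495 527) (leaf 6 527 655))))))))) (node 558 (merge (leaf 3 525 526) (node 590 (merge (leaf 1 557 589) (node 562 (merge (leaf 1 558 591) (node 595 (merge (leaf 0 559 594)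 (node 563 (merge (leaf 0 560 596) (node 531 (merge (leaf 2 527 530) (leaf 2 528 532)))))))))))))))) (node 588 (merge (node 556 (merge (leaf 6 492 620) (node 492 (merge (node 491 (merge (leaf 7 459 459) (node 490 (merge (leaf 0 489 489) (leaf 0 490 526))))) (node 587 (merge (leaf 5 491 619) (node 460 (merge (leaf 5 459 555) (node 428 (merge (leaf 4 396 396) (leaf 4 428 557))))))))))) (merge (node 620 (merge (leaf 6 492 556) (node 496 (merge (leaf 7 431 464) (node 589 (merge (leaf 5 492 557) (node 591 (merge (leaf 2 556 590) (node 623 (merge (leaf 6 495 527) (leaf 6 527 655))))))))))) (merge (node 589 (merge (node 590 (merge (leaf 2 556 591) (node 557 (merge (leaf 5 492 620) (leaf 4 493 622))))) (merge (node 496 (merge (leaf 7 431 464) (node 591 (merge (leaf 2 556 590) (node 623 (merge (leaf 6 495 527) (leaf 6 527 655))))))) (node 557 (merge (leaf 5 492 620) (node 492 (merge (leaf 7 460 460) (node 621 (merge (leaf 7 492 524) (node 526 (merge (leaf 6 493 494) (leaf 3 492 527)))))))))))) (merge (node 556 (merge (leaf 6 492 620) (node 492 (merge (node 491 (merge (leaf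 7 459 459) (node 490 (merge (leaf 0 489 489) (leaf 0 490 526))))) (node 589 (merge (leaf 4 492 621) (node 587 (merge (leaf 5 491 619) (node 555 (merge (leaf 5 459 460) (node 554 (merge (leaf 0 553 553) (leaf 3 554 590))))))))))))) (node 492 (merge (node 527 (merge (leaf 3 492 526) (node 496 (merge (leaf 7 431 464) (node 591 (merge (leaf 6 495 623) (node 589 (merge (leaf 2 556 590) (node 557 (merge (leaf 7 460 460) (leaf 7 492 621))))))))))) (merge (node 526 (merge (leaf 0 524 527) (node 491 (merge (leaf 0 490 490) (node 556 (merge (leaf 7 459 459) (node 589 (merge (leaf 4 492 621) (node 590 (merge (leaf 2 556 591) (node 622 (merge (leaf 4 493 557) (node 587 (merge (leaf 5 491 619) (leaf 0 587 623))))))))))))))) (merge (node 589 (merge (node 557 (merge (leaf 7 460 460) (leaf 7 492 621))) (merge (node 557 (merge (leaf 7 460 460) (node 590 (merge (leaf 2 556 591) (leaf 4 493 622))))) (node 587 (merge (node 556 (merge (leaf 5 491 619) (leaf 4 492 621))) (merge (node 590 (merge (leaf 2 556 591) (node 619 (merge (leaf 5 491 556) (leaf 1 586 618))))) (merge (node 590 (merge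 (leaf 2 556 591) (node 622 (merge (leaf 0 587 623) (node 586 (merge (leaf 0 586 621) (node 618 (merge (leaf 1 585 617) (leaf 1 586 619))))))))) (node 621 (merge (leaf 4 492 556) (node 622 (merge (leaf 0 586 586) (node 623 (merge (leaf 0 587 590) (leaf 3 588 624)))))))))))))) (node 464 (merge (leaf 7 431 496) (node 526 (merge (leaf 3 492 527) (node 491 (merge (leaf 0 490 490) (node 556 (merge (leaf 7 459 459) (node 587 (merge (leaf 5 491 619) (node 460 (merge (leaf 5 459 555) (node 428 (merge (leaf 4 396 396) (node 429 (merge (leaf 6 396 397) (leaf 0 428 430)))))))))))))))))))))))))))))) (node 523 (merge (node 522 (merge (leaf 2 490 494) (node 558 (merge (leaf 0 522 557) (node 526 (merge (leaf 0 523 559) (node 490 (merge (leaf 3 489 489) (leaf 3 490 491))))))))) (merge (node 522 (merge (leaf 2 490 494) (node 557 (merge (leaf 0 522 558) (node 521 (merge (leaf 0 521 556) (node 553 (merge (leaf 1 520 552) (leaf 1 521 554))))))))) (merge (node 522 (merge (leaf 2 490 494) (node 554 (merge (leaf 1 521 553) (node 526 (merge (leaf 1 522 555) (node 490 (merge (leaf 3 489 489)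 (leaf 3 490 491))))))))) (node 464 (merge (leaf 7 431 496) (node 555 (merge (node 554 (merge (leaf 1 522 526) (node 553 (merge (leaf 2 520 552) (leaf 2 521 556))))) (merge (node 526 (merge (leaf 1 522 554) (node 559 (merge (leaf 0 524 527) (leaf 0 523 558))))) (merge (node 491 (merge (node 526 (merge (leaf 3 490 490) (node 559 (merge (leaf 0 524 527) (leaf 0 523 558))))) (node 587 (merge (node 620 (merge (leaf 4 491 588) (node 619 (merge (leaf 4 523 652) (node 618 (merge (leaf 5 490 586) (leaf 5 522 650))))))) (merge (node 588 (merge (leaf 4 491 620) (node 459 (merge (leaf 4 459 556) (node 428 (merge (leaf 6 427 460) (node 427 (merge (leaf 6 395 396) (node 426 (merge (leaf 7 394 394) (leaf 7 426 458))))))))))) (merge (node 618 (merge (leaf 5 490 586) (node 619 (merge (leaf 5 522 650) (node 556 (merge (leaf 6 523 651) (node 459 (merge (leaf 4 427 427) (leaf 4 459 588))))))))) (node 618 (merge (leaf 5 490 586) (node 619 (merge (leaf 5 522 650) (node 651 (merge (leaf 6 523 556) (node 652 (merge (leaf 4 523 620) (leaf 4 555 684))))))))))))))) (node 587 (merge (node 619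 (merge (node 651 (merge (leaf 6 523 556) (node 652 (merge (leaf 4 523 620) (leaf 4 555 684))))) (merge (node 651 (merge (leaf 6 523 556) (node 650 (merge (leaf 5 522 618) (leaf 5 554 682))))) (merge (node 652 (merge (leaf 4 523 620) (node 651 (merge (leaf 4 555 684) (node 650 (merge (leaf 5 522 618) (leaf 5 554 682))))))) (node 620 (merge (leaf 4 523 652) (node 588 (merge (leaf 6 492 556) (node 589 (merge (leaf 5 492 557) (node 618 (merge (leaf 1 586 590) (leaf 5 522 650))))))))))))) (merge (node 620 (merge (node 491 (merge (leaf 4 491 588) (node 458 (merge (leaf 7 458 490) (node 459 (merge (leaf 7 426 426) (node 586 (merge (leaf 5 458 554) (leaf 5 490 618))))))))) (merge (node 619 (merge (leaf 4 523 652) (node 618 (merge (leaf 5 522 650) (node 586 (merge (leaf 5 490 491) (node 585 (merge (leaf 0 584 584) (leaf 3 585 621))))))))) (node 652 (merge (leaf 4 523 619) (node 588 (merge (leaf 7 555 684) (node 589 (merge (leaf 5 492 557) (node 590 (merge (leaf 3 554 554) (node 559 (merge (leaf 2 555 558) (leaf 2 556 591)))))))))))))) (merge (node 586 (merge (node 618 (merge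 (leaf 5 490 491) (node 650 (merge (leaf 5 522 619) (leaf 6 554 682))))) (node 585 (merge (node 556 (merge (leaf 2 552 584) (node 557 (merge (leaf 1 554 558) (leaf 2 553 588))))) (merge (node 556 (merge (leaf 2 552 584) (node 557 (merge (leaf 1 553 554) (leaf 1 554 558))))) (merge (node 552 (merge (node 553 (merge (leaf 2 520 554) (leaf 3 552 588))) (merge (node 584 (merge (leaf 3 551 551) (node 615 (merge (leaf 1 583 616) (node 583 (merge (leaf 2 551 554) (leaf 1 582 614))))))) (node 551 (merge (leaf 3 551 584) (node 553 (merge (leaf 0 550 550) (leaf 3 552 588)))))))) (node 553 (merge (node 552 (merge (leaf 2 520 554) (leaf 3 552 588))) (merge (node 554 (merge (leaf 2 520 552) (leaf 2 521 556))) (merge (node 556 (merge (leaf 2 521 554) (node 557 (merge (leaf 1 554 558) (leaf 2 553 588))))) (node 588 (merge (leaf 3 552 552) (node 557 (merge (leaf 2 553 556) (node 558 (merge (leaf 3 524 559) (leaf 2 554 589))))))))))))))))) (merge (node 588 (merge (node 620 (merge (leaf 4 491 491) (leaf 6 492 556))) (merge (node 589 (merge (node 590 (merge (leaf 3 554 554) (node 557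 (merge (leaf 5 492 620) (leaf 4 493 622))))) (merge (node 590 (merge (leaf 3 554 554) (node 559 (merge (leaf 2 555 558) (leaf 2 556 591))))) (node 557 (merge (leaf 5 492 620) (node 558 (merge (leaf 1 556 559) (leaf 2 554 586)))))))) (node 586 (merge (node 618 (merge (leaf 5 490 491) (node 650 (merge (leaf 6 522 554) (leaf 6 554 682))))) (merge (node 491 (merge (leaf 5 490 618) (node 458 (merge (leaf 7 458 490) (node 459 (merge (leaf 7 426 426) (leaf 4 459 556))))))) (node 585 (merge (node 556 (merge (leaf 2 552 584) (node 557 (merge (leaf 1 554 558) (leaf 2 553 588))))) (merge (node 556 (merge (leaf 2 552 584) (node 557 (merge (leaf 1 553 554) (leaf 1 554 558))))) (merge (node 552 (merge (node 553 (merge (leaf 2 520 554) (leaf 3 552 588))) (merge (node 584 (merge (leaf 3 551 551) (node 615 (merge (leaf 1 583 616) (node 583 (merge (leaf 2 551 554) (leaf 1 582 614))))))) (node 551 (merge (leaf 3 551 584) (node 553 (merge (leaf 0 550 550) (leaf 3 552 588)))))))) (node 553 (merge (node 552 (merge (leaf 2 520 554) (leaf 3 552 588))) (merge (node 554 (merge (leaf 2 520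 552) (leaf 2 521 556))) (merge (node 556 (merge (leaf 2 521 554) (node 557 (merge (leaf 1 554 558) (leaf 2 553 588))))) (node 588 (merge (leaf 3 552 552) (node 557 (merge (leaf 2 553 556) (node 558 (merge (leaf 3 524 559) (leaf 2 554 589))))))))))))))))))))) (merge (node 619 (merge (node 651 (merge (leaf 6 523 556) (node 652 (merge (leaf 4 523 620) (leaf 4 555 684))))) (merge (node 620 (merge (leaf 4 523 652) (node 588 (merge (leaf 4 491 491) (node 589 (merge (leaf 5 492 557) (node 590 (merge (leaf 3 554 554) (leaf 1 587 591))))))))) (merge (node 651 (merge (leaf 6 523 556) (node 684 (merge (leaf 4 555 652) (node 683 (merge (leaf 4 587 716) (node 586 (merge (leaf 7 554 554) (node 618 (merge (leaf 5 490 491) (leaf 7 586 715))))))))))) (node 556 (merge (leaf 6 523 651) (node 588 (merge (leaf 6 492 620) (node 491 (merge (leaf 4 459 459) (node 586 (merge (leaf 5 490 618) (node 557 (merge (leaf 1 554 558) (leaf 2 553 585))))))))))))))) (merge (node 619 (merge (node 620 (merge (leaf 4 523 652) (node 588 (merge (leaf 4 491 491) (node 589 (merge (leaf 5 492 557) (node 590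 (merge (leaf 3 554 554) (leaf 1 587 591))))))))) (merge (node 651 (merge (leaf 6 523 556) (node 684 (merge (leaf 4 555 652) (node 683 (merge (leaf 4 587 716) (node 682 (merge (leaf 5 554 650) (leaf 5 586 714))))))))) (node 556 (merge (leaf 6 523 651) (node 557 (merge (node 558 (merge (leaf 3 523 559) (leaf 1 554 586))) (merge (node 588 (merge (leaf 6 492 620) (node 554 (merge (leaf 2 521 553) (node 589 (merge (leaf 0 554 590) (node 586 (merge (leaf 1 553 585) (node 621 (merge (leaf 0 586 622) (leaf 7 524 653))))))))))) (node 554 (merge (leaf 2 521 553) (node 590 (merge (leaf 0 554 589) (node 558 (merge (leaf 3 523 559) (leaf 0 555 591))))))))))))))) (node 619 (merge (node 651 (merge (leaf 6 523 556) (node 652 (merge (leaf 4 523 620) (leaf 4 555 684))))) (merge (node 652 (merge (leaf 4 523 620) (node 651 (merge (leaf 4 555 684) (node 650 (merge (leaf 5 522 618) (leaf 5 554 682))))))) (node 618 (merge (leaf 5 522 650) (node 491 (merge (leaf 5 490 586) (node 458 (merge (leaf 7 458 490) (node 459 (merge (leaf 7 426 426) (node 428 (merge (leaf 6 427 460) (node 427 (merge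 (leaf 6 395 396) (leaf 4 427 556)))))))))))))))))))))))))))))))))))))))))))))))) nP_358 cP_358 15 (by decide +kernel)

end Crest.Agent.H26Snaky
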