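import Crest.Agent.H26SnP020
import Crest.Agent.H26SnP026

/-! certificate data for S0047, part P 27 (computer generated) -/

set_option autoImplicit false
set_option maxRecDepth 100000

namespace Crest.Agent.H26Snaky

open T

def nP_359 : ℕ := 0x100000000200000002000000180000000000000000000000000000000000000000000000000000000000000000000000000000000000000000000000000000000000000000000
def cP_359 : ℕ := 0x400000007c0000007c000000fe000002ff0000005e000000df0000003e0000001c0000000400000000000000000000000000000000000000000000000000000000000000000000000000000000000000000000000000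
theorem lP_359 : S nP_359 cP_359 12 := S_of_chk [] trivial (node 557 (merge (node 590 (merge (node 622 (merge (leaf 4 493 589) (node 558 (merge (leaf 7 493 526) (leaf 7 525 654))))) (merge (node 558 (merge (leaf 4 461 461) (node 622 (merge (leaf 7 493 526) (leaf 7 525 654))))) (merge (node 461 (merge (leaf 4 461 558) (node 460 (merge (leaf 7 428 428) (node 589 (merge (leaf 7 460 492) (node 588 (merge (leaf 5 460 556) (leaf 5 492 620))))))))) (node 589 (merge (leaf 4 493 622) (node 460 (merge (leaf 7 460 492) (node 461 (merge (leaf 7 428 428) (node 588 (merge (leaf 5 460 556) (leaf 5 492 620))))))))))))) (merge (node 589 (merge (node 622 (merge (leaf 4 493 590) (node 621 (merge (leaf 4 525 654) (node 620 (merge (leaf 5 492 588) (leaf 5 524 652))))))) (merge (node 460 (merge (leaf 7 460 492) (node 461 (merge (leaf 7 428 428) (node 588 (merge (leaf 5 460 556) (leaf 5 492 620))))))) (node 492 (merge (leaf 7 460 460) (node 621 (merge (leaf 7 492 524) (node 622 (merge (leaf 4 493 590) (leaf 4 525 654)))))))))) (merge (node 589 (merge (node 588 (merge (leaf 5 492 620) (node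 558 (merge (leaf 1 556 559) (node 461 (merge (leaf 5 460 556) (leaf 4 461 590))))))) (node 492 (merge (leaf 7 460 460) (node 621 (merge (leaf 7 492 524) (node 494 (merge (leaf 2 460 495) (leaf 6 493 526))))))))) (merge (node 589 (merge (node 590 (merge (leaf 4 493 622) (node 588 (merge (leaf 5 492 620) (node 559 (merge (leaf 1 556 558) (leaf 2 556 591))))))) (merge (node 622 (merge (leaf 4 493 590) (node 621 (merge (leaf 4 525 654) (node 494 (merge (leaf 6 493 526) (node 492 (merge (leaf 2 460 495) (leaf 7 492 524))))))))) (node 620 (merge (leaf 5 492 588) (node 621 (merge (leaf 5 524 652) (node 494 (merge (leaf 6 493 526) (node 492 (merge (leaf 2 460 495) (leaf 7 492 524)))))))))))) (merge (node 590 (merge (node 558 (merge (leaf 4 461 461) (node 622 (merge (leaf 4 493 589) (leaf 7 525 654))))) (merge (node 558 (merge (leaf 4 461 461) (node 622 (merge (leaf 7 493 526) (leaf 7 525 654))))) (merge (node 558 (merge (leaf 4 461 461) (node 559 (merge (leaf 3 524 524) (node 561 (merge (leaf 3 525 526) (leaf 1 557 589))))))) (node 589 (merge (leaf 4 493 622) (node 492 (merge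 (leaf 7 460 460) (node 621 (merge (leaf 7 492 524) (node 494 (merge (leaf 2 460 495) (leaf 6 493 526))))))))))))) (merge (node 590 (merge (node 622 (merge (leaf 4 493 589) (node 558 (merge (leaf 7 493 526) (leaf 7 525 654))))) (merge (node 558 (merge (leaf 4 461 461) (node 622 (merge (leaf 7 493 526) (leaf 7 525 654))))) (merge (node 558 (merge (leaf 4 461 461) (node 559 (merge (leaf 3 524 524) (node 589 (merge (leaf 1 557 561) (leaf 1 556 588))))))) (node 589 (merge (leaf 4 493 622) (node 588 (merge (leaf 5 492 620) (node 591 (merge (leaf 2 556 559) (node 556 (merge (leaf 5 460 461) (leaf 3 555 555))))))))))))) (merge (node 589 (merge (node 460 (merge (leaf 7 460 492) (node 461 (merge (leaf 7 428 428) (node 588 (merge (leaf 5 460 556) (leaf 5 492 620))))))) (merge (node 492 (merge (leaf 7 460 460) (node 621 (merge (leaf 7 492 524) (node 494 (merge (leaf 2 460 495) (leaf 6 493 526))))))) (node 620 (merge (leaf 5 492 588) (node 621 (merge (leaf 5 524 652) (node 526 (merge (leaf 6 493 494) (node 653 (merge (leaf 6 525 558) (node 654 (merge (leaf 4 525 622) (leaf 4 557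 686)))))))))))))) (node 524 (merge (node 558 (merge (leaf 3 524 559) (node 590 (merge (leaf 4 461 461) (node 622 (merge (leaf 7 493 526) (leaf 7 525 654))))))) (merge (node 556 (merge (node 588 (merge (leaf 5 460 461) (node 620 (merge (leaf 6 492 524) (leaf 6 524 652))))) (node 558 (merge (leaf 3 524 559) (node 555 (merge (node 586 (merge (leaf 1 554 587) (node 554 (merge (leaf 2 521 553) (leaf 1 553 585))))) (merge (node 522 (merge (leaf 0 522 523) (node 554 (merge (leaf 3 521 521) (leaf 2 521 553))))) (node 523 (merge (leaf 0 522 522) (node 587 (merge (leaf 1 554 586) (node 619 (merge (leaf 6 491 492) (leaf 6 523 651)))))))))))))) (merge (node 523 (merge (node 522 (merge (leaf 2 490 494) (leaf 0 522 558))) (merge (node 522 (merge (leaf 0 522 558) (node 521 (merge (leaf 2 489 492) (leaf 0 521 556))))) (merge (node 522 (merge (leaf 2 490 494) (node 521 (merge (leaf 2 489 492) (leaf 0 521 556))))) (node 555 (merge (node 554 (merge (leaf 1 522 526) (node 553 (merge (leaf 2 520 552) (leaf 2 521 556))))) (merge (node 491 (merge (node 490 (merge (leaf 3 490 526) (node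 489 (merge (leaf 0 488 488) (leaf 0 489 492))))) (merge (node 490 (merge (node 489 (merge (leaf 0 488 488) (leaf 0 489 492))) (node 458 (merge (leaf 7 458 587) (node 426 (merge (leaf 4 394 394) (leaf 7 426 459))))))) (node 554 (merge (leaf 1 522 526) (node 586 (merge (leaf 5 458 459) (node 618 (merge (leaf 5 490 587) (leaf 6 522 650)))))))))) (merge (node 491 (merge (node 490 (merge (leaf 3 490 526) (node 489 (merge (leaf 0 488 488) (leaf 0 489 492))))) (merge (node 490 (merge (leaf 3 490 526) (node 458 (merge (leaf 7 458 587) (node 426 (merge (leaf 4 394 394) (leaf 7 426 459))))))) (node 459 (merge (node 556 (merge (leaf 4 427 427) (node 588 (merge (leaf 4 459 555) (leaf 6 492 620))))) (node 460 (merge (leaf 6 427 428) (node 458 (merge (leaf 7 426 426) (node 492 (merge (leaf 0 457 457) (leaf 3 458 494)))))))))))) (node 587 (merge (node 492 (merge (leaf 6 491 619) (node 460 (merge (leaf 5 427 428) (leaf 6 459 491))))) (merge (node 619 (merge (leaf 6 491 492) (node 556 (merge (leaf 6 523 651) (node 620 (merge (leaf 6 492 588) (leaf 4 523 652))))))) (merge (node 491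 (merge (node 492 (merge (leaf 6 459 460) (node 490 (merge (leaf 7 458 458) (leaf 0 489 489))))) (merge (node 588 (merge (leaf 4 491 620) (node 459 (merge (leaf 4 459 556) (node 586 (merge (leaf 5 458 554) (leaf 5 490 618))))))) (node 588 (merge (leaf 4 491 620) (node 459 (merge (leaf 4 459 556) (node 586 (merge (leaf 5 458 554) (leaf 5 490 618)))))))))) (node 556 (merge (node 620 (merge (leaf 6 492 588) (node 619 (merge (leaf 6 523 651) (leaf 4 523 652))))) (merge (node 588 (merge (leaf 6 492 620) (node 491 (merge (leaf 4 459 459) (node 586 (merge (leaf 5 490 618) (node 557 (merge (leaf 1 554 558) (leaf 2 553 585))))))))) (node 619 (merge (leaf 6 523 651) (node 618 (merge (leaf 5 522 650) (node 491 (merge (leaf 5 490 586) (node 458 (merge (leaf 7 458 490) (node 459 (merge (leaf 7 426 426) (leaf 4 427 427)))))))))))))))))))))))))) (node 523 (merge (node 522 (merge (leaf 2 490 494) (node 521 (merge (leaf 2 489 492) (leaf 0 521 556))))) (merge (node 494 (merge (leaf 2 490 522) (node 495 (merge (leaf 1 491 492) (leaf 2 491 526))))) (merge (node 522 (merge (node 521 (merge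 (leaf 0 521 556) (node 553 (merge (leaf 1 520 552) (leaf 1 521 554))))) (merge (node 521 (merge (leaf 0 521 556) (node 489 (merge (leaf 3 488 488) (leaf 3 489 490))))) (node 554 (merge (leaf 1 521 553) (node 526 (merge (leaf 1 522 555) (node 490 (merge (leaf 3 489 489) (leaf 3 490 491)))))))))) (node 555 (merge (node 554 (merge (leaf 1 522 526) (node 553 (merge (leaf 2 520 552) (leaf 2 521 556))))) (merge (node 491 (merge (node 490 (merge (leaf 3 490 526) (node 489 (merge (leaf 0 488 488) (leaf 0 489 492))))) (merge (node 490 (merge (node 489 (merge (leaf 0 488 488) (leaf 0 489 492))) (node 458 (merge (leaf 7 458 587) (node 426 (merge (leaf 4 394 394) (leaf 7 426 459))))))) (node 554 (merge (leaf 1 522 526) (node 586 (merge (leaf 5 458 459) (node 618 (merge (leaf 5 490 587) (leaf 6 522 650)))))))))) (merge (node 556 (merge (node 588 (merge (leaf 5 460 461) (leaf 6 492 620))) (node 554 (merge (leaf 2 521 553) (node 586 (merge (leaf 1 553 585) (node 618 (merge (leaf 6 522 650) (node 491 (merge (leaf 5 458 459) (leaf 5 490 587))))))))))) (node 491 (merge (node 490 (merge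 (leaf 3 490 526) (node 489 (merge (leaf 0 488 488) (leaf 0 489 492))))) (merge (node 490 (merge (leaf 3 490 526) (node 458 (merge (leaf 7 458 587) (node 426 (merge (leaf 4 394 394) (leaf 7 426 459))))))) (node 459 (merge (node 556 (merge (leaf 4 427 427) (node 588 (merge (leaf 4 459 555) (leaf 6 492 620))))) (node 460 (merge (leaf 6 427 428) (node 458 (merge (leaf 7 426 426) (node 492 (merge (leaf 0 457 457) (leaf 3 458 494)))))))))))))))))))))))))))))))) nP_359 cP_359 12 (by decide +kernel)
def nP_360 : ℕ := 0x100000000200000002000000080000000000000000000000000000000000000000000000000000000000000000000000000000000000000000000000000000000000000000000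
def cP_360 : ℕ := 0x100000005c0000007c000000fc000002ff0000005f000000df0000003f0000007c0000007c0000005c000000080000000000000000000000000000000000000000000000000000000000000000000000000000000000
theorem lP_360 : S nP_360 cP_360 12 := S_of_chk [] trivial (node 524 (merge (node 557 (merge (node 558 (merge (leaf 3 524 559) (node 590 (merge (leaf 4 461 461) (node 622 (merge (leaf 4 493 589) (leaf 7 525 654))))))) (merge (node 558 (merge (leaf 3 524 559) (node 461 (merge (leaf 4 461 590) (node 556 (merge (leaf 5 428 429) (leaf 5 460 588))))))) (merge (node 460 (merge (node 492 (merge (leaf 4 428 428) (leaf 7 460 589))) (merge (node 461 (merge (leaf 7 428 428) (node 556 (merge (leaf 5 428 429) (leaf 5 460 588))))) (node 589 (merge (leaf 7 460 492) (node 622 (merge (leaf 4 493 590) (node 621 (merge (leaf 4 525 654) (node 620 (merge (leaf 5 492 588) (leaf 5 524 652)))))))))))) (merge (node 589 (merge (node 492 (merge (leaf 7 492 621) (node 460 (merge (leaf 4 428 428) (leaf 4 460 556))))) (node 559 (merge (leaf 3 524 558) (node 590 (merge (leaf 4 493 622) (node 588 (merge (leaf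 2 556 591) (leaf 5 492 620))))))))) (node 558 (merge (leaf 3 524 559) (node 461 (merge (node 429 (merge (leaf 4 429 526) (node 556 (merge (leaf 5 428 524) (leaf 5 460 588))))) (merge (node 428 (merge (leaf 7 428 460) (node 429 (merge (leaf 7 396 396) (leaf 4 429 526))))) (node 460 (merge (leaf 7 428 428) (node 589 (merge (leaf 7 460 492) (node 588 (merge (leaf 5 460 556) (leaf 5 492 620))))))))))))))))) (merge (node 523 (merge (node 522 (merge (leaf 2 490 494) (node 554 (merge (leaf 1 521 553) (node 526 (merge (leaf 1 522 555) (node 490 (merge (leaf 3 489 489) (leaf 3 490 491))))))))) (merge (node 522 (merge (leaf 2 490 494) (node 557 (merge (leaf 0 522 558) (node 521 (merge (leaf 0 521 556) (node 553 (merge (leaf 1 520 552) (leaf 1 521 554))))))))) (merge (node 554 (merge (node 555 (merge (leaf 1 522 526) (node 553 (merge (leaf 2 520 552) (leaf 2 521 556))))) (merge (node 526 (merge (leaf 1 522 555) (node 558 (merge (leaf 0 523 559) (node 522 (merge (leaf 0 522 557) (node 490 (merge (leaf 3 489 489) (leaf 3 490 491))))))))) (node 522 (merge (leaf 1 521 553) (node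 557 (merge (leaf 0 522 558) (node 521 (merge (leaf 0 521 556) (node 489 (merge (leaf 3 488 488) (leaf 3 489 490)))))))))))) (node 461 (merge (node 556 (merge (leaf 5 428 429) (node 588 (merge (leaf 5 460 557) (leaf 6 492 620))))) (merge (node 558 (merge (node 559 (merge (leaf 0 523 526) (leaf 3 524 557))) (merge (node 557 (merge (leaf 3 524 559) (leaf 4 461 590))) (merge (node 590 (merge (leaf 4 461 557) (node 526 (merge (leaf 7 461 494) (leaf 7 493 622))))) (node 526 (merge (leaf 0 523 559) (node 590 (merge (leaf 7 493 622) (node 494 (merge (leaf 7 461 461) (leaf 6 462 495))))))))))) (node 429 (merge (leaf 5 428 556) (node 398 (merge (leaf 6 397 430) (node 397 (merge (leaf 6 365 366) (node 526 (merge (leaf 4 397 494) (leaf 4 429 558)))))))))))))))) (merge (node 492 (merge (node 557 (merge (node 460 (merge (leaf 4 428 428) (leaf 7 460 589))) (node 558 (merge (leaf 3 524 559) (node 590 (merge (leaf 4 461 461) (node 622 (merge (leaf 7 493 526) (leaf 7 525 654))))))))) (merge (node 523 (merge (node 494 (merge (leaf 1 491 495) (leaf 2 490 522))) (merge (node 490 (merge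 (node 489 (merge (leaf 0 489 491) (leaf 3 489 522))) (merge (node 491 (merge (leaf 0 489 489) (leaf 0 490 526))) (merge (node 491 (merge (leaf 0 490 526) (node 458 (merge (leaf 3 457 457) (node 555 (merge (leaf 7 458 587) (node 426 (merge (leaf 4 394 394) (leaf 4 426 522))))))))) (node 522 (merge (leaf 3 489 489) (node 554 (merge (leaf 1 521 553) (node 555 (merge (leaf 1 522 526) (node 458 (merge (leaf 4 426 426) (leaf 4 458 587))))))))))))) (node 491 (merge (node 490 (merge (leaf 0 489 489) (leaf 0 490 526))) (merge (node 490 (merge (leaf 0 489 489) (node 458 (merge (leaf 3 457 457) (node 555 (merge (leaf 7 458 587) (node 426 (merge (leaf 4 394 394) (leaf 7 426 459))))))))) (node 494 (merge (leaf 1 491 495) (node 459 (merge (leaf 3 458 458) (node 427 (merge (leaf 4 395 395) (node 428 (merge (leaf 6 395 396) (node 555 (merge (leaf 6 427 460) (node 554 (merge (leaf 1 522 526) (leaf 5 458 586))))))))))))))))))) (merge (node 557 (merge (node 460 (merge (leaf 4 428 428) (leaf 7 460 589))) (merge (node 558 (merge (leaf 3 524 559) (node 590 (merge (leaf 4 461 461) (node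 622 (merge (leaf 4 493 589) (leaf 7 525 654))))))) (node 558 (merge (leaf 3 524 559) (node 428 (merge (leaf 4 428 460) (node 461 (merge (leaf 4 461 590) (node 429 (merge (leaf 7 396 396) (leaf 5 396 397)))))))))))) (node 558 (merge (node 559 (merge (leaf 3 524 557) (node 526 (merge (leaf 0 523 523) (leaf 3 525 561))))) (merge (node 557 (merge (leaf 3 524 559) (node 590 (merge (leaf 4 461 461) (node 622 (merge (leaf 4 493 589) (leaf 7 525 654))))))) (merge (node 526 (merge (node 559 (merge (leaf 0 523 523) (leaf 3 525 561))) (node 590 (merge (leaf 7 493 622) (node 461 (merge (leaf 4 429 429) (leaf 7 461 494))))))) (node 590 (merge (node 461 (merge (leaf 4 461 557) (node 429 (merge (leaf 5 396 397) (leaf 4 429 526))))) (merge (node 526 (merge (leaf 7 493 622) (node 494 (merge (leaf 7 461 461) (leaf 6 462 495))))) (merge (node 557 (merge (leaf 4 461 461) (node 589 (merge (leaf 7 492 621) (leaf 4 493 622))))) (node 622 (merge (leaf 7 493 526) (node 557 (merge (leaf 4 493 589) (leaf 7 525 654))))))))))))))))) (merge (node 492 (merge (node 523 (merge (node 522 (merge (leaf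 2 490 494) (leaf 2 489 521))) (merge (node 522 (merge (leaf 2 489 521) (node 554 (merge (leaf 1 521 553) (node 555 (merge (leaf 1 522 526) (node 587 (merge (leaf 6 491 619) (node 460 (merge (leaf 5 427 428) (leaf 5 459 556))))))))))) (node 495 (merge (leaf 1 491 494) (node 555 (merge (node 587 (merge (leaf 6 491 619) (node 460 (merge (leaf 6 459 491) (leaf 5 459 556))))) (merge (node 554 (merge (leaf 1 522 526) (node 553 (merge (leaf 2 520 552) (leaf 2 521 556))))) (node 587 (merge (leaf 6 491 619) (node 491 (merge (leaf 6 459 460) (node 526 (merge (leaf 3 490 490) (leaf 1 522 554))))))))))))))) (merge (node 523 (merge (node 522 (merge (leaf 2 489 521) (node 557 (merge (leaf 0 522 558) (node 460 (merge (leaf 4 428 428) (leaf 7 460 589))))))) (node 491 (merge (node 490 (merge (leaf 0 489 489) (leaf 0 490 526))) (node 494 (merge (leaf 1 491 495) (node 459 (merge (leaf 3 458 458) (node 427 (merge (leaf 4 395 395) (leaf 4 427 556))))))))))) (merge (node 556 (merge (node 588 (merge (leaf 6 492 620) (node 491 (merge (leaf 7 459 459) (node 490 (merge (leaf 0 489 489) (leaf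 0 490 526))))))) (merge (node 588 (merge (leaf 6 492 620) (node 589 (merge (leaf 4 492 621) (node 460 (merge (leaf 7 460 557) (node 587 (merge (leaf 5 459 555) (leaf 5 491 619))))))))) (node 555 (merge (node 554 (merge (leaf 2 521 553) (node 557 (merge (leaf 2 522 526) (node 589 (merge (leaf 0 554 590) (leaf 7 492 621))))))) (node 460 (merge (leaf 5 459 587) (node 427 (merge (leaf 7 427 459) (node 428 (merge (leaf 7 395 395) (leaf 4 396 396)))))))))))) (merge (node 460 (merge (node 557 (merge (leaf 7 460 589) (node 428 (merge (leaf 4 396 396) (leaf 4 428 524))))) (merge (node 428 (merge (leaf 4 396 396) (node 523 (merge (leaf 5 427 555) (node 522 (merge (leaf 2 490 494) (leaf 2 489 521))))))) (node 556 (merge (node 588 (merge (leaf 6 492 620) (node 589 (merge (leaf 7 460 557) (leaf 4 492 621))))) (merge (node 588 (merge (leaf 6 492 620) (node 587 (merge (leaf 5 459 555) (leaf 5 491 619))))) (node 557 (merge (leaf 7 460 589) (node 558 (merge (leaf 3 524 559) (node 522 (merge (leaf 0 522 523) (node 555 (merge (leaf 5 459 587) (node 554 (merge (leaf 3 521 521) (leaf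 2 521 553))))))))))))))))) (merge (node 491 (merge (node 490 (merge (leaf 0 490 526) (node 489 (merge (leaf 0 489 524) (node 457 (merge (leaf 3 456 456) (leaf 3 457 458))))))) (merge (node 490 (merge (leaf 0 490 526) (node 489 (merge (leaf 0 489 524) (node 521 (merge (leaf 1 488 520) (leaf 1 489 522))))))) (merge (node 490 (merge (leaf 0 489 489) (node 522 (merge (leaf 1 489 521) (node 494 (merge (leaf 1 490 523) (node 458 (merge (leaf 3 457 457) (leaf 3 458 459))))))))) (node 523 (merge (node 522 (merge (leaf 2 490 494) (leaf 2 489 521))) (merge (node 494 (merge (leaf 1 491 495) (node 459 (merge (leaf 3 458 458) (node 427 (merge (leaf 4 395 395) (leaf 4 427 556))))))) (node 522 (merge (leaf 2 489 521) (node 554 (merge (leaf 1 521 553) (node 555 (merge (leaf 1 522 526) (node 459 (merge (leaf 5 426 427) (leaf 5 458 586)))))))))))))))) (node 523 (merge (node 522 (merge (leaf 2 490 494) (leaf 2 489 521))) (node 491 (merge (node 490 (merge (leaf 0 489 489) (leaf 0 490 526))) (merge (node 490 (merge (leaf 0 489 489) (node 458 (merge (leaf 3 457 457) (node 555 (merge (leaf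 7 458 587) (node 426 (merge (leaf 4 394 394) (leaf 7 426 459))))))))) (node 460 (merge (node 557 (merge (leaf 4 428 428) (leaf 7 460 589))) (node 555 (merge (leaf 6 459 587) (node 554 (merge (leaf 1 522 526) (node 459 (merge (leaf 5 458 586) (node 458 (merge (leaf 7 426 426) (leaf 0 457 457)))))))))))))))))))))) (merge (node 492 (merge (node 557 (merge (node 460 (merge (leaf 4 428 428) (leaf 7 460 589))) (merge (node 558 (merge (leaf 3 524 559) (node 590 (merge (leaf 4 461 461) (node 622 (merge (leaf 4 493 589) (leaf 7 525 654))))))) (node 558 (merge (leaf 3 524 559) (node 428 (merge (leaf 4 428 460) (node 461 (merge (leaf 4 461 590) (node 429 (merge (leaf 7 396 396) (leaf 5 396 397)))))))))))) (merge (node 461 (merge (node 556 (merge (leaf 5 428 429) (leaf 6 460 588))) (merge (node 429 (merge (leaf 5 396 397) (node 428 (merge (leaf 7 396 396) (node 557 (merge (leaf 7 428 460) (node 558 (merge (leaf 3 524 559) (leaf 4 461 590))))))))) (node 557 (merge (node 558 (merge (leaf 3 524 559) (leaf 4 461 590))) (node 588 (merge (leaf 6 460 556) (node 589 (merge (leaf 5 492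 620) (leaf 7 492 621)))))))))) (merge (node 491 (merge (node 459 (merge (node 458 (merge (leaf 3 458 494) (node 457 (merge (leaf 0 456 456) (leaf 0 457 460))))) (node 556 (merge (leaf 7 459 588) (node 427 (merge (leaf 4 395 395) (leaf 4 427 523))))))) (merge (node 490 (merge (leaf 0 489 489) (node 522 (merge (leaf 1 489 521) (node 523 (merge (leaf 1 490 494) (node 554 (merge (leaf 1 521 553) (node 459 (merge (leaf 5 426 427) (leaf 6 458 586))))))))))) (merge (node 490 (merge (leaf 0 489 489) (node 522 (merge (leaf 1 489 521) (node 458 (merge (leaf 3 457 457) (node 459 (merge (leaf 3 458 494) (node 427 (merge (leaf 4 395 395) (leaf 6 426 554))))))))))) (merge (node 459 (merge (node 556 (merge (leaf 7 459 588) (node 427 (merge (leaf 4 395 395) (leaf 4 427 523))))) (merge (node 490 (merge (leaf 0 489 489) (node 522 (merge (leaf 1 489 521) (node 554 (merge (leaf 6 458 586) (node 427 (merge (leaf 4 395 395) (leaf 6 426 458))))))))) (node 490 (merge (leaf 0 489 489) (node 522 (merge (leaf 1 489 521) (node 554 (merge (leaf 6 458 586) (node 556 (merge (leaf 7 459 588) (node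 553 (merge (leaf 1 521 523) (leaf 2 521 555)))))))))))))) (node 490 (merge (leaf 0 489 489) (node 522 (merge (leaf 1 489 521) (node 523 (merge (leaf 1 490 494) (node 458 (merge (leaf 3 457 457) (node 426 (merge (leaf 4 394 394) (leaf 4 426 555)))))))))))))))) (node 557 (merge (node 558 (merge (leaf 3 524 559) (node 461 (merge (leaf 4 461 590) (node 556 (merge (leaf 5 428 429) (leaf 5 460 588))))))) (merge (node 589 (merge (leaf 7 492 621) (node 590 (merge (leaf 4 493 622) (node 461 (merge (leaf 4 461 558) (node 429 (merge (leaf 5 396 397) (leaf 5 428 556))))))))) (merge (node 589 (merge (leaf 7 492 621) (node 559 (merge (leaf 3 524 558) (node 590 (merge (leaf 4 493 622) (node 588 (merge (leaf 2 556 591) (leaf 5 492 620))))))))) (merge (node 589 (merge (leaf 7 492 621) (node 590 (merge (leaf 4 493 622) (node 588 (merge (leaf 5 492 620) (node 556 (merge (leaf 6 460 461) (node 591 (merge (leaf 3 555 555) (leaf 2 556 559))))))))))) (node 589 (merge (leaf 7 492 621) (node 558 (merge (leaf 3 524 559) (node 523 (merge (leaf 0 522 522) (node 588 (merge (leaf 5 492 620) (node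 587 (merge (leaf 2 554 586) (node 619 (merge (leaf 6 491 555) (leaf 5 491 556)))))))))))))))))))))) (merge (node 523 (merge (node 522 (merge (leaf 2 490 494) (node 521 (merge (leaf 2 489 492) (node 489 (merge (leaf 3 488 488) (leaf 3 489 490))))))) (merge (node 522 (merge (leaf 2 490 494) (node 553 (merge (leaf 1 521 554) (node 521 (merge (leaf 2 489 492) (leaf 1 520 552))))))) (merge (node 522 (merge (leaf 2 490 494) (node 554 (merge (leaf 1 521 553) (node 526 (merge (leaf 1 522 555) (node 490 (merge (leaf 3 489 489) (leaf 3 490 491))))))))) (node 491 (merge (node 490 (merge (leaf 3 490 526) (node 489 (merge (leaf 0 488 488) (leaf 0 489 492))))) (merge (node 555 (merge (node 554 (merge (leaf 1 522 526) (node 553 (merge (leaf 2 520 552) (leaf 2 521 556))))) (merge (node 554 (merge (leaf 1 522 526) (node 586 (merge (leaf 5 458 459) (node 618 (merge (leaf 5 490 587) (leaf 6 522 650))))))) (node 587 (merge (node 588 (merge (leaf 4 491 620) (node 556 (merge (leaf 4 459 459) (node 461 (merge (leaf 5 428 429) (leaf 5 460 557))))))) (merge (node 620 (merge (leaf 4 491 588)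 (node 619 (merge (leaf 4 523 652) (node 618 (merge (leaf 5 490 586) (leaf 5 522 650))))))) (merge (node 618 (merge (leaf 5 490 586) (node 619 (merge (leaf 5 522 650) (node 556 (merge (leaf 6 523 651) (node 459 (merge (leaf 4 427 427) (leaf 4 459 588))))))))) (node 618 (merge (leaf 5 490 586) (node 619 (merge (leaf 5 522 650) (node 651 (merge (leaf 6 523 556) (node 652 (merge (leaf 4 523 620) (leaf 4 555 684)))))))))))))))) (node 459 (merge (node 427 (merge (leaf 4 427 556) (node 396 (merge (leaf 6 395 428) (node 395 (merge (leaf 6 363 364) (leaf 4 395 492))))))) (merge (node 555 (merge (node 556 (merge (leaf 4 459 588) (node 554 (merge (leaf 2 521 553) (leaf 5 458 586))))) (merge (node 458 (merge (leaf 7 426 426) (node 587 (merge (leaf 7 458 490) (node 588 (merge (leaf 4 459 556) (leaf 4 491 620))))))) (node 458 (merge (leaf 7 426 426) (node 587 (merge (leaf 7 458 490) (node 586 (merge (leaf 5 458 554) (leaf 5 490 618)))))))))) (node 427 (merge (node 396 (merge (leaf 6 395 428) (node 395 (merge (leaf 6 363 364) (leaf 4 395 492))))) (merge (node 396 (merge (leaf 6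 395 428) (node 395 (merge (leaf 6 363 364) (node 426 (merge (leaf 7 394 394) (node 458 (merge (leaf 7 426 555) (node 363 (merge (leaf 5 330 331) (leaf 5 362 490))))))))))) (node 426 (merge (leaf 7 394 394) (node 555 (merge (leaf 7 426 458) (node 586 (merge (leaf 5 458 554) (node 587 (merge (leaf 5 490 618) (node 619 (merge (leaf 6 491 492) (node 620 (merge (leaf 4 491 588) (leaf 4 523 652)))))))))))))))))))))))))) (node 523 (merge (node 494 (merge (leaf 2 490 522) (node 495 (merge (leaf 1 491 492) (leaf 2 491 526))))) (merge (node 522 (merge (leaf 2 490 494) (node 553 (merge (leaf 1 521 554) (node 521 (merge (leaf 2 489 492) (leaf 1 520 552))))))) (merge (node 522 (merge (leaf 2 490 494) (node 554 (merge (leaf 1 521 553) (node 526 (merge (leaf 1 522 555) (node 490 (merge (leaf 3 489 489) (leaf 3 490 491))))))))) (merge (node 492 (merge (node 555 (merge (node 587 (merge (leaf 6 491 619) (node 460 (merge (leaf 5 427 428) (leaf 6 459 491))))) (node 554 (merge (leaf 1 522 526) (node 553 (merge (leaf 2 520 552) (leaf 2 521 556))))))) (merge (node 522 (merge (leaf 2 489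 521) (node 554 (merge (leaf 1 521 553) (node 555 (merge (leaf 1 522 526) (node 587 (merge (leaf 6 491 619) (node 460 (merge (leaf 5 427 428) (leaf 5 459 556))))))))))) (merge (node 555 (merge (node 587 (merge (leaf 6 491 619) (node 460 (merge (leaf 5 427 428) (leaf 5 459 556))))) (merge (node 522 (merge (leaf 2 489 521) (node 490 (merge (leaf 3 489 489) (node 458 (merge (leaf 4 426 426) (node 457 (merge (leaf 3 457 491) (node 460 (merge (leaf 5 427 428) (leaf 0 457 459))))))))))) (node 587 (merge (leaf 6 491 619) (node 522 (merge (leaf 2 489 521) (node 490 (merge (leaf 3 489 489) (node 458 (merge (leaf 4 426 426) (leaf 4 458 554)))))))))))) (merge (node 522 (merge (leaf 2 489 521) (node 490 (merge (leaf 3 489 489) (node 491 (merge (leaf 0 490 526) (node 458 (merge (leaf 3 457 457) (node 426 (merge (leaf 4 394 394) (leaf 4 426 555))))))))))) (node 522 (merge (leaf 2 489 521) (node 554 (merge (leaf 1 521 553) (node 490 (merge (leaf 3 489 489) (node 491 (merge (leaf 0 490 526) (node 459 (merge (leaf 5 426 427) (leaf 6 458 586)))))))))))))))) (node 491 (merge (node 526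 (merge (leaf 3 490 490) (node 558 (merge (leaf 0 523 559) (node 590 (merge (leaf 7 493 622) (node 494 (merge (leaf 7 461 461) (leaf 6 462 495))))))))) (merge (node 555 (merge (node 554 (merge (leaf 1 522 526) (node 553 (merge (leaf 2 520 552) (leaf 2 521 556))))) (merge (node 526 (merge (leaf 1 522 554) (node 558 (merge (leaf 0 523 559) (node 590 (merge (leaf 7 493 622) (node 494 (merge (leaf 7 461 461) (leaf 6 462 495))))))))) (node 587 (merge (node 492 (merge (leaf 6 459 460) (leaf 6 491 619))) (merge (node 620 (merge (leaf 4 491 588) (node 619 (merge (leaf 4 523 652) (node 618 (merge (leaf 5 490 586) (leaf 5 522 650))))))) (node 492 (merge (leaf 6 459 460) (node 588 (merge (leaf 4 491 620) (node 556 (merge (leaf 7 459 459) (leaf 6 460 461))))))))))))) (node 459 (merge (node 556 (merge (leaf 4 427 427) (node 588 (merge (leaf 4 459 555) (leaf 6 492 620))))) (merge (node 427 (merge (leaf 4 427 556) (node 396 (merge (leaf 6 395 428) (node 395 (merge (leaf 6 363 364) (leaf 4 395 492))))))) (merge (node 427 (merge (node 396 (merge (leaf 6 395 428) (node 395 (merge (leaf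 6 363 364) (leaf 4 395 492))))) (merge (node 394 (merge (leaf 7 394 426) (node 395 (merge (leaf 7 362 362) (leaf 4 395 492))))) (node 428 (merge (leaf 6 395 396) (node 555 (merge (leaf 6 427 460) (node 426 (merge (leaf 7 394 394) (leaf 7 426 458)))))))))) (node 555 (merge (node 556 (merge (leaf 4 459 588) (node 554 (merge (leaf 2 521 553) (leaf 5 458 586))))) (node 460 (merge (leaf 6 427 428) (node 587 (merge (leaf 6 459 492) (node 458 (merge (leaf 7 426 426) (leaf 7 458 490)))))))))))))))))))))))))))) nP_360 cP_360 12 (by decide +kernel)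
def nP_361 : ℕ := 0x100000001200000002000000080000000800000000000000000000000000000000000000000000000000000000000000000000000000000000000000000000000000000000000
def cP_361 : ℕ := 0x540000007c0000007c000000fe000000ff0000005e000001df0000013c0000000c0000000400000000000000000000000000000000000000000000000000000000000000000000000000000000000000000000000000
theorem lP_361 : S nP_361 cP_361 12 := S_of_chk [] trivial (node 524 (merge (node 523 (merge (node 496 (merge (leaf 7 431 464) (node 494 (merge (leaf 1 492 495) (leaf 2 490 522))))) (merge (node 522 (merge (leaf 2 490 494) (node 557 (merge (leaf 0 522 558) (node 521 (merge (leaf 0 521 556) (node 553 (merge (leaf 1 520 552) (leaf 1 521 554))))))))) (merge (node 558 (merge (node 559 (merge (leaf 0 523 526) (leaf 3 524 557))) (merge (node 526 (merge (leaf 0 523 559) (node 590 (merge (leaf 7 493 622) (node 494 (merge (leaf 7 461 461) (leaf 6 462 495))))))) (merge (node 557 (merge (leaf 3 524 559) (node 590 (merge (leaf 4 461 461) (node 622 (merge (leaf 4 493 589) (leaf 7 525 654))))))) (node 590 (merge (node 526 (merge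 (leaf 7 493 622) (node 494 (merge (leaf 7 461 461) (leaf 6 462 495))))) (merge (node 557 (merge (leaf 4 461 461) (node 622 (merge (leaf 4 493 589) (leaf 7 525 654))))) (merge (node 622 (merge (leaf 7 493 526) (node 557 (merge (leaf 4 493 589) (leaf 7 525 654))))) (node 496 (merge (leaf 7 431 464) (node 494 (merge (leaf 1 492 495) (node 461 (merge (leaf 7 461 526) (leaf 4 461 557))))))))))))))) (node 558 (merge (node 557 (merge (leaf 3 524 559) (node 590 (merge (leaf 4 461 461) (node 622 (merge (leaf 4 493 589) (leaf 7 525 654))))))) (merge (node 522 (merge (leaf 0 522 557) (node 554 (merge (leaf 1 521 553) (node 526 (merge (leaf 1 522 555) (node 490 (merge (leaf 3 489 489) (leaf 3 490 491))))))))) (node 526 (merge (leaf 0 523 559) (node 554 (merge (leaf 1 522 555) (node 522 (merge (leaf 1 521 553) (node 490 (merge (leaf 3 489 489) (leaf 3 490 491)))))))))))))))) (merge (node 557 (merge (node 558 (merge (leaf 3 524 559) (node 590 (merge (leaf 4 461 461) (node 622 (merge (leaf 7 493 526) (leaf 7 525 654))))))) (merge (node 589 (merge (node 590 (merge (leaf 4 493 622)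 (node 461 (merge (leaf 4 461 558) (node 588 (merge (leaf 5 460 556) (leaf 5 492 620))))))) (merge (node 492 (merge (leaf 7 460 460) (node 621 (merge (leaf 7 492 524) (node 622 (merge (leaf 4 493 590) (leaf 4 525 654))))))) (node 492 (merge (leaf 7 460 460) (node 621 (merge (leaf 7 492 524) (node 620 (merge (leaf 5 492 588) (leaf 5 524 652)))))))))) (merge (node 589 (merge (node 492 (merge (leaf 7 460 460) (node 621 (merge (leaf 7 492 524) (node 622 (merge (leaf 4 493 590) (leaf 4 525 654))))))) (merge (node 590 (merge (leaf 4 493 622) (node 588 (merge (leaf 5 492 620) (node 559 (merge (leaf 1 556 558) (leaf 2 556 591))))))) (node 492 (merge (leaf 7 460 460) (node 621 (merge (leaf 7 492 524) (node 620 (merge (leaf 5 492 588) (leaf 5 524 652)))))))))) (merge (node 589 (merge (node 492 (merge (leaf 7 460 460) (node 621 (merge (leaf 7 492 524) (node 622 (merge (leaf 4 493 590) (leaf 4 525 654))))))) (merge (node 492 (merge (leaf 7 460 460) (node 621 (merge (leaf 7 492 524) (node 620 (merge (leaf 5 492 588) (leaf 5 524 652))))))) (node 590 (merge (leaf 4 493 622) (node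 588 (merge (leaf 5 492 620) (node 591 (merge (leaf 2 556 559) (node 556 (merge (leaf 5 460 461) (leaf 3 555 555)))))))))))) (merge (node 558 (merge (leaf 3 524 559) (node 461 (merge (leaf 4 461 590) (node 588 (merge (leaf 5 460 556) (node 589 (merge (leaf 5 492 620) (node 492 (merge (leaf 7 460 460) (leaf 7 492 621))))))))))) (node 589 (merge (node 492 (merge (leaf 7 460 460) (leaf 7 492 621))) (merge (node 492 (merge (leaf 7 460 460) (node 558 (merge (leaf 3 524 559) (node 588 (merge (leaf 5 492 620) (node 556 (merge (leaf 6 460 461) (node 587 (merge (leaf 2 554 586) (leaf 5 491 619))))))))))) (node 620 (merge (leaf 5 492 588) (node 621 (merge (leaf 5 524 652) (node 653 (merge (leaf 7 524 556) (node 654 (merge (leaf 4 525 622) (leaf 4 557 686)))))))))))))))))) (merge (node 557 (merge (node 558 (merge (leaf 3 524 559) (node 590 (merge (leaf 4 461 461) (node 622 (merge (leaf 7 493 526) (leaf 7 525 654))))))) (merge (node 589 (merge (node 492 (merge (leaf 7 460 460) (leaf 7 492 621))) (node 590 (merge (leaf 4 493 622) (node 461 (merge (leaf 4 461 558) (node 588 (merge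 (leaf 5 460 556) (leaf 5 492 620))))))))) (merge (node 558 (merge (leaf 3 524 559) (node 461 (merge (leaf 4 461 590) (node 588 (merge (leaf 5 460 556) (node 589 (merge (leaf 5 492 620) (node 492 (merge (leaf 7 460 460) (leaf 7 492 621))))))))))) (merge (node 589 (merge (node 492 (merge (leaf 7 460 460) (leaf 7 492 621))) (node 590 (merge (leaf 4 493 622) (node 588 (merge (leaf 5 492 620) (node 559 (merge (leaf 1 556 558) (leaf 2 556 591))))))))) (merge (node 589 (merge (node 492 (merge (leaf 7 460 460) (node 621 (merge (leaf 7 492 524) (node 622 (merge (leaf 4 493 590) (leaf 4 525 654))))))) (merge (node 492 (merge (leaf 7 460 460) (node 621 (merge (leaf 7 492 524) (node 620 (merge (leaf 5 492 588) (leaf 5 524 652))))))) (node 590 (merge (leaf 4 493 622) (node 588 (merge (leaf 5 492 620) (node 591 (merge (leaf 2 556 559) (node 556 (merge (leaf 5 460 461) (leaf 3 555 555)))))))))))) (node 589 (merge (node 492 (merge (leaf 7 460 460) (leaf 7 492 621))) (merge (node 492 (merge (leaf 7 460 460) (node 558 (merge (leaf 3 524 559) (node 588 (merge (leaf 5 492 620) (node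 556 (merge (leaf 6 460 461) (node 587 (merge (leaf 2 554 586) (leaf 5 491 619))))))))))) (node 558 (merge (leaf 3 524 559) (node 523 (merge (leaf 0 522 522) (node 588 (merge (leaf 5 492 620) (node 556 (merge (leaf 5 460 461) (node 621 (merge (leaf 7 524 653) (node 526 (merge (leaf 6 493 494) (node 555 (merge (leaf 1 522 554) (node 491 (merge (leaf 4 459 459) (leaf 3 490 490)))))))))))))))))))))))))) (merge (node 557 (merge (node 558 (merge (leaf 3 524 559) (node 590 (merge (leaf 4 461 461) (node 622 (merge (leaf 7 493 526) (leaf 7 525 654))))))) (merge (node 589 (merge (node 492 (merge (leaf 7 460 460) (leaf 7 492 621))) (merge (node 622 (merge (leaf 4 493 590) (node 621 (merge (leaf 4 525 654) (node 620 (merge (leaf 5 492 588) (leaf 5 524 652))))))) (node 492 (merge (leaf 7 460 460) (node 588 (merge (leaf 5 492 620) (node 556 (merge (leaf 6 460 461) (node 491 (merge (leaf 7 459 459) (node 490 (merge (leaf 0 489 489) (leaf 0 490 526)))))))))))))) (merge (node 589 (merge (node 492 (merge (leaf 7 460 460) (leaf 7 492 621))) (node 590 (merge (leaf 4 493 622) (node 588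 (merge (leaf 5 492 620) (node 559 (merge (leaf 1 556 558) (leaf 2 556 591))))))))) (node 589 (merge (node 492 (merge (leaf 7 460 460) (leaf 7 492 621))) (merge (node 492 (merge (leaf 7 460 460) (node 558 (merge (leaf 3 524 559) (node 588 (merge (leaf 5 492 620) (node 556 (merge (leaf 6 460 461) (node 587 (merge (leaf 2 554 586) (leaf 5 491 619))))))))))) (node 496 (merge (leaf 7 431 464) (node 494 (merge (leaf 1 492 495) (node 621 (merge (leaf 6 493 526) (node 620 (merge (leaf 5 492 588) (leaf 5 524 652)))))))))))))))) (merge (node 523 (merge (node 494 (merge (leaf 2 490 522) (node 495 (merge (leaf 1 492 496) (leaf 2 491 526))))) (merge (node 522 (merge (leaf 2 490 494) (node 553 (merge (leaf 1 521 554) (node 521 (merge (leaf 2 489 492) (leaf 1 520 552))))))) (merge (node 522 (merge (node 553 (merge (leaf 1 521 554) (node 521 (merge (leaf 2 489 492) (leaf 1 520 552))))) (merge (node 521 (merge (leaf 2 489 492) (node 489 (merge (leaf 3 488 488) (leaf 3 489 490))))) (node 554 (merge (leaf 1 521 553) (node 526 (merge (leaf 1 522 555) (node 490 (merge (leaf 3 489 489)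 (leaf 3 490 491)))))))))) (node 555 (merge (node 554 (merge (leaf 1 522 526) (node 553 (merge (leaf 2 520 552) (leaf 2 521 556))))) (merge (node 464 (merge (leaf 7 431 496) (node 491 (merge (node 490 (merge (leaf 3 490 526) (node 489 (merge (leaf 0 488 488) (leaf 0 489 492))))) (merge (node 490 (merge (node 489 (merge (leaf 0 488 488) (leaf 0 489 492))) (node 458 (merge (leaf 7 458 587) (node 426 (merge (leaf 4 394 394) (leaf 7 426 459))))))) (node 554 (merge (leaf 1 522 526) (node 586 (merge (leaf 5 458 459) (node 618 (merge (leaf 5 490 587) (leaf 6 522 650)))))))))))) (merge (node 491 (merge (node 490 (merge (leaf 3 490 526) (node 489 (merge (leaf 0 488 488) (leaf 0 489 492))))) (merge (node 490 (merge (leaf 3 490 526) (node 458 (merge (leaf 7 458 587) (node 426 (merge (leaf 4 394 394) (leaf 7 426 459))))))) (node 492 (merge (node 587 (merge (leaf 6 459 460) (leaf 6 491 619))) (node 494 (merge (leaf 1 491 495) (node 459 (merge (leaf 3 458 458) (node 556 (merge (leaf 4 427 427) (leaf 7 459 588)))))))))))) (node 587 (merge (node 492 (merge (leaf 6 491 619) (node 460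 (merge (leaf 6 459 491) (leaf 5 459 556))))) (merge (node 619 (merge (leaf 6 491 492) (node 556 (merge (leaf 6 523 651) (node 620 (merge (leaf 6 492 588) (leaf 4 523 652))))))) (merge (node 620 (merge (node 588 (merge (leaf 4 491 491) (leaf 6 492 556))) (merge (node 619 (merge (leaf 4 523 652) (node 651 (merge (leaf 6 523 556) (node 650 (merge (leaf 5 522 618) (leaf 5 554 682))))))) (node 588 (merge (leaf 4 491 491) (node 652 (merge (leaf 4 523 619) (leaf 7 555 684)))))))) (merge (node 619 (merge (leaf 6 491 492) (node 620 (merge (leaf 4 523 652) (node 491 (merge (leaf 4 491 588) (node 618 (merge (leaf 5 490 586) (leaf 5 522 650))))))))) (node 491 (merge (node 492 (merge (leaf 6 459 460) (node 490 (merge (leaf 7 458 458) (leaf 0 489 489))))) (merge (node 588 (merge (leaf 4 491 620) (node 459 (merge (leaf 4 459 556) (node 586 (merge (leaf 5 458 554) (leaf 5 490 618))))))) (node 588 (merge (leaf 4 491 620) (node 459 (merge (leaf 4 459 556) (node 586 (merge (leaf 5 458 554) (leaf 5 490 618))))))))))))))))))))))) (merge (node 523 (merge (node 496 (merge (leaf 7 431 464)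 (node 494 (merge (leaf 1 492 495) (leaf 2 490 522))))) (merge (node 522 (merge (node 553 (merge (leaf 1 521 554) (node 521 (merge (leaf 2 489 492) (leaf 1 520 552))))) (merge (node 521 (merge (leaf 2 489 492) (node 489 (merge (leaf 3 488 488) (leaf 3 489 490))))) (node 554 (merge (leaf 1 521 553) (node 526 (merge (leaf 1 522 555) (node 490 (merge (leaf 3 489 489) (leaf 3 490 491)))))))))) (node 558 (merge (node 559 (merge (leaf 0 523 526) (leaf 3 524 557))) (merge (node 526 (merge (leaf 0 523 559) (node 590 (merge (leaf 7 493 622) (node 494 (merge (leaf 7 461 461) (leaf 6 462 495))))))) (merge (node 557 (merge (leaf 3 524 559) (node 590 (merge (leaf 4 461 461) (node 622 (merge (leaf 4 493 589) (leaf 7 525 654))))))) (node 590 (merge (node 526 (merge (leaf 7 493 622) (node 494 (merge (leaf 7 461 461) (leaf 6 462 495))))) (merge (node 557 (merge (leaf 4 461 461) (node 622 (merge (leaf 4 493 589) (leaf 7 525 654))))) (merge (node 622 (merge (leaf 7 493 526) (node 557 (merge (leaf 4 493 589) (leaf 7 525 654))))) (node 496 (merge (leaf 7 431 464) (node 494 (merge (leaf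 1 492 495) (node 461 (merge (leaf 7 461 526) (leaf 4 461 557)))))))))))))))))) (node 557 (merge (node 558 (merge (leaf 3 524 559) (node 590 (merge (leaf 4 461 461) (node 622 (merge (leaf 4 493 589) (leaf 7 525 654))))))) (merge (node 589 (merge (node 492 (merge (leaf 7 460 460) (leaf 7 492 621))) (node 590 (merge (leaf 4 493 622) (node 461 (merge (leaf 4 461 558) (node 588 (merge (leaf 5 460 556) (leaf 5 492 620))))))))) (merge (node 589 (merge (node 492 (merge (leaf 7 460 460) (leaf 7 492 621))) (node 590 (merge (leaf 4 493 622) (node 588 (merge (leaf 5 492 620) (node 559 (merge (leaf 1 556 558) (leaf 2 556 591))))))))) (merge (node 589 (merge (node 492 (merge (leaf 7 460 460) (node 621 (merge (leaf 7 492 524) (node 622 (merge (leaf 4 493 590) (leaf 4 525 654))))))) (merge (node 492 (merge (leaf 7 460 460) (node 621 (merge (leaf 7 492 524) (node 620 (merge (leaf 5 492 588) (leaf 5 524 652))))))) (node 590 (merge (leaf 4 493 622) (node 588 (merge (leaf 5 492 620) (node 591 (merge (leaf 2 556 559) (node 556 (merge (leaf 5 460 461) (leaf 3 555 555)))))))))))) (merge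 (node 589 (merge (node 492 (merge (leaf 7 460 460) (leaf 7 492 621))) (merge (node 492 (merge (leaf 7 460 460) (node 558 (merge (leaf 3 524 559) (node 588 (merge (leaf 5 492 620) (node 556 (merge (leaf 6 460 461) (node 587 (merge (leaf 2 554 586) (leaf 5 491 619))))))))))) (node 620 (merge (leaf 5 492 588) (node 621 (merge (leaf 5 524 652) (node 653 (merge (leaf 7 524 556) (node 654 (merge (leaf 4 525 622) (leaf 4 557 686)))))))))))) (node 556 (merge (node 588 (merge (leaf 6 492 620) (node 461 (merge (leaf 6 460 492) (leaf 5 460 557))))) (merge (node 558 (merge (leaf 3 524 559) (node 522 (merge (leaf 0 522 523) (node 590 (merge (leaf 4 461 461) (node 555 (merge (leaf 0 555 591) (node 554 (merge (leaf 3 521 521) (leaf 2 521 553))))))))))) (node 555 (merge (node 554 (merge (leaf 2 521 553) (node 586 (merge (leaf 1 553 585) (node 558 (merge (leaf 3 524 559) (leaf 1 554 587))))))) (merge (node 496 (merge (leaf 7 431 464) (node 494 (merge (leaf 1 492 495) (node 522 (merge (leaf 2 490 523) (node 554 (merge (leaf 3 521 521) (leaf 2 521 553))))))))) (node 588 (merge (leaf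 6 492 620) (node 558 (merge (leaf 3 524 559) (node 587 (merge (leaf 1 554 586) (node 492 (merge (leaf 5 459 460) (leaf 5 491 619)))))))))))))))))))))))))))) nP_361 cP_361 12 (by decide +kernel)
def nP_362 : ℕ := 0x100000000380000002000000080000000000000000000000000000000000000000000000000000000000000000000000000000000000000000000000000000000000000000000
def cP_362 : ℕ := 0x140000005c000000fc000000ff000000ef00000040000000df0000001f0000001c0000001c00000014000000000000000000000000000000000000000000000000000000000000000000000000000000000000000000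
theorem lP_362 : S nP_362 cP_362 11 := S_of_chk [] trivial (node 555 (merge (node 491 (merge (node 490 (merge (leaf 3 490 526) (node 489 (merge (leaf 0 488 488) (leaf 0 489 492))))) (merge (node 490 (merge (node 489 (merge (leaf 0 488 488) (leaf 0 489 492))) (node 458 (merge (leaf 7 458 587) (node 426 (merge (leaf 4 394 394) (leaf 7 426 459))))))) (node 554 (merge (leaf 1 522 526) (node 586 (merge (leaf 5 458 459) (node 618 (merge (leaf 5 490 587) (leaf 6 522 650)))))))))) (merge (node 589 (merge (node 526 (merge (leaf 1 522 554) (node 558 (merge (leaf 0 523 559) (node 590 (merge (leaf 7 493 622) (node 494 (merge (leaf 6 462 495) (leaf 5 493 621))))))))) (merge (node 492 (merge (node 460 (merge (leaf 5 427 428) (leaf 7 460 557))) (node 587 (merge (leaf 6 491 619) (node 554 (merge (leaf 1 522 526) (node 553 (merge (leaf 2 520 552) (node 588 (merge (leaf 3 553 586) (leaf 3 554 590))))))))))) (merge (node 526 (merge (leaf 1 522 554) (node 558 (merge (leaf 0 523 559) (node 494 (merge (leaf 2 491 495) (node 557 (merge (leaf 6 493 621) (node 492 (merge (leaf 7 460 460)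 (node 587 (merge (leaf 6 491 619) (node 588 (merge (leaf 2 554 586) (leaf 5 492 620))))))))))))))) (node 557 (merge (node 492 (merge (leaf 7 460 460) (leaf 7 492 621))) (merge (node 622 (merge (leaf 4 493 590) (node 621 (merge (leaf 4 525 654) (node 620 (merge (leaf 5 492 588) (leaf 5 524 652))))))) (node 559 (merge (leaf 3 524 558) (node 590 (merge (leaf 4 493 622) (node 588 (merge (leaf 2 556 591) (leaf 5 492 620)))))))))))))) (merge (node 587 (merge (node 492 (merge (leaf 6 491 619) (node 460 (merge (leaf 5 427 428) (leaf 6 459 491))))) (merge (node 619 (merge (leaf 6 491 492) (node 652 (merge (leaf 4 523 620) (node 651 (merge (leaf 4 555 684) (node 650 (merge (leaf 5 522 618) (leaf 5 554 682))))))))) (merge (node 491 (merge (node 492 (merge (leaf 6 459 460) (node 490 (merge (leaf 7 458 458) (leaf 0 489 489))))) (merge (node 458 (merge (leaf 7 458 490) (node 459 (merge (leaf 7 426 426) (node 586 (merge (leaf 5 458 554) (leaf 5 490 618))))))) (node 588 (merge (leaf 4 491 620) (node 586 (merge (leaf 5 490 618) (node 554 (merge (leaf 5 458 459) (node 553 (merge (leaf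 0 552 552) (leaf 3 553 589)))))))))))) (node 620 (merge (node 491 (merge (leaf 4 491 588) (node 458 (merge (leaf 7 458 490) (node 459 (merge (leaf 7 426 426) (node 586 (merge (leaf 5 458 554) (leaf 5 490 618))))))))) (merge (node 619 (merge (leaf 4 523 652) (node 618 (merge (leaf 5 522 650) (node 586 (merge (leaf 5 490 491) (node 585 (merge (leaf 0 584 584) (leaf 3 585 621))))))))) (node 652 (merge (leaf 4 523 619) (node 588 (merge (leaf 7 555 684) (node 589 (merge (leaf 5 492 557) (node 590 (merge (leaf 3 554 554) (node 559 (merge (leaf 2 555 558) (leaf 2 556 591)))))))))))))))))) (merge (node 587 (merge (node 491 (merge (node 490 (merge (leaf 7 458 458) (leaf 3 490 526))) (node 620 (merge (leaf 4 491 588) (node 619 (merge (leaf 4 523 652) (node 618 (merge (leaf 5 490 586) (leaf 5 522 650))))))))) (merge (node 588 (merge (node 620 (merge (leaf 4 491 491) (node 652 (merge (leaf 4 523 619) (leaf 7 555 684))))) (node 554 (merge (leaf 1 522 526) (node 553 (merge (leaf 0 552 552) (node 589 (merge (leaf 3 553 586) (leaf 3 554 590))))))))) (merge (node 491 (merge (node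 490 (merge (leaf 7 458 458) (leaf 3 490 526))) (merge (node 526 (merge (leaf 3 490 490) (leaf 1 522 554))) (merge (node 458 (merge (leaf 7 458 490) (node 459 (merge (leaf 7 426 426) (node 586 (merge (leaf 5 458 554) (leaf 5 490 618))))))) (node 554 (merge (leaf 1 522 526) (node 459 (merge (leaf 5 458 586) (node 428 (merge (leaf 6 427 460) (node 427 (merge (leaf 6 395 396) (node 426 (merge (leaf 7 394 394) (leaf 7 426 458))))))))))))))) (merge (node 619 (merge (node 652 (merge (leaf 4 523 620) (node 651 (merge (leaf 4 555 684) (node 650 (merge (leaf 5 522 618) (leaf 5 554 682))))))) (merge (node 526 (merge (leaf 1 522 554) (node 558 (merge (leaf 0 523 559) (node 590 (merge (leaf 7 493 622) (node 494 (merge (leaf 6 462 495) (node 589 (merge (leaf 5 493 621) (node 618 (merge (leaf 1 586 588) (leaf 5 522 650))))))))))))) (node 526 (merge (leaf 1 522 554) (node 558 (merge (leaf 0 523 559) (node 590 (merge (leaf 7 493 622) (node 494 (merge (leaf 6 462 495) (node 591 (merge (leaf 4 494 623) (node 620 (merge (leaf 4 523 652) (node 589 (merge (leaf 1 587 588) (leaf 5 493 621))))))))))))))))))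 (node 620 (merge (node 491 (merge (leaf 4 491 588) (node 458 (merge (leaf 7 458 490) (node 459 (merge (leaf 7 426 426) (node 586 (merge (leaf 5 458 554) (leaf 5 490 618))))))))) (merge (node 619 (merge (leaf 4 523 652) (node 618 (merge (leaf 5 522 650) (node 586 (merge (leaf 5 490 491) (node 585 (merge (leaf 0 584 584) (leaf 3 585 621))))))))) (node 652 (merge (leaf 4 523 619) (node 588 (merge (leaf 7 555 684) (node 589 (merge (leaf 5 492 557) (node 590 (merge (leaf 3 554 554) (node 559 (merge (leaf 2 555 558) (leaf 2 556 591))))))))))))))))))) (merge (node 491 (merge (node 490 (merge (leaf 3 490 526) (node 489 (merge (leaf 0 488 488) (leaf 0 489 492))))) (merge (node 490 (merge (leaf 3 490 526) (node 458 (merge (leaf 7 458 587) (node 426 (merge (leaf 4 394 394) (leaf 7 426 459))))))) (node 459 (merge (node 458 (merge (leaf 7 426 426) (node 492 (merge (leaf 3 458 494) (node 457 (merge (leaf 0 456 456) (leaf 0 457 460))))))) (merge (node 428 (merge (leaf 6 427 460) (node 427 (merge (leaf 6 395 396) (node 426 (merge (leaf 7 394 394) (leaf 7 426 458))))))) (merge (node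 426 (merge (leaf 7 426 458) (node 427 (merge (leaf 7 394 394) (node 396 (merge (leaf 6 395 428) (node 395 (merge (leaf 6 363 364) (leaf 4 395 492))))))))) (node 460 (merge (leaf 6 427 428) (node 587 (merge (leaf 6 459 492) (node 620 (merge (leaf 4 491 588) (node 619 (merge (leaf 4 523 652) (node 618 (merge (leaf 5 490 586) (leaf 5 522 650)))))))))))))))))) (merge (node 491 (merge (node 526 (merge (leaf 3 490 490) (leaf 1 522 554))) (merge (node 490 (merge (node 489 (merge (leaf 0 488 488) (leaf 0 489 492))) (node 458 (merge (leaf 7 458 587) (node 426 (merge (leaf 4 394 394) (leaf 7 426 459))))))) (node 459 (merge (node 458 (merge (leaf 7 426 426) (node 492 (merge (leaf 3 458 494) (node 457 (merge (leaf 0 456 456) (leaf 0 457 460))))))) (merge (node 428 (merge (leaf 6 427 460) (node 427 (merge (leaf 6 395 396) (node 426 (merge (leaf 7 394 394) (leaf 7 426 458))))))) (merge (node 426 (merge (leaf 7 426 458) (node 427 (merge (leaf 7 394 394) (node 396 (merge (leaf 6 395 428) (node 395 (merge (leaf 6 363 364) (leaf 4 395 492))))))))) (node 460 (merge (leaf 6 427 428)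 (node 492 (merge (leaf 6 459 587) (node 494 (merge (leaf 1 491 495) (node 589 (merge (leaf 7 460 557) (node 526 (merge (leaf 1 522 554) (node 558 (merge (leaf 0 523 559) (node 590 (merge (leaf 5 493 621) (leaf 7 493 622)))))))))))))))))))))) (node 491 (merge (node 526 (merge (leaf 3 490 490) (leaf 1 522 554))) (merge (node 490 (merge (leaf 3 490 526) (node 489 (merge (leaf 0 488 488) (leaf 0 489 492))))) (node 459 (merge (node 458 (merge (leaf 7 426 426) (node 492 (merge (leaf 3 458 494) (node 457 (merge (leaf 0 456 456) (leaf 0 457 460))))))) (merge (node 428 (merge (leaf 6 427 460) (node 427 (merge (leaf 6 395 396) (node 426 (merge (leaf 7 394 394) (leaf 7 426 458))))))) (merge (node 426 (merge (leaf 7 426 458) (node 427 (merge (leaf 7 394 394) (node 396 (merge (leaf 6 395 428) (node 395 (merge (leaf 6 363 364) (leaf 4 395 492))))))))) (merge (node 428 (merge (leaf 6 427 460) (node 427 (merge (leaf 6 395 396) (node 394 (merge (leaf 7 394 426) (node 395 (merge (leaf 7 362 362) (leaf 4 395 492))))))))) (node 428 (merge (leaf 6 427 460) (node 427 (merge (leaf 6 395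 396) (node 492 (merge (leaf 4 395 395) (node 494 (merge (leaf 3 458 458) (leaf 1 491 495)))))))))))))))))))))))) nP_362 cP_362 11 (by decide +kernel)
def nP_363 : ℕ := 0x100000000380000002000000080000000000000000000000000000000000000000000000000000000000000000000000000000000000000000000000000000000000000000000
def cP_363 : ℕ := 0x1c0000001c0000003c000000fdc00000ff800000ffc0000040000000cc0000001c0000001c0000001400000000000000000000000000000000000000000000000000000000000000000000000000000000000000000000000000
theorem lP_363 : S nP_363 cP_363 11 := S_of_chk [] trivial (node 555 (merge (node 554 (merge (leaf 1 522 526) (node 553 (merge (leaf 2 520 552) (leaf 2 521 556))))) (merge (node 491 (merge (node 490 (merge (leaf 3 490 526) (node 458 (merge (leaf 7 458 587) (node 426 (merge (leaf 4 394 394) (leaf 7 426 459))))))) (merge (node 526 (merge (leaf 3 490 490) (node 558 (merge (leaf 0 523 559) (node 590 (merge (leaf 7 493 622) (node 494 (merge (leaf 6 462 495) (node 591 (merge (leaf 4 494 623) (node 556 (merge (leaf 0 555 557) (node 589 (merge (leaf 3 555 588) (leaf 5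 493 621))))))))))))))) (node 587 (merge (node 620 (merge (leaf 4 491 588) (node 619 (merge (leaf 4 523 652) (node 618 (merge (leaf 5 490 586) (leaf 5 522 650))))))) (merge (node 588 (merge (leaf 4 491 620) (node 459 (merge (leaf 4 459 556) (node 428 (merge (leaf 6 427 460) (node 427 (merge (leaf 6 395 396) (node 426 (merge (leaf 7 394 394) (leaf 7 426 458))))))))))) (merge (node 618 (merge (leaf 5 490 586) (node 619 (merge (leaf 5 522 650) (node 556 (merge (leaf 6 523 651) (node 459 (merge (leaf 4 427 427) (leaf 4 459 588))))))))) (node 618 (merge (leaf 5 490 586) (node 619 (merge (leaf 5 522 650) (node 651 (merge (leaf 6 523 556) (node 652 (merge (leaf 4 523 620) (leaf 4 555 684)))))))))))))))) (merge (node 587 (merge (node 491 (merge (node 490 (merge (leaf 7 458 458) (leaf 3 490 526))) (node 620 (merge (leaf 4 491 588) (node 619 (merge (leaf 4 523 652) (node 618 (merge (leaf 5 490 586) (leaf 5 522 650))))))))) (merge (node 588 (merge (node 620 (merge (leaf 4 491 491) (node 652 (merge (leaf 4 523 619) (leaf 7 555 684))))) (node 554 (merge (leaf 1 522 526) (node 553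 (merge (leaf 0 552 552) (node 589 (merge (leaf 3 553 586) (leaf 3 554 590))))))))) (merge (node 491 (merge (node 490 (merge (leaf 7 458 458) (leaf 3 490 526))) (merge (node 526 (merge (leaf 3 490 490) (leaf 1 522 554))) (merge (node 458 (merge (leaf 7 458 490) (node 459 (merge (leaf 7 426 426) (node 586 (merge (leaf 5 458 554) (leaf 5 490 618))))))) (node 554 (merge (leaf 1 522 526) (node 459 (merge (leaf 5 458 586) (node 428 (merge (leaf 6 427 460) (node 427 (merge (leaf 6 395 396) (node 426 (merge (leaf 7 394 394) (leaf 7 426 458))))))))))))))) (merge (node 619 (merge (node 652 (merge (leaf 4 523 620) (node 651 (merge (leaf 4 555 684) (node 650 (merge (leaf 5 522 618) (leaf 5 554 682))))))) (merge (node 526 (merge (leaf 1 522 554) (node 558 (merge (leaf 0 523 559) (node 590 (merge (leaf 7 493 622) (node 494 (merge (leaf 6 462 495) (node 589 (merge (leaf 5 493 621) (node 618 (merge (leaf 1 586 588) (leaf 5 522 650))))))))))))) (node 526 (merge (leaf 1 522 554) (node 558 (merge (leaf 0 523 559) (node 590 (merge (leaf 7 493 622) (node 494 (merge (leaf 6 462 495) (node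 591 (merge (leaf 4 494 623) (node 620 (merge (leaf 4 523 652) (node 589 (merge (leaf 1 587 588) (leaf 5 493 621)))))))))))))))))) (node 620 (merge (node 491 (merge (leaf 4 491 588) (node 458 (merge (leaf 7 458 490) (node 459 (merge (leaf 7 426 426) (node 586 (merge (leaf 5 458 554) (leaf 5 490 618))))))))) (merge (node 619 (merge (leaf 4 523 652) (node 618 (merge (leaf 5 522 650) (node 586 (merge (leaf 5 490 491) (node 585 (merge (leaf 0 584 584) (leaf 3 585 621))))))))) (node 652 (merge (leaf 4 523 619) (node 588 (merge (leaf 7 555 684) (node 589 (merge (leaf 5 492 557) (node 590 (merge (leaf 3 554 554) (node 559 (merge (leaf 2 555 558) (leaf 2 556 591))))))))))))))))))) (node 587 (merge (node 619 (merge (node 651 (merge (leaf 6 523 556) (node 652 (merge (leaf 4 523 620) (leaf 4 555 684))))) (merge (node 651 (merge (leaf 6 523 556) (node 650 (merge (leaf 5 522 618) (leaf 5 554 682))))) (merge (node 652 (merge (leaf 4 523 620) (node 651 (merge (leaf 4 555 684) (node 650 (merge (leaf 5 522 618) (leaf 5 554 682))))))) (node 620 (merge (leaf 4 523 652) (node 588 (merge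 (leaf 6 492 556) (node 589 (merge (leaf 5 492 557) (node 618 (merge (leaf 1 586 590) (leaf 5 522 650))))))))))))) (merge (node 620 (merge (node 491 (merge (leaf 4 491 588) (node 458 (merge (leaf 7 458 490) (node 459 (merge (leaf 7 426 426) (node 586 (merge (leaf 5 458 554) (leaf 5 490 618))))))))) (merge (node 619 (merge (leaf 4 523 652) (node 618 (merge (leaf 5 522 650) (node 586 (merge (leaf 5 490 491) (node 585 (merge (leaf 0 584 584) (leaf 3 585 621))))))))) (node 652 (merge (leaf 4 523 619) (node 588 (merge (leaf 7 555 684) (node 589 (merge (leaf 5 492 557) (node 590 (merge (leaf 3 554 554) (node 559 (merge (leaf 2 555 558) (leaf 2 556 591)))))))))))))) (merge (node 586 (merge (node 618 (merge (leaf 5 490 491) (node 650 (merge (leaf 5 522 619) (leaf 6 554 682))))) (node 585 (merge (node 556 (merge (leaf 2 552 584) (node 557 (merge (leaf 1 554 558) (leaf 2 553 588))))) (merge (node 556 (merge (leaf 2 552 584) (node 557 (merge (leaf 1 553 554) (leaf 1 554 558))))) (merge (node 552 (merge (node 553 (merge (leaf 2 520 554) (leaf 3 552 588))) (merge (node 584 (merge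 (leaf 3 551 551) (node 615 (merge (leaf 1 583 616) (node 583 (merge (leaf 2 551 554) (leaf 1 582 614))))))) (node 551 (merge (leaf 3 551 584) (node 553 (merge (leaf 0 550 550) (leaf 3 552 588)))))))) (node 553 (merge (node 552 (merge (leaf 2 520 554) (leaf 3 552 588))) (merge (node 554 (merge (leaf 2 520 552) (leaf 2 521 556))) (merge (node 556 (merge (leaf 2 521 554) (node 557 (merge (leaf 1 554 558) (leaf 2 553 588))))) (node 588 (merge (leaf 3 552 552) (node 557 (merge (leaf 2 553 556) (node 558 (merge (leaf 3 524 559) (leaf 2 554 589))))))))))))))))) (merge (node 588 (merge (node 620 (merge (leaf 4 491 491) (leaf 6 492 556))) (merge (node 589 (merge (node 590 (merge (leaf 3 554 554) (node 557 (merge (leaf 5 492 620) (leaf 4 493 622))))) (merge (node 590 (merge (leaf 3 554 554) (node 559 (merge (leaf 2 555 558) (leaf 2 556 591))))) (node 557 (merge (leaf 5 492 620) (node 558 (merge (leaf 1 556 559) (leaf 2 554 586)))))))) (node 586 (merge (node 618 (merge (leaf 5 490 491) (node 650 (merge (leaf 6 522 554) (leaf 6 554 682))))) (merge (node 491 (merge (leaf 5 490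 618) (node 458 (merge (leaf 7 458 490) (node 459 (merge (leaf 7 426 426) (leaf 4 459 556))))))) (node 585 (merge (node 556 (merge (leaf 2 552 584) (node 557 (merge (leaf 1 554 558) (leaf 2 553 588))))) (merge (node 556 (merge (leaf 2 552 584) (node 557 (merge (leaf 1 553 554) (leaf 1 554 558))))) (merge (node 552 (merge (node 553 (merge (leaf 2 520 554) (leaf 3 552 588))) (merge (node 584 (merge (leaf 3 551 551) (node 615 (merge (leaf 1 583 616) (node 583 (merge (leaf 2 551 554) (leaf 1 582 614))))))) (node 551 (merge (leaf 3 551 584) (node 553 (merge (leaf 0 550 550) (leaf 3 552 588)))))))) (node 553 (merge (node 552 (merge (leaf 2 520 554) (leaf 3 552 588))) (merge (node 554 (merge (leaf 2 520 552) (leaf 2 521 556))) (merge (node 556 (merge (leaf 2 521 554) (node 557 (merge (leaf 1 554 558) (leaf 2 553 588))))) (node 588 (merge (leaf 3 552 552) (node 557 (merge (leaf 2 553 556) (node 558 (merge (leaf 3 524 559) (leaf 2 554 589))))))))))))))))))))) (merge (node 619 (merge (node 651 (merge (leaf 6 523 556) (node 652 (merge (leaf 4 523 620) (leaf 4 555 684))))) (merge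 (node 620 (merge (leaf 4 523 652) (node 588 (merge (leaf 4 491 491) (node 589 (merge (leaf 5 492 557) (node 590 (merge (leaf 3 554 554) (leaf 1 587 591))))))))) (merge (node 651 (merge (leaf 6 523 556) (node 684 (merge (leaf 4 555 652) (node 683 (merge (leaf 4 587 716) (node 586 (merge (leaf 7 554 554) (node 618 (merge (leaf 5 490 491) (leaf 7 586 715))))))))))) (node 556 (merge (leaf 6 523 651) (node 588 (merge (leaf 6 492 620) (node 491 (merge (leaf 4 459 459) (node 586 (merge (leaf 5 490 618) (node 557 (merge (leaf 1 554 558) (leaf 2 553 585))))))))))))))) (merge (node 619 (merge (node 620 (merge (leaf 4 523 652) (node 588 (merge (leaf 4 491 491) (node 589 (merge (leaf 5 492 557) (node 590 (merge (leaf 3 554 554) (leaf 1 587 591))))))))) (merge (node 651 (merge (leaf 6 523 556) (node 684 (merge (leaf 4 555 652) (node 683 (merge (leaf 4 587 716) (node 682 (merge (leaf 5 554 650) (leaf 5 586 714))))))))) (node 556 (merge (leaf 6 523 651) (node 557 (merge (node 558 (merge (leaf 3 523 559) (leaf 1 554 586))) (merge (node 588 (merge (leaf 6 492 620) (node 554 (merge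 (leaf 2 521 553) (node 589 (merge (leaf 0 554 590) (node 586 (merge (leaf 1 553 585) (node 621 (merge (leaf 0 586 622) (leaf 7 524 653))))))))))) (node 554 (merge (leaf 2 521 553) (node 590 (merge (leaf 0 554 589) (node 558 (merge (leaf 3 523 559) (leaf 0 555 591))))))))))))))) (node 619 (merge (node 651 (merge (leaf 6 523 556) (node 652 (merge (leaf 4 523 620) (leaf 4 555 684))))) (merge (node 652 (merge (leaf 4 523 620) (node 651 (merge (leaf 4 555 684) (node 650 (merge (leaf 5 522 618) (leaf 5 554 682))))))) (node 618 (merge (leaf 5 522 650) (node 491 (merge (leaf 5 490 586) (node 458 (merge (leaf 7 458 490) (node 459 (merge (leaf 7 426 426) (node 428 (merge (leaf 6 427 460) (node 427 (merge (leaf 6 395 396) (leaf 4 427 556))))))))))))))))))))))))))) nP_363 cP_363 11 (by decide +kernel)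
def nP_364 : ℕ := 0x3000000100000001300000002000000080000000800000000000000000000000000000000000000000000000000000000000000000000000000000000000000000000000000000000000
def cP_364 : ℕ := 0x1ff800000cf000002c70000004f800001df8000011f8000007f8000003e0000000e000000040000000000000000000000000000000000000000000000000000000000000000000000000000000000
theorem lP_364 : S nP_364 cP_364 12 := S_of_chk [] trivial (node 490 (merge (node 491 (merge (node 526 (merge (leaf 0 490 492) (leaf 3 490 523))) (merge (node 492 (merge (leaf 0 489 489) (leaf 0 490 526))) (merge (node 489 (merge (leaf 0 489 492) (node 523 (merge (leaf 0 488 488) (leaf 3 489 522))))) (node 523 (merge (leaf 3 490 526) (node 489 (merge (leaf 0 488 488) (leaf 3 489 522))))))))) (merge (node 464 (merge (leaf 7 431 496) (node 590 (merge (node 559 (merge (leaf 2 556 591) (node 558 (merge (leaf 1 557 561) (leaf 2 555 587))))) (merge (node 526 (merge (node 491 (merge (leaf 0 490 492) (leaf 3 490 523))) (node 558 (merge (leaf 7 493 622) (node 494 (merge (leaf 6 462 495) (leaf 5 493 621))))))) (node 591 (merge (leaf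 2 556 559) (node 623 (merge (leaf 0 588 624) (node 587 (merge (leaf 0 587 622) (node 619 (merge (leaf 1 586 618) (leaf 1 587 620)))))))))))))) (merge (node 464 (merge (leaf 7 431 496) (node 587 (merge (node 590 (merge (node 559 (merge (leaf 2 555 558) (leaf 2 556 591))) (merge (node 623 (merge (leaf 0 587 622) (node 591 (merge (leaf 0 588 624) (node 619 (merge (leaf 1 586 618) (leaf 1 587 620))))))) (node 622 (merge (leaf 0 587 623) (node 558 (merge (leaf 7 493 526) (leaf 2 555 559)))))))) (merge (node 586 (merge (node 554 (merge (leaf 3 553 553) (node 522 (merge (leaf 4 490 619) (node 523 (merge (leaf 3 489 489) (leaf 2 490 494))))))) (node 621 (merge (leaf 0 586 622) (node 585 (merge (leaf 0 585 620) (node 617 (merge (leaf 1 584 616) (leaf 1 585 618))))))))) (merge (node 622 (merge (node 590 (merge (leaf 0 587 623) (node 558 (merge (leaf 7 493 526) (leaf 2 555 559))))) (node 586 (merge (leaf 0 586 621) (node 554 (merge (leaf 3 553 553) (node 522 (merge (leaf 4 490 619) (node 523 (merge (leaf 3 489 489) (leaf 2 490 494))))))))))) (merge (node 590 (merge (node 559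 (merge (leaf 2 555 558) (leaf 2 556 591))) (node 622 (merge (leaf 0 587 623) (node 586 (merge (leaf 0 586 621) (node 617 (merge (leaf 1 585 618) (node 585 (merge (leaf 1 584 616) (node 553 (merge (leaf 3 552 552) (leaf 3 553 554))))))))))))) (node 586 (merge (node 618 (merge (leaf 1 585 617) (node 590 (merge (leaf 1 586 619) (node 559 (merge (leaf 2 555 558) (leaf 2 556 591))))))) (merge (node 617 (merge (leaf 1 585 618) (node 585 (merge (leaf 1 584 616) (node 553 (merge (leaf 3 552 552) (leaf 3 553 554))))))) (merge (node 553 (merge (leaf 3 553 554) (node 585 (merge (leaf 3 552 552) (node 620 (merge (leaf 0 585 621) (node 619 (merge (leaf 0 584 584) (node 590 (merge (leaf 1 587 591) (leaf 1 586 618))))))))))) (node 553 (merge (leaf 3 553 554) (node 585 (merge (leaf 3 552 552) (node 620 (merge (leaf 0 585 621) (node 584 (merge (leaf 0 584 619) (node 616 (merge (leaf 1 583 615) (leaf 1 584 617)))))))))))))))))))))) (merge (node 587 (merge (node 464 (merge (leaf 7 431 496) (node 590 (merge (node 559 (merge (leaf 2 555 558) (leaf 2 556 591))) (merge (node 623 (merge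 (leaf 0 587 622) (node 591 (merge (leaf 0 588 624) (node 619 (merge (leaf 1 586 618) (leaf 1 587 620))))))) (node 622 (merge (leaf 0 587 623) (node 558 (merge (leaf 7 493 526) (leaf 2 555 559)))))))))) (merge (node 622 (merge (node 621 (merge (leaf 0 586 586) (node 623 (merge (leaf 3 587 620) (leaf 3 588 624))))) (merge (node 590 (merge (leaf 0 587 623) (node 559 (merge (leaf 2 555 558) (leaf 2 556 591))))) (node 586 (merge (leaf 0 586 621) (node 618 (merge (leaf 1 585 617) (node 590 (merge (leaf 1 586 619) (node 559 (merge (leaf 2 555 558) (leaf 2 556 591)))))))))))) (merge (node 586 (merge (node 621 (merge (leaf 0 586 622) (node 585 (merge (leaf 0 585 620) (node 553 (merge (leaf 3 552 552) (leaf 3 553 554))))))) (merge (node 621 (merge (leaf 0 586 622) (node 585 (merge (leaf 0 585 620) (node 617 (merge (leaf 1 584 616) (leaf 1 585 618))))))) (node 618 (merge (leaf 1 585 617) (node 554 (merge (leaf 3 553 553) (node 522 (merge (leaf 4 490 619) (node 489 (merge (leaf 7 457 457) (leaf 7 489 521)))))))))))) (merge (node 464 (merge (leaf 7 431 496) (node 590 (merge (node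 559 (merge (leaf 2 555 558) (leaf 2 556 591))) (node 622 (merge (leaf 0 587 623) (node 586 (merge (leaf 0 586 621) (node 617 (merge (leaf 1 585 618) (node 585 (merge (leaf 1 584 616) (node 553 (merge (leaf 3 552 552) (leaf 3 553 554))))))))))))))) (merge (node 464 (merge (leaf 7 431 496) (node 586 (merge (node 618 (merge (leaf 1 585 617) (node 590 (merge (leaf 1 586 619) (node 559 (merge (leaf 2 555 558) (leaf 2 556 591))))))) (merge (node 617 (merge (leaf 1 585 618) (node 585 (merge (leaf 1 584 616) (node 553 (merge (leaf 3 552 552) (leaf 3 553 554))))))) (merge (node 553 (merge (leaf 3 553 554) (node 585 (merge (leaf 3 552 552) (node 620 (merge (leaf 0 585 621) (node 619 (merge (leaf 0 584 584) (node 590 (merge (leaf 1 587 591) (leaf 1 586 618))))))))))) (node 553 (merge (leaf 3 553 554) (node 585 (merge (leaf 3 552 552) (node 620 (merge (leaf 0 585 621) (node 584 (merge (leaf 0 584 619) (node 616 (merge (leaf 1 583 615) (leaf 1 584 617))))))))))))))))) (node 622 (merge (node 590 (merge (leaf 0 587 623) (node 559 (merge (leaf 2 555 558) (leaf 2 556 591))))) (node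 586 (merge (leaf 0 586 621) (node 554 (merge (leaf 3 553 553) (node 522 (merge (leaf 4 490 619) (node 491 (merge (leaf 6 458 459) (node 489 (merge (leaf 7 457 457) (leaf 0 489 492))))))))))))))))))) (node 464 (merge (leaf 7 431 496) (node 522 (merge (node 523 (merge (leaf 3 489 489) (leaf 2 490 494))) (merge (node 523 (merge (leaf 2 490 494) (node 553 (merge (leaf 1 521 554) (node 521 (merge (leaf 2 489 492) (leaf 1 520 552))))))) (node 458 (merge (node 457 (merge (node 425 (merge (leaf 7 425 554) (node 393 (merge (leaf 4 361 361) (leaf 4 393 489))))) (node 492 (merge (leaf 3 457 491) (node 460 (merge (leaf 0 457 459) (node 428 (merge (leaf 4 396 396) (node 429 (merge (leaf 6 396 397) (leaf 0 428 430))))))))))) (merge (node 554 (merge (node 427 (merge (leaf 6 426 459) (node 426 (merge (leaf 6 394 395) (node 553 (merge (leaf 5 425 521) (leaf 5 457 585))))))) (merge (node 459 (merge (leaf 6 426 427) (node 491 (merge (leaf 6 458 586) (node 492 (merge (leaf 0 489 489) (leaf 1 489 521))))))) (merge (node 553 (merge (leaf 5 457 585) (node 586 (merge (leaf 3 553 587) (node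 489 (merge (leaf 7 457 457) (node 521 (merge (leaf 5 425 426) (leaf 7 489 618))))))))) (node 459 (merge (leaf 6 426 427) (node 586 (merge (leaf 6 458 491) (node 585 (merge (leaf 5 457 553) (leaf 5 489 617))))))))))) (merge (node 427 (merge (node 459 (merge (leaf 6 426 554) (node 395 (merge (leaf 5 362 363) (leaf 5 394 491))))) (merge (node 395 (merge (leaf 6 394 426) (node 459 (merge (leaf 5 362 363) (leaf 5 394 491))))) (merge (node 554 (merge (leaf 6 426 459) (node 425 (merge (leaf 7 425 457) (node 426 (merge (leaf 7 393 393) (node 553 (merge (leaf 5 425 521) (leaf 5 457 585))))))))) (node 426 (merge (leaf 6 394 395) (node 425 (merge (leaf 7 393 393) (node 457 (merge (leaf 7 425 554) (node 428 (merge (leaf 1 425 429) (leaf 1 424 456))))))))))))) (merge (node 553 (merge (node 554 (merge (leaf 5 457 585) (node 457 (merge (leaf 7 425 425) (node 586 (merge (leaf 7 457 489) (leaf 3 553 587))))))) (merge (node 521 (merge (leaf 5 425 426) (node 585 (merge (leaf 6 457 489) (leaf 6 489 617))))) (node 426 (merge (leaf 5 425 521) (node 395 (merge (leaf 6 394 427) (node 394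 (merge (leaf 6 362 363) (node 393 (merge (leaf 7 361 361) (leaf 7 393 425)))))))))))) (merge (node 553 (merge (node 521 (merge (leaf 5 425 426) (node 585 (merge (leaf 6 457 489) (leaf 6 489 617))))) (merge (node 554 (merge (leaf 5 457 585) (node 459 (merge (leaf 6 426 427) (node 586 (merge (leaf 6 458 491) (node 587 (merge (leaf 3 553 589) (leaf 4 490 619))))))))) (node 426 (merge (leaf 5 425 521) (node 427 (merge (leaf 6 394 395) (node 459 (merge (leaf 6 426 554) (node 393 (merge (leaf 7 393 425) (node 394 (merge (leaf 7 361 361) (node 362 (merge (leaf 4 330 330) (leaf 4 362 491)))))))))))))))) (node 457 (merge (node 492 (merge (leaf 3 457 491) (node 460 (merge (leaf 0 457 459) (node 428 (merge (leaf 4 396 396) (node 429 (merge (leaf 6 396 397) (leaf 0 428 430))))))))) (merge (node 426 (merge (node 427 (merge (leaf 6 394 395) (node 425 (merge (leaf 7 393 393) (node 456 (merge (leaf 1 424 428) (leaf 2 423 455))))))) (merge (node 393 (merge (leaf 7 393 425) (node 394 (merge (leaf 7 361 361) (node 521 (merge (leaf 5 393 489) (leaf 5 425 553))))))) (node 395 (merge (leaf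 6 394 427) (node 394 (merge (leaf 6 362 363) (node 521 (merge (leaf 5 393 489) (leaf 5 425 553)))))))))) (node 456 (merge (node 491 (merge (leaf 0 455 455) (leaf 3 457 492))) (merge (node 426 (merge (node 427 (merge (leaf 6 394 395) (leaf 2 423 455))) (node 393 (merge (leaf 7 393 425) (node 394 (merge (leaf 7 361 361) (node 521 (merge (leaf 5 393 489) (leaf 5 425 553))))))))) (node 590 (merge (node 559 (merge (leaf 2 556 591) (node 558 (merge (leaf 1 557 561) (leaf 2 555 587))))) (node 488 (merge (node 459 (merge (leaf 1 455 487) (node 492 (merge (leaf 0 457 460) (leaf 0 456 491))))) (merge (node 459 (merge (leaf 1 455 487) (node 460 (merge (leaf 1 456 489) (node 424 (merge (leaf 3 423 423) (leaf 3 424 425))))))) (node 520 (merge (node 425 (merge (leaf 6 424 552) (node 393 (merge (leaf 4 361 361) (leaf 6 392 424))))) (node 491 (merge (leaf 3 457 492) (node 519 (merge (leaf 1 487 489) (leaf 2 487 521)))))))))))))))))))))))))))))))))) nP_364 cP_364 12 (by decide +kernel)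
def nP_365 : ℕ := 0x100000001200000002000000080000000800000000000000000000000000000000000000000000000000000000000000000000000000000000000000000000000000000000000
def cP_365 : ℕ := 0x1c0000001c0000007c000003ffc00000ff800002ffc000045f80001fdf80000f1f80001f7f80000f7e000007fe000007c40000000000000000000000000000000000000000000000000000000000000000000000000000000000
theorem lP_365 : S nP_365 cP_365 15 := S_of_chk [(nP_362, cP_362, 11), (nP_268, cP_268, 11), (nP_356, cP_356, 8), (nP_363, cP_363, 11), (nP_364, cP_364, 12)] ⟨lP_362, lP_268, lP_356, lP_363, lP_364, trivial⟩ (node 524 (merge (node 588 (merge (node 556 (merge (leaf 6 492 620) (node 492 (merge (node 491 (merge (leaf 7 459 459) (node 490 (merge (leaf 0 489 489) (leaf 0 490 526))))) (node 587 (merge (leaf 5 491 619) (node 460 (merge (leaf 5 459 555) (node 428 (merge (leaf 4 396 396) (leaf 4 428 557))))))))))) (merge (node 589 (merge (node 620 (merge (leaf 6 492 556) (leaf 5 492 557))) (merge (node 557 (merge (leaf 5 492 620) (node 492 (merge (leaf 7 460 460) (leaf 7 492 621))))) (merge (node 556 (merge (leaf 6 492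 620) (node 492 (merge (leaf 4 492 621) (node 491 (merge (leaf 7 459 459) (node 490 (merge (leaf 0 489 489) (leaf 0 490 526))))))))) (node 492 (merge (node 556 (merge (leaf 4 492 621) (node 491 (merge (leaf 7 459 459) (node 490 (merge (leaf 0 489 489) (leaf 0 490 526))))))) (node 557 (merge (leaf 7 460 460) (node 559 (merge (leaf 1 556 558) (node 590 (merge (leaf 2 556 591) (leaf 4 493 622))))))))))))) (merge (node 589 (merge (node 620 (merge (leaf 6 492 556) (leaf 5 492 557))) (merge (node 590 (merge (node 557 (merge (leaf 4 493 622) (node 492 (merge (leaf 7 460 460) (leaf 7 492 621))))) (node 559 (merge (leaf 2 556 591) (node 558 (merge (leaf 1 557 561) (leaf 2 555 587))))))) (node 556 (merge (leaf 6 492 620) (node 492 (merge (leaf 4 492 621) (node 587 (merge (leaf 5 491 619) (node 555 (merge (leaf 5 459 460) (node 554 (merge (leaf 0 553 553) (leaf 3 554 590)))))))))))))) (merge (node 556 (merge (leaf 6 492 620) (node 492 (merge (node 491 (merge (leaf 7 459 459) (node 490 (merge (leaf 0 489 489) (leaf 0 490 526))))) (node 589 (merge (leaf 4 492 621) (node 587 (merge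 (leaf 5 491 619) (node 555 (merge (leaf 5 459 460) (node 554 (merge (leaf 0 553 553) (leaf 3 554 590))))))))))))) (merge (node 589 (merge (node 620 (merge (leaf 6 492 556) (leaf 5 492 557))) (merge (node 464 (merge (leaf 7 431 496) (node 590 (merge (node 591 (merge (leaf 2 556 559) (node 620 (merge (leaf 1 587 619) (node 556 (merge (leaf 6 492 524) (leaf 3 555 555))))))) (merge (node 591 (merge (leaf 2 556 559) (node 623 (merge (leaf 0 588 624) (node 587 (merge (leaf 0 587 622) (node 555 (merge (leaf 3 554 554) (leaf 3 555 556))))))))) (merge (node 591 (merge (leaf 2 556 559) (node 623 (merge (leaf 0 588 624) (node 587 (merge (leaf 0 587 622) (node 619 (merge (leaf 1 586 618) (leaf 1 587 620))))))))) (merge (node 591 (merge (node 620 (merge (leaf 1 587 619) (node 556 (merge (leaf 6 492 524) (leaf 3 555 555))))) (merge (node 623 (merge (leaf 0 588 624) (node 587 (merge (leaf 0 587 622) (node 555 (merge (leaf 3 554 554) (leaf 3 555 556))))))) (node 623 (merge (leaf 0 588 624) (node 587 (merge (leaf 0 587 622) (node 619 (merge (leaf 1 586 618) (leaf 1 587 620))))))))))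 (node 587 (merge (node 622 (merge (leaf 0 587 623) (node 558 (merge (leaf 7 493 526) (leaf 2 555 559))))) (node 618 (merge (leaf 1 586 619) (node 586 (merge (leaf 1 585 617) (node 554 (merge (leaf 3 553 553) (leaf 3 554 555)))))))))))))))) (node 590 (merge (node 559 (merge (leaf 2 556 591) (node 558 (merge (leaf 1 557 561) (leaf 2 555 587))))) (merge (node 622 (merge (leaf 4 493 557) (node 623 (merge (leaf 0 587 587) (node 624 (merge (leaf 0 588 591) (leaf 3 588 621))))))) (merge (node 559 (merge (leaf 2 556 591) (node 558 (merge (leaf 1 557 561) (node 526 (merge (leaf 7 493 622) (node 494 (merge (leaf 6 462 495) (leaf 5 493 621))))))))) (node 558 (merge (node 526 (merge (leaf 7 493 622) (node 494 (merge (leaf 6 462 495) (leaf 5 493 621))))) (node 587 (merge (leaf 2 555 559) (node 618 (merge (leaf 1 586 619) (node 586 (merge (leaf 1 585 617) (node 554 (merge (leaf 3 553 553) (leaf 3 554 555)))))))))))))))))) (merge (node 464 (merge (leaf 7 431 496) (node 589 (merge (node 557 (merge (leaf 5 492 620) (node 492 (merge (leaf 7 460 460) (leaf 7 492 621))))) (merge (node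 557 (merge (leaf 5 492 620) (node 559 (merge (leaf 1 556 558) (node 590 (merge (leaf 2 556 591) (leaf 4 493 622))))))) (merge (node 590 (merge (node 557 (merge (leaf 4 493 622) (node 492 (merge (leaf 7 460 460) (leaf 7 492 621))))) (node 559 (merge (leaf 2 556 591) (node 558 (merge (leaf 1 557 561) (leaf 2 555 587))))))) (node 590 (merge (node 559 (merge (leaf 2 556 591) (node 558 (merge (leaf 1 557 561) (leaf 2 555 587))))) (merge (node 559 (merge (leaf 2 556 591) (node 558 (merge (leaf 1 557 561) (node 526 (merge (leaf 7 493 622) (node 494 (merge (leaf 6 462 495) (leaf 5 493 621))))))))) (merge (node 558 (merge (node 559 (merge (leaf 1 557 561) (leaf 2 555 587))) (node 526 (merge (leaf 7 493 622) (node 494 (merge (leaf 6 462 495) (leaf 5 493 621))))))) (node 587 (merge (node 622 (merge (leaf 0 587 623) (node 586 (merge (leaf 0 586 621) (node 554 (merge (leaf 3 553 553) (leaf 3 554 555))))))) (merge (node 623 (merge (leaf 0 587 622) (node 591 (merge (leaf 0 588 624) (node 619 (merge (leaf 1 586 618) (leaf 1 587 620))))))) (node 618 (merge (leaf 1 586 619) (node 586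 (merge (leaf 1 585 617) (node 554 (merge (leaf 3 553 553) (leaf 3 554 555)))))))))))))))))))) (node 464 (merge (leaf 7 431 496) (node 589 (merge (node 590 (merge (node 557 (merge (leaf 4 493 622) (node 492 (merge (leaf 7 460 460) (leaf 7 492 621))))) (node 559 (merge (leaf 2 556 591) (node 558 (merge (leaf 1 557 561) (leaf 2 555 587))))))) (merge (node 492 (merge (node 557 (merge (leaf 7 460 460) (leaf 7 492 621))) (node 491 (merge (node 490 (merge (leaf 0 489 489) (leaf 0 490 526))) (node 459 (merge (leaf 7 459 556) (node 494 (merge (leaf 3 458 458) (leaf 2 460 495))))))))) (merge (node 492 (merge (node 557 (merge (leaf 7 460 460) (node 559 (merge (leaf 1 556 558) (node 590 (merge (leaf 2 556 591) (leaf 4 493 622))))))) (node 491 (merge (node 490 (merge (leaf 0 489 489) (leaf 0 490 526))) (node 459 (merge (leaf 7 459 556) (node 494 (merge (leaf 3 458 458) (leaf 2 460 495))))))))) (merge (node 590 (merge (node 559 (merge (leaf 2 556 591) (node 558 (merge (leaf 1 556 557) (leaf 1 557 561))))) (merge (node 622 (merge (leaf 4 493 557) (node 623 (merge (leaf 0 587 587)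 (node 624 (merge (leaf 0 588 591) (leaf 3 589 625))))))) (node 558 (merge (node 559 (merge (leaf 1 557 561) (leaf 2 555 587))) (node 526 (merge (leaf 7 493 622) (node 494 (merge (leaf 6 462 495) (leaf 5 493 621)))))))))) (node 590 (merge (node 559 (merge (leaf 2 556 591) (node 558 (merge (leaf 1 557 561) (leaf 2 555 587))))) (merge (node 559 (merge (leaf 2 556 591) (node 558 (merge (leaf 1 557 561) (node 526 (merge (leaf 7 493 622) (node 494 (merge (leaf 6 462 495) (leaf 5 493 621))))))))) (merge (node 558 (merge (node 559 (merge (leaf 1 557 561) (leaf 2 555 587))) (node 526 (merge (leaf 7 493 622) (node 494 (merge (leaf 6 462 495) (leaf 5 493 621))))))) (node 623 (merge (node 622 (merge (leaf 0 587 587) (node 624 (merge (leaf 3 588 621) (leaf 3 589 625))))) (merge (node 587 (merge (leaf 0 587 622) (node 619 (merge (leaf 1 586 618) (node 555 (merge (leaf 3 554 554) (node 556 (merge (leaf 5 491 492) (leaf 3 555 591))))))))) (node 591 (merge (leaf 0 588 624) (node 556 (merge (leaf 3 555 555) (node 492 (merge (leaf 4 492 621) (node 491 (merge (leaf 7 459 459) (node 490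 (merge (leaf 0 489 489) (leaf 0 490 526)))))))))))))))))))))))))))))))) (merge (node 492 (merge (node 523 (merge (node 522 (merge (leaf 2 490 494) (leaf 2 489 521))) (node 555 (merge (node 554 (merge (leaf 1 522 526) (node 553 (merge (leaf 2 520 552) (leaf 2 521 556))))) (node 587 (merge (leaf 6 491 619) (node 460 (merge (leaf 5 427 428) (leaf 6 459 491))))))))) (merge (node 494 (merge (node 495 (merge (leaf 2 460 464) (leaf 1 492 496))) (node 491 (merge (node 490 (merge (leaf 0 489 489) (node 458 (merge (leaf 3 457 457) (leaf 3 458 459))))) (merge (node 490 (merge (leaf 0 489 489) (node 522 (merge (leaf 1 489 521) (leaf 1 490 523))))) (node 523 (merge (leaf 1 490 522) (node 459 (merge (leaf 3 458 458) (node 427 (merge (leaf 4 395 395) (leaf 4 427 556)))))))))))) (merge (node 523 (merge (node 522 (merge (leaf 2 490 494) (leaf 2 489 521))) (merge (node 522 (merge (leaf 2 489 521) (node 554 (merge (leaf 1 521 553) (node 555 (merge (leaf 1 522 526) (node 587 (merge (leaf 6 491 619) (node 460 (merge (leaf 5 427 428) (leaf 6 459 491))))))))))) (node 491 (merge (node 526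 (merge (leaf 0 490 490) (node 555 (merge (leaf 1 522 554) (node 460 (merge (leaf 5 427 428) (leaf 6 459 587))))))) (merge (node 490 (merge (leaf 0 490 526) (node 464 (merge (leaf 7 431 496) (node 494 (merge (leaf 2 460 495) (node 458 (merge (leaf 3 457 457) (leaf 3 458 459))))))))) (node 494 (merge (leaf 1 491 495) (node 459 (merge (leaf 3 458 458) (node 427 (merge (leaf 4 395 395) (node 428 (merge (leaf 6 395 396) (node 460 (merge (leaf 6 427 555) (leaf 4 428 557))))))))))))))))) (merge (node 491 (merge (node 490 (merge (leaf 0 489 489) (leaf 0 490 526))) (node 464 (merge (leaf 7 431 496) (node 494 (merge (leaf 2 460 495) (node 459 (merge (leaf 3 458 458) (node 427 (merge (leaf 4 395 395) (node 460 (merge (leaf 7 427 556) (node 428 (merge (leaf 4 396 396) (leaf 4 428 557))))))))))))))) (merge (node 523 (merge (node 555 (merge (node 554 (merge (leaf 1 522 526) (node 553 (merge (leaf 2 520 552) (leaf 2 521 556))))) (node 587 (merge (leaf 6 491 619) (node 460 (merge (leaf 5 427 428) (leaf 6 459 491))))))) (merge (node 522 (merge (leaf 2 489 521) (node 490 (merge (leaf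 3 489 489) (node 491 (merge (leaf 0 490 526) (node 458 (merge (leaf 3 457 457) (node 426 (merge (leaf 4 394 394) (leaf 4 426 555))))))))))) (merge (node 522 (merge (leaf 2 489 521) (node 554 (merge (leaf 1 521 553) (node 555 (merge (leaf 1 522 526) (node 587 (merge (leaf 6 491 619) (node 460 (merge (leaf 5 427 428) (leaf 5 459 556))))))))))) (merge (node 555 (merge (node 587 (merge (leaf 6 491 619) (node 460 (merge (leaf 5 427 428) (leaf 5 459 556))))) (merge (node 587 (merge (leaf 6 491 619) (node 522 (merge (leaf 2 489 521) (node 490 (merge (leaf 3 489 489) (node 458 (merge (leaf 4 426 426) (leaf 4 458 554))))))))) (node 522 (merge (leaf 2 489 521) (node 490 (merge (leaf 3 489 489) (node 458 (merge (leaf 4 426 426) (node 457 (merge (leaf 3 457 491) (node 460 (merge (leaf 5 427 428) (leaf 0 457 459)))))))))))))) (node 522 (merge (leaf 2 489 521) (node 490 (merge (leaf 3 489 489) (node 491 (merge (leaf 0 490 526) (node 458 (merge (leaf 3 457 457) (node 426 (merge (leaf 4 394 394) (node 427 (merge (leaf 6 394 395) (node 459 (merge (leaf 6 426 554) (leaf 4 427 556))))))))))))))))))))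 (node 523 (merge (node 522 (merge (leaf 2 490 494) (leaf 2 489 521))) (merge (node 522 (merge (leaf 2 489 521) (node 557 (merge (leaf 0 522 558) (node 460 (merge (leaf 4 428 428) (leaf 7 460 589))))))) (node 555 (merge (node 587 (merge (leaf 6 491 619) (node 460 (merge (leaf 5 427 428) (leaf 5 459 556))))) (merge (node 554 (merge (leaf 1 522 526) (node 553 (merge (leaf 2 520 552) (leaf 2 521 556))))) (node 494 (merge (leaf 1 491 495) (node 526 (merge (leaf 1 522 554) (node 558 (merge (leaf 0 523 559) (node 590 (merge (leaf 7 493 622) (node 460 (merge (leaf 5 427 428) (node 589 (merge (leaf 7 460 557) (leaf 5 493 621))))))))))))))))))))))))) (merge (node 492 (merge (node 523 (merge (node 522 (merge (leaf 2 490 494) (leaf 2 489 521))) (merge (node 522 (merge (leaf 2 489 521) (node 554 (merge (leaf 1 521 553) (node 555 (merge (leaf 1 522 526) (node 587 (merge (leaf 6 491 619) (node 460 (merge (leaf 5 427 428) (leaf 5 459 556))))))))))) (node 495 (merge (leaf 1 491 494) (node 555 (merge (node 587 (merge (leaf 6 491 619) (node 460 (merge (leaf 6 459 491) (leaf 5 459 556)))))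 (merge (node 554 (merge (leaf 1 522 526) (node 553 (merge (leaf 2 520 552) (leaf 2 521 556))))) (node 587 (merge (leaf 6 491 619) (node 491 (merge (leaf 6 459 460) (node 526 (merge (leaf 3 490 490) (leaf 1 522 554))))))))))))))) (merge (node 523 (merge (node 522 (merge (leaf 2 489 521) (node 557 (merge (leaf 0 522 558) (node 460 (merge (leaf 4 428 428) (leaf 7 460 589))))))) (node 491 (merge (node 490 (merge (leaf 0 489 489) (leaf 0 490 526))) (node 494 (merge (leaf 1 491 495) (node 459 (merge (leaf 3 458 458) (node 427 (merge (leaf 4 395 395) (leaf 4 427 556))))))))))) (merge (node 556 (merge (node 588 (merge (leaf 6 492 620) (node 491 (merge (leaf 7 459 459) (node 490 (merge (leaf 0 489 489) (leaf 0 490 526))))))) (merge (node 588 (merge (leaf 6 492 620) (node 589 (merge (leaf 4 492 621) (node 460 (merge (leaf 7 460 557) (node 587 (merge (leaf 5 459 555) (leaf 5 491 619))))))))) (node 555 (merge (node 554 (merge (leaf 2 521 553) (node 557 (merge (leaf 2 522 526) (node 589 (merge (leaf 0 554 590) (leaf 7 492 621))))))) (node 460 (merge (leaf 5 459 587) (node 427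 (merge (leaf 7 427 459) (node 428 (merge (leaf 7 395 395) (leaf 4 396 396)))))))))))) (merge (node 460 (merge (node 557 (merge (leaf 7 460 589) (node 428 (merge (leaf 4 396 396) (leaf 4 428 524))))) (merge (node 428 (merge (leaf 4 396 396) (node 523 (merge (leaf 5 427 555) (node 522 (merge (leaf 2 490 494) (leaf 2 489 521))))))) (node 556 (merge (node 588 (merge (leaf 6 492 620) (node 589 (merge (leaf 7 460 557) (leaf 4 492 621))))) (merge (node 588 (merge (leaf 6 492 620) (node 587 (merge (leaf 5 459 555) (leaf 5 491 619))))) (node 557 (merge (leaf 7 460 589) (node 558 (merge (leaf 3 524 559) (node 522 (merge (leaf 0 522 523) (node 555 (merge (leaf 5 459 587) (node 554 (merge (leaf 3 521 521) (leaf 2 521 553))))))))))))))))) (merge (node 491 (merge (node 490 (merge (leaf 0 490 526) (node 489 (merge (leaf 0 489 524) (node 457 (merge (leaf 3 456 456) (leaf 3 457 458))))))) (merge (node 490 (merge (leaf 0 490 526) (node 489 (merge (leaf 0 489 524) (node 521 (merge (leaf 1 488 520) (leaf 1 489 522))))))) (merge (node 490 (merge (leaf 0 489 489) (node 522 (merge (leaf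 1 489 521) (node 494 (merge (leaf 1 490 523) (node 458 (merge (leaf 3 457 457) (leaf 3 458 459))))))))) (node 523 (merge (node 522 (merge (leaf 2 490 494) (leaf 2 489 521))) (merge (node 494 (merge (leaf 1 491 495) (node 459 (merge (leaf 3 458 458) (node 427 (merge (leaf 4 395 395) (leaf 4 427 556))))))) (node 522 (merge (leaf 2 489 521) (node 554 (merge (leaf 1 521 553) (node 555 (merge (leaf 1 522 526) (node 459 (merge (leaf 5 426 427) (leaf 5 458 586)))))))))))))))) (node 523 (merge (node 522 (merge (leaf 2 490 494) (leaf 2 489 521))) (node 491 (merge (node 490 (merge (leaf 0 489 489) (leaf 0 490 526))) (merge (node 490 (merge (leaf 0 489 489) (node 458 (merge (leaf 3 457 457) (node 555 (merge (leaf 7 458 587) (node 426 (merge (leaf 4 394 394) (leaf 7 426 459))))))))) (node 460 (merge (node 557 (merge (leaf 4 428 428) (leaf 7 460 589))) (node 555 (merge (leaf 6 459 587) (node 554 (merge (leaf 1 522 526) (node 459 (merge (leaf 5 458 586) (node 458 (merge (leaf 7 426 426) (leaf 0 457 457)))))))))))))))))))))) (merge (node 523 (merge (node 494 (merge (leaf 2 490 522)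 (node 495 (merge (leaf 1 491 492) (leaf 2 491 526))))) (merge (node 496 (merge (leaf 7 431 464) (node 494 (merge (leaf 1 492 495) (leaf 2 490 522))))) (merge (node 464 (merge (leaf 7 431 496) (node 558 (merge (node 559 (merge (leaf 0 523 526) (leaf 3 524 557))) (merge (node 557 (merge (leaf 0 522 522) (leaf 3 524 559))) (merge (node 526 (merge (leaf 0 523 559) (node 554 (merge (leaf 1 522 555) (node 522 (merge (leaf 1 521 553) (node 490 (merge (leaf 3 489 489) (leaf 3 490 491))))))))) (node 522 (merge (leaf 0 522 557) (node 554 (merge (leaf 1 521 553) (node 526 (merge (leaf 1 522 555) (node 490 (merge (leaf 3 489 489) (leaf 3 490 491))))))))))))))) (node 491 (merge (node 490 (merge (leaf 3 490 526) (node 489 (merge (leaf 0 488 488) (leaf 0 489 492))))) (merge (node 526 (merge (leaf 3 490 490) (node 558 (merge (leaf 0 523 559) (node 555 (merge (leaf 1 522 554) (node 590 (merge (leaf 7 493 622) (node 494 (merge (leaf 6 462 495) (node 591 (merge (leaf 4 494 623) (node 556 (merge (leaf 0 555 557) (node 589 (merge (leaf 3 555 588) (leaf 5 493 621))))))))))))))))) (merge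 (node 459 (merge (node 556 (merge (leaf 4 427 427) (node 588 (merge (leaf 4 459 555) (leaf 6 492 620))))) (merge (node 427 (merge (leaf 4 427 556) (node 396 (merge (leaf 6 395 428) (node 395 (merge (leaf 6 363 364) (leaf 4 395 492))))))) (node 496 (merge (leaf 7 431 464) (node 494 (merge (leaf 1 492 495) (node 458 (merge (leaf 3 458 492) (node 555 (merge (leaf 7 426 426) (node 554 (merge (leaf 1 522 526) (leaf 5 458 586)))))))))))))) (node 459 (merge (node 556 (merge (leaf 4 427 427) (node 588 (merge (leaf 4 459 555) (leaf 6 492 620))))) (merge (node 427 (merge (leaf 4 427 556) (node 396 (merge (leaf 6 395 428) (node 395 (merge (leaf 6 363 364) (leaf 4 395 492))))))) (node 496 (merge (leaf 7 431 464) (node 494 (merge (leaf 1 492 495) (node 458 (merge (leaf 3 458 492) (node 426 (merge (leaf 7 426 555) (node 394 (merge (leaf 4 362 362) (leaf 4 394 490)))))))))))))))))))))) (merge (node 492 (merge (node 556 (merge (node 588 (merge (leaf 6 492 620) (node 491 (merge (leaf 7 459 459) (node 490 (merge (leaf 0 489 489) (leaf 0 490 526))))))) (merge (node 588 (merge (leaf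 6 492 620) (node 589 (merge (leaf 4 492 621) (node 460 (merge (leaf 7 460 557) (node 587 (merge (leaf 5 459 555) (leaf 5 491 619))))))))) (node 555 (merge (node 587 (merge (leaf 5 459 460) (node 619 (merge (leaf 6 491 523) (leaf 6 523 651))))) (merge (node 554 (merge (leaf 2 521 553) (node 526 (merge (leaf 1 522 523) (leaf 2 522 557))))) (node 554 (merge (leaf 2 521 553) (node 557 (merge (leaf 2 522 526) (node 460 (merge (leaf 5 459 587) (leaf 7 460 589))))))))))))) (merge (node 491 (merge (node 490 (merge (leaf 0 490 526) (node 489 (merge (leaf 0 489 524) (node 521 (merge (leaf 1 488 520) (leaf 1 489 522))))))) (node 464 (merge (leaf 7 431 496) (node 494 (merge (leaf 2 460 495) (node 459 (merge (leaf 3 458 458) (node 556 (merge (leaf 7 459 588) (node 427 (merge (leaf 4 395 395) (leaf 7 427 460))))))))))))) (merge (node 494 (merge (node 495 (merge (leaf 2 460 464) (leaf 1 492 496))) (node 491 (merge (node 490 (merge (leaf 0 489 489) (node 458 (merge (leaf 3 457 457) (leaf 3 458 459))))) (merge (node 490 (merge (leaf 0 489 489) (node 522 (merge (leaf 1 489 521) (leaf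 1 490 523))))) (node 523 (merge (leaf 1 490 522) (node 459 (merge (leaf 3 458 458) (node 427 (merge (leaf 4 395 395) (leaf 4 427 556)))))))))))) (merge (node 556 (merge (node 555 (merge (node 587 (merge (leaf 5 459 460) (node 619 (merge (leaf 6 491 523) (leaf 6 523 651))))) (merge (node 554 (merge (leaf 2 521 553) (node 526 (merge (leaf 1 522 523) (leaf 2 522 557))))) (node 554 (merge (leaf 2 521 553) (node 557 (merge (leaf 2 522 526) (node 460 (merge (leaf 5 459 587) (leaf 7 460 589)))))))))) (merge (node 588 (merge (leaf 6 492 620) (node 589 (merge (leaf 4 492 621) (node 557 (merge (leaf 7 460 460) (node 559 (merge (leaf 1 556 558) (node 590 (merge (leaf 2 556 591) (leaf 4 493 622))))))))))) (merge (node 588 (merge (leaf 6 492 620) (node 587 (merge (leaf 5 491 619) (node 555 (merge (leaf 5 459 460) (node 554 (merge (leaf 2 521 553) (node 523 (merge (leaf 1 522 526) (node 494 (merge (leaf 1 491 495) (leaf 2 490 522))))))))))))) (node 555 (merge (node 554 (merge (leaf 2 521 553) (node 526 (merge (leaf 1 522 523) (leaf 2 522 557))))) (merge (node 588 (merge (leaf 6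 492 620) (node 554 (merge (leaf 2 521 553) (node 589 (merge (leaf 4 492 621) (node 587 (merge (leaf 3 554 590) (leaf 5 491 619))))))))) (node 588 (merge (leaf 6 492 620) (node 589 (merge (leaf 4 492 621) (node 590 (merge (leaf 3 555 591) (node 622 (merge (leaf 4 493 557) (node 587 (merge (leaf 5 491 619) (leaf 0 587 623)))))))))))))))))) (node 523 (merge (node 522 (merge (leaf 2 490 494) (leaf 2 489 521))) (merge (node 522 (merge (leaf 2 489 521) (node 557 (merge (leaf 0 522 558) (node 589 (merge (leaf 7 460 460) (leaf 7 492 621))))))) (node 491 (merge (node 490 (merge (leaf 0 489 489) (leaf 0 490 526))) (merge (node 555 (merge (node 494 (merge (leaf 1 491 495) (node 554 (merge (leaf 1 522 526) (node 459 (merge (leaf 3 458 458) (leaf 5 458 586))))))) (node 587 (merge (leaf 6 459 460) (node 619 (merge (leaf 6 491 524) (node 620 (merge (leaf 4 491 588) (leaf 4 523 652))))))))) (node 490 (merge (leaf 0 489 489) (node 458 (merge (leaf 3 457 457) (node 555 (merge (leaf 7 458 587) (node 426 (merge (leaf 4 394 394) (leaf 7 426 459)))))))))))))))))))) (merge (node 492 (merge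 (node 460 (merge (node 557 (merge (leaf 4 428 428) (leaf 7 460 589))) (merge (node 464 (merge (leaf 7 431 496) (node 428 (merge (leaf 4 396 396) (node 429 (merge (leaf 6 396 397) (leaf 0 428 430))))))) (node 556 (merge (node 588 (merge (leaf 6 492 620) (node 587 (merge (leaf 5 459 555) (leaf 5 491 619))))) (merge (node 588 (merge (leaf 6 492 620) (node 589 (merge (leaf 4 492 621) (node 557 (merge (leaf 7 460 460) (node 559 (merge (leaf 1 556 558) (node 590 (merge (leaf 2 556 591) (leaf 4 493 622))))))))))) (node 557 (merge (leaf 7 460 589) (node 558 (merge (leaf 3 524 559) (node 555 (merge (leaf 5 459 587) (node 590 (merge (leaf 0 555 591) (node 622 (merge (leaf 7 493 526) (leaf 7 525 654))))))))))))))))) (merge (node 523 (merge (node 522 (merge (leaf 2 490 494) (leaf 2 489 521))) (merge (node 522 (merge (leaf 2 489 521) (node 557 (merge (leaf 0 522 558) (node 589 (merge (leaf 7 460 460) (leaf 7 492 621))))))) (node 491 (merge (node 490 (merge (leaf 0 489 489) (leaf 0 490 526))) (node 494 (merge (leaf 1 491 495) (node 459 (merge (leaf 3 458 458) (node 427 (merge (leaf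 4 395 395) (node 428 (merge (leaf 6 395 396) (node 460 (merge (leaf 6 427 555) (leaf 4 428 557)))))))))))))))) (node 494 (merge (node 495 (merge (leaf 2 460 464) (leaf 1 492 496))) (node 491 (merge (node 490 (merge (leaf 0 489 489) (node 458 (merge (leaf 3 457 457) (leaf 3 458 459))))) (merge (node 490 (merge (leaf 0 489 489) (node 522 (merge (leaf 1 489 521) (leaf 1 490 523))))) (node 523 (merge (leaf 1 490 522) (node 459 (merge (leaf 3 458 458) (node 427 (merge (leaf 4 395 395) (leaf 4 427 556))))))))))))))) (merge (node 492 (merge (node 494 (merge (node 495 (merge (leaf 2 460 464) (leaf 1 492 496))) (node 491 (merge (node 490 (merge (leaf 0 489 489) (node 458 (merge (leaf 3 457 457) (leaf 3 458 459))))) (merge (node 490 (merge (leaf 0 489 489) (node 522 (merge (leaf 1 489 521) (leaf 1 490 523))))) (node 523 (merge (leaf 1 490 522) (node 459 (merge (leaf 3 458 458) (node 427 (merge (leaf 4 395 395) (leaf 4 427 556)))))))))))) (merge (node 460 (merge (node 557 (merge (leaf 7 460 589) (node 428 (merge (leaf 4 396 396) (leaf 4 428 524))))) (merge (node 428 (merge (leaf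 4 396 396) (node 427 (merge (leaf 7 395 395) (node 556 (merge (leaf 7 427 459) (node 588 (merge (leaf 6 492 620) (node 587 (merge (leaf 5 459 555) (leaf 5 491 619))))))))))) (node 556 (merge (node 588 (merge (leaf 6 492 620) (node 459 (merge (leaf 7 427 427) (leaf 7 459 491))))) (merge (node 588 (merge (leaf 6 492 620) (node 589 (merge (leaf 4 492 621) (node 460 (merge (leaf 7 460 557) (node 587 (merge (leaf 5 459 555) (leaf 5 491 619))))))))) (node 557 (merge (leaf 7 460 589) (node 558 (merge (leaf 3 524 559) (node 522 (merge (leaf 0 522 523) (node 555 (merge (leaf 5 459 587) (node 554 (merge (leaf 3 521 521) (leaf 2 521 553))))))))))))))))) (merge (node 556 (merge (node 588 (merge (leaf 6 492 620) (node 587 (merge (leaf 5 491 619) (node 460 (merge (leaf 5 459 555) (node 427 (merge (leaf 7 427 459) (node 428 (merge (leaf 7 395 395) (leaf 4 396 396))))))))))) (merge (node 460 (merge (node 464 (merge (leaf 7 431 496) (node 428 (merge (leaf 4 396 396) (node 429 (merge (leaf 6 396 397) (leaf 0 428 430))))))) (node 459 (merge (leaf 7 427 427) (node 458 (merge (leaf 0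 457 457) (node 494 (merge (leaf 3 458 491) (leaf 3 459 495))))))))) (node 557 (merge (node 588 (merge (leaf 6 492 620) (node 558 (merge (leaf 3 524 559) (node 587 (merge (leaf 5 491 619) (node 586 (merge (leaf 1 554 555) (leaf 2 553 585))))))))) (merge (node 589 (merge (leaf 7 492 621) (node 558 (merge (leaf 3 524 559) (node 590 (merge (leaf 4 493 622) (node 555 (merge (leaf 0 554 554) (leaf 0 555 591))))))))) (merge (node 588 (merge (leaf 6 492 620) (node 589 (merge (leaf 7 492 621) (node 590 (merge (leaf 4 493 622) (node 591 (merge (leaf 3 555 555) (leaf 2 556 559))))))))) (merge (node 589 (merge (leaf 7 492 621) (node 559 (merge (leaf 3 524 558) (node 590 (merge (leaf 4 493 622) (node 588 (merge (leaf 2 556 591) (leaf 5 492 620))))))))) (node 588 (merge (leaf 6 492 620) (node 587 (merge (leaf 5 491 619) (node 586 (merge (leaf 2 553 585) (node 558 (merge (leaf 1 554 555) (leaf 2 554 589))))))))))))))))) (merge (node 556 (merge (node 588 (merge (leaf 6 492 620) (node 464 (merge (leaf 7 431 496) (node 587 (merge (leaf 5 491 619) (node 460 (merge (leaf 5 459 555) (node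 428 (merge (leaf 4 396 396) (node 429 (merge (leaf 6 396 397) (leaf 0 428 430))))))))))))) (merge (node 588 (merge (leaf 6 492 620) (node 589 (merge (leaf 4 492 621) (node 460 (merge (leaf 7 460 557) (node 428 (merge (leaf 4 396 396) (node 555 (merge (leaf 5 427 523) (leaf 5 459 587))))))))))) (merge (node 588 (merge (leaf 6 492 620) (node 589 (merge (leaf 4 492 621) (node 557 (merge (leaf 7 460 460) (node 559 (merge (leaf 1 556 558) (node 590 (merge (leaf 2 556 591) (leaf 4 493 622))))))))))) (merge (node 460 (merge (node 557 (merge (leaf 4 428 428) (leaf 7 460 589))) (merge (node 464 (merge (leaf 7 431 496) (node 428 (merge (leaf 4 396 396) (node 429 (merge (leaf 6 396 397) (leaf 0 428 430))))))) (node 557 (merge (leaf 7 460 589) (node 558 (merge (leaf 3 524 559) (node 522 (merge (leaf 0 522 523) (node 555 (merge (leaf 5 459 587) (node 554 (merge (leaf 3 521 521) (leaf 2 521 553)))))))))))))) (node 557 (merge (node 588 (merge (leaf 6 492 620) (node 558 (merge (leaf 3 524 559) (node 587 (merge (leaf 5 491 619) (node 586 (merge (leaf 1 554 555) (leaf 2 553 585)))))))))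 (merge (node 589 (merge (leaf 7 492 621) (node 558 (merge (leaf 3 524 559) (node 590 (merge (leaf 4 493 622) (node 555 (merge (leaf 0 554 554) (leaf 0 555 591))))))))) (merge (node 588 (merge (leaf 6 492 620) (node 589 (merge (leaf 7 492 621) (node 590 (merge (leaf 4 493 622) (node 591 (merge (leaf 3 555 555) (leaf 2 556 559))))))))) (merge (node 589 (merge (leaf 7 492 621) (node 559 (merge (leaf 3 524 558) (node 590 (merge (leaf 4 493 622) (node 588 (merge (leaf 2 556 591) (leaf 5 492 620))))))))) (node 588 (merge (leaf 6 492 620) (node 587 (merge (leaf 5 491 619) (node 586 (merge (leaf 2 553 585) (node 558 (merge (leaf 1 554 555) (leaf 2 554 589))))))))))))))))))) (node 491 (merge (node 490 (merge (leaf 0 489 489) (node 522 (merge (leaf 1 489 521) (node 494 (merge (leaf 1 490 523) (node 495 (merge (leaf 2 460 464) (leaf 1 492 496))))))))) (merge (node 490 (merge (leaf 0 489 489) (node 458 (merge (leaf 3 457 457) (node 494 (merge (leaf 3 458 459) (node 495 (merge (leaf 2 460 464) (leaf 1 492 496))))))))) (merge (node 523 (merge (node 490 (merge (leaf 0 489 489) (node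 522 (merge (leaf 1 489 521) (node 458 (merge (leaf 3 457 457) (node 426 (merge (leaf 4 394 394) (leaf 4 426 555))))))))) (merge (node 522 (merge (leaf 2 489 521) (node 554 (merge (leaf 1 521 553) (node 586 (merge (leaf 6 490 618) (node 459 (merge (leaf 5 426 427) (leaf 5 458 555))))))))) (merge (node 490 (merge (leaf 0 489 489) (node 522 (merge (leaf 1 489 521) (node 554 (merge (leaf 1 521 553) (node 586 (merge (leaf 6 458 459) (leaf 6 490 618))))))))) (node 490 (merge (leaf 0 489 489) (node 458 (merge (leaf 3 457 457) (node 555 (merge (leaf 7 458 587) (node 426 (merge (leaf 4 394 394) (leaf 7 426 459))))))))))))) (node 523 (merge (node 522 (merge (leaf 2 490 494) (leaf 2 489 521))) (merge (node 522 (merge (leaf 2 489 521) (node 554 (merge (leaf 1 521 553) (node 586 (merge (leaf 6 490 618) (node 459 (merge (leaf 5 426 427) (leaf 5 458 555))))))))) (node 494 (merge (leaf 1 491 495) (node 459 (merge (leaf 3 458 458) (node 427 (merge (leaf 4 395 395) (node 428 (merge (leaf 6 395 396) (node 460 (merge (leaf 6 427 555) (leaf 4 428 557))))))))))))))))))))))) (merge (node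 523 (merge (node 496 (merge (leaf 7 431 464) (node 494 (merge (leaf 1 492 495) (leaf 2 490 522))))) (merge (node 522 (merge (leaf 2 490 494) (node 521 (merge (leaf 2 489 492) (node 489 (merge (leaf 3 488 488) (leaf 3 489 490))))))) (merge (node 464 (merge (leaf 7 431 496) (node 522 (merge (node 553 (merge (leaf 1 521 554) (node 521 (merge (leaf 2 489 492) (leaf 1 520 552))))) (merge (node 521 (merge (leaf 2 489 492) (node 489 (merge (leaf 3 488 488) (leaf 3 489 490))))) (node 554 (merge (leaf 1 521 553) (node 526 (merge (leaf 1 522 555) (node 490 (merge (leaf 3 489 489) (leaf 3 490 491)))))))))))) (node 464 (merge (leaf 7 431 496) (hyp 0))))))) (merge (node 523 (merge (node 464 (merge (leaf 7 431 496) (node 522 (merge (node 521 (merge (leaf 2 489 492) (node 489 (merge (leaf 3 488 488) (leaf 3 489 490))))) (merge (node 557 (merge (leaf 0 522 558) (node 521 (merge (leaf 2 489 492) (leaf 0 521 556))))) (node 558 (merge (leaf 0 522 557) (node 526 (merge (leaf 0 523 559) (node 490 (merge (leaf 3 489 489) (leaf 3 490 491)))))))))))) (merge (node 464 (merge (leaf 7 431 496)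 (node 522 (merge (node 553 (merge (leaf 1 521 554) (node 521 (merge (leaf 2 489 492) (leaf 1 520 552))))) (merge (node 521 (merge (leaf 2 489 492) (node 489 (merge (leaf 3 488 488) (leaf 3 489 490))))) (node 554 (merge (leaf 1 521 553) (node 526 (merge (leaf 1 522 555) (node 490 (merge (leaf 3 489 489) (leaf 3 490 491)))))))))))) (merge (node 554 (merge (node 555 (merge (leaf 1 522 526) (node 553 (merge (leaf 2 520 552) (leaf 2 521 556))))) (merge (node 526 (merge (leaf 1 522 555) (node 558 (merge (leaf 0 523 559) (node 522 (merge (leaf 0 522 557) (node 490 (merge (leaf 3 489 489) (leaf 3 490 491))))))))) (node 522 (merge (leaf 1 521 553) (node 557 (merge (leaf 0 522 558) (node 521 (merge (leaf 0 521 556) (node 489 (merge (leaf 3 488 488) (leaf 3 489 490)))))))))))) (merge (node 464 (merge (leaf 7 431 496) (node 522 (merge (node 521 (merge (leaf 2 489 492) (node 489 (merge (leaf 3 488 488) (leaf 3 489 490))))) (node 558 (merge (leaf 0 522 557) (node 526 (merge (leaf 0 523 559) (node 554 (merge (leaf 1 521 553) (leaf 1 522 555))))))))))) (merge (node 464 (merge (leaf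 7 431 496) (node 492 (merge (node 522 (merge (leaf 2 489 521) (node 557 (merge (leaf 0 522 558) (node 589 (merge (leaf 7 460 460) (leaf 7 492 621))))))) (merge (node 555 (merge (node 554 (merge (leaf 1 522 526) (node 553 (merge (leaf 2 520 552) (leaf 2 521 556))))) (node 587 (merge (leaf 6 491 619) (node 460 (merge (leaf 5 427 428) (leaf 6 459 491))))))) (node 522 (merge (leaf 2 489 521) (node 557 (merge (leaf 0 522 558) (node 554 (merge (leaf 1 521 553) (node 555 (merge (leaf 1 522 526) (node 589 (merge (leaf 7 492 621) (node 590 (merge (leaf 0 554 556) (leaf 4 493 622)))))))))))))))))) (merge (node 464 (merge (leaf 7 431 496) (node 555 (merge (node 554 (merge (leaf 1 522 526) (node 553 (merge (leaf 2 520 552) (leaf 2 521 556))))) (merge (node 491 (merge (node 490 (merge (leaf 3 490 526) (node 489 (merge (leaf 0 488 488) (leaf 0 489 492))))) (merge (node 490 (merge (node 489 (merge (leaf 0 488 488) (leaf 0 489 492))) (node 458 (merge (leaf 7 458 587) (node 426 (merge (leaf 4 394 394) (leaf 7 426 459))))))) (node 554 (merge (leaf 1 522 526) (node 586 (merge (leaf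 5 458 459) (node 618 (merge (leaf 5 490 587) (leaf 6 522 650)))))))))) (merge (node 491 (merge (node 490 (merge (leaf 3 490 526) (node 489 (merge (leaf 0 488 488) (leaf 0 489 492))))) (node 587 (merge (node 620 (merge (leaf 4 491 588) (node 619 (merge (leaf 4 523 652) (node 618 (merge (leaf 5 490 586) (leaf 5 522 650))))))) (merge (node 588 (merge (leaf 4 491 620) (node 459 (merge (leaf 4 459 556) (node 428 (merge (leaf 6 427 460) (node 427 (merge (leaf 6 395 396) (node 426 (merge (leaf 7 394 394) (leaf 7 426 458))))))))))) (merge (node 618 (merge (leaf 5 490 586) (node 619 (merge (leaf 5 522 650) (node 556 (merge (leaf 6 523 651) (node 459 (merge (leaf 4 427 427) (leaf 4 459 588))))))))) (node 618 (merge (leaf 5 490 586) (node 619 (merge (leaf 5 522 650) (node 651 (merge (leaf 6 523 556) (node 652 (merge (leaf 4 523 620) (leaf 4 555 684))))))))))))))) (node 587 (merge (node 492 (merge (leaf 6 491 619) (node 460 (merge (leaf 5 427 428) (leaf 6 459 491))))) (merge (node 619 (merge (leaf 6 491 492) (node 556 (merge (leaf 6 523 651) (node 620 (merge (leaf 6 492 588)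 (leaf 4 523 652))))))) (merge (node 491 (merge (node 492 (merge (leaf 6 459 460) (node 490 (merge (leaf 7 458 458) (leaf 0 489 489))))) (merge (node 588 (merge (leaf 4 491 620) (node 459 (merge (leaf 4 459 556) (node 586 (merge (leaf 5 458 554) (leaf 5 490 618))))))) (node 588 (merge (leaf 4 491 620) (node 459 (merge (leaf 4 459 556) (node 586 (merge (leaf 5 458 554) (leaf 5 490 618)))))))))) (node 556 (merge (node 620 (merge (leaf 6 492 588) (node 619 (merge (leaf 6 523 651) (leaf 4 523 652))))) (merge (node 588 (merge (leaf 6 492 620) (node 491 (merge (leaf 4 459 459) (node 586 (merge (leaf 5 490 618) (node 557 (merge (leaf 1 554 558) (leaf 2 553 585))))))))) (node 619 (merge (leaf 6 523 651) (node 618 (merge (leaf 5 522 650) (node 491 (merge (leaf 5 490 586) (node 458 (merge (leaf 7 458 490) (node 459 (merge (leaf 7 426 426) (leaf 4 427 427)))))))))))))))))))))))) (hyp 1)))))))) (merge (node 523 (merge (node 494 (merge (leaf 2 490 522) (node 495 (merge (leaf 1 491 492) (leaf 2 491 526))))) (merge (node 496 (merge (leaf 7 431 464) (node 494 (merge (leaf 1 492 495)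 (leaf 2 490 522))))) (merge (node 464 (merge (leaf 7 431 496) (node 522 (merge (node 553 (merge (leaf 1 521 554) (node 521 (merge (leaf 2 489 492) (leaf 1 520 552))))) (merge (node 521 (merge (leaf 2 489 492) (node 489 (merge (leaf 3 488 488) (leaf 3 489 490))))) (node 554 (merge (leaf 1 521 553) (node 526 (merge (leaf 1 522 555) (node 490 (merge (leaf 3 489 489) (leaf 3 490 491)))))))))))) (node 430 (merge (node 464 (merge (leaf 7 431 496) (node 429 (merge (leaf 0 428 428) (node 465 (merge (leaf 0 429 432) (leaf 3 430 466))))))) (node 491 (merge (node 490 (merge (leaf 3 490 526) (node 489 (merge (leaf 0 488 488) (leaf 0 489 492))))) (merge (node 555 (merge (node 554 (merge (leaf 1 522 526) (node 553 (merge (leaf 2 520 552) (leaf 2 521 556))))) (merge (node 554 (merge (node 553 (merge (leaf 2 520 552) (leaf 2 521 556))) (node 586 (merge (leaf 5 458 459) (node 618 (merge (leaf 5 490 587) (leaf 6 522 650))))))) (node 490 (merge (leaf 3 490 526) (node 458 (merge (leaf 7 458 587) (node 426 (merge (leaf 4 394 394) (leaf 7 426 459)))))))))) (merge (node 555 (merge (node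 554 (merge (leaf 1 522 526) (node 553 (merge (leaf 2 520 552) (leaf 2 521 556))))) (merge (node 554 (merge (leaf 1 522 526) (node 586 (merge (leaf 5 458 459) (node 618 (merge (leaf 5 490 587) (leaf 6 522 650))))))) (node 492 (merge (node 587 (merge (leaf 6 459 460) (leaf 6 491 619))) (node 494 (merge (leaf 1 491 495) (node 459 (merge (leaf 3 458 458) (node 556 (merge (leaf 4 427 427) (leaf 7 459 588)))))))))))) (node 459 (merge (node 556 (merge (leaf 4 427 427) (node 588 (merge (leaf 7 459 492) (leaf 6 492 620))))) (merge (node 556 (merge (leaf 4 427 427) (node 588 (merge (leaf 4 459 555) (leaf 6 492 620))))) (node 458 (merge (node 492 (merge (leaf 3 458 494) (node 457 (merge (leaf 0 456 456) (leaf 0 457 460))))) (node 426 (merge (leaf 7 426 555) (node 394 (merge (leaf 4 362 362) (leaf 4 394 490)))))))))))))))))))) (merge (node 464 (merge (leaf 7 431 496) (node 432 (merge (node 430 (merge (node 465 (merge (leaf 0 429 429) (leaf 3 430 466))) (merge (node 400 (merge (node 368 (merge (leaf 5 335 336) (leaf 5 367 495))) (node 401 (merge (leaf 2 397 429) (node 402 (merge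 (leaf 1 399 403) (leaf 2 398 433))))))) (node 368 (merge (node 400 (merge (leaf 5 335 336) (leaf 5 367 495))) (merge (node 465 (merge (leaf 3 430 466) (node 400 (merge (leaf 5 367 495) (leaf 4 368 497))))) (node 433 (merge (node 466 (merge (leaf 0 430 465) (node 434 (merge (leaf 1 431 435) (leaf 0 431 467))))) (merge (node 434 (merge (leaf 1 431 435) (node 402 (merge (leaf 2 398 401) (leaf 2 399 403))))) (node 465 (merge (leaf 0 430 466) (node 401 (merge (leaf 2 398 402) (node 369 (merge (leaf 7 336 336) (leaf 5 336 337)))))))))))))))) (merge (node 523 (merge (node 494 (merge (leaf 2 490 522) (node 495 (merge (leaf 1 491 492) (leaf 2 491 526))))) (merge (node 522 (merge (leaf 2 490 494) (node 557 (merge (leaf 0 522 558) (node 521 (merge (leaf 0 521 556) (node 489 (merge (leaf 3 488 488) (leaf 3 489 490))))))))) (merge (node 522 (merge (node 521 (merge (leaf 2 489 492) (node 489 (merge (leaf 3 488 488) (leaf 3 489 490))))) (node 558 (merge (leaf 0 522 557) (node 526 (merge (leaf 0 523 559) (node 554 (merge (leaf 1 521 553) (leaf 1 522 555))))))))) (node 555 (merge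 (node 554 (merge (leaf 1 522 526) (node 553 (merge (leaf 2 520 552) (leaf 2 521 556))))) (merge (node 589 (merge (node 526 (merge (leaf 1 522 554) (node 558 (merge (leaf 0 523 559) (node 590 (merge (leaf 7 493 622) (node 494 (merge (leaf 6 462 495) (leaf 5 493 621))))))))) (merge (node 492 (merge (node 460 (merge (leaf 5 427 428) (leaf 7 460 557))) (node 587 (merge (leaf 6 491 619) (node 554 (merge (leaf 1 522 526) (node 553 (merge (leaf 2 520 552) (node 588 (merge (leaf 3 553 586) (leaf 3 554 590))))))))))) (merge (node 526 (merge (leaf 1 522 554) (node 558 (merge (leaf 0 523 559) (node 494 (merge (leaf 2 491 495) (node 557 (merge (leaf 6 493 621) (node 492 (merge (leaf 7 460 460) (node 587 (merge (leaf 6 491 619) (node 588 (merge (leaf 2 554 586) (leaf 5 492 620))))))))))))))) (node 557 (merge (node 492 (merge (leaf 7 460 460) (leaf 7 492 621))) (merge (node 622 (merge (leaf 4 493 590) (node 621 (merge (leaf 4 525 654) (node 620 (merge (leaf 5 492 588) (leaf 5 524 652))))))) (node 559 (merge (leaf 3 524 558) (node 590 (merge (leaf 4 493 622) (node 588 (merge (leaf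 2 556 591) (leaf 5 492 620)))))))))))))) (merge (node 587 (merge (node 492 (merge (leaf 6 491 619) (node 460 (merge (leaf 5 427 428) (leaf 5 459 556))))) (merge (node 619 (merge (leaf 6 491 492) (node 652 (merge (leaf 4 523 620) (node 651 (merge (leaf 4 555 684) (node 650 (merge (leaf 5 522 618) (leaf 5 554 682))))))))) (merge (node 619 (merge (node 651 (merge (leaf 6 523 556) (node 652 (merge (leaf 4 523 620) (leaf 4 555 684))))) (merge (node 651 (merge (leaf 6 523 556) (node 650 (merge (leaf 5 522 618) (leaf 5 554 682))))) (merge (node 652 (merge (leaf 4 523 620) (node 651 (merge (leaf 4 555 684) (node 650 (merge (leaf 5 522 618) (leaf 5 554 682))))))) (node 620 (merge (leaf 4 523 652) (node 588 (merge (leaf 6 492 556) (node 589 (merge (leaf 5 492 557) (node 618 (merge (leaf 1 586 590) (leaf 5 522 650))))))))))))) (node 557 (merge (node 589 (merge (node 492 (merge (leaf 7 460 460) (leaf 7 492 621))) (node 558 (merge (leaf 3 524 559) (node 588 (merge (leaf 2 554 586) (leaf 5 492 620))))))) (merge (node 558 (merge (leaf 3 524 559) (node 556 (merge (leaf 1 554 586)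 (node 590 (merge (leaf 0 555 591) (node 622 (merge (leaf 7 493 526) (leaf 7 525 654))))))))) (merge (node 589 (merge (node 492 (merge (leaf 7 460 460) (leaf 7 492 621))) (node 588 (merge (leaf 5 492 620) (node 590 (merge (leaf 4 493 622) (node 591 (merge (leaf 3 555 556) (leaf 2 556 559))))))))) (node 492 (merge (node 589 (merge (leaf 7 460 460) (leaf 7 492 621))) (merge (node 460 (merge (leaf 5 427 428) (leaf 5 459 556))) (node 589 (merge (leaf 7 492 621) (node 590 (merge (leaf 4 493 622) (node 588 (merge (leaf 5 492 620) (node 586 (merge (leaf 2 554 558) (node 556 (merge (leaf 2 553 585) (leaf 3 555 591)))))))))))))))))))))) (hyp 2))))))))) (node 433 (merge (node 434 (merge (leaf 1 431 435) (node 466 (merge (leaf 0 431 467) (node 430 (merge (leaf 0 430 465) (node 429 (merge (leaf 0 428 428) (node 397 (merge (leaf 3 396 396) (leaf 3 397 398))))))))))) (merge (node 434 (merge (leaf 1 431 435) (node 402 (merge (leaf 2 399 403) (node 430 (merge (leaf 2 398 401) (node 429 (merge (leaf 0 428 428) (node 397 (merge (leaf 3 396 396) (leaf 3 397 398))))))))))) (merge (node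 465 (merge (node 434 (merge (leaf 1 431 435) (node 466 (merge (leaf 0 431 467) (node 402 (merge (leaf 2 399 403) (node 370 (merge (leaf 5 337 338) (leaf 5 369 497))))))))) (merge (node 434 (merge (leaf 1 431 435) (node 466 (merge (leaf 0 431 467) (node 498 (merge (leaf 0 463 499) (node 401 (merge (leaf 4 369 369) (leaf 7 401 530))))))))) (merge (node 466 (merge (leaf 3 431 467) (node 498 (merge (leaf 0 463 499) (node 401 (merge (leaf 4 369 369) (node 497 (merge (leaf 4 401 530) (node 402 (merge (leaf 6 369 370) (node 400 (merge (leaf 7 368 368) (leaf 1 399 403))))))))))))) (node 434 (merge (leaf 1 431 435) (node 402 (merge (leaf 2 399 403) (node 370 (merge (leaf 5 337 338) (node 401 (merge (leaf 6 369 497) (node 369 (merge (leaf 5 336 337) (node 368 (merge (leaf 7 336 336) (node 367 (merge (leaf 0 366 366) (node 335 (merge (leaf 3 334 334) (leaf 7 335 400))))))))))))))))))))) (node 465 (merge (node 466 (merge (leaf 0 430 430) (leaf 3 431 467))) (merge (node 466 (merge (leaf 3 431 467) (node 498 (merge (leaf 0 463 499) (node 401 (merge (leaf 4 369 369) (node 497 (merge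 (leaf 4 401 530) (node 402 (merge (leaf 6 369 370) (node 400 (merge (leaf 7 368 368) (leaf 1 399 403))))))))))))) (node 430 (merge (leaf 0 429 429) (node 401 (merge (leaf 2 398 402) (node 398 (merge (leaf 3 397 397) (node 366 (merge (leaf 4 334 334) (node 369 (merge (leaf 5 336 337) (node 368 (merge (leaf 7 336 336) (node 400 (merge (leaf 7 368 497) (node 367 (merge (leaf 7 335 335) (leaf 0 365 365))))))))))))))))))))))))))))) (merge (node 492 (merge (node 523 (merge (node 494 (merge (leaf 1 491 495) (leaf 2 490 522))) (node 555 (merge (node 554 (merge (leaf 1 522 526) (node 553 (merge (leaf 2 520 552) (leaf 2 521 556))))) (node 587 (merge (leaf 6 491 619) (node 460 (merge (leaf 5 427 428) (leaf 6 459 491))))))))) (merge (node 460 (merge (node 557 (merge (leaf 4 428 428) (leaf 7 460 589))) (merge (node 464 (merge (leaf 7 431 496) (node 428 (merge (leaf 4 396 396) (node 429 (merge (leaf 6 396 397) (leaf 0 428 430))))))) (node 556 (merge (node 588 (merge (leaf 6 492 620) (node 587 (merge (leaf 5 459 555) (leaf 5 491 619))))) (merge (node 588 (merge (leaf 6 492 620)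 (node 589 (merge (leaf 4 492 621) (node 557 (merge (leaf 7 460 460) (node 559 (merge (leaf 1 556 558) (node 590 (merge (leaf 2 556 591) (leaf 4 493 622))))))))))) (node 557 (merge (leaf 7 460 589) (node 558 (merge (leaf 3 524 559) (node 555 (merge (leaf 5 459 587) (node 590 (merge (leaf 0 555 591) (node 622 (merge (leaf 7 493 526) (leaf 7 525 654))))))))))))))))) (merge (node 589 (merge (node 557 (merge (leaf 7 460 460) (node 621 (merge (leaf 7 492 524) (node 620 (merge (leaf 5 492 588) (leaf 5 524 652))))))) (merge (node 557 (merge (leaf 7 460 460) (node 559 (merge (leaf 3 524 558) (node 590 (merge (leaf 4 493 622) (node 588 (merge (leaf 2 556 591) (leaf 5 492 620))))))))) (merge (node 557 (merge (leaf 7 492 621) (node 559 (merge (leaf 3 524 558) (node 590 (merge (leaf 4 493 622) (node 588 (merge (leaf 2 556 591) (leaf 5 492 620))))))))) (node 523 (merge (node 522 (merge (leaf 2 490 494) (leaf 2 489 521))) (merge (node 522 (merge (leaf 2 489 521) (node 554 (merge (leaf 1 521 553) (node 555 (merge (leaf 1 522 526) (node 587 (merge (leaf 6 491 619) (node 460 (merge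 (leaf 5 427 428) (leaf 6 459 491))))))))))) (node 555 (merge (node 587 (merge (leaf 6 491 619) (node 460 (merge (leaf 5 427 428) (leaf 6 459 491))))) (node 526 (merge (leaf 1 522 554) (node 558 (merge (leaf 0 523 559) (node 590 (merge (leaf 7 493 622) (node 494 (merge (leaf 6 462 495) (leaf 5 493 621)))))))))))))))))) (merge (node 464 (merge (leaf 7 431 496) (node 465 (merge (node 466 (merge (leaf 3 430 430) (node 499 (merge (leaf 0 463 498) (node 467 (merge (leaf 0 464 500) (node 435 (merge (leaf 2 431 434) (leaf 2 432 436))))))))) (node 460 (merge (node 557 (merge (leaf 4 428 428) (leaf 7 460 589))) (merge (node 494 (merge (leaf 2 460 495) (node 428 (merge (leaf 4 396 396) (node 427 (merge (leaf 7 395 395) (node 459 (merge (leaf 7 427 556) (node 458 (merge (leaf 0 457 457) (leaf 3 458 491))))))))))) (node 556 (merge (node 588 (merge (leaf 6 492 620) (node 589 (merge (leaf 7 460 557) (leaf 4 492 621))))) (node 459 (merge (leaf 7 427 427) (node 458 (merge (leaf 0 457 457) (node 494 (merge (leaf 3 458 491) (leaf 3 459 495)))))))))))))))) (node 589 (merge (node 588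 (merge (node 557 (merge (leaf 5 492 620) (leaf 7 492 621))) (merge (node 620 (merge (leaf 6 492 556) (leaf 5 492 557))) (merge (node 556 (merge (leaf 6 492 620) (leaf 4 492 621))) (node 621 (merge (leaf 4 492 556) (leaf 7 492 557))))))) (merge (node 557 (merge (leaf 7 492 621) (node 559 (merge (leaf 3 524 558) (node 590 (merge (leaf 4 493 622) (node 588 (merge (leaf 2 556 591) (leaf 5 492 620))))))))) (merge (node 555 (merge (node 557 (merge (leaf 7 492 621) (node 558 (merge (leaf 3 524 559) (node 590 (merge (leaf 4 493 622) (node 556 (merge (leaf 0 554 554) (leaf 0 555 591))))))))) (merge (node 464 (merge (leaf 7 431 496) (node 494 (merge (leaf 2 460 495) (node 523 (merge (leaf 2 490 522) (node 554 (merge (leaf 1 522 526) (node 553 (merge (leaf 2 520 552) (leaf 2 521 556))))))))))) (merge (node 496 (merge (leaf 7 431 464) (node 494 (merge (leaf 1 492 495) (node 523 (merge (leaf 2 490 522) (node 526 (merge (leaf 1 522 554) (node 558 (merge (leaf 0 523 559) (node 590 (merge (leaf 5 493 621) (leaf 7 493 622))))))))))))) (node 557 (merge (leaf 7 492 621) (node 558 (merge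 (leaf 3 524 559) (node 523 (merge (leaf 0 522 522) (node 587 (merge (leaf 6 491 619) (node 556 (merge (leaf 1 554 586) (node 590 (merge (leaf 0 555 591) (leaf 4 493 622))))))))))))))))) (merge (node 588 (merge (node 620 (merge (leaf 6 492 556) (leaf 5 492 557))) (merge (node 557 (merge (leaf 5 492 620) (node 559 (merge (leaf 1 556 558) (node 590 (merge (leaf 2 556 591) (leaf 4 493 622))))))) (merge (node 590 (merge (node 559 (merge (leaf 2 556 591) (node 558 (merge (leaf 1 557 561) (leaf 2 555 587))))) (merge (node 622 (merge (leaf 4 493 557) (node 587 (merge (leaf 0 587 623) (node 619 (merge (leaf 5 491 556) (leaf 1 586 618))))))) (node 559 (merge (leaf 2 556 591) (node 558 (merge (leaf 1 557 561) (node 526 (merge (leaf 0 523 523) (leaf 7 493 622)))))))))) (node 590 (merge (node 496 (merge (leaf 7 431 464) (node 494 (merge (leaf 1 492 495) (node 523 (merge (leaf 2 490 522) (node 559 (merge (leaf 2 556 591) (node 558 (merge (leaf 0 523 526) (leaf 1 557 561))))))))))) (merge (node 620 (merge (leaf 6 492 556) (node 619 (merge (leaf 1 587 591) (node 618 (merge (leaf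 1 586 587) (leaf 2 585 617))))))) (node 556 (merge (leaf 6 492 620) (node 587 (merge (leaf 5 491 619) (node 622 (merge (leaf 0 587 623) (node 558 (merge (leaf 7 493 526) (leaf 2 555 559)))))))))))))))) (node 588 (merge (node 556 (merge (leaf 6 492 620) (leaf 4 492 621))) (merge (node 590 (merge (node 556 (merge (leaf 4 492 621) (node 555 (merge (leaf 3 555 591) (node 587 (merge (leaf 3 554 554) (leaf 5 491 619))))))) (merge (node 559 (merge (leaf 2 556 591) (node 558 (merge (leaf 1 557 561) (node 526 (merge (leaf 0 523 523) (leaf 7 493 622))))))) (node 558 (merge (node 559 (merge (leaf 1 557 561) (leaf 2 555 587))) (node 526 (merge (leaf 7 493 622) (node 494 (merge (leaf 6 462 495) (leaf 5 493 621)))))))))) (merge (node 590 (merge (node 496 (merge (leaf 7 431 464) (node 494 (merge (leaf 1 492 495) (node 523 (merge (leaf 2 490 522) (node 559 (merge (leaf 2 556 591) (node 558 (merge (leaf 0 523 526) (leaf 1 557 561))))))))))) (merge (node 620 (merge (leaf 6 492 556) (node 619 (merge (leaf 1 587 591) (node 618 (merge (leaf 1 586 587) (leaf 2 585 617))))))) (node 556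 (merge (leaf 6 492 620) (node 587 (merge (leaf 5 491 619) (node 622 (merge (leaf 0 587 623) (node 558 (merge (leaf 7 493 526) (leaf 2 555 559)))))))))))) (node 590 (merge (node 559 (merge (leaf 2 556 591) (node 558 (merge (leaf 1 557 561) (leaf 2 555 587))))) (merge (node 559 (merge (leaf 2 556 591) (node 558 (merge (leaf 1 557 561) (node 526 (merge (leaf 0 523 523) (leaf 7 493 622))))))) (merge (node 558 (merge (node 559 (merge (leaf 1 557 561) (leaf 2 555 587))) (node 526 (merge (leaf 7 493 622) (node 494 (merge (leaf 6 462 495) (leaf 5 493 621))))))) (node 619 (merge (node 620 (merge (leaf 1 587 591) (node 618 (merge (leaf 2 585 617) (leaf 2 586 621))))) (merge (node 591 (merge (leaf 1 587 620) (node 623 (merge (leaf 0 588 624) (node 587 (merge (leaf 0 587 622) (node 555 (merge (leaf 6 491 523) (leaf 3 554 554))))))))) (node 464 (merge (leaf 7 431 496) (node 494 (merge (leaf 2 460 495) (node 523 (merge (leaf 2 490 522) (node 587 (merge (leaf 6 491 555) (node 618 (merge (leaf 1 586 590) (node 617 (merge (leaf 1 585 586) (leaf 2 584 616))))))))))))))))))))))))))))))))))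 (merge (node 523 (merge (node 496 (merge (leaf 7 431 464) (node 494 (merge (leaf 1 492 495) (leaf 2 490 522))))) (merge (node 522 (merge (leaf 2 490 494) (node 554 (merge (leaf 1 521 553) (node 526 (merge (leaf 1 522 555) (node 490 (merge (leaf 3 489 489) (leaf 3 490 491))))))))) (merge (node 464 (merge (leaf 7 431 496) (node 558 (merge (node 559 (merge (leaf 0 523 526) (leaf 3 524 557))) (merge (node 557 (merge (leaf 0 522 522) (leaf 3 524 559))) (merge (node 526 (merge (leaf 0 523 559) (node 554 (merge (leaf 1 522 555) (node 522 (merge (leaf 1 521 553) (node 490 (merge (leaf 3 489 489) (leaf 3 490 491))))))))) (node 522 (merge (leaf 0 522 557) (node 554 (merge (leaf 1 521 553) (node 526 (merge (leaf 1 522 555) (node 490 (merge (leaf 3 489 489) (leaf 3 490 491))))))))))))))) (node 464 (merge (leaf 7 431 496) (hyp 3))))))) (node 589 (merge (node 557 (merge (node 492 (merge (leaf 7 460 460) (node 621 (merge (leaf 7 492 524) (node 622 (merge (leaf 4 493 590) (leaf 4 525 654))))))) (merge (node 590 (merge (leaf 4 493 622) (node 588 (merge (leaf 5 492 620) (node 559 (merge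 (leaf 1 556 558) (leaf 2 556 591))))))) (node 492 (merge (leaf 7 460 460) (node 621 (merge (leaf 7 492 524) (node 620 (merge (leaf 5 492 588) (leaf 5 524 652)))))))))) (merge (node 588 (merge (node 620 (merge (leaf 6 492 556) (leaf 5 492 557))) (merge (node 557 (merge (leaf 5 492 620) (node 492 (merge (leaf 7 460 460) (leaf 7 492 621))))) (merge (node 556 (merge (leaf 6 492 620) (node 492 (merge (leaf 4 492 621) (node 491 (merge (leaf 7 459 459) (node 490 (merge (leaf 0 489 489) (leaf 0 490 526))))))))) (node 492 (merge (node 557 (merge (leaf 7 460 460) (leaf 7 492 621))) (node 491 (merge (node 490 (merge (leaf 0 489 489) (leaf 0 490 526))) (node 464 (merge (leaf 7 431 496) (node 459 (merge (leaf 7 459 556) (node 494 (merge (leaf 3 458 458) (leaf 2 460 495))))))))))))))) (merge (node 557 (merge (node 559 (merge (leaf 3 524 558) (node 590 (merge (leaf 4 493 622) (node 588 (merge (leaf 2 556 591) (leaf 5 492 620))))))) (merge (node 496 (merge (leaf 7 431 464) (node 494 (merge (leaf 1 492 495) (node 621 (merge (leaf 6 493 526) (node 620 (merge (leaf 5 492 588) (leaf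 5 524 652))))))))) (node 496 (merge (leaf 7 431 464) (node 494 (merge (leaf 1 492 495) (node 621 (merge (leaf 6 493 526) (node 622 (merge (leaf 4 493 590) (leaf 4 525 654)))))))))))) (merge (node 492 (merge (node 557 (merge (leaf 7 460 460) (node 621 (merge (leaf 7 492 524) (node 622 (merge (leaf 4 493 590) (leaf 4 525 654))))))) (node 464 (merge (leaf 7 431 496) (node 491 (merge (node 490 (merge (leaf 0 489 489) (leaf 0 490 526))) (node 494 (merge (leaf 2 460 495) (node 459 (merge (leaf 3 458 458) (node 556 (merge (leaf 7 459 588) (node 427 (merge (leaf 4 395 395) (leaf 4 427 523))))))))))))))) (merge (node 492 (merge (node 464 (merge (leaf 7 431 496) (node 460 (merge (leaf 7 460 557) (node 428 (merge (leaf 4 396 396) (node 429 (merge (leaf 6 396 397) (leaf 0 428 430))))))))) (merge (node 557 (merge (leaf 7 460 460) (node 559 (merge (leaf 3 524 558) (node 590 (merge (leaf 4 493 622) (node 588 (merge (leaf 2 556 591) (leaf 5 492 620))))))))) (node 464 (merge (leaf 7 431 496) (node 491 (merge (node 490 (merge (leaf 0 489 489) (leaf 0 490 526))) (node 494 (merge (leaf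 2 460 495) (node 459 (merge (leaf 3 458 458) (node 556 (merge (leaf 7 459 588) (node 427 (merge (leaf 4 395 395) (leaf 4 427 523)))))))))))))))) (merge (node 464 (merge (leaf 7 431 496) (node 557 (merge (node 621 (merge (leaf 7 492 492) (node 622 (merge (leaf 4 493 590) (leaf 4 525 654))))) (merge (node 622 (merge (leaf 4 493 590) (node 621 (merge (leaf 4 525 654) (node 653 (merge (leaf 7 524 556) (node 652 (merge (leaf 5 524 620) (leaf 5 556 684))))))))) (node 492 (merge (node 460 (merge (leaf 7 460 589) (node 428 (merge (leaf 4 396 396) (leaf 4 428 524))))) (node 491 (merge (node 490 (merge (leaf 0 490 526) (node 494 (merge (leaf 2 460 495) (node 458 (merge (leaf 3 457 457) (leaf 3 458 459))))))) (merge (node 490 (merge (leaf 0 490 526) (node 489 (merge (leaf 0 489 524) (node 521 (merge (leaf 1 488 520) (leaf 1 489 522))))))) (node 494 (merge (leaf 2 460 495) (node 523 (merge (leaf 1 490 522) (node 459 (merge (leaf 3 458 458) (node 427 (merge (leaf 4 395 395) (leaf 4 427 556))))))))))))))))))) (node 588 (merge (node 556 (merge (leaf 6 492 620) (node 492 (merge (leaf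 4 492 621) (node 491 (merge (leaf 7 459 459) (node 490 (merge (leaf 0 489 489) (leaf 0 490 526))))))))) (merge (node 556 (merge (leaf 6 492 620) (node 492 (merge (leaf 4 492 621) (node 459 (merge (leaf 7 459 491) (node 460 (merge (leaf 7 427 427) (node 428 (merge (leaf 4 396 396) (node 429 (merge (leaf 6 396 397) (leaf 1 427 430))))))))))))) (merge (node 491 (merge (node 556 (merge (leaf 6 492 620) (node 492 (merge (leaf 7 459 459) (node 490 (merge (leaf 0 489 489) (leaf 0 490 526))))))) (merge (node 496 (merge (leaf 7 431 464) (node 494 (merge (leaf 1 492 495) (node 523 (merge (leaf 2 490 522) (node 490 (merge (leaf 3 490 526) (node 489 (merge (leaf 0 488 488) (leaf 0 489 492))))))))))) (merge (node 556 (merge (leaf 6 492 620) (node 496 (merge (leaf 7 431 464) (node 459 (merge (leaf 7 459 492) (node 494 (merge (leaf 1 492 495) (node 523 (merge (leaf 4 427 427) (leaf 2 490 522))))))))))) (node 620 (merge (leaf 6 492 556) (node 496 (merge (leaf 7 431 464) (node 494 (merge (leaf 1 492 495) (node 523 (merge (leaf 2 490 522) (node 526 (merge (leaf 3 490 490) (node 558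 (merge (leaf 0 523 559) (node 590 (merge (leaf 7 493 622) (node 591 (merge (leaf 1 587 619) (leaf 4 494 623))))))))))))))))))))) (merge (node 523 (merge (node 522 (merge (leaf 2 490 494) (node 553 (merge (leaf 1 521 554) (node 521 (merge (leaf 1 520 552) (node 489 (merge (leaf 3 488 488) (leaf 3 489 490))))))))) (node 620 (merge (leaf 6 492 556) (node 464 (merge (leaf 7 431 496) (node 590 (merge (node 619 (merge (leaf 1 587 591) (node 618 (merge (leaf 2 585 617) (leaf 2 586 621))))) (merge (node 559 (merge (leaf 2 556 591) (node 558 (merge (leaf 0 523 526) (leaf 1 557 561))))) (node 558 (merge (node 559 (merge (leaf 1 557 561) (leaf 2 555 587))) (merge (node 559 (merge (leaf 0 523 526) (leaf 1 557 561))) (node 622 (merge (leaf 7 493 526) (node 623 (merge (leaf 0 587 587) (node 624 (merge (leaf 3 588 621) (leaf 3 589 625))))))))))))))))))) (merge (node 523 (merge (node 496 (merge (leaf 7 431 464) (node 494 (merge (leaf 1 492 495) (leaf 2 490 522))))) (merge (node 522 (merge (leaf 2 490 494) (node 553 (merge (leaf 1 521 554) (node 521 (merge (leaf 1 520 552) (node 489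 (merge (leaf 3 488 488) (leaf 3 489 490))))))))) (merge (node 464 (merge (leaf 7 431 496) (node 522 (merge (node 553 (merge (leaf 1 521 554) (node 521 (merge (leaf 2 489 492) (leaf 1 520 552))))) (merge (node 521 (merge (leaf 2 489 492) (node 489 (merge (leaf 3 488 488) (leaf 3 489 490))))) (node 554 (merge (leaf 1 521 553) (node 490 (merge (leaf 3 489 489) (node 491 (merge (leaf 3 490 526) (node 459 (merge (leaf 5 426 427) (leaf 6 458 586)))))))))))))) (node 491 (merge (node 490 (merge (leaf 3 490 526) (node 489 (merge (leaf 0 488 488) (leaf 0 489 492))))) (merge (node 526 (merge (leaf 3 490 490) (node 558 (merge (leaf 0 523 559) (node 590 (merge (leaf 7 493 622) (node 494 (merge (leaf 6 462 495) (leaf 5 493 621))))))))) (node 459 (merge (node 492 (merge (leaf 7 459 556) (node 494 (merge (leaf 3 458 458) (leaf 1 491 495))))) (merge (node 427 (merge (leaf 4 427 556) (node 396 (merge (leaf 6 395 428) (node 395 (merge (leaf 6 363 364) (node 394 (merge (leaf 7 362 362) (leaf 7 394 426))))))))) (node 492 (merge (node 494 (merge (leaf 3 458 458) (leaf 1 491 495))) (node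 464 (merge (leaf 7 431 496) (node 427 (merge (leaf 4 395 395) (node 428 (merge (leaf 6 395 396) (node 429 (merge (leaf 0 428 430) (node 397 (merge (leaf 6 396 460) (node 426 (merge (leaf 7 394 394) (leaf 2 394 398))))))))))))))))))))))))) (hyp 4)))))))))))))))))))))))))))) nP_365 cP_365 15 (by decide +kernel)
def nP_366 : ℕ := 0x100000001200000000000000080000000800000000000000000000000000000000000000000000000000000000000000000000000000000000000000000000000000000000000
def cP_366 : ℕ := 0x5c0000007c0000007c000003ffc0000eff800006ffc000045f80001fff80000f3f80001f7f80000f7e000007fe000007fc0000001000000000000000000000000000000000000000000000000000000000000000000000000000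
theorem lP_366 : S nP_366 cP_366 16 := S_of_chk [(nP_359, cP_359, 12), (nP_351, cP_351, 9), (nP_360, cP_360, 12), (nP_361, cP_361, 12), (nP_365, cP_365, 15)] ⟨lP_359, lP_351, lP_360, lP_361, lP_365, trivial⟩ (node 493 (merge (node 464 (merge (leaf 7 431 496) (hyp 0))) (merge (hyp 1) (merge (node 429 (merge (node 464 (merge (leaf 7 431 496) (node 430 (merge (leaf 0 428 428) (node 465 (merge (leaf 0 429 432) (leaf 3 430 466))))))) (merge (node 461 (merge (node 430 (merge (leaf 6 397 398) (node 428 (merge (leaf 7 396 396) (node 460 (merge (leaf 1 427 459) (leaf 7 428 557))))))) (merge (node 398 (merge (leaf 6 397 430) (node 397 (merge (leaf 6 365 366) (node 526 (merge (leaf 4 397 494) (leaf 4 429 558))))))) (node 428 (merge (leaf 7 396 396) (node 557 (merge (leaf 7 428 460) (node 558 (merge (leaf 4 429 526) (leaf 4 461 590)))))))))) (merge (node 464 (merge (leaf 7 431 496) (node 461 (merge (node 430 (merge (leaf 6 397 398) (node 432 (merge (leaf 1 428 460) (leaf 0 429 465))))) (node 558 (merge (leaf 4 429 526) (node 557 (merge (leaf 4 461 590) (node 588 (merge (leaf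 5 460 556) (node 589 (merge (leaf 1 556 559) (leaf 5 492 620))))))))))))) (node 461 (merge (node 558 (merge (leaf 4 429 526) (node 557 (merge (leaf 4 461 590) (node 588 (merge (leaf 5 460 556) (node 589 (merge (leaf 1 556 559) (leaf 5 492 620))))))))) (merge (node 428 (merge (leaf 7 396 396) (node 557 (merge (leaf 7 428 460) (node 590 (merge (leaf 4 461 558) (node 589 (merge (leaf 4 493 622) (node 588 (merge (leaf 5 460 556) (leaf 5 492 620))))))))))) (node 464 (merge (leaf 7 431 496) (node 396 (merge (leaf 7 396 428) (node 397 (merge (leaf 7 364 364) (node 366 (merge (leaf 6 365 398) (node 365 (merge (leaf 6 333 334) (node 494 (merge (leaf 4 397 526) (node 492 (merge (leaf 5 364 460) (leaf 2 460 495)))))))))))))))))))))) (merge (node 464 (merge (leaf 7 431 496) (node 429 (merge (node 430 (merge (leaf 0 428 428) (node 465 (merge (leaf 0 429 432) (leaf 3 430 466))))) (merge (node 461 (merge (node 430 (merge (leaf 6 397 398) (node 432 (merge (leaf 1 428 460) (leaf 0 429 465))))) (node 526 (merge (leaf 4 429 558) (node 397 (merge (leaf 4 397 494) (node 524 (merge (leaf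 5 396 492) (leaf 5 428 556))))))))) (node 461 (merge (node 428 (merge (leaf 7 396 396) (node 557 (merge (leaf 7 428 460) (node 556 (merge (leaf 5 428 524) (leaf 5 460 588))))))) (merge (node 397 (merge (node 396 (merge (leaf 7 364 364) (leaf 7 396 428))) (merge (node 366 (merge (leaf 6 365 398) (node 365 (merge (leaf 6 333 334) (node 460 (merge (leaf 5 364 492) (node 428 (merge (leaf 5 332 333) (leaf 7 428 557))))))))) (node 366 (merge (leaf 6 365 398) (node 365 (merge (leaf 6 333 334) (node 364 (merge (leaf 7 332 332) (leaf 7 364 396)))))))))) (merge (node 524 (merge (leaf 5 428 556) (node 397 (merge (leaf 5 396 492) (node 366 (merge (leaf 6 365 398) (node 365 (merge (leaf 6 333 334) (node 364 (merge (leaf 7 332 332) (leaf 7 364 396))))))))))) (node 557 (merge (node 556 (merge (leaf 5 428 524) (leaf 5 460 588))) (merge (node 460 (merge (leaf 7 428 428) (node 492 (merge (leaf 7 460 589) (node 397 (merge (leaf 5 364 365) (leaf 5 396 524))))))) (node 460 (merge (leaf 7 428 428) (node 589 (merge (leaf 7 460 492) (node 588 (merge (leaf 5 460 556) (leaf 5 492 620)))))))))))))))))))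 (merge (node 464 (merge (leaf 7 431 496) (node 429 (merge (node 430 (merge (leaf 0 428 428) (node 465 (merge (leaf 0 429 432) (leaf 3 430 466))))) (merge (node 461 (merge (node 428 (merge (leaf 7 396 396) (node 557 (merge (leaf 7 428 460) (node 556 (merge (leaf 5 428 524) (leaf 5 460 588))))))) (merge (node 397 (merge (node 396 (merge (leaf 7 364 364) (leaf 7 396 428))) (merge (node 366 (merge (leaf 6 365 398) (node 365 (merge (leaf 6 333 334) (node 460 (merge (leaf 5 364 492) (node 428 (merge (leaf 5 332 333) (leaf 7 428 557))))))))) (node 366 (merge (leaf 6 365 398) (node 365 (merge (leaf 6 333 334) (node 364 (merge (leaf 7 332 332) (leaf 7 364 396)))))))))) (merge (node 524 (merge (leaf 5 428 556) (node 397 (merge (leaf 5 396 492) (node 366 (merge (leaf 6 365 398) (node 365 (merge (leaf 6 333 334) (node 364 (merge (leaf 7 332 332) (leaf 7 364 396))))))))))) (node 557 (merge (node 556 (merge (leaf 5 428 524) (leaf 5 460 588))) (merge (node 460 (merge (leaf 7 428 428) (node 492 (merge (leaf 7 460 589) (node 397 (merge (leaf 5 364 365) (leaf 5 396 524))))))) (node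 460 (merge (leaf 7 428 428) (node 589 (merge (leaf 7 460 492) (node 588 (merge (leaf 5 460 556) (leaf 5 492 620)))))))))))))) (node 461 (merge (node 430 (merge (leaf 6 397 398) (node 432 (merge (leaf 1 428 460) (leaf 0 429 465))))) (merge (node 524 (merge (leaf 5 428 556) (node 397 (merge (leaf 5 396 492) (node 366 (merge (leaf 6 365 398) (node 365 (merge (leaf 6 333 334) (node 364 (merge (leaf 7 332 332) (leaf 7 364 396))))))))))) (node 492 (merge (node 524 (merge (leaf 5 396 397) (leaf 5 428 556))) (merge (node 494 (merge (leaf 2 460 495) (node 397 (merge (leaf 4 397 526) (node 364 (merge (leaf 7 364 396) (node 365 (merge (leaf 7 332 332) (leaf 5 364 460))))))))) (node 494 (merge (leaf 2 460 495) (node 556 (merge (leaf 5 428 524) (node 557 (merge (leaf 5 460 588) (node 589 (merge (leaf 7 460 460) (node 621 (merge (leaf 6 493 526) (node 622 (merge (leaf 4 493 590) (leaf 4 525 654)))))))))))))))))))))))) (merge (node 464 (merge (leaf 7 431 496) (node 429 (merge (node 430 (merge (leaf 0 428 428) (node 465 (merge (leaf 0 429 432) (leaf 3 430 466))))) (merge (node 430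 (merge (node 465 (merge (leaf 0 429 432) (leaf 3 430 466))) (node 461 (merge (leaf 6 397 398) (node 526 (merge (leaf 4 429 558) (node 397 (merge (leaf 4 397 494) (node 364 (merge (leaf 7 364 396) (node 365 (merge (leaf 7 332 332) (node 492 (merge (leaf 5 364 460) (leaf 5 396 524))))))))))))))) (node 461 (merge (node 396 (merge (leaf 7 396 428) (node 397 (merge (leaf 7 364 364) (node 526 (merge (leaf 4 397 494) (leaf 4 429 558))))))) (merge (node 428 (merge (leaf 7 396 396) (node 557 (merge (leaf 7 428 460) (node 558 (merge (leaf 4 429 526) (leaf 4 461 590))))))) (merge (node 397 (merge (node 396 (merge (leaf 7 364 364) (leaf 7 396 428))) (node 366 (merge (leaf 6 365 398) (node 365 (merge (leaf 6 333 334) (node 492 (merge (leaf 5 364 460) (leaf 5 396 524))))))))) (node 526 (merge (leaf 4 429 558) (node 397 (merge (leaf 4 397 494) (node 366 (merge (leaf 6 365 398) (node 365 (merge (leaf 6 333 334) (node 492 (merge (leaf 5 364 460) (leaf 5 396 524)))))))))))))))))))) (merge (hyp 2) (merge (node 429 (merge (node 464 (merge (leaf 7 431 496) (node 430 (merge (leaf 0 428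 428) (node 465 (merge (leaf 0 429 432) (leaf 3 430 466))))))) (merge (node 461 (merge (node 430 (merge (leaf 6 397 398) (node 428 (merge (leaf 7 396 396) (node 460 (merge (leaf 1 428 432) (leaf 1 427 459))))))) (node 526 (merge (leaf 4 429 558) (node 397 (merge (leaf 4 397 494) (node 524 (merge (leaf 5 396 492) (leaf 5 428 556))))))))) (merge (node 430 (merge (node 464 (merge (leaf 7 431 496) (node 465 (merge (leaf 0 429 432) (leaf 3 430 466))))) (merge (node 461 (merge (leaf 6 397 398) (node 432 (merge (leaf 1 428 460) (node 397 (merge (leaf 3 396 396) (node 524 (merge (leaf 5 396 492) (leaf 5 428 556))))))))) (node 461 (merge (leaf 6 397 398) (node 496 (merge (leaf 7 431 464) (node 524 (merge (leaf 5 428 556) (node 494 (merge (leaf 1 492 495) (node 397 (merge (leaf 5 396 492) (leaf 4 397 526)))))))))))))) (node 524 (merge (node 461 (merge (leaf 5 428 556) (node 396 (merge (leaf 7 396 428) (node 397 (merge (leaf 7 364 364) (leaf 5 396 492))))))) (merge (node 496 (merge (leaf 7 431 464) (node 494 (merge (leaf 1 492 495) (node 461 (merge (leaf 5 428 556) (node 526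 (merge (leaf 4 397 397) (leaf 4 429 558))))))))) (merge (node 523 (merge (node 494 (merge (leaf 2 490 522) (node 495 (merge (leaf 1 492 496) (leaf 2 491 526))))) (merge (node 522 (merge (leaf 2 490 494) (node 553 (merge (leaf 1 521 554) (node 521 (merge (leaf 2 489 492) (leaf 1 520 552))))))) (node 555 (merge (node 554 (merge (leaf 1 522 526) (node 553 (merge (leaf 2 520 552) (leaf 2 521 556))))) (merge (node 464 (merge (leaf 7 431 496) (node 491 (merge (node 490 (merge (leaf 3 490 526) (node 489 (merge (leaf 0 488 488) (leaf 0 489 492))))) (merge (node 490 (merge (node 489 (merge (leaf 0 488 488) (leaf 0 489 492))) (node 458 (merge (leaf 7 458 587) (node 426 (merge (leaf 4 394 394) (leaf 7 426 459))))))) (node 554 (merge (leaf 1 522 526) (node 586 (merge (leaf 5 458 459) (node 618 (merge (leaf 5 490 587) (leaf 6 522 650)))))))))))) (merge (node 587 (merge (node 492 (merge (leaf 6 491 619) (node 460 (merge (leaf 5 427 428) (leaf 6 459 491))))) (merge (node 492 (merge (leaf 6 491 619) (node 460 (merge (leaf 5 427 428) (leaf 5 459 556))))) (merge (node 620 (merge (node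 588 (merge (leaf 4 491 491) (leaf 6 492 556))) (merge (node 619 (merge (leaf 4 523 652) (node 651 (merge (leaf 6 523 556) (node 650 (merge (leaf 5 522 618) (leaf 5 554 682))))))) (node 588 (merge (leaf 4 491 491) (node 652 (merge (leaf 4 523 619) (leaf 7 555 684)))))))) (node 491 (merge (node 492 (merge (leaf 6 459 460) (node 490 (merge (leaf 7 458 458) (leaf 0 489 489))))) (merge (node 588 (merge (leaf 4 491 620) (node 459 (merge (leaf 4 459 556) (node 586 (merge (leaf 5 458 554) (leaf 5 490 618))))))) (node 588 (merge (leaf 4 491 620) (node 459 (merge (leaf 4 459 556) (node 586 (merge (leaf 5 458 554) (leaf 5 490 618)))))))))))))) (node 464 (merge (leaf 7 431 496) (node 491 (merge (node 490 (merge (leaf 3 490 526) (node 489 (merge (leaf 0 488 488) (leaf 0 489 492))))) (node 587 (merge (node 620 (merge (leaf 4 491 588) (node 619 (merge (leaf 4 523 652) (node 618 (merge (leaf 5 490 586) (leaf 5 522 650))))))) (merge (node 588 (merge (leaf 4 491 620) (node 459 (merge (leaf 4 459 556) (node 428 (merge (leaf 6 427 460) (node 427 (merge (leaf 6 395 396) (node 426 (merge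 (leaf 7 394 394) (leaf 7 426 458))))))))))) (merge (node 618 (merge (leaf 5 490 586) (node 619 (merge (leaf 5 522 650) (node 556 (merge (leaf 6 523 651) (node 459 (merge (leaf 4 427 427) (leaf 4 459 588))))))))) (node 618 (merge (leaf 5 490 586) (node 619 (merge (leaf 5 522 650) (node 651 (merge (leaf 6 523 556) (node 652 (merge (leaf 4 523 620) (leaf 4 555 684)))))))))))))))))))))))) (node 523 (merge (node 494 (merge (leaf 2 490 522) (node 495 (merge (leaf 1 492 496) (leaf 2 491 526))))) (merge (node 522 (merge (leaf 2 490 494) (node 553 (merge (leaf 1 521 554) (node 521 (merge (leaf 2 489 492) (leaf 1 520 552))))))) (merge (node 464 (merge (leaf 7 431 496) (node 522 (merge (node 553 (merge (leaf 1 521 554) (node 521 (merge (leaf 2 489 492) (leaf 1 520 552))))) (merge (node 521 (merge (leaf 2 489 492) (node 489 (merge (leaf 3 488 488) (leaf 3 489 490))))) (node 554 (merge (leaf 1 521 553) (node 526 (merge (leaf 1 522 555) (node 490 (merge (leaf 3 489 489) (leaf 3 490 491)))))))))))) (node 428 (merge (node 461 (merge (leaf 7 396 396) (node 526 (merge (leaf 4 429 558)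 (node 494 (merge (leaf 4 397 397) (leaf 2 491 495))))))) (merge (node 461 (merge (leaf 7 396 396) (node 526 (merge (leaf 4 429 558) (node 555 (merge (leaf 1 522 554) (node 491 (merge (leaf 3 490 490) (node 460 (merge (leaf 6 427 459) (leaf 5 427 492))))))))))) (merge (node 461 (merge (node 526 (merge (leaf 4 429 558) (node 494 (merge (leaf 4 397 397) (leaf 2 491 495))))) (merge (node 397 (merge (leaf 5 396 492) (node 366 (merge (leaf 6 365 398) (node 365 (merge (leaf 6 333 334) (node 332 (merge (leaf 7 332 364) (node 333 (merge (leaf 7 300 300) (leaf 5 332 460))))))))))) (node 526 (merge (leaf 4 429 558) (node 555 (merge (leaf 1 522 554) (node 491 (merge (leaf 3 490 490) (node 460 (merge (leaf 6 427 459) (leaf 5 427 492)))))))))))) (merge (node 461 (merge (leaf 7 396 396) (node 397 (merge (leaf 5 396 492) (node 366 (merge (leaf 6 365 398) (node 365 (merge (leaf 6 333 334) (node 332 (merge (leaf 7 332 364) (node 333 (merge (leaf 7 300 300) (leaf 5 332 460))))))))))))) (node 491 (merge (node 490 (merge (leaf 3 490 526) (node 489 (merge (leaf 0 488 488) (leaf 0 489 492)))))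 (merge (node 492 (merge (node 460 (merge (leaf 6 396 397) (leaf 5 427 555))) (node 494 (merge (leaf 1 491 495) (node 459 (merge (leaf 3 458 458) (node 427 (merge (leaf 4 395 395) (leaf 6 395 396))))))))) (node 526 (merge (leaf 3 490 490) (node 555 (merge (leaf 1 522 554) (node 459 (merge (leaf 6 427 460) (node 427 (merge (leaf 6 395 396) (node 426 (merge (leaf 7 394 394) (leaf 7 426 458))))))))))))))))))))))))))))))) (merge (node 464 (merge (leaf 7 431 496) (node 557 (merge (node 429 (merge (node 430 (merge (leaf 0 428 428) (node 465 (merge (leaf 0 429 432) (leaf 3 430 466))))) (merge (node 461 (merge (node 556 (merge (leaf 5 428 524) (leaf 5 460 588))) (node 396 (merge (leaf 7 396 428) (node 397 (merge (leaf 7 364 364) (node 526 (merge (leaf 4 397 494) (leaf 4 429 558))))))))) (node 461 (merge (node 556 (merge (leaf 5 428 524) (leaf 5 460 588))) (node 430 (merge (leaf 6 397 398) (node 465 (merge (leaf 0 429 432) (leaf 3 430 466)))))))))) (merge (node 589 (merge (node 622 (merge (leaf 4 493 590) (node 621 (merge (leaf 4 525 654) (node 620 (merge (leaf 5 492 588) (leaf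 5 524 652))))))) (merge (node 590 (merge (leaf 4 493 622) (node 588 (merge (leaf 5 492 620) (node 559 (merge (leaf 1 556 558) (leaf 2 556 591))))))) (merge (node 620 (merge (leaf 5 492 588) (node 621 (merge (leaf 5 524 652) (node 526 (merge (leaf 6 493 494) (node 558 (merge (leaf 6 525 653) (node 559 (merge (leaf 3 524 524) (leaf 3 525 561))))))))))) (merge (node 622 (merge (leaf 4 493 590) (node 621 (merge (leaf 4 525 654) (node 526 (merge (leaf 6 493 494) (node 558 (merge (leaf 6 525 653) (node 559 (merge (leaf 3 524 524) (leaf 1 556 588))))))))))) (node 622 (merge (leaf 4 493 590) (node 621 (merge (leaf 4 525 654) (node 526 (merge (leaf 6 493 494) (node 653 (merge (leaf 6 525 558) (node 652 (merge (leaf 5 524 620) (leaf 5 556 684)))))))))))))))) (merge (node 589 (merge (node 622 (merge (leaf 4 493 590) (node 621 (merge (leaf 4 525 654) (node 620 (merge (leaf 5 492 588) (leaf 5 524 652))))))) (merge (node 590 (merge (leaf 4 493 622) (node 588 (merge (leaf 5 492 620) (node 591 (merge (leaf 2 556 559) (node 556 (merge (leaf 5 460 461) (leaf 3 555 555))))))))) (merge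 (node 621 (merge (node 620 (merge (leaf 5 492 588) (leaf 5 524 652))) (merge (node 524 (merge (leaf 7 492 492) (node 556 (merge (leaf 7 524 653) (node 461 (merge (leaf 5 428 429) (leaf 5 460 588))))))) (node 524 (merge (leaf 7 492 492) (node 653 (merge (leaf 7 524 556) (node 652 (merge (leaf 5 524 620) (leaf 5 556 684)))))))))) (merge (node 622 (merge (leaf 4 493 590) (node 621 (merge (leaf 4 525 654) (node 524 (merge (leaf 7 492 492) (node 556 (merge (leaf 7 524 653) (node 461 (merge (leaf 5 428 429) (leaf 5 460 588))))))))))) (node 622 (merge (leaf 4 493 590) (node 621 (merge (leaf 4 525 654) (node 524 (merge (leaf 7 492 492) (node 653 (merge (leaf 7 524 556) (node 652 (merge (leaf 5 524 620) (leaf 5 556 684)))))))))))))))) (merge (node 589 (merge (node 590 (merge (leaf 4 493 622) (node 558 (merge (leaf 4 461 461) (node 559 (merge (leaf 1 557 561) (leaf 1 556 588))))))) (merge (node 588 (merge (leaf 5 492 620) (node 558 (merge (leaf 1 556 559) (node 461 (merge (leaf 5 460 556) (leaf 4 461 590))))))) (merge (node 590 (merge (leaf 4 493 622) (node 588 (merge (leaf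 5 492 620) (node 591 (merge (leaf 2 556 559) (node 556 (merge (leaf 5 460 461) (leaf 3 555 555))))))))) (merge (node 622 (merge (leaf 4 493 590) (node 621 (merge (leaf 4 525 654) (node 526 (merge (leaf 6 493 494) (node 653 (merge (leaf 6 525 558) (node 652 (merge (leaf 5 524 620) (leaf 5 556 684))))))))))) (node 620 (merge (leaf 5 492 588) (node 621 (merge (leaf 5 524 652) (node 526 (merge (leaf 6 493 494) (node 653 (merge (leaf 6 525 558) (node 654 (merge (leaf 4 525 622) (leaf 4 557 686)))))))))))))))) (node 558 (merge (node 590 (merge (leaf 4 461 461) (node 622 (merge (leaf 4 493 589) (leaf 7 525 654))))) (merge (node 559 (merge (leaf 3 524 524) (node 561 (merge (leaf 3 525 526) (node 594 (merge (leaf 0 558 593) (node 562 (merge (leaf 0 559 595) (node 590 (merge (leaf 1 557 589) (leaf 1 558 591))))))))))) (node 559 (merge (leaf 3 524 524) (node 526 (merge (leaf 3 525 561) (node 429 (merge (leaf 4 429 461) (node 430 (merge (leaf 0 428 428) (node 465 (merge (leaf 0 429 432) (leaf 3 430 466))))))))))))))))))))) (merge (node 464 (merge (leaf 7 431 496) (node 557 (merge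 (node 461 (merge (node 428 (merge (leaf 7 428 460) (node 429 (merge (leaf 7 396 396) (leaf 0 428 430))))) (node 558 (merge (leaf 4 461 590) (node 588 (merge (leaf 5 460 556) (node 589 (merge (leaf 1 556 559) (leaf 5 492 620))))))))) (merge (node 429 (merge (node 430 (merge (leaf 0 428 428) (node 465 (merge (leaf 0 429 432) (leaf 3 430 466))))) (merge (node 461 (merge (node 556 (merge (leaf 5 428 524) (leaf 5 460 588))) (node 396 (merge (leaf 7 396 428) (node 397 (merge (leaf 7 364 364) (node 526 (merge (leaf 4 397 494) (leaf 4 429 558))))))))) (node 461 (merge (node 556 (merge (leaf 5 428 524) (leaf 5 460 588))) (node 430 (merge (leaf 6 397 398) (node 465 (merge (leaf 0 429 432) (leaf 3 430 466)))))))))) (merge (node 589 (merge (node 622 (merge (leaf 4 493 590) (node 621 (merge (leaf 4 525 654) (node 620 (merge (leaf 5 492 588) (leaf 5 524 652))))))) (merge (node 590 (merge (leaf 4 493 622) (node 588 (merge (leaf 5 492 620) (node 559 (merge (leaf 1 556 558) (leaf 2 556 591))))))) (merge (node 620 (merge (leaf 5 492 588) (node 621 (merge (leaf 5 524 652) (node 526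 (merge (leaf 6 493 494) (node 558 (merge (leaf 6 525 653) (node 559 (merge (leaf 3 524 524) (leaf 3 525 561))))))))))) (merge (node 622 (merge (leaf 4 493 590) (node 621 (merge (leaf 4 525 654) (node 526 (merge (leaf 6 493 494) (node 558 (merge (leaf 6 525 653) (node 559 (merge (leaf 3 524 524) (leaf 1 556 588))))))))))) (node 622 (merge (leaf 4 493 590) (node 621 (merge (leaf 4 525 654) (node 526 (merge (leaf 6 493 494) (node 653 (merge (leaf 6 525 558) (node 652 (merge (leaf 5 524 620) (leaf 5 556 684)))))))))))))))) (merge (node 558 (merge (node 590 (merge (leaf 4 461 461) (node 622 (merge (leaf 4 493 589) (leaf 7 525 654))))) (merge (node 559 (merge (leaf 3 524 524) (node 561 (merge (leaf 3 525 526) (node 594 (merge (leaf 0 558 593) (node 562 (merge (leaf 0 559 595) (node 590 (merge (leaf 1 557 589) (leaf 1 558 591))))))))))) (node 559 (merge (leaf 3 524 524) (node 526 (merge (leaf 3 525 561) (node 429 (merge (leaf 4 429 461) (node 430 (merge (leaf 0 428 428) (node 465 (merge (leaf 0 429 432) (leaf 3 430 466)))))))))))))) (node 556 (merge (node 461 (merge (leaf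 5 460 588) (node 428 (merge (leaf 7 428 460) (node 429 (merge (leaf 7 396 396) (leaf 0 428 430))))))) (merge (node 429 (merge (node 461 (merge (leaf 5 428 524) (node 428 (merge (leaf 7 396 396) (leaf 7 428 460))))) (merge (node 430 (merge (leaf 0 428 428) (node 465 (merge (leaf 0 429 432) (leaf 3 430 466))))) (node 461 (merge (leaf 5 428 524) (node 430 (merge (leaf 6 397 398) (node 465 (merge (leaf 0 429 432) (leaf 3 430 466)))))))))) (node 589 (merge (node 590 (merge (leaf 4 493 622) (node 555 (merge (leaf 0 554 554) (node 588 (merge (leaf 3 555 591) (leaf 5 492 620))))))) (merge (node 621 (merge (node 620 (merge (leaf 5 492 588) (leaf 5 524 652))) (merge (node 653 (merge (leaf 7 524 524) (node 685 (merge (leaf 7 556 588) (node 686 (merge (leaf 4 557 654) (leaf 4 589 718))))))) (node 653 (merge (leaf 7 524 524) (node 652 (merge (leaf 5 524 620) (leaf 5 556 684)))))))) (merge (node 622 (merge (leaf 4 493 590) (node 621 (merge (leaf 4 525 654) (node 653 (merge (leaf 7 524 524) (node 652 (merge (leaf 5 524 620) (leaf 5 556 684))))))))) (node 622 (merge (leaf 4 493 590)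 (node 621 (merge (leaf 4 525 654) (node 653 (merge (leaf 7 524 524) (node 685 (merge (leaf 7 556 588) (node 684 (merge (leaf 5 556 652) (leaf 5 588 716))))))))))))))))))))))))) (merge (node 430 (merge (node 464 (merge (leaf 7 431 496) (node 432 (merge (node 465 (merge (leaf 0 429 429) (leaf 3 430 466))) (merge (node 400 (merge (node 368 (merge (leaf 5 335 336) (leaf 5 367 495))) (node 401 (merge (leaf 2 397 429) (node 402 (merge (leaf 1 399 403) (leaf 2 398 433))))))) (node 368 (merge (node 400 (merge (leaf 5 335 336) (leaf 5 367 495))) (merge (node 465 (merge (leaf 3 430 466) (node 400 (merge (leaf 5 367 495) (leaf 4 368 497))))) (node 433 (merge (node 466 (merge (leaf 0 430 465) (node 434 (merge (leaf 1 431 435) (leaf 0 431 467))))) (merge (node 434 (merge (leaf 1 431 435) (node 402 (merge (leaf 2 398 401) (leaf 2 399 403))))) (node 465 (merge (leaf 0 430 466) (node 401 (merge (leaf 2 398 402) (node 369 (merge (leaf 7 336 336) (leaf 5 336 337)))))))))))))))))) (merge (node 557 (merge (node 558 (merge (node 590 (merge (leaf 4 461 461) (node 622 (merge (leaf 7 493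 526) (leaf 7 525 654))))) (merge (node 559 (merge (leaf 3 524 524) (node 588 (merge (leaf 1 556 589) (node 556 (merge (leaf 5 460 461) (leaf 1 555 587))))))) (node 559 (merge (leaf 3 524 524) (node 589 (merge (leaf 1 556 588) (node 590 (merge (leaf 1 557 561) (leaf 4 493 622)))))))))) (merge (node 589 (merge (node 492 (merge (leaf 7 460 460) (node 621 (merge (leaf 7 492 524) (node 622 (merge (leaf 4 493 590) (leaf 4 525 654))))))) (merge (node 590 (merge (leaf 4 493 622) (node 588 (merge (leaf 5 492 620) (node 559 (merge (leaf 1 556 558) (leaf 2 556 591))))))) (node 492 (merge (leaf 7 460 460) (node 621 (merge (leaf 7 492 524) (node 620 (merge (leaf 5 492 588) (leaf 5 524 652)))))))))) (merge (node 589 (merge (node 590 (merge (leaf 4 493 622) (node 461 (merge (leaf 4 461 558) (node 588 (merge (leaf 5 460 556) (leaf 5 492 620))))))) (merge (node 492 (merge (leaf 7 460 460) (node 621 (merge (leaf 7 492 524) (node 622 (merge (leaf 4 493 590) (leaf 4 525 654))))))) (node 492 (merge (leaf 7 460 460) (node 621 (merge (leaf 7 492 524) (node 620 (merge (leaf 5 492 588) (leaf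 5 524 652)))))))))) (merge (node 589 (merge (node 492 (merge (leaf 7 460 460) (node 621 (merge (leaf 7 492 524) (node 622 (merge (leaf 4 493 590) (leaf 4 525 654))))))) (merge (node 492 (merge (leaf 7 460 460) (node 621 (merge (leaf 7 492 524) (node 620 (merge (leaf 5 492 588) (leaf 5 524 652))))))) (node 590 (merge (leaf 4 493 622) (node 588 (merge (leaf 5 492 620) (node 591 (merge (leaf 2 556 559) (node 556 (merge (leaf 5 460 461) (leaf 3 555 555)))))))))))) (merge (node 589 (merge (node 492 (merge (leaf 7 460 460) (node 621 (merge (leaf 7 492 524) (node 620 (merge (leaf 5 492 588) (leaf 5 524 652))))))) (merge (node 588 (merge (leaf 5 492 620) (node 558 (merge (leaf 1 556 559) (node 461 (merge (leaf 5 460 556) (node 429 (merge (leaf 6 397 398) (leaf 4 429 526))))))))) (merge (node 492 (merge (leaf 7 460 460) (node 621 (merge (leaf 7 492 524) (node 526 (merge (leaf 6 493 494) (node 558 (merge (leaf 6 525 653) (node 559 (merge (leaf 3 525 561) (leaf 1 556 588))))))))))) (node 492 (merge (leaf 7 460 460) (node 621 (merge (leaf 7 492 524) (node 526 (merge (leaf 6 493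 494) (node 653 (merge (leaf 6 525 558) (node 652 (merge (leaf 5 524 620) (leaf 5 556 684))))))))))))))) (merge (node 589 (merge (node 590 (merge (leaf 4 493 622) (node 558 (merge (leaf 4 461 461) (node 559 (merge (leaf 3 524 524) (leaf 1 557 561))))))) (merge (node 492 (merge (leaf 7 460 460) (node 621 (merge (leaf 7 492 524) (node 622 (merge (leaf 4 493 590) (leaf 4 525 654))))))) (merge (node 492 (merge (leaf 7 460 460) (node 621 (merge (leaf 7 492 524) (node 526 (merge (leaf 6 493 494) (node 653 (merge (leaf 6 525 558) (node 652 (merge (leaf 5 524 620) (leaf 5 556 684))))))))))) (node 460 (merge (leaf 7 460 492) (node 590 (merge (leaf 4 493 622) (node 461 (merge (leaf 4 461 558) (node 429 (merge (leaf 6 397 398) (leaf 1 428 432))))))))))))) (merge (node 589 (merge (node 622 (merge (leaf 4 493 590) (node 621 (merge (leaf 4 525 654) (node 620 (merge (leaf 5 492 588) (leaf 5 524 652))))))) (merge (node 460 (merge (leaf 7 460 492) (node 590 (merge (leaf 4 493 622) (node 461 (merge (leaf 4 461 558) (node 429 (merge (leaf 6 397 398) (leaf 1 428 432))))))))) (node 588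 (merge (leaf 5 492 620) (node 558 (merge (leaf 1 556 559) (node 461 (merge (leaf 5 460 556) (node 429 (merge (leaf 6 397 398) (leaf 4 429 526)))))))))))) (node 556 (merge (node 461 (merge (leaf 5 460 588) (node 429 (merge (leaf 6 397 398) (leaf 5 428 524))))) (merge (node 461 (merge (leaf 5 460 588) (node 429 (merge (leaf 6 397 398) (node 558 (merge (leaf 4 429 526) (leaf 4 461 590))))))) (merge (node 555 (merge (node 554 (merge (leaf 2 522 526) (node 553 (merge (leaf 2 521 524) (node 521 (merge (leaf 3 520 520) (leaf 3 521 522))))))) (merge (node 554 (merge (leaf 2 522 526) (node 586 (merge (leaf 1 553 585) (node 558 (merge (leaf 1 554 587) (node 522 (merge (leaf 3 521 521) (leaf 3 522 523))))))))) (merge (node 554 (merge (node 585 (merge (leaf 1 553 586) (node 553 (merge (leaf 2 521 524) (leaf 1 552 584))))) (merge (node 553 (merge (leaf 2 521 524) (node 521 (merge (leaf 3 520 520) (leaf 3 521 522))))) (node 586 (merge (leaf 1 553 585) (node 558 (merge (leaf 1 554 587) (node 522 (merge (leaf 3 521 521) (leaf 3 522 523)))))))))) (node 558 (merge (node 590 (merge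 (leaf 0 555 591) (node 622 (merge (leaf 7 493 526) (leaf 7 525 654))))) (node 587 (merge (leaf 1 554 586) (node 559 (merge (leaf 3 524 524) (leaf 1 555 588))))))))))) (node 558 (merge (node 461 (merge (leaf 4 461 590) (node 429 (merge (leaf 6 397 398) (leaf 4 429 526))))) (merge (node 524 (merge (leaf 3 524 559) (node 461 (merge (leaf 4 461 590) (node 429 (merge (leaf 6 397 398) (leaf 5 428 556))))))) (node 555 (merge (node 586 (merge (leaf 1 554 587) (node 554 (merge (leaf 1 553 585) (node 522 (merge (leaf 3 521 521) (leaf 3 522 523))))))) (merge (node 554 (merge (leaf 2 522 526) (node 553 (merge (leaf 2 521 524) (node 521 (merge (leaf 3 520 520) (leaf 3 521 522))))))) (merge (node 554 (merge (leaf 2 522 526) (node 585 (merge (leaf 1 553 586) (node 553 (merge (leaf 2 521 524) (leaf 1 552 584))))))) (node 587 (merge (leaf 1 554 586) (node 523 (merge (leaf 3 522 522) (node 524 (merge (leaf 3 523 559) (node 492 (merge (leaf 5 459 460) (leaf 6 491 619)))))))))))))))))))))))))))) (hyp 3)))) (hyp 4))))))))))))) nP_366 cP_366 16 (by decide +kernel)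
def nP_367 : ℕ := 0x100000001000000000000000080000000800000008000000000000000000000000000000000000000000000000000000000000000000000000000000000000000000000000000
def cP_367 : ℕ := 0x100000003000000077c00000378000007fc000007e0000001e0000001c0000001000000000000000000000000000000000000000000000000000000000000
theorem lP_367 : S nP_367 cP_367 11 := S_of_chk [] trivial (node 398 (merge (node 367 (merge (node 368 (merge (leaf 6 335 336) (node 369 (merge (leaf 1 366 370) (node 397 (merge (leaf 2 364 396) (leaf 2 365 400))))))) (merge (node 336 (merge (leaf 6 335 368) (node 335 (merge (leaf 6 303 304) (node 464 (merge (leaf 4 335 432) (leaf 7 431 496))))))) (node 464 (merge (leaf 7 431 496) (node 432 (merge (leaf 4 335 335) (node 397 (merge (leaf 0 396 396) (node 433 (merge (leaf 0 397 400) (leaf 3 398 434)))))))))))) (merge (node 367 (merge (node 334 (merge (leaf 7 334 366) (node 335 (merge (leaf 7 302 302) (node 464 (merge (leaf 4 335 432) (leaf 7 431 496))))))) (merge (node 368 (merge (leaf 6 335 336) (node 366 (merge (leaf 7 334 334) (node 397 (merge (leaf 1 365 369)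 (leaf 2 364 396))))))) (node 336 (merge (leaf 6 335 368) (node 335 (merge (leaf 6 303 304) (node 464 (merge (leaf 4 335 432) (leaf 7 431 496)))))))))) (merge (node 367 (merge (node 368 (merge (leaf 6 335 336) (node 369 (merge (leaf 1 366 370) (node 397 (merge (leaf 2 364 396) (leaf 2 365 400))))))) (node 335 (merge (node 334 (merge (leaf 7 302 302) (leaf 7 334 366))) (merge (node 303 (merge (leaf 5 302 430) (node 272 (merge (leaf 6 271 304) (node 271 (merge (leaf 6 239 240) (leaf 5 270 366))))))) (node 302 (merge (leaf 7 302 334) (node 303 (merge (leaf 7 270 270) (leaf 5 302 430)))))))))) (merge (node 464 (merge (leaf 7 431 496) (node 366 (merge (node 334 (merge (leaf 4 302 302) (leaf 7 334 367))) (merge (node 334 (merge (leaf 4 302 302) (leaf 4 334 430))) (node 367 (merge (node 335 (merge (leaf 4 335 432) (node 303 (merge (leaf 5 270 271) (leaf 5 302 430))))) (merge (node 336 (merge (leaf 6 335 368) (node 335 (merge (leaf 6 303 304) (node 303 (merge (leaf 5 270 271) (leaf 5 302 430))))))) (node 368 (merge (leaf 6 335 336) (node 369 (merge (leaf 1 366 370) (node 337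 (merge (leaf 2 334 338) (node 432 (merge (leaf 6 336 400) (node 433 (merge (leaf 5 336 401) (leaf 3 398 434))))))))))))))))))) (merge (node 397 (merge (node 432 (merge (leaf 0 396 396) (node 433 (merge (leaf 0 397 400) (leaf 3 398 434))))) (merge (node 396 (merge (leaf 0 396 432) (node 395 (merge (leaf 0 395 430) (node 363 (merge (leaf 3 362 362) (leaf 3 363 364))))))) (merge (node 396 (merge (node 395 (merge (leaf 0 395 430) (node 427 (merge (leaf 1 394 426) (leaf 1 395 428))))) (merge (node 395 (merge (leaf 0 395 430) (node 363 (merge (leaf 3 362 362) (leaf 3 363 364))))) (node 428 (merge (leaf 1 395 427) (node 400 (merge (leaf 1 396 429) (node 364 (merge (leaf 3 363 363) (leaf 3 364 365)))))))))) (node 400 (merge (node 365 (merge (leaf 3 364 364) (node 366 (merge (leaf 3 365 401) (node 334 (merge (leaf 4 302 302) (leaf 4 334 430))))))) (merge (node 433 (merge (leaf 0 397 432) (node 401 (merge (leaf 0 398 434) (node 429 (merge (leaf 1 396 428) (leaf 1 397 430))))))) (merge (node 433 (merge (leaf 0 397 432) (node 401 (merge (leaf 0 398 434) (node 365 (merge (leaf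 3 364 364) (leaf 3 365 366))))))) (node 432 (merge (leaf 0 397 433) (node 429 (merge (leaf 1 396 428) (node 464 (merge (leaf 7 399 496) (node 430 (merge (leaf 0 429 465) (node 365 (merge (leaf 3 364 364) (node 333 (merge (leaf 4 301 301) (node 334 (merge (leaf 6 301 302) (leaf 4 334 366))))))))))))))))))))))) (node 464 (merge (leaf 7 431 496) (node 397 (merge (node 396 (merge (leaf 0 396 432) (node 428 (merge (leaf 1 395 427) (node 429 (merge (leaf 1 396 400) (leaf 0 428 430))))))) (merge (node 396 (merge (leaf 0 396 432) (node 427 (merge (leaf 1 395 428) (node 395 (merge (leaf 1 394 426) (node 363 (merge (leaf 3 362 362) (leaf 3 363 364))))))))) (merge (node 396 (merge (node 395 (merge (leaf 0 395 430) (node 427 (merge (leaf 1 394 426) (leaf 1 395 428))))) (merge (node 395 (merge (leaf 0 395 430) (node 363 (merge (leaf 3 362 362) (leaf 3 363 364))))) (node 428 (merge (leaf 1 395 427) (node 400 (merge (leaf 1 396 429) (node 364 (merge (leaf 3 363 363) (leaf 3 364 365)))))))))) (node 400 (merge (node 368 (merge (leaf 2 365 369) (node 336 (merge (leaf 5 303 304) (leaf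 5 335 432))))) (node 365 (merge (leaf 3 364 364) (node 366 (merge (leaf 3 365 401) (node 334 (merge (leaf 4 302 302) (leaf 4 334 430))))))))))))))))))))) nP_367 cP_367 11 (by decide +kernel)
def nP_368 : ℕ := 0x100000001000000000000000080000000800000008000000000000000000000000000000000000000000000000000000000000000000000000000000000000000000000000000
def cP_368 : ℕ := 0x200000032000000f300000077c00000778000007dc000007c0000001c0000001c0000001400000000000000000000000000000000000000000000000000000000000
theorem lP_368 : S nP_368 cP_368 11 := S_of_chk [] trivial (node 398 (merge (node 367 (merge (node 334 (merge (leaf 7 334 366) (node 335 (merge (leaf 7 302 302) (node 464 (merge (leaf 4 335 432) (leaf 7 431 496))))))) (merge (node 368 (merge (leaf 6 335 336) (node 366 (merge (leaf 7 334 334) (node 397 (merge (leaf 1 365 369) (leaf 2 364 396))))))) (node 336 (merge (leaf 6 335 368) (node 335 (merge (leaf 6 303 304) (node 464 (merge (leaf 4 335 432) (leaf 7 431 496)))))))))) (merge (node 367 (merge (node 368 (merge (leaf 6 335 336) (node 369 (merge (leaf 1 366 370) (node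 397 (merge (leaf 2 364 396) (leaf 2 365 400))))))) (node 335 (merge (node 334 (merge (leaf 7 302 302) (leaf 7 334 366))) (merge (node 303 (merge (leaf 5 302 430) (node 272 (merge (leaf 6 271 304) (node 271 (merge (leaf 6 239 240) (leaf 5 270 366))))))) (node 302 (merge (leaf 7 302 334) (node 303 (merge (leaf 7 270 270) (leaf 5 302 430)))))))))) (merge (node 464 (merge (leaf 7 431 496) (node 366 (merge (node 334 (merge (leaf 4 302 302) (leaf 7 334 367))) (merge (node 334 (merge (leaf 4 302 302) (leaf 4 334 430))) (node 367 (merge (node 335 (merge (leaf 4 335 432) (node 303 (merge (leaf 5 270 271) (leaf 5 302 430))))) (merge (node 336 (merge (leaf 6 335 368) (node 335 (merge (leaf 6 303 304) (node 303 (merge (leaf 5 270 271) (leaf 5 302 430))))))) (node 368 (merge (leaf 6 335 336) (node 369 (merge (leaf 1 366 370) (node 337 (merge (leaf 2 334 338) (node 432 (merge (leaf 6 336 400) (node 433 (merge (leaf 5 336 401) (leaf 3 398 434))))))))))))))))))) (merge (node 397 (merge (node 432 (merge (leaf 0 396 396) (node 433 (merge (leaf 0 397 400) (leaf 3 398 434))))) (merge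 (node 396 (merge (leaf 0 396 432) (node 395 (merge (leaf 0 395 430) (node 363 (merge (leaf 3 362 362) (leaf 3 363 364))))))) (merge (node 396 (merge (node 395 (merge (leaf 0 395 430) (node 363 (merge (leaf 3 362 362) (leaf 3 363 364))))) (merge (node 427 (merge (leaf 1 395 428) (node 395 (merge (leaf 1 394 426) (node 363 (merge (leaf 3 362 362) (leaf 3 363 364))))))) (node 428 (merge (leaf 1 395 427) (node 429 (merge (leaf 1 396 400) (node 464 (merge (leaf 0 428 430) (leaf 7 431 496)))))))))) (node 400 (merge (node 429 (merge (leaf 1 396 428) (node 401 (merge (leaf 1 397 430) (node 369 (merge (leaf 2 365 368) (leaf 2 366 370))))))) (merge (node 433 (merge (leaf 0 397 432) (node 401 (merge (leaf 0 398 434) (node 430 (merge (leaf 1 398 402) (leaf 1 397 429))))))) (merge (node 433 (merge (leaf 0 397 432) (node 401 (merge (leaf 0 398 434) (node 369 (merge (leaf 2 365 368) (leaf 2 366 370))))))) (node 432 (merge (leaf 0 397 433) (node 429 (merge (leaf 1 396 428) (node 464 (merge (leaf 7 399 496) (node 465 (merge (leaf 0 429 430) (node 368 (merge (leaf 2 365 369) (leaf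 4 368 497))))))))))))))))))) (merge (node 400 (merge (node 464 (merge (leaf 7 431 496) (node 432 (merge (node 433 (merge (leaf 0 397 397) (leaf 3 398 434))) (node 368 (merge (leaf 5 335 336) (node 465 (merge (leaf 4 368 497) (node 466 (merge (leaf 3 430 430) (leaf 3 431 467))))))))))) (merge (node 433 (merge (node 434 (merge (leaf 0 398 401) (leaf 3 398 432))) (merge (node 401 (merge (leaf 0 398 434) (node 430 (merge (leaf 1 398 402) (leaf 1 397 429))))) (node 397 (merge (leaf 0 397 432) (node 428 (merge (leaf 1 396 429) (node 396 (merge (leaf 1 395 427) (node 395 (merge (leaf 0 395 430) (node 363 (merge (leaf 3 362 362) (leaf 3 363 364)))))))))))))) (merge (node 367 (merge (node 336 (merge (leaf 6 335 368) (node 335 (merge (leaf 6 303 304) (node 303 (merge (leaf 5 302 430) (leaf 4 303 432))))))) (merge (node 336 (merge (leaf 6 335 368) (node 335 (merge (leaf 6 303 304) (node 334 (merge (leaf 7 302 302) (leaf 7 334 366))))))) (node 366 (merge (leaf 7 334 334) (node 401 (merge (leaf 3 366 402) (node 429 (merge (leaf 1 397 430) (node 397 (merge (leaf 1 396 428) (node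 396 (merge (leaf 2 363 395) (leaf 0 396 432)))))))))))))) (merge (node 367 (merge (node 464 (merge (leaf 7 431 496) (node 432 (merge (leaf 4 335 335) (node 397 (merge (leaf 0 396 396) (leaf 0 397 433))))))) (merge (node 336 (merge (leaf 6 335 368) (node 335 (merge (leaf 6 303 304) (node 334 (merge (leaf 7 302 302) (leaf 7 334 366))))))) (node 368 (merge (leaf 6 335 336) (node 366 (merge (leaf 7 334 334) (node 397 (merge (leaf 2 364 396) (node 433 (merge (leaf 0 397 432) (node 401 (merge (leaf 3 366 402) (leaf 0 398 434)))))))))))))) (node 367 (merge (node 336 (merge (leaf 6 335 368) (node 335 (merge (leaf 6 303 304) (node 334 (merge (leaf 7 302 302) (leaf 7 334 366))))))) (merge (node 335 (merge (node 334 (merge (leaf 7 302 302) (leaf 7 334 366))) (merge (node 303 (merge (leaf 5 302 430) (node 272 (merge (leaf 6 271 304) (node 271 (merge (leaf 6 239 240) (leaf 5 270 366))))))) (node 302 (merge (leaf 7 302 334) (node 303 (merge (leaf 7 270 270) (leaf 5 302 430)))))))) (merge (node 336 (merge (leaf 6 335 368) (node 335 (merge (leaf 6 303 304) (node 302 (merge (leaf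 7 302 334) (node 303 (merge (leaf 7 270 270) (leaf 5 302 430))))))))) (merge (node 336 (merge (leaf 6 335 368) (node 335 (merge (leaf 6 303 304) (node 303 (merge (leaf 5 302 430) (node 270 (merge (leaf 7 270 302) (node 271 (merge (leaf 7 238 238) (leaf 5 270 366))))))))))) (node 368 (merge (leaf 6 335 336) (node 366 (merge (leaf 7 334 334) (node 464 (merge (leaf 7 431 496) (node 401 (merge (leaf 3 366 402) (node 433 (merge (leaf 0 398 434) (node 465 (merge (leaf 7 368 497) (node 430 (merge (leaf 1 397 429) (leaf 3 430 466))))))))))))))))))))))))) (node 464 (merge (leaf 7 431 496) (node 367 (merge (node 334 (merge (leaf 7 334 366) (node 335 (merge (leaf 7 302 302) (leaf 4 335 432))))) (merge (node 432 (merge (leaf 4 335 335) (node 397 (merge (leaf 0 396 396) (node 433 (merge (leaf 0 397 400) (leaf 3 397 430))))))) (merge (node 334 (merge (leaf 7 334 366) (node 335 (merge (leaf 7 302 302) (node 304 (merge (leaf 6 303 336) (node 303 (merge (leaf 6 271 272) (leaf 5 302 430))))))))) (node 397 (merge (node 432 (merge (leaf 0 396 396) (node 433 (merge (leaf 0 397 400) (leaf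 3 398 434))))) (merge (node 396 (merge (leaf 0 396 432) (node 366 (merge (leaf 7 334 334) (leaf 2 363 395))))) (merge (node 366 (merge (leaf 7 334 334) (node 396 (merge (leaf 2 363 395) (node 428 (merge (leaf 1 395 427) (node 429 (merge (leaf 1 396 400) (leaf 0 428 430))))))))) (node 400 (merge (node 366 (merge (leaf 7 334 334) (node 429 (merge (leaf 1 396 428) (node 401 (merge (leaf 3 366 402) (leaf 1 397 430))))))) (merge (node 432 (merge (leaf 0 397 433) (node 429 (merge (leaf 1 396 428) (node 430 (merge (leaf 1 397 401) (leaf 0 429 465))))))) (merge (node 366 (merge (leaf 7 334 334) (node 401 (merge (leaf 3 366 402) (node 433 (merge (leaf 0 398 434) (node 432 (merge (leaf 0 397 397) (node 369 (merge (leaf 5 336 337) (leaf 2 366 370))))))))))) (node 432 (merge (leaf 0 397 433) (node 429 (merge (leaf 1 396 428) (node 430 (merge (leaf 0 429 465) (node 461 (merge (leaf 1 428 460) (node 493 (merge (leaf 6 365 366) (leaf 6 397 525))))))))))))))))))))))))))))))) nP_368 cP_368 11 (by decide +kernel)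
def nP_369 : ℕ := 0x100000001000000000000000080000000800000018000000000000000000000000000000000000000000000000000000000000000000000000000000000000000000000000000
def cP_369 : ℕ := 0x1000000010000001f7000000e6000001f8000000f800000078000000700000001000000000000000000000000000000000000000000000000000000000000
theorem lP_369 : S nP_369 cP_369 11 := S_of_chk [] trivial (node 401 (merge (node 430 (merge (leaf 1 398 402) (node 429 (merge (leaf 1 397 398) (leaf 2 396 428))))) (merge (node 402 (merge (leaf 1 398 430) (node 403 (merge (leaf 1 399 432) (node 371 (merge (leaf 2 367 370) (leaf 2 368 372))))))) (merge (node 402 (merge (node 435 (merge (leaf 0 399 434) (node 403 (merge (leaf 1 399 432) (leaf 0 400 436))))) (merge (node 403 (merge (leaf 1 399 432) (node 371 (merge (leaf 2 367 370) (leaf 2 368 372))))) (node 434 (merge (leaf 0 399 435) (node 398 (merge (leaf 0 398 433) (node 370 (merge (leaf 2 366 369) (leaf 2 367 371)))))))))) (node 369 (merge (node 398 (merge (leaf 2 366 370) (node 429 (merge (leaf 1 397 430) (node 397 (merge (leaf 2 365 368) (leaf 1 396 428)))))))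 (merge (node 398 (merge (leaf 2 366 370) (node 433 (merge (leaf 0 398 434) (node 397 (merge (leaf 0 397 432) (node 429 (merge (leaf 1 396 428) (leaf 1 397 430))))))))) (merge (node 367 (merge (node 464 (merge (leaf 7 431 496) (node 432 (merge (leaf 4 335 335) (node 337 (merge (leaf 5 304 305) (leaf 5 336 433))))))) (merge (node 336 (merge (leaf 6 335 368) (node 335 (merge (leaf 6 303 304) (node 432 (merge (leaf 4 303 303) (leaf 4 335 464))))))) (merge (node 336 (merge (leaf 6 335 368) (node 304 (merge (leaf 6 303 335) (node 337 (merge (leaf 7 304 433) (node 272 (merge (leaf 4 240 240) (leaf 7 272 305))))))))) (node 368 (merge (leaf 6 335 336) (node 370 (merge (leaf 1 367 371) (node 464 (merge (leaf 7 431 496) (node 337 (merge (leaf 6 336 432) (node 338 (merge (leaf 2 335 339) (node 306 (merge (leaf 5 273 274) (leaf 6 305 433))))))))))))))))) (node 367 (merge (node 464 (merge (leaf 7 431 496) (node 432 (merge (leaf 4 335 335) (node 337 (merge (leaf 5 304 305) (leaf 5 336 433))))))) (merge (node 336 (merge (leaf 6 335 368) (node 335 (merge (leaf 6 303 304) (node 432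 (merge (leaf 4 303 303) (leaf 4 335 464))))))) (merge (node 336 (merge (leaf 6 335 368) (node 304 (merge (leaf 6 303 335) (node 337 (merge (leaf 7 304 433) (node 272 (merge (leaf 4 240 240) (leaf 7 272 305))))))))) (node 368 (merge (leaf 6 335 336) (node 464 (merge (leaf 7 431 496) (node 337 (merge (leaf 6 336 432) (node 398 (merge (leaf 2 365 397) (node 433 (merge (leaf 0 398 434) (node 306 (merge (leaf 6 305 338) (node 305 (merge (leaf 5 272 273) (leaf 6 273 274))))))))))))))))))))))))))) nP_369 cP_369 11 (by decide +kernel)
def nP_370 : ℕ := 0x100000001000000000000000080000000800000008000000000000000000000000000000000000000000000000000000000000000000000000000000000000000000000000000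
def cP_370 : ℕ := 0x40000001f0000000f0000003f7c00001f7800003fb800000fc0000007c000000700000005000000000000000000000000000000000000000000000000000000000000
theorem lP_370 : S nP_370 cP_370 14 := S_of_chk [(nP_369, cP_369, 11)] ⟨lP_369, trivial⟩ (node 400 (merge (node 368 (merge (node 336 (merge (leaf 5 303 304) (leaf 6 335 367))) (node 430 (merge (node 464 (merge (leaf 7 431 496) (node 429 (merge (leaf 0 428 428) (node 465 (merge (leaf 0 429 432) (leaf 3 430 466))))))) (merge (node 401 (merge (leaf 1 398 402) (node 429 (merge (leaf 1 397 398) (leaf 2 396 428))))) (node 401 (merge (leaf 1 398 402) (node 464 (merge (leaf 7 431 496) (node 465 (merge (leaf 3 430 466) (node 497 (merge (leaf 4 368 432) (leaf 7 368 433)))))))))))))) (merge (node 368 (merge (node 336 (merge (leaf 5 303 304) (leaf 6 335 367))) (merge (node 336 (merge (leaf 5 303 304) (leaf 5 335 432))) (node 369 (merge (node 370 (merge (leaf 1 367 371) (node 398 (merge (leaf 1 366 367) (leaf 2 365 397))))) (node 464 (merge (leaf 7 431 496) (node 432 (merge (leaf 6 336 337) (node 465 (merge (leaf 4 368 497) (node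 466 (merge (leaf 3 430 430) (leaf 3 431 467)))))))))))))) (merge (node 401 (merge (node 430 (merge (leaf 1 398 402) (node 429 (merge (leaf 1 397 398) (leaf 2 396 428))))) (merge (node 402 (merge (leaf 1 398 430) (node 403 (merge (leaf 1 399 432) (node 371 (merge (leaf 2 367 370) (leaf 2 368 372))))))) (merge (node 402 (merge (node 435 (merge (leaf 0 399 434) (node 403 (merge (leaf 1 399 432) (leaf 0 400 436))))) (merge (node 403 (merge (leaf 1 399 432) (node 371 (merge (leaf 2 367 370) (leaf 2 368 372))))) (node 434 (merge (leaf 0 399 435) (node 398 (merge (leaf 0 398 433) (node 370 (merge (leaf 2 366 369) (leaf 2 367 371)))))))))) (node 433 (merge (node 434 (merge (leaf 0 398 398) (node 435 (merge (leaf 3 399 432) (leaf 3 400 436))))) (node 465 (merge (node 497 (merge (leaf 7 368 368) (leaf 5 400 496))) (merge (node 464 (merge (leaf 6 432 496) (node 466 (merge (leaf 3 430 430) (node 498 (merge (leaf 4 369 369) (leaf 0 463 499))))))) (node 497 (merge (leaf 7 368 368) (node 498 (merge (leaf 4 401 530) (node 466 (merge (leaf 4 369 369) (node 464 (merge (leaf 3 430 430)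 (leaf 0 463 499)))))))))))))))))) (merge (node 368 (merge (node 336 (merge (leaf 5 303 304) (leaf 6 335 367))) (merge (node 336 (merge (leaf 5 303 304) (leaf 5 335 432))) (node 369 (merge (node 370 (merge (leaf 1 367 371) (node 398 (merge (leaf 1 366 367) (leaf 2 365 397))))) (node 464 (merge (leaf 7 431 496) (node 432 (merge (leaf 6 336 337) (node 465 (merge (leaf 4 368 497) (node 466 (merge (leaf 3 431 467) (node 498 (merge (leaf 0 463 499) (node 434 (merge (leaf 2 431 435) (node 401 (merge (leaf 7 369 402) (leaf 4 369 433)))))))))))))))))))) (merge (hyp 0) (merge (node 401 (merge (node 430 (merge (leaf 1 398 402) (node 429 (merge (leaf 1 397 398) (leaf 2 396 428))))) (merge (node 402 (merge (leaf 1 398 430) (node 403 (merge (leaf 1 399 432) (node 371 (merge (leaf 2 367 370) (leaf 2 368 372))))))) (merge (node 402 (merge (node 435 (merge (leaf 0 399 434) (node 403 (merge (leaf 1 399 432) (leaf 0 400 436))))) (merge (node 403 (merge (leaf 1 399 432) (node 371 (merge (leaf 2 367 370) (leaf 2 368 372))))) (node 434 (merge (leaf 0 399 435) (node 398 (merge (leaf 0 398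 433) (node 370 (merge (leaf 2 366 369) (leaf 2 367 371)))))))))) (node 369 (merge (node 370 (merge (leaf 2 366 398) (node 371 (merge (leaf 1 367 368) (leaf 1 368 372))))) (merge (node 432 (merge (node 337 (merge (leaf 5 304 305) (node 433 (merge (leaf 5 336 464) (node 434 (merge (leaf 3 399 435) (leaf 4 337 466))))))) (merge (node 337 (merge (leaf 5 304 305) (node 433 (merge (leaf 5 336 464) (node 398 (merge (leaf 0 397 397) (leaf 0 398 434))))))) (merge (node 430 (merge (leaf 2 397 429) (node 368 (merge (leaf 5 335 336) (node 398 (merge (leaf 2 365 397) (node 433 (merge (leaf 0 398 434) (node 465 (merge (leaf 0 430 466) (leaf 7 368 497))))))))))) (node 430 (merge (leaf 2 397 429) (node 368 (merge (leaf 5 335 336) (node 464 (merge (leaf 6 336 337) (node 465 (merge (leaf 3 430 466) (leaf 4 368 497))))))))))))) (node 337 (merge (node 432 (merge (leaf 5 304 305) (node 430 (merge (leaf 2 397 429) (node 433 (merge (leaf 5 336 464) (node 466 (merge (leaf 4 337 434) (leaf 0 430 465))))))))) (merge (node 305 (merge (leaf 5 304 432) (node 274 (merge (leaf 6 273 306) (node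 273 (merge (leaf 6 241 242) (node 272 (merge (leaf 7 240 240) (leaf 7 272 304))))))))) (merge (node 433 (merge (node 434 (merge (leaf 4 337 466) (node 432 (merge (leaf 3 399 435) (leaf 5 336 464))))) (merge (node 338 (merge (leaf 6 305 306) (node 465 (merge (leaf 6 337 370) (node 466 (merge (leaf 4 337 434) (leaf 4 369 498))))))) (node 338 (merge (leaf 6 305 306) (node 370 (merge (leaf 6 337 465) (node 336 (merge (leaf 7 304 304) (node 371 (merge (leaf 0 335 335) (leaf 1 368 372)))))))))))) (node 304 (merge (node 272 (merge (leaf 7 272 305) (node 336 (merge (leaf 4 240 240) (leaf 7 304 433))))) (merge (node 433 (merge (leaf 7 304 336) (node 338 (merge (leaf 6 305 306) (node 465 (merge (leaf 6 337 370) (node 466 (merge (leaf 4 337 434) (leaf 4 369 498))))))))) (merge (node 305 (merge (leaf 7 272 272) (node 306 (merge (leaf 6 273 274) (node 338 (merge (leaf 6 305 433) (node 303 (merge (leaf 0 302 302) (leaf 0 303 339))))))))) (node 272 (merge (leaf 7 272 305) (node 336 (merge (leaf 4 240 240) (node 335 (merge (leaf 6 303 367) (node 370 (merge (leaf 0 334 334) (node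 371 (merge (leaf 0 335 338) (leaf 1 368 372)))))))))))))))))))))))))) (merge (node 464 (merge (leaf 7 431 496) (node 465 (merge (node 466 (merge (leaf 3 430 430) (node 499 (merge (leaf 0 463 498) (node 467 (merge (leaf 3 431 432) (leaf 0 464 500))))))) (merge (node 466 (merge (leaf 3 430 430) (node 499 (merge (leaf 0 463 498) (node 467 (merge (leaf 0 464 500) (node 435 (merge (leaf 2 431 434) (leaf 2 432 436))))))))) (merge (node 401 (merge (node 430 (merge (leaf 1 398 402) (node 429 (merge (leaf 0 428 428) (leaf 0 429 432))))) (merge (node 368 (merge (node 497 (merge (leaf 4 368 432) (leaf 7 368 433))) (merge (node 336 (merge (leaf 5 303 304) (leaf 5 335 432))) (node 433 (merge (leaf 7 368 497) (node 336 (merge (leaf 4 304 304) (leaf 7 336 369)))))))) (node 402 (merge (leaf 1 398 430) (node 434 (merge (leaf 0 399 435) (node 370 (merge (leaf 2 367 371) (node 433 (merge (leaf 5 337 338) (leaf 6 369 497)))))))))))) (node 401 (merge (node 368 (merge (node 497 (merge (leaf 4 368 432) (leaf 7 368 433))) (merge (node 336 (merge (leaf 5 303 304) (leaf 5 335 432))) (node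 433 (merge (leaf 7 368 497) (node 336 (merge (leaf 4 304 304) (leaf 7 336 369)))))))) (merge (node 466 (merge (node 435 (merge (leaf 2 431 434) (node 467 (merge (leaf 3 431 432) (leaf 2 432 436))))) (merge (node 499 (merge (leaf 0 463 498) (node 467 (merge (leaf 3 431 432) (leaf 0 464 500))))) (node 498 (merge (leaf 0 463 499) (node 434 (merge (leaf 2 431 435) (node 369 (merge (leaf 7 369 402) (leaf 4 369 433)))))))))) (merge (node 432 (merge (node 368 (merge (leaf 5 335 336) (leaf 4 368 497))) (node 402 (merge (leaf 1 399 403) (node 434 (merge (leaf 0 399 435) (node 466 (merge (leaf 3 431 467) (node 498 (merge (leaf 7 369 369) (leaf 0 463 499))))))))))) (merge (node 402 (merge (node 403 (merge (leaf 1 399 432) (node 371 (merge (leaf 2 367 370) (leaf 2 368 372))))) (merge (node 434 (merge (leaf 0 399 435) (node 370 (merge (leaf 2 367 371) (node 497 (merge (leaf 6 369 433) (leaf 5 369 466))))))) (node 432 (merge (node 368 (merge (leaf 5 335 336) (leaf 4 368 497))) (node 403 (merge (leaf 1 399 401) (node 434 (merge (leaf 2 399 433) (node 466 (merge (leaf 2 431 435)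 (leaf 3 431 467)))))))))))) (node 402 (merge (node 370 (merge (leaf 2 367 371) (node 433 (merge (leaf 6 369 497) (node 338 (merge (leaf 5 305 306) (leaf 6 337 369))))))) (merge (node 435 (merge (leaf 0 399 434) (node 403 (merge (leaf 0 400 436) (node 371 (merge (leaf 2 367 370) (leaf 2 368 372))))))) (merge (node 435 (merge (leaf 0 399 434) (node 436 (merge (leaf 0 400 403) (node 466 (merge (leaf 2 432 467) (node 498 (merge (leaf 0 463 499) (node 433 (merge (leaf 4 369 369) (node 497 (merge (leaf 6 369 370) (leaf 4 401 530))))))))))))) (node 435 (merge (leaf 0 399 434) (node 403 (merge (leaf 0 400 436) (node 372 (merge (leaf 2 368 371) (node 404 (merge (leaf 2 369 373) (node 499 (merge (leaf 6 371 467) (node 498 (merge (leaf 0 463 466) (node 368 (merge (leaf 3 368 369) (node 497 (merge (leaf 7 368 433) (leaf 3 464 500)))))))))))))))))))))))))))))))) (merge (node 401 (merge (node 430 (merge (leaf 1 398 402) (node 429 (merge (leaf 1 397 398) (leaf 2 396 428))))) (merge (node 402 (merge (leaf 1 398 430) (node 435 (merge (leaf 0 399 434) (node 403 (merge (leaf 0 400 436)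 (node 371 (merge (leaf 2 367 370) (leaf 2 368 372))))))))) (merge (node 402 (merge (node 435 (merge (leaf 0 399 434) (node 403 (merge (leaf 0 400 436) (node 371 (merge (leaf 2 367 370) (leaf 2 368 372))))))) (merge (node 434 (merge (leaf 0 399 435) (node 398 (merge (leaf 0 398 433) (node 370 (merge (leaf 2 366 369) (leaf 2 367 371))))))) (merge (node 371 (merge (leaf 2 367 370) (node 403 (merge (leaf 2 368 372) (node 436 (merge (leaf 0 400 435) (node 404 (merge (leaf 0 401 437) (node 368 (merge (leaf 3 367 367) (leaf 3 368 369))))))))))) (merge (node 434 (merge (leaf 0 399 435) (node 398 (merge (leaf 0 398 433) (node 369 (merge (leaf 2 366 370) (node 368 (merge (leaf 2 365 397) (node 403 (merge (leaf 3 367 367) (leaf 3 368 404))))))))))) (merge (node 435 (merge (leaf 0 399 434) (node 403 (merge (leaf 0 400 436) (node 372 (merge (leaf 2 368 371) (node 404 (merge (leaf 2 369 373) (node 368 (merge (leaf 3 367 367) (leaf 3 368 369))))))))))) (node 371 (merge (leaf 2 367 370) (node 403 (merge (leaf 2 368 372) (node 368 (merge (leaf 3 367 367) (node 369 (merge (leaf 3 368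 404) (node 398 (merge (leaf 2 365 397) (node 433 (merge (leaf 0 398 434) (node 336 (merge (leaf 4 304 304) (leaf 7 336 465))))))))))))))))))))) (node 465 (merge (node 464 (merge (leaf 7 431 496) (node 430 (merge (leaf 3 430 466) (node 429 (merge (leaf 1 397 398) (leaf 0 428 428))))))) (merge (node 368 (merge (node 336 (merge (leaf 5 303 304) (leaf 6 335 367))) (node 433 (merge (leaf 7 368 497) (node 398 (merge (leaf 0 398 434) (node 369 (merge (leaf 2 366 370) (leaf 2 365 397))))))))) (node 464 (merge (leaf 7 431 496) (node 466 (merge (leaf 3 430 430) (node 498 (merge (leaf 0 463 499) (node 433 (merge (leaf 4 369 369) (node 497 (merge (leaf 7 368 368) (leaf 4 401 530)))))))))))))))))) (merge (node 401 (merge (node 430 (merge (leaf 1 398 402) (node 429 (merge (leaf 1 397 398) (leaf 2 396 428))))) (merge (node 402 (merge (leaf 1 398 430) (node 403 (merge (leaf 1 399 432) (node 371 (merge (leaf 2 367 370) (leaf 2 368 372))))))) (merge (node 402 (merge (node 435 (merge (leaf 0 399 434) (node 403 (merge (leaf 1 399 432) (leaf 0 400 436))))) (merge (node 403 (merge (leaf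 1 399 432) (node 371 (merge (leaf 2 367 370) (leaf 2 368 372))))) (node 434 (merge (leaf 0 399 435) (node 398 (merge (leaf 0 398 433) (node 370 (merge (leaf 2 366 369) (leaf 2 367 371)))))))))) (node 433 (merge (node 434 (merge (leaf 0 398 398) (node 435 (merge (leaf 3 399 432) (leaf 3 400 436))))) (merge (node 398 (merge (leaf 0 398 434) (node 429 (merge (leaf 1 397 430) (node 397 (merge (leaf 1 396 428) (node 369 (merge (leaf 2 365 368) (leaf 2 366 370))))))))) (merge (node 369 (merge (node 465 (merge (node 368 (merge (leaf 7 336 336) (leaf 7 368 497))) (node 466 (merge (leaf 4 369 498) (node 430 (merge (leaf 0 430 432) (node 429 (merge (leaf 1 397 398) (leaf 2 396 428))))))))) (merge (node 465 (merge (node 370 (merge (leaf 6 337 338) (node 368 (merge (leaf 7 336 336) (leaf 1 367 371))))) (node 498 (merge (leaf 4 369 466) (node 497 (merge (leaf 5 400 496) (leaf 4 401 530))))))) (node 398 (merge (leaf 2 366 370) (node 429 (merge (leaf 1 397 430) (node 397 (merge (leaf 1 396 428) (node 396 (merge (leaf 0 396 432) (node 364 (merge (leaf 3 363 363) (leaf 3 364 365))))))))))))))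 (node 465 (merge (node 497 (merge (leaf 7 368 368) (leaf 5 400 496))) (merge (node 497 (merge (leaf 5 400 496) (node 498 (merge (leaf 4 401 530) (node 369 (merge (leaf 4 369 466) (node 338 (merge (leaf 6 337 370) (node 337 (merge (leaf 6 305 306) (node 304 (merge (leaf 7 304 336) (node 305 (merge (leaf 7 272 272) (leaf 5 304 432))))))))))))))) (node 466 (merge (node 432 (merge (leaf 0 430 430) (node 434 (merge (leaf 3 399 435) (leaf 0 431 467))))) (node 369 (merge (leaf 4 369 498) (node 338 (merge (leaf 6 337 370) (node 337 (merge (leaf 6 305 306) (node 336 (merge (leaf 7 304 304) (leaf 7 336 368)))))))))))))))))))))) (node 401 (merge (node 430 (merge (leaf 1 398 402) (node 429 (merge (leaf 1 397 398) (leaf 2 396 428))))) (merge (node 402 (merge (leaf 1 398 430) (node 403 (merge (leaf 1 399 432) (node 371 (merge (leaf 2 367 370) (leaf 2 368 372))))))) (merge (node 402 (merge (node 435 (merge (leaf 0 399 434) (node 403 (merge (leaf 1 399 432) (leaf 0 400 436))))) (merge (node 403 (merge (leaf 1 399 432) (node 371 (merge (leaf 2 367 370) (leaf 2 368 372))))) (node 434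 (merge (leaf 0 399 435) (node 398 (merge (leaf 0 398 433) (node 370 (merge (leaf 2 366 369) (leaf 2 367 371)))))))))) (node 369 (merge (node 398 (merge (leaf 2 366 370) (node 433 (merge (leaf 0 398 434) (node 432 (merge (leaf 0 397 397) (node 337 (merge (leaf 5 304 305) (leaf 5 336 464))))))))) (merge (node 398 (merge (leaf 2 366 370) (node 397 (merge (node 429 (merge (leaf 1 396 428) (leaf 1 397 430))) (merge (node 428 (merge (leaf 1 396 429) (node 396 (merge (leaf 1 395 427) (node 364 (merge (leaf 3 363 363) (leaf 3 364 365))))))) (merge (node 430 (merge (leaf 1 397 429) (node 396 (merge (leaf 0 395 395) (node 364 (merge (leaf 3 363 363) (leaf 3 364 365))))))) (node 364 (merge (leaf 3 364 365) (node 396 (merge (leaf 3 363 363) (node 395 (merge (leaf 0 395 430) (node 427 (merge (leaf 1 394 426) (leaf 1 395 428))))))))))))))) (merge (node 433 (merge (node 434 (merge (leaf 0 398 398) (node 435 (merge (leaf 3 399 432) (leaf 3 400 436))))) (merge (node 434 (merge (leaf 0 398 398) (node 466 (merge (leaf 4 337 337) (node 498 (merge (leaf 4 369 465) (leaf 7 401 530)))))))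 (merge (node 464 (merge (leaf 7 431 496) (node 337 (merge (leaf 5 336 432) (node 466 (merge (leaf 4 337 434) (node 465 (merge (leaf 3 430 430) (leaf 4 369 498))))))))) (node 496 (merge (leaf 7 431 464) (node 465 (merge (leaf 5 400 497) (node 466 (merge (leaf 4 369 498) (node 430 (merge (leaf 0 430 432) (node 429 (merge (leaf 1 397 398) (leaf 2 396 428))))))))))))))) (node 337 (merge (node 432 (merge (leaf 5 304 305) (node 430 (merge (leaf 2 397 429) (node 433 (merge (leaf 5 336 464) (node 466 (merge (leaf 4 337 434) (leaf 0 430 465))))))))) (merge (node 305 (merge (leaf 5 304 432) (node 274 (merge (leaf 6 273 306) (node 273 (merge (leaf 6 241 242) (node 272 (merge (leaf 7 240 240) (leaf 7 272 304))))))))) (merge (node 433 (merge (node 434 (merge (leaf 4 337 466) (node 432 (merge (leaf 3 399 435) (leaf 5 336 464))))) (merge (node 338 (merge (leaf 6 305 306) (node 465 (merge (leaf 6 337 370) (node 466 (merge (leaf 4 337 434) (leaf 4 369 498))))))) (node 338 (merge (leaf 6 305 306) (node 370 (merge (leaf 6 337 465) (node 336 (merge (leaf 7 304 304) (node 371 (merge (leaf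 0 335 335) (leaf 1 368 372)))))))))))) (node 304 (merge (node 272 (merge (leaf 7 272 305) (node 336 (merge (leaf 4 240 240) (leaf 7 304 433))))) (merge (node 433 (merge (leaf 7 304 336) (node 338 (merge (leaf 6 305 306) (node 465 (merge (leaf 6 337 370) (node 466 (merge (leaf 4 337 434) (leaf 4 369 498))))))))) (merge (node 305 (merge (leaf 7 272 272) (node 306 (merge (leaf 6 273 274) (node 338 (merge (leaf 6 305 433) (node 303 (merge (leaf 0 302 302) (leaf 0 303 339))))))))) (node 272 (merge (leaf 7 272 305) (node 336 (merge (leaf 4 240 240) (node 335 (merge (leaf 6 303 367) (node 370 (merge (leaf 0 334 334) (node 371 (merge (leaf 0 335 338) (leaf 1 368 372))))))))))))))))))))))))))))))))))))) nP_370 cP_370 14 (by decide +kernel)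

end Crest.Agent.H26Snaky
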