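import Crest.Agent.H26SnP027
import Crest.Agent.H26SnP028

/-! certificate data for S0047, part P 29 (computer generated) -/

set_option autoImplicit false
set_option maxRecDepth 100000

namespace Crest.Agent.H26Snaky

open T

def nP_384 : ℕ := 0x300000001000000000000000080000000800000008000000000000000000000000000000000000000000000000000000000000000000000000000000000000000000000000000
def cP_384 : ℕ := 0x380000001c0000003880000006000000062000001f7000001f7000001ff000000ff8000001c0000001c0000001400000000000000000000000000000000000000000000000000000000000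
theorem lP_384 : S nP_384 cP_384 12 := S_of_chk [] trivial (node 400 (merge (node 367 (merge (node 366 (merge (leaf 7 334 334) (node 365 (merge (leaf 0 364 364) (node 401 (merge (leaf 0 365 368) (leaf 3 366 402))))))) (merge (node 335 (merge (node 336 (merge (leaf 6 303 304) (leaf 6 335 368))) (merge (node 368 (merge (leaf 6 335 336) (node 303 (merge (leaf 4 271 271) (leaf 4 303 432))))) (merge (node 304 (merge (leaf 6 303 336) (node 303 (merge (leaf 6 271 272) (leaf 4 303 432))))) (node 303 (merge (leaf 4 303 432) (node 272 (merge (leaf 6 271 304) (node 271 (merge (leaf 6 239 240) (leaf 4 271 368))))))))))) (node 334 (merge (leaf 7 334 366) (node 335 (merge (leaf 7 302 302) (node 304 (merge (leaf 6 303 336) (node 303 (merge (leaf 6 271 272) (leaf 4 303 432)))))))))))) (merge (node 401 (merge (node 430 (merge (leaf 1 398 402) (node 429 (merge (leaf 1 397 398) (leaf 2 396 428))))) (merge (node 402 (merge (leaf 1 398 430) (node 403 (merge (leaf 1 399 432) (node 371 (merge (leaf 2 367 370) (leaf 2 368 372))))))) (merge (node 398 (merge (node 366 (merge (leaf 3 365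 365) (node 334 (merge (leaf 4 302 302) (leaf 7 334 367))))) (node 429 (merge (leaf 1 397 430) (node 397 (merge (leaf 1 396 428) (node 432 (merge (leaf 0 396 396) (leaf 0 397 433))))))))) (node 398 (merge (node 366 (merge (leaf 3 365 365) (node 334 (merge (leaf 4 302 302) (leaf 7 334 367))))) (node 370 (merge (leaf 2 366 369) (node 402 (merge (leaf 2 367 371) (node 432 (merge (leaf 1 399 403) (node 397 (merge (leaf 0 396 396) (leaf 0 397 433))))))))))))))) (merge (node 398 (merge (node 367 (merge (node 366 (merge (leaf 7 334 334) (node 365 (merge (leaf 0 364 364) (leaf 3 365 401))))) (node 368 (merge (leaf 6 335 336) (node 369 (merge (leaf 1 366 370) (node 397 (merge (leaf 2 364 396) (leaf 2 365 400))))))))) (merge (node 429 (merge (node 428 (merge (leaf 1 396 397) (leaf 2 396 430))) (merge (node 401 (merge (leaf 1 397 430) (node 366 (merge (leaf 3 365 365) (node 334 (merge (leaf 4 302 302) (leaf 7 334 367))))))) (node 397 (merge (leaf 1 396 428) (node 365 (merge (leaf 3 364 364) (node 366 (merge (leaf 3 365 401) (node 334 (merge (leaf 4 302 302) (leaf 6 333 461))))))))))))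 (merge (node 429 (merge (node 430 (merge (leaf 1 397 401) (leaf 2 396 428))) (merge (node 397 (merge (leaf 1 396 428) (node 368 (merge (leaf 2 365 369) (node 367 (merge (leaf 6 335 336) (leaf 2 364 396))))))) (node 401 (merge (leaf 1 397 430) (node 369 (merge (leaf 2 366 370) (node 368 (merge (leaf 2 365 397) (node 336 (merge (leaf 5 303 304) (leaf 6 335 367)))))))))))) (merge (node 401 (merge (node 430 (merge (leaf 1 397 429) (node 366 (merge (leaf 4 334 334) (leaf 3 365 365))))) (merge (node 369 (merge (leaf 2 366 370) (node 397 (merge (leaf 2 365 368) (node 365 (merge (leaf 3 364 364) (leaf 3 365 366))))))) (node 429 (merge (leaf 1 397 430) (node 397 (merge (leaf 1 396 428) (node 369 (merge (leaf 2 365 368) (leaf 2 366 370)))))))))) (merge (node 367 (merge (node 366 (merge (leaf 7 334 334) (node 365 (merge (leaf 0 364 364) (leaf 3 365 401))))) (merge (node 336 (merge (leaf 6 335 368) (node 335 (merge (leaf 6 303 304) (node 302 (merge (leaf 7 302 334) (node 303 (merge (leaf 7 270 270) (leaf 5 302 430))))))))) (node 336 (merge (leaf 6 335 368) (node 335 (merge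 (leaf 6 303 304) (node 303 (merge (leaf 5 302 430) (node 270 (merge (leaf 7 270 302) (node 271 (merge (leaf 7 238 238) (leaf 5 270 366)))))))))))))) (node 367 (merge (node 368 (merge (leaf 6 335 336) (node 366 (merge (leaf 7 334 334) (node 397 (merge (leaf 1 365 369) (leaf 2 364 396))))))) (merge (node 335 (merge (node 334 (merge (leaf 7 302 302) (leaf 7 334 366))) (merge (node 303 (merge (leaf 5 302 430) (node 272 (merge (leaf 6 271 304) (node 271 (merge (leaf 6 239 240) (leaf 5 270 366))))))) (node 302 (merge (leaf 7 302 334) (node 303 (merge (leaf 7 270 270) (leaf 5 302 430)))))))) (merge (node 336 (merge (leaf 6 335 368) (node 335 (merge (leaf 6 303 304) (node 302 (merge (leaf 7 302 334) (node 303 (merge (leaf 7 270 270) (leaf 5 302 430))))))))) (node 336 (merge (leaf 6 335 368) (node 335 (merge (leaf 6 303 304) (node 303 (merge (leaf 5 302 430) (node 270 (merge (leaf 7 270 302) (node 271 (merge (leaf 7 238 238) (leaf 5 270 366))))))))))))))))))))) (merge (node 401 (merge (node 430 (merge (leaf 1 398 402) (node 429 (merge (leaf 2 396 428) (leaf 2 397 432)))))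 (merge (node 430 (merge (leaf 1 398 402) (node 429 (merge (leaf 1 397 398) (leaf 2 396 428))))) (merge (node 402 (merge (node 435 (merge (leaf 0 399 434) (node 403 (merge (leaf 1 399 432) (leaf 0 400 436))))) (merge (node 403 (merge (leaf 1 399 432) (node 371 (merge (leaf 2 367 370) (leaf 2 368 372))))) (node 434 (merge (leaf 0 399 435) (node 398 (merge (leaf 0 398 433) (node 370 (merge (leaf 2 366 369) (leaf 2 367 371)))))))))) (node 398 (merge (node 430 (merge (leaf 1 397 429) (node 366 (merge (leaf 4 334 334) (leaf 3 365 365))))) (merge (node 429 (merge (leaf 1 397 430) (node 397 (merge (leaf 1 396 428) (node 369 (merge (leaf 2 365 368) (leaf 2 366 370))))))) (node 433 (merge (leaf 0 398 434) (node 397 (merge (leaf 0 397 432) (node 369 (merge (leaf 2 365 368) (leaf 2 366 370)))))))))))))) (merge (node 562 (merge (node 563 (merge (leaf 3 527 527) (node 596 (merge (leaf 0 560 595) (node 564 (merge (leaf 0 561 597) (node 532 (merge (leaf 2 528 531) (leaf 2 529 533))))))))) (node 401 (merge (node 430 (merge (leaf 1 398 402) (node 429 (merge (leaf 2 396 428) (leaf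 2 397 432))))) (merge (node 430 (merge (leaf 1 398 402) (node 429 (merge (leaf 1 397 398) (leaf 2 396 428))))) (merge (node 402 (merge (node 435 (merge (leaf 0 399 434) (node 403 (merge (leaf 1 399 432) (leaf 0 400 436))))) (merge (node 403 (merge (leaf 1 399 432) (node 371 (merge (leaf 2 367 370) (leaf 2 368 372))))) (node 434 (merge (leaf 0 399 435) (node 398 (merge (leaf 0 398 433) (node 370 (merge (leaf 2 366 369) (leaf 2 367 371)))))))))) (node 398 (merge (node 433 (merge (leaf 0 398 434) (node 397 (merge (leaf 0 397 432) (node 429 (merge (leaf 1 396 428) (leaf 1 397 430))))))) (merge (node 433 (merge (leaf 0 398 434) (node 397 (merge (leaf 0 397 432) (node 369 (merge (leaf 2 365 368) (leaf 2 366 370))))))) (merge (node 429 (merge (leaf 1 397 430) (node 397 (merge (leaf 1 396 428) (node 369 (merge (leaf 2 365 368) (leaf 2 366 370))))))) (node 368 (merge (node 336 (merge (leaf 5 303 304) (leaf 6 335 367))) (node 433 (merge (leaf 0 398 434) (node 465 (merge (leaf 7 368 497) (node 430 (merge (leaf 1 397 429) (node 466 (merge (leaf 0 430 432) (node 369 (merge (leaf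 2 366 370) (leaf 4 369 498))))))))))))))))))))))) (node 562 (merge (node 563 (merge (leaf 3 527 527) (node 596 (merge (leaf 0 560 595) (node 564 (merge (leaf 0 561 597) (node 532 (merge (leaf 2 528 531) (leaf 2 529 533))))))))) (node 367 (merge (node 335 (merge (node 336 (merge (leaf 6 303 304) (leaf 6 335 368))) (merge (node 368 (merge (leaf 6 335 336) (node 303 (merge (leaf 4 271 271) (leaf 4 303 432))))) (merge (node 304 (merge (leaf 6 303 336) (node 303 (merge (leaf 6 271 272) (leaf 4 303 432))))) (node 303 (merge (leaf 4 303 432) (node 272 (merge (leaf 6 271 304) (node 271 (merge (leaf 6 239 240) (leaf 4 271 368))))))))))) (merge (node 334 (merge (leaf 7 334 366) (node 335 (merge (leaf 7 302 302) (node 304 (merge (leaf 6 303 336) (node 303 (merge (leaf 6 271 272) (leaf 4 303 432))))))))) (merge (node 334 (merge (leaf 7 334 366) (node 335 (merge (leaf 7 302 302) (node 303 (merge (leaf 4 303 432) (node 272 (merge (leaf 6 271 304) (node 271 (merge (leaf 6 239 240) (leaf 4 271 368))))))))))) (node 368 (merge (leaf 6 335 336) (node 397 (merge (node 366 (merge (leaf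 7 334 334) (node 396 (merge (leaf 1 364 365) (leaf 2 364 398))))) (merge (node 398 (merge (leaf 2 364 396) (node 369 (merge (leaf 1 366 370) (leaf 2 365 400))))) (merge (node 366 (merge (leaf 7 334 334) (node 365 (merge (leaf 1 364 396) (node 364 (merge (leaf 0 364 400) (node 332 (merge (leaf 3 331 331) (leaf 3 332 333))))))))) (node 366 (merge (leaf 7 334 334) (node 369 (merge (leaf 1 365 398) (node 338 (merge (leaf 2 334 337) (node 370 (merge (leaf 2 335 339) (node 403 (merge (leaf 0 367 402) (node 371 (merge (leaf 1 367 400) (leaf 0 368 404))))))))))))))))))))))))))))))) nP_384 cP_384 12 (by decide +kernel)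
def nP_385 : ℕ := 0x300000001000000000000000080000000800000000000000000000000000000000000000000000000000000000000000000000000000000000000000000000000000000000000
def cP_385 : ℕ := 0x20000000e0000000e8000000e8000003ec000001c8000003ce000001f2000000f3000001f7c00001ffc00001ffc00000ffc000001e0000001e0000001400000000000000000000000000000000000000000000000000000000000
theorem lP_385 : S nP_385 cP_385 13 := S_of_chk [(nP_384, cP_384, 12), (nP_367, cP_367, 11)] ⟨lP_384, lP_367, trivial⟩ (node 399 (merge (node 562 (merge (node 527 (merge (leaf 3 527 563) (node 526 (merge (leaf 0 525 525) (leaf 3 526 559))))) (merge (node 563 (merge (leaf 3 527 527) (node 596 (merge (leaf 0 560 595) (node 564 (merge (leaf 0 561 597) (node 532 (merge (leaf 2 528 531) (leaf 2 529 533))))))))) (merge (node 595 (merge (node 596 (merge (leaf 0 560 563) (node 594 (merge (leaf 3 560 593) (leaf 3 561 597))))) (merge (node 594 (merge (leaf 0 559 559) (node 596 (merge (leaf 3 560 593) (leaf 3 561 597))))) (merge (node 563 (merge (leaf 0 560 596) (node 531 (merge (leaf 2 528 532) (node 530 (merge (leaf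 2 527 559) (node 627 (merge (leaf 7 498 498) (leaf 7 530 659))))))))) (node 530 (merge (node 531 (merge (leaf 2 527 559) (node 532 (merge (leaf 1 529 533) (leaf 2 528 563))))) (merge (node 594 (merge (leaf 0 559 559) (node 498 (merge (leaf 4 498 627) (node 593 (merge (leaf 5 465 466) (leaf 5 497 625))))))) (node 498 (merge (node 466 (merge (leaf 4 466 563) (leaf 5 465 593))) (merge (node 627 (merge (leaf 4 498 594) (node 563 (merge (leaf 7 498 531) (leaf 7 530 659))))) (node 593 (merge (leaf 5 465 466) (node 625 (merge (leaf 5 497 594) (leaf 6 529 657))))))))))))))) (node 530 (merge (node 496 (merge (leaf 7 431 464) (node 559 (merge (leaf 2 527 531) (node 591 (merge (leaf 1 558 590) (node 623 (merge (leaf 6 495 527) (leaf 6 527 655))))))))) (merge (node 466 (merge (node 464 (merge (leaf 7 431 496) (node 498 (merge (leaf 5 465 593) (node 465 (merge (leaf 7 433 433) (leaf 0 463 499))))))) (merge (node 498 (merge (leaf 5 465 593) (node 435 (merge (leaf 6 434 467) (node 434 (merge (leaf 6 402 403) (node 433 (merge (leaf 7 401 401) (leaf 7 433 465))))))))) (merge (node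 464 (merge (leaf 7 431 496) (node 465 (merge (leaf 3 430 430) (node 435 (merge (leaf 2 431 434) (node 467 (merge (leaf 2 432 436) (node 499 (merge (leaf 0 464 500) (leaf 5 434 531))))))))))) (node 498 (merge (leaf 5 465 593) (node 435 (merge (leaf 6 434 467) (node 434 (merge (leaf 6 402 403) (node 401 (merge (leaf 7 401 433) (node 402 (merge (leaf 7 369 369) (leaf 0 399 400))))))))))))))) (node 594 (merge (node 595 (merge (leaf 0 559 559) (node 596 (merge (leaf 3 560 593) (leaf 3 561 597))))) (merge (node 595 (merge (leaf 0 559 559) (node 627 (merge (leaf 4 498 498) (node 659 (merge (leaf 4 530 626) (leaf 7 562 691))))))) (node 626 (merge (node 659 (merge (leaf 4 530 627) (node 658 (merge (leaf 4 562 691) (node 657 (merge (leaf 5 529 625) (leaf 5 561 689))))))) (merge (node 625 (merge (leaf 5 529 657) (node 498 (merge (leaf 5 497 593) (node 467 (merge (leaf 6 466 499) (node 466 (merge (leaf 6 434 435) (node 465 (merge (leaf 7 433 433) (leaf 7 465 497))))))))))) (merge (node 659 (merge (leaf 4 530 627) (node 658 (merge (leaf 4 562 691) (node 593 (merge (leaf 7 561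 690) (node 498 (merge (leaf 5 465 466) (leaf 5 497 625))))))))) (node 659 (merge (leaf 4 530 627) (node 658 (merge (leaf 4 562 691) (node 690 (merge (leaf 7 561 593) (node 689 (merge (leaf 5 561 657) (leaf 5 593 721))))))))))))))))))))))) (merge (node 464 (merge (leaf 7 431 496) (node 562 (merge (node 563 (merge (leaf 3 527 527) (node 596 (merge (leaf 0 560 595) (node 564 (merge (leaf 0 561 597) (node 532 (merge (leaf 2 528 531) (leaf 2 529 533))))))))) (node 367 (merge (node 336 (merge (leaf 6 335 368) (node 335 (merge (leaf 6 303 304) (leaf 4 335 432))))) (merge (node 334 (merge (leaf 7 334 366) (node 335 (merge (leaf 7 302 302) (leaf 4 335 432))))) (node 368 (merge (leaf 6 335 336) (node 366 (merge (leaf 7 334 334) (node 365 (merge (node 396 (merge (leaf 1 364 397) (node 364 (merge (leaf 1 363 395) (node 332 (merge (leaf 3 331 331) (leaf 3 332 333))))))) (merge (node 397 (merge (leaf 1 364 396) (node 369 (merge (leaf 1 365 398) (node 402 (merge (leaf 0 366 401) (node 370 (merge (leaf 0 367 403) (node 338 (merge (leaf 2 334 337) (leaf 2 335 339))))))))))) (merge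 (node 332 (merge (leaf 3 332 333) (node 364 (merge (leaf 3 331 331) (node 398 (merge (leaf 0 363 363) (node 369 (merge (leaf 1 366 370) (leaf 1 365 397))))))))) (node 332 (merge (leaf 3 332 333) (node 364 (merge (leaf 3 331 331) (node 363 (merge (leaf 0 363 398) (node 395 (merge (leaf 1 362 394) (leaf 1 363 396)))))))))))))))))))))))) (merge (node 367 (merge (node 336 (merge (leaf 6 335 368) (node 335 (merge (leaf 6 303 304) (node 464 (merge (leaf 4 335 432) (leaf 7 431 496))))))) (merge (node 334 (merge (leaf 7 334 366) (node 335 (merge (leaf 7 302 302) (node 464 (merge (leaf 4 335 432) (leaf 7 431 496))))))) (node 366 (merge (leaf 7 334 334) (node 365 (merge (node 368 (merge (leaf 6 335 336) (node 364 (merge (leaf 0 364 400) (node 332 (merge (leaf 3 331 331) (leaf 3 332 333))))))) (merge (node 364 (merge (leaf 0 364 400) (node 363 (merge (leaf 0 363 398) (node 395 (merge (leaf 1 362 394) (leaf 1 363 396))))))) (merge (node 368 (merge (leaf 6 335 336) (node 396 (merge (leaf 1 364 397) (node 364 (merge (leaf 1 363 395) (node 332 (merge (leaf 3 331 331) (leaf 3 332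 333))))))))) (node 368 (merge (leaf 6 335 336) (node 397 (merge (leaf 1 364 396) (node 369 (merge (leaf 1 365 398) (node 338 (merge (leaf 2 334 337) (node 370 (merge (leaf 2 335 339) (node 403 (merge (leaf 0 367 402) (node 371 (merge (leaf 1 367 400) (leaf 0 368 404)))))))))))))))))))))))) (merge (hyp 0) (merge (hyp 1) (node 464 (merge (leaf 7 431 496) (node 367 (merge (node 334 (merge (leaf 7 334 366) (node 335 (merge (leaf 7 302 302) (leaf 4 335 432))))) (merge (node 336 (merge (leaf 6 335 368) (node 335 (merge (leaf 6 303 304) (leaf 4 335 432))))) (merge (node 336 (merge (leaf 6 335 368) (node 335 (merge (leaf 6 303 304) (node 334 (merge (leaf 7 302 302) (leaf 7 334 366))))))) (node 366 (merge (leaf 7 334 334) (node 365 (merge (node 400 (merge (leaf 0 364 364) (node 401 (merge (leaf 0 365 368) (leaf 3 366 402))))) (merge (node 364 (merge (leaf 0 364 400) (node 363 (merge (leaf 0 363 398) (node 331 (merge (leaf 3 330 330) (leaf 3 331 332))))))) (merge (node 368 (merge (leaf 6 335 336) (node 396 (merge (leaf 1 364 397) (node 364 (merge (leaf 1 363 395) (node 332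 (merge (leaf 3 331 331) (leaf 3 332 333))))))))) (node 432 (merge (node 368 (merge (leaf 6 335 336) (node 400 (merge (leaf 0 365 401) (node 465 (merge (leaf 4 368 497) (node 430 (merge (leaf 0 429 429) (leaf 3 430 466))))))))) (merge (node 400 (merge (node 401 (merge (leaf 3 365 398) (leaf 3 366 402))) (merge (node 368 (merge (leaf 6 335 336) (node 401 (merge (leaf 0 365 366) (node 402 (merge (leaf 1 399 403) (leaf 1 398 430))))))) (node 368 (merge (leaf 6 335 336) (node 397 (merge (leaf 1 364 396) (node 398 (merge (leaf 0 397 433) (node 333 (merge (leaf 3 332 332) (node 301 (merge (leaf 4 269 269) (leaf 4 301 430)))))))))))))) (merge (node 430 (merge (node 465 (merge (leaf 0 429 429) (leaf 3 430 466))) (merge (node 429 (merge (leaf 0 428 428) (node 461 (merge (leaf 1 428 460) (node 397 (merge (leaf 3 396 396) (node 398 (merge (leaf 3 397 433) (leaf 6 365 493))))))))) (node 368 (merge (leaf 6 335 336) (node 397 (merge (leaf 1 364 396) (node 333 (merge (leaf 3 332 332) (node 398 (merge (leaf 4 301 301) (leaf 3 397 433)))))))))))) (merge (node 433 (merge (node 434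 (merge (leaf 3 398 398) (leaf 1 431 435))) (merge (node 398 (merge (node 397 (merge (leaf 0 396 396) (leaf 0 397 400))) (merge (node 397 (merge (leaf 0 396 396) (leaf 3 397 430))) (node 401 (merge (leaf 3 365 400) (node 430 (merge (leaf 2 398 402) (node 429 (merge (leaf 0 428 428) (leaf 0 429 465)))))))))) (node 434 (merge (leaf 1 431 435) (node 466 (merge (leaf 0 431 467) (node 430 (merge (leaf 0 430 465) (node 402 (merge (leaf 2 398 401) (leaf 2 399 403)))))))))))) (node 465 (merge (node 368 (merge (leaf 6 335 336) (node 400 (merge (leaf 4 368 497) (node 401 (merge (leaf 0 365 365) (leaf 3 366 402))))))) (merge (node 466 (merge (leaf 3 431 467) (node 498 (merge (leaf 0 463 499) (node 434 (merge (leaf 2 431 435) (node 433 (merge (leaf 3 398 398) (node 530 (merge (leaf 7 401 401) (leaf 7 433 562))))))))))) (node 466 (merge (leaf 3 431 467) (node 434 (merge (leaf 2 431 435) (node 433 (merge (leaf 3 398 398) (node 402 (merge (leaf 2 399 403) (node 370 (merge (leaf 5 337 338) (leaf 5 369 497))))))))))))))))))))))))))))))))))))) nP_385 cP_385 13 (by decide +kernel)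
def nP_386 : ℕ := 0x100000001000000000000000080000000800000028000000000000000000000000000000000000000000000000000000000000000000000000000000000000000000000000000
def cP_386 : ℕ := 0x4000000070000001f0000003f0000003d7000007f0000000fc00000070000000700000005000000000000000000000000000000000000000000000000000000000000
theorem lP_386 : S nP_386 cP_386 11 := S_of_chk [] trivial (node 433 (merge (node 434 (merge (node 398 (merge (leaf 0 398 400) (leaf 3 398 432))) (merge (node 464 (merge (leaf 7 431 496) (node 432 (merge (leaf 3 398 398) (leaf 1 431 435))))) (merge (node 464 (merge (leaf 7 431 496) (node 435 (merge (leaf 1 431 432) (node 400 (merge (leaf 0 399 402) (leaf 3 400 436))))))) (node 400 (merge (leaf 0 398 398) (node 435 (merge (leaf 0 399 402) (leaf 3 400 436))))))))) (merge (node 369 (merge (node 464 (merge (leaf 7 431 496) (node 432 (merge (leaf 5 336 337) (node 434 (merge (leaf 3 398 398) (leaf 1 431 435))))))) (merge (node 496 (merge (leaf 7 431 464) (node 465 (merge (leaf 5 400 497) (node 370 (merge (leaf 6 337 338) (node 368 (merge (leaf 7 336 336) (node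 400 (merge (leaf 1 367 371) (leaf 2 366 398))))))))))) (node 465 (merge (node 338 (merge (leaf 6 337 370) (node 337 (merge (leaf 6 305 306) (node 466 (merge (leaf 4 337 434) (leaf 4 369 498))))))) (merge (node 368 (merge (leaf 7 336 336) (node 497 (merge (leaf 7 368 400) (node 498 (merge (leaf 4 369 466) (leaf 4 401 530))))))) (node 338 (merge (leaf 6 337 370) (node 337 (merge (leaf 6 305 306) (node 336 (merge (leaf 7 304 304) (leaf 7 336 368))))))))))))) (merge (node 434 (merge (node 398 (merge (leaf 0 398 400) (leaf 3 398 432))) (merge (node 400 (merge (leaf 0 398 398) (node 435 (merge (leaf 0 399 402) (leaf 3 400 436))))) (merge (node 435 (merge (node 400 (merge (leaf 0 399 402) (leaf 3 400 436))) (node 432 (merge (leaf 1 431 464) (node 467 (merge (leaf 0 431 466) (leaf 0 432 468))))))) (node 432 (merge (leaf 3 398 398) (node 466 (merge (leaf 0 431 467) (node 498 (merge (leaf 7 401 530) (node 402 (merge (leaf 7 369 369) (leaf 2 399 403))))))))))))) (merge (node 369 (merge (node 464 (merge (leaf 7 431 496) (node 432 (merge (leaf 5 336 337) (node 434 (merge (leaf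 3 398 398) (leaf 1 431 435))))))) (merge (node 496 (merge (leaf 7 431 464) (node 465 (merge (leaf 5 400 497) (node 338 (merge (leaf 6 337 370) (node 337 (merge (leaf 6 305 306) (node 336 (merge (leaf 7 304 304) (leaf 7 336 368))))))))))) (merge (node 337 (merge (node 304 (merge (leaf 7 304 336) (node 305 (merge (leaf 7 272 272) (node 434 (merge (leaf 4 305 402) (leaf 4 337 466))))))) (merge (node 338 (merge (leaf 6 305 306) (node 465 (merge (leaf 6 337 370) (node 336 (merge (leaf 7 304 304) (leaf 7 336 368))))))) (node 306 (merge (leaf 6 305 338) (node 305 (merge (leaf 6 273 274) (node 434 (merge (leaf 4 305 402) (leaf 4 337 466)))))))))) (node 434 (merge (node 464 (merge (leaf 7 431 496) (node 432 (merge (leaf 3 398 398) (leaf 1 431 435))))) (merge (node 432 (merge (leaf 3 398 398) (node 466 (merge (leaf 0 431 467) (node 402 (merge (leaf 2 399 403) (leaf 7 369 498))))))) (node 465 (merge (node 496 (merge (leaf 6 432 464) (leaf 5 400 497))) (merge (node 370 (merge (leaf 6 337 338) (node 497 (merge (leaf 6 369 402) (node 498 (merge (leaf 4 369 466) (leaf 4 401 530)))))))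 (node 464 (merge (leaf 6 432 496) (node 466 (merge (leaf 2 431 435) (leaf 4 369 498))))))))))))))) (merge (node 432 (merge (node 398 (merge (leaf 3 398 434) (node 397 (merge (leaf 0 396 396) (leaf 0 397 400))))) (merge (node 434 (merge (leaf 3 398 398) (node 466 (merge (leaf 0 431 467) (node 498 (merge (leaf 7 401 530) (node 402 (merge (leaf 7 369 369) (leaf 2 399 403))))))))) (merge (node 400 (merge (node 402 (merge (leaf 1 399 403) (node 370 (merge (leaf 2 367 371) (node 465 (merge (leaf 6 369 497) (node 338 (merge (leaf 5 305 306) (leaf 6 337 369))))))))) (merge (node 402 (merge (leaf 1 399 403) (node 434 (merge (leaf 0 399 435) (node 466 (merge (leaf 0 431 467) (node 369 (merge (leaf 4 337 337) (leaf 7 369 498))))))))) (merge (node 434 (merge (leaf 3 399 435) (node 466 (merge (leaf 0 431 467) (node 369 (merge (leaf 4 337 337) (node 465 (merge (leaf 4 369 498) (node 368 (merge (leaf 7 336 336) (leaf 7 368 497))))))))))) (node 402 (merge (leaf 1 399 403) (node 434 (merge (leaf 0 399 435) (node 370 (merge (leaf 2 367 371) (node 465 (merge (leaf 5 337 338) (leaf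 6 369 497))))))))))))) (node 465 (merge (node 497 (merge (leaf 5 400 496) (node 402 (merge (leaf 6 369 370) (node 400 (merge (leaf 7 368 368) (leaf 1 399 403))))))) (merge (node 497 (merge (leaf 5 400 496) (node 368 (merge (leaf 7 368 400) (node 369 (merge (leaf 7 336 336) (node 498 (merge (leaf 4 369 466) (leaf 4 401 530))))))))) (merge (node 497 (merge (leaf 5 400 496) (node 370 (merge (leaf 6 369 402) (node 369 (merge (leaf 6 337 338) (node 498 (merge (leaf 4 369 466) (leaf 4 401 530))))))))) (node 369 (merge (node 370 (merge (leaf 6 337 338) (node 400 (merge (leaf 2 366 398) (node 402 (merge (leaf 2 367 371) (leaf 1 399 403))))))) (merge (node 338 (merge (leaf 6 337 370) (node 337 (merge (leaf 6 305 306) (node 336 (merge (leaf 7 304 304) (leaf 7 336 368))))))) (merge (node 336 (merge (leaf 7 336 368) (node 337 (merge (leaf 7 304 304) (node 306 (merge (leaf 6 305 338) (node 305 (merge (leaf 6 273 274) (leaf 5 304 400))))))))) (node 336 (merge (leaf 7 336 368) (node 337 (merge (leaf 7 304 304) (node 400 (merge (leaf 5 304 305) (node 398 (merge (leaf 2 366 370)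 (leaf 0 397 397))))))))))))))))))))) (merge (node 369 (merge (node 464 (merge (leaf 7 431 496) (node 337 (merge (leaf 5 336 432) (node 306 (merge (leaf 6 305 338) (node 305 (merge (leaf 6 273 274) (node 304 (merge (leaf 7 272 272) (leaf 7 304 336))))))))))) (merge (node 496 (merge (leaf 7 431 464) (node 465 (merge (leaf 5 400 497) (node 370 (merge (leaf 6 337 338) (node 400 (merge (leaf 2 366 398) (node 371 (merge (leaf 1 367 368) (leaf 1 368 372))))))))))) (merge (node 336 (merge (node 304 (merge (leaf 7 304 337) (node 368 (merge (leaf 4 272 272) (leaf 4 304 400))))) (merge (node 337 (merge (leaf 7 304 304) (node 338 (merge (leaf 6 305 306) (node 370 (merge (leaf 6 337 465) (node 335 (merge (leaf 0 334 334) (leaf 0 335 371))))))))) (node 465 (merge (leaf 7 336 368) (node 370 (merge (leaf 6 337 338) (node 497 (merge (leaf 6 369 402) (node 498 (merge (leaf 4 369 466) (leaf 4 401 530)))))))))))) (node 464 (merge (leaf 7 431 496) (node 337 (merge (leaf 5 336 432) (node 304 (merge (leaf 7 304 336) (node 305 (merge (leaf 7 272 272) (node 274 (merge (leaf 6 273 306) (node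 273 (merge (leaf 6 241 242) (node 370 (merge (leaf 4 273 402) (node 400 (merge (leaf 5 272 368) (leaf 2 366 398))))))))))))))))))))) (merge (node 400 (merge (node 434 (merge (leaf 0 398 398) (node 435 (merge (leaf 0 399 402) (leaf 3 400 436))))) (merge (node 398 (merge (leaf 0 398 434) (node 369 (merge (leaf 2 366 370) (node 368 (merge (leaf 2 365 397) (node 465 (merge (leaf 7 336 336) (leaf 7 368 497))))))))) (merge (node 370 (merge (node 371 (merge (leaf 2 367 402) (node 369 (merge (leaf 1 367 368) (leaf 1 368 372))))) (merge (node 402 (merge (leaf 2 367 371) (node 434 (merge (leaf 0 399 435) (node 338 (merge (leaf 5 305 306) (leaf 5 337 465))))))) (merge (node 496 (merge (leaf 7 431 464) (node 465 (merge (leaf 5 400 497) (node 369 (merge (leaf 6 337 338) (node 371 (merge (leaf 1 367 368) (leaf 1 368 372))))))))) (node 496 (merge (leaf 7 431 464) (node 465 (merge (leaf 5 400 497) (node 338 (merge (leaf 6 337 369) (node 402 (merge (leaf 5 305 306) (leaf 5 337 434))))))))))))) (node 369 (merge (node 370 (merge (leaf 2 366 398) (node 371 (merge (leaf 1 368 372) (leaf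 2 367 402))))) (node 337 (merge (node 336 (merge (leaf 7 304 304) (node 465 (merge (leaf 7 336 368) (node 496 (merge (leaf 6 432 464) (leaf 5 400 497))))))) (merge (node 306 (merge (leaf 6 305 338) (node 305 (merge (leaf 6 273 274) (node 304 (merge (leaf 7 272 272) (leaf 7 304 336))))))) (merge (node 306 (merge (leaf 6 305 338) (node 305 (merge (leaf 6 273 274) (node 368 (merge (leaf 5 272 273) (node 465 (merge (leaf 7 336 336) (leaf 7 368 497))))))))) (node 306 (merge (leaf 6 305 338) (node 305 (merge (leaf 6 273 274) (node 272 (merge (leaf 7 272 304) (node 273 (merge (leaf 7 240 240) (leaf 5 272 368))))))))))))))))))) (node 402 (merge (node 400 (merge (node 435 (merge (leaf 0 399 434) (node 403 (merge (leaf 1 399 432) (leaf 0 400 436))))) (merge (node 403 (merge (leaf 1 399 432) (node 371 (merge (leaf 2 367 370) (leaf 2 368 372))))) (node 434 (merge (leaf 0 399 435) (node 370 (merge (leaf 2 367 371) (node 465 (merge (leaf 5 337 338) (leaf 6 369 497)))))))))) (merge (node 432 (merge (node 403 (merge (leaf 1 400 404) (leaf 2 399 434))) (merge (node 403 (merge (leaf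 1 399 400) (leaf 1 400 404))) (node 434 (merge (node 435 (merge (leaf 1 431 464) (node 436 (merge (leaf 3 400 400) (leaf 3 401 437))))) (node 466 (merge (leaf 0 431 467) (node 498 (merge (leaf 7 369 369) (leaf 7 401 530)))))))))) (merge (node 432 (merge (node 403 (merge (leaf 1 399 400) (leaf 1 400 404))) (node 369 (merge (node 337 (merge (leaf 5 336 464) (node 434 (merge (leaf 4 305 305) (leaf 4 337 466))))) (merge (node 337 (merge (leaf 5 336 464) (node 338 (merge (leaf 6 305 306) (node 465 (merge (leaf 6 337 370) (node 336 (merge (leaf 7 304 304) (leaf 7 336 368))))))))) (node 465 (merge (node 466 (merge (leaf 4 369 498) (node 467 (merge (leaf 0 431 434) (leaf 3 432 468))))) (node 370 (merge (leaf 6 369 497) (node 338 (merge (leaf 5 305 306) (leaf 6 337 369)))))))))))) (merge (node 434 (merge (node 464 (merge (leaf 7 431 496) (node 432 (merge (leaf 2 399 403) (leaf 1 431 435))))) (merge (node 432 (merge (leaf 2 399 403) (node 466 (merge (leaf 0 431 467) (node 369 (merge (leaf 4 337 337) (leaf 7 369 498))))))) (node 465 (merge (node 370 (merge (leaf 6 369 497)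 (node 338 (merge (leaf 5 305 306) (leaf 5 337 434))))) (node 464 (merge (leaf 6 432 496) (node 435 (merge (leaf 1 432 436) (leaf 2 431 466)))))))))) (merge (node 434 (merge (node 400 (merge (leaf 0 399 435) (node 370 (merge (leaf 2 367 371) (node 338 (merge (leaf 5 305 306) (leaf 5 337 465))))))) (merge (node 435 (merge (node 400 (merge (leaf 0 399 402) (leaf 3 400 436))) (node 432 (merge (leaf 1 431 464) (node 467 (merge (leaf 0 431 466) (leaf 0 432 468))))))) (merge (node 465 (merge (node 370 (merge (leaf 6 369 497) (node 338 (merge (leaf 5 305 306) (leaf 5 337 434))))) (node 464 (merge (leaf 6 432 496) (node 435 (merge (leaf 1 432 436) (leaf 2 431 466))))))) (node 496 (merge (leaf 7 431 464) (node 465 (merge (leaf 5 400 497) (node 370 (merge (leaf 5 337 338) (node 371 (merge (leaf 2 367 400) (node 466 (merge (leaf 6 338 339) (node 369 (merge (leaf 7 337 337) (leaf 7 369 498))))))))))))))))) (merge (node 434 (merge (node 435 (merge (leaf 0 399 400) (node 464 (merge (leaf 7 431 496) (node 436 (merge (leaf 3 401 437) (leaf 1 432 465))))))) (merge (node 400 (merge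 (leaf 0 399 435) (node 370 (merge (leaf 2 367 371) (node 338 (merge (leaf 5 305 306) (leaf 5 337 465))))))) (merge (node 465 (merge (node 370 (merge (leaf 6 369 497) (node 338 (merge (leaf 5 305 306) (leaf 5 337 434))))) (node 464 (merge (leaf 6 432 496) (node 435 (merge (leaf 1 432 436) (leaf 2 431 466))))))) (merge (node 496 (merge (leaf 7 431 464) (node 465 (merge (leaf 5 400 497) (node 370 (merge (leaf 5 337 338) (node 371 (merge (leaf 2 367 400) (node 466 (merge (leaf 6 338 339) (node 369 (merge (leaf 7 337 337) (leaf 7 369 498))))))))))))) (node 400 (merge (leaf 0 399 435) (node 371 (merge (leaf 2 367 370) (node 403 (merge (leaf 2 368 372) (node 466 (merge (leaf 6 370 498) (node 404 (merge (leaf 1 401 405) (node 369 (merge (leaf 4 337 337) (leaf 3 368 368)))))))))))))))))) (node 400 (merge (node 370 (merge (leaf 2 367 371) (node 465 (merge (leaf 6 369 497) (node 338 (merge (leaf 5 305 306) (leaf 6 337 369))))))) (merge (node 403 (merge (leaf 1 399 432) (node 436 (merge (leaf 0 400 435) (node 404 (merge (leaf 0 401 437) (node 372 (merge (leaf 2 368 371) (leaf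 2 369 373))))))))) (node 403 (merge (leaf 1 399 432) (node 436 (merge (leaf 0 400 435) (node 404 (merge (leaf 0 401 437) (node 373 (merge (leaf 2 369 372) (node 405 (merge (leaf 2 370 374) (node 369 (merge (leaf 3 368 368) (leaf 3 369 370))))))))))))))))))))))))))))))) nP_386 cP_386 11 (by decide +kernel)
def nP_387 : ℕ := 0x100000001000000000000000080000000800000008000000000000000000000000000000000000000000000000000000000000000000000000000000000000000000000000000
def cP_387 : ℕ := 0x4000000040000000f0000001f0000003f7800003f7000007f7000000fc00000074000000700000005000000000000000000000000000000000000000000000000000000000000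
theorem lP_387 : S nP_387 cP_387 12 := S_of_chk [(nP_386, cP_386, 11)] ⟨lP_386, trivial⟩ (node 401 (merge (node 430 (merge (node 464 (merge (leaf 7 431 496) (node 429 (merge (leaf 0 428 428) (node 465 (merge (leaf 0 429 432) (leaf 3 430 466))))))) (merge (node 400 (merge (leaf 1 398 402) (node 429 (merge (leaf 1 397 398) (leaf 2 396 428))))) (node 465 (merge (node 464 (merge (leaf 3 430 466) (leaf 7 431 496))) (merge (node 402 (merge (leaf 1 398 400) (node 433 (merge (leaf 2 398 432) (node 497 (merge (leaf 6 369 370) (leaf 5 400 496))))))) (node 466 (merge (leaf 3 430 464) (node 433 (merge (leaf 0 430 432) (node 498 (merge (leaf 4 369 369) (node 530 (merge (leaf 7 401 434) (leaf 4 401 497))))))))))))))) (merge (node 464 (merge (leaf 7 431 496) (node 430 (merge (node 429 (merge (leaf 0 428 428) (node 465 (merge (leaf 0 429 432) (leaf 3 430 466))))) (merge (node 400 (merge (leaf 1 398 402) (node 429 (merge (leaf 1 397 398) (leaf 2 396 428))))) (node 433 (merge (node 402 (merge (leaf 1 398 400) (leaf 2 398 432))) (merge (node 432 (merge (leaf 2 398 402) (node 398 (merge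 (leaf 3 397 397) (leaf 3 398 434))))) (merge (node 400 (merge (leaf 1 398 402) (node 398 (merge (leaf 0 398 434) (node 366 (merge (leaf 4 334 334) (leaf 3 365 365))))))) (node 398 (merge (node 432 (merge (leaf 3 397 397) (leaf 3 398 434))) (merge (node 400 (merge (leaf 0 398 434) (node 366 (merge (leaf 4 334 334) (leaf 3 365 365))))) (node 432 (merge (leaf 3 397 397) (node 465 (merge (leaf 0 430 466) (node 366 (merge (leaf 4 334 334) (node 400 (merge (leaf 3 365 365) (node 368 (merge (leaf 4 336 336) (leaf 7 368 497))))))))))))))))))))))) (merge (node 400 (merge (node 430 (merge (leaf 1 398 402) (node 429 (merge (leaf 1 397 398) (leaf 2 396 428))))) (merge (node 402 (merge (leaf 1 398 430) (node 403 (merge (leaf 1 399 432) (node 371 (merge (leaf 2 367 370) (leaf 2 368 372))))))) (merge (node 398 (merge (node 366 (merge (leaf 3 365 365) (node 334 (merge (leaf 4 302 302) (leaf 4 334 430))))) (merge (node 429 (merge (leaf 1 397 430) (node 397 (merge (leaf 1 396 428) (node 369 (merge (leaf 2 365 368) (leaf 2 366 370))))))) (node 369 (merge (leaf 2 366 370) (node 397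 (merge (leaf 2 365 368) (node 365 (merge (leaf 3 364 364) (leaf 3 365 366)))))))))) (node 402 (merge (node 435 (merge (leaf 0 399 434) (node 403 (merge (leaf 1 399 432) (leaf 0 400 436))))) (merge (node 435 (merge (leaf 0 399 434) (node 403 (merge (leaf 0 400 436) (node 371 (merge (leaf 2 367 370) (leaf 2 368 372))))))) (node 370 (merge (leaf 2 367 371) (node 398 (merge (leaf 2 366 369) (node 365 (merge (leaf 3 365 366) (node 397 (merge (leaf 3 364 364) (node 396 (merge (leaf 0 396 432) (node 428 (merge (leaf 1 395 427) (leaf 1 396 429)))))))))))))))))))) (merge (node 400 (merge (node 430 (merge (leaf 1 398 402) (node 429 (merge (leaf 1 397 398) (leaf 2 396 428))))) (merge (node 402 (merge (leaf 1 398 430) (node 403 (merge (leaf 1 399 432) (node 371 (merge (leaf 2 367 370) (leaf 2 368 372))))))) (merge (node 398 (merge (node 366 (merge (leaf 3 365 365) (node 334 (merge (leaf 4 302 302) (leaf 4 334 430))))) (merge (node 429 (merge (leaf 1 397 430) (node 397 (merge (leaf 1 396 428) (node 369 (merge (leaf 2 365 368) (leaf 2 366 370))))))) (node 369 (merge (leaf 2 366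 370) (node 397 (merge (leaf 2 365 368) (node 365 (merge (leaf 3 364 364) (leaf 3 365 366)))))))))) (node 398 (merge (node 369 (merge (leaf 2 366 370) (node 397 (merge (leaf 2 365 368) (node 365 (merge (leaf 3 364 364) (leaf 3 365 366))))))) (merge (node 365 (merge (leaf 3 365 366) (node 397 (merge (leaf 3 364 364) (node 432 (merge (leaf 0 396 396) (leaf 0 397 433))))))) (merge (node 370 (merge (leaf 2 366 369) (node 402 (merge (leaf 2 367 371) (node 432 (merge (leaf 1 399 403) (node 397 (merge (leaf 0 396 396) (leaf 0 397 433))))))))) (node 402 (merge (node 370 (merge (leaf 2 366 369) (leaf 2 367 371))) (merge (node 403 (merge (leaf 1 399 432) (node 436 (merge (leaf 0 400 435) (node 404 (merge (leaf 0 401 437) (node 369 (merge (leaf 3 368 368) (leaf 2 366 370))))))))) (node 403 (merge (leaf 1 399 432) (node 436 (merge (leaf 0 400 435) (node 404 (merge (leaf 0 401 437) (node 372 (merge (leaf 2 368 371) (leaf 2 369 373)))))))))))))))))))) (merge (node 433 (merge (node 398 (merge (node 434 (merge (leaf 0 398 400) (leaf 3 398 432))) (merge (node 432 (merge (leaf 3 398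 434) (node 397 (merge (leaf 0 396 396) (leaf 3 397 430))))) (merge (node 400 (merge (leaf 0 398 434) (node 366 (merge (leaf 3 365 365) (node 334 (merge (leaf 4 302 302) (leaf 4 334 430))))))) (node 400 (merge (node 366 (merge (leaf 3 365 365) (node 334 (merge (leaf 4 302 302) (leaf 4 334 430))))) (merge (node 397 (merge (leaf 0 397 432) (node 429 (merge (leaf 1 396 428) (leaf 1 397 430))))) (node 397 (merge (leaf 0 397 432) (node 365 (merge (leaf 3 364 364) (leaf 3 365 366)))))))))))) (merge (node 465 (merge (node 496 (merge (leaf 6 432 464) (leaf 5 400 497))) (merge (node 497 (merge (leaf 5 400 496) (node 368 (merge (leaf 7 368 400) (node 369 (merge (leaf 7 336 336) (node 498 (merge (leaf 4 369 466) (leaf 4 401 530))))))))) (node 466 (merge (node 430 (merge (leaf 0 430 432) (leaf 3 430 464))) (node 369 (merge (leaf 4 369 498) (node 338 (merge (leaf 6 337 370) (node 337 (merge (leaf 6 305 306) (node 336 (merge (leaf 7 304 304) (leaf 7 336 368)))))))))))))) (merge (node 400 (merge (node 398 (merge (leaf 0 398 434) (node 430 (merge (leaf 1 397 429) (node 366 (merge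 (leaf 4 334 334) (leaf 3 365 365))))))) (merge (node 465 (merge (node 497 (merge (leaf 7 368 368) (leaf 5 400 496))) (merge (node 464 (merge (leaf 6 432 496) (node 466 (merge (leaf 3 430 430) (node 498 (merge (leaf 4 369 369) (leaf 0 463 499))))))) (node 497 (merge (leaf 7 368 368) (node 498 (merge (leaf 4 401 530) (node 466 (merge (leaf 4 369 369) (node 464 (merge (leaf 3 430 430) (leaf 0 463 499)))))))))))) (node 398 (merge (leaf 0 398 434) (node 369 (merge (leaf 2 366 370) (node 368 (merge (leaf 2 365 397) (node 465 (merge (leaf 7 336 336) (leaf 7 368 497)))))))))))) (merge (node 369 (merge (node 464 (merge (leaf 7 431 496) (node 432 (merge (leaf 5 336 337) (node 434 (merge (leaf 3 398 398) (leaf 1 431 435))))))) (merge (node 496 (merge (leaf 7 431 464) (node 465 (merge (leaf 5 400 497) (node 370 (merge (leaf 6 337 338) (node 368 (merge (leaf 7 336 336) (node 400 (merge (leaf 1 367 371) (leaf 2 366 398))))))))))) (node 465 (merge (node 338 (merge (leaf 6 337 370) (node 337 (merge (leaf 6 305 306) (node 466 (merge (leaf 4 337 434) (leaf 4 369 498))))))) (merge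 (node 368 (merge (leaf 7 336 336) (node 497 (merge (leaf 7 368 400) (node 498 (merge (leaf 4 369 466) (leaf 4 401 530))))))) (node 338 (merge (leaf 6 337 370) (node 337 (merge (leaf 6 305 306) (node 336 (merge (leaf 7 304 304) (leaf 7 336 368))))))))))))) (node 432 (merge (node 464 (merge (leaf 6 400 496) (node 434 (merge (leaf 3 398 398) (leaf 1 431 435))))) (merge (node 398 (merge (leaf 3 398 434) (node 397 (merge (leaf 0 396 396) (leaf 3 397 430))))) (node 465 (merge (node 496 (merge (leaf 6 432 464) (leaf 5 400 497))) (merge (node 466 (merge (leaf 0 430 430) (node 467 (merge (leaf 3 431 464) (leaf 3 432 468))))) (node 466 (merge (leaf 0 430 430) (node 498 (merge (leaf 4 369 369) (node 497 (merge (leaf 5 400 496) (leaf 4 401 530)))))))))))))))))) (merge (node 433 (merge (node 432 (merge (node 464 (merge (leaf 6 400 496) (node 434 (merge (leaf 3 398 398) (leaf 1 431 435))))) (merge (node 402 (merge (leaf 2 398 430) (node 403 (merge (leaf 1 400 404) (leaf 2 399 434))))) (node 464 (merge (leaf 6 400 496) (node 430 (merge (leaf 2 398 402) (node 429 (merge (leaf 0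 428 428) (node 397 (merge (leaf 3 396 396) (leaf 3 397 398)))))))))))) (merge (node 465 (merge (node 496 (merge (leaf 6 432 464) (leaf 5 400 497))) (merge (node 464 (merge (leaf 6 432 496) (node 466 (merge (leaf 3 430 430) (node 498 (merge (leaf 4 369 369) (leaf 0 463 499))))))) (merge (node 497 (merge (leaf 5 400 496) (node 370 (merge (leaf 6 369 402) (node 369 (merge (leaf 6 337 338) (node 498 (merge (leaf 4 369 466) (leaf 4 401 530))))))))) (node 370 (merge (node 402 (merge (leaf 6 369 497) (node 338 (merge (leaf 5 305 306) (leaf 5 337 434))))) (merge (node 369 (merge (leaf 6 337 338) (node 466 (merge (leaf 4 369 498) (node 464 (merge (leaf 3 430 430) (node 434 (merge (leaf 4 337 337) (leaf 2 431 435))))))))) (node 497 (merge (leaf 6 369 402) (node 498 (merge (leaf 4 401 530) (node 466 (merge (leaf 4 369 369) (node 464 (merge (leaf 3 430 430) (leaf 0 463 499)))))))))))))))) (merge (node 465 (merge (node 496 (merge (leaf 6 432 464) (leaf 5 400 497))) (merge (node 464 (merge (leaf 6 432 496) (node 466 (merge (leaf 3 430 430) (node 498 (merge (leaf 4 369 369) (leaf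 0 463 499))))))) (merge (node 497 (merge (leaf 5 400 496) (node 370 (merge (leaf 6 369 402) (node 369 (merge (leaf 6 337 338) (node 498 (merge (leaf 4 369 466) (leaf 4 401 530))))))))) (node 430 (merge (node 432 (merge (leaf 2 398 402) (leaf 0 430 466))) (merge (node 432 (merge (leaf 2 398 402) (node 429 (merge (leaf 0 429 464) (node 397 (merge (leaf 3 396 396) (leaf 3 397 398))))))) (node 466 (merge (leaf 3 430 464) (node 498 (merge (leaf 4 369 369) (node 530 (merge (leaf 4 401 497) (leaf 7 433 562)))))))))))))) (merge (node 432 (merge (node 402 (merge (leaf 2 398 430) (node 403 (merge (leaf 1 400 404) (leaf 2 399 434))))) (merge (node 398 (merge (leaf 3 398 434) (node 397 (merge (leaf 0 396 396) (leaf 3 397 430))))) (merge (node 430 (merge (leaf 2 398 402) (node 465 (merge (leaf 0 430 466) (node 429 (merge (leaf 0 429 464) (node 397 (merge (leaf 3 396 396) (leaf 3 397 398))))))))) (node 434 (merge (leaf 3 398 398) (node 466 (merge (leaf 0 431 467) (node 498 (merge (leaf 7 401 530) (node 402 (merge (leaf 7 369 369) (leaf 2 399 403))))))))))))) (merge (node 432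 (merge (node 464 (merge (leaf 6 400 496) (node 434 (merge (leaf 3 398 398) (leaf 1 431 435))))) (merge (node 398 (merge (leaf 3 398 434) (node 397 (merge (leaf 0 396 396) (leaf 3 397 430))))) (node 465 (merge (node 496 (merge (leaf 6 432 464) (leaf 5 400 497))) (merge (node 466 (merge (leaf 0 430 430) (node 467 (merge (leaf 3 431 464) (leaf 3 432 468))))) (node 466 (merge (leaf 0 430 430) (node 498 (merge (leaf 4 369 369) (node 497 (merge (leaf 5 400 496) (leaf 4 401 530))))))))))))) (merge (node 465 (merge (node 497 (merge (leaf 5 400 496) (node 402 (merge (leaf 6 369 370) (node 432 (merge (leaf 2 398 430) (node 403 (merge (leaf 1 400 404) (leaf 2 399 434))))))))) (merge (node 497 (merge (leaf 5 400 496) (node 370 (merge (leaf 6 369 402) (node 369 (merge (leaf 6 337 338) (node 498 (merge (leaf 4 369 466) (leaf 4 401 530))))))))) (merge (node 432 (merge (node 430 (merge (leaf 2 398 402) (leaf 0 430 466))) (merge (node 466 (merge (leaf 0 430 430) (node 467 (merge (leaf 0 431 434) (leaf 3 432 468))))) (merge (node 402 (merge (leaf 2 398 430) (node 403 (merge (leaf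 1 400 404) (leaf 2 399 434))))) (node 434 (merge (leaf 3 398 398) (node 466 (merge (leaf 0 431 467) (node 498 (merge (leaf 7 401 530) (node 402 (merge (leaf 7 369 369) (leaf 2 399 403))))))))))))) (node 497 (merge (leaf 5 400 496) (node 498 (merge (leaf 4 401 530) (node 466 (merge (leaf 4 369 369) (node 432 (merge (leaf 0 430 430) (node 434 (merge (leaf 3 398 398) (leaf 0 431 467))))))))))))))) (node 369 (merge (node 464 (merge (leaf 7 431 496) (node 432 (merge (leaf 5 336 337) (node 434 (merge (leaf 3 398 398) (leaf 1 431 435))))))) (merge (node 496 (merge (leaf 7 431 464) (node 465 (merge (leaf 5 400 497) (node 338 (merge (leaf 6 337 370) (node 337 (merge (leaf 6 305 306) (node 336 (merge (leaf 7 304 304) (leaf 7 336 368))))))))))) (merge (node 337 (merge (node 304 (merge (leaf 7 304 336) (node 305 (merge (leaf 7 272 272) (node 434 (merge (leaf 4 305 402) (leaf 4 337 466))))))) (merge (node 338 (merge (leaf 6 305 306) (node 465 (merge (leaf 6 337 370) (node 336 (merge (leaf 7 304 304) (leaf 7 336 368))))))) (node 306 (merge (leaf 6 305 338) (node 305 (merge (leaf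 6 273 274) (node 434 (merge (leaf 4 305 402) (leaf 4 337 466)))))))))) (node 434 (merge (node 464 (merge (leaf 7 431 496) (node 432 (merge (leaf 3 398 398) (leaf 1 431 435))))) (merge (node 432 (merge (leaf 3 398 398) (node 466 (merge (leaf 0 431 467) (node 402 (merge (leaf 2 399 403) (leaf 7 369 498))))))) (node 465 (merge (node 496 (merge (leaf 6 432 464) (leaf 5 400 497))) (merge (node 370 (merge (leaf 6 337 338) (node 497 (merge (leaf 6 369 402) (node 498 (merge (leaf 4 369 466) (leaf 4 401 530))))))) (node 464 (merge (leaf 6 432 496) (node 466 (merge (leaf 2 431 435) (leaf 4 369 498)))))))))))))))))))))) (merge (node 433 (merge (node 400 (merge (node 434 (merge (leaf 0 398 398) (node 435 (merge (leaf 0 399 402) (leaf 3 400 436))))) (merge (node 430 (merge (leaf 1 398 402) (node 429 (merge (leaf 1 397 398) (leaf 2 396 428))))) (merge (node 398 (merge (leaf 0 398 434) (node 430 (merge (leaf 1 397 429) (node 366 (merge (leaf 4 334 334) (leaf 3 365 365))))))) (node 402 (merge (leaf 1 398 430) (node 435 (merge (leaf 0 399 434) (node 403 (merge (leaf 0 400 436) (node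 371 (merge (leaf 2 367 370) (leaf 2 368 372))))))))))))) (merge (node 465 (merge (node 496 (merge (leaf 6 432 464) (leaf 5 400 497))) (merge (node 464 (merge (leaf 6 432 496) (node 466 (merge (leaf 3 430 430) (node 498 (merge (leaf 4 369 369) (leaf 0 463 499))))))) (merge (node 497 (merge (leaf 5 400 496) (node 370 (merge (leaf 6 369 402) (node 369 (merge (leaf 6 337 338) (node 498 (merge (leaf 4 369 466) (leaf 4 401 530))))))))) (node 370 (merge (node 402 (merge (leaf 6 369 497) (node 338 (merge (leaf 5 305 306) (leaf 5 337 434))))) (merge (node 369 (merge (leaf 6 337 338) (node 466 (merge (leaf 4 369 498) (node 464 (merge (leaf 3 430 430) (node 434 (merge (leaf 4 337 337) (leaf 2 431 435))))))))) (node 497 (merge (leaf 6 369 402) (node 498 (merge (leaf 4 401 530) (node 466 (merge (leaf 4 369 369) (node 464 (merge (leaf 3 430 430) (leaf 0 463 499)))))))))))))))) (merge (node 430 (merge (node 400 (merge (leaf 1 398 402) (node 429 (merge (leaf 1 397 398) (leaf 2 396 428))))) (merge (node 465 (merge (node 496 (merge (leaf 6 432 464) (leaf 5 400 497))) (merge (node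 497 (merge (leaf 5 400 496) (node 400 (merge (leaf 7 368 368) (node 429 (merge (leaf 1 397 398) (leaf 2 396 428))))))) (node 466 (merge (leaf 3 430 464) (node 369 (merge (leaf 4 369 498) (node 338 (merge (leaf 6 337 370) (node 337 (merge (leaf 6 305 306) (node 336 (merge (leaf 7 304 304) (leaf 7 336 368)))))))))))))) (node 465 (merge (node 496 (merge (leaf 6 432 464) (leaf 5 400 497))) (merge (node 497 (merge (leaf 5 400 496) (node 370 (merge (leaf 6 369 402) (node 369 (merge (leaf 6 337 338) (node 498 (merge (leaf 4 369 466) (leaf 4 401 530))))))))) (node 466 (merge (leaf 3 430 464) (node 369 (merge (leaf 4 369 498) (node 338 (merge (leaf 6 337 370) (node 337 (merge (leaf 6 305 306) (node 336 (merge (leaf 7 304 304) (leaf 7 336 368))))))))))))))))) (merge (node 400 (merge (node 434 (merge (leaf 0 398 398) (node 435 (merge (leaf 0 399 402) (leaf 3 400 436))))) (node 465 (merge (node 497 (merge (leaf 7 368 368) (leaf 5 400 496))) (merge (node 464 (merge (leaf 6 432 496) (node 466 (merge (leaf 3 430 430) (node 498 (merge (leaf 4 369 369) (leaf 0 463 499))))))) (node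 497 (merge (leaf 7 368 368) (node 498 (merge (leaf 4 401 530) (node 466 (merge (leaf 4 369 369) (node 464 (merge (leaf 3 430 430) (leaf 0 463 499)))))))))))))) (merge (node 400 (merge (node 398 (merge (leaf 0 398 434) (node 430 (merge (leaf 1 397 429) (node 366 (merge (leaf 4 334 334) (leaf 3 365 365))))))) (merge (node 465 (merge (node 497 (merge (leaf 7 368 368) (leaf 5 400 496))) (merge (node 464 (merge (leaf 6 432 496) (node 466 (merge (leaf 3 430 430) (node 498 (merge (leaf 4 369 369) (leaf 0 463 499))))))) (node 497 (merge (leaf 7 368 368) (node 498 (merge (leaf 4 401 530) (node 466 (merge (leaf 4 369 369) (node 464 (merge (leaf 3 430 430) (leaf 0 463 499)))))))))))) (node 398 (merge (leaf 0 398 434) (node 369 (merge (leaf 2 366 370) (node 368 (merge (leaf 2 365 397) (node 465 (merge (leaf 7 336 336) (leaf 7 368 497)))))))))))) (node 400 (merge (node 434 (merge (leaf 0 398 398) (node 435 (merge (leaf 0 399 402) (leaf 3 400 436))))) (merge (node 398 (merge (leaf 0 398 434) (node 369 (merge (leaf 2 366 370) (node 368 (merge (leaf 2 365 397) (node 465 (merge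 (leaf 7 336 336) (leaf 7 368 497))))))))) (merge (node 370 (merge (node 371 (merge (leaf 2 367 402) (node 369 (merge (leaf 1 367 368) (leaf 1 368 372))))) (merge (node 402 (merge (leaf 2 367 371) (node 434 (merge (leaf 0 399 435) (node 338 (merge (leaf 5 305 306) (leaf 5 337 465))))))) (merge (node 496 (merge (leaf 7 431 464) (node 465 (merge (leaf 5 400 497) (node 369 (merge (leaf 6 337 338) (node 371 (merge (leaf 1 367 368) (leaf 1 368 372))))))))) (node 496 (merge (leaf 7 431 464) (node 465 (merge (leaf 5 400 497) (node 338 (merge (leaf 6 337 369) (node 402 (merge (leaf 5 305 306) (leaf 5 337 434))))))))))))) (node 369 (merge (node 370 (merge (leaf 2 366 398) (node 371 (merge (leaf 1 368 372) (leaf 2 367 402))))) (node 337 (merge (node 336 (merge (leaf 7 304 304) (node 465 (merge (leaf 7 336 368) (node 496 (merge (leaf 6 432 464) (leaf 5 400 497))))))) (merge (node 306 (merge (leaf 6 305 338) (node 305 (merge (leaf 6 273 274) (node 304 (merge (leaf 7 272 272) (leaf 7 304 336))))))) (merge (node 306 (merge (leaf 6 305 338) (node 305 (merge (leaf 6 273 274) (node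 368 (merge (leaf 5 272 273) (node 465 (merge (leaf 7 336 336) (leaf 7 368 497))))))))) (node 306 (merge (leaf 6 305 338) (node 305 (merge (leaf 6 273 274) (node 272 (merge (leaf 7 272 304) (node 273 (merge (leaf 7 240 240) (leaf 5 272 368))))))))))))))))))))))))) (merge (node 402 (merge (node 400 (merge (leaf 1 398 430) (node 435 (merge (leaf 0 399 434) (node 403 (merge (leaf 0 400 436) (node 371 (merge (leaf 2 367 370) (leaf 2 368 372))))))))) (merge (node 430 (merge (leaf 1 398 400) (node 464 (merge (leaf 7 431 496) (node 429 (merge (leaf 0 428 428) (node 432 (merge (leaf 2 398 433) (leaf 0 429 465))))))))) (merge (node 433 (merge (node 432 (merge (leaf 2 398 430) (node 403 (merge (leaf 1 400 404) (leaf 2 399 434))))) (merge (node 464 (merge (leaf 7 431 496) (node 430 (merge (leaf 2 398 432) (node 465 (merge (leaf 3 430 466) (node 370 (merge (leaf 6 369 497) (node 338 (merge (leaf 5 305 306) (leaf 6 337 369))))))))))) (merge (node 434 (merge (node 464 (merge (leaf 7 431 496) (node 432 (merge (leaf 2 399 403) (leaf 1 431 435))))) (merge (node 432 (merge (leaf 2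 399 403) (node 466 (merge (leaf 0 431 467) (node 369 (merge (leaf 4 337 337) (leaf 7 369 498))))))) (node 465 (merge (node 370 (merge (leaf 6 369 497) (node 338 (merge (leaf 5 305 306) (leaf 5 337 434))))) (node 464 (merge (leaf 6 432 496) (node 435 (merge (leaf 1 432 436) (leaf 2 431 466)))))))))) (node 465 (merge (node 496 (merge (leaf 6 432 464) (leaf 5 400 497))) (merge (node 464 (merge (leaf 6 432 496) (node 466 (merge (leaf 3 430 430) (node 498 (merge (leaf 4 369 369) (leaf 0 463 499))))))) (merge (node 497 (merge (leaf 5 400 496) (node 370 (merge (leaf 6 369 402) (node 369 (merge (leaf 6 337 338) (node 498 (merge (leaf 4 369 466) (leaf 4 401 530))))))))) (node 370 (merge (node 402 (merge (leaf 6 369 497) (node 338 (merge (leaf 5 305 306) (leaf 5 337 434))))) (merge (node 369 (merge (leaf 6 337 338) (node 466 (merge (leaf 4 369 498) (node 464 (merge (leaf 3 430 430) (node 434 (merge (leaf 4 337 337) (leaf 2 431 435))))))))) (node 497 (merge (leaf 6 369 402) (node 498 (merge (leaf 4 401 530) (node 466 (merge (leaf 4 369 369) (node 464 (merge (leaf 3 430 430)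 (leaf 0 463 499)))))))))))))))))))) (node 433 (merge (node 400 (merge (node 435 (merge (leaf 0 399 434) (node 403 (merge (leaf 1 399 432) (leaf 0 400 436))))) (merge (node 403 (merge (leaf 1 399 432) (node 371 (merge (leaf 2 367 370) (leaf 2 368 372))))) (node 434 (merge (leaf 0 399 435) (node 370 (merge (leaf 2 367 371) (node 465 (merge (leaf 5 337 338) (leaf 6 369 497)))))))))) (merge (node 432 (merge (node 403 (merge (leaf 1 400 404) (leaf 2 399 434))) (merge (node 403 (merge (leaf 1 399 400) (leaf 1 400 404))) (node 434 (merge (node 435 (merge (leaf 1 431 464) (node 436 (merge (leaf 3 400 400) (leaf 3 401 437))))) (node 466 (merge (leaf 0 431 467) (node 498 (merge (leaf 7 369 369) (leaf 7 401 530)))))))))) (merge (node 434 (merge (node 464 (merge (leaf 7 431 496) (node 432 (merge (leaf 2 399 403) (leaf 1 431 435))))) (merge (node 432 (merge (leaf 2 399 403) (node 466 (merge (leaf 0 431 467) (node 369 (merge (leaf 4 337 337) (leaf 7 369 498))))))) (node 465 (merge (node 370 (merge (leaf 6 369 497) (node 338 (merge (leaf 5 305 306) (leaf 5 337 434))))) (node 464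 (merge (leaf 6 432 496) (node 435 (merge (leaf 1 432 436) (leaf 2 431 466)))))))))) (merge (node 434 (merge (node 400 (merge (leaf 0 399 435) (node 370 (merge (leaf 2 367 371) (node 338 (merge (leaf 5 305 306) (leaf 5 337 465))))))) (merge (node 435 (merge (node 400 (merge (leaf 0 399 402) (leaf 3 400 436))) (node 432 (merge (leaf 1 431 464) (node 467 (merge (leaf 0 431 466) (leaf 0 432 468))))))) (merge (node 465 (merge (node 370 (merge (leaf 6 369 497) (node 338 (merge (leaf 5 305 306) (leaf 5 337 434))))) (node 464 (merge (leaf 6 432 496) (node 435 (merge (leaf 1 432 436) (leaf 2 431 466))))))) (node 496 (merge (leaf 7 431 464) (node 465 (merge (leaf 5 400 497) (node 370 (merge (leaf 5 337 338) (node 371 (merge (leaf 2 367 400) (node 466 (merge (leaf 6 338 339) (node 369 (merge (leaf 7 337 337) (leaf 7 369 498))))))))))))))))) (merge (node 434 (merge (node 435 (merge (leaf 0 399 400) (node 464 (merge (leaf 7 431 496) (node 436 (merge (leaf 3 401 437) (leaf 1 432 465))))))) (merge (node 400 (merge (leaf 0 399 435) (node 370 (merge (leaf 2 367 371) (node 338 (merge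 (leaf 5 305 306) (leaf 5 337 465))))))) (merge (node 465 (merge (node 370 (merge (leaf 6 369 497) (node 338 (merge (leaf 5 305 306) (leaf 5 337 434))))) (node 464 (merge (leaf 6 432 496) (node 435 (merge (leaf 1 432 436) (leaf 2 431 466))))))) (merge (node 496 (merge (leaf 7 431 464) (node 465 (merge (leaf 5 400 497) (node 370 (merge (leaf 5 337 338) (node 371 (merge (leaf 2 367 400) (node 466 (merge (leaf 6 338 339) (node 369 (merge (leaf 7 337 337) (leaf 7 369 498))))))))))))) (node 400 (merge (leaf 0 399 435) (node 371 (merge (leaf 2 367 370) (node 403 (merge (leaf 2 368 372) (node 466 (merge (leaf 6 370 498) (node 404 (merge (leaf 1 401 405) (node 369 (merge (leaf 4 337 337) (leaf 3 368 368)))))))))))))))))) (merge (node 400 (merge (node 370 (merge (leaf 2 367 371) (node 465 (merge (leaf 6 369 497) (node 338 (merge (leaf 5 305 306) (leaf 6 337 369))))))) (merge (node 403 (merge (leaf 1 399 432) (node 436 (merge (leaf 0 400 435) (node 404 (merge (leaf 0 401 437) (node 372 (merge (leaf 2 368 371) (leaf 2 369 373))))))))) (node 403 (merge (leaf 1 399 432) (node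 436 (merge (leaf 0 400 435) (node 404 (merge (leaf 0 401 437) (node 373 (merge (leaf 2 369 372) (node 405 (merge (leaf 2 370 374) (node 369 (merge (leaf 3 368 368) (leaf 3 369 370)))))))))))))))) (node 432 (merge (node 403 (merge (leaf 1 399 400) (leaf 1 400 404))) (node 369 (merge (node 337 (merge (leaf 5 336 464) (node 434 (merge (leaf 4 305 305) (leaf 4 337 466))))) (merge (node 337 (merge (leaf 5 336 464) (node 338 (merge (leaf 6 305 306) (node 465 (merge (leaf 6 337 370) (node 336 (merge (leaf 7 304 304) (leaf 7 336 368))))))))) (node 465 (merge (node 466 (merge (leaf 4 369 498) (node 467 (merge (leaf 0 431 434) (leaf 3 432 468))))) (node 370 (merge (leaf 6 369 497) (node 338 (merge (leaf 5 305 306) (leaf 6 337 369))))))))))))))))))))))) (hyp 0)))))))))) nP_387 cP_387 12 (by decide +kernel)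
def nP_388 : ℕ := 0x300000001000000000000000080000000800000008000000000000000000000000000000000000000000000000000000000000000000000000000000000000000000000000000
def cP_388 : ℕ := 0xa0000000a0000003e0000000cc000003c7000000f7000000f3800000f7f0000077e00000ffc000006f8000005f0000001f0000001400000000000000000000000000000000000000000000000000000000000
theorem lP_388 : S nP_388 cP_388 12 := S_of_chk [] trivial (node 398 (merge (node 397 (merge (node 432 (merge (leaf 0 396 396) (node 433 (merge (leaf 0 397 400) (leaf 3 398 434))))) (merge (node 396 (merge (leaf 0 396 432) (node 395 (merge (leaf 0 395 430) (node 363 (merge (leaf 3 362 362) (leaf 3 363 364))))))) (merge (node 396 (merge (node 395 (merge (leaf 0 395 430) (node 363 (merge (leaf 3 362 362) (leaf 3 363 364))))) (merge (node 427 (merge (leaf 1 395 428) (node 395 (merge (leaf 1 394 426) (node 363 (merge (leaf 3 362 362) (leaf 3 363 364))))))) (node 428 (merge (leaf 1 395 427) (node 429 (merge (leaf 1 396 400) (node 464 (merge (leaf 0 428 430) (leaf 7 431 496)))))))))) (node 400 (merge (node 429 (merge (leaf 1 396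 428) (node 401 (merge (leaf 1 397 430) (node 369 (merge (leaf 2 365 368) (leaf 2 366 370))))))) (merge (node 433 (merge (leaf 0 397 432) (node 401 (merge (leaf 0 398 434) (node 430 (merge (leaf 1 398 402) (leaf 1 397 429))))))) (merge (node 433 (merge (leaf 0 397 432) (node 401 (merge (leaf 0 398 434) (node 369 (merge (leaf 2 365 368) (leaf 2 366 370))))))) (node 432 (merge (leaf 0 397 433) (node 429 (merge (leaf 1 396 428) (node 464 (merge (leaf 7 399 496) (node 465 (merge (leaf 0 429 430) (node 368 (merge (leaf 2 365 369) (leaf 4 368 497))))))))))))))))))) (merge (node 366 (merge (node 334 (merge (leaf 4 302 302) (leaf 7 334 367))) (merge (node 334 (merge (leaf 4 302 302) (leaf 4 334 430))) (node 400 (merge (node 365 (merge (leaf 3 365 401) (node 364 (merge (leaf 0 363 363) (leaf 3 364 397))))) (merge (node 401 (merge (leaf 3 365 365) (node 430 (merge (leaf 1 398 402) (leaf 1 397 429))))) (merge (node 433 (merge (node 434 (merge (leaf 0 398 401) (leaf 3 398 432))) (merge (node 401 (merge (leaf 0 398 434) (node 430 (merge (leaf 1 398 402) (leaf 1 397 429))))) (node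 397 (merge (leaf 0 397 432) (node 428 (merge (leaf 1 396 429) (node 396 (merge (leaf 1 395 427) (node 395 (merge (leaf 0 395 430) (node 363 (merge (leaf 3 362 362) (leaf 3 363 364)))))))))))))) (node 397 (merge (node 432 (merge (leaf 0 396 396) (leaf 0 397 433))) (merge (node 428 (merge (leaf 1 396 429) (node 396 (merge (leaf 1 395 427) (node 395 (merge (leaf 2 363 367) (leaf 0 395 430))))))) (node 432 (merge (leaf 0 397 433) (node 429 (merge (leaf 1 396 428) (node 461 (merge (leaf 6 365 493) (node 460 (merge (leaf 1 428 430) (node 365 (merge (leaf 3 364 364) (leaf 5 364 492))))))))))))))))))))) (merge (node 464 (merge (leaf 7 431 496) (node 400 (merge (node 366 (merge (node 334 (merge (leaf 4 302 302) (leaf 4 334 430))) (node 365 (merge (leaf 3 365 401) (node 364 (merge (leaf 0 363 363) (leaf 0 364 367))))))) (merge (node 397 (merge (node 432 (merge (leaf 0 396 396) (node 433 (merge (leaf 0 397 400) (leaf 3 398 434))))) (node 369 (merge (leaf 2 365 368) (node 401 (merge (leaf 2 366 370) (node 365 (merge (leaf 3 364 364) (leaf 3 365 366))))))))) (node 432 (merge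 (node 433 (merge (leaf 0 397 397) (leaf 3 398 434))) (node 465 (merge (node 466 (merge (leaf 3 430 430) (leaf 3 431 467))) (node 367 (merge (leaf 4 335 335) (node 368 (merge (leaf 4 368 497) (node 369 (merge (leaf 6 336 337) (node 370 (merge (leaf 1 367 371) (leaf 1 366 398)))))))))))))))))) (merge (node 367 (merge (node 334 (merge (leaf 7 334 366) (node 335 (merge (leaf 7 302 302) (node 464 (merge (leaf 4 335 432) (leaf 7 431 496))))))) (merge (node 335 (merge (node 334 (merge (leaf 7 302 302) (leaf 7 334 366))) (merge (node 303 (merge (leaf 5 302 430) (node 272 (merge (leaf 6 271 304) (node 271 (merge (leaf 6 239 240) (leaf 5 270 366))))))) (node 302 (merge (leaf 7 302 334) (node 303 (merge (leaf 7 270 270) (leaf 5 302 430)))))))) (merge (node 464 (merge (leaf 7 431 496) (node 335 (merge (leaf 4 335 432) (node 303 (merge (leaf 5 302 430) (node 272 (merge (leaf 6 271 304) (node 271 (merge (leaf 6 239 240) (leaf 5 270 366))))))))))) (merge (node 464 (merge (leaf 7 431 496) (node 335 (merge (leaf 4 335 432) (node 302 (merge (leaf 7 302 334) (node 303 (merge (leaf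 7 270 270) (leaf 5 302 430))))))))) (node 366 (merge (leaf 7 334 334) (node 365 (merge (node 364 (merge (leaf 0 363 363) (node 396 (merge (leaf 1 363 395) (node 397 (merge (leaf 1 364 368) (leaf 0 396 432))))))) (merge (node 364 (merge (leaf 0 363 363) (node 332 (merge (leaf 3 331 331) (node 368 (merge (leaf 3 332 333) (node 369 (merge (leaf 1 366 370) (leaf 1 365 397))))))))) (merge (node 397 (merge (node 396 (merge (leaf 0 396 432) (node 395 (merge (leaf 2 363 367) (leaf 2 362 394))))) (node 368 (merge (leaf 1 365 369) (node 333 (merge (leaf 3 332 332) (node 301 (merge (leaf 4 269 269) (leaf 4 301 430))))))))) (merge (node 364 (merge (leaf 0 363 363) (node 396 (merge (leaf 1 363 395) (node 332 (merge (leaf 3 331 331) (node 333 (merge (leaf 3 332 368) (node 301 (merge (leaf 4 269 269) (leaf 6 300 428))))))))))) (node 364 (merge (leaf 0 363 363) (node 396 (merge (leaf 1 363 395) (node 397 (merge (leaf 0 396 432) (node 428 (merge (leaf 1 395 427) (node 333 (merge (leaf 5 300 301) (leaf 6 332 460))))))))))))))))))))))) (merge (node 401 (merge (node 400 (merge (node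 430 (merge (leaf 1 398 402) (leaf 1 397 429))) (merge (node 366 (merge (leaf 3 365 365) (node 367 (merge (leaf 7 334 334) (leaf 3 366 402))))) (node 430 (merge (leaf 1 397 429) (node 366 (merge (leaf 4 334 334) (leaf 3 365 365)))))))) (merge (node 430 (merge (node 400 (merge (leaf 1 398 402) (leaf 1 397 429))) (merge (node 464 (merge (leaf 7 431 496) (node 429 (merge (leaf 0 428 428) (node 465 (merge (leaf 0 429 432) (leaf 3 430 466))))))) (node 400 (merge (leaf 1 398 402) (node 433 (merge (leaf 0 398 434) (node 496 (merge (leaf 7 431 464) (node 369 (merge (leaf 2 366 370) (node 465 (merge (leaf 5 400 497) (node 466 (merge (leaf 0 430 432) (leaf 4 369 498)))))))))))))))) (merge (node 430 (merge (node 400 (merge (leaf 1 397 429) (node 366 (merge (leaf 4 334 334) (leaf 3 365 365))))) (merge (node 464 (merge (leaf 7 431 496) (node 429 (merge (leaf 0 428 428) (node 465 (merge (leaf 0 429 432) (leaf 3 430 466))))))) (node 496 (merge (leaf 7 431 464) (node 366 (merge (leaf 4 334 334) (node 400 (merge (leaf 3 365 365) (node 433 (merge (leaf 0 398 434) (node 369 (merge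 (leaf 2 366 370) (node 465 (merge (leaf 5 400 497) (node 466 (merge (leaf 0 430 432) (leaf 4 369 498)))))))))))))))))) (merge (node 400 (merge (node 434 (merge (leaf 0 398 433) (node 402 (merge (leaf 0 399 435) (node 370 (merge (leaf 2 366 369) (leaf 2 367 371))))))) (node 366 (merge (leaf 3 365 365) (node 334 (merge (leaf 4 302 302) (leaf 7 334 367))))))) (node 433 (merge (node 464 (merge (leaf 7 431 496) (node 432 (merge (leaf 3 398 434) (node 367 (merge (leaf 4 335 335) (node 366 (merge (leaf 7 334 334) (node 369 (merge (leaf 5 336 337) (node 368 (merge (leaf 1 366 370) (leaf 0 366 402))))))))))))) (merge (node 464 (merge (leaf 7 431 496) (node 432 (merge (leaf 3 398 434) (node 367 (merge (leaf 4 335 335) (node 369 (merge (leaf 5 336 337) (node 370 (merge (leaf 1 366 368) (node 465 (merge (leaf 6 337 338) (node 430 (merge (leaf 0 429 429) (leaf 0 430 466))))))))))))))) (merge (node 465 (merge (node 432 (merge (leaf 3 398 434) (node 430 (merge (leaf 2 398 402) (leaf 0 430 466))))) (merge (node 497 (merge (leaf 5 400 496) (node 370 (merge (leaf 6 369 402) (node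 369 (merge (leaf 6 337 338) (node 498 (merge (leaf 4 369 466) (leaf 4 401 530))))))))) (merge (node 432 (merge (leaf 3 398 434) (node 402 (merge (leaf 2 398 430) (node 497 (merge (leaf 6 369 370) (leaf 5 400 496))))))) (node 432 (merge (leaf 3 398 434) (node 466 (merge (leaf 0 430 430) (node 498 (merge (leaf 4 369 369) (node 497 (merge (leaf 5 400 496) (leaf 4 401 530))))))))))))) (merge (node 465 (merge (node 496 (merge (leaf 6 432 464) (leaf 5 400 497))) (merge (node 464 (merge (leaf 6 432 496) (node 466 (merge (leaf 3 430 430) (node 498 (merge (leaf 4 369 369) (leaf 0 463 499))))))) (merge (node 497 (merge (leaf 5 400 496) (node 370 (merge (leaf 6 369 402) (node 369 (merge (leaf 6 337 338) (node 498 (merge (leaf 4 369 466) (leaf 4 401 530))))))))) (node 370 (merge (node 402 (merge (leaf 6 369 497) (node 338 (merge (leaf 5 305 306) (leaf 5 337 434))))) (merge (node 369 (merge (leaf 6 337 338) (node 466 (merge (leaf 4 369 498) (node 464 (merge (leaf 3 430 430) (node 434 (merge (leaf 4 337 337) (leaf 2 431 435))))))))) (node 497 (merge (leaf 6 369 402) (node 498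 (merge (leaf 4 401 530) (node 466 (merge (leaf 4 369 369) (node 464 (merge (leaf 3 430 430) (leaf 0 463 499)))))))))))))))) (merge (node 432 (merge (node 464 (merge (leaf 6 400 496) (node 367 (merge (leaf 4 335 335) (node 366 (merge (leaf 7 334 334) (node 369 (merge (leaf 5 336 337) (node 368 (merge (leaf 1 366 370) (leaf 0 366 402))))))))))) (merge (node 464 (merge (leaf 6 400 496) (node 367 (merge (leaf 4 335 335) (node 369 (merge (leaf 5 336 337) (node 370 (merge (leaf 1 366 368) (node 465 (merge (leaf 6 337 338) (node 430 (merge (leaf 0 429 429) (leaf 0 430 466))))))))))))) (merge (node 430 (merge (leaf 2 398 402) (node 465 (merge (leaf 0 430 466) (node 429 (merge (leaf 0 429 464) (node 460 (merge (leaf 1 428 461) (node 428 (merge (leaf 2 395 427) (leaf 1 427 459))))))))))) (node 465 (merge (node 430 (merge (leaf 2 398 402) (leaf 0 430 466))) (merge (node 402 (merge (leaf 2 398 430) (node 370 (merge (leaf 6 369 497) (node 338 (merge (leaf 5 305 306) (leaf 6 337 369))))))) (merge (node 497 (merge (leaf 5 400 496) (node 370 (merge (leaf 6 369 402) (node 369 (merge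 (leaf 6 337 338) (node 498 (merge (leaf 4 369 466) (leaf 4 401 530))))))))) (node 466 (merge (leaf 0 430 430) (node 498 (merge (leaf 4 369 369) (node 497 (merge (leaf 5 400 496) (leaf 4 401 530))))))))))))))) (node 432 (merge (leaf 3 398 434) (node 430 (merge (leaf 2 398 402) (node 465 (merge (leaf 0 430 466) (node 429 (merge (leaf 0 429 464) (node 460 (merge (leaf 1 428 461) (node 428 (merge (leaf 2 395 427) (leaf 1 427 459)))))))))))))))))))))))) (merge (node 397 (merge (node 396 (merge (node 395 (merge (leaf 0 395 430) (node 367 (merge (leaf 2 363 366) (leaf 2 364 368))))) (merge (node 395 (merge (leaf 0 395 430) (node 363 (merge (leaf 3 362 362) (leaf 3 363 364))))) (node 368 (merge (leaf 2 364 367) (node 400 (merge (leaf 2 365 369) (node 364 (merge (leaf 3 363 363) (leaf 3 364 365)))))))))) (merge (node 396 (merge (node 395 (merge (leaf 0 395 430) (node 427 (merge (leaf 1 394 426) (leaf 1 395 428))))) (merge (node 428 (merge (leaf 1 395 427) (node 400 (merge (leaf 1 396 429) (node 368 (merge (leaf 2 364 367) (leaf 2 365 369))))))) (node 430 (merge (leaf 0 395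 395) (node 368 (merge (leaf 2 364 367) (node 400 (merge (leaf 2 365 369) (node 401 (merge (leaf 1 398 402) (leaf 1 397 429)))))))))))) (merge (node 396 (merge (node 395 (merge (leaf 0 395 430) (node 427 (merge (leaf 1 394 426) (leaf 1 395 428))))) (merge (node 395 (merge (leaf 0 395 430) (node 363 (merge (leaf 3 362 362) (leaf 3 363 364))))) (merge (node 427 (merge (leaf 1 395 428) (node 395 (merge (leaf 1 394 426) (node 363 (merge (leaf 3 362 362) (leaf 3 363 364))))))) (node 429 (merge (node 428 (merge (leaf 1 395 427) (node 464 (merge (leaf 0 428 430) (leaf 7 431 496))))) (node 364 (merge (leaf 3 363 363) (node 461 (merge (leaf 7 364 493) (node 332 (merge (leaf 4 300 300) (leaf 7 332 365))))))))))))) (merge (node 428 (merge (node 427 (merge (leaf 1 395 396) (node 429 (merge (leaf 1 396 400) (leaf 2 394 426))))) (merge (node 400 (merge (leaf 1 396 429) (node 365 (merge (leaf 3 364 364) (node 366 (merge (leaf 3 365 401) (node 334 (merge (leaf 4 302 302) (leaf 7 334 367))))))))) (merge (node 396 (merge (leaf 1 395 427) (node 364 (merge (leaf 3 363 363) (node 365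 (merge (leaf 3 364 400) (node 333 (merge (leaf 5 300 301) (leaf 6 332 460))))))))) (node 396 (merge (leaf 1 395 427) (node 363 (merge (leaf 3 363 364) (node 395 (merge (leaf 3 362 362) (node 366 (merge (leaf 2 363 367) (node 394 (merge (leaf 2 362 365) (node 393 (merge (leaf 0 393 429) (node 425 (merge (leaf 1 392 424) (leaf 1 393 426))))))))))))))))))) (node 365 (merge (node 364 (merge (leaf 3 364 400) (node 363 (merge (leaf 0 362 362) (leaf 0 363 366))))) (merge (node 400 (merge (leaf 3 364 364) (node 429 (merge (leaf 1 396 428) (node 401 (merge (leaf 1 397 430) (node 369 (merge (leaf 2 365 368) (leaf 2 366 370))))))))) (merge (node 429 (merge (node 428 (merge (leaf 1 396 400) (node 430 (merge (leaf 2 395 427) (leaf 0 428 464))))) (merge (node 428 (merge (leaf 1 396 400) (node 460 (merge (leaf 5 332 333) (node 492 (merge (leaf 5 364 461) (leaf 6 396 524))))))) (node 334 (merge (node 366 (merge (leaf 7 334 367) (leaf 6 333 461))) (node 333 (merge (leaf 6 301 302) (node 300 (merge (leaf 7 300 332) (node 301 (merge (leaf 7 268 268) (leaf 4 301 430)))))))))))) (node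 429 (merge (node 430 (merge (node 428 (merge (leaf 2 395 427) (leaf 0 428 464))) (node 333 (merge (leaf 4 301 301) (node 334 (merge (leaf 6 301 302) (leaf 4 334 366))))))) (merge (node 364 (merge (node 363 (merge (leaf 0 362 362) (leaf 0 363 366))) (node 332 (merge (leaf 7 332 461) (node 300 (merge (leaf 4 268 268) (leaf 7 300 333))))))) (merge (node 366 (merge (node 334 (merge (leaf 4 302 302) (leaf 7 334 367))) (node 364 (merge (leaf 0 363 363) (node 461 (merge (leaf 7 332 332) (leaf 6 365 493))))))) (node 332 (merge (node 300 (merge (leaf 7 300 333) (node 364 (merge (leaf 4 268 268) (leaf 7 332 461))))) (merge (node 333 (merge (leaf 7 300 300) (node 302 (merge (leaf 6 301 334) (node 301 (merge (leaf 6 269 270) (leaf 4 301 430))))))) (node 461 (merge (leaf 7 332 364) (node 492 (merge (leaf 5 364 460) (node 493 (merge (leaf 5 396 524) (node 525 (merge (leaf 6 397 430) (node 526 (merge (leaf 4 397 494) (leaf 4 429 558))))))))))))))))))))))))))) (node 562 (merge (node 595 (merge (node 596 (merge (leaf 0 560 563) (node 594 (merge (leaf 3 560 593) (leaf 3 561 597)))))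 (merge (node 594 (merge (leaf 0 559 559) (node 596 (merge (leaf 3 560 593) (leaf 3 561 597))))) (merge (node 563 (merge (leaf 0 560 596) (node 531 (merge (leaf 2 528 532) (node 530 (merge (leaf 2 527 559) (node 627 (merge (leaf 7 498 498) (leaf 7 530 659))))))))) (node 530 (merge (node 531 (merge (leaf 2 527 559) (node 532 (merge (leaf 1 529 533) (leaf 2 528 563))))) (merge (node 594 (merge (leaf 0 559 559) (node 498 (merge (leaf 4 498 627) (node 593 (merge (leaf 5 465 466) (leaf 5 497 625))))))) (node 498 (merge (node 466 (merge (leaf 4 466 563) (leaf 5 465 593))) (merge (node 627 (merge (leaf 4 498 594) (node 563 (merge (leaf 7 498 531) (leaf 7 530 659))))) (node 593 (merge (leaf 5 465 466) (node 625 (merge (leaf 5 497 594) (leaf 6 529 657))))))))))))))) (node 397 (merge (node 432 (merge (leaf 0 396 396) (node 433 (merge (leaf 0 397 400) (leaf 3 398 434))))) (merge (node 396 (merge (leaf 0 396 432) (node 427 (merge (leaf 1 395 428) (node 395 (merge (leaf 1 394 426) (node 363 (merge (leaf 3 362 362) (leaf 3 363 364))))))))) (merge (node 400 (merge (node 369 (merge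 (leaf 2 365 368) (node 401 (merge (leaf 2 366 370) (node 365 (merge (leaf 3 364 364) (leaf 3 365 366))))))) (merge (node 428 (merge (leaf 1 396 429) (node 396 (merge (leaf 1 395 427) (node 368 (merge (leaf 2 364 367) (leaf 2 365 369))))))) (node 428 (merge (leaf 1 396 429) (node 396 (merge (leaf 1 395 427) (node 364 (merge (leaf 3 363 363) (leaf 3 364 365)))))))))) (node 400 (merge (node 433 (merge (leaf 0 397 432) (node 401 (merge (leaf 0 398 434) (node 369 (merge (leaf 2 365 368) (leaf 2 366 370))))))) (node 429 (merge (leaf 1 396 428) (node 365 (merge (leaf 3 364 364) (node 333 (merge (node 334 (merge (leaf 6 301 302) (node 366 (merge (leaf 7 334 367) (leaf 6 333 461))))) (merge (node 302 (merge (leaf 6 301 334) (node 301 (merge (leaf 6 269 270) (node 300 (merge (leaf 7 268 268) (leaf 7 300 332))))))) (merge (node 300 (merge (leaf 7 300 332) (node 301 (merge (leaf 7 268 268) (node 270 (merge (leaf 6 269 302) (node 269 (merge (leaf 6 237 238) (leaf 4 269 366))))))))) (node 300 (merge (leaf 7 300 332) (node 301 (merge (leaf 7 268 268) (node 366 (merge (leaf 4 269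 269) (node 461 (merge (leaf 6 333 334) (leaf 6 365 493)))))))))))))))))))))))))))))))) nP_388 cP_388 12 (by decide +kernel)
def nP_389 : ℕ := 0x300000001000000000000000080000000800000008000000000000000000000000000000000000000000000000000000000000000000000000000000000000000000000000000
def cP_389 : ℕ := 0xe0000000e000000fee000007cc000003c7000000f7000001f3800001f7f00000f7e00000efe000007f800000ffc000007f0000000500000000000000000000000000000000000000000000000000000000000
theorem lP_389 : S nP_389 cP_389 13 := S_of_chk [(nP_377, cP_377, 10)] ⟨lP_377, trivial⟩ (node 398 (merge (node 366 (merge (node 334 (merge (leaf 4 302 302) (leaf 7 334 367))) (merge (node 334 (merge (leaf 4 302 302) (leaf 4 334 430))) (node 400 (merge (node 365 (merge (leaf 3 365 401) (node 364 (merge (leaf 0 363 363) (leaf 3 364 397))))) (merge (node 401 (merge (leaf 3 365 365) (node 430 (merge (leaf 1 398 402) (leaf 1 397 429))))) (merge (node 433 (merge (node 434 (merge (leaf 0 398 401) (leaf 3 398 432))) (merge (node 401 (merge (leaf 0 398 434) (node 430 (merge (leaf 1 398 402) (leaf 1 397 429)))))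 (node 397 (merge (leaf 0 397 432) (node 428 (merge (leaf 1 396 429) (node 396 (merge (leaf 1 395 427) (node 395 (merge (leaf 0 395 430) (node 363 (merge (leaf 3 362 362) (leaf 3 363 364)))))))))))))) (node 397 (merge (node 432 (merge (leaf 0 396 396) (leaf 0 397 433))) (merge (node 428 (merge (leaf 1 396 429) (node 396 (merge (leaf 1 395 427) (node 395 (merge (leaf 2 363 367) (leaf 0 395 430))))))) (node 432 (merge (leaf 0 397 433) (node 429 (merge (leaf 1 396 428) (node 461 (merge (leaf 6 365 493) (node 460 (merge (leaf 1 428 430) (node 365 (merge (leaf 3 364 364) (leaf 5 364 492))))))))))))))))))))) (merge (node 464 (merge (leaf 7 431 496) (node 367 (merge (node 334 (merge (leaf 7 334 366) (node 335 (merge (leaf 7 302 302) (leaf 4 335 432))))) (merge (node 432 (merge (leaf 4 335 335) (node 397 (merge (leaf 0 396 396) (node 433 (merge (leaf 0 397 400) (leaf 3 397 430))))))) (merge (node 334 (merge (leaf 7 334 366) (node 335 (merge (leaf 7 302 302) (node 304 (merge (leaf 6 303 336) (node 303 (merge (leaf 6 271 272) (leaf 5 302 430))))))))) (node 397 (merge (node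 432 (merge (leaf 0 396 396) (node 433 (merge (leaf 0 397 400) (leaf 3 398 434))))) (merge (node 396 (merge (leaf 0 396 432) (node 366 (merge (leaf 7 334 334) (leaf 2 363 395))))) (merge (node 366 (merge (leaf 7 334 334) (node 396 (merge (leaf 2 363 395) (node 428 (merge (leaf 1 395 427) (node 429 (merge (leaf 1 396 400) (leaf 0 428 430))))))))) (node 400 (merge (node 366 (merge (leaf 7 334 334) (node 429 (merge (leaf 1 396 428) (node 401 (merge (leaf 3 366 402) (leaf 1 397 430))))))) (merge (node 432 (merge (leaf 0 397 433) (node 429 (merge (leaf 1 396 428) (node 430 (merge (leaf 1 397 401) (leaf 0 429 465))))))) (merge (node 366 (merge (leaf 7 334 334) (node 401 (merge (leaf 3 366 402) (node 433 (merge (leaf 0 398 434) (node 432 (merge (leaf 0 397 397) (node 369 (merge (leaf 5 336 337) (leaf 2 366 370))))))))))) (node 432 (merge (leaf 0 397 433) (node 429 (merge (leaf 1 396 428) (node 430 (merge (leaf 0 429 465) (node 461 (merge (leaf 1 428 460) (node 493 (merge (leaf 6 365 366) (leaf 6 397 525))))))))))))))))))))))))) (merge (node 401 (merge (node 400 (merge (node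 430 (merge (leaf 1 398 402) (leaf 1 397 429))) (merge (node 366 (merge (leaf 3 365 365) (node 367 (merge (leaf 7 334 334) (leaf 3 366 402))))) (node 430 (merge (leaf 1 397 429) (node 366 (merge (leaf 4 334 334) (leaf 3 365 365)))))))) (merge (node 400 (merge (node 366 (merge (leaf 3 365 365) (node 334 (merge (leaf 4 302 302) (leaf 7 334 367))))) (node 433 (merge (leaf 0 398 434) (node 432 (merge (leaf 0 397 397) (node 464 (merge (leaf 6 400 496) (node 369 (merge (leaf 5 336 337) (leaf 2 366 370))))))))))) (node 433 (merge (node 432 (merge (leaf 3 398 434) (node 397 (merge (leaf 0 396 396) (leaf 3 397 430))))) (merge (node 465 (merge (node 496 (merge (leaf 6 432 464) (leaf 5 400 497))) (merge (node 464 (merge (leaf 6 432 496) (node 466 (merge (leaf 3 430 430) (node 498 (merge (leaf 4 369 369) (leaf 0 463 499))))))) (merge (node 497 (merge (leaf 5 400 496) (node 370 (merge (leaf 6 369 402) (node 369 (merge (leaf 6 337 338) (node 498 (merge (leaf 4 369 466) (leaf 4 401 530))))))))) (node 370 (merge (node 402 (merge (leaf 6 369 497) (node 338 (merge (leaf 5 305 306)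 (leaf 5 337 434))))) (merge (node 369 (merge (leaf 6 337 338) (node 466 (merge (leaf 4 369 498) (node 464 (merge (leaf 3 430 430) (node 434 (merge (leaf 4 337 337) (leaf 2 431 435))))))))) (node 497 (merge (leaf 6 369 402) (node 498 (merge (leaf 4 401 530) (node 466 (merge (leaf 4 369 369) (node 464 (merge (leaf 3 430 430) (leaf 0 463 499)))))))))))))))) (merge (node 465 (merge (node 496 (merge (leaf 6 432 464) (leaf 5 400 497))) (merge (node 464 (merge (leaf 6 432 496) (node 466 (merge (leaf 3 430 430) (node 498 (merge (leaf 4 369 369) (leaf 0 463 499))))))) (merge (node 497 (merge (leaf 5 400 496) (node 370 (merge (leaf 6 369 402) (node 369 (merge (leaf 6 337 338) (node 498 (merge (leaf 4 369 466) (leaf 4 401 530))))))))) (node 369 (merge (node 466 (merge (leaf 4 369 498) (node 430 (merge (leaf 0 430 432) (leaf 3 430 464))))) (merge (node 370 (merge (leaf 6 337 338) (node 497 (merge (leaf 6 369 402) (node 498 (merge (leaf 4 369 466) (leaf 4 401 530))))))) (node 370 (merge (leaf 6 337 338) (node 402 (merge (leaf 6 369 497) (node 432 (merge (leaf 2 398 430) (node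 337 (merge (leaf 5 336 464) (node 304 (merge (leaf 7 304 336) (node 305 (merge (leaf 7 272 272) (leaf 4 273 273)))))))))))))))))))) (node 369 (merge (node 434 (merge (leaf 3 398 432) (node 466 (merge (leaf 4 337 337) (node 498 (merge (leaf 7 369 402) (leaf 7 401 530))))))) (merge (node 465 (merge (node 496 (merge (leaf 6 432 464) (leaf 5 400 497))) (merge (node 370 (merge (leaf 6 337 338) (node 497 (merge (leaf 6 369 402) (node 498 (merge (leaf 4 369 466) (leaf 4 401 530))))))) (node 464 (merge (leaf 6 432 496) (node 432 (merge (leaf 3 398 434) (node 466 (merge (leaf 3 431 467) (leaf 4 369 498)))))))))) (merge (node 496 (merge (leaf 7 431 464) (node 465 (merge (leaf 5 400 497) (node 338 (merge (leaf 6 337 370) (node 337 (merge (leaf 6 305 306) (node 466 (merge (leaf 4 337 434) (leaf 4 369 498))))))))))) (node 464 (merge (leaf 7 431 496) (node 337 (merge (leaf 5 336 432) (node 306 (merge (leaf 6 305 338) (node 305 (merge (leaf 6 273 274) (node 304 (merge (leaf 7 272 272) (leaf 7 304 336)))))))))))))))))))))) (merge (node 401 (merge (node 400 (merge (node 430 (merge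 (leaf 1 398 402) (leaf 1 397 429))) (merge (node 366 (merge (leaf 3 365 365) (node 367 (merge (leaf 7 334 334) (leaf 3 366 402))))) (node 430 (merge (leaf 1 397 429) (node 366 (merge (leaf 4 334 334) (leaf 3 365 365)))))))) (merge (node 430 (merge (node 400 (merge (leaf 1 398 402) (leaf 1 397 429))) (merge (node 464 (merge (leaf 7 431 496) (node 429 (merge (leaf 0 428 428) (node 465 (merge (leaf 0 429 432) (leaf 3 430 466))))))) (node 400 (merge (leaf 1 398 402) (node 433 (merge (leaf 0 398 434) (node 496 (merge (leaf 7 431 464) (node 369 (merge (leaf 2 366 370) (node 465 (merge (leaf 5 400 497) (node 466 (merge (leaf 0 430 432) (leaf 4 369 498)))))))))))))))) (merge (node 430 (merge (node 400 (merge (leaf 1 397 429) (node 366 (merge (leaf 4 334 334) (leaf 3 365 365))))) (merge (node 464 (merge (leaf 7 431 496) (node 429 (merge (leaf 0 428 428) (node 465 (merge (leaf 0 429 432) (leaf 3 430 466))))))) (node 496 (merge (leaf 7 431 464) (node 366 (merge (leaf 4 334 334) (node 400 (merge (leaf 3 365 365) (node 433 (merge (leaf 0 398 434) (node 369 (merge (leaf 2 366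 370) (node 465 (merge (leaf 5 400 497) (node 466 (merge (leaf 0 430 432) (leaf 4 369 498)))))))))))))))))) (merge (node 400 (merge (node 434 (merge (leaf 0 398 433) (node 402 (merge (leaf 0 399 435) (node 370 (merge (leaf 2 366 369) (leaf 2 367 371))))))) (node 366 (merge (leaf 3 365 365) (node 334 (merge (leaf 4 302 302) (leaf 7 334 367))))))) (node 465 (merge (node 464 (merge (leaf 7 431 496) (node 430 (merge (leaf 3 430 466) (node 429 (merge (leaf 0 428 428) (leaf 0 429 432))))))) (merge (node 464 (merge (leaf 7 431 496) (node 466 (merge (leaf 3 430 430) (node 498 (merge (leaf 0 463 499) (node 434 (merge (leaf 2 431 435) (node 369 (merge (leaf 7 369 402) (leaf 4 369 433))))))))))) (merge (node 433 (merge (node 432 (merge (leaf 3 398 434) (node 430 (merge (leaf 2 398 402) (leaf 0 430 466))))) (merge (node 497 (merge (leaf 5 400 496) (node 370 (merge (leaf 6 369 402) (node 369 (merge (leaf 6 337 338) (node 498 (merge (leaf 4 369 466) (leaf 4 401 530))))))))) (merge (node 432 (merge (leaf 3 398 434) (node 402 (merge (leaf 2 398 430) (node 497 (merge (leaf 6 369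 370) (leaf 5 400 496))))))) (node 432 (merge (leaf 3 398 434) (node 466 (merge (leaf 0 430 430) (node 498 (merge (leaf 4 369 369) (node 497 (merge (leaf 5 400 496) (leaf 4 401 530))))))))))))) (merge (node 433 (merge (node 496 (merge (leaf 6 432 464) (leaf 5 400 497))) (merge (node 432 (merge (leaf 3 398 434) (node 430 (merge (leaf 2 398 402) (node 429 (merge (leaf 0 429 464) (node 460 (merge (leaf 1 428 461) (node 428 (merge (leaf 2 395 427) (leaf 1 427 459))))))))))) (node 432 (merge (leaf 3 398 434) (node 402 (merge (leaf 2 398 430) (node 497 (merge (leaf 6 369 370) (leaf 5 400 496)))))))))) (merge (node 433 (merge (node 496 (merge (leaf 6 432 464) (leaf 5 400 497))) (merge (node 464 (merge (leaf 6 432 496) (node 432 (merge (leaf 3 398 434) (node 466 (merge (leaf 3 431 467) (node 369 (merge (leaf 5 336 337) (leaf 4 369 498))))))))) (merge (node 497 (merge (leaf 5 400 496) (node 370 (merge (leaf 6 369 402) (node 369 (merge (leaf 6 337 338) (node 498 (merge (leaf 4 369 466) (leaf 4 401 530))))))))) (node 369 (merge (node 434 (merge (leaf 3 398 432) (node 466 (merge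 (leaf 4 337 337) (leaf 4 369 498))))) (merge (node 370 (merge (leaf 6 337 338) (node 497 (merge (leaf 6 369 402) (node 498 (merge (leaf 4 369 466) (leaf 4 401 530))))))) (node 370 (merge (leaf 6 337 338) (node 432 (merge (leaf 3 398 434) (node 337 (merge (leaf 5 336 464) (node 336 (merge (leaf 7 304 304) (node 334 (merge (leaf 0 334 335) (node 366 (merge (leaf 4 302 302) (leaf 7 334 367)))))))))))))))))))) (node 433 (merge (node 432 (merge (leaf 3 398 434) (node 430 (merge (leaf 2 398 402) (leaf 0 430 466))))) (merge (node 432 (merge (leaf 3 398 434) (node 466 (merge (leaf 0 430 430) (node 467 (merge (leaf 3 431 464) (leaf 3 432 468))))))) (merge (node 432 (merge (leaf 3 398 434) (node 430 (merge (leaf 2 398 402) (node 429 (merge (leaf 0 429 464) (node 460 (merge (leaf 1 428 461) (node 428 (merge (leaf 2 395 427) (leaf 1 427 459))))))))))) (merge (node 370 (merge (node 402 (merge (leaf 6 369 497) (node 338 (merge (leaf 5 305 306) (leaf 5 337 434))))) (merge (node 369 (merge (leaf 6 337 338) (node 466 (merge (leaf 4 369 498) (node 464 (merge (leaf 3 430 430) (node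 434 (merge (leaf 4 337 337) (leaf 2 431 435))))))))) (node 497 (merge (leaf 6 369 402) (node 498 (merge (leaf 4 401 530) (node 466 (merge (leaf 4 369 369) (node 464 (merge (leaf 3 430 430) (leaf 0 463 499)))))))))))) (merge (node 369 (merge (node 466 (merge (leaf 4 369 498) (node 430 (merge (leaf 0 430 432) (leaf 3 430 464))))) (merge (node 370 (merge (leaf 6 337 338) (node 497 (merge (leaf 6 369 402) (node 498 (merge (leaf 4 369 466) (leaf 4 401 530))))))) (node 370 (merge (leaf 6 337 338) (node 402 (merge (leaf 6 369 497) (node 432 (merge (leaf 2 398 430) (node 337 (merge (leaf 5 336 464) (node 304 (merge (leaf 7 304 336) (node 305 (merge (leaf 7 272 272) (leaf 4 273 273)))))))))))))))) (node 369 (merge (node 434 (merge (leaf 3 398 432) (node 466 (merge (leaf 4 337 337) (leaf 4 369 498))))) (merge (node 370 (merge (leaf 6 337 338) (node 497 (merge (leaf 6 369 402) (node 498 (merge (leaf 4 369 466) (leaf 4 401 530))))))) (node 370 (merge (leaf 6 337 338) (node 432 (merge (leaf 3 398 434) (node 337 (merge (leaf 5 336 464) (node 336 (merge (leaf 7 304 304) (node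 334 (merge (leaf 0 334 335) (node 366 (merge (leaf 4 302 302) (leaf 7 334 367))))))))))))))))))))))))))))))))) (merge (node 397 (merge (node 432 (merge (leaf 0 396 396) (node 433 (merge (leaf 0 397 400) (leaf 3 398 434))))) (merge (node 396 (merge (leaf 0 396 432) (node 395 (merge (leaf 0 395 430) (node 363 (merge (leaf 3 362 362) (leaf 3 363 364))))))) (merge (node 364 (merge (node 365 (merge (leaf 3 364 400) (node 363 (merge (leaf 0 362 362) (leaf 0 363 366))))) (merge (node 396 (merge (leaf 3 363 363) (node 395 (merge (leaf 0 395 430) (node 427 (merge (leaf 1 394 426) (leaf 1 395 428))))))) (node 365 (merge (leaf 3 364 400) (node 396 (merge (node 395 (merge (leaf 0 395 430) (node 394 (merge (leaf 2 362 366) (leaf 2 361 393))))) (node 428 (merge (leaf 1 395 427) (node 333 (merge (leaf 5 300 301) (leaf 6 332 460)))))))))))) (node 433 (merge (node 432 (merge (leaf 3 397 430) (leaf 3 398 434))) (merge (node 432 (merge (leaf 0 397 400) (leaf 3 397 430))) (merge (node 432 (merge (leaf 0 397 400) (leaf 3 398 434))) (node 401 (merge (node 400 (merge (leaf 0 398 434)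 (node 366 (merge (leaf 3 365 365) (node 334 (merge (leaf 4 302 302) (leaf 7 334 367))))))) (merge (node 366 (merge (node 334 (merge (leaf 4 302 302) (leaf 7 334 367))) (merge (node 334 (merge (leaf 4 302 302) (leaf 4 334 430))) (node 400 (merge (leaf 3 365 365) (node 402 (merge (leaf 3 366 367) (leaf 1 398 430)))))))) (node 465 (merge (node 496 (merge (leaf 6 432 464) (leaf 5 400 497))) (merge (node 464 (merge (leaf 6 432 496) (node 466 (merge (leaf 3 430 430) (node 498 (merge (leaf 4 369 369) (leaf 0 463 499))))))) (merge (node 497 (merge (leaf 5 400 496) (node 370 (merge (leaf 6 369 402) (node 369 (merge (leaf 6 337 338) (node 498 (merge (leaf 4 369 466) (leaf 4 401 530))))))))) (node 370 (merge (node 402 (merge (leaf 6 369 497) (node 338 (merge (leaf 5 305 306) (leaf 5 337 434))))) (merge (node 369 (merge (leaf 6 337 338) (node 466 (merge (leaf 4 369 498) (node 464 (merge (leaf 3 430 430) (node 434 (merge (leaf 4 337 337) (leaf 2 431 435))))))))) (node 497 (merge (leaf 6 369 402) (node 498 (merge (leaf 4 401 530) (node 466 (merge (leaf 4 369 369) (node 464 (merge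 (leaf 3 430 430) (leaf 0 463 499))))))))))))))))))))))))))) (merge (node 401 (merge (node 400 (merge (node 430 (merge (leaf 1 398 402) (leaf 1 397 429))) (merge (node 370 (merge (leaf 2 366 369) (node 402 (merge (leaf 2 367 371) (node 432 (merge (leaf 1 399 403) (node 397 (merge (leaf 0 396 396) (leaf 0 397 433))))))))) (node 429 (merge (leaf 1 397 430) (node 397 (merge (leaf 1 396 428) (node 432 (merge (leaf 0 396 396) (leaf 0 397 433)))))))))) (merge (node 397 (merge (node 432 (merge (leaf 0 396 396) (node 433 (merge (leaf 3 397 430) (leaf 3 398 434))))) (merge (node 432 (merge (leaf 0 396 396) (node 433 (merge (leaf 0 397 400) (leaf 3 398 434))))) (merge (node 433 (merge (node 432 (merge (leaf 3 397 430) (leaf 3 398 434))) (merge (node 432 (merge (leaf 0 397 400) (leaf 3 397 430))) (merge (node 432 (merge (leaf 0 397 400) (leaf 3 398 434))) (node 400 (merge (leaf 0 398 434) (node 429 (merge (leaf 1 396 428) (leaf 1 397 430))))))))) (node 396 (merge (node 395 (merge (leaf 0 395 430) (node 363 (merge (leaf 3 362 362) (leaf 3 363 364))))) (merge (node 427 (merge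 (leaf 1 395 428) (node 395 (merge (leaf 1 394 426) (node 363 (merge (leaf 3 362 362) (leaf 3 363 364))))))) (node 428 (merge (leaf 1 395 427) (node 429 (merge (leaf 1 396 400) (node 464 (merge (leaf 0 428 430) (leaf 7 431 496)))))))))))))) (merge (node 400 (merge (node 434 (merge (leaf 0 398 433) (node 402 (merge (leaf 0 399 435) (node 370 (merge (leaf 2 366 369) (leaf 2 367 371))))))) (node 397 (merge (node 429 (merge (leaf 1 396 428) (leaf 1 397 430))) (merge (node 428 (merge (leaf 1 396 429) (node 396 (merge (leaf 1 395 427) (node 364 (merge (leaf 3 363 363) (leaf 3 364 365))))))) (merge (node 430 (merge (leaf 1 397 429) (node 396 (merge (leaf 0 395 395) (node 364 (merge (leaf 3 363 363) (leaf 3 364 365))))))) (node 364 (merge (leaf 3 364 365) (node 396 (merge (leaf 3 363 363) (node 395 (merge (leaf 0 395 430) (node 427 (merge (leaf 1 394 426) (leaf 1 395 428))))))))))))))) (merge (node 400 (merge (node 430 (merge (leaf 1 398 402) (leaf 1 397 429))) (merge (node 370 (merge (leaf 2 366 369) (node 402 (merge (leaf 2 367 371) (node 435 (merge (leaf 0 399 434) (node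 403 (merge (leaf 1 399 432) (leaf 0 400 436))))))))) (node 429 (merge (leaf 1 397 430) (node 397 (merge (leaf 1 396 428) (node 396 (merge (leaf 0 396 432) (node 364 (merge (leaf 3 363 363) (leaf 3 364 365)))))))))))) (merge (node 400 (merge (node 434 (merge (leaf 0 398 433) (node 402 (merge (leaf 0 399 435) (node 370 (merge (leaf 2 366 369) (leaf 2 367 371))))))) (merge (node 433 (merge (leaf 0 398 434) (node 397 (merge (leaf 0 397 432) (node 428 (merge (leaf 1 396 429) (node 396 (merge (leaf 1 395 427) (node 364 (merge (leaf 3 363 363) (leaf 3 364 365))))))))))) (merge (node 370 (merge (leaf 2 366 369) (node 402 (merge (leaf 2 367 371) (node 432 (merge (leaf 1 399 403) (node 397 (merge (leaf 0 396 396) (leaf 0 397 433))))))))) (node 370 (merge (leaf 2 366 369) (node 402 (merge (leaf 2 367 371) (node 435 (merge (leaf 0 399 434) (node 403 (merge (leaf 1 399 432) (leaf 0 400 436))))))))))))) (merge (node 430 (merge (node 400 (merge (leaf 1 398 402) (leaf 1 397 429))) (merge (node 464 (merge (leaf 7 431 496) (node 429 (merge (leaf 0 428 428) (node 465 (merge (leaf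 0 429 432) (leaf 3 430 466))))))) (node 400 (merge (leaf 1 398 402) (node 433 (merge (leaf 0 398 434) (node 496 (merge (leaf 7 431 464) (node 369 (merge (leaf 2 366 370) (node 465 (merge (leaf 5 400 497) (node 466 (merge (leaf 0 430 432) (leaf 4 369 498)))))))))))))))) (node 433 (merge (node 432 (merge (leaf 3 398 434) (node 397 (merge (leaf 0 396 396) (leaf 3 397 430))))) (merge (node 465 (merge (node 496 (merge (leaf 6 432 464) (leaf 5 400 497))) (merge (node 464 (merge (leaf 6 432 496) (node 466 (merge (leaf 3 430 430) (node 498 (merge (leaf 4 369 369) (leaf 0 463 499))))))) (merge (node 497 (merge (leaf 5 400 496) (node 370 (merge (leaf 6 369 402) (node 369 (merge (leaf 6 337 338) (node 498 (merge (leaf 4 369 466) (leaf 4 401 530))))))))) (node 370 (merge (node 402 (merge (leaf 6 369 497) (node 338 (merge (leaf 5 305 306) (leaf 5 337 434))))) (merge (node 369 (merge (leaf 6 337 338) (node 466 (merge (leaf 4 369 498) (node 464 (merge (leaf 3 430 430) (node 434 (merge (leaf 4 337 337) (leaf 2 431 435))))))))) (node 497 (merge (leaf 6 369 402) (node 498 (merge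 (leaf 4 401 530) (node 466 (merge (leaf 4 369 369) (node 464 (merge (leaf 3 430 430) (leaf 0 463 499)))))))))))))))) (merge (node 465 (merge (node 496 (merge (leaf 6 432 464) (leaf 5 400 497))) (merge (node 464 (merge (leaf 6 432 496) (node 466 (merge (leaf 3 430 430) (node 498 (merge (leaf 4 369 369) (leaf 0 463 499))))))) (merge (node 497 (merge (leaf 5 400 496) (node 370 (merge (leaf 6 369 402) (node 369 (merge (leaf 6 337 338) (node 498 (merge (leaf 4 369 466) (leaf 4 401 530))))))))) (node 369 (merge (node 466 (merge (leaf 4 369 498) (node 430 (merge (leaf 0 430 432) (leaf 3 430 464))))) (merge (node 370 (merge (leaf 6 337 338) (node 497 (merge (leaf 6 369 402) (node 498 (merge (leaf 4 369 466) (leaf 4 401 530))))))) (node 370 (merge (leaf 6 337 338) (node 402 (merge (leaf 6 369 497) (node 432 (merge (leaf 2 398 430) (node 337 (merge (leaf 5 336 464) (node 304 (merge (leaf 7 304 336) (node 305 (merge (leaf 7 272 272) (leaf 4 273 273)))))))))))))))))))) (node 369 (merge (node 434 (merge (leaf 3 398 432) (node 466 (merge (leaf 4 337 337) (node 498 (merge (leaf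 7 369 402) (leaf 7 401 530))))))) (merge (node 465 (merge (node 496 (merge (leaf 6 432 464) (leaf 5 400 497))) (merge (node 370 (merge (leaf 6 337 338) (node 497 (merge (leaf 6 369 402) (node 498 (merge (leaf 4 369 466) (leaf 4 401 530))))))) (node 464 (merge (leaf 6 432 496) (node 432 (merge (leaf 3 398 434) (node 466 (merge (leaf 3 431 467) (leaf 4 369 498)))))))))) (merge (node 496 (merge (leaf 7 431 464) (node 465 (merge (leaf 5 400 497) (node 338 (merge (leaf 6 337 370) (node 337 (merge (leaf 6 305 306) (node 466 (merge (leaf 4 337 434) (leaf 4 369 498))))))))))) (node 464 (merge (leaf 7 431 496) (node 337 (merge (leaf 5 336 432) (node 306 (merge (leaf 6 305 338) (node 305 (merge (leaf 6 273 274) (node 304 (merge (leaf 7 272 272) (leaf 7 304 336)))))))))))))))))))))))))) (merge (node 397 (merge (node 432 (merge (leaf 0 396 396) (node 433 (merge (leaf 0 397 400) (leaf 3 398 434))))) (merge (node 396 (merge (leaf 0 396 432) (node 427 (merge (leaf 1 395 428) (node 395 (merge (leaf 1 394 426) (node 363 (merge (leaf 3 362 362) (leaf 3 363 364))))))))) (merge (node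 428 (merge (node 427 (merge (leaf 1 395 396) (node 429 (merge (leaf 1 396 400) (leaf 2 394 426))))) (merge (node 400 (merge (leaf 1 396 429) (node 365 (merge (leaf 3 364 364) (node 366 (merge (leaf 3 365 401) (node 334 (merge (leaf 4 302 302) (leaf 7 334 367))))))))) (merge (node 396 (merge (leaf 1 395 427) (node 364 (merge (leaf 3 363 363) (node 365 (merge (leaf 3 364 400) (node 333 (merge (leaf 5 300 301) (leaf 6 332 460))))))))) (node 396 (merge (leaf 1 395 427) (node 363 (merge (leaf 3 363 364) (node 395 (merge (leaf 3 362 362) (node 366 (merge (leaf 2 363 367) (node 394 (merge (leaf 2 362 365) (node 393 (merge (leaf 0 393 429) (node 425 (merge (leaf 1 392 424) (leaf 1 393 426))))))))))))))))))) (node 365 (merge (node 364 (merge (leaf 3 364 400) (node 363 (merge (leaf 0 362 362) (leaf 0 363 366))))) (merge (node 400 (merge (leaf 3 364 364) (node 429 (merge (leaf 1 396 428) (node 401 (merge (node 433 (merge (leaf 0 397 432) (leaf 0 398 434))) (merge (node 432 (merge (leaf 0 397 433) (node 402 (merge (leaf 1 399 403) (node 370 (merge (leaf 2 366 369) (leaf 2 367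 371))))))) (merge (node 434 (merge (leaf 0 398 433) (node 402 (merge (leaf 0 399 435) (node 370 (merge (leaf 2 366 369) (leaf 2 367 371))))))) (node 370 (merge (leaf 2 366 369) (node 402 (merge (leaf 2 367 371) (node 435 (merge (leaf 0 399 434) (node 403 (merge (leaf 1 399 432) (leaf 0 400 436))))))))))))))))) (merge (node 429 (merge (node 400 (merge (leaf 1 396 428) (node 433 (merge (leaf 0 397 432) (node 401 (merge (leaf 3 365 366) (leaf 0 398 434))))))) (merge (node 428 (merge (leaf 1 396 400) (node 460 (merge (leaf 5 332 333) (node 492 (merge (leaf 5 364 461) (leaf 6 396 524))))))) (node 333 (merge (node 334 (merge (leaf 6 301 302) (node 366 (merge (leaf 7 334 367) (leaf 6 333 461))))) (merge (node 302 (merge (leaf 6 301 334) (node 301 (merge (leaf 6 269 270) (node 300 (merge (leaf 7 268 268) (leaf 7 300 332))))))) (merge (node 300 (merge (leaf 7 300 332) (node 301 (merge (leaf 7 268 268) (node 270 (merge (leaf 6 269 302) (node 269 (merge (leaf 6 237 238) (leaf 4 269 366))))))))) (node 300 (merge (leaf 7 300 332) (node 301 (merge (leaf 7 268 268) (node 366 (merge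 (leaf 4 269 269) (node 461 (merge (leaf 6 333 334) (leaf 6 365 493)))))))))))))))) (node 367 (merge (node 366 (merge (leaf 7 334 334) (node 364 (merge (leaf 0 363 363) (node 332 (merge (leaf 3 331 331) (node 429 (merge (leaf 7 332 461) (node 300 (merge (leaf 4 268 268) (leaf 7 300 333))))))))))) (merge (node 464 (merge (leaf 7 431 496) (node 335 (merge (leaf 4 335 432) (node 304 (merge (leaf 6 303 336) (node 303 (merge (leaf 6 271 272) (node 302 (merge (leaf 7 270 270) (leaf 7 302 334))))))))))) (node 464 (merge (leaf 7 431 496) (node 335 (merge (leaf 4 335 432) (node 304 (merge (leaf 6 303 336) (node 303 (merge (leaf 6 271 272) (node 270 (merge (leaf 7 270 302) (node 271 (merge (leaf 7 238 238) (leaf 5 270 366)))))))))))))))))))))))) (merge (hyp 0) (merge (node 562 (merge (node 595 (merge (node 596 (merge (leaf 0 560 563) (node 594 (merge (leaf 3 560 593) (leaf 3 561 597))))) (merge (node 594 (merge (leaf 0 559 559) (node 596 (merge (leaf 3 560 593) (leaf 3 561 597))))) (merge (node 563 (merge (leaf 0 560 596) (node 531 (merge (leaf 2 528 532) (node 530 (merge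 (leaf 2 527 559) (node 627 (merge (leaf 7 498 498) (leaf 7 530 659))))))))) (node 530 (merge (node 531 (merge (leaf 2 527 559) (node 532 (merge (leaf 1 529 533) (leaf 2 528 563))))) (merge (node 594 (merge (leaf 0 559 559) (node 498 (merge (leaf 4 498 627) (node 593 (merge (leaf 5 465 466) (leaf 5 497 625))))))) (node 498 (merge (node 466 (merge (leaf 4 466 563) (leaf 5 465 593))) (merge (node 627 (merge (leaf 4 498 594) (node 563 (merge (leaf 7 498 531) (leaf 7 530 659))))) (node 593 (merge (leaf 5 465 466) (node 625 (merge (leaf 5 497 594) (leaf 6 529 657))))))))))))))) (node 334 (merge (node 366 (merge (leaf 4 302 302) (leaf 7 334 367))) (merge (node 366 (merge (leaf 4 302 302) (leaf 4 334 430))) (merge (node 366 (merge (leaf 7 334 367) (leaf 4 334 430))) (node 335 (merge (node 367 (merge (leaf 7 302 302) (node 464 (merge (leaf 4 335 432) (leaf 7 431 496))))) (merge (node 367 (merge (leaf 7 302 302) (node 304 (merge (leaf 6 303 336) (node 303 (merge (leaf 6 271 272) (leaf 5 302 430))))))) (merge (node 464 (merge (leaf 7 431 496) (node 367 (merge (leaf 4 335 432)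 (node 304 (merge (leaf 6 303 336) (node 303 (merge (leaf 6 271 272) (leaf 5 302 430))))))))) (node 333 (merge (node 332 (merge (node 304 (merge (leaf 2 300 303) (node 336 (merge (leaf 2 301 305) (node 300 (merge (leaf 3 299 299) (leaf 3 300 301))))))) (merge (node 363 (merge (leaf 1 331 364) (node 331 (merge (leaf 1 330 362) (node 299 (merge (leaf 3 298 298) (leaf 3 299 300))))))) (node 364 (merge (leaf 1 331 363) (node 336 (merge (leaf 1 332 365) (node 304 (merge (leaf 2 300 303) (leaf 2 301 305)))))))))) (merge (node 332 (merge (node 364 (merge (leaf 1 331 363) (node 336 (merge (leaf 1 332 365) (node 304 (merge (leaf 2 300 303) (leaf 2 301 305))))))) (merge (node 363 (merge (leaf 1 331 364) (node 331 (merge (leaf 1 330 362) (node 299 (merge (leaf 3 298 298) (leaf 3 299 300))))))) (node 303 (merge (leaf 2 300 304) (node 331 (merge (leaf 2 299 302) (node 299 (merge (leaf 3 298 298) (leaf 3 299 300)))))))))) (merge (node 397 (merge (node 432 (merge (leaf 0 396 396) (node 433 (merge (leaf 3 397 430) (leaf 3 398 434))))) (node 365 (merge (node 364 (merge (leaf 1 332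 336) (node 363 (merge (leaf 1 331 332) (leaf 0 362 362))))) (node 302 (merge (leaf 6 301 429) (node 270 (merge (leaf 5 237 238) (leaf 6 269 301))))))))) (merge (node 397 (merge (node 432 (merge (leaf 0 396 396) (node 433 (merge (leaf 3 397 430) (leaf 3 398 434))))) (merge (node 396 (merge (leaf 0 396 432) (node 428 (merge (leaf 1 395 427) (node 365 (merge (leaf 5 300 301) (node 429 (merge (leaf 6 301 302) (leaf 5 332 460))))))))) (node 365 (merge (node 302 (merge (leaf 6 301 429) (node 270 (merge (leaf 5 237 238) (leaf 6 269 301))))) (merge (node 301 (merge (leaf 4 301 430) (node 300 (merge (leaf 7 268 268) (node 299 (merge (leaf 0 298 298) (leaf 3 299 332))))))) (node 429 (merge (leaf 6 301 302) (node 464 (merge (leaf 7 431 496) (node 428 (merge (leaf 0 428 430) (leaf 5 332 460))))))))))))) (merge (node 365 (merge (node 336 (merge (leaf 1 332 364) (node 305 (merge (leaf 2 301 304) (node 337 (merge (leaf 2 302 306) (node 301 (merge (leaf 3 300 300) (leaf 3 301 302))))))))) (merge (node 397 (merge (node 396 (merge (leaf 0 396 432) (node 301 (merge (leaf 5 300 428)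 (leaf 4 301 430))))) (merge (node 302 (merge (leaf 6 301 429) (node 270 (merge (leaf 5 237 238) (leaf 6 269 301))))) (node 429 (merge (leaf 6 301 302) (node 464 (merge (leaf 7 431 496) (node 428 (merge (leaf 0 428 430) (leaf 5 332 460)))))))))) (merge (node 336 (merge (leaf 1 332 364) (node 301 (merge (leaf 3 300 300) (node 397 (merge (leaf 4 301 430) (node 396 (merge (leaf 5 300 428) (leaf 0 396 432))))))))) (node 364 (merge (leaf 1 332 336) (node 464 (merge (leaf 7 431 496) (node 363 (merge (leaf 2 330 362) (node 397 (merge (leaf 3 363 396) (node 429 (merge (leaf 6 301 302) (node 428 (merge (leaf 0 428 430) (leaf 5 332 460))))))))))))))))) (node 336 (merge (node 300 (merge (leaf 3 300 301) (node 332 (merge (leaf 3 299 299) (node 363 (merge (leaf 1 331 364) (node 331 (merge (leaf 1 330 362) (node 303 (merge (leaf 2 299 302) (leaf 2 300 304))))))))))) (merge (node 304 (merge (leaf 2 301 305) (node 332 (merge (leaf 2 300 303) (node 363 (merge (leaf 1 331 364) (node 331 (merge (leaf 1 330 362) (node 299 (merge (leaf 3 298 298) (leaf 3 299 300))))))))))) (merge (node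 305 (merge (leaf 2 301 304) (node 337 (merge (leaf 2 302 306) (node 370 (merge (leaf 0 334 369) (node 338 (merge (leaf 0 335 371) (node 302 (merge (leaf 3 301 301) (leaf 3 302 303))))))))))) (node 301 (merge (leaf 3 300 300) (node 337 (merge (leaf 3 301 302) (node 370 (merge (leaf 0 334 369) (node 338 (merge (leaf 0 335 371) (node 306 (merge (leaf 2 302 305) (leaf 2 303 307))))))))))))))))))))))))))))))) (node 562 (merge (node 595 (merge (node 596 (merge (leaf 0 560 563) (node 594 (merge (leaf 3 560 593) (leaf 3 561 597))))) (merge (node 594 (merge (leaf 0 559 559) (node 596 (merge (leaf 3 560 593) (leaf 3 561 597))))) (merge (node 563 (merge (leaf 0 560 596) (node 531 (merge (leaf 2 528 532) (node 530 (merge (leaf 2 527 559) (node 627 (merge (leaf 7 498 498) (leaf 7 530 659))))))))) (node 530 (merge (node 531 (merge (leaf 2 527 559) (node 532 (merge (leaf 1 529 533) (leaf 2 528 563))))) (merge (node 594 (merge (leaf 0 559 559) (node 498 (merge (leaf 4 498 627) (node 593 (merge (leaf 5 465 466) (leaf 5 497 625))))))) (node 498 (merge (node 466 (merge (leaf 4 466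 563) (leaf 5 465 593))) (merge (node 627 (merge (leaf 4 498 594) (node 563 (merge (leaf 7 498 531) (leaf 7 530 659))))) (node 593 (merge (leaf 5 465 466) (node 625 (merge (leaf 5 497 594) (leaf 6 529 657))))))))))))))) (merge (node 397 (merge (node 396 (merge (leaf 0 396 432) (node 395 (merge (leaf 0 395 430) (node 363 (merge (leaf 3 362 362) (leaf 3 363 364))))))) (merge (node 396 (merge (leaf 0 396 432) (node 395 (merge (leaf 0 395 430) (node 427 (merge (leaf 1 394 426) (leaf 1 395 428))))))) (merge (node 396 (merge (leaf 0 396 432) (node 428 (merge (leaf 1 395 427) (node 400 (merge (leaf 1 396 429) (node 364 (merge (leaf 3 363 363) (leaf 3 364 365))))))))) (merge (node 396 (merge (node 395 (merge (leaf 0 395 430) (node 427 (merge (leaf 1 394 426) (leaf 1 395 428))))) (merge (node 395 (merge (leaf 0 395 430) (node 363 (merge (leaf 3 362 362) (leaf 3 363 364))))) (node 428 (merge (leaf 1 395 427) (node 400 (merge (leaf 1 396 429) (node 364 (merge (leaf 3 363 363) (leaf 3 364 365)))))))))) (node 429 (merge (node 428 (merge (leaf 1 396 400) (node 464 (merge (leaf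 0 428 430) (leaf 7 431 496))))) (merge (node 400 (merge (leaf 1 396 428) (node 365 (merge (leaf 3 364 364) (node 366 (merge (leaf 3 365 401) (node 334 (merge (leaf 4 302 302) (leaf 6 333 461))))))))) (merge (node 430 (merge (node 464 (merge (leaf 7 431 496) (node 465 (merge (leaf 0 429 432) (leaf 3 430 466))))) (node 400 (merge (leaf 1 397 401) (node 365 (merge (leaf 3 364 364) (node 333 (merge (leaf 4 301 301) (node 334 (merge (leaf 6 301 302) (leaf 4 334 366))))))))))) (node 461 (merge (node 493 (merge (leaf 6 365 366) (node 525 (merge (leaf 6 397 430) (node 526 (merge (leaf 4 397 494) (leaf 4 429 558))))))) (merge (node 365 (merge (node 366 (merge (leaf 6 333 334) (node 364 (merge (leaf 7 332 332) (leaf 0 363 363))))) (merge (node 334 (merge (leaf 6 333 366) (node 333 (merge (leaf 6 301 302) (node 460 (merge (leaf 5 332 428) (leaf 5 364 492))))))) (merge (node 364 (merge (node 363 (merge (leaf 0 362 362) (leaf 0 363 366))) (node 332 (merge (leaf 7 332 461) (node 300 (merge (leaf 4 268 268) (leaf 7 300 333))))))) (node 460 (merge (leaf 5 364 492) (node 333 (merge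 (leaf 5 332 428) (node 302 (merge (leaf 6 301 334) (node 301 (merge (leaf 6 269 270) (node 300 (merge (leaf 7 268 268) (leaf 7 300 332))))))))))))))) (node 464 (merge (leaf 7 431 496) (node 430 (merge (leaf 0 428 428) (node 493 (merge (leaf 6 397 525) (node 492 (merge (leaf 5 396 524) (node 365 (merge (leaf 5 364 460) (node 332 (merge (leaf 7 332 364) (node 333 (merge (leaf 7 300 300) (leaf 4 301 301))))))))))))))))))))))))))) (node 430 (merge (node 531 (merge (node 530 (merge (leaf 2 527 559) (node 532 (merge (leaf 1 529 533) (leaf 2 528 563))))) (merge (node 559 (merge (leaf 2 527 530) (node 594 (merge (leaf 0 559 595) (node 558 (merge (leaf 0 558 593) (node 590 (merge (leaf 1 557 589) (leaf 1 558 591))))))))) (merge (node 563 (merge (leaf 2 528 532) (node 595 (merge (leaf 0 560 596) (node 594 (merge (leaf 0 559 559) (node 626 (merge (leaf 5 498 499) (leaf 6 530 658))))))))) (node 563 (merge (leaf 2 528 532) (node 594 (merge (node 626 (merge (leaf 6 530 658) (node 499 (merge (leaf 5 466 467) (leaf 6 498 530))))) (node 564 (merge (node 596 (merge (leaf 0 560 595)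 (leaf 0 561 597))) (merge (node 595 (merge (leaf 0 560 596) (node 565 (merge (leaf 1 562 566) (leaf 1 561 593))))) (merge (node 597 (merge (leaf 0 561 596) (node 565 (merge (leaf 1 561 593) (leaf 0 562 598))))) (node 565 (merge (leaf 1 561 593) (node 598 (merge (leaf 0 562 597) (node 566 (merge (leaf 1 562 595) (leaf 0 563 599))))))))))))))))))) (node 397 (merge (node 396 (merge (leaf 0 395 395) (node 364 (merge (leaf 3 363 363) (node 400 (merge (leaf 3 364 365) (node 401 (merge (leaf 1 398 402) (leaf 1 397 429))))))))) (merge (node 396 (merge (leaf 0 395 395) (node 428 (merge (leaf 1 395 427) (node 400 (merge (leaf 1 396 429) (node 401 (merge (leaf 1 398 402) (node 366 (merge (leaf 4 334 334) (leaf 3 365 365))))))))))) (merge (node 396 (merge (leaf 0 395 395) (node 428 (merge (leaf 1 395 427) (node 364 (merge (leaf 3 363 363) (node 365 (merge (leaf 3 364 400) (node 333 (merge (leaf 4 301 301) (leaf 6 332 460))))))))))) (merge (node 429 (merge (node 428 (merge (leaf 1 396 400) (leaf 2 395 427))) (merge (node 400 (merge (leaf 1 397 401) (node 365 (merge (leaf 3 364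 364) (node 333 (merge (leaf 4 301 301) (node 334 (merge (leaf 6 301 302) (leaf 4 334 366))))))))) (node 428 (merge (leaf 2 395 427) (node 460 (merge (leaf 1 427 459) (node 492 (merge (leaf 6 396 524) (node 365 (merge (leaf 5 332 333) (leaf 5 364 461)))))))))))) (merge (node 396 (merge (leaf 0 395 395) (node 428 (merge (leaf 1 395 427) (node 429 (merge (leaf 1 396 400) (node 364 (merge (leaf 3 363 363) (node 332 (merge (leaf 4 300 300) (leaf 4 332 461))))))))))) (node 429 (merge (node 396 (merge (leaf 0 395 395) (node 428 (merge (leaf 1 395 427) (node 364 (merge (leaf 3 363 363) (node 332 (merge (leaf 4 300 300) (leaf 4 332 461))))))))) (merge (node 428 (merge (leaf 2 395 427) (node 460 (merge (leaf 1 427 459) (node 492 (merge (leaf 6 396 524) (node 365 (merge (leaf 5 332 333) (leaf 5 364 461))))))))) (merge (node 396 (merge (leaf 0 395 395) (node 364 (merge (leaf 3 363 363) (node 461 (merge (leaf 7 364 493) (node 332 (merge (leaf 4 300 300) (leaf 7 332 365))))))))) (node 396 (merge (leaf 0 395 395) (node 428 (merge (leaf 1 395 427) (node 460 (merge (leaf 1 427 459)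 (node 492 (merge (leaf 6 364 365) (leaf 6 396 524)))))))))))))))))))))))))))))))))) nP_389 cP_389 13 (by decide +kernel)
def nP_390 : ℕ := 0x30000000100000000000000008000000080000000c000000000000000000000000000000000000000000000000000000000000000000000000000000000000000000000000000
def cP_390 : ℕ := 0x20000000e0000000e0000000e000000fee000007cc000001c1000000f3000000f3000000e7f0000073e00000f7f000000700000007000000010000000000000000000000000000000000000000000000000000000000000000000
theorem lP_390 : S nP_390 cP_390 11 := S_of_chk [] trivial (node 397 (merge (node 400 (merge (node 429 (merge (leaf 1 396 428) (node 401 (merge (leaf 1 397 430) (node 369 (merge (leaf 2 365 368) (leaf 2 366 370))))))) (merge (node 369 (merge (leaf 2 365 368) (node 401 (merge (leaf 2 366 370) (node 365 (merge (leaf 3 364 364) (leaf 3 365 366))))))) (node 428 (merge (leaf 1 396 429) (node 396 (merge (leaf 1 395 427) (node 364 (merge (leaf 3 363 363) (leaf 3 364 365)))))))))) (merge (node 396 (merge (node 395 (merge (leaf 0 395 430) (node 363 (merge (leaf 3 362 362) (leaf 3 363 364))))) (merge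 (node 427 (merge (leaf 1 395 428) (node 395 (merge (leaf 1 394 426) (node 363 (merge (leaf 3 362 362) (leaf 3 363 364))))))) (node 428 (merge (leaf 1 395 427) (node 429 (merge (leaf 1 396 400) (node 464 (merge (leaf 0 428 430) (leaf 7 431 496)))))))))) (merge (node 396 (merge (node 395 (merge (leaf 0 395 430) (node 427 (merge (leaf 1 394 426) (leaf 1 395 428))))) (merge (node 395 (merge (leaf 0 395 430) (node 363 (merge (leaf 3 362 362) (leaf 3 363 364))))) (merge (node 427 (merge (leaf 1 395 428) (node 395 (merge (leaf 1 394 426) (node 363 (merge (leaf 3 362 362) (leaf 3 363 364))))))) (node 429 (merge (node 428 (merge (leaf 1 395 427) (node 464 (merge (leaf 0 428 430) (leaf 7 431 496))))) (node 364 (merge (leaf 3 363 363) (node 461 (merge (leaf 7 364 493) (node 332 (merge (leaf 4 300 300) (leaf 7 332 365))))))))))))) (merge (node 396 (merge (node 395 (merge (leaf 0 395 430) (node 427 (merge (leaf 1 394 426) (leaf 1 395 428))))) (merge (node 427 (merge (leaf 1 395 428) (node 395 (merge (leaf 1 394 426) (node 363 (merge (leaf 3 362 362) (leaf 3 363 364))))))) (node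 364 (merge (leaf 3 363 363) (node 400 (merge (leaf 3 364 365) (node 369 (merge (leaf 2 365 368) (node 401 (merge (leaf 2 366 370) (node 434 (merge (leaf 0 398 433) (node 402 (merge (leaf 1 398 430) (leaf 0 399 435)))))))))))))))) (merge (node 396 (merge (node 364 (merge (leaf 3 363 363) (node 400 (merge (leaf 3 364 365) (node 369 (merge (leaf 2 365 368) (node 401 (merge (leaf 2 366 370) (node 430 (merge (leaf 1 398 402) (leaf 1 397 429))))))))))) (merge (node 395 (merge (leaf 0 395 430) (node 426 (merge (leaf 1 394 427) (node 394 (merge (leaf 1 393 425) (node 362 (merge (leaf 3 361 361) (leaf 3 362 363))))))))) (merge (node 395 (merge (node 363 (merge (leaf 3 362 362) (leaf 3 363 364))) (merge (node 426 (merge (leaf 1 394 427) (node 394 (merge (leaf 1 393 425) (node 365 (merge (leaf 2 362 366) (node 364 (merge (leaf 2 361 393) (leaf 3 364 400))))))))) (node 426 (merge (leaf 1 394 427) (node 394 (merge (leaf 1 393 425) (node 362 (merge (leaf 3 361 361) (leaf 3 362 363)))))))))) (node 395 (merge (leaf 0 395 430) (node 426 (merge (leaf 1 394 427) (node 394 (merge (leaf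 1 393 425) (node 365 (merge (leaf 2 362 366) (node 364 (merge (leaf 2 361 393) (leaf 3 364 400))))))))))))))) (merge (node 366 (merge (node 334 (merge (leaf 4 302 302) (leaf 4 334 430))) (merge (node 429 (merge (node 428 (merge (leaf 1 396 400) (node 427 (merge (leaf 1 395 396) (leaf 2 394 426))))) (node 461 (merge (leaf 6 365 493) (node 334 (merge (leaf 4 302 302) (leaf 6 333 365))))))) (node 400 (merge (node 429 (merge (leaf 1 396 428) (node 401 (merge (leaf 3 365 365) (leaf 1 397 430))))) (merge (node 369 (merge (leaf 2 365 368) (node 401 (merge (leaf 3 365 365) (leaf 2 366 370))))) (merge (node 429 (merge (leaf 1 396 428) (node 401 (merge (leaf 1 397 430) (node 434 (merge (leaf 0 398 433) (node 402 (merge (leaf 0 399 435) (node 370 (merge (leaf 2 366 369) (leaf 2 367 371))))))))))) (node 428 (merge (leaf 1 396 429) (node 396 (merge (leaf 1 395 427) (node 395 (merge (leaf 0 395 430) (node 394 (merge (leaf 2 362 365) (node 362 (merge (leaf 3 361 361) (leaf 3 362 363)))))))))))))))))) (merge (node 400 (merge (node 429 (merge (leaf 1 396 428) (node 401 (merge (leaf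 1 397 430) (node 369 (merge (leaf 2 365 368) (leaf 2 366 370))))))) (merge (node 365 (merge (leaf 3 364 364) (node 366 (merge (leaf 3 365 401) (node 334 (merge (leaf 4 302 302) (leaf 4 334 430))))))) (merge (node 369 (merge (leaf 2 365 368) (node 401 (merge (leaf 2 366 370) (node 365 (merge (leaf 3 364 364) (leaf 3 365 366))))))) (node 428 (merge (leaf 1 396 429) (node 396 (merge (leaf 1 395 427) (node 395 (merge (leaf 0 395 430) (node 365 (merge (leaf 3 364 364) (node 394 (merge (leaf 2 362 366) (node 425 (merge (leaf 1 393 426) (node 393 (merge (leaf 1 392 424) (node 361 (merge (leaf 3 360 360) (leaf 3 361 362))))))))))))))))))))) (merge (node 429 (merge (node 428 (merge (leaf 1 396 400) (node 464 (merge (leaf 0 428 430) (leaf 7 431 496))))) (merge (node 400 (merge (leaf 1 396 428) (node 365 (merge (leaf 3 364 364) (node 366 (merge (leaf 3 365 401) (node 334 (merge (leaf 4 302 302) (leaf 6 333 461))))))))) (merge (node 464 (merge (leaf 7 431 496) (node 430 (merge (leaf 0 428 428) (node 396 (merge (leaf 0 395 395) (node 364 (merge (leaf 3 363 363) (node 461 (merge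 (leaf 7 364 493) (node 332 (merge (leaf 4 300 300) (leaf 7 332 365))))))))))))) (node 365 (merge (node 364 (merge (leaf 3 364 400) (node 363 (merge (leaf 0 362 362) (leaf 3 363 396))))) (node 334 (merge (node 366 (merge (leaf 4 334 430) (leaf 6 333 461))) (merge (node 302 (merge (leaf 6 301 333) (leaf 4 302 366))) (node 333 (merge (leaf 6 301 302) (node 300 (merge (leaf 7 300 332) (node 301 (merge (leaf 7 268 268) (leaf 4 301 430)))))))))))))))) (merge (node 464 (merge (leaf 7 431 496) (node 365 (merge (node 400 (merge (leaf 3 364 364) (node 369 (merge (leaf 2 365 368) (node 401 (merge (leaf 3 365 366) (leaf 2 366 370))))))) (merge (node 400 (merge (leaf 3 364 364) (node 429 (merge (leaf 1 396 428) (node 401 (merge (leaf 1 397 430) (node 434 (merge (leaf 0 398 433) (node 402 (merge (leaf 0 399 435) (node 370 (merge (leaf 2 366 369) (leaf 2 367 371))))))))))))) (merge (node 429 (merge (node 428 (merge (leaf 1 396 400) (node 430 (merge (leaf 2 395 427) (leaf 0 428 464))))) (merge (node 428 (merge (leaf 1 396 400) (node 460 (merge (leaf 5 332 333) (node 492 (merge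 (leaf 5 364 461) (leaf 6 396 524))))))) (node 334 (merge (node 366 (merge (leaf 4 334 430) (leaf 6 333 461))) (merge (node 302 (merge (leaf 6 301 333) (leaf 4 302 366))) (node 333 (merge (leaf 6 301 302) (node 300 (merge (leaf 7 300 332) (node 301 (merge (leaf 7 268 268) (leaf 4 301 430))))))))))))) (node 429 (merge (node 428 (merge (leaf 0 428 430) (node 460 (merge (leaf 5 332 333) (node 492 (merge (leaf 5 364 461) (leaf 6 396 524))))))) (merge (node 430 (merge (node 428 (merge (leaf 2 395 427) (leaf 0 428 464))) (node 333 (merge (leaf 4 301 301) (node 334 (merge (leaf 6 301 302) (leaf 4 334 366))))))) (merge (node 364 (merge (node 363 (merge (leaf 0 362 362) (leaf 0 363 366))) (node 332 (merge (leaf 7 332 461) (node 300 (merge (leaf 4 268 268) (leaf 7 300 333))))))) (node 430 (merge (leaf 0 428 428) (node 366 (merge (leaf 4 334 334) (node 364 (merge (leaf 0 363 363) (node 461 (merge (leaf 7 332 332) (leaf 6 365 493))))))))))))))))))) (node 562 (merge (node 364 (merge (node 363 (merge (leaf 3 363 396) (node 365 (merge (leaf 0 362 362) (leaf 0 363 366))))) (merge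 (node 365 (merge (leaf 3 364 400) (node 363 (merge (leaf 0 362 362) (leaf 0 363 366))))) (merge (node 396 (merge (leaf 3 363 363) (node 428 (merge (leaf 1 395 427) (node 429 (merge (leaf 1 396 400) (node 332 (merge (leaf 4 300 300) (leaf 4 332 461))))))))) (node 429 (merge (node 428 (merge (leaf 1 396 400) (node 427 (merge (leaf 1 395 396) (leaf 2 394 426))))) (merge (node 365 (merge (leaf 3 364 400) (node 332 (merge (leaf 7 332 461) (node 300 (merge (leaf 4 268 268) (leaf 7 300 333))))))) (node 332 (merge (node 300 (merge (leaf 4 300 396) (node 365 (merge (leaf 4 268 268) (leaf 7 300 333))))) (merge (node 396 (merge (leaf 4 300 300) (node 428 (merge (leaf 1 395 427) (leaf 4 332 461))))) (merge (node 365 (merge (leaf 7 332 461) (node 300 (merge (leaf 4 268 268) (leaf 7 300 333))))) (node 461 (merge (leaf 7 332 365) (node 493 (merge (leaf 6 365 366) (leaf 7 364 396)))))))))))))))) (node 594 (merge (node 595 (merge (leaf 0 559 559) (node 596 (merge (leaf 0 560 563) (leaf 3 561 597))))) (merge (node 563 (merge (node 531 (merge (leaf 2 528 532) (node 626 (merge (leaf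 6 530 658) (node 499 (merge (leaf 5 466 467) (leaf 6 498 530))))))) (node 564 (merge (node 596 (merge (leaf 0 560 595) (leaf 0 561 597))) (merge (node 595 (merge (leaf 0 560 596) (node 565 (merge (leaf 1 562 566) (leaf 1 561 593))))) (merge (node 597 (merge (leaf 0 561 596) (node 565 (merge (leaf 1 561 593) (leaf 0 562 598))))) (node 565 (merge (leaf 1 561 593) (node 598 (merge (leaf 0 562 597) (node 566 (merge (leaf 1 562 595) (leaf 0 563 599))))))))))))) (node 530 (merge (node 531 (merge (leaf 2 527 559) (node 499 (merge (leaf 6 498 626) (node 467 (merge (leaf 5 434 435) (leaf 6 466 498))))))) (merge (node 559 (merge (leaf 2 527 531) (node 558 (merge (leaf 0 558 593) (node 590 (merge (leaf 1 557 589) (leaf 1 558 591))))))) (node 626 (merge (node 659 (merge (leaf 4 530 627) (node 658 (merge (leaf 4 562 691) (node 657 (merge (leaf 5 529 625) (leaf 5 561 689))))))) (merge (node 625 (merge (leaf 5 529 657) (node 498 (merge (leaf 5 497 593) (node 467 (merge (leaf 6 466 499) (node 466 (merge (leaf 6 434 435) (node 465 (merge (leaf 7 433 433) (leaf 7 465 497)))))))))))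 (merge (node 659 (merge (leaf 4 530 627) (node 658 (merge (leaf 4 562 691) (node 593 (merge (leaf 7 561 690) (node 498 (merge (leaf 5 465 466) (leaf 5 497 625))))))))) (node 659 (merge (leaf 4 530 627) (node 658 (merge (leaf 4 562 691) (node 690 (merge (leaf 7 561 593) (node 689 (merge (leaf 5 561 657) (leaf 5 593 721))))))))))))))))))))))))))))))) nP_390 cP_390 11 (by decide +kernel)
def nP_391 : ℕ := 0x70000000100000000000000008000000080000001c000000000000000000000000000000000000000000000000000000000000000000000000000000000000000000000000000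
def cP_391 : ℕ := 0xee0000000c00000002800000338000007380000067c00000638000001b8000003f800000ff800000068000000000000000000000000000000000000000000000000000000000000000000
theorem lP_391 : S nP_391 cP_391 12 := S_of_chk [] trivial (node 336 (merge (node 368 (merge (leaf 5 303 304) (leaf 6 335 367))) (merge (node 304 (merge (leaf 5 303 368) (node 397 (merge (node 428 (merge (leaf 1 396 429) (node 396 (merge (leaf 1 395 427) (node 364 (merge (leaf 3 363 363) (leaf 3 364 365))))))) (merge (node 396 (merge (node 428 (merge (leaf 1 395 427) (leaf 1 396 429))) (merge (node 430 (merge (leaf 0 395 395) (node 401 (merge (leaf 1 398 402) (leaf 1 397 429))))) (node 395 (merge (leaf 0 395 430) (node 427 (merge (leaf 1 394 426) (leaf 1 395 428)))))))) (merge (node 364 (merge (leaf 3 364 365) (node 396 (merge (leaf 3 363 363) (node 430 (merge (leaf 0 395 395) (node 401 (merge (leaf 1 398 402) (leaf 1 397 429))))))))) (merge (node 364 (merge (leaf 3 364 365) (node 396 (merge (leaf 3 363 363) (node 395 (merge (leaf 0 395 430) (node 427 (merge (leaf 1 394 426) (leaf 1 395 428)))))))))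 (node 429 (merge (leaf 1 396 428) (node 430 (merge (leaf 1 397 401) (node 365 (merge (leaf 3 364 364) (node 333 (merge (leaf 4 301 301) (node 334 (merge (leaf 6 301 302) (node 332 (merge (leaf 7 300 300) (node 335 (merge (leaf 2 300 303) (leaf 2 301 305)))))))))))))))))))))) (merge (node 335 (merge (node 367 (merge (leaf 6 303 304) (node 430 (merge (leaf 5 302 303) (node 429 (merge (leaf 1 397 401) (leaf 2 396 428))))))) (merge (node 334 (merge (node 367 (merge (leaf 7 302 302) (leaf 6 303 304))) (merge (node 304 (merge (leaf 6 303 367) (node 305 (merge (leaf 2 301 333) (node 306 (merge (leaf 1 302 303) (leaf 1 303 307))))))) (merge (node 302 (merge (leaf 7 302 367) (node 301 (merge (leaf 3 301 337) (node 300 (merge (leaf 0 300 303) (leaf 3 300 333))))))) (node 333 (merge (node 364 (merge (leaf 1 332 365) (node 332 (merge (leaf 1 331 363) (node 304 (merge (leaf 2 300 303) (leaf 2 301 305))))))) (merge (node 305 (merge (leaf 2 301 304) (node 337 (merge (leaf 2 302 306) (node 301 (merge (leaf 3 300 300) (leaf 3 301 302))))))) (node 364 (merge (leaf 1 332 365) (node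 332 (merge (leaf 1 331 363) (node 300 (merge (leaf 3 299 299) (leaf 3 300 301)))))))))))))) (merge (node 397 (merge (node 428 (merge (leaf 1 396 429) (node 396 (merge (leaf 1 395 427) (node 364 (merge (leaf 3 363 363) (leaf 3 364 365))))))) (merge (node 396 (merge (node 428 (merge (leaf 1 395 427) (leaf 1 396 429))) (merge (node 430 (merge (leaf 0 395 395) (node 401 (merge (leaf 1 398 402) (leaf 1 397 429))))) (node 395 (merge (leaf 0 395 430) (node 427 (merge (leaf 1 394 426) (leaf 1 395 428)))))))) (merge (node 364 (merge (leaf 3 364 365) (node 396 (merge (leaf 3 363 363) (node 430 (merge (leaf 0 395 395) (node 401 (merge (leaf 1 398 402) (leaf 1 397 429))))))))) (merge (node 364 (merge (leaf 3 364 365) (node 396 (merge (leaf 3 363 363) (node 395 (merge (leaf 0 395 430) (node 427 (merge (leaf 1 394 426) (leaf 1 395 428))))))))) (node 304 (merge (leaf 6 303 367) (node 429 (merge (leaf 1 396 428) (node 430 (merge (leaf 1 397 401) (node 365 (merge (leaf 3 364 364) (node 333 (merge (leaf 4 301 301) (node 334 (merge (leaf 6 301 302) (leaf 2 301 305))))))))))))))))))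 (merge (node 397 (merge (node 428 (merge (leaf 1 396 429) (node 396 (merge (leaf 1 395 427) (node 364 (merge (leaf 3 363 363) (leaf 3 364 365))))))) (merge (node 396 (merge (node 428 (merge (leaf 1 395 427) (leaf 1 396 429))) (merge (node 430 (merge (leaf 0 395 395) (node 401 (merge (leaf 1 398 402) (leaf 1 397 429))))) (node 395 (merge (leaf 0 395 430) (node 427 (merge (leaf 1 394 426) (leaf 1 395 428)))))))) (merge (node 364 (merge (leaf 3 364 365) (node 396 (merge (leaf 3 363 363) (node 430 (merge (leaf 0 395 395) (node 401 (merge (leaf 1 398 402) (leaf 1 397 429))))))))) (merge (node 364 (merge (leaf 3 364 365) (node 396 (merge (leaf 3 363 363) (node 395 (merge (leaf 0 395 430) (node 427 (merge (leaf 1 394 426) (leaf 1 395 428))))))))) (node 429 (merge (leaf 1 396 428) (node 430 (merge (leaf 1 397 401) (node 365 (merge (leaf 3 364 364) (node 333 (merge (leaf 4 301 301) (node 334 (merge (leaf 6 301 302) (node 332 (merge (leaf 7 300 300) (node 304 (merge (leaf 2 300 303) (leaf 2 301 305)))))))))))))))))))) (node 559 (merge (node 594 (merge (leaf 0 559 595) (node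 558 (merge (leaf 0 558 593) (node 590 (merge (leaf 1 557 589) (leaf 1 558 591))))))) (node 302 (merge (node 367 (merge (leaf 7 302 334) (node 303 (merge (leaf 7 270 270) (leaf 5 302 430))))) (merge (node 334 (merge (leaf 7 302 367) (node 301 (merge (leaf 3 301 337) (node 300 (merge (leaf 0 299 299) (leaf 3 300 333))))))) (merge (node 397 (merge (node 428 (merge (leaf 1 396 429) (node 396 (merge (leaf 1 395 427) (node 364 (merge (leaf 3 363 363) (leaf 3 364 365))))))) (merge (node 396 (merge (node 428 (merge (leaf 1 395 427) (leaf 1 396 429))) (merge (node 430 (merge (leaf 0 395 395) (node 401 (merge (leaf 1 398 402) (leaf 1 397 429))))) (node 395 (merge (leaf 0 395 430) (node 427 (merge (leaf 1 394 426) (leaf 1 395 428)))))))) (merge (node 364 (merge (leaf 3 364 365) (node 396 (merge (leaf 3 363 363) (node 430 (merge (leaf 0 395 395) (node 401 (merge (leaf 1 398 402) (leaf 1 397 429))))))))) (merge (node 364 (merge (leaf 3 364 365) (node 396 (merge (leaf 3 363 363) (node 395 (merge (leaf 0 395 430) (node 427 (merge (leaf 1 394 426) (leaf 1 395 428))))))))) (node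 429 (merge (leaf 1 396 428) (node 430 (merge (leaf 1 397 401) (node 365 (merge (leaf 3 364 364) (node 301 (merge (leaf 4 301 333) (node 303 (merge (leaf 0 300 300) (leaf 5 302 367)))))))))))))))) (node 397 (merge (node 428 (merge (leaf 1 396 429) (node 396 (merge (leaf 1 395 427) (node 364 (merge (leaf 3 363 363) (leaf 3 364 365))))))) (merge (node 396 (merge (node 428 (merge (leaf 1 395 427) (leaf 1 396 429))) (merge (node 430 (merge (leaf 0 395 395) (node 401 (merge (leaf 1 398 402) (leaf 1 397 429))))) (node 395 (merge (leaf 0 395 430) (node 427 (merge (leaf 1 394 426) (leaf 1 395 428)))))))) (merge (node 364 (merge (leaf 3 364 365) (node 396 (merge (leaf 3 363 363) (node 430 (merge (leaf 0 395 395) (node 401 (merge (leaf 1 398 402) (leaf 1 397 429))))))))) (merge (node 364 (merge (leaf 3 364 365) (node 396 (merge (leaf 3 363 363) (node 395 (merge (leaf 0 395 430) (node 427 (merge (leaf 1 394 426) (leaf 1 395 428))))))))) (node 429 (merge (leaf 1 396 428) (node 430 (merge (leaf 1 397 401) (node 365 (merge (leaf 3 364 364) (node 333 (merge (leaf 4 301 301) (leaf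 6 301 334))))))))))))))))))))))))) (node 559 (merge (node 594 (merge (leaf 0 559 595) (node 558 (merge (leaf 0 558 593) (node 590 (merge (leaf 1 557 589) (leaf 1 558 591))))))) (node 364 (merge (node 397 (merge (leaf 3 364 365) (node 428 (merge (leaf 1 396 429) (node 396 (merge (leaf 3 363 363) (leaf 1 395 427))))))) (merge (node 397 (merge (leaf 3 364 365) (node 396 (merge (leaf 3 363 363) (node 430 (merge (leaf 0 395 395) (node 401 (merge (leaf 1 398 402) (leaf 1 397 429))))))))) (merge (node 397 (merge (leaf 3 364 365) (node 396 (merge (leaf 3 363 363) (node 395 (merge (leaf 0 395 430) (node 427 (merge (leaf 1 394 426) (leaf 1 395 428))))))))) (merge (node 429 (merge (node 397 (merge (leaf 3 364 365) (leaf 1 396 428))) (merge (node 430 (merge (leaf 1 397 401) (leaf 2 396 428))) (node 367 (merge (leaf 6 335 368) (node 430 (merge (leaf 1 397 401) (node 365 (merge (leaf 3 364 397) (node 335 (merge (leaf 5 302 303) (node 334 (merge (leaf 7 302 302) (leaf 1 332 333)))))))))))))) (merge (node 430 (merge (node 429 (merge (leaf 1 397 401) (leaf 2 396 428))) (node 367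 (merge (leaf 6 335 368) (node 335 (merge (leaf 5 302 303) (node 334 (merge (leaf 7 302 302) (node 333 (merge (leaf 1 332 365) (node 332 (merge (leaf 1 331 363) (node 300 (merge (leaf 3 299 299) (leaf 3 300 301))))))))))))))) (node 396 (merge (node 397 (merge (leaf 3 363 363) (node 428 (merge (leaf 1 395 427) (leaf 1 396 429))))) (merge (node 397 (merge (leaf 3 363 363) (node 430 (merge (leaf 0 395 395) (node 401 (merge (leaf 1 398 402) (leaf 1 397 429))))))) (merge (node 397 (merge (leaf 3 363 363) (node 395 (merge (leaf 0 395 430) (node 427 (merge (leaf 1 394 426) (leaf 1 395 428))))))) (merge (node 397 (merge (node 428 (merge (leaf 1 395 427) (leaf 1 396 429))) (merge (node 430 (merge (leaf 0 395 395) (node 401 (merge (leaf 1 398 402) (leaf 1 397 429))))) (node 395 (merge (leaf 0 395 430) (node 427 (merge (leaf 1 394 426) (leaf 1 395 428)))))))) (node 428 (merge (node 429 (merge (leaf 2 396 430) (node 461 (merge (leaf 4 332 332) (node 493 (merge (leaf 4 364 460) (leaf 7 396 525))))))) (merge (node 368 (merge (leaf 6 335 367) (node 464 (merge (leaf 7 431 496) (node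 430 (merge (leaf 0 428 429) (node 401 (merge (leaf 1 398 402) (node 433 (merge (leaf 0 398 434) (node 465 (merge (leaf 3 430 466) (leaf 7 368 497))))))))))))) (node 331 (merge (node 299 (merge (leaf 7 299 332) (node 363 (merge (leaf 4 267 267) (leaf 7 331 460))))) (merge (node 332 (merge (leaf 7 299 299) (node 301 (merge (leaf 6 300 333) (node 300 (merge (leaf 6 268 269) (node 427 (merge (leaf 5 299 395) (leaf 5 331 459))))))))) (node 460 (merge (leaf 7 331 363) (node 493 (merge (leaf 4 364 461) (node 492 (merge (leaf 4 396 525) (node 491 (merge (leaf 5 363 459) (leaf 5 395 523)))))))))))))))))))))))))))))))) nP_391 cP_391 12 (by decide +kernel)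
def nP_392 : ℕ := 0x30000000100000000000000008000000080000000c000000000000000000000000000000000000000000000000000000000000000000000000000000000000000000000000000
def cP_392 : ℕ := 0x80000000e0000000e000000fee000007cc00000fc2800000f3800007f3800001e7c00000f3800001fb8000003f800000ff800000068000000000000000000000000000000000000000000000000000000000000000000
theorem lP_392 : S nP_392 cP_392 14 := S_of_chk [(nP_391, cP_391, 12)] ⟨lP_391, trivial⟩ (node 562 (merge (node 595 (merge (node 596 (merge (leaf 0 560 563) (node 594 (merge (leaf 3 560 593) (leaf 3 561 597))))) (merge (node 594 (merge (leaf 0 559 559) (node 596 (merge (leaf 3 560 593) (leaf 3 561 597))))) (merge (node 563 (merge (leaf 0 560 596) (node 531 (merge (leaf 2 528 532) (node 530 (merge (leaf 2 527 559) (node 627 (merge (leaf 7 498 498) (leaf 7 530 659))))))))) (node 530 (merge (node 531 (merge (leaf 2 527 559) (node 532 (merge (leaf 1 529 533) (leaf 2 528 563))))) (merge (node 594 (merge (leaf 0 559 559) (node 498 (merge (leaf 4 498 627) (node 593 (merge (leaf 5 465 466) (leaf 5 497 625))))))) (node 498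 (merge (node 466 (merge (leaf 4 466 563) (leaf 5 465 593))) (merge (node 627 (merge (leaf 4 498 594) (node 563 (merge (leaf 7 498 531) (leaf 7 530 659))))) (node 593 (merge (leaf 5 465 466) (node 625 (merge (leaf 5 497 594) (leaf 6 529 657))))))))))))))) (merge (node 400 (merge (node 464 (merge (leaf 7 431 496) (node 401 (merge (node 434 (merge (leaf 0 398 433) (node 402 (merge (leaf 1 398 430) (leaf 0 399 435))))) (node 369 (merge (leaf 2 366 370) (node 368 (merge (leaf 2 365 397) (node 336 (merge (leaf 5 303 304) (leaf 6 335 367))))))))))) (merge (node 464 (merge (leaf 7 431 496) (node 397 (merge (node 368 (merge (leaf 2 365 369) (node 336 (merge (leaf 5 303 304) (leaf 6 335 367))))) (node 428 (merge (leaf 1 396 429) (node 396 (merge (leaf 1 395 427) (node 364 (merge (leaf 3 363 363) (leaf 3 364 365))))))))))) (merge (node 397 (merge (node 428 (merge (leaf 1 396 429) (node 396 (merge (leaf 1 395 427) (node 364 (merge (leaf 3 363 363) (leaf 3 364 365))))))) (merge (node 429 (merge (leaf 1 396 428) (node 401 (merge (leaf 1 397 430) (node 434 (merge (leaf 0 398 433)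 (node 402 (merge (leaf 0 399 435) (node 370 (merge (leaf 2 366 369) (leaf 2 367 371))))))))))) (merge (node 364 (merge (leaf 3 364 365) (node 396 (merge (leaf 3 363 363) (node 430 (merge (leaf 0 395 395) (node 401 (merge (leaf 1 398 402) (leaf 1 397 429))))))))) (node 364 (merge (leaf 3 364 365) (node 396 (merge (leaf 3 363 363) (node 395 (merge (leaf 0 395 430) (node 427 (merge (leaf 1 394 426) (leaf 1 395 428))))))))))))) (node 530 (merge (node 531 (merge (leaf 2 527 559) (node 532 (merge (leaf 1 529 533) (leaf 2 528 563))))) (node 466 (merge (node 464 (merge (leaf 7 431 496) (node 430 (merge (leaf 3 430 465) (node 429 (merge (leaf 1 397 401) (leaf 0 428 428))))))) (merge (node 498 (merge (leaf 5 465 593) (node 465 (merge (leaf 7 433 433) (node 464 (merge (leaf 3 430 430) (leaf 0 463 499))))))) (node 498 (merge (leaf 5 465 593) (node 435 (merge (leaf 6 434 467) (node 434 (merge (leaf 6 402 403) (node 401 (merge (leaf 0 399 402) (leaf 0 398 433)))))))))))))))))) (merge (node 400 (merge (node 464 (merge (leaf 7 431 496) (node 401 (merge (node 434 (merge (leaf 0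 398 433) (node 402 (merge (leaf 1 398 430) (leaf 0 399 435))))) (node 369 (merge (leaf 2 366 370) (node 368 (merge (leaf 2 365 397) (node 336 (merge (leaf 5 303 304) (leaf 6 335 367))))))))))) (merge (node 464 (merge (leaf 7 431 496) (node 397 (merge (node 368 (merge (leaf 2 365 369) (node 336 (merge (leaf 5 303 304) (leaf 6 335 367))))) (node 428 (merge (leaf 1 396 429) (node 396 (merge (leaf 1 395 427) (node 364 (merge (leaf 3 363 363) (leaf 3 364 365))))))))))) (node 430 (merge (node 401 (merge (leaf 1 398 402) (node 429 (merge (leaf 1 397 398) (leaf 2 396 428))))) (node 531 (merge (node 530 (merge (leaf 2 527 559) (node 532 (merge (leaf 1 529 533) (leaf 2 528 563))))) (merge (node 559 (merge (leaf 2 527 530) (node 594 (merge (leaf 0 559 595) (node 558 (merge (leaf 0 558 593) (node 590 (merge (leaf 1 557 589) (leaf 1 558 591))))))))) (merge (node 563 (merge (leaf 2 528 532) (node 595 (merge (leaf 0 560 596) (node 594 (merge (leaf 0 559 559) (node 626 (merge (leaf 5 498 499) (leaf 6 530 658))))))))) (node 563 (merge (leaf 2 528 532) (node 594 (merge (node 626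 (merge (leaf 6 530 658) (node 499 (merge (leaf 5 466 467) (leaf 6 498 530))))) (node 564 (merge (node 596 (merge (leaf 0 560 595) (leaf 0 561 597))) (merge (node 595 (merge (leaf 0 560 596) (node 565 (merge (leaf 1 562 566) (leaf 1 561 593))))) (merge (node 597 (merge (leaf 0 561 596) (node 565 (merge (leaf 1 561 593) (leaf 0 562 598))))) (node 565 (merge (leaf 1 561 593) (node 598 (merge (leaf 0 562 597) (node 566 (merge (leaf 1 562 595) (leaf 0 563 599)))))))))))))))))))))))) (merge (node 400 (merge (node 464 (merge (leaf 7 431 496) (node 401 (merge (node 434 (merge (leaf 0 398 433) (node 402 (merge (leaf 1 398 430) (leaf 0 399 435))))) (node 369 (merge (leaf 2 366 370) (node 368 (merge (leaf 2 365 397) (node 336 (merge (leaf 5 303 304) (leaf 6 335 367))))))))))) (merge (node 464 (merge (leaf 7 431 496) (node 397 (merge (node 368 (merge (leaf 2 365 369) (node 336 (merge (leaf 5 303 304) (leaf 6 335 367))))) (node 428 (merge (leaf 1 396 429) (node 396 (merge (leaf 1 395 427) (node 364 (merge (leaf 3 363 363) (leaf 3 364 365))))))))))) (merge (node 397 (merge (node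 428 (merge (leaf 1 396 429) (node 396 (merge (leaf 1 395 427) (node 364 (merge (leaf 3 363 363) (leaf 3 364 365))))))) (merge (node 429 (merge (leaf 1 396 428) (node 401 (merge (leaf 1 397 430) (node 434 (merge (leaf 0 398 433) (node 402 (merge (leaf 0 399 435) (node 370 (merge (leaf 2 366 369) (leaf 2 367 371))))))))))) (merge (node 364 (merge (leaf 3 364 365) (node 396 (merge (leaf 3 363 363) (node 430 (merge (leaf 0 395 395) (node 401 (merge (leaf 1 398 402) (leaf 1 397 429))))))))) (node 364 (merge (leaf 3 364 365) (node 396 (merge (leaf 3 363 363) (node 395 (merge (leaf 0 395 430) (node 427 (merge (leaf 1 394 426) (leaf 1 395 428))))))))))))) (merge (node 368 (merge (node 336 (merge (leaf 5 303 304) (leaf 6 335 367))) (node 401 (merge (node 430 (merge (leaf 1 398 402) (leaf 1 397 429))) (merge (node 434 (merge (leaf 0 398 433) (node 402 (merge (leaf 0 399 435) (node 370 (merge (leaf 2 366 369) (leaf 2 367 371))))))) (node 433 (merge (leaf 0 398 434) (node 465 (merge (leaf 7 368 497) (node 464 (merge (leaf 6 432 496) (node 430 (merge (leaf 1 397 429) (leaf 3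 430 466)))))))))))))) (node 563 (merge (node 531 (merge (leaf 2 528 532) (node 430 (merge (node 401 (merge (leaf 1 398 402) (leaf 1 397 429))) (node 466 (merge (node 464 (merge (leaf 3 430 465) (leaf 7 431 496))) (node 498 (merge (node 530 (merge (leaf 4 434 434) (leaf 5 465 593))) (merge (node 530 (merge (leaf 5 465 593) (leaf 4 466 595))) (node 499 (merge (leaf 7 466 595) (node 467 (merge (leaf 7 434 434) (leaf 5 466 594)))))))))))))) (merge (node 564 (merge (node 596 (merge (leaf 0 560 595) (leaf 0 561 597))) (merge (node 597 (merge (leaf 0 561 596) (node 565 (merge (leaf 0 562 598) (node 533 (merge (leaf 2 529 532) (leaf 2 530 534))))))) (merge (node 595 (merge (leaf 0 560 596) (node 533 (merge (leaf 2 529 532) (node 565 (merge (leaf 2 530 534) (node 594 (merge (leaf 1 562 566) (leaf 1 561 593))))))))) (node 533 (merge (leaf 2 529 532) (node 565 (merge (leaf 2 530 534) (node 598 (merge (leaf 0 562 597) (node 566 (merge (leaf 0 563 599) (node 594 (merge (leaf 1 561 593) (leaf 1 562 595))))))))))))))) (merge (node 564 (merge (node 532 (merge (leaf 2 528 531) (leaf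 2 529 533))) (merge (node 597 (merge (leaf 0 561 596) (node 565 (merge (leaf 0 562 598) (node 533 (merge (leaf 2 529 532) (leaf 2 530 534))))))) (merge (node 597 (merge (leaf 0 561 596) (node 565 (merge (leaf 0 562 598) (node 594 (merge (leaf 1 561 593) (node 531 (merge (leaf 2 528 532) (node 626 (merge (leaf 6 530 658) (node 530 (merge (leaf 6 498 499) (leaf 3 530 566))))))))))))) (node 430 (merge (node 401 (merge (leaf 1 398 402) (leaf 1 397 429))) (node 597 (merge (leaf 0 561 596) (node 565 (merge (leaf 0 562 598) (node 464 (merge (leaf 7 431 496) (node 593 (merge (leaf 1 561 594) (node 534 (merge (leaf 2 530 533) (node 566 (merge (leaf 2 531 535) (node 466 (merge (leaf 3 430 465) (node 530 (merge (leaf 5 465 498) (leaf 3 530 531))))))))))))))))))))))) (node 464 (merge (leaf 7 431 496) (node 466 (merge (node 430 (merge (leaf 3 430 465) (node 429 (merge (leaf 1 397 401) (leaf 0 428 428))))) (merge (node 595 (merge (leaf 0 560 596) (node 498 (merge (leaf 4 466 530) (node 499 (merge (leaf 0 463 465) (leaf 7 466 531))))))) (node 397 (merge (node 428 (merge (leaf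 1 396 429) (node 396 (merge (leaf 1 395 427) (node 364 (merge (leaf 3 363 363) (leaf 3 364 365))))))) (merge (node 429 (merge (leaf 1 396 428) (node 401 (merge (leaf 1 397 430) (node 434 (merge (leaf 0 398 433) (node 402 (merge (leaf 0 399 435) (node 371 (merge (leaf 2 367 370) (node 403 (merge (leaf 2 368 372) (leaf 6 370 498))))))))))))) (merge (node 364 (merge (leaf 3 364 365) (node 396 (merge (leaf 3 363 363) (node 430 (merge (leaf 0 395 395) (node 401 (merge (leaf 1 398 402) (leaf 1 397 429))))))))) (node 364 (merge (leaf 3 364 365) (node 396 (merge (leaf 3 363 363) (node 395 (merge (leaf 0 395 430) (node 427 (merge (leaf 1 394 426) (leaf 1 395 428))))))))))))))))))))))))))) (merge (node 430 (merge (node 400 (merge (node 401 (merge (leaf 1 398 402) (leaf 1 397 429))) (node 368 (merge (node 336 (merge (leaf 5 303 304) (leaf 6 335 367))) (node 397 (merge (leaf 2 365 369) (node 396 (merge (leaf 0 395 395) (node 364 (merge (leaf 3 363 363) (leaf 3 364 365))))))))))) (node 530 (merge (node 531 (merge (leaf 2 527 559) (node 532 (merge (leaf 1 529 533) (leaf 2 528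 563))))) (merge (node 595 (merge (node 594 (merge (leaf 0 559 559) (node 596 (merge (leaf 0 560 563) (leaf 3 561 597))))) (merge (node 594 (merge (leaf 0 559 559) (node 627 (merge (leaf 4 498 498) (node 659 (merge (leaf 4 530 626) (leaf 7 562 691))))))) (node 563 (merge (leaf 0 560 596) (node 464 (merge (leaf 7 431 496) (node 466 (merge (leaf 3 430 465) (leaf 4 466 498)))))))))) (merge (node 594 (merge (node 559 (merge (leaf 2 527 531) (leaf 0 559 595))) (merge (node 595 (merge (leaf 0 559 559) (node 627 (merge (leaf 4 498 498) (node 659 (merge (leaf 4 530 626) (leaf 7 562 691))))))) (merge (node 531 (merge (leaf 2 527 559) (node 499 (merge (leaf 6 498 626) (node 467 (merge (leaf 5 434 435) (leaf 6 466 498))))))) (node 464 (merge (leaf 7 431 496) (node 465 (merge (leaf 3 430 466) (node 498 (merge (leaf 7 465 497) (node 499 (merge (leaf 6 466 467) (node 626 (merge (leaf 6 498 531) (node 627 (merge (leaf 4 498 595) (leaf 4 530 659))))))))))))))))) (node 563 (merge (node 595 (merge (leaf 0 560 596) (node 627 (merge (leaf 7 530 659) (node 498 (merge (leaf 4 466 466)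 (leaf 4 498 594))))))) (merge (node 596 (merge (leaf 0 560 595) (node 564 (merge (leaf 0 561 597) (node 532 (merge (leaf 2 528 531) (leaf 2 529 533))))))) (node 531 (merge (leaf 2 528 532) (node 464 (merge (leaf 7 431 496) (node 466 (merge (leaf 3 430 465) (node 498 (merge (leaf 4 434 434) (node 467 (merge (leaf 6 434 435) (node 499 (merge (leaf 6 466 594) (node 468 (merge (leaf 6 435 436) (node 469 (merge (leaf 1 466 470) (leaf 1 465 497)))))))))))))))))))))))))) (node 400 (merge (node 464 (merge (leaf 7 431 496) (node 401 (merge (node 434 (merge (leaf 0 398 433) (node 402 (merge (leaf 1 398 430) (leaf 0 399 435))))) (node 369 (merge (leaf 2 366 370) (node 368 (merge (leaf 2 365 397) (node 336 (merge (leaf 5 303 304) (leaf 6 335 367))))))))))) (merge (node 464 (merge (leaf 7 431 496) (node 397 (merge (node 368 (merge (leaf 2 365 369) (node 336 (merge (leaf 5 303 304) (leaf 6 335 367))))) (node 428 (merge (leaf 1 396 429) (node 396 (merge (leaf 1 395 427) (node 364 (merge (leaf 3 363 363) (leaf 3 364 365))))))))))) (merge (node 397 (merge (node 428 (merge (leaf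 1 396 429) (node 396 (merge (leaf 1 395 427) (node 364 (merge (leaf 3 363 363) (leaf 3 364 365))))))) (merge (node 429 (merge (leaf 1 396 428) (node 401 (merge (leaf 1 397 430) (node 434 (merge (leaf 0 398 433) (node 402 (merge (leaf 0 399 435) (node 370 (merge (leaf 2 366 369) (leaf 2 367 371))))))))))) (merge (node 364 (merge (leaf 3 364 365) (node 396 (merge (leaf 3 363 363) (node 430 (merge (leaf 0 395 395) (node 401 (merge (leaf 1 398 402) (leaf 1 397 429))))))))) (node 364 (merge (leaf 3 364 365) (node 396 (merge (leaf 3 363 363) (node 395 (merge (leaf 0 395 430) (node 427 (merge (leaf 1 394 426) (leaf 1 395 428))))))))))))) (merge (node 368 (merge (node 336 (merge (leaf 5 303 304) (leaf 6 335 367))) (node 401 (merge (node 430 (merge (leaf 1 398 402) (leaf 1 397 429))) (merge (node 434 (merge (leaf 0 398 433) (node 402 (merge (leaf 0 399 435) (node 370 (merge (leaf 2 366 369) (leaf 2 367 371))))))) (node 433 (merge (leaf 0 398 434) (node 465 (merge (leaf 7 368 497) (node 464 (merge (leaf 6 432 496) (node 430 (merge (leaf 1 397 429) (leaf 3 430 466))))))))))))))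 (hyp 0)))))))))))) nP_392 cP_392 14 (by decide +kernel)
def nP_393 : ℕ := 0x300000001000000000000000080000000800000008000000000000000000000000000000000000000000000000000000000000000000000000000000000000000000000000000
def cP_393 : ℕ := 0x20000000e0000000e0000000e000000fee000007cc00000fc7800000f7800007f3800001e7f00000f7e00001fff000003f800000ff8000001f8000001500000000000000000000000000000000000000000000000000000000000
theorem lP_393 : S nP_393 cP_393 15 := S_of_chk [(nP_377, cP_377, 10), (nP_390, cP_390, 11), (nP_392, cP_392, 14)] ⟨lP_377, lP_390, lP_392, trivial⟩ (node 398 (merge (node 367 (merge (node 368 (merge (leaf 6 335 336) (node 366 (merge (leaf 7 334 334) (node 369 (merge (leaf 1 366 370) (leaf 1 365 397))))))) (merge (node 335 (merge (node 334 (merge (leaf 7 302 302) (leaf 7 334 366))) (merge (node 303 (merge (leaf 5 302 430) (node 272 (merge (leaf 6 271 304) (node 271 (merge (leaf 6 239 240) (leaf 5 270 366))))))) (node 302 (merge (leaf 7 302 334) (node 303 (merge (leaf 7 270 270) (leaf 5 302 430)))))))) (merge (node 336 (merge (leaf 6 335 368) (node 335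 (merge (leaf 6 303 304) (node 302 (merge (leaf 7 302 334) (node 303 (merge (leaf 7 270 270) (leaf 5 302 430))))))))) (node 336 (merge (leaf 6 335 368) (node 335 (merge (leaf 6 303 304) (node 303 (merge (leaf 5 302 430) (node 270 (merge (leaf 7 270 302) (node 271 (merge (leaf 7 238 238) (leaf 5 270 366))))))))))))))) (merge (node 367 (merge (node 335 (merge (node 334 (merge (leaf 7 302 302) (leaf 7 334 366))) (merge (node 303 (merge (leaf 5 302 430) (node 272 (merge (leaf 6 271 304) (node 271 (merge (leaf 6 239 240) (leaf 5 270 366))))))) (node 302 (merge (leaf 7 302 334) (node 303 (merge (leaf 7 270 270) (leaf 5 302 430)))))))) (merge (node 336 (merge (leaf 6 335 368) (node 335 (merge (leaf 6 303 304) (node 302 (merge (leaf 7 302 334) (node 303 (merge (leaf 7 270 270) (leaf 5 302 430))))))))) (merge (node 336 (merge (leaf 6 335 368) (node 335 (merge (leaf 6 303 304) (node 303 (merge (leaf 5 302 430) (node 270 (merge (leaf 7 270 302) (node 271 (merge (leaf 7 238 238) (leaf 5 270 366))))))))))) (node 366 (merge (leaf 7 334 334) (node 368 (merge (leaf 6 335 336) (node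 369 (merge (leaf 1 366 370) (node 401 (merge (leaf 0 366 402) (node 365 (merge (leaf 0 365 400) (node 364 (merge (leaf 0 363 363) (node 332 (merge (leaf 3 331 331) (leaf 3 332 333))))))))))))))))))) (merge (node 464 (merge (leaf 7 431 496) (node 397 (merge (node 428 (merge (node 429 (merge (leaf 1 396 400) (leaf 0 428 430))) (merge (node 396 (merge (leaf 1 395 427) (node 395 (merge (leaf 0 395 430) (node 363 (merge (leaf 3 362 362) (leaf 3 363 364))))))) (node 427 (merge (leaf 1 395 396) (node 429 (merge (leaf 1 396 400) (leaf 2 394 426)))))))) (merge (node 367 (merge (node 368 (merge (leaf 6 335 336) (leaf 2 364 396))) (node 335 (merge (node 334 (merge (leaf 7 302 302) (leaf 7 334 366))) (merge (node 366 (merge (leaf 7 334 334) (node 303 (merge (leaf 5 270 271) (leaf 5 302 430))))) (merge (node 302 (merge (leaf 7 302 334) (node 303 (merge (leaf 7 270 270) (leaf 5 302 430))))) (node 303 (merge (leaf 5 302 430) (node 270 (merge (leaf 7 270 302) (node 271 (merge (leaf 7 238 238) (leaf 5 270 366))))))))))))) (merge (node 400 (merge (node 365 (merge (leaf 3 364 364)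 (node 366 (merge (leaf 3 365 401) (node 334 (merge (leaf 4 302 302) (leaf 7 334 367))))))) (merge (node 428 (merge (leaf 1 396 429) (node 396 (merge (leaf 1 395 427) (node 364 (merge (leaf 3 363 363) (leaf 3 364 365))))))) (node 428 (merge (leaf 1 396 429) (node 396 (merge (leaf 1 395 427) (node 367 (merge (leaf 2 364 368) (node 366 (merge (leaf 7 334 334) (leaf 2 363 395)))))))))))) (node 429 (merge (node 428 (merge (leaf 1 396 400) (leaf 0 428 430))) (merge (node 400 (merge (leaf 1 396 428) (node 365 (merge (leaf 3 364 364) (node 366 (merge (leaf 3 365 401) (node 334 (merge (leaf 4 302 302) (leaf 6 333 461))))))))) (merge (node 365 (merge (node 364 (merge (leaf 3 364 400) (node 363 (merge (leaf 0 362 362) (leaf 0 363 366))))) (merge (node 334 (merge (node 366 (merge (leaf 4 334 430) (leaf 6 333 461))) (merge (node 302 (merge (leaf 6 301 333) (leaf 4 302 366))) (node 333 (merge (leaf 6 301 302) (node 300 (merge (leaf 7 300 332) (node 301 (merge (leaf 7 268 268) (leaf 4 301 430)))))))))) (node 364 (merge (leaf 3 364 400) (node 332 (merge (leaf 7 332 461) (node 300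 (merge (leaf 4 268 268) (leaf 7 300 333)))))))))) (node 461 (merge (node 366 (merge (leaf 6 365 493) (node 334 (merge (leaf 4 302 302) (leaf 4 334 430))))) (merge (node 430 (merge (leaf 0 428 428) (node 493 (merge (leaf 6 397 525) (node 492 (merge (leaf 5 396 524) (node 365 (merge (leaf 5 364 460) (node 332 (merge (leaf 7 332 364) (node 333 (merge (leaf 7 300 300) (leaf 4 301 301))))))))))))) (node 365 (merge (node 366 (merge (leaf 6 333 334) (node 364 (merge (leaf 7 332 332) (leaf 0 363 363))))) (merge (node 334 (merge (leaf 6 333 366) (node 333 (merge (leaf 6 301 302) (node 460 (merge (leaf 5 332 428) (leaf 5 364 492))))))) (merge (node 364 (merge (node 363 (merge (leaf 0 362 362) (leaf 0 363 366))) (node 332 (merge (leaf 7 332 461) (node 300 (merge (leaf 4 268 268) (leaf 7 300 333))))))) (node 460 (merge (leaf 5 364 492) (node 333 (merge (leaf 5 332 428) (node 302 (merge (leaf 6 301 334) (node 301 (merge (leaf 6 269 270) (node 300 (merge (leaf 7 268 268) (leaf 7 300 332)))))))))))))))))))))))))))) (merge (node 397 (merge (node 396 (merge (node 395 (merge (leaf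 0 395 430) (node 367 (merge (leaf 2 363 366) (leaf 2 364 368))))) (merge (node 395 (merge (leaf 0 395 430) (node 363 (merge (leaf 3 362 362) (leaf 3 363 364))))) (node 368 (merge (leaf 2 364 367) (node 400 (merge (leaf 2 365 369) (node 364 (merge (leaf 3 363 363) (leaf 3 364 365)))))))))) (merge (node 396 (merge (node 395 (merge (leaf 0 395 430) (node 427 (merge (leaf 1 394 426) (leaf 1 395 428))))) (merge (node 428 (merge (leaf 1 395 427) (node 400 (merge (leaf 1 396 429) (node 368 (merge (leaf 2 364 367) (leaf 2 365 369))))))) (node 430 (merge (leaf 0 395 395) (node 368 (merge (leaf 2 364 367) (node 400 (merge (leaf 2 365 369) (node 401 (merge (leaf 1 398 402) (leaf 1 397 429)))))))))))) (merge (node 400 (merge (node 368 (merge (leaf 2 365 369) (node 336 (merge (leaf 5 303 304) (leaf 6 335 367))))) (node 365 (merge (leaf 3 364 364) (node 401 (merge (leaf 3 365 366) (node 430 (merge (leaf 1 398 402) (leaf 1 397 429))))))))) (merge (node 400 (merge (node 368 (merge (leaf 2 365 369) (node 336 (merge (leaf 5 303 304) (leaf 6 335 367))))) (node 428 (merge (leaf 1 396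 429) (node 396 (merge (leaf 1 395 427) (node 364 (merge (leaf 3 363 363) (leaf 3 364 365))))))))) (node 396 (merge (node 395 (merge (leaf 0 395 430) (node 427 (merge (leaf 1 394 426) (leaf 1 395 428))))) (merge (node 395 (merge (leaf 0 395 430) (node 363 (merge (leaf 3 362 362) (leaf 3 363 364))))) (merge (node 427 (merge (leaf 1 395 428) (node 395 (merge (leaf 1 394 426) (node 363 (merge (leaf 3 362 362) (leaf 3 363 364))))))) (node 429 (merge (node 428 (merge (leaf 1 395 427) (node 464 (merge (leaf 0 428 430) (leaf 7 431 496))))) (node 364 (merge (leaf 3 363 363) (node 461 (merge (leaf 7 364 493) (node 332 (merge (leaf 4 300 300) (leaf 7 332 365)))))))))))))))))) (merge (hyp 0) (merge (node 397 (merge (node 400 (merge (node 368 (merge (leaf 2 365 369) (node 336 (merge (leaf 5 303 304) (leaf 6 335 367))))) (merge (node 365 (merge (leaf 3 364 364) (node 366 (merge (leaf 3 365 401) (node 334 (merge (leaf 4 302 302) (leaf 7 334 367))))))) (node 369 (merge (leaf 2 365 368) (node 401 (merge (leaf 2 366 370) (node 365 (merge (leaf 3 364 364) (leaf 3 365 366))))))))))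 (merge (node 400 (merge (node 368 (merge (leaf 2 365 369) (node 336 (merge (leaf 5 303 304) (leaf 6 335 367))))) (node 428 (merge (leaf 1 396 429) (node 396 (merge (leaf 1 395 427) (node 364 (merge (leaf 3 363 363) (leaf 3 364 365))))))))) (merge (node 367 (merge (node 368 (merge (leaf 6 335 336) (leaf 2 364 396))) (merge (node 366 (merge (leaf 7 334 334) (node 368 (merge (leaf 1 365 369) (leaf 2 364 396))))) (node 335 (merge (node 334 (merge (leaf 7 302 302) (leaf 7 334 366))) (merge (node 304 (merge (leaf 6 303 336) (node 303 (merge (leaf 6 271 272) (node 366 (merge (leaf 5 270 271) (leaf 7 334 334))))))) (merge (node 304 (merge (leaf 6 303 336) (node 303 (merge (leaf 6 271 272) (node 302 (merge (leaf 7 270 270) (leaf 7 302 334))))))) (node 304 (merge (leaf 6 303 336) (node 303 (merge (leaf 6 271 272) (node 270 (merge (leaf 7 270 302) (node 271 (merge (leaf 7 238 238) (leaf 5 270 366)))))))))))))))) (node 562 (merge (node 364 (merge (node 363 (merge (leaf 3 363 396) (node 365 (merge (leaf 0 362 362) (leaf 0 363 366))))) (merge (node 365 (merge (leaf 3 364 400)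 (node 363 (merge (leaf 0 362 362) (leaf 0 363 366))))) (merge (node 396 (merge (leaf 3 363 363) (node 428 (merge (leaf 1 395 427) (node 429 (merge (leaf 1 396 400) (node 332 (merge (leaf 4 300 300) (leaf 4 332 461))))))))) (node 429 (merge (node 428 (merge (leaf 1 396 400) (node 427 (merge (leaf 1 395 396) (leaf 2 394 426))))) (merge (node 365 (merge (leaf 3 364 400) (node 332 (merge (leaf 7 332 461) (node 300 (merge (leaf 4 268 268) (leaf 7 300 333))))))) (node 332 (merge (node 300 (merge (leaf 4 300 396) (node 365 (merge (leaf 4 268 268) (leaf 7 300 333))))) (merge (node 396 (merge (leaf 4 300 300) (node 428 (merge (leaf 1 395 427) (leaf 4 332 461))))) (merge (node 365 (merge (leaf 7 332 461) (node 300 (merge (leaf 4 268 268) (leaf 7 300 333))))) (node 461 (merge (leaf 7 332 365) (node 493 (merge (leaf 6 365 366) (leaf 7 364 396)))))))))))))))) (node 594 (merge (node 595 (merge (leaf 0 559 559) (node 596 (merge (leaf 0 560 563) (leaf 3 561 597))))) (merge (node 563 (merge (node 531 (merge (leaf 2 528 532) (node 626 (merge (leaf 6 530 658) (node 499 (merge (leaf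 5 466 467) (leaf 6 498 530))))))) (node 564 (merge (node 596 (merge (leaf 0 560 595) (leaf 0 561 597))) (merge (node 595 (merge (leaf 0 560 596) (node 565 (merge (leaf 1 562 566) (leaf 1 561 593))))) (merge (node 597 (merge (leaf 0 561 596) (node 565 (merge (leaf 1 561 593) (leaf 0 562 598))))) (node 565 (merge (leaf 1 561 593) (node 598 (merge (leaf 0 562 597) (node 566 (merge (leaf 1 562 595) (leaf 0 563 599))))))))))))) (node 530 (merge (node 531 (merge (leaf 2 527 559) (node 499 (merge (leaf 6 498 626) (node 467 (merge (leaf 5 434 435) (leaf 6 466 498))))))) (merge (node 559 (merge (leaf 2 527 531) (node 558 (merge (leaf 0 558 593) (node 590 (merge (leaf 1 557 589) (leaf 1 558 591))))))) (node 626 (merge (node 659 (merge (leaf 4 530 627) (node 658 (merge (leaf 4 562 691) (node 657 (merge (leaf 5 529 625) (leaf 5 561 689))))))) (merge (node 625 (merge (leaf 5 529 657) (node 498 (merge (leaf 5 497 593) (node 467 (merge (leaf 6 466 499) (node 466 (merge (leaf 6 434 435) (node 465 (merge (leaf 7 433 433) (leaf 7 465 497))))))))))) (merge (node 659 (merge (leaf 4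 530 627) (node 658 (merge (leaf 4 562 691) (node 593 (merge (leaf 7 561 690) (node 498 (merge (leaf 5 465 466) (leaf 5 497 625))))))))) (node 659 (merge (leaf 4 530 627) (node 658 (merge (leaf 4 562 691) (node 690 (merge (leaf 7 561 593) (node 689 (merge (leaf 5 561 657) (leaf 5 593 721))))))))))))))))))))))))) (merge (hyp 1) (hyp 2))))))))) nP_393 cP_393 15 (by decide +kernel)
def nP_394 : ℕ := 0x300000001000000000000000080000000800000000000000000000000000000000000000000000000000000000000000000000000000000000000000000000000000000000000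
def cP_394 : ℕ := 0x20000000e0000000e0000000e000000fee000007cc00000fc7800001f7800007f3800007f7f00003ffe00007fff00000ffc00000ffc000007f8000005500000000000000000000000000000000000000000000000000000000000
theorem lP_394 : S nP_394 cP_394 16 := S_of_chk [(nP_367, cP_367, 11), (nP_368, cP_368, 11), (nP_370, cP_370, 14), (nP_387, cP_387, 12), (nP_371, cP_371, 12), (nP_388, cP_388, 12), (nP_389, cP_389, 13), (nP_393, cP_393, 15)] ⟨lP_367, lP_368, lP_370, lP_387, lP_371, lP_388, lP_389, lP_393, trivial⟩ (node 399 (merge (node 400 (merge (node 367 (merge (node 334 (merge (leaf 7 334 366) (node 335 (merge (leaf 7 302 302) (node 464 (merge (leaf 4 335 432) (leaf 7 431 496))))))) (merge (node 368 (merge (leaf 6 335 336) (node 366 (merge (leaf 7 334 334) (node 401 (merge (leaf 0 365 365) (leaf 3 366 402))))))) (node 336 (merge (leaf 6 335 368) (node 335 (merge (leaf 6 303 304) (node 464 (merge (leaf 4 335 432) (leaf 7 431 496)))))))))) (merge (node 368 (merge (node 336 (merge (leaf 5 303 304) (leaf 6 335 367))) (merge (node 336 (merge (leaf 5 303 304) (leaf 5 335 432))) (node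 369 (merge (node 370 (merge (leaf 1 367 371) (node 398 (merge (leaf 1 366 367) (leaf 2 365 397))))) (node 464 (merge (leaf 7 431 496) (node 432 (merge (leaf 6 336 337) (node 465 (merge (leaf 4 368 497) (node 466 (merge (leaf 3 430 430) (leaf 3 431 467)))))))))))))) (merge (node 401 (merge (node 430 (merge (leaf 1 398 402) (node 429 (merge (leaf 1 397 398) (leaf 2 396 428))))) (merge (node 402 (merge (leaf 1 398 430) (node 403 (merge (leaf 1 399 432) (node 371 (merge (leaf 2 367 370) (leaf 2 368 372))))))) (merge (node 398 (merge (node 366 (merge (leaf 3 365 365) (node 334 (merge (leaf 4 302 302) (leaf 7 334 367))))) (node 429 (merge (leaf 1 397 430) (node 397 (merge (leaf 1 396 428) (node 432 (merge (leaf 0 396 396) (leaf 0 397 433))))))))) (node 398 (merge (node 366 (merge (leaf 3 365 365) (node 334 (merge (leaf 4 302 302) (leaf 7 334 367))))) (node 370 (merge (leaf 2 366 369) (node 402 (merge (leaf 2 367 371) (node 432 (merge (leaf 1 399 403) (node 397 (merge (leaf 0 396 396) (leaf 0 397 433))))))))))))))) (merge (node 464 (merge (leaf 7 431 496) (node 432 (merge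 (node 368 (merge (leaf 5 335 336) (node 465 (merge (leaf 4 368 497) (node 466 (merge (leaf 3 430 430) (leaf 3 431 467))))))) (merge (node 368 (merge (leaf 5 335 336) (node 369 (merge (leaf 6 336 337) (node 370 (merge (leaf 1 367 371) (node 398 (merge (leaf 2 365 397) (leaf 2 366 401))))))))) (node 398 (merge (node 433 (merge (leaf 0 397 397) (leaf 3 398 434))) (merge (node 397 (merge (leaf 0 396 396) (node 429 (merge (leaf 1 396 428) (node 430 (merge (leaf 1 397 401) (leaf 0 429 465))))))) (node 430 (merge (node 465 (merge (leaf 0 429 429) (leaf 3 430 466))) (node 433 (merge (leaf 3 398 434) (node 366 (merge (leaf 4 334 334) (node 401 (merge (leaf 3 365 365) (node 369 (merge (leaf 5 336 337) (leaf 2 366 370))))))))))))))))))) (node 366 (merge (node 334 (merge (leaf 7 334 367) (node 398 (merge (leaf 4 302 302) (leaf 4 334 430))))) (merge (node 367 (merge (leaf 7 334 334) (node 368 (merge (leaf 6 335 336) (node 401 (merge (leaf 0 365 365) (leaf 3 366 402))))))) (node 401 (merge (node 430 (merge (leaf 1 398 402) (node 429 (merge (leaf 1 397 398) (leaf 2 396 428)))))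 (merge (node 398 (merge (leaf 3 365 365) (node 434 (merge (leaf 0 398 433) (node 402 (merge (leaf 0 399 435) (node 370 (merge (leaf 2 366 369) (leaf 2 367 371))))))))) (merge (node 398 (merge (leaf 3 365 365) (node 429 (merge (leaf 1 397 430) (node 397 (merge (leaf 1 396 428) (node 369 (merge (leaf 2 365 368) (leaf 2 366 370))))))))) (node 402 (merge (leaf 1 398 430) (node 435 (merge (leaf 0 399 434) (node 403 (merge (leaf 0 400 436) (node 371 (merge (leaf 2 367 370) (leaf 2 368 372))))))))))))))))))))) (merge (node 367 (merge (node 334 (merge (leaf 7 334 366) (node 335 (merge (leaf 7 302 302) (node 464 (merge (leaf 4 335 432) (leaf 7 431 496))))))) (merge (node 366 (merge (leaf 7 334 334) (node 365 (merge (node 400 (merge (leaf 0 364 364) (node 401 (merge (leaf 3 365 398) (leaf 3 366 402))))) (merge (node 368 (merge (leaf 6 335 336) (node 400 (merge (leaf 0 364 364) (leaf 0 365 401))))) (merge (node 368 (merge (leaf 6 335 336) (node 397 (merge (leaf 1 364 396) (node 398 (merge (leaf 1 365 369) (node 364 (merge (leaf 0 363 363) (node 332 (merge (leaf 3 331 331)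 (leaf 3 332 333))))))))))) (node 368 (merge (leaf 6 335 336) (node 401 (merge (leaf 0 365 400) (node 369 (merge (leaf 0 366 402) (node 397 (merge (leaf 1 364 396) (leaf 1 365 398))))))))))))))) (merge (node 368 (merge (leaf 6 335 336) (node 464 (merge (leaf 7 431 496) (node 335 (merge (leaf 4 335 432) (node 302 (merge (leaf 7 302 334) (node 303 (merge (leaf 7 270 270) (node 400 (merge (leaf 4 271 271) (node 398 (merge (leaf 5 302 430) (node 397 (merge (leaf 2 365 369) (leaf 2 364 396))))))))))))))))) (node 398 (merge (node 464 (merge (leaf 7 431 496) (node 432 (merge (leaf 4 335 335) (node 397 (merge (leaf 0 396 396) (node 433 (merge (leaf 0 397 400) (leaf 3 398 434))))))))) (merge (node 368 (merge (leaf 6 335 336) (node 369 (merge (leaf 1 366 370) (node 397 (merge (leaf 1 365 366) (leaf 2 364 396))))))) (node 368 (merge (leaf 6 335 336) (node 464 (merge (leaf 7 431 496) (node 335 (merge (leaf 4 335 432) (node 303 (merge (leaf 5 302 430) (node 271 (merge (leaf 5 270 366) (leaf 4 271 400)))))))))))))))))) (merge (node 400 (merge (node 367 (merge (node 334 (merge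 (leaf 7 334 366) (node 335 (merge (leaf 7 302 302) (node 432 (merge (leaf 4 303 303) (leaf 4 335 464))))))) (merge (node 368 (merge (leaf 6 335 336) (node 366 (merge (leaf 7 334 334) (node 365 (merge (leaf 0 364 364) (leaf 0 365 401))))))) (node 336 (merge (leaf 6 335 368) (node 335 (merge (leaf 6 303 304) (node 432 (merge (leaf 4 303 303) (leaf 4 335 464)))))))))) (merge (node 401 (merge (node 430 (merge (leaf 1 398 402) (node 429 (merge (leaf 2 396 428) (leaf 2 397 432))))) (merge (node 430 (merge (leaf 1 398 402) (node 429 (merge (leaf 1 397 398) (leaf 2 396 428))))) (merge (node 402 (merge (node 435 (merge (leaf 0 399 434) (node 403 (merge (leaf 1 399 432) (leaf 0 400 436))))) (merge (node 403 (merge (leaf 1 399 432) (node 371 (merge (leaf 2 367 370) (leaf 2 368 372))))) (node 434 (merge (leaf 0 399 435) (node 398 (merge (leaf 0 398 433) (node 370 (merge (leaf 2 366 369) (leaf 2 367 371)))))))))) (node 398 (merge (node 430 (merge (leaf 1 397 429) (node 366 (merge (leaf 4 334 334) (leaf 3 365 365))))) (merge (node 429 (merge (leaf 1 397 430) (node 397 (merge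 (leaf 1 396 428) (node 369 (merge (leaf 2 365 368) (leaf 2 366 370))))))) (node 433 (merge (leaf 0 398 434) (node 397 (merge (leaf 0 397 432) (node 369 (merge (leaf 2 365 368) (leaf 2 366 370)))))))))))))) (merge (node 366 (merge (node 334 (merge (leaf 7 334 367) (node 398 (merge (leaf 4 302 302) (leaf 4 334 430))))) (merge (node 367 (merge (leaf 7 334 334) (node 368 (merge (leaf 6 335 336) (node 401 (merge (leaf 0 365 365) (leaf 3 366 402))))))) (node 401 (merge (node 430 (merge (leaf 1 398 402) (node 429 (merge (leaf 1 397 398) (leaf 2 396 428))))) (merge (node 398 (merge (leaf 3 365 365) (node 434 (merge (leaf 0 398 433) (node 402 (merge (leaf 0 399 435) (node 370 (merge (leaf 2 366 369) (leaf 2 367 371))))))))) (merge (node 398 (merge (leaf 3 365 365) (node 429 (merge (leaf 1 397 430) (node 397 (merge (leaf 1 396 428) (node 369 (merge (leaf 2 365 368) (leaf 2 366 370))))))))) (node 402 (merge (leaf 1 398 430) (node 435 (merge (leaf 0 399 434) (node 403 (merge (leaf 0 400 436) (node 371 (merge (leaf 2 367 370) (leaf 2 368 372)))))))))))))))) (merge (node 368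 (merge (node 336 (merge (leaf 5 303 304) (leaf 6 335 367))) (merge (node 336 (merge (leaf 5 303 304) (leaf 5 335 432))) (node 369 (merge (node 370 (merge (leaf 1 367 371) (node 398 (merge (leaf 1 366 367) (leaf 2 365 397))))) (node 464 (merge (leaf 7 431 496) (node 432 (merge (leaf 6 336 337) (node 465 (merge (leaf 4 368 497) (node 466 (merge (leaf 3 430 430) (leaf 3 431 467)))))))))))))) (node 367 (merge (node 366 (merge (leaf 7 334 334) (node 365 (merge (leaf 0 364 364) (node 401 (merge (leaf 3 365 398) (leaf 3 366 402))))))) (merge (node 464 (merge (leaf 7 431 496) (node 335 (merge (leaf 4 335 432) (node 304 (merge (leaf 6 303 336) (node 303 (merge (leaf 6 271 272) (node 302 (merge (leaf 7 270 270) (leaf 7 302 334))))))))))) (node 464 (merge (leaf 7 431 496) (node 335 (merge (leaf 4 335 432) (node 304 (merge (leaf 6 303 336) (node 303 (merge (leaf 6 271 272) (node 398 (merge (leaf 5 302 430) (node 366 (merge (leaf 5 270 271) (node 365 (merge (leaf 0 364 364) (leaf 3 365 401))))))))))))))))))))))) (merge (node 367 (merge (node 336 (merge (leaf 6 335 368) (node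 335 (merge (leaf 6 303 304) (node 334 (merge (leaf 7 302 302) (leaf 7 334 366))))))) (merge (node 366 (merge (leaf 7 334 334) (node 365 (merge (node 400 (merge (leaf 0 364 364) (node 401 (merge (leaf 3 365 398) (leaf 3 366 402))))) (merge (node 368 (merge (leaf 6 335 336) (node 400 (merge (leaf 0 364 364) (leaf 0 365 401))))) (merge (node 368 (merge (leaf 6 335 336) (node 397 (merge (leaf 1 364 396) (node 398 (merge (leaf 1 365 369) (node 364 (merge (leaf 0 363 363) (node 332 (merge (leaf 3 331 331) (leaf 3 332 333))))))))))) (node 368 (merge (leaf 6 335 336) (node 401 (merge (leaf 0 365 400) (node 369 (merge (leaf 0 366 402) (node 397 (merge (leaf 1 364 396) (leaf 1 365 398))))))))))))))) (merge (node 335 (merge (node 334 (merge (leaf 7 302 302) (leaf 7 334 366))) (merge (node 432 (merge (leaf 4 335 464) (node 303 (merge (leaf 4 303 400) (node 272 (merge (leaf 6 271 304) (node 271 (merge (leaf 6 239 240) (node 398 (merge (leaf 5 270 366) (leaf 5 302 430))))))))))) (node 302 (merge (leaf 7 302 334) (node 303 (merge (leaf 7 270 270) (node 432 (merge (leaf 4 303 400)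 (leaf 4 335 464)))))))))) (merge (node 335 (merge (node 336 (merge (leaf 6 303 304) (leaf 6 335 368))) (merge (node 304 (merge (leaf 6 303 336) (node 303 (merge (leaf 6 271 272) (node 302 (merge (leaf 7 270 270) (leaf 7 302 334))))))) (merge (node 302 (merge (leaf 7 302 334) (node 303 (merge (leaf 7 270 270) (node 272 (merge (leaf 6 271 304) (node 271 (merge (leaf 6 239 240) (node 400 (merge (leaf 4 271 368) (leaf 4 303 432))))))))))) (node 368 (merge (leaf 6 335 336) (node 302 (merge (leaf 7 302 334) (node 303 (merge (leaf 7 270 270) (node 400 (merge (leaf 4 271 271) (node 398 (merge (leaf 5 302 430) (node 397 (merge (leaf 2 365 369) (leaf 2 364 396))))))))))))))))) (node 336 (merge (leaf 6 335 368) (node 335 (merge (leaf 6 303 304) (node 432 (merge (leaf 4 335 464) (node 303 (merge (leaf 4 303 400) (node 270 (merge (leaf 7 270 302) (node 271 (merge (leaf 7 238 238) (node 398 (merge (leaf 5 270 366) (leaf 5 302 430)))))))))))))))))))) (merge (node 367 (merge (node 336 (merge (leaf 6 335 368) (node 335 (merge (leaf 6 303 304) (node 464 (merge (leaf 4 335 432) (leaf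 7 431 496))))))) (merge (node 334 (merge (leaf 7 334 366) (node 335 (merge (leaf 7 302 302) (node 464 (merge (leaf 4 335 432) (leaf 7 431 496))))))) (merge (node 336 (merge (leaf 6 335 368) (node 335 (merge (leaf 6 303 304) (node 334 (merge (leaf 7 302 302) (leaf 7 334 366))))))) (node 464 (merge (leaf 4 367 496) (node 366 (merge (leaf 7 334 334) (node 368 (merge (leaf 6 335 336) (node 365 (merge (node 396 (merge (leaf 1 364 397) (node 364 (merge (leaf 1 363 395) (node 332 (merge (leaf 3 331 331) (leaf 3 332 333))))))) (node 401 (merge (leaf 0 365 400) (node 369 (merge (leaf 0 366 402) (node 337 (merge (leaf 2 334 338) (node 433 (merge (leaf 5 336 432) (node 466 (merge (leaf 4 337 434) (node 465 (merge (leaf 3 430 430) (leaf 4 369 498))))))))))))))))))))))))) (merge (node 367 (merge (node 336 (merge (leaf 6 335 368) (node 335 (merge (leaf 6 303 304) (node 464 (merge (leaf 4 335 432) (leaf 7 431 496))))))) (merge (node 334 (merge (leaf 7 334 366) (node 335 (merge (leaf 7 302 302) (node 464 (merge (leaf 4 335 432) (leaf 7 431 496))))))) (node 368 (merge (leaf 6 335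 336) (node 366 (merge (leaf 7 334 334) (node 365 (merge (node 396 (merge (leaf 1 364 397) (node 364 (merge (leaf 1 363 395) (node 332 (merge (leaf 3 331 331) (leaf 3 332 333))))))) (merge (node 397 (merge (leaf 1 364 396) (node 369 (merge (leaf 1 365 398) (node 402 (merge (leaf 0 366 401) (node 370 (merge (leaf 0 367 403) (node 338 (merge (leaf 2 334 337) (leaf 2 335 339))))))))))) (merge (node 332 (merge (leaf 3 332 333) (node 364 (merge (leaf 3 331 331) (node 398 (merge (leaf 0 363 363) (node 369 (merge (leaf 1 366 370) (leaf 1 365 397))))))))) (node 332 (merge (leaf 3 332 333) (node 364 (merge (leaf 3 331 331) (node 363 (merge (leaf 0 363 398) (node 395 (merge (leaf 1 362 394) (leaf 1 363 396)))))))))))))))))))) (merge (node 367 (merge (node 336 (merge (leaf 6 335 368) (node 335 (merge (leaf 6 303 304) (node 464 (merge (leaf 4 335 432) (leaf 7 431 496))))))) (merge (node 334 (merge (leaf 7 334 366) (node 335 (merge (leaf 7 302 302) (node 464 (merge (leaf 4 335 432) (leaf 7 431 496))))))) (node 366 (merge (leaf 7 334 334) (node 401 (merge (node 368 (merge (leaf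 6 335 336) (node 402 (merge (leaf 0 366 369) (leaf 3 366 400))))) (merge (node 400 (merge (leaf 3 366 402) (node 365 (merge (leaf 0 364 364) (leaf 3 365 398))))) (merge (node 368 (merge (leaf 6 335 336) (node 369 (merge (leaf 0 366 402) (node 370 (merge (leaf 1 366 398) (node 338 (merge (leaf 2 334 337) (leaf 2 335 339))))))))) (node 368 (merge (leaf 6 335 336) (node 365 (merge (leaf 0 365 400) (node 332 (merge (leaf 3 332 333) (node 364 (merge (leaf 3 331 331) (node 363 (merge (leaf 0 363 398) (node 395 (merge (leaf 1 362 394) (leaf 1 363 396)))))))))))))))))))))) (merge (node 367 (merge (node 336 (merge (leaf 6 335 368) (node 335 (merge (leaf 6 303 304) (node 464 (merge (leaf 4 335 432) (leaf 7 431 496))))))) (merge (node 334 (merge (leaf 7 334 366) (node 335 (merge (leaf 7 302 302) (node 464 (merge (leaf 4 335 432) (leaf 7 431 496))))))) (node 366 (merge (leaf 7 334 334) (node 365 (merge (node 368 (merge (leaf 6 335 336) (node 364 (merge (leaf 0 364 400) (node 332 (merge (leaf 3 331 331) (leaf 3 332 333))))))) (merge (node 364 (merge (leaf 0 364 400) (node 363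 (merge (leaf 0 363 398) (node 395 (merge (leaf 1 362 394) (leaf 1 363 396))))))) (merge (node 368 (merge (leaf 6 335 336) (node 396 (merge (leaf 1 364 397) (node 364 (merge (leaf 1 363 395) (node 332 (merge (leaf 3 331 331) (leaf 3 332 333))))))))) (node 368 (merge (leaf 6 335 336) (node 397 (merge (leaf 1 364 396) (node 369 (merge (leaf 1 365 398) (node 338 (merge (leaf 2 334 337) (node 370 (merge (leaf 2 335 339) (node 403 (merge (leaf 0 367 402) (node 371 (merge (leaf 1 367 400) (leaf 0 368 404)))))))))))))))))))))))) (merge (hyp 0) (merge (hyp 1) (merge (node 464 (merge (leaf 7 431 496) (node 367 (merge (node 334 (merge (leaf 7 334 366) (node 335 (merge (leaf 7 302 302) (leaf 4 335 432))))) (merge (node 336 (merge (leaf 6 335 368) (node 335 (merge (leaf 6 303 304) (leaf 4 335 432))))) (merge (node 336 (merge (leaf 6 335 368) (node 335 (merge (leaf 6 303 304) (node 334 (merge (leaf 7 302 302) (leaf 7 334 366))))))) (node 366 (merge (leaf 7 334 334) (node 365 (merge (node 400 (merge (leaf 0 364 364) (node 401 (merge (leaf 0 365 368) (leaf 3 366 402))))) (merge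 (node 364 (merge (leaf 0 364 400) (node 363 (merge (leaf 0 363 398) (node 331 (merge (leaf 3 330 330) (leaf 3 331 332))))))) (merge (node 368 (merge (leaf 6 335 336) (node 396 (merge (leaf 1 364 397) (node 364 (merge (leaf 1 363 395) (node 332 (merge (leaf 3 331 331) (leaf 3 332 333))))))))) (node 432 (merge (node 368 (merge (leaf 6 335 336) (node 400 (merge (leaf 0 365 401) (node 465 (merge (leaf 4 368 497) (node 430 (merge (leaf 0 429 429) (leaf 3 430 466))))))))) (merge (node 400 (merge (node 401 (merge (leaf 3 365 398) (leaf 3 366 402))) (merge (node 368 (merge (leaf 6 335 336) (node 401 (merge (leaf 0 365 366) (node 402 (merge (leaf 1 399 403) (leaf 1 398 430))))))) (node 368 (merge (leaf 6 335 336) (node 397 (merge (leaf 1 364 396) (node 398 (merge (leaf 0 397 433) (node 333 (merge (leaf 3 332 332) (node 301 (merge (leaf 4 269 269) (leaf 4 301 430)))))))))))))) (merge (node 430 (merge (node 465 (merge (leaf 0 429 429) (leaf 3 430 466))) (merge (node 429 (merge (leaf 0 428 428) (node 461 (merge (leaf 1 428 460) (node 397 (merge (leaf 3 396 396) (node 398 (merge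 (leaf 3 397 433) (leaf 6 365 493))))))))) (node 368 (merge (leaf 6 335 336) (node 397 (merge (leaf 1 364 396) (node 333 (merge (leaf 3 332 332) (node 398 (merge (leaf 4 301 301) (leaf 3 397 433)))))))))))) (merge (node 433 (merge (node 434 (merge (leaf 3 398 398) (leaf 1 431 435))) (merge (node 398 (merge (node 397 (merge (leaf 0 396 396) (leaf 0 397 400))) (merge (node 397 (merge (leaf 0 396 396) (leaf 3 397 430))) (node 401 (merge (leaf 3 365 400) (node 430 (merge (leaf 2 398 402) (node 429 (merge (leaf 0 428 428) (leaf 0 429 465)))))))))) (node 434 (merge (leaf 1 431 435) (node 466 (merge (leaf 0 431 467) (node 430 (merge (leaf 0 430 465) (node 402 (merge (leaf 2 398 401) (leaf 2 399 403)))))))))))) (node 465 (merge (node 368 (merge (leaf 6 335 336) (node 400 (merge (leaf 4 368 497) (node 401 (merge (leaf 0 365 365) (leaf 3 366 402))))))) (merge (node 466 (merge (leaf 3 431 467) (node 498 (merge (leaf 0 463 499) (node 434 (merge (leaf 2 431 435) (node 433 (merge (leaf 3 398 398) (node 530 (merge (leaf 7 401 401) (leaf 7 433 562))))))))))) (node 466 (merge (leaf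 3 431 467) (node 434 (merge (leaf 2 431 435) (node 433 (merge (leaf 3 398 398) (node 402 (merge (leaf 2 399 403) (node 370 (merge (leaf 5 337 338) (leaf 5 369 497))))))))))))))))))))))))))))))) (merge (node 400 (merge (node 368 (merge (node 336 (merge (leaf 5 303 304) (leaf 6 335 367))) (node 430 (merge (node 464 (merge (leaf 7 431 496) (node 429 (merge (leaf 0 428 428) (node 465 (merge (leaf 0 429 432) (leaf 3 430 466))))))) (merge (node 401 (merge (leaf 1 398 402) (node 429 (merge (leaf 1 397 398) (leaf 2 396 428))))) (node 401 (merge (leaf 1 398 402) (node 464 (merge (leaf 7 431 496) (node 465 (merge (leaf 3 430 466) (node 497 (merge (leaf 4 368 432) (leaf 7 368 433)))))))))))))) (merge (node 368 (merge (node 336 (merge (leaf 5 303 304) (leaf 6 335 367))) (merge (node 336 (merge (leaf 5 303 304) (leaf 5 335 432))) (node 369 (merge (node 370 (merge (leaf 1 367 371) (node 398 (merge (leaf 1 366 367) (leaf 2 365 397))))) (node 464 (merge (leaf 7 431 496) (node 432 (merge (leaf 6 336 337) (node 465 (merge (leaf 4 368 497) (node 466 (merge (leaf 3 430 430) (leaf 3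 431 467)))))))))))))) (merge (node 368 (merge (node 336 (merge (leaf 5 303 304) (leaf 6 335 367))) (merge (node 336 (merge (leaf 5 303 304) (leaf 5 335 432))) (node 369 (merge (node 370 (merge (leaf 1 367 371) (node 398 (merge (leaf 1 366 367) (leaf 2 365 397))))) (node 464 (merge (leaf 7 431 496) (node 432 (merge (leaf 6 336 337) (node 465 (merge (leaf 4 368 497) (node 466 (merge (leaf 3 431 467) (node 498 (merge (leaf 0 463 499) (node 434 (merge (leaf 2 431 435) (node 401 (merge (leaf 7 369 402) (leaf 4 369 433)))))))))))))))))))) (merge (node 401 (merge (node 402 (merge (leaf 1 398 430) (node 367 (merge (leaf 3 366 366) (node 368 (merge (leaf 6 335 336) (leaf 3 367 403))))))) (merge (node 402 (merge (leaf 1 398 430) (node 434 (merge (leaf 0 399 435) (node 398 (merge (leaf 0 398 433) (node 370 (merge (leaf 2 366 369) (leaf 2 367 371))))))))) (node 398 (merge (node 366 (merge (leaf 3 365 365) (node 334 (merge (leaf 4 302 302) (leaf 7 334 367))))) (merge (node 369 (merge (leaf 2 366 370) (node 368 (merge (leaf 2 365 397) (node 336 (merge (leaf 5 303 304) (leaf 6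 335 367))))))) (node 369 (merge (leaf 2 366 370) (node 397 (merge (leaf 2 365 368) (node 365 (merge (leaf 3 364 364) (leaf 3 365 366))))))))))))) (merge (node 401 (merge (node 430 (merge (leaf 1 398 402) (node 429 (merge (leaf 1 397 398) (leaf 2 396 428))))) (merge (node 402 (merge (leaf 1 398 430) (node 403 (merge (leaf 1 399 432) (node 371 (merge (leaf 2 367 370) (leaf 2 368 372))))))) (merge (node 398 (merge (node 366 (merge (leaf 3 365 365) (node 334 (merge (leaf 4 302 302) (leaf 7 334 367))))) (node 429 (merge (leaf 1 397 430) (node 397 (merge (leaf 1 396 428) (node 432 (merge (leaf 0 396 396) (leaf 0 397 433))))))))) (node 398 (merge (node 366 (merge (leaf 3 365 365) (node 334 (merge (leaf 4 302 302) (leaf 7 334 367))))) (node 370 (merge (leaf 2 366 369) (node 402 (merge (leaf 2 367 371) (node 432 (merge (leaf 1 399 403) (node 397 (merge (leaf 0 396 396) (leaf 0 397 433))))))))))))))) (node 464 (merge (leaf 7 431 496) (node 465 (merge (node 466 (merge (leaf 3 430 430) (node 499 (merge (leaf 0 463 498) (node 467 (merge (leaf 3 431 432) (leaf 0 464 500)))))))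 (merge (node 466 (merge (leaf 3 430 430) (node 499 (merge (leaf 0 463 498) (node 467 (merge (leaf 0 464 500) (node 435 (merge (leaf 2 431 434) (leaf 2 432 436))))))))) (merge (node 401 (merge (node 430 (merge (leaf 1 398 402) (node 429 (merge (leaf 0 428 428) (leaf 0 429 432))))) (merge (node 368 (merge (node 497 (merge (leaf 4 368 432) (leaf 7 368 433))) (merge (node 336 (merge (leaf 5 303 304) (leaf 5 335 432))) (node 433 (merge (leaf 7 368 497) (node 336 (merge (leaf 4 304 304) (leaf 7 336 369)))))))) (node 402 (merge (leaf 1 398 430) (node 434 (merge (leaf 0 399 435) (node 370 (merge (leaf 2 367 371) (node 433 (merge (leaf 5 337 338) (leaf 6 369 497)))))))))))) (node 401 (merge (node 368 (merge (node 497 (merge (leaf 4 368 432) (leaf 7 368 433))) (merge (node 336 (merge (leaf 5 303 304) (leaf 5 335 432))) (node 433 (merge (leaf 7 368 497) (node 336 (merge (leaf 4 304 304) (leaf 7 336 369)))))))) (merge (node 466 (merge (node 435 (merge (leaf 2 431 434) (node 467 (merge (leaf 3 431 432) (leaf 2 432 436))))) (merge (node 499 (merge (leaf 0 463 498) (node 467 (merge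 (leaf 3 431 432) (leaf 0 464 500))))) (node 498 (merge (leaf 0 463 499) (node 434 (merge (leaf 2 431 435) (node 369 (merge (leaf 7 369 402) (leaf 4 369 433)))))))))) (merge (node 432 (merge (node 368 (merge (leaf 5 335 336) (leaf 4 368 497))) (node 402 (merge (leaf 1 399 403) (node 434 (merge (leaf 0 399 435) (node 466 (merge (leaf 3 431 467) (node 498 (merge (leaf 7 369 369) (leaf 0 463 499))))))))))) (merge (node 402 (merge (node 403 (merge (leaf 1 399 432) (node 371 (merge (leaf 2 367 370) (leaf 2 368 372))))) (merge (node 434 (merge (leaf 0 399 435) (node 370 (merge (leaf 2 367 371) (node 497 (merge (leaf 6 369 433) (leaf 5 369 466))))))) (node 432 (merge (node 368 (merge (leaf 5 335 336) (leaf 4 368 497))) (node 403 (merge (leaf 1 399 401) (node 434 (merge (leaf 2 399 433) (node 466 (merge (leaf 2 431 435) (leaf 3 431 467)))))))))))) (node 402 (merge (node 370 (merge (leaf 2 367 371) (node 433 (merge (leaf 6 369 497) (node 338 (merge (leaf 5 305 306) (leaf 6 337 369))))))) (merge (node 435 (merge (leaf 0 399 434) (node 403 (merge (leaf 0 400 436) (node 371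 (merge (leaf 2 367 370) (leaf 2 368 372))))))) (merge (node 435 (merge (leaf 0 399 434) (node 436 (merge (leaf 0 400 403) (node 466 (merge (leaf 2 432 467) (node 498 (merge (leaf 0 463 499) (node 433 (merge (leaf 4 369 369) (node 497 (merge (leaf 6 369 370) (leaf 4 401 530))))))))))))) (node 435 (merge (leaf 0 399 434) (node 403 (merge (leaf 0 400 436) (node 372 (merge (leaf 2 368 371) (node 404 (merge (leaf 2 369 373) (node 499 (merge (leaf 6 371 467) (node 498 (merge (leaf 0 463 466) (node 368 (merge (leaf 3 368 369) (node 497 (merge (leaf 7 368 433) (leaf 3 464 500)))))))))))))))))))))))))))))))))))))) (merge (node 368 (merge (node 336 (merge (leaf 6 335 367) (node 400 (merge (leaf 5 303 304) (leaf 5 335 432))))) (merge (node 367 (merge (leaf 6 335 336) (node 398 (merge (node 369 (merge (leaf 1 366 370) (node 397 (merge (leaf 1 365 366) (leaf 2 364 396))))) (merge (node 464 (merge (leaf 7 431 496) (node 397 (merge (leaf 2 364 396) (node 432 (merge (leaf 4 335 335) (node 433 (merge (leaf 3 397 430) (leaf 3 398 434))))))))) (node 464 (merge (leaf 7 431 496) (node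 335 (merge (leaf 4 335 432) (node 303 (merge (leaf 5 302 430) (node 272 (merge (leaf 6 271 304) (node 271 (merge (leaf 6 239 240) (leaf 5 270 366)))))))))))))))) (merge (node 400 (merge (node 336 (merge (leaf 5 303 304) (leaf 6 335 367))) (node 401 (merge (node 430 (merge (leaf 1 398 402) (node 429 (merge (leaf 1 397 398) (leaf 2 396 428))))) (merge (node 402 (merge (leaf 1 398 430) (node 435 (merge (leaf 0 399 434) (node 403 (merge (leaf 0 400 436) (node 371 (merge (leaf 2 367 370) (leaf 2 368 372))))))))) (merge (node 398 (merge (node 369 (merge (leaf 2 365 397) (node 370 (merge (leaf 1 367 371) (leaf 2 366 401))))) (node 433 (merge (leaf 0 398 434) (node 465 (merge (leaf 7 368 497) (node 464 (merge (leaf 6 432 496) (node 430 (merge (leaf 1 397 429) (leaf 3 430 466))))))))))) (node 434 (merge (node 398 (merge (leaf 0 398 433) (node 369 (merge (leaf 2 366 370) (leaf 2 365 397))))) (merge (node 433 (merge (leaf 0 398 398) (node 435 (merge (leaf 0 399 402) (leaf 3 400 436))))) (merge (node 402 (merge (leaf 0 399 435) (node 370 (merge (leaf 2 367 371) (node 369 (merge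 (leaf 2 366 398) (node 337 (merge (leaf 4 305 305) (leaf 7 337 466))))))))) (node 402 (merge (leaf 0 399 435) (node 371 (merge (leaf 2 367 370) (node 403 (merge (leaf 2 368 372) (node 404 (merge (leaf 3 368 369) (node 437 (merge (leaf 0 401 436) (node 405 (merge (leaf 1 401 433) (leaf 0 402 438))))))))))))))))))))))) (merge (node 400 (merge (node 336 (merge (leaf 5 303 304) (leaf 5 335 432))) (node 401 (merge (node 430 (merge (leaf 1 398 402) (node 429 (merge (leaf 1 397 398) (leaf 2 396 428))))) (merge (node 402 (merge (leaf 1 398 430) (node 435 (merge (leaf 0 399 434) (node 403 (merge (leaf 0 400 436) (node 371 (merge (leaf 2 367 370) (leaf 2 368 372))))))))) (merge (node 398 (merge (node 369 (merge (leaf 2 365 397) (node 370 (merge (leaf 1 367 371) (leaf 2 366 401))))) (node 433 (merge (leaf 0 398 434) (node 465 (merge (leaf 7 368 497) (node 464 (merge (leaf 6 432 496) (node 430 (merge (leaf 1 397 429) (leaf 3 430 466))))))))))) (node 434 (merge (node 398 (merge (leaf 0 398 433) (node 369 (merge (leaf 2 366 370) (leaf 2 365 397))))) (merge (node 433 (merge (leaf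 0 398 398) (node 435 (merge (leaf 0 399 402) (leaf 3 400 436))))) (merge (node 402 (merge (leaf 0 399 435) (node 370 (merge (leaf 2 367 371) (node 369 (merge (leaf 2 366 398) (node 337 (merge (leaf 4 305 305) (leaf 7 337 466))))))))) (node 402 (merge (leaf 0 399 435) (node 371 (merge (leaf 2 367 370) (node 403 (merge (leaf 2 368 372) (node 404 (merge (leaf 3 368 369) (node 437 (merge (leaf 0 401 436) (node 405 (merge (leaf 1 401 433) (leaf 0 402 438))))))))))))))))))))))) (node 464 (merge (leaf 7 431 496) (node 400 (merge (node 432 (merge (node 465 (merge (leaf 4 368 497) (node 466 (merge (leaf 3 430 430) (leaf 3 431 467))))) (node 369 (merge (leaf 6 336 337) (node 370 (merge (leaf 1 367 371) (node 398 (merge (leaf 1 366 367) (leaf 2 365 397))))))))) (merge (node 465 (merge (node 466 (merge (leaf 3 430 430) (node 435 (merge (leaf 2 431 434) (node 467 (merge (leaf 3 431 432) (leaf 2 432 436))))))) (merge (node 430 (merge (leaf 3 430 466) (node 429 (merge (leaf 0 428 428) (node 401 (merge (leaf 1 397 398) (leaf 1 398 402))))))) (merge (node 497 (merge (leaf 4 368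 432) (node 401 (merge (leaf 7 368 433) (node 402 (merge (leaf 1 398 430) (node 367 (merge (leaf 3 366 366) (leaf 3 367 403))))))))) (node 432 (merge (leaf 4 368 497) (node 367 (merge (leaf 7 335 335) (node 466 (merge (leaf 3 431 467) (node 498 (merge (leaf 0 463 499) (node 434 (merge (leaf 2 431 435) (node 433 (merge (leaf 3 398 398) (node 401 (merge (leaf 7 401 530) (node 402 (merge (leaf 3 366 366) (leaf 1 399 403))))))))))))))))))))) (merge (node 369 (merge (node 370 (merge (leaf 1 367 371) (node 398 (merge (leaf 1 366 367) (leaf 2 365 397))))) (node 432 (merge (leaf 6 336 337) (node 465 (merge (leaf 4 368 497) (node 466 (merge (leaf 3 431 467) (node 498 (merge (leaf 0 463 499) (node 434 (merge (leaf 2 431 435) (node 401 (merge (leaf 7 369 402) (leaf 4 369 433))))))))))))))) (merge (node 465 (merge (node 430 (merge (leaf 3 430 466) (node 429 (merge (leaf 0 428 428) (leaf 0 429 432))))) (merge (node 466 (merge (leaf 3 430 430) (node 499 (merge (leaf 0 463 498) (node 467 (merge (leaf 0 464 500) (node 435 (merge (leaf 2 431 434) (leaf 2 432 436))))))))) (merge (node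 432 (merge (leaf 4 368 497) (node 369 (merge (leaf 6 336 337) (node 466 (merge (leaf 3 431 467) (node 498 (merge (leaf 0 463 499) (node 434 (merge (leaf 2 431 435) (node 401 (merge (leaf 7 369 402) (leaf 4 369 433))))))))))))) (node 497 (merge (leaf 4 368 432) (node 401 (merge (leaf 7 368 433) (node 402 (merge (leaf 1 398 430) (node 435 (merge (leaf 0 399 434) (node 403 (merge (leaf 0 400 436) (node 371 (merge (leaf 2 367 370) (leaf 2 368 372))))))))))))))))) (merge (node 398 (merge (node 369 (merge (leaf 2 365 397) (node 370 (merge (leaf 1 367 371) (leaf 2 366 401))))) (merge (node 397 (merge (leaf 2 365 369) (node 432 (merge (leaf 0 396 396) (leaf 0 397 433))))) (merge (node 401 (merge (node 430 (merge (leaf 1 398 402) (leaf 1 397 429))) (node 433 (merge (leaf 0 398 434) (node 369 (merge (leaf 2 366 370) (node 337 (merge (leaf 6 336 432) (node 338 (merge (leaf 6 305 306) (node 366 (merge (leaf 3 365 365) (leaf 2 334 367))))))))))))) (node 429 (merge (node 428 (merge (leaf 1 396 397) (leaf 0 428 430))) (merge (node 397 (merge (leaf 1 396 428) (node 396 (merge (leaf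 2 364 367) (node 364 (merge (leaf 3 363 363) (leaf 3 364 365))))))) (node 401 (merge (leaf 1 397 430) (node 434 (merge (leaf 0 398 433) (node 402 (merge (leaf 0 399 435) (node 371 (merge (leaf 2 367 370) (node 403 (merge (leaf 3 367 367) (leaf 2 368 372)))))))))))))))))) (node 398 (merge (node 369 (merge (leaf 2 365 397) (node 370 (merge (leaf 1 366 367) (leaf 1 367 371))))) (merge (node 397 (merge (leaf 2 365 369) (node 428 (merge (leaf 1 396 429) (node 396 (merge (leaf 1 395 427) (node 364 (merge (leaf 3 363 363) (leaf 3 364 365))))))))) (merge (node 429 (merge (node 428 (merge (leaf 1 396 397) (leaf 0 428 430))) (merge (node 397 (merge (leaf 1 396 428) (node 396 (merge (leaf 2 364 367) (node 364 (merge (leaf 3 363 363) (leaf 3 364 365))))))) (node 401 (merge (leaf 1 397 430) (node 434 (merge (leaf 0 398 433) (node 402 (merge (leaf 0 399 435) (node 371 (merge (leaf 2 367 370) (node 403 (merge (leaf 3 367 367) (leaf 2 368 372)))))))))))))) (node 401 (merge (node 430 (merge (leaf 1 398 402) (leaf 1 397 429))) (merge (node 433 (merge (leaf 0 398 434) (node 465 (merge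 (leaf 7 368 497) (node 430 (merge (leaf 1 397 429) (leaf 3 430 466))))))) (node 434 (merge (leaf 0 398 433) (node 402 (merge (leaf 0 399 435) (node 370 (merge (leaf 2 366 369) (leaf 2 367 371))))))))))))))))))))))))))) (merge (hyp 2) (merge (hyp 3) (merge (hyp 4) (merge (hyp 5) (merge (hyp 6) (hyp 7)))))))))))))))))))) nP_394 cP_394 16 (by decide +kernel)

end Crest.Agent.H26Snaky
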