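import Crest.Agent.H26SnakyTree

/-! certificate data for S0047, part P 30 (computer generated) -/

set_option autoImplicit false
set_option maxRecDepth 100000

namespace Crest.Agent.H26Snaky

open T

def nP_395 : ℕ := 0x380000001000000000000000080000001800000000000000000000000000000000000000000000000000000000000000000000000000000000000000000000000000000000000
def cP_395 : ℕ := 0x1e0000000c00000004e000000f0000001f0000001e0000001ffc00000ff800000ffc000007c0000001c0000001400000000000000000000000000000000000000000000000000000000000
theorem lP_395 : S nP_395 cP_395 13 := S_of_chk [] trivial (node 399 (merge (node 464 (merge (leaf 7 399 496) (node 562 (merge (node 527 (merge (leaf 3 527 563) (node 526 (merge (leaf 0 525 525) (leaf 3 526 559))))) (node 465 (merge (node 466 (merge (leaf 3 431 467) (node 498 (merge (leaf 0 463 499) (node 530 (merge (leaf 7 433 433) (leaf 5 465 593))))))) (node 367 (merge (leaf 4 335 335) (node 368 (merge (leaf 6 335 336) (node 366 (merge (leaf 7 334 334) (node 400 (merge (leaf 4 368 497) (node 365 (merge (leaf 0 364 364) (leaf 0 365 401)))))))))))))))))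 (merge (node 464 (merge (leaf 7 399 496) (node 400 (merge (node 368 (merge (leaf 5 335 336) (node 369 (merge (leaf 6 336 337) (node 370 (merge (leaf 1 367 371) (node 398 (merge (leaf 2 365 397) (leaf 2 366 401))))))))) (merge (node 368 (merge (leaf 5 335 336) (node 465 (merge (leaf 4 368 497) (node 466 (merge (leaf 3 431 467) (node 434 (merge (leaf 2 431 435) (node 398 (merge (leaf 3 398 433) (node 397 (merge (leaf 2 365 369) (leaf 0 396 396))))))))))))) (merge (node 368 (merge (leaf 5 335 336) (node 369 (merge (leaf 6 336 337) (node 465 (merge (leaf 4 368 497) (node 466 (merge (leaf 3 431 467) (node 498 (merge (leaf 0 463 499) (node 434 (merge (leaf 2 431 435) (node 401 (merge (leaf 7 369 402) (leaf 4 369 433))))))))))))))) (merge (node 401 (merge (node 402 (merge (leaf 1 399 403) (node 434 (merge (leaf 0 399 435) (node 433 (merge (leaf 0 398 398) (node 466 (merge (leaf 0 431 467) (node 369 (merge (leaf 4 337 337) (leaf 7 369 498))))))))))) (merge (node 433 (merge (node 398 (merge (leaf 0 397 397) (leaf 3 398 434))) (merge (node 398 (merge (leaf 0 397 397) (node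 369 (merge (leaf 5 336 337) (leaf 2 366 370))))) (node 434 (merge (leaf 1 431 435) (node 466 (merge (leaf 0 431 467) (node 498 (merge (leaf 7 401 530) (node 369 (merge (leaf 4 337 337) (leaf 4 369 465)))))))))))) (merge (node 369 (merge (node 337 (merge (leaf 5 304 305) (leaf 5 336 433))) (merge (node 402 (merge (leaf 1 399 403) (node 434 (merge (leaf 0 399 435) (node 466 (merge (leaf 7 369 498) (node 467 (merge (leaf 0 431 433) (leaf 3 431 465))))))))) (node 402 (merge (leaf 1 399 403) (node 434 (merge (leaf 0 399 435) (node 466 (merge (leaf 7 369 498) (node 337 (merge (leaf 4 305 305) (leaf 7 337 370)))))))))))) (merge (node 402 (merge (leaf 1 399 403) (node 434 (merge (leaf 0 399 435) (node 370 (merge (leaf 2 367 371) (node 369 (merge (leaf 2 366 398) (node 337 (merge (leaf 4 305 305) (leaf 7 337 466))))))))))) (merge (node 402 (merge (leaf 1 399 403) (node 370 (merge (leaf 2 367 371) (node 398 (merge (leaf 2 366 369) (node 397 (merge (leaf 0 396 396) (leaf 0 397 433))))))))) (node 402 (merge (leaf 1 399 403) (node 434 (merge (leaf 0 399 435) (node 433 (merge (leaf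 0 398 398) (node 370 (merge (leaf 2 367 371) (node 338 (merge (leaf 5 305 306) (leaf 5 337 465))))))))))))))))) (node 368 (merge (leaf 5 335 336) (node 465 (merge (leaf 4 368 497) (node 466 (merge (leaf 3 431 467) (node 434 (merge (leaf 2 431 435) (node 433 (merge (leaf 3 398 398) (node 402 (merge (leaf 2 399 403) (node 370 (merge (leaf 5 337 338) (node 371 (merge (leaf 6 338 339) (leaf 2 367 401)))))))))))))))))))))))) (merge (node 464 (merge (leaf 7 399 496) (node 400 (merge (node 367 (merge (leaf 4 335 335) (node 366 (merge (leaf 7 334 334) (node 365 (merge (leaf 0 364 364) (node 401 (merge (leaf 0 365 368) (leaf 3 366 402))))))))) (merge (node 367 (merge (leaf 4 335 335) (node 366 (merge (leaf 7 334 334) (node 365 (merge (leaf 0 364 364) (node 401 (merge (leaf 3 365 398) (leaf 3 366 402))))))))) (merge (node 465 (merge (node 368 (merge (leaf 4 368 497) (node 369 (merge (leaf 6 336 337) (node 370 (merge (leaf 1 367 371) (node 398 (merge (leaf 2 365 397) (leaf 2 366 401))))))))) (merge (node 466 (merge (leaf 3 431 467) (node 434 (merge (leaf 2 431 435) (node 433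 (merge (leaf 3 398 398) (node 402 (merge (leaf 2 399 403) (node 370 (merge (leaf 5 337 338) (leaf 5 369 497))))))))))) (merge (node 466 (merge (leaf 3 431 467) (node 434 (merge (leaf 2 431 435) (node 433 (merge (leaf 3 398 398) (node 402 (merge (leaf 2 399 403) (node 370 (merge (leaf 5 337 338) (node 371 (merge (leaf 6 338 339) (node 369 (merge (leaf 7 337 337) (node 400 (merge (leaf 1 367 368) (leaf 2 367 401))))))))))))))))) (node 466 (merge (leaf 3 431 467) (node 498 (merge (leaf 0 463 499) (node 434 (merge (leaf 2 431 435) (node 368 (merge (leaf 4 368 497) (node 369 (merge (leaf 6 336 337) (node 401 (merge (leaf 7 369 402) (leaf 4 369 433))))))))))))))))) (node 465 (merge (node 368 (merge (leaf 4 368 497) (node 369 (merge (leaf 6 336 337) (node 370 (merge (leaf 1 367 371) (node 398 (merge (leaf 1 366 367) (leaf 2 365 397))))))))) (node 562 (merge (node 527 (merge (leaf 3 527 563) (node 526 (merge (leaf 0 525 525) (leaf 3 526 559))))) (node 466 (merge (node 435 (merge (leaf 2 431 434) (node 467 (merge (leaf 3 431 432) (leaf 2 432 436))))) (node 498 (merge (leaf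 0 463 499) (node 530 (merge (leaf 7 433 433) (leaf 5 465 593))))))))))))))))) (merge (node 367 (merge (node 334 (merge (leaf 7 334 366) (node 335 (merge (leaf 7 302 302) (node 464 (merge (leaf 4 335 432) (leaf 7 431 496))))))) (merge (node 336 (merge (leaf 6 335 368) (node 335 (merge (leaf 6 303 304) (node 464 (merge (leaf 4 335 432) (leaf 7 431 496))))))) (node 368 (merge (leaf 6 335 336) (node 369 (merge (node 398 (merge (leaf 1 366 370) (node 397 (merge (leaf 2 364 396) (leaf 2 365 400))))) (merge (node 366 (merge (leaf 7 334 334) (node 398 (merge (leaf 1 366 370) (leaf 1 365 397))))) (merge (node 366 (merge (leaf 7 334 334) (node 338 (merge (leaf 2 334 337) (node 370 (merge (leaf 2 335 339) (node 403 (merge (leaf 0 367 402) (node 371 (merge (leaf 1 367 400) (leaf 0 368 404))))))))))) (node 366 (merge (leaf 7 334 334) (node 397 (merge (leaf 1 365 398) (node 365 (merge (leaf 1 364 396) (node 364 (merge (leaf 0 364 400) (node 332 (merge (leaf 3 331 331) (leaf 3 332 333)))))))))))))))))))) (merge (node 562 (merge (node 527 (merge (leaf 3 526 526) (leaf 3 527 563)))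 (node 367 (merge (node 334 (merge (leaf 7 334 366) (node 335 (merge (leaf 7 302 302) (node 464 (merge (leaf 4 335 432) (leaf 7 431 496))))))) (merge (node 336 (merge (leaf 6 335 368) (node 335 (merge (leaf 6 303 304) (node 464 (merge (leaf 4 335 432) (leaf 7 431 496))))))) (node 368 (merge (leaf 6 335 336) (node 366 (merge (leaf 7 334 334) (node 365 (merge (node 396 (merge (leaf 1 364 397) (node 364 (merge (leaf 1 363 395) (node 332 (merge (leaf 3 331 331) (leaf 3 332 333))))))) (merge (node 397 (merge (leaf 1 364 396) (node 369 (merge (leaf 1 365 398) (node 402 (merge (leaf 0 366 401) (node 370 (merge (leaf 0 367 403) (node 338 (merge (leaf 2 334 337) (leaf 2 335 339))))))))))) (merge (node 332 (merge (leaf 3 332 333) (node 364 (merge (leaf 3 331 331) (node 398 (merge (leaf 0 363 363) (node 369 (merge (leaf 1 366 370) (leaf 1 365 397))))))))) (node 332 (merge (leaf 3 332 333) (node 364 (merge (leaf 3 331 331) (node 363 (merge (leaf 0 363 398) (node 395 (merge (leaf 1 362 394) (leaf 1 363 396)))))))))))))))))))))) (merge (node 433 (merge (node 398 (merge (leaf 3 398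 434) (node 397 (merge (leaf 0 396 396) (leaf 0 397 400))))) (merge (node 434 (merge (leaf 3 398 398) (node 467 (merge (leaf 0 431 466) (node 435 (merge (leaf 1 431 464) (leaf 0 432 468))))))) (merge (node 595 (merge (node 562 (merge (leaf 0 559 594) (node 563 (merge (leaf 3 527 527) (leaf 0 560 596))))) (node 466 (merge (node 467 (merge (leaf 0 431 434) (node 465 (merge (leaf 3 431 464) (leaf 3 432 468))))) (merge (node 434 (merge (leaf 0 431 467) (node 403 (merge (leaf 2 399 402) (node 435 (merge (leaf 3 399 400) (leaf 2 400 404))))))) (merge (node 464 (merge (leaf 7 399 496) (node 465 (merge (leaf 3 431 467) (node 498 (merge (leaf 0 463 499) (node 367 (merge (leaf 4 335 335) (node 366 (merge (leaf 7 334 334) (node 401 (merge (leaf 4 369 369) (node 402 (merge (leaf 3 366 400) (node 497 (merge (leaf 6 369 370) (leaf 4 401 530))))))))))))))))) (node 402 (merge (node 403 (merge (leaf 2 399 434) (node 401 (merge (leaf 1 399 400) (leaf 1 400 404))))) (merge (node 464 (merge (leaf 7 399 496) (node 434 (merge (leaf 2 399 403) (leaf 1 431 435))))) (node 464 (merge (leaf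 7 399 496) (node 367 (merge (leaf 4 335 335) (node 366 (merge (leaf 7 334 334) (node 401 (merge (leaf 3 366 400) (node 369 (merge (leaf 5 336 337) (node 465 (merge (leaf 4 369 498) (node 370 (merge (leaf 6 337 338) (leaf 6 369 497)))))))))))))))))))))))) (node 401 (merge (node 465 (merge (node 496 (merge (leaf 6 400 464) (leaf 5 400 497))) (merge (node 464 (merge (leaf 6 400 496) (node 466 (merge (leaf 3 431 467) (node 369 (merge (leaf 5 336 337) (leaf 4 369 498))))))) (merge (node 466 (merge (node 467 (merge (leaf 3 431 464) (leaf 3 432 468))) (node 498 (merge (leaf 4 369 369) (node 530 (merge (leaf 4 401 497) (leaf 7 433 562))))))) (node 497 (merge (leaf 5 400 496) (node 370 (merge (leaf 6 369 402) (node 369 (merge (leaf 6 337 338) (node 498 (merge (leaf 4 369 466) (leaf 4 401 530))))))))))))) (merge (node 367 (merge (node 334 (merge (leaf 7 334 366) (node 335 (merge (leaf 7 302 302) (leaf 4 335 464))))) (merge (node 366 (merge (leaf 7 334 334) (node 400 (merge (leaf 3 366 402) (node 398 (merge (leaf 3 365 365) (leaf 0 397 397))))))) (node 335 (merge (leaf 4 335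 464) (node 304 (merge (leaf 6 303 336) (node 303 (merge (leaf 6 271 272) (leaf 4 303 400)))))))))) (merge (node 400 (merge (node 398 (merge (leaf 0 397 397) (node 366 (merge (leaf 3 365 365) (node 334 (merge (leaf 4 302 302) (leaf 7 334 367))))))) (node 465 (merge (node 496 (merge (leaf 6 432 464) (leaf 5 400 497))) (merge (node 464 (merge (leaf 6 400 496) (node 466 (merge (leaf 3 431 467) (node 369 (merge (leaf 5 336 337) (leaf 4 369 498))))))) (merge (node 466 (merge (node 467 (merge (leaf 3 431 464) (leaf 3 432 468))) (node 498 (merge (leaf 4 369 369) (node 530 (merge (leaf 4 401 497) (leaf 7 433 562))))))) (node 497 (merge (leaf 5 400 496) (node 498 (merge (leaf 4 401 530) (node 369 (merge (leaf 4 369 466) (node 338 (merge (leaf 6 337 370) (node 337 (merge (leaf 6 305 306) (node 304 (merge (leaf 7 304 336) (node 305 (merge (leaf 7 272 272) (leaf 5 304 400))))))))))))))))))))) (node 400 (merge (node 398 (merge (leaf 0 397 397) (node 366 (merge (leaf 3 365 365) (node 334 (merge (leaf 4 302 302) (leaf 7 334 367))))))) (node 402 (merge (leaf 1 399 403) (node 370 (merge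 (leaf 2 367 371) (node 465 (merge (leaf 6 369 497) (node 338 (merge (leaf 5 305 306) (leaf 6 337 369))))))))))))))))))) (node 367 (merge (node 336 (merge (leaf 6 335 368) (node 335 (merge (leaf 6 303 304) (node 334 (merge (leaf 7 302 302) (leaf 7 334 366))))))) (merge (node 336 (merge (leaf 6 335 368) (node 335 (merge (leaf 6 303 304) (node 302 (merge (leaf 7 302 334) (node 303 (merge (leaf 7 270 270) (leaf 4 303 400))))))))) (merge (node 335 (merge (node 334 (merge (leaf 7 302 302) (leaf 7 334 366))) (merge (node 366 (merge (leaf 7 334 334) (node 303 (merge (leaf 4 303 400) (node 272 (merge (leaf 6 271 304) (node 271 (merge (leaf 6 239 240) (leaf 5 270 398))))))))) (node 303 (merge (leaf 4 303 400) (node 272 (merge (leaf 6 271 304) (node 271 (merge (leaf 6 239 240) (node 270 (merge (leaf 7 238 238) (leaf 7 270 302)))))))))))) (merge (node 366 (merge (leaf 7 334 334) (node 365 (merge (node 368 (merge (leaf 6 335 336) (node 400 (merge (leaf 0 364 364) (leaf 0 365 401))))) (merge (node 364 (merge (leaf 0 364 400) (node 363 (merge (leaf 0 363 398) (node 331 (merge (leaf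 3 330 330) (leaf 3 331 332))))))) (merge (node 368 (merge (leaf 6 335 336) (node 400 (merge (leaf 0 365 401) (node 397 (merge (leaf 1 364 396) (node 398 (merge (leaf 1 365 369) (leaf 0 397 433))))))))) (node 368 (merge (leaf 6 335 336) (node 332 (merge (leaf 3 332 333) (node 364 (merge (leaf 3 331 331) (node 363 (merge (leaf 0 363 398) (node 395 (merge (leaf 1 362 394) (leaf 1 363 396))))))))))))))))) (node 398 (merge (node 397 (merge (leaf 0 396 396) (node 433 (merge (leaf 0 397 400) (leaf 3 398 434))))) (merge (node 368 (merge (leaf 6 335 336) (node 369 (merge (leaf 1 366 370) (node 397 (merge (leaf 1 365 366) (leaf 2 364 396))))))) (node 336 (merge (leaf 6 335 368) (node 335 (merge (leaf 6 303 304) (node 303 (merge (leaf 4 303 400) (node 270 (merge (leaf 7 270 302) (node 271 (merge (leaf 7 238 238) (leaf 5 270 366)))))))))))))))))))))))))) nP_395 cP_395 13 (by decide +kernel)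
def nP_396 : ℕ := 0x380000001000000000000000080000001800000000000000000000000000000000000000000000000000000000000000000000000000000000000000000000000000000000000
def cP_396 : ℕ := 0x800000008000001cc000000c00000000c00000050000000d0000000e7000001ffc00000ff800000ffc000001e0000001e0000001400000000000000000000000000000000000000000000000000000000000
theorem lP_396 : S nP_396 cP_396 13 := S_of_chk [] trivial (node 399 (merge (node 464 (merge (leaf 7 399 496) (node 398 (merge (node 397 (merge (leaf 0 396 396) (node 433 (merge (leaf 3 397 430) (leaf 3 398 434))))) (merge (node 397 (merge (leaf 0 396 396) (node 367 (merge (leaf 4 335 335) (node 368 (merge (leaf 6 335 336) (node 369 (merge (leaf 1 366 370) (leaf 2 365 400))))))))) (node 433 (merge (leaf 3 398 434) (node 367 (merge (leaf 4 335 335) (node 368 (merge (leaf 6 335 336) (node 369 (merge (leaf 1 366 370) (node 337 (merge (leaf 6 336 400) (leaf 5 336 401)))))))))))))))) (merge (node 464 (merge (leaf 7 431 496) (node 433 (merge (node 434 (merge (leaf 3 398 398) (leaf 1 431 435))) (merge (node 434 (merge (leaf 1 431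 435) (node 466 (merge (leaf 0 431 467) (node 402 (merge (leaf 2 399 403) (node 401 (merge (leaf 2 398 430) (node 369 (merge (leaf 4 337 337) (leaf 7 369 498))))))))))) (node 430 (merge (node 429 (merge (leaf 0 428 428) (node 401 (merge (leaf 2 397 400) (leaf 2 398 402))))) (merge (node 429 (merge (leaf 0 428 428) (node 397 (merge (leaf 3 396 396) (leaf 3 397 398))))) (node 401 (merge (leaf 2 398 402) (node 398 (merge (leaf 3 397 397) (node 366 (merge (leaf 4 334 334) (node 400 (merge (leaf 3 365 365) (node 369 (merge (leaf 5 336 337) (leaf 2 366 370))))))))))))))))))) (merge (node 367 (merge (node 334 (merge (leaf 7 334 366) (node 335 (merge (leaf 7 302 302) (node 464 (merge (leaf 4 335 432) (leaf 7 431 496))))))) (merge (node 336 (merge (leaf 6 335 368) (node 335 (merge (leaf 6 303 304) (node 464 (merge (leaf 4 335 432) (leaf 7 431 496))))))) (node 368 (merge (leaf 6 335 336) (node 369 (merge (node 398 (merge (leaf 1 366 370) (node 397 (merge (leaf 2 364 396) (leaf 2 365 400))))) (merge (node 366 (merge (leaf 7 334 334) (node 398 (merge (leaf 1 366 370) (leaf 1 365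 397))))) (merge (node 366 (merge (leaf 7 334 334) (node 338 (merge (leaf 2 334 337) (node 370 (merge (leaf 2 335 339) (node 403 (merge (leaf 0 367 402) (node 371 (merge (leaf 1 367 400) (leaf 0 368 404))))))))))) (node 366 (merge (leaf 7 334 334) (node 397 (merge (leaf 1 365 398) (node 365 (merge (leaf 1 364 396) (node 364 (merge (leaf 0 364 400) (node 332 (merge (leaf 3 331 331) (leaf 3 332 333)))))))))))))))))))) (merge (node 367 (merge (node 334 (merge (leaf 7 334 366) (node 335 (merge (leaf 7 302 302) (node 464 (merge (leaf 4 335 432) (leaf 7 431 496))))))) (merge (node 336 (merge (leaf 6 335 368) (node 335 (merge (leaf 6 303 304) (node 464 (merge (leaf 4 335 432) (leaf 7 431 496))))))) (node 366 (merge (leaf 7 334 334) (node 365 (merge (node 400 (merge (leaf 0 364 364) (node 401 (merge (leaf 3 365 398) (leaf 3 366 402))))) (merge (node 368 (merge (leaf 6 335 336) (node 400 (merge (leaf 0 364 364) (leaf 0 365 401))))) (merge (node 368 (merge (leaf 6 335 336) (node 332 (merge (leaf 3 332 333) (node 364 (merge (leaf 3 331 331) (node 363 (merge (leaf 0 363 398) (node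 395 (merge (leaf 1 362 394) (leaf 1 363 396))))))))))) (node 368 (merge (leaf 6 335 336) (node 401 (merge (leaf 0 365 400) (node 369 (merge (leaf 0 366 402) (node 370 (merge (leaf 1 366 398) (node 338 (merge (leaf 2 334 337) (leaf 2 335 339)))))))))))))))))))) (merge (node 562 (merge (node 527 (merge (leaf 3 526 526) (leaf 3 527 563))) (node 367 (merge (node 334 (merge (leaf 7 334 366) (node 335 (merge (leaf 7 302 302) (node 464 (merge (leaf 4 335 432) (leaf 7 431 496))))))) (merge (node 336 (merge (leaf 6 335 368) (node 335 (merge (leaf 6 303 304) (node 464 (merge (leaf 4 335 432) (leaf 7 431 496))))))) (node 368 (merge (leaf 6 335 336) (node 366 (merge (leaf 7 334 334) (node 365 (merge (node 396 (merge (leaf 1 364 397) (node 364 (merge (leaf 1 363 395) (node 332 (merge (leaf 3 331 331) (leaf 3 332 333))))))) (merge (node 397 (merge (leaf 1 364 396) (node 369 (merge (leaf 1 365 398) (node 402 (merge (leaf 0 366 401) (node 370 (merge (leaf 0 367 403) (node 338 (merge (leaf 2 334 337) (leaf 2 335 339))))))))))) (merge (node 332 (merge (leaf 3 332 333) (node 364 (merge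 (leaf 3 331 331) (node 398 (merge (leaf 0 363 363) (node 369 (merge (leaf 1 366 370) (leaf 1 365 397))))))))) (node 332 (merge (leaf 3 332 333) (node 364 (merge (leaf 3 331 331) (node 363 (merge (leaf 0 363 398) (node 395 (merge (leaf 1 362 394) (leaf 1 363 396)))))))))))))))))))))) (merge (node 562 (merge (node 595 (merge (leaf 0 559 594) (node 563 (merge (leaf 3 527 527) (leaf 0 560 596))))) (node 464 (merge (leaf 7 399 496) (node 400 (merge (node 367 (merge (leaf 4 335 335) (node 368 (merge (leaf 6 335 336) (node 369 (merge (leaf 6 336 337) (node 398 (merge (leaf 1 366 370) (leaf 2 365 397))))))))) (merge (node 367 (merge (leaf 4 335 335) (node 366 (merge (leaf 7 334 334) (node 365 (merge (leaf 0 364 364) (node 401 (merge (leaf 0 365 368) (leaf 3 366 402))))))))) (merge (node 368 (merge (leaf 5 335 336) (node 369 (merge (leaf 6 336 337) (node 370 (merge (leaf 1 367 371) (node 398 (merge (leaf 2 365 397) (leaf 2 366 401))))))))) (node 367 (merge (leaf 4 335 335) (node 366 (merge (leaf 7 334 334) (node 365 (merge (leaf 0 364 364) (node 401 (merge (leaf 3 365 398)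 (leaf 3 366 402))))))))))))))))) (merge (node 562 (merge (node 595 (merge (leaf 0 559 594) (node 563 (merge (leaf 3 527 527) (leaf 0 560 596))))) (node 464 (merge (leaf 7 399 496) (node 367 (merge (leaf 4 335 335) (node 366 (merge (leaf 7 334 334) (node 365 (merge (node 400 (merge (leaf 0 364 364) (node 401 (merge (leaf 0 365 368) (leaf 3 366 402))))) (merge (node 364 (merge (leaf 0 364 400) (node 363 (merge (leaf 0 363 398) (node 395 (merge (leaf 1 362 394) (leaf 1 363 396))))))) (merge (node 368 (merge (leaf 6 335 336) (node 332 (merge (leaf 3 332 333) (node 364 (merge (leaf 3 331 331) (node 363 (merge (leaf 0 363 398) (node 395 (merge (leaf 1 362 394) (leaf 1 363 396))))))))))) (node 368 (merge (leaf 6 335 336) (node 400 (merge (leaf 0 365 401) (node 397 (merge (leaf 1 364 396) (node 398 (merge (leaf 0 397 433) (node 333 (merge (leaf 3 332 332) (node 301 (merge (leaf 4 269 269) (leaf 4 301 430))))))))))))))))))))))))) (merge (node 562 (merge (node 591 (merge (leaf 1 558 590) (node 623 (merge (leaf 6 527 655) (node 527 (merge (leaf 6 495 496) (leaf 3 526 526)))))))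 (node 367 (merge (node 334 (merge (leaf 7 334 366) (node 335 (merge (leaf 7 302 302) (leaf 4 335 464))))) (merge (node 336 (merge (leaf 6 335 368) (node 335 (merge (leaf 6 303 304) (leaf 4 335 464))))) (node 366 (merge (leaf 7 334 334) (node 368 (merge (leaf 6 335 336) (node 369 (merge (node 402 (merge (leaf 0 366 401) (node 370 (merge (leaf 0 367 403) (node 338 (merge (leaf 2 334 337) (leaf 2 335 339))))))) (merge (node 401 (merge (leaf 0 366 402) (node 365 (merge (leaf 0 365 400) (node 396 (merge (leaf 1 364 397) (node 364 (merge (leaf 1 363 395) (node 332 (merge (leaf 3 331 331) (leaf 3 332 333))))))))))) (merge (node 338 (merge (leaf 2 334 337) (node 370 (merge (leaf 2 335 339) (node 400 (merge (leaf 1 367 371) (node 365 (merge (leaf 0 364 364) (leaf 0 365 401))))))))) (node 338 (merge (leaf 2 334 337) (node 370 (merge (leaf 2 335 339) (node 403 (merge (leaf 0 367 402) (node 371 (merge (leaf 1 367 400) (leaf 0 368 404)))))))))))))))))))))) (node 367 (merge (node 336 (merge (leaf 6 335 368) (node 335 (merge (leaf 6 303 304) (node 334 (merge (leaf 7 302 302) (leaf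 7 334 366))))))) (merge (node 336 (merge (leaf 6 335 368) (node 335 (merge (leaf 6 303 304) (node 302 (merge (leaf 7 302 334) (node 303 (merge (leaf 7 270 270) (leaf 4 303 400))))))))) (merge (node 335 (merge (node 334 (merge (leaf 7 302 302) (leaf 7 334 366))) (merge (node 366 (merge (leaf 7 334 334) (node 303 (merge (leaf 4 303 400) (node 272 (merge (leaf 6 271 304) (node 271 (merge (leaf 6 239 240) (leaf 5 270 398))))))))) (node 303 (merge (leaf 4 303 400) (node 272 (merge (leaf 6 271 304) (node 271 (merge (leaf 6 239 240) (node 270 (merge (leaf 7 238 238) (leaf 7 270 302)))))))))))) (merge (node 366 (merge (leaf 7 334 334) (node 365 (merge (node 368 (merge (leaf 6 335 336) (node 400 (merge (leaf 0 364 364) (leaf 0 365 401))))) (merge (node 364 (merge (leaf 0 364 400) (node 363 (merge (leaf 0 363 398) (node 331 (merge (leaf 3 330 330) (leaf 3 331 332))))))) (merge (node 368 (merge (leaf 6 335 336) (node 400 (merge (leaf 0 365 401) (node 397 (merge (leaf 1 364 396) (node 398 (merge (leaf 1 365 369) (leaf 0 397 433))))))))) (node 368 (merge (leaf 6 335 336) (node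 332 (merge (leaf 3 332 333) (node 364 (merge (leaf 3 331 331) (node 363 (merge (leaf 0 363 398) (node 395 (merge (leaf 1 362 394) (leaf 1 363 396))))))))))))))))) (node 398 (merge (node 397 (merge (leaf 0 396 396) (node 433 (merge (leaf 0 397 400) (leaf 3 398 434))))) (merge (node 368 (merge (leaf 6 335 336) (node 369 (merge (leaf 1 366 370) (node 397 (merge (leaf 1 365 366) (leaf 2 364 396))))))) (node 336 (merge (leaf 6 335 368) (node 335 (merge (leaf 6 303 304) (node 303 (merge (leaf 4 303 400) (node 270 (merge (leaf 7 270 302) (node 271 (merge (leaf 7 238 238) (leaf 5 270 366)))))))))))))))))))))))))))) nP_396 cP_396 13 (by decide +kernel)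
def nP_397 : ℕ := 0x380000001000000000000000080000001800000000000000000000000000000000000000000000000000000000000000000000000000000000000000000000000000000000000
def cP_397 : ℕ := 0x8000000080000000c000000c28000000f80000073800003e3e00001e7c00003ffe000007f8000007fc000005c0000001c0000001400000000000000000000000000000000000000000000000000000000000
theorem lP_397 : S nP_397 cP_397 12 := S_of_chk [] trivial (node 433 (merge (node 434 (merge (node 403 (merge (leaf 2 399 402) (node 435 (merge (leaf 2 400 404) (node 399 (merge (leaf 3 398 398) (leaf 3 399 400))))))) (merge (node 466 (merge (leaf 0 431 467) (node 430 (merge (leaf 0 430 465) (node 398 (merge (leaf 3 397 397) (leaf 3 398 399))))))) (node 467 (merge (leaf 0 431 466) (node 435 (merge (leaf 0 432 468) (node 403 (merge (leaf 2 399 402) (leaf 2 400 404)))))))))) (merge (node 434 (merge (node 467 (merge (leaf 0 431 466) (node 435 (merge (leaf 0 432 468) (node 403 (merge (leaf 2 399 402) (leaf 2 400 404))))))) (merge (node 466 (merge (leaf 0 431 467) (node 430 (merge (leaf 0 430 465) (node 402 (merge (leaf 2 398 401)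 (leaf 2 399 403))))))) (merge (node 466 (merge (leaf 0 431 467) (node 430 (merge (leaf 0 430 465) (node 401 (merge (leaf 2 398 402) (node 400 (merge (leaf 2 397 429) (node 435 (merge (leaf 3 399 399) (leaf 3 400 436))))))))))) (merge (node 467 (merge (leaf 0 431 466) (node 435 (merge (leaf 0 432 468) (node 404 (merge (leaf 2 400 403) (node 436 (merge (leaf 2 401 405) (node 400 (merge (leaf 3 399 399) (leaf 3 400 401))))))))))) (merge (node 403 (merge (leaf 2 399 402) (node 435 (merge (leaf 2 400 404) (node 468 (merge (leaf 0 432 467) (node 436 (merge (leaf 0 433 469) (node 400 (merge (leaf 3 399 399) (leaf 3 400 401))))))))))) (node 403 (merge (leaf 2 399 402) (node 435 (merge (leaf 2 400 404) (node 400 (merge (leaf 3 399 399) (node 401 (merge (leaf 3 400 436) (node 430 (merge (leaf 2 397 429) (node 465 (merge (leaf 0 430 466) (node 368 (merge (leaf 4 336 336) (leaf 7 368 497))))))))))))))))))))) (merge (node 430 (merge (node 402 (merge (leaf 2 398 401) (node 434 (merge (leaf 2 399 403) (node 398 (merge (leaf 3 397 397) (leaf 3 398 399))))))) (merge (node 401 (merge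 (leaf 2 398 402) (node 429 (merge (leaf 2 397 400) (node 460 (merge (leaf 1 428 461) (node 428 (merge (leaf 1 427 459) (node 396 (merge (leaf 3 395 395) (leaf 3 396 397))))))))))) (merge (node 434 (merge (node 402 (merge (leaf 2 398 401) (leaf 2 399 403))) (merge (node 399 (merge (leaf 3 398 398) (node 400 (merge (leaf 3 399 435) (node 429 (merge (leaf 2 397 401) (leaf 2 396 428))))))) (node 403 (merge (leaf 2 399 402) (node 435 (merge (leaf 2 400 404) (node 399 (merge (leaf 3 398 398) (leaf 3 399 400)))))))))) (node 429 (merge (node 460 (merge (leaf 1 428 461) (node 428 (merge (leaf 1 427 459) (node 396 (merge (leaf 3 395 395) (leaf 3 396 397))))))) (merge (node 461 (merge (leaf 1 428 460) (node 397 (merge (leaf 3 396 396) (node 398 (merge (leaf 3 397 433) (node 366 (merge (leaf 4 334 334) (leaf 6 365 493))))))))) (merge (node 428 (merge (node 396 (merge (leaf 3 395 395) (leaf 3 396 397))) (merge (node 399 (merge (leaf 2 396 400) (node 427 (merge (leaf 2 395 398) (node 458 (merge (leaf 1 426 459) (node 426 (merge (leaf 1 425 457) (node 394 (merge (leaf 3 393 393)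 (leaf 3 394 395))))))))))) (node 399 (merge (leaf 2 396 400) (node 398 (merge (leaf 2 395 427) (node 397 (merge (leaf 0 396 396) (leaf 3 397 433)))))))))) (merge (node 460 (merge (leaf 1 428 461) (node 428 (merge (leaf 1 427 459) (node 399 (merge (leaf 2 396 400) (node 427 (merge (leaf 2 395 398) (node 395 (merge (leaf 3 394 394) (leaf 3 395 396))))))))))) (node 460 (merge (leaf 1 428 461) (node 428 (merge (leaf 1 427 459) (node 399 (merge (leaf 2 396 400) (node 398 (merge (leaf 2 395 427) (node 433 (merge (leaf 3 397 397) (leaf 3 398 434)))))))))))))))))))) (merge (node 466 (merge (node 465 (merge (leaf 0 430 430) (node 467 (merge (leaf 0 431 434) (leaf 3 432 468))))) (merge (node 430 (merge (leaf 0 430 465) (node 397 (merge (leaf 3 397 398) (node 429 (merge (leaf 3 396 396) (node 460 (merge (leaf 1 428 461) (node 428 (merge (leaf 1 427 459) (node 400 (merge (leaf 2 396 399) (leaf 2 397 401))))))))))))) (node 434 (merge (leaf 0 431 467) (node 399 (merge (leaf 3 398 398) (node 367 (merge (node 334 (merge (leaf 7 334 366) (node 335 (merge (leaf 7 302 302) (node 400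 (merge (leaf 4 303 303) (leaf 3 399 435))))))) (merge (node 336 (merge (leaf 6 335 368) (node 335 (merge (leaf 6 303 304) (node 400 (merge (leaf 4 303 303) (leaf 3 399 435))))))) (merge (node 336 (merge (leaf 6 335 368) (node 335 (merge (leaf 6 303 304) (node 334 (merge (leaf 7 302 302) (leaf 7 334 366))))))) (node 368 (merge (leaf 6 335 336) (node 366 (merge (leaf 7 334 334) (node 400 (merge (leaf 3 399 435) (node 365 (merge (leaf 0 364 364) (leaf 0 365 401)))))))))))))))))))) (merge (node 399 (merge (node 434 (merge (leaf 3 398 398) (node 467 (merge (leaf 0 431 466) (node 435 (merge (leaf 0 432 468) (node 403 (merge (leaf 2 399 402) (leaf 2 400 404))))))))) (merge (node 367 (merge (node 336 (merge (leaf 6 335 368) (node 335 (merge (leaf 6 303 304) (node 334 (merge (leaf 7 302 302) (leaf 7 334 366))))))) (merge (node 402 (merge (node 368 (merge (leaf 6 335 336) (node 366 (merge (leaf 7 334 334) (node 401 (merge (leaf 0 366 369) (leaf 3 366 400))))))) (merge (node 368 (merge (leaf 6 335 336) (node 366 (merge (leaf 7 334 334) (node 369 (merge (leaf 0 366 401) (node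 403 (merge (leaf 0 367 370) (leaf 2 399 434))))))))) (node 434 (merge (leaf 2 399 403) (node 467 (merge (leaf 0 431 466) (node 435 (merge (leaf 3 399 400) (leaf 0 432 468)))))))))) (merge (node 335 (merge (node 334 (merge (leaf 7 302 302) (leaf 7 334 366))) (merge (node 302 (merge (leaf 7 302 334) (node 303 (merge (leaf 7 270 270) (leaf 4 303 400))))) (node 400 (merge (leaf 4 303 303) (node 434 (merge (leaf 3 399 435) (node 466 (merge (leaf 0 431 467) (node 402 (merge (leaf 2 399 403) (node 401 (merge (leaf 3 366 366) (node 369 (merge (leaf 4 337 337) (leaf 7 369 498)))))))))))))))) (merge (node 336 (merge (leaf 6 335 368) (node 335 (merge (leaf 6 303 304) (node 400 (merge (leaf 4 303 303) (node 434 (merge (leaf 3 399 435) (node 466 (merge (leaf 0 431 467) (node 402 (merge (leaf 2 399 403) (node 401 (merge (leaf 3 366 366) (node 369 (merge (leaf 4 337 337) (leaf 7 369 498))))))))))))))))) (node 336 (merge (leaf 6 335 368) (node 335 (merge (leaf 6 303 304) (node 302 (merge (leaf 7 302 334) (node 303 (merge (leaf 7 270 270) (leaf 4 303 400)))))))))))))) (node 367 (merge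 (node 336 (merge (leaf 6 335 368) (node 335 (merge (leaf 6 303 304) (node 334 (merge (leaf 7 302 302) (leaf 7 334 366))))))) (merge (node 336 (merge (leaf 6 335 368) (node 335 (merge (leaf 6 303 304) (node 302 (merge (leaf 7 302 334) (node 303 (merge (leaf 7 270 270) (leaf 4 303 400))))))))) (merge (node 366 (merge (leaf 7 334 334) (node 365 (merge (node 368 (merge (leaf 6 335 336) (node 400 (merge (leaf 0 364 364) (leaf 0 365 401))))) (merge (node 364 (merge (leaf 0 364 400) (node 363 (merge (leaf 0 363 398) (node 331 (merge (leaf 3 330 330) (leaf 3 331 332))))))) (merge (node 368 (merge (leaf 6 335 336) (node 400 (merge (leaf 0 365 401) (node 397 (merge (leaf 1 364 396) (node 398 (merge (leaf 1 365 369) (leaf 0 397 433))))))))) (node 368 (merge (leaf 6 335 336) (node 332 (merge (leaf 3 332 333) (node 364 (merge (leaf 3 331 331) (node 363 (merge (leaf 0 363 398) (node 395 (merge (leaf 1 362 394) (leaf 1 363 396))))))))))))))))) (merge (node 398 (merge (node 397 (merge (leaf 0 396 396) (leaf 0 397 400))) (merge (node 336 (merge (leaf 6 335 368) (node 335 (merge (leaf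 6 303 304) (node 303 (merge (leaf 4 303 400) (node 270 (merge (leaf 7 270 302) (node 271 (merge (leaf 7 238 238) (leaf 5 270 366))))))))))) (node 368 (merge (leaf 6 335 336) (node 397 (merge (leaf 0 396 396) (node 369 (merge (leaf 1 365 366) (leaf 1 366 370)))))))))) (node 335 (merge (node 334 (merge (leaf 7 302 302) (leaf 7 334 366))) (merge (node 366 (merge (leaf 7 334 334) (node 303 (merge (leaf 4 303 400) (node 272 (merge (leaf 6 271 304) (node 271 (merge (leaf 6 239 240) (leaf 5 270 398))))))))) (node 303 (merge (leaf 4 303 400) (node 272 (merge (leaf 6 271 304) (node 271 (merge (leaf 6 239 240) (node 270 (merge (leaf 7 238 238) (leaf 7 270 302)))))))))))))))))))) (merge (node 430 (merge (node 466 (merge (leaf 0 430 465) (node 434 (merge (leaf 0 431 467) (node 402 (merge (leaf 2 398 401) (leaf 2 399 403))))))) (node 429 (merge (node 397 (merge (leaf 3 396 396) (leaf 3 397 398))) (merge (node 461 (merge (leaf 1 428 460) (node 398 (merge (leaf 3 397 397) (node 525 (merge (leaf 6 397 493) (node 527 (merge (leaf 0 525 526) (node 562 (merge (leaf 3 527 563) (node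 591 (merge (leaf 1 558 590) (node 623 (merge (leaf 6 495 496) (leaf 6 527 655))))))))))))))) (node 525 (merge (node 527 (merge (leaf 0 525 526) (node 562 (merge (leaf 3 527 563) (node 591 (merge (leaf 1 558 590) (node 623 (merge (leaf 6 495 496) (leaf 6 527 655))))))))) (node 460 (merge (leaf 1 428 461) (node 428 (merge (leaf 1 427 459) (node 396 (merge (leaf 3 395 395) (node 492 (merge (leaf 4 396 493) (node 524 (merge (leaf 4 428 557) (node 523 (merge (leaf 5 395 491) (leaf 5 427 555)))))))))))))))))))) (node 430 (merge (node 465 (merge (leaf 0 430 466) (node 401 (merge (leaf 2 398 402) (node 400 (merge (leaf 2 397 429) (node 497 (merge (leaf 7 368 368) (leaf 5 400 496))))))))) (merge (node 397 (merge (leaf 3 397 398) (node 429 (merge (leaf 3 396 396) (node 460 (merge (leaf 1 428 461) (node 428 (merge (leaf 1 427 459) (node 400 (merge (leaf 2 396 399) (leaf 2 397 401))))))))))) (merge (node 429 (merge (node 397 (merge (leaf 3 396 396) (leaf 3 397 398))) (merge (node 461 (merge (leaf 1 428 460) (node 398 (merge (leaf 3 397 397) (node 525 (merge (leaf 6 397 493) (node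 527 (merge (leaf 0 525 526) (node 562 (merge (leaf 3 527 563) (node 591 (merge (leaf 1 558 590) (node 623 (merge (leaf 6 495 496) (leaf 6 527 655))))))))))))))) (node 525 (merge (node 527 (merge (leaf 0 525 526) (node 562 (merge (leaf 3 527 563) (node 591 (merge (leaf 1 558 590) (node 623 (merge (leaf 6 495 496) (leaf 6 527 655))))))))) (node 460 (merge (leaf 1 428 461) (node 428 (merge (leaf 1 427 459) (node 396 (merge (leaf 3 395 395) (node 492 (merge (leaf 4 396 493) (node 524 (merge (leaf 4 428 557) (node 523 (merge (leaf 5 395 491) (leaf 5 427 555)))))))))))))))))) (node 401 (merge (leaf 2 398 402) (node 465 (merge (leaf 0 430 466) (node 398 (merge (leaf 3 397 397) (node 366 (merge (leaf 4 334 334) (node 497 (merge (leaf 5 400 496) (node 368 (merge (leaf 7 368 400) (node 369 (merge (leaf 7 336 336) (node 338 (merge (leaf 6 337 370) (node 337 (merge (leaf 6 305 306) (leaf 2 334 367)))))))))))))))))))))))))))))) nP_397 cP_397 12 (by decide +kernel)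
def nP_398 : ℕ := 0x380000001000000000000000080000000800000000000000000000000000000000000000000000000000000000000000000000000000000000000000000000000000000000000
def cP_398 : ℕ := 0x800000008000001ec000000c28000004f800000f3800003f3e00001f7c00003ffe00001ff800001ffc000007f0000005f0000001400000000000000000000000000000000000000000000000000000000000
theorem lP_398 : S nP_398 cP_398 15 := S_of_chk [(nP_395, cP_395, 13), (nP_396, cP_396, 13), (nP_397, cP_397, 12)] ⟨lP_395, lP_396, lP_397, trivial⟩ (node 432 (merge (node 430 (merge (node 464 (merge (leaf 7 431 496) (node 465 (merge (leaf 0 429 429) (leaf 3 430 466))))) (merge (node 429 (merge (node 460 (merge (leaf 1 428 461) (node 428 (merge (leaf 1 427 459) (node 400 (merge (leaf 2 396 399) (leaf 2 397 401))))))) (merge (node 401 (merge (leaf 2 397 400) (node 433 (merge (leaf 2 398 402) (node 397 (merge (leaf 3 396 396) (leaf 3 397 398))))))) (node 460 (merge (leaf 1 428 461) (node 428 (merge (leaf 1 427 459) (node 396 (merge (leaf 3 395 395) (leaf 3 396 397)))))))))) (node 433 (merge (node 466 (merge (leaf 0 430 465) (node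 434 (merge (leaf 0 431 467) (node 398 (merge (leaf 3 397 397) (leaf 3 398 399))))))) (merge (node 465 (merge (leaf 0 430 466) (node 496 (merge (leaf 6 432 464) (node 401 (merge (leaf 2 398 402) (leaf 5 400 497))))))) (node 402 (merge (leaf 2 398 401) (node 434 (merge (leaf 2 399 403) (node 398 (merge (leaf 3 397 397) (leaf 3 398 399))))))))))))) (merge (node 464 (merge (leaf 7 431 496) (node 433 (merge (node 434 (merge (leaf 1 431 435) (node 402 (merge (leaf 2 399 403) (node 430 (merge (leaf 2 398 401) (node 429 (merge (leaf 0 428 428) (leaf 0 429 465))))))))) (merge (node 434 (merge (leaf 1 431 435) (node 466 (merge (leaf 0 431 467) (node 465 (merge (leaf 0 430 430) (node 498 (merge (leaf 0 463 499) (node 401 (merge (leaf 4 369 369) (leaf 7 401 530))))))))))) (merge (node 434 (merge (leaf 1 431 435) (node 466 (merge (leaf 0 431 467) (node 402 (merge (leaf 2 399 403) (node 401 (merge (leaf 2 398 430) (node 369 (merge (leaf 4 337 337) (leaf 7 369 498))))))))))) (merge (node 434 (merge (leaf 1 431 435) (node 466 (merge (leaf 0 431 467) (node 465 (merge (leaf 0 430 430)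 (node 402 (merge (leaf 2 399 403) (node 370 (merge (leaf 5 337 338) (leaf 5 369 497))))))))))) (merge (node 465 (merge (node 466 (merge (leaf 0 430 430) (leaf 3 431 467))) (merge (node 466 (merge (leaf 3 431 467) (node 498 (merge (leaf 0 463 499) (node 401 (merge (leaf 4 369 369) (node 497 (merge (leaf 4 401 530) (node 402 (merge (leaf 6 369 370) (node 403 (merge (leaf 1 399 400) (leaf 1 400 404))))))))))))) (node 430 (merge (leaf 0 429 429) (node 401 (merge (leaf 2 398 402) (node 369 (merge (leaf 5 336 337) (node 370 (merge (leaf 6 337 338) (node 368 (merge (leaf 7 336 336) (node 400 (merge (leaf 7 368 497) (node 371 (merge (leaf 1 368 372) (leaf 1 367 399)))))))))))))))))) (node 465 (merge (node 434 (merge (leaf 1 431 435) (node 466 (merge (leaf 0 431 467) (node 498 (merge (leaf 0 463 499) (node 401 (merge (leaf 4 369 369) (leaf 7 401 530))))))))) (merge (node 434 (merge (leaf 1 431 435) (node 466 (merge (leaf 0 431 467) (node 402 (merge (leaf 2 399 403) (node 370 (merge (leaf 5 337 338) (leaf 5 369 497))))))))) (merge (node 466 (merge (leaf 3 431 467) (node 498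 (merge (leaf 0 463 499) (node 401 (merge (leaf 4 369 369) (node 497 (merge (leaf 4 401 530) (node 402 (merge (leaf 6 369 370) (node 403 (merge (leaf 1 399 400) (leaf 1 400 404))))))))))))) (node 434 (merge (leaf 1 431 435) (node 402 (merge (leaf 2 399 403) (node 370 (merge (leaf 5 337 338) (node 401 (merge (leaf 6 369 497) (node 369 (merge (leaf 5 336 337) (node 368 (merge (leaf 7 336 336) (node 367 (merge (leaf 0 366 366) (node 335 (merge (leaf 3 334 334) (leaf 7 335 400))))))))))))))))))))))))))))) (merge (node 430 (merge (node 464 (merge (leaf 7 431 496) (node 429 (merge (leaf 0 428 428) (leaf 0 429 465))))) (merge (node 429 (merge (node 460 (merge (leaf 1 428 461) (node 428 (merge (leaf 1 427 459) (node 400 (merge (leaf 2 396 399) (leaf 2 397 401))))))) (merge (node 401 (merge (leaf 2 397 400) (node 433 (merge (leaf 2 398 402) (node 397 (merge (leaf 3 396 396) (leaf 3 397 398))))))) (node 460 (merge (leaf 1 428 461) (node 428 (merge (leaf 1 427 459) (node 396 (merge (leaf 3 395 395) (leaf 3 396 397)))))))))) (node 433 (merge (node 464 (merge (leaf 7 431 496) (node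 434 (merge (leaf 1 431 435) (node 398 (merge (leaf 3 397 397) (leaf 3 398 399))))))) (merge (node 402 (merge (leaf 2 398 401) (node 434 (merge (leaf 2 399 403) (node 398 (merge (leaf 3 397 397) (leaf 3 398 399))))))) (merge (node 464 (merge (leaf 7 431 496) (node 434 (merge (leaf 1 431 435) (node 402 (merge (leaf 2 398 401) (leaf 2 399 403))))))) (node 401 (merge (leaf 2 398 402) (node 400 (merge (node 398 (merge (leaf 3 397 397) (node 366 (merge (leaf 4 334 334) (node 365 (merge (leaf 3 365 399) (node 368 (merge (leaf 5 335 336) (leaf 0 365 367))))))))) (merge (node 464 (merge (leaf 6 400 496) (node 398 (merge (leaf 3 397 397) (node 366 (merge (leaf 4 334 334) (node 399 (merge (leaf 3 365 365) (node 369 (merge (leaf 5 336 337) (leaf 2 366 370))))))))))) (merge (node 464 (merge (leaf 6 400 496) (node 398 (merge (leaf 3 397 397) (node 368 (merge (leaf 5 335 336) (node 369 (merge (leaf 6 336 337) (node 465 (merge (leaf 7 368 497) (node 370 (merge (leaf 6 337 338) (leaf 2 366 399))))))))))))) (merge (node 464 (merge (leaf 6 400 496) (node 368 (merge (leaf 5 335 336)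 (node 369 (merge (leaf 6 336 337) (node 367 (merge (leaf 7 335 335) (node 366 (merge (leaf 0 365 365) (node 334 (merge (leaf 3 333 333) (leaf 7 334 399))))))))))))) (node 464 (merge (leaf 6 400 496) (node 398 (merge (leaf 3 397 397) (node 366 (merge (leaf 4 334 334) (node 368 (merge (leaf 5 335 336) (node 367 (merge (leaf 7 335 335) (leaf 0 365 365))))))))))))))))))))))))) (merge (node 464 (merge (leaf 7 431 496) (node 433 (merge (node 434 (merge (leaf 1 431 435) (node 466 (merge (leaf 0 431 467) (node 430 (merge (leaf 0 430 465) (node 429 (merge (leaf 0 428 428) (node 397 (merge (leaf 3 396 396) (leaf 3 397 398))))))))))) (merge (node 434 (merge (leaf 1 431 435) (node 402 (merge (leaf 2 399 403) (node 430 (merge (leaf 2 398 401) (node 429 (merge (leaf 0 428 428) (node 397 (merge (leaf 3 396 396) (leaf 3 397 398))))))))))) (merge (node 465 (merge (node 466 (merge (leaf 0 430 430) (leaf 3 431 467))) (merge (node 466 (merge (leaf 3 431 467) (node 498 (merge (leaf 0 463 499) (node 401 (merge (leaf 4 369 369) (node 497 (merge (leaf 4 401 530) (node 402 (merge (leaf 6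 369 370) (node 403 (merge (leaf 1 399 400) (leaf 1 400 404))))))))))))) (node 430 (merge (leaf 0 429 429) (node 401 (merge (leaf 2 398 402) (node 398 (merge (leaf 3 397 397) (node 366 (merge (leaf 4 334 334) (node 369 (merge (leaf 5 336 337) (node 368 (merge (leaf 7 336 336) (node 400 (merge (leaf 7 368 497) (node 367 (merge (leaf 7 335 335) (leaf 0 365 365)))))))))))))))))))) (node 465 (merge (node 434 (merge (leaf 1 431 435) (node 466 (merge (leaf 0 431 467) (node 498 (merge (leaf 0 463 499) (node 401 (merge (leaf 4 369 369) (leaf 7 401 530))))))))) (merge (node 434 (merge (leaf 1 431 435) (node 466 (merge (leaf 0 431 467) (node 402 (merge (leaf 2 399 403) (node 370 (merge (leaf 5 337 338) (leaf 5 369 497))))))))) (merge (node 466 (merge (leaf 3 431 467) (node 498 (merge (leaf 0 463 499) (node 401 (merge (leaf 4 369 369) (node 497 (merge (leaf 4 401 530) (node 402 (merge (leaf 6 369 370) (node 403 (merge (leaf 1 399 400) (leaf 1 400 404))))))))))))) (node 434 (merge (leaf 1 431 435) (node 402 (merge (leaf 2 399 403) (node 370 (merge (leaf 5 337 338) (node 401 (merge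 (leaf 6 369 497) (node 369 (merge (leaf 5 336 337) (node 368 (merge (leaf 7 336 336) (node 367 (merge (leaf 0 366 366) (node 335 (merge (leaf 3 334 334) (leaf 7 335 400))))))))))))))))))))))))))) (merge (node 433 (merge (node 434 (merge (node 435 (merge (leaf 1 431 464) (node 403 (merge (leaf 2 399 402) (leaf 2 400 404))))) (merge (node 467 (merge (leaf 0 431 466) (node 435 (merge (leaf 1 431 464) (leaf 0 432 468))))) (node 466 (merge (leaf 0 431 467) (node 430 (merge (leaf 0 430 465) (node 402 (merge (leaf 2 398 401) (leaf 2 399 403)))))))))) (merge (node 464 (merge (leaf 7 431 496) (node 434 (merge (leaf 1 431 435) (node 466 (merge (leaf 0 431 467) (node 430 (merge (leaf 0 430 465) (node 429 (merge (leaf 0 428 428) (node 397 (merge (leaf 3 396 396) (leaf 3 397 398))))))))))))) (merge (node 464 (merge (leaf 7 431 496) (node 434 (merge (leaf 1 431 435) (node 402 (merge (leaf 2 399 403) (node 430 (merge (leaf 2 398 401) (node 429 (merge (leaf 0 428 428) (node 397 (merge (leaf 3 396 396) (leaf 3 397 398))))))))))))) (merge (node 434 (merge (node 402 (merge (leaf 2 399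 403) (node 430 (merge (leaf 2 398 401) (node 398 (merge (leaf 3 397 397) (leaf 3 398 399))))))) (merge (node 467 (merge (leaf 0 431 466) (node 435 (merge (leaf 0 432 468) (node 403 (merge (leaf 2 399 402) (leaf 2 400 404))))))) (node 466 (merge (leaf 0 431 467) (node 430 (merge (leaf 0 430 465) (node 398 (merge (leaf 3 397 397) (leaf 3 398 399)))))))))) (merge (node 465 (merge (node 430 (merge (leaf 0 430 466) (node 429 (merge (leaf 0 429 464) (node 397 (merge (leaf 3 396 396) (leaf 3 397 398))))))) (merge (node 401 (merge (node 496 (merge (leaf 6 400 464) (leaf 5 400 497))) (merge (node 430 (merge (leaf 2 398 402) (node 429 (merge (leaf 0 429 464) (node 397 (merge (leaf 3 396 396) (leaf 3 397 398))))))) (node 402 (merge (leaf 2 398 430) (node 497 (merge (leaf 6 369 370) (leaf 5 400 496)))))))) (merge (node 401 (merge (node 430 (merge (leaf 2 398 402) (leaf 0 430 466))) (merge (node 402 (merge (leaf 2 398 430) (node 497 (merge (leaf 6 369 370) (leaf 5 400 496))))) (merge (node 466 (merge (leaf 0 430 430) (node 498 (merge (leaf 4 369 369) (node 497 (merge (leaf 5 400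 496) (leaf 4 401 530))))))) (node 497 (merge (leaf 5 400 496) (node 370 (merge (leaf 6 369 402) (node 369 (merge (leaf 6 337 338) (node 498 (merge (leaf 4 369 466) (leaf 4 401 530))))))))))))) (node 464 (merge (leaf 6 432 496) (node 466 (merge (leaf 3 431 467) (node 498 (merge (leaf 0 463 499) (node 562 (merge (leaf 7 433 530) (node 527 (merge (leaf 3 526 526) (leaf 3 527 563))))))))))))))) (node 464 (merge (leaf 7 431 496) (node 465 (merge (node 434 (merge (leaf 1 431 435) (node 466 (merge (leaf 0 431 467) (node 402 (merge (leaf 2 399 403) (node 370 (merge (leaf 5 337 338) (leaf 5 369 497))))))))) (merge (node 466 (merge (leaf 3 431 467) (node 498 (merge (leaf 0 463 499) (node 530 (merge (leaf 7 433 562) (node 401 (merge (leaf 4 369 369) (leaf 4 401 497))))))))) (merge (node 434 (merge (leaf 1 431 435) (node 466 (merge (leaf 0 431 467) (node 498 (merge (leaf 0 463 499) (node 530 (merge (leaf 7 401 401) (leaf 7 433 562))))))))) (node 434 (merge (leaf 1 431 435) (node 402 (merge (leaf 2 399 403) (node 399 (merge (leaf 3 398 398) (node 367 (merge (leaf 4 335 335) (node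 368 (merge (leaf 6 335 336) (node 366 (merge (leaf 7 334 334) (node 401 (merge (leaf 0 366 369) (node 370 (merge (leaf 5 337 338) (leaf 6 369 497))))))))))))))))))))))))))))) (merge (node 430 (merge (node 464 (merge (leaf 7 431 496) (node 465 (merge (leaf 0 429 429) (leaf 3 430 466))))) (merge (node 429 (merge (node 460 (merge (leaf 1 428 461) (node 428 (merge (leaf 1 427 459) (node 396 (merge (leaf 3 395 395) (leaf 3 396 397))))))) (merge (node 461 (merge (leaf 1 428 460) (node 397 (merge (leaf 3 396 396) (node 398 (merge (leaf 3 397 433) (node 366 (merge (leaf 4 334 334) (leaf 6 365 493))))))))) (merge (node 428 (merge (node 396 (merge (leaf 3 395 395) (leaf 3 396 397))) (merge (node 399 (merge (leaf 2 396 400) (node 427 (merge (leaf 2 395 398) (node 458 (merge (leaf 1 426 459) (node 426 (merge (leaf 1 425 457) (node 394 (merge (leaf 3 393 393) (leaf 3 394 395))))))))))) (node 399 (merge (leaf 2 396 400) (node 398 (merge (leaf 2 395 427) (node 397 (merge (leaf 0 396 396) (leaf 3 397 433)))))))))) (merge (node 460 (merge (leaf 1 428 461) (node 428 (merge (leaf 1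 427 459) (node 399 (merge (leaf 2 396 400) (node 427 (merge (leaf 2 395 398) (node 395 (merge (leaf 3 394 394) (leaf 3 395 396))))))))))) (node 460 (merge (leaf 1 428 461) (node 428 (merge (leaf 1 427 459) (node 399 (merge (leaf 2 396 400) (node 398 (merge (leaf 2 395 427) (node 433 (merge (leaf 3 397 397) (leaf 3 398 434)))))))))))))))) (node 366 (merge (node 398 (merge (leaf 4 334 334) (node 397 (merge (leaf 3 397 433) (node 396 (merge (leaf 0 395 395) (leaf 0 396 399))))))) (merge (node 464 (merge (leaf 7 431 496) (node 466 (merge (leaf 3 430 465) (node 398 (merge (leaf 4 334 334) (node 433 (merge (leaf 3 397 397) (node 434 (merge (leaf 1 431 435) (leaf 0 431 467))))))))))) (merge (node 368 (merge (node 464 (merge (leaf 7 431 496) (node 465 (merge (leaf 3 430 466) (node 400 (merge (leaf 5 335 336) (leaf 4 368 497))))))) (node 334 (merge (leaf 4 334 398) (node 367 (merge (leaf 7 334 399) (node 333 (merge (leaf 3 333 369) (node 332 (merge (leaf 0 331 331) (leaf 0 332 335))))))))))) (merge (node 368 (merge (node 464 (merge (leaf 7 431 496) (node 465 (merge (leaf 3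 430 466) (node 400 (merge (leaf 5 335 336) (leaf 4 368 497))))))) (merge (node 336 (merge (leaf 5 335 400) (node 367 (merge (leaf 6 335 399) (node 337 (merge (leaf 2 333 365) (node 338 (merge (leaf 1 334 335) (leaf 1 335 339))))))))) (merge (node 464 (merge (leaf 7 431 496) (node 465 (merge (leaf 3 430 466) (node 400 (merge (leaf 4 368 497) (node 369 (merge (leaf 6 336 337) (node 367 (merge (leaf 7 335 335) (node 334 (merge (leaf 3 333 333) (leaf 7 334 399))))))))))))) (node 367 (merge (node 399 (merge (leaf 7 334 334) (leaf 6 335 336))) (merge (node 399 (merge (leaf 7 334 334) (node 464 (merge (leaf 4 335 335) (leaf 7 399 496))))) (merge (node 399 (merge (leaf 6 335 336) (node 464 (merge (leaf 4 335 335) (leaf 7 399 496))))) (node 365 (merge (node 396 (merge (leaf 1 364 397) (node 364 (merge (leaf 1 363 395) (node 336 (merge (leaf 2 332 335) (leaf 2 333 337))))))) (merge (node 337 (merge (leaf 2 333 336) (node 369 (merge (leaf 2 334 338) (node 333 (merge (leaf 3 332 332) (leaf 3 333 334))))))) (node 396 (merge (leaf 1 364 397) (node 364 (merge (leaf 1 363 395) (node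 332 (merge (leaf 3 331 331) (leaf 3 332 333)))))))))))))))))) (node 368 (merge (node 464 (merge (leaf 7 431 496) (node 465 (merge (leaf 3 430 466) (node 400 (merge (leaf 5 335 336) (leaf 4 368 497))))))) (merge (node 336 (merge (leaf 5 335 400) (node 367 (merge (leaf 6 335 399) (node 337 (merge (leaf 2 333 365) (node 338 (merge (leaf 1 335 339) (leaf 2 334 369))))))))) (merge (node 367 (merge (node 399 (merge (leaf 6 335 336) (node 464 (merge (leaf 4 335 335) (leaf 7 399 496))))) (merge (node 336 (merge (leaf 6 335 399) (node 337 (merge (leaf 2 333 365) (node 338 (merge (leaf 1 335 339) (leaf 2 334 369))))))) (merge (node 365 (merge (node 397 (merge (leaf 1 364 396) (node 398 (merge (leaf 1 365 369) (leaf 3 397 433))))) (node 336 (merge (leaf 2 333 337) (node 364 (merge (leaf 2 332 335) (node 332 (merge (leaf 3 331 331) (leaf 3 332 333))))))))) (node 365 (merge (node 397 (merge (leaf 1 364 396) (node 398 (merge (leaf 1 365 369) (leaf 3 397 433))))) (merge (node 396 (merge (leaf 1 364 397) (node 364 (merge (leaf 1 363 395) (node 332 (merge (leaf 3 331 331) (leaf 3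 332 333))))))) (merge (node 399 (merge (node 464 (merge (leaf 4 335 335) (leaf 7 399 496))) (node 332 (merge (leaf 3 332 333) (node 364 (merge (leaf 3 331 331) (node 398 (merge (leaf 0 363 363) (node 369 (merge (leaf 1 366 370) (leaf 1 365 397))))))))))) (node 464 (merge (leaf 7 431 496) (node 332 (merge (leaf 3 332 333) (node 364 (merge (leaf 3 331 331) (node 395 (merge (leaf 1 363 396) (node 363 (merge (leaf 1 362 394) (node 399 (merge (leaf 4 335 335) (leaf 0 363 398))))))))))))))))))))) (node 397 (merge (node 398 (merge (leaf 3 397 433) (node 396 (merge (leaf 0 395 395) (leaf 0 396 399))))) (merge (node 464 (merge (leaf 7 431 496) (node 433 (merge (leaf 3 397 398) (node 466 (merge (leaf 0 430 465) (node 434 (merge (leaf 1 431 435) (leaf 0 431 467))))))))) (node 464 (merge (leaf 7 431 496) (node 465 (merge (leaf 3 430 466) (node 400 (merge (leaf 4 368 497) (node 367 (merge (leaf 7 335 335) (node 365 (merge (leaf 1 364 396) (node 364 (merge (leaf 0 364 399) (node 332 (merge (leaf 3 331 331) (leaf 3 332 333)))))))))))))))))))))))))))))) (merge (node 464 (merge (leaf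 7 431 496) (node 368 (merge (node 367 (merge (node 400 (merge (leaf 7 335 335) (leaf 5 335 336))) (merge (node 335 (merge (leaf 4 335 399) (leaf 7 335 400))) (merge (node 336 (merge (leaf 6 335 399) (leaf 5 335 400))) (node 399 (merge (leaf 4 335 335) (leaf 6 335 336))))))) (merge (node 400 (merge (leaf 5 335 336) (node 465 (merge (leaf 4 368 497) (node 466 (merge (leaf 3 430 430) (leaf 3 431 467))))))) (merge (node 562 (merge (node 595 (merge (leaf 0 559 594) (node 563 (merge (leaf 3 527 527) (leaf 0 560 596))))) (node 367 (merge (node 335 (merge (leaf 4 335 399) (leaf 7 335 400))) (merge (node 400 (merge (leaf 7 335 335) (node 465 (merge (leaf 4 368 497) (node 430 (merge (leaf 0 429 429) (leaf 3 430 466))))))) (merge (node 366 (merge (node 399 (merge (leaf 7 334 334) (leaf 4 335 335))) (node 397 (merge (node 369 (merge (leaf 1 365 398) (node 402 (merge (leaf 0 366 401) (node 370 (merge (leaf 0 367 403) (node 338 (merge (leaf 2 334 337) (leaf 2 335 339))))))))) (node 365 (merge (leaf 1 364 396) (node 332 (merge (leaf 3 332 333) (node 364 (merge (leaf 3 331 331) (node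 429 (merge (leaf 7 332 461) (node 430 (merge (leaf 0 428 428) (node 465 (merge (leaf 0 429 432) (leaf 3 430 466))))))))))))))))) (node 369 (merge (node 400 (merge (leaf 6 336 337) (node 465 (merge (leaf 4 368 497) (node 466 (merge (leaf 3 430 430) (leaf 3 431 467))))))) (merge (node 398 (merge (node 366 (merge (leaf 1 365 397) (node 334 (merge (leaf 3 333 333) (leaf 7 334 399))))) (merge (node 370 (merge (leaf 1 366 399) (node 403 (merge (leaf 0 367 402) (node 371 (merge (leaf 0 368 404) (node 339 (merge (leaf 2 335 338) (leaf 2 336 340))))))))) (node 366 (merge (leaf 1 365 397) (node 402 (merge (leaf 0 366 401) (node 370 (merge (leaf 0 367 403) (node 338 (merge (leaf 2 334 337) (leaf 2 335 339)))))))))))) (node 398 (merge (node 397 (merge (leaf 1 365 366) (node 399 (merge (leaf 1 366 370) (leaf 0 396 396))))) (merge (node 370 (merge (leaf 1 366 399) (node 403 (merge (leaf 0 367 402) (node 371 (merge (leaf 0 368 404) (node 339 (merge (leaf 2 335 338) (leaf 2 336 340))))))))) (node 366 (merge (leaf 1 365 397) (node 401 (merge (leaf 0 366 402) (node 365 (merge (leaf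 0 365 400) (node 333 (merge (leaf 3 332 332) (leaf 3 333 334))))))))))))))))))))) (node 562 (merge (node 595 (merge (leaf 0 559 594) (node 563 (merge (leaf 3 527 527) (leaf 0 560 596))))) (node 367 (merge (node 399 (merge (leaf 4 335 335) (leaf 6 335 336))) (merge (node 430 (merge (node 465 (merge (leaf 0 429 429) (leaf 3 430 466))) (node 366 (merge (node 334 (merge (leaf 4 334 398) (leaf 7 334 399))) (merge (node 336 (merge (leaf 6 335 399) (node 337 (merge (leaf 2 333 365) (node 338 (merge (leaf 1 335 339) (leaf 2 334 369))))))) (node 398 (merge (leaf 4 334 334) (node 397 (merge (leaf 1 365 369) (node 396 (merge (leaf 1 364 365) (leaf 0 395 395)))))))))))) (merge (node 366 (merge (node 399 (merge (leaf 7 334 334) (leaf 4 335 335))) (node 397 (merge (node 369 (merge (leaf 1 365 398) (node 402 (merge (leaf 0 366 401) (node 370 (merge (leaf 0 367 403) (node 338 (merge (leaf 2 334 337) (leaf 2 335 339))))))))) (node 365 (merge (leaf 1 364 396) (node 332 (merge (leaf 3 332 333) (node 364 (merge (leaf 3 331 331) (node 429 (merge (leaf 7 332 461) (node 430 (merge (leaf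 0 428 428) (node 465 (merge (leaf 0 429 432) (leaf 3 430 466))))))))))))))))) (node 366 (merge (node 430 (merge (node 465 (merge (leaf 0 429 429) (leaf 3 430 466))) (node 334 (merge (leaf 4 334 398) (node 333 (merge (leaf 3 333 369) (node 332 (merge (leaf 0 331 331) (leaf 0 332 335))))))))) (merge (node 430 (merge (node 429 (merge (leaf 0 428 428) (node 465 (merge (leaf 0 429 432) (leaf 3 430 466))))) (node 398 (merge (leaf 4 334 334) (node 397 (merge (leaf 1 365 369) (node 396 (merge (leaf 1 364 365) (leaf 0 395 395))))))))) (merge (node 365 (merge (node 397 (merge (leaf 1 364 396) (node 369 (merge (leaf 1 365 398) (node 337 (merge (leaf 2 333 336) (leaf 2 334 338))))))) (merge (node 396 (merge (leaf 1 364 397) (node 364 (merge (leaf 1 363 395) (node 332 (merge (leaf 3 331 331) (leaf 3 332 333))))))) (node 336 (merge (leaf 2 333 337) (node 364 (merge (leaf 2 332 335) (node 332 (merge (leaf 3 331 331) (leaf 3 332 333)))))))))) (merge (node 333 (merge (node 332 (merge (leaf 3 332 365) (node 334 (merge (leaf 0 331 331) (leaf 3 333 369))))) (merge (node 365 (merge (leaf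 3 332 332) (node 396 (merge (leaf 1 364 397) (node 364 (merge (leaf 1 363 395) (node 336 (merge (leaf 2 332 335) (leaf 2 333 337))))))))) (node 369 (merge (leaf 3 333 334) (node 402 (merge (leaf 0 366 401) (node 370 (merge (leaf 0 367 403) (node 338 (merge (leaf 2 334 337) (leaf 2 335 339)))))))))))) (node 334 (merge (node 430 (merge (leaf 4 334 398) (node 429 (merge (leaf 0 428 428) (leaf 0 429 465))))) (merge (node 365 (merge (node 336 (merge (leaf 2 333 337) (node 364 (merge (leaf 2 332 335) (node 332 (merge (leaf 3 331 331) (leaf 3 332 333))))))) (merge (node 397 (merge (leaf 1 364 396) (node 429 (merge (leaf 6 333 461) (node 333 (merge (leaf 6 301 302) (leaf 3 332 332))))))) (node 396 (merge (leaf 1 364 397) (node 364 (merge (leaf 1 363 395) (node 336 (merge (leaf 2 332 335) (leaf 2 333 337)))))))))) (node 398 (merge (leaf 4 334 430) (node 365 (merge (node 396 (merge (leaf 1 364 397) (node 364 (merge (leaf 1 363 395) (node 332 (merge (leaf 3 331 331) (leaf 3 332 333))))))) (merge (node 396 (merge (leaf 1 364 397) (node 364 (merge (leaf 1 363 395) (node 336 (merge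 (leaf 2 332 335) (leaf 2 333 337))))))) (merge (node 336 (merge (leaf 2 333 337) (node 335 (merge (leaf 2 332 364) (node 333 (merge (leaf 0 332 332) (node 301 (merge (leaf 4 269 269) (leaf 3 300 300))))))))) (node 397 (merge (leaf 1 364 396) (node 336 (merge (leaf 2 333 337) (node 333 (merge (leaf 3 332 332) (node 301 (merge (leaf 4 269 269) (node 300 (merge (leaf 7 268 268) (leaf 3 300 335))))))))))))))))))))))))))))))))))))) (merge (node 433 (merge (node 434 (merge (node 435 (merge (leaf 1 431 464) (node 403 (merge (leaf 2 399 402) (leaf 2 400 404))))) (merge (node 467 (merge (leaf 0 431 466) (node 435 (merge (leaf 1 431 464) (leaf 0 432 468))))) (node 466 (merge (leaf 0 431 467) (node 430 (merge (leaf 0 430 465) (node 402 (merge (leaf 2 398 401) (leaf 2 399 403)))))))))) (merge (node 434 (merge (node 467 (merge (leaf 0 431 466) (node 435 (merge (leaf 1 431 464) (leaf 0 432 468))))) (merge (node 435 (merge (leaf 1 431 464) (node 399 (merge (leaf 3 398 398) (leaf 3 399 400))))) (node 466 (merge (leaf 0 431 467) (node 430 (merge (leaf 0 430 465) (node 398 (merge (leaf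 3 397 397) (leaf 3 398 399)))))))))) (merge (node 434 (merge (node 467 (merge (leaf 0 431 466) (node 435 (merge (leaf 0 432 468) (node 399 (merge (leaf 3 398 398) (leaf 3 399 400))))))) (merge (node 402 (merge (leaf 2 399 403) (node 430 (merge (leaf 2 398 401) (node 398 (merge (leaf 3 397 397) (leaf 3 398 399))))))) (node 467 (merge (leaf 0 431 466) (node 435 (merge (leaf 0 432 468) (node 403 (merge (leaf 2 399 402) (leaf 2 400 404)))))))))) (merge (node 430 (merge (node 402 (merge (leaf 2 398 401) (node 434 (merge (leaf 2 399 403) (node 398 (merge (leaf 3 397 397) (leaf 3 398 399))))))) (merge (node 398 (merge (leaf 3 397 397) (node 434 (merge (leaf 3 398 399) (node 464 (merge (leaf 1 431 435) (node 429 (merge (leaf 0 428 428) (leaf 0 429 465))))))))) (node 401 (merge (leaf 2 398 402) (node 429 (merge (leaf 2 397 400) (node 428 (merge (leaf 0 428 464) (node 460 (merge (leaf 1 427 459) (leaf 1 428 461)))))))))))) (merge (node 399 (merge (node 398 (merge (leaf 3 398 434) (node 397 (merge (leaf 0 396 396) (leaf 0 397 400))))) (merge (node 434 (merge (leaf 3 398 398)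 (node 467 (merge (leaf 0 431 466) (node 435 (merge (leaf 1 431 464) (leaf 0 432 468))))))) (merge (node 402 (merge (node 403 (merge (leaf 2 399 434) (node 401 (merge (leaf 1 399 400) (leaf 1 400 404))))) (merge (node 434 (merge (leaf 2 399 403) (node 467 (merge (leaf 0 431 466) (node 435 (merge (leaf 1 431 464) (leaf 0 432 468))))))) (node 367 (merge (node 334 (merge (leaf 7 334 366) (node 335 (merge (leaf 7 302 302) (leaf 4 335 464))))) (merge (node 336 (merge (leaf 6 335 368) (node 335 (merge (leaf 6 303 304) (leaf 4 335 464))))) (node 368 (merge (leaf 6 335 336) (node 366 (merge (leaf 7 334 334) (node 401 (merge (leaf 0 366 369) (leaf 3 366 400))))))))))))) (node 367 (merge (node 334 (merge (leaf 7 334 366) (node 335 (merge (leaf 7 302 302) (leaf 4 335 464))))) (merge (node 336 (merge (leaf 6 335 368) (node 335 (merge (leaf 6 303 304) (leaf 4 335 464))))) (node 366 (merge (leaf 7 334 334) (node 365 (merge (node 400 (merge (leaf 0 364 364) (node 401 (merge (leaf 3 365 398) (leaf 3 366 402))))) (merge (node 368 (merge (leaf 6 335 336) (node 400 (merge (leaf 0 364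 364) (leaf 0 365 401))))) (merge (node 368 (merge (leaf 6 335 336) (node 397 (merge (leaf 1 364 396) (node 398 (merge (leaf 1 365 369) (node 364 (merge (leaf 0 363 363) (node 332 (merge (leaf 3 331 331) (leaf 3 332 333))))))))))) (node 368 (merge (leaf 6 335 336) (node 401 (merge (leaf 0 365 400) (node 369 (merge (leaf 0 366 402) (node 397 (merge (leaf 1 364 396) (leaf 1 365 398)))))))))))))))))))))) (node 562 (merge (node 595 (merge (leaf 0 559 594) (node 563 (merge (leaf 3 527 527) (leaf 0 560 596))))) (node 401 (merge (node 430 (merge (leaf 2 398 402) (node 429 (merge (leaf 2 397 400) (node 397 (merge (leaf 3 396 396) (leaf 3 397 398))))))) (merge (node 430 (merge (leaf 2 398 402) (node 465 (merge (leaf 0 430 466) (node 429 (merge (leaf 0 429 464) (node 397 (merge (leaf 3 396 396) (leaf 3 397 398))))))))) (merge (node 369 (merge (node 337 (merge (leaf 5 336 464) (node 304 (merge (leaf 7 304 336) (node 305 (merge (leaf 7 272 272) (leaf 5 304 400))))))) (merge (node 337 (merge (leaf 5 336 464) (node 306 (merge (leaf 6 305 338) (node 305 (merge (leaf 6 273 274) (leaf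 5 304 400))))))) (merge (node 337 (merge (leaf 5 336 464) (node 338 (merge (leaf 6 305 306) (node 465 (merge (leaf 6 337 370) (node 336 (merge (leaf 7 304 304) (leaf 7 336 368))))))))) (merge (node 337 (merge (node 306 (merge (leaf 6 305 338) (node 305 (merge (leaf 6 273 274) (leaf 5 304 400))))) (merge (node 304 (merge (leaf 7 304 336) (node 305 (merge (leaf 7 272 272) (leaf 5 304 400))))) (node 338 (merge (leaf 6 305 306) (node 465 (merge (leaf 6 337 370) (node 336 (merge (leaf 7 304 304) (leaf 7 336 368)))))))))) (node 465 (merge (node 466 (merge (leaf 4 369 498) (node 467 (merge (leaf 3 431 464) (leaf 3 432 468))))) (node 370 (merge (leaf 6 337 338) (node 497 (merge (leaf 6 369 402) (node 368 (merge (leaf 7 336 336) (leaf 7 368 400)))))))))))))) (node 369 (merge (node 337 (merge (leaf 5 336 464) (node 304 (merge (leaf 7 304 336) (node 305 (merge (leaf 7 272 272) (leaf 5 304 400))))))) (merge (node 337 (merge (leaf 5 336 464) (node 306 (merge (leaf 6 305 338) (node 305 (merge (leaf 6 273 274) (leaf 5 304 400))))))) (merge (node 337 (merge (leaf 5 336 464) (node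 338 (merge (leaf 6 305 306) (node 465 (merge (leaf 6 337 370) (node 336 (merge (leaf 7 304 304) (leaf 7 336 368))))))))) (node 465 (merge (node 466 (merge (leaf 0 430 430) (leaf 4 369 498))) (node 370 (merge (leaf 6 337 338) (node 368 (merge (leaf 7 336 336) (node 400 (merge (leaf 7 368 497) (node 371 (merge (leaf 1 368 372) (leaf 1 367 399))))))))))))))))))))))))))) (merge (hyp 0) (merge (hyp 1) (hyp 2)))))))))))) nP_398 cP_398 15 (by decide +kernel)
def nP_399 : ℕ := 0x380000001000000000000000080000001800000000000000000000000000000000000000000000000000000000000000000000000000000000000000000000000000000000000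
def cP_399 : ℕ := 0xee0000004400000040000000f0000001f0000000e0000001ffc00000ff800000ffc000007c0000001c0000001400000000000000000000000000000000000000000000000000000000000
theorem lP_399 : S nP_399 cP_399 13 := S_of_chk [] trivial (node 399 (merge (node 367 (merge (node 334 (merge (leaf 7 334 366) (node 335 (merge (leaf 7 302 302) (leaf 4 335 464))))) (merge (node 336 (merge (leaf 6 335 368) (node 335 (merge (leaf 6 303 304) (leaf 4 335 464))))) (node 366 (merge (leaf 7 334 334) (node 365 (merge (node 400 (merge (leaf 0 364 364) (node 401 (merge (leaf 3 365 398) (leaf 3 366 402))))) (merge (node 368 (merge (leaf 6 335 336) (node 400 (merge (leaf 0 364 364) (leaf 0 365 401))))) (merge (node 368 (merge (leaf 6 335 336) (node 397 (merge (leaf 1 364 396) (node 398 (merge (leaf 1 365 369) (node 364 (merge (leaf 0 363 363) (node 332 (merge (leaf 3 331 331) (leaf 3 332 333))))))))))) (node 368 (merge (leaf 6 335 336) (node 401 (merge (leaf 0 365 400) (node 369 (merge (leaf 0 366 402) (node 397 (merge (leaf 1 364 396) (leaf 1 365 398)))))))))))))))))) (merge (node 464 (merge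 (leaf 7 399 496) (node 400 (merge (node 368 (merge (leaf 5 335 336) (node 369 (merge (leaf 6 336 337) (node 370 (merge (leaf 1 367 371) (node 398 (merge (leaf 2 365 397) (leaf 2 366 401))))))))) (merge (node 368 (merge (leaf 5 335 336) (node 465 (merge (leaf 4 368 497) (node 466 (merge (leaf 3 431 467) (node 434 (merge (leaf 2 431 435) (node 398 (merge (leaf 3 398 433) (node 397 (merge (leaf 2 365 369) (leaf 0 396 396))))))))))))) (merge (node 368 (merge (leaf 5 335 336) (node 369 (merge (leaf 6 336 337) (node 465 (merge (leaf 4 368 497) (node 466 (merge (leaf 3 431 467) (node 498 (merge (leaf 0 463 499) (node 434 (merge (leaf 2 431 435) (node 401 (merge (leaf 7 369 402) (leaf 4 369 433))))))))))))))) (merge (node 401 (merge (node 402 (merge (leaf 1 399 403) (node 434 (merge (leaf 0 399 435) (node 433 (merge (leaf 0 398 398) (node 466 (merge (leaf 0 431 467) (node 369 (merge (leaf 4 337 337) (leaf 7 369 498))))))))))) (merge (node 433 (merge (node 398 (merge (leaf 0 397 397) (leaf 3 398 434))) (merge (node 398 (merge (leaf 0 397 397) (node 369 (merge (leaf 5 336 337)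 (leaf 2 366 370))))) (node 434 (merge (leaf 1 431 435) (node 466 (merge (leaf 0 431 467) (node 498 (merge (leaf 7 401 530) (node 369 (merge (leaf 4 337 337) (leaf 4 369 465)))))))))))) (merge (node 369 (merge (node 337 (merge (leaf 5 304 305) (leaf 5 336 433))) (merge (node 402 (merge (leaf 1 399 403) (node 434 (merge (leaf 0 399 435) (node 466 (merge (leaf 7 369 498) (node 467 (merge (leaf 0 431 433) (leaf 3 431 465))))))))) (node 402 (merge (leaf 1 399 403) (node 434 (merge (leaf 0 399 435) (node 466 (merge (leaf 7 369 498) (node 337 (merge (leaf 4 305 305) (leaf 7 337 370)))))))))))) (merge (node 402 (merge (leaf 1 399 403) (node 434 (merge (leaf 0 399 435) (node 370 (merge (leaf 2 367 371) (node 369 (merge (leaf 2 366 398) (node 337 (merge (leaf 4 305 305) (leaf 7 337 466))))))))))) (merge (node 402 (merge (leaf 1 399 403) (node 370 (merge (leaf 2 367 371) (node 398 (merge (leaf 2 366 369) (node 397 (merge (leaf 0 396 396) (leaf 0 397 433))))))))) (node 402 (merge (leaf 1 399 403) (node 434 (merge (leaf 0 399 435) (node 433 (merge (leaf 0 398 398) (node 370 (merge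 (leaf 2 367 371) (node 338 (merge (leaf 5 305 306) (leaf 5 337 465))))))))))))))))) (node 368 (merge (leaf 5 335 336) (node 465 (merge (leaf 4 368 497) (node 466 (merge (leaf 3 431 467) (node 434 (merge (leaf 2 431 435) (node 433 (merge (leaf 3 398 398) (node 402 (merge (leaf 2 399 403) (node 370 (merge (leaf 5 337 338) (node 371 (merge (leaf 6 338 339) (leaf 2 367 401)))))))))))))))))))))))) (merge (node 464 (merge (leaf 7 399 496) (node 465 (merge (node 367 (merge (leaf 4 335 335) (node 368 (merge (leaf 6 335 336) (node 366 (merge (leaf 7 334 334) (node 400 (merge (leaf 4 368 497) (node 365 (merge (leaf 0 364 364) (leaf 0 365 401))))))))))) (merge (node 466 (merge (leaf 3 431 467) (node 434 (merge (leaf 2 431 435) (node 433 (merge (leaf 3 398 398) (node 402 (merge (leaf 2 399 403) (node 370 (merge (leaf 5 337 338) (leaf 5 369 497))))))))))) (node 466 (merge (leaf 3 431 467) (node 498 (merge (leaf 0 463 499) (node 434 (merge (leaf 2 431 435) (node 433 (merge (leaf 3 398 398) (node 401 (merge (leaf 7 401 530) (node 402 (merge (leaf 2 399 403) (node 367 (merge (leaf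 4 335 335) (node 400 (merge (leaf 3 366 366) (node 370 (merge (leaf 5 337 338) (leaf 2 367 371)))))))))))))))))))))))) (merge (node 367 (merge (node 334 (merge (leaf 7 334 366) (node 335 (merge (leaf 7 302 302) (node 464 (merge (leaf 4 335 432) (leaf 7 431 496))))))) (merge (node 336 (merge (leaf 6 335 368) (node 335 (merge (leaf 6 303 304) (node 464 (merge (leaf 4 335 432) (leaf 7 431 496))))))) (node 368 (merge (leaf 6 335 336) (node 369 (merge (node 398 (merge (leaf 1 366 370) (node 397 (merge (leaf 2 364 396) (leaf 2 365 400))))) (merge (node 366 (merge (leaf 7 334 334) (node 398 (merge (leaf 1 366 370) (leaf 1 365 397))))) (merge (node 366 (merge (leaf 7 334 334) (node 338 (merge (leaf 2 334 337) (node 370 (merge (leaf 2 335 339) (node 403 (merge (leaf 0 367 402) (node 371 (merge (leaf 1 367 400) (leaf 0 368 404))))))))))) (node 366 (merge (leaf 7 334 334) (node 397 (merge (leaf 1 365 398) (node 365 (merge (leaf 1 364 396) (node 364 (merge (leaf 0 364 400) (node 332 (merge (leaf 3 331 331) (leaf 3 332 333)))))))))))))))))))) (merge (node 433 (merge (node 398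 (merge (leaf 3 398 434) (node 397 (merge (leaf 0 396 396) (leaf 0 397 400))))) (merge (node 434 (merge (leaf 3 398 398) (node 467 (merge (leaf 0 431 466) (node 435 (merge (leaf 1 431 464) (leaf 0 432 468))))))) (merge (node 402 (merge (node 464 (merge (leaf 7 399 496) (node 434 (merge (leaf 2 399 403) (leaf 1 431 435))))) (merge (node 403 (merge (leaf 2 399 434) (node 401 (merge (leaf 1 399 400) (leaf 1 400 404))))) (node 464 (merge (leaf 7 399 496) (node 367 (merge (leaf 4 335 335) (node 366 (merge (leaf 7 334 334) (node 401 (merge (leaf 3 366 400) (node 369 (merge (leaf 5 336 337) (leaf 0 366 368)))))))))))))) (node 401 (merge (node 464 (merge (leaf 6 400 496) (node 367 (merge (leaf 4 335 335) (node 366 (merge (leaf 7 334 334) (node 400 (merge (leaf 3 366 402) (node 365 (merge (leaf 0 364 364) (leaf 0 365 368))))))))))) (merge (node 465 (merge (node 496 (merge (leaf 6 400 464) (leaf 5 400 497))) (merge (node 464 (merge (leaf 6 400 496) (node 466 (merge (leaf 3 431 467) (node 369 (merge (leaf 5 336 337) (leaf 4 369 498))))))) (merge (node 466 (merge (node 467 (merge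 (leaf 3 431 464) (leaf 3 432 468))) (node 498 (merge (leaf 4 369 369) (node 530 (merge (leaf 4 401 497) (leaf 7 433 562))))))) (node 497 (merge (leaf 5 400 496) (node 370 (merge (leaf 6 369 402) (node 369 (merge (leaf 6 337 338) (node 498 (merge (leaf 4 369 466) (leaf 4 401 530))))))))))))) (merge (node 465 (merge (node 496 (merge (leaf 6 400 464) (leaf 5 400 497))) (merge (node 464 (merge (leaf 6 400 496) (node 466 (merge (leaf 3 431 467) (node 369 (merge (leaf 5 336 337) (leaf 4 369 498))))))) (merge (node 466 (merge (node 467 (merge (leaf 3 431 464) (leaf 3 432 468))) (node 498 (merge (leaf 4 369 369) (node 530 (merge (leaf 4 401 497) (leaf 7 433 562))))))) (node 497 (merge (leaf 5 400 496) (node 400 (merge (leaf 7 368 368) (node 398 (merge (leaf 0 397 397) (node 369 (merge (leaf 2 366 370) (node 498 (merge (leaf 4 369 466) (leaf 4 401 530))))))))))))))) (node 400 (merge (node 398 (merge (leaf 0 397 397) (node 366 (merge (leaf 3 365 365) (node 334 (merge (leaf 4 302 302) (leaf 7 334 367))))))) (node 402 (merge (leaf 1 399 403) (node 370 (merge (leaf 2 367 371)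 (node 465 (merge (leaf 6 369 497) (node 338 (merge (leaf 5 305 306) (leaf 6 337 369))))))))))))))))))) (merge (node 433 (merge (node 398 (merge (leaf 3 398 434) (node 397 (merge (leaf 0 396 396) (leaf 0 397 400))))) (merge (node 434 (merge (leaf 3 398 398) (node 467 (merge (leaf 0 431 466) (node 435 (merge (leaf 1 431 464) (leaf 0 432 468))))))) (merge (node 367 (merge (node 464 (merge (leaf 4 335 335) (leaf 7 399 496))) (merge (node 334 (merge (leaf 7 334 366) (node 335 (merge (leaf 7 302 302) (node 304 (merge (leaf 6 303 336) (node 303 (merge (leaf 6 271 272) (leaf 4 303 400))))))))) (node 366 (merge (leaf 7 334 334) (node 464 (merge (leaf 7 399 496) (node 434 (merge (leaf 1 431 435) (node 466 (merge (leaf 0 431 467) (node 402 (merge (leaf 2 399 403) (node 401 (merge (leaf 3 366 400) (node 369 (merge (leaf 4 337 337) (leaf 7 369 498)))))))))))))))))) (node 401 (merge (node 465 (merge (node 496 (merge (leaf 6 400 464) (leaf 5 400 497))) (merge (node 464 (merge (leaf 6 400 496) (node 466 (merge (leaf 3 431 467) (node 369 (merge (leaf 5 336 337) (leaf 4 369 498)))))))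 (merge (node 466 (merge (node 467 (merge (leaf 3 431 464) (leaf 3 432 468))) (node 498 (merge (leaf 4 369 369) (node 530 (merge (leaf 4 401 497) (leaf 7 433 562))))))) (node 497 (merge (leaf 5 400 496) (node 370 (merge (leaf 6 369 402) (node 369 (merge (leaf 6 337 338) (node 498 (merge (leaf 4 369 466) (leaf 4 401 530))))))))))))) (merge (node 367 (merge (node 334 (merge (leaf 7 334 366) (node 335 (merge (leaf 7 302 302) (leaf 4 335 464))))) (merge (node 366 (merge (leaf 7 334 334) (node 400 (merge (leaf 3 366 402) (node 398 (merge (leaf 3 365 365) (leaf 0 397 397))))))) (node 335 (merge (leaf 4 335 464) (node 304 (merge (leaf 6 303 336) (node 303 (merge (leaf 6 271 272) (leaf 4 303 400)))))))))) (merge (node 400 (merge (node 398 (merge (leaf 0 397 397) (node 366 (merge (leaf 3 365 365) (node 334 (merge (leaf 4 302 302) (leaf 7 334 367))))))) (node 465 (merge (node 496 (merge (leaf 6 432 464) (leaf 5 400 497))) (merge (node 464 (merge (leaf 6 400 496) (node 466 (merge (leaf 3 431 467) (node 369 (merge (leaf 5 336 337) (leaf 4 369 498))))))) (merge (node 466 (merge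 (node 467 (merge (leaf 3 431 464) (leaf 3 432 468))) (node 498 (merge (leaf 4 369 369) (node 530 (merge (leaf 4 401 497) (leaf 7 433 562))))))) (node 497 (merge (leaf 5 400 496) (node 498 (merge (leaf 4 401 530) (node 369 (merge (leaf 4 369 466) (node 338 (merge (leaf 6 337 370) (node 337 (merge (leaf 6 305 306) (node 304 (merge (leaf 7 304 336) (node 305 (merge (leaf 7 272 272) (leaf 5 304 400))))))))))))))))))))) (node 400 (merge (node 398 (merge (leaf 0 397 397) (node 366 (merge (leaf 3 365 365) (node 334 (merge (leaf 4 302 302) (leaf 7 334 367))))))) (node 402 (merge (leaf 1 399 403) (node 370 (merge (leaf 2 367 371) (node 465 (merge (leaf 6 369 497) (node 338 (merge (leaf 5 305 306) (leaf 6 337 369))))))))))))))))))) (merge (node 367 (merge (node 336 (merge (leaf 6 335 368) (node 335 (merge (leaf 6 303 304) (node 334 (merge (leaf 7 302 302) (leaf 7 334 366))))))) (merge (node 336 (merge (leaf 6 335 368) (node 335 (merge (leaf 6 303 304) (node 302 (merge (leaf 7 302 334) (node 303 (merge (leaf 7 270 270) (leaf 4 303 400))))))))) (merge (node 335 (merge (node 334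 (merge (leaf 7 302 302) (leaf 7 334 366))) (merge (node 366 (merge (leaf 7 334 334) (node 303 (merge (leaf 4 303 400) (node 272 (merge (leaf 6 271 304) (node 271 (merge (leaf 6 239 240) (leaf 5 270 398))))))))) (node 303 (merge (leaf 4 303 400) (node 272 (merge (leaf 6 271 304) (node 271 (merge (leaf 6 239 240) (node 270 (merge (leaf 7 238 238) (leaf 7 270 302)))))))))))) (merge (node 366 (merge (leaf 7 334 334) (node 365 (merge (node 368 (merge (leaf 6 335 336) (node 400 (merge (leaf 0 364 364) (leaf 0 365 401))))) (merge (node 364 (merge (leaf 0 364 400) (node 363 (merge (leaf 0 363 398) (node 331 (merge (leaf 3 330 330) (leaf 3 331 332))))))) (merge (node 368 (merge (leaf 6 335 336) (node 400 (merge (leaf 0 365 401) (node 397 (merge (leaf 1 364 396) (node 398 (merge (leaf 1 365 369) (leaf 0 397 433))))))))) (node 368 (merge (leaf 6 335 336) (node 332 (merge (leaf 3 332 333) (node 364 (merge (leaf 3 331 331) (node 363 (merge (leaf 0 363 398) (node 395 (merge (leaf 1 362 394) (leaf 1 363 396))))))))))))))))) (node 398 (merge (node 397 (merge (leaf 0 396 396) (node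 433 (merge (leaf 0 397 400) (leaf 3 398 434))))) (merge (node 368 (merge (leaf 6 335 336) (node 369 (merge (leaf 1 366 370) (node 397 (merge (leaf 1 365 366) (leaf 2 364 396))))))) (node 336 (merge (leaf 6 335 368) (node 335 (merge (leaf 6 303 304) (node 303 (merge (leaf 4 303 400) (node 270 (merge (leaf 7 270 302) (node 271 (merge (leaf 7 238 238) (leaf 5 270 366))))))))))))))))))) (merge (node 562 (merge (node 594 (merge (leaf 0 559 595) (node 558 (merge (leaf 0 558 593) (node 590 (merge (leaf 1 557 589) (leaf 1 558 591))))))) (node 367 (merge (node 334 (merge (leaf 7 334 366) (node 335 (merge (leaf 7 302 302) (leaf 4 335 464))))) (merge (node 336 (merge (leaf 6 335 368) (node 335 (merge (leaf 6 303 304) (leaf 4 335 464))))) (node 366 (merge (leaf 7 334 334) (node 368 (merge (leaf 6 335 336) (node 369 (merge (node 402 (merge (leaf 0 366 401) (node 370 (merge (leaf 0 367 403) (node 338 (merge (leaf 2 334 337) (leaf 2 335 339))))))) (merge (node 401 (merge (leaf 0 366 402) (node 365 (merge (leaf 0 365 400) (node 396 (merge (leaf 1 364 397) (node 364 (merge (leaf 1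 363 395) (node 332 (merge (leaf 3 331 331) (leaf 3 332 333))))))))))) (merge (node 338 (merge (leaf 2 334 337) (node 370 (merge (leaf 2 335 339) (node 400 (merge (leaf 1 367 371) (node 365 (merge (leaf 0 364 364) (leaf 0 365 401))))))))) (node 338 (merge (leaf 2 334 337) (node 370 (merge (leaf 2 335 339) (node 403 (merge (leaf 0 367 402) (node 371 (merge (leaf 1 367 400) (leaf 0 368 404)))))))))))))))))))))) (node 562 (merge (node 594 (merge (leaf 0 559 595) (node 558 (merge (leaf 0 558 593) (node 590 (merge (leaf 1 557 589) (leaf 1 558 591))))))) (node 367 (merge (node 334 (merge (leaf 7 334 366) (node 335 (merge (leaf 7 302 302) (node 464 (merge (leaf 4 335 432) (leaf 7 431 496))))))) (merge (node 336 (merge (leaf 6 335 368) (node 335 (merge (leaf 6 303 304) (node 464 (merge (leaf 4 335 432) (leaf 7 431 496))))))) (node 368 (merge (leaf 6 335 336) (node 366 (merge (leaf 7 334 334) (node 365 (merge (node 396 (merge (leaf 1 364 397) (node 364 (merge (leaf 1 363 395) (node 332 (merge (leaf 3 331 331) (leaf 3 332 333))))))) (merge (node 397 (merge (leaf 1 364 396) (node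 369 (merge (leaf 1 365 398) (node 402 (merge (leaf 0 366 401) (node 370 (merge (leaf 0 367 403) (node 338 (merge (leaf 2 334 337) (leaf 2 335 339))))))))))) (merge (node 332 (merge (leaf 3 332 333) (node 364 (merge (leaf 3 331 331) (node 398 (merge (leaf 0 363 363) (node 369 (merge (leaf 1 366 370) (leaf 1 365 397))))))))) (node 332 (merge (leaf 3 332 333) (node 364 (merge (leaf 3 331 331) (node 363 (merge (leaf 0 363 398) (node 395 (merge (leaf 1 362 394) (leaf 1 363 396))))))))))))))))))))))))))))))) nP_399 cP_399 13 (by decide +kernel)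
def nP_400 : ℕ := 0x380000001000000000000000080000001800000000000000000000000000000000000000000000000000000000000000000000000000000000000000000000000000000000000
def cP_400 : ℕ := 0xee000000440000000000000050000000d0000000e7000001ffc00000ff800000ffc000001e0000001e0000001400000000000000000000000000000000000000000000000000000000000
theorem lP_400 : S nP_400 cP_400 13 := S_of_chk [] trivial (node 399 (merge (node 464 (merge (leaf 7 399 496) (node 398 (merge (node 397 (merge (leaf 0 396 396) (node 433 (merge (leaf 3 397 430) (leaf 3 398 434))))) (merge (node 397 (merge (leaf 0 396 396) (node 367 (merge (leaf 4 335 335) (node 368 (merge (leaf 6 335 336) (node 369 (merge (leaf 1 366 370) (leaf 2 365 400))))))))) (node 433 (merge (leaf 3 398 434) (node 367 (merge (leaf 4 335 335) (node 368 (merge (leaf 6 335 336) (node 369 (merge (leaf 1 366 370) (node 337 (merge (leaf 6 336 400) (leaf 5 336 401)))))))))))))))) (merge (node 464 (merge (leaf 7 431 496) (node 433 (merge (node 434 (merge (leaf 3 398 398) (leaf 1 431 435))) (merge (node 434 (merge (leaf 1 431 435) (node 466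 (merge (leaf 0 431 467) (node 402 (merge (leaf 2 399 403) (node 401 (merge (leaf 2 398 430) (node 369 (merge (leaf 4 337 337) (leaf 7 369 498))))))))))) (node 430 (merge (node 429 (merge (leaf 0 428 428) (node 401 (merge (leaf 2 397 400) (leaf 2 398 402))))) (merge (node 429 (merge (leaf 0 428 428) (node 397 (merge (leaf 3 396 396) (leaf 3 397 398))))) (node 401 (merge (leaf 2 398 402) (node 398 (merge (leaf 3 397 397) (node 366 (merge (leaf 4 334 334) (node 400 (merge (leaf 3 365 365) (node 369 (merge (leaf 5 336 337) (leaf 2 366 370))))))))))))))))))) (merge (node 367 (merge (node 334 (merge (leaf 7 334 366) (node 335 (merge (leaf 7 302 302) (node 464 (merge (leaf 4 335 432) (leaf 7 431 496))))))) (merge (node 336 (merge (leaf 6 335 368) (node 335 (merge (leaf 6 303 304) (node 464 (merge (leaf 4 335 432) (leaf 7 431 496))))))) (node 368 (merge (leaf 6 335 336) (node 369 (merge (node 398 (merge (leaf 1 366 370) (node 397 (merge (leaf 2 364 396) (leaf 2 365 400))))) (merge (node 366 (merge (leaf 7 334 334) (node 398 (merge (leaf 1 366 370) (leaf 1 365 397))))) (merge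 (node 366 (merge (leaf 7 334 334) (node 338 (merge (leaf 2 334 337) (node 370 (merge (leaf 2 335 339) (node 403 (merge (leaf 0 367 402) (node 371 (merge (leaf 1 367 400) (leaf 0 368 404))))))))))) (node 366 (merge (leaf 7 334 334) (node 397 (merge (leaf 1 365 398) (node 365 (merge (leaf 1 364 396) (node 364 (merge (leaf 0 364 400) (node 332 (merge (leaf 3 331 331) (leaf 3 332 333)))))))))))))))))))) (merge (node 367 (merge (node 334 (merge (leaf 7 334 366) (node 335 (merge (leaf 7 302 302) (node 464 (merge (leaf 4 335 432) (leaf 7 431 496))))))) (merge (node 336 (merge (leaf 6 335 368) (node 335 (merge (leaf 6 303 304) (node 464 (merge (leaf 4 335 432) (leaf 7 431 496))))))) (node 366 (merge (leaf 7 334 334) (node 365 (merge (node 400 (merge (leaf 0 364 364) (node 401 (merge (leaf 3 365 398) (leaf 3 366 402))))) (merge (node 368 (merge (leaf 6 335 336) (node 400 (merge (leaf 0 364 364) (leaf 0 365 401))))) (merge (node 368 (merge (leaf 6 335 336) (node 332 (merge (leaf 3 332 333) (node 364 (merge (leaf 3 331 331) (node 363 (merge (leaf 0 363 398) (node 395 (merge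 (leaf 1 362 394) (leaf 1 363 396))))))))))) (node 368 (merge (leaf 6 335 336) (node 401 (merge (leaf 0 365 400) (node 369 (merge (leaf 0 366 402) (node 370 (merge (leaf 1 366 398) (node 338 (merge (leaf 2 334 337) (leaf 2 335 339)))))))))))))))))))) (merge (node 367 (merge (node 336 (merge (leaf 6 335 368) (node 335 (merge (leaf 6 303 304) (node 334 (merge (leaf 7 302 302) (leaf 7 334 366))))))) (merge (node 336 (merge (leaf 6 335 368) (node 335 (merge (leaf 6 303 304) (node 302 (merge (leaf 7 302 334) (node 303 (merge (leaf 7 270 270) (leaf 4 303 400))))))))) (merge (node 335 (merge (node 334 (merge (leaf 7 302 302) (leaf 7 334 366))) (merge (node 366 (merge (leaf 7 334 334) (node 303 (merge (leaf 4 303 400) (node 272 (merge (leaf 6 271 304) (node 271 (merge (leaf 6 239 240) (leaf 5 270 398))))))))) (node 303 (merge (leaf 4 303 400) (node 272 (merge (leaf 6 271 304) (node 271 (merge (leaf 6 239 240) (node 270 (merge (leaf 7 238 238) (leaf 7 270 302)))))))))))) (merge (node 366 (merge (leaf 7 334 334) (node 365 (merge (node 368 (merge (leaf 6 335 336) (node 400 (merge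 (leaf 0 364 364) (leaf 0 365 401))))) (merge (node 364 (merge (leaf 0 364 400) (node 363 (merge (leaf 0 363 398) (node 331 (merge (leaf 3 330 330) (leaf 3 331 332))))))) (merge (node 368 (merge (leaf 6 335 336) (node 400 (merge (leaf 0 365 401) (node 397 (merge (leaf 1 364 396) (node 398 (merge (leaf 1 365 369) (leaf 0 397 433))))))))) (node 368 (merge (leaf 6 335 336) (node 332 (merge (leaf 3 332 333) (node 364 (merge (leaf 3 331 331) (node 363 (merge (leaf 0 363 398) (node 395 (merge (leaf 1 362 394) (leaf 1 363 396))))))))))))))))) (node 398 (merge (node 397 (merge (leaf 0 396 396) (node 433 (merge (leaf 0 397 400) (leaf 3 398 434))))) (merge (node 368 (merge (leaf 6 335 336) (node 369 (merge (leaf 1 366 370) (node 397 (merge (leaf 1 365 366) (leaf 2 364 396))))))) (node 336 (merge (leaf 6 335 368) (node 335 (merge (leaf 6 303 304) (node 303 (merge (leaf 4 303 400) (node 270 (merge (leaf 7 270 302) (node 271 (merge (leaf 7 238 238) (leaf 5 270 366))))))))))))))))))) (merge (node 562 (merge (node 594 (merge (leaf 0 559 595) (node 558 (merge (leaf 0 558 593) (node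 590 (merge (leaf 1 557 589) (leaf 1 558 591))))))) (node 367 (merge (node 334 (merge (leaf 7 334 366) (node 335 (merge (leaf 7 302 302) (leaf 4 335 464))))) (merge (node 336 (merge (leaf 6 335 368) (node 335 (merge (leaf 6 303 304) (leaf 4 335 464))))) (node 366 (merge (leaf 7 334 334) (node 368 (merge (leaf 6 335 336) (node 369 (merge (node 402 (merge (leaf 0 366 401) (node 370 (merge (leaf 0 367 403) (node 338 (merge (leaf 2 334 337) (leaf 2 335 339))))))) (merge (node 401 (merge (leaf 0 366 402) (node 365 (merge (leaf 0 365 400) (node 396 (merge (leaf 1 364 397) (node 364 (merge (leaf 1 363 395) (node 332 (merge (leaf 3 331 331) (leaf 3 332 333))))))))))) (merge (node 338 (merge (leaf 2 334 337) (node 370 (merge (leaf 2 335 339) (node 400 (merge (leaf 1 367 371) (node 365 (merge (leaf 0 364 364) (leaf 0 365 401))))))))) (node 338 (merge (leaf 2 334 337) (node 370 (merge (leaf 2 335 339) (node 403 (merge (leaf 0 367 402) (node 371 (merge (leaf 1 367 400) (leaf 0 368 404)))))))))))))))))))))) (merge (node 562 (merge (node 594 (merge (leaf 0 559 595) (node 558 (merge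 (leaf 0 558 593) (node 590 (merge (leaf 1 557 589) (leaf 1 558 591))))))) (node 464 (merge (leaf 7 399 496) (node 400 (merge (node 367 (merge (leaf 4 335 335) (node 368 (merge (leaf 6 335 336) (node 369 (merge (leaf 6 336 337) (node 398 (merge (leaf 1 366 370) (leaf 2 365 397))))))))) (merge (node 367 (merge (leaf 4 335 335) (node 366 (merge (leaf 7 334 334) (node 365 (merge (leaf 0 364 364) (node 401 (merge (leaf 0 365 368) (leaf 3 366 402))))))))) (merge (node 368 (merge (leaf 5 335 336) (node 369 (merge (leaf 6 336 337) (node 370 (merge (leaf 1 367 371) (node 398 (merge (leaf 2 365 397) (leaf 2 366 401))))))))) (node 367 (merge (leaf 4 335 335) (node 366 (merge (leaf 7 334 334) (node 365 (merge (leaf 0 364 364) (node 401 (merge (leaf 3 365 398) (leaf 3 366 402))))))))))))))))) (merge (node 562 (merge (node 594 (merge (leaf 0 559 595) (node 558 (merge (leaf 0 558 593) (node 590 (merge (leaf 1 557 589) (leaf 1 558 591))))))) (node 367 (merge (node 334 (merge (leaf 7 334 366) (node 335 (merge (leaf 7 302 302) (node 464 (merge (leaf 4 335 432) (leaf 7 431 496)))))))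 (merge (node 336 (merge (leaf 6 335 368) (node 335 (merge (leaf 6 303 304) (node 464 (merge (leaf 4 335 432) (leaf 7 431 496))))))) (node 368 (merge (leaf 6 335 336) (node 366 (merge (leaf 7 334 334) (node 365 (merge (node 396 (merge (leaf 1 364 397) (node 364 (merge (leaf 1 363 395) (node 332 (merge (leaf 3 331 331) (leaf 3 332 333))))))) (merge (node 397 (merge (leaf 1 364 396) (node 369 (merge (leaf 1 365 398) (node 402 (merge (leaf 0 366 401) (node 370 (merge (leaf 0 367 403) (node 338 (merge (leaf 2 334 337) (leaf 2 335 339))))))))))) (merge (node 332 (merge (leaf 3 332 333) (node 364 (merge (leaf 3 331 331) (node 398 (merge (leaf 0 363 363) (node 369 (merge (leaf 1 366 370) (leaf 1 365 397))))))))) (node 332 (merge (leaf 3 332 333) (node 364 (merge (leaf 3 331 331) (node 363 (merge (leaf 0 363 398) (node 395 (merge (leaf 1 362 394) (leaf 1 363 396)))))))))))))))))))))) (node 562 (merge (node 594 (merge (leaf 0 559 595) (node 558 (merge (leaf 0 558 593) (node 590 (merge (leaf 1 557 589) (leaf 1 558 591))))))) (node 464 (merge (leaf 7 399 496) (node 367 (merge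 (leaf 4 335 335) (node 366 (merge (leaf 7 334 334) (node 365 (merge (node 400 (merge (leaf 0 364 364) (node 401 (merge (leaf 0 365 368) (leaf 3 366 402))))) (merge (node 364 (merge (leaf 0 364 400) (node 363 (merge (leaf 0 363 398) (node 395 (merge (leaf 1 362 394) (leaf 1 363 396))))))) (merge (node 368 (merge (leaf 6 335 336) (node 332 (merge (leaf 3 332 333) (node 364 (merge (leaf 3 331 331) (node 363 (merge (leaf 0 363 398) (node 395 (merge (leaf 1 362 394) (leaf 1 363 396))))))))))) (node 368 (merge (leaf 6 335 336) (node 400 (merge (leaf 0 365 401) (node 397 (merge (leaf 1 364 396) (node 398 (merge (leaf 0 397 433) (node 333 (merge (leaf 3 332 332) (node 301 (merge (leaf 4 269 269) (leaf 4 301 430)))))))))))))))))))))))))))))))))) nP_400 cP_400 13 (by decide +kernel)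
def nP_401 : ℕ := 0x380000001000000000000000080000000800000000000000000000000000000000000000000000000000000000000000000000000000000000000000000000000000000000000
def cP_401 : ℕ := 0x800000008000000ef8000004700000047000000f6000001f3e00000f7c00001ffe00001ff800001ffc000007f0000005f0000001400000000000000000000000000000000000000000000000000000000000
theorem lP_401 : S nP_401 cP_401 15 := S_of_chk [(nP_399, cP_399, 13), (nP_400, cP_400, 13)] ⟨lP_399, lP_400, trivial⟩ (node 432 (merge (node 464 (merge (leaf 7 431 496) (node 433 (merge (node 434 (merge (leaf 1 431 435) (node 402 (merge (leaf 2 399 403) (node 430 (merge (leaf 2 398 401) (node 429 (merge (leaf 0 428 428) (leaf 0 429 465))))))))) (merge (node 434 (merge (leaf 1 431 435) (node 466 (merge (leaf 0 431 467) (node 465 (merge (leaf 0 430 430) (node 498 (merge (leaf 0 463 499) (node 401 (merge (leaf 4 369 369) (leaf 7 401 530))))))))))) (merge (node 434 (merge (leaf 1 431 435) (node 466 (merge (leaf 0 431 467) (node 402 (merge (leaf 2 399 403) (node 401 (merge (leaf 2 398 430) (node 369 (merge (leaf 4 337 337) (leaf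 7 369 498))))))))))) (merge (node 434 (merge (leaf 1 431 435) (node 466 (merge (leaf 0 431 467) (node 465 (merge (leaf 0 430 430) (node 402 (merge (leaf 2 399 403) (node 370 (merge (leaf 5 337 338) (leaf 5 369 497))))))))))) (merge (node 465 (merge (node 466 (merge (leaf 0 430 430) (leaf 3 431 467))) (merge (node 466 (merge (leaf 3 431 467) (node 498 (merge (leaf 0 463 499) (node 401 (merge (leaf 4 369 369) (node 497 (merge (leaf 4 401 530) (node 402 (merge (leaf 6 369 370) (node 403 (merge (leaf 1 399 400) (leaf 1 400 404))))))))))))) (node 430 (merge (leaf 0 429 429) (node 401 (merge (leaf 2 398 402) (node 369 (merge (leaf 5 336 337) (node 370 (merge (leaf 6 337 338) (node 368 (merge (leaf 7 336 336) (node 400 (merge (leaf 7 368 497) (node 371 (merge (leaf 1 368 372) (leaf 1 367 399)))))))))))))))))) (node 465 (merge (node 434 (merge (leaf 1 431 435) (node 466 (merge (leaf 0 431 467) (node 498 (merge (leaf 0 463 499) (node 401 (merge (leaf 4 369 369) (leaf 7 401 530))))))))) (merge (node 434 (merge (leaf 1 431 435) (node 466 (merge (leaf 0 431 467) (node 402 (merge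 (leaf 2 399 403) (node 370 (merge (leaf 5 337 338) (leaf 5 369 497))))))))) (merge (node 466 (merge (leaf 3 431 467) (node 498 (merge (leaf 0 463 499) (node 401 (merge (leaf 4 369 369) (node 497 (merge (leaf 4 401 530) (node 402 (merge (leaf 6 369 370) (node 403 (merge (leaf 1 399 400) (leaf 1 400 404))))))))))))) (node 434 (merge (leaf 1 431 435) (node 402 (merge (leaf 2 399 403) (node 370 (merge (leaf 5 337 338) (node 401 (merge (leaf 6 369 497) (node 369 (merge (leaf 5 336 337) (node 368 (merge (leaf 7 336 336) (node 367 (merge (leaf 0 366 366) (node 335 (merge (leaf 3 334 334) (leaf 7 335 400))))))))))))))))))))))))))))) (merge (node 430 (merge (node 464 (merge (leaf 7 431 496) (node 429 (merge (leaf 0 428 428) (leaf 0 429 465))))) (merge (node 429 (merge (node 460 (merge (leaf 1 428 461) (node 428 (merge (leaf 1 427 459) (node 400 (merge (leaf 2 396 399) (leaf 2 397 401))))))) (merge (node 401 (merge (leaf 2 397 400) (node 433 (merge (leaf 2 398 402) (node 397 (merge (leaf 3 396 396) (leaf 3 397 398))))))) (node 460 (merge (leaf 1 428 461) (node 428 (merge (leaf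 1 427 459) (node 396 (merge (leaf 3 395 395) (leaf 3 396 397)))))))))) (node 433 (merge (node 464 (merge (leaf 7 431 496) (node 434 (merge (leaf 1 431 435) (node 398 (merge (leaf 3 397 397) (leaf 3 398 399))))))) (merge (node 402 (merge (leaf 2 398 401) (node 434 (merge (leaf 2 399 403) (node 398 (merge (leaf 3 397 397) (leaf 3 398 399))))))) (merge (node 464 (merge (leaf 7 431 496) (node 434 (merge (leaf 1 431 435) (node 402 (merge (leaf 2 398 401) (leaf 2 399 403))))))) (node 401 (merge (leaf 2 398 402) (node 400 (merge (node 398 (merge (leaf 3 397 397) (node 366 (merge (leaf 4 334 334) (node 365 (merge (leaf 3 365 399) (node 368 (merge (leaf 5 335 336) (leaf 0 365 367))))))))) (merge (node 464 (merge (leaf 6 400 496) (node 398 (merge (leaf 3 397 397) (node 366 (merge (leaf 4 334 334) (node 399 (merge (leaf 3 365 365) (node 369 (merge (leaf 5 336 337) (leaf 2 366 370))))))))))) (merge (node 464 (merge (leaf 6 400 496) (node 398 (merge (leaf 3 397 397) (node 368 (merge (leaf 5 335 336) (node 369 (merge (leaf 6 336 337) (node 465 (merge (leaf 7 368 497) (node 370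 (merge (leaf 6 337 338) (leaf 2 366 399))))))))))))) (merge (node 464 (merge (leaf 6 400 496) (node 368 (merge (leaf 5 335 336) (node 369 (merge (leaf 6 336 337) (node 367 (merge (leaf 7 335 335) (node 366 (merge (leaf 0 365 365) (node 334 (merge (leaf 3 333 333) (leaf 7 334 399))))))))))))) (node 464 (merge (leaf 6 400 496) (node 398 (merge (leaf 3 397 397) (node 366 (merge (leaf 4 334 334) (node 368 (merge (leaf 5 335 336) (node 367 (merge (leaf 7 335 335) (leaf 0 365 365))))))))))))))))))))))))) (merge (node 562 (merge (node 594 (merge (leaf 0 559 595) (node 558 (merge (leaf 0 558 593) (node 589 (merge (leaf 1 557 590) (node 557 (merge (leaf 1 556 588) (node 525 (merge (leaf 3 524 524) (leaf 3 525 526))))))))))) (node 368 (merge (node 367 (merge (node 336 (merge (leaf 6 335 399) (leaf 5 335 400))) (merge (node 399 (merge (leaf 6 335 336) (node 464 (merge (leaf 4 335 335) (leaf 4 367 496))))) (merge (node 464 (merge (leaf 7 431 496) (node 335 (merge (leaf 4 335 399) (leaf 7 335 400))))) (node 400 (merge (leaf 5 335 336) (node 464 (merge (leaf 7 335 335) (leaf 7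 431 496))))))))) (merge (node 464 (merge (leaf 7 431 496) (node 400 (merge (leaf 5 335 336) (node 465 (merge (leaf 4 368 497) (node 466 (merge (leaf 3 430 430) (leaf 3 431 467))))))))) (merge (node 336 (merge (leaf 5 335 400) (node 367 (merge (leaf 6 335 399) (node 366 (merge (node 337 (merge (leaf 2 333 365) (node 338 (merge (leaf 1 335 339) (leaf 2 334 369))))) (merge (node 365 (merge (leaf 2 333 337) (node 396 (merge (leaf 1 364 397) (node 364 (merge (leaf 2 332 335) (leaf 1 363 395))))))) (merge (node 365 (merge (node 396 (merge (leaf 1 364 397) (node 364 (merge (leaf 2 332 335) (leaf 1 363 395))))) (merge (node 364 (merge (leaf 2 332 335) (node 332 (merge (leaf 3 331 331) (leaf 3 332 333))))) (node 397 (merge (leaf 1 364 396) (node 369 (merge (leaf 1 365 398) (node 333 (merge (leaf 3 332 332) (leaf 3 333 334)))))))))) (node 369 (merge (node 398 (merge (leaf 1 365 397) (node 334 (merge (leaf 3 333 333) (leaf 4 334 430))))) (node 338 (merge (leaf 2 334 337) (node 370 (merge (leaf 2 335 339) (node 403 (merge (leaf 0 367 402) (node 371 (merge (leaf 3 335 335) (leaf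 0 368 404))))))))))))))))))) (merge (node 464 (merge (leaf 7 431 496) (node 367 (merge (node 335 (merge (leaf 4 335 399) (leaf 7 335 400))) (merge (node 400 (merge (leaf 7 335 335) (node 465 (merge (leaf 4 368 497) (node 430 (merge (leaf 0 429 429) (leaf 3 430 466))))))) (merge (node 366 (merge (node 399 (merge (leaf 7 334 334) (leaf 4 335 335))) (node 397 (merge (node 369 (merge (leaf 1 365 398) (node 402 (merge (leaf 0 366 401) (node 370 (merge (leaf 0 367 403) (node 338 (merge (leaf 2 334 337) (leaf 2 335 339))))))))) (node 365 (merge (leaf 1 364 396) (node 332 (merge (leaf 3 332 333) (node 364 (merge (leaf 3 331 331) (node 429 (merge (leaf 7 332 461) (node 430 (merge (leaf 0 428 428) (node 465 (merge (leaf 0 429 432) (leaf 3 430 466))))))))))))))))) (node 369 (merge (node 400 (merge (leaf 6 336 337) (node 465 (merge (leaf 4 368 497) (node 466 (merge (leaf 3 430 430) (leaf 3 431 467))))))) (merge (node 398 (merge (node 366 (merge (leaf 1 365 397) (node 334 (merge (leaf 3 333 333) (leaf 7 334 399))))) (merge (node 370 (merge (leaf 1 366 399) (node 403 (merge (leaf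 0 367 402) (node 371 (merge (leaf 0 368 404) (node 339 (merge (leaf 2 335 338) (leaf 2 336 340))))))))) (node 366 (merge (leaf 1 365 397) (node 402 (merge (leaf 0 366 401) (node 370 (merge (leaf 0 367 403) (node 338 (merge (leaf 2 334 337) (leaf 2 335 339)))))))))))) (node 398 (merge (node 397 (merge (leaf 1 365 366) (node 399 (merge (leaf 1 366 370) (leaf 0 396 396))))) (merge (node 370 (merge (leaf 1 366 399) (node 403 (merge (leaf 0 367 402) (node 371 (merge (leaf 0 368 404) (node 339 (merge (leaf 2 335 338) (leaf 2 336 340))))))))) (node 366 (merge (leaf 1 365 397) (node 401 (merge (leaf 0 366 402) (node 365 (merge (leaf 0 365 400) (node 333 (merge (leaf 3 332 332) (leaf 3 333 334))))))))))))))))))))) (node 464 (merge (leaf 7 431 496) (node 367 (merge (node 399 (merge (leaf 4 335 335) (leaf 6 335 336))) (merge (node 430 (merge (node 465 (merge (leaf 0 429 429) (leaf 3 430 466))) (node 366 (merge (node 334 (merge (leaf 4 334 398) (leaf 7 334 399))) (merge (node 336 (merge (leaf 6 335 399) (node 337 (merge (leaf 2 333 365) (node 338 (merge (leaf 1 335 339) (leaf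 2 334 369))))))) (node 398 (merge (leaf 4 334 334) (node 397 (merge (leaf 1 365 369) (node 396 (merge (leaf 1 364 365) (leaf 0 395 395)))))))))))) (merge (node 366 (merge (node 399 (merge (leaf 7 334 334) (leaf 4 335 335))) (node 397 (merge (node 369 (merge (leaf 1 365 398) (node 402 (merge (leaf 0 366 401) (node 370 (merge (leaf 0 367 403) (node 338 (merge (leaf 2 334 337) (leaf 2 335 339))))))))) (node 365 (merge (leaf 1 364 396) (node 332 (merge (leaf 3 332 333) (node 364 (merge (leaf 3 331 331) (node 429 (merge (leaf 7 332 461) (node 430 (merge (leaf 0 428 428) (node 465 (merge (leaf 0 429 432) (leaf 3 430 466))))))))))))))))) (node 366 (merge (node 430 (merge (node 465 (merge (leaf 0 429 429) (leaf 3 430 466))) (node 334 (merge (leaf 4 334 398) (node 333 (merge (leaf 3 333 369) (node 332 (merge (leaf 0 331 331) (leaf 0 332 335))))))))) (merge (node 430 (merge (node 429 (merge (leaf 0 428 428) (node 465 (merge (leaf 0 429 432) (leaf 3 430 466))))) (node 398 (merge (leaf 4 334 334) (node 397 (merge (leaf 1 365 369) (node 396 (merge (leaf 1 364 365) (leaf 0 395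 395))))))))) (merge (node 365 (merge (node 397 (merge (leaf 1 364 396) (node 369 (merge (leaf 1 365 398) (node 337 (merge (leaf 2 333 336) (leaf 2 334 338))))))) (merge (node 396 (merge (leaf 1 364 397) (node 364 (merge (leaf 1 363 395) (node 332 (merge (leaf 3 331 331) (leaf 3 332 333))))))) (node 336 (merge (leaf 2 333 337) (node 364 (merge (leaf 2 332 335) (node 332 (merge (leaf 3 331 331) (leaf 3 332 333)))))))))) (merge (node 333 (merge (node 332 (merge (leaf 3 332 365) (node 334 (merge (leaf 0 331 331) (leaf 3 333 369))))) (merge (node 365 (merge (leaf 3 332 332) (node 396 (merge (leaf 1 364 397) (node 364 (merge (leaf 1 363 395) (node 336 (merge (leaf 2 332 335) (leaf 2 333 337))))))))) (node 369 (merge (leaf 3 333 334) (node 402 (merge (leaf 0 366 401) (node 370 (merge (leaf 0 367 403) (node 338 (merge (leaf 2 334 337) (leaf 2 335 339)))))))))))) (node 334 (merge (node 430 (merge (leaf 4 334 398) (node 429 (merge (leaf 0 428 428) (leaf 0 429 465))))) (merge (node 365 (merge (node 336 (merge (leaf 2 333 337) (node 364 (merge (leaf 2 332 335) (node 332 (merge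 (leaf 3 331 331) (leaf 3 332 333))))))) (merge (node 397 (merge (leaf 1 364 396) (node 429 (merge (leaf 6 333 461) (node 333 (merge (leaf 6 301 302) (leaf 3 332 332))))))) (node 396 (merge (leaf 1 364 397) (node 364 (merge (leaf 1 363 395) (node 336 (merge (leaf 2 332 335) (leaf 2 333 337)))))))))) (node 398 (merge (leaf 4 334 430) (node 365 (merge (node 396 (merge (leaf 1 364 397) (node 364 (merge (leaf 1 363 395) (node 332 (merge (leaf 3 331 331) (leaf 3 332 333))))))) (merge (node 396 (merge (leaf 1 364 397) (node 364 (merge (leaf 1 363 395) (node 336 (merge (leaf 2 332 335) (leaf 2 333 337))))))) (merge (node 336 (merge (leaf 2 333 337) (node 335 (merge (leaf 2 332 364) (node 333 (merge (leaf 0 332 332) (node 301 (merge (leaf 4 269 269) (leaf 3 300 300))))))))) (node 397 (merge (leaf 1 364 396) (node 336 (merge (leaf 2 333 337) (node 333 (merge (leaf 3 332 332) (node 301 (merge (leaf 4 269 269) (node 300 (merge (leaf 7 268 268) (leaf 3 300 335)))))))))))))))))))))))))))))))))))))) (merge (node 430 (merge (node 464 (merge (leaf 7 431 496) (node 465 (merge (leaf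 0 429 429) (leaf 3 430 466))))) (merge (node 433 (merge (node 465 (merge (leaf 0 430 466) (node 496 (merge (leaf 6 432 464) (node 401 (merge (leaf 2 398 402) (leaf 5 400 497))))))) (merge (node 464 (merge (leaf 7 431 496) (node 434 (merge (leaf 1 431 435) (node 402 (merge (leaf 2 398 401) (leaf 2 399 403))))))) (merge (node 466 (merge (leaf 0 430 465) (node 434 (merge (leaf 0 431 467) (node 402 (merge (leaf 2 398 401) (leaf 2 399 403))))))) (node 466 (merge (leaf 0 430 465) (node 434 (merge (leaf 0 431 467) (node 464 (merge (leaf 1 431 435) (leaf 7 431 496))))))))))) (merge (node 464 (merge (leaf 7 431 496) (node 429 (merge (leaf 0 428 428) (node 397 (merge (leaf 3 396 396) (node 433 (merge (leaf 3 397 398) (node 434 (merge (leaf 1 431 435) (node 402 (merge (leaf 2 398 401) (leaf 2 399 403))))))))))))) (node 429 (merge (node 460 (merge (leaf 1 428 461) (node 428 (merge (leaf 1 427 459) (node 396 (merge (leaf 3 395 395) (leaf 3 396 397))))))) (merge (node 397 (merge (leaf 3 396 396) (node 433 (merge (leaf 3 397 398) (node 466 (merge (leaf 0 430 465) (node 434 (merge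 (leaf 0 431 467) (node 402 (merge (leaf 2 398 401) (leaf 2 399 403))))))))))) (node 461 (merge (leaf 1 428 460) (node 558 (merge (node 525 (merge (leaf 3 525 526) (node 493 (merge (leaf 6 397 398) (node 524 (merge (leaf 5 428 556) (leaf 3 524 557))))))) (node 594 (merge (leaf 0 558 593) (node 562 (merge (leaf 0 559 595) (node 590 (merge (leaf 1 557 589) (leaf 1 558 591)))))))))))))))))) (merge (node 433 (merge (node 434 (merge (node 435 (merge (leaf 1 431 464) (node 403 (merge (leaf 2 399 402) (leaf 2 400 404))))) (merge (node 467 (merge (leaf 0 431 466) (node 435 (merge (leaf 1 431 464) (leaf 0 432 468))))) (node 466 (merge (leaf 0 431 467) (node 430 (merge (leaf 0 430 465) (node 402 (merge (leaf 2 398 401) (leaf 2 399 403)))))))))) (merge (node 434 (merge (node 467 (merge (leaf 0 431 466) (node 435 (merge (leaf 1 431 464) (leaf 0 432 468))))) (merge (node 435 (merge (leaf 1 431 464) (node 399 (merge (leaf 3 398 398) (leaf 3 399 400))))) (node 466 (merge (leaf 0 431 467) (node 430 (merge (leaf 0 430 465) (node 398 (merge (leaf 3 397 397) (leaf 3 398 399))))))))))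 (merge (node 434 (merge (node 467 (merge (leaf 0 431 466) (node 435 (merge (leaf 0 432 468) (node 399 (merge (leaf 3 398 398) (leaf 3 399 400))))))) (merge (node 402 (merge (leaf 2 399 403) (node 430 (merge (leaf 2 398 401) (node 398 (merge (leaf 3 397 397) (leaf 3 398 399))))))) (node 467 (merge (leaf 0 431 466) (node 435 (merge (leaf 0 432 468) (node 403 (merge (leaf 2 399 402) (leaf 2 400 404)))))))))) (merge (node 430 (merge (node 402 (merge (leaf 2 398 401) (node 434 (merge (leaf 2 399 403) (node 398 (merge (leaf 3 397 397) (leaf 3 398 399))))))) (merge (node 398 (merge (leaf 3 397 397) (node 434 (merge (leaf 3 398 399) (node 464 (merge (leaf 1 431 435) (node 429 (merge (leaf 0 428 428) (leaf 0 429 465))))))))) (node 401 (merge (leaf 2 398 402) (node 429 (merge (leaf 2 397 400) (node 428 (merge (leaf 0 428 464) (node 460 (merge (leaf 1 427 459) (leaf 1 428 461)))))))))))) (merge (node 399 (merge (node 398 (merge (leaf 3 398 434) (node 397 (merge (leaf 0 396 396) (leaf 0 397 400))))) (merge (node 434 (merge (leaf 3 398 398) (node 467 (merge (leaf 0 431 466) (node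 435 (merge (leaf 1 431 464) (leaf 0 432 468))))))) (merge (node 402 (merge (node 403 (merge (leaf 2 399 434) (node 401 (merge (leaf 1 399 400) (leaf 1 400 404))))) (merge (node 434 (merge (leaf 2 399 403) (node 467 (merge (leaf 0 431 466) (node 435 (merge (leaf 1 431 464) (leaf 0 432 468))))))) (node 367 (merge (node 334 (merge (leaf 7 334 366) (node 335 (merge (leaf 7 302 302) (leaf 4 335 464))))) (merge (node 336 (merge (leaf 6 335 368) (node 335 (merge (leaf 6 303 304) (leaf 4 335 464))))) (node 368 (merge (leaf 6 335 336) (node 366 (merge (leaf 7 334 334) (node 401 (merge (leaf 0 366 369) (leaf 3 366 400))))))))))))) (node 367 (merge (node 334 (merge (leaf 7 334 366) (node 335 (merge (leaf 7 302 302) (leaf 4 335 464))))) (merge (node 336 (merge (leaf 6 335 368) (node 335 (merge (leaf 6 303 304) (leaf 4 335 464))))) (node 366 (merge (leaf 7 334 334) (node 365 (merge (node 400 (merge (leaf 0 364 364) (node 401 (merge (leaf 3 365 398) (leaf 3 366 402))))) (merge (node 368 (merge (leaf 6 335 336) (node 400 (merge (leaf 0 364 364) (leaf 0 365 401))))) (merge (node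 368 (merge (leaf 6 335 336) (node 397 (merge (leaf 1 364 396) (node 398 (merge (leaf 1 365 369) (node 364 (merge (leaf 0 363 363) (node 332 (merge (leaf 3 331 331) (leaf 3 332 333))))))))))) (node 368 (merge (leaf 6 335 336) (node 401 (merge (leaf 0 365 400) (node 369 (merge (leaf 0 366 402) (node 397 (merge (leaf 1 364 396) (leaf 1 365 398)))))))))))))))))))))) (node 562 (merge (node 594 (merge (leaf 0 559 595) (node 558 (merge (leaf 0 558 593) (node 590 (merge (leaf 1 557 589) (leaf 1 558 591))))))) (node 401 (merge (node 430 (merge (leaf 2 398 402) (node 429 (merge (leaf 2 397 400) (node 397 (merge (leaf 3 396 396) (leaf 3 397 398))))))) (merge (node 430 (merge (leaf 2 398 402) (node 465 (merge (leaf 0 430 466) (node 429 (merge (leaf 0 429 464) (node 397 (merge (leaf 3 396 396) (leaf 3 397 398))))))))) (merge (node 369 (merge (node 337 (merge (leaf 5 336 464) (node 304 (merge (leaf 7 304 336) (node 305 (merge (leaf 7 272 272) (leaf 5 304 400))))))) (merge (node 337 (merge (leaf 5 336 464) (node 306 (merge (leaf 6 305 338) (node 305 (merge (leaf 6 273 274) (leaf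 5 304 400))))))) (merge (node 337 (merge (leaf 5 336 464) (node 338 (merge (leaf 6 305 306) (node 465 (merge (leaf 6 337 370) (node 336 (merge (leaf 7 304 304) (leaf 7 336 368))))))))) (merge (node 337 (merge (node 306 (merge (leaf 6 305 338) (node 305 (merge (leaf 6 273 274) (leaf 5 304 400))))) (merge (node 304 (merge (leaf 7 304 336) (node 305 (merge (leaf 7 272 272) (leaf 5 304 400))))) (node 338 (merge (leaf 6 305 306) (node 465 (merge (leaf 6 337 370) (node 336 (merge (leaf 7 304 304) (leaf 7 336 368)))))))))) (node 465 (merge (node 466 (merge (leaf 4 369 498) (node 467 (merge (leaf 3 431 464) (leaf 3 432 468))))) (node 370 (merge (leaf 6 337 338) (node 497 (merge (leaf 6 369 402) (node 368 (merge (leaf 7 336 336) (leaf 7 368 400)))))))))))))) (node 369 (merge (node 337 (merge (leaf 5 336 464) (node 304 (merge (leaf 7 304 336) (node 305 (merge (leaf 7 272 272) (leaf 5 304 400))))))) (merge (node 337 (merge (leaf 5 336 464) (node 306 (merge (leaf 6 305 338) (node 305 (merge (leaf 6 273 274) (leaf 5 304 400))))))) (merge (node 337 (merge (leaf 5 336 464) (node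 338 (merge (leaf 6 305 306) (node 465 (merge (leaf 6 337 370) (node 336 (merge (leaf 7 304 304) (leaf 7 336 368))))))))) (node 465 (merge (node 466 (merge (leaf 0 430 430) (leaf 4 369 498))) (node 370 (merge (leaf 6 337 338) (node 368 (merge (leaf 7 336 336) (node 400 (merge (leaf 7 368 497) (node 371 (merge (leaf 1 368 372) (leaf 1 367 399))))))))))))))))))))))))))) (merge (node 430 (merge (node 464 (merge (leaf 7 431 496) (node 465 (merge (leaf 0 429 429) (leaf 3 430 466))))) (merge (node 429 (merge (node 460 (merge (leaf 1 428 461) (node 428 (merge (leaf 1 427 459) (node 396 (merge (leaf 3 395 395) (leaf 3 396 397))))))) (merge (node 461 (merge (leaf 1 428 460) (node 397 (merge (leaf 3 396 396) (node 398 (merge (leaf 3 397 433) (node 366 (merge (leaf 4 334 334) (leaf 6 365 493))))))))) (merge (node 428 (merge (node 396 (merge (leaf 3 395 395) (leaf 3 396 397))) (merge (node 399 (merge (leaf 2 396 400) (node 427 (merge (leaf 2 395 398) (node 458 (merge (leaf 1 426 459) (node 426 (merge (leaf 1 425 457) (node 394 (merge (leaf 3 393 393) (leaf 3 394 395)))))))))))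 (node 399 (merge (leaf 2 396 400) (node 398 (merge (leaf 2 395 427) (node 397 (merge (leaf 0 396 396) (leaf 3 397 433)))))))))) (merge (node 460 (merge (leaf 1 428 461) (node 428 (merge (leaf 1 427 459) (node 399 (merge (leaf 2 396 400) (node 427 (merge (leaf 2 395 398) (node 395 (merge (leaf 3 394 394) (leaf 3 395 396))))))))))) (node 460 (merge (leaf 1 428 461) (node 428 (merge (leaf 1 427 459) (node 399 (merge (leaf 2 396 400) (node 398 (merge (leaf 2 395 427) (node 433 (merge (leaf 3 397 397) (leaf 3 398 434)))))))))))))))) (node 368 (merge (node 464 (merge (leaf 7 431 496) (node 465 (merge (leaf 3 430 466) (node 400 (merge (leaf 5 335 336) (leaf 4 368 497))))))) (merge (node 366 (merge (node 398 (merge (leaf 4 334 334) (node 397 (merge (leaf 3 397 433) (node 396 (merge (leaf 0 395 395) (leaf 0 396 399))))))) (merge (node 336 (merge (leaf 5 335 400) (node 367 (merge (leaf 6 335 399) (node 337 (merge (leaf 2 333 365) (node 338 (merge (leaf 1 334 335) (leaf 1 335 339))))))))) (node 398 (merge (leaf 4 334 334) (node 397 (merge (leaf 3 397 433) (node 396 (merge (leaf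 0 395 395) (node 367 (merge (leaf 1 364 365) (leaf 1 365 369)))))))))))) (merge (node 366 (merge (node 398 (merge (leaf 4 334 334) (node 397 (merge (leaf 3 397 433) (node 396 (merge (leaf 0 395 395) (leaf 0 396 399))))))) (merge (node 334 (merge (leaf 4 334 398) (node 367 (merge (leaf 7 334 399) (node 333 (merge (leaf 3 333 369) (node 332 (merge (leaf 0 332 335) (leaf 3 332 365))))))))) (merge (node 398 (merge (leaf 4 334 334) (node 397 (merge (leaf 3 397 433) (node 396 (merge (leaf 0 395 395) (node 367 (merge (leaf 1 364 365) (leaf 1 365 369))))))))) (merge (node 367 (merge (node 399 (merge (leaf 7 334 334) (leaf 6 335 336))) (merge (node 399 (merge (leaf 7 334 334) (node 464 (merge (leaf 4 335 335) (leaf 7 399 496))))) (merge (node 399 (merge (leaf 6 335 336) (node 464 (merge (leaf 4 335 335) (leaf 7 399 496))))) (node 365 (merge (node 396 (merge (leaf 1 364 397) (node 364 (merge (leaf 1 363 395) (node 336 (merge (leaf 2 332 335) (leaf 2 333 337))))))) (merge (node 337 (merge (leaf 2 333 336) (node 369 (merge (leaf 2 334 338) (node 333 (merge (leaf 3 332 332) (leaf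 3 333 334))))))) (node 396 (merge (leaf 1 364 397) (node 364 (merge (leaf 1 363 395) (node 332 (merge (leaf 3 331 331) (leaf 3 332 333)))))))))))))) (node 367 (merge (node 399 (merge (leaf 6 335 336) (node 464 (merge (leaf 4 335 335) (leaf 7 399 496))))) (merge (node 336 (merge (leaf 6 335 399) (node 337 (merge (leaf 2 333 365) (node 338 (merge (leaf 1 335 339) (leaf 2 334 369))))))) (merge (node 365 (merge (node 397 (merge (leaf 1 364 396) (node 398 (merge (leaf 1 365 369) (leaf 3 397 433))))) (node 336 (merge (leaf 2 333 337) (node 364 (merge (leaf 2 332 335) (node 332 (merge (leaf 3 331 331) (leaf 3 332 333))))))))) (node 365 (merge (node 397 (merge (leaf 1 364 396) (node 398 (merge (leaf 1 365 369) (leaf 3 397 433))))) (merge (node 396 (merge (leaf 1 364 397) (node 364 (merge (leaf 1 363 395) (node 332 (merge (leaf 3 331 331) (leaf 3 332 333))))))) (merge (node 399 (merge (node 464 (merge (leaf 4 335 335) (leaf 7 399 496))) (node 332 (merge (leaf 3 332 333) (node 364 (merge (leaf 3 331 331) (node 398 (merge (leaf 0 363 363) (node 369 (merge (leaf 1 366 370) (leaf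 1 365 397))))))))))) (node 464 (merge (leaf 7 431 496) (node 332 (merge (leaf 3 332 333) (node 364 (merge (leaf 3 331 331) (node 395 (merge (leaf 1 363 396) (node 363 (merge (leaf 1 362 394) (node 399 (merge (leaf 4 335 335) (leaf 0 363 398)))))))))))))))))))))))))) (node 562 (merge (node 594 (merge (leaf 0 559 595) (node 558 (merge (leaf 0 558 593) (node 590 (merge (leaf 1 557 589) (leaf 1 558 591))))))) (node 366 (merge (node 398 (merge (leaf 4 334 334) (node 397 (merge (leaf 3 397 433) (node 396 (merge (leaf 0 395 395) (leaf 0 396 399))))))) (merge (node 398 (merge (leaf 4 334 334) (node 397 (merge (leaf 3 397 433) (node 396 (merge (leaf 0 395 395) (node 367 (merge (leaf 1 364 365) (leaf 1 365 369))))))))) (merge (node 464 (merge (leaf 7 431 496) (node 465 (merge (leaf 3 430 466) (node 400 (merge (leaf 4 368 497) (node 369 (merge (leaf 6 336 337) (node 367 (merge (leaf 7 335 335) (node 334 (merge (leaf 3 333 333) (leaf 7 334 399))))))))))))) (node 397 (merge (node 398 (merge (leaf 3 397 433) (node 396 (merge (leaf 0 395 395) (leaf 0 396 399))))) (merge (node 464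 (merge (leaf 7 431 496) (node 433 (merge (leaf 3 397 398) (node 466 (merge (leaf 0 430 465) (node 434 (merge (leaf 1 431 435) (leaf 0 431 467))))))))) (node 464 (merge (leaf 7 431 496) (node 465 (merge (leaf 3 430 466) (node 400 (merge (leaf 4 368 497) (node 367 (merge (leaf 7 335 335) (node 365 (merge (leaf 1 364 396) (node 364 (merge (leaf 0 364 399) (node 332 (merge (leaf 3 331 331) (leaf 3 332 333))))))))))))))))))))))))))))))) (merge (node 430 (merge (node 429 (merge (node 460 (merge (leaf 1 428 461) (node 428 (merge (leaf 1 427 459) (node 396 (merge (leaf 3 395 395) (leaf 3 396 397))))))) (merge (node 397 (merge (leaf 3 396 396) (node 433 (merge (leaf 3 397 398) (node 466 (merge (leaf 0 430 465) (node 434 (merge (leaf 0 431 467) (node 402 (merge (leaf 2 398 401) (leaf 2 399 403))))))))))) (node 461 (merge (leaf 1 428 460) (node 558 (merge (node 525 (merge (leaf 3 525 526) (node 493 (merge (leaf 6 397 398) (node 524 (merge (leaf 5 428 556) (leaf 3 524 557))))))) (node 594 (merge (leaf 0 558 593) (node 562 (merge (leaf 0 559 595) (node 590 (merge (leaf 1 557 589)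 (leaf 1 558 591)))))))))))))) (merge (node 558 (merge (node 594 (merge (leaf 0 558 593) (node 562 (merge (leaf 0 559 595) (node 590 (merge (leaf 1 557 589) (leaf 1 558 591))))))) (merge (node 589 (merge (leaf 1 557 590) (node 557 (merge (leaf 1 556 588) (node 525 (merge (leaf 3 524 524) (leaf 3 525 526))))))) (merge (node 525 (merge (leaf 3 525 526) (node 557 (merge (leaf 3 524 524) (node 588 (merge (leaf 1 556 589) (node 556 (merge (leaf 1 555 587) (node 461 (merge (leaf 5 460 493) (node 429 (merge (leaf 1 428 460) (node 400 (merge (leaf 2 397 401) (node 428 (merge (leaf 2 396 399) (node 396 (merge (leaf 3 395 395) (leaf 3 396 397))))))))))))))))))) (node 590 (merge (node 594 (merge (leaf 0 558 593) (node 562 (merge (leaf 1 558 591) (leaf 0 559 595))))) (merge (node 591 (merge (leaf 1 558 562) (node 623 (merge (leaf 6 527 655) (node 526 (merge (leaf 4 494 494) (leaf 3 525 525))))))) (node 525 (merge (leaf 3 525 526) (node 557 (merge (leaf 3 524 524) (node 461 (merge (leaf 4 461 493) (node 429 (merge (leaf 1 428 460) (node 400 (merge (leaf 2 397 401) (node 428 (merge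 (leaf 2 396 399) (node 396 (merge (leaf 3 395 395) (leaf 3 396 397)))))))))))))))))))))) (merge (node 433 (merge (node 466 (merge (leaf 0 430 465) (node 434 (merge (leaf 0 431 467) (node 402 (merge (leaf 2 398 401) (leaf 2 399 403))))))) (merge (node 465 (merge (leaf 0 430 466) (node 401 (merge (leaf 2 398 402) (node 400 (merge (leaf 2 397 429) (node 497 (merge (leaf 7 368 368) (leaf 5 400 496))))))))) (merge (node 466 (merge (leaf 0 430 465) (node 434 (merge (leaf 0 431 467) (node 399 (merge (leaf 3 398 398) (node 400 (merge (leaf 3 399 435) (node 429 (merge (leaf 2 397 401) (leaf 2 396 428))))))))))) (merge (node 466 (merge (leaf 0 430 465) (node 434 (merge (leaf 0 431 467) (node 403 (merge (leaf 2 399 402) (node 435 (merge (leaf 2 400 404) (node 399 (merge (leaf 3 398 398) (leaf 3 399 400))))))))))) (node 429 (merge (node 401 (merge (leaf 2 397 400) (leaf 2 398 402))) (merge (node 460 (merge (leaf 1 428 461) (node 428 (merge (leaf 1 427 459) (node 399 (merge (leaf 2 396 400) (node 427 (merge (leaf 2 395 398) (node 395 (merge (leaf 3 394 394) (leaf 3 395 396)))))))))))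 (node 461 (merge (leaf 1 428 460) (node 402 (merge (leaf 2 398 401) (node 434 (merge (leaf 2 399 403) (node 398 (merge (leaf 3 398 399) (node 525 (merge (leaf 6 397 493) (node 558 (merge (leaf 3 525 526) (node 589 (merge (leaf 1 557 590) (node 557 (merge (leaf 3 524 524) (leaf 1 556 588))))))))))))))))))))))))) (merge (node 429 (merge (node 460 (merge (leaf 1 428 461) (node 428 (merge (leaf 1 427 459) (node 396 (merge (leaf 3 395 395) (leaf 3 396 397))))))) (merge (node 461 (merge (leaf 1 428 460) (node 397 (merge (leaf 3 396 396) (node 398 (merge (leaf 3 397 433) (node 366 (merge (leaf 4 334 334) (leaf 6 365 493))))))))) (merge (node 428 (merge (node 396 (merge (leaf 3 395 395) (leaf 3 396 397))) (merge (node 399 (merge (leaf 2 396 400) (node 427 (merge (leaf 2 395 398) (node 458 (merge (leaf 1 426 459) (node 426 (merge (leaf 1 425 457) (node 394 (merge (leaf 3 393 393) (leaf 3 394 395))))))))))) (node 399 (merge (leaf 2 396 400) (node 398 (merge (leaf 2 395 427) (node 397 (merge (leaf 0 396 396) (leaf 3 397 433)))))))))) (merge (node 460 (merge (leaf 1 428 461)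 (node 428 (merge (leaf 1 427 459) (node 399 (merge (leaf 2 396 400) (node 427 (merge (leaf 2 395 398) (node 395 (merge (leaf 3 394 394) (leaf 3 395 396))))))))))) (node 460 (merge (leaf 1 428 461) (node 428 (merge (leaf 1 427 459) (node 399 (merge (leaf 2 396 400) (node 398 (merge (leaf 2 395 427) (node 433 (merge (leaf 3 397 397) (leaf 3 398 434)))))))))))))))) (node 562 (merge (node 594 (merge (leaf 0 559 595) (node 558 (merge (leaf 0 558 593) (node 590 (merge (leaf 1 557 589) (leaf 1 558 591))))))) (node 433 (merge (node 466 (merge (leaf 0 430 465) (node 434 (merge (leaf 0 431 467) (node 402 (merge (leaf 2 398 401) (leaf 2 399 403))))))) (merge (node 466 (merge (leaf 0 430 465) (node 434 (merge (leaf 0 431 467) (node 398 (merge (leaf 3 397 397) (leaf 3 398 399))))))) (merge (node 402 (merge (leaf 2 398 401) (node 434 (merge (leaf 2 399 403) (node 398 (merge (leaf 3 397 397) (leaf 3 398 399))))))) (node 465 (merge (leaf 0 430 466) (node 401 (merge (leaf 2 398 402) (node 398 (merge (leaf 3 397 397) (node 334 (merge (leaf 4 334 366) (node 497 (merge (leaf 5 400 496)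 (node 368 (merge (leaf 7 368 400) (node 369 (merge (leaf 7 336 336) (node 370 (merge (leaf 6 337 338) (node 367 (merge (leaf 3 334 335) (leaf 1 366 399)))))))))))))))))))))))))))))) (merge (hyp 0) (hyp 1)))))))))) nP_401 cP_401 15 (by decide +kernel)
def nP_402 : ℕ := 0x800000000000000000000003c0000001000000000000000000000000000000000000000000000000000000000000000000000000000000000000000000000000000000000000000000000000000000000000
def cP_402 : ℕ := 0xb0000001f0000007fe000007fc00000ffc00000778000007fc0000069800000030000000f00000000000000000000000000000000000000000000000000000000000000000000000000000000000000000000000000000000000000000000000000000000000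
theorem lP_402 : S nP_402 cP_402 13 := S_of_chk [] trivial (node 654 (merge (node 623 (merge (leaf 6 527 591) (node 593 (merge (leaf 0 558 594) (node 625 (merge (leaf 7 528 657) (node 624 (merge (leaf 1 622 626) (node 653 (merge (leaf 1 621 622) (leaf 2 620 652))))))))))) (merge (node 623 (merge (leaf 6 527 591) (node 525 (merge (leaf 3 525 526) (node 557 (merge (leaf 3 524 524) (node 556 (merge (leaf 2 524 527) (node 588 (merge (leaf 1 555 587) (node 652 (merge (leaf 6 524 620) (node 653 (merge (leaf 2 620 624) (node 687 (merge (leaf 0 652 688) (node 651 (merge (leaf 2 619 622) (leaf 0 651 686))))))))))))))))))) (merge (node 623 (merge (leaf 6 527 591) (node 593 (merge (leaf 0 558 594) (node 625 (merge (leaf 7 528 657) (node 624 (merge (leaf 1 622 626) (node 653 (merge (leaf 1 621 622) (leaf 2 621 656))))))))))) (merge (node 653 (merge (node 657 (merge (node 593 (merge (leaf 0 558 594) (leaf 7 528 625))) (node 656 (merge (node 685 (merge (leaf 1 652 684) (leaf 1 653 686))) (node 689 (merge (leaf 0 653 688) (leaf 0 654 690))))))) (merge (node 525 (merge (leaf 3 525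 526) (node 557 (merge (leaf 3 524 524) (node 556 (merge (leaf 2 524 527) (node 588 (merge (leaf 1 555 587) (node 652 (merge (leaf 6 524 620) (node 687 (merge (leaf 0 652 688) (node 651 (merge (leaf 0 651 686) (node 683 (merge (leaf 1 650 682) (leaf 1 651 684))))))))))))))))) (node 593 (merge (leaf 0 558 594) (node 625 (merge (leaf 7 528 657) (node 656 (merge (leaf 2 621 624) (node 525 (merge (leaf 3 525 526) (node 557 (merge (leaf 3 524 524) (node 556 (merge (leaf 2 524 527) (node 588 (merge (leaf 1 555 587) (node 620 (merge (leaf 3 620 621) (leaf 6 524 652)))))))))))))))))))) (merge (node 653 (merge (node 657 (merge (node 593 (merge (leaf 0 558 594) (leaf 7 528 625))) (node 656 (merge (node 685 (merge (leaf 1 652 684) (leaf 1 653 686))) (node 689 (merge (leaf 0 653 688) (leaf 0 654 690))))))) (merge (node 525 (merge (leaf 3 525 526) (node 557 (merge (leaf 3 524 524) (node 556 (merge (leaf 2 524 527) (node 588 (merge (leaf 1 555 587) (node 652 (merge (leaf 6 524 620) (node 687 (merge (leaf 0 652 688) (node 651 (merge (leaf 0 651 686) (node 683 (merge (leaf 1 650 682)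 (leaf 1 651 684))))))))))))))))) (node 525 (merge (leaf 3 525 526) (node 557 (merge (leaf 3 524 524) (node 556 (merge (leaf 2 524 527) (node 588 (merge (leaf 1 555 587) (node 620 (merge (leaf 6 524 652) (node 621 (merge (leaf 3 620 656) (node 619 (merge (leaf 0 618 618) (leaf 0 619 622)))))))))))))))))) (node 686 (merge (node 593 (merge (leaf 0 558 594) (node 657 (merge (leaf 7 528 625) (node 656 (merge (leaf 1 653 685) (node 690 (merge (leaf 0 654 689) (node 658 (merge (leaf 1 654 687) (leaf 0 655 691))))))))))) (merge (node 623 (merge (leaf 6 527 591) (node 593 (merge (leaf 0 558 594) (node 657 (merge (leaf 7 528 625) (node 656 (merge (leaf 1 653 685) (node 622 (merge (leaf 3 621 621) (leaf 3 622 658))))))))))) (merge (node 718 (merge (node 623 (merge (leaf 6 527 591) (leaf 6 622 750))) (merge (node 750 (merge (node 782 (merge (leaf 6 654 687) (node 781 (merge (leaf 5 653 749) (leaf 5 685 813))))) (merge (node 782 (merge (leaf 6 654 687) (node 783 (merge (leaf 4 654 751) (leaf 4 686 815))))) (node 751 (merge (leaf 4 654 783) (node 622 (merge (leaf 4 622 719) (node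 749 (merge (leaf 5 621 717) (leaf 5 653 781)))))))))) (node 717 (merge (node 749 (merge (leaf 5 621 622) (node 781 (merge (leaf 6 653 685) (leaf 6 685 813))))) (merge (node 719 (merge (node 751 (merge (leaf 4 622 622) (node 783 (merge (leaf 7 654 687) (leaf 7 686 815))))) (merge (node 751 (merge (leaf 4 622 622) (node 752 (merge (leaf 0 716 716) (node 753 (merge (leaf 0 717 720) (leaf 3 718 754))))))) (node 720 (merge (node 685 (merge (leaf 3 684 684) (leaf 3 685 721))) (node 623 (merge (leaf 6 527 591) (node 752 (merge (leaf 4 623 687) (leaf 0 717 753)))))))))) (merge (node 719 (merge (node 751 (merge (leaf 4 622 622) (node 783 (merge (leaf 7 654 687) (leaf 7 686 815))))) (merge (node 749 (merge (leaf 5 621 622) (node 748 (merge (leaf 1 716 720) (node 747 (merge (leaf 1 715 716) (leaf 2 714 746))))))) (node 716 (merge (node 751 (merge (leaf 0 716 752) (node 687 (merge (leaf 2 684 688) (leaf 7 654 783))))) (node 747 (merge (leaf 1 715 748) (node 715 (merge (leaf 1 714 746) (node 683 (merge (leaf 3 682 682) (leaf 3 683 684)))))))))))) (node 716 (merge (node 687 (merge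 (leaf 2 683 715) (node 688 (merge (leaf 1 685 689) (leaf 2 684 719))))) (merge (node 715 (merge (leaf 2 683 687) (node 746 (merge (leaf 1 714 747) (node 714 (merge (leaf 2 682 685) (leaf 1 713 745))))))) (merge (node 719 (merge (node 751 (merge (leaf 0 716 752) (node 687 (merge (leaf 2 684 688) (leaf 7 654 783))))) (node 748 (merge (leaf 1 715 747) (node 720 (merge (leaf 1 716 749) (node 684 (merge (leaf 3 683 683) (leaf 3 684 685))))))))) (node 685 (merge (node 683 (merge (leaf 2 651 684) (node 715 (merge (leaf 3 682 682) (leaf 2 682 714))))) (merge (node 781 (merge (leaf 6 653 749) (node 684 (merge (leaf 2 651 683) (node 719 (merge (leaf 3 684 720) (node 748 (merge (leaf 1 715 747) (node 780 (merge (leaf 6 684 812) (leaf 4 684 813))))))))))) (node 715 (merge (leaf 2 682 714) (node 747 (merge (leaf 1 714 746) (node 719 (merge (leaf 1 715 748) (node 752 (merge (leaf 0 716 751) (node 720 (merge (leaf 3 685 721) (leaf 0 717 753))))))))))))))))))))))))) (node 718 (merge (node 623 (merge (leaf 6 527 591) (leaf 6 622 750))) (merge (node 750 (merge (node 782 (merge (leaf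 6 654 687) (node 781 (merge (leaf 5 653 749) (leaf 5 685 813))))) (merge (node 782 (merge (leaf 6 654 687) (node 783 (merge (leaf 4 654 751) (leaf 4 686 815))))) (node 751 (merge (leaf 4 654 783) (node 622 (merge (leaf 4 622 719) (node 749 (merge (leaf 5 621 717) (leaf 5 653 781)))))))))) (node 719 (merge (node 751 (merge (leaf 4 622 622) (node 783 (merge (leaf 7 654 687) (leaf 7 686 815))))) (merge (node 623 (merge (leaf 6 527 591) (node 525 (merge (leaf 3 525 526) (node 557 (merge (leaf 3 524 524) (node 556 (merge (leaf 2 524 527) (node 588 (merge (leaf 1 555 587) (node 620 (merge (leaf 6 524 652) (node 622 (merge (leaf 4 622 751) (node 621 (merge (leaf 0 619 619) (leaf 0 620 656))))))))))))))))) (merge (node 687 (merge (node 623 (merge (leaf 6 527 591) (node 751 (merge (leaf 7 654 783) (node 752 (merge (leaf 4 623 720) (leaf 4 655 784))))))) (merge (node 593 (merge (leaf 0 558 594) (node 657 (merge (leaf 7 528 625) (node 656 (merge (leaf 1 654 658) (node 751 (merge (leaf 6 623 624) (leaf 7 654 783))))))))) (node 623 (merge (leaf 6 527 591) (node 593 (merge (leaf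 0 558 594) (node 657 (merge (leaf 7 528 625) (node 658 (merge (leaf 1 654 656) (node 689 (merge (leaf 2 654 688) (node 720 (merge (leaf 4 623 752) (node 721 (merge (leaf 2 686 690) (leaf 3 686 722)))))))))))))))))) (node 717 (merge (node 749 (merge (leaf 5 621 622) (node 748 (merge (leaf 1 716 720) (node 747 (merge (leaf 1 715 716) (leaf 2 714 746))))))) (merge (node 593 (merge (leaf 0 558 594) (node 657 (merge (leaf 7 528 625) (node 622 (merge (leaf 5 621 749) (node 656 (merge (leaf 3 621 621) (node 658 (merge (leaf 3 622 623) (leaf 1 654 687))))))))))) (merge (node 689 (merge (node 688 (merge (leaf 1 685 687) (leaf 2 685 720))) (merge (node 720 (merge (leaf 2 685 688) (node 753 (merge (leaf 0 717 752) (node 721 (merge (leaf 2 686 690) (leaf 0 718 754))))))) (node 593 (merge (leaf 0 558 594) (node 623 (merge (leaf 6 527 591) (node 657 (merge (leaf 7 528 625) (node 656 (merge (leaf 0 654 690) (node 658 (merge (leaf 3 622 622) (leaf 1 654 687)))))))))))))) (node 687 (merge (node 688 (merge (leaf 1 685 689) (leaf 2 684 716))) (merge (node 623 (merge (leaf 6 527 591)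 (node 716 (merge (leaf 2 683 715) (node 748 (merge (leaf 1 715 747) (node 720 (merge (leaf 1 716 749) (leaf 4 623 752))))))))) (node 593 (merge (leaf 0 558 594) (node 657 (merge (leaf 7 528 625) (node 656 (merge (leaf 1 654 658) (node 689 (merge (leaf 1 685 688) (leaf 0 654 690))))))))))))))))))))))))))))))))) nP_402 cP_402 13 (by decide +kernel)
def nP_403 : ℕ := 0x380000001000000000000000080000000800000000000000000000000000000000000000000000000000000000000000000000000000000000000000000000000000000000000
def cP_403 : ℕ := 0xb0000001f0000007fe000007fc00001ffc00000ff800001ffc000006fc00000078000000fc0000016000000700000001700000000000000000000000000000000000000000000000000000000000000000000000000000000000000000000000000000000000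
theorem lP_403 : S nP_403 cP_403 15 := S_of_chk [(nP_402, cP_402, 13)] ⟨lP_402, trivial⟩ (node 558 (merge (node 589 (merge (leaf 1 557 590) (node 557 (merge (leaf 1 556 588) (node 525 (merge (leaf 3 524 524) (leaf 3 525 526))))))) (merge (node 525 (merge (leaf 3 525 526) (node 557 (merge (leaf 3 524 524) (node 588 (merge (leaf 1 556 589) (node 556 (merge (leaf 2 524 527) (leaf 1 555 587))))))))) (merge (node 557 (merge (node 589 (merge (leaf 1 556 588) (leaf 1 557 590))) (merge (node 590 (merge (leaf 1 557 589) (node 556 (merge (leaf 2 524 527) (node 555 (merge (leaf 0 555 591) (node 523 (merge (leaf 3 522 522) (leaf 3 523 524))))))))) (node 556 (merge (leaf 2 524 527) (node 587 (merge (leaf 1 555 588) (node 555 (merge (leaf 1 554 586) (node 523 (merge (leaf 3 522 522) (leaf 3 523 524)))))))))))) (merge (node 590 (merge (leaf 1 557 589) (node 622 (merge (node 654 (merge (leaf 6 526 527) (node 686 (merge (leaf 6 558 591) (node 685 (merge (leaf 5 557 653) (leaf 5 589 717))))))) (merge (node 526 (merge (node 525 (merge (leaf 7 493 493) (leaf 3 525 559))) (node 655 (merge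 (leaf 4 526 623) (node 654 (merge (leaf 4 558 687) (node 653 (merge (leaf 5 525 621) (leaf 5 557 685))))))))) (node 496 (merge (leaf 7 431 464) (node 526 (merge (leaf 3 525 525) (node 623 (merge (leaf 4 526 655) (node 591 (merge (leaf 4 494 494) (leaf 6 495 527)))))))))))))) (node 655 (merge (node 591 (merge (leaf 6 527 623) (node 525 (merge (leaf 3 525 526) (node 557 (merge (leaf 3 524 524) (node 556 (merge (leaf 2 524 527) (node 555 (merge (leaf 0 555 590) (node 587 (merge (leaf 1 554 586) (leaf 1 555 588))))))))))))) (merge (node 657 (merge (node 593 (merge (leaf 0 558 594) (leaf 7 528 625))) (node 623 (merge (leaf 6 527 591) (node 526 (merge (leaf 3 525 525) (node 622 (merge (leaf 4 526 590) (node 656 (merge (leaf 3 622 658) (node 621 (merge (leaf 0 620 620) (leaf 0 621 624))))))))))))) (merge (node 657 (merge (node 593 (merge (leaf 0 558 594) (leaf 7 528 625))) (node 622 (merge (node 526 (merge (leaf 3 525 525) (node 590 (merge (leaf 4 526 623) (node 654 (merge (leaf 6 526 527) (leaf 4 558 687))))))) (merge (node 526 (merge (leaf 3 525 525) (node 623 (merge (leaf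 4 526 590) (node 656 (merge (leaf 3 622 658) (node 621 (merge (leaf 0 620 620) (leaf 0 621 624))))))))) (merge (node 656 (merge (node 623 (merge (leaf 3 622 658) (node 621 (merge (leaf 0 620 620) (leaf 0 621 624))))) (merge (node 654 (merge (leaf 3 621 621) (node 590 (merge (leaf 6 526 527) (leaf 4 558 687))))) (node 658 (merge (leaf 3 622 623) (node 690 (merge (leaf 0 655 691) (node 654 (merge (leaf 0 654 689) (node 687 (merge (leaf 4 558 590) (leaf 1 654 686)))))))))))) (merge (node 656 (merge (node 623 (merge (leaf 3 622 658) (node 621 (merge (leaf 0 620 620) (leaf 0 621 624))))) (merge (node 654 (merge (leaf 3 621 621) (node 689 (merge (leaf 0 654 690) (node 653 (merge (leaf 0 653 688) (node 685 (merge (leaf 1 652 684) (leaf 1 653 686))))))))) (node 658 (merge (leaf 3 622 623) (node 690 (merge (leaf 0 655 691) (node 654 (merge (leaf 0 654 689) (node 686 (merge (leaf 1 653 685) (leaf 1 654 687)))))))))))) (node 525 (merge (leaf 3 525 526) (node 557 (merge (leaf 3 524 524) (node 654 (merge (leaf 7 525 590) (node 656 (merge (leaf 3 621 621) (node 689 (merge (leaf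 0 654 690) (node 653 (merge (leaf 0 653 688) (node 685 (merge (leaf 1 652 684) (leaf 1 653 686)))))))))))))))))))))) (merge (node 654 (merge (node 622 (merge (node 590 (merge (leaf 6 526 527) (leaf 4 558 687))) (node 593 (merge (leaf 0 558 594) (node 657 (merge (leaf 7 528 625) (node 656 (merge (leaf 3 621 621) (node 689 (merge (leaf 0 654 690) (node 653 (merge (leaf 0 653 688) (node 685 (merge (leaf 1 652 684) (leaf 1 653 686))))))))))))))) (merge (node 622 (merge (node 525 (merge (leaf 3 525 526) (node 590 (merge (leaf 7 525 557) (leaf 4 558 687))))) (node 593 (merge (leaf 0 558 594) (node 657 (merge (leaf 7 528 625) (node 656 (merge (leaf 3 621 621) (node 689 (merge (leaf 0 654 690) (node 653 (merge (leaf 0 653 688) (node 685 (merge (leaf 1 652 684) (leaf 1 653 686))))))))))))))) (merge (node 525 (merge (leaf 3 525 526) (node 557 (merge (leaf 3 524 524) (node 590 (merge (leaf 7 525 622) (node 556 (merge (leaf 2 524 527) (node 555 (merge (leaf 0 555 591) (node 587 (merge (leaf 1 554 586) (leaf 1 555 588))))))))))))) (node 653 (merge (node 657 (merge (node 593 (merge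 (leaf 0 558 594) (leaf 7 528 625))) (node 656 (merge (node 685 (merge (leaf 1 652 684) (leaf 1 653 686))) (node 689 (merge (leaf 0 653 688) (leaf 0 654 690))))))) (merge (node 525 (merge (leaf 3 525 526) (node 557 (merge (leaf 3 524 524) (node 556 (merge (leaf 2 524 527) (node 588 (merge (leaf 1 555 587) (node 652 (merge (leaf 6 524 620) (node 687 (merge (leaf 0 652 688) (node 651 (merge (leaf 0 651 686) (node 683 (merge (leaf 1 650 682) (leaf 1 651 684))))))))))))))))) (node 593 (merge (leaf 0 558 594) (node 625 (merge (leaf 7 528 657) (node 656 (merge (leaf 2 621 624) (node 525 (merge (leaf 3 525 526) (node 557 (merge (leaf 3 524 524) (node 556 (merge (leaf 2 524 527) (node 588 (merge (leaf 1 555 587) (node 620 (merge (leaf 3 620 621) (leaf 6 524 652)))))))))))))))))))))))) (merge (node 657 (merge (node 593 (merge (leaf 0 558 594) (leaf 7 528 625))) (merge (node 656 (merge (node 623 (merge (leaf 6 527 591) (node 622 (merge (leaf 3 622 658) (node 621 (merge (leaf 0 620 620) (leaf 0 621 624))))))) (merge (node 658 (merge (node 691 (merge (leaf 0 655 690) (node 659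 (merge (leaf 0 656 692) (node 627 (merge (leaf 2 623 626) (leaf 2 624 628))))))) (merge (node 690 (merge (leaf 0 655 691) (node 654 (merge (leaf 0 654 689) (node 686 (merge (leaf 1 653 685) (leaf 1 654 687))))))) (node 687 (merge (leaf 1 654 686) (node 659 (merge (leaf 1 655 688) (node 627 (merge (leaf 2 623 626) (leaf 2 624 628)))))))))) (node 654 (merge (node 622 (merge (leaf 3 621 621) (node 590 (merge (leaf 6 526 527) (leaf 4 558 687))))) (merge (node 623 (merge (leaf 6 527 591) (node 689 (merge (leaf 0 654 690) (node 653 (merge (leaf 0 653 688) (node 652 (merge (leaf 2 620 624) (node 620 (merge (leaf 3 619 619) (leaf 3 620 621))))))))))) (node 623 (merge (leaf 6 527 591) (node 689 (merge (leaf 0 654 690) (node 653 (merge (leaf 0 653 688) (node 686 (merge (leaf 1 653 685) (node 652 (merge (leaf 2 620 624) (node 651 (merge (leaf 2 619 622) (leaf 0 651 687))))))))))))))))))) (node 430 (merge (node 464 (merge (leaf 7 431 496) (node 429 (merge (leaf 0 428 428) (node 465 (merge (leaf 0 429 432) (leaf 3 430 466))))))) (node 656 (merge (node 623 (merge (leaf 6 527 591)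 (node 622 (merge (leaf 3 622 658) (node 621 (merge (leaf 0 620 620) (leaf 3 621 654))))))) (merge (node 623 (merge (leaf 6 527 591) (node 622 (merge (leaf 3 622 658) (node 621 (merge (leaf 0 620 620) (leaf 0 621 624))))))) (merge (node 626 (merge (node 627 (merge (leaf 2 623 658) (node 625 (merge (leaf 1 623 624) (leaf 1 624 628))))) (merge (node 658 (merge (leaf 2 623 627) (node 690 (merge (leaf 0 655 691) (node 654 (merge (leaf 0 654 689) (node 686 (merge (leaf 1 653 685) (leaf 1 654 687))))))))) (node 654 (merge (leaf 2 622 625) (node 689 (merge (leaf 0 654 690) (node 653 (merge (leaf 0 653 688) (node 685 (merge (leaf 1 652 684) (leaf 1 653 686)))))))))))) (node 654 (merge (node 591 (merge (leaf 6 527 623) (node 686 (merge (leaf 1 653 685) (node 622 (merge (leaf 6 558 590) (leaf 3 621 621))))))) (merge (node 685 (merge (leaf 1 653 686) (node 653 (merge (leaf 1 652 684) (node 625 (merge (leaf 2 621 624) (leaf 2 622 626))))))) (node 625 (merge (leaf 2 622 626) (node 653 (merge (leaf 2 621 624) (node 621 (merge (leaf 3 620 620) (leaf 3 621 622))))))))))))))))))) (hyp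 0)))))))))))) nP_403 cP_403 15 (by decide +kernel)
def nP_404 : ℕ := 0x300000001000000000000000080000000800000008000000000000000000000000000000000000000000000000000000000000000000000000000000000000000000000000000
def cP_404 : ℕ := 0x3ee000001cd0000038f00000077000001f3800001f7800003f7c00000ffc000006f0000007f0000001f0000001500000000000000000000000000000000000000000000000000000000000
theorem lP_404 : S nP_404 cP_404 15 := S_of_chk [] trivial (node 432 (merge (node 464 (merge (leaf 7 431 496) (node 433 (merge (node 434 (merge (leaf 3 398 398) (leaf 1 431 435))) (merge (node 434 (merge (leaf 1 431 435) (node 466 (merge (leaf 0 431 467) (node 402 (merge (leaf 2 399 403) (node 401 (merge (leaf 2 398 430) (node 369 (merge (leaf 4 337 337) (leaf 7 369 498))))))))))) (node 430 (merge (node 429 (merge (leaf 0 428 428) (node 401 (merge (leaf 2 397 400) (leaf 2 398 402))))) (merge (node 429 (merge (leaf 0 428 428) (node 397 (merge (leaf 3 396 396) (leaf 3 397 398))))) (node 401 (merge (leaf 2 398 402) (node 398 (merge (leaf 3 397 397) (node 366 (merge (leaf 4 334 334) (node 400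 (merge (leaf 3 365 365) (node 369 (merge (leaf 5 336 337) (leaf 2 366 370))))))))))))))))))) (merge (node 430 (merge (node 464 (merge (leaf 7 399 496) (node 465 (merge (leaf 0 429 429) (leaf 3 430 466))))) (merge (node 429 (merge (node 460 (merge (leaf 1 428 461) (node 428 (merge (leaf 1 427 459) (node 396 (merge (leaf 3 395 395) (leaf 3 396 397))))))) (merge (node 460 (merge (leaf 1 428 461) (node 428 (merge (leaf 1 427 459) (node 427 (merge (leaf 2 395 398) (node 395 (merge (leaf 3 394 394) (leaf 3 395 396))))))))) (merge (node 460 (merge (leaf 1 428 461) (node 428 (merge (leaf 1 427 459) (node 398 (merge (leaf 2 395 427) (node 433 (merge (leaf 3 397 397) (leaf 3 398 434))))))))) (node 397 (merge (leaf 3 396 396) (node 433 (merge (leaf 3 397 398) (node 466 (merge (leaf 0 430 465) (node 434 (merge (leaf 0 431 467) (node 402 (merge (leaf 2 398 401) (leaf 2 399 403))))))))))))))) (merge (node 464 (merge (leaf 7 399 496) (node 429 (merge (leaf 0 428 428) (node 397 (merge (leaf 3 396 396) (node 433 (merge (leaf 3 397 398) (node 434 (merge (leaf 1 431 435) (node 402 (merge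 (leaf 2 398 401) (leaf 2 399 403))))))))))))) (node 433 (merge (node 466 (merge (leaf 0 430 465) (node 434 (merge (leaf 0 431 467) (node 398 (merge (leaf 3 397 397) (leaf 3 398 399))))))) (merge (node 465 (merge (leaf 0 430 466) (node 496 (merge (leaf 6 432 464) (node 401 (merge (leaf 2 398 402) (leaf 5 400 497))))))) (node 402 (merge (leaf 2 398 401) (node 434 (merge (leaf 2 399 403) (node 398 (merge (leaf 3 397 397) (leaf 3 398 399)))))))))))))) (merge (node 430 (merge (node 464 (merge (leaf 7 399 496) (node 465 (merge (leaf 0 429 429) (leaf 3 430 466))))) (merge (node 464 (merge (leaf 7 399 496) (node 429 (merge (leaf 0 428 428) (node 401 (merge (leaf 2 397 400) (node 433 (merge (leaf 2 398 402) (node 434 (merge (leaf 3 398 398) (leaf 1 431 435))))))))))) (merge (node 433 (merge (node 466 (merge (leaf 0 430 465) (node 434 (merge (leaf 0 431 467) (node 402 (merge (leaf 2 398 401) (leaf 2 399 403))))))) (merge (node 466 (merge (leaf 0 430 465) (node 434 (merge (leaf 0 431 467) (node 464 (merge (leaf 1 431 435) (leaf 7 431 496))))))) (merge (node 464 (merge (leaf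 7 431 496) (node 434 (merge (leaf 1 431 435) (node 402 (merge (leaf 2 398 401) (leaf 2 399 403))))))) (node 465 (merge (leaf 0 430 466) (node 496 (merge (leaf 6 432 464) (node 401 (merge (leaf 2 398 402) (leaf 5 400 497))))))))))) (node 429 (merge (node 400 (merge (leaf 2 397 401) (leaf 2 396 428))) (merge (node 460 (merge (leaf 1 428 461) (node 428 (merge (leaf 1 427 459) (node 427 (merge (leaf 2 395 398) (node 395 (merge (leaf 3 394 394) (leaf 3 395 396))))))))) (node 401 (merge (leaf 2 397 400) (node 433 (merge (leaf 2 398 402) (node 466 (merge (leaf 0 430 465) (node 434 (merge (leaf 3 398 398) (leaf 0 431 467)))))))))))))))) (merge (node 526 (merge (node 527 (merge (leaf 0 525 525) (node 562 (merge (leaf 3 526 559) (leaf 3 527 563))))) (node 367 (merge (node 464 (merge (leaf 4 335 335) (leaf 4 367 496))) (merge (node 335 (merge (node 334 (merge (leaf 7 302 302) (leaf 7 334 366))) (merge (node 303 (merge (leaf 4 303 400) (node 272 (merge (leaf 6 271 304) (node 271 (merge (leaf 6 239 240) (node 270 (merge (leaf 7 238 238) (leaf 7 270 302))))))))) (node 366 (merge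 (leaf 7 334 334) (node 303 (merge (leaf 4 303 400) (node 272 (merge (leaf 6 271 304) (node 271 (merge (leaf 6 239 240) (leaf 5 270 398)))))))))))) (node 366 (merge (leaf 7 334 334) (node 433 (merge (node 398 (merge (leaf 3 398 434) (node 397 (merge (leaf 0 396 396) (leaf 0 397 400))))) (merge (node 464 (merge (leaf 7 399 496) (node 434 (merge (leaf 3 398 398) (leaf 1 431 435))))) (merge (node 464 (merge (leaf 7 399 496) (node 434 (merge (leaf 1 431 435) (node 402 (merge (leaf 2 399 403) (node 401 (merge (leaf 3 366 400) (node 369 (merge (leaf 5 336 337) (leaf 0 366 368))))))))))) (node 401 (merge (node 400 (merge (leaf 3 366 402) (node 365 (merge (leaf 0 364 364) (leaf 0 365 368))))) (merge (node 400 (merge (leaf 3 366 402) (node 398 (merge (leaf 3 365 365) (leaf 0 397 397))))) (merge (node 464 (merge (leaf 6 400 496) (node 369 (merge (leaf 5 336 337) (node 368 (merge (leaf 0 366 402) (node 398 (merge (leaf 1 366 370) (leaf 1 365 397))))))))) (node 400 (merge (node 365 (merge (leaf 0 364 364) (leaf 0 365 368))) (merge (node 398 (merge (leaf 3 365 365) (leaf 0 397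 397))) (node 398 (merge (leaf 0 397 397) (node 464 (merge (leaf 6 400 496) (node 369 (merge (leaf 5 336 337) (leaf 2 366 370))))))))))))))))))))))))) (merge (node 562 (merge (node 527 (merge (leaf 3 527 563) (node 526 (merge (leaf 0 525 525) (leaf 3 526 559))))) (merge (node 563 (merge (leaf 3 527 527) (node 596 (merge (leaf 0 560 595) (node 564 (merge (leaf 0 561 597) (node 532 (merge (leaf 2 528 531) (leaf 2 529 533))))))))) (node 559 (merge (node 594 (merge (leaf 0 559 595) (node 558 (merge (leaf 0 558 593) (node 590 (merge (leaf 1 557 589) (leaf 1 558 591))))))) (node 464 (merge (leaf 7 399 496) (node 400 (merge (node 465 (merge (node 466 (merge (leaf 3 430 430) (leaf 3 431 467))) (node 367 (merge (leaf 4 335 335) (node 368 (merge (leaf 4 368 497) (node 369 (merge (leaf 6 336 337) (node 370 (merge (leaf 1 367 371) (leaf 1 366 398))))))))))) (merge (node 430 (merge (node 465 (merge (leaf 0 429 429) (leaf 3 430 466))) (merge (node 429 (merge (leaf 2 397 401) (leaf 0 428 428))) (node 465 (merge (leaf 3 430 466) (node 368 (merge (leaf 4 368 497) (node 369 (merge (leaf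 6 336 337) (node 370 (merge (leaf 1 367 371) (node 398 (merge (leaf 2 365 397) (leaf 2 366 401)))))))))))))) (merge (node 367 (merge (leaf 4 335 335) (node 366 (merge (leaf 7 334 334) (node 365 (merge (leaf 0 364 364) (node 368 (merge (leaf 0 365 401) (node 465 (merge (leaf 4 368 497) (node 430 (merge (leaf 0 429 429) (leaf 3 430 466))))))))))))) (node 367 (merge (leaf 4 335 335) (node 366 (merge (leaf 7 334 334) (node 365 (merge (leaf 0 364 364) (node 401 (merge (leaf 3 365 398) (leaf 3 366 402)))))))))))))))))))) (merge (node 562 (merge (node 563 (merge (leaf 3 527 527) (node 596 (merge (leaf 0 560 595) (node 564 (merge (leaf 0 561 597) (node 532 (merge (leaf 2 528 531) (leaf 2 529 533))))))))) (node 464 (merge (leaf 7 399 496) (node 398 (merge (node 397 (merge (leaf 0 396 396) (node 433 (merge (leaf 3 397 430) (leaf 3 398 434))))) (merge (node 397 (merge (leaf 0 396 396) (node 433 (merge (leaf 0 397 400) (leaf 3 398 434))))) (merge (node 400 (merge (node 367 (merge (leaf 4 335 335) (node 366 (merge (leaf 7 334 334) (node 365 (merge (leaf 0 364 364) (leaf 3 365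 401))))))) (merge (node 397 (merge (leaf 0 396 396) (node 429 (merge (leaf 1 396 428) (node 430 (merge (leaf 1 397 401) (leaf 0 429 465))))))) (node 397 (merge (leaf 0 396 396) (node 429 (merge (leaf 1 396 428) (node 430 (merge (leaf 0 429 465) (node 365 (merge (leaf 3 364 364) (node 333 (merge (leaf 4 301 301) (node 334 (merge (leaf 6 301 302) (leaf 4 334 366)))))))))))))))) (node 400 (merge (node 367 (merge (leaf 4 335 335) (node 366 (merge (leaf 7 334 334) (node 365 (merge (leaf 0 364 364) (leaf 3 365 401))))))) (merge (node 465 (merge (node 466 (merge (leaf 3 430 430) (leaf 3 431 467))) (node 368 (merge (leaf 4 368 497) (node 369 (merge (leaf 6 336 337) (node 370 (merge (leaf 1 366 367) (leaf 1 367 371))))))))) (node 430 (merge (node 429 (merge (leaf 1 397 401) (leaf 0 428 428))) (merge (node 465 (merge (leaf 0 429 429) (leaf 3 430 466))) (node 433 (merge (leaf 3 398 434) (node 366 (merge (leaf 4 334 334) (node 401 (merge (leaf 3 365 365) (node 369 (merge (leaf 5 336 337) (leaf 2 366 370))))))))))))))))))))))) (merge (node 562 (merge (node 527 (merge (leaf 3 527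 563) (node 526 (merge (leaf 0 525 525) (leaf 3 526 559))))) (merge (node 563 (merge (leaf 3 527 527) (node 596 (merge (leaf 0 560 595) (node 564 (merge (leaf 0 561 597) (node 532 (merge (leaf 2 528 531) (leaf 2 529 533))))))))) (node 559 (merge (node 594 (merge (leaf 0 559 595) (node 558 (merge (leaf 0 558 593) (node 590 (merge (leaf 1 557 589) (leaf 1 558 591))))))) (node 433 (merge (node 398 (merge (leaf 3 398 434) (node 397 (merge (leaf 0 396 396) (leaf 3 397 430))))) (merge (node 434 (merge (leaf 3 398 398) (node 435 (merge (leaf 3 399 400) (leaf 1 431 464))))) (merge (node 434 (merge (node 403 (merge (leaf 2 399 402) (node 435 (merge (leaf 3 399 400) (leaf 2 400 404))))) (merge (node 467 (merge (leaf 0 431 466) (node 435 (merge (leaf 3 399 400) (leaf 0 432 468))))) (node 466 (merge (leaf 0 431 467) (node 430 (merge (leaf 0 430 465) (node 402 (merge (leaf 2 398 401) (leaf 2 399 403)))))))))) (node 401 (merge (node 402 (merge (leaf 2 398 430) (node 403 (merge (leaf 1 399 400) (leaf 1 400 404))))) (merge (node 430 (merge (leaf 2 398 402) (node 397 (merge (leaf 3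 397 398) (node 429 (merge (leaf 3 396 396) (node 428 (merge (leaf 0 428 464) (node 460 (merge (leaf 1 427 459) (leaf 1 428 461))))))))))) (merge (node 430 (merge (node 429 (merge (leaf 2 397 400) (node 397 (merge (leaf 3 396 396) (leaf 3 397 398))))) (merge (node 465 (merge (leaf 0 430 466) (node 429 (merge (leaf 2 397 400) (leaf 0 429 464))))) (merge (node 465 (merge (leaf 0 430 466) (node 429 (merge (leaf 0 429 464) (node 460 (merge (leaf 1 428 461) (node 428 (merge (leaf 1 427 459) (node 396 (merge (leaf 3 395 395) (leaf 3 396 397))))))))))) (node 398 (merge (leaf 3 397 397) (node 366 (merge (leaf 4 334 334) (node 400 (merge (leaf 3 365 365) (node 369 (merge (leaf 2 366 370) (node 337 (merge (leaf 5 304 305) (leaf 5 336 464))))))))))))))) (node 400 (merge (node 398 (merge (leaf 0 397 397) (node 366 (merge (leaf 3 365 365) (node 334 (merge (leaf 4 302 302) (leaf 7 334 367))))))) (node 402 (merge (leaf 1 399 403) (node 370 (merge (leaf 2 367 371) (node 465 (merge (leaf 6 369 497) (node 338 (merge (leaf 5 305 306) (leaf 6 337 369)))))))))))))))))))))))) (merge (node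 562 (merge (node 563 (merge (leaf 3 527 527) (node 596 (merge (leaf 0 560 595) (node 564 (merge (leaf 0 561 597) (node 532 (merge (leaf 2 528 531) (leaf 2 529 533))))))))) (node 433 (merge (node 464 (merge (leaf 7 399 496) (node 434 (merge (leaf 1 431 435) (node 402 (merge (leaf 2 399 403) (node 430 (merge (leaf 2 398 401) (node 429 (merge (leaf 0 428 428) (leaf 0 429 465))))))))))) (merge (node 430 (merge (node 464 (merge (leaf 7 399 496) (node 465 (merge (leaf 0 429 429) (leaf 3 430 466))))) (merge (node 401 (merge (leaf 2 398 402) (node 429 (merge (leaf 2 397 400) (node 460 (merge (leaf 1 428 461) (node 428 (merge (leaf 1 427 459) (node 396 (merge (leaf 3 395 395) (leaf 3 396 397))))))))))) (node 465 (merge (leaf 0 430 466) (node 496 (merge (leaf 6 432 464) (node 401 (merge (leaf 2 398 402) (leaf 5 400 497)))))))))) (merge (node 434 (merge (node 403 (merge (leaf 2 399 402) (node 435 (merge (leaf 3 399 400) (leaf 2 400 404))))) (merge (node 467 (merge (leaf 0 431 466) (node 435 (merge (leaf 3 399 400) (leaf 0 432 468))))) (node 466 (merge (leaf 0 431 467) (node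 430 (merge (leaf 0 430 465) (node 402 (merge (leaf 2 398 401) (leaf 2 399 403)))))))))) (merge (node 434 (merge (node 435 (merge (leaf 3 399 400) (leaf 1 431 464))) (node 466 (merge (leaf 0 431 467) (node 465 (merge (leaf 0 430 430) (node 402 (merge (leaf 2 399 403) (node 370 (merge (leaf 5 337 338) (leaf 5 369 497))))))))))) (merge (node 402 (merge (node 403 (merge (leaf 2 399 434) (node 401 (merge (leaf 1 399 400) (leaf 1 400 404))))) (merge (node 434 (merge (leaf 2 399 403) (node 467 (merge (leaf 0 431 466) (node 435 (merge (leaf 1 431 464) (leaf 0 432 468))))))) (node 464 (merge (leaf 7 399 496) (node 367 (merge (leaf 4 335 335) (node 366 (merge (leaf 7 334 334) (node 401 (merge (leaf 3 366 400) (node 369 (merge (leaf 5 336 337) (leaf 0 366 368)))))))))))))) (node 434 (merge (node 467 (merge (leaf 0 431 466) (node 435 (merge (leaf 1 431 464) (leaf 0 432 468))))) (merge (node 435 (merge (leaf 1 431 464) (node 404 (merge (leaf 2 400 403) (node 436 (merge (leaf 2 401 405) (node 400 (merge (leaf 3 399 399) (leaf 3 400 401))))))))) (merge (node 467 (merge (leaf 0 431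 466) (node 435 (merge (leaf 0 432 468) (node 404 (merge (leaf 2 400 403) (node 436 (merge (leaf 2 401 405) (node 400 (merge (leaf 3 399 399) (leaf 3 400 401))))))))))) (node 466 (merge (leaf 0 431 467) (node 465 (merge (leaf 0 430 430) (node 496 (merge (leaf 6 432 464) (node 401 (merge (leaf 5 400 497) (node 369 (merge (leaf 4 337 337) (leaf 4 369 498))))))))))))))))))))))) (merge (node 430 (merge (node 429 (merge (node 400 (merge (leaf 2 397 401) (leaf 2 396 428))) (merge (node 460 (merge (leaf 1 428 461) (node 428 (merge (leaf 1 427 459) (node 398 (merge (leaf 2 395 427) (node 433 (merge (leaf 3 397 397) (leaf 3 398 434))))))))) (node 401 (merge (leaf 2 397 400) (node 433 (merge (leaf 2 398 402) (node 398 (merge (leaf 3 397 397) (leaf 3 398 434)))))))))) (merge (node 429 (merge (node 400 (merge (leaf 2 397 401) (leaf 2 396 428))) (merge (node 460 (merge (leaf 1 428 461) (node 428 (merge (leaf 1 427 459) (node 427 (merge (leaf 2 395 398) (node 395 (merge (leaf 3 394 394) (leaf 3 395 396))))))))) (node 401 (merge (leaf 2 397 400) (node 433 (merge (leaf 2 398 402)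 (node 466 (merge (leaf 0 430 465) (node 434 (merge (leaf 3 398 398) (leaf 0 431 467)))))))))))) (merge (node 429 (merge (node 460 (merge (leaf 1 428 461) (node 428 (merge (leaf 1 427 459) (node 396 (merge (leaf 3 395 395) (leaf 3 396 397))))))) (merge (node 460 (merge (leaf 1 428 461) (node 428 (merge (leaf 1 427 459) (node 427 (merge (leaf 2 395 398) (node 395 (merge (leaf 3 394 394) (leaf 3 395 396))))))))) (merge (node 460 (merge (leaf 1 428 461) (node 428 (merge (leaf 1 427 459) (node 398 (merge (leaf 2 395 427) (node 433 (merge (leaf 3 397 397) (leaf 3 398 434))))))))) (node 397 (merge (leaf 3 396 396) (node 433 (merge (leaf 3 397 398) (node 466 (merge (leaf 0 430 465) (node 434 (merge (leaf 0 431 467) (node 402 (merge (leaf 2 398 401) (leaf 2 399 403))))))))))))))) (merge (node 433 (merge (node 466 (merge (leaf 0 430 465) (node 434 (merge (leaf 0 431 467) (node 402 (merge (leaf 2 398 401) (leaf 2 399 403))))))) (merge (node 401 (merge (leaf 2 398 402) (node 429 (merge (leaf 2 397 400) (node 460 (merge (leaf 1 428 461) (node 428 (merge (leaf 1 427 459) (node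 396 (merge (leaf 3 395 395) (leaf 3 396 397))))))))))) (merge (node 466 (merge (leaf 0 430 465) (node 434 (merge (leaf 0 431 467) (node 400 (merge (leaf 3 399 435) (node 429 (merge (leaf 2 397 401) (leaf 2 396 428))))))))) (node 466 (merge (leaf 0 430 465) (node 434 (merge (leaf 0 431 467) (node 403 (merge (leaf 2 399 402) (node 435 (merge (leaf 3 399 400) (leaf 2 400 404))))))))))))) (merge (node 433 (merge (node 466 (merge (leaf 0 430 465) (node 434 (merge (leaf 3 398 398) (leaf 0 431 467))))) (merge (node 466 (merge (leaf 0 430 465) (node 434 (merge (leaf 0 431 467) (node 403 (merge (leaf 2 399 402) (node 435 (merge (leaf 3 399 400) (leaf 2 400 404))))))))) (node 397 (merge (leaf 3 397 398) (node 429 (merge (leaf 3 396 396) (node 460 (merge (leaf 1 428 461) (node 428 (merge (leaf 2 396 400) (leaf 1 427 459)))))))))))) (merge (node 562 (merge (node 563 (merge (leaf 3 527 527) (node 596 (merge (leaf 0 560 595) (node 564 (merge (leaf 0 561 597) (node 532 (merge (leaf 2 528 531) (leaf 2 529 533))))))))) (node 401 (merge (node 402 (merge (leaf 1 398 400) (leaf 2 398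 433))) (merge (node 433 (merge (leaf 2 398 402) (node 398 (merge (leaf 3 397 397) (leaf 3 398 434))))) (merge (node 366 (merge (node 334 (merge (leaf 7 334 367) (leaf 4 334 398))) (merge (node 400 (merge (leaf 1 398 402) (node 398 (merge (leaf 4 334 334) (leaf 3 365 365))))) (merge (node 400 (merge (leaf 1 398 402) (node 365 (merge (leaf 3 365 398) (node 367 (merge (leaf 0 364 364) (leaf 0 365 368))))))) (node 367 (merge (leaf 7 334 334) (node 400 (merge (leaf 1 398 402) (node 365 (merge (leaf 0 364 364) (leaf 0 365 368))))))))))) (node 398 (merge (node 433 (merge (leaf 3 397 397) (leaf 3 398 434))) (merge (node 397 (merge (leaf 0 396 396) (node 366 (merge (leaf 4 334 334) (node 400 (merge (leaf 3 365 365) (node 369 (merge (leaf 2 365 368) (leaf 2 366 370))))))))) (node 433 (merge (leaf 3 398 434) (node 465 (merge (leaf 0 430 466) (node 366 (merge (leaf 4 334 334) (node 400 (merge (leaf 3 365 365) (node 497 (merge (leaf 7 368 368) (leaf 5 400 496)))))))))))))))))))) (node 562 (merge (node 563 (merge (leaf 3 527 527) (node 596 (merge (leaf 0 560 595) (node 564 (merge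 (leaf 0 561 597) (node 532 (merge (leaf 2 528 531) (leaf 2 529 533))))))))) (node 429 (merge (node 460 (merge (leaf 1 428 461) (node 428 (merge (leaf 1 427 459) (node 400 (merge (leaf 2 396 399) (leaf 2 397 401))))))) (merge (node 400 (merge (leaf 2 397 401) (node 428 (merge (leaf 2 396 399) (node 396 (merge (leaf 3 395 395) (leaf 3 396 397))))))) (node 461 (merge (leaf 1 428 460) (node 397 (merge (node 396 (merge (leaf 3 396 432) (node 395 (merge (leaf 0 394 394) (leaf 0 395 398))))) (merge (node 396 (merge (leaf 3 396 432) (node 364 (merge (leaf 7 364 493) (node 332 (merge (leaf 4 300 300) (leaf 7 332 365))))))) (node 365 (merge (node 334 (merge (leaf 6 333 366) (node 333 (merge (leaf 6 301 302) (node 332 (merge (leaf 7 300 300) (leaf 7 332 364))))))) (merge (node 366 (merge (leaf 6 333 334) (node 493 (merge (leaf 6 365 398) (node 526 (merge (leaf 4 397 494) (node 525 (merge (leaf 4 429 558) (node 524 (merge (leaf 5 396 492) (leaf 5 428 556))))))))))) (merge (node 332 (merge (leaf 7 332 364) (node 333 (merge (leaf 7 300 300) (node 398 (merge (leaf 4 301 301) (node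 493 (merge (leaf 6 365 366) (leaf 6 397 525))))))))) (node 332 (merge (leaf 7 332 364) (node 333 (merge (leaf 7 300 300) (node 302 (merge (leaf 6 301 334) (node 301 (merge (leaf 6 269 270) (leaf 4 301 398)))))))))))))))))))))))))))))) (node 397 (merge (node 398 (merge (leaf 0 396 396) (node 433 (merge (leaf 0 397 400) (leaf 3 398 434))))) (merge (node 398 (merge (leaf 0 396 396) (node 433 (merge (leaf 3 397 430) (leaf 3 398 434))))) (merge (node 464 (merge (leaf 7 399 496) (node 433 (merge (node 398 (merge (leaf 0 397 400) (leaf 3 397 430))) (merge (node 434 (merge (leaf 3 398 398) (leaf 1 431 435))) (node 434 (merge (leaf 1 431 435) (node 466 (merge (leaf 0 431 467) (node 465 (merge (leaf 0 430 430) (node 402 (merge (leaf 2 399 403) (node 370 (merge (leaf 5 337 338) (leaf 5 369 497)))))))))))))))) (node 429 (merge (node 464 (merge (leaf 7 399 496) (node 430 (merge (leaf 3 396 396) (leaf 0 429 465))))) (merge (node 430 (merge (leaf 3 396 396) (node 460 (merge (leaf 1 428 461) (node 428 (merge (leaf 2 396 400) (leaf 1 427 459))))))) (merge (node 464 (merge (leaf 7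 399 496) (node 430 (merge (leaf 0 428 428) (leaf 0 429 465))))) (node 365 (merge (node 334 (merge (node 366 (merge (leaf 7 334 367) (leaf 6 333 461))) (merge (node 302 (merge (leaf 6 301 333) (node 367 (merge (leaf 7 302 335) (leaf 7 334 366))))) (node 333 (merge (leaf 6 301 302) (node 332 (merge (leaf 7 300 300) (node 364 (merge (leaf 7 332 461) (node 363 (merge (leaf 1 331 335) (leaf 2 330 362)))))))))))) (merge (node 461 (merge (node 332 (merge (leaf 7 332 364) (node 333 (merge (leaf 7 300 300) (node 460 (merge (leaf 5 332 428) (leaf 5 364 492))))))) (merge (node 492 (merge (leaf 5 364 460) (node 493 (merge (leaf 5 396 524) (node 526 (merge (leaf 4 397 494) (node 525 (merge (leaf 3 492 527) (leaf 4 429 558))))))))) (node 364 (merge (leaf 7 332 332) (node 493 (merge (leaf 7 364 396) (node 496 (merge (leaf 7 431 464) (node 526 (merge (leaf 4 397 494) (node 525 (merge (leaf 4 429 558) (node 527 (merge (leaf 2 493 497) (leaf 0 525 561)))))))))))))))) (merge (node 460 (merge (node 428 (merge (leaf 5 332 333) (node 492 (merge (leaf 6 364 396) (leaf 6 396 524))))) (merge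 (node 428 (merge (leaf 5 332 333) (node 492 (merge (leaf 5 364 461) (leaf 6 396 524))))) (merge (node 496 (merge (leaf 7 431 464) (node 461 (merge (leaf 5 364 492) (node 364 (merge (leaf 7 332 332) (node 493 (merge (leaf 7 364 396) (node 526 (merge (leaf 4 397 494) (node 525 (merge (leaf 4 429 558) (node 527 (merge (leaf 2 493 497) (leaf 0 525 561))))))))))))))) (node 496 (merge (leaf 7 431 464) (node 333 (merge (leaf 5 332 428) (node 334 (merge (leaf 6 301 302) (node 461 (merge (leaf 6 333 366) (node 364 (merge (leaf 7 332 332) (node 493 (merge (leaf 7 364 396) (node 526 (merge (leaf 4 397 494) (node 525 (merge (leaf 4 429 558) (node 527 (merge (leaf 2 493 497) (leaf 0 525 561))))))))))))))))))))))) (merge (node 333 (merge (node 300 (merge (leaf 7 300 332) (node 301 (merge (leaf 7 268 268) (node 428 (merge (leaf 5 300 396) (leaf 5 332 460))))))) (merge (node 302 (merge (leaf 6 301 334) (node 301 (merge (leaf 6 269 270) (node 428 (merge (leaf 5 300 396) (leaf 5 332 460))))))) (merge (node 302 (merge (leaf 6 301 334) (node 301 (merge (leaf 6 269 270) (node 300 (merge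 (leaf 7 268 268) (leaf 7 300 332))))))) (node 334 (merge (leaf 6 301 302) (node 332 (merge (leaf 7 300 300) (node 367 (merge (leaf 7 334 366) (node 335 (merge (leaf 0 332 368) (node 464 (merge (leaf 4 335 432) (leaf 7 431 496))))))))))))))) (merge (node 333 (merge (node 334 (merge (leaf 6 301 302) (node 366 (merge (leaf 7 334 367) (leaf 6 333 461))))) (merge (node 428 (merge (leaf 5 332 460) (node 301 (merge (leaf 5 300 396) (node 270 (merge (leaf 6 269 302) (node 269 (merge (leaf 6 237 238) (node 268 (merge (leaf 7 236 236) (leaf 7 268 300))))))))))) (node 366 (merge (node 461 (merge (leaf 6 333 334) (node 460 (merge (leaf 5 332 428) (leaf 5 364 492))))) (merge (node 367 (merge (leaf 7 334 334) (node 364 (merge (leaf 0 364 400) (node 396 (merge (leaf 1 364 368) (leaf 1 363 395))))))) (node 428 (merge (leaf 5 332 460) (node 396 (merge (leaf 5 300 301) (node 367 (merge (leaf 1 364 368) (node 395 (merge (leaf 1 363 364) (leaf 2 362 394))))))))))))))) (node 364 (merge (node 461 (merge (leaf 7 332 332) (node 492 (merge (leaf 5 364 460) (node 493 (merge (leaf 5 396 524)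 (node 526 (merge (leaf 4 397 494) (node 525 (merge (leaf 3 492 527) (leaf 4 429 558))))))))))) (merge (node 366 (merge (node 367 (merge (leaf 0 364 400) (node 396 (merge (leaf 1 364 368) (leaf 1 363 395))))) (node 461 (merge (leaf 6 333 334) (node 492 (merge (leaf 5 364 460) (node 493 (merge (leaf 5 396 524) (node 526 (merge (leaf 4 397 494) (node 525 (merge (leaf 0 525 527) (leaf 4 429 558))))))))))))) (node 367 (merge (node 366 (merge (leaf 7 334 334) (leaf 0 364 400))) (merge (node 366 (merge (leaf 0 364 400) (node 396 (merge (leaf 1 364 368) (leaf 1 363 395))))) (node 464 (merge (leaf 7 431 496) (node 335 (merge (leaf 4 335 432) (node 302 (merge (leaf 7 302 334) (node 303 (merge (leaf 7 270 270) (node 272 (merge (leaf 6 271 304) (node 271 (merge (leaf 6 239 240) (node 300 (merge (leaf 2 268 301) (node 332 (merge (leaf 4 268 268) (leaf 4 300 396))))))))))))))))))))))))))))))))))))))))))))))) nP_404 cP_404 15 (by decide +kernel)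
def nP_405 : ℕ := 0x100000001000000000000000080000000800000008000000000000000000000000000000000000000000000000000000000000000000000000000000000000000000000000000
def cP_405 : ℕ := 0x2000000f2000000f3000007f7c00003f7800001ff8000007800000078000000180000001000000000000000000000000000000000000000000000000000000000000
theorem lP_405 : S nP_405 cP_405 11 := S_of_chk [] trivial (node 400 (merge (node 464 (merge (leaf 7 431 496) (node 368 (merge (node 336 (merge (leaf 5 303 304) (leaf 5 335 432))) (merge (node 336 (merge (leaf 5 303 304) (leaf 6 335 367))) (node 432 (merge (node 465 (merge (leaf 4 368 497) (node 430 (merge (leaf 0 429 429) (leaf 3 430 466))))) (node 369 (merge (leaf 6 336 337) (node 367 (merge (leaf 7 335 335) (node 370 (merge (leaf 1 367 371) (leaf 1 366 398)))))))))))))) (merge (node 368 (merge (node 336 (merge (leaf 5 303 304) (leaf 6 335 367))) (merge (node 336 (merge (leaf 5 303 304) (leaf 5 335 432))) (node 369 (merge (node 370 (merge (leaf 1 367 371) (node 398 (merge (leaf 1 366 367) (leaf 2 365 397))))) (node 464 (merge (leaf 7 431 496) (node 432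 (merge (leaf 6 336 337) (node 465 (merge (leaf 4 368 497) (node 466 (merge (leaf 3 431 467) (node 498 (merge (leaf 0 463 499) (node 434 (merge (leaf 2 431 435) (node 401 (merge (leaf 7 369 402) (leaf 4 369 433)))))))))))))))))))) (merge (node 401 (merge (node 430 (merge (leaf 1 398 402) (node 429 (merge (leaf 1 397 398) (leaf 2 396 428))))) (merge (node 402 (merge (leaf 1 398 430) (node 435 (merge (leaf 0 399 434) (node 403 (merge (leaf 1 399 432) (leaf 0 400 436))))))) (merge (node 398 (merge (node 434 (merge (leaf 0 398 433) (node 402 (merge (leaf 0 399 435) (node 366 (merge (leaf 3 365 365) (leaf 3 366 367))))))) (merge (node 365 (merge (leaf 3 365 366) (node 397 (merge (leaf 3 364 364) (node 396 (merge (leaf 0 396 432) (node 428 (merge (leaf 1 395 427) (leaf 1 396 429))))))))) (merge (node 433 (merge (leaf 0 398 434) (node 397 (merge (leaf 0 397 432) (node 428 (merge (leaf 1 396 429) (node 396 (merge (leaf 1 395 427) (node 364 (merge (leaf 3 363 363) (leaf 3 364 365))))))))))) (node 433 (merge (leaf 0 398 434) (node 397 (merge (leaf 0 397 432) (node 428 (merge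 (leaf 1 396 429) (node 396 (merge (leaf 1 395 427) (node 367 (merge (leaf 2 364 368) (node 366 (merge (leaf 2 363 395) (leaf 3 366 402))))))))))))))))) (node 433 (merge (node 434 (merge (leaf 0 398 398) (node 435 (merge (leaf 3 399 432) (leaf 3 400 436))))) (merge (node 398 (merge (leaf 0 398 434) (node 429 (merge (leaf 1 397 430) (node 397 (merge (leaf 1 396 428) (node 365 (merge (leaf 3 364 364) (leaf 3 365 366))))))))) (node 368 (merge (node 336 (merge (leaf 4 304 304) (leaf 6 335 367))) (node 465 (merge (leaf 7 368 497) (node 464 (merge (leaf 6 432 496) (node 430 (merge (leaf 3 430 466) (node 429 (merge (leaf 0 428 428) (leaf 0 429 432)))))))))))))))))) (merge (node 401 (merge (node 430 (merge (leaf 1 398 402) (node 429 (merge (leaf 2 396 428) (leaf 2 397 432))))) (merge (node 430 (merge (leaf 1 398 402) (node 429 (merge (leaf 1 397 398) (leaf 2 396 428))))) (merge (node 402 (merge (node 435 (merge (leaf 0 399 434) (node 403 (merge (leaf 1 399 432) (leaf 0 400 436))))) (merge (node 403 (merge (leaf 1 399 432) (node 371 (merge (leaf 2 367 370) (leaf 2 368 372)))))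 (node 434 (merge (leaf 0 399 435) (node 398 (merge (leaf 0 398 433) (node 370 (merge (leaf 2 366 369) (leaf 2 367 371)))))))))) (node 398 (merge (node 433 (merge (leaf 0 398 434) (node 397 (merge (leaf 0 397 432) (node 429 (merge (leaf 1 396 428) (leaf 1 397 430))))))) (merge (node 433 (merge (leaf 0 398 434) (node 397 (merge (leaf 0 397 432) (node 369 (merge (leaf 2 365 368) (leaf 2 366 370))))))) (merge (node 429 (merge (leaf 1 397 430) (node 397 (merge (leaf 1 396 428) (node 369 (merge (leaf 2 365 368) (leaf 2 366 370))))))) (node 368 (merge (node 336 (merge (leaf 5 303 304) (leaf 6 335 367))) (node 433 (merge (leaf 0 398 434) (node 465 (merge (leaf 7 368 497) (node 430 (merge (leaf 1 397 429) (node 466 (merge (leaf 0 430 432) (node 369 (merge (leaf 2 366 370) (leaf 4 369 498))))))))))))))))))))) (merge (node 398 (merge (node 401 (merge (node 430 (merge (leaf 1 398 402) (leaf 1 397 429))) (merge (node 434 (merge (leaf 0 398 433) (node 402 (merge (leaf 1 398 430) (leaf 0 399 435))))) (node 433 (merge (leaf 0 398 434) (node 397 (merge (leaf 0 397 432) (node 428 (merge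 (leaf 1 396 429) (node 396 (merge (leaf 1 395 427) (node 364 (merge (leaf 3 363 363) (leaf 3 364 365)))))))))))))) (merge (node 401 (merge (node 434 (merge (leaf 0 398 433) (node 402 (merge (leaf 0 399 435) (node 370 (merge (leaf 2 366 369) (leaf 2 367 371))))))) (merge (node 433 (merge (leaf 0 398 434) (node 397 (merge (leaf 0 397 432) (node 428 (merge (leaf 1 396 429) (node 396 (merge (leaf 1 395 427) (node 364 (merge (leaf 3 363 363) (leaf 3 364 365))))))))))) (merge (node 370 (merge (leaf 2 366 369) (node 402 (merge (leaf 2 367 371) (node 432 (merge (leaf 1 399 403) (node 397 (merge (leaf 0 396 396) (leaf 0 397 433))))))))) (node 370 (merge (leaf 2 366 369) (node 402 (merge (leaf 2 367 371) (node 435 (merge (leaf 0 399 434) (node 403 (merge (leaf 1 399 432) (leaf 0 400 436))))))))))))) (merge (node 401 (merge (node 430 (merge (leaf 1 398 402) (leaf 1 397 429))) (merge (node 370 (merge (leaf 2 366 369) (node 402 (merge (leaf 2 367 371) (node 435 (merge (leaf 0 399 434) (node 403 (merge (leaf 1 399 432) (leaf 0 400 436))))))))) (node 429 (merge (leaf 1 397 430)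 (node 397 (merge (leaf 1 396 428) (node 396 (merge (leaf 0 396 432) (node 364 (merge (leaf 3 363 363) (leaf 3 364 365)))))))))))) (merge (node 401 (merge (node 430 (merge (leaf 1 398 402) (leaf 1 397 429))) (merge (node 434 (merge (leaf 0 398 433) (node 402 (merge (leaf 0 399 435) (node 370 (merge (leaf 2 366 369) (leaf 2 367 371))))))) (node 433 (merge (leaf 0 398 434) (node 397 (merge (leaf 0 397 432) (node 430 (merge (leaf 1 397 429) (node 396 (merge (leaf 0 395 395) (node 364 (merge (leaf 3 363 363) (leaf 3 364 365)))))))))))))) (merge (node 397 (merge (node 432 (merge (leaf 0 396 396) (leaf 0 397 433))) (merge (node 364 (merge (leaf 3 364 365) (node 396 (merge (leaf 3 363 363) (node 395 (merge (leaf 0 395 430) (node 427 (merge (leaf 1 394 426) (leaf 1 395 428))))))))) (node 433 (merge (leaf 0 397 432) (node 401 (merge (leaf 0 398 434) (node 402 (merge (leaf 1 398 430) (node 370 (merge (leaf 2 366 369) (leaf 2 367 371)))))))))))) (merge (node 397 (merge (node 428 (merge (leaf 1 396 429) (node 396 (merge (leaf 1 395 427) (node 364 (merge (leaf 3 363 363) (leaf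 3 364 365))))))) (merge (node 429 (merge (leaf 1 396 428) (node 401 (merge (leaf 1 397 430) (node 434 (merge (leaf 0 398 433) (node 402 (merge (leaf 0 399 435) (node 370 (merge (leaf 2 366 369) (leaf 2 367 371))))))))))) (merge (node 364 (merge (leaf 3 364 365) (node 396 (merge (leaf 3 363 363) (node 430 (merge (leaf 0 395 395) (node 401 (merge (leaf 1 398 402) (leaf 1 397 429))))))))) (node 364 (merge (leaf 3 364 365) (node 396 (merge (leaf 3 363 363) (node 395 (merge (leaf 0 395 430) (node 427 (merge (leaf 1 394 426) (leaf 1 395 428))))))))))))) (merge (node 397 (merge (node 432 (merge (leaf 0 396 396) (leaf 0 397 433))) (merge (node 428 (merge (leaf 1 396 429) (node 396 (merge (leaf 1 395 427) (node 364 (merge (leaf 3 363 363) (leaf 3 364 365))))))) (node 432 (merge (leaf 0 397 433) (node 429 (merge (leaf 1 396 428) (node 464 (merge (leaf 7 399 496) (node 465 (merge (leaf 0 429 430) (node 368 (merge (leaf 2 365 369) (leaf 4 368 497)))))))))))))) (node 430 (merge (node 429 (merge (leaf 1 397 401) (leaf 2 396 428))) (merge (node 464 (merge (leaf 7 431 496) (node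 429 (merge (leaf 0 428 428) (node 465 (merge (leaf 0 429 432) (leaf 3 430 466))))))) (node 496 (merge (leaf 7 431 464) (node 401 (merge (leaf 1 398 402) (node 433 (merge (leaf 0 398 434) (node 369 (merge (leaf 2 366 370) (node 465 (merge (leaf 5 400 497) (node 466 (merge (leaf 0 430 432) (leaf 4 369 498)))))))))))))))))))))))) (merge (node 398 (merge (node 368 (merge (node 336 (merge (leaf 5 303 304) (leaf 5 335 432))) (node 369 (merge (leaf 2 365 397) (node 370 (merge (leaf 1 366 367) (leaf 1 367 371))))))) (merge (node 429 (merge (node 428 (merge (leaf 1 396 397) (leaf 2 396 430))) (merge (node 430 (merge (leaf 2 396 428) (node 401 (merge (leaf 1 397 398) (leaf 2 397 432))))) (merge (node 397 (merge (leaf 1 396 428) (node 432 (merge (leaf 0 396 396) (leaf 0 397 433))))) (node 401 (merge (leaf 1 397 430) (node 433 (merge (leaf 0 398 434) (node 397 (merge (leaf 0 397 432) (node 365 (merge (leaf 3 364 364) (leaf 3 365 366))))))))))))) (merge (node 429 (merge (node 430 (merge (leaf 1 397 401) (leaf 2 396 428))) (merge (node 397 (merge (leaf 1 396 428) (node 368 (merge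 (leaf 2 365 369) (node 367 (merge (leaf 6 335 336) (leaf 2 364 396))))))) (node 401 (merge (leaf 1 397 430) (node 369 (merge (leaf 2 366 370) (node 368 (merge (leaf 2 365 397) (node 336 (merge (leaf 5 303 304) (leaf 6 335 367)))))))))))) (node 367 (merge (node 464 (merge (leaf 7 431 496) (node 335 (merge (leaf 4 335 432) (node 303 (merge (leaf 5 302 430) (node 272 (merge (leaf 6 271 304) (node 271 (merge (leaf 6 239 240) (leaf 5 270 366))))))))))) (merge (node 336 (merge (leaf 6 335 368) (node 335 (merge (leaf 6 303 304) (node 430 (merge (leaf 5 302 303) (node 401 (merge (leaf 1 398 402) (leaf 1 397 429))))))))) (node 464 (merge (leaf 4 367 496) (node 368 (merge (leaf 6 335 336) (node 369 (merge (leaf 1 366 370) (node 337 (merge (leaf 6 336 432) (node 366 (merge (leaf 2 334 338) (node 365 (merge (leaf 0 364 364) (leaf 0 365 401)))))))))))))))))))) (merge (node 432 (merge (node 464 (merge (leaf 7 399 496) (node 368 (merge (leaf 5 335 336) (node 465 (merge (leaf 4 368 497) (node 430 (merge (leaf 0 429 429) (leaf 3 430 466))))))))) (merge (node 464 (merge (leaf 7 399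 496) (node 367 (merge (leaf 4 335 335) (node 368 (merge (leaf 6 335 336) (node 369 (merge (leaf 6 336 337) (node 370 (merge (leaf 1 367 371) (node 402 (merge (leaf 0 367 403) (node 401 (merge (leaf 0 366 366) (leaf 1 398 430))))))))))))))) (merge (node 368 (merge (leaf 5 335 336) (node 433 (merge (node 434 (merge (leaf 3 399 435) (node 466 (merge (leaf 0 431 467) (node 430 (merge (leaf 0 430 465) (node 429 (merge (leaf 2 397 401) (leaf 2 396 428))))))))) (merge (node 401 (merge (node 402 (merge (leaf 1 399 403) (leaf 1 398 430))) (merge (node 465 (merge (leaf 7 368 497) (node 430 (merge (leaf 2 397 429) (leaf 0 430 466))))) (node 465 (merge (leaf 7 368 497) (node 402 (merge (leaf 1 399 403) (node 370 (merge (leaf 2 367 371) (node 338 (merge (leaf 5 305 306) (leaf 6 337 369)))))))))))) (merge (node 434 (merge (leaf 3 399 435) (node 402 (merge (leaf 2 399 403) (node 401 (merge (leaf 1 398 430) (node 465 (merge (leaf 7 368 497) (node 370 (merge (leaf 5 337 338) (leaf 2 367 371))))))))))) (merge (node 434 (merge (leaf 3 399 435) (node 466 (merge (leaf 0 431 467) (node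 465 (merge (leaf 0 430 430) (node 402 (merge (leaf 2 399 403) (node 370 (merge (leaf 5 337 338) (leaf 5 369 497))))))))))) (merge (node 401 (merge (node 465 (merge (leaf 7 368 497) (node 402 (merge (leaf 1 399 403) (node 370 (merge (leaf 2 367 371) (node 338 (merge (leaf 5 305 306) (leaf 6 337 369))))))))) (merge (node 465 (merge (leaf 7 368 497) (node 434 (merge (leaf 3 399 435) (node 466 (merge (leaf 0 431 467) (node 369 (merge (leaf 4 337 337) (leaf 4 369 498))))))))) (merge (node 402 (merge (leaf 1 399 403) (node 434 (merge (leaf 0 399 435) (node 466 (merge (leaf 0 431 467) (node 369 (merge (leaf 4 337 337) (leaf 7 369 498))))))))) (node 465 (merge (leaf 7 368 497) (node 402 (merge (leaf 1 399 403) (node 434 (merge (leaf 0 399 435) (node 370 (merge (leaf 5 337 338) (leaf 2 367 371))))))))))))) (node 434 (merge (leaf 3 399 435) (node 466 (merge (leaf 0 431 467) (node 402 (merge (leaf 2 399 403) (node 401 (merge (leaf 1 398 430) (node 369 (merge (leaf 4 337 337) (leaf 7 369 498))))))))))))))))))) (merge (node 433 (merge (node 434 (merge (leaf 3 399 435) (node 466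 (merge (leaf 0 431 467) (node 430 (merge (leaf 0 430 465) (node 429 (merge (leaf 2 397 401) (leaf 2 396 428))))))))) (merge (node 434 (merge (leaf 3 399 435) (node 466 (merge (leaf 0 431 467) (node 402 (merge (leaf 2 399 403) (node 401 (merge (leaf 1 398 430) (node 369 (merge (leaf 4 337 337) (leaf 7 369 498))))))))))) (merge (node 434 (merge (leaf 3 399 435) (node 466 (merge (leaf 0 431 467) (node 465 (merge (leaf 0 430 430) (node 402 (merge (leaf 2 399 403) (node 370 (merge (leaf 5 337 338) (leaf 5 369 497))))))))))) (merge (node 401 (merge (node 402 (merge (leaf 2 398 430) (node 403 (merge (leaf 1 399 400) (leaf 1 400 404))))) (merge (node 496 (merge (leaf 6 400 464) (node 430 (merge (leaf 2 397 429) (node 465 (merge (leaf 0 430 466) (leaf 5 400 497))))))) (node 402 (merge (leaf 1 399 403) (node 370 (merge (leaf 2 367 371) (node 465 (merge (leaf 6 369 497) (node 338 (merge (leaf 5 305 306) (leaf 6 337 369)))))))))))) (node 464 (merge (leaf 7 399 496) (node 434 (merge (leaf 1 431 435) (node 402 (merge (leaf 2 399 403) (node 367 (merge (leaf 4 335 335) (node 401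 (merge (leaf 3 366 366) (node 370 (merge (leaf 2 367 371) (node 338 (merge (leaf 5 305 306) (leaf 5 337 465)))))))))))))))))))) (node 464 (merge (leaf 7 399 496) (node 368 (merge (leaf 5 335 336) (node 369 (merge (leaf 6 336 337) (node 465 (merge (leaf 4 368 497) (node 466 (merge (leaf 3 431 467) (node 498 (merge (leaf 0 463 499) (node 434 (merge (leaf 2 431 435) (node 401 (merge (leaf 7 369 402) (leaf 4 369 433)))))))))))))))))))))) (merge (node 368 (merge (node 336 (merge (leaf 5 303 304) (leaf 6 335 367))) (node 401 (merge (node 430 (merge (leaf 1 398 402) (node 429 (merge (leaf 1 397 398) (leaf 2 396 428))))) (merge (node 402 (merge (leaf 1 398 430) (node 435 (merge (leaf 0 399 434) (node 403 (merge (leaf 0 400 436) (node 371 (merge (leaf 2 367 370) (leaf 2 368 372))))))))) (merge (node 398 (merge (node 369 (merge (leaf 2 365 397) (node 370 (merge (leaf 1 367 371) (leaf 2 366 401))))) (node 433 (merge (leaf 0 398 434) (node 465 (merge (leaf 7 368 497) (node 464 (merge (leaf 6 432 496) (node 430 (merge (leaf 1 397 429) (leaf 3 430 466))))))))))) (node 434 (merge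 (node 398 (merge (leaf 0 398 433) (node 369 (merge (leaf 2 366 370) (leaf 2 365 397))))) (merge (node 433 (merge (leaf 0 398 398) (node 435 (merge (leaf 0 399 402) (leaf 3 400 436))))) (merge (node 402 (merge (leaf 0 399 435) (node 370 (merge (leaf 2 367 371) (node 369 (merge (leaf 2 366 398) (node 337 (merge (leaf 4 305 305) (leaf 7 337 466))))))))) (node 402 (merge (leaf 0 399 435) (node 371 (merge (leaf 2 367 370) (node 403 (merge (leaf 2 368 372) (node 404 (merge (leaf 3 368 369) (node 437 (merge (leaf 0 401 436) (node 405 (merge (leaf 1 401 433) (leaf 0 402 438))))))))))))))))))))))) (node 398 (merge (node 464 (merge (leaf 7 431 496) (node 401 (merge (node 430 (merge (leaf 1 398 402) (leaf 1 397 429))) (merge (node 370 (merge (leaf 2 366 369) (node 402 (merge (leaf 2 367 371) (node 366 (merge (leaf 3 365 365) (leaf 3 366 367))))))) (node 429 (merge (leaf 1 397 430) (node 397 (merge (leaf 1 396 428) (node 365 (merge (leaf 3 364 364) (leaf 3 365 366)))))))))))) (merge (node 464 (merge (leaf 7 431 496) (node 397 (merge (node 432 (merge (leaf 0 396 396) (leaf 0 397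 433))) (merge (node 428 (merge (leaf 1 396 429) (node 396 (merge (leaf 1 395 427) (node 364 (merge (leaf 3 363 363) (leaf 3 364 365))))))) (node 433 (merge (leaf 0 397 432) (node 401 (merge (leaf 0 398 434) (node 365 (merge (leaf 3 364 364) (leaf 3 365 366)))))))))))) (merge (node 401 (merge (node 430 (merge (leaf 1 398 402) (leaf 1 397 429))) (merge (node 434 (merge (leaf 0 398 433) (node 402 (merge (leaf 0 399 435) (node 370 (merge (leaf 2 366 369) (leaf 2 367 371))))))) (node 433 (merge (leaf 0 398 434) (node 397 (merge (leaf 0 397 432) (node 430 (merge (leaf 1 397 429) (node 396 (merge (leaf 0 395 395) (node 364 (merge (leaf 3 363 363) (leaf 3 364 365)))))))))))))) (merge (node 401 (merge (node 402 (merge (leaf 1 398 430) (node 366 (merge (leaf 3 365 365) (leaf 3 366 367))))) (merge (node 434 (merge (leaf 0 398 433) (node 402 (merge (leaf 0 399 435) (node 370 (merge (leaf 2 366 369) (leaf 2 367 371))))))) (node 433 (merge (leaf 0 398 434) (node 397 (merge (leaf 0 397 432) (node 364 (merge (leaf 3 364 365) (node 396 (merge (leaf 3 363 363) (node 395 (merge (leaf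 0 395 430) (node 427 (merge (leaf 1 394 426) (leaf 1 395 428)))))))))))))))) (merge (node 430 (merge (node 429 (merge (leaf 1 397 401) (leaf 2 396 428))) (merge (node 464 (merge (leaf 7 431 496) (node 429 (merge (leaf 0 428 428) (node 465 (merge (leaf 0 429 432) (leaf 3 430 466))))))) (node 496 (merge (leaf 7 431 464) (node 401 (merge (leaf 1 398 402) (node 433 (merge (leaf 0 398 434) (node 369 (merge (leaf 2 366 370) (node 465 (merge (leaf 5 400 497) (node 466 (merge (leaf 0 430 432) (leaf 4 369 498)))))))))))))))) (node 464 (merge (leaf 7 431 496) (node 397 (merge (node 432 (merge (leaf 0 396 396) (leaf 0 397 433))) (merge (node 428 (merge (leaf 1 396 429) (node 396 (merge (leaf 1 395 427) (node 364 (merge (leaf 3 363 363) (leaf 3 364 365))))))) (node 432 (merge (leaf 0 397 433) (node 429 (merge (leaf 1 396 428) (node 430 (merge (leaf 0 429 465) (node 461 (merge (leaf 1 428 460) (node 493 (merge (leaf 6 365 366) (leaf 6 397 525))))))))))))))))))))))))))))))) nP_405 cP_405 11 (by decide +kernel)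
def nP_406 : ℕ := 0x380000001000000000000000080000000800000008000000000000000000000000000000000000000000000000000000000000000000000000000000000000000000000000000
def cP_406 : ℕ := 0xef8000004700000007000000f2000000f3800000f7800001f7c00000f8000000f800000070000000100000000000000000000000000000000000000000000000000000000000000000000
theorem lP_406 : S nP_406 cP_406 13 := S_of_chk [] trivial (node 432 (merge (node 464 (merge (leaf 7 399 496) (node 398 (merge (node 397 (merge (leaf 0 396 396) (node 433 (merge (leaf 3 397 430) (leaf 3 398 434))))) (merge (node 397 (merge (leaf 0 396 396) (node 367 (merge (leaf 4 335 335) (node 368 (merge (leaf 6 335 336) (node 369 (merge (leaf 1 366 370) (leaf 2 365 400))))))))) (node 433 (merge (leaf 3 398 434) (node 367 (merge (leaf 4 335 335) (node 368 (merge (leaf 6 335 336) (node 369 (merge (leaf 1 366 370) (node 337 (merge (leaf 6 336 400) (leaf 5 336 401)))))))))))))))) (merge (node 464 (merge (leaf 7 431 496) (node 465 (merge (node 466 (merge (leaf 3 430 430) (leaf 3 431 467))) (node 367 (merge (leaf 4 335 335) (node 368 (merge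 (leaf 6 335 336) (node 400 (merge (leaf 4 368 497) (node 369 (merge (leaf 6 336 337) (node 370 (merge (leaf 1 367 371) (leaf 1 366 398))))))))))))))) (merge (node 464 (merge (leaf 7 399 496) (node 465 (merge (node 466 (merge (leaf 3 430 430) (leaf 3 431 467))) (merge (node 430 (merge (leaf 0 429 429) (node 367 (merge (leaf 4 335 335) (node 368 (merge (leaf 6 335 336) (node 400 (merge (leaf 4 368 497) (node 369 (merge (leaf 6 336 337) (node 370 (merge (leaf 1 367 371) (node 402 (merge (leaf 1 398 401) (leaf 0 367 403))))))))))))))) (node 466 (merge (leaf 3 431 467) (node 498 (merge (leaf 0 463 499) (node 434 (merge (leaf 2 431 435) (node 367 (merge (leaf 4 335 335) (node 368 (merge (leaf 6 335 336) (node 400 (merge (leaf 4 368 497) (node 369 (merge (leaf 6 336 337) (node 401 (merge (leaf 7 369 402) (leaf 4 369 433)))))))))))))))))))))) (merge (node 464 (merge (leaf 7 399 496) (node 465 (merge (node 367 (merge (leaf 4 335 335) (node 368 (merge (leaf 6 335 336) (node 400 (merge (leaf 4 368 497) (node 369 (merge (leaf 6 336 337) (node 370 (merge (leaf 1 367 371) (leaf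 1 366 398))))))))))) (merge (node 466 (merge (leaf 3 431 467) (node 434 (merge (leaf 2 431 435) (node 433 (merge (leaf 3 398 398) (node 402 (merge (leaf 2 399 403) (node 370 (merge (leaf 5 337 338) (leaf 5 369 497))))))))))) (merge (node 466 (merge (leaf 3 431 467) (node 498 (merge (leaf 0 463 499) (node 434 (merge (leaf 2 431 435) (node 367 (merge (leaf 4 335 335) (node 368 (merge (leaf 6 335 336) (node 400 (merge (leaf 4 368 497) (node 369 (merge (leaf 6 336 337) (node 401 (merge (leaf 7 369 402) (leaf 4 369 433))))))))))))))))) (node 466 (merge (leaf 3 431 467) (node 434 (merge (leaf 2 431 435) (node 433 (merge (leaf 3 398 398) (node 402 (merge (leaf 2 399 403) (node 370 (merge (leaf 5 337 338) (node 371 (merge (leaf 6 338 339) (node 369 (merge (leaf 7 337 337) (node 400 (merge (leaf 1 367 368) (leaf 2 367 401))))))))))))))))))))))) (merge (node 430 (merge (node 464 (merge (leaf 7 399 496) (node 465 (merge (leaf 0 429 429) (leaf 3 430 466))))) (merge (node 429 (merge (node 460 (merge (leaf 1 428 461) (node 428 (merge (leaf 1 427 459) (node 396 (merge (leaf 3 395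 395) (leaf 3 396 397))))))) (merge (node 460 (merge (leaf 1 428 461) (node 428 (merge (leaf 1 427 459) (node 427 (merge (leaf 2 395 398) (node 395 (merge (leaf 3 394 394) (leaf 3 395 396))))))))) (merge (node 460 (merge (leaf 1 428 461) (node 428 (merge (leaf 1 427 459) (node 398 (merge (leaf 2 395 427) (node 433 (merge (leaf 3 397 397) (leaf 3 398 434))))))))) (node 397 (merge (leaf 3 396 396) (node 433 (merge (leaf 3 397 398) (node 466 (merge (leaf 0 430 465) (node 434 (merge (leaf 0 431 467) (node 402 (merge (leaf 2 398 401) (leaf 2 399 403))))))))))))))) (merge (node 464 (merge (leaf 7 399 496) (node 429 (merge (leaf 0 428 428) (node 397 (merge (leaf 3 396 396) (node 433 (merge (leaf 3 397 398) (node 434 (merge (leaf 1 431 435) (node 402 (merge (leaf 2 398 401) (leaf 2 399 403))))))))))))) (node 433 (merge (node 466 (merge (leaf 0 430 465) (node 434 (merge (leaf 0 431 467) (node 398 (merge (leaf 3 397 397) (leaf 3 398 399))))))) (merge (node 465 (merge (leaf 0 430 466) (node 496 (merge (leaf 6 432 464) (node 401 (merge (leaf 2 398 402) (leaf 5 400 497))))))) (node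 402 (merge (leaf 2 398 401) (node 434 (merge (leaf 2 399 403) (node 398 (merge (leaf 3 397 397) (leaf 3 398 399)))))))))))))) (merge (node 430 (merge (node 429 (merge (node 464 (merge (leaf 0 428 428) (leaf 0 429 465))) (merge (node 400 (merge (leaf 2 396 428) (node 401 (merge (leaf 1 398 402) (leaf 2 397 432))))) (node 465 (merge (leaf 0 429 464) (node 433 (merge (leaf 0 430 466) (node 401 (merge (leaf 2 397 400) (leaf 2 398 402)))))))))) (merge (node 429 (merge (node 400 (merge (leaf 2 396 428) (node 401 (merge (leaf 1 398 402) (leaf 2 397 432))))) (merge (node 460 (merge (leaf 1 428 461) (node 428 (merge (leaf 1 427 459) (node 396 (merge (leaf 3 395 395) (leaf 3 396 397))))))) (node 401 (merge (leaf 2 397 400) (node 433 (merge (leaf 2 398 402) (node 397 (merge (leaf 3 396 396) (leaf 3 397 398)))))))))) (merge (node 429 (merge (node 464 (merge (leaf 0 428 428) (leaf 0 429 465))) (merge (node 460 (merge (leaf 1 428 461) (node 428 (merge (leaf 1 427 459) (node 396 (merge (leaf 3 395 395) (leaf 3 396 397))))))) (node 465 (merge (leaf 0 429 464) (node 433 (merge (leaf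 0 430 466) (node 397 (merge (leaf 3 396 396) (leaf 3 397 398)))))))))) (merge (node 429 (merge (node 428 (merge (leaf 2 396 400) (leaf 0 428 464))) (merge (node 460 (merge (leaf 1 428 461) (node 428 (merge (leaf 1 427 459) (node 396 (merge (leaf 3 395 395) (leaf 3 396 397))))))) (node 464 (merge (leaf 0 429 465) (node 400 (merge (leaf 2 397 401) (node 397 (merge (leaf 3 396 396) (node 368 (merge (leaf 5 335 336) (node 369 (merge (leaf 6 336 337) (leaf 2 365 398)))))))))))))) (node 433 (merge (node 398 (merge (leaf 3 397 397) (leaf 3 398 434))) (merge (node 402 (merge (leaf 2 398 401) (node 434 (merge (leaf 2 399 403) (node 435 (merge (leaf 3 399 400) (leaf 1 431 464))))))) (node 401 (merge (leaf 2 398 402) (node 400 (merge (node 465 (merge (leaf 0 430 466) (node 368 (merge (leaf 4 336 336) (leaf 7 368 497))))) (node 398 (merge (leaf 0 397 397) (node 369 (merge (leaf 2 366 370) (node 337 (merge (leaf 5 304 305) (leaf 5 336 464))))))))))))))))))) (node 430 (merge (node 397 (merge (node 396 (merge (leaf 0 396 398) (leaf 3 396 429))) (merge (node 429 (merge (leaf 3 396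 396) (node 460 (merge (leaf 1 428 461) (node 428 (merge (leaf 2 396 400) (leaf 1 427 459))))))) (node 433 (merge (leaf 3 397 398) (node 466 (merge (leaf 0 430 465) (node 434 (merge (leaf 0 431 467) (node 403 (merge (leaf 2 399 402) (node 435 (merge (leaf 3 399 400) (leaf 2 400 404)))))))))))))) (merge (node 433 (merge (node 466 (merge (leaf 0 430 465) (node 434 (merge (leaf 0 431 467) (node 402 (merge (leaf 2 398 401) (leaf 2 399 403))))))) (merge (node 401 (merge (leaf 2 398 402) (node 429 (merge (leaf 2 397 400) (node 460 (merge (leaf 1 428 461) (node 428 (merge (leaf 1 427 459) (node 396 (merge (leaf 3 395 395) (leaf 3 396 397))))))))))) (merge (node 466 (merge (leaf 0 430 465) (node 434 (merge (leaf 0 431 467) (node 400 (merge (leaf 3 399 435) (node 429 (merge (leaf 2 397 401) (leaf 2 396 428))))))))) (node 466 (merge (leaf 0 430 465) (node 434 (merge (leaf 0 431 467) (node 403 (merge (leaf 2 399 402) (node 435 (merge (leaf 3 399 400) (leaf 2 400 404))))))))))))) (merge (node 433 (merge (node 466 (merge (leaf 0 430 465) (node 434 (merge (leaf 0 431 467) (node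 402 (merge (leaf 2 398 401) (leaf 2 399 403))))))) (merge (node 465 (merge (leaf 0 430 466) (node 401 (merge (leaf 2 398 402) (node 400 (merge (leaf 2 397 429) (node 497 (merge (leaf 7 368 368) (leaf 5 400 496))))))))) (merge (node 434 (merge (node 402 (merge (leaf 2 398 401) (leaf 2 399 403))) (merge (node 399 (merge (leaf 3 398 398) (node 400 (merge (leaf 3 399 435) (node 429 (merge (leaf 2 397 401) (leaf 2 396 428))))))) (node 403 (merge (leaf 2 399 402) (node 435 (merge (leaf 2 400 404) (node 399 (merge (leaf 3 398 398) (leaf 3 399 400)))))))))) (merge (node 466 (merge (leaf 0 430 465) (node 434 (merge (leaf 0 431 467) (node 399 (merge (leaf 3 398 398) (node 400 (merge (leaf 3 399 435) (node 429 (merge (leaf 2 397 401) (leaf 2 396 428))))))))))) (node 466 (merge (leaf 0 430 465) (node 434 (merge (leaf 0 431 467) (node 403 (merge (leaf 2 399 402) (node 435 (merge (leaf 2 400 404) (node 399 (merge (leaf 3 398 398) (leaf 3 399 400)))))))))))))))) (merge (node 429 (merge (node 460 (merge (leaf 1 428 461) (node 428 (merge (leaf 1 427 459) (node 396 (merge (leaf 3 395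 395) (leaf 3 396 397))))))) (merge (node 460 (merge (leaf 1 428 461) (node 428 (merge (leaf 1 427 459) (node 427 (merge (leaf 2 395 398) (node 395 (merge (leaf 3 394 394) (leaf 3 395 396))))))))) (merge (node 460 (merge (leaf 1 428 461) (node 428 (merge (leaf 1 427 459) (node 398 (merge (leaf 2 395 427) (node 433 (merge (leaf 3 397 397) (leaf 3 398 434))))))))) (node 397 (merge (leaf 3 396 396) (node 433 (merge (leaf 3 397 398) (node 466 (merge (leaf 0 430 465) (node 434 (merge (leaf 0 431 467) (node 402 (merge (leaf 2 398 401) (leaf 2 399 403))))))))))))))) (merge (node 558 (merge (node 594 (merge (leaf 0 558 593) (node 562 (merge (leaf 0 559 595) (node 590 (merge (leaf 1 557 589) (leaf 1 558 591))))))) (merge (node 429 (merge (node 460 (merge (leaf 1 428 461) (node 428 (merge (leaf 1 427 459) (node 396 (merge (leaf 3 395 395) (leaf 3 396 397))))))) (merge (node 400 (merge (leaf 2 397 401) (node 428 (merge (leaf 2 396 399) (node 396 (merge (leaf 3 395 395) (leaf 3 396 397))))))) (node 461 (merge (leaf 1 428 460) (node 525 (merge (leaf 3 525 526) (node 493 (merge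 (leaf 6 397 398) (node 557 (merge (leaf 3 524 524) (leaf 4 461 590)))))))))))) (node 525 (merge (leaf 3 525 526) (node 557 (merge (leaf 3 524 524) (node 588 (merge (leaf 1 556 589) (node 556 (merge (leaf 1 555 587) (node 461 (merge (leaf 5 460 493) (node 429 (merge (leaf 1 428 460) (node 400 (merge (leaf 2 397 401) (node 428 (merge (leaf 2 396 399) (node 396 (merge (leaf 3 395 395) (leaf 3 396 397)))))))))))))))))))))) (node 562 (merge (node 594 (merge (leaf 0 559 595) (node 558 (merge (leaf 0 558 593) (node 590 (merge (leaf 1 557 589) (leaf 1 558 591))))))) (node 433 (merge (node 398 (merge (leaf 3 397 397) (leaf 3 398 434))) (node 465 (merge (leaf 0 430 466) (node 401 (merge (node 402 (merge (leaf 2 398 430) (node 497 (merge (leaf 6 369 370) (leaf 5 400 496))))) (merge (node 402 (merge (leaf 2 398 430) (node 403 (merge (leaf 1 399 400) (leaf 1 400 404))))) (node 369 (merge (node 368 (merge (leaf 7 336 336) (node 497 (merge (leaf 7 368 400) (leaf 5 400 496))))) (merge (node 338 (merge (leaf 6 337 370) (node 337 (merge (leaf 6 305 306) (node 336 (merge (leaf 7 304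 304) (leaf 7 336 368))))))) (merge (node 338 (merge (leaf 6 337 370) (node 337 (merge (leaf 6 305 306) (node 400 (merge (leaf 5 304 305) (node 497 (merge (leaf 7 368 368) (leaf 5 400 496))))))))) (node 338 (merge (leaf 6 337 370) (node 337 (merge (leaf 6 305 306) (node 304 (merge (leaf 7 304 336) (node 305 (merge (leaf 7 272 272) (leaf 5 304 400))))))))))))))))))))))))))))))))))) nP_406 cP_406 13 (by decide +kernel)

end Crest.Agent.H26Snaky
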