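import Crest.Agent.H26SnP026
import Crest.Agent.H26SnP027
import Crest.Agent.H26SnP028
import Crest.Agent.H26SnP029
import Crest.Agent.H26SnP030

/-! certificate data for S0047, part P 31 (computer generated) -/

set_option autoImplicit false
set_option maxRecDepth 100000

namespace Crest.Agent.H26Snaky

open T

def nP_407 : ℕ := 0x380000001000000000000000080000000800000008000000000000000000000000000000000000000000000000000000000000000000000000000000000000000000000000000
def cP_407 : ℕ := 0x40000000e000001f2000000f3000007f7c00003f7800001fbc00000fc0000007c000000700000005000000000000000000000000000000000000000000000000000000000000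
theorem lP_407 : S nP_407 cP_407 12 := S_of_chk [(nP_369, cP_369, 11)] ⟨lP_369, trivial⟩ (node 400 (merge (node 368 (merge (node 336 (merge (leaf 5 303 304) (leaf 6 335 367))) (node 430 (merge (node 401 (merge (leaf 1 398 402) (node 429 (merge (leaf 1 397 398) (leaf 2 396 428))))) (merge (node 464 (merge (leaf 7 431 496) (node 429 (merge (leaf 0 428 428) (node 465 (merge (leaf 0 429 432) (leaf 3 430 466))))))) (node 401 (merge (leaf 1 398 402) (node 464 (merge (leaf 7 431 496) (node 465 (merge (leaf 3 430 466) (node 497 (merge (leaf 4 368 432) (leaf 7 368 433)))))))))))))) (merge (node 368 (merge (node 336 (merge (leaf 5 303 304) (leaf 6 335 367))) (merge (node 336 (merge (leaf 5 303 304) (leaf 5 335 432))) (node 369 (merge (node 370 (merge (leaf 1 367 371) (node 398 (merge (leaf 1 366 367) (leaf 2 365 397))))) (node 464 (merge (leaf 7 431 496) (node 432 (merge (leaf 6 336 337) (node 465 (merge (leaf 4 368 497) (node 466 (merge (leaf 3 430 430) (leaf 3 431 467)))))))))))))) (merge (node 368 (merge (node 336 (merge (leaf 5 303 304) (leaf 6 335 367))) (merge (node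 336 (merge (leaf 5 303 304) (leaf 5 335 432))) (node 369 (merge (node 370 (merge (leaf 1 367 371) (node 398 (merge (leaf 1 366 367) (leaf 2 365 397))))) (node 464 (merge (leaf 7 431 496) (node 432 (merge (leaf 6 336 337) (node 465 (merge (leaf 4 368 497) (node 466 (merge (leaf 3 431 467) (node 498 (merge (leaf 0 463 499) (node 434 (merge (leaf 2 431 435) (node 401 (merge (leaf 7 369 402) (leaf 4 369 433)))))))))))))))))))) (merge (hyp 0) (merge (node 401 (merge (node 430 (merge (leaf 1 398 402) (node 429 (merge (leaf 2 396 428) (leaf 2 397 432))))) (merge (node 430 (merge (leaf 1 398 402) (node 429 (merge (leaf 1 397 398) (leaf 2 396 428))))) (merge (node 402 (merge (node 435 (merge (leaf 0 399 434) (node 403 (merge (leaf 1 399 432) (leaf 0 400 436))))) (merge (node 403 (merge (leaf 1 399 432) (node 371 (merge (leaf 2 367 370) (leaf 2 368 372))))) (node 434 (merge (leaf 0 399 435) (node 398 (merge (leaf 0 398 433) (node 370 (merge (leaf 2 366 369) (leaf 2 367 371)))))))))) (node 369 (merge (node 370 (merge (leaf 2 366 398) (node 371 (merge (leaf 1 367 368) (leaf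 1 368 372))))) (merge (node 398 (merge (leaf 2 366 370) (node 433 (merge (leaf 0 398 434) (node 397 (merge (leaf 0 397 432) (node 429 (merge (leaf 1 396 428) (leaf 1 397 430))))))))) (merge (node 368 (merge (node 336 (merge (leaf 5 303 304) (leaf 5 335 432))) (merge (node 398 (merge (leaf 2 365 397) (node 433 (merge (leaf 0 398 434) (node 465 (merge (leaf 7 368 497) (node 430 (merge (leaf 1 397 429) (node 466 (merge (leaf 0 430 432) (leaf 4 369 498))))))))))) (node 398 (merge (leaf 2 365 397) (node 433 (merge (leaf 0 398 434) (node 336 (merge (leaf 4 304 304) (leaf 7 336 465)))))))))) (node 337 (merge (node 305 (merge (leaf 5 304 432) (node 274 (merge (leaf 6 273 306) (node 273 (merge (leaf 6 241 242) (leaf 5 272 368))))))) (merge (node 336 (merge (node 368 (merge (leaf 5 303 304) (leaf 6 335 367))) (merge (node 368 (merge (leaf 6 335 367) (leaf 5 335 432))) (node 433 (merge (leaf 7 304 304) (node 434 (merge (leaf 4 337 466) (node 435 (merge (leaf 3 399 432) (leaf 3 400 436)))))))))) (node 304 (merge (node 272 (merge (leaf 7 272 305) (node 336 (merge (leaf 4 240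 240) (leaf 7 304 433))))) (merge (node 433 (merge (leaf 7 304 336) (node 338 (merge (leaf 6 305 306) (node 465 (merge (leaf 6 337 370) (node 466 (merge (leaf 4 337 434) (leaf 4 369 498))))))))) (merge (node 305 (merge (leaf 7 272 272) (node 306 (merge (leaf 6 273 274) (node 338 (merge (leaf 6 305 433) (node 303 (merge (leaf 0 302 302) (leaf 0 303 339))))))))) (node 272 (merge (leaf 7 272 305) (node 336 (merge (leaf 4 240 240) (node 335 (merge (leaf 6 303 367) (node 370 (merge (leaf 0 334 334) (node 371 (merge (leaf 0 335 338) (leaf 1 368 372)))))))))))))))))))))))))) (merge (node 368 (merge (node 336 (merge (leaf 5 303 304) (leaf 6 335 367))) (node 464 (merge (leaf 7 431 496) (node 465 (merge (node 430 (merge (leaf 3 430 466) (node 429 (merge (leaf 0 428 428) (leaf 0 429 432))))) (merge (node 466 (merge (leaf 3 430 430) (node 499 (merge (leaf 0 463 498) (node 467 (merge (leaf 0 464 500) (node 435 (merge (leaf 2 431 434) (leaf 2 432 436))))))))) (merge (node 432 (merge (leaf 4 368 497) (node 369 (merge (leaf 6 336 337) (node 466 (merge (leaf 3 431 467) (node 498 (merge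 (leaf 0 463 499) (node 434 (merge (leaf 2 431 435) (node 401 (merge (leaf 7 369 402) (leaf 4 369 433))))))))))))) (node 497 (merge (leaf 4 368 432) (node 401 (merge (leaf 7 368 433) (node 402 (merge (leaf 1 398 430) (node 435 (merge (leaf 0 399 434) (node 403 (merge (leaf 0 400 436) (node 371 (merge (leaf 2 367 370) (leaf 2 368 372))))))))))))))))))))) (merge (node 368 (merge (node 336 (merge (leaf 5 303 304) (leaf 6 335 367))) (node 401 (merge (node 430 (merge (leaf 1 398 402) (node 429 (merge (leaf 1 397 398) (leaf 2 396 428))))) (merge (node 402 (merge (leaf 1 398 430) (node 435 (merge (leaf 0 399 434) (node 403 (merge (leaf 0 400 436) (node 371 (merge (leaf 2 367 370) (leaf 2 368 372))))))))) (merge (node 398 (merge (node 369 (merge (leaf 2 365 397) (node 370 (merge (leaf 1 367 371) (leaf 2 366 401))))) (node 433 (merge (leaf 0 398 434) (node 465 (merge (leaf 7 368 497) (node 464 (merge (leaf 6 432 496) (node 430 (merge (leaf 1 397 429) (leaf 3 430 466))))))))))) (node 434 (merge (node 398 (merge (leaf 0 398 433) (node 369 (merge (leaf 2 366 370) (leaf 2 365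 397))))) (merge (node 433 (merge (leaf 0 398 398) (node 435 (merge (leaf 0 399 402) (leaf 3 400 436))))) (merge (node 402 (merge (leaf 0 399 435) (node 370 (merge (leaf 2 367 371) (node 369 (merge (leaf 2 366 398) (node 337 (merge (leaf 4 305 305) (leaf 7 337 466))))))))) (node 402 (merge (leaf 0 399 435) (node 371 (merge (leaf 2 367 370) (node 403 (merge (leaf 2 368 372) (node 404 (merge (leaf 3 368 369) (node 437 (merge (leaf 0 401 436) (node 405 (merge (leaf 1 401 433) (leaf 0 402 438))))))))))))))))))))))) (node 398 (merge (node 430 (merge (node 429 (merge (leaf 1 397 401) (leaf 2 396 428))) (merge (node 464 (merge (leaf 7 431 496) (node 429 (merge (leaf 0 428 428) (node 465 (merge (leaf 0 429 432) (leaf 3 430 466))))))) (node 496 (merge (leaf 7 431 464) (node 401 (merge (leaf 1 398 402) (node 433 (merge (leaf 0 398 434) (node 369 (merge (leaf 2 366 370) (node 465 (merge (leaf 5 400 497) (node 466 (merge (leaf 0 430 432) (leaf 4 369 498)))))))))))))))) (merge (node 401 (merge (node 434 (merge (leaf 0 398 433) (node 402 (merge (leaf 1 398 430) (leaf 0 399 435)))))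 (merge (node 402 (merge (leaf 1 398 430) (node 403 (merge (leaf 1 399 432) (node 371 (merge (leaf 2 367 370) (leaf 2 368 372))))))) (node 433 (merge (leaf 0 398 434) (node 432 (merge (leaf 0 397 397) (node 464 (merge (leaf 6 400 496) (node 369 (merge (leaf 5 336 337) (leaf 2 366 370)))))))))))) (merge (node 401 (merge (node 434 (merge (leaf 0 398 433) (node 402 (merge (leaf 0 399 435) (node 370 (merge (leaf 2 366 369) (leaf 2 367 371))))))) (merge (node 433 (merge (leaf 0 398 434) (node 397 (merge (leaf 0 397 432) (node 428 (merge (leaf 1 396 429) (node 396 (merge (leaf 1 395 427) (node 364 (merge (leaf 3 363 363) (leaf 3 364 365))))))))))) (merge (node 370 (merge (leaf 2 366 369) (node 402 (merge (leaf 2 367 371) (node 432 (merge (leaf 1 399 403) (node 397 (merge (leaf 0 396 396) (leaf 0 397 433))))))))) (node 370 (merge (leaf 2 366 369) (node 402 (merge (leaf 2 367 371) (node 435 (merge (leaf 0 399 434) (node 403 (merge (leaf 1 399 432) (leaf 0 400 436))))))))))))) (merge (node 401 (merge (node 430 (merge (leaf 1 398 402) (leaf 1 397 429))) (merge (node 370 (merge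 (leaf 2 366 369) (node 402 (merge (leaf 2 367 371) (node 435 (merge (leaf 0 399 434) (node 403 (merge (leaf 1 399 432) (leaf 0 400 436))))))))) (node 429 (merge (leaf 1 397 430) (node 397 (merge (leaf 1 396 428) (node 396 (merge (leaf 0 396 432) (node 364 (merge (leaf 3 363 363) (leaf 3 364 365)))))))))))) (merge (node 464 (merge (leaf 7 431 496) (node 397 (merge (node 428 (merge (leaf 1 396 429) (node 396 (merge (leaf 1 395 427) (node 364 (merge (leaf 3 363 363) (leaf 3 364 365))))))) (merge (node 429 (merge (leaf 1 396 428) (node 401 (merge (leaf 1 397 430) (node 434 (merge (leaf 0 398 433) (node 402 (merge (leaf 0 399 435) (node 370 (merge (leaf 2 366 369) (leaf 2 367 371))))))))))) (merge (node 364 (merge (leaf 3 364 365) (node 396 (merge (leaf 3 363 363) (node 430 (merge (leaf 0 395 395) (node 401 (merge (leaf 1 398 402) (leaf 1 397 429))))))))) (node 364 (merge (leaf 3 364 365) (node 396 (merge (leaf 3 363 363) (node 395 (merge (leaf 0 395 430) (node 427 (merge (leaf 1 394 426) (leaf 1 395 428))))))))))))))) (node 397 (merge (node 432 (merge (leaf 0 396 396)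 (leaf 0 397 433))) (merge (node 428 (merge (leaf 1 396 429) (node 396 (merge (leaf 1 395 427) (node 395 (merge (leaf 0 395 430) (node 363 (merge (leaf 3 362 362) (leaf 3 363 364))))))))) (node 432 (merge (leaf 0 397 433) (node 429 (merge (leaf 1 396 428) (node 464 (merge (leaf 7 399 496) (node 430 (merge (leaf 0 429 465) (node 461 (merge (leaf 1 428 460) (node 525 (merge (leaf 6 397 493) (node 526 (merge (leaf 0 525 527) (leaf 3 525 558)))))))))))))))))))))))))))))))) nP_407 cP_407 12 (by decide +kernel)
def nP_408 : ℕ := 0x100000001000000000000000080000000800000008000000000000000000000000000000000000000000000000000000000000000000000000000000000000000000000000000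
def cP_408 : ℕ := 0xf0000000f0000007f7c00003f7800001fb800000fc0000007c0000007c0000005000000000000000000000000000000000000000000000000000000000000
theorem lP_408 : S nP_408 cP_408 12 := S_of_chk [(nP_369, cP_369, 11)] ⟨lP_369, trivial⟩ (node 400 (merge (node 464 (merge (leaf 7 431 496) (node 368 (merge (node 336 (merge (leaf 5 303 304) (leaf 5 335 432))) (merge (node 336 (merge (leaf 5 303 304) (leaf 6 335 367))) (node 432 (merge (node 465 (merge (leaf 4 368 497) (node 430 (merge (leaf 0 429 429) (leaf 3 430 466))))) (node 369 (merge (leaf 6 336 337) (node 367 (merge (leaf 7 335 335) (node 370 (merge (leaf 1 367 371) (leaf 1 366 398)))))))))))))) (merge (node 401 (merge (node 430 (merge (leaf 1 398 402) (node 429 (merge (leaf 2 396 428) (leaf 2 397 432))))) (merge (node 430 (merge (leaf 1 398 402) (node 429 (merge (leaf 1 397 398) (leaf 2 396 428))))) (merge (node 402 (merge (node 435 (merge (leaf 0 399 434) (node 403 (merge (leaf 1 399 432) (leaf 0 400 436))))) (merge (node 403 (merge (leaf 1 399 432) (node 371 (merge (leaf 2 367 370) (leaf 2 368 372))))) (node 434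 (merge (leaf 0 399 435) (node 398 (merge (leaf 0 398 433) (node 370 (merge (leaf 2 366 369) (leaf 2 367 371)))))))))) (node 398 (merge (node 433 (merge (leaf 0 398 434) (node 397 (merge (leaf 0 397 432) (node 429 (merge (leaf 1 396 428) (leaf 1 397 430))))))) (merge (node 433 (merge (leaf 0 398 434) (node 397 (merge (leaf 0 397 432) (node 369 (merge (leaf 2 365 368) (leaf 2 366 370))))))) (merge (node 429 (merge (leaf 1 397 430) (node 397 (merge (leaf 1 396 428) (node 369 (merge (leaf 2 365 368) (leaf 2 366 370))))))) (node 368 (merge (node 336 (merge (leaf 5 303 304) (leaf 6 335 367))) (node 433 (merge (leaf 0 398 434) (node 465 (merge (leaf 7 368 497) (node 430 (merge (leaf 1 397 429) (node 466 (merge (leaf 0 430 432) (node 369 (merge (leaf 2 366 370) (leaf 4 369 498))))))))))))))))))))) (merge (node 368 (merge (node 336 (merge (leaf 5 303 304) (leaf 6 335 367))) (merge (node 336 (merge (leaf 5 303 304) (leaf 5 335 432))) (node 369 (merge (node 370 (merge (leaf 1 367 371) (node 398 (merge (leaf 1 366 367) (leaf 2 365 397))))) (node 464 (merge (leaf 7 431 496) (node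 432 (merge (leaf 6 336 337) (node 465 (merge (leaf 4 368 497) (node 466 (merge (leaf 3 431 467) (node 498 (merge (leaf 0 463 499) (node 434 (merge (leaf 2 431 435) (node 401 (merge (leaf 7 369 402) (leaf 4 369 433)))))))))))))))))))) (merge (hyp 0) (merge (node 432 (merge (node 464 (merge (leaf 7 399 496) (node 368 (merge (leaf 5 335 336) (node 465 (merge (leaf 4 368 497) (node 430 (merge (leaf 0 429 429) (leaf 3 430 466))))))))) (merge (node 464 (merge (leaf 7 399 496) (node 367 (merge (leaf 4 335 335) (node 368 (merge (leaf 6 335 336) (node 369 (merge (leaf 6 336 337) (node 370 (merge (leaf 1 367 371) (node 402 (merge (leaf 0 367 403) (node 401 (merge (leaf 1 398 430) (node 338 (merge (leaf 2 335 339) (node 306 (merge (leaf 5 273 274) (leaf 5 305 433))))))))))))))))))) (merge (node 368 (merge (leaf 5 335 336) (node 433 (merge (node 434 (merge (leaf 3 399 435) (node 466 (merge (leaf 0 431 467) (node 430 (merge (leaf 0 430 465) (node 429 (merge (leaf 2 397 401) (leaf 2 396 428))))))))) (merge (node 401 (merge (node 402 (merge (leaf 1 399 403) (leaf 1 398 430))) (merge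 (node 465 (merge (leaf 7 368 497) (node 430 (merge (leaf 2 397 429) (leaf 0 430 466))))) (node 465 (merge (leaf 7 368 497) (node 402 (merge (leaf 1 399 403) (node 370 (merge (leaf 2 367 371) (node 338 (merge (leaf 5 305 306) (leaf 6 337 369)))))))))))) (merge (node 434 (merge (leaf 3 399 435) (node 402 (merge (leaf 2 399 403) (node 401 (merge (leaf 1 398 430) (node 465 (merge (leaf 7 368 497) (node 370 (merge (leaf 5 337 338) (leaf 2 367 371))))))))))) (merge (node 434 (merge (leaf 3 399 435) (node 466 (merge (leaf 0 431 467) (node 465 (merge (leaf 0 430 430) (node 402 (merge (leaf 2 399 403) (node 370 (merge (leaf 5 337 338) (leaf 5 369 497))))))))))) (merge (node 401 (merge (node 465 (merge (leaf 7 368 497) (node 402 (merge (leaf 1 399 403) (node 370 (merge (leaf 2 367 371) (node 338 (merge (leaf 5 305 306) (leaf 6 337 369))))))))) (merge (node 465 (merge (leaf 7 368 497) (node 434 (merge (leaf 3 399 435) (node 466 (merge (leaf 0 431 467) (node 369 (merge (leaf 4 337 337) (leaf 4 369 498))))))))) (merge (node 402 (merge (leaf 1 399 403) (node 434 (merge (leaf 0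 399 435) (node 466 (merge (leaf 0 431 467) (node 369 (merge (leaf 4 337 337) (leaf 7 369 498))))))))) (node 465 (merge (leaf 7 368 497) (node 402 (merge (leaf 1 399 403) (node 434 (merge (leaf 0 399 435) (node 370 (merge (leaf 5 337 338) (leaf 2 367 371))))))))))))) (node 434 (merge (leaf 3 399 435) (node 466 (merge (leaf 0 431 467) (node 402 (merge (leaf 2 399 403) (node 401 (merge (leaf 1 398 430) (node 369 (merge (leaf 4 337 337) (leaf 7 369 498))))))))))))))))))) (merge (node 433 (merge (node 434 (merge (leaf 3 399 435) (node 466 (merge (leaf 0 431 467) (node 430 (merge (leaf 0 430 465) (node 429 (merge (leaf 2 397 401) (leaf 2 396 428))))))))) (merge (node 464 (merge (leaf 7 399 496) (node 434 (merge (leaf 1 431 435) (node 402 (merge (leaf 2 399 403) (node 430 (merge (leaf 1 398 401) (node 429 (merge (leaf 0 428 428) (leaf 0 429 465))))))))))) (merge (node 434 (merge (leaf 3 399 435) (node 466 (merge (leaf 0 431 467) (node 402 (merge (leaf 2 399 403) (node 401 (merge (leaf 1 398 430) (node 369 (merge (leaf 4 337 337) (leaf 7 369 498))))))))))) (merge (node 434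 (merge (leaf 3 399 435) (node 466 (merge (leaf 0 431 467) (node 465 (merge (leaf 0 430 430) (node 402 (merge (leaf 2 399 403) (node 370 (merge (leaf 5 337 338) (leaf 5 369 497))))))))))) (merge (node 401 (merge (node 402 (merge (leaf 1 399 403) (node 434 (merge (leaf 0 399 435) (node 370 (merge (leaf 2 367 371) (node 338 (merge (leaf 5 305 306) (leaf 5 337 465))))))))) (merge (node 402 (merge (leaf 1 399 403) (node 434 (merge (leaf 0 399 435) (node 466 (merge (leaf 0 431 467) (node 369 (merge (leaf 4 337 337) (leaf 7 369 498))))))))) (merge (node 402 (merge (leaf 1 399 403) (node 370 (merge (leaf 2 367 371) (node 465 (merge (leaf 6 369 497) (node 338 (merge (leaf 5 305 306) (leaf 6 337 369))))))))) (node 496 (merge (leaf 6 400 464) (node 434 (merge (leaf 3 399 435) (node 466 (merge (leaf 0 431 467) (node 369 (merge (leaf 4 337 337) (node 465 (merge (leaf 5 400 497) (leaf 4 369 498))))))))))))))) (node 401 (merge (node 402 (merge (leaf 2 398 430) (node 403 (merge (leaf 1 399 400) (leaf 1 400 404))))) (merge (node 496 (merge (leaf 6 400 464) (node 430 (merge (leaf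 2 397 429) (node 465 (merge (leaf 0 430 466) (leaf 5 400 497))))))) (node 402 (merge (leaf 1 399 403) (node 370 (merge (leaf 2 367 371) (node 465 (merge (leaf 6 369 497) (node 338 (merge (leaf 5 305 306) (leaf 6 337 369)))))))))))))))))) (node 464 (merge (leaf 7 399 496) (node 368 (merge (leaf 5 335 336) (node 369 (merge (leaf 6 336 337) (node 465 (merge (leaf 4 368 497) (node 466 (merge (leaf 3 431 467) (node 498 (merge (leaf 0 463 499) (node 434 (merge (leaf 2 431 435) (node 401 (merge (leaf 7 369 402) (leaf 4 369 433)))))))))))))))))))))) (merge (node 401 (merge (node 430 (merge (leaf 1 398 402) (node 429 (merge (leaf 1 397 398) (leaf 2 396 428))))) (merge (node 402 (merge (leaf 1 398 430) (node 435 (merge (leaf 0 399 434) (node 403 (merge (leaf 1 399 432) (leaf 0 400 436))))))) (merge (node 433 (merge (node 434 (merge (leaf 0 398 398) (node 435 (merge (leaf 3 399 432) (leaf 3 400 436))))) (merge (node 368 (merge (node 336 (merge (leaf 4 304 304) (leaf 6 335 367))) (node 465 (merge (leaf 7 368 497) (node 464 (merge (leaf 6 432 496) (node 430 (merge (leaf 3 430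 466) (node 429 (merge (leaf 0 428 428) (leaf 0 429 432))))))))))) (node 398 (merge (leaf 0 398 434) (node 430 (merge (leaf 1 397 429) (node 464 (merge (leaf 7 431 496) (node 465 (merge (leaf 3 430 466) (node 368 (merge (leaf 7 368 497) (node 336 (merge (leaf 4 304 304) (leaf 6 335 367)))))))))))))))) (node 367 (merge (node 368 (merge (leaf 6 335 336) (node 402 (merge (leaf 3 367 403) (node 434 (merge (leaf 0 399 435) (node 398 (merge (leaf 0 398 433) (node 397 (merge (leaf 2 365 369) (leaf 2 364 396))))))))))) (merge (node 464 (merge (leaf 7 431 496) (node 335 (merge (leaf 4 335 432) (node 304 (merge (leaf 6 303 336) (node 303 (merge (leaf 6 271 272) (node 302 (merge (leaf 7 270 270) (leaf 7 302 334))))))))))) (node 464 (merge (leaf 7 431 496) (node 335 (merge (leaf 4 335 432) (node 302 (merge (leaf 7 302 334) (node 303 (merge (leaf 7 270 270) (node 272 (merge (leaf 6 271 304) (node 271 (merge (leaf 6 239 240) (leaf 4 271 368)))))))))))))))))))) (merge (node 401 (merge (node 430 (merge (leaf 1 398 402) (node 429 (merge (leaf 1 397 398) (leaf 2 396 428))))) (merge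 (node 402 (merge (leaf 1 398 430) (node 435 (merge (leaf 0 399 434) (node 403 (merge (leaf 1 399 432) (leaf 0 400 436))))))) (merge (node 433 (merge (node 434 (merge (leaf 0 398 398) (node 435 (merge (leaf 3 399 432) (leaf 3 400 436))))) (merge (node 368 (merge (node 336 (merge (leaf 4 304 304) (leaf 6 335 367))) (node 465 (merge (leaf 7 368 497) (node 464 (merge (leaf 6 432 496) (node 430 (merge (leaf 3 430 466) (node 429 (merge (leaf 0 428 428) (leaf 0 429 432))))))))))) (node 398 (merge (leaf 0 398 434) (node 430 (merge (leaf 1 397 429) (node 464 (merge (leaf 7 431 496) (node 465 (merge (leaf 3 430 466) (node 368 (merge (leaf 7 368 497) (node 336 (merge (leaf 4 304 304) (leaf 6 335 367)))))))))))))))) (node 367 (merge (node 368 (merge (leaf 6 335 336) (node 402 (merge (leaf 3 367 403) (node 434 (merge (leaf 0 399 435) (node 433 (merge (leaf 0 398 398) (node 465 (merge (leaf 7 368 497) (node 370 (merge (leaf 5 337 338) (leaf 2 367 371))))))))))))) (merge (node 464 (merge (leaf 7 431 496) (node 335 (merge (leaf 4 335 432) (node 304 (merge (leaf 6 303 336) (node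 303 (merge (leaf 6 271 272) (node 302 (merge (leaf 7 270 270) (leaf 7 302 334))))))))))) (node 464 (merge (leaf 7 431 496) (node 335 (merge (leaf 4 335 432) (node 302 (merge (leaf 7 302 334) (node 303 (merge (leaf 7 270 270) (node 272 (merge (leaf 6 271 304) (node 271 (merge (leaf 6 239 240) (leaf 4 271 368)))))))))))))))))))) (merge (node 368 (merge (node 336 (merge (leaf 5 303 304) (leaf 6 335 367))) (node 401 (merge (node 430 (merge (leaf 1 398 402) (node 429 (merge (leaf 1 397 398) (leaf 2 396 428))))) (merge (node 402 (merge (leaf 1 398 430) (node 435 (merge (leaf 0 399 434) (node 403 (merge (leaf 0 400 436) (node 371 (merge (leaf 2 367 370) (leaf 2 368 372))))))))) (merge (node 398 (merge (node 369 (merge (leaf 2 365 397) (node 370 (merge (leaf 1 367 371) (leaf 2 366 401))))) (node 433 (merge (leaf 0 398 434) (node 465 (merge (leaf 7 368 497) (node 464 (merge (leaf 6 432 496) (node 430 (merge (leaf 1 397 429) (leaf 3 430 466))))))))))) (node 434 (merge (node 398 (merge (leaf 0 398 433) (node 369 (merge (leaf 2 366 370) (leaf 2 365 397))))) (merge (node 433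 (merge (leaf 0 398 398) (node 435 (merge (leaf 0 399 402) (leaf 3 400 436))))) (merge (node 402 (merge (leaf 0 399 435) (node 370 (merge (leaf 2 367 371) (node 369 (merge (leaf 2 366 398) (node 337 (merge (leaf 4 305 305) (leaf 7 337 466))))))))) (node 402 (merge (leaf 0 399 435) (node 371 (merge (leaf 2 367 370) (node 403 (merge (leaf 2 368 372) (node 404 (merge (leaf 3 368 369) (node 437 (merge (leaf 0 401 436) (node 405 (merge (leaf 1 401 433) (leaf 0 402 438))))))))))))))))))))))) (merge (node 398 (merge (node 401 (merge (node 430 (merge (leaf 1 398 402) (leaf 1 397 429))) (merge (node 434 (merge (leaf 0 398 433) (node 402 (merge (leaf 1 398 430) (leaf 0 399 435))))) (node 433 (merge (leaf 0 398 434) (node 397 (merge (leaf 0 397 432) (node 428 (merge (leaf 1 396 429) (node 396 (merge (leaf 1 395 427) (node 364 (merge (leaf 3 363 363) (leaf 3 364 365)))))))))))))) (merge (node 401 (merge (node 434 (merge (leaf 0 398 433) (node 402 (merge (leaf 0 399 435) (node 370 (merge (leaf 2 366 369) (leaf 2 367 371))))))) (merge (node 433 (merge (leaf 0 398 434) (node 397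 (merge (leaf 0 397 432) (node 428 (merge (leaf 1 396 429) (node 396 (merge (leaf 1 395 427) (node 364 (merge (leaf 3 363 363) (leaf 3 364 365))))))))))) (merge (node 370 (merge (leaf 2 366 369) (node 402 (merge (leaf 2 367 371) (node 432 (merge (leaf 1 399 403) (node 397 (merge (leaf 0 396 396) (leaf 0 397 433))))))))) (node 370 (merge (leaf 2 366 369) (node 402 (merge (leaf 2 367 371) (node 435 (merge (leaf 0 399 434) (node 403 (merge (leaf 1 399 432) (leaf 0 400 436))))))))))))) (merge (node 401 (merge (node 430 (merge (leaf 1 398 402) (leaf 1 397 429))) (merge (node 370 (merge (leaf 2 366 369) (node 402 (merge (leaf 2 367 371) (node 435 (merge (leaf 0 399 434) (node 403 (merge (leaf 1 399 432) (leaf 0 400 436))))))))) (node 429 (merge (leaf 1 397 430) (node 397 (merge (leaf 1 396 428) (node 396 (merge (leaf 0 396 432) (node 364 (merge (leaf 3 363 363) (leaf 3 364 365)))))))))))) (merge (node 401 (merge (node 430 (merge (leaf 1 398 402) (leaf 1 397 429))) (merge (node 434 (merge (leaf 0 398 433) (node 402 (merge (leaf 0 399 435) (node 370 (merge (leaf 2 366 369)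 (leaf 2 367 371))))))) (node 433 (merge (leaf 0 398 434) (node 397 (merge (leaf 0 397 432) (node 430 (merge (leaf 1 397 429) (node 396 (merge (leaf 0 395 395) (node 364 (merge (leaf 3 363 363) (leaf 3 364 365)))))))))))))) (merge (node 397 (merge (node 432 (merge (leaf 0 396 396) (leaf 0 397 433))) (merge (node 364 (merge (leaf 3 364 365) (node 396 (merge (leaf 3 363 363) (node 395 (merge (leaf 0 395 430) (node 427 (merge (leaf 1 394 426) (leaf 1 395 428))))))))) (node 433 (merge (leaf 0 397 432) (node 401 (merge (leaf 0 398 434) (node 402 (merge (leaf 1 398 430) (node 370 (merge (leaf 2 366 369) (leaf 2 367 371)))))))))))) (merge (node 397 (merge (node 428 (merge (leaf 1 396 429) (node 396 (merge (leaf 1 395 427) (node 364 (merge (leaf 3 363 363) (leaf 3 364 365))))))) (merge (node 429 (merge (leaf 1 396 428) (node 401 (merge (leaf 1 397 430) (node 434 (merge (leaf 0 398 433) (node 402 (merge (leaf 0 399 435) (node 370 (merge (leaf 2 366 369) (leaf 2 367 371))))))))))) (merge (node 364 (merge (leaf 3 364 365) (node 396 (merge (leaf 3 363 363) (node 430 (merge (leaf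 0 395 395) (node 401 (merge (leaf 1 398 402) (leaf 1 397 429))))))))) (node 364 (merge (leaf 3 364 365) (node 396 (merge (leaf 3 363 363) (node 395 (merge (leaf 0 395 430) (node 427 (merge (leaf 1 394 426) (leaf 1 395 428))))))))))))) (merge (node 397 (merge (node 432 (merge (leaf 0 396 396) (leaf 0 397 433))) (merge (node 428 (merge (leaf 1 396 429) (node 396 (merge (leaf 1 395 427) (node 364 (merge (leaf 3 363 363) (leaf 3 364 365))))))) (node 432 (merge (leaf 0 397 433) (node 429 (merge (leaf 1 396 428) (node 464 (merge (leaf 7 399 496) (node 465 (merge (leaf 0 429 430) (node 368 (merge (leaf 2 365 369) (leaf 4 368 497)))))))))))))) (node 430 (merge (node 429 (merge (leaf 1 397 401) (leaf 2 396 428))) (merge (node 464 (merge (leaf 7 431 496) (node 429 (merge (leaf 0 428 428) (node 465 (merge (leaf 0 429 432) (leaf 3 430 466))))))) (node 496 (merge (leaf 7 431 464) (node 401 (merge (leaf 1 398 402) (node 433 (merge (leaf 0 398 434) (node 369 (merge (leaf 2 366 370) (node 465 (merge (leaf 5 400 497) (node 466 (merge (leaf 0 430 432) (leaf 4 369 498))))))))))))))))))))))))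 (node 401 (merge (node 430 (merge (leaf 1 398 402) (node 429 (merge (leaf 2 396 428) (leaf 2 397 432))))) (merge (node 430 (merge (leaf 1 398 402) (node 429 (merge (leaf 1 397 398) (leaf 2 396 428))))) (merge (node 402 (merge (node 435 (merge (leaf 0 399 434) (node 403 (merge (leaf 1 399 432) (leaf 0 400 436))))) (merge (node 403 (merge (leaf 1 399 432) (node 371 (merge (leaf 2 367 370) (leaf 2 368 372))))) (node 434 (merge (leaf 0 399 435) (node 398 (merge (leaf 0 398 433) (node 370 (merge (leaf 2 366 369) (leaf 2 367 371)))))))))) (node 369 (merge (node 398 (merge (leaf 2 366 370) (node 397 (merge (node 429 (merge (leaf 1 396 428) (leaf 1 397 430))) (merge (node 428 (merge (leaf 1 396 429) (node 396 (merge (leaf 1 395 427) (node 364 (merge (leaf 3 363 363) (leaf 3 364 365))))))) (merge (node 430 (merge (leaf 1 397 429) (node 396 (merge (leaf 0 395 395) (node 364 (merge (leaf 3 363 363) (leaf 3 364 365))))))) (node 364 (merge (leaf 3 364 365) (node 396 (merge (leaf 3 363 363) (node 395 (merge (leaf 0 395 430) (node 427 (merge (leaf 1 394 426) (leaf 1 395 428)))))))))))))))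 (merge (node 433 (merge (node 434 (merge (leaf 0 398 398) (node 435 (merge (leaf 3 399 432) (leaf 3 400 436))))) (merge (node 434 (merge (leaf 0 398 398) (node 337 (merge (leaf 4 337 466) (node 306 (merge (leaf 6 305 338) (node 305 (merge (leaf 6 273 274) (node 304 (merge (leaf 7 272 272) (leaf 7 304 336))))))))))) (node 464 (merge (leaf 7 431 496) (node 337 (merge (leaf 5 336 432) (node 306 (merge (leaf 6 305 338) (node 305 (merge (leaf 6 273 274) (node 304 (merge (leaf 7 272 272) (leaf 7 304 336)))))))))))))) (node 337 (merge (node 432 (merge (leaf 5 304 305) (node 430 (merge (leaf 2 397 429) (node 433 (merge (leaf 5 336 464) (node 466 (merge (leaf 4 337 434) (leaf 0 430 465))))))))) (merge (node 305 (merge (leaf 5 304 432) (node 274 (merge (leaf 6 273 306) (node 273 (merge (leaf 6 241 242) (node 272 (merge (leaf 7 240 240) (leaf 7 272 304))))))))) (merge (node 433 (merge (node 434 (merge (leaf 4 337 466) (node 432 (merge (leaf 3 399 435) (leaf 5 336 464))))) (merge (node 338 (merge (leaf 6 305 306) (node 465 (merge (leaf 6 337 370) (node 466 (merge (leaf 4 337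 434) (leaf 4 369 498))))))) (node 338 (merge (leaf 6 305 306) (node 370 (merge (leaf 6 337 465) (node 336 (merge (leaf 7 304 304) (node 371 (merge (leaf 0 335 335) (leaf 1 368 372)))))))))))) (node 304 (merge (node 272 (merge (leaf 7 272 305) (node 336 (merge (leaf 4 240 240) (leaf 7 304 433))))) (merge (node 433 (merge (leaf 7 304 336) (node 338 (merge (leaf 6 305 306) (node 465 (merge (leaf 6 337 370) (node 466 (merge (leaf 4 337 434) (leaf 4 369 498))))))))) (merge (node 305 (merge (leaf 7 272 272) (node 306 (merge (leaf 6 273 274) (node 338 (merge (leaf 6 305 433) (node 303 (merge (leaf 0 302 302) (leaf 0 303 339))))))))) (node 272 (merge (leaf 7 272 305) (node 336 (merge (leaf 4 240 240) (node 335 (merge (leaf 6 303 367) (node 370 (merge (leaf 0 334 334) (node 371 (merge (leaf 0 335 338) (leaf 1 368 372)))))))))))))))))))))))))))))))))))) nP_408 cP_408 12 (by decide +kernel)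
def nP_409 : ℕ := 0x100000001000000000000000080000000800000008000000000000000400000000000000000000000000000000000000000000000000000000000000000000000000000000000
def cP_409 : ℕ := 0x40000000f0000007700000073000001f7c00000f7800000e7c000000300000007000000070000000400000000000000000000000000000000000000000000000000000000000
theorem lP_409 : S nP_409 cP_409 14 := S_of_chk [] trivial (node 398 (merge (node 366 (merge (leaf 4 302 302) (leaf 4 334 430))) (merge (node 430 (merge (leaf 4 334 366) (node 464 (merge (leaf 7 431 496) (node 429 (merge (leaf 0 428 428) (node 465 (merge (leaf 0 429 432) (leaf 3 430 466))))))))) (merge (node 400 (merge (node 401 (merge (node 430 (merge (leaf 1 398 402) (leaf 1 397 429))) (merge (node 434 (merge (leaf 0 398 433) (node 402 (merge (leaf 0 399 435) (node 370 (merge (leaf 2 366 369) (leaf 2 367 371))))))) (node 433 (merge (leaf 0 398 434) (node 397 (merge (leaf 0 397 432) (node 430 (merge (leaf 1 397 429) (node 396 (merge (leaf 0 395 395) (node 364 (merge (leaf 3 363 363) (leaf 3 364 365)))))))))))))) (merge (node 397 (merge (node 396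 (merge (leaf 0 396 432) (node 364 (merge (leaf 3 363 363) (leaf 3 364 365))))) (merge (node 364 (merge (leaf 3 364 365) (node 396 (merge (leaf 3 363 363) (node 395 (merge (leaf 0 395 430) (node 427 (merge (leaf 1 394 426) (leaf 1 395 428))))))))) (node 433 (merge (leaf 0 397 432) (node 401 (merge (leaf 0 398 434) (node 402 (merge (leaf 1 398 430) (node 370 (merge (leaf 2 366 369) (leaf 2 367 371)))))))))))) (merge (node 397 (merge (node 428 (merge (leaf 1 396 429) (node 396 (merge (leaf 1 395 427) (node 364 (merge (leaf 3 363 363) (leaf 3 364 365))))))) (merge (node 429 (merge (leaf 1 396 428) (node 401 (merge (leaf 1 397 430) (node 434 (merge (leaf 0 398 433) (node 402 (merge (leaf 0 399 435) (node 370 (merge (leaf 2 366 369) (leaf 2 367 371))))))))))) (merge (node 364 (merge (leaf 3 364 365) (node 396 (merge (leaf 3 363 363) (node 430 (merge (leaf 0 395 395) (node 401 (merge (leaf 1 398 402) (leaf 1 397 429))))))))) (node 364 (merge (leaf 3 364 365) (node 396 (merge (leaf 3 363 363) (node 395 (merge (leaf 0 395 430) (node 427 (merge (leaf 1 394 426) (leaf 1 395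 428))))))))))))) (merge (node 401 (merge (node 430 (merge (leaf 1 398 402) (leaf 1 397 429))) (merge (node 370 (merge (leaf 2 366 369) (node 402 (merge (leaf 2 367 371) (node 435 (merge (leaf 0 399 434) (node 403 (merge (leaf 1 399 432) (leaf 0 400 436))))))))) (node 429 (merge (leaf 1 397 430) (node 397 (merge (leaf 1 396 428) (node 396 (merge (leaf 0 396 432) (node 364 (merge (leaf 3 363 363) (leaf 3 364 365)))))))))))) (merge (node 401 (merge (node 434 (merge (leaf 0 398 433) (node 402 (merge (leaf 0 399 435) (node 370 (merge (leaf 2 366 369) (leaf 2 367 371))))))) (merge (node 433 (merge (leaf 0 398 434) (node 397 (merge (leaf 0 397 432) (node 428 (merge (leaf 1 396 429) (node 396 (merge (leaf 1 395 427) (node 364 (merge (leaf 3 363 363) (leaf 3 364 365))))))))))) (merge (node 370 (merge (leaf 2 366 369) (node 402 (merge (leaf 2 367 371) (node 432 (merge (leaf 1 399 403) (node 397 (merge (leaf 0 396 396) (leaf 0 397 433))))))))) (node 370 (merge (leaf 2 366 369) (node 402 (merge (leaf 2 367 371) (node 435 (merge (leaf 0 399 434) (node 403 (merge (leaf 1 399 432)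 (leaf 0 400 436))))))))))))) (merge (node 430 (merge (node 429 (merge (leaf 1 397 401) (leaf 2 396 428))) (merge (node 464 (merge (leaf 7 431 496) (node 429 (merge (leaf 0 428 428) (node 465 (merge (leaf 0 429 432) (leaf 3 430 466))))))) (node 496 (merge (leaf 7 431 464) (node 401 (merge (leaf 1 398 402) (node 433 (merge (leaf 0 398 434) (node 369 (merge (leaf 2 366 370) (node 465 (merge (leaf 5 400 497) (node 466 (merge (leaf 0 430 432) (leaf 4 369 498)))))))))))))))) (node 397 (merge (node 432 (merge (leaf 0 396 396) (leaf 0 397 433))) (merge (node 428 (merge (leaf 1 396 429) (node 396 (merge (leaf 1 395 427) (node 395 (merge (leaf 0 395 430) (node 363 (merge (leaf 3 362 362) (leaf 3 363 364))))))))) (node 432 (merge (leaf 0 397 433) (node 429 (merge (leaf 1 396 428) (node 464 (merge (leaf 7 399 496) (node 430 (merge (leaf 0 429 465) (node 365 (merge (leaf 3 364 364) (node 333 (merge (leaf 4 301 301) (leaf 6 301 302))))))))))))))))))))))) (node 397 (merge (node 432 (merge (leaf 0 396 396) (node 433 (merge (leaf 0 397 400) (leaf 3 398 434))))) (merge (node 396 (merge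 (leaf 0 396 432) (node 427 (merge (leaf 1 395 428) (node 395 (merge (leaf 1 394 426) (node 363 (merge (leaf 3 362 362) (leaf 3 363 364))))))))) (merge (node 464 (merge (leaf 7 431 496) (node 429 (merge (node 428 (merge (leaf 1 396 400) (node 427 (merge (leaf 1 395 396) (leaf 2 394 426))))) (merge (node 365 (merge (node 461 (merge (node 366 (merge (leaf 6 333 334) (leaf 6 365 493))) (node 364 (merge (leaf 7 332 332) (node 363 (merge (leaf 0 362 362) (leaf 3 363 396))))))) (merge (node 333 (merge (node 428 (merge (leaf 5 332 460) (node 427 (merge (leaf 1 395 396) (leaf 2 394 426))))) (node 302 (merge (leaf 6 301 334) (node 301 (merge (leaf 6 269 270) (node 300 (merge (leaf 7 268 268) (leaf 7 300 332))))))))) (merge (node 461 (merge (node 493 (merge (leaf 6 365 366) (node 492 (merge (leaf 5 364 460) (leaf 5 396 524))))) (node 364 (merge (leaf 7 332 332) (node 363 (merge (leaf 0 362 362) (leaf 3 363 396))))))) (merge (node 461 (merge (node 366 (merge (leaf 6 333 334) (leaf 6 365 493))) (merge (node 460 (merge (leaf 5 364 492) (node 428 (merge (leaf 5 332 333) (node 427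 (merge (leaf 1 395 396) (leaf 2 394 426))))))) (node 492 (merge (leaf 5 364 460) (node 493 (merge (leaf 5 396 524) (node 526 (merge (leaf 4 397 494) (node 525 (merge (leaf 3 492 527) (leaf 4 429 558)))))))))))) (node 333 (merge (node 302 (merge (leaf 6 301 334) (node 301 (merge (leaf 6 269 270) (node 300 (merge (leaf 7 268 268) (leaf 7 300 332))))))) (merge (node 334 (merge (leaf 6 301 302) (node 461 (merge (leaf 6 333 366) (node 492 (merge (leaf 5 364 460) (node 493 (merge (leaf 5 396 524) (node 526 (merge (leaf 4 397 494) (node 525 (merge (leaf 3 492 527) (leaf 4 429 558))))))))))))) (merge (node 300 (merge (leaf 7 300 332) (node 301 (merge (leaf 7 268 268) (node 366 (merge (leaf 4 269 269) (node 461 (merge (leaf 6 333 334) (leaf 6 365 493))))))))) (node 300 (merge (leaf 7 300 332) (node 301 (merge (leaf 7 268 268) (node 270 (merge (leaf 6 269 302) (node 269 (merge (leaf 6 237 238) (leaf 4 269 366)))))))))))))))))) (node 365 (merge (node 364 (merge (leaf 3 364 400) (node 363 (merge (leaf 0 362 362) (leaf 0 363 366))))) (merge (node 364 (merge (leaf 3 364 400) (node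 332 (merge (leaf 7 332 461) (node 300 (merge (leaf 4 268 268) (leaf 7 300 333))))))) (node 333 (merge (node 302 (merge (leaf 6 301 334) (node 301 (merge (leaf 6 269 270) (node 300 (merge (leaf 7 268 268) (leaf 7 300 332))))))) (merge (node 334 (merge (leaf 6 301 302) (node 461 (merge (leaf 6 333 366) (node 492 (merge (leaf 5 364 460) (node 493 (merge (leaf 5 396 524) (node 526 (merge (leaf 4 397 494) (node 525 (merge (leaf 3 492 527) (leaf 4 429 558))))))))))))) (merge (node 300 (merge (leaf 7 300 332) (node 301 (merge (leaf 7 268 268) (node 366 (merge (leaf 4 269 269) (node 461 (merge (leaf 6 333 334) (leaf 6 365 493))))))))) (node 300 (merge (leaf 7 300 332) (node 301 (merge (leaf 7 268 268) (node 270 (merge (leaf 6 269 302) (node 269 (merge (leaf 6 237 238) (leaf 4 269 366))))))))))))))))))))) (node 400 (merge (node 433 (merge (leaf 0 397 432) (node 401 (merge (leaf 0 398 434) (node 365 (merge (leaf 3 364 364) (leaf 3 365 366))))))) (merge (node 429 (merge (leaf 1 396 428) (node 401 (merge (node 433 (merge (leaf 0 397 432) (leaf 0 398 434))) (merge (node 432 (merge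 (leaf 0 397 433) (node 402 (merge (leaf 1 399 403) (node 370 (merge (leaf 2 366 369) (leaf 2 367 371))))))) (merge (node 434 (merge (leaf 0 398 433) (node 402 (merge (leaf 0 399 435) (node 370 (merge (leaf 2 366 369) (leaf 2 367 371))))))) (node 370 (merge (leaf 2 366 369) (node 402 (merge (leaf 2 367 371) (node 435 (merge (leaf 0 399 434) (node 403 (merge (leaf 1 399 432) (leaf 0 400 436))))))))))))))) (node 429 (merge (leaf 1 396 428) (node 365 (merge (node 364 (merge (leaf 3 364 400) (node 363 (merge (leaf 0 362 362) (leaf 0 363 366))))) (merge (node 364 (merge (leaf 3 364 398) (node 332 (merge (leaf 7 332 461) (node 300 (merge (leaf 4 268 268) (leaf 7 300 333))))))) (node 464 (merge (leaf 7 431 496) (node 333 (merge (node 302 (merge (leaf 6 301 334) (node 301 (merge (leaf 6 269 270) (node 300 (merge (leaf 7 268 268) (leaf 7 300 332))))))) (merge (node 334 (merge (leaf 6 301 302) (node 461 (merge (leaf 6 333 366) (node 492 (merge (leaf 5 364 460) (node 493 (merge (leaf 5 396 524) (node 526 (merge (leaf 4 397 494) (node 525 (merge (leaf 3 492 527) (leaf 4 429 558)))))))))))))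 (merge (node 300 (merge (leaf 7 300 332) (node 301 (merge (leaf 7 268 268) (node 366 (merge (leaf 4 269 269) (node 461 (merge (leaf 6 333 334) (leaf 6 365 493))))))))) (node 300 (merge (leaf 7 300 332) (node 301 (merge (leaf 7 268 268) (node 270 (merge (leaf 6 269 302) (node 269 (merge (leaf 6 237 238) (leaf 4 269 366))))))))))))))))))))))))))))))) nP_409 cP_409 14 (by decide +kernel)
def nP_410 : ℕ := 0x100000001000000000000000080000000800000008000000000000000c00000000000000000000000000000000000000000000000000000000000000000000000000000000000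
def cP_410 : ℕ := 0x10000000730000001780000017800000e3f0000073e00000ffe000003fc000001f0000001f000000000000000000000000000000000000000000000000000
theorem lP_410 : S nP_410 cP_410 12 := S_of_chk [] trivial (node 333 (merge (node 332 (merge (node 363 (merge (leaf 1 331 364) (node 331 (merge (leaf 1 330 362) (node 299 (merge (leaf 3 298 298) (leaf 3 299 300))))))) (merge (node 364 (merge (leaf 1 331 363) (node 336 (merge (leaf 1 332 365) (node 304 (merge (leaf 2 300 303) (leaf 2 301 305))))))) (node 304 (merge (leaf 2 300 303) (node 336 (merge (leaf 2 301 305) (node 300 (merge (leaf 3 299 299) (leaf 3 300 301)))))))))) (merge (node 332 (merge (node 363 (merge (leaf 1 331 364) (node 331 (merge (leaf 1 330 362) (node 299 (merge (leaf 3 298 298) (leaf 3 299 300))))))) (merge (node 364 (merge (leaf 1 331 363) (node 336 (merge (leaf 1 332 365) (node 304 (merge (leaf 2 300 303) (leaf 2 301 305))))))) (node 303 (merge (leaf 2 300 304) (node 331 (merge (leaf 2 299 302) (node 299 (merge (leaf 3 298 298) (leaf 3 299 300)))))))))) (merge (node 336 (merge (node 305 (merge (leaf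 2 301 304) (node 337 (merge (leaf 2 302 306) (node 301 (merge (leaf 3 300 300) (leaf 3 301 302))))))) (merge (node 364 (merge (leaf 1 332 365) (node 332 (merge (leaf 1 331 363) (node 304 (merge (leaf 2 300 303) (leaf 2 301 305))))))) (merge (node 364 (merge (leaf 1 332 365) (node 332 (merge (leaf 1 331 363) (node 303 (merge (leaf 2 300 304) (node 302 (merge (leaf 2 299 331) (node 301 (merge (leaf 0 300 300) (leaf 3 301 337))))))))))) (node 301 (merge (leaf 3 300 300) (node 337 (merge (leaf 3 301 302) (node 370 (merge (leaf 0 334 369) (node 338 (merge (leaf 0 335 371) (node 306 (merge (leaf 2 302 305) (leaf 2 303 307))))))))))))))) (merge (node 332 (merge (node 304 (merge (leaf 2 300 303) (node 336 (merge (leaf 2 301 305) (node 300 (merge (leaf 3 299 299) (leaf 3 300 301))))))) (merge (node 331 (merge (node 299 (merge (leaf 3 298 298) (leaf 3 299 300))) (merge (node 362 (merge (leaf 1 330 363) (node 330 (merge (leaf 1 329 361) (node 301 (merge (leaf 2 298 302) (node 300 (merge (leaf 2 297 329) (leaf 3 300 336))))))))) (node 362 (merge (leaf 1 330 363) (node 330 (merge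 (leaf 1 329 361) (node 298 (merge (leaf 3 297 297) (leaf 3 298 299)))))))))) (merge (node 303 (merge (leaf 2 300 304) (node 331 (merge (leaf 2 299 302) (node 362 (merge (leaf 1 330 363) (node 330 (merge (leaf 1 329 361) (node 298 (merge (leaf 3 297 297) (leaf 3 298 299))))))))))) (node 336 (merge (node 304 (merge (leaf 2 300 303) (leaf 2 301 305))) (merge (node 301 (merge (leaf 3 300 300) (node 337 (merge (leaf 3 301 302) (node 370 (merge (leaf 0 334 369) (node 338 (merge (leaf 0 335 371) (node 306 (merge (leaf 2 302 305) (leaf 2 303 307))))))))))) (node 303 (merge (leaf 2 300 304) (node 302 (merge (leaf 2 299 331) (node 301 (merge (leaf 0 300 300) (leaf 3 301 337)))))))))))))) (merge (node 364 (merge (node 363 (merge (leaf 1 331 332) (node 365 (merge (leaf 1 332 336) (leaf 2 330 362))))) (merge (node 332 (merge (leaf 1 331 363) (node 300 (merge (leaf 3 299 299) (node 301 (merge (leaf 3 300 336) (node 269 (merge (leaf 5 236 237) (leaf 6 268 396))))))))) (merge (node 336 (merge (leaf 1 332 365) (node 301 (merge (leaf 3 300 300) (node 337 (merge (leaf 3 301 302) (node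 370 (merge (leaf 0 334 369) (node 338 (merge (leaf 0 335 371) (node 306 (merge (leaf 2 302 305) (leaf 2 303 307))))))))))))) (node 332 (merge (leaf 1 331 363) (node 299 (merge (leaf 3 299 300) (node 331 (merge (leaf 3 298 298) (node 302 (merge (leaf 2 299 303) (node 330 (merge (leaf 2 298 301) (node 329 (merge (leaf 0 329 365) (node 361 (merge (leaf 1 328 360) (leaf 1 329 362))))))))))))))))))) (merge (node 332 (merge (node 363 (merge (leaf 1 331 364) (node 331 (merge (leaf 1 330 362) (node 303 (merge (leaf 2 299 302) (leaf 2 300 304))))))) (merge (node 303 (merge (leaf 2 300 304) (node 331 (merge (leaf 2 299 302) (node 299 (merge (leaf 3 298 298) (leaf 3 299 300))))))) (node 364 (merge (leaf 1 331 363) (node 269 (merge (node 301 (merge (leaf 5 236 237) (node 396 (merge (leaf 5 268 365) (leaf 6 300 428))))) (merge (node 300 (merge (leaf 3 299 299) (node 268 (merge (leaf 6 236 237) (node 365 (merge (leaf 4 236 236) (leaf 4 268 397))))))) (node 300 (merge (leaf 3 299 299) (node 396 (merge (leaf 6 268 301) (node 397 (merge (leaf 4 300 429) (node 398 (merge (leaf 0 396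 432) (node 395 (merge (leaf 5 299 427) (leaf 0 395 430))))))))))))))))))) (merge (node 332 (merge (node 364 (merge (leaf 1 331 363) (node 336 (merge (leaf 1 332 365) (node 304 (merge (leaf 2 300 303) (leaf 2 301 305))))))) (merge (node 364 (merge (leaf 1 331 363) (node 365 (merge (leaf 1 332 336) (node 397 (merge (node 429 (merge (leaf 6 301 302) (leaf 7 332 461))) (node 398 (merge (leaf 3 364 400) (node 396 (merge (leaf 0 396 432) (node 430 (merge (leaf 4 301 301) (leaf 0 395 395))))))))))))) (merge (node 303 (merge (leaf 2 300 304) (node 331 (merge (leaf 2 299 302) (node 362 (merge (leaf 1 330 363) (node 330 (merge (leaf 1 329 361) (node 298 (merge (leaf 3 297 297) (leaf 3 298 299))))))))))) (node 302 (merge (node 303 (merge (leaf 2 300 304) (leaf 2 299 331))) (merge (node 331 (merge (leaf 2 299 303) (node 330 (merge (leaf 2 298 301) (node 298 (merge (leaf 3 297 297) (leaf 3 298 299))))))) (node 429 (merge (node 464 (merge (leaf 7 431 496) (node 430 (merge (leaf 0 428 428) (node 465 (merge (leaf 0 429 432) (leaf 3 430 466))))))) (node 365 (merge (leaf 6 301 397)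 (node 336 (merge (leaf 1 332 364) (node 305 (merge (leaf 2 301 304) (node 337 (merge (leaf 3 301 301) (leaf 2 302 306)))))))))))))))))) (merge (node 365 (merge (node 336 (merge (leaf 1 332 364) (node 305 (merge (leaf 2 301 304) (node 337 (merge (leaf 2 302 306) (node 301 (merge (leaf 3 300 300) (leaf 3 301 302))))))))) (merge (node 397 (merge (node 364 (merge (leaf 1 332 336) (node 363 (merge (leaf 2 330 362) (node 398 (merge (leaf 3 363 396) (leaf 3 364 400))))))) (node 429 (merge (leaf 6 301 302) (node 464 (merge (leaf 7 431 496) (node 428 (merge (leaf 0 428 430) (leaf 5 332 460))))))))) (merge (node 397 (merge (node 302 (merge (leaf 6 301 429) (node 270 (merge (leaf 5 237 238) (leaf 6 269 301))))) (merge (node 429 (merge (leaf 6 301 302) (node 464 (merge (leaf 7 431 496) (node 428 (merge (leaf 0 428 430) (leaf 5 332 460))))))) (merge (node 301 (merge (node 302 (merge (leaf 6 269 270) (node 300 (merge (leaf 7 268 268) (leaf 0 299 299))))) (node 398 (merge (leaf 4 301 430) (node 396 (merge (leaf 5 300 428) (leaf 0 396 432))))))) (node 396 (merge (node 428 (merge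 (leaf 5 300 301) (node 460 (merge (leaf 6 332 364) (leaf 5 332 429))))) (merge (node 398 (merge (leaf 0 396 432) (node 364 (merge (leaf 3 363 363) (leaf 3 364 400))))) (node 398 (merge (leaf 0 396 432) (node 301 (merge (leaf 5 300 428) (leaf 4 301 430)))))))))))) (merge (node 301 (merge (node 300 (merge (leaf 3 300 336) (node 299 (merge (leaf 0 298 298) (leaf 0 299 302))))) (merge (node 300 (merge (leaf 3 300 336) (node 268 (merge (leaf 7 268 397) (node 236 (merge (leaf 4 204 204) (leaf 7 236 269))))))) (node 397 (merge (node 302 (merge (leaf 6 269 270) (leaf 6 301 429))) (node 398 (merge (leaf 4 301 430) (node 396 (merge (leaf 5 300 428) (leaf 0 396 432)))))))))) (node 301 (merge (node 336 (merge (leaf 3 300 300) (leaf 1 332 364))) (merge (node 300 (merge (leaf 3 300 336) (node 268 (merge (leaf 7 268 397) (node 236 (merge (leaf 4 204 204) (leaf 7 236 269))))))) (node 396 (merge (node 397 (merge (leaf 5 300 428) (node 398 (merge (leaf 4 301 430) (leaf 0 396 432))))) (node 269 (merge (leaf 5 268 364) (node 238 (merge (leaf 6 237 270) (node 236 (merge (leaf 7 236 268)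 (node 237 (merge (leaf 7 204 204) (leaf 6 205 206))))))))))))))))))) (node 301 (merge (node 300 (merge (leaf 3 300 336) (node 299 (merge (leaf 0 298 298) (leaf 3 299 332))))) (merge (node 336 (merge (leaf 3 300 300) (node 305 (merge (leaf 2 301 304) (node 337 (merge (leaf 3 301 302) (leaf 2 302 306))))))) (merge (node 302 (merge (node 304 (merge (node 336 (merge (leaf 2 301 305) (leaf 3 301 337))) (node 303 (merge (leaf 1 300 332) (node 272 (merge (leaf 2 269 273) (node 269 (merge (leaf 3 268 268) (node 237 (merge (leaf 4 205 205) (node 236 (merge (leaf 7 204 204) (node 271 (merge (leaf 3 236 270) (node 238 (merge (leaf 6 205 206) (leaf 0 236 239))))))))))))))))) (merge (node 269 (merge (node 237 (merge (leaf 4 205 205) (node 332 (merge (leaf 5 236 364) (node 331 (merge (leaf 2 299 303) (leaf 2 298 330))))))) (merge (node 237 (merge (leaf 4 205 205) (node 236 (merge (leaf 7 204 204) (node 365 (merge (leaf 7 236 268) (node 238 (merge (leaf 6 205 206) (leaf 6 237 270))))))))) (node 365 (merge (node 270 (merge (leaf 6 237 238) (node 268 (merge (leaf 7 236 236) (node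 267 (merge (leaf 0 266 266) (leaf 0 267 303))))))) (node 397 (merge (leaf 6 301 429) (node 398 (merge (leaf 4 301 430) (node 396 (merge (leaf 5 300 428) (leaf 0 396 432)))))))))))) (node 336 (merge (leaf 3 301 337) (node 365 (merge (leaf 1 332 364) (node 397 (merge (leaf 6 301 429) (node 398 (merge (leaf 4 301 430) (node 396 (merge (leaf 5 300 428) (leaf 0 396 432)))))))))))))) (node 300 (merge (node 299 (merge (leaf 0 298 298) (leaf 3 299 332))) (merge (node 299 (merge (leaf 0 298 298) (leaf 0 299 302))) (node 332 (merge (node 429 (merge (node 464 (merge (leaf 7 431 496) (node 430 (merge (leaf 0 428 428) (node 465 (merge (leaf 0 429 432) (leaf 3 430 466))))))) (merge (node 397 (merge (leaf 7 300 365) (node 396 (merge (leaf 4 300 364) (node 432 (merge (leaf 0 396 398) (leaf 3 396 430))))))) (merge (node 397 (merge (leaf 7 300 365) (node 464 (merge (leaf 7 431 496) (node 428 (merge (leaf 0 428 430) (node 396 (merge (leaf 6 300 364) (node 398 (merge (leaf 1 396 400) (leaf 1 395 427))))))))))) (node 397 (merge (leaf 7 300 365) (node 396 (merge (leaf 4 300 364) (node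 398 (merge (leaf 0 396 432) (node 428 (merge (leaf 1 396 400) (leaf 1 395 427))))))))))))) (merge (node 303 (merge (leaf 2 300 304) (node 302 (merge (leaf 1 299 331) (node 268 (merge (leaf 3 267 267) (node 236 (merge (leaf 4 204 204) (leaf 4 236 365))))))))) (node 269 (merge (node 364 (merge (leaf 5 236 237) (leaf 6 268 396))) (node 303 (merge (leaf 2 300 304) (node 302 (merge (leaf 1 299 331) (node 271 (merge (leaf 2 268 272) (node 268 (merge (leaf 3 267 267) (node 239 (merge (leaf 5 206 207) (node 240 (merge (leaf 6 207 208) (leaf 2 236 270)))))))))))))))))))))))))))))))))) nP_410 cP_410 12 (by decide +kernel)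
def nP_411 : ℕ := 0x380000001000000000000000080000000800000008000000000000000000000000000000000000000000000000000000000000000000000000000000000000000000000000000
def cP_411 : ℕ := 0x800000008000001cc000000c00000018e000001f3000001f3800001f7800001f7c00000778000007700000077000000100000000000000000000000000000000000000000000000000000000000000000000
theorem lP_411 : S nP_411 cP_411 12 := S_of_chk [] trivial (node 430 (merge (node 562 (merge (node 527 (merge (leaf 3 526 526) (leaf 3 527 563))) (merge (node 496 (merge (leaf 7 431 464) (node 591 (merge (leaf 1 558 590) (node 623 (merge (leaf 6 495 527) (leaf 6 527 655))))))) (node 466 (merge (node 464 (merge (leaf 3 430 465) (leaf 7 431 496))) (node 595 (merge (leaf 0 559 594) (node 563 (merge (leaf 0 560 596) (node 531 (merge (leaf 2 528 532) (node 499 (merge (leaf 7 466 498) (node 468 (merge (leaf 6 467 500) (node 467 (merge (leaf 7 434 434) (leaf 6 435 436)))))))))))))))))) (merge (node 464 (merge (leaf 7 431 496) (node 429 (merge (leaf 0 428 428) (node 432 (merge (leaf 0 429 465) (node 401 (merge (leaf 2 397 400) (node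 433 (merge (leaf 2 398 402) (node 397 (merge (leaf 3 396 396) (leaf 3 397 398))))))))))))) (merge (node 562 (merge (node 595 (merge (leaf 0 559 594) (node 563 (merge (leaf 3 527 527) (leaf 0 560 596))))) (node 432 (merge (node 433 (merge (node 402 (merge (leaf 2 398 401) (node 434 (merge (leaf 2 399 403) (node 435 (merge (leaf 3 399 400) (leaf 1 431 464))))))) (merge (node 466 (merge (leaf 0 430 465) (node 434 (merge (leaf 0 431 467) (node 435 (merge (leaf 3 399 400) (leaf 1 431 464))))))) (merge (node 466 (merge (leaf 0 430 465) (node 434 (merge (leaf 0 431 467) (node 402 (merge (leaf 2 398 401) (leaf 2 399 403))))))) (node 465 (merge (leaf 0 430 466) (node 429 (merge (leaf 0 429 464) (node 401 (merge (leaf 2 397 400) (leaf 2 398 402))))))))))) (merge (node 429 (merge (node 400 (merge (leaf 2 397 401) (leaf 2 396 428))) (merge (node 460 (merge (leaf 1 428 461) (node 428 (merge (leaf 1 427 459) (node 398 (merge (leaf 2 395 427) (node 433 (merge (leaf 3 397 397) (leaf 3 398 434))))))))) (node 401 (merge (leaf 2 397 400) (node 433 (merge (leaf 2 398 402) (node 398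 (merge (leaf 3 397 397) (leaf 3 398 434)))))))))) (merge (node 429 (merge (node 428 (merge (leaf 2 396 400) (leaf 0 428 464))) (merge (node 465 (merge (leaf 0 429 464) (node 433 (merge (leaf 0 430 466) (node 398 (merge (leaf 3 397 397) (leaf 3 398 434))))))) (node 460 (merge (leaf 1 428 461) (node 428 (merge (leaf 1 427 459) (node 398 (merge (leaf 2 395 427) (node 433 (merge (leaf 3 397 397) (leaf 3 398 434)))))))))))) (merge (node 433 (merge (node 398 (merge (leaf 3 397 397) (leaf 3 398 434))) (merge (node 466 (merge (leaf 0 430 465) (node 434 (merge (leaf 0 431 467) (node 402 (merge (leaf 2 398 401) (leaf 2 399 403))))))) (node 465 (merge (leaf 0 430 466) (node 429 (merge (leaf 0 429 464) (node 460 (merge (leaf 1 428 461) (node 428 (merge (leaf 1 427 459) (node 398 (merge (leaf 3 397 397) (leaf 2 395 427)))))))))))))) (merge (node 429 (merge (node 428 (merge (leaf 2 396 400) (leaf 0 428 464))) (merge (node 460 (merge (leaf 1 428 461) (node 428 (merge (leaf 1 427 459) (node 396 (merge (leaf 3 395 395) (leaf 3 396 397))))))) (node 464 (merge (leaf 0 429 465) (node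 400 (merge (leaf 2 397 401) (node 397 (merge (leaf 3 396 396) (node 368 (merge (leaf 5 335 336) (node 369 (merge (leaf 6 336 337) (leaf 2 365 398)))))))))))))) (node 433 (merge (node 398 (merge (leaf 3 397 397) (leaf 3 398 434))) (merge (node 466 (merge (leaf 0 430 465) (node 434 (merge (leaf 0 431 467) (node 435 (merge (leaf 3 399 400) (leaf 1 431 464))))))) (node 401 (merge (leaf 2 398 402) (node 400 (merge (node 465 (merge (leaf 0 430 466) (node 368 (merge (leaf 4 336 336) (leaf 7 368 497))))) (node 398 (merge (leaf 0 397 397) (node 369 (merge (leaf 2 366 370) (node 337 (merge (leaf 5 304 305) (leaf 5 336 464)))))))))))))))))))))) (merge (node 398 (merge (node 397 (merge (node 396 (merge (leaf 0 395 395) (leaf 0 396 432))) (merge (node 396 (merge (leaf 0 395 395) (node 364 (merge (leaf 3 363 363) (node 400 (merge (leaf 3 364 365) (node 401 (merge (leaf 1 398 402) (leaf 1 397 429))))))))) (node 400 (merge (node 432 (merge (leaf 0 397 433) (node 368 (merge (leaf 5 335 336) (leaf 2 365 369))))) (merge (node 433 (merge (leaf 0 397 432) (node 401 (merge (leaf 0 398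 434) (node 365 (merge (leaf 3 364 364) (leaf 3 365 366))))))) (node 369 (merge (leaf 2 365 368) (node 401 (merge (leaf 2 366 370) (node 365 (merge (leaf 3 364 364) (leaf 3 365 366))))))))))))) (merge (node 397 (merge (node 396 (merge (leaf 0 395 395) (node 428 (merge (leaf 1 395 427) (node 464 (merge (leaf 0 428 429) (leaf 7 431 496))))))) (merge (node 396 (merge (leaf 0 395 395) (node 364 (merge (leaf 3 363 363) (node 400 (merge (leaf 3 364 365) (node 401 (merge (leaf 1 398 402) (node 369 (merge (leaf 2 365 368) (leaf 2 366 370))))))))))) (node 464 (merge (leaf 7 431 496) (node 429 (merge (leaf 0 428 428) (node 400 (merge (leaf 1 397 401) (node 365 (merge (leaf 3 364 364) (node 333 (merge (leaf 4 301 301) (node 334 (merge (leaf 6 301 302) (leaf 4 334 366)))))))))))))))) (merge (node 397 (merge (node 396 (merge (leaf 0 395 395) (leaf 0 396 432))) (merge (node 396 (merge (leaf 0 395 395) (node 428 (merge (leaf 1 395 427) (node 364 (merge (leaf 3 363 363) (node 365 (merge (leaf 3 364 400) (node 333 (merge (leaf 4 301 301) (leaf 6 332 460))))))))))) (node 400 (merge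 (node 432 (merge (leaf 0 397 433) (node 368 (merge (leaf 5 335 336) (leaf 2 365 369))))) (merge (node 433 (merge (leaf 0 397 432) (node 401 (merge (leaf 0 398 434) (node 365 (merge (leaf 3 364 364) (leaf 3 365 366))))))) (node 369 (merge (leaf 2 365 368) (node 401 (merge (leaf 2 366 370) (node 365 (merge (leaf 3 364 364) (leaf 3 365 366))))))))))))) (merge (node 429 (merge (node 428 (merge (leaf 2 395 427) (node 460 (merge (leaf 1 427 459) (node 432 (merge (leaf 1 428 461) (node 433 (merge (leaf 3 397 397) (leaf 3 398 434))))))))) (merge (node 428 (merge (leaf 2 395 427) (node 396 (merge (leaf 3 395 395) (node 397 (merge (leaf 0 396 432) (node 364 (merge (leaf 3 363 363) (node 461 (merge (leaf 4 332 332) (leaf 7 364 493))))))))))) (merge (node 428 (merge (leaf 2 395 427) (node 460 (merge (leaf 1 427 459) (node 461 (merge (leaf 1 428 432) (node 493 (merge (leaf 6 397 525) (node 396 (merge (leaf 4 364 364) (leaf 3 395 395))))))))))) (merge (node 397 (merge (node 432 (merge (leaf 0 396 396) (leaf 3 397 433))) (merge (node 432 (merge (leaf 3 397 433) (node 461 (merge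 (leaf 1 428 460) (node 493 (merge (leaf 6 365 366) (leaf 6 397 525))))))) (node 396 (merge (leaf 0 395 395) (node 364 (merge (leaf 3 363 363) (node 461 (merge (leaf 7 364 493) (node 332 (merge (leaf 4 300 300) (leaf 7 332 365)))))))))))) (merge (node 461 (merge (node 493 (merge (leaf 6 397 525) (node 366 (merge (leaf 4 334 334) (leaf 6 365 397))))) (merge (node 493 (merge (leaf 6 397 525) (node 428 (merge (leaf 2 395 427) (node 396 (merge (leaf 3 395 395) (node 364 (merge (leaf 4 332 332) (leaf 4 364 460))))))))) (node 428 (merge (leaf 2 395 427) (node 396 (merge (leaf 3 395 395) (node 364 (merge (leaf 4 332 332) (node 363 (merge (leaf 3 363 397) (node 366 (merge (leaf 4 334 334) (leaf 0 363 365)))))))))))))) (node 428 (merge (leaf 2 395 427) (node 460 (merge (leaf 1 427 459) (node 396 (merge (leaf 3 395 395) (node 397 (merge (leaf 0 396 432) (node 365 (merge (leaf 5 332 333) (leaf 6 364 492))))))))))))))))) (node 527 (merge (node 562 (merge (leaf 3 526 526) (leaf 3 527 563))) (merge (node 496 (merge (leaf 7 431 464) (node 591 (merge (leaf 6 495 623) (node 562 (merge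 (leaf 3 527 563) (leaf 1 558 590))))))) (node 525 (merge (leaf 0 525 526) (node 464 (merge (leaf 7 431 496) (node 429 (merge (leaf 0 428 428) (node 461 (merge (leaf 6 397 493) (node 401 (merge (leaf 1 397 400) (node 432 (merge (leaf 1 428 460) (node 433 (merge (leaf 2 398 402) (leaf 3 398 434))))))))))))))))))))))) (node 562 (merge (node 595 (merge (leaf 0 559 594) (node 563 (merge (leaf 3 527 527) (leaf 0 560 596))))) (node 432 (merge (node 433 (merge (node 398 (merge (leaf 3 397 397) (leaf 3 398 434))) (merge (node 466 (merge (leaf 0 430 465) (node 434 (merge (leaf 0 431 467) (node 400 (merge (leaf 3 399 435) (node 429 (merge (leaf 2 397 401) (leaf 2 396 428))))))))) (node 397 (merge (leaf 3 397 398) (node 429 (merge (leaf 3 396 396) (node 400 (merge (leaf 2 397 401) (leaf 2 396 428)))))))))) (merge (node 433 (merge (node 398 (merge (leaf 3 397 397) (leaf 3 398 434))) (merge (node 466 (merge (leaf 0 430 465) (node 434 (merge (leaf 0 431 467) (node 403 (merge (leaf 2 399 402) (node 435 (merge (leaf 3 399 400) (leaf 2 400 404))))))))) (node 397 (merge (leaf 3 397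 398) (node 429 (merge (leaf 3 396 396) (node 460 (merge (leaf 1 428 461) (node 428 (merge (leaf 2 396 400) (leaf 1 427 459)))))))))))) (merge (node 433 (merge (node 466 (merge (leaf 0 430 465) (node 434 (merge (leaf 0 431 467) (node 402 (merge (leaf 2 398 401) (leaf 2 399 403))))))) (merge (node 401 (merge (leaf 2 398 402) (node 429 (merge (leaf 2 397 400) (node 460 (merge (leaf 1 428 461) (node 428 (merge (leaf 1 427 459) (node 396 (merge (leaf 3 395 395) (leaf 3 396 397))))))))))) (merge (node 466 (merge (leaf 0 430 465) (node 434 (merge (leaf 0 431 467) (node 400 (merge (leaf 3 399 435) (node 429 (merge (leaf 2 397 401) (leaf 2 396 428))))))))) (node 466 (merge (leaf 0 430 465) (node 434 (merge (leaf 0 431 467) (node 403 (merge (leaf 2 399 402) (node 435 (merge (leaf 3 399 400) (leaf 2 400 404))))))))))))) (merge (node 429 (merge (node 460 (merge (leaf 1 428 461) (node 428 (merge (leaf 1 427 459) (node 396 (merge (leaf 3 395 395) (leaf 3 396 397))))))) (merge (node 397 (merge (leaf 3 396 396) (node 433 (merge (leaf 3 397 398) (node 466 (merge (leaf 0 430 465)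 (node 434 (merge (leaf 0 431 467) (node 402 (merge (leaf 2 398 401) (leaf 2 399 403))))))))))) (merge (node 460 (merge (leaf 1 428 461) (node 428 (merge (leaf 1 427 459) (node 398 (merge (leaf 2 395 427) (node 433 (merge (leaf 3 397 397) (leaf 3 398 434))))))))) (node 460 (merge (leaf 1 428 461) (node 428 (merge (leaf 1 427 459) (node 427 (merge (leaf 2 395 398) (node 395 (merge (leaf 3 394 394) (leaf 3 395 396))))))))))))) (merge (node 429 (merge (node 400 (merge (leaf 2 397 401) (leaf 2 396 428))) (merge (node 460 (merge (leaf 1 428 461) (node 428 (merge (leaf 1 427 459) (node 427 (merge (leaf 2 395 398) (node 395 (merge (leaf 3 394 394) (leaf 3 395 396))))))))) (node 401 (merge (leaf 2 397 400) (node 433 (merge (leaf 2 398 402) (node 466 (merge (leaf 0 430 465) (node 434 (merge (leaf 3 398 398) (leaf 0 431 467)))))))))))) (merge (node 433 (merge (node 398 (merge (leaf 3 397 397) (leaf 3 398 434))) (node 465 (merge (leaf 0 430 466) (node 401 (merge (node 402 (merge (leaf 2 398 430) (node 497 (merge (leaf 6 369 370) (leaf 5 400 496))))) (merge (node 402 (merge (leaf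 2 398 430) (node 403 (merge (leaf 1 399 400) (leaf 1 400 404))))) (node 369 (merge (node 368 (merge (leaf 7 336 336) (node 497 (merge (leaf 7 368 400) (leaf 5 400 496))))) (merge (node 338 (merge (leaf 6 337 370) (node 337 (merge (leaf 6 305 306) (node 336 (merge (leaf 7 304 304) (leaf 7 336 368))))))) (merge (node 338 (merge (leaf 6 337 370) (node 337 (merge (leaf 6 305 306) (node 400 (merge (leaf 5 304 305) (node 497 (merge (leaf 7 368 368) (leaf 5 400 496))))))))) (node 338 (merge (leaf 6 337 370) (node 337 (merge (leaf 6 305 306) (node 304 (merge (leaf 7 304 336) (node 305 (merge (leaf 7 272 272) (leaf 5 304 400)))))))))))))))))))) (node 400 (merge (node 429 (merge (leaf 2 397 401) (leaf 2 396 428))) (merge (node 398 (merge (node 401 (merge (leaf 1 398 402) (node 366 (merge (leaf 4 334 334) (leaf 3 365 365))))) (node 397 (merge (leaf 0 396 396) (node 368 (merge (leaf 5 335 336) (leaf 2 365 369))))))) (node 368 (merge (leaf 5 335 336) (node 429 (merge (leaf 2 396 428) (node 397 (merge (leaf 3 396 396) (node 398 (merge (leaf 2 365 369) (node 365 (merge (leaf 3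 364 364) (node 333 (merge (leaf 4 301 301) (node 334 (merge (leaf 6 301 302) (leaf 4 334 366)))))))))))))))))))))))))))))))) nP_411 cP_411 12 (by decide +kernel)
def nP_412 : ℕ := 0x80000000000000000000000380000001000000000000000080000000800000008000000000000000000000000000000000000000000000000000000000000000000000000000000000000000000000000000
def cP_412 : ℕ := 0xa2000000ee000000fe000001ff000000f6000001ff000000e7000000c60000000700000032000000f3800000f7800001f7c00000760000001400000000000000000000000000000000000000000000000000000000000000000000000000000000000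
theorem lP_412 : S nP_412 cP_412 12 := S_of_chk [] trivial (node 432 (merge (node 430 (merge (node 433 (merge (node 402 (merge (leaf 2 398 401) (node 434 (merge (leaf 2 399 403) (node 435 (merge (leaf 3 399 400) (leaf 1 431 464))))))) (merge (node 466 (merge (leaf 0 430 465) (node 434 (merge (leaf 0 431 467) (node 435 (merge (leaf 3 399 400) (leaf 1 431 464))))))) (merge (node 466 (merge (leaf 0 430 465) (node 434 (merge (leaf 0 431 467) (node 402 (merge (leaf 2 398 401) (leaf 2 399 403))))))) (node 465 (merge (leaf 0 430 466) (node 429 (merge (leaf 0 429 464) (node 401 (merge (leaf 2 397 400) (leaf 2 398 402))))))))))) (merge (node 429 (merge (node 464 (merge (leaf 0 428 428) (leaf 0 429 465))) (merge (node 460 (merge (leaf 1 428 461) (node 428 (merge (leaf 1 427 459) (node 396 (merge (leaf 3 395 395) (leaf 3 396 397))))))) (node 465 (merge (leaf 0 429 464) (node 433 (merge (leaf 0 430 466) (node 397 (merge (leaf 3 396 396) (leaf 3 397 398)))))))))) (merge (node 400 (merge (node 401 (merge (leaf 1 398 402) (leaf 2 397 429))) (merge (node 398 (merge (node 397 (merge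 (leaf 0 396 396) (node 368 (merge (leaf 5 335 336) (leaf 2 365 369))))) (node 401 (merge (leaf 1 398 402) (node 366 (merge (leaf 4 334 334) (leaf 3 365 365))))))) (node 368 (merge (leaf 5 335 336) (node 429 (merge (leaf 2 396 428) (node 461 (merge (leaf 1 428 460) (node 397 (merge (leaf 3 396 396) (node 398 (merge (leaf 2 365 369) (node 366 (merge (leaf 4 334 334) (leaf 6 365 493)))))))))))))))) (node 401 (merge (node 402 (merge (leaf 1 398 400) (leaf 2 398 433))) (merge (node 433 (merge (leaf 2 398 402) (node 398 (merge (leaf 3 397 397) (leaf 3 398 434))))) (merge (node 400 (merge (leaf 1 398 402) (node 398 (merge (node 366 (merge (leaf 4 334 334) (leaf 3 365 365))) (node 369 (merge (leaf 2 366 370) (node 397 (merge (leaf 2 365 368) (node 396 (merge (leaf 0 395 395) (leaf 0 396 432))))))))))) (node 398 (merge (node 433 (merge (leaf 3 397 397) (leaf 3 398 434))) (merge (node 397 (merge (leaf 0 396 396) (node 366 (merge (leaf 4 334 334) (node 400 (merge (leaf 3 365 365) (node 368 (merge (leaf 5 335 336) (leaf 2 365 369))))))))) (node 433 (merge (leaf 3 398 434) (node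 465 (merge (leaf 0 430 466) (node 366 (merge (leaf 4 334 334) (node 400 (merge (leaf 3 365 365) (node 368 (merge (leaf 4 336 336) (leaf 7 368 497)))))))))))))))))))))) (merge (node 430 (merge (node 429 (merge (node 400 (merge (leaf 2 397 401) (leaf 2 396 428))) (node 461 (merge (leaf 1 428 460) (node 397 (merge (leaf 3 396 396) (node 398 (merge (leaf 3 397 433) (node 366 (merge (leaf 4 334 334) (leaf 6 365 493))))))))))) (merge (node 433 (merge (node 466 (merge (leaf 0 430 465) (node 434 (merge (leaf 0 431 467) (node 402 (merge (leaf 2 398 401) (leaf 2 399 403))))))) (merge (node 465 (merge (leaf 0 430 466) (node 401 (merge (leaf 2 398 402) (node 400 (merge (leaf 2 397 429) (node 497 (merge (leaf 7 368 368) (leaf 5 400 496))))))))) (merge (node 434 (merge (node 402 (merge (leaf 2 398 401) (leaf 2 399 403))) (merge (node 399 (merge (leaf 3 398 398) (node 400 (merge (leaf 3 399 435) (node 429 (merge (leaf 2 397 401) (leaf 2 396 428))))))) (node 403 (merge (leaf 2 399 402) (node 435 (merge (leaf 2 400 404) (node 399 (merge (leaf 3 398 398) (leaf 3 399 400))))))))))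 (merge (node 466 (merge (leaf 0 430 465) (node 434 (merge (leaf 0 431 467) (node 399 (merge (leaf 3 398 398) (node 400 (merge (leaf 3 399 435) (node 429 (merge (leaf 2 397 401) (leaf 2 396 428))))))))))) (node 466 (merge (leaf 0 430 465) (node 434 (merge (leaf 0 431 467) (node 403 (merge (leaf 2 399 402) (node 435 (merge (leaf 2 400 404) (node 399 (merge (leaf 3 398 398) (leaf 3 399 400)))))))))))))))) (merge (node 397 (merge (node 396 (merge (leaf 0 396 398) (leaf 3 396 429))) (merge (node 429 (merge (leaf 3 396 396) (node 460 (merge (leaf 1 428 461) (node 428 (merge (leaf 2 396 400) (leaf 1 427 459))))))) (node 433 (merge (leaf 3 397 398) (node 466 (merge (leaf 0 430 465) (node 434 (merge (leaf 0 431 467) (node 403 (merge (leaf 2 399 402) (node 435 (merge (leaf 3 399 400) (leaf 2 400 404)))))))))))))) (merge (node 433 (merge (node 466 (merge (leaf 0 430 465) (node 434 (merge (leaf 0 431 467) (node 402 (merge (leaf 2 398 401) (leaf 2 399 403))))))) (merge (node 401 (merge (leaf 2 398 402) (node 429 (merge (leaf 2 397 400) (node 460 (merge (leaf 1 428 461) (node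 428 (merge (leaf 1 427 459) (node 396 (merge (leaf 3 395 395) (leaf 3 396 397))))))))))) (merge (node 466 (merge (leaf 0 430 465) (node 434 (merge (leaf 0 431 467) (node 400 (merge (leaf 3 399 435) (node 429 (merge (leaf 2 397 401) (leaf 2 396 428))))))))) (node 466 (merge (leaf 0 430 465) (node 434 (merge (leaf 0 431 467) (node 403 (merge (leaf 2 399 402) (node 435 (merge (leaf 3 399 400) (leaf 2 400 404))))))))))))) (merge (node 429 (merge (node 460 (merge (leaf 1 428 461) (node 428 (merge (leaf 1 427 459) (node 396 (merge (leaf 3 395 395) (leaf 3 396 397))))))) (merge (node 460 (merge (leaf 1 428 461) (node 428 (merge (leaf 1 427 459) (node 427 (merge (leaf 2 395 398) (node 395 (merge (leaf 3 394 394) (leaf 3 395 396))))))))) (merge (node 460 (merge (leaf 1 428 461) (node 428 (merge (leaf 1 427 459) (node 398 (merge (leaf 2 395 427) (node 433 (merge (leaf 3 397 397) (leaf 3 398 434))))))))) (node 397 (merge (leaf 3 396 396) (node 433 (merge (leaf 3 397 398) (node 466 (merge (leaf 0 430 465) (node 434 (merge (leaf 0 431 467) (node 402 (merge (leaf 2 398 401) (leaf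 2 399 403))))))))))))))) (merge (node 400 (merge (node 401 (merge (leaf 1 398 402) (leaf 2 397 429))) (merge (node 398 (merge (node 397 (merge (leaf 0 396 396) (node 368 (merge (leaf 5 335 336) (leaf 2 365 369))))) (node 401 (merge (leaf 1 398 402) (node 366 (merge (leaf 4 334 334) (leaf 3 365 365))))))) (node 368 (merge (leaf 5 335 336) (node 429 (merge (leaf 2 396 428) (node 461 (merge (leaf 1 428 460) (node 397 (merge (leaf 3 396 396) (node 398 (merge (leaf 2 365 369) (node 366 (merge (leaf 4 334 334) (leaf 6 365 493)))))))))))))))) (node 401 (merge (node 402 (merge (leaf 1 398 400) (leaf 2 398 433))) (merge (node 433 (merge (leaf 2 398 402) (node 398 (merge (leaf 3 397 397) (leaf 3 398 434))))) (merge (node 400 (merge (leaf 1 398 402) (node 398 (merge (node 366 (merge (leaf 4 334 334) (leaf 3 365 365))) (node 369 (merge (leaf 2 366 370) (node 397 (merge (leaf 2 365 368) (node 396 (merge (leaf 0 395 395) (leaf 0 396 432))))))))))) (node 398 (merge (node 433 (merge (leaf 3 397 397) (leaf 3 398 434))) (merge (node 397 (merge (leaf 0 396 396) (node 366 (merge (leaf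 4 334 334) (node 400 (merge (leaf 3 365 365) (node 368 (merge (leaf 5 335 336) (leaf 2 365 369))))))))) (node 433 (merge (leaf 3 398 434) (node 465 (merge (leaf 0 430 466) (node 366 (merge (leaf 4 334 334) (node 400 (merge (leaf 3 365 365) (node 368 (merge (leaf 4 336 336) (leaf 7 368 497))))))))))))))))))))))))) (node 657 (merge (node 593 (merge (leaf 7 528 625) (node 558 (merge (leaf 0 558 594) (node 589 (merge (leaf 1 557 590) (node 557 (merge (leaf 1 556 588) (node 525 (merge (leaf 3 524 524) (leaf 3 525 526))))))))))) (merge (node 656 (merge (node 625 (merge (leaf 7 528 593) (node 626 (merge (leaf 2 622 654) (node 627 (merge (leaf 1 623 624) (leaf 1 624 628))))))) (merge (node 654 (merge (node 689 (merge (leaf 0 654 690) (node 653 (merge (leaf 0 653 688) (node 621 (merge (leaf 3 620 620) (leaf 3 621 622))))))) (merge (node 690 (merge (leaf 0 654 689) (node 658 (merge (leaf 0 655 691) (node 686 (merge (leaf 1 653 685) (leaf 1 654 687))))))) (node 685 (merge (leaf 1 653 686) (node 653 (merge (leaf 1 652 684) (node 621 (merge (leaf 3 620 620) (leaf 3 621 622))))))))))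 (node 658 (merge (node 691 (merge (leaf 0 655 690) (node 659 (merge (leaf 0 656 692) (node 687 (merge (leaf 1 654 686) (leaf 1 655 688))))))) (merge (node 691 (merge (leaf 0 655 690) (node 659 (merge (leaf 0 656 692) (node 627 (merge (leaf 2 623 626) (leaf 2 624 628))))))) (merge (node 687 (merge (leaf 1 654 686) (node 659 (merge (leaf 1 655 688) (node 627 (merge (leaf 2 623 626) (leaf 2 624 628))))))) (node 690 (merge (leaf 0 655 691) (node 722 (merge (node 625 (merge (leaf 7 528 593) (leaf 7 625 754))) (merge (node 626 (merge (leaf 2 623 627) (node 755 (merge (leaf 4 626 723) (node 754 (merge (leaf 4 658 787) (node 753 (merge (leaf 5 625 721) (leaf 5 657 785))))))))) (node 687 (merge (leaf 1 654 686) (node 626 (merge (leaf 2 623 627) (node 723 (merge (leaf 4 626 755) (node 688 (merge (leaf 0 687 689) (node 721 (merge (leaf 3 687 720) (leaf 5 625 753))))))))))))))))))))))) (merge (node 656 (merge (node 654 (merge (node 690 (merge (leaf 0 654 689) (node 658 (merge (leaf 0 655 691) (node 626 (merge (leaf 2 622 625) (leaf 2 623 627))))))) (merge (node 689 (merge (leaf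 0 654 690) (node 653 (merge (leaf 0 653 688) (node 621 (merge (leaf 3 620 620) (leaf 3 621 622))))))) (node 625 (merge (leaf 2 622 626) (node 653 (merge (leaf 2 621 624) (node 621 (merge (leaf 3 620 620) (leaf 3 621 622)))))))))) (merge (node 654 (merge (node 686 (merge (leaf 1 653 685) (node 658 (merge (leaf 1 654 687) (node 626 (merge (leaf 2 622 625) (leaf 2 623 627))))))) (merge (node 625 (merge (leaf 2 622 626) (node 653 (merge (leaf 2 621 624) (node 621 (merge (leaf 3 620 620) (leaf 3 621 622))))))) (node 685 (merge (leaf 1 653 686) (node 653 (merge (leaf 1 652 684) (node 621 (merge (leaf 3 620 620) (leaf 3 621 622)))))))))) (merge (node 654 (merge (node 689 (merge (leaf 0 654 690) (node 653 (merge (leaf 0 653 688) (node 685 (merge (leaf 1 652 684) (leaf 1 653 686))))))) (merge (node 689 (merge (leaf 0 654 690) (node 653 (merge (leaf 0 653 688) (node 621 (merge (leaf 3 620 620) (leaf 3 621 622))))))) (node 622 (merge (leaf 3 621 621) (node 590 (merge (node 558 (merge (leaf 1 557 589) (leaf 4 558 687))) (merge (node 558 (merge (leaf 1 557 589) (node 526 (merge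 (leaf 3 525 525) (leaf 4 526 623))))) (node 686 (merge (leaf 1 653 685) (node 719 (merge (leaf 4 590 687) (node 718 (merge (leaf 4 622 751) (node 750 (merge (leaf 6 622 623) (node 749 (merge (leaf 5 621 717) (leaf 5 653 781))))))))))))))))))) (node 658 (merge (node 691 (merge (leaf 0 655 690) (node 659 (merge (leaf 0 656 692) (node 687 (merge (leaf 1 654 686) (leaf 1 655 688))))))) (merge (node 687 (merge (leaf 1 654 686) (node 659 (merge (leaf 1 655 688) (node 627 (merge (leaf 2 623 626) (leaf 2 624 628))))))) (node 626 (merge (leaf 2 623 627) (node 594 (merge (node 562 (merge (leaf 0 559 595) (leaf 5 561 689))) (merge (node 595 (merge (leaf 0 559 562) (node 690 (merge (leaf 6 562 563) (leaf 0 655 691))))) (node 690 (merge (leaf 0 655 691) (node 721 (merge (leaf 5 593 689) (node 722 (merge (leaf 5 625 753) (node 754 (merge (leaf 7 625 625) (node 755 (merge (leaf 4 626 723) (leaf 4 658 787))))))))))))))))))))))) (node 656 (merge (node 658 (merge (node 691 (merge (leaf 0 655 690) (node 659 (merge (leaf 0 656 692) (node 687 (merge (leaf 1 654 686) (leaf 1 655 688)))))))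 (merge (node 687 (merge (leaf 1 654 686) (node 659 (merge (leaf 1 655 688) (node 627 (merge (leaf 2 623 626) (leaf 2 624 628))))))) (node 626 (merge (leaf 2 623 627) (node 690 (merge (leaf 0 655 691) (node 594 (merge (leaf 7 561 593) (node 562 (merge (leaf 0 559 595) (leaf 5 561 689)))))))))))) (merge (node 622 (merge (node 623 (merge (leaf 3 622 658) (node 621 (merge (leaf 0 620 620) (leaf 0 621 624))))) (merge (node 621 (merge (leaf 3 621 654) (node 623 (merge (leaf 0 620 620) (leaf 0 621 624))))) (merge (node 658 (merge (leaf 3 622 623) (node 690 (merge (leaf 0 655 691) (node 689 (merge (leaf 0 654 654) (node 626 (merge (leaf 2 623 627) (node 594 (merge (leaf 5 561 562) (leaf 7 561 593))))))))))) (node 654 (merge (leaf 3 621 621) (node 690 (merge (leaf 0 654 689) (node 658 (merge (leaf 0 655 691) (node 626 (merge (leaf 2 623 627) (node 594 (merge (leaf 7 561 593) (node 595 (merge (leaf 0 559 562) (leaf 6 562 563))))))))))))))))) (merge (node 622 (merge (node 621 (merge (leaf 3 621 654) (node 623 (merge (leaf 0 620 620) (leaf 0 621 624))))) (merge (node 654 (merge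 (leaf 3 621 621) (node 686 (merge (leaf 1 653 685) (node 687 (merge (leaf 1 654 658) (node 590 (merge (leaf 4 558 558) (leaf 4 590 719))))))))) (node 658 (merge (leaf 3 622 623) (node 687 (merge (leaf 1 654 686) (node 659 (merge (leaf 1 655 688) (node 627 (merge (leaf 2 623 626) (leaf 2 624 628)))))))))))) (node 654 (merge (node 689 (merge (leaf 0 654 690) (node 653 (merge (leaf 0 653 688) (node 685 (merge (leaf 1 652 684) (leaf 1 653 686))))))) (merge (node 689 (merge (leaf 0 654 690) (node 653 (merge (leaf 0 653 688) (node 621 (merge (leaf 3 620 620) (leaf 3 621 622))))))) (node 622 (merge (leaf 3 621 621) (node 590 (merge (node 558 (merge (leaf 1 557 589) (leaf 4 558 687))) (merge (node 558 (merge (leaf 1 557 589) (node 526 (merge (leaf 3 525 525) (leaf 4 526 623))))) (node 686 (merge (leaf 1 653 685) (node 719 (merge (leaf 4 590 687) (node 718 (merge (leaf 4 622 751) (node 750 (merge (leaf 6 622 623) (node 749 (merge (leaf 5 621 717) (leaf 5 653 781)))))))))))))))))))))))))))))) nP_412 cP_412 12 (by decide +kernel)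
def nP_413 : ℕ := 0x80000000000000000000000380000001000000000000000000000000000000000000000000000000000000000000000000000000000000000000000000000000000000000000000000000000000000000000
def cP_413 : ℕ := 0xf0000000f8000003ff000001fe000003ff000001f6000003f7000001ef000000c60000000700000000000000000000000000000000000000000000000000000000000000000000000000000000000000000000000000000000000000000000000000000000000
theorem lP_413 : S nP_413 cP_413 12 := S_of_chk [] trivial (node 657 (merge (node 593 (merge (leaf 7 528 625) (node 558 (merge (leaf 0 558 594) (node 589 (merge (leaf 1 557 590) (node 557 (merge (leaf 1 556 588) (node 525 (merge (leaf 3 524 524) (leaf 3 525 526))))))))))) (merge (node 656 (merge (node 625 (merge (leaf 7 528 593) (node 626 (merge (leaf 2 622 654) (node 627 (merge (leaf 1 624 628) (leaf 2 623 658))))))) (merge (node 625 (merge (leaf 7 528 593) (node 654 (merge (leaf 2 622 626) (node 689 (merge (leaf 0 654 690) (node 653 (merge (leaf 2 621 624) (leaf 0 653 688))))))))) (merge (node 654 (merge (node 689 (merge (leaf 0 654 690) (node 653 (merge (leaf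 0 653 688) (node 621 (merge (leaf 3 620 620) (leaf 3 621 622))))))) (merge (node 690 (merge (leaf 0 654 689) (node 658 (merge (leaf 0 655 691) (node 686 (merge (leaf 1 653 685) (leaf 1 654 687))))))) (node 685 (merge (leaf 1 653 686) (node 653 (merge (leaf 1 652 684) (node 621 (merge (leaf 3 620 620) (leaf 3 621 622)))))))))) (node 658 (merge (node 691 (merge (leaf 0 655 690) (node 659 (merge (leaf 0 656 692) (node 687 (merge (leaf 1 654 686) (leaf 1 655 688))))))) (merge (node 691 (merge (leaf 0 655 690) (node 659 (merge (leaf 0 656 692) (node 627 (merge (leaf 2 623 626) (leaf 2 624 628))))))) (merge (node 687 (merge (leaf 1 654 686) (node 659 (merge (leaf 1 655 688) (node 627 (merge (leaf 2 623 626) (leaf 2 624 628))))))) (node 690 (merge (leaf 0 655 691) (node 722 (merge (node 625 (merge (leaf 7 528 593) (leaf 7 625 754))) (merge (node 723 (merge (node 626 (merge (leaf 2 623 627) (leaf 4 626 755))) (node 625 (merge (leaf 7 528 593) (node 687 (merge (leaf 1 654 686) (node 688 (merge (leaf 0 687 689) (node 720 (merge (leaf 3 687 721) (leaf 6 624 752))))))))))) (node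 754 (merge (node 786 (merge (leaf 7 657 689) (node 785 (merge (leaf 5 657 753) (leaf 5 689 817))))) (merge (node 786 (merge (leaf 7 657 689) (node 787 (merge (leaf 4 658 755) (leaf 4 690 819))))) (node 755 (merge (leaf 4 658 787) (node 626 (merge (leaf 4 626 723) (node 753 (merge (leaf 5 625 721) (leaf 5 657 785))))))))))))))))))))))) (merge (node 594 (merge (node 593 (merge (leaf 0 558 558) (node 595 (merge (leaf 0 559 562) (leaf 3 560 596))))) (merge (node 558 (merge (leaf 0 558 593) (node 589 (merge (leaf 1 557 590) (node 557 (merge (leaf 1 556 588) (node 525 (merge (leaf 3 524 524) (leaf 3 525 526))))))))) (merge (node 656 (merge (node 658 (merge (node 562 (merge (leaf 0 559 595) (node 626 (merge (leaf 2 623 627) (leaf 5 561 689))))) (node 691 (merge (leaf 0 655 690) (node 659 (merge (leaf 0 656 692) (node 687 (merge (leaf 1 654 686) (leaf 1 655 688))))))))) (merge (node 590 (merge (node 562 (merge (leaf 1 558 591) (leaf 0 559 595))) (node 558 (merge (leaf 1 557 589) (node 525 (merge (leaf 3 525 526) (node 557 (merge (leaf 3 524 524) (node 654 (merge (leaf 7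 525 622) (node 689 (merge (leaf 0 654 690) (node 653 (merge (leaf 0 653 688) (node 685 (merge (leaf 1 652 684) (leaf 1 653 686))))))))))))))))) (merge (node 658 (merge (node 690 (merge (leaf 0 655 691) (node 654 (merge (leaf 0 654 689) (node 686 (merge (leaf 1 653 685) (leaf 1 654 687))))))) (merge (node 691 (merge (leaf 0 655 690) (node 659 (merge (leaf 0 656 692) (node 627 (merge (leaf 2 623 626) (leaf 2 624 628))))))) (node 687 (merge (leaf 1 654 686) (node 659 (merge (leaf 1 655 688) (node 627 (merge (leaf 2 623 626) (leaf 2 624 628)))))))))) (merge (node 686 (merge (node 562 (merge (leaf 0 559 595) (node 658 (merge (leaf 1 654 687) (node 626 (merge (leaf 2 623 627) (leaf 5 561 689))))))) (merge (node 685 (merge (leaf 1 653 654) (node 687 (merge (leaf 2 652 684) (leaf 2 653 688))))) (node 654 (merge (leaf 1 653 685) (node 622 (merge (leaf 3 621 621) (node 590 (merge (leaf 6 558 591) (node 589 (merge (leaf 7 557 557) (leaf 1 557 558)))))))))))) (merge (node 686 (merge (node 658 (merge (leaf 1 654 687) (node 691 (merge (leaf 0 655 690) (node 659 (merge (leaf 0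 656 692) (node 627 (merge (leaf 2 623 626) (leaf 2 624 628))))))))) (node 654 (merge (leaf 1 653 685) (node 622 (merge (leaf 3 621 621) (node 590 (merge (leaf 6 558 591) (node 589 (merge (leaf 7 557 557) (leaf 1 557 558))))))))))) (node 690 (merge (node 689 (merge (leaf 0 654 654) (node 691 (merge (leaf 3 655 688) (leaf 3 656 692))))) (merge (node 595 (merge (leaf 0 559 562) (node 658 (merge (leaf 0 655 691) (node 626 (merge (leaf 6 562 563) (leaf 2 623 627))))))) (node 562 (merge (leaf 0 559 595) (node 654 (merge (leaf 0 654 689) (node 590 (merge (leaf 1 558 591) (node 558 (merge (leaf 1 557 589) (node 622 (merge (leaf 3 621 621) (leaf 4 558 687)))))))))))))))))))) (node 658 (merge (node 626 (merge (node 562 (merge (leaf 0 559 595) (leaf 5 561 689))) (merge (node 690 (merge (leaf 7 561 593) (node 656 (merge (leaf 2 623 627) (node 689 (merge (leaf 0 654 654) (leaf 5 593 721))))))) (node 595 (merge (leaf 0 559 562) (node 690 (merge (leaf 6 562 563) (leaf 7 561 593)))))))) (merge (node 562 (merge (leaf 0 559 595) (node 626 (merge (leaf 5 561 689) (node 690 (merge (leaf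 7 561 593) (node 691 (merge (leaf 4 562 659) (leaf 4 594 723))))))))) (merge (node 626 (merge (node 690 (merge (leaf 7 561 593) (node 689 (merge (leaf 5 561 562) (leaf 5 593 721))))) (merge (node 690 (merge (leaf 7 561 593) (node 691 (merge (leaf 0 655 656) (leaf 4 594 723))))) (node 656 (merge (leaf 2 623 627) (node 687 (merge (leaf 1 654 686) (node 659 (merge (leaf 1 655 688) (node 562 (merge (leaf 5 561 689) (leaf 4 562 691)))))))))))) (merge (node 562 (merge (leaf 0 559 595) (node 626 (merge (leaf 5 561 689) (node 656 (merge (leaf 2 623 627) (node 687 (merge (leaf 1 654 686) (node 659 (merge (leaf 1 655 688) (leaf 4 562 691))))))))))) (merge (node 595 (merge (leaf 0 559 562) (node 593 (merge (leaf 3 560 596) (node 690 (merge (leaf 7 561 626) (node 656 (merge (leaf 0 655 691) (node 687 (merge (leaf 1 654 686) (node 659 (merge (leaf 1 655 688) (node 627 (merge (leaf 5 562 563) (leaf 2 624 628))))))))))))))) (merge (node 690 (merge (node 626 (merge (leaf 7 561 593) (node 656 (merge (leaf 2 623 627) (node 689 (merge (leaf 0 654 654) (leaf 5 593 721))))))) (merge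 (node 656 (merge (leaf 0 655 691) (node 654 (merge (leaf 0 654 689) (node 686 (merge (leaf 1 653 685) (leaf 1 654 687))))))) (node 626 (merge (leaf 7 561 593) (node 595 (merge (leaf 6 562 563) (node 722 (merge (leaf 6 594 627) (node 723 (merge (leaf 4 594 691) (leaf 4 626 755)))))))))))) (node 656 (merge (node 691 (merge (leaf 0 655 690) (node 659 (merge (leaf 0 656 692) (node 688 (merge (leaf 1 655 687) (node 660 (merge (leaf 1 656 689) (node 628 (merge (leaf 2 624 627) (leaf 2 625 629))))))))))) (merge (node 595 (merge (leaf 0 559 562) (node 687 (merge (leaf 1 654 686) (node 659 (merge (leaf 1 655 688) (node 628 (merge (leaf 2 624 627) (node 660 (merge (leaf 2 625 629) (node 692 (merge (leaf 0 657 693) (node 596 (merge (leaf 7 563 563) (leaf 3 560 593))))))))))))))) (node 690 (merge (leaf 0 655 691) (node 654 (merge (leaf 0 654 689) (node 685 (merge (leaf 1 653 686) (node 653 (merge (leaf 1 652 684) (node 621 (merge (leaf 3 620 620) (leaf 3 621 622))))))))))))))))))))))))) (node 656 (merge (node 654 (merge (node 686 (merge (leaf 1 653 685) (node 658 (merge (leaf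 1 654 687) (node 626 (merge (leaf 2 622 625) (leaf 2 623 627))))))) (merge (node 625 (merge (leaf 2 622 626) (node 653 (merge (leaf 2 621 624) (node 621 (merge (leaf 3 620 620) (leaf 3 621 622))))))) (node 685 (merge (leaf 1 653 686) (node 653 (merge (leaf 1 652 684) (node 621 (merge (leaf 3 620 620) (leaf 3 621 622)))))))))) (merge (node 654 (merge (node 690 (merge (leaf 0 654 689) (node 658 (merge (leaf 0 655 691) (node 626 (merge (leaf 2 622 625) (leaf 2 623 627))))))) (merge (node 625 (merge (leaf 2 622 626) (node 653 (merge (leaf 2 621 624) (node 621 (merge (leaf 3 620 620) (leaf 3 621 622))))))) (node 689 (merge (leaf 0 654 690) (node 653 (merge (leaf 0 653 688) (node 621 (merge (leaf 3 620 620) (leaf 3 621 622)))))))))) (merge (node 654 (merge (node 689 (merge (leaf 0 654 690) (node 653 (merge (leaf 0 653 688) (node 621 (merge (leaf 3 620 620) (leaf 3 621 622))))))) (merge (node 690 (merge (leaf 0 654 689) (node 658 (merge (leaf 0 655 691) (node 686 (merge (leaf 1 653 685) (leaf 1 654 687))))))) (node 685 (merge (leaf 1 653 686) (node 653 (merge (leaf 1 652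 684) (node 621 (merge (leaf 3 620 620) (leaf 3 621 622)))))))))) (merge (node 658 (merge (node 691 (merge (leaf 0 655 690) (node 659 (merge (leaf 0 656 692) (node 687 (merge (leaf 1 654 686) (leaf 1 655 688))))))) (merge (node 687 (merge (leaf 1 654 686) (node 659 (merge (leaf 1 655 688) (node 627 (merge (leaf 2 623 626) (leaf 2 624 628))))))) (node 690 (merge (leaf 0 655 691) (node 722 (merge (node 754 (merge (leaf 7 625 625) (node 626 (merge (leaf 2 623 627) (node 755 (merge (leaf 4 626 723) (leaf 4 658 787))))))) (merge (node 754 (merge (leaf 7 625 625) (node 786 (merge (leaf 7 657 689) (node 787 (merge (leaf 4 658 755) (leaf 4 690 819))))))) (node 626 (merge (leaf 2 623 627) (node 721 (merge (leaf 5 625 753) (node 594 (merge (leaf 5 593 689) (node 595 (merge (leaf 0 559 562) (leaf 6 562 563))))))))))))))))) (node 689 (merge (node 654 (merge (leaf 0 654 690) (node 653 (merge (leaf 0 653 688) (node 621 (merge (leaf 3 620 620) (leaf 3 621 622))))))) (merge (node 654 (merge (leaf 0 654 690) (node 685 (merge (leaf 1 653 686) (node 653 (merge (leaf 1 652 684) (node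 621 (merge (leaf 3 620 620) (leaf 3 621 622))))))))) (merge (node 721 (merge (node 753 (merge (leaf 7 624 624) (node 785 (merge (leaf 7 656 688) (node 784 (merge (leaf 5 656 752) (leaf 5 688 816))))))) (merge (node 753 (merge (leaf 7 624 624) (node 785 (merge (leaf 7 656 688) (node 786 (merge (leaf 4 657 754) (leaf 4 689 818))))))) (merge (node 753 (merge (node 785 (merge (leaf 7 656 688) (node 784 (merge (leaf 5 656 752) (leaf 5 688 816))))) (merge (node 785 (merge (leaf 7 656 688) (node 786 (merge (leaf 4 657 754) (leaf 4 689 818))))) (node 754 (merge (leaf 4 657 786) (node 625 (merge (leaf 4 625 722) (node 752 (merge (leaf 5 624 720) (leaf 5 656 784)))))))))) (merge (node 753 (merge (leaf 7 624 624) (node 754 (merge (leaf 4 657 786) (node 625 (merge (leaf 4 625 722) (node 752 (merge (leaf 5 624 720) (leaf 5 656 784))))))))) (node 720 (merge (node 752 (merge (leaf 5 624 625) (node 784 (merge (leaf 6 656 688) (leaf 6 688 816))))) (merge (node 625 (merge (leaf 5 624 752) (node 626 (merge (leaf 6 593 594) (leaf 2 622 654))))) (merge (node 722 (merge (node 625 (merge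 (leaf 4 625 754) (node 626 (merge (leaf 6 593 594) (leaf 2 622 654))))) (node 723 (merge (node 756 (merge (leaf 0 720 755) (node 724 (merge (leaf 0 721 757) (node 692 (merge (leaf 2 688 691) (leaf 2 689 693))))))) (node 687 (merge (leaf 3 687 688) (node 719 (merge (leaf 3 686 686) (node 751 (merge (leaf 6 623 624) (leaf 1 718 750))))))))))) (node 688 (merge (node 752 (merge (leaf 6 656 784) (node 751 (merge (leaf 5 655 783) (node 722 (merge (leaf 1 719 723) (node 719 (merge (leaf 5 623 624) (leaf 1 718 750))))))))) (merge (node 654 (merge (leaf 0 653 653) (node 686 (merge (leaf 1 653 685) (node 687 (merge (leaf 0 686 722) (node 622 (merge (leaf 3 621 621) (node 590 (merge (leaf 4 558 558) (leaf 6 558 591))))))))))) (node 654 (merge (leaf 0 653 653) (node 752 (merge (leaf 6 656 784) (node 622 (merge (leaf 3 621 621) (node 751 (merge (leaf 5 655 783) (node 719 (merge (leaf 5 623 624) (leaf 7 622 687))))))))))))))))))))))) (node 721 (merge (node 753 (merge (leaf 7 624 624) (node 785 (merge (leaf 7 656 688) (node 784 (merge (leaf 5 656 752) (leaf 5 688 816))))))) (merge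 (node 753 (merge (leaf 7 624 624) (node 785 (merge (leaf 7 656 688) (node 786 (merge (leaf 4 657 754) (leaf 4 689 818))))))) (merge (node 753 (merge (node 785 (merge (leaf 7 656 688) (node 784 (merge (leaf 5 656 752) (leaf 5 688 816))))) (merge (node 785 (merge (leaf 7 656 688) (node 786 (merge (leaf 4 657 754) (leaf 4 689 818))))) (node 754 (merge (leaf 4 657 786) (node 625 (merge (leaf 4 625 722) (node 752 (merge (leaf 5 624 720) (leaf 5 656 784)))))))))) (merge (node 753 (merge (leaf 7 624 624) (node 754 (merge (leaf 4 657 786) (node 625 (merge (leaf 4 625 722) (node 752 (merge (leaf 5 624 720) (leaf 5 656 784))))))))) (node 720 (merge (node 752 (merge (leaf 5 624 625) (node 784 (merge (leaf 6 656 688) (leaf 6 688 816))))) (merge (node 625 (merge (leaf 5 624 752) (node 626 (merge (leaf 6 593 594) (node 627 (merge (leaf 1 623 624) (leaf 1 624 628))))))) (merge (node 719 (merge (node 690 (merge (leaf 2 686 718) (node 691 (merge (leaf 1 688 692) (leaf 2 687 722))))) (merge (node 718 (merge (leaf 2 686 690) (node 749 (merge (leaf 1 717 750) (node 717 (merge (leaf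 2 685 688) (leaf 1 716 748))))))) (node 751 (merge (node 624 (merge (leaf 6 623 687) (leaf 5 623 688))) (node 750 (merge (leaf 1 718 722) (node 749 (merge (leaf 2 716 748) (leaf 2 717 752)))))))))) (node 722 (merge (node 754 (merge (leaf 4 625 625) (node 786 (merge (leaf 7 657 690) (leaf 7 689 818))))) (merge (node 754 (merge (leaf 4 625 625) (node 755 (merge (leaf 0 719 719) (node 756 (merge (leaf 0 720 723) (leaf 3 721 757))))))) (node 690 (merge (node 691 (merge (leaf 3 655 688) (leaf 1 688 692))) (node 719 (merge (leaf 2 686 718) (node 751 (merge (leaf 1 718 750) (node 687 (merge (leaf 6 623 624) (leaf 3 686 686)))))))))))))))))))))))))))))))))) nP_413 cP_413 12 (by decide +kernel)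
def nP_414 : ℕ := 0x80000000000000000000000380000001000000000000000080000000800000008000000000000000000000000000000000000000000000000000000000000000000000000000000000000000000000000000
def cP_414 : ℕ := 0x8000001cc000000c000000182000001f2000001f3000001f7e00000f7e00001f7e00000f7000000f7000000f50000000400000000000000000000000000000000000000000000000000000000000
theorem lP_414 : S nP_414 cP_414 13 := S_of_chk [] trivial (node 400 (merge (node 464 (merge (leaf 7 431 496) (node 430 (merge (node 429 (merge (leaf 0 428 428) (node 401 (merge (leaf 1 397 398) (leaf 1 398 402))))) (merge (node 429 (merge (leaf 0 428 428) (node 465 (merge (leaf 0 429 432) (leaf 3 430 466))))) (node 401 (merge (leaf 1 398 402) (node 398 (merge (node 366 (merge (leaf 4 334 334) (leaf 3 365 365))) (node 433 (merge (leaf 0 398 434) (node 432 (merge (leaf 0 397 397) (node 369 (merge (leaf 2 366 370) (node 337 (merge (leaf 5 304 305) (leaf 5 336 464)))))))))))))))))) (merge (node 401 (merge (node 430 (merge (leaf 1 398 402) (node 429 (merge (leaf 2 396 428) (leaf 2 397 432))))) (merge (node 402 (merge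 (node 435 (merge (leaf 0 399 434) (node 403 (merge (leaf 1 399 432) (leaf 0 400 436))))) (merge (node 403 (merge (leaf 1 399 432) (node 371 (merge (leaf 2 367 370) (leaf 2 368 372))))) (node 434 (merge (leaf 0 399 435) (node 398 (merge (leaf 0 398 433) (node 370 (merge (leaf 2 366 369) (leaf 2 367 371)))))))))) (node 398 (merge (node 366 (merge (leaf 3 365 365) (node 334 (merge (leaf 4 302 302) (leaf 4 334 430))))) (merge (node 429 (merge (leaf 1 397 430) (node 397 (merge (leaf 1 396 428) (node 369 (merge (leaf 2 365 368) (leaf 2 366 370))))))) (node 369 (merge (leaf 2 366 370) (node 397 (merge (leaf 2 365 368) (node 365 (merge (leaf 3 364 364) (leaf 3 365 366))))))))))))) (merge (node 401 (merge (node 430 (merge (leaf 1 398 402) (node 429 (merge (leaf 1 397 398) (leaf 2 396 428))))) (merge (node 402 (merge (leaf 1 398 430) (node 435 (merge (leaf 0 399 434) (node 403 (merge (leaf 0 400 436) (node 371 (merge (leaf 2 367 370) (leaf 2 368 372))))))))) (merge (node 398 (merge (node 366 (merge (leaf 3 365 365) (node 334 (merge (leaf 4 302 302) (leaf 4 334 430))))) (merge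 (node 429 (merge (leaf 1 397 430) (node 397 (merge (leaf 1 396 428) (node 369 (merge (leaf 2 365 368) (leaf 2 366 370))))))) (node 369 (merge (leaf 2 366 370) (node 397 (merge (leaf 2 365 368) (node 365 (merge (leaf 3 364 364) (leaf 3 365 366)))))))))) (node 434 (merge (node 433 (merge (leaf 0 398 398) (node 435 (merge (leaf 0 399 402) (leaf 3 400 436))))) (merge (node 398 (merge (leaf 0 398 433) (node 369 (merge (leaf 2 366 370) (node 397 (merge (leaf 2 365 368) (node 365 (merge (leaf 3 364 364) (leaf 3 365 366))))))))) (merge (node 402 (merge (leaf 0 399 435) (node 370 (merge (leaf 2 367 371) (node 369 (merge (leaf 2 366 398) (node 337 (merge (leaf 4 305 305) (leaf 7 337 466))))))))) (node 435 (merge (leaf 0 399 402) (node 464 (merge (leaf 7 431 496) (node 465 (merge (leaf 2 431 466) (node 433 (merge (leaf 1 432 436) (node 368 (merge (leaf 7 368 497) (node 336 (merge (leaf 4 304 304) (leaf 7 336 369))))))))))))))))))))) (merge (node 464 (merge (leaf 7 431 496) (node 432 (merge (node 368 (merge (leaf 5 335 336) (node 369 (merge (leaf 6 336 337) (node 370 (merge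 (leaf 1 367 371) (node 398 (merge (leaf 2 365 397) (leaf 2 366 401))))))))) (merge (node 368 (merge (leaf 5 335 336) (node 369 (merge (leaf 6 336 337) (node 398 (merge (leaf 2 365 397) (node 434 (merge (leaf 3 398 433) (node 465 (merge (leaf 4 368 497) (node 466 (merge (leaf 2 431 435) (leaf 3 431 467))))))))))))) (merge (node 368 (merge (leaf 5 335 336) (node 465 (merge (leaf 4 368 497) (node 466 (merge (leaf 3 431 467) (node 434 (merge (leaf 2 431 435) (node 433 (merge (leaf 3 398 398) (node 402 (merge (leaf 2 399 403) (node 370 (merge (leaf 5 337 338) (node 371 (merge (leaf 6 338 339) (leaf 2 367 401))))))))))))))))) (merge (node 368 (merge (leaf 5 335 336) (node 369 (merge (leaf 6 336 337) (node 465 (merge (leaf 4 368 497) (node 466 (merge (leaf 3 431 467) (node 498 (merge (leaf 0 463 499) (node 434 (merge (leaf 2 431 435) (node 401 (merge (leaf 7 369 402) (leaf 4 369 433))))))))))))))) (node 401 (merge (node 402 (merge (leaf 1 399 403) (node 434 (merge (leaf 0 399 435) (node 398 (merge (leaf 0 398 433) (node 397 (merge (leaf 0 396 396) (node 365 (merge (leaf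 3 364 364) (leaf 3 365 366))))))))))) (merge (node 398 (merge (node 397 (merge (leaf 0 396 396) (node 365 (merge (leaf 3 364 364) (leaf 3 365 366))))) (node 433 (merge (leaf 0 398 434) (node 369 (merge (leaf 2 366 370) (node 337 (merge (leaf 5 304 305) (leaf 5 336 464))))))))) (merge (node 402 (merge (leaf 1 399 403) (node 370 (merge (leaf 2 367 371) (node 398 (merge (leaf 2 366 369) (node 397 (merge (leaf 0 396 396) (node 365 (merge (leaf 3 364 364) (leaf 3 365 366))))))))))) (node 369 (merge (node 337 (merge (leaf 5 304 305) (leaf 5 336 433))) (merge (node 402 (merge (leaf 1 399 403) (node 434 (merge (leaf 0 399 435) (node 466 (merge (leaf 7 369 498) (node 467 (merge (leaf 0 431 433) (leaf 3 431 465))))))))) (node 402 (merge (leaf 1 399 403) (node 434 (merge (leaf 0 399 435) (node 466 (merge (leaf 7 369 498) (node 337 (merge (leaf 4 305 305) (leaf 7 337 370))))))))))))))))))))))) (merge (node 398 (merge (node 366 (merge (node 334 (merge (leaf 4 302 302) (leaf 4 334 430))) (node 365 (merge (leaf 3 365 401) (node 364 (merge (leaf 0 363 363) (leaf 3 364 397)))))))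 (merge (node 429 (merge (node 428 (merge (leaf 1 396 397) (leaf 2 396 430))) (merge (node 430 (merge (leaf 1 397 401) (leaf 2 396 428))) (node 368 (merge (node 336 (merge (leaf 5 303 304) (leaf 5 335 432))) (node 369 (merge (leaf 2 365 397) (node 370 (merge (leaf 1 367 371) (leaf 2 366 401)))))))))) (merge (node 368 (merge (node 336 (merge (leaf 5 303 304) (leaf 5 335 432))) (node 397 (merge (leaf 2 365 369) (node 428 (merge (leaf 1 396 429) (node 396 (merge (leaf 1 395 427) (node 364 (merge (leaf 3 363 363) (leaf 3 364 365))))))))))) (node 430 (merge (node 401 (merge (leaf 1 398 402) (node 366 (merge (leaf 4 334 334) (leaf 3 365 365))))) (node 464 (merge (leaf 7 431 496) (node 429 (merge (leaf 0 428 428) (node 465 (merge (leaf 0 429 432) (leaf 3 430 466))))))))))))) (merge (node 398 (merge (node 366 (merge (node 334 (merge (leaf 4 302 302) (leaf 4 334 430))) (node 365 (merge (leaf 3 365 401) (node 364 (merge (leaf 0 363 363) (leaf 3 364 397))))))) (merge (node 432 (merge (node 433 (merge (leaf 0 397 397) (leaf 3 398 434))) (node 464 (merge (leaf 7 399 496) (node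 368 (merge (leaf 5 335 336) (node 465 (merge (leaf 4 368 497) (node 466 (merge (leaf 3 430 430) (leaf 3 431 467))))))))))) (merge (node 430 (merge (node 401 (merge (leaf 1 398 402) (node 366 (merge (leaf 4 334 334) (leaf 3 365 365))))) (node 464 (merge (leaf 7 431 496) (node 429 (merge (leaf 0 428 428) (node 465 (merge (leaf 0 429 432) (leaf 3 430 466))))))))) (node 464 (merge (leaf 7 431 496) (node 397 (merge (node 432 (merge (leaf 0 396 396) (leaf 0 397 433))) (merge (node 428 (merge (leaf 1 396 429) (node 396 (merge (leaf 1 395 427) (node 364 (merge (leaf 3 363 363) (leaf 3 364 365))))))) (node 433 (merge (leaf 0 397 432) (node 401 (merge (leaf 0 398 434) (node 365 (merge (leaf 3 364 364) (leaf 3 365 366)))))))))))))))) (merge (node 401 (merge (node 430 (merge (leaf 1 398 402) (node 429 (merge (leaf 2 396 428) (leaf 2 397 432))))) (merge (node 402 (merge (leaf 1 398 430) (node 435 (merge (leaf 0 399 434) (node 403 (merge (leaf 0 400 436) (node 371 (merge (leaf 2 367 370) (leaf 2 368 372))))))))) (merge (node 464 (merge (leaf 7 431 496) (node 465 (merge (node 368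 (merge (node 497 (merge (leaf 4 368 432) (leaf 7 368 433))) (merge (node 336 (merge (leaf 5 303 304) (leaf 5 335 432))) (node 433 (merge (leaf 7 368 497) (node 336 (merge (leaf 4 304 304) (leaf 7 336 369)))))))) (node 466 (merge (leaf 3 430 430) (node 499 (merge (leaf 0 463 498) (node 467 (merge (leaf 0 464 500) (node 435 (merge (leaf 2 431 434) (leaf 2 432 436))))))))))))) (node 370 (merge (node 371 (merge (leaf 2 367 402) (node 369 (merge (leaf 1 367 368) (leaf 1 368 372))))) (merge (node 402 (merge (leaf 2 367 371) (node 435 (merge (leaf 0 399 434) (node 403 (merge (leaf 1 399 432) (leaf 0 400 436))))))) (merge (node 369 (merge (node 371 (merge (leaf 1 367 368) (leaf 1 368 372))) (node 433 (merge (node 465 (merge (leaf 6 337 338) (node 496 (merge (leaf 6 432 464) (leaf 5 400 497))))) (merge (node 338 (merge (leaf 6 337 465) (node 306 (merge (leaf 5 273 274) (leaf 6 305 337))))) (merge (node 496 (merge (leaf 7 431 464) (node 465 (merge (leaf 5 400 497) (node 466 (merge (leaf 4 369 498) (node 434 (merge (leaf 4 337 337) (node 432 (merge (leaf 3 399 435) (leaf 0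 431 467))))))))))) (node 464 (merge (leaf 7 431 496) (node 337 (merge (leaf 5 336 432) (node 306 (merge (leaf 6 305 338) (node 305 (merge (leaf 6 273 274) (node 304 (merge (leaf 7 272 272) (leaf 7 304 336))))))))))))))))) (node 402 (merge (node 435 (merge (leaf 0 399 434) (node 403 (merge (leaf 1 399 432) (leaf 0 400 436))))) (merge (node 464 (merge (leaf 7 431 496) (node 432 (merge (leaf 1 399 403) (node 368 (merge (leaf 5 335 336) (node 369 (merge (leaf 6 336 337) (node 465 (merge (leaf 4 368 497) (node 433 (merge (leaf 6 337 338) (node 466 (merge (leaf 3 431 467) (leaf 4 369 498))))))))))))))) (node 338 (merge (node 433 (merge (leaf 5 305 306) (node 465 (merge (leaf 6 337 369) (leaf 6 369 497))))) (merge (node 434 (merge (leaf 0 399 435) (node 307 (merge (leaf 6 306 339) (node 306 (merge (leaf 6 274 275) (node 305 (merge (leaf 7 273 273) (leaf 7 305 337))))))))) (node 434 (merge (leaf 0 399 435) (node 337 (merge (leaf 7 305 305) (node 466 (merge (leaf 7 337 369) (node 465 (merge (leaf 5 337 433) (leaf 5 369 497))))))))))))))))))))))) (node 398 (merge (node 368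 (merge (node 336 (merge (leaf 5 303 304) (leaf 5 335 432))) (node 397 (merge (leaf 2 365 369) (node 428 (merge (leaf 1 396 429) (node 396 (merge (leaf 1 395 427) (node 364 (merge (leaf 3 363 363) (leaf 3 364 365))))))))))) (merge (node 397 (merge (node 428 (merge (leaf 1 396 429) (node 396 (merge (leaf 1 395 427) (node 364 (merge (leaf 3 363 363) (leaf 3 364 365))))))) (merge (node 432 (merge (leaf 0 397 433) (node 429 (merge (leaf 1 396 428) (node 464 (merge (leaf 7 399 496) (node 430 (merge (leaf 0 429 465) (node 461 (merge (leaf 1 428 460) (node 493 (merge (leaf 6 365 366) (leaf 6 397 525))))))))))))) (node 396 (merge (node 364 (merge (leaf 3 363 363) (leaf 3 364 365))) (merge (node 395 (merge (leaf 0 395 430) (node 426 (merge (leaf 1 394 427) (node 394 (merge (leaf 1 393 425) (node 362 (merge (leaf 3 361 361) (leaf 3 362 363))))))))) (node 395 (merge (leaf 0 395 430) (node 426 (merge (leaf 1 394 427) (node 394 (merge (leaf 1 393 425) (node 365 (merge (leaf 2 362 366) (node 364 (merge (leaf 2 361 393) (leaf 3 364 400))))))))))))))))) (merge (node 397 (merge (node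 428 (merge (leaf 1 396 429) (node 396 (merge (leaf 1 395 427) (node 364 (merge (leaf 3 363 363) (leaf 3 364 365))))))) (merge (node 428 (merge (leaf 1 396 429) (node 396 (merge (leaf 1 395 427) (node 395 (merge (leaf 0 395 430) (node 363 (merge (leaf 3 362 362) (leaf 3 363 364))))))))) (merge (node 365 (merge (leaf 3 364 364) (node 334 (merge (node 366 (merge (leaf 4 302 302) (leaf 4 334 430))) (merge (node 429 (merge (leaf 1 396 428) (node 366 (merge (leaf 4 334 430) (leaf 6 333 461))))) (merge (node 302 (merge (leaf 4 302 366) (node 333 (merge (leaf 6 301 429) (node 270 (merge (leaf 5 237 238) (leaf 6 269 301))))))) (node 429 (merge (leaf 1 396 428) (node 333 (merge (leaf 6 301 302) (node 300 (merge (leaf 7 300 332) (node 301 (merge (leaf 7 268 268) (leaf 4 301 430))))))))))))))) (merge (node 366 (merge (node 334 (merge (leaf 4 302 302) (leaf 4 334 430))) (merge (node 429 (merge (leaf 1 396 428) (node 461 (merge (leaf 6 365 493) (node 334 (merge (leaf 4 302 302) (leaf 6 333 365))))))) (node 428 (merge (leaf 1 396 429) (node 396 (merge (leaf 1 395 427) (node 395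 (merge (leaf 0 395 430) (node 394 (merge (leaf 2 362 365) (node 362 (merge (leaf 3 361 361) (leaf 3 362 363)))))))))))))) (node 396 (merge (node 364 (merge (leaf 3 363 363) (leaf 3 364 365))) (merge (node 395 (merge (leaf 0 395 430) (node 426 (merge (leaf 1 394 427) (node 394 (merge (leaf 1 393 425) (node 362 (merge (leaf 3 361 361) (leaf 3 362 363))))))))) (node 395 (merge (leaf 0 395 430) (node 426 (merge (leaf 1 394 427) (node 394 (merge (leaf 1 393 425) (node 365 (merge (leaf 2 362 366) (node 364 (merge (leaf 2 361 393) (leaf 3 364 400))))))))))))))))))) (node 464 (merge (leaf 7 431 496) (node 466 (merge (node 465 (merge (leaf 3 430 430) (node 499 (merge (leaf 0 463 498) (node 467 (merge (leaf 3 431 432) (leaf 0 464 500))))))) (merge (node 465 (merge (leaf 3 430 430) (node 434 (merge (leaf 2 431 435) (node 432 (merge (leaf 3 398 433) (node 368 (merge (leaf 5 335 336) (leaf 4 368 497))))))))) (node 591 (merge (leaf 6 527 623) (node 562 (merge (leaf 1 558 590) (node 595 (merge (leaf 0 559 594) (node 563 (merge (leaf 0 560 596) (node 531 (merge (leaf 2 528 532)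 (node 499 (merge (leaf 7 466 498) (node 468 (merge (leaf 6 467 500) (node 467 (merge (leaf 7 434 434) (leaf 6 435 436)))))))))))))))))))))))))))))))))) nP_414 cP_414 13 (by decide +kernel)
def nP_415 : ℕ := 0x300000001000000000000000080000000800000008000000000000000000000000000000000000000000000000000000000000000000000000000000000000000000000000000
def cP_415 : ℕ := 0xf0000000fa000003ff000001fe000003ffc00001ff800003ff800001efc00000cf8000018fc00001f7000001f3800001f7e00001f7e00001f7e00000f7000000f7000000f50000000400000000000000000000000000000000000000000000000000000000000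
theorem lP_415 : S nP_415 cP_415 15 := S_of_chk [(nP_411, cP_411, 12), (nP_412, cP_412, 12), (nP_413, cP_413, 12), (nP_414, cP_414, 13)] ⟨lP_411, lP_412, lP_413, lP_414, trivial⟩ (node 559 (merge (node 591 (merge (node 623 (merge (leaf 6 527 655) (node 496 (merge (leaf 5 463 464) (leaf 6 495 527))))) (node 590 (merge (leaf 1 558 562) (node 589 (merge (leaf 1 557 558) (leaf 2 556 588))))))) (merge (node 594 (merge (node 562 (merge (leaf 0 559 595) (node 527 (merge (leaf 3 526 526) (leaf 3 527 563))))) (merge (node 593 (merge (leaf 0 558 558) (node 595 (merge (leaf 0 559 562) (leaf 3 560 596))))) (node 558 (merge (leaf 0 558 593) (node 525 (merge (leaf 3 525 526) (node 557 (merge (leaf 3 524 524) (node 588 (merge (leaf 1 556 589) (node 556 (merge (leaf 2 524 527) (leaf 1 555 587)))))))))))))) (merge (node 558 (merge (node 589 (merge (leaf 1 557 590) (node 557 (merge (leaf 1 556 588) (node 525 (merge (leaf 3 524 524) (leaf 3 525 526))))))) (merge (node 525 (merge (leaf 3 525 526) (node 557 (merge (leaf 3 524 524) (node 588 (merge (leaf 1 556 589) (node 556 (merge (leaf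 2 524 527) (leaf 1 555 587))))))))) (merge (node 557 (merge (node 589 (merge (leaf 1 556 588) (leaf 1 557 590))) (merge (node 556 (merge (leaf 2 524 527) (node 587 (merge (leaf 1 555 588) (node 555 (merge (leaf 1 554 586) (node 523 (merge (leaf 3 522 522) (leaf 3 523 524))))))))) (node 590 (merge (leaf 1 557 589) (node 556 (merge (leaf 2 524 527) (node 555 (merge (leaf 0 555 591) (node 523 (merge (leaf 3 522 522) (leaf 3 523 524)))))))))))) (merge (node 590 (merge (leaf 1 557 589) (node 623 (merge (node 591 (merge (leaf 6 527 655) (node 496 (merge (leaf 7 431 464) (leaf 6 495 527))))) (merge (node 655 (merge (leaf 6 527 591) (node 526 (merge (leaf 3 525 525) (leaf 4 526 622))))) (merge (node 496 (merge (leaf 7 431 464) (node 591 (merge (leaf 6 495 527) (node 526 (merge (leaf 4 494 494) (leaf 3 525 525))))))) (node 526 (merge (leaf 3 525 525) (node 622 (merge (leaf 4 526 655) (node 654 (merge (leaf 6 526 527) (node 653 (merge (leaf 5 525 621) (leaf 5 557 685))))))))))))))) (node 655 (merge (node 591 (merge (leaf 6 527 623) (node 525 (merge (leaf 3 525 526) (node 557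 (merge (leaf 3 524 524) (node 556 (merge (leaf 2 524 527) (node 555 (merge (leaf 0 555 590) (node 587 (merge (leaf 1 554 586) (leaf 1 555 588))))))))))))) (merge (node 657 (merge (node 593 (merge (leaf 0 558 594) (leaf 7 528 625))) (node 656 (merge (node 623 (merge (leaf 6 527 591) (node 622 (merge (leaf 3 622 658) (node 621 (merge (leaf 0 620 620) (leaf 3 621 654))))))) (merge (node 623 (merge (leaf 6 527 591) (node 658 (merge (leaf 3 622 622) (node 687 (merge (leaf 1 654 686) (node 659 (merge (leaf 3 623 624) (leaf 1 655 688))))))))) (merge (node 658 (merge (node 691 (merge (leaf 0 655 690) (node 659 (merge (leaf 0 656 692) (node 627 (merge (leaf 2 623 626) (leaf 2 624 628))))))) (merge (node 690 (merge (leaf 0 655 691) (node 654 (merge (leaf 0 654 689) (node 686 (merge (leaf 1 653 685) (leaf 1 654 687))))))) (node 687 (merge (leaf 1 654 686) (node 659 (merge (leaf 1 655 688) (node 627 (merge (leaf 2 623 626) (leaf 2 624 628)))))))))) (node 622 (merge (node 623 (merge (leaf 6 527 591) (node 621 (merge (leaf 0 620 620) (leaf 0 621 624))))) (merge (node 654 (merge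 (leaf 3 621 621) (node 689 (merge (leaf 0 654 690) (node 653 (merge (leaf 0 653 688) (node 685 (merge (leaf 1 652 684) (leaf 1 653 686))))))))) (node 654 (merge (node 689 (merge (leaf 0 654 690) (node 653 (merge (leaf 0 653 688) (node 685 (merge (leaf 1 652 684) (leaf 1 653 686))))))) (merge (node 623 (merge (leaf 6 527 591) (node 689 (merge (leaf 0 654 690) (node 653 (merge (leaf 0 653 688) (node 652 (merge (leaf 2 620 624) (leaf 2 619 651))))))))) (merge (node 623 (merge (leaf 6 527 591) (node 685 (merge (leaf 1 653 686) (node 653 (merge (leaf 1 652 684) (node 652 (merge (leaf 2 620 624) (leaf 2 619 651))))))))) (node 689 (merge (leaf 0 654 690) (node 623 (merge (leaf 6 527 591) (node 686 (merge (leaf 1 653 685) (node 718 (merge (leaf 6 622 750) (node 719 (merge (leaf 4 622 751) (node 717 (merge (leaf 5 621 749) (node 688 (merge (leaf 1 685 687) (leaf 2 685 720)))))))))))))))))))))))))))) (merge (node 657 (merge (node 593 (merge (leaf 0 558 594) (leaf 7 528 625))) (node 622 (merge (node 526 (merge (leaf 3 525 525) (node 590 (merge (leaf 4 526 623) (node 654 (merge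 (leaf 6 526 527) (leaf 4 558 687))))))) (merge (node 526 (merge (leaf 3 525 525) (node 623 (merge (leaf 4 526 590) (node 656 (merge (leaf 3 622 658) (node 621 (merge (leaf 0 620 620) (leaf 0 621 624))))))))) (merge (node 656 (merge (node 623 (merge (leaf 3 622 658) (node 621 (merge (leaf 0 620 620) (leaf 0 621 624))))) (merge (node 654 (merge (leaf 3 621 621) (node 590 (merge (leaf 6 526 527) (leaf 4 558 687))))) (node 658 (merge (leaf 3 622 623) (node 690 (merge (leaf 0 655 691) (node 654 (merge (leaf 0 654 689) (node 687 (merge (leaf 4 558 590) (leaf 1 654 686)))))))))))) (merge (node 656 (merge (node 623 (merge (leaf 3 622 658) (node 621 (merge (leaf 0 620 620) (leaf 0 621 624))))) (merge (node 654 (merge (leaf 3 621 621) (node 689 (merge (leaf 0 654 690) (node 653 (merge (leaf 0 653 688) (node 685 (merge (leaf 1 652 684) (leaf 1 653 686))))))))) (node 658 (merge (leaf 3 622 623) (node 690 (merge (leaf 0 655 691) (node 654 (merge (leaf 0 654 689) (node 686 (merge (leaf 1 653 685) (leaf 1 654 687)))))))))))) (node 525 (merge (leaf 3 525 526) (node 557 (merge (leaf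 3 524 524) (node 654 (merge (leaf 7 525 590) (node 656 (merge (leaf 3 621 621) (node 689 (merge (leaf 0 654 690) (node 653 (merge (leaf 0 653 688) (node 685 (merge (leaf 1 652 684) (leaf 1 653 686)))))))))))))))))))))) (node 654 (merge (node 622 (merge (node 590 (merge (leaf 6 526 527) (leaf 4 558 687))) (node 593 (merge (leaf 0 558 594) (node 657 (merge (leaf 7 528 625) (node 656 (merge (leaf 3 621 621) (node 689 (merge (leaf 0 654 690) (node 653 (merge (leaf 0 653 688) (node 685 (merge (leaf 1 652 684) (leaf 1 653 686))))))))))))))) (merge (node 622 (merge (node 525 (merge (leaf 3 525 526) (node 590 (merge (leaf 7 525 557) (leaf 4 558 687))))) (node 593 (merge (leaf 0 558 594) (node 657 (merge (leaf 7 528 625) (node 656 (merge (leaf 3 621 621) (node 689 (merge (leaf 0 654 690) (node 653 (merge (leaf 0 653 688) (node 685 (merge (leaf 1 652 684) (leaf 1 653 686))))))))))))))) (merge (node 525 (merge (leaf 3 525 526) (node 557 (merge (leaf 3 524 524) (node 590 (merge (leaf 7 525 622) (node 556 (merge (leaf 2 524 527) (node 555 (merge (leaf 0 555 591) (node 587 (merge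 (leaf 1 554 586) (leaf 1 555 588))))))))))))) (node 653 (merge (node 657 (merge (node 593 (merge (leaf 0 558 594) (leaf 7 528 625))) (node 656 (merge (node 685 (merge (leaf 1 652 684) (leaf 1 653 686))) (node 689 (merge (leaf 0 653 688) (leaf 0 654 690))))))) (merge (node 525 (merge (leaf 3 525 526) (node 557 (merge (leaf 3 524 524) (node 556 (merge (leaf 2 524 527) (node 588 (merge (leaf 1 555 587) (node 652 (merge (leaf 6 524 620) (node 687 (merge (leaf 0 652 688) (node 651 (merge (leaf 0 651 686) (node 683 (merge (leaf 1 650 682) (leaf 1 651 684))))))))))))))))) (node 593 (merge (leaf 0 558 594) (node 625 (merge (leaf 7 528 657) (node 656 (merge (leaf 2 621 624) (node 525 (merge (leaf 3 525 526) (node 557 (merge (leaf 3 524 524) (node 556 (merge (leaf 2 524 527) (node 588 (merge (leaf 1 555 587) (node 620 (merge (leaf 3 620 621) (leaf 6 524 652))))))))))))))))))))))))))))))))) (merge (hyp 0) (node 655 (merge (node 591 (merge (leaf 6 527 623) (node 590 (merge (leaf 1 558 562) (node 589 (merge (leaf 1 557 558) (leaf 2 556 588))))))) (merge (node 657 (merge (node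 593 (merge (leaf 7 528 625) (node 594 (merge (leaf 0 558 558) (node 595 (merge (leaf 0 559 562) (leaf 3 560 596))))))) (node 656 (merge (node 623 (merge (leaf 6 527 591) (node 622 (merge (leaf 3 622 658) (node 621 (merge (leaf 0 620 620) (leaf 3 621 654))))))) (merge (node 623 (merge (leaf 6 527 591) (node 658 (merge (leaf 3 622 622) (node 687 (merge (leaf 1 654 686) (node 659 (merge (leaf 3 623 624) (leaf 1 655 688))))))))) (merge (node 658 (merge (node 691 (merge (leaf 0 655 690) (node 659 (merge (leaf 0 656 692) (node 627 (merge (leaf 2 623 626) (leaf 2 624 628))))))) (merge (node 690 (merge (leaf 0 655 691) (node 654 (merge (leaf 0 654 689) (node 686 (merge (leaf 1 653 685) (leaf 1 654 687))))))) (node 687 (merge (leaf 1 654 686) (node 659 (merge (leaf 1 655 688) (node 627 (merge (leaf 2 623 626) (leaf 2 624 628)))))))))) (node 622 (merge (node 623 (merge (leaf 6 527 591) (node 621 (merge (leaf 0 620 620) (leaf 0 621 624))))) (merge (node 654 (merge (leaf 3 621 621) (node 689 (merge (leaf 0 654 690) (node 653 (merge (leaf 0 653 688) (node 685 (merge (leaf 1 652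 684) (leaf 1 653 686))))))))) (node 654 (merge (node 689 (merge (leaf 0 654 690) (node 653 (merge (leaf 0 653 688) (node 685 (merge (leaf 1 652 684) (leaf 1 653 686))))))) (merge (node 623 (merge (leaf 6 527 591) (node 689 (merge (leaf 0 654 690) (node 653 (merge (leaf 0 653 688) (node 652 (merge (leaf 2 620 624) (leaf 2 619 651))))))))) (merge (node 623 (merge (leaf 6 527 591) (node 685 (merge (leaf 1 653 686) (node 653 (merge (leaf 1 652 684) (node 652 (merge (leaf 2 620 624) (leaf 2 619 651))))))))) (node 689 (merge (leaf 0 654 690) (node 623 (merge (leaf 6 527 591) (node 686 (merge (leaf 1 653 685) (node 718 (merge (leaf 6 622 750) (node 719 (merge (leaf 4 622 751) (node 717 (merge (leaf 5 621 749) (node 688 (merge (leaf 1 685 687) (leaf 2 685 720)))))))))))))))))))))))))))) (merge (node 657 (merge (node 593 (merge (leaf 7 528 625) (node 558 (merge (leaf 0 558 594) (node 589 (merge (leaf 1 557 590) (node 557 (merge (leaf 1 556 588) (node 525 (merge (leaf 3 524 524) (leaf 3 525 526))))))))))) (merge (node 625 (merge (leaf 7 528 593) (node 654 (merge (node 623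 (merge (leaf 6 527 591) (node 626 (merge (leaf 1 622 624) (leaf 2 622 656))))) (merge (node 656 (merge (leaf 2 622 626) (node 689 (merge (leaf 0 654 690) (node 653 (merge (leaf 2 621 624) (leaf 0 653 688))))))) (merge (node 623 (merge (leaf 6 527 591) (node 624 (merge (leaf 1 622 626) (node 622 (merge (leaf 1 621 653) (leaf 0 622 658))))))) (node 656 (merge (node 690 (merge (leaf 0 654 689) (node 658 (merge (leaf 0 655 691) (node 686 (merge (leaf 1 653 685) (leaf 1 654 687))))))) (merge (node 623 (merge (leaf 6 527 591) (node 622 (merge (leaf 3 622 658) (node 621 (merge (leaf 0 620 620) (leaf 3 621 654))))))) (node 685 (merge (leaf 1 653 686) (node 653 (merge (leaf 1 652 684) (node 621 (merge (leaf 3 620 620) (leaf 3 621 622)))))))))))))))) (node 656 (merge (node 623 (merge (leaf 6 527 591) (node 622 (merge (leaf 3 622 658) (node 621 (merge (leaf 0 620 620) (leaf 3 621 654))))))) (merge (node 623 (merge (leaf 6 527 591) (node 658 (merge (leaf 3 622 622) (node 691 (merge (leaf 0 655 690) (node 659 (merge (leaf 3 623 624) (leaf 0 656 692))))))))) (merge (node 654 (merge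 (node 689 (merge (leaf 0 654 690) (node 653 (merge (leaf 0 653 688) (node 621 (merge (leaf 3 620 620) (leaf 3 621 622))))))) (merge (node 690 (merge (leaf 0 654 689) (node 658 (merge (leaf 0 655 691) (node 686 (merge (leaf 1 653 685) (leaf 1 654 687))))))) (node 685 (merge (leaf 1 653 686) (node 653 (merge (leaf 1 652 684) (node 621 (merge (leaf 3 620 620) (leaf 3 621 622)))))))))) (merge (node 654 (merge (node 689 (merge (leaf 0 654 690) (node 653 (merge (leaf 0 653 688) (node 621 (merge (leaf 3 620 620) (leaf 3 621 622))))))) (merge (node 591 (merge (leaf 6 527 623) (node 686 (merge (leaf 1 653 685) (node 622 (merge (leaf 6 558 590) (leaf 3 621 621))))))) (merge (node 623 (merge (leaf 6 527 591) (node 689 (merge (leaf 0 654 690) (node 653 (merge (leaf 0 653 688) (node 652 (merge (leaf 2 620 624) (node 620 (merge (leaf 3 619 619) (leaf 3 620 621))))))))))) (node 623 (merge (leaf 6 527 591) (node 689 (merge (leaf 0 654 690) (node 653 (merge (leaf 0 653 688) (node 686 (merge (leaf 1 653 685) (node 652 (merge (leaf 2 620 624) (node 651 (merge (leaf 2 619 622) (leaf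 0 651 687))))))))))))))))) (node 654 (merge (node 690 (merge (leaf 0 654 689) (node 658 (merge (leaf 0 655 691) (node 686 (merge (leaf 1 653 685) (leaf 1 654 687))))))) (merge (node 623 (merge (leaf 6 527 591) (node 689 (merge (leaf 0 654 690) (node 653 (merge (leaf 0 653 688) (node 652 (merge (leaf 2 620 624) (node 620 (merge (leaf 3 619 619) (leaf 3 620 621))))))))))) (node 623 (merge (leaf 6 527 591) (node 686 (merge (leaf 1 653 685) (node 658 (merge (leaf 1 654 687) (node 627 (merge (leaf 2 623 626) (node 659 (merge (leaf 3 623 624) (leaf 2 624 628)))))))))))))))))))))) (merge (hyp 1) (merge (node 398 (merge (node 400 (merge (node 368 (merge (node 336 (merge (leaf 5 303 304) (leaf 5 335 432))) (node 369 (merge (leaf 2 365 397) (node 370 (merge (leaf 1 367 371) (leaf 2 366 401))))))) (merge (node 366 (merge (node 334 (merge (leaf 4 302 302) (leaf 4 334 430))) (node 365 (merge (leaf 3 365 401) (node 364 (merge (leaf 0 363 363) (leaf 3 364 397))))))) (merge (node 401 (merge (node 366 (merge (leaf 3 365 365) (node 334 (merge (leaf 4 302 302) (leaf 4 334 430)))))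 (node 434 (merge (leaf 0 398 433) (node 402 (merge (leaf 0 399 435) (node 403 (merge (leaf 1 399 432) (node 371 (merge (leaf 2 367 370) (leaf 2 368 372))))))))))) (node 432 (merge (node 397 (merge (leaf 0 396 396) (leaf 0 397 433))) (node 464 (merge (leaf 7 399 496) (node 368 (merge (leaf 5 335 336) (node 465 (merge (leaf 4 368 497) (node 466 (merge (leaf 3 430 430) (leaf 3 431 467))))))))))))))) (hyp 2))) (hyp 3)))))))))))) nP_415 cP_415 15 (by decide +kernel)
def nP_416 : ℕ := 0x300000001000000000000000080000000800000000000000000000000000000000000000000000000000000000000000000000000000000000000000000000000000000000000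
def cP_416 : ℕ := 0xf0000000fa000003ff000001fe000003ffc00001ff800003ff800003efc00001cf8000038fc00001f7800001f3800007f7f00003ffe00001fff00000ffe00000ffe00000ffc000005f0000001f000000000000000000000000000000000000000000000000000
theorem lP_416 : S nP_416 cP_416 16 := S_of_chk [(nP_367, cP_367, 11), (nP_368, cP_368, 11), (nP_374, cP_374, 14), (nP_404, cP_404, 15), (nP_405, cP_405, 11), (nP_406, cP_406, 13), (nP_407, cP_407, 12), (nP_408, cP_408, 12), (nP_382, cP_382, 15), (nP_409, cP_409, 14), (nP_410, cP_410, 12), (nP_415, cP_415, 15)] ⟨lP_367, lP_368, lP_374, lP_404, lP_405, lP_406, lP_407, lP_408, lP_382, lP_409, lP_410, lP_415, trivial⟩ (node 399 (merge (node 367 (merge (node 334 (merge (leaf 7 334 366) (node 335 (merge (leaf 7 302 302) (node 464 (merge (leaf 4 335 432) (leaf 7 431 496))))))) (merge (node 366 (merge (leaf 7 334 334) (node 365 (merge (node 400 (merge (leaf 0 364 364) (node 401 (merge (leaf 3 365 398) (leaf 3 366 402))))) (merge (node 368 (merge (leaf 6 335 336) (node 400 (merge (leaf 0 364 364) (leaf 0 365 401))))) (merge (node 368 (merge (leaf 6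 335 336) (node 397 (merge (leaf 1 364 396) (node 398 (merge (leaf 1 365 369) (node 364 (merge (leaf 0 363 363) (node 332 (merge (leaf 3 331 331) (leaf 3 332 333))))))))))) (node 368 (merge (leaf 6 335 336) (node 401 (merge (leaf 0 365 400) (node 369 (merge (leaf 0 366 402) (node 397 (merge (leaf 1 364 396) (leaf 1 365 398))))))))))))))) (merge (node 368 (merge (leaf 6 335 336) (node 464 (merge (leaf 7 431 496) (node 335 (merge (leaf 4 335 432) (node 302 (merge (leaf 7 302 334) (node 303 (merge (leaf 7 270 270) (node 400 (merge (leaf 4 271 271) (node 398 (merge (leaf 5 302 430) (node 397 (merge (leaf 2 365 369) (leaf 2 364 396))))))))))))))))) (node 398 (merge (node 464 (merge (leaf 7 431 496) (node 432 (merge (leaf 4 335 335) (node 397 (merge (leaf 0 396 396) (node 433 (merge (leaf 0 397 400) (leaf 3 398 434))))))))) (merge (node 368 (merge (leaf 6 335 336) (node 369 (merge (leaf 1 366 370) (node 397 (merge (leaf 1 365 366) (leaf 2 364 396))))))) (node 368 (merge (leaf 6 335 336) (node 464 (merge (leaf 7 431 496) (node 335 (merge (leaf 4 335 432) (node 303 (merge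 (leaf 5 302 430) (node 271 (merge (leaf 5 270 366) (leaf 4 271 400)))))))))))))))))) (merge (node 367 (merge (node 336 (merge (leaf 6 335 368) (node 335 (merge (leaf 6 303 304) (node 464 (merge (leaf 4 335 432) (leaf 7 431 496))))))) (merge (node 334 (merge (leaf 7 334 366) (node 335 (merge (leaf 7 302 302) (node 464 (merge (leaf 4 335 432) (leaf 7 431 496))))))) (merge (node 336 (merge (leaf 6 335 368) (node 335 (merge (leaf 6 303 304) (node 334 (merge (leaf 7 302 302) (leaf 7 334 366))))))) (node 464 (merge (leaf 4 367 496) (node 366 (merge (leaf 7 334 334) (node 368 (merge (leaf 6 335 336) (node 365 (merge (node 396 (merge (leaf 1 364 397) (node 364 (merge (leaf 1 363 395) (node 332 (merge (leaf 3 331 331) (leaf 3 332 333))))))) (node 401 (merge (leaf 0 365 400) (node 369 (merge (leaf 0 366 402) (node 337 (merge (leaf 2 334 338) (node 433 (merge (leaf 5 336 432) (node 466 (merge (leaf 4 337 434) (node 465 (merge (leaf 3 430 430) (leaf 4 369 498))))))))))))))))))))))))) (merge (node 367 (merge (node 336 (merge (leaf 6 335 368) (node 335 (merge (leaf 6 303 304)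 (node 464 (merge (leaf 4 335 432) (leaf 7 431 496))))))) (merge (node 334 (merge (leaf 7 334 366) (node 335 (merge (leaf 7 302 302) (node 464 (merge (leaf 4 335 432) (leaf 7 431 496))))))) (node 368 (merge (leaf 6 335 336) (node 366 (merge (leaf 7 334 334) (node 365 (merge (node 396 (merge (leaf 1 364 397) (node 364 (merge (leaf 1 363 395) (node 332 (merge (leaf 3 331 331) (leaf 3 332 333))))))) (merge (node 397 (merge (leaf 1 364 396) (node 369 (merge (leaf 1 365 398) (node 402 (merge (leaf 0 366 401) (node 370 (merge (leaf 0 367 403) (node 338 (merge (leaf 2 334 337) (leaf 2 335 339))))))))))) (merge (node 332 (merge (leaf 3 332 333) (node 364 (merge (leaf 3 331 331) (node 398 (merge (leaf 0 363 363) (node 369 (merge (leaf 1 366 370) (leaf 1 365 397))))))))) (node 332 (merge (leaf 3 332 333) (node 364 (merge (leaf 3 331 331) (node 363 (merge (leaf 0 363 398) (node 395 (merge (leaf 1 362 394) (leaf 1 363 396)))))))))))))))))))) (merge (node 367 (merge (node 336 (merge (leaf 6 335 368) (node 335 (merge (leaf 6 303 304) (node 464 (merge (leaf 4 335 432) (leaf 7 431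 496))))))) (merge (node 334 (merge (leaf 7 334 366) (node 335 (merge (leaf 7 302 302) (node 464 (merge (leaf 4 335 432) (leaf 7 431 496))))))) (node 366 (merge (leaf 7 334 334) (node 401 (merge (node 368 (merge (leaf 6 335 336) (node 402 (merge (leaf 0 366 369) (leaf 3 366 400))))) (merge (node 400 (merge (leaf 3 366 402) (node 365 (merge (leaf 0 364 364) (leaf 3 365 398))))) (merge (node 368 (merge (leaf 6 335 336) (node 369 (merge (leaf 0 366 402) (node 370 (merge (leaf 1 366 398) (node 338 (merge (leaf 2 334 337) (leaf 2 335 339))))))))) (node 368 (merge (leaf 6 335 336) (node 365 (merge (leaf 0 365 400) (node 332 (merge (leaf 3 332 333) (node 364 (merge (leaf 3 331 331) (node 363 (merge (leaf 0 363 398) (node 395 (merge (leaf 1 362 394) (leaf 1 363 396)))))))))))))))))))))) (merge (node 367 (merge (node 336 (merge (leaf 6 335 368) (node 335 (merge (leaf 6 303 304) (node 464 (merge (leaf 4 335 432) (leaf 7 431 496))))))) (merge (node 334 (merge (leaf 7 334 366) (node 335 (merge (leaf 7 302 302) (node 464 (merge (leaf 4 335 432) (leaf 7 431 496))))))) (node 366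 (merge (leaf 7 334 334) (node 365 (merge (node 368 (merge (leaf 6 335 336) (node 364 (merge (leaf 0 364 400) (node 332 (merge (leaf 3 331 331) (leaf 3 332 333))))))) (merge (node 364 (merge (leaf 0 364 400) (node 363 (merge (leaf 0 363 398) (node 395 (merge (leaf 1 362 394) (leaf 1 363 396))))))) (merge (node 368 (merge (leaf 6 335 336) (node 396 (merge (leaf 1 364 397) (node 364 (merge (leaf 1 363 395) (node 332 (merge (leaf 3 331 331) (leaf 3 332 333))))))))) (node 368 (merge (leaf 6 335 336) (node 397 (merge (leaf 1 364 396) (node 369 (merge (leaf 1 365 398) (node 338 (merge (leaf 2 334 337) (node 370 (merge (leaf 2 335 339) (node 403 (merge (leaf 0 367 402) (node 371 (merge (leaf 1 367 400) (leaf 0 368 404)))))))))))))))))))))))) (merge (hyp 0) (merge (hyp 1) (merge (node 398 (merge (node 397 (merge (node 432 (merge (leaf 0 396 396) (node 433 (merge (leaf 0 397 400) (leaf 3 398 434))))) (merge (node 396 (merge (leaf 0 396 432) (node 395 (merge (leaf 0 395 430) (node 427 (merge (leaf 1 394 426) (leaf 1 395 428))))))) (merge (node 396 (merge (node 395 (merge (leaf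 0 395 430) (node 427 (merge (leaf 1 394 426) (leaf 1 395 428))))) (merge (node 395 (merge (leaf 0 395 430) (node 363 (merge (leaf 3 362 362) (leaf 3 363 364))))) (node 428 (merge (leaf 1 395 427) (node 400 (merge (leaf 1 396 429) (node 364 (merge (leaf 3 363 363) (leaf 3 364 365)))))))))) (node 400 (merge (node 432 (merge (leaf 0 397 433) (node 368 (merge (leaf 5 335 336) (leaf 2 365 369))))) (node 429 (merge (leaf 1 396 428) (node 401 (merge (leaf 1 397 430) (node 365 (merge (leaf 3 364 364) (leaf 3 365 366))))))))))))) (merge (node 366 (merge (node 334 (merge (leaf 4 302 302) (leaf 7 334 367))) (merge (node 334 (merge (leaf 4 302 302) (leaf 4 334 430))) (node 400 (merge (node 365 (merge (leaf 3 365 401) (node 364 (merge (leaf 0 363 363) (leaf 3 364 397))))) (merge (node 401 (merge (leaf 3 365 365) (node 430 (merge (leaf 1 398 402) (leaf 1 397 429))))) (merge (node 433 (merge (node 434 (merge (leaf 0 398 401) (leaf 3 398 432))) (merge (node 401 (merge (leaf 0 398 434) (node 430 (merge (leaf 1 398 402) (leaf 1 397 429))))) (node 397 (merge (leaf 0 397 432) (node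 428 (merge (leaf 1 396 429) (node 396 (merge (leaf 1 395 427) (node 395 (merge (leaf 0 395 430) (node 363 (merge (leaf 3 362 362) (leaf 3 363 364)))))))))))))) (node 397 (merge (node 432 (merge (leaf 0 396 396) (leaf 0 397 433))) (merge (node 428 (merge (leaf 1 396 429) (node 396 (merge (leaf 1 395 427) (node 395 (merge (leaf 2 363 367) (leaf 0 395 430))))))) (node 432 (merge (leaf 0 397 433) (node 429 (merge (leaf 1 396 428) (node 461 (merge (leaf 6 365 493) (node 460 (merge (leaf 1 428 430) (node 365 (merge (leaf 3 364 364) (leaf 5 364 492))))))))))))))))))))) (merge (node 397 (merge (node 432 (merge (leaf 0 396 396) (node 433 (merge (leaf 0 397 400) (leaf 3 398 434))))) (merge (node 396 (merge (leaf 0 396 432) (node 395 (merge (leaf 0 395 430) (node 363 (merge (leaf 3 362 362) (leaf 3 363 364))))))) (merge (node 396 (merge (node 395 (merge (leaf 0 395 430) (node 427 (merge (leaf 1 394 426) (leaf 1 395 428))))) (merge (node 395 (merge (leaf 0 395 430) (node 363 (merge (leaf 3 362 362) (leaf 3 363 364))))) (node 428 (merge (leaf 1 395 427) (node 400 (merge (leaf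 1 396 429) (node 364 (merge (leaf 3 363 363) (leaf 3 364 365)))))))))) (node 400 (merge (node 433 (merge (leaf 0 397 432) (node 401 (merge (leaf 0 398 434) (node 430 (merge (leaf 1 398 402) (leaf 1 397 429))))))) (node 368 (merge (leaf 2 365 369) (node 336 (merge (leaf 5 303 304) (leaf 6 335 367))))))))))) (merge (node 397 (merge (node 432 (merge (leaf 0 396 396) (node 433 (merge (leaf 0 397 400) (leaf 3 398 434))))) (merge (node 396 (merge (leaf 0 396 432) (node 367 (merge (leaf 2 364 368) (node 366 (merge (leaf 7 334 334) (leaf 2 363 395))))))) (merge (node 368 (merge (node 400 (merge (leaf 2 365 369) (node 336 (merge (leaf 5 303 304) (leaf 5 335 432))))) (merge (node 369 (merge (leaf 2 365 400) (node 367 (merge (leaf 1 365 366) (leaf 1 366 370))))) (merge (node 336 (merge (leaf 6 335 367) (node 400 (merge (leaf 5 303 304) (leaf 5 335 432))))) (node 367 (merge (leaf 6 335 336) (node 366 (merge (leaf 7 334 334) (node 369 (merge (leaf 1 366 370) (leaf 1 365 397))))))))))) (node 368 (merge (node 367 (merge (leaf 6 335 336) (leaf 2 364 396))) (merge (node 369 (merge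 (leaf 2 365 400) (node 367 (merge (leaf 1 365 366) (leaf 1 366 370))))) (node 400 (merge (leaf 2 365 369) (node 428 (merge (leaf 1 396 429) (node 396 (merge (leaf 1 395 427) (node 364 (merge (leaf 3 363 363) (leaf 3 364 365)))))))))))))))) (merge (node 367 (merge (node 368 (merge (leaf 6 335 336) (node 366 (merge (leaf 7 334 334) (node 369 (merge (leaf 1 366 370) (leaf 1 365 397))))))) (merge (node 335 (merge (node 334 (merge (leaf 7 302 302) (leaf 7 334 366))) (merge (node 303 (merge (leaf 5 302 430) (node 272 (merge (leaf 6 271 304) (node 271 (merge (leaf 6 239 240) (leaf 5 270 366))))))) (node 302 (merge (leaf 7 302 334) (node 303 (merge (leaf 7 270 270) (leaf 5 302 430)))))))) (merge (node 336 (merge (leaf 6 335 368) (node 335 (merge (leaf 6 303 304) (node 302 (merge (leaf 7 302 334) (node 303 (merge (leaf 7 270 270) (leaf 5 302 430))))))))) (node 336 (merge (leaf 6 335 368) (node 335 (merge (leaf 6 303 304) (node 303 (merge (leaf 5 302 430) (node 270 (merge (leaf 7 270 302) (node 271 (merge (leaf 7 238 238) (leaf 5 270 366))))))))))))))) (node 526 (merge (node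 527 (merge (leaf 0 525 525) (node 562 (merge (leaf 3 526 559) (leaf 3 527 563))))) (node 367 (merge (node 335 (merge (node 334 (merge (leaf 7 302 302) (leaf 7 334 366))) (merge (node 303 (merge (leaf 5 302 430) (node 272 (merge (leaf 6 271 304) (node 271 (merge (leaf 6 239 240) (leaf 5 270 366))))))) (node 302 (merge (leaf 7 302 334) (node 303 (merge (leaf 7 270 270) (leaf 5 302 430)))))))) (merge (node 336 (merge (leaf 6 335 368) (node 335 (merge (leaf 6 303 304) (node 302 (merge (leaf 7 302 334) (node 303 (merge (leaf 7 270 270) (leaf 5 302 430))))))))) (merge (node 336 (merge (leaf 6 335 368) (node 335 (merge (leaf 6 303 304) (node 303 (merge (leaf 5 302 430) (node 270 (merge (leaf 7 270 302) (node 271 (merge (leaf 7 238 238) (leaf 5 270 366))))))))))) (node 366 (merge (leaf 7 334 334) (node 365 (merge (node 400 (merge (leaf 0 364 364) (node 401 (merge (leaf 3 365 398) (leaf 3 366 402))))) (merge (node 368 (merge (leaf 6 335 336) (node 400 (merge (leaf 0 364 364) (leaf 0 365 401))))) (merge (node 368 (merge (leaf 6 335 336) (node 332 (merge (leaf 3 332 333) (node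 364 (merge (leaf 3 331 331) (node 363 (merge (leaf 0 363 398) (node 395 (merge (leaf 1 362 394) (leaf 1 363 396))))))))))) (node 368 (merge (leaf 6 335 336) (node 401 (merge (leaf 0 365 400) (node 369 (merge (leaf 0 366 402) (node 370 (merge (leaf 1 366 398) (node 338 (merge (leaf 2 334 337) (leaf 2 335 339))))))))))))))))))))))))))))) (merge (node 400 (merge (node 367 (merge (node 334 (merge (leaf 7 334 366) (node 335 (merge (leaf 7 302 302) (node 432 (merge (leaf 4 303 303) (leaf 4 335 464))))))) (merge (node 368 (merge (leaf 6 335 336) (node 366 (merge (leaf 7 334 334) (node 365 (merge (leaf 0 364 364) (leaf 0 365 401))))))) (node 336 (merge (leaf 6 335 368) (node 335 (merge (leaf 6 303 304) (node 432 (merge (leaf 4 303 303) (leaf 4 335 464)))))))))) (merge (node 368 (merge (node 336 (merge (leaf 5 303 304) (leaf 6 335 367))) (node 430 (merge (node 464 (merge (leaf 7 431 496) (node 429 (merge (leaf 0 428 428) (node 465 (merge (leaf 0 429 432) (leaf 3 430 466))))))) (merge (node 401 (merge (leaf 1 398 402) (node 429 (merge (leaf 1 397 398) (leaf 2 396 428)))))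 (node 401 (merge (leaf 1 398 402) (node 464 (merge (leaf 7 431 496) (node 465 (merge (leaf 3 430 466) (node 497 (merge (leaf 4 368 432) (leaf 7 368 433)))))))))))))) (merge (node 401 (merge (node 430 (merge (leaf 1 398 402) (node 429 (merge (leaf 1 397 398) (leaf 2 396 428))))) (merge (node 402 (merge (leaf 1 398 430) (node 403 (merge (leaf 1 399 432) (node 371 (merge (leaf 2 367 370) (leaf 2 368 372))))))) (merge (node 398 (merge (node 430 (merge (leaf 1 397 429) (node 366 (merge (leaf 4 334 334) (leaf 3 365 365))))) (merge (node 365 (merge (leaf 3 365 366) (node 397 (merge (leaf 3 364 364) (node 432 (merge (leaf 0 396 396) (leaf 0 397 433))))))) (node 433 (merge (leaf 0 398 434) (node 397 (merge (leaf 0 397 432) (node 429 (merge (leaf 1 396 428) (leaf 1 397 430)))))))))) (node 402 (merge (node 403 (merge (leaf 1 399 432) (node 371 (merge (leaf 2 367 370) (leaf 2 368 372))))) (merge (node 435 (merge (leaf 0 399 434) (node 403 (merge (leaf 0 400 436) (node 371 (merge (leaf 2 367 370) (leaf 2 368 372))))))) (node 434 (merge (leaf 0 399 435) (node 398 (merge (leaf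 0 398 433) (node 365 (merge (leaf 3 365 366) (node 397 (merge (leaf 3 364 364) (node 396 (merge (leaf 0 396 432) (node 428 (merge (leaf 1 395 427) (leaf 1 396 429)))))))))))))))))))) (merge (node 401 (merge (node 430 (merge (leaf 1 398 402) (node 429 (merge (leaf 1 397 398) (leaf 2 396 428))))) (merge (node 402 (merge (leaf 1 398 430) (node 367 (merge (leaf 3 366 366) (node 368 (merge (leaf 6 335 336) (leaf 3 367 403))))))) (merge (node 366 (merge (node 334 (merge (leaf 7 334 367) (node 398 (merge (leaf 4 302 302) (leaf 4 334 430))))) (merge (node 398 (merge (leaf 3 365 365) (node 334 (merge (leaf 4 302 302) (leaf 4 334 430))))) (merge (node 365 (merge (leaf 3 365 398) (node 367 (merge (leaf 0 364 364) (leaf 0 365 368))))) (node 367 (merge (leaf 7 334 334) (node 368 (merge (leaf 6 335 336) (node 365 (merge (leaf 0 364 364) (leaf 0 365 401))))))))))) (node 367 (merge (node 366 (merge (leaf 7 334 334) (leaf 3 366 402))) (merge (node 366 (merge (leaf 7 334 334) (node 365 (merge (leaf 0 364 364) (leaf 3 365 398))))) (node 368 (merge (leaf 6 335 336) (node 402 (merge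 (leaf 3 367 403) (node 434 (merge (leaf 0 399 435) (node 433 (merge (leaf 0 398 398) (node 465 (merge (leaf 7 368 497) (node 370 (merge (leaf 5 337 338) (leaf 2 367 371)))))))))))))))))))) (hyp 2)))))) (merge (node 559 (merge (node 562 (merge (node 527 (merge (leaf 3 526 526) (leaf 3 527 563))) (node 594 (merge (leaf 0 559 595) (node 558 (merge (leaf 0 558 593) (node 590 (merge (leaf 1 557 589) (leaf 1 558 591))))))))) (node 400 (merge (node 368 (merge (node 336 (merge (leaf 5 303 304) (leaf 6 335 367))) (node 430 (merge (node 401 (merge (leaf 1 398 402) (node 429 (merge (leaf 1 397 398) (leaf 2 396 428))))) (merge (node 464 (merge (leaf 7 431 496) (node 429 (merge (leaf 0 428 428) (node 465 (merge (leaf 0 429 432) (leaf 3 430 466))))))) (node 401 (merge (leaf 1 398 402) (node 464 (merge (leaf 7 431 496) (node 465 (merge (leaf 3 430 466) (node 497 (merge (leaf 4 368 432) (leaf 7 368 433)))))))))))))) (merge (node 368 (merge (node 336 (merge (leaf 5 303 304) (leaf 6 335 367))) (merge (node 336 (merge (leaf 5 303 304) (leaf 5 335 432))) (node 369 (merge (node 370 (merge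 (leaf 1 367 371) (node 398 (merge (leaf 1 366 367) (leaf 2 365 397))))) (node 464 (merge (leaf 7 431 496) (node 432 (merge (leaf 6 336 337) (node 465 (merge (leaf 4 368 497) (node 466 (merge (leaf 3 430 430) (leaf 3 431 467)))))))))))))) (merge (node 464 (merge (leaf 7 431 496) (node 430 (merge (node 429 (merge (leaf 0 428 428) (node 401 (merge (leaf 1 397 398) (leaf 1 398 402))))) (merge (node 429 (merge (leaf 0 428 428) (node 465 (merge (leaf 0 429 432) (leaf 3 430 466))))) (node 401 (merge (leaf 1 398 402) (node 398 (merge (node 366 (merge (leaf 4 334 334) (leaf 3 365 365))) (node 433 (merge (leaf 0 398 434) (node 432 (merge (leaf 0 397 397) (node 369 (merge (leaf 2 366 370) (node 337 (merge (leaf 5 304 305) (leaf 5 336 464)))))))))))))))))) (merge (node 366 (merge (node 334 (merge (leaf 7 334 367) (node 398 (merge (leaf 4 302 302) (leaf 4 334 430))))) (merge (node 367 (merge (leaf 7 334 334) (node 368 (merge (leaf 6 335 336) (node 401 (merge (leaf 0 365 365) (leaf 3 366 402))))))) (node 401 (merge (node 430 (merge (leaf 1 398 402) (node 429 (merge (leaf 1 397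 398) (leaf 2 396 428))))) (merge (node 398 (merge (leaf 3 365 365) (node 434 (merge (leaf 0 398 433) (node 402 (merge (leaf 0 399 435) (node 370 (merge (leaf 2 366 369) (leaf 2 367 371))))))))) (merge (node 398 (merge (leaf 3 365 365) (node 429 (merge (leaf 1 397 430) (node 397 (merge (leaf 1 396 428) (node 369 (merge (leaf 2 365 368) (leaf 2 366 370))))))))) (node 402 (merge (leaf 1 398 430) (node 435 (merge (leaf 0 399 434) (node 403 (merge (leaf 0 400 436) (node 371 (merge (leaf 2 367 370) (leaf 2 368 372)))))))))))))))) (merge (node 368 (merge (node 336 (merge (leaf 5 303 304) (leaf 6 335 367))) (merge (node 336 (merge (leaf 5 303 304) (leaf 5 335 432))) (node 369 (merge (node 370 (merge (leaf 1 367 371) (node 398 (merge (leaf 1 366 367) (leaf 2 365 397))))) (node 464 (merge (leaf 7 431 496) (node 432 (merge (leaf 6 336 337) (node 465 (merge (leaf 4 368 497) (node 466 (merge (leaf 3 431 467) (node 498 (merge (leaf 0 463 499) (node 434 (merge (leaf 2 431 435) (node 401 (merge (leaf 7 369 402) (leaf 4 369 433)))))))))))))))))))) (node 368 (merge (node 336 (merge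 (leaf 5 303 304) (leaf 6 335 367))) (node 464 (merge (leaf 7 431 496) (node 465 (merge (node 430 (merge (leaf 3 430 466) (node 429 (merge (leaf 0 428 428) (leaf 0 429 432))))) (merge (node 466 (merge (leaf 3 430 430) (node 499 (merge (leaf 0 463 498) (node 467 (merge (leaf 0 464 500) (node 435 (merge (leaf 2 431 434) (leaf 2 432 436))))))))) (merge (node 432 (merge (leaf 4 368 497) (node 369 (merge (leaf 6 336 337) (node 466 (merge (leaf 3 431 467) (node 498 (merge (leaf 0 463 499) (node 434 (merge (leaf 2 431 435) (node 401 (merge (leaf 7 369 402) (leaf 4 369 433))))))))))))) (node 497 (merge (leaf 4 368 432) (node 401 (merge (leaf 7 368 433) (node 402 (merge (leaf 1 398 430) (node 435 (merge (leaf 0 399 434) (node 403 (merge (leaf 0 400 436) (node 371 (merge (leaf 2 367 370) (leaf 2 368 372))))))))))))))))))))))))))))) (merge (hyp 3) (merge (node 562 (merge (node 563 (merge (leaf 3 527 527) (node 596 (merge (leaf 0 560 595) (node 564 (merge (leaf 0 561 597) (node 532 (merge (leaf 2 528 531) (leaf 2 529 533))))))))) (hyp 4))) (merge (node 559 (merge (node 562 (merge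 (node 527 (merge (leaf 3 526 526) (leaf 3 527 563))) (node 594 (merge (leaf 0 559 595) (node 558 (merge (leaf 0 558 593) (node 590 (merge (leaf 1 557 589) (leaf 1 558 591))))))))) (merge (node 591 (merge (node 623 (merge (leaf 6 527 655) (node 496 (merge (leaf 5 463 464) (leaf 6 495 527))))) (node 590 (merge (leaf 1 558 562) (node 589 (merge (leaf 1 557 558) (leaf 2 556 588))))))) (merge (hyp 5) (merge (hyp 6) (node 562 (merge (node 527 (merge (leaf 3 526 526) (leaf 3 527 563))) (hyp 7)))))))) (merge (hyp 8) (merge (node 334 (merge (node 366 (merge (leaf 7 334 367) (node 398 (merge (leaf 4 302 302) (leaf 4 334 430))))) (merge (node 367 (merge (leaf 7 334 366) (node 335 (merge (leaf 7 302 302) (node 464 (merge (leaf 4 335 432) (leaf 7 431 496))))))) (merge (node 430 (merge (node 366 (merge (leaf 7 334 367) (leaf 4 334 398))) (node 464 (merge (leaf 7 431 496) (node 429 (merge (leaf 0 428 428) (node 465 (merge (leaf 0 429 432) (leaf 3 430 466))))))))) (merge (hyp 9) (node 335 (merge (node 367 (merge (leaf 7 302 302) (node 464 (merge (leaf 4 335 432) (leaf 7 431 496)))))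 (merge (node 367 (merge (leaf 7 302 302) (node 304 (merge (leaf 6 303 336) (node 303 (merge (leaf 6 271 272) (node 432 (merge (leaf 4 303 400) (leaf 4 335 464))))))))) (merge (node 559 (merge (node 591 (merge (node 623 (merge (leaf 6 527 655) (node 527 (merge (leaf 6 495 496) (node 526 (merge (leaf 7 494 494) (leaf 0 525 525))))))) (node 336 (merge (node 367 (merge (leaf 7 302 302) (leaf 6 303 304))) (merge (node 302 (merge (leaf 7 302 367) (node 301 (merge (leaf 3 301 337) (node 300 (merge (leaf 0 299 299) (leaf 0 300 303))))))) (merge (node 304 (merge (leaf 6 303 367) (node 305 (merge (leaf 2 301 333) (node 306 (merge (leaf 1 302 303) (leaf 1 303 307))))))) (node 301 (merge (node 300 (merge (leaf 3 300 333) (node 302 (merge (leaf 0 299 299) (leaf 3 301 337))))) (merge (node 333 (merge (leaf 3 300 300) (node 364 (merge (leaf 1 332 365) (node 332 (merge (leaf 1 331 363) (node 304 (merge (leaf 2 300 303) (leaf 2 301 305))))))))) (node 337 (merge (leaf 3 301 302) (node 370 (merge (leaf 0 334 369) (node 338 (merge (leaf 0 335 371) (node 306 (merge (leaf 2 302 305) (leaf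 2 303 307)))))))))))))))))) (merge (node 591 (merge (node 590 (merge (leaf 1 558 562) (node 589 (merge (leaf 1 557 558) (leaf 2 556 588))))) (node 336 (merge (node 367 (merge (leaf 7 302 302) (leaf 6 303 304))) (merge (node 302 (merge (leaf 7 302 367) (node 301 (merge (leaf 3 301 337) (node 300 (merge (leaf 0 299 299) (leaf 0 300 303))))))) (merge (node 304 (merge (leaf 6 303 367) (node 305 (merge (leaf 2 301 333) (node 306 (merge (leaf 1 302 303) (leaf 1 303 307))))))) (node 301 (merge (node 300 (merge (leaf 3 300 333) (node 302 (merge (leaf 0 299 299) (leaf 3 301 337))))) (merge (node 333 (merge (leaf 3 300 300) (node 364 (merge (leaf 1 332 365) (node 332 (merge (leaf 1 331 363) (node 304 (merge (leaf 2 300 303) (leaf 2 301 305))))))))) (node 337 (merge (leaf 3 301 302) (node 370 (merge (leaf 0 334 369) (node 338 (merge (leaf 0 335 371) (node 306 (merge (leaf 2 302 305) (leaf 2 303 307)))))))))))))))))) (node 594 (merge (node 562 (merge (leaf 0 559 595) (node 527 (merge (leaf 3 526 526) (leaf 3 527 563))))) (merge (node 593 (merge (leaf 0 558 558) (node 595 (merge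 (leaf 0 559 562) (leaf 3 560 596))))) (node 558 (merge (leaf 0 558 593) (node 589 (merge (leaf 1 557 590) (node 557 (merge (leaf 1 556 588) (node 525 (merge (leaf 3 524 524) (leaf 3 525 526))))))))))))))) (merge (node 333 (merge (node 464 (merge (leaf 7 431 496) (node 367 (merge (leaf 4 335 432) (node 304 (merge (leaf 6 303 336) (node 303 (merge (leaf 6 271 272) (leaf 2 300 332))))))))) (merge (node 332 (merge (node 304 (merge (leaf 2 300 303) (node 336 (merge (leaf 2 301 305) (node 300 (merge (leaf 3 299 299) (leaf 3 300 301))))))) (merge (node 363 (merge (leaf 1 331 364) (node 331 (merge (leaf 1 330 362) (node 299 (merge (leaf 3 298 298) (leaf 3 299 300))))))) (node 364 (merge (leaf 1 331 363) (node 336 (merge (leaf 1 332 365) (node 304 (merge (leaf 2 300 303) (leaf 2 301 305)))))))))) (merge (node 464 (merge (leaf 7 431 496) (node 432 (merge (leaf 4 335 367) (node 430 (merge (node 429 (merge (leaf 0 428 428) (leaf 0 429 465))) (merge (node 429 (merge (leaf 0 428 428) (node 401 (merge (leaf 2 397 400) (node 433 (merge (leaf 2 398 402) (node 434 (merge (leaf 3 398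 398) (leaf 1 431 435))))))))) (node 398 (merge (node 433 (merge (leaf 3 397 397) (leaf 3 398 434))) (merge (node 397 (merge (leaf 0 396 396) (node 365 (merge (leaf 4 301 301) (node 364 (merge (leaf 1 332 336) (leaf 3 364 400))))))) (node 433 (merge (leaf 3 398 434) (node 465 (merge (leaf 0 430 466) (node 401 (merge (leaf 2 398 402) (node 369 (merge (leaf 5 336 337) (node 370 (merge (leaf 6 337 338) (leaf 2 366 400))))))))))))))))))))) (node 559 (merge (node 526 (merge (node 527 (merge (leaf 0 525 525) (leaf 3 526 562))) (merge (node 525 (merge (leaf 0 525 527) (leaf 3 525 558))) (merge (node 562 (merge (leaf 3 526 527) (node 594 (merge (leaf 0 559 595) (node 558 (merge (leaf 0 558 593) (node 590 (merge (leaf 1 557 589) (leaf 1 558 591))))))))) (node 558 (merge (leaf 3 525 525) (node 590 (merge (leaf 1 557 589) (node 591 (merge (leaf 1 558 562) (node 623 (merge (leaf 4 494 494) (leaf 6 527 655))))))))))))) (node 332 (merge (node 363 (merge (leaf 1 331 364) (node 331 (merge (leaf 1 330 362) (node 299 (merge (leaf 3 298 298) (leaf 3 299 300))))))) (merge (node 300 (merge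 (leaf 3 299 299) (node 397 (merge (node 365 (merge (leaf 7 300 429) (node 268 (merge (leaf 4 236 236) (leaf 7 268 301))))) (node 464 (merge (leaf 7 431 496) (node 432 (merge (leaf 4 335 367) (node 398 (merge (leaf 0 396 396) (node 433 (merge (leaf 0 397 400) (leaf 3 397 430))))))))))))) (node 364 (merge (leaf 1 331 363) (node 303 (merge (leaf 2 300 304) (node 464 (merge (leaf 7 431 496) (node 367 (merge (leaf 4 335 432) (node 430 (merge (leaf 5 302 398) (node 428 (merge (leaf 0 428 429) (node 396 (merge (leaf 6 300 301) (node 460 (merge (leaf 6 332 365) (node 459 (merge (leaf 5 331 427) (leaf 5 363 491)))))))))))))))))))))))))))) (node 559 (merge (node 526 (merge (node 527 (merge (leaf 0 525 525) (leaf 3 526 562))) (merge (node 525 (merge (leaf 0 525 527) (leaf 3 525 558))) (merge (node 562 (merge (leaf 3 526 527) (node 594 (merge (leaf 0 559 595) (node 558 (merge (leaf 0 558 593) (node 590 (merge (leaf 1 557 589) (leaf 1 558 591))))))))) (node 558 (merge (leaf 3 525 525) (node 594 (merge (leaf 0 558 593) (node 562 (merge (leaf 0 559 595) (node 590 (merge (leaf 1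 557 589) (leaf 1 558 591))))))))))))) (hyp 10))))))))))))) (hyp 11))))))))))))))))) nP_416 cP_416 16 (by decide +kernel)
def nP_417 : ℕ := 0x100000001000000000000000080000000800000000000000000000000000000000000000000000000000000000000000000000000000000000000000000000000000000000000
def cP_417 : ℕ := 0xfb000000ff000003ffe00001ffc00003ffc00007ff800007ffc0000fefc00007ef80000fcfc00001f7800007f3e00007f7f00003ffe00007fff00003ffe00000ffe00000ffc000005f0000001f000000000000000000000000000000000000000000000000000
theorem lP_417 : S nP_417 cP_417 17 := S_of_chk [(nP_383, cP_383, 16), (nP_385, cP_385, 13), (nP_394, cP_394, 16), (nP_398, cP_398, 15), (nP_401, cP_401, 15), (nP_403, cP_403, 15), (nP_416, cP_416, 16)] ⟨lP_383, lP_385, lP_394, lP_398, lP_401, lP_403, lP_416, trivial⟩ (node 561 (merge (node 562 (merge (node 527 (merge (leaf 3 527 563) (node 526 (merge (leaf 0 525 525) (leaf 3 526 559))))) (merge (node 563 (merge (leaf 3 527 527) (node 596 (merge (leaf 0 560 595) (node 564 (merge (leaf 0 561 597) (node 532 (merge (leaf 2 528 531) (leaf 2 529 533))))))))) (merge (node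 559 (merge (node 590 (merge (leaf 1 558 591) (node 558 (merge (leaf 1 557 589) (node 526 (merge (leaf 3 525 525) (leaf 3 526 527))))))) (node 594 (merge (leaf 0 559 595) (node 530 (merge (leaf 2 527 531) (node 626 (merge (node 659 (merge (leaf 4 530 627) (node 658 (merge (leaf 4 562 691) (node 657 (merge (leaf 5 529 625) (leaf 5 561 689))))))) (merge (node 625 (merge (leaf 5 529 657) (node 498 (merge (leaf 5 497 593) (node 467 (merge (leaf 6 466 499) (node 466 (merge (leaf 6 434 435) (node 465 (merge (leaf 7 433 433) (leaf 7 465 497))))))))))) (merge (node 659 (merge (leaf 4 530 627) (node 658 (merge (leaf 4 562 691) (node 593 (merge (leaf 7 561 690) (node 498 (merge (leaf 5 465 466) (leaf 5 497 625))))))))) (node 659 (merge (leaf 4 530 627) (node 658 (merge (leaf 4 562 691) (node 690 (merge (leaf 7 561 593) (node 689 (merge (leaf 5 561 657) (leaf 5 593 721))))))))))))))))))) (node 530 (merge (node 531 (merge (leaf 2 527 559) (node 532 (merge (leaf 1 529 533) (leaf 2 528 563))))) (merge (node 559 (merge (leaf 2 527 531) (node 594 (merge (leaf 0 559 595) (node 558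 (merge (leaf 0 558 593) (node 590 (merge (leaf 1 557 589) (leaf 1 558 591))))))))) (merge (node 498 (merge (node 593 (merge (leaf 5 465 466) (node 625 (merge (leaf 5 497 594) (leaf 6 529 657))))) (merge (node 466 (merge (leaf 5 465 593) (node 435 (merge (leaf 6 434 467) (node 434 (merge (leaf 6 402 403) (node 465 (merge (leaf 7 433 433) (leaf 2 431 464))))))))) (merge (node 594 (merge (node 595 (merge (leaf 4 498 627) (node 596 (merge (leaf 0 560 563) (leaf 3 561 597))))) (node 499 (merge (leaf 6 466 467) (node 626 (merge (leaf 6 498 531) (node 625 (merge (leaf 5 497 593) (leaf 5 529 657))))))))) (node 563 (merge (node 595 (merge (leaf 0 560 596) (node 531 (merge (leaf 2 528 532) (leaf 7 498 627))))) (merge (node 595 (merge (leaf 0 560 596) (node 627 (merge (leaf 7 530 659) (node 498 (merge (leaf 4 466 466) (leaf 4 498 594))))))) (node 531 (merge (leaf 2 528 532) (node 466 (merge (leaf 4 434 434) (node 467 (merge (leaf 6 434 435) (node 499 (merge (leaf 6 466 594) (node 465 (merge (leaf 7 433 433) (leaf 0 463 464)))))))))))))))))) (node 594 (merge (node 595 (merge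 (leaf 0 559 559) (node 596 (merge (leaf 0 560 563) (leaf 3 561 597))))) (node 626 (merge (node 659 (merge (leaf 4 530 627) (node 658 (merge (leaf 4 562 691) (node 657 (merge (leaf 5 529 625) (leaf 5 561 689))))))) (merge (node 625 (merge (leaf 5 529 657) (node 498 (merge (leaf 5 497 593) (node 467 (merge (leaf 6 466 499) (node 466 (merge (leaf 6 434 435) (node 465 (merge (leaf 7 433 433) (leaf 7 465 497))))))))))) (merge (node 659 (merge (leaf 4 530 627) (node 658 (merge (leaf 4 562 691) (node 593 (merge (leaf 7 561 690) (node 498 (merge (leaf 5 465 466) (leaf 5 497 625))))))))) (node 659 (merge (leaf 4 530 627) (node 658 (merge (leaf 4 562 691) (node 690 (merge (leaf 7 561 593) (node 689 (merge (leaf 5 561 657) (leaf 5 593 721))))))))))))))))))))))) (merge (node 562 (merge (node 563 (merge (leaf 3 527 527) (node 596 (merge (leaf 0 560 595) (node 564 (merge (leaf 0 561 597) (node 532 (merge (leaf 2 528 531) (leaf 2 529 533))))))))) (merge (node 559 (merge (node 496 (merge (leaf 7 431 464) (node 591 (merge (leaf 1 558 590) (node 623 (merge (leaf 6 495 527) (leaf 6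 527 655))))))) (node 594 (merge (leaf 0 559 595) (node 593 (merge (leaf 0 558 558) (node 625 (merge (leaf 7 528 657) (node 530 (merge (leaf 5 497 498) (leaf 2 527 531))))))))))) (merge (node 466 (merge (node 464 (merge (leaf 7 431 496) (node 465 (merge (leaf 3 430 430) (node 435 (merge (leaf 2 431 434) (node 467 (merge (leaf 3 431 432) (leaf 2 432 436))))))))) (merge (node 464 (merge (leaf 7 431 496) (node 465 (merge (leaf 3 430 430) (node 498 (merge (leaf 0 463 499) (node 530 (merge (leaf 7 433 433) (leaf 5 465 593))))))))) (merge (node 530 (merge (node 531 (merge (leaf 2 527 559) (node 532 (merge (leaf 1 529 533) (leaf 2 528 563))))) (node 498 (merge (leaf 5 465 593) (node 435 (merge (leaf 6 434 467) (node 434 (merge (leaf 6 402 403) (node 433 (merge (leaf 7 401 401) (leaf 7 433 465))))))))))) (node 530 (merge (node 531 (merge (leaf 2 527 559) (node 532 (merge (leaf 1 529 533) (leaf 2 528 563))))) (node 464 (merge (leaf 7 431 496) (node 498 (merge (leaf 5 465 593) (node 435 (merge (leaf 6 434 467) (node 434 (merge (leaf 6 402 403) (node 433 (merge (leaf 7 401 401)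 (leaf 1 431 432))))))))))))))))) (node 464 (merge (leaf 7 431 496) (node 430 (merge (node 429 (merge (leaf 0 428 428) (node 465 (merge (leaf 0 429 432) (leaf 3 430 466))))) (node 563 (merge (leaf 3 527 527) (node 564 (merge (node 596 (merge (leaf 0 560 595) (leaf 0 561 597))) (merge (node 533 (merge (leaf 2 529 532) (node 565 (merge (leaf 2 530 534) (node 594 (merge (leaf 1 561 593) (node 595 (merge (leaf 0 559 559) (leaf 1 562 566))))))))) (node 597 (merge (leaf 0 561 596) (node 565 (merge (leaf 0 562 598) (node 533 (merge (leaf 2 529 532) (leaf 2 530 534)))))))))))))))))))) (merge (hyp 0) (merge (node 562 (merge (node 527 (merge (leaf 3 527 563) (node 526 (merge (leaf 0 525 525) (leaf 3 526 559))))) (merge (node 563 (merge (leaf 3 527 527) (node 596 (merge (leaf 0 560 595) (node 564 (merge (leaf 0 561 597) (node 532 (merge (leaf 2 528 531) (leaf 2 529 533))))))))) (merge (node 559 (merge (node 496 (merge (leaf 7 431 464) (node 591 (merge (leaf 1 558 590) (node 527 (merge (leaf 3 526 526) (leaf 6 495 623))))))) (merge (node 594 (merge (leaf 0 559 595) (node 558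 (merge (leaf 0 558 593) (node 526 (merge (leaf 3 525 525) (leaf 3 526 527))))))) (node 594 (merge (leaf 0 559 595) (node 558 (merge (leaf 0 558 593) (node 590 (merge (leaf 1 557 589) (leaf 1 558 591)))))))))) (node 464 (merge (leaf 7 431 496) (node 399 (merge (node 595 (merge (node 596 (merge (leaf 0 560 563) (node 594 (merge (leaf 3 560 593) (leaf 3 561 597))))) (merge (node 594 (merge (leaf 0 559 559) (node 596 (merge (leaf 3 560 593) (leaf 3 561 597))))) (merge (node 563 (merge (leaf 0 560 596) (node 531 (merge (leaf 2 528 532) (node 530 (merge (leaf 2 527 559) (node 627 (merge (leaf 7 498 498) (leaf 7 530 659))))))))) (node 530 (merge (node 531 (merge (leaf 2 527 559) (node 532 (merge (leaf 1 529 533) (leaf 2 528 563))))) (merge (node 594 (merge (leaf 0 559 559) (node 498 (merge (leaf 4 498 627) (node 593 (merge (leaf 5 465 466) (leaf 5 497 625))))))) (node 498 (merge (node 466 (merge (leaf 4 466 563) (leaf 5 465 593))) (merge (node 627 (merge (leaf 4 498 594) (node 563 (merge (leaf 7 498 531) (leaf 7 530 659))))) (node 593 (merge (leaf 5 465 466) (node 625 (merge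 (leaf 5 497 594) (leaf 6 529 657))))))))))))))) (node 367 (merge (node 336 (merge (leaf 6 335 368) (node 335 (merge (leaf 6 303 304) (leaf 4 335 432))))) (merge (node 334 (merge (leaf 7 334 366) (node 335 (merge (leaf 7 302 302) (leaf 4 335 432))))) (node 368 (merge (leaf 6 335 336) (node 366 (merge (leaf 7 334 334) (node 365 (merge (node 396 (merge (leaf 1 364 397) (node 364 (merge (leaf 1 363 395) (node 332 (merge (leaf 3 331 331) (leaf 3 332 333))))))) (merge (node 397 (merge (leaf 1 364 396) (node 369 (merge (leaf 1 365 398) (node 402 (merge (leaf 0 366 401) (node 370 (merge (leaf 0 367 403) (node 338 (merge (leaf 2 334 337) (leaf 2 335 339))))))))))) (merge (node 332 (merge (leaf 3 332 333) (node 364 (merge (leaf 3 331 331) (node 398 (merge (leaf 0 363 363) (node 369 (merge (leaf 1 366 370) (leaf 1 365 397))))))))) (node 332 (merge (leaf 3 332 333) (node 364 (merge (leaf 3 331 331) (node 363 (merge (leaf 0 363 398) (node 395 (merge (leaf 1 362 394) (leaf 1 363 396)))))))))))))))))))))))))))) (merge (hyp 1) (merge (node 562 (merge (node 527 (merge (leaf 3 527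 563) (node 526 (merge (leaf 0 525 525) (leaf 3 526 559))))) (merge (node 563 (merge (leaf 3 527 527) (node 596 (merge (leaf 0 560 595) (node 564 (merge (leaf 0 561 597) (node 532 (merge (leaf 2 528 531) (leaf 2 529 533))))))))) (merge (node 559 (merge (node 496 (merge (leaf 7 431 464) (node 591 (merge (leaf 1 558 590) (node 527 (merge (leaf 3 526 526) (leaf 6 495 623))))))) (merge (node 594 (merge (leaf 0 559 595) (node 558 (merge (leaf 0 558 593) (node 526 (merge (leaf 3 525 525) (leaf 3 526 527))))))) (node 594 (merge (leaf 0 559 595) (node 558 (merge (leaf 0 558 593) (node 590 (merge (leaf 1 557 589) (leaf 1 558 591)))))))))) (node 399 (merge (node 464 (merge (leaf 7 431 496) (node 367 (merge (node 334 (merge (leaf 7 334 366) (node 335 (merge (leaf 7 302 302) (leaf 4 335 432))))) (merge (node 336 (merge (leaf 6 335 368) (node 335 (merge (leaf 6 303 304) (leaf 4 335 432))))) (node 366 (merge (leaf 7 334 334) (node 365 (merge (node 400 (merge (leaf 0 364 364) (node 401 (merge (leaf 3 365 398) (leaf 3 366 402))))) (merge (node 368 (merge (leaf 6 335 336) (node 400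 (merge (leaf 0 364 364) (leaf 0 365 401))))) (merge (node 368 (merge (leaf 6 335 336) (node 397 (merge (leaf 1 364 396) (node 398 (merge (leaf 1 365 369) (node 364 (merge (leaf 0 363 363) (node 332 (merge (leaf 3 331 331) (leaf 3 332 333))))))))))) (node 368 (merge (leaf 6 335 336) (node 401 (merge (leaf 0 365 400) (node 369 (merge (leaf 0 366 402) (node 397 (merge (leaf 1 364 396) (leaf 1 365 398)))))))))))))))))))) (merge (node 430 (merge (node 464 (merge (leaf 7 431 496) (node 429 (merge (leaf 0 428 428) (node 465 (merge (leaf 0 429 432) (leaf 3 430 466))))))) (node 531 (merge (node 530 (merge (leaf 2 527 559) (node 532 (merge (leaf 1 529 533) (leaf 2 528 563))))) (merge (node 559 (merge (leaf 2 527 530) (node 594 (merge (leaf 0 559 595) (node 558 (merge (leaf 0 558 593) (node 590 (merge (leaf 1 557 589) (leaf 1 558 591))))))))) (merge (node 563 (merge (leaf 2 528 532) (node 595 (merge (leaf 0 560 596) (node 594 (merge (leaf 0 559 559) (node 626 (merge (leaf 5 498 499) (leaf 6 530 658))))))))) (node 563 (merge (leaf 2 528 532) (node 594 (merge (node 626 (merge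 (leaf 6 530 658) (node 499 (merge (leaf 5 466 467) (leaf 6 498 530))))) (node 564 (merge (node 596 (merge (leaf 0 560 595) (leaf 0 561 597))) (merge (node 595 (merge (leaf 0 560 596) (node 565 (merge (leaf 1 562 566) (leaf 1 561 593))))) (merge (node 597 (merge (leaf 0 561 596) (node 565 (merge (leaf 1 561 593) (leaf 0 562 598))))) (node 565 (merge (leaf 1 561 593) (node 598 (merge (leaf 0 562 597) (node 566 (merge (leaf 1 562 595) (leaf 0 563 599))))))))))))))))))))) (node 430 (merge (node 531 (merge (node 530 (merge (leaf 2 527 559) (node 532 (merge (leaf 1 529 533) (leaf 2 528 563))))) (merge (node 559 (merge (leaf 2 527 530) (node 594 (merge (leaf 0 559 595) (node 558 (merge (leaf 0 558 593) (node 590 (merge (leaf 1 557 589) (leaf 1 558 591))))))))) (merge (node 563 (merge (leaf 2 528 532) (node 595 (merge (leaf 0 560 596) (node 594 (merge (leaf 0 559 559) (node 626 (merge (leaf 5 498 499) (leaf 6 530 658))))))))) (node 563 (merge (leaf 2 528 532) (node 594 (merge (node 626 (merge (leaf 6 530 658) (node 499 (merge (leaf 5 466 467) (leaf 6 498 530))))) (node 564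 (merge (node 596 (merge (leaf 0 560 595) (leaf 0 561 597))) (merge (node 595 (merge (leaf 0 560 596) (node 565 (merge (leaf 1 562 566) (leaf 1 561 593))))) (merge (node 597 (merge (leaf 0 561 596) (node 565 (merge (leaf 1 561 593) (leaf 0 562 598))))) (node 565 (merge (leaf 1 561 593) (node 598 (merge (leaf 0 562 597) (node 566 (merge (leaf 1 562 595) (leaf 0 563 599))))))))))))))))))) (node 398 (merge (node 367 (merge (node 334 (merge (leaf 7 334 366) (node 335 (merge (leaf 7 302 302) (leaf 5 302 303))))) (merge (node 336 (merge (leaf 6 335 368) (node 335 (merge (leaf 5 302 303) (leaf 6 303 304))))) (node 368 (merge (leaf 6 335 336) (node 366 (merge (leaf 7 334 334) (node 397 (merge (leaf 1 365 369) (leaf 2 364 396)))))))))) (merge (node 400 (merge (node 401 (merge (leaf 1 398 402) (leaf 1 397 429))) (node 368 (merge (node 336 (merge (leaf 5 303 304) (leaf 6 335 367))) (node 397 (merge (leaf 2 365 369) (node 396 (merge (leaf 0 395 395) (node 364 (merge (leaf 3 363 363) (leaf 3 364 365))))))))))) (merge (node 367 (merge (node 336 (merge (leaf 6 335 368) (node 335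 (merge (leaf 5 302 303) (leaf 6 303 304))))) (merge (node 334 (merge (leaf 7 334 366) (node 335 (merge (leaf 7 302 302) (leaf 5 302 303))))) (node 366 (merge (leaf 7 334 334) (node 368 (merge (leaf 6 335 336) (node 369 (merge (leaf 1 366 370) (node 401 (merge (leaf 0 366 402) (node 400 (merge (leaf 0 365 365) (leaf 1 397 429)))))))))))))) (node 397 (merge (node 396 (merge (leaf 0 395 395) (node 364 (merge (leaf 3 363 363) (node 400 (merge (leaf 3 364 365) (node 401 (merge (leaf 1 398 402) (leaf 1 397 429))))))))) (merge (node 396 (merge (leaf 0 395 395) (node 428 (merge (leaf 1 395 427) (node 400 (merge (leaf 1 396 429) (node 401 (merge (leaf 1 398 402) (node 366 (merge (leaf 4 334 334) (leaf 3 365 365))))))))))) (merge (node 396 (merge (leaf 0 395 395) (node 428 (merge (leaf 1 395 427) (node 364 (merge (leaf 3 363 363) (node 365 (merge (leaf 3 364 400) (node 333 (merge (leaf 4 301 301) (leaf 6 332 460))))))))))) (merge (node 429 (merge (node 428 (merge (leaf 1 396 400) (leaf 2 395 427))) (merge (node 400 (merge (leaf 1 397 401) (node 365 (merge (leaf 3 364 364)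 (node 333 (merge (leaf 4 301 301) (node 334 (merge (leaf 6 301 302) (leaf 4 334 366))))))))) (node 428 (merge (leaf 2 395 427) (node 460 (merge (leaf 1 427 459) (node 492 (merge (leaf 6 396 524) (node 365 (merge (leaf 5 332 333) (leaf 5 364 461)))))))))))) (merge (node 396 (merge (leaf 0 395 395) (node 428 (merge (leaf 1 395 427) (node 429 (merge (leaf 1 396 400) (node 364 (merge (leaf 3 363 363) (node 332 (merge (leaf 4 300 300) (leaf 4 332 461))))))))))) (node 429 (merge (node 396 (merge (leaf 0 395 395) (node 428 (merge (leaf 1 395 427) (node 364 (merge (leaf 3 363 363) (node 332 (merge (leaf 4 300 300) (leaf 4 332 461))))))))) (merge (node 428 (merge (leaf 2 395 427) (node 460 (merge (leaf 1 427 459) (node 492 (merge (leaf 6 396 524) (node 365 (merge (leaf 5 332 333) (leaf 5 364 461))))))))) (merge (node 396 (merge (leaf 0 395 395) (node 364 (merge (leaf 3 363 363) (node 461 (merge (leaf 7 364 493) (node 332 (merge (leaf 4 300 300) (leaf 7 332 365))))))))) (node 396 (merge (leaf 0 395 395) (node 428 (merge (leaf 1 395 427) (node 460 (merge (leaf 1 427 459) (node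 492 (merge (leaf 6 364 365) (leaf 6 396 524)))))))))))))))))))))))))))))))) (merge (node 562 (merge (node 527 (merge (leaf 3 527 563) (node 526 (merge (leaf 0 525 525) (leaf 3 526 559))))) (merge (node 563 (merge (leaf 3 527 527) (node 596 (merge (leaf 0 560 595) (node 564 (merge (leaf 0 561 597) (node 532 (merge (leaf 2 528 531) (leaf 2 529 533))))))))) (merge (node 559 (merge (node 496 (merge (leaf 7 431 464) (node 591 (merge (leaf 1 558 590) (node 527 (merge (leaf 3 526 526) (leaf 6 495 623))))))) (merge (node 594 (merge (leaf 0 559 595) (node 558 (merge (leaf 0 558 593) (node 526 (merge (leaf 3 525 525) (leaf 3 526 527))))))) (node 594 (merge (leaf 0 559 595) (node 558 (merge (leaf 0 558 593) (node 590 (merge (leaf 1 557 589) (leaf 1 558 591)))))))))) (node 430 (merge (node 464 (merge (leaf 7 431 496) (node 429 (merge (leaf 0 428 428) (node 432 (merge (leaf 0 429 465) (node 461 (merge (leaf 1 428 460) (node 397 (merge (leaf 3 396 396) (node 398 (merge (leaf 3 397 433) (node 366 (merge (leaf 4 334 334) (leaf 6 365 493))))))))))))))) (merge (node 595 (merge (node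 594 (merge (leaf 0 559 559) (node 596 (merge (leaf 3 560 593) (leaf 3 561 597))))) (merge (node 596 (merge (leaf 0 560 563) (node 594 (merge (leaf 3 560 593) (leaf 3 561 597))))) (merge (node 563 (merge (leaf 0 560 596) (node 531 (merge (leaf 2 528 532) (node 530 (merge (leaf 2 527 559) (node 627 (merge (leaf 7 498 498) (leaf 7 530 659))))))))) (node 530 (merge (node 559 (merge (leaf 2 527 531) (leaf 0 559 594))) (merge (node 531 (merge (leaf 2 527 559) (node 532 (merge (leaf 1 529 533) (leaf 2 528 563))))) (merge (node 594 (merge (leaf 0 559 559) (node 627 (merge (leaf 4 498 498) (node 659 (merge (leaf 7 530 563) (leaf 4 530 626))))))) (node 594 (merge (node 627 (merge (leaf 4 498 498) (node 659 (merge (leaf 7 530 563) (leaf 7 562 691))))) (merge (node 627 (merge (leaf 4 498 498) (node 659 (merge (leaf 4 530 626) (leaf 7 562 691))))) (merge (node 625 (merge (node 593 (merge (leaf 5 497 498) (leaf 6 529 657))) (merge (node 626 (merge (leaf 5 529 657) (node 531 (merge (leaf 6 498 499) (node 532 (merge (leaf 1 529 533) (leaf 2 528 563))))))) (node 498 (merge (leaf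 5 497 593) (node 499 (merge (leaf 6 466 467) (node 531 (merge (leaf 6 498 626) (node 532 (merge (leaf 1 529 533) (leaf 2 528 563)))))))))))) (node 626 (merge (node 531 (merge (leaf 6 498 499) (node 532 (merge (leaf 1 529 533) (leaf 2 528 563))))) (node 659 (merge (leaf 4 530 627) (node 658 (merge (leaf 4 562 691) (node 657 (merge (leaf 5 529 625) (leaf 5 561 689))))))))))))))))))))) (node 429 (merge (node 428 (merge (node 459 (merge (leaf 1 427 460) (node 427 (merge (leaf 1 426 458) (node 399 (merge (leaf 2 395 398) (leaf 2 396 400))))))) (merge (node 399 (merge (leaf 2 396 400) (node 427 (merge (leaf 2 395 398) (node 395 (merge (leaf 3 394 394) (leaf 3 395 396))))))) (node 460 (merge (leaf 1 427 459) (node 432 (merge (leaf 1 428 461) (node 396 (merge (leaf 3 395 395) (leaf 3 396 397)))))))))) (merge (node 559 (merge (node 595 (merge (leaf 0 559 594) (node 563 (merge (leaf 0 560 596) (node 531 (merge (leaf 2 527 530) (leaf 2 528 532))))))) (merge (node 590 (merge (leaf 1 558 591) (node 558 (merge (leaf 1 557 589) (node 525 (merge (leaf 3 525 526) (node 557 (merge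 (leaf 3 524 524) (node 461 (merge (leaf 4 461 493) (node 460 (merge (leaf 1 428 432) (node 459 (merge (leaf 1 427 428) (leaf 2 426 458))))))))))))))) (node 590 (merge (leaf 1 558 591) (node 558 (merge (leaf 1 557 589) (node 525 (merge (leaf 3 525 526) (node 557 (merge (leaf 3 524 524) (node 461 (merge (leaf 4 461 493) (node 460 (merge (leaf 1 428 432) (node 459 (merge (leaf 1 427 428) (leaf 2 426 458)))))))))))))))))) (merge (node 559 (merge (node 595 (merge (leaf 0 559 594) (node 563 (merge (leaf 0 560 596) (node 531 (merge (leaf 2 527 530) (leaf 2 528 532))))))) (node 590 (merge (leaf 1 558 591) (node 558 (merge (leaf 1 557 589) (node 525 (merge (leaf 3 525 526) (node 557 (merge (leaf 3 524 524) (node 461 (merge (leaf 4 461 493) (node 432 (merge (leaf 1 428 460) (node 401 (merge (leaf 2 397 400) (node 433 (merge (leaf 2 398 402) (node 397 (merge (leaf 3 396 396) (leaf 3 397 398))))))))))))))))))))) (node 399 (merge (node 428 (merge (leaf 2 396 400) (node 427 (merge (leaf 2 395 398) (node 395 (merge (leaf 3 394 394) (leaf 3 395 396))))))) (node 531 (merge (node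 530 (merge (leaf 2 527 559) (node 532 (merge (leaf 1 529 533) (leaf 2 528 563))))) (merge (node 559 (merge (leaf 2 527 530) (node 594 (merge (leaf 0 559 595) (node 558 (merge (leaf 0 558 593) (node 590 (merge (leaf 1 557 589) (leaf 1 558 591))))))))) (merge (node 563 (merge (leaf 2 528 532) (node 595 (merge (leaf 0 560 596) (node 594 (merge (leaf 0 559 559) (node 626 (merge (leaf 5 498 499) (leaf 6 530 658))))))))) (node 563 (merge (leaf 2 528 532) (node 594 (merge (node 626 (merge (leaf 6 530 658) (node 499 (merge (leaf 5 466 467) (leaf 6 498 530))))) (node 564 (merge (node 596 (merge (leaf 0 560 595) (leaf 0 561 597))) (merge (node 595 (merge (leaf 0 560 596) (node 565 (merge (leaf 1 562 566) (leaf 1 561 593))))) (merge (node 597 (merge (leaf 0 561 596) (node 565 (merge (leaf 1 561 593) (leaf 0 562 598))))) (node 565 (merge (leaf 1 561 593) (node 598 (merge (leaf 0 562 597) (node 566 (merge (leaf 1 562 595) (leaf 0 563 599)))))))))))))))))))))))))))))))) (merge (hyp 2) (merge (node 562 (merge (node 527 (merge (leaf 3 527 563) (node 526 (merge (leaf 0 525 525) (leaf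 3 526 559))))) (merge (node 563 (merge (leaf 3 527 527) (node 596 (merge (leaf 0 560 595) (node 564 (merge (leaf 0 561 597) (node 532 (merge (leaf 2 528 531) (leaf 2 529 533))))))))) (merge (node 559 (merge (node 591 (merge (leaf 1 558 590) (node 623 (merge (leaf 6 527 655) (node 527 (merge (leaf 6 495 496) (leaf 3 526 526))))))) (merge (node 594 (merge (leaf 0 559 595) (node 558 (merge (leaf 0 558 593) (node 526 (merge (leaf 3 525 525) (leaf 3 526 527))))))) (node 594 (merge (leaf 0 559 595) (node 558 (merge (leaf 0 558 593) (node 590 (merge (leaf 1 557 589) (leaf 1 558 591)))))))))) (node 594 (merge (node 595 (merge (leaf 0 559 559) (node 596 (merge (leaf 0 560 563) (leaf 3 561 597))))) (merge (node 559 (merge (leaf 0 559 595) (node 558 (merge (leaf 0 558 593) (node 590 (merge (leaf 1 557 589) (leaf 1 558 591))))))) (merge (node 530 (merge (node 531 (merge (leaf 2 527 559) (node 532 (merge (leaf 1 529 533) (leaf 2 528 563))))) (node 626 (merge (node 659 (merge (leaf 4 530 627) (node 658 (merge (leaf 4 562 691) (node 657 (merge (leaf 5 529 625) (leaf 5 561 689)))))))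 (merge (node 625 (merge (leaf 5 529 657) (node 498 (merge (leaf 5 497 593) (node 467 (merge (leaf 6 466 499) (node 466 (merge (leaf 6 434 435) (node 465 (merge (leaf 7 433 433) (leaf 7 465 497))))))))))) (merge (node 659 (merge (leaf 4 530 627) (node 658 (merge (leaf 4 562 691) (node 593 (merge (leaf 7 561 690) (node 498 (merge (leaf 5 465 466) (leaf 5 497 625))))))))) (node 659 (merge (leaf 4 530 627) (node 658 (merge (leaf 4 562 691) (node 690 (merge (leaf 7 561 593) (node 689 (merge (leaf 5 561 657) (leaf 5 593 721))))))))))))))) (node 563 (merge (node 596 (merge (leaf 0 560 595) (node 564 (merge (leaf 0 561 597) (node 532 (merge (leaf 2 528 531) (leaf 2 529 533))))))) (merge (node 596 (merge (leaf 0 560 595) (node 564 (merge (leaf 0 561 597) (node 565 (merge (leaf 1 561 593) (node 533 (merge (leaf 2 529 532) (leaf 2 530 534))))))))) (merge (node 532 (merge (leaf 2 528 531) (node 564 (merge (leaf 2 529 533) (node 597 (merge (leaf 0 561 596) (node 565 (merge (leaf 1 561 593) (leaf 0 562 598))))))))) (merge (node 532 (merge (leaf 2 528 531) (node 564 (merge (leaf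 2 529 533) (node 565 (merge (leaf 1 561 593) (node 598 (merge (leaf 0 562 597) (node 566 (merge (leaf 1 562 595) (leaf 0 563 599))))))))))) (node 595 (merge (leaf 0 560 596) (node 627 (merge (node 659 (merge (leaf 7 562 691) (node 660 (merge (leaf 4 563 692) (node 531 (merge (leaf 4 531 628) (node 499 (merge (leaf 5 466 467) (leaf 5 498 626))))))))) (merge (node 659 (merge (leaf 7 562 691) (node 658 (merge (leaf 5 562 690) (node 626 (merge (leaf 6 530 531) (node 657 (merge (leaf 5 561 689) (node 656 (merge (leaf 2 624 628) (leaf 2 623 655))))))))))) (merge (node 626 (merge (node 658 (merge (leaf 6 530 531) (leaf 6 562 690))) (merge (node 531 (merge (leaf 5 498 499) (node 628 (merge (leaf 4 531 660) (node 629 (merge (leaf 3 593 593) (leaf 3 594 630))))))) (node 658 (merge (leaf 6 562 690) (node 657 (merge (leaf 5 561 689) (node 628 (merge (leaf 1 625 629) (node 656 (merge (leaf 1 624 625) (leaf 2 623 655)))))))))))) (merge (node 659 (merge (leaf 7 562 691) (node 660 (merge (leaf 4 563 692) (node 628 (merge (leaf 4 531 531) (node 629 (merge (leaf 3 594 630) (node 658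 (merge (leaf 2 625 657) (leaf 5 562 690))))))))))) (merge (node 659 (merge (leaf 7 562 691) (node 660 (merge (leaf 4 563 692) (node 658 (merge (leaf 5 562 690) (node 626 (merge (leaf 6 530 531) (node 625 (merge (leaf 0 624 624) (leaf 3 625 661))))))))))) (node 626 (merge (node 658 (merge (leaf 6 562 690) (node 659 (merge (leaf 7 562 691) (node 657 (merge (leaf 5 561 689) (node 656 (merge (leaf 2 624 628) (leaf 2 623 655))))))))) (merge (node 659 (merge (leaf 7 562 691) (node 660 (merge (leaf 4 563 692) (node 625 (merge (leaf 0 624 624) (node 661 (merge (leaf 0 625 628) (leaf 3 626 662))))))))) (merge (node 658 (merge (leaf 6 562 690) (node 657 (merge (leaf 5 561 689) (node 628 (merge (leaf 1 625 629) (node 656 (merge (leaf 1 624 625) (leaf 2 623 655))))))))) (node 658 (merge (leaf 6 562 690) (node 659 (merge (leaf 7 562 691) (node 660 (merge (leaf 4 563 692) (node 625 (merge (leaf 0 624 624) (leaf 3 625 661)))))))))))))))))))))))))))))))))) (merge (node 559 (merge (node 591 (merge (node 623 (merge (leaf 6 527 655) (node 496 (merge (leaf 5 463 464) (leaf 6 495 527)))))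 (node 590 (merge (leaf 1 558 562) (node 589 (merge (leaf 1 557 558) (leaf 2 556 588))))))) (merge (node 594 (merge (node 562 (merge (leaf 0 559 595) (node 527 (merge (leaf 3 526 526) (leaf 3 527 563))))) (merge (node 593 (merge (leaf 0 558 558) (node 595 (merge (leaf 0 559 562) (leaf 3 560 596))))) (node 558 (merge (leaf 0 558 593) (node 525 (merge (leaf 3 525 526) (node 557 (merge (leaf 3 524 524) (node 588 (merge (leaf 1 556 589) (node 556 (merge (leaf 2 524 527) (leaf 1 555 587)))))))))))))) (merge (hyp 3) (merge (hyp 4) (hyp 5)))))) (hyp 6)))))))))))) nP_417 cP_417 17 (by decide +kernel)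
def nP_418 : ℕ := 0x100000001000000000000000080000000000000000000000000000000000000000000000000000000000000000000000000000000000000000000000000000000000000000000
def cP_418 : ℕ := 0xfb000000ff000003ffe00001ffc00003ffc00007ffc00007fffc000feff80007effc000fcff80001fff80007f3f80007fff80003fff00007fff80003fff80001ffe00000ffe000005fa000001f000000000000000000000000000000000000000000000000000
theorem lP_418 : S nP_418 cP_418 18 := S_of_chk [(nP_350, cP_350, 17), (nP_352, cP_352, 14), (nP_351, cP_351, 9), (nP_355, cP_355, 14), (nP_358, cP_358, 15), (nP_366, cP_366, 16), (nP_417, cP_417, 17)] ⟨lP_350, lP_352, lP_351, lP_355, lP_358, lP_366, lP_417, trivial⟩ (node 431 (merge (node 495 (merge (leaf 4 431 527) (node 496 (merge (leaf 4 399 399) (leaf 7 431 464))))) (merge (node 495 (merge (leaf 4 431 527) (node 399 (merge (leaf 4 399 496) (node 368 (merge (leaf 6 367 400) (node 367 (merge (leaf 6 335 336) (node 366 (merge (leaf 7 334 334) (leaf 7 366 398))))))))))) (merge (node 399 (merge (node 496 (merge (leaf 7 431 464) (leaf 4 399 495))) (merge (node 366 (merge (node 398 (merge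 (leaf 7 366 495) (node 334 (merge (leaf 4 302 302) (leaf 4 334 430))))) (merge (node 334 (merge (leaf 7 334 367) (node 398 (merge (leaf 4 302 302) (leaf 4 334 430))))) (merge (node 367 (merge (leaf 7 334 334) (node 368 (merge (leaf 6 335 336) (node 400 (merge (leaf 6 367 495) (node 365 (merge (leaf 0 364 364) (leaf 0 365 401))))))))) (node 400 (merge (node 368 (merge (leaf 6 367 495) (node 336 (merge (leaf 5 303 304) (leaf 6 335 367))))) (merge (node 398 (merge (leaf 7 366 495) (node 401 (merge (leaf 3 365 365) (node 430 (merge (leaf 1 398 402) (leaf 1 397 429))))))) (node 401 (merge (node 402 (merge (leaf 3 366 367) (leaf 1 398 430))) (merge (node 365 (merge (leaf 3 365 398) (node 367 (merge (leaf 0 364 364) (leaf 0 365 368))))) (node 430 (merge (leaf 1 398 402) (node 398 (merge (leaf 3 365 365) (leaf 1 397 429))))))))))))))) (node 367 (merge (node 334 (merge (leaf 7 334 366) (node 335 (merge (leaf 7 302 302) (node 464 (merge (leaf 4 335 432) (leaf 7 431 496))))))) (merge (node 336 (merge (leaf 6 335 368) (node 335 (merge (leaf 6 303 304) (node 302 (merge (leaf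 7 302 334) (node 303 (merge (leaf 7 270 270) (node 432 (merge (leaf 4 303 400) (leaf 4 335 464))))))))))) (merge (node 336 (merge (leaf 6 335 368) (node 335 (merge (leaf 6 303 304) (node 432 (merge (leaf 4 335 464) (node 303 (merge (leaf 4 303 400) (node 270 (merge (leaf 7 270 302) (node 271 (merge (leaf 7 238 238) (node 398 (merge (leaf 5 270 366) (leaf 5 302 430))))))))))))))) (node 366 (merge (leaf 7 334 334) (node 365 (merge (node 400 (merge (leaf 0 364 364) (node 401 (merge (leaf 3 365 398) (leaf 3 366 402))))) (merge (node 368 (merge (leaf 6 335 336) (node 400 (merge (leaf 0 364 364) (leaf 0 365 401))))) (merge (node 368 (merge (leaf 6 335 336) (node 397 (merge (leaf 1 364 396) (node 398 (merge (leaf 1 365 369) (node 364 (merge (leaf 0 363 363) (node 332 (merge (leaf 3 331 331) (leaf 3 332 333))))))))))) (node 368 (merge (leaf 6 335 336) (node 401 (merge (leaf 0 365 400) (node 369 (merge (leaf 0 366 402) (node 397 (merge (leaf 1 364 396) (leaf 1 365 398)))))))))))))))))))))) (merge (hyp 0) (merge (node 525 (merge (node 527 (merge (leaf 4 431 495) (node 526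 (merge (leaf 0 525 561) (node 496 (merge (leaf 7 431 464) (leaf 2 493 497))))))) (merge (node 527 (merge (leaf 4 431 495) (node 526 (merge (leaf 0 525 561) (node 524 (merge (leaf 0 524 559) (node 492 (merge (leaf 3 491 491) (leaf 3 492 493))))))))) (merge (node 496 (merge (leaf 7 431 464) (node 527 (merge (leaf 4 431 495) (node 526 (merge (leaf 2 493 497) (node 524 (merge (leaf 0 524 559) (node 556 (merge (leaf 1 523 555) (leaf 1 524 557))))))))))) (merge (hyp 1) (merge (node 493 (merge (node 526 (merge (node 527 (merge (leaf 3 492 492) (leaf 0 525 561))) (merge (node 558 (merge (node 559 (merge (leaf 3 525 561) (node 524 (merge (leaf 0 523 523) (leaf 3 524 557))))) (node 590 (merge (leaf 7 493 622) (node 461 (merge (leaf 4 429 429) (leaf 7 461 494))))))) (node 527 (merge (leaf 3 492 492) (node 524 (merge (leaf 0 524 559) (node 556 (merge (leaf 1 523 555) (leaf 1 524 557)))))))))) (merge (node 429 (merge (node 464 (merge (leaf 7 431 496) (node 430 (merge (leaf 0 428 428) (node 465 (merge (leaf 0 429 432) (leaf 3 430 466))))))) (merge (node 526 (merge (node 527 (merge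 (leaf 3 492 492) (leaf 0 525 561))) (node 461 (merge (leaf 4 429 558) (node 398 (merge (leaf 6 397 430) (node 397 (merge (leaf 6 365 366) (leaf 4 397 494))))))))) (node 526 (merge (node 527 (merge (leaf 3 492 492) (leaf 0 525 561))) (node 461 (merge (leaf 4 429 558) (node 396 (merge (leaf 7 396 428) (node 397 (merge (leaf 7 364 364) (leaf 4 397 494)))))))))))) (merge (hyp 2) (merge (node 526 (merge (node 527 (merge (leaf 3 492 492) (leaf 0 525 561))) (merge (node 527 (merge (leaf 3 492 492) (node 496 (merge (leaf 7 431 464) (leaf 2 493 497))))) (node 558 (merge (node 590 (merge (leaf 7 493 622) (node 461 (merge (leaf 7 461 494) (leaf 4 461 557))))) (merge (node 559 (merge (leaf 3 525 561) (node 524 (merge (leaf 0 523 523) (leaf 3 524 557))))) (node 590 (merge (leaf 7 493 622) (node 494 (merge (leaf 7 461 461) (node 559 (merge (leaf 3 525 561) (node 589 (merge (leaf 5 493 621) (node 588 (merge (leaf 2 555 587) (leaf 2 556 591))))))))))))))))) (merge (node 464 (merge (leaf 7 431 496) (node 557 (merge (node 461 (merge (node 428 (merge (leaf 7 428 460) (node 429 (merge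 (leaf 7 396 396) (leaf 0 428 430))))) (node 558 (merge (leaf 4 461 590) (node 588 (merge (leaf 5 460 556) (node 589 (merge (leaf 1 556 559) (leaf 5 492 620))))))))) (merge (node 429 (merge (node 430 (merge (leaf 0 428 428) (node 465 (merge (leaf 0 429 432) (leaf 3 430 466))))) (merge (node 461 (merge (node 556 (merge (leaf 5 428 524) (leaf 5 460 588))) (node 396 (merge (leaf 7 396 428) (node 397 (merge (leaf 7 364 364) (node 526 (merge (leaf 4 397 494) (leaf 4 429 558))))))))) (node 461 (merge (node 556 (merge (leaf 5 428 524) (leaf 5 460 588))) (node 430 (merge (leaf 6 397 398) (node 465 (merge (leaf 0 429 432) (leaf 3 430 466)))))))))) (merge (node 589 (merge (node 622 (merge (leaf 4 493 590) (node 621 (merge (leaf 4 525 654) (node 620 (merge (leaf 5 492 588) (leaf 5 524 652))))))) (merge (node 590 (merge (leaf 4 493 622) (node 588 (merge (leaf 5 492 620) (node 559 (merge (leaf 1 556 558) (leaf 2 556 591))))))) (merge (node 620 (merge (leaf 5 492 588) (node 621 (merge (leaf 5 524 652) (node 526 (merge (leaf 6 493 494) (node 558 (merge (leaf 6 525 653) (node 559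 (merge (leaf 3 524 524) (leaf 3 525 561))))))))))) (merge (node 622 (merge (leaf 4 493 590) (node 621 (merge (leaf 4 525 654) (node 526 (merge (leaf 6 493 494) (node 558 (merge (leaf 6 525 653) (node 559 (merge (leaf 3 524 524) (leaf 1 556 588))))))))))) (node 622 (merge (leaf 4 493 590) (node 621 (merge (leaf 4 525 654) (node 526 (merge (leaf 6 493 494) (node 653 (merge (leaf 6 525 558) (node 652 (merge (leaf 5 524 620) (leaf 5 556 684)))))))))))))))) (merge (node 558 (merge (node 590 (merge (leaf 4 461 461) (node 622 (merge (leaf 4 493 589) (leaf 7 525 654))))) (merge (node 559 (merge (leaf 3 524 524) (node 561 (merge (leaf 3 525 526) (node 594 (merge (leaf 0 558 593) (node 562 (merge (leaf 0 559 595) (node 590 (merge (leaf 1 557 589) (leaf 1 558 591))))))))))) (node 559 (merge (leaf 3 524 524) (node 526 (merge (leaf 3 525 561) (node 429 (merge (leaf 4 429 461) (node 430 (merge (leaf 0 428 428) (node 465 (merge (leaf 0 429 432) (leaf 3 430 466)))))))))))))) (node 556 (merge (node 461 (merge (leaf 5 460 588) (node 428 (merge (leaf 7 428 460) (node 429 (merge (leaf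 7 396 396) (leaf 0 428 430))))))) (merge (node 429 (merge (node 461 (merge (leaf 5 428 524) (node 428 (merge (leaf 7 396 396) (leaf 7 428 460))))) (merge (node 430 (merge (leaf 0 428 428) (node 465 (merge (leaf 0 429 432) (leaf 3 430 466))))) (node 461 (merge (leaf 5 428 524) (node 430 (merge (leaf 6 397 398) (node 465 (merge (leaf 0 429 432) (leaf 3 430 466)))))))))) (node 589 (merge (node 590 (merge (leaf 4 493 622) (node 555 (merge (leaf 0 554 554) (node 588 (merge (leaf 3 555 591) (leaf 5 492 620))))))) (merge (node 621 (merge (node 620 (merge (leaf 5 492 588) (leaf 5 524 652))) (merge (node 653 (merge (leaf 7 524 524) (node 685 (merge (leaf 7 556 588) (node 686 (merge (leaf 4 557 654) (leaf 4 589 718))))))) (node 653 (merge (leaf 7 524 524) (node 652 (merge (leaf 5 524 620) (leaf 5 556 684)))))))) (merge (node 622 (merge (leaf 4 493 590) (node 621 (merge (leaf 4 525 654) (node 653 (merge (leaf 7 524 524) (node 652 (merge (leaf 5 524 620) (leaf 5 556 684))))))))) (node 622 (merge (leaf 4 493 590) (node 621 (merge (leaf 4 525 654) (node 653 (merge (leaf 7 524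 524) (node 685 (merge (leaf 7 556 588) (node 684 (merge (leaf 5 556 652) (leaf 5 588 716))))))))))))))))))))))))) (merge (hyp 3) (hyp 4)))))))) (hyp 5))))))) (hyp 6))))))) nP_418 cP_418 18 (by decide +kernel)

end Crest.Agent.H26Snaky
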