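import Crest.Agent.H26SnP000
import Crest.Agent.H26SnP001
import Crest.Agent.H26SnP002
import Crest.Agent.H26SnP003
import Crest.Agent.H26SnP004
import Crest.Agent.H26SnP005
import Crest.Agent.H26SnP007
import Crest.Agent.H26SnP011
import Crest.Agent.H26SnP012
import Crest.Agent.H26SnP013
import Crest.Agent.H26SnP014
import Crest.Agent.H26SnP015
import Crest.Agent.H26SnP016
import Crest.Agent.H26SnP017
import Crest.Agent.H26SnP018
import Crest.Agent.H26SnP019
import Crest.Agent.H26SnP025
import Crest.Agent.H26SnP031

/-! certificate data for S0047, part P 32 (computer generated) -/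

set_option autoImplicit false
set_option maxRecDepth 100000

namespace Crest.Agent.H26Snaky

open T

def nP_419 : ℕ := 0x100000001000000000000000000000000000000000000000000000000000000000000000000000000000000000000000000000000000000000000000000000000000000000000
def cP_419 : ℕ := 0xff000000ff800003ffe00001ffc00003ffe00007fff00007fffc000feffc0007effc000fcffc0007fffc0007fff80007fffc0003fffc0007fffc0003fff80003ffe00000ffe000007fa000007f800000000000000000000000000000000000000000000000000
theorem lP_419 : S nP_419 cP_419 19 := S_of_chk [(nP_188, cP_188, 13), (nP_189, cP_189, 13), (nP_190, cP_190, 13), (nP_194, cP_194, 12), (nP_195, cP_195, 13), (nP_197, cP_197, 15), (nP_198, cP_198, 14), (nP_199, cP_199, 14), (nP_201, cP_201, 13), (nP_203, cP_203, 15), (nP_205, cP_205, 14), (nP_207, cP_207, 15), (nP_209, cP_209, 13), (nP_210, cP_210, 13), (nP_212, cP_212, 12), (nP_215, cP_215, 18), (nP_219, cP_219, 16), (nP_220, cP_220, 17), (nP_231, cP_231, 16), (nP_245, cP_245, 16), (nP_255, cP_255, 17), (nP_344, cP_344, 18), (nP_418, cP_418, 18)] ⟨lP_188, lP_189, lP_190,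 lP_194, lP_195, lP_197, lP_198, lP_199, lP_201, lP_203, lP_205, lP_207, lP_209, lP_210, lP_212, lP_215, lP_219, lP_220, lP_231, lP_245, lP_255, lP_344, lP_418, trivial⟩ (node 463 (merge (hyp 0) (merge (hyp 1) (merge (hyp 2) (merge (hyp 3) (merge (hyp 4) (merge (hyp 5) (merge (hyp 6) (merge (hyp 7) (merge (hyp 8) (merge (hyp 9) (merge (node 464 (merge (node 496 (merge (leaf 7 431 431) (node 561 (merge (leaf 4 464 593) (node 559 (merge (leaf 5 463 591) (node 527 (merge (leaf 5 431 432) (node 526 (merge (leaf 0 525 525) (leaf 3 526 562))))))))))) (merge (node 496 (merge (leaf 7 431 431) (node 462 (merge (node 433 (merge (leaf 6 432 465) (node 432 (merge (leaf 6 400 401) (leaf 2 429 461))))) (merge (node 497 (merge (leaf 0 461 461) (node 498 (merge (leaf 3 462 495) (leaf 3 463 499))))) (node 465 (merge (leaf 6 432 433) (node 498 (merge (leaf 0 462 497) (node 466 (merge (leaf 0 463 499) (node 467 (merge (leaf 1 463 495) (node 435 (merge (leaf 2 431 434) (leaf 2 432 436)))))))))))))))) (merge (node 465 (merge (node 496 (merge (leaf 7 431 431) (leaf 6 432 433)))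 (merge (node 433 (merge (leaf 6 432 496) (node 434 (merge (leaf 2 430 462) (node 435 (merge (leaf 1 432 436) (leaf 2 431 466))))))) (node 466 (merge (node 431 (merge (leaf 3 430 430) (node 495 (merge (leaf 1 462 494) (leaf 4 431 527))))) (node 499 (merge (node 500 (merge (leaf 0 464 467) (node 498 (merge (leaf 3 464 497) (leaf 3 465 501))))) (merge (node 498 (merge (leaf 0 463 463) (node 500 (merge (leaf 3 464 497) (leaf 3 465 501))))) (merge (node 467 (merge (leaf 0 464 500) (node 435 (merge (leaf 2 432 436) (node 434 (merge (leaf 2 431 463) (node 531 (merge (leaf 7 402 402) (leaf 7 434 563))))))))) (node 434 (merge (node 463 (merge (leaf 2 431 435) (leaf 0 463 498))) (merge (node 435 (merge (leaf 2 431 463) (node 436 (merge (leaf 1 433 437) (leaf 2 432 467))))) (merge (node 498 (merge (leaf 0 463 463) (node 402 (merge (leaf 4 402 531) (node 370 (merge (leaf 4 370 467) (leaf 5 369 497))))))) (node 531 (merge (node 402 (merge (leaf 4 402 498) (node 370 (merge (leaf 4 370 467) (leaf 5 369 497))))) (merge (node 467 (merge (leaf 7 434 563) (node 435 (merge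 (leaf 7 402 402) (leaf 2 432 436))))) (merge (node 498 (merge (leaf 4 402 402) (node 563 (merge (leaf 4 434 530) (leaf 7 466 595))))) (node 563 (merge (leaf 7 434 467) (node 498 (merge (leaf 4 434 530) (leaf 7 466 595)))))))))))))))))))))) (merge (node 465 (merge (node 433 (merge (leaf 6 432 496) (node 434 (merge (leaf 2 430 462) (node 435 (merge (leaf 1 432 436) (leaf 2 431 466))))))) (merge (node 496 (merge (leaf 6 432 433) (node 561 (merge (leaf 4 464 593) (node 559 (merge (leaf 5 463 591) (node 527 (merge (leaf 5 431 432) (node 526 (merge (leaf 0 525 525) (leaf 3 526 562))))))))))) (merge (node 495 (merge (node 466 (merge (leaf 1 462 494) (node 467 (merge (leaf 1 463 496) (node 435 (merge (leaf 2 431 434) (leaf 2 432 436))))))) (merge (node 466 (merge (leaf 1 462 494) (node 499 (merge (leaf 0 463 498) (node 467 (merge (leaf 0 464 500) (node 435 (merge (leaf 2 431 434) (leaf 2 432 436))))))))) (merge (node 462 (merge (node 430 (merge (leaf 3 429 429) (node 527 (merge (leaf 7 430 559) (node 398 (merge (leaf 4 366 366) (leaf 4 398 494))))))) (merge (node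 497 (merge (leaf 0 462 498) (node 461 (merge (leaf 0 461 496) (node 429 (merge (leaf 3 428 428) (leaf 3 429 430))))))) (node 497 (merge (leaf 0 462 498) (node 496 (merge (leaf 0 461 461) (node 561 (merge (leaf 4 464 593) (node 559 (merge (leaf 5 463 591) (node 527 (merge (leaf 5 431 432) (node 526 (merge (leaf 0 525 525) (leaf 3 526 562)))))))))))))))) (node 496 (merge (node 561 (merge (leaf 4 464 593) (node 559 (merge (leaf 5 463 591) (node 527 (merge (leaf 6 431 432) (node 526 (merge (leaf 0 525 525) (leaf 3 526 562))))))))) (node 466 (merge (leaf 1 463 467) (node 498 (merge (leaf 0 463 499) (node 462 (merge (leaf 0 462 497) (node 461 (merge (leaf 0 460 460) (node 429 (merge (leaf 3 428 428) (leaf 3 429 430))))))))))))))))) (node 498 (merge (node 497 (merge (leaf 0 462 462) (node 499 (merge (leaf 0 463 466) (leaf 3 464 500))))) (merge (node 462 (merge (leaf 0 462 497) (node 433 (merge (leaf 2 430 434) (node 461 (merge (leaf 2 429 432) (node 429 (merge (leaf 3 428 428) (leaf 3 429 430))))))))) (merge (node 466 (merge (leaf 0 463 499) (node 434 (merge (leaf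 2 431 435) (node 433 (merge (leaf 2 430 462) (node 401 (merge (leaf 4 369 369) (leaf 7 401 530))))))))) (node 466 (merge (leaf 0 463 499) (node 433 (merge (node 530 (merge (leaf 7 433 562) (node 401 (merge (leaf 4 369 369) (leaf 4 401 497))))) (node 467 (merge (node 435 (merge (leaf 2 431 434) (leaf 2 432 436))) (merge (node 468 (merge (leaf 3 432 432) (node 501 (merge (leaf 0 465 500) (node 469 (merge (leaf 3 433 434) (leaf 0 466 502))))))) (node 436 (merge (leaf 2 432 435) (node 468 (merge (leaf 3 432 432) (leaf 2 433 437)))))))))))))))))))) (hyp 10)))))) (merge (hyp 11) (merge (hyp 12) (merge (node 464 (merge (node 496 (merge (leaf 7 431 431) (node 561 (merge (leaf 4 464 593) (node 559 (merge (leaf 5 463 591) (node 527 (merge (leaf 5 431 432) (node 526 (merge (leaf 0 525 525) (leaf 3 526 562))))))))))) (merge (node 496 (merge (leaf 7 431 431) (node 559 (merge (leaf 5 463 591) (node 432 (merge (leaf 5 431 527) (node 401 (merge (leaf 6 400 433) (node 400 (merge (leaf 6 368 369) (node 367 (merge (leaf 7 367 399) (node 368 (merge (leaf 7 335 335) (leaf 5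 367 495))))))))))))))) (merge (node 496 (merge (leaf 7 431 431) (node 561 (merge (leaf 4 464 593) (node 559 (merge (leaf 5 463 591) (node 558 (merge (node 589 (merge (leaf 1 557 590) (node 557 (merge (leaf 1 556 588) (node 525 (merge (leaf 3 524 524) (leaf 3 525 526))))))) (merge (node 589 (merge (leaf 1 557 590) (node 557 (merge (leaf 1 556 588) (node 556 (merge (leaf 2 524 527) (node 524 (merge (leaf 3 523 523) (leaf 3 524 525))))))))) (merge (node 590 (merge (leaf 1 557 589) (node 527 (merge (leaf 5 462 495) (node 562 (merge (leaf 3 526 526) (leaf 3 527 563))))))) (node 526 (merge (leaf 3 525 525) (node 562 (merge (leaf 3 526 527) (node 595 (merge (leaf 0 559 594) (node 563 (merge (leaf 0 560 596) (node 531 (merge (leaf 2 527 530) (leaf 2 528 532))))))))))))))))))))) (merge (node 462 (merge (node 496 (merge (leaf 7 431 431) (node 497 (merge (leaf 0 461 461) (node 498 (merge (leaf 3 462 495) (leaf 3 463 499))))))) (merge (node 461 (merge (node 492 (merge (leaf 1 460 493) (node 460 (merge (leaf 1 459 491) (node 428 (merge (leaf 3 427 427) (leaf 3 428 429)))))))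 (merge (node 432 (merge (leaf 2 429 433) (node 460 (merge (leaf 2 428 431) (node 428 (merge (leaf 3 427 427) (leaf 3 428 429))))))) (merge (node 492 (merge (leaf 1 460 493) (node 460 (merge (leaf 1 459 491) (node 432 (merge (leaf 2 428 431) (leaf 2 429 433))))))) (node 429 (merge (leaf 3 428 428) (node 432 (merge (leaf 2 429 433) (node 397 (merge (node 494 (merge (leaf 4 365 365) (node 526 (merge (leaf 7 397 430) (leaf 7 429 558))))) (merge (node 493 (merge (leaf 1 460 492) (node 494 (merge (leaf 4 365 365) (leaf 4 397 526))))) (node 493 (merge (leaf 1 460 492) (node 398 (merge (leaf 6 365 366) (node 396 (merge (leaf 7 364 364) (node 431 (merge (leaf 0 396 399) (leaf 3 396 430)))))))))))))))))))) (merge (node 461 (merge (node 496 (merge (leaf 0 461 497) (node 460 (merge (leaf 0 460 495) (node 428 (merge (leaf 3 427 427) (leaf 3 428 429))))))) (merge (node 496 (merge (leaf 0 461 497) (node 460 (merge (leaf 0 460 495) (node 492 (merge (leaf 1 459 491) (leaf 1 460 493))))))) (node 493 (merge (leaf 1 460 492) (node 398 (merge (node 430 (merge (leaf 5 365 366)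 (node 525 (merge (leaf 6 397 429) (leaf 6 429 557))))) (merge (node 430 (merge (leaf 5 365 366) (node 525 (merge (leaf 5 397 494) (leaf 6 429 557))))) (merge (node 429 (merge (leaf 3 428 428) (node 397 (merge (leaf 6 365 366) (node 364 (merge (leaf 7 364 396) (node 365 (merge (leaf 7 332 332) (leaf 4 365 494))))))))) (node 429 (merge (leaf 3 428 428) (node 525 (merge (leaf 6 397 430) (node 556 (merge (leaf 5 428 524) (node 557 (merge (leaf 5 460 588) (node 589 (merge (leaf 6 461 494) (node 590 (merge (leaf 4 461 558) (leaf 4 493 622)))))))))))))))))))))) (node 431 (merge (leaf 7 431 496) (node 399 (merge (node 494 (merge (leaf 5 366 367) (node 526 (merge (leaf 6 398 430) (leaf 6 430 558))))) (merge (node 367 (merge (node 336 (merge (leaf 6 335 368) (node 335 (merge (leaf 6 303 304) (leaf 4 335 432))))) (merge (node 334 (merge (leaf 7 334 366) (node 335 (merge (leaf 7 302 302) (leaf 4 335 432))))) (node 368 (merge (leaf 6 335 336) (node 495 (merge (leaf 6 367 400) (node 366 (merge (leaf 7 334 334) (leaf 7 366 398)))))))))) (node 400 (merge (node 368 (merge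 (leaf 6 367 495) (node 336 (merge (leaf 5 303 304) (leaf 5 335 432))))) (merge (node 430 (merge (node 429 (merge (leaf 0 428 428) (node 401 (merge (leaf 1 398 402) (leaf 2 397 432))))) (merge (node 429 (merge (leaf 0 428 428) (node 401 (merge (leaf 1 397 398) (leaf 1 398 402))))) (node 398 (merge (node 366 (merge (leaf 4 334 334) (leaf 4 366 495))) (node 494 (merge (leaf 6 398 526) (node 397 (merge (leaf 7 365 365) (node 432 (merge (leaf 0 396 396) (leaf 3 397 433)))))))))))) (merge (node 401 (merge (node 430 (merge (leaf 1 398 402) (node 429 (merge (leaf 1 397 398) (leaf 0 428 428))))) (merge (node 402 (merge (leaf 1 398 430) (node 435 (merge (leaf 0 399 434) (node 403 (merge (leaf 1 399 432) (leaf 0 400 436))))))) (merge (node 434 (merge (node 433 (merge (leaf 0 398 398) (node 435 (merge (leaf 0 399 402) (leaf 3 400 436))))) (merge (node 402 (merge (leaf 0 399 435) (node 403 (merge (leaf 1 399 432) (node 371 (merge (leaf 2 367 370) (leaf 2 368 372))))))) (node 432 (merge (leaf 1 430 433) (node 368 (merge (leaf 5 335 336) (node 369 (merge (leaf 6 336 337)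 (node 370 (merge (leaf 1 367 371) (node 398 (merge (leaf 2 365 397) (leaf 2 366 401)))))))))))))) (node 398 (merge (node 430 (merge (leaf 1 397 429) (node 366 (merge (leaf 4 334 334) (leaf 3 365 365))))) (merge (node 433 (merge (leaf 0 398 434) (node 432 (merge (leaf 0 397 397) (node 369 (merge (leaf 5 336 337) (leaf 2 366 370))))))) (node 433 (merge (leaf 0 398 434) (node 397 (merge (leaf 0 397 432) (node 369 (merge (leaf 2 365 368) (leaf 2 366 370)))))))))))))) (node 401 (merge (node 430 (merge (leaf 1 398 402) (node 429 (merge (leaf 1 397 398) (leaf 0 428 428))))) (merge (node 402 (merge (leaf 1 398 430) (node 435 (merge (leaf 0 399 434) (node 403 (merge (leaf 0 400 436) (node 371 (merge (leaf 2 367 370) (leaf 2 368 372))))))))) (merge (node 495 (merge (leaf 6 367 368) (node 398 (merge (leaf 7 366 366) (node 434 (merge (leaf 0 398 433) (node 402 (merge (leaf 0 399 435) (node 370 (merge (leaf 2 366 369) (leaf 2 367 371))))))))))) (node 495 (merge (leaf 6 367 368) (node 398 (merge (leaf 7 366 366) (node 430 (merge (leaf 1 397 429) (node 494 (merge (leaf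 6 398 526) (node 493 (merge (leaf 2 460 492) (leaf 5 397 525)))))))))))))))))))))))))))) (merge (hyp 13) (hyp 14))))))) (merge (hyp 15) (merge (node 464 (merge (node 496 (merge (leaf 7 431 431) (node 561 (merge (leaf 4 464 593) (node 559 (merge (leaf 5 463 591) (node 527 (merge (leaf 5 431 432) (node 562 (merge (leaf 3 526 526) (leaf 3 527 563))))))))))) (merge (node 496 (merge (leaf 7 431 431) (node 462 (merge (node 433 (merge (leaf 6 432 465) (node 432 (merge (leaf 6 400 401) (leaf 2 429 461))))) (merge (node 497 (merge (leaf 0 461 461) (node 498 (merge (leaf 3 462 495) (leaf 3 463 499))))) (node 465 (merge (leaf 6 432 433) (node 498 (merge (leaf 0 462 497) (node 466 (merge (leaf 0 463 499) (node 494 (merge (leaf 1 461 493) (leaf 1 462 495)))))))))))))) (merge (node 465 (merge (node 496 (merge (leaf 7 431 431) (leaf 6 432 433))) (merge (node 431 (merge (leaf 7 431 496) (node 495 (merge (leaf 4 431 527) (node 494 (merge (leaf 1 462 466) (node 493 (merge (leaf 1 461 462) (leaf 2 460 492))))))))) (node 466 (merge (node 498 (merge (leaf 0 463 499) (node 462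 (merge (leaf 0 462 497) (node 494 (merge (leaf 1 461 493) (leaf 1 462 495))))))) (merge (node 499 (merge (leaf 0 463 498) (node 467 (merge (leaf 0 464 500) (node 435 (merge (leaf 2 431 434) (leaf 2 432 436))))))) (node 494 (merge (leaf 1 462 495) (node 462 (merge (leaf 1 461 493) (node 434 (merge (leaf 2 430 433) (leaf 2 431 435))))))))))))) (merge (node 561 (merge (node 496 (merge (leaf 4 464 593) (node 559 (merge (leaf 5 463 591) (node 527 (merge (leaf 5 431 432) (node 526 (merge (leaf 0 525 525) (leaf 3 526 562))))))))) (merge (node 465 (merge (node 496 (merge (leaf 6 432 433) (leaf 4 464 593))) (merge (node 434 (merge (node 433 (merge (leaf 2 430 462) (node 435 (merge (leaf 1 431 432) (leaf 1 432 436))))) (merge (node 435 (merge (leaf 2 431 466) (node 433 (merge (leaf 1 431 432) (leaf 1 432 436))))) (merge (node 462 (merge (leaf 2 430 433) (node 498 (merge (leaf 0 462 497) (node 466 (merge (leaf 0 463 499) (node 494 (merge (leaf 1 461 493) (leaf 1 462 495))))))))) (node 466 (merge (leaf 2 431 435) (node 498 (merge (leaf 0 463 499) (node 462 (merge (leaf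 0 462 497) (node 494 (merge (leaf 1 461 493) (leaf 1 462 495))))))))))))) (node 466 (merge (node 495 (merge (leaf 1 462 494) (node 496 (merge (leaf 1 463 467) (leaf 4 464 593))))) (merge (node 499 (merge (leaf 0 463 498) (node 467 (merge (leaf 0 464 500) (node 435 (merge (leaf 2 431 434) (leaf 2 432 436))))))) (node 498 (merge (leaf 0 463 499) (node 462 (merge (leaf 0 462 497) (node 494 (merge (leaf 1 461 493) (leaf 1 462 495))))))))))))) (merge (node 559 (merge (node 496 (merge (leaf 5 463 591) (node 433 (merge (leaf 6 432 465) (node 432 (merge (leaf 6 400 401) (leaf 5 431 527))))))) (merge (node 591 (merge (leaf 5 463 496) (node 590 (merge (leaf 1 558 562) (node 589 (merge (leaf 1 557 558) (leaf 2 556 588))))))) (merge (node 527 (merge (node 432 (merge (leaf 6 431 495) (leaf 5 431 496))) (node 562 (merge (leaf 3 527 563) (node 526 (merge (leaf 0 525 525) (leaf 3 526 559))))))) (node 590 (merge (node 589 (merge (leaf 1 557 558) (node 591 (merge (leaf 1 558 562) (leaf 2 556 588))))) (merge (node 562 (merge (leaf 1 558 591) (node 527 (merge (leaf 3 526 526)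 (leaf 3 527 563))))) (node 558 (merge (leaf 1 557 589) (node 526 (merge (leaf 3 525 525) (node 495 (merge (leaf 6 462 494) (leaf 5 462 527)))))))))))))) (merge (node 496 (merge (leaf 4 464 593) (node 562 (merge (node 563 (merge (leaf 3 527 527) (node 596 (merge (leaf 0 560 595) (node 564 (merge (leaf 0 561 597) (node 532 (merge (leaf 2 528 531) (leaf 2 529 533))))))))) (merge (node 563 (merge (leaf 3 527 527) (node 531 (merge (leaf 2 528 532) (node 559 (merge (leaf 2 527 530) (node 591 (merge (leaf 5 463 496) (leaf 1 558 590))))))))) (merge (node 563 (merge (leaf 3 527 527) (node 595 (merge (leaf 0 560 596) (node 559 (merge (leaf 0 559 594) (node 591 (merge (leaf 5 463 496) (leaf 1 558 590))))))))) (node 465 (merge (leaf 6 432 433) (node 559 (merge (leaf 5 463 591) (node 594 (merge (leaf 0 559 595) (node 530 (merge (leaf 2 527 531) (node 498 (merge (leaf 7 465 497) (node 467 (merge (leaf 6 466 499) (node 466 (merge (leaf 6 434 435) (leaf 1 463 495))))))))))))))))))))) (node 562 (merge (node 527 (merge (leaf 3 527 563) (node 526 (merge (leaf 0 525 525) (leaf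 3 526 559))))) (merge (node 563 (merge (leaf 3 527 527) (node 596 (merge (leaf 0 560 595) (node 564 (merge (leaf 0 561 597) (node 532 (merge (leaf 2 528 531) (leaf 2 529 533))))))))) (merge (node 559 (merge (node 526 (merge (leaf 3 526 527) (node 590 (merge (leaf 1 558 591) (node 558 (merge (leaf 3 525 525) (leaf 1 557 589))))))) (merge (node 594 (merge (leaf 0 559 595) (node 593 (merge (leaf 0 558 558) (node 625 (merge (leaf 7 528 657) (node 530 (merge (leaf 5 497 498) (leaf 2 527 531))))))))) (node 594 (merge (leaf 0 559 595) (node 591 (merge (leaf 1 558 590) (node 623 (merge (leaf 6 527 655) (node 530 (merge (leaf 2 527 531) (node 527 (merge (leaf 3 526 526) (node 624 (merge (leaf 4 527 656) (node 622 (merge (leaf 5 526 654) (node 625 (merge (leaf 2 590 593) (node 657 (merge (leaf 5 529 626) (leaf 0 622 658)))))))))))))))))))))) (node 595 (merge (node 596 (merge (leaf 0 560 563) (node 594 (merge (leaf 3 560 593) (leaf 3 561 597))))) (merge (node 563 (merge (leaf 0 560 596) (node 531 (merge (leaf 2 528 532) (node 530 (merge (leaf 2 527 559) (node 498 (merge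 (leaf 4 466 466) (leaf 7 498 627))))))))) (node 559 (merge (leaf 0 559 594) (node 590 (merge (leaf 1 558 591) (node 558 (merge (leaf 1 557 589) (node 530 (merge (leaf 2 527 531) (node 526 (merge (leaf 3 525 525) (node 494 (merge (leaf 6 462 495) (node 461 (merge (leaf 7 461 493) (node 462 (merge (leaf 7 429 429) (node 433 (merge (leaf 2 429 432) (node 465 (merge (leaf 2 430 434) (node 498 (merge (leaf 7 433 466) (leaf 0 462 497))))))))))))))))))))))))))))))))))) (hyp 16)))))) (merge (hyp 17) (merge (hyp 18) (merge (hyp 19) (merge (hyp 20) (merge (hyp 21) (hyp 22))))))))))))))))))))))) nP_419 cP_419 19 (by decide +kernel)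
def nP_420 : ℕ := 0x1000000000000000000000000000000000000000000000000000000000000000000000000000000000000000000000000000000000000000000000000000000000000
def cP_420 : ℕ := 0x7c000001ff000001ffc00003ffe00007ffe0001ffff8001ffff8001ffffc003ffffc007ffffc003fcffc007ffffc001ffffc001ffffc001ffffc0007fffc0007fff80007ffe00000ffe000007fa000007f800000000000000000000000000000000000000000000000000
theorem lP_420 : S nP_420 cP_420 20 := S_of_chk [(nP_0, cP_0, 11), (nP_2, cP_2, 17), (nP_7, cP_7, 14), (nP_8, cP_8, 13), (nP_9, cP_9, 14), (nP_11, cP_11, 15), (nP_19, cP_19, 16), (nP_21, cP_21, 17), (nP_23, cP_23, 14), (nP_26, cP_26, 16), (nP_35, cP_35, 18), (nP_49, cP_49, 18), (nP_53, cP_53, 18), (nP_65, cP_65, 18), (nP_67, cP_67, 15), (nP_71, cP_71, 16), (nP_105, cP_105, 18), (nP_146, cP_146, 19), (nP_147, cP_147, 13), (nP_158, cP_158, 17), (nP_164, cP_164, 17), (nP_176, cP_176, 17), (nP_187, cP_187, 17), (nP_419, cP_419, 19)] ⟨lP_0, lP_2, lP_7, lP_8, lP_9, lP_11, lP_19, lP_21, lP_23, lP_26, lP_35, lP_49, lP_53, lP_65, lP_67, lP_71, lP_105, lP_146, lP_147, lP_158, lP_164,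 lP_176, lP_187, lP_419, trivial⟩ (node 560 (merge (node 496 (merge (node 591 (merge (node 559 (merge (leaf 5 463 464) (node 623 (merge (leaf 6 495 527) (leaf 6 527 655))))) (merge (node 623 (merge (leaf 5 495 592) (node 559 (merge (leaf 6 495 527) (leaf 6 527 655))))) (merge (node 592 (merge (leaf 5 495 623) (node 593 (merge (leaf 4 496 625) (node 465 (merge (leaf 6 464 497) (node 464 (merge (leaf 6 432 433) (leaf 4 464 561))))))))) (node 464 (merge (leaf 5 463 559) (node 465 (merge (leaf 6 432 433) (node 592 (merge (leaf 6 464 497) (node 593 (merge (leaf 4 464 561) (leaf 4 496 625))))))))))))) (merge (node 464 (merge (node 463 (merge (leaf 7 431 431) (node 592 (merge (leaf 7 463 495) (node 593 (merge (leaf 4 464 561) (leaf 4 496 625))))))) (merge (node 433 (merge (leaf 6 432 465) (node 432 (merge (leaf 6 400 401) (node 431 (merge (leaf 7 399 399) (leaf 7 431 463))))))) (node 465 (merge (leaf 6 432 433) (node 592 (merge (leaf 6 464 497) (node 593 (merge (leaf 4 464 561) (leaf 4 496 625)))))))))) (merge (node 591 (merge (node 559 (merge (leaf 5 463 464) (node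 623 (merge (leaf 6 495 527) (leaf 6 527 655))))) (merge (node 464 (merge (leaf 5 463 559) (node 463 (merge (leaf 7 431 431) (node 592 (merge (leaf 7 463 495) (node 593 (merge (leaf 4 464 561) (leaf 4 496 625))))))))) (node 592 (merge (leaf 5 495 623) (node 625 (merge (leaf 4 496 593) (node 624 (merge (leaf 4 528 657) (node 495 (merge (leaf 7 463 463) (leaf 7 495 527)))))))))))) (merge (node 464 (merge (node 559 (merge (leaf 5 463 591) (node 432 (merge (leaf 5 431 527) (node 431 (merge (leaf 7 399 399) (leaf 7 431 463))))))) (merge (node 433 (merge (leaf 6 432 465) (node 432 (merge (leaf 6 400 401) (node 559 (merge (leaf 5 431 527) (leaf 5 463 591))))))) (merge (node 433 (merge (leaf 6 432 465) (node 432 (merge (leaf 6 400 401) (node 431 (merge (leaf 7 399 399) (leaf 7 431 463))))))) (node 465 (merge (leaf 6 432 433) (node 463 (merge (leaf 7 431 431) (node 559 (merge (leaf 5 463 591) (node 466 (merge (node 499 (merge (leaf 0 463 498) (node 467 (merge (leaf 1 463 495) (leaf 0 464 500))))) (merge (node 467 (merge (leaf 1 463 495) (node 500 (merge (leaf 0 464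 499) (node 468 (merge (leaf 1 464 497) (leaf 0 465 501))))))) (merge (node 498 (merge (leaf 0 463 499) (node 462 (merge (leaf 0 462 497) (node 493 (merge (leaf 1 461 494) (node 461 (merge (leaf 1 460 492) (node 429 (merge (leaf 3 428 428) (leaf 3 429 430))))))))))) (node 467 (merge (leaf 1 463 495) (node 435 (merge (leaf 2 431 434) (leaf 2 432 436))))))))))))))))))) (node 592 (merge (node 625 (merge (leaf 4 496 593) (node 624 (merge (leaf 4 528 657) (node 623 (merge (leaf 5 495 591) (leaf 5 527 655))))))) (merge (node 625 (merge (leaf 4 496 593) (node 624 (merge (leaf 4 528 657) (node 495 (merge (leaf 7 463 463) (leaf 7 495 527))))))) (merge (node 623 (merge (leaf 5 495 591) (node 624 (merge (leaf 5 527 655) (node 495 (merge (leaf 7 463 463) (leaf 7 495 527))))))) (node 591 (merge (leaf 5 495 623) (node 562 (merge (node 561 (merge (leaf 1 559 563) (node 590 (merge (leaf 1 558 559) (leaf 2 557 589))))) (merge (node 593 (merge (leaf 4 496 625) (node 563 (merge (leaf 1 559 561) (leaf 2 559 594))))) (merge (node 593 (merge (leaf 4 496 625) (node 594 (merge (leaf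 2 559 563) (node 627 (merge (leaf 0 591 626) (node 595 (merge (leaf 3 559 559) (leaf 0 592 628))))))))) (node 497 (merge (leaf 6 464 465) (node 593 (merge (leaf 4 496 625) (node 590 (merge (leaf 2 558 561) (node 558 (merge (leaf 3 557 557) (node 594 (merge (leaf 3 558 559) (node 627 (merge (leaf 0 591 626) (node 595 (merge (leaf 0 592 628) (node 498 (merge (leaf 4 498 530) (node 499 (merge (leaf 1 495 527) (node 532 (merge (leaf 0 496 531) (node 500 (merge (leaf 0 497 533) (node 468 (merge (leaf 2 464 467) (leaf 2 465 469)))))))))))))))))))))))))))))))))))))))) (merge (node 592 (merge (node 496 (merge (node 593 (merge (leaf 4 496 625) (node 465 (merge (leaf 6 464 497) (node 464 (merge (leaf 6 432 433) (leaf 4 464 561))))))) (merge (node 625 (merge (leaf 4 496 593) (node 624 (merge (leaf 4 528 657) (node 495 (merge (leaf 7 463 463) (leaf 7 495 527))))))) (node 465 (merge (leaf 6 464 497) (node 464 (merge (leaf 6 432 433) (node 463 (merge (leaf 7 431 431) (leaf 7 463 495)))))))))) (merge (node 496 (merge (node 465 (merge (leaf 6 464 497) (node 464 (merge (leaf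 6 432 433) (node 591 (merge (leaf 5 463 559) (leaf 5 495 623))))))) (merge (node 623 (merge (leaf 5 495 591) (node 624 (merge (leaf 5 527 655) (node 495 (merge (leaf 7 463 463) (leaf 7 495 527))))))) (node 465 (merge (leaf 6 464 497) (node 464 (merge (leaf 6 432 433) (node 463 (merge (leaf 7 431 431) (leaf 7 463 495)))))))))) (merge (node 496 (merge (node 625 (merge (leaf 4 496 593) (node 624 (merge (leaf 4 528 657) (node 623 (merge (leaf 5 495 591) (leaf 5 527 655))))))) (node 465 (merge (leaf 6 464 497) (node 464 (merge (leaf 6 432 433) (node 463 (merge (leaf 7 431 431) (leaf 7 463 495))))))))) (merge (node 624 (merge (node 527 (merge (leaf 7 495 495) (node 656 (merge (leaf 7 527 559) (node 657 (merge (leaf 4 528 625) (leaf 4 560 689))))))) (merge (node 527 (merge (leaf 7 495 495) (node 656 (merge (leaf 7 527 559) (node 655 (merge (leaf 5 527 623) (leaf 5 559 687))))))) (node 625 (merge (leaf 4 528 657) (node 623 (merge (leaf 5 527 655) (node 622 (merge (node 653 (merge (leaf 1 621 654) (node 621 (merge (leaf 1 620 652) (node 593 (merge (leaf 2 589 592)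 (leaf 2 590 594))))))) (merge (node 594 (merge (leaf 2 590 593) (node 626 (merge (leaf 2 591 595) (node 590 (merge (leaf 3 589 589) (leaf 3 590 591))))))) (node 653 (merge (leaf 1 621 654) (node 621 (merge (leaf 1 620 652) (node 589 (merge (leaf 3 588 588) (leaf 3 589 590))))))))))))))))) (merge (node 624 (merge (node 657 (merge (leaf 4 528 625) (node 656 (merge (leaf 4 560 689) (node 655 (merge (leaf 5 527 623) (leaf 5 559 687))))))) (merge (node 625 (merge (leaf 4 528 657) (node 623 (merge (leaf 5 527 655) (node 591 (merge (leaf 5 495 496) (node 626 (merge (leaf 3 590 590) (leaf 3 591 627))))))))) (merge (node 657 (merge (leaf 4 528 625) (node 656 (merge (leaf 4 560 689) (node 559 (merge (leaf 7 527 527) (node 591 (merge (leaf 7 559 688) (node 496 (merge (leaf 5 463 464) (leaf 5 495 623))))))))))) (merge (node 657 (merge (leaf 4 528 625) (node 656 (merge (leaf 4 560 689) (node 559 (merge (leaf 7 527 527) (node 688 (merge (leaf 7 559 591) (node 687 (merge (leaf 5 559 655) (leaf 5 591 719))))))))))) (node 559 (merge (node 656 (merge (leaf 7 527 527) (node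 655 (merge (leaf 5 527 623) (leaf 5 559 687))))) (merge (node 623 (merge (leaf 5 527 655) (node 496 (merge (leaf 5 495 591) (node 465 (merge (leaf 6 464 497) (node 464 (merge (leaf 6 432 433) (node 431 (merge (leaf 7 431 463) (node 432 (merge (leaf 7 399 399) (leaf 5 431 527))))))))))))) (merge (node 656 (merge (node 655 (merge (leaf 5 527 623) (leaf 5 559 687))) (merge (node 591 (merge (leaf 7 559 688) (node 623 (merge (leaf 5 495 496) (leaf 6 527 655))))) (node 688 (merge (leaf 7 559 591) (node 721 (merge (leaf 4 592 689) (node 720 (merge (leaf 4 624 753) (node 719 (merge (leaf 5 591 687) (leaf 5 623 751)))))))))))) (node 656 (merge (leaf 7 527 527) (node 688 (merge (leaf 7 559 591) (node 721 (merge (leaf 4 592 689) (node 720 (merge (leaf 4 624 753) (node 719 (merge (leaf 5 591 687) (leaf 5 623 751)))))))))))))))))))) (node 591 (merge (node 496 (merge (leaf 5 495 623) (node 464 (merge (leaf 5 463 559) (node 463 (merge (leaf 7 431 431) (leaf 7 463 495))))))) (merge (node 496 (merge (leaf 5 495 623) (node 593 (merge (leaf 4 496 625) (node 463 (merge (leaf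 7 463 495) (node 464 (merge (leaf 7 431 431) (leaf 4 464 561))))))))) (merge (node 590 (merge (node 561 (merge (leaf 2 557 589) (node 562 (merge (leaf 1 558 559) (leaf 2 558 593))))) (merge (node 589 (merge (leaf 2 557 561) (node 620 (merge (leaf 1 588 621) (node 588 (merge (leaf 1 587 619) (node 556 (merge (leaf 3 555 555) (leaf 3 556 557))))))))) (merge (node 593 (merge (node 558 (merge (leaf 3 557 557) (node 594 (merge (leaf 3 558 559) (node 626 (merge (leaf 0 590 625) (leaf 0 591 627))))))) (merge (node 621 (merge (leaf 1 589 622) (node 589 (merge (leaf 1 588 620) (node 557 (merge (leaf 3 556 556) (leaf 3 557 558))))))) (node 626 (merge (leaf 0 590 625) (node 594 (merge (leaf 0 591 627) (node 622 (merge (leaf 1 589 621) (leaf 1 590 623)))))))))) (node 593 (merge (node 625 (merge (leaf 0 590 626) (node 657 (merge (leaf 7 528 561) (leaf 7 560 689))))) (node 622 (merge (leaf 1 589 621) (node 594 (merge (leaf 1 590 623) (node 558 (merge (leaf 3 557 557) (leaf 3 558 559))))))))))))) (node 593 (merge (node 625 (merge (leaf 4 496 496) (node 657 (merge (leaf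 7 528 561) (leaf 7 560 689))))) (merge (node 625 (merge (leaf 4 496 496) (node 626 (merge (leaf 0 590 590) (node 627 (merge (leaf 0 591 594) (leaf 3 592 628))))))) (merge (node 625 (merge (node 657 (merge (leaf 7 528 561) (leaf 7 560 689))) (node 626 (merge (leaf 0 590 590) (node 627 (merge (leaf 0 591 594) (leaf 3 592 628))))))) (node 559 (merge (node 594 (merge (leaf 3 558 558) (leaf 3 559 595))) (node 590 (merge (node 589 (merge (leaf 2 557 561) (leaf 2 556 588))) (node 496 (merge (leaf 5 463 464) (node 497 (merge (leaf 6 464 465) (node 495 (merge (leaf 7 463 463) (node 527 (merge (leaf 5 494 622) (node 498 (merge (leaf 1 495 499) (leaf 1 494 526))))))))))))))))))))))))))))) (merge (node 592 (merge (node 496 (merge (node 593 (merge (leaf 4 496 625) (node 465 (merge (leaf 6 464 497) (node 464 (merge (leaf 6 432 433) (leaf 4 464 561))))))) (merge (node 625 (merge (leaf 4 496 593) (node 624 (merge (leaf 4 528 657) (node 495 (merge (leaf 7 463 463) (leaf 7 495 527))))))) (node 465 (merge (leaf 6 464 497) (node 464 (merge (leaf 6 432 433) (node 463 (merge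 (leaf 7 431 431) (leaf 7 463 495)))))))))) (merge (node 496 (merge (node 625 (merge (leaf 4 496 593) (node 624 (merge (leaf 4 528 657) (node 623 (merge (leaf 5 495 591) (leaf 5 527 655))))))) (node 465 (merge (leaf 6 464 497) (node 464 (merge (leaf 6 432 433) (node 463 (merge (leaf 7 431 431) (leaf 7 463 495))))))))) (merge (node 624 (merge (node 657 (merge (leaf 4 528 625) (node 656 (merge (leaf 4 560 689) (node 655 (merge (leaf 5 527 623) (leaf 5 559 687))))))) (merge (node 625 (merge (leaf 4 528 657) (node 623 (merge (leaf 5 527 655) (node 591 (merge (leaf 5 495 496) (node 626 (merge (leaf 3 590 590) (leaf 3 591 627))))))))) (merge (node 657 (merge (leaf 4 528 625) (node 656 (merge (leaf 4 560 689) (node 559 (merge (leaf 7 527 527) (node 591 (merge (leaf 7 559 688) (node 496 (merge (leaf 5 463 464) (leaf 5 495 623))))))))))) (merge (node 657 (merge (leaf 4 528 625) (node 656 (merge (leaf 4 560 689) (node 559 (merge (leaf 7 527 527) (node 688 (merge (leaf 7 559 591) (node 687 (merge (leaf 5 559 655) (leaf 5 591 719))))))))))) (node 559 (merge (node 656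 (merge (leaf 7 527 527) (node 655 (merge (leaf 5 527 623) (leaf 5 559 687))))) (merge (node 623 (merge (leaf 5 527 655) (node 496 (merge (leaf 5 495 591) (node 465 (merge (leaf 6 464 497) (node 464 (merge (leaf 6 432 433) (node 431 (merge (leaf 7 431 463) (node 432 (merge (leaf 7 399 399) (leaf 5 431 527))))))))))))) (merge (node 656 (merge (node 655 (merge (leaf 5 527 623) (leaf 5 559 687))) (merge (node 591 (merge (leaf 7 559 688) (node 623 (merge (leaf 5 495 496) (leaf 6 527 655))))) (node 688 (merge (leaf 7 559 591) (node 721 (merge (leaf 4 592 689) (node 720 (merge (leaf 4 624 753) (node 719 (merge (leaf 5 591 687) (leaf 5 623 751)))))))))))) (node 656 (merge (leaf 7 527 527) (node 688 (merge (leaf 7 559 591) (node 721 (merge (leaf 4 592 689) (node 720 (merge (leaf 4 624 753) (node 719 (merge (leaf 5 591 687) (leaf 5 623 751)))))))))))))))))))) (merge (node 624 (merge (node 527 (merge (leaf 7 495 495) (node 656 (merge (leaf 7 527 559) (node 657 (merge (leaf 4 528 625) (leaf 4 560 689))))))) (merge (node 527 (merge (leaf 7 495 495) (node 656 (merge (leaf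 7 527 559) (node 655 (merge (leaf 5 527 623) (leaf 5 559 687))))))) (node 625 (merge (leaf 4 528 657) (node 623 (merge (leaf 5 527 655) (node 626 (merge (node 659 (merge (leaf 0 623 658) (node 627 (merge (leaf 0 624 660) (node 591 (merge (leaf 3 590 590) (leaf 3 591 592))))))) (merge (node 659 (merge (leaf 0 623 658) (node 627 (merge (leaf 0 624 660) (node 596 (merge (leaf 2 592 595) (node 628 (merge (leaf 3 592 593) (leaf 2 593 597))))))))) (node 590 (merge (leaf 3 590 591) (node 622 (merge (leaf 3 589 589) (node 653 (merge (leaf 1 621 654) (node 621 (merge (leaf 2 589 593) (leaf 1 620 652))))))))))))))))))) (node 496 (merge (node 465 (merge (leaf 6 464 497) (node 464 (merge (leaf 6 432 433) (node 591 (merge (leaf 5 463 559) (leaf 5 495 623))))))) (merge (node 591 (merge (leaf 5 495 623) (node 464 (merge (leaf 5 463 559) (node 463 (merge (leaf 7 431 431) (leaf 7 463 495))))))) (merge (node 465 (merge (leaf 6 464 497) (node 464 (merge (leaf 6 432 433) (node 463 (merge (leaf 7 431 431) (leaf 7 463 495))))))) (node 561 (merge (node 591 (merge (leaf 5 495 623)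 (node 562 (merge (leaf 1 559 563) (node 590 (merge (leaf 1 558 559) (leaf 2 557 589))))))) (node 497 (merge (leaf 6 464 465) (node 495 (merge (node 463 (merge (leaf 7 463 592) (node 431 (merge (leaf 4 399 399) (leaf 4 431 527))))) (merge (node 463 (merge (leaf 7 463 592) (node 462 (merge (leaf 3 462 498) (node 461 (merge (leaf 0 460 460) (leaf 3 461 494))))))) (node 494 (merge (node 461 (merge (leaf 3 461 462) (node 493 (merge (leaf 3 460 460) (node 525 (merge (leaf 1 492 524) (leaf 1 493 526))))))) (merge (node 526 (merge (leaf 1 493 525) (node 498 (merge (leaf 1 494 527) (node 531 (merge (leaf 0 495 530) (node 499 (merge (leaf 0 496 532) (node 467 (merge (leaf 2 463 466) (leaf 2 464 468))))))))))) (merge (node 461 (merge (leaf 3 461 462) (node 493 (merge (leaf 3 460 460) (node 527 (merge (leaf 0 492 492) (node 498 (merge (leaf 1 495 499) (leaf 1 494 526))))))))) (node 461 (merge (leaf 3 461 462) (node 493 (merge (leaf 3 460 460) (node 492 (merge (leaf 0 492 527) (node 524 (merge (leaf 1 491 523) (leaf 1 492 525))))))))))))))))))))))))))))) (merge (hyp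 0) (merge (hyp 1) (merge (hyp 2) (merge (hyp 3) (merge (node 592 (merge (node 496 (merge (node 593 (merge (leaf 4 496 625) (node 465 (merge (leaf 6 464 497) (node 464 (merge (leaf 6 432 433) (leaf 4 464 561))))))) (merge (node 625 (merge (leaf 4 496 593) (node 624 (merge (leaf 4 528 657) (node 495 (merge (leaf 7 463 463) (leaf 7 495 527))))))) (node 465 (merge (leaf 6 464 497) (node 464 (merge (leaf 6 432 433) (node 463 (merge (leaf 7 431 431) (leaf 7 463 495)))))))))) (merge (node 496 (merge (node 465 (merge (leaf 6 464 497) (node 464 (merge (leaf 6 432 433) (node 591 (merge (leaf 5 463 559) (leaf 5 495 623))))))) (merge (node 623 (merge (leaf 5 495 591) (node 624 (merge (leaf 5 527 655) (node 495 (merge (leaf 7 463 463) (leaf 7 495 527))))))) (node 465 (merge (leaf 6 464 497) (node 464 (merge (leaf 6 432 433) (node 463 (merge (leaf 7 431 431) (leaf 7 463 495)))))))))) (merge (node 496 (merge (node 625 (merge (leaf 4 496 593) (node 624 (merge (leaf 4 528 657) (node 623 (merge (leaf 5 495 591) (leaf 5 527 655))))))) (node 465 (merge (leaf 6 464 497) (node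 464 (merge (leaf 6 432 433) (node 463 (merge (leaf 7 431 431) (leaf 7 463 495))))))))) (merge (node 624 (merge (node 527 (merge (leaf 7 495 495) (node 656 (merge (leaf 7 527 559) (node 657 (merge (leaf 4 528 625) (leaf 4 560 689))))))) (merge (node 527 (merge (leaf 7 495 495) (node 656 (merge (leaf 7 527 559) (node 655 (merge (leaf 5 527 623) (leaf 5 559 687))))))) (node 625 (merge (leaf 4 528 657) (node 623 (merge (leaf 5 527 655) (node 622 (merge (node 653 (merge (leaf 1 621 654) (node 621 (merge (leaf 1 620 652) (node 593 (merge (leaf 2 589 592) (leaf 2 590 594))))))) (merge (node 594 (merge (leaf 2 590 593) (node 626 (merge (leaf 2 591 595) (node 590 (merge (leaf 3 589 589) (leaf 3 590 591))))))) (node 653 (merge (leaf 1 621 654) (node 621 (merge (leaf 1 620 652) (node 589 (merge (leaf 3 588 588) (leaf 3 589 590))))))))))))))))) (merge (node 624 (merge (node 657 (merge (leaf 4 528 625) (node 656 (merge (leaf 4 560 689) (node 655 (merge (leaf 5 527 623) (leaf 5 559 687))))))) (merge (node 625 (merge (leaf 4 528 657) (node 623 (merge (leaf 5 527 655) (node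 591 (merge (leaf 5 495 496) (node 626 (merge (leaf 3 590 590) (leaf 3 591 627))))))))) (merge (node 657 (merge (leaf 4 528 625) (node 656 (merge (leaf 4 560 689) (node 559 (merge (leaf 7 527 527) (node 591 (merge (leaf 7 559 688) (node 496 (merge (leaf 5 463 464) (leaf 5 495 623))))))))))) (merge (node 657 (merge (leaf 4 528 625) (node 656 (merge (leaf 4 560 689) (node 559 (merge (leaf 7 527 527) (node 688 (merge (leaf 7 559 591) (node 687 (merge (leaf 5 559 655) (leaf 5 591 719))))))))))) (node 559 (merge (node 656 (merge (leaf 7 527 527) (node 655 (merge (leaf 5 527 623) (leaf 5 559 687))))) (merge (node 623 (merge (leaf 5 527 655) (node 496 (merge (leaf 5 495 591) (node 465 (merge (leaf 6 464 497) (node 464 (merge (leaf 6 432 433) (node 431 (merge (leaf 7 431 463) (node 432 (merge (leaf 7 399 399) (leaf 5 431 527))))))))))))) (merge (node 656 (merge (node 655 (merge (leaf 5 527 623) (leaf 5 559 687))) (merge (node 591 (merge (leaf 7 559 688) (node 623 (merge (leaf 5 495 496) (leaf 6 527 655))))) (node 688 (merge (leaf 7 559 591) (node 721 (merge (leaf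 4 592 689) (node 720 (merge (leaf 4 624 753) (node 719 (merge (leaf 5 591 687) (leaf 5 623 751)))))))))))) (node 656 (merge (leaf 7 527 527) (node 688 (merge (leaf 7 559 591) (node 721 (merge (leaf 4 592 689) (node 720 (merge (leaf 4 624 753) (node 719 (merge (leaf 5 591 687) (leaf 5 623 751)))))))))))))))))))) (node 593 (merge (node 496 (merge (leaf 4 496 625) (node 463 (merge (leaf 7 463 495) (node 464 (merge (leaf 7 431 431) (leaf 4 464 561))))))) (merge (node 496 (merge (leaf 4 496 625) (node 591 (merge (leaf 5 495 623) (node 464 (merge (leaf 5 463 559) (node 463 (merge (leaf 7 431 431) (leaf 7 463 495))))))))) (merge (node 594 (merge (node 559 (merge (leaf 3 559 595) (node 558 (merge (leaf 0 557 557) (leaf 0 558 561))))) (merge (node 595 (merge (leaf 3 559 559) (node 596 (merge (leaf 3 560 561) (node 628 (merge (leaf 0 592 627) (leaf 0 593 629))))))) (merge (node 591 (merge (node 623 (merge (leaf 1 590 622) (node 655 (merge (leaf 6 527 559) (leaf 6 559 687))))) (merge (node 558 (merge (leaf 3 558 559) (node 590 (merge (leaf 3 557 557) (node 626 (merge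 (leaf 0 590 625) (leaf 0 591 627))))))) (node 626 (merge (leaf 0 591 627) (node 590 (merge (leaf 0 590 625) (node 622 (merge (leaf 1 589 621) (leaf 1 590 623)))))))))) (node 595 (merge (node 596 (merge (leaf 3 560 561) (node 564 (merge (leaf 2 560 563) (leaf 2 561 565))))) (merge (node 628 (merge (leaf 0 592 627) (node 596 (merge (leaf 0 593 629) (node 564 (merge (leaf 2 560 563) (leaf 2 561 565))))))) (node 627 (merge (leaf 0 592 628) (node 591 (merge (leaf 0 591 626) (node 622 (merge (leaf 1 590 623) (node 590 (merge (leaf 1 589 621) (node 589 (merge (leaf 2 557 561) (node 557 (merge (leaf 3 556 556) (leaf 3 557 558)))))))))))))))))))) (node 591 (merge (node 623 (merge (leaf 5 495 496) (node 655 (merge (leaf 6 527 559) (leaf 6 559 687))))) (merge (node 496 (merge (leaf 5 495 623) (node 463 (merge (leaf 7 463 495) (node 464 (merge (leaf 7 431 431) (leaf 4 464 561))))))) (merge (node 559 (merge (node 594 (merge (leaf 3 558 558) (leaf 3 559 595))) (node 590 (merge (node 589 (merge (leaf 2 557 561) (leaf 2 556 588))) (node 496 (merge (leaf 5 463 464) (node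 497 (merge (leaf 6 464 465) (node 495 (merge (leaf 7 463 463) (node 527 (merge (leaf 5 494 622) (node 498 (merge (leaf 1 495 499) (leaf 1 494 526))))))))))))))) (node 558 (merge (node 557 (merge (leaf 0 557 559) (leaf 3 557 590))) (merge (node 590 (merge (leaf 3 557 557) (node 621 (merge (leaf 1 589 622) (node 589 (merge (leaf 2 557 561) (leaf 1 588 620))))))) (node 594 (merge (leaf 3 558 559) (node 627 (merge (leaf 0 591 626) (node 595 (merge (leaf 0 592 628) (node 564 (merge (leaf 2 560 563) (node 596 (merge (leaf 3 560 561) (leaf 2 561 565)))))))))))))))))))))))))))) (merge (node 592 (merge (node 496 (merge (node 465 (merge (leaf 6 464 497) (node 464 (merge (leaf 6 432 433) (node 591 (merge (leaf 5 463 559) (leaf 5 495 623))))))) (merge (node 623 (merge (leaf 5 495 591) (node 624 (merge (leaf 5 527 655) (node 495 (merge (leaf 7 463 463) (leaf 7 495 527))))))) (node 465 (merge (leaf 6 464 497) (node 464 (merge (leaf 6 432 433) (node 463 (merge (leaf 7 431 431) (leaf 7 463 495)))))))))) (merge (node 496 (merge (node 465 (merge (leaf 6 464 497) (node 464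 (merge (leaf 6 432 433) (node 463 (merge (leaf 7 431 431) (leaf 7 463 495))))))) (merge (node 625 (merge (leaf 4 496 593) (node 624 (merge (leaf 4 528 657) (node 495 (merge (leaf 7 463 463) (leaf 7 495 527))))))) (node 465 (merge (leaf 6 464 497) (node 464 (merge (leaf 6 432 433) (node 625 (merge (leaf 4 496 593) (node 624 (merge (leaf 4 528 657) (node 559 (merge (leaf 5 463 591) (node 527 (merge (leaf 5 431 432) (leaf 7 527 656)))))))))))))))) (merge (node 624 (merge (node 495 (merge (leaf 7 495 527) (node 625 (merge (leaf 4 528 657) (node 496 (merge (leaf 7 463 463) (leaf 4 496 593))))))) (merge (node 657 (merge (leaf 4 528 625) (node 656 (merge (leaf 4 560 689) (node 655 (merge (leaf 5 527 623) (leaf 5 559 687))))))) (node 527 (merge (leaf 7 495 495) (node 656 (merge (leaf 7 527 559) (node 655 (merge (leaf 5 527 623) (leaf 5 559 687)))))))))) (merge (node 496 (merge (node 625 (merge (leaf 4 496 593) (node 624 (merge (leaf 4 528 657) (node 623 (merge (leaf 5 495 591) (leaf 5 527 655))))))) (node 465 (merge (leaf 6 464 497) (node 464 (merge (leaf 6 432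 433) (node 463 (merge (leaf 7 431 431) (leaf 7 463 495))))))))) (merge (node 624 (merge (node 657 (merge (leaf 4 528 625) (node 656 (merge (leaf 4 560 689) (node 655 (merge (leaf 5 527 623) (leaf 5 559 687))))))) (merge (node 625 (merge (leaf 4 528 657) (node 623 (merge (leaf 5 527 655) (node 591 (merge (leaf 5 495 496) (node 626 (merge (leaf 3 590 590) (leaf 3 591 627))))))))) (merge (node 657 (merge (leaf 4 528 625) (node 656 (merge (leaf 4 560 689) (node 559 (merge (leaf 7 527 527) (node 591 (merge (leaf 7 559 688) (node 496 (merge (leaf 5 463 464) (leaf 5 495 623))))))))))) (merge (node 657 (merge (leaf 4 528 625) (node 656 (merge (leaf 4 560 689) (node 559 (merge (leaf 7 527 527) (node 688 (merge (leaf 7 559 591) (node 687 (merge (leaf 5 559 655) (leaf 5 591 719))))))))))) (node 559 (merge (node 656 (merge (leaf 7 527 527) (node 655 (merge (leaf 5 527 623) (leaf 5 559 687))))) (merge (node 623 (merge (leaf 5 527 655) (node 496 (merge (leaf 5 495 591) (node 465 (merge (leaf 6 464 497) (node 464 (merge (leaf 6 432 433) (node 431 (merge (leaf 7 431 463)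 (node 432 (merge (leaf 7 399 399) (leaf 5 431 527))))))))))))) (merge (node 656 (merge (node 655 (merge (leaf 5 527 623) (leaf 5 559 687))) (merge (node 591 (merge (leaf 7 559 688) (node 623 (merge (leaf 5 495 496) (leaf 6 527 655))))) (node 688 (merge (leaf 7 559 591) (node 721 (merge (leaf 4 592 689) (node 720 (merge (leaf 4 624 753) (node 719 (merge (leaf 5 591 687) (leaf 5 623 751)))))))))))) (node 656 (merge (leaf 7 527 527) (node 688 (merge (leaf 7 559 591) (node 721 (merge (leaf 4 592 689) (node 720 (merge (leaf 4 624 753) (node 719 (merge (leaf 5 591 687) (leaf 5 623 751)))))))))))))))))))) (merge (node 624 (merge (node 527 (merge (leaf 7 495 495) (node 656 (merge (leaf 7 527 559) (node 657 (merge (leaf 4 528 625) (leaf 4 560 689))))))) (merge (node 527 (merge (leaf 7 495 495) (node 656 (merge (leaf 7 527 559) (node 655 (merge (leaf 5 527 623) (leaf 5 559 687))))))) (node 625 (merge (leaf 4 528 657) (node 623 (merge (leaf 5 527 655) (node 622 (merge (node 653 (merge (leaf 1 621 654) (node 621 (merge (leaf 1 620 652) (node 593 (merge (leaf 2 589 592)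 (leaf 2 590 594))))))) (merge (node 594 (merge (leaf 2 590 593) (node 626 (merge (leaf 2 591 595) (node 590 (merge (leaf 3 589 589) (leaf 3 590 591))))))) (node 653 (merge (leaf 1 621 654) (node 621 (merge (leaf 1 620 652) (node 589 (merge (leaf 3 588 588) (leaf 3 589 590))))))))))))))))) (node 593 (merge (node 496 (merge (leaf 4 496 625) (node 465 (merge (leaf 6 464 497) (node 464 (merge (leaf 6 432 433) (node 463 (merge (leaf 7 431 431) (leaf 7 463 495))))))))) (merge (node 591 (merge (node 623 (merge (leaf 5 495 496) (node 655 (merge (leaf 6 527 559) (leaf 6 559 687))))) (merge (node 623 (merge (leaf 5 495 496) (node 622 (merge (leaf 1 590 594) (node 621 (merge (leaf 1 589 590) (leaf 2 588 620))))))) (node 590 (merge (node 621 (merge (leaf 1 589 622) (node 589 (merge (leaf 1 588 620) (node 557 (merge (leaf 3 556 556) (leaf 3 557 558))))))) (merge (node 558 (merge (leaf 3 557 557) (node 594 (merge (leaf 3 558 559) (node 627 (merge (leaf 0 591 626) (node 595 (merge (leaf 0 592 628) (node 563 (merge (leaf 2 559 562) (leaf 2 560 564))))))))))) (merge (node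 621 (merge (leaf 1 589 622) (node 589 (merge (leaf 1 588 620) (node 559 (merge (leaf 2 556 588) (node 594 (merge (leaf 3 558 558) (leaf 3 559 595))))))))) (node 621 (merge (leaf 1 589 622) (node 589 (merge (leaf 1 588 620) (node 556 (merge (leaf 3 556 557) (node 588 (merge (leaf 3 555 555) (leaf 2 556 559)))))))))))))))) (node 594 (merge (node 559 (merge (leaf 3 559 595) (node 558 (merge (leaf 0 557 557) (leaf 3 558 591))))) (merge (node 595 (merge (leaf 3 559 559) (node 628 (merge (leaf 0 592 627) (node 596 (merge (leaf 0 593 629) (node 564 (merge (leaf 2 560 563) (leaf 2 561 565))))))))) (merge (node 591 (merge (node 623 (merge (leaf 1 590 622) (node 655 (merge (leaf 6 527 559) (leaf 6 559 687))))) (merge (node 558 (merge (leaf 3 558 559) (node 590 (merge (leaf 3 557 557) (node 626 (merge (leaf 0 590 625) (leaf 0 591 627))))))) (node 626 (merge (leaf 0 591 627) (node 590 (merge (leaf 0 590 625) (node 622 (merge (leaf 1 589 621) (leaf 1 590 623)))))))))) (node 627 (merge (node 628 (merge (leaf 0 592 595) (node 626 (merge (leaf 3 592 625) (leaf 3 593 629)))))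 (merge (node 626 (merge (leaf 0 591 591) (node 628 (merge (leaf 3 592 625) (leaf 3 593 629))))) (merge (node 595 (merge (leaf 0 592 628) (node 563 (merge (leaf 2 560 564) (node 562 (merge (leaf 2 559 591) (node 530 (merge (leaf 4 498 498) (leaf 7 530 659))))))))) (node 562 (merge (node 563 (merge (leaf 2 559 591) (node 564 (merge (leaf 1 561 565) (leaf 2 560 595))))) (merge (node 626 (merge (leaf 0 591 591) (node 530 (merge (leaf 4 530 659) (node 498 (merge (leaf 4 498 595) (leaf 5 497 625))))))) (merge (node 659 (merge (node 530 (merge (leaf 4 530 626) (node 498 (merge (leaf 4 498 595) (leaf 5 497 625))))) (merge (node 595 (merge (leaf 7 562 691) (node 563 (merge (leaf 7 530 530) (leaf 2 560 564))))) (merge (node 626 (merge (leaf 4 530 530) (node 691 (merge (leaf 4 562 658) (leaf 7 594 723))))) (node 691 (merge (leaf 7 562 595) (node 626 (merge (leaf 4 562 658) (leaf 7 594 723))))))))) (node 591 (merge (leaf 2 559 563) (node 626 (merge (leaf 0 591 627) (node 590 (merge (leaf 0 590 625) (node 622 (merge (leaf 1 589 621) (leaf 1 590 623)))))))))))))))))))))))))))))))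 (merge (node 496 (merge (node 591 (merge (node 559 (merge (leaf 5 463 464) (node 623 (merge (leaf 6 495 527) (leaf 6 527 655))))) (merge (node 623 (merge (leaf 5 495 592) (node 559 (merge (leaf 6 495 527) (leaf 6 527 655))))) (merge (node 592 (merge (leaf 5 495 623) (node 593 (merge (leaf 4 496 625) (node 465 (merge (leaf 6 464 497) (node 464 (merge (leaf 6 432 433) (leaf 4 464 561))))))))) (node 464 (merge (leaf 5 463 559) (node 465 (merge (leaf 6 432 433) (node 592 (merge (leaf 6 464 497) (node 593 (merge (leaf 4 464 561) (leaf 4 496 625))))))))))))) (merge (node 464 (merge (node 463 (merge (leaf 7 431 431) (node 592 (merge (leaf 7 463 495) (node 593 (merge (leaf 4 464 561) (leaf 4 496 625))))))) (merge (node 433 (merge (leaf 6 432 465) (node 432 (merge (leaf 6 400 401) (node 431 (merge (leaf 7 399 399) (leaf 7 431 463))))))) (node 465 (merge (leaf 6 432 433) (node 592 (merge (leaf 6 464 497) (node 593 (merge (leaf 4 464 561) (leaf 4 496 625)))))))))) (merge (node 591 (merge (node 559 (merge (leaf 5 463 464) (node 623 (merge (leaf 6 495 527) (leaf 6 527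 655))))) (merge (node 464 (merge (leaf 5 463 559) (node 463 (merge (leaf 7 431 431) (node 592 (merge (leaf 7 463 495) (node 593 (merge (leaf 4 464 561) (leaf 4 496 625))))))))) (node 592 (merge (leaf 5 495 623) (node 625 (merge (leaf 4 496 593) (node 624 (merge (leaf 4 528 657) (node 495 (merge (leaf 7 463 463) (leaf 7 495 527)))))))))))) (merge (node 464 (merge (node 559 (merge (leaf 5 463 591) (node 432 (merge (leaf 5 431 527) (node 431 (merge (leaf 7 399 399) (leaf 7 431 463))))))) (merge (node 433 (merge (leaf 6 432 465) (node 432 (merge (leaf 6 400 401) (node 559 (merge (leaf 5 431 527) (leaf 5 463 591))))))) (merge (node 433 (merge (leaf 6 432 465) (node 432 (merge (leaf 6 400 401) (node 431 (merge (leaf 7 399 399) (leaf 7 431 463))))))) (node 465 (merge (leaf 6 432 433) (node 463 (merge (leaf 7 431 431) (node 559 (merge (leaf 5 463 591) (node 466 (merge (node 499 (merge (leaf 0 463 498) (node 467 (merge (leaf 1 463 495) (leaf 0 464 500))))) (merge (node 467 (merge (leaf 1 463 495) (node 500 (merge (leaf 0 464 499) (node 468 (merge (leaf 1 464 497)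 (leaf 0 465 501))))))) (merge (node 498 (merge (leaf 0 463 499) (node 462 (merge (leaf 0 462 497) (node 493 (merge (leaf 1 461 494) (node 461 (merge (leaf 1 460 492) (node 429 (merge (leaf 3 428 428) (leaf 3 429 430))))))))))) (node 467 (merge (leaf 1 463 495) (node 435 (merge (leaf 2 431 434) (leaf 2 432 436))))))))))))))))))) (hyp 4)))))) (merge (hyp 5) (merge (hyp 6) (merge (hyp 7) (merge (hyp 8) (merge (hyp 9) (merge (hyp 10) (merge (hyp 11) (merge (node 592 (merge (node 496 (merge (node 625 (merge (leaf 4 496 593) (node 624 (merge (leaf 4 528 657) (node 623 (merge (leaf 5 495 591) (leaf 5 527 655))))))) (node 465 (merge (leaf 6 464 497) (node 464 (merge (leaf 6 432 433) (node 463 (merge (leaf 7 431 431) (leaf 7 463 495))))))))) (merge (node 623 (merge (node 591 (merge (leaf 5 495 496) (node 655 (merge (leaf 5 527 624) (leaf 6 559 687))))) (merge (node 496 (merge (leaf 5 495 591) (node 593 (merge (leaf 4 496 625) (node 465 (merge (leaf 6 464 497) (node 464 (merge (leaf 6 432 433) (leaf 4 464 561))))))))) (merge (node 624 (merge (leaf 5 527 655) (node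 625 (merge (leaf 4 528 657) (node 593 (merge (leaf 4 496 496) (node 594 (merge (leaf 1 591 595) (leaf 2 590 622))))))))) (node 624 (merge (leaf 5 527 655) (node 622 (merge (node 657 (merge (leaf 4 528 625) (node 656 (merge (leaf 0 621 621) (leaf 4 560 689))))) (merge (node 621 (merge (leaf 2 589 593) (node 652 (merge (leaf 1 620 653) (node 620 (merge (leaf 2 588 591) (leaf 1 619 651))))))) (node 625 (merge (leaf 4 528 657) (node 593 (merge (leaf 2 590 594) (node 590 (merge (leaf 3 589 589) (node 626 (merge (leaf 0 590 591) (node 659 (merge (leaf 0 623 658) (node 627 (merge (leaf 3 592 628) (leaf 0 624 660)))))))))))))))))))))) (merge (node 496 (merge (node 593 (merge (leaf 4 496 625) (node 463 (merge (leaf 7 463 495) (node 464 (merge (leaf 7 431 431) (leaf 4 464 561))))))) (merge (node 593 (merge (leaf 4 496 625) (node 465 (merge (leaf 6 464 497) (node 464 (merge (leaf 6 432 433) (leaf 4 464 561))))))) (node 497 (merge (leaf 6 464 465) (node 495 (merge (node 463 (merge (leaf 7 463 592) (node 431 (merge (leaf 4 399 399) (leaf 4 431 527))))) (merge (node 463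 (merge (leaf 7 463 592) (node 462 (merge (leaf 3 462 498) (node 461 (merge (leaf 0 460 460) (leaf 3 461 494))))))) (node 494 (merge (node 461 (merge (leaf 3 461 462) (node 493 (merge (leaf 3 460 460) (node 525 (merge (leaf 1 492 524) (leaf 1 493 526))))))) (merge (node 526 (merge (leaf 1 493 525) (node 498 (merge (leaf 1 494 527) (node 531 (merge (leaf 0 495 530) (node 499 (merge (leaf 0 496 532) (node 467 (merge (leaf 2 463 466) (leaf 2 464 468))))))))))) (merge (node 461 (merge (leaf 3 461 462) (node 493 (merge (leaf 3 460 460) (node 527 (merge (leaf 0 492 492) (node 498 (merge (leaf 1 495 499) (leaf 1 494 526))))))))) (node 461 (merge (leaf 3 461 462) (node 493 (merge (leaf 3 460 460) (node 492 (merge (leaf 0 492 527) (node 524 (merge (leaf 1 491 523) (leaf 1 492 525))))))))))))))))))))) (merge (hyp 12) (merge (hyp 13) (node 496 (merge (node 465 (merge (leaf 6 464 497) (node 464 (merge (leaf 6 432 433) (node 463 (merge (leaf 7 431 431) (leaf 7 463 495))))))) (merge (node 623 (merge (leaf 5 495 591) (node 624 (merge (leaf 5 527 655) (node 495 (merge (leaf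 7 463 463) (leaf 7 495 527))))))) (merge (hyp 14) (hyp 15))))))))))) (merge (hyp 16) (merge (hyp 17) (merge (node 592 (merge (node 624 (merge (node 657 (merge (leaf 4 528 625) (node 656 (merge (leaf 4 560 689) (node 655 (merge (leaf 5 527 623) (leaf 5 559 687))))))) (merge (node 623 (merge (leaf 5 527 655) (node 496 (merge (leaf 5 495 591) (node 465 (merge (leaf 6 464 497) (node 464 (merge (leaf 6 432 433) (node 463 (merge (leaf 7 431 431) (leaf 7 463 495))))))))))) (node 625 (merge (leaf 4 528 657) (node 496 (merge (leaf 4 496 593) (node 465 (merge (leaf 6 464 497) (node 464 (merge (leaf 6 432 433) (node 463 (merge (leaf 7 431 431) (leaf 7 463 495)))))))))))))) (merge (node 591 (merge (node 496 (merge (leaf 5 495 623) (node 465 (merge (leaf 6 464 497) (node 464 (merge (leaf 6 432 433) (node 463 (merge (leaf 7 431 431) (leaf 7 463 495))))))))) (merge (node 593 (merge (node 496 (merge (leaf 4 496 625) (node 465 (merge (leaf 6 464 497) (node 464 (merge (leaf 6 432 433) (node 463 (merge (leaf 7 431 431) (leaf 7 463 495))))))))) (node 590 (merge (node 561 (merge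 (leaf 2 558 562) (leaf 2 557 589))) (merge (node 562 (merge (leaf 2 558 561) (node 594 (merge (leaf 2 559 563) (node 595 (merge (leaf 3 559 559) (node 627 (merge (leaf 0 591 626) (leaf 0 592 628))))))))) (merge (node 558 (merge (leaf 3 557 557) (node 594 (merge (leaf 3 558 559) (node 627 (merge (leaf 0 591 626) (node 595 (merge (leaf 0 592 628) (node 563 (merge (leaf 2 559 562) (leaf 2 560 564))))))))))) (node 558 (merge (leaf 3 557 557) (node 594 (merge (leaf 3 558 559) (node 627 (merge (leaf 0 591 626) (node 595 (merge (leaf 0 592 628) (node 564 (merge (leaf 2 560 563) (node 596 (merge (leaf 3 560 561) (leaf 2 561 565))))))))))))))))))) (node 590 (merge (node 589 (merge (leaf 2 557 561) (node 620 (merge (leaf 1 588 621) (node 588 (merge (leaf 2 556 559) (leaf 1 587 619))))))) (merge (node 589 (merge (leaf 2 557 561) (node 620 (merge (leaf 1 588 621) (node 588 (merge (leaf 1 587 619) (node 556 (merge (leaf 3 555 555) (leaf 3 556 557))))))))) (merge (node 593 (merge (node 625 (merge (leaf 0 590 626) (node 561 (merge (leaf 2 558 562) (leaf 7 528 657)))))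 (merge (node 558 (merge (leaf 3 557 557) (node 594 (merge (leaf 3 558 559) (node 562 (merge (leaf 2 558 561) (leaf 2 559 563))))))) (merge (node 562 (merge (leaf 2 558 561) (node 594 (merge (leaf 2 559 563) (node 595 (merge (leaf 3 559 559) (node 627 (merge (leaf 0 591 626) (leaf 0 592 628))))))))) (merge (node 558 (merge (leaf 3 557 557) (node 594 (merge (leaf 3 558 559) (node 627 (merge (leaf 0 591 626) (node 595 (merge (leaf 0 592 628) (node 563 (merge (leaf 2 559 562) (leaf 2 560 564))))))))))) (node 558 (merge (leaf 3 557 557) (node 594 (merge (leaf 3 558 559) (node 627 (merge (leaf 0 591 626) (node 595 (merge (leaf 0 592 628) (node 564 (merge (leaf 2 560 563) (node 596 (merge (leaf 3 560 561) (leaf 2 561 565)))))))))))))))))) (node 589 (merge (node 620 (merge (leaf 1 588 621) (node 588 (merge (leaf 2 556 559) (leaf 1 587 619))))) (merge (node 621 (merge (leaf 1 588 620) (node 593 (merge (leaf 1 589 622) (node 557 (merge (leaf 3 556 556) (leaf 3 557 558))))))) (merge (node 588 (merge (leaf 2 556 559) (node 556 (merge (leaf 3 555 555) (leaf 3 556 557)))))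 (node 557 (merge (leaf 3 556 556) (node 593 (merge (leaf 3 557 558) (node 622 (merge (leaf 1 589 621) (node 594 (merge (leaf 1 590 623) (node 563 (merge (leaf 2 559 562) (node 595 (merge (leaf 3 559 559) (leaf 2 560 564)))))))))))))))))))))))) (merge (node 591 (merge (node 496 (merge (leaf 5 495 623) (node 465 (merge (leaf 6 464 497) (node 464 (merge (leaf 6 432 433) (node 463 (merge (leaf 7 431 431) (leaf 7 463 495))))))))) (merge (node 593 (merge (node 496 (merge (leaf 4 496 625) (node 465 (merge (leaf 6 464 497) (node 464 (merge (leaf 6 432 433) (node 463 (merge (leaf 7 431 431) (leaf 7 463 495))))))))) (node 590 (merge (node 561 (merge (leaf 2 558 562) (leaf 2 557 589))) (merge (node 562 (merge (leaf 2 558 561) (node 594 (merge (leaf 2 559 563) (node 595 (merge (leaf 3 559 559) (node 627 (merge (leaf 0 591 626) (leaf 0 592 628))))))))) (merge (node 558 (merge (leaf 3 557 557) (node 594 (merge (leaf 3 558 559) (node 627 (merge (leaf 0 591 626) (node 595 (merge (leaf 0 592 628) (node 563 (merge (leaf 2 559 562) (leaf 2 560 564))))))))))) (node 558 (merge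 (leaf 3 557 557) (node 594 (merge (leaf 3 558 559) (node 627 (merge (leaf 0 591 626) (node 595 (merge (leaf 0 592 628) (node 564 (merge (leaf 2 560 563) (node 596 (merge (leaf 3 560 561) (leaf 2 561 565))))))))))))))))))) (node 590 (merge (node 561 (merge (leaf 2 557 589) (node 562 (merge (leaf 1 558 559) (leaf 1 559 563))))) (merge (node 589 (merge (leaf 2 557 561) (node 620 (merge (leaf 1 588 621) (node 588 (merge (leaf 1 587 619) (node 556 (merge (leaf 3 555 555) (leaf 3 556 557))))))))) (merge (node 589 (merge (node 620 (merge (leaf 1 588 621) (node 588 (merge (leaf 2 556 559) (leaf 1 587 619))))) (merge (node 621 (merge (leaf 1 588 620) (node 593 (merge (leaf 1 589 622) (node 557 (merge (leaf 3 556 556) (leaf 3 557 558))))))) (merge (node 588 (merge (leaf 2 556 559) (node 556 (merge (leaf 3 555 555) (leaf 3 556 557))))) (node 557 (merge (leaf 3 556 556) (node 593 (merge (leaf 3 557 558) (node 622 (merge (leaf 1 589 621) (node 594 (merge (leaf 1 590 623) (node 563 (merge (leaf 2 559 562) (node 595 (merge (leaf 3 559 559) (leaf 2 560 564)))))))))))))))))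 (node 623 (merge (node 655 (merge (leaf 5 527 624) (leaf 6 559 687))) (merge (node 655 (merge (leaf 6 527 559) (leaf 6 559 687))) (node 593 (merge (node 594 (merge (leaf 1 590 622) (node 558 (merge (leaf 3 557 557) (leaf 3 558 559))))) (merge (node 558 (merge (leaf 3 557 557) (node 594 (merge (leaf 3 558 559) (node 562 (merge (leaf 2 558 561) (leaf 2 559 563))))))) (merge (node 626 (merge (leaf 0 590 625) (node 594 (merge (leaf 1 590 622) (leaf 0 591 627))))) (node 625 (merge (leaf 0 590 626) (node 622 (merge (leaf 1 589 621) (node 561 (merge (leaf 2 558 562) (node 558 (merge (leaf 3 557 557) (node 526 (merge (leaf 4 494 494) (node 559 (merge (leaf 3 525 525) (node 654 (merge (leaf 6 558 686) (node 653 (merge (leaf 1 621 624) (leaf 5 557 685))))))))))))))))))))))))))))))) (merge (hyp 18) (merge (hyp 19) (merge (hyp 20) (merge (hyp 21) (hyp 22))))))))) (hyp 23))))))))))))))))))))))) nP_420 cP_420 20 (by decide +kernel)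

end Crest.Agent.H26Snaky
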