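import Crest.Agent.H26SnakyTree

/-! certificate data for S0047, part Q 0 (computer generated) -/

set_option autoImplicit false
set_option maxRecDepth 100000

namespace Crest.Agent.H26Snaky

open T

def nQ_0 : ℕ := 0x1000000010000000000000000000000000000000000000000000000000000000000000000000000000000000000000000000000000000000000000000000000000000
def cQ_0 : ℕ := 0x2800000038000000fe0000001f000000ef800000ef0000007f8000003e00000038000000380000000800000000000000000000000000000000000000000000000000000000000000000000000000000000000
theorem lQ_0 : S nQ_0 cQ_0 11 := S_of_chk [] trivial (node 560 (merge (node 592 (merge (node 625 (merge (leaf 4 496 593) (node 624 (merge (leaf 4 528 657) (node 495 (merge (leaf 7 463 463) (leaf 7 495 527))))))) (merge (node 623 (merge (leaf 5 495 591) (node 495 (merge (leaf 7 463 463) (node 624 (merge (leaf 7 495 527) (leaf 5 527 655))))))) (node 593 (merge (leaf 4 496 625) (node 591 (merge (leaf 5 495 623) (node 559 (merge (leaf 5 463 464) (node 594 (merge (leaf 3 558 558) (leaf 3 559 595)))))))))))) (merge (node 592 (merge (node 465 (merge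 (leaf 6 464 497) (node 464 (merge (leaf 6 432 433) (node 591 (merge (leaf 5 463 559) (leaf 5 495 623))))))) (merge (node 625 (merge (leaf 4 496 593) (node 497 (merge (leaf 6 464 465) (node 624 (merge (leaf 6 496 529) (leaf 4 528 657))))))) (node 593 (merge (leaf 4 496 625) (node 591 (merge (leaf 5 495 623) (node 559 (merge (leaf 5 463 464) (node 594 (merge (leaf 3 558 558) (leaf 3 559 595)))))))))))) (merge (node 592 (merge (node 465 (merge (leaf 6 464 497) (node 464 (merge (leaf 6 432 433) (node 463 (merge (leaf 7 431 431) (leaf 7 463 495))))))) (merge (node 625 (merge (leaf 4 496 593) (node 624 (merge (leaf 4 528 657) (node 495 (merge (leaf 7 463 463) (leaf 7 495 527))))))) (node 625 (merge (leaf 4 496 593) (node 497 (merge (leaf 6 464 465) (node 624 (merge (leaf 6 496 529) (leaf 4 528 657)))))))))) (merge (node 495 (merge (node 463 (merge (leaf 7 463 592) (node 431 (merge (leaf 4 399 399) (leaf 4 431 527))))) (merge (node 497 (merge (node 592 (merge (leaf 7 463 463) (leaf 6 464 465))) (merge (node 465 (merge (leaf 6 464 592) (node 433 (merge (leaf 5 400 401)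 (leaf 5 432 529))))) (node 494 (merge (node 529 (merge (leaf 0 493 493) (node 530 (merge (leaf 0 494 497) (leaf 3 495 531))))) (merge (node 525 (merge (leaf 1 493 526) (node 493 (merge (leaf 1 492 524) (node 461 (merge (leaf 3 460 460) (leaf 3 461 462))))))) (node 530 (merge (leaf 0 494 529) (node 498 (merge (leaf 0 495 531) (node 462 (merge (leaf 3 461 461) (leaf 3 462 463))))))))))))) (node 494 (merge (node 529 (merge (leaf 0 493 493) (node 530 (merge (leaf 0 494 497) (leaf 3 495 531))))) (merge (node 493 (merge (leaf 0 493 529) (node 492 (merge (leaf 0 492 527) (node 524 (merge (leaf 1 491 523) (leaf 1 492 525))))))) (merge (node 493 (merge (node 492 (merge (leaf 0 492 527) (node 524 (merge (leaf 1 491 523) (leaf 1 492 525))))) (merge (node 492 (merge (leaf 0 492 527) (node 460 (merge (leaf 3 459 459) (leaf 3 460 461))))) (node 525 (merge (leaf 1 492 524) (node 526 (merge (leaf 1 493 497) (node 461 (merge (leaf 3 460 460) (node 558 (merge (leaf 4 429 429) (leaf 7 461 590)))))))))))) (node 497 (merge (node 529 (merge (leaf 0 494 530) (node 465 (merge (leaf 5 432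 433) (leaf 2 462 466))))) (node 526 (merge (leaf 1 493 525) (node 527 (merge (leaf 1 494 498) (node 462 (merge (leaf 3 461 461) (node 559 (merge (leaf 4 430 430) (leaf 7 462 591)))))))))))))))))) (node 495 (merge (node 464 (merge (node 465 (merge (leaf 6 432 433) (node 494 (merge (leaf 2 461 493) (node 463 (merge (leaf 7 431 431) (leaf 1 462 466))))))) (merge (node 433 (merge (leaf 6 432 465) (node 432 (merge (leaf 6 400 401) (node 527 (merge (leaf 5 399 400) (leaf 5 431 559))))))) (node 431 (merge (leaf 7 431 463) (node 432 (merge (leaf 7 399 399) (node 527 (merge (leaf 5 399 400) (leaf 5 431 559)))))))))) (merge (node 494 (merge (node 493 (merge (leaf 0 493 529) (node 492 (merge (leaf 0 492 527) (node 524 (merge (leaf 1 491 523) (leaf 1 492 525))))))) (merge (node 493 (merge (leaf 0 493 529) (node 525 (merge (leaf 1 492 524) (node 497 (merge (leaf 1 493 526) (node 461 (merge (leaf 3 460 460) (leaf 3 461 462))))))))) (merge (node 493 (merge (leaf 0 493 529) (node 527 (merge (leaf 0 492 492) (node 461 (merge (leaf 3 460 460) (node 497 (merge (leaf 3 461 462) (node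 498 (merge (leaf 1 495 499) (leaf 1 494 526))))))))))) (merge (node 493 (merge (node 492 (merge (leaf 0 492 527) (node 524 (merge (leaf 1 491 523) (leaf 1 492 525))))) (merge (node 492 (merge (leaf 0 492 527) (node 460 (merge (leaf 3 459 459) (leaf 3 460 461))))) (node 525 (merge (leaf 1 492 524) (node 526 (merge (leaf 1 493 497) (node 461 (merge (leaf 3 460 460) (node 558 (merge (leaf 4 429 429) (leaf 7 461 590)))))))))))) (node 497 (merge (node 529 (merge (leaf 0 494 530) (node 465 (merge (leaf 5 432 433) (leaf 2 462 466))))) (node 526 (merge (leaf 1 493 525) (node 527 (merge (leaf 1 494 498) (node 462 (merge (leaf 3 461 461) (node 559 (merge (leaf 4 430 430) (leaf 7 462 591)))))))))))))))) (merge (node 463 (merge (node 431 (merge (leaf 4 399 399) (leaf 7 431 464))) (merge (node 431 (merge (leaf 4 399 399) (leaf 4 431 527))) (node 497 (merge (node 462 (merge (leaf 3 462 498) (node 461 (merge (leaf 0 460 460) (leaf 0 461 464))))) (merge (node 498 (merge (leaf 3 462 462) (node 527 (merge (leaf 1 495 499) (leaf 1 494 526))))) (merge (node 527 (merge (node 526 (merge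 (leaf 1 494 498) (leaf 2 493 525))) (node 559 (merge (node 558 (merge (leaf 5 462 590) (node 557 (merge (leaf 2 525 529) (leaf 2 524 556))))) (node 591 (merge (leaf 5 463 464) (node 623 (merge (leaf 6 495 527) (leaf 6 527 655))))))))) (node 464 (merge (node 433 (merge (leaf 6 432 465) (node 432 (merge (leaf 6 400 401) (node 400 (merge (leaf 5 367 368) (leaf 4 400 529))))))) (merge (node 433 (merge (leaf 6 432 465) (node 432 (merge (leaf 6 400 401) (node 400 (merge (leaf 5 367 368) (leaf 5 399 527))))))) (node 462 (merge (leaf 0 461 461) (node 559 (merge (leaf 5 463 591) (node 527 (merge (leaf 7 430 430) (node 558 (merge (leaf 5 462 590) (node 557 (merge (leaf 2 525 529) (leaf 2 524 556))))))))))))))))))))) (merge (node 494 (merge (node 493 (merge (leaf 0 493 529) (node 464 (merge (leaf 2 461 465) (node 463 (merge (leaf 7 431 431) (leaf 2 460 492))))))) (merge (node 493 (merge (node 492 (merge (leaf 0 492 527) (node 524 (merge (leaf 1 491 523) (leaf 1 492 525))))) (merge (node 492 (merge (leaf 0 492 527) (node 460 (merge (leaf 3 459 459) (leaf 3 460 461))))) (node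 525 (merge (leaf 1 492 524) (node 526 (merge (leaf 1 493 497) (node 461 (merge (leaf 3 460 460) (node 558 (merge (leaf 4 429 429) (leaf 7 461 590)))))))))))) (node 463 (merge (node 431 (merge (leaf 4 399 399) (leaf 7 431 464))) (merge (node 431 (merge (leaf 4 399 399) (leaf 4 431 527))) (node 497 (merge (node 462 (merge (leaf 3 462 498) (node 461 (merge (leaf 0 460 460) (leaf 0 461 464))))) (merge (node 530 (merge (leaf 0 494 529) (node 498 (merge (leaf 0 495 531) (node 526 (merge (leaf 1 493 525) (leaf 1 494 527))))))) (node 529 (merge (leaf 0 494 530) (node 526 (merge (leaf 1 493 525) (node 462 (merge (leaf 3 461 461) (node 558 (merge (leaf 6 462 590) (node 557 (merge (leaf 1 525 527) (leaf 5 461 589)))))))))))))))))))) (merge (node 529 (merge (node 494 (merge (leaf 0 493 493) (node 530 (merge (leaf 0 494 497) (leaf 3 495 531))))) (merge (node 530 (merge (leaf 3 495 531) (node 527 (merge (leaf 3 494 494) (node 559 (merge (leaf 1 526 558) (node 591 (merge (leaf 6 463 464) (leaf 6 495 623))))))))) (merge (node 559 (merge (node 558 (merge (leaf 2 525 557) (node 530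 (merge (leaf 1 526 527) (leaf 1 527 531))))) (merge (node 464 (merge (leaf 5 463 591) (node 432 (merge (leaf 5 431 527) (node 400 (merge (leaf 4 400 497) (node 401 (merge (leaf 6 368 369) (leaf 6 400 433))))))))) (node 464 (merge (leaf 5 463 591) (node 431 (merge (leaf 7 431 463) (node 432 (merge (leaf 7 399 399) (node 400 (merge (leaf 4 400 497) (node 401 (merge (leaf 6 368 369) (leaf 6 400 433)))))))))))))) (node 464 (merge (node 559 (merge (leaf 5 463 591) (node 432 (merge (leaf 5 431 527) (node 400 (merge (leaf 4 400 497) (node 401 (merge (leaf 6 368 369) (leaf 6 400 433))))))))) (merge (node 431 (merge (leaf 7 431 463) (node 432 (merge (leaf 7 399 399) (node 400 (merge (leaf 4 400 497) (node 401 (merge (leaf 6 368 369) (leaf 6 400 433))))))))) (node 494 (merge (leaf 0 493 493) (node 559 (merge (leaf 5 463 591) (node 558 (merge (leaf 2 525 557) (node 463 (merge (leaf 7 431 431) (node 590 (merge (leaf 6 462 526) (leaf 5 462 527)))))))))))))))))) (node 497 (merge (node 494 (merge (node 529 (merge (leaf 0 493 493) (leaf 0 494 530))) (merge (node 465 (merge (leaf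 2 462 466) (node 464 (merge (leaf 6 432 433) (leaf 2 461 493))))) (node 465 (merge (leaf 2 462 466) (node 433 (merge (leaf 5 400 401) (leaf 5 432 529)))))))) (merge (node 494 (merge (node 529 (merge (leaf 0 493 493) (node 530 (merge (leaf 0 494 497) (leaf 3 495 531))))) (merge (node 525 (merge (leaf 1 493 526) (node 493 (merge (leaf 1 492 524) (node 461 (merge (leaf 3 460 460) (leaf 3 461 462))))))) (node 530 (merge (leaf 0 494 529) (node 498 (merge (leaf 0 495 531) (node 462 (merge (leaf 3 461 461) (leaf 3 462 463)))))))))) (merge (node 494 (merge (node 465 (merge (leaf 2 462 466) (node 464 (merge (leaf 6 432 433) (leaf 2 461 493))))) (merge (node 525 (merge (leaf 1 493 526) (node 493 (merge (leaf 1 492 524) (node 461 (merge (leaf 3 460 460) (leaf 3 461 462))))))) (node 465 (merge (leaf 2 462 466) (node 433 (merge (leaf 5 400 401) (leaf 6 432 464)))))))) (node 464 (merge (node 463 (merge (leaf 7 431 431) (node 462 (merge (leaf 0 461 461) (node 498 (merge (leaf 3 462 495) (leaf 3 463 499))))))) (node 432 (merge (node 433 (merge (leaf 6 400 401) (leaf 6 432 465)))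 (merge (node 400 (merge (leaf 4 400 529) (node 368 (merge (leaf 4 368 465) (node 367 (merge (leaf 7 335 335) (leaf 7 367 399))))))) (node 400 (merge (leaf 4 400 529) (node 401 (merge (leaf 6 368 369) (leaf 6 400 433))))))))))))))))))))))))) nQ_0 cQ_0 11 (by decide +kernel)
def nQ_1 : ℕ := 0x100000001000000010000000000000000000000000000000000000000000000000000000000000000000000000000000000000000000000000000000000000000000000000000
def cQ_1 : ℕ := 0xc0000000e0000000f0000000e000001ef800000ef000000fb800000fa000000f8000000f8000000a000000000000000000000000000000000000000000000000000000000000000000000000000000000000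
theorem lQ_1 : S nQ_1 cQ_1 13 := S_of_chk [] trivial (node 495 (merge (node 464 (merge (node 465 (merge (leaf 6 432 433) (node 494 (merge (leaf 2 461 493) (node 466 (merge (leaf 1 462 463) (leaf 1 463 467))))))) (merge (node 559 (merge (leaf 5 463 591) (node 432 (merge (leaf 5 431 527) (node 431 (merge (leaf 7 399 399) (leaf 7 431 463))))))) (node 433 (merge (leaf 6 432 465) (node 432 (merge (leaf 6 400 401) (node 559 (merge (leaf 5 431 527) (leaf 5 463 591)))))))))) (merge (node 494 (merge (node 529 (merge (leaf 0 493 493) (node 530 (merge (leaf 0 494 497) (leaf 3 495 531))))) (merge (node 493 (merge (leaf 0 493 529) (node 492 (merge (leaf 0 492 527) (node 524 (merge (leaf 1 491 523) (leaf 1 492 525))))))) (merge (node 493 (merge (node 492 (merge (leaf 0 492 527) (node 524 (merge (leaf 1 491 523) (leaf 1 492 525))))) (merge (node 492 (merge (leaf 0 492 527) (node 460 (merge (leaf 3 459 459) (leaf 3 460 461))))) (node 525 (merge (leaf 1 492 524) (node 526 (merge (leaf 1 493 497) (node 461 (merge (leaf 3 460 460) (node 558 (merge (leaf 4 429 429) (leaf 7 461 590))))))))))))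 (node 497 (merge (node 465 (merge (leaf 2 462 466) (node 433 (merge (leaf 5 400 401) (leaf 5 432 529))))) (merge (node 530 (merge (leaf 0 494 529) (node 498 (merge (leaf 0 495 531) (node 526 (merge (leaf 1 493 525) (leaf 1 494 527))))))) (node 466 (merge (leaf 2 462 465) (node 498 (merge (leaf 2 463 467) (node 531 (merge (leaf 0 495 530) (node 499 (merge (leaf 1 495 527) (leaf 0 496 532)))))))))))))))) (merge (node 494 (merge (node 529 (merge (leaf 0 493 493) (node 530 (merge (leaf 0 494 497) (leaf 3 495 531))))) (merge (node 493 (merge (leaf 0 493 529) (node 464 (merge (leaf 2 461 465) (node 463 (merge (leaf 7 431 431) (leaf 2 460 492))))))) (merge (node 465 (merge (node 433 (merge (leaf 6 432 464) (node 497 (merge (leaf 5 400 401) (leaf 5 432 529))))) (merge (node 466 (merge (leaf 2 462 497) (node 464 (merge (leaf 1 462 463) (leaf 1 463 467))))) (merge (node 497 (merge (leaf 2 462 466) (node 433 (merge (leaf 5 400 401) (leaf 5 432 529))))) (node 464 (merge (leaf 6 432 433) (node 463 (merge (leaf 7 431 431) (leaf 1 462 466))))))))) (node 493 (merge (node 464 (merge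 (leaf 2 461 465) (node 463 (merge (leaf 7 431 431) (leaf 2 460 492))))) (node 525 (merge (leaf 1 492 524) (node 526 (merge (leaf 1 493 497) (node 461 (merge (leaf 3 460 460) (node 558 (merge (leaf 4 429 429) (leaf 7 461 590))))))))))))))) (merge (node 529 (merge (node 494 (merge (leaf 0 493 493) (node 530 (merge (leaf 0 494 497) (leaf 3 495 531))))) (merge (node 530 (merge (leaf 3 495 531) (node 527 (merge (leaf 3 494 494) (node 559 (merge (leaf 1 526 558) (node 591 (merge (leaf 6 463 464) (leaf 6 495 623))))))))) (merge (node 559 (merge (node 558 (merge (leaf 2 525 557) (node 530 (merge (leaf 1 526 527) (leaf 1 527 531))))) (merge (node 464 (merge (leaf 5 463 591) (node 432 (merge (leaf 5 431 527) (node 400 (merge (leaf 4 400 497) (node 401 (merge (leaf 6 368 369) (leaf 6 400 433))))))))) (node 464 (merge (leaf 5 463 591) (node 431 (merge (leaf 7 431 463) (node 432 (merge (leaf 7 399 399) (node 400 (merge (leaf 4 400 497) (node 401 (merge (leaf 6 368 369) (leaf 6 400 433)))))))))))))) (node 464 (merge (node 559 (merge (leaf 5 463 591) (node 432 (merge (leaf 5 431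 527) (node 400 (merge (leaf 4 400 497) (node 401 (merge (leaf 6 368 369) (leaf 6 400 433))))))))) (merge (node 431 (merge (leaf 7 431 463) (node 432 (merge (leaf 7 399 399) (node 400 (merge (leaf 4 400 497) (node 401 (merge (leaf 6 368 369) (leaf 6 400 433))))))))) (node 494 (merge (leaf 0 493 493) (node 559 (merge (leaf 5 463 591) (node 558 (merge (leaf 2 525 557) (node 463 (merge (leaf 7 431 431) (node 590 (merge (leaf 6 462 526) (leaf 5 462 527)))))))))))))))))) (merge (node 464 (merge (node 465 (merge (leaf 6 432 433) (node 494 (merge (leaf 2 461 493) (node 466 (merge (leaf 1 462 463) (leaf 1 463 467))))))) (merge (node 431 (merge (leaf 7 431 463) (node 432 (merge (leaf 7 399 399) (node 527 (merge (leaf 5 399 400) (leaf 5 431 559))))))) (node 559 (merge (leaf 5 463 591) (node 432 (merge (leaf 5 431 527) (node 465 (merge (leaf 6 432 433) (node 399 (merge (leaf 7 399 431) (node 400 (merge (leaf 7 367 367) (node 497 (merge (leaf 4 368 368) (leaf 4 400 529)))))))))))))))) (merge (node 464 (merge (node 433 (merge (leaf 6 432 465) (node 432 (merge (leaf 6 400 401)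 (node 527 (merge (leaf 5 399 400) (leaf 5 431 559))))))) (merge (node 559 (merge (leaf 5 463 591) (node 432 (merge (leaf 5 431 527) (node 431 (merge (leaf 7 399 399) (leaf 7 431 463))))))) (merge (node 433 (merge (leaf 6 432 465) (node 432 (merge (leaf 6 400 401) (node 431 (merge (leaf 7 399 399) (leaf 7 431 463))))))) (node 529 (merge (node 559 (merge (leaf 5 463 591) (node 558 (merge (leaf 2 525 557) (node 530 (merge (leaf 1 526 527) (leaf 1 527 531))))))) (node 465 (merge (leaf 6 432 433) (node 466 (merge (leaf 1 463 467) (node 463 (merge (leaf 7 431 431) (node 498 (merge (leaf 0 463 499) (node 434 (merge (leaf 2 431 435) (node 402 (merge (leaf 5 401 497) (node 371 (merge (leaf 6 370 403) (node 370 (merge (leaf 6 338 339) (node 369 (merge (leaf 7 337 337) (leaf 7 369 401))))))))))))))))))))))))) (node 494 (merge (node 529 (merge (leaf 0 493 493) (node 530 (merge (leaf 0 494 497) (leaf 3 495 531))))) (merge (node 493 (merge (leaf 0 493 529) (node 464 (merge (leaf 2 461 465) (node 463 (merge (leaf 7 431 431) (leaf 2 460 492))))))) (merge (node 493 (merge (node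 464 (merge (leaf 2 461 465) (node 463 (merge (leaf 7 431 431) (leaf 2 460 492))))) (node 525 (merge (leaf 1 492 524) (node 526 (merge (leaf 1 493 497) (node 461 (merge (leaf 3 460 460) (node 558 (merge (leaf 4 429 429) (leaf 7 461 590))))))))))) (node 526 (merge (node 525 (merge (leaf 1 493 497) (node 524 (merge (leaf 2 491 523) (leaf 2 492 527))))) (merge (node 497 (merge (leaf 1 493 525) (node 530 (merge (leaf 0 494 529) (node 498 (merge (leaf 0 495 531) (node 466 (merge (leaf 2 462 465) (leaf 2 463 467))))))))) (merge (node 559 (merge (node 591 (merge (leaf 5 463 464) (node 623 (merge (leaf 6 495 527) (leaf 6 527 655))))) (merge (node 463 (merge (node 431 (merge (leaf 4 399 399) (leaf 4 431 527))) (node 558 (merge (leaf 6 462 590) (node 557 (merge (leaf 2 525 529) (node 589 (merge (leaf 1 556 588) (node 525 (merge (leaf 3 524 524) (leaf 6 493 621))))))))))) (node 464 (merge (leaf 5 463 591) (node 463 (merge (leaf 7 431 431) (node 558 (merge (leaf 6 462 590) (node 557 (merge (leaf 2 525 529) (node 589 (merge (leaf 1 556 588) (node 525 (merge (leaf 3 524 524) (leaf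 6 493 621)))))))))))))))) (node 464 (merge (node 431 (merge (leaf 7 431 463) (node 432 (merge (leaf 7 399 399) (node 527 (merge (leaf 5 399 400) (leaf 5 431 559))))))) (merge (node 559 (merge (leaf 5 463 591) (node 463 (merge (leaf 7 431 431) (node 558 (merge (leaf 6 462 590) (node 529 (merge (leaf 2 525 557) (node 530 (merge (leaf 0 494 497) (leaf 1 527 531))))))))))) (merge (node 559 (merge (leaf 5 463 591) (node 527 (merge (leaf 5 431 432) (node 529 (merge (leaf 3 494 530) (node 558 (merge (leaf 2 525 557) (node 590 (merge (leaf 5 462 463) (node 622 (merge (leaf 6 494 526) (leaf 6 526 654))))))))))))) (merge (node 559 (merge (leaf 5 463 591) (node 432 (merge (leaf 5 431 527) (node 399 (merge (leaf 7 399 431) (node 400 (merge (leaf 7 367 367) (node 497 (merge (leaf 4 400 529) (node 465 (merge (leaf 4 368 368) (leaf 2 462 466))))))))))))) (node 431 (merge (leaf 7 431 463) (node 432 (merge (leaf 7 399 399) (node 400 (merge (leaf 5 399 527) (node 497 (merge (leaf 4 400 529) (node 465 (merge (leaf 4 368 368) (leaf 2 462 466))))))))))))))))))))))))))))))) nQ_1 cQ_1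 13 (by decide +kernel)
def nQ_2 : ℕ := 0x100000001000000010000000000000000000000000000000000000000000000000000000000000000000000000000000000000000000000000000000000000000000000000000
def cQ_2 : ℕ := 0xa0000004e0000004f800000cf000003ef800001ef000003bf800000be0000003e000000380000002800000000000000000000000000000000000000000000000000000000000000000000000000000000000
theorem lQ_2 : S nQ_2 cQ_2 14 := S_of_chk [] trivial (node 497 (merge (node 464 (merge (node 465 (merge (leaf 6 432 433) (node 463 (merge (leaf 7 431 431) (node 498 (merge (leaf 0 462 462) (leaf 3 463 499))))))) (merge (node 559 (merge (leaf 5 463 591) (node 432 (merge (leaf 5 431 527) (node 431 (merge (leaf 7 399 399) (leaf 7 431 463))))))) (node 433 (merge (leaf 6 432 465) (node 432 (merge (leaf 6 400 401) (node 559 (merge (leaf 5 431 527) (leaf 5 463 591)))))))))) (merge (node 464 (merge (node 463 (merge (leaf 7 431 431) (node 462 (merge (leaf 0 461 461) (node 498 (merge (leaf 3 462 495) (leaf 3 463 499))))))) (merge (node 559 (merge (leaf 5 463 591) (node 432 (merge (leaf 5 431 527) (node 431 (merge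 (leaf 7 399 399) (leaf 7 431 463))))))) (node 559 (merge (leaf 5 463 591) (node 527 (merge (leaf 5 431 432) (node 498 (merge (leaf 1 495 499) (node 526 (merge (leaf 1 494 495) (leaf 2 493 525)))))))))))) (merge (node 464 (merge (node 463 (merge (leaf 7 431 431) (node 462 (merge (leaf 0 461 461) (node 498 (merge (leaf 0 462 465) (leaf 3 462 495))))))) (merge (node 432 (merge (node 433 (merge (leaf 6 400 401) (leaf 6 432 465))) (merge (node 400 (merge (leaf 4 400 529) (node 368 (merge (leaf 4 368 465) (node 367 (merge (leaf 7 335 335) (leaf 7 367 399))))))) (node 400 (merge (leaf 4 400 529) (node 401 (merge (leaf 6 368 369) (leaf 6 400 433)))))))) (node 431 (merge (leaf 7 431 463) (node 432 (merge (leaf 7 399 399) (node 400 (merge (leaf 4 400 529) (node 401 (merge (leaf 6 368 369) (leaf 6 400 433)))))))))))) (merge (node 464 (merge (node 463 (merge (leaf 7 431 431) (node 462 (merge (leaf 0 461 461) (node 498 (merge (leaf 3 462 495) (leaf 3 463 499))))))) (node 559 (merge (leaf 5 463 591) (node 432 (merge (leaf 5 431 527) (node 400 (merge (leaf 4 400 529) (node 401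 (merge (leaf 6 368 369) (leaf 6 400 433))))))))))) (merge (node 464 (merge (node 559 (merge (leaf 5 463 591) (node 432 (merge (leaf 5 431 527) (node 431 (merge (leaf 7 399 399) (leaf 7 431 463))))))) (merge (node 433 (merge (leaf 6 432 465) (node 432 (merge (leaf 6 400 401) (node 559 (merge (leaf 5 431 527) (leaf 5 463 591))))))) (merge (node 433 (merge (leaf 6 432 465) (node 432 (merge (leaf 6 400 401) (node 431 (merge (leaf 7 399 399) (leaf 7 431 463))))))) (node 559 (merge (leaf 5 463 591) (node 465 (merge (leaf 6 432 433) (node 463 (merge (leaf 7 431 431) (node 462 (merge (leaf 0 461 461) (node 430 (merge (leaf 3 429 429) (node 527 (merge (leaf 7 430 495) (node 526 (merge (leaf 4 430 494) (leaf 2 493 525))))))))))))))))))) (merge (node 495 (merge (node 494 (merge (node 529 (merge (leaf 0 493 493) (node 530 (merge (leaf 0 494 497) (leaf 3 495 531))))) (merge (node 525 (merge (leaf 1 493 526) (node 493 (merge (leaf 1 492 524) (node 461 (merge (leaf 3 460 460) (leaf 3 461 462))))))) (node 530 (merge (leaf 0 494 529) (node 498 (merge (leaf 0 495 531) (node 462 (merge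 (leaf 3 461 461) (leaf 3 462 463)))))))))) (merge (node 498 (merge (node 463 (merge (leaf 3 462 462) (node 431 (merge (leaf 4 399 399) (leaf 4 431 527))))) (node 531 (merge (leaf 0 495 530) (node 499 (merge (leaf 0 496 532) (node 468 (merge (leaf 2 464 467) (node 500 (merge (leaf 2 465 469) (leaf 1 496 529))))))))))) (merge (node 494 (merge (node 529 (merge (leaf 0 493 493) (leaf 0 494 530))) (merge (node 525 (merge (leaf 1 493 526) (node 493 (merge (leaf 1 492 524) (node 492 (merge (leaf 0 492 527) (node 460 (merge (leaf 3 459 459) (leaf 3 460 461))))))))) (node 530 (merge (leaf 0 494 529) (node 498 (merge (leaf 0 495 531) (node 526 (merge (leaf 1 493 525) (leaf 1 494 527)))))))))) (merge (node 494 (merge (node 525 (merge (leaf 1 493 526) (node 493 (merge (leaf 1 492 524) (node 461 (merge (leaf 3 460 460) (leaf 3 461 462))))))) (merge (node 462 (merge (leaf 3 461 461) (node 498 (merge (leaf 3 462 463) (node 531 (merge (leaf 0 495 530) (node 499 (merge (leaf 1 495 527) (leaf 0 496 532))))))))) (merge (node 527 (merge (node 493 (merge (leaf 0 492 492) (node 525 (merge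 (leaf 1 492 524) (leaf 2 493 526))))) (node 463 (merge (leaf 4 431 431) (node 498 (merge (leaf 3 462 462) (leaf 1 495 499))))))) (node 525 (merge (leaf 1 493 526) (node 493 (merge (leaf 1 492 524) (node 492 (merge (leaf 0 492 527) (node 460 (merge (leaf 3 459 459) (leaf 3 460 461))))))))))))) (merge (node 494 (merge (node 525 (merge (leaf 1 493 526) (node 493 (merge (leaf 1 492 524) (node 461 (merge (leaf 3 460 460) (leaf 3 461 462))))))) (merge (node 526 (merge (leaf 1 493 525) (node 527 (merge (leaf 1 494 498) (node 462 (merge (leaf 3 461 461) (node 559 (merge (leaf 4 430 430) (leaf 7 462 591))))))))) (merge (node 493 (merge (leaf 0 493 529) (node 492 (merge (leaf 0 492 527) (node 524 (merge (leaf 1 491 523) (leaf 1 492 525))))))) (merge (node 461 (merge (leaf 3 461 462) (node 493 (merge (leaf 3 460 460) (node 527 (merge (leaf 0 492 492) (node 498 (merge (leaf 1 495 499) (leaf 1 494 526))))))))) (node 529 (merge (leaf 0 493 493) (node 526 (merge (leaf 1 493 525) (node 527 (merge (leaf 1 494 498) (node 558 (merge (leaf 1 525 557) (node 590 (merge (leaf 6 494 622)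 (node 591 (merge (leaf 4 494 623) (node 559 (merge (leaf 4 462 462) (node 589 (merge (leaf 2 556 588) (leaf 5 493 621)))))))))))))))))))))) (node 431 (merge (node 463 (merge (leaf 4 399 399) (leaf 4 431 527))) (merge (node 494 (merge (node 529 (merge (leaf 0 493 493) (node 530 (merge (leaf 0 494 497) (leaf 3 495 531))))) (merge (node 525 (merge (leaf 1 493 526) (node 493 (merge (leaf 1 492 524) (node 461 (merge (leaf 3 460 460) (leaf 3 461 462))))))) (node 526 (merge (leaf 1 493 525) (node 462 (merge (leaf 3 461 461) (node 558 (merge (leaf 6 430 463) (node 559 (merge (leaf 4 462 591) (node 557 (merge (leaf 2 525 529) (leaf 5 461 589)))))))))))))) (node 494 (merge (node 529 (merge (leaf 0 493 493) (node 530 (merge (leaf 0 494 497) (leaf 3 495 531))))) (node 526 (merge (leaf 1 493 525) (node 462 (merge (leaf 3 461 461) (node 430 (merge (leaf 6 398 399) (node 527 (merge (leaf 4 398 398) (leaf 4 430 559)))))))))))))))))))) (merge (node 498 (merge (node 527 (merge (leaf 1 495 499) (node 526 (merge (leaf 1 494 495) (leaf 2 493 525))))) (merge (node 464 (merge (node 463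 (merge (leaf 7 431 431) (leaf 3 463 499))) (merge (node 465 (merge (leaf 6 432 433) (node 499 (merge (leaf 3 463 463) (leaf 3 464 500))))) (node 433 (merge (leaf 6 432 465) (node 432 (merge (leaf 6 400 401) (node 400 (merge (leaf 4 400 529) (node 399 (merge (leaf 7 367 367) (leaf 7 399 431)))))))))))) (node 559 (merge (node 464 (merge (leaf 5 463 591) (node 527 (merge (leaf 5 431 432) (node 526 (merge (leaf 1 494 495) (leaf 2 493 525))))))) (merge (node 464 (merge (leaf 5 463 591) (node 433 (merge (leaf 6 432 465) (node 432 (merge (leaf 6 400 401) (node 431 (merge (leaf 7 399 399) (leaf 7 431 463))))))))) (node 558 (merge (node 557 (merge (leaf 2 525 529) (node 588 (merge (leaf 1 556 589) (node 556 (merge (leaf 2 524 527) (leaf 1 555 587))))))) (merge (node 557 (merge (leaf 2 525 529) (node 588 (merge (leaf 1 556 589) (node 556 (merge (leaf 1 555 587) (node 524 (merge (leaf 3 523 523) (leaf 3 524 525))))))))) (merge (node 557 (merge (node 527 (merge (leaf 2 524 556) (node 525 (merge (leaf 3 524 524) (leaf 2 493 526))))) (merge (node 556 (merge (leaf 2 524 527) (node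 588 (merge (leaf 1 555 587) (leaf 1 556 589))))) (merge (node 588 (merge (leaf 1 556 589) (node 556 (merge (leaf 1 555 587) (node 524 (merge (leaf 3 523 523) (leaf 3 524 525))))))) (node 589 (merge (leaf 1 556 588) (node 525 (merge (leaf 3 524 524) (node 526 (merge (leaf 2 493 527) (node 621 (merge (leaf 6 493 494) (leaf 6 525 653))))))))))))) (node 527 (merge (node 526 (merge (leaf 2 493 525) (leaf 2 494 529))) (merge (node 526 (merge (leaf 1 494 495) (leaf 2 493 525))) (node 530 (merge (leaf 1 526 529) (node 495 (merge (leaf 0 495 531) (node 463 (merge (leaf 4 431 431) (leaf 5 462 590)))))))))))))))))))) (merge (node 498 (merge (node 527 (merge (leaf 1 495 499) (node 526 (merge (leaf 1 494 495) (leaf 2 493 525))))) (merge (node 499 (merge (leaf 1 495 527) (node 468 (merge (leaf 2 464 467) (node 500 (merge (leaf 2 465 469) (leaf 1 496 529))))))) (merge (node 499 (merge (node 468 (merge (leaf 2 464 467) (node 500 (merge (leaf 2 465 469) (leaf 1 496 529))))) (merge (node 532 (merge (leaf 0 496 531) (node 500 (merge (leaf 1 496 529) (leaf 0 497 533))))) (node 531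 (merge (leaf 0 496 532) (node 530 (merge (leaf 0 495 495) (node 467 (merge (leaf 2 464 468) (node 562 (merge (leaf 5 434 435) (leaf 6 466 594)))))))))))) (node 559 (merge (node 464 (merge (leaf 5 463 591) (node 527 (merge (leaf 5 431 432) (node 526 (merge (leaf 1 494 495) (leaf 2 493 525))))))) (merge (node 464 (merge (leaf 5 463 591) (node 433 (merge (leaf 6 432 465) (node 432 (merge (leaf 6 400 401) (node 400 (merge (leaf 4 400 529) (node 399 (merge (leaf 7 367 367) (leaf 7 399 431))))))))))) (merge (node 558 (merge (node 557 (merge (leaf 2 525 529) (node 588 (merge (leaf 1 556 589) (node 556 (merge (leaf 2 524 527) (leaf 1 555 587))))))) (merge (node 557 (merge (leaf 2 525 529) (node 588 (merge (leaf 1 556 589) (node 556 (merge (leaf 1 555 587) (node 524 (merge (leaf 3 523 523) (leaf 3 524 525))))))))) (merge (node 557 (merge (node 527 (merge (leaf 2 524 556) (node 525 (merge (leaf 3 524 524) (leaf 2 493 526))))) (merge (node 556 (merge (leaf 2 524 527) (node 588 (merge (leaf 1 555 587) (leaf 1 556 589))))) (merge (node 588 (merge (leaf 1 556 589) (node 556 (merge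 (leaf 1 555 587) (node 524 (merge (leaf 3 523 523) (leaf 3 524 525))))))) (node 589 (merge (leaf 1 556 588) (node 525 (merge (leaf 3 524 524) (node 526 (merge (leaf 2 493 527) (node 621 (merge (leaf 6 493 494) (leaf 6 525 653))))))))))))) (node 530 (merge (node 529 (merge (leaf 1 526 527) (leaf 1 527 531))) (merge (node 531 (merge (leaf 0 495 495) (leaf 1 527 529))) (merge (node 527 (merge (leaf 1 526 529) (node 526 (merge (leaf 1 494 495) (leaf 2 493 525))))) (node 495 (merge (leaf 0 495 531) (node 526 (merge (leaf 1 494 527) (node 494 (merge (leaf 1 493 525) (node 461 (merge (leaf 3 461 462) (node 493 (merge (leaf 3 460 460) (leaf 7 461 590))))))))))))))))))) (node 495 (merge (node 530 (merge (leaf 0 495 531) (node 494 (merge (leaf 0 494 529) (node 525 (merge (leaf 1 493 526) (node 493 (merge (leaf 1 492 524) (node 461 (merge (leaf 3 460 460) (leaf 3 461 462))))))))))) (merge (node 527 (merge (leaf 1 494 526) (node 591 (merge (leaf 6 495 623) (node 590 (merge (leaf 5 494 622) (node 588 (merge (leaf 2 556 589) (node 494 (merge (leaf 7 462 462) (node 493 (merge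 (leaf 0 492 492) (node 525 (merge (leaf 1 492 524) (node 461 (merge (leaf 3 460 460) (node 557 (merge (leaf 5 460 556) (leaf 4 461 558))))))))))))))))))) (merge (node 530 (merge (leaf 0 495 531) (node 529 (merge (leaf 0 494 494) (node 558 (merge (leaf 1 526 527) (leaf 2 525 557))))))) (node 530 (merge (leaf 0 495 531) (node 527 (merge (leaf 1 494 526) (node 529 (merge (leaf 1 526 558) (node 562 (merge (leaf 0 527 563) (node 465 (merge (leaf 4 433 433) (leaf 7 465 594))))))))))))))))))))))) (node 495 (merge (node 494 (merge (node 529 (merge (leaf 0 493 493) (node 530 (merge (leaf 0 494 497) (leaf 3 495 531))))) (merge (node 525 (merge (leaf 1 493 526) (node 493 (merge (leaf 1 492 524) (node 461 (merge (leaf 3 460 460) (leaf 3 461 462))))))) (node 530 (merge (leaf 0 494 529) (node 498 (merge (leaf 0 495 531) (node 462 (merge (leaf 3 461 461) (leaf 3 462 463)))))))))) (merge (node 498 (merge (node 531 (merge (leaf 0 495 530) (node 499 (merge (leaf 1 495 527) (leaf 0 496 532))))) (merge (node 462 (merge (leaf 3 462 463) (node 494 (merge (leaf 3 461 461) (node 529 (merge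 (leaf 0 493 493) (leaf 0 494 530))))))) (node 499 (merge (leaf 1 495 527) (node 532 (merge (leaf 0 496 531) (node 500 (merge (leaf 1 496 529) (leaf 0 497 533)))))))))) (merge (node 498 (merge (node 531 (merge (leaf 0 495 530) (node 499 (merge (leaf 1 495 527) (leaf 0 496 532))))) (merge (node 531 (merge (leaf 0 495 530) (node 499 (merge (leaf 0 496 532) (node 463 (merge (leaf 3 462 462) (leaf 3 463 464))))))) (node 526 (merge (leaf 1 494 527) (node 494 (merge (leaf 1 493 525) (node 462 (merge (leaf 3 461 461) (leaf 3 462 463)))))))))) (merge (node 494 (merge (node 525 (merge (leaf 1 493 526) (node 493 (merge (leaf 1 492 524) (node 461 (merge (leaf 3 460 460) (leaf 3 461 462))))))) (merge (node 526 (merge (leaf 1 493 525) (node 527 (merge (leaf 1 494 498) (node 462 (merge (leaf 3 461 461) (node 559 (merge (leaf 4 430 430) (leaf 7 462 591))))))))) (merge (node 493 (merge (leaf 0 493 529) (node 492 (merge (leaf 0 492 527) (node 524 (merge (leaf 1 491 523) (leaf 1 492 525))))))) (merge (node 461 (merge (leaf 3 461 462) (node 493 (merge (leaf 3 460 460) (node 527 (merge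 (leaf 0 492 492) (node 498 (merge (leaf 1 495 499) (leaf 1 494 526))))))))) (node 529 (merge (leaf 0 493 493) (node 526 (merge (leaf 1 493 525) (node 527 (merge (leaf 1 494 498) (node 558 (merge (leaf 1 525 557) (node 590 (merge (leaf 6 494 622) (node 591 (merge (leaf 4 494 623) (node 559 (merge (leaf 4 462 462) (node 589 (merge (leaf 2 556 588) (leaf 5 493 621)))))))))))))))))))))) (merge (node 498 (merge (node 527 (merge (leaf 1 495 499) (leaf 1 494 526))) (merge (node 531 (merge (leaf 0 495 530) (node 499 (merge (leaf 0 496 532) (node 468 (merge (leaf 2 464 467) (node 500 (merge (leaf 2 465 469) (leaf 1 496 529))))))))) (node 530 (merge (leaf 0 495 531) (node 529 (merge (leaf 0 494 494) (node 527 (merge (leaf 1 494 526) (node 562 (merge (leaf 0 527 563) (node 594 (merge (leaf 7 465 465) (leaf 7 497 626)))))))))))))) (merge (node 464 (merge (node 433 (merge (leaf 6 432 465) (node 432 (merge (leaf 6 400 401) (node 527 (merge (leaf 5 399 400) (leaf 5 431 559))))))) (merge (node 432 (merge (node 433 (merge (leaf 6 400 401) (leaf 6 432 465))) (merge (node 400 (merge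 (leaf 4 400 529) (node 368 (merge (leaf 4 368 465) (node 367 (merge (leaf 7 335 335) (leaf 7 367 399))))))) (node 400 (merge (leaf 4 400 529) (node 401 (merge (leaf 6 368 369) (leaf 6 400 433)))))))) (merge (node 559 (merge (leaf 5 463 591) (node 432 (merge (leaf 5 431 527) (node 400 (merge (leaf 4 400 529) (node 401 (merge (leaf 6 368 369) (leaf 6 400 433))))))))) (merge (node 559 (merge (leaf 5 463 591) (node 432 (merge (leaf 5 431 527) (node 400 (merge (leaf 4 400 529) (node 368 (merge (leaf 4 368 465) (node 369 (merge (leaf 6 336 337) (leaf 6 368 401))))))))))) (node 559 (merge (leaf 5 463 591) (node 465 (merge (leaf 6 432 433) (node 494 (merge (leaf 2 461 493) (node 526 (merge (leaf 1 493 525) (node 462 (merge (leaf 3 461 461) (node 430 (merge (leaf 4 430 527) (node 429 (merge (leaf 7 397 397) (leaf 3 429 463)))))))))))))))))))) (node 559 (merge (node 591 (merge (leaf 5 463 464) (node 623 (merge (leaf 6 495 527) (leaf 6 527 655))))) (merge (node 527 (merge (node 526 (merge (leaf 1 494 498) (leaf 2 493 525))) (node 591 (merge (leaf 6 495 623) (node 590 (merge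 (leaf 5 494 622) (node 558 (merge (leaf 5 462 463) (node 557 (merge (leaf 2 525 529) (leaf 2 524 556))))))))))) (merge (node 464 (merge (leaf 5 463 591) (node 433 (merge (leaf 6 432 465) (node 432 (merge (leaf 6 400 401) (node 400 (merge (leaf 4 400 529) (node 463 (merge (leaf 5 367 368) (node 498 (merge (leaf 3 462 462) (leaf 3 463 499))))))))))))) (node 498 (merge (node 499 (merge (leaf 1 495 527) (node 468 (merge (leaf 2 464 467) (node 500 (merge (leaf 2 465 469) (leaf 1 496 529))))))) (merge (node 531 (merge (leaf 0 495 530) (node 499 (merge (leaf 0 496 532) (node 463 (merge (leaf 3 462 462) (leaf 3 463 464))))))) (node 530 (merge (leaf 0 495 531) (node 527 (merge (leaf 1 494 526) (node 529 (merge (leaf 1 526 558) (node 562 (merge (leaf 0 527 563) (node 465 (merge (leaf 4 433 433) (leaf 7 465 594)))))))))))))))))))))))))))))))))) nQ_2 cQ_2 14 (by decide +kernel)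
def nQ_3 : ℕ := 0x100000001000000010000000080000000000000000000000000000000000000000000000000000000000000000000000000000000000000000000000000000000000000000000
def cQ_3 : ℕ := 0xe0000004e0000004f800001cf000001ef000003ef800000f70000001700000006000000060000000000000000000000000000000000000000000000000000000000000000000000000000000000000000000
theorem lQ_3 : S nQ_3 cQ_3 12 := S_of_chk [] trivial (node 527 (merge (node 559 (merge (node 591 (merge (leaf 5 463 464) (leaf 6 495 623))) (merge (node 495 (merge (node 558 (merge (leaf 5 462 590) (node 557 (merge (leaf 2 525 529) (leaf 2 524 556))))) (node 464 (merge (leaf 6 431 432) (node 462 (merge (leaf 7 430 430) (node 461 (merge (leaf 0 460 460) (leaf 0 461 497))))))))) (node 529 (merge (node 530 (merge (leaf 1 527 531) (leaf 1 526 558))) (merge (node 558 (merge (leaf 2 525 557) (node 495 (merge (leaf 5 462 590) (node 591 (merge (leaf 6 495 623) (node 462 (merge (leaf 7 430 430) (leaf 7 462 494))))))))) (node 530 (merge (leaf 1 527 531) (node 498 (merge (leaf 2 495 499) (node 495 (merge (leaf 3 494 494) (node 462 (merge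 (leaf 7 430 430) (leaf 3 462 497))))))))))))))) (merge (node 559 (merge (node 591 (merge (leaf 5 463 464) (leaf 6 495 623))) (merge (node 526 (merge (node 525 (merge (leaf 2 493 497) (leaf 0 524 524))) (merge (node 529 (merge (node 558 (merge (leaf 1 526 530) (leaf 2 525 557))) (merge (node 494 (merge (leaf 3 493 493) (node 462 (merge (leaf 4 430 430) (node 591 (merge (leaf 4 462 558) (leaf 6 495 623))))))) (node 530 (merge (leaf 1 527 531) (node 498 (merge (leaf 2 494 497) (leaf 2 495 499)))))))) (node 525 (merge (leaf 0 524 524) (node 493 (merge (leaf 3 492 492) (node 529 (merge (leaf 3 493 494) (node 530 (merge (leaf 1 527 531) (leaf 1 526 558)))))))))))) (node 558 (merge (node 557 (merge (leaf 2 525 529) (leaf 2 524 556))) (merge (node 557 (merge (leaf 2 524 556) (node 525 (merge (leaf 3 524 524) (node 526 (merge (leaf 2 493 497) (node 493 (merge (leaf 3 492 492) (node 461 (merge (leaf 4 429 429) (leaf 4 461 590))))))))))) (node 526 (merge (node 525 (merge (leaf 2 493 497) (leaf 0 524 524))) (merge (node 525 (merge (leaf 0 524 524) (node 529 (merge (leaf 1 526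 530) (node 493 (merge (leaf 3 492 492) (leaf 3 493 494))))))) (node 529 (merge (leaf 1 526 530) (node 497 (merge (leaf 2 494 498) (node 494 (merge (leaf 3 493 493) (node 462 (merge (leaf 4 430 430) (node 464 (merge (leaf 5 431 432) (node 461 (merge (leaf 7 429 429) (leaf 0 461 463)))))))))))))))))))))) (merge (node 526 (merge (node 497 (merge (leaf 2 493 525) (node 498 (merge (leaf 1 494 495) (leaf 1 495 499))))) (merge (node 559 (merge (node 591 (merge (leaf 5 463 464) (leaf 6 495 623))) (node 525 (merge (leaf 0 524 524) (node 493 (merge (leaf 3 492 492) (node 529 (merge (leaf 3 493 494) (node 530 (merge (leaf 1 527 531) (leaf 1 526 558))))))))))) (node 529 (merge (node 558 (merge (leaf 1 525 557) (node 559 (merge (leaf 1 526 530) (node 591 (merge (leaf 5 463 464) (leaf 6 495 623))))))) (merge (node 498 (merge (leaf 2 494 497) (node 530 (merge (leaf 2 495 499) (node 494 (merge (leaf 3 493 493) (leaf 3 494 495))))))) (node 558 (merge (leaf 1 525 557) (node 494 (merge (leaf 3 493 493) (node 590 (merge (leaf 6 462 495) (node 623 (merge (leaf 4 494 591) (node 622 (merge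 (leaf 4 526 655) (node 621 (merge (leaf 5 493 589) (leaf 5 525 653))))))))))))))))))) (merge (node 559 (merge (node 591 (merge (leaf 5 463 464) (leaf 6 495 623))) (merge (node 497 (merge (node 526 (merge (leaf 2 493 525) (node 498 (merge (leaf 1 495 499) (leaf 2 494 529))))) (merge (node 526 (merge (leaf 2 493 525) (node 464 (merge (leaf 5 431 432) (node 462 (merge (leaf 0 461 461) (node 430 (merge (leaf 4 430 494) (leaf 7 430 495))))))))) (node 498 (merge (leaf 1 495 499) (node 495 (merge (leaf 3 462 462) (node 530 (merge (leaf 0 495 531) (node 558 (merge (leaf 1 526 529) (leaf 5 462 590)))))))))))) (node 526 (merge (node 497 (merge (leaf 2 493 525) (node 498 (merge (leaf 1 494 495) (leaf 1 495 499))))) (merge (node 525 (merge (leaf 0 524 524) (node 493 (merge (leaf 3 492 492) (node 529 (merge (leaf 3 493 494) (node 530 (merge (leaf 1 527 531) (leaf 1 526 558))))))))) (node 494 (merge (node 462 (merge (leaf 4 430 430) (node 591 (merge (leaf 7 462 495) (leaf 6 495 623))))) (merge (node 493 (merge (leaf 3 493 529) (node 492 (merge (leaf 0 491 491) (leaf 0 492 495)))))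 (node 529 (merge (leaf 3 493 493) (node 530 (merge (leaf 1 527 531) (node 498 (merge (leaf 2 494 497) (leaf 2 495 499)))))))))))))))) (merge (node 559 (merge (node 591 (merge (leaf 5 463 464) (leaf 6 495 623))) (merge (node 558 (merge (node 591 (merge (leaf 6 495 623) (node 495 (merge (leaf 5 462 590) (node 462 (merge (leaf 7 430 430) (leaf 7 462 494))))))) (merge (node 557 (merge (leaf 2 524 556) (node 525 (merge (leaf 3 524 524) (node 526 (merge (leaf 2 493 497) (node 493 (merge (leaf 3 492 492) (node 461 (merge (leaf 4 429 429) (leaf 4 461 590))))))))))) (node 557 (merge (leaf 2 524 556) (node 525 (merge (leaf 3 524 524) (node 526 (merge (leaf 2 493 497) (node 493 (merge (leaf 3 492 492) (node 461 (merge (leaf 4 429 429) (node 462 (merge (leaf 6 429 430) (node 591 (merge (leaf 4 462 494) (leaf 6 495 623)))))))))))))))))) (node 495 (merge (node 464 (merge (leaf 6 431 432) (node 462 (merge (leaf 7 430 430) (node 461 (merge (leaf 0 460 460) (leaf 0 461 497))))))) (merge (node 558 (merge (leaf 5 462 590) (node 557 (merge (leaf 2 524 556) (node 589 (merge (leaf 1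 556 588) (node 525 (merge (leaf 3 524 524) (node 462 (merge (leaf 7 430 430) (node 460 (merge (leaf 0 460 461) (node 493 (merge (leaf 7 460 492) (leaf 6 461 494))))))))))))))) (merge (node 464 (merge (leaf 5 431 432) (node 558 (merge (leaf 5 462 590) (node 557 (merge (leaf 2 524 556) (node 589 (merge (leaf 1 556 588) (node 525 (merge (leaf 3 524 524) (node 526 (merge (leaf 2 493 497) (node 493 (merge (leaf 3 492 492) (node 494 (merge (leaf 2 461 465) (leaf 6 493 621))))))))))))))))) (node 558 (merge (leaf 5 462 590) (node 557 (merge (leaf 2 524 556) (node 525 (merge (leaf 3 524 524) (node 497 (merge (leaf 2 493 526) (node 462 (merge (leaf 7 430 430) (leaf 3 462 498)))))))))))))))))) (merge (node 559 (merge (node 591 (merge (leaf 5 463 464) (leaf 6 495 623))) (merge (node 497 (merge (node 526 (merge (leaf 2 493 525) (node 498 (merge (leaf 1 495 499) (leaf 2 494 529))))) (merge (node 526 (merge (leaf 2 493 525) (node 464 (merge (leaf 5 431 432) (node 462 (merge (leaf 0 461 461) (node 430 (merge (leaf 4 430 494) (leaf 7 430 495))))))))) (node 498 (merge (leaf 1 495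 499) (node 462 (merge (leaf 3 462 495) (node 464 (merge (leaf 5 431 432) (leaf 0 462 465)))))))))) (node 526 (merge (node 497 (merge (leaf 2 493 525) (node 498 (merge (leaf 1 494 495) (leaf 1 495 499))))) (merge (node 525 (merge (leaf 0 524 524) (node 557 (merge (leaf 1 524 556) (node 493 (merge (leaf 3 492 492) (node 494 (merge (leaf 3 493 529) (node 462 (merge (leaf 4 430 430) (leaf 6 461 589))))))))))) (node 494 (merge (node 462 (merge (leaf 4 430 430) (node 591 (merge (leaf 7 462 495) (leaf 6 495 623))))) (merge (node 493 (merge (leaf 3 493 529) (node 492 (merge (leaf 0 491 491) (leaf 0 492 495))))) (node 529 (merge (leaf 3 493 493) (node 530 (merge (leaf 1 527 531) (node 498 (merge (leaf 2 494 497) (leaf 2 495 499)))))))))))))))) (merge (node 559 (merge (node 591 (merge (leaf 5 463 464) (leaf 6 495 623))) (merge (node 495 (merge (node 558 (merge (leaf 5 462 590) (node 557 (merge (leaf 2 525 529) (leaf 2 524 556))))) (node 464 (merge (leaf 6 431 432) (node 462 (merge (leaf 7 430 430) (node 461 (merge (leaf 0 460 460) (leaf 0 461 497))))))))) (node 558 (merge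 (node 557 (merge (leaf 2 525 529) (node 588 (merge (leaf 1 556 589) (node 556 (merge (leaf 2 524 527) (leaf 1 555 587))))))) (node 590 (merge (leaf 5 462 495) (node 623 (merge (leaf 6 495 591) (node 622 (merge (leaf 6 526 654) (node 526 (merge (leaf 4 526 655) (node 525 (merge (leaf 7 493 493) (leaf 0 524 524)))))))))))))))) (merge (node 559 (merge (node 591 (merge (leaf 5 463 464) (leaf 6 495 623))) (merge (node 558 (merge (node 557 (merge (leaf 2 525 529) (node 588 (merge (leaf 1 556 589) (node 556 (merge (leaf 2 524 527) (leaf 1 555 587))))))) (node 590 (merge (leaf 5 462 495) (node 623 (merge (leaf 6 495 591) (node 622 (merge (leaf 6 526 654) (node 526 (merge (leaf 4 526 655) (node 525 (merge (leaf 7 493 493) (leaf 0 524 524))))))))))))) (node 558 (merge (node 557 (merge (leaf 2 525 529) (node 588 (merge (leaf 1 556 589) (node 556 (merge (leaf 2 524 527) (leaf 1 555 587))))))) (node 464 (merge (leaf 5 431 432) (node 495 (merge (leaf 5 462 590) (node 462 (merge (leaf 7 430 430) (node 461 (merge (leaf 0 460 460) (node 493 (merge (leaf 1 460 492) (node 429 (merge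 (leaf 3 428 428) (node 526 (merge (leaf 7 429 494) (leaf 4 429 525)))))))))))))))))))) (merge (node 495 (merge (node 462 (merge (node 430 (merge (leaf 7 430 559) (node 398 (merge (leaf 4 366 366) (leaf 4 398 494))))) (node 461 (merge (leaf 0 460 460) (node 497 (merge (leaf 0 461 464) (leaf 3 462 498))))))) (merge (node 526 (merge (node 525 (merge (leaf 2 493 497) (leaf 2 492 524))) (merge (node 525 (merge (leaf 2 492 524) (node 557 (merge (leaf 1 524 556) (node 529 (merge (leaf 1 525 558) (node 530 (merge (leaf 3 494 494) (leaf 3 495 531))))))))) (node 558 (merge (node 590 (merge (leaf 6 462 494) (leaf 6 494 622))) (merge (node 529 (merge (leaf 1 525 557) (node 530 (merge (leaf 3 494 494) (leaf 3 495 531))))) (node 498 (merge (leaf 1 494 497) (node 529 (merge (leaf 1 525 557) (node 530 (merge (leaf 2 495 499) (leaf 3 495 531))))))))))))) (merge (node 559 (merge (node 558 (merge (leaf 5 462 590) (node 557 (merge (leaf 2 525 529) (leaf 2 524 556))))) (merge (node 464 (merge (leaf 5 431 432) (node 462 (merge (leaf 7 430 430) (node 461 (merge (leaf 0 460 460) (node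 493 (merge (leaf 1 460 492) (node 494 (merge (leaf 0 493 529) (node 429 (merge (leaf 3 428 428) (node 397 (merge (leaf 4 365 365) (leaf 4 397 526))))))))))))))) (node 558 (merge (leaf 5 462 590) (node 557 (merge (leaf 2 524 556) (node 589 (merge (leaf 1 556 588) (node 525 (merge (leaf 3 524 524) (node 462 (merge (leaf 7 430 430) (node 460 (merge (leaf 0 460 461) (node 493 (merge (leaf 7 460 492) (leaf 6 461 494)))))))))))))))))) (node 526 (merge (node 525 (merge (leaf 2 493 497) (leaf 2 492 524))) (merge (node 558 (merge (node 590 (merge (leaf 5 462 559) (leaf 6 494 622))) (merge (node 529 (merge (leaf 1 525 557) (node 530 (merge (leaf 3 495 531) (leaf 1 526 559))))) (node 498 (merge (leaf 1 494 497) (node 529 (merge (leaf 1 525 557) (node 530 (merge (leaf 2 495 499) (leaf 3 495 531)))))))))) (node 525 (merge (leaf 2 492 524) (node 557 (merge (leaf 1 524 556) (node 558 (merge (leaf 1 525 529) (node 493 (merge (leaf 3 492 492) (node 461 (merge (leaf 4 429 429) (node 460 (merge (leaf 7 428 428) (leaf 0 460 462)))))))))))))))))))) (node 529 (merge (node 530 (merge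 (node 563 (merge (leaf 0 527 562) (node 531 (merge (leaf 3 495 495) (leaf 0 528 564))))) (merge (node 494 (merge (leaf 3 494 495) (node 526 (merge (leaf 3 493 493) (node 557 (merge (leaf 1 525 558) (node 525 (merge (leaf 2 493 497) (leaf 1 524 556))))))))) (node 563 (merge (leaf 0 527 562) (node 531 (merge (leaf 0 528 564) (node 497 (merge (leaf 3 496 532) (node 526 (merge (leaf 2 494 498) (leaf 2 493 525)))))))))))) (merge (node 530 (merge (node 563 (merge (leaf 0 527 562) (node 531 (merge (leaf 3 495 495) (leaf 0 528 564))))) (merge (node 563 (merge (leaf 0 527 562) (node 531 (merge (leaf 0 528 564) (node 500 (merge (leaf 2 496 499) (node 532 (merge (leaf 3 496 497) (leaf 2 497 501))))))))) (node 494 (merge (leaf 3 494 495) (node 526 (merge (leaf 3 493 493) (node 557 (merge (leaf 1 525 558) (node 525 (merge (leaf 2 493 497) (leaf 1 524 556)))))))))))) (merge (node 530 (merge (node 563 (merge (leaf 0 527 562) (node 531 (merge (leaf 0 528 564) (node 499 (merge (leaf 2 495 498) (leaf 2 496 500))))))) (merge (node 498 (merge (leaf 2 495 499) (node 526 (merge (leaf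 2 494 497) (node 557 (merge (leaf 1 525 558) (node 525 (merge (leaf 1 524 556) (node 493 (merge (leaf 3 492 492) (leaf 3 493 494))))))))))) (merge (node 563 (merge (leaf 0 527 562) (node 531 (merge (leaf 0 528 564) (node 497 (merge (leaf 3 496 532) (node 526 (merge (leaf 2 494 498) (leaf 2 493 525))))))))) (node 563 (merge (leaf 0 527 562) (node 531 (merge (leaf 0 528 564) (node 500 (merge (leaf 2 496 499) (node 532 (merge (leaf 3 496 497) (leaf 2 497 501))))))))))))) (merge (node 526 (merge (node 497 (merge (leaf 2 494 498) (leaf 2 493 525))) (merge (node 557 (merge (leaf 1 525 558) (node 525 (merge (leaf 1 524 556) (node 524 (merge (leaf 2 492 495) (node 492 (merge (leaf 3 491 491) (leaf 3 492 493))))))))) (node 498 (merge (leaf 2 494 497) (node 530 (merge (leaf 2 495 499) (node 563 (merge (leaf 0 527 562) (node 531 (merge (leaf 3 495 495) (leaf 0 528 564)))))))))))) (merge (node 526 (merge (node 557 (merge (leaf 1 525 558) (node 525 (merge (leaf 1 524 556) (node 493 (merge (leaf 3 492 492) (leaf 3 493 494))))))) (merge (node 494 (merge (leaf 3 493 493) (node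 530 (merge (leaf 3 494 495) (node 563 (merge (leaf 0 527 562) (node 531 (merge (leaf 0 528 564) (node 499 (merge (leaf 2 495 498) (leaf 2 496 500))))))))))) (merge (node 557 (merge (leaf 1 525 558) (node 525 (merge (leaf 1 524 556) (node 495 (merge (leaf 2 492 524) (node 530 (merge (leaf 3 494 494) (leaf 3 495 531))))))))) (node 557 (merge (leaf 1 525 558) (node 525 (merge (leaf 1 524 556) (node 524 (merge (leaf 2 492 495) (node 492 (merge (leaf 3 491 491) (leaf 3 492 493))))))))))))) (merge (node 497 (merge (node 526 (merge (leaf 2 494 498) (leaf 2 493 525))) (merge (node 498 (merge (leaf 1 495 499) (node 495 (merge (leaf 3 462 462) (node 494 (merge (leaf 0 493 493) (node 466 (merge (leaf 2 462 465) (leaf 2 463 467))))))))) (node 526 (merge (leaf 2 493 525) (node 558 (merge (leaf 1 525 557) (node 494 (merge (leaf 3 493 493) (node 590 (merge (leaf 6 462 495) (node 623 (merge (leaf 4 494 591) (node 622 (merge (leaf 4 526 655) (node 621 (merge (leaf 5 493 589) (leaf 5 525 653)))))))))))))))))) (node 530 (merge (node 499 (merge (leaf 2 495 498) (node 531 (merge (leaf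 3 495 495) (leaf 2 496 500))))) (merge (node 563 (merge (leaf 0 527 562) (node 531 (merge (leaf 3 495 495) (leaf 0 528 564))))) (merge (node 563 (merge (leaf 0 527 562) (node 531 (merge (leaf 0 528 564) (node 499 (merge (leaf 2 495 498) (leaf 2 496 500))))))) (node 562 (merge (leaf 0 527 563) (node 498 (merge (leaf 2 495 499) (node 495 (merge (leaf 3 494 494) (node 497 (merge (leaf 3 462 462) (node 594 (merge (leaf 7 465 465) (leaf 7 497 626)))))))))))))))))))))))))))))))) nQ_3 cQ_3 12 (by decide +kernel)
def nQ_4 : ℕ := 0x1000000010000000000000000000000000000000000000000000000000000000000000000000000000000000000000000000000000000000000000000000000000000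
def cQ_4 : ℕ := 0x2e000003fe000001ff800001df000001efc00003ef800003ff8000001f0000000e000000060000000000000000000000000000000000000000000000000000000000000000000000000000000000000000000
theorem lQ_4 : S nQ_4 cQ_4 14 := S_of_chk [(nQ_3, cQ_3, 12)] ⟨lQ_3, trivial⟩ (node 560 (merge (node 592 (merge (node 591 (merge (leaf 5 495 623) (node 464 (merge (leaf 5 463 559) (node 463 (merge (leaf 7 431 431) (leaf 7 463 495))))))) (merge (node 625 (merge (leaf 4 496 593) (node 624 (merge (leaf 4 528 657) (node 495 (merge (leaf 7 463 463) (leaf 7 495 527))))))) (node 593 (merge (leaf 4 496 625) (node 591 (merge (leaf 5 495 623) (node 559 (merge (leaf 5 463 464) (node 594 (merge (leaf 3 558 558) (leaf 3 559 595)))))))))))) (merge (node 592 (merge (node 625 (merge (leaf 4 496 593) (node 497 (merge (leaf 6 464 465) (node 624 (merge (leaf 6 496 529) (leaf 4 528 657))))))) (merge (node 497 (merge (leaf 6 464 465) (node 624 (merge (leaf 6 496 529) (node 623 (merge (leaf 5 495 591) (leaf 5 527 655))))))) (node 593 (merge (leaf 4 496 625) (node 591 (merge (leaf 5 495 623) (node 559 (merge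 (leaf 5 463 464) (node 594 (merge (leaf 3 558 558) (leaf 3 559 595)))))))))))) (merge (node 495 (merge (node 463 (merge (leaf 7 463 592) (node 431 (merge (leaf 4 399 399) (leaf 7 431 464))))) (merge (node 592 (merge (leaf 7 463 463) (node 497 (merge (leaf 6 464 465) (node 624 (merge (leaf 7 495 527) (leaf 6 496 529))))))) (merge (node 497 (merge (node 592 (merge (leaf 6 464 465) (node 625 (merge (leaf 4 496 593) (node 624 (merge (leaf 7 495 527) (leaf 4 528 657))))))) (merge (node 465 (merge (leaf 6 464 592) (node 494 (merge (leaf 2 462 466) (node 493 (merge (leaf 2 461 464) (leaf 0 493 529))))))) (node 494 (merge (node 529 (merge (leaf 0 493 493) (leaf 0 494 530))) (merge (node 525 (merge (leaf 1 493 526) (node 493 (merge (leaf 1 492 524) (node 492 (merge (leaf 0 492 527) (node 460 (merge (leaf 3 459 459) (leaf 3 460 461))))))))) (node 530 (merge (leaf 0 494 529) (node 498 (merge (leaf 0 495 531) (node 526 (merge (leaf 1 493 525) (leaf 1 494 527))))))))))))) (node 494 (merge (node 493 (merge (leaf 0 493 529) (node 464 (merge (leaf 2 461 465) (node 463 (merge (leaf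 7 431 431) (leaf 2 460 492))))))) (merge (node 493 (merge (node 492 (merge (leaf 0 492 527) (node 524 (merge (leaf 1 491 523) (leaf 1 492 525))))) (merge (node 492 (merge (leaf 0 492 527) (node 460 (merge (leaf 3 459 459) (leaf 3 460 461))))) (node 525 (merge (leaf 1 492 524) (node 526 (merge (leaf 1 493 497) (node 461 (merge (leaf 3 460 460) (node 558 (merge (leaf 4 429 429) (leaf 7 461 590)))))))))))) (node 463 (merge (node 431 (merge (leaf 4 399 399) (leaf 7 431 464))) (merge (node 431 (merge (leaf 4 399 399) (leaf 4 431 527))) (node 497 (merge (node 462 (merge (leaf 3 462 498) (node 461 (merge (leaf 0 460 460) (leaf 0 461 464))))) (merge (node 530 (merge (leaf 0 494 529) (node 498 (merge (leaf 0 495 531) (node 526 (merge (leaf 1 493 525) (leaf 1 494 527))))))) (node 529 (merge (leaf 0 494 530) (node 526 (merge (leaf 1 493 525) (node 462 (merge (leaf 3 461 461) (node 558 (merge (leaf 6 462 590) (node 557 (merge (leaf 1 525 527) (leaf 5 461 589)))))))))))))))))))))))) (merge (node 592 (merge (node 625 (merge (leaf 4 496 593) (node 624 (merge (leaf 4 528 657) (node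 623 (merge (leaf 5 495 591) (leaf 5 527 655))))))) (merge (node 625 (merge (leaf 4 496 593) (node 497 (merge (leaf 6 464 465) (node 624 (merge (leaf 6 496 529) (leaf 4 528 657))))))) (merge (node 497 (merge (leaf 6 464 465) (node 624 (merge (leaf 6 496 529) (node 623 (merge (leaf 5 495 591) (leaf 5 527 655))))))) (node 497 (merge (leaf 6 464 465) (node 593 (merge (leaf 4 496 625) (node 594 (merge (node 595 (merge (leaf 3 559 559) (node 563 (merge (leaf 2 560 564) (node 591 (merge (leaf 2 559 562) (leaf 5 495 623))))))) (merge (node 595 (merge (leaf 3 559 559) (node 627 (merge (leaf 0 592 628) (node 591 (merge (leaf 5 495 623) (leaf 0 591 626))))))) (merge (node 591 (merge (leaf 5 495 623) (node 626 (merge (leaf 0 591 627) (node 562 (merge (leaf 2 559 563) (node 530 (merge (leaf 7 497 529) (node 499 (merge (leaf 6 498 531) (node 498 (merge (leaf 6 466 467) (leaf 1 495 527))))))))))))) (node 595 (merge (leaf 3 559 559) (node 628 (merge (leaf 0 592 627) (node 596 (merge (leaf 0 593 629) (node 563 (merge (leaf 2 560 564) (node 499 (merge (leaf 4 499 531) (node 498 (merge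 (leaf 1 495 527) (node 500 (merge (leaf 1 496 529) (node 468 (merge (leaf 2 464 467) (leaf 2 465 469))))))))))))))))))))))))))))) (node 463 (merge (node 431 (merge (leaf 7 431 464) (node 495 (merge (leaf 4 399 399) (leaf 4 431 527))))) (merge (node 464 (merge (leaf 7 431 431) (node 559 (merge (leaf 5 463 591) (node 527 (merge (leaf 5 431 432) (node 526 (merge (node 525 (merge (leaf 2 493 497) (leaf 0 524 524))) (merge (node 525 (merge (leaf 0 524 524) (node 557 (merge (leaf 1 524 556) (node 529 (merge (leaf 1 525 558) (node 493 (merge (leaf 3 492 492) (leaf 3 493 494))))))))) (node 494 (merge (node 529 (merge (leaf 3 493 493) (node 558 (merge (leaf 1 526 530) (leaf 2 525 557))))) (merge (node 462 (merge (leaf 4 430 430) (node 461 (merge (leaf 0 461 497) (node 558 (merge (leaf 7 429 429) (node 557 (merge (leaf 1 525 529) (leaf 2 524 556))))))))) (merge (node 529 (merge (leaf 3 493 493) (node 530 (merge (leaf 1 527 531) (node 498 (merge (leaf 2 494 497) (leaf 2 495 499))))))) (node 462 (merge (leaf 4 430 430) (node 461 (merge (leaf 0 461 497) (node 558 (merge (leaf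 7 429 429) (node 589 (merge (leaf 5 461 557) (node 590 (merge (leaf 7 461 493) (leaf 5 493 621)))))))))))))))))))))))) (merge (node 495 (merge (node 431 (merge (leaf 4 399 399) (leaf 4 431 527))) (merge (node 494 (merge (node 529 (merge (leaf 0 493 493) (node 530 (merge (leaf 0 494 497) (leaf 3 495 531))))) (merge (node 493 (merge (leaf 0 493 529) (node 524 (merge (leaf 1 492 525) (node 492 (merge (leaf 1 491 523) (node 460 (merge (leaf 3 459 459) (leaf 3 460 461))))))))) (merge (node 526 (merge (node 525 (merge (leaf 1 493 497) (node 524 (merge (leaf 1 492 493) (leaf 2 491 523))))) (node 558 (merge (leaf 6 462 590) (node 462 (merge (leaf 6 430 431) (node 461 (merge (leaf 7 429 429) (leaf 0 460 460))))))))) (node 497 (merge (node 462 (merge (leaf 3 461 461) (leaf 3 462 498))) (merge (node 530 (merge (leaf 0 494 529) (node 498 (merge (leaf 0 495 531) (node 466 (merge (leaf 2 462 465) (leaf 2 463 467))))))) (node 529 (merge (leaf 0 494 530) (node 526 (merge (leaf 1 493 525) (node 462 (merge (leaf 3 461 461) (node 558 (merge (leaf 6 462 590) (node 557 (merge (leaf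 2 525 559) (leaf 5 461 589)))))))))))))))))) (node 494 (merge (node 529 (merge (leaf 0 493 493) (node 530 (merge (leaf 3 494 527) (leaf 3 495 531))))) (merge (node 493 (merge (leaf 0 493 529) (node 524 (merge (leaf 1 492 525) (node 492 (merge (leaf 1 491 523) (node 460 (merge (leaf 3 459 459) (leaf 3 460 461))))))))) (merge (node 497 (merge (node 462 (merge (leaf 3 461 461) (leaf 3 462 498))) (merge (node 530 (merge (leaf 0 494 529) (node 498 (merge (leaf 0 495 531) (node 526 (merge (leaf 1 493 525) (leaf 1 494 527))))))) (node 526 (merge (leaf 1 493 525) (node 462 (merge (leaf 3 461 461) (node 558 (merge (leaf 6 462 590) (node 559 (merge (leaf 4 462 591) (node 557 (merge (leaf 2 525 529) (leaf 5 461 589)))))))))))))) (node 461 (merge (node 460 (merge (leaf 3 460 493) (node 462 (merge (leaf 0 459 459) (leaf 0 460 463))))) (merge (node 493 (merge (leaf 3 460 460) (node 525 (merge (leaf 1 492 524) (node 526 (merge (leaf 1 493 497) (node 558 (merge (leaf 4 429 429) (leaf 6 462 590))))))))) (node 497 (merge (leaf 3 461 462) (node 526 (merge (leaf 1 493 525) (node 498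 (merge (leaf 1 494 527) (node 531 (merge (leaf 0 495 530) (node 499 (merge (leaf 0 496 532) (node 467 (merge (leaf 2 463 466) (leaf 2 464 468))))))))))))))))))))))) (merge (node 495 (merge (node 431 (merge (leaf 4 399 399) (leaf 7 431 464))) (merge (node 494 (merge (node 529 (merge (leaf 0 493 493) (node 530 (merge (leaf 0 494 497) (leaf 3 495 531))))) (merge (node 493 (merge (leaf 0 493 529) (node 524 (merge (leaf 1 492 525) (node 492 (merge (leaf 1 491 523) (node 460 (merge (leaf 3 459 459) (leaf 3 460 461))))))))) (merge (node 526 (merge (node 525 (merge (leaf 1 493 497) (node 524 (merge (leaf 1 492 493) (leaf 2 491 523))))) (node 558 (merge (leaf 6 462 590) (node 462 (merge (leaf 6 430 431) (node 461 (merge (leaf 7 429 429) (leaf 0 460 460))))))))) (node 497 (merge (node 462 (merge (leaf 3 461 461) (leaf 3 462 498))) (merge (node 530 (merge (leaf 0 494 529) (node 498 (merge (leaf 0 495 531) (node 466 (merge (leaf 2 462 465) (leaf 2 463 467))))))) (node 529 (merge (leaf 0 494 530) (node 526 (merge (leaf 1 493 525) (node 462 (merge (leaf 3 461 461) (node 558 (merge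 (leaf 6 462 590) (node 557 (merge (leaf 2 525 559) (leaf 5 461 589)))))))))))))))))) (node 494 (merge (node 493 (merge (leaf 0 493 529) (node 525 (merge (leaf 1 492 524) (node 497 (merge (leaf 1 493 526) (node 461 (merge (leaf 3 460 460) (leaf 3 461 462))))))))) (merge (node 493 (merge (leaf 0 493 529) (node 524 (merge (leaf 1 492 525) (node 492 (merge (leaf 2 460 464) (leaf 1 491 523))))))) (merge (node 493 (merge (leaf 0 493 529) (node 492 (merge (leaf 2 460 464) (node 523 (merge (leaf 1 491 524) (node 491 (merge (leaf 2 459 462) (leaf 1 490 522))))))))) (merge (node 497 (merge (node 525 (merge (leaf 1 493 526) (node 493 (merge (leaf 1 492 524) (node 461 (merge (leaf 3 460 460) (leaf 3 461 462))))))) (merge (node 498 (merge (leaf 3 462 462) (node 467 (merge (leaf 2 463 466) (node 499 (merge (leaf 3 463 464) (leaf 2 464 468))))))) (node 525 (merge (leaf 1 493 526) (node 493 (merge (leaf 1 492 524) (node 492 (merge (leaf 2 460 464) (node 460 (merge (leaf 3 459 459) (leaf 3 460 461)))))))))))) (node 497 (merge (node 498 (merge (leaf 3 462 462) (node 467 (merge (leaf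 2 463 466) (node 499 (merge (leaf 3 463 464) (leaf 2 464 468))))))) (merge (node 530 (merge (leaf 0 494 529) (node 498 (merge (leaf 0 495 531) (node 467 (merge (leaf 2 463 466) (node 499 (merge (leaf 3 463 464) (leaf 2 464 468))))))))) (node 526 (merge (leaf 1 493 525) (node 462 (merge (leaf 3 461 461) (node 558 (merge (leaf 6 462 590) (node 559 (merge (leaf 4 462 591) (node 557 (merge (leaf 2 525 529) (leaf 5 461 589)))))))))))))))))))))) (hyp 0))))))))))) nQ_4 cQ_4 14 (by decide +kernel)
def nQ_5 : ℕ := 0x100000001000000010000000000000000000000000000000000000000000000000000000000000000000000000000000000000000000000000000000000000000000000000000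
def cQ_5 : ℕ := 0xe0000000e0000000f8000000f000001efe00003efc00001ff800001ef0000006a000000400000000000000000000000000000000000000000000000000000000000000000000000000000000000000000000
theorem lQ_5 : S nQ_5 cQ_5 13 := S_of_chk [] trivial (node 559 (merge (node 591 (merge (leaf 5 463 464) (node 623 (merge (leaf 6 495 527) (leaf 6 527 655))))) (merge (node 495 (merge (node 464 (merge (leaf 5 463 591) (node 465 (merge (leaf 6 432 433) (node 466 (merge (leaf 1 463 467) (node 494 (merge (leaf 2 461 493) (leaf 2 462 497))))))))) (merge (node 464 (merge (leaf 5 463 591) (node 465 (merge (leaf 6 432 433) (node 466 (merge (leaf 1 463 467) (node 494 (merge (leaf 1 462 463) (leaf 2 461 493))))))))) (merge (node 494 (merge (node 529 (merge (leaf 0 493 493) (node 530 (merge (leaf 0 494 497) (leaf 1 527 531))))) (merge (node 493 (merge (leaf 0 493 529) (node 524 (merge (leaf 1 492 525) (node 492 (merge (leaf 1 491 523) (node 460 (merge (leaf 3 459 459) (leaf 3 460 461))))))))) (merge (node 497 (merge (node 526 (merge (leaf 1 493 525) (node 462 (merge (leaf 3 461 461) (node 558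 (merge (leaf 4 462 591) (node 557 (merge (leaf 2 525 529) (leaf 5 461 589))))))))) (merge (node 529 (merge (leaf 0 494 530) (node 526 (merge (leaf 1 493 525) (node 558 (merge (leaf 2 525 557) (node 590 (merge (leaf 6 462 463) (node 589 (merge (leaf 5 493 621) (node 588 (merge (leaf 2 555 587) (leaf 2 556 591))))))))))))) (node 462 (merge (leaf 3 461 461) (node 498 (merge (leaf 3 462 463) (node 531 (merge (leaf 0 495 530) (node 499 (merge (leaf 0 496 532) (node 467 (merge (leaf 2 463 466) (leaf 2 464 468)))))))))))))) (node 525 (merge (node 493 (merge (leaf 1 492 524) (node 461 (merge (leaf 3 460 460) (node 462 (merge (leaf 3 461 497) (node 557 (merge (leaf 6 429 430) (leaf 6 461 589))))))))) (merge (node 497 (merge (leaf 1 493 526) (node 462 (merge (leaf 3 461 461) (node 498 (merge (leaf 3 462 463) (node 531 (merge (leaf 0 495 530) (node 499 (merge (leaf 0 496 532) (node 467 (merge (leaf 2 463 466) (leaf 2 464 468))))))))))))) (node 524 (merge (leaf 1 492 493) (node 526 (merge (leaf 2 491 523) (node 558 (merge (leaf 3 524 557) (node 590 (merge (leaf 6 462 463) (node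 589 (merge (leaf 5 493 621) (node 588 (merge (leaf 2 555 587) (leaf 2 556 591)))))))))))))))))))) (merge (node 558 (merge (node 529 (merge (leaf 2 525 557) (node 494 (merge (leaf 0 493 493) (node 530 (merge (leaf 0 494 497) (leaf 1 527 531))))))) (merge (node 557 (merge (leaf 2 525 529) (node 588 (merge (leaf 1 556 589) (node 556 (merge (leaf 1 555 587) (node 524 (merge (leaf 3 523 523) (leaf 3 524 525))))))))) (node 464 (merge (leaf 5 463 591) (node 465 (merge (leaf 6 432 433) (node 494 (merge (leaf 2 461 493) (node 463 (merge (leaf 7 431 431) (node 526 (merge (leaf 6 462 590) (node 497 (merge (leaf 1 493 525) (node 498 (merge (leaf 0 462 462) (leaf 3 463 499)))))))))))))))))) (merge (node 494 (merge (node 529 (merge (leaf 0 493 493) (node 530 (merge (leaf 0 494 497) (leaf 3 495 531))))) (merge (node 493 (merge (leaf 0 493 529) (node 464 (merge (leaf 2 461 465) (node 463 (merge (leaf 7 431 431) (leaf 2 460 492))))))) (merge (node 465 (merge (node 433 (merge (leaf 6 432 464) (node 497 (merge (leaf 5 400 401) (leaf 5 432 529))))) (merge (node 466 (merge (leaf 2 462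 497) (node 464 (merge (leaf 1 462 463) (leaf 1 463 467))))) (merge (node 497 (merge (leaf 2 462 466) (node 433 (merge (leaf 5 400 401) (leaf 5 432 529))))) (node 464 (merge (leaf 6 432 433) (node 463 (merge (leaf 7 431 431) (leaf 1 462 466))))))))) (node 493 (merge (node 464 (merge (leaf 2 461 465) (node 463 (merge (leaf 7 431 431) (leaf 2 460 492))))) (node 525 (merge (leaf 1 492 524) (node 526 (merge (leaf 1 493 497) (node 461 (merge (leaf 3 460 460) (node 558 (merge (leaf 4 429 429) (leaf 7 461 590))))))))))))))) (node 464 (merge (leaf 5 463 591) (node 465 (merge (leaf 6 432 433) (node 466 (merge (leaf 1 463 467) (node 463 (merge (leaf 7 431 431) (node 498 (merge (leaf 0 463 499) (node 497 (merge (leaf 0 462 462) (node 434 (merge (leaf 2 431 435) (node 402 (merge (leaf 5 369 370) (leaf 5 401 529))))))))))))))))))))))) (merge (node 558 (merge (node 529 (merge (leaf 2 525 557) (node 530 (merge (leaf 1 526 527) (leaf 1 527 531))))) (merge (node 557 (merge (leaf 2 525 529) (node 588 (merge (leaf 1 556 589) (node 556 (merge (leaf 1 555 587) (node 524 (merge (leaf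 3 523 523) (leaf 3 524 525))))))))) (merge (node 557 (merge (node 556 (merge (leaf 2 524 527) (node 524 (merge (leaf 3 523 523) (leaf 3 524 525))))) (merge (node 556 (merge (leaf 2 524 527) (node 588 (merge (leaf 1 555 587) (leaf 1 556 589))))) (merge (node 588 (merge (leaf 1 556 589) (node 556 (merge (leaf 1 555 587) (node 524 (merge (leaf 3 523 523) (leaf 3 524 525))))))) (node 589 (merge (leaf 1 556 588) (node 526 (merge (node 494 (merge (leaf 5 461 462) (node 621 (merge (leaf 5 493 590) (leaf 6 525 653))))) (merge (node 525 (merge (leaf 3 524 524) (node 621 (merge (leaf 6 493 494) (leaf 6 525 653))))) (merge (node 525 (merge (leaf 3 524 524) (node 527 (merge (leaf 2 493 497) (node 493 (merge (leaf 3 492 492) (node 461 (merge (leaf 4 429 429) (leaf 4 461 590))))))))) (node 525 (merge (leaf 3 524 524) (node 527 (merge (leaf 2 493 497) (node 493 (merge (leaf 3 492 492) (node 590 (merge (leaf 4 461 461) (leaf 4 493 622))))))))))))))))))) (node 494 (merge (node 527 (merge (node 529 (merge (leaf 1 526 530) (node 493 (merge (leaf 0 493 495) (leaf 3 493 526))))) (merge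 (node 591 (merge (leaf 6 495 623) (node 462 (merge (leaf 7 462 495) (leaf 4 462 526))))) (merge (node 529 (merge (leaf 1 526 530) (node 526 (merge (leaf 3 493 493) (node 591 (merge (leaf 4 462 462) (leaf 6 495 623))))))) (node 529 (merge (leaf 1 526 530) (node 495 (merge (leaf 0 493 493) (node 591 (merge (leaf 7 462 462) (leaf 6 495 623))))))))))) (merge (node 529 (merge (node 530 (merge (leaf 1 526 527) (leaf 1 527 531))) (merge (node 495 (merge (leaf 0 493 493) (node 530 (merge (leaf 0 494 497) (leaf 1 527 531))))) (node 493 (merge (leaf 0 493 495) (node 526 (merge (leaf 3 493 527) (node 590 (merge (leaf 7 461 461) (node 621 (merge (leaf 5 493 589) (node 622 (merge (leaf 7 493 525) (leaf 5 525 653)))))))))))))) (merge (node 591 (merge (node 623 (merge (leaf 6 495 527) (leaf 6 527 655))) (merge (node 526 (merge (leaf 4 462 462) (node 623 (merge (leaf 4 494 590) (leaf 7 526 655))))) (node 462 (merge (leaf 4 462 526) (node 495 (merge (leaf 7 462 527) (node 497 (merge (leaf 3 461 461) (node 465 (merge (leaf 2 462 466) (node 433 (merge (leaf 5 400 401) (leaf 5 432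 529)))))))))))))) (merge (node 526 (merge (node 591 (merge (leaf 4 462 462) (node 623 (merge (leaf 4 494 590) (leaf 7 526 655))))) (merge (node 527 (merge (node 525 (merge (leaf 2 493 497) (leaf 0 524 524))) (node 529 (merge (leaf 3 493 493) (leaf 1 526 530))))) (node 527 (merge (node 525 (merge (leaf 2 493 497) (leaf 0 524 524))) (node 529 (merge (leaf 3 493 493) (node 530 (merge (leaf 1 527 531) (leaf 1 526 558)))))))))) (merge (node 495 (merge (node 529 (merge (leaf 0 493 493) (node 530 (merge (leaf 0 494 497) (leaf 1 527 531))))) (merge (node 493 (merge (leaf 0 493 529) (node 461 (merge (leaf 3 460 460) (node 526 (merge (leaf 7 461 590) (node 462 (merge (leaf 7 429 429) (leaf 4 462 591))))))))) (merge (node 526 (merge (node 525 (merge (leaf 1 493 497) (node 524 (merge (leaf 1 492 493) (leaf 0 523 523))))) (merge (node 462 (merge (leaf 4 462 591) (node 461 (merge (leaf 7 429 429) (leaf 3 461 497))))) (node 462 (merge (leaf 4 462 591) (node 461 (merge (leaf 7 429 429) (node 493 (merge (leaf 3 460 460) (leaf 7 461 590)))))))))) (node 497 (merge (node 465 (merge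 (leaf 2 462 466) (node 433 (merge (leaf 5 400 401) (leaf 5 432 529))))) (node 526 (merge (leaf 1 493 525) (node 462 (merge (leaf 3 461 461) (leaf 4 462 591))))))))))) (merge (node 526 (merge (node 591 (merge (leaf 4 462 462) (node 623 (merge (leaf 4 494 590) (leaf 7 526 655))))) (merge (node 462 (merge (leaf 4 462 591) (node 430 (merge (leaf 4 430 527) (node 429 (merge (leaf 7 397 397) (leaf 7 429 461))))))) (merge (node 527 (merge (node 525 (merge (leaf 2 493 497) (leaf 0 524 524))) (node 462 (merge (leaf 4 430 430) (node 461 (merge (leaf 7 429 429) (node 590 (merge (leaf 7 461 493) (node 622 (merge (leaf 6 494 495) (leaf 6 526 654))))))))))) (node 525 (merge (node 524 (merge (leaf 0 523 523) (leaf 0 524 527))) (merge (node 524 (merge (leaf 0 523 523) (node 495 (merge (leaf 1 492 493) (leaf 1 493 497))))) (node 527 (merge (leaf 2 493 497) (node 493 (merge (leaf 3 492 492) (node 590 (merge (leaf 7 461 461) (leaf 7 493 622)))))))))))))) (node 495 (merge (node 529 (merge (leaf 0 493 493) (node 530 (merge (leaf 0 494 497) (leaf 1 527 531))))) (merge (node 493 (merge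 (leaf 0 493 529) (node 527 (merge (leaf 0 492 492) (node 591 (merge (leaf 7 462 462) (leaf 6 495 623))))))) (merge (node 461 (merge (node 460 (merge (leaf 3 460 493) (node 462 (merge (leaf 0 459 459) (leaf 3 461 497))))) (merge (node 493 (merge (leaf 3 460 460) (node 492 (merge (leaf 0 492 527) (node 524 (merge (leaf 1 491 523) (leaf 1 492 525))))))) (node 497 (merge (leaf 3 461 462) (node 466 (merge (leaf 2 462 465) (node 498 (merge (leaf 2 463 467) (node 531 (merge (leaf 0 495 530) (node 499 (merge (leaf 1 495 527) (leaf 0 496 532)))))))))))))) (node 497 (merge (node 465 (merge (leaf 2 462 466) (node 433 (merge (leaf 5 400 401) (leaf 5 432 529))))) (merge (node 530 (merge (leaf 0 494 529) (node 498 (merge (leaf 0 495 531) (node 527 (merge (leaf 1 495 499) (node 462 (merge (leaf 3 461 461) (leaf 7 462 591))))))))) (node 466 (merge (leaf 2 462 465) (node 498 (merge (leaf 2 463 467) (node 527 (merge (leaf 1 495 499) (node 462 (merge (leaf 3 461 461) (leaf 7 462 591))))))))))))))))))))))))))) (node 463 (merge (node 431 (merge (leaf 7 431 464) (node 495 (merge (leaf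 4 399 399) (leaf 4 431 527))))) (merge (node 464 (merge (leaf 7 431 431) (node 465 (merge (leaf 6 432 433) (node 466 (merge (node 499 (merge (leaf 0 463 498) (node 467 (merge (leaf 0 464 500) (node 435 (merge (leaf 2 431 434) (leaf 2 432 436))))))) (merge (node 498 (merge (leaf 0 463 499) (node 462 (merge (leaf 0 462 497) (node 493 (merge (leaf 1 461 494) (node 461 (merge (leaf 1 460 492) (node 429 (merge (leaf 3 428 428) (leaf 3 429 430))))))))))) (merge (node 435 (merge (leaf 2 431 434) (node 467 (merge (leaf 2 432 436) (node 497 (merge (leaf 1 464 468) (node 462 (merge (leaf 0 461 461) (leaf 0 462 498))))))))) (node 435 (merge (leaf 2 431 434) (node 467 (merge (leaf 2 432 436) (node 500 (merge (leaf 0 464 499) (node 468 (merge (leaf 1 464 497) (leaf 0 465 501))))))))))))))))) (merge (node 495 (merge (node 529 (merge (node 558 (merge (leaf 2 525 557) (node 530 (merge (leaf 1 526 527) (leaf 1 527 531))))) (merge (node 494 (merge (leaf 0 493 493) (node 558 (merge (leaf 2 525 557) (node 590 (merge (leaf 6 462 526) (leaf 5 462 527))))))) (node 494 (merge (leaf 0 493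 493) (node 530 (merge (leaf 0 494 497) (leaf 3 495 531)))))))) (merge (node 462 (merge (node 461 (merge (leaf 0 460 460) (node 497 (merge (leaf 0 461 464) (leaf 3 462 498))))) (node 527 (merge (leaf 7 430 430) (node 558 (merge (leaf 5 462 590) (node 557 (merge (leaf 2 525 529) (leaf 2 524 556))))))))) (merge (node 494 (merge (node 529 (merge (leaf 0 493 493) (node 530 (merge (leaf 0 494 497) (leaf 1 527 531))))) (merge (node 493 (merge (leaf 0 493 529) (node 524 (merge (leaf 1 492 525) (node 492 (merge (leaf 1 491 523) (node 460 (merge (leaf 3 459 459) (leaf 3 460 461))))))))) (merge (node 497 (merge (node 462 (merge (leaf 3 461 461) (leaf 3 462 498))) (node 529 (merge (leaf 0 494 530) (node 465 (merge (leaf 5 432 433) (leaf 2 462 466))))))) (node 497 (merge (node 525 (merge (leaf 1 493 526) (node 493 (merge (leaf 1 492 524) (node 461 (merge (leaf 3 460 460) (leaf 3 461 462))))))) (merge (node 498 (merge (leaf 3 462 462) (node 467 (merge (leaf 2 463 466) (node 499 (merge (leaf 3 463 464) (leaf 2 464 468))))))) (node 525 (merge (leaf 1 493 526) (node 493 (merge (leaf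 1 492 524) (node 492 (merge (leaf 2 460 464) (node 460 (merge (leaf 3 459 459) (leaf 3 460 461)))))))))))))))) (merge (node 462 (merge (node 461 (merge (leaf 0 460 460) (node 497 (merge (leaf 0 461 464) (leaf 3 462 498))))) (merge (node 527 (merge (leaf 7 430 430) (node 558 (merge (leaf 5 462 590) (node 557 (merge (leaf 2 524 556) (node 589 (merge (leaf 1 556 588) (node 525 (merge (leaf 3 524 524) (node 526 (merge (leaf 5 461 494) (leaf 2 493 497))))))))))))) (node 527 (merge (leaf 7 430 430) (node 558 (merge (leaf 5 462 590) (node 557 (merge (leaf 2 524 556) (node 589 (merge (leaf 1 556 588) (node 525 (merge (leaf 3 524 524) (node 494 (merge (leaf 6 461 493) (leaf 5 461 526)))))))))))))))) (node 558 (merge (node 557 (merge (leaf 2 525 529) (node 588 (merge (leaf 1 556 589) (node 556 (merge (leaf 1 555 587) (node 524 (merge (leaf 3 523 523) (leaf 3 524 525))))))))) (merge (node 527 (merge (leaf 5 462 590) (node 557 (merge (leaf 2 524 556) (node 589 (merge (leaf 1 556 588) (node 525 (merge (leaf 3 524 524) (node 462 (merge (leaf 7 430 430) (node 460 (merge (leaf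 0 460 461) (node 493 (merge (leaf 7 460 492) (leaf 6 461 494))))))))))))))) (node 527 (merge (leaf 5 462 590) (node 529 (merge (leaf 1 526 530) (node 494 (merge (leaf 0 493 493) (node 462 (merge (leaf 7 430 430) (node 461 (merge (leaf 0 460 460) (node 429 (merge (leaf 7 429 526) (node 464 (merge (leaf 3 428 428) (node 465 (merge (leaf 6 432 433) (leaf 1 462 466))))))))))))))))))))))))) (node 495 (merge (node 431 (merge (leaf 4 399 399) (leaf 4 431 527))) (merge (node 494 (merge (node 529 (merge (leaf 0 493 493) (node 530 (merge (leaf 3 494 527) (leaf 3 495 531))))) (merge (node 497 (merge (node 462 (merge (leaf 3 461 461) (leaf 3 462 498))) (merge (node 530 (merge (leaf 0 494 529) (node 498 (merge (leaf 0 495 531) (node 526 (merge (leaf 1 493 525) (leaf 1 494 527))))))) (node 529 (merge (leaf 0 494 530) (node 465 (merge (leaf 5 432 433) (leaf 2 462 466)))))))) (node 525 (merge (node 524 (merge (leaf 1 492 493) (node 526 (merge (leaf 1 493 497) (leaf 2 491 523))))) (merge (node 497 (merge (leaf 1 493 526) (node 466 (merge (leaf 2 462 465) (node 498 (merge (leaf 3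 462 462) (leaf 2 463 467))))))) (merge (node 493 (merge (leaf 1 492 524) (node 461 (merge (leaf 3 460 460) (node 462 (merge (leaf 3 461 497) (node 557 (merge (leaf 6 429 430) (leaf 6 461 589))))))))) (node 493 (merge (leaf 1 492 524) (node 460 (merge (leaf 3 460 461) (node 492 (merge (leaf 3 459 459) (node 491 (merge (leaf 2 459 462) (node 490 (merge (leaf 0 490 526) (node 522 (merge (leaf 1 489 521) (leaf 1 490 523)))))))))))))))))))) (node 494 (merge (node 497 (merge (node 462 (merge (leaf 3 461 461) (leaf 3 462 498))) (node 529 (merge (leaf 0 494 530) (node 465 (merge (leaf 5 432 433) (leaf 2 462 466))))))) (merge (node 493 (merge (leaf 0 493 529) (node 524 (merge (leaf 1 492 525) (node 492 (merge (leaf 1 491 523) (node 460 (merge (leaf 3 459 459) (leaf 3 460 461))))))))) (node 431 (merge (leaf 4 399 399) (node 526 (merge (node 558 (merge (leaf 6 430 462) (leaf 6 462 590))) (node 525 (merge (leaf 1 493 497) (node 524 (merge (leaf 1 492 493) (leaf 2 491 523))))))))))))))))))))))) nQ_5 cQ_5 13 (by decide +kernel)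
def nQ_6 : ℕ := 0x1000000010000000180000000000000000000000000000000000000000000000000000000000000000000000000000000000000000000000000000000000000000000
def cQ_6 : ℕ := 0xa0000000e0000000f8000002f000001cfc00000e7c00001efc000000e0000000e0000000a00000000000000000000000000000000000000000000000000000000000000000000000000000000000
theorem lQ_6 : S nQ_6 cQ_6 10 := S_of_chk [] trivial (node 462 (merge (node 461 (merge (node 460 (merge (leaf 0 460 495) (node 492 (merge (leaf 1 459 491) (leaf 1 460 493))))) (merge (node 460 (merge (leaf 0 460 495) (node 428 (merge (leaf 3 427 427) (leaf 3 428 429))))) (node 493 (merge (leaf 1 460 492) (node 494 (merge (leaf 1 461 465) (node 429 (merge (leaf 3 428 428) (node 526 (merge (leaf 4 397 397) (leaf 7 429 558)))))))))))) (merge (node 495 (merge (node 461 (merge (leaf 0 460 460) (node 493 (merge (leaf 1 460 492) (node 494 (merge (leaf 2 461 465) (leaf 0 493 529))))))) (merge (node 527 (merge (node 559 (merge (leaf 7 430 430) (node 591 (merge (leaf 6 463 464) (leaf 6 495 623))))) (merge (node 431 (merge (leaf 4 399 399) (node 559 (merge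 (leaf 6 463 591) (node 558 (merge (leaf 5 430 526) (leaf 5 462 590))))))) (node 431 (merge (leaf 4 399 399) (node 526 (merge (leaf 5 430 558) (node 525 (merge (leaf 2 492 524) (node 557 (merge (leaf 1 524 556) (node 430 (merge (leaf 7 398 398) (leaf 5 429 494)))))))))))))) (merge (node 527 (merge (node 559 (merge (leaf 7 430 430) (node 591 (merge (leaf 6 463 464) (leaf 6 495 623))))) (merge (node 431 (merge (leaf 4 399 399) (node 559 (merge (leaf 6 463 591) (node 558 (merge (leaf 5 430 526) (leaf 5 462 590))))))) (node 431 (merge (leaf 4 399 399) (node 526 (merge (leaf 5 430 558) (node 525 (merge (leaf 2 492 524) (node 557 (merge (leaf 1 524 556) (node 493 (merge (leaf 3 492 492) (node 430 (merge (leaf 7 398 398) (leaf 6 429 461)))))))))))))))) (node 461 (merge (leaf 0 460 460) (node 493 (merge (leaf 1 460 492) (node 494 (merge (leaf 0 493 529) (node 525 (merge (leaf 1 492 524) (node 557 (merge (leaf 6 429 430) (leaf 6 461 589))))))))))))))) (merge (node 494 (merge (node 465 (merge (leaf 1 461 493) (node 466 (merge (leaf 1 462 495) (node 499 (merge (leaf 0 463 498)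 (node 467 (merge (leaf 0 464 500) (node 435 (merge (leaf 2 431 434) (leaf 2 432 436))))))))))) (merge (node 465 (merge (leaf 1 461 493) (node 434 (merge (leaf 2 430 433) (node 466 (merge (leaf 2 431 435) (node 430 (merge (leaf 3 429 429) (leaf 3 430 431))))))))) (node 526 (merge (node 558 (merge (leaf 6 430 431) (node 591 (merge (leaf 4 462 559) (node 590 (merge (leaf 6 462 495) (leaf 4 494 623))))))) (merge (node 558 (merge (leaf 6 430 431) (node 589 (merge (leaf 5 461 557) (node 590 (merge (leaf 6 462 495) (leaf 5 493 621))))))) (merge (node 558 (merge (leaf 6 430 431) (node 557 (merge (leaf 5 461 589) (node 527 (merge (leaf 1 525 529) (node 430 (merge (leaf 5 429 525) (leaf 4 430 559))))))))) (merge (node 558 (merge (node 591 (merge (leaf 4 462 559) (node 590 (merge (leaf 6 462 495) (leaf 4 494 623))))) (merge (node 590 (merge (leaf 6 462 495) (node 589 (merge (leaf 5 461 557) (leaf 5 493 621))))) (node 557 (merge (leaf 5 461 589) (node 527 (merge (leaf 1 525 529) (node 430 (merge (leaf 5 429 525) (leaf 4 430 559)))))))))) (node 430 (merge (node 429 (merge (leaf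 7 397 397) (node 428 (merge (leaf 0 427 427) (leaf 0 428 431))))) (merge (node 527 (merge (leaf 4 430 559) (node 495 (merge (leaf 4 398 398) (node 525 (merge (leaf 2 492 524) (leaf 5 429 557))))))) (node 527 (merge (leaf 4 430 559) (node 398 (merge (leaf 4 398 495) (node 367 (merge (leaf 6 366 399) (node 366 (merge (leaf 6 334 335) (node 365 (merge (leaf 7 333 333) (leaf 7 365 397)))))))))))))))))))))) (merge (node 494 (merge (node 493 (merge (node 492 (merge (leaf 1 460 461) (leaf 2 459 491))) (merge (node 495 (merge (leaf 2 460 492) (leaf 0 493 529))) (node 495 (merge (leaf 0 493 529) (node 461 (merge (leaf 0 460 460) (node 525 (merge (leaf 1 492 524) (node 557 (merge (leaf 6 429 430) (leaf 6 461 589)))))))))))) (merge (node 495 (merge (node 493 (merge (leaf 2 460 492) (leaf 0 493 529))) (node 461 (merge (leaf 0 460 460) (node 429 (merge (leaf 3 428 428) (node 526 (merge (leaf 7 429 558) (node 430 (merge (leaf 7 397 397) (node 527 (merge (leaf 4 398 398) (leaf 4 430 559))))))))))))) (merge (node 526 (merge (node 558 (merge (leaf 6 430 431) (node 591 (merge (leaf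 4 462 559) (node 590 (merge (leaf 6 462 495) (leaf 4 494 623))))))) (merge (node 558 (merge (leaf 6 430 431) (node 589 (merge (leaf 5 461 557) (node 590 (merge (leaf 6 462 495) (leaf 5 493 621))))))) (merge (node 558 (merge (leaf 6 430 431) (node 557 (merge (leaf 5 461 589) (node 527 (merge (leaf 1 525 529) (node 430 (merge (leaf 5 429 525) (leaf 4 430 559))))))))) (merge (node 558 (merge (node 591 (merge (leaf 4 462 559) (node 590 (merge (leaf 6 462 495) (leaf 4 494 623))))) (merge (node 590 (merge (leaf 6 462 495) (node 589 (merge (leaf 5 461 557) (leaf 5 493 621))))) (node 557 (merge (leaf 5 461 589) (node 527 (merge (leaf 1 525 529) (node 430 (merge (leaf 5 429 525) (leaf 4 430 559)))))))))) (node 430 (merge (node 429 (merge (leaf 7 397 397) (node 428 (merge (leaf 0 427 427) (leaf 0 428 431))))) (merge (node 527 (merge (leaf 4 430 559) (node 495 (merge (leaf 4 398 398) (node 525 (merge (leaf 2 492 524) (leaf 5 429 557))))))) (node 527 (merge (leaf 4 430 559) (node 398 (merge (leaf 4 398 495) (node 367 (merge (leaf 6 366 399) (node 366 (merge (leaf 6 334 335)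 (node 365 (merge (leaf 7 333 333) (leaf 7 365 397))))))))))))))))))) (merge (node 495 (merge (node 493 (merge (leaf 2 460 492) (node 525 (merge (leaf 1 492 524) (node 430 (merge (leaf 5 397 398) (node 557 (merge (leaf 5 429 526) (leaf 6 461 589))))))))) (merge (node 461 (merge (leaf 0 460 460) (node 429 (merge (leaf 3 428 428) (node 526 (merge (leaf 7 429 558) (node 430 (merge (leaf 7 397 397) (node 527 (merge (leaf 4 398 398) (leaf 4 430 559))))))))))) (merge (node 461 (merge (leaf 0 460 460) (node 493 (merge (leaf 1 460 492) (node 525 (merge (leaf 1 492 524) (node 557 (merge (leaf 6 429 430) (leaf 6 461 589))))))))) (node 461 (merge (leaf 0 460 460) (node 493 (merge (leaf 1 460 492) (node 429 (merge (leaf 3 428 428) (node 397 (merge (leaf 4 365 365) (leaf 4 397 526))))))))))))) (merge (node 493 (merge (node 492 (merge (leaf 1 460 461) (leaf 2 459 491))) (merge (node 495 (merge (leaf 2 460 492) (leaf 0 493 529))) (node 495 (merge (leaf 0 493 529) (node 461 (merge (leaf 0 460 460) (node 429 (merge (leaf 3 428 428) (node 397 (merge (leaf 4 365 365) (leaf 4 397 526))))))))))))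 (node 526 (merge (node 558 (merge (leaf 6 430 431) (node 557 (merge (leaf 5 461 589) (node 527 (merge (leaf 1 525 529) (node 430 (merge (leaf 5 429 525) (leaf 4 430 559))))))))) (merge (node 558 (merge (node 591 (merge (leaf 4 462 559) (node 590 (merge (leaf 4 494 623) (node 461 (merge (leaf 7 429 429) (leaf 7 461 493))))))) (merge (node 557 (merge (leaf 5 461 589) (node 527 (merge (leaf 1 525 529) (node 430 (merge (leaf 5 429 525) (leaf 4 430 559))))))) (node 589 (merge (leaf 5 461 557) (node 590 (merge (leaf 5 493 621) (node 461 (merge (leaf 7 429 429) (leaf 7 461 493)))))))))) (merge (node 558 (merge (leaf 6 430 431) (node 589 (merge (leaf 5 461 557) (node 590 (merge (leaf 5 493 621) (node 461 (merge (leaf 7 429 429) (leaf 7 461 493))))))))) (node 493 (merge (node 492 (merge (leaf 1 460 461) (leaf 2 459 491))) (node 527 (merge (leaf 3 493 529) (node 430 (merge (leaf 4 430 559) (node 429 (merge (leaf 7 397 397) (node 428 (merge (leaf 0 427 427) (leaf 0 428 431))))))))))))))))))))) (merge (node 429 (merge (node 428 (merge (leaf 3 428 461) (node 430 (merge (leaf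 0 427 427) (leaf 0 428 431))))) (merge (node 430 (merge (leaf 3 429 465) (node 428 (merge (leaf 0 427 427) (leaf 0 428 431))))) (merge (node 461 (merge (leaf 3 428 428) (node 493 (merge (leaf 1 460 492) (node 494 (merge (leaf 1 461 465) (node 526 (merge (leaf 4 397 397) (leaf 7 429 558))))))))) (node 494 (merge (node 493 (merge (leaf 1 461 465) (node 492 (merge (leaf 1 460 461) (leaf 2 459 491))))) (merge (node 430 (merge (leaf 3 429 465) (node 526 (merge (leaf 7 397 397) (node 558 (merge (leaf 6 430 431) (leaf 7 429 461))))))) (merge (node 465 (merge (leaf 1 461 493) (node 434 (merge (leaf 2 430 433) (node 466 (merge (leaf 2 431 435) (node 430 (merge (leaf 3 429 429) (leaf 3 430 431))))))))) (node 397 (merge (node 365 (merge (leaf 4 365 461) (node 430 (merge (leaf 4 333 333) (leaf 7 365 398))))) (merge (node 461 (merge (leaf 4 365 365) (node 526 (merge (leaf 4 397 493) (leaf 7 429 558))))) (node 526 (merge (leaf 7 397 430) (node 558 (merge (leaf 6 430 431) (node 557 (merge (leaf 5 461 589) (node 527 (merge (leaf 1 525 529) (node 556 (merge (leaf 1 524 525) (leaf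 2 523 555)))))))))))))))))))))) (node 461 (merge (node 460 (merge (leaf 0 460 495) (node 428 (merge (leaf 3 427 427) (leaf 3 428 429))))) (merge (node 460 (merge (leaf 0 460 495) (node 491 (merge (leaf 1 459 492) (node 459 (merge (leaf 1 458 490) (node 430 (merge (leaf 2 427 431) (node 429 (merge (leaf 2 426 458) (leaf 3 429 465))))))))))) (merge (node 460 (merge (leaf 0 460 495) (node 491 (merge (leaf 1 459 492) (node 459 (merge (leaf 1 458 490) (node 427 (merge (leaf 3 426 426) (leaf 3 427 428))))))))) (merge (node 460 (merge (node 428 (merge (leaf 3 427 427) (leaf 3 428 429))) (merge (node 491 (merge (leaf 1 459 492) (node 459 (merge (leaf 1 458 490) (node 427 (merge (leaf 3 426 426) (leaf 3 427 428))))))) (merge (node 491 (merge (leaf 1 459 492) (node 459 (merge (leaf 1 458 490) (node 430 (merge (leaf 2 427 431) (node 429 (merge (leaf 2 426 458) (leaf 3 429 465))))))))) (node 429 (merge (leaf 3 428 428) (node 430 (merge (leaf 3 429 465) (node 459 (merge (leaf 2 427 431) (leaf 2 426 458))))))))))) (node 429 (merge (leaf 3 428 428) (node 465 (merge (leaf 3 429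 430) (node 434 (merge (leaf 2 430 433) (node 466 (merge (leaf 2 431 435) (node 499 (merge (leaf 0 463 498) (node 467 (merge (leaf 1 463 495) (leaf 0 464 500)))))))))))))))))))))))) nQ_6 cQ_6 10 (by decide +kernel)
def nQ_7 : ℕ := 0x1000000010000000000000000000000000000000000000000000000000000000000000000000000000000000000000000000000000000000000000000000000000000
def cQ_7 : ℕ := 0xe0000000e000000df800000ef000007efc00003ffc00003ffc00001ff0000007e0000003a00000028000000000000000000000000000000000000000000000000000000000000000000000000000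
theorem lQ_7 : S nQ_7 cQ_7 15 := S_of_chk [(nQ_6, cQ_6, 10)] ⟨lQ_6, trivial⟩ (node 464 (merge (node 432 (merge (node 527 (merge (leaf 5 431 559) (node 400 (merge (leaf 5 399 495) (node 399 (merge (leaf 7 367 367) (leaf 7 399 431))))))) (merge (node 433 (merge (leaf 6 400 401) (node 560 (merge (leaf 6 432 465) (node 559 (merge (leaf 5 431 527) (leaf 5 463 591))))))) (node 401 (merge (leaf 6 400 433) (node 400 (merge (leaf 6 368 369) (node 399 (merge (leaf 7 367 367) (leaf 7 399 431)))))))))) (merge (node 432 (merge (node 401 (merge (leaf 6 400 433) (node 400 (merge (leaf 6 368 369) (node 527 (merge (leaf 5 399 495) (leaf 5 431 559))))))) (merge (node 401 (merge (leaf 6 400 433) (node 400 (merge (leaf 6 368 369) (node 399 (merge (leaf 7 367 367) (leaf 7 399 431))))))) (node 559 (merge (leaf 5 431 527) (node 431 (merge (leaf 7 399 399) (node 560 (merge (leaf 7 431 463) (leaf 5 463 591)))))))))) (merge (node 463 (merge (node 431 (merge (leaf 7 431 560) (node 399 (merge (leaf 4 367 367) (leaf 7 399 432))))) (merge (node 465 (merge (node 560 (merge (leaf 7 431 431) (leaf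 6 432 433))) (merge (node 433 (merge (leaf 6 432 560) (node 401 (merge (leaf 5 368 369) (leaf 5 400 497))))) (merge (node 498 (merge (node 497 (merge (leaf 0 462 462) (leaf 3 463 499))) (merge (node 499 (merge (leaf 0 463 466) (leaf 3 463 497))) (merge (node 462 (merge (leaf 0 462 497) (node 434 (merge (leaf 2 430 433) (node 466 (merge (leaf 2 431 435) (node 430 (merge (leaf 3 429 429) (leaf 3 430 431))))))))) (node 466 (merge (leaf 0 463 499) (node 434 (merge (leaf 2 431 435) (node 433 (merge (leaf 2 430 462) (node 530 (merge (leaf 7 401 401) (leaf 7 433 562))))))))))))) (node 431 (merge (leaf 7 431 560) (node 466 (merge (leaf 3 430 430) (node 498 (merge (leaf 0 463 499) (node 497 (merge (leaf 0 462 462) (node 434 (merge (leaf 2 431 435) (node 402 (merge (leaf 5 369 370) (leaf 5 401 529))))))))))))))))) (merge (node 462 (merge (node 461 (merge (leaf 0 461 497) (node 432 (merge (leaf 2 429 433) (node 431 (merge (leaf 7 399 399) (leaf 2 428 460))))))) (merge (node 461 (merge (leaf 0 461 497) (node 493 (merge (leaf 1 460 492) (node 465 (merge (leaf 1 461 494) (node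 429 (merge (leaf 3 428 428) (leaf 3 429 430))))))))) (merge (node 432 (merge (node 433 (merge (leaf 6 400 401) (leaf 2 429 461))) (merge (node 433 (merge (leaf 6 400 401) (node 431 (merge (leaf 7 399 399) (leaf 1 430 434))))) (node 431 (merge (leaf 7 399 399) (node 461 (merge (leaf 2 428 460) (node 493 (merge (leaf 1 460 492) (node 465 (merge (leaf 1 461 494) (node 429 (merge (leaf 3 428 428) (leaf 0 429 430)))))))))))))) (node 465 (merge (node 433 (merge (leaf 2 430 434) (node 401 (merge (leaf 5 368 369) (leaf 5 400 497))))) (merge (node 498 (merge (leaf 0 462 497) (node 466 (merge (leaf 0 463 499) (node 430 (merge (leaf 3 429 429) (leaf 3 430 431))))))) (node 434 (merge (leaf 2 430 433) (node 466 (merge (leaf 2 431 435) (node 430 (merge (leaf 3 429 429) (leaf 3 430 431)))))))))))))) (node 465 (merge (node 433 (merge (leaf 6 432 560) (node 401 (merge (leaf 5 368 369) (leaf 5 400 497))))) (merge (node 433 (merge (leaf 6 432 560) (node 462 (merge (leaf 2 430 434) (node 493 (merge (leaf 1 461 494) (node 461 (merge (leaf 2 429 432) (leaf 1 460 492))))))))) (node 466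 (merge (node 499 (merge (leaf 0 463 498) (node 467 (merge (leaf 0 464 500) (node 435 (merge (leaf 2 431 434) (leaf 2 432 436))))))) (merge (node 498 (merge (leaf 0 463 499) (node 462 (merge (leaf 0 462 497) (node 493 (merge (leaf 1 461 494) (node 461 (merge (leaf 1 460 492) (node 429 (merge (leaf 3 428 428) (leaf 3 429 430))))))))))) (merge (node 435 (merge (leaf 2 431 434) (node 467 (merge (leaf 2 432 436) (node 497 (merge (leaf 1 464 468) (node 462 (merge (leaf 0 461 461) (leaf 0 462 498))))))))) (node 435 (merge (leaf 2 431 434) (node 467 (merge (leaf 2 432 436) (node 500 (merge (leaf 0 464 499) (node 468 (merge (leaf 1 464 497) (leaf 0 465 501)))))))))))))))))))) (merge (node 432 (merge (node 527 (merge (leaf 5 431 559) (node 400 (merge (leaf 5 399 495) (node 399 (merge (leaf 7 367 367) (leaf 7 399 431))))))) (merge (node 401 (merge (leaf 6 400 433) (node 400 (merge (leaf 6 368 369) (node 527 (merge (leaf 5 399 495) (leaf 5 431 559))))))) (merge (node 401 (merge (leaf 6 400 433) (node 400 (merge (leaf 6 368 369) (node 399 (merge (leaf 7 367 367) (leaf 7 399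 431))))))) (node 431 (merge (leaf 7 399 399) (node 430 (merge (node 429 (merge (leaf 0 429 465) (node 461 (merge (leaf 1 428 460) (node 433 (merge (leaf 6 400 401) (leaf 1 429 462))))))) (merge (node 429 (merge (leaf 0 429 465) (node 397 (merge (leaf 3 396 396) (node 433 (merge (leaf 3 397 398) (leaf 6 400 401))))))) (merge (node 429 (merge (leaf 0 429 465) (node 463 (merge (leaf 0 428 428) (node 461 (merge (leaf 1 428 460) (node 397 (merge (leaf 3 396 396) (node 527 (merge (leaf 5 431 559) (node 495 (merge (leaf 7 398 398) (node 526 (merge (leaf 5 430 558) (node 494 (merge (leaf 7 397 462) (leaf 4 397 493))))))))))))))))) (node 433 (merge (leaf 6 400 401) (node 462 (merge (leaf 1 429 461) (node 434 (merge (leaf 1 430 463) (node 467 (merge (leaf 0 431 466) (node 435 (merge (leaf 0 432 468) (node 403 (merge (leaf 2 399 402) (leaf 2 400 404))))))))))))))))))))))) (merge (node 432 (merge (node 433 (merge (leaf 6 400 401) (node 560 (merge (leaf 6 432 465) (node 559 (merge (leaf 5 431 527) (leaf 5 463 591))))))) (merge (node 527 (merge (leaf 5 431 559) (node 401 (merge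 (leaf 6 400 433) (node 400 (merge (leaf 6 368 369) (leaf 5 399 495))))))) (merge (node 401 (merge (leaf 6 400 433) (node 400 (merge (leaf 6 368 369) (node 497 (merge (leaf 4 400 529) (node 368 (merge (leaf 4 368 465) (node 367 (merge (leaf 7 335 335) (leaf 7 367 399))))))))))) (merge (node 527 (merge (leaf 5 431 559) (node 400 (merge (leaf 5 399 495) (node 497 (merge (leaf 4 400 529) (node 368 (merge (leaf 4 368 465) (node 369 (merge (leaf 6 336 337) (leaf 6 368 401))))))))))) (node 495 (merge (node 527 (merge (leaf 5 399 400) (leaf 5 431 559))) (merge (node 559 (merge (leaf 5 431 527) (node 560 (merge (leaf 5 463 591) (node 465 (merge (leaf 6 432 433) (node 494 (merge (leaf 2 461 493) (node 466 (merge (leaf 1 462 463) (leaf 2 462 497))))))))))) (node 463 (merge (node 400 (merge (leaf 5 367 368) (node 497 (merge (leaf 4 400 529) (node 498 (merge (leaf 3 462 462) (leaf 3 463 499))))))) (merge (node 465 (merge (node 433 (merge (leaf 6 432 560) (node 462 (merge (leaf 2 430 434) (leaf 2 429 461))))) (node 494 (merge (leaf 2 461 493) (node 466 (merge (leaf 1 462 463)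 (leaf 1 463 467))))))) (node 400 (merge (leaf 5 367 368) (node 497 (merge (leaf 4 400 529) (node 498 (merge (leaf 3 463 499) (node 466 (merge (leaf 2 463 467) (node 494 (merge (leaf 1 462 465) (node 525 (merge (leaf 1 493 526) (node 493 (merge (leaf 2 460 492) (leaf 1 492 524)))))))))))))))))))))))))) (merge (node 432 (merge (node 559 (merge (leaf 5 431 527) (node 431 (merge (leaf 7 399 399) (node 560 (merge (leaf 7 431 463) (leaf 5 463 591))))))) (merge (node 399 (merge (leaf 7 399 431) (node 400 (merge (leaf 7 367 367) (node 497 (merge (leaf 4 400 529) (node 368 (merge (leaf 4 368 465) (node 369 (merge (leaf 6 336 337) (leaf 6 368 401))))))))))) (merge (node 527 (merge (leaf 5 431 559) (node 400 (merge (leaf 5 399 495) (node 497 (merge (leaf 4 400 529) (node 368 (merge (leaf 4 368 465) (node 369 (merge (leaf 6 336 337) (leaf 6 368 401))))))))))) (node 497 (merge (node 400 (merge (leaf 4 400 529) (node 368 (merge (leaf 4 368 465) (node 337 (merge (leaf 6 336 369) (node 336 (merge (leaf 6 304 305) (node 335 (merge (leaf 7 303 303) (leaf 7 335 367))))))))))) (merge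 (node 527 (merge (leaf 5 431 559) (node 498 (merge (leaf 1 495 499) (node 526 (merge (leaf 1 494 495) (leaf 2 493 525))))))) (node 559 (merge (leaf 5 431 527) (node 560 (merge (leaf 5 463 591) (node 463 (merge (leaf 7 431 431) (node 462 (merge (leaf 0 461 461) (node 498 (merge (leaf 0 462 465) (leaf 3 462 495)))))))))))))))))) (merge (node 465 (merge (node 433 (merge (leaf 6 432 560) (node 401 (merge (leaf 5 368 369) (leaf 5 400 497))))) (merge (node 433 (merge (leaf 6 432 560) (node 432 (merge (leaf 6 400 401) (node 527 (merge (leaf 5 431 559) (node 495 (merge (leaf 5 399 400) (node 466 (merge (leaf 1 463 467) (node 494 (merge (leaf 1 462 463) (leaf 2 461 493))))))))))))) (merge (node 495 (merge (node 494 (merge (leaf 2 461 493) (node 466 (merge (leaf 1 462 463) (leaf 1 463 467))))) (merge (node 494 (merge (leaf 2 461 493) (node 497 (merge (leaf 2 462 466) (node 530 (merge (leaf 0 494 529) (node 498 (merge (leaf 0 495 531) (node 526 (merge (leaf 1 493 525) (leaf 1 494 527))))))))))) (merge (node 463 (merge (node 431 (merge (leaf 7 431 560) (node 466 (merge (leaf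 3 430 430) (node 467 (merge (leaf 3 431 432) (leaf 1 463 495))))))) (merge (node 466 (merge (leaf 1 463 467) (node 498 (merge (leaf 0 463 499) (node 497 (merge (leaf 0 462 462) (node 434 (merge (leaf 2 431 435) (node 402 (merge (leaf 5 369 370) (leaf 5 401 529))))))))))) (node 560 (merge (leaf 7 431 431) (node 559 (merge (leaf 5 463 591) (node 527 (merge (leaf 5 431 432) (node 558 (merge (leaf 5 462 590) (node 557 (merge (leaf 2 525 529) (leaf 2 524 556)))))))))))))) (node 497 (merge (node 494 (merge (leaf 2 461 493) (node 530 (merge (leaf 0 494 529) (node 498 (merge (leaf 0 495 531) (node 526 (merge (leaf 1 493 525) (leaf 1 494 527))))))))) (merge (node 494 (merge (leaf 2 461 493) (node 530 (merge (leaf 0 494 529) (node 498 (merge (leaf 0 495 531) (node 462 (merge (leaf 3 461 461) (leaf 0 462 463))))))))) (merge (node 494 (merge (leaf 2 461 493) (node 462 (merge (leaf 3 461 461) (node 498 (merge (leaf 0 462 463) (node 527 (merge (leaf 1 495 499) (leaf 1 494 526))))))))) (merge (node 432 (merge (node 400 (merge (leaf 4 368 368) (leaf 4 400 529))) (node 527 (merge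 (leaf 5 431 559) (node 526 (merge (leaf 1 494 498) (leaf 2 493 525))))))) (node 494 (merge (leaf 2 461 493) (node 529 (merge (leaf 0 494 530) (node 526 (merge (leaf 1 493 525) (node 432 (merge (leaf 4 400 400) (node 527 (merge (leaf 5 431 559) (node 558 (merge (leaf 1 525 557) (node 590 (merge (leaf 6 462 463) (leaf 6 494 622)))))))))))))))))))))))) (node 466 (merge (node 495 (merge (leaf 1 463 467) (node 494 (merge (leaf 2 461 493) (leaf 2 462 497))))) (merge (node 467 (merge (leaf 1 463 495) (node 500 (merge (leaf 0 464 499) (node 468 (merge (leaf 0 465 501) (node 436 (merge (leaf 2 432 435) (leaf 2 433 437))))))))) (merge (node 467 (merge (node 432 (merge (leaf 3 431 431) (node 433 (merge (leaf 6 400 401) (leaf 3 432 468))))) (merge (node 497 (merge (leaf 1 464 468) (node 435 (merge (leaf 2 432 436) (node 463 (merge (leaf 2 431 434) (node 498 (merge (leaf 0 462 462) (leaf 0 463 499))))))))) (node 435 (merge (leaf 2 432 436) (node 463 (merge (leaf 2 431 434) (node 498 (merge (leaf 0 463 499) (node 462 (merge (leaf 0 462 497) (node 493 (merge (leaf 1 461 494) (node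 461 (merge (leaf 1 460 492) (node 429 (merge (leaf 3 428 428) (leaf 3 429 430)))))))))))))))))) (node 527 (merge (node 559 (merge (leaf 5 431 432) (node 591 (merge (leaf 6 463 495) (leaf 6 495 623))))) (merge (node 432 (merge (leaf 5 431 559) (node 401 (merge (leaf 6 400 433) (node 400 (merge (leaf 6 368 369) (node 497 (merge (leaf 4 368 368) (leaf 4 400 529))))))))) (merge (node 463 (merge (node 434 (merge (leaf 2 431 435) (node 462 (merge (leaf 2 430 433) (node 494 (merge (leaf 1 461 493) (leaf 1 462 495))))))) (merge (node 498 (merge (leaf 0 463 499) (node 497 (merge (leaf 0 462 462) (node 434 (merge (leaf 2 431 435) (node 402 (merge (leaf 5 369 370) (leaf 5 401 529))))))))) (merge (node 498 (merge (leaf 0 463 499) (node 462 (merge (leaf 0 462 497) (node 493 (merge (leaf 1 461 494) (node 461 (merge (leaf 1 460 492) (node 429 (merge (leaf 3 428 428) (leaf 3 429 430))))))))))) (node 495 (merge (leaf 1 462 494) (node 431 (merge (leaf 3 430 430) (node 526 (merge (leaf 5 430 558) (node 525 (merge (leaf 2 493 497) (leaf 2 492 524))))))))))))) (node 463 (merge (node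 434 (merge (leaf 2 431 435) (node 462 (merge (leaf 2 430 433) (node 494 (merge (leaf 1 461 493) (leaf 1 462 495))))))) (merge (node 498 (merge (leaf 0 463 499) (node 497 (merge (leaf 0 462 462) (node 434 (merge (leaf 2 431 435) (node 402 (merge (leaf 5 369 370) (leaf 5 401 529))))))))) (merge (node 498 (merge (leaf 0 463 499) (node 462 (merge (leaf 0 462 497) (node 493 (merge (leaf 1 461 494) (node 461 (merge (leaf 1 460 492) (node 429 (merge (leaf 3 428 428) (leaf 3 429 430))))))))))) (node 495 (merge (leaf 1 462 494) (node 434 (merge (leaf 2 431 435) (node 431 (merge (leaf 3 430 430) (node 432 (merge (leaf 5 399 400) (node 433 (merge (leaf 6 400 401) (node 402 (merge (leaf 2 399 403) (node 529 (merge (leaf 6 401 497) (node 530 (merge (leaf 3 495 531) (node 562 (merge (leaf 7 433 498) (leaf 0 527 563))))))))))))))))))))))))))))))))))) (merge (node 463 (merge (node 431 (merge (leaf 7 431 560) (node 399 (merge (leaf 4 367 367) (leaf 4 399 495))))) (merge (node 465 (merge (node 433 (merge (leaf 6 432 560) (node 401 (merge (leaf 5 368 369) (leaf 5 400 497))))) (merge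 (node 494 (merge (node 495 (merge (leaf 1 462 466) (leaf 2 461 493))) (merge (node 462 (merge (leaf 1 461 493) (node 497 (merge (leaf 0 461 461) (leaf 0 462 498))))) (node 466 (merge (leaf 1 462 495) (node 498 (merge (leaf 0 463 499) (node 497 (merge (leaf 0 462 462) (node 434 (merge (leaf 2 431 435) (node 402 (merge (leaf 5 369 370) (leaf 5 401 529)))))))))))))) (node 433 (merge (leaf 6 432 560) (node 462 (merge (leaf 2 430 434) (node 494 (merge (leaf 1 461 493) (node 495 (merge (leaf 1 462 466) (node 430 (merge (leaf 3 429 429) (node 527 (merge (leaf 4 398 398) (leaf 7 430 559)))))))))))))))) (node 462 (merge (node 497 (merge (leaf 0 461 461) (node 498 (merge (leaf 0 462 465) (leaf 3 463 499))))) (merge (node 461 (merge (leaf 0 461 497) (node 492 (merge (leaf 1 460 493) (node 460 (merge (leaf 1 459 491) (node 428 (merge (leaf 3 427 427) (leaf 3 428 429))))))))) (merge (node 465 (merge (node 433 (merge (leaf 2 430 434) (node 401 (merge (leaf 5 368 369) (leaf 5 400 497))))) (merge (node 498 (merge (leaf 0 462 497) (node 466 (merge (leaf 0 463 499) (node 430 (merge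 (leaf 3 429 429) (leaf 3 430 431))))))) (node 434 (merge (leaf 2 430 433) (node 466 (merge (leaf 2 431 435) (node 430 (merge (leaf 3 429 429) (leaf 3 430 431)))))))))) (node 429 (merge (node 428 (merge (leaf 3 428 461) (node 430 (merge (leaf 0 427 427) (leaf 0 428 431))))) (merge (node 430 (merge (leaf 3 429 465) (node 428 (merge (leaf 0 427 427) (leaf 0 428 431))))) (merge (node 461 (merge (leaf 3 428 428) (node 493 (merge (leaf 1 460 492) (node 494 (merge (leaf 1 461 465) (node 526 (merge (leaf 4 397 397) (leaf 7 429 558))))))))) (node 494 (merge (node 493 (merge (leaf 1 461 465) (node 492 (merge (leaf 1 460 461) (leaf 2 459 491))))) (merge (node 430 (merge (leaf 3 429 465) (node 526 (merge (leaf 7 397 397) (node 558 (merge (leaf 6 430 431) (leaf 7 429 461))))))) (merge (node 465 (merge (leaf 1 461 493) (node 434 (merge (leaf 2 430 433) (node 466 (merge (leaf 2 431 435) (node 430 (merge (leaf 3 429 429) (leaf 3 430 431))))))))) (node 397 (merge (node 365 (merge (leaf 4 365 461) (node 430 (merge (leaf 4 333 333) (leaf 7 365 398))))) (merge (node 461 (merge (leaf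 4 365 365) (node 526 (merge (leaf 4 397 493) (leaf 7 429 558))))) (node 526 (merge (leaf 7 397 430) (node 558 (merge (leaf 6 430 431) (node 557 (merge (leaf 5 461 589) (node 527 (merge (leaf 1 525 529) (node 556 (merge (leaf 1 524 525) (leaf 2 523 555))))))))))))))))))))))))))))) (node 463 (merge (node 431 (merge (leaf 7 431 560) (node 399 (merge (leaf 4 367 367) (leaf 7 399 432))))) (merge (node 465 (merge (node 560 (merge (leaf 7 431 431) (leaf 6 432 433))) (merge (node 433 (merge (leaf 6 432 560) (node 462 (merge (leaf 2 430 434) (node 461 (merge (leaf 2 429 432) (leaf 0 461 497))))))) (node 494 (merge (node 493 (merge (leaf 1 461 462) (leaf 2 461 495))) (merge (node 462 (merge (leaf 1 461 493) (node 497 (merge (leaf 0 461 461) (leaf 0 462 498))))) (node 466 (merge (leaf 1 462 495) (node 435 (merge (leaf 2 431 434) (node 467 (merge (leaf 2 432 436) (node 431 (merge (leaf 3 430 430) (leaf 3 431 432))))))))))))))) (merge (node 527 (merge (node 559 (merge (leaf 5 431 432) (node 591 (merge (leaf 5 463 560) (leaf 6 495 623))))) (merge (node 497 (merge (node 432 (merge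 (leaf 5 431 559) (node 400 (merge (leaf 5 399 495) (leaf 4 400 529))))) (node 462 (merge (leaf 0 461 461) (node 498 (merge (leaf 0 462 465) (leaf 1 495 499))))))) (merge (node 465 (merge (node 433 (merge (leaf 6 432 560) (node 462 (merge (leaf 2 430 434) (node 494 (merge (leaf 1 461 493) (node 430 (merge (leaf 3 429 429) (node 526 (merge (leaf 4 430 559) (node 525 (merge (leaf 2 493 497) (leaf 5 429 557))))))))))))) (merge (node 497 (merge (node 462 (merge (leaf 0 461 461) (leaf 0 462 498))) (merge (node 526 (merge (leaf 2 493 525) (node 498 (merge (leaf 1 494 495) (leaf 1 495 499))))) (node 462 (merge (leaf 0 461 461) (node 430 (merge (leaf 3 429 429) (node 559 (merge (leaf 7 430 495) (node 591 (merge (leaf 5 463 560) (leaf 6 495 623)))))))))))) (merge (node 433 (merge (leaf 6 432 560) (node 462 (merge (leaf 2 430 434) (node 494 (merge (leaf 1 461 493) (node 430 (merge (leaf 3 429 429) (node 559 (merge (leaf 7 430 495) (leaf 4 430 526))))))))))) (merge (node 494 (merge (node 495 (merge (leaf 1 462 466) (leaf 2 461 493))) (merge (node 462 (merge (leaf 1 461 493)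 (node 497 (merge (leaf 0 461 461) (leaf 0 462 498))))) (node 466 (merge (leaf 1 462 495) (node 498 (merge (leaf 0 463 499) (node 497 (merge (leaf 0 462 462) (node 434 (merge (leaf 2 431 435) (node 402 (merge (leaf 5 369 370) (leaf 5 401 529)))))))))))))) (node 466 (merge (node 499 (merge (leaf 0 463 498) (node 467 (merge (leaf 0 464 500) (node 435 (merge (leaf 2 431 434) (leaf 2 432 436))))))) (merge (node 467 (merge (leaf 1 463 495) (node 500 (merge (leaf 0 464 499) (node 468 (merge (leaf 1 464 497) (leaf 0 465 501))))))) (merge (node 467 (merge (leaf 1 463 495) (node 468 (merge (leaf 1 464 497) (node 501 (merge (leaf 0 465 500) (node 469 (merge (leaf 0 466 502) (node 434 (merge (leaf 3 433 433) (leaf 2 431 435))))))))))) (node 498 (merge (leaf 0 463 499) (node 495 (merge (leaf 1 462 494) (node 497 (merge (leaf 1 494 526) (node 434 (merge (leaf 2 431 435) (node 402 (merge (leaf 5 369 370) (leaf 5 401 529)))))))))))))))))))) (node 465 (merge (node 433 (merge (leaf 6 432 560) (node 462 (merge (leaf 2 430 434) (node 461 (merge (leaf 2 429 432) (leaf 0 461 497)))))))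 (merge (node 433 (merge (leaf 6 432 560) (node 462 (merge (leaf 2 430 434) (node 493 (merge (leaf 1 461 494) (node 461 (merge (leaf 2 429 432) (leaf 1 460 492))))))))) (merge (node 466 (merge (node 499 (merge (leaf 0 463 498) (node 467 (merge (leaf 0 464 500) (node 435 (merge (leaf 2 431 434) (leaf 2 432 436))))))) (merge (node 467 (merge (leaf 1 463 495) (node 468 (merge (leaf 1 464 497) (node 433 (merge (leaf 3 432 432) (leaf 6 432 560))))))) (merge (node 467 (merge (leaf 1 463 495) (node 500 (merge (leaf 0 464 499) (node 468 (merge (leaf 1 464 497) (leaf 0 465 501))))))) (node 498 (merge (leaf 0 463 499) (node 495 (merge (leaf 1 462 494) (node 497 (merge (leaf 1 494 526) (node 434 (merge (leaf 2 431 435) (node 402 (merge (leaf 5 369 370) (leaf 5 401 529))))))))))))))) (node 497 (merge (node 462 (merge (leaf 0 461 461) (leaf 0 462 498))) (merge (node 498 (merge (leaf 1 495 499) (node 526 (merge (leaf 1 494 495) (leaf 2 494 529))))) (node 462 (merge (leaf 0 461 461) (node 494 (merge (leaf 1 461 493) (node 430 (merge (leaf 3 429 429) (node 398 (merge (leaf 4 398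 495) (node 367 (merge (leaf 6 366 399) (node 366 (merge (leaf 6 334 335) (node 365 (merge (leaf 7 333 333) (leaf 7 365 397)))))))))))))))))))))))))) (hyp 0)))))))))))))) nQ_7 cQ_7 15 (by decide +kernel)
def nQ_8 : ℕ := 0x1000000018000000000000000000000000000000000000000000000000000000000000000000000000000000000000000000000000000000000000000000000000000
def cQ_8 : ℕ := 0x10000000d0000000d4000001ef000003e0000001ff000000fe000001ff000000b80000000800000000000000000000000000000000000000000000000000000000000000000000000000000000000
theorem lQ_8 : S nQ_8 cQ_8 13 := S_of_chk [] trivial (node 497 (merge (node 498 (merge (node 531 (merge (leaf 0 495 530) (node 499 (merge (leaf 0 496 532) (node 467 (merge (leaf 2 463 466) (leaf 2 464 468))))))) (node 463 (merge (leaf 3 462 462) (node 431 (merge (leaf 4 399 399) (node 560 (merge (leaf 4 431 527) (leaf 7 463 592))))))))) (merge (node 498 (merge (node 527 (merge (leaf 1 495 499) (node 526 (merge (leaf 2 493 525) (leaf 2 494 529))))) (merge (node 467 (merge (leaf 2 463 466) (node 499 (merge (leaf 2 464 468) (node 463 (merge (leaf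 3 462 462) (leaf 3 463 464))))))) (node 527 (merge (leaf 1 494 526) (node 466 (merge (leaf 2 463 467) (node 463 (merge (leaf 3 462 462) (node 431 (merge (leaf 4 399 399) (node 432 (merge (leaf 6 399 400) (node 430 (merge (leaf 7 398 398) (node 465 (merge (leaf 0 430 433) (leaf 3 430 464)))))))))))))))))) (merge (node 465 (merge (node 560 (merge (leaf 6 464 592) (node 433 (merge (leaf 5 400 401) (leaf 6 432 464))))) (merge (node 560 (merge (leaf 6 464 592) (node 433 (merge (leaf 5 400 401) (leaf 5 432 529))))) (node 498 (merge (node 531 (merge (leaf 0 495 530) (node 499 (merge (leaf 0 496 532) (node 500 (merge (leaf 3 464 464) (leaf 1 496 529))))))) (merge (node 466 (merge (leaf 2 463 467) (node 499 (merge (leaf 1 495 527) (node 500 (merge (leaf 3 464 464) (leaf 3 465 501))))))) (node 530 (merge (leaf 0 495 531) (node 527 (merge (leaf 1 494 526) (node 466 (merge (leaf 2 463 467) (node 562 (merge (leaf 7 465 594) (node 563 (merge (leaf 0 527 529) (leaf 4 466 595))))))))))))))))) (merge (node 498 (merge (node 467 (merge (leaf 2 463 466) (node 499 (merge (leaf 2 464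 468) (node 463 (merge (leaf 3 462 462) (leaf 3 463 464))))))) (merge (node 531 (merge (leaf 0 495 530) (node 499 (merge (leaf 0 496 532) (node 463 (merge (leaf 3 462 462) (leaf 3 463 464))))))) (merge (node 531 (merge (leaf 0 495 530) (node 499 (merge (leaf 0 496 532) (node 467 (merge (leaf 2 463 466) (leaf 2 464 468))))))) (node 463 (merge (leaf 3 462 462) (node 433 (merge (node 465 (merge (leaf 5 400 401) (node 560 (merge (leaf 5 432 529) (leaf 6 464 592))))) (merge (node 530 (merge (leaf 0 495 531) (node 466 (merge (leaf 2 463 467) (node 401 (merge (leaf 7 401 434) (leaf 4 401 465))))))) (merge (node 530 (merge (leaf 0 495 531) (node 560 (merge (leaf 7 463 592) (node 465 (merge (leaf 5 432 529) (node 562 (merge (leaf 7 433 466) (leaf 7 465 594))))))))) (node 530 (merge (leaf 0 495 531) (node 466 (merge (leaf 2 463 467) (node 434 (merge (leaf 7 401 401) (node 402 (merge (leaf 5 401 529) (node 403 (merge (leaf 6 370 371) (leaf 6 402 435))))))))))))))))))))) (merge (node 560 (merge (node 592 (merge (leaf 7 463 463) (leaf 6 464 465))) (merge (node 592 (merge (leaf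 6 464 465) (node 624 (merge (leaf 7 495 527) (leaf 6 496 529))))) (merge (node 592 (merge (leaf 7 463 463) (node 624 (merge (leaf 7 495 527) (leaf 6 496 529))))) (node 464 (merge (node 463 (merge (leaf 7 431 431) (node 462 (merge (leaf 0 461 461) (node 498 (merge (leaf 0 462 465) (leaf 3 462 495))))))) (merge (node 432 (merge (node 433 (merge (leaf 6 400 401) (leaf 6 432 465))) (merge (node 400 (merge (leaf 4 400 529) (node 368 (merge (leaf 4 368 465) (node 367 (merge (leaf 7 335 335) (leaf 7 367 399))))))) (node 400 (merge (leaf 4 400 529) (node 401 (merge (leaf 6 368 369) (leaf 6 400 433)))))))) (node 431 (merge (leaf 7 431 463) (node 432 (merge (leaf 7 399 399) (node 400 (merge (leaf 4 400 529) (node 401 (merge (leaf 6 368 369) (leaf 6 400 433)))))))))))))))) (node 432 (merge (node 464 (merge (node 400 (merge (leaf 4 400 529) (node 368 (merge (leaf 5 367 463) (leaf 4 368 465))))) (merge (node 400 (merge (leaf 5 399 527) (node 399 (merge (leaf 7 367 367) (leaf 7 399 431))))) (node 431 (merge (leaf 7 399 399) (node 560 (merge (leaf 7 431 463) (node 592 (merge (leaf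 6 464 465) (node 624 (merge (leaf 7 495 527) (leaf 6 496 529)))))))))))) (merge (node 464 (merge (node 400 (merge (leaf 4 400 529) (node 368 (merge (leaf 5 367 463) (leaf 4 368 465))))) (merge (node 401 (merge (leaf 6 400 433) (node 400 (merge (leaf 6 368 369) (leaf 5 399 527))))) (node 433 (merge (leaf 6 400 401) (node 560 (merge (leaf 6 432 465) (node 592 (merge (leaf 7 463 463) (node 624 (merge (leaf 7 495 527) (leaf 6 496 529)))))))))))) (merge (node 464 (merge (node 401 (merge (leaf 6 400 433) (node 400 (merge (leaf 6 368 369) (leaf 5 399 527))))) (merge (node 400 (merge (leaf 5 399 527) (node 399 (merge (leaf 7 367 367) (leaf 7 399 431))))) (node 433 (merge (leaf 6 400 401) (node 431 (merge (leaf 7 399 399) (node 463 (merge (leaf 7 431 560) (node 462 (merge (leaf 1 430 434) (leaf 0 461 461)))))))))))) (merge (node 433 (merge (node 401 (merge (leaf 6 400 464) (leaf 5 400 465))) (merge (node 465 (merge (leaf 5 400 401) (node 560 (merge (leaf 5 432 529) (leaf 6 464 592))))) (merge (node 560 (merge (node 465 (merge (leaf 6 432 464) (leaf 6 464 592))) (merge (node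 465 (merge (leaf 6 432 464) (leaf 5 432 529))) (node 592 (merge (leaf 7 463 463) (node 624 (merge (leaf 7 495 527) (leaf 6 496 529)))))))) (node 464 (merge (leaf 6 400 401) (node 431 (merge (leaf 7 399 399) (node 463 (merge (leaf 7 431 560) (node 462 (merge (leaf 1 430 434) (leaf 0 461 461))))))))))))) (merge (node 464 (merge (node 400 (merge (leaf 4 400 529) (node 399 (merge (leaf 7 367 367) (leaf 7 399 431))))) (merge (node 400 (merge (leaf 4 400 529) (node 401 (merge (leaf 6 368 369) (leaf 6 400 433))))) (node 433 (merge (leaf 6 400 401) (node 465 (merge (leaf 6 432 560) (node 431 (merge (leaf 7 399 399) (node 430 (merge (leaf 0 429 429) (leaf 0 430 466)))))))))))) (merge (node 431 (merge (node 399 (merge (leaf 4 399 463) (leaf 7 399 464))) (merge (node 464 (merge (leaf 7 399 399) (node 400 (merge (leaf 5 399 527) (leaf 4 400 529))))) (merge (node 463 (merge (leaf 4 399 399) (node 527 (merge (leaf 6 399 400) (node 526 (merge (leaf 5 430 558) (node 525 (merge (leaf 2 493 497) (leaf 2 492 524))))))))) (node 433 (merge (node 464 (merge (leaf 6 400 401) (node 400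 (merge (leaf 5 399 527) (leaf 4 400 529))))) (merge (node 401 (merge (leaf 5 400 465) (node 430 (merge (leaf 2 398 402) (node 461 (merge (leaf 1 429 462) (node 429 (merge (leaf 1 428 460) (node 397 (merge (leaf 3 396 396) (leaf 3 397 398))))))))))) (node 400 (merge (node 529 (merge (leaf 4 400 464) (leaf 7 400 465))) (merge (node 527 (merge (leaf 6 399 463) (leaf 5 399 464))) (node 463 (merge (leaf 6 399 527) (node 434 (merge (leaf 1 430 462) (node 467 (merge (leaf 0 431 466) (node 435 (merge (leaf 0 432 468) (node 402 (merge (leaf 2 399 403) (node 529 (merge (leaf 6 401 465) (node 531 (merge (leaf 7 402 499) (leaf 3 495 530))))))))))))))))))))))))) (node 431 (merge (node 463 (merge (leaf 4 399 399) (node 560 (merge (leaf 4 431 527) (leaf 7 463 592))))) (merge (node 463 (merge (leaf 4 399 399) (node 527 (merge (leaf 6 399 400) (node 526 (merge (leaf 5 430 558) (node 525 (merge (leaf 2 493 497) (leaf 2 492 524))))))))) (merge (node 433 (merge (node 465 (merge (leaf 5 400 401) (node 560 (merge (leaf 5 432 529) (leaf 6 464 592))))) (merge (node 401 (merge (leaf 5 400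 465) (node 430 (merge (leaf 2 398 402) (node 429 (merge (leaf 2 397 400) (node 397 (merge (leaf 3 396 396) (leaf 3 397 398))))))))) (merge (node 402 (merge (node 401 (merge (leaf 2 398 430) (node 403 (merge (leaf 1 399 400) (leaf 1 400 404))))) (merge (node 430 (merge (leaf 2 398 401) (node 461 (merge (leaf 1 429 462) (node 429 (merge (leaf 1 428 460) (node 397 (merge (leaf 3 396 396) (leaf 3 397 398))))))))) (node 434 (merge (leaf 2 399 403) (node 463 (merge (leaf 1 430 462) (node 527 (merge (leaf 6 399 400) (leaf 4 431 560)))))))))) (node 463 (merge (node 560 (merge (leaf 4 431 527) (leaf 7 463 592))) (merge (node 462 (merge (leaf 1 430 434) (node 430 (merge (leaf 1 429 461) (node 527 (merge (leaf 7 398 398) (leaf 6 399 400))))))) (node 434 (merge (leaf 1 430 462) (node 467 (merge (leaf 0 431 466) (node 435 (merge (leaf 0 432 468) (node 402 (merge (leaf 2 399 403) (node 529 (merge (leaf 6 401 465) (node 531 (merge (leaf 7 402 499) (leaf 3 495 530)))))))))))))))))))) (node 433 (merge (node 465 (merge (leaf 5 400 401) (node 560 (merge (leaf 5 432 529) (leaf 6 464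 592))))) (merge (node 398 (merge (node 397 (merge (leaf 3 397 430) (node 399 (merge (leaf 0 396 396) (leaf 0 397 400))))) (merge (node 434 (merge (leaf 3 398 399) (node 467 (merge (leaf 0 431 466) (node 435 (merge (leaf 0 432 468) (node 402 (merge (leaf 2 399 403) (node 529 (merge (leaf 6 401 465) (node 531 (merge (leaf 7 402 499) (leaf 3 495 530))))))))))))) (node 430 (merge (leaf 3 397 397) (node 465 (merge (leaf 0 430 466) (node 529 (merge (leaf 7 400 400) (leaf 5 432 560)))))))))) (node 398 (merge (node 397 (merge (leaf 3 397 430) (node 399 (merge (leaf 0 396 396) (leaf 0 397 400))))) (merge (node 434 (merge (leaf 3 398 399) (node 467 (merge (leaf 0 431 466) (node 435 (merge (leaf 0 432 468) (node 403 (merge (leaf 2 399 402) (leaf 2 400 404))))))))) (node 430 (merge (leaf 3 397 397) (node 461 (merge (leaf 1 429 462) (node 429 (merge (leaf 1 428 460) (node 401 (merge (leaf 2 397 400) (leaf 2 398 402)))))))))))))))))))))))))))))))) nQ_8 cQ_8 13 (by decide +kernel)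
def nQ_9 : ℕ := 0x1000000010000000000000000000000000000000000000000000000000000000000000000000000000000000000000000000000000000000000000000000000000000
def cQ_9 : ℕ := 0x2800000038000000fe000000d7000003ef800003ef000001ff800000fe000001ff000000bc0000003c00000000000000000000000000000000000000000000000000000000000000000000000000000000000
theorem lQ_9 : S nQ_9 cQ_9 14 := S_of_chk [(nQ_8, cQ_8, 13)] ⟨lQ_8, trivial⟩ (node 495 (merge (node 494 (merge (node 529 (merge (leaf 0 493 493) (node 530 (merge (leaf 0 494 497) (leaf 3 495 531))))) (merge (node 493 (merge (leaf 0 493 529) (node 464 (merge (leaf 2 461 465) (node 492 (merge (leaf 2 460 463) (node 460 (merge (leaf 3 459 459) (leaf 3 460 461))))))))) (merge (node 497 (merge (node 465 (merge (leaf 2 462 466) (node 560 (merge (leaf 6 464 592) (node 433 (merge (leaf 5 400 401) (leaf 5 432 529))))))) (merge (node 530 (merge (leaf 0 494 529) (node 498 (merge (leaf 0 495 531) (node 462 (merge (leaf 3 461 461) (leaf 3 462 463))))))) (node 466 (merge (leaf 2 462 465) (node 498 (merge (leaf 2 463 467) (node 462 (merge (leaf 3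 461 461) (leaf 3 462 463)))))))))) (node 497 (merge (node 525 (merge (leaf 1 493 526) (node 493 (merge (leaf 1 492 524) (node 461 (merge (leaf 3 460 460) (leaf 3 461 462))))))) (merge (node 466 (merge (leaf 2 462 465) (node 498 (merge (leaf 2 463 467) (node 462 (merge (leaf 3 461 461) (leaf 3 462 463))))))) (node 525 (merge (leaf 1 493 526) (node 493 (merge (leaf 1 492 524) (node 465 (merge (leaf 2 461 464) (leaf 2 462 466)))))))))))))) (merge (node 497 (merge (node 530 (merge (node 529 (merge (leaf 0 494 494) (leaf 3 495 531))) (merge (node 498 (merge (leaf 0 495 531) (node 527 (merge (leaf 1 495 499) (leaf 1 494 526))))) (node 494 (merge (leaf 0 494 529) (node 466 (merge (leaf 2 462 465) (node 498 (merge (leaf 2 463 467) (node 527 (merge (leaf 1 495 499) (leaf 1 494 526)))))))))))) (merge (node 560 (merge (node 592 (merge (leaf 7 463 463) (leaf 6 464 465))) (merge (node 592 (merge (leaf 7 463 463) (node 624 (merge (leaf 7 495 527) (leaf 6 496 529))))) (node 465 (merge (node 433 (merge (leaf 5 400 401) (leaf 5 432 529))) (node 466 (merge (leaf 2 462 494) (node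 467 (merge (leaf 1 463 464) (leaf 1 464 468)))))))))) (merge (node 498 (merge (node 527 (merge (leaf 1 495 499) (leaf 1 494 526))) (merge (node 463 (merge (leaf 3 462 462) (node 431 (merge (leaf 4 399 399) (node 560 (merge (leaf 4 431 527) (leaf 7 463 592))))))) (node 531 (merge (leaf 0 495 530) (node 499 (merge (leaf 0 496 532) (node 463 (merge (leaf 3 462 462) (leaf 3 463 464)))))))))) (node 530 (merge (node 529 (merge (leaf 0 494 494) (leaf 3 495 531))) (merge (node 494 (merge (leaf 0 494 529) (node 466 (merge (leaf 2 462 465) (node 498 (merge (leaf 2 463 467) (node 462 (merge (leaf 3 461 461) (leaf 3 462 463))))))))) (node 498 (merge (leaf 0 495 531) (node 467 (merge (leaf 2 463 466) (node 499 (merge (leaf 2 464 468) (node 463 (merge (leaf 3 462 462) (leaf 3 463 464)))))))))))))))) (merge (node 494 (merge (node 529 (merge (leaf 0 493 493) (node 530 (merge (leaf 3 494 527) (leaf 3 495 531))))) (merge (node 493 (merge (leaf 0 493 529) (node 492 (merge (leaf 0 492 527) (node 524 (merge (leaf 1 491 523) (leaf 1 492 525))))))) (merge (node 461 (merge (node 493 (merge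 (leaf 3 460 460) (node 492 (merge (leaf 0 492 527) (node 524 (merge (leaf 1 491 523) (leaf 1 492 525))))))) (merge (node 462 (merge (leaf 3 461 497) (node 460 (merge (leaf 0 459 459) (leaf 0 460 463))))) (node 497 (merge (leaf 3 461 462) (node 466 (merge (leaf 2 462 465) (node 498 (merge (leaf 2 463 467) (node 531 (merge (leaf 0 495 530) (node 499 (merge (leaf 1 495 527) (leaf 0 496 532)))))))))))))) (node 497 (merge (node 465 (merge (leaf 2 462 466) (node 560 (merge (leaf 6 464 592) (node 433 (merge (leaf 5 400 401) (leaf 5 432 529))))))) (merge (node 530 (merge (leaf 0 494 529) (node 498 (merge (leaf 0 495 531) (node 462 (merge (leaf 3 461 461) (leaf 3 462 463))))))) (node 466 (merge (leaf 2 462 465) (node 498 (merge (leaf 2 463 467) (node 462 (merge (leaf 3 461 461) (leaf 3 462 463)))))))))))))) (merge (node 494 (merge (node 529 (merge (leaf 0 493 493) (node 530 (merge (leaf 0 494 497) (leaf 3 495 531))))) (merge (node 493 (merge (leaf 0 493 529) (node 492 (merge (leaf 0 492 527) (node 524 (merge (leaf 1 491 523) (leaf 1 492 525))))))) (merge (node 493 (merge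 (node 492 (merge (leaf 0 492 527) (node 524 (merge (leaf 1 491 523) (leaf 1 492 525))))) (merge (node 492 (merge (leaf 0 492 527) (node 460 (merge (leaf 3 459 459) (leaf 3 460 461))))) (node 525 (merge (leaf 1 492 524) (node 526 (merge (leaf 1 493 497) (node 461 (merge (leaf 3 460 460) (node 558 (merge (leaf 4 429 429) (leaf 7 461 590)))))))))))) (node 497 (merge (node 465 (merge (leaf 2 462 466) (node 560 (merge (leaf 6 464 592) (node 433 (merge (leaf 5 400 401) (leaf 5 432 529))))))) (merge (node 530 (merge (leaf 0 494 529) (node 498 (merge (leaf 0 495 531) (node 526 (merge (leaf 1 493 525) (leaf 1 494 527))))))) (node 466 (merge (leaf 2 462 465) (node 498 (merge (leaf 2 463 467) (node 531 (merge (leaf 0 495 530) (node 499 (merge (leaf 1 495 527) (leaf 0 496 532)))))))))))))))) (merge (node 560 (merge (node 463 (merge (leaf 7 463 592) (node 431 (merge (leaf 4 399 399) (leaf 7 431 464))))) (merge (node 592 (merge (leaf 7 463 463) (node 497 (merge (leaf 6 464 465) (node 624 (merge (leaf 7 495 527) (leaf 6 496 529))))))) (merge (node 497 (merge (node 592 (merge (leaf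 6 464 465) (node 625 (merge (leaf 4 496 593) (node 624 (merge (leaf 7 495 527) (leaf 4 528 657))))))) (merge (node 465 (merge (leaf 6 464 592) (node 494 (merge (leaf 2 462 466) (node 493 (merge (leaf 2 461 464) (leaf 0 493 529))))))) (node 494 (merge (node 529 (merge (leaf 0 493 493) (leaf 0 494 530))) (merge (node 525 (merge (leaf 1 493 526) (node 493 (merge (leaf 1 492 524) (node 492 (merge (leaf 0 492 527) (node 460 (merge (leaf 3 459 459) (leaf 3 460 461))))))))) (node 530 (merge (leaf 0 494 529) (node 498 (merge (leaf 0 495 531) (node 526 (merge (leaf 1 493 525) (leaf 1 494 527))))))))))))) (node 494 (merge (node 493 (merge (leaf 0 493 529) (node 464 (merge (leaf 2 461 465) (node 463 (merge (leaf 7 431 431) (leaf 2 460 492))))))) (merge (node 493 (merge (node 492 (merge (leaf 0 492 527) (node 524 (merge (leaf 1 491 523) (leaf 1 492 525))))) (merge (node 492 (merge (leaf 0 492 527) (node 460 (merge (leaf 3 459 459) (leaf 3 460 461))))) (node 525 (merge (leaf 1 492 524) (node 526 (merge (leaf 1 493 497) (node 461 (merge (leaf 3 460 460) (node 558 (merge (leaf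 4 429 429) (leaf 7 461 590)))))))))))) (node 463 (merge (node 431 (merge (leaf 4 399 399) (leaf 7 431 464))) (merge (node 431 (merge (leaf 4 399 399) (leaf 4 431 527))) (node 497 (merge (node 462 (merge (leaf 3 462 498) (node 461 (merge (leaf 0 460 460) (leaf 0 461 464))))) (merge (node 530 (merge (leaf 0 494 529) (node 498 (merge (leaf 0 495 531) (node 526 (merge (leaf 1 493 525) (leaf 1 494 527))))))) (node 529 (merge (leaf 0 494 530) (node 526 (merge (leaf 1 493 525) (node 462 (merge (leaf 3 461 461) (node 558 (merge (leaf 6 462 590) (node 557 (merge (leaf 1 525 527) (leaf 5 461 589)))))))))))))))))))))))) (merge (node 497 (merge (node 530 (merge (node 529 (merge (leaf 0 494 494) (leaf 3 495 531))) (merge (node 498 (merge (leaf 0 495 531) (node 527 (merge (leaf 1 495 499) (leaf 1 494 526))))) (node 494 (merge (leaf 0 494 529) (node 466 (merge (leaf 2 462 465) (node 498 (merge (leaf 2 463 467) (node 527 (merge (leaf 1 495 499) (leaf 1 494 526)))))))))))) (merge (node 494 (merge (node 529 (merge (leaf 0 493 493) (node 530 (merge (leaf 0 494 497) (leaf 3 495 531)))))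 (merge (node 525 (merge (leaf 1 493 526) (node 493 (merge (leaf 1 492 524) (node 461 (merge (leaf 3 460 460) (leaf 3 461 462))))))) (node 530 (merge (leaf 0 494 529) (node 498 (merge (leaf 0 495 531) (node 462 (merge (leaf 3 461 461) (leaf 3 462 463)))))))))) (merge (node 494 (merge (node 529 (merge (leaf 0 493 493) (node 530 (merge (leaf 3 494 527) (leaf 3 495 531))))) (node 466 (merge (leaf 2 462 465) (node 498 (merge (leaf 2 463 467) (node 462 (merge (leaf 3 461 461) (leaf 3 462 463))))))))) (merge (node 494 (merge (node 525 (merge (leaf 1 493 526) (node 493 (merge (leaf 1 492 524) (node 461 (merge (leaf 3 460 460) (leaf 3 461 462))))))) (merge (node 466 (merge (leaf 2 462 465) (node 498 (merge (leaf 2 463 467) (node 462 (merge (leaf 3 461 461) (leaf 3 462 463))))))) (node 525 (merge (leaf 1 493 526) (node 493 (merge (leaf 1 492 524) (node 465 (merge (leaf 2 461 464) (leaf 2 462 466)))))))))) (merge (node 494 (merge (node 529 (merge (leaf 0 493 493) (node 530 (merge (leaf 0 494 497) (leaf 3 495 531))))) (merge (node 525 (merge (leaf 1 493 526) (node 493 (merge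 (leaf 1 492 524) (node 461 (merge (leaf 3 460 460) (leaf 3 461 462))))))) (node 529 (merge (leaf 0 494 530) (node 526 (merge (leaf 1 493 525) (node 465 (merge (leaf 2 462 466) (node 462 (merge (leaf 3 461 461) (node 433 (merge (leaf 5 400 401) (node 434 (merge (leaf 6 401 402) (node 463 (merge (leaf 2 430 464) (node 558 (merge (leaf 6 430 431) (leaf 6 462 590)))))))))))))))))))) (node 498 (merge (node 527 (merge (leaf 1 495 499) (node 526 (merge (leaf 2 493 525) (leaf 2 494 529))))) (merge (node 467 (merge (leaf 2 463 466) (node 499 (merge (leaf 2 464 468) (node 463 (merge (leaf 3 462 462) (leaf 3 463 464))))))) (node 527 (merge (leaf 1 494 526) (node 466 (merge (leaf 2 463 467) (node 463 (merge (leaf 3 462 462) (node 431 (merge (leaf 4 399 399) (node 432 (merge (leaf 6 399 400) (node 430 (merge (leaf 7 398 398) (node 465 (merge (leaf 0 430 433) (leaf 3 430 464)))))))))))))))))))))))) (merge (node 463 (merge (node 431 (merge (leaf 4 399 399) (node 560 (merge (leaf 7 431 464) (leaf 7 463 592))))) (merge (node 431 (merge (leaf 4 399 399) (node 560 (merge (leaf 4 431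 527) (leaf 7 463 592))))) (merge (node 560 (merge (leaf 7 463 592) (node 494 (merge (node 529 (merge (leaf 0 493 493) (node 530 (merge (leaf 3 494 527) (leaf 3 495 531))))) (merge (node 493 (merge (leaf 0 493 529) (node 524 (merge (leaf 1 492 525) (node 492 (merge (leaf 2 460 464) (leaf 1 491 523))))))) (merge (node 493 (merge (node 492 (merge (leaf 2 460 464) (leaf 0 492 527))) (node 525 (merge (leaf 1 492 524) (node 526 (merge (leaf 1 493 497) (node 461 (merge (leaf 3 460 460) (node 558 (merge (leaf 4 429 429) (leaf 7 461 590))))))))))) (node 497 (merge (node 462 (merge (leaf 3 461 461) (leaf 3 462 498))) (merge (node 530 (merge (leaf 0 494 529) (node 498 (merge (leaf 0 495 531) (node 499 (merge (leaf 3 463 464) (leaf 1 495 527))))))) (node 529 (merge (leaf 0 494 530) (node 526 (merge (leaf 1 493 525) (node 462 (merge (leaf 3 461 461) (node 558 (merge (leaf 6 462 590) (node 557 (merge (leaf 1 525 527) (leaf 5 461 589)))))))))))))))))))) (node 431 (merge (leaf 4 399 399) (node 432 (merge (node 400 (merge (leaf 6 399 527) (node 368 (merge (leaf 5 335 336) (leaf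 5 367 464))))) (merge (node 527 (merge (leaf 6 399 400) (node 526 (merge (leaf 5 430 558) (node 525 (merge (leaf 2 493 497) (leaf 2 492 524))))))) (node 462 (merge (node 461 (merge (leaf 0 460 460) (node 497 (merge (leaf 0 461 464) (leaf 3 462 498))))) (merge (node 461 (merge (leaf 0 460 460) (node 433 (merge (leaf 1 429 430) (leaf 1 430 434))))) (merge (node 461 (merge (leaf 0 460 460) (node 433 (merge (leaf 1 429 430) (leaf 1 430 434))))) (node 433 (merge (leaf 1 430 434) (node 401 (merge (leaf 6 400 464) (node 430 (merge (leaf 2 398 402) (node 398 (merge (leaf 4 366 366) (leaf 3 397 397)))))))))))))))))))))) (merge (node 494 (merge (node 529 (merge (leaf 0 493 493) (node 530 (merge (leaf 0 494 497) (leaf 3 495 531))))) (merge (node 493 (merge (leaf 0 493 529) (node 492 (merge (leaf 0 492 527) (node 460 (merge (leaf 3 459 459) (leaf 3 460 461))))))) (merge (node 493 (merge (node 492 (merge (leaf 0 492 527) (node 524 (merge (leaf 1 491 523) (leaf 1 492 525))))) (merge (node 492 (merge (leaf 0 492 527) (node 460 (merge (leaf 3 459 459) (leaf 3 460 461))))) (node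 525 (merge (leaf 1 492 524) (node 497 (merge (leaf 1 493 526) (node 461 (merge (leaf 3 460 460) (leaf 3 461 462)))))))))) (node 463 (merge (node 431 (merge (leaf 4 399 399) (node 560 (merge (leaf 7 431 464) (leaf 7 463 592))))) (merge (node 431 (merge (leaf 4 399 399) (node 560 (merge (leaf 4 431 527) (leaf 7 463 592))))) (merge (node 497 (merge (node 465 (merge (leaf 2 462 466) (node 560 (merge (leaf 6 464 592) (node 433 (merge (leaf 5 400 401) (leaf 6 432 464))))))) (node 529 (merge (leaf 0 494 530) (node 526 (merge (leaf 1 493 525) (node 462 (merge (leaf 3 461 461) (node 558 (merge (leaf 6 462 590) (node 557 (merge (leaf 1 525 527) (leaf 5 461 589))))))))))))) (node 431 (merge (leaf 4 399 399) (node 432 (merge (node 400 (merge (leaf 6 399 527) (node 368 (merge (leaf 5 335 336) (leaf 5 367 464))))) (merge (node 433 (merge (node 401 (merge (leaf 6 400 464) (node 430 (merge (leaf 2 398 402) (node 398 (merge (leaf 3 397 397) (node 366 (merge (leaf 4 334 334) (leaf 4 366 462))))))))) (merge (node 434 (merge (leaf 1 430 462) (node 467 (merge (leaf 0 431 466) (node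 435 (merge (leaf 1 431 464) (leaf 0 432 468))))))) (merge (node 434 (merge (leaf 1 430 462) (node 466 (merge (leaf 0 431 467) (node 430 (merge (leaf 0 430 465) (node 402 (merge (leaf 2 398 401) (leaf 2 399 403))))))))) (merge (node 464 (merge (leaf 6 400 401) (node 434 (merge (leaf 1 431 435) (node 466 (merge (leaf 0 431 467) (node 465 (merge (leaf 0 430 430) (leaf 1 462 494))))))))) (node 462 (merge (leaf 1 430 434) (node 461 (merge (leaf 1 429 430) (leaf 2 429 464)))))))))) (node 527 (merge (leaf 6 399 400) (node 526 (merge (leaf 5 430 558) (node 525 (merge (leaf 2 492 524) (node 430 (merge (leaf 7 398 398) (node 462 (merge (leaf 5 429 557) (node 461 (merge (leaf 1 429 433) (leaf 0 460 460)))))))))))))))))))))))))) (merge (node 560 (merge (node 463 (merge (leaf 7 463 592) (node 431 (merge (leaf 4 399 399) (leaf 7 431 464))))) (merge (node 592 (merge (leaf 7 463 463) (node 625 (merge (leaf 4 496 593) (node 624 (merge (leaf 7 495 527) (leaf 4 528 657))))))) (merge (node 464 (merge (node 433 (merge (leaf 6 432 465) (node 432 (merge (leaf 6 400 401) (node 400 (merge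 (leaf 5 399 527) (node 399 (merge (leaf 7 367 367) (leaf 7 399 431))))))))) (merge (node 432 (merge (node 431 (merge (leaf 7 399 399) (leaf 7 431 463))) (merge (node 400 (merge (leaf 5 399 527) (node 399 (merge (leaf 7 367 367) (leaf 7 399 431))))) (merge (node 400 (merge (leaf 5 399 527) (node 463 (merge (leaf 5 367 368) (leaf 7 431 431))))) (node 400 (merge (leaf 5 399 527) (node 368 (merge (leaf 5 367 463) (node 369 (merge (leaf 6 336 337) (leaf 6 368 401))))))))))) (node 465 (merge (leaf 6 432 433) (node 494 (merge (leaf 2 461 493) (node 466 (merge (leaf 1 462 463) (leaf 1 463 467)))))))))) (node 497 (merge (node 465 (merge (leaf 6 464 592) (node 433 (merge (leaf 5 400 401) (leaf 6 432 464))))) (node 494 (merge (node 525 (merge (leaf 1 493 526) (node 493 (merge (leaf 1 492 524) (node 461 (merge (leaf 3 460 460) (leaf 3 461 462))))))) (merge (node 526 (merge (leaf 1 493 525) (node 498 (merge (leaf 1 494 527) (node 531 (merge (leaf 0 495 530) (node 499 (merge (leaf 0 496 532) (node 467 (merge (leaf 2 463 466) (leaf 2 464 468))))))))))) (merge (node 461 (merge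 (leaf 3 461 462) (node 493 (merge (leaf 3 460 460) (node 527 (merge (leaf 0 492 492) (node 498 (merge (leaf 1 495 499) (leaf 1 494 526))))))))) (node 461 (merge (leaf 3 461 462) (node 493 (merge (leaf 3 460 460) (node 492 (merge (leaf 0 492 527) (node 524 (merge (leaf 1 491 523) (leaf 1 492 525))))))))))))))))))) (merge (node 560 (merge (node 463 (merge (leaf 7 463 592) (node 431 (merge (leaf 4 399 399) (leaf 7 431 464))))) (merge (node 464 (merge (node 433 (merge (leaf 6 432 465) (node 432 (merge (leaf 6 400 401) (node 400 (merge (leaf 5 399 527) (node 399 (merge (leaf 7 367 367) (leaf 7 399 431))))))))) (merge (node 432 (merge (node 431 (merge (leaf 7 399 399) (leaf 7 431 463))) (merge (node 400 (merge (leaf 5 399 527) (node 399 (merge (leaf 7 367 367) (leaf 7 399 431))))) (merge (node 400 (merge (leaf 5 399 527) (node 463 (merge (leaf 5 367 368) (leaf 7 431 431))))) (node 400 (merge (leaf 5 399 527) (node 368 (merge (leaf 5 367 463) (node 369 (merge (leaf 6 336 337) (leaf 6 368 401))))))))))) (node 465 (merge (leaf 6 432 433) (node 494 (merge (leaf 2 461 493)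 (node 466 (merge (leaf 1 462 463) (leaf 1 463 467)))))))))) (node 497 (merge (node 465 (merge (leaf 6 464 592) (node 433 (merge (leaf 5 400 401) (leaf 5 432 529))))) (merge (node 592 (merge (leaf 6 464 465) (node 625 (merge (leaf 4 496 593) (node 624 (merge (leaf 7 495 527) (leaf 4 528 657))))))) (node 494 (merge (node 529 (merge (leaf 0 493 493) (leaf 0 494 530))) (merge (node 525 (merge (leaf 1 493 526) (node 493 (merge (leaf 1 492 524) (node 461 (merge (leaf 3 460 460) (leaf 3 461 462))))))) (node 529 (merge (leaf 0 494 530) (node 526 (merge (leaf 1 493 525) (node 498 (merge (leaf 1 494 527) (node 499 (merge (leaf 1 496 500) (node 467 (merge (leaf 2 463 466) (leaf 2 464 468)))))))))))))))))))) (merge (node 560 (merge (node 463 (merge (leaf 7 463 592) (node 431 (merge (leaf 4 399 399) (leaf 7 431 464))))) (merge (node 464 (merge (node 433 (merge (leaf 6 432 465) (node 432 (merge (leaf 6 400 401) (node 400 (merge (leaf 5 399 527) (node 399 (merge (leaf 7 367 367) (leaf 7 399 431))))))))) (merge (node 432 (merge (node 431 (merge (leaf 7 399 399) (leaf 7 431 463)))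 (merge (node 400 (merge (leaf 5 399 527) (node 399 (merge (leaf 7 367 367) (leaf 7 399 431))))) (merge (node 400 (merge (leaf 5 399 527) (node 463 (merge (leaf 5 367 368) (leaf 7 431 431))))) (node 400 (merge (leaf 5 399 527) (node 368 (merge (leaf 5 367 463) (node 369 (merge (leaf 6 336 337) (leaf 6 368 401))))))))))) (node 465 (merge (leaf 6 432 433) (node 494 (merge (leaf 2 461 493) (node 466 (merge (leaf 1 462 463) (leaf 1 463 467)))))))))) (node 497 (merge (node 465 (merge (leaf 6 464 592) (node 433 (merge (leaf 5 400 401) (leaf 5 432 529))))) (merge (node 592 (merge (leaf 6 464 465) (node 625 (merge (leaf 4 496 593) (node 624 (merge (leaf 7 495 527) (leaf 4 528 657))))))) (node 494 (merge (node 525 (merge (leaf 1 493 526) (node 493 (merge (leaf 1 492 524) (node 461 (merge (leaf 3 460 460) (leaf 3 461 462))))))) (merge (node 526 (merge (leaf 1 493 525) (node 498 (merge (leaf 1 494 527) (node 467 (merge (leaf 2 463 466) (node 499 (merge (leaf 2 464 468) (node 532 (merge (leaf 0 496 531) (node 500 (merge (leaf 1 496 529) (leaf 0 497 533))))))))))))) (merge (node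 461 (merge (leaf 3 461 462) (node 493 (merge (leaf 3 460 460) (node 527 (merge (leaf 0 492 492) (node 498 (merge (leaf 1 495 499) (leaf 1 494 526))))))))) (node 493 (merge (leaf 0 493 529) (node 492 (merge (leaf 0 492 527) (node 524 (merge (leaf 1 491 523) (leaf 1 492 525))))))))))))))))) (merge (node 560 (merge (node 463 (merge (leaf 7 463 592) (node 431 (merge (leaf 4 399 399) (leaf 7 431 464))))) (merge (node 592 (merge (leaf 7 463 463) (node 497 (merge (leaf 6 464 465) (node 624 (merge (leaf 7 495 527) (leaf 6 496 529))))))) (merge (node 464 (merge (node 433 (merge (leaf 6 432 465) (node 432 (merge (leaf 6 400 401) (node 400 (merge (leaf 5 399 527) (node 399 (merge (leaf 7 367 367) (leaf 7 399 431))))))))) (merge (node 432 (merge (node 431 (merge (leaf 7 399 399) (leaf 7 431 463))) (merge (node 400 (merge (leaf 5 399 527) (node 399 (merge (leaf 7 367 367) (leaf 7 399 431))))) (merge (node 400 (merge (leaf 5 399 527) (node 463 (merge (leaf 5 367 368) (leaf 7 431 431))))) (node 400 (merge (leaf 5 399 527) (node 368 (merge (leaf 5 367 463) (node 369 (merge (leaf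 6 336 337) (leaf 6 368 401))))))))))) (node 465 (merge (leaf 6 432 433) (node 494 (merge (leaf 2 461 493) (node 466 (merge (leaf 1 462 463) (leaf 1 463 467)))))))))) (node 497 (merge (node 592 (merge (leaf 6 464 465) (node 625 (merge (leaf 4 496 593) (node 624 (merge (leaf 7 495 527) (leaf 4 528 657))))))) (merge (node 494 (merge (node 529 (merge (leaf 0 493 493) (leaf 0 494 530))) (merge (node 465 (merge (leaf 2 462 466) (node 464 (merge (leaf 6 432 433) (leaf 2 461 493))))) (node 465 (merge (leaf 2 462 466) (node 433 (merge (leaf 5 400 401) (leaf 5 432 529)))))))) (node 498 (merge (node 531 (merge (leaf 0 495 530) (node 499 (merge (leaf 0 496 532) (node 467 (merge (leaf 2 463 466) (leaf 2 464 468))))))) (merge (node 526 (merge (leaf 1 494 527) (node 494 (merge (leaf 1 493 525) (node 529 (merge (leaf 0 493 493) (leaf 0 494 530))))))) (node 499 (merge (leaf 1 495 527) (node 532 (merge (leaf 0 496 531) (node 500 (merge (leaf 1 496 529) (leaf 0 497 533))))))))))))))))) (merge (node 494 (merge (node 529 (merge (leaf 0 493 493) (node 530 (merge (leaf 3 494 527) (leaf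 3 495 531))))) (merge (node 493 (merge (leaf 0 493 529) (node 464 (merge (leaf 2 461 465) (node 492 (merge (leaf 2 460 463) (node 460 (merge (leaf 3 459 459) (leaf 3 460 461))))))))) (merge (node 463 (merge (node 431 (merge (leaf 4 399 399) (node 560 (merge (leaf 7 431 464) (leaf 7 463 592))))) (merge (node 431 (merge (leaf 4 399 399) (node 560 (merge (leaf 4 431 527) (leaf 7 463 592))))) (merge (node 592 (merge (leaf 7 463 560) (node 464 (merge (node 493 (merge (leaf 2 461 465) (leaf 2 460 492))) (merge (node 432 (merge (node 400 (merge (leaf 5 367 368) (leaf 5 399 527))) (node 433 (merge (leaf 6 400 401) (node 462 (merge (leaf 2 429 461) (node 465 (merge (leaf 2 430 434) (leaf 1 462 466))))))))) (node 432 (merge (node 400 (merge (leaf 5 367 368) (leaf 5 399 527))) (node 493 (merge (leaf 2 460 492) (node 461 (merge (leaf 3 460 460) (node 433 (merge (leaf 6 400 401) (leaf 2 429 462)))))))))))))) (node 431 (merge (leaf 4 399 399) (node 432 (merge (node 400 (merge (leaf 6 399 527) (node 368 (merge (leaf 5 335 336) (leaf 5 367 464))))) (merge (node 433 (merge (node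 401 (merge (leaf 6 400 464) (node 430 (merge (leaf 2 398 402) (node 398 (merge (leaf 3 397 397) (node 366 (merge (leaf 4 334 334) (leaf 4 366 462))))))))) (merge (node 434 (merge (leaf 1 430 462) (node 467 (merge (leaf 0 431 466) (node 435 (merge (leaf 1 431 464) (leaf 0 432 468))))))) (merge (node 434 (merge (leaf 1 430 462) (node 466 (merge (leaf 0 431 467) (node 430 (merge (leaf 0 430 465) (node 402 (merge (leaf 2 398 401) (leaf 2 399 403))))))))) (merge (node 464 (merge (leaf 6 400 401) (node 434 (merge (leaf 1 431 435) (node 466 (merge (leaf 0 431 467) (node 465 (merge (leaf 0 430 430) (leaf 1 462 494))))))))) (node 462 (merge (leaf 1 430 434) (node 461 (merge (leaf 1 429 430) (leaf 2 429 464)))))))))) (node 527 (merge (leaf 6 399 400) (node 526 (merge (leaf 5 430 558) (node 525 (merge (leaf 2 492 524) (node 430 (merge (leaf 7 398 398) (node 462 (merge (leaf 5 429 557) (node 461 (merge (leaf 1 429 433) (leaf 0 460 460)))))))))))))))))))))) (node 464 (merge (node 465 (merge (node 466 (merge (leaf 1 462 463) (leaf 1 463 467))) (merge (node 560 (merge (leaf 6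 432 433) (node 463 (merge (leaf 7 431 431) (leaf 7 463 592))))) (node 466 (merge (leaf 1 463 467) (node 433 (merge (leaf 6 432 560) (node 432 (merge (leaf 6 400 401) (node 431 (merge (leaf 7 399 399) (leaf 0 430 430)))))))))))) (merge (node 432 (merge (node 401 (merge (leaf 6 400 433) (node 400 (merge (leaf 6 368 369) (leaf 5 399 527))))) (merge (node 400 (merge (leaf 5 399 527) (node 399 (merge (leaf 7 367 367) (leaf 7 399 431))))) (node 433 (merge (leaf 6 400 401) (node 431 (merge (leaf 7 399 399) (node 463 (merge (leaf 7 431 560) (node 462 (merge (leaf 1 430 434) (leaf 2 429 461)))))))))))) (merge (node 432 (merge (node 401 (merge (leaf 6 400 433) (node 400 (merge (leaf 6 368 369) (leaf 5 399 527))))) (merge (node 400 (merge (leaf 5 399 527) (node 399 (merge (leaf 7 367 367) (leaf 7 399 431))))) (node 433 (merge (leaf 6 400 401) (node 465 (merge (leaf 6 432 560) (node 466 (merge (leaf 1 463 467) (node 431 (merge (leaf 7 399 399) (leaf 0 430 430)))))))))))) (merge (node 432 (merge (node 401 (merge (leaf 6 400 433) (node 400 (merge (leaf 6 368 369) (leaf 5 399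 527))))) (merge (node 400 (merge (leaf 5 399 527) (node 399 (merge (leaf 7 367 367) (leaf 7 399 431))))) (merge (node 399 (merge (leaf 7 399 431) (node 400 (merge (leaf 7 367 367) (node 369 (merge (leaf 6 368 401) (node 368 (merge (leaf 6 336 337) (leaf 5 367 463))))))))) (node 465 (merge (node 466 (merge (leaf 1 462 463) (leaf 1 463 467))) (merge (node 466 (merge (leaf 1 463 467) (node 431 (merge (leaf 7 399 399) (node 430 (merge (leaf 0 429 429) (leaf 0 430 433))))))) (node 433 (merge (leaf 6 400 401) (node 431 (merge (leaf 7 399 399) (node 430 (merge (leaf 0 429 429) (node 398 (merge (leaf 3 397 397) (node 463 (merge (leaf 7 398 527) (node 366 (merge (leaf 4 334 334) (leaf 4 366 462)))))))))))))))))))) (merge (node 463 (merge (node 560 (merge (leaf 7 431 431) (leaf 7 463 592))) (merge (node 465 (merge (leaf 1 462 466) (node 560 (merge (leaf 6 432 433) (leaf 7 463 592))))) (node 432 (merge (node 400 (merge (leaf 5 367 368) (leaf 5 399 527))) (merge (node 399 (merge (leaf 4 399 431) (node 400 (merge (leaf 7 367 367) (leaf 5 367 368))))) (node 465 (merge (leaf 1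 462 466) (node 431 (merge (leaf 4 399 399) (node 430 (merge (leaf 0 429 429) (node 527 (merge (leaf 7 398 398) (node 526 (merge (leaf 5 430 558) (node 525 (merge (leaf 2 492 524) (node 462 (merge (leaf 5 429 557) (node 433 (merge (leaf 1 430 434) (leaf 1 429 461))))))))))))))))))))))) (merge (node 432 (merge (node 400 (merge (leaf 5 399 527) (node 399 (merge (leaf 7 367 367) (leaf 7 399 431))))) (merge (node 400 (merge (leaf 5 399 527) (node 463 (merge (leaf 5 367 368) (node 560 (merge (leaf 7 431 431) (leaf 7 463 592))))))) (merge (node 400 (merge (leaf 5 399 527) (node 368 (merge (leaf 5 367 463) (node 369 (merge (leaf 6 336 337) (leaf 6 368 401))))))) (merge (node 399 (merge (leaf 7 399 431) (node 400 (merge (leaf 7 367 367) (node 369 (merge (leaf 6 368 401) (node 368 (merge (leaf 6 336 337) (leaf 5 367 463))))))))) (node 431 (merge (leaf 7 399 399) (node 463 (merge (leaf 7 431 560) (node 465 (merge (leaf 1 462 466) (node 430 (merge (leaf 0 429 429) (node 527 (merge (leaf 7 398 398) (node 526 (merge (leaf 5 430 558) (node 525 (merge (leaf 2 492 524) (node 557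 (merge (leaf 5 429 462) (leaf 1 524 556)))))))))))))))))))))) (node 530 (merge (node 529 (merge (leaf 3 494 527) (leaf 3 495 531))) (node 465 (merge (node 466 (merge (leaf 1 462 463) (leaf 1 463 467))) (merge (node 466 (merge (leaf 1 463 467) (node 433 (merge (leaf 6 432 560) (node 401 (merge (leaf 5 368 369) (node 498 (merge (leaf 7 401 434) (leaf 7 433 562))))))))) (node 560 (merge (leaf 6 432 433) (node 592 (merge (leaf 7 463 463) (node 625 (merge (leaf 4 496 593) (node 624 (merge (leaf 4 528 657) (node 623 (merge (leaf 5 495 591) (leaf 5 527 655))))))))))))))))))))))))))) (hyp 0))))))))))))))) nQ_9 cQ_9 14 (by decide +kernel)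
def nQ_10 : ℕ := 0x1000000018000000000000000000000000000000000000000000000000000000000000000000000000000000000000000000000000000000000000000000000000000
def cQ_10 : ℕ := 0x8000000380000003800000030000000dc000003ee000001e0000003fe000000fc000000fc000000f8000000e800000020000000000000000000000000000000000000000000000000000000000000000000000000000
theorem lQ_10 : S nQ_10 cQ_10 14 := S_of_chk [] trivial (node 464 (merge (node 432 (merge (node 401 (merge (leaf 6 400 433) (node 400 (merge (leaf 6 368 369) (leaf 5 399 527))))) (merge (node 400 (merge (leaf 5 399 527) (node 399 (merge (leaf 7 367 367) (leaf 7 399 431))))) (node 433 (merge (leaf 6 400 401) (node 465 (merge (leaf 6 432 560) (node 466 (merge (leaf 1 463 467) (node 431 (merge (leaf 7 399 399) (leaf 0 430 430)))))))))))) (merge (node 432 (merge (node 527 (merge (leaf 5 399 400) (leaf 5 431 559))) (node 433 (merge (leaf 6 400 401) (node 431 (merge (leaf 7 399 399) (node 463 (merge (leaf 7 431 560) (node 462 (merge (leaf 1 430 434) (leaf 2 429 461))))))))))) (merge (node 560 (merge (node 463 (merge (leaf 7 431 431)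 (leaf 7 463 592))) (merge (node 465 (merge (leaf 6 432 433) (node 466 (merge (leaf 1 463 467) (node 463 (merge (leaf 7 431 431) (node 498 (merge (leaf 0 463 499) (node 497 (merge (leaf 0 462 462) (node 434 (merge (leaf 2 431 435) (node 402 (merge (leaf 5 369 370) (leaf 5 401 529))))))))))))))) (node 465 (merge (leaf 6 432 433) (node 592 (merge (leaf 6 464 497) (node 625 (merge (leaf 4 496 593) (node 624 (merge (leaf 4 528 657) (node 655 (merge (leaf 5 527 623) (node 656 (merge (leaf 5 559 687) (node 527 (merge (leaf 7 495 495) (leaf 7 527 559)))))))))))))))))) (merge (node 560 (merge (node 463 (merge (leaf 7 431 431) (leaf 7 463 592))) (merge (node 465 (merge (leaf 6 432 433) (node 592 (merge (leaf 7 463 463) (leaf 6 464 497))))) (node 432 (merge (node 433 (merge (leaf 6 400 401) (leaf 6 432 465))) (merge (node 401 (merge (leaf 6 400 433) (node 400 (merge (leaf 6 368 369) (node 399 (merge (leaf 7 367 367) (leaf 7 399 431))))))) (merge (node 465 (merge (leaf 6 432 433) (node 399 (merge (leaf 7 399 431) (node 400 (merge (leaf 7 367 367) (node 497 (merge (leaf 4 368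 368) (leaf 4 400 529))))))))) (node 399 (merge (leaf 7 399 431) (node 400 (merge (leaf 7 367 367) (node 497 (merge (leaf 4 400 529) (node 368 (merge (leaf 4 368 465) (node 369 (merge (leaf 6 336 337) (leaf 6 368 401)))))))))))))))))) (merge (node 432 (merge (node 527 (merge (leaf 5 399 400) (leaf 5 431 559))) (merge (node 399 (merge (leaf 7 399 431) (node 400 (merge (leaf 7 367 367) (node 369 (merge (leaf 6 368 401) (node 368 (merge (leaf 6 336 337) (leaf 5 367 463))))))))) (node 527 (merge (leaf 5 431 559) (node 431 (merge (leaf 7 399 399) (node 560 (merge (leaf 4 431 463) (node 592 (merge (leaf 7 495 624) (node 497 (merge (leaf 6 464 465) (node 526 (merge (leaf 1 494 498) (leaf 2 493 525)))))))))))))))) (merge (node 432 (merge (node 527 (merge (leaf 5 399 400) (leaf 5 431 559))) (merge (node 401 (merge (leaf 6 400 433) (node 400 (merge (leaf 6 368 369) (node 368 (merge (leaf 5 367 463) (node 367 (merge (leaf 7 335 335) (leaf 7 367 399))))))))) (node 433 (merge (leaf 6 400 401) (node 560 (merge (leaf 6 432 465) (node 592 (merge (leaf 7 463 463) (node 625 (merge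 (leaf 4 496 593) (node 624 (merge (leaf 7 495 527) (leaf 4 528 657)))))))))))))) (node 497 (merge (node 432 (merge (node 400 (merge (leaf 4 400 529) (node 368 (merge (leaf 5 367 463) (leaf 4 368 465))))) (node 527 (merge (leaf 5 431 559) (node 526 (merge (leaf 2 493 525) (node 498 (merge (leaf 1 494 495) (leaf 1 495 499))))))))) (merge (node 432 (merge (node 400 (merge (leaf 4 400 529) (node 399 (merge (leaf 7 367 367) (leaf 7 399 431))))) (merge (node 401 (merge (leaf 6 400 433) (node 400 (merge (leaf 6 368 369) (node 399 (merge (leaf 7 367 367) (leaf 7 399 431))))))) (node 527 (merge (leaf 5 431 559) (node 498 (merge (leaf 1 495 499) (node 526 (merge (leaf 2 493 525) (leaf 2 494 529)))))))))) (merge (node 432 (merge (node 527 (merge (leaf 5 399 400) (leaf 5 431 559))) (merge (node 400 (merge (leaf 4 400 529) (node 368 (merge (leaf 5 367 463) (leaf 4 368 465))))) (node 527 (merge (leaf 5 431 559) (node 526 (merge (leaf 2 493 525) (node 433 (merge (leaf 6 400 401) (node 431 (merge (leaf 7 399 399) (node 463 (merge (leaf 5 430 558) (node 434 (merge (leaf 1 430 462)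 (node 466 (merge (leaf 0 431 467) (node 430 (merge (leaf 7 398 398) (leaf 0 430 465)))))))))))))))))))) (merge (node 498 (merge (node 527 (merge (leaf 1 495 499) (leaf 1 494 526))) (merge (node 531 (merge (leaf 0 495 530) (node 499 (merge (leaf 0 496 532) (node 467 (merge (leaf 2 463 466) (leaf 2 464 468))))))) (node 530 (merge (leaf 0 495 531) (node 527 (merge (leaf 1 494 526) (node 466 (merge (leaf 2 463 467) (node 463 (merge (leaf 3 462 462) (node 431 (merge (leaf 4 399 399) (node 432 (merge (leaf 6 399 400) (node 430 (merge (leaf 7 398 398) (node 433 (merge (leaf 0 430 465) (node 401 (merge (leaf 2 398 402) (leaf 7 401 434)))))))))))))))))))))) (merge (node 498 (merge (node 527 (merge (leaf 1 495 499) (node 526 (merge (leaf 2 493 525) (leaf 2 494 529))))) (merge (node 531 (merge (leaf 0 495 530) (node 499 (merge (leaf 0 496 532) (node 463 (merge (leaf 3 462 462) (leaf 3 463 464))))))) (node 530 (merge (leaf 0 495 531) (node 527 (merge (leaf 1 494 526) (node 466 (merge (leaf 2 463 467) (node 463 (merge (leaf 3 462 462) (node 431 (merge (leaf 4 399 399) (node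 430 (merge (leaf 7 398 398) (node 465 (merge (leaf 3 430 464) (node 433 (merge (leaf 4 401 401) (leaf 7 433 562)))))))))))))))))))) (node 498 (merge (node 463 (merge (leaf 3 463 499) (node 462 (merge (leaf 0 461 461) (leaf 0 462 465))))) (merge (node 499 (merge (leaf 3 463 463) (node 532 (merge (leaf 0 496 531) (node 500 (merge (leaf 1 496 529) (leaf 0 497 533))))))) (merge (node 432 (merge (node 401 (merge (leaf 6 400 433) (node 400 (merge (leaf 6 368 369) (node 399 (merge (leaf 7 367 367) (leaf 7 399 431))))))) (merge (node 400 (merge (leaf 4 400 529) (node 399 (merge (leaf 7 367 367) (leaf 7 399 431))))) (merge (node 400 (merge (leaf 4 400 529) (node 401 (merge (leaf 6 368 369) (leaf 6 400 433))))) (node 463 (merge (node 462 (merge (leaf 0 461 461) (leaf 0 462 465))) (merge (node 433 (merge (leaf 6 400 401) (node 434 (merge (leaf 1 431 435) (node 431 (merge (leaf 7 399 399) (node 402 (merge (leaf 2 399 403) (node 529 (merge (leaf 6 401 465) (leaf 5 401 466))))))))))) (node 462 (merge (leaf 0 461 461) (node 433 (merge (leaf 6 400 401) (node 431 (merge (leaf 7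 399 399) (leaf 1 430 434)))))))))))))) (node 467 (merge (node 468 (merge (leaf 2 464 499) (node 466 (merge (leaf 1 464 465) (leaf 1 465 469))))) (merge (node 499 (merge (leaf 2 464 468) (node 532 (merge (leaf 0 496 531) (node 500 (merge (leaf 1 496 529) (leaf 0 497 533))))))) (merge (node 432 (merge (node 433 (merge (leaf 6 400 401) (node 431 (merge (leaf 7 399 399) (node 466 (merge (leaf 0 431 434) (leaf 3 431 465))))))) (merge (node 401 (merge (leaf 6 400 433) (node 400 (merge (leaf 6 368 369) (node 399 (merge (leaf 7 367 367) (leaf 7 399 431))))))) (merge (node 400 (merge (leaf 4 400 529) (node 401 (merge (leaf 6 368 369) (leaf 6 400 433))))) (merge (node 431 (merge (leaf 7 399 399) (node 466 (merge (leaf 3 431 465) (node 434 (merge (leaf 0 431 433) (node 402 (merge (leaf 5 401 529) (node 371 (merge (leaf 6 370 403) (node 370 (merge (leaf 6 338 339) (node 338 (merge (leaf 4 338 435) (node 337 (merge (leaf 7 305 305) (leaf 7 337 369))))))))))))))))) (node 400 (merge (leaf 4 400 529) (node 401 (merge (leaf 6 368 369) (node 431 (merge (leaf 7 399 399) (node 403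 (merge (leaf 1 399 402) (node 466 (merge (leaf 3 431 465) (node 435 (merge (leaf 5 370 371) (node 530 (merge (leaf 6 402 434) (leaf 6 434 562)))))))))))))))))))) (node 432 (merge (node 433 (merge (leaf 6 400 401) (node 431 (merge (leaf 7 399 399) (node 466 (merge (leaf 0 431 434) (leaf 3 431 465))))))) (merge (node 401 (merge (leaf 6 400 433) (node 400 (merge (leaf 6 368 369) (node 399 (merge (leaf 7 367 367) (leaf 7 399 431))))))) (merge (node 400 (merge (leaf 4 400 529) (node 401 (merge (leaf 6 368 369) (leaf 6 400 433))))) (merge (node 400 (merge (leaf 4 400 529) (node 401 (merge (leaf 6 368 369) (node 431 (merge (leaf 7 399 399) (node 403 (merge (leaf 1 399 402) (node 466 (merge (leaf 3 431 465) (node 435 (merge (leaf 5 370 371) (node 530 (merge (leaf 6 402 434) (leaf 5 402 499))))))))))))))) (node 529 (merge (leaf 4 400 400) (node 499 (merge (leaf 1 496 500) (node 531 (merge (leaf 0 496 532) (node 431 (merge (leaf 7 399 399) (node 466 (merge (leaf 3 431 465) (node 434 (merge (leaf 0 431 433) (leaf 7 434 563))))))))))))))))))))))))))))))))))))))) nQ_10 cQ_10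 14 (by decide +kernel)
def nQ_11 : ℕ := 0x1000000010000000000000000000000000000000000000000000000000000000000000000000000000000000000000000000000000000000000000000000000000000
def cQ_11 : ℕ := 0x8000000380000003e00000036000000df000003ef800001ef800003ff800000ff000000fe000000fe000000fc00000020000000000000000000000000000000000000000000000000000000000000000000000000000
theorem lQ_11 : S nQ_11 cQ_11 15 := S_of_chk [(nQ_10, cQ_10, 14)] ⟨lQ_10, trivial⟩ (node 495 (merge (node 494 (merge (node 529 (merge (leaf 0 493 493) (node 530 (merge (leaf 0 494 497) (leaf 3 495 531))))) (merge (node 493 (merge (leaf 0 493 529) (node 464 (merge (leaf 2 461 465) (node 492 (merge (leaf 2 460 463) (node 460 (merge (leaf 3 459 459) (leaf 3 460 461))))))))) (merge (node 497 (merge (node 465 (merge (leaf 2 462 466) (node 560 (merge (leaf 6 464 592) (node 433 (merge (leaf 5 400 401) (leaf 5 432 529))))))) (merge (node 530 (merge (leaf 0 494 529) (node 498 (merge (leaf 0 495 531) (node 462 (merge (leaf 3 461 461) (leaf 3 462 463))))))) (node 466 (merge (leaf 2 462 465) (node 498 (merge (leaf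 2 463 467) (node 462 (merge (leaf 3 461 461) (leaf 3 462 463)))))))))) (node 497 (merge (node 525 (merge (leaf 1 493 526) (node 493 (merge (leaf 1 492 524) (node 461 (merge (leaf 3 460 460) (leaf 3 461 462))))))) (merge (node 466 (merge (leaf 2 462 465) (node 498 (merge (leaf 2 463 467) (node 462 (merge (leaf 3 461 461) (leaf 3 462 463))))))) (node 525 (merge (leaf 1 493 526) (node 493 (merge (leaf 1 492 524) (node 465 (merge (leaf 2 461 464) (leaf 2 462 466)))))))))))))) (merge (node 497 (merge (node 530 (merge (node 529 (merge (leaf 0 494 494) (leaf 3 495 531))) (merge (node 498 (merge (leaf 0 495 531) (node 527 (merge (leaf 1 495 499) (leaf 1 494 526))))) (node 494 (merge (leaf 0 494 529) (node 466 (merge (leaf 2 462 465) (node 498 (merge (leaf 2 463 467) (node 527 (merge (leaf 1 495 499) (leaf 1 494 526)))))))))))) (merge (node 560 (merge (node 592 (merge (leaf 7 463 463) (leaf 6 464 465))) (merge (node 592 (merge (leaf 7 463 463) (node 624 (merge (leaf 7 495 527) (leaf 6 496 529))))) (node 465 (merge (node 433 (merge (leaf 5 400 401) (leaf 5 432 529))) (node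 466 (merge (leaf 2 462 494) (node 467 (merge (leaf 1 463 464) (leaf 1 464 468)))))))))) (merge (node 498 (merge (node 527 (merge (leaf 1 495 499) (leaf 1 494 526))) (merge (node 463 (merge (leaf 3 462 462) (node 431 (merge (leaf 4 399 399) (node 560 (merge (leaf 4 431 527) (leaf 7 463 592))))))) (node 531 (merge (leaf 0 495 530) (node 499 (merge (leaf 0 496 532) (node 463 (merge (leaf 3 462 462) (leaf 3 463 464)))))))))) (node 530 (merge (node 529 (merge (leaf 0 494 494) (leaf 3 495 531))) (merge (node 494 (merge (leaf 0 494 529) (node 466 (merge (leaf 2 462 465) (node 498 (merge (leaf 2 463 467) (node 462 (merge (leaf 3 461 461) (leaf 3 462 463))))))))) (node 498 (merge (leaf 0 495 531) (node 467 (merge (leaf 2 463 466) (node 499 (merge (leaf 2 464 468) (node 463 (merge (leaf 3 462 462) (leaf 3 463 464)))))))))))))))) (merge (node 494 (merge (node 529 (merge (leaf 0 493 493) (node 530 (merge (leaf 3 494 527) (leaf 3 495 531))))) (merge (node 493 (merge (leaf 0 493 529) (node 492 (merge (leaf 0 492 527) (node 524 (merge (leaf 1 491 523) (leaf 1 492 525))))))) (merge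 (node 461 (merge (node 493 (merge (leaf 3 460 460) (node 492 (merge (leaf 0 492 527) (node 524 (merge (leaf 1 491 523) (leaf 1 492 525))))))) (merge (node 462 (merge (leaf 3 461 497) (node 460 (merge (leaf 0 459 459) (leaf 0 460 463))))) (node 497 (merge (leaf 3 461 462) (node 466 (merge (leaf 2 462 465) (node 498 (merge (leaf 2 463 467) (node 531 (merge (leaf 0 495 530) (node 499 (merge (leaf 1 495 527) (leaf 0 496 532)))))))))))))) (node 497 (merge (node 465 (merge (leaf 2 462 466) (node 560 (merge (leaf 6 464 592) (node 433 (merge (leaf 5 400 401) (leaf 5 432 529))))))) (merge (node 530 (merge (leaf 0 494 529) (node 498 (merge (leaf 0 495 531) (node 462 (merge (leaf 3 461 461) (leaf 3 462 463))))))) (node 466 (merge (leaf 2 462 465) (node 498 (merge (leaf 2 463 467) (node 462 (merge (leaf 3 461 461) (leaf 3 462 463)))))))))))))) (merge (node 494 (merge (node 529 (merge (leaf 0 493 493) (node 530 (merge (leaf 0 494 497) (leaf 3 495 531))))) (merge (node 493 (merge (leaf 0 493 529) (node 492 (merge (leaf 0 492 527) (node 524 (merge (leaf 1 491 523) (leaf 1 492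 525))))))) (merge (node 493 (merge (node 492 (merge (leaf 0 492 527) (node 524 (merge (leaf 1 491 523) (leaf 1 492 525))))) (merge (node 492 (merge (leaf 0 492 527) (node 460 (merge (leaf 3 459 459) (leaf 3 460 461))))) (node 525 (merge (leaf 1 492 524) (node 526 (merge (leaf 1 493 497) (node 461 (merge (leaf 3 460 460) (node 558 (merge (leaf 4 429 429) (leaf 7 461 590)))))))))))) (node 497 (merge (node 465 (merge (leaf 2 462 466) (node 560 (merge (leaf 6 464 592) (node 433 (merge (leaf 5 400 401) (leaf 5 432 529))))))) (merge (node 530 (merge (leaf 0 494 529) (node 498 (merge (leaf 0 495 531) (node 526 (merge (leaf 1 493 525) (leaf 1 494 527))))))) (node 466 (merge (leaf 2 462 465) (node 498 (merge (leaf 2 463 467) (node 531 (merge (leaf 0 495 530) (node 499 (merge (leaf 1 495 527) (leaf 0 496 532)))))))))))))))) (merge (node 560 (merge (node 463 (merge (leaf 7 463 592) (node 431 (merge (leaf 4 399 399) (leaf 7 431 464))))) (merge (node 592 (merge (leaf 7 463 463) (node 497 (merge (leaf 6 464 465) (node 624 (merge (leaf 7 495 527) (leaf 6 496 529))))))) (merge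 (node 497 (merge (node 592 (merge (leaf 6 464 465) (node 625 (merge (leaf 4 496 593) (node 624 (merge (leaf 7 495 527) (leaf 4 528 657))))))) (merge (node 465 (merge (leaf 6 464 592) (node 494 (merge (leaf 2 462 466) (node 493 (merge (leaf 2 461 464) (leaf 0 493 529))))))) (node 494 (merge (node 529 (merge (leaf 0 493 493) (leaf 0 494 530))) (merge (node 525 (merge (leaf 1 493 526) (node 493 (merge (leaf 1 492 524) (node 492 (merge (leaf 0 492 527) (node 460 (merge (leaf 3 459 459) (leaf 3 460 461))))))))) (node 530 (merge (leaf 0 494 529) (node 498 (merge (leaf 0 495 531) (node 526 (merge (leaf 1 493 525) (leaf 1 494 527))))))))))))) (node 494 (merge (node 493 (merge (leaf 0 493 529) (node 464 (merge (leaf 2 461 465) (node 463 (merge (leaf 7 431 431) (leaf 2 460 492))))))) (merge (node 493 (merge (node 492 (merge (leaf 0 492 527) (node 524 (merge (leaf 1 491 523) (leaf 1 492 525))))) (merge (node 492 (merge (leaf 0 492 527) (node 460 (merge (leaf 3 459 459) (leaf 3 460 461))))) (node 525 (merge (leaf 1 492 524) (node 526 (merge (leaf 1 493 497) (node 461 (merge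 (leaf 3 460 460) (node 558 (merge (leaf 4 429 429) (leaf 7 461 590)))))))))))) (node 463 (merge (node 431 (merge (leaf 4 399 399) (leaf 7 431 464))) (merge (node 431 (merge (leaf 4 399 399) (leaf 4 431 527))) (node 497 (merge (node 462 (merge (leaf 3 462 498) (node 461 (merge (leaf 0 460 460) (leaf 0 461 464))))) (merge (node 530 (merge (leaf 0 494 529) (node 498 (merge (leaf 0 495 531) (node 526 (merge (leaf 1 493 525) (leaf 1 494 527))))))) (node 529 (merge (leaf 0 494 530) (node 526 (merge (leaf 1 493 525) (node 462 (merge (leaf 3 461 461) (node 558 (merge (leaf 6 462 590) (node 557 (merge (leaf 1 525 527) (leaf 5 461 589)))))))))))))))))))))))) (merge (node 497 (merge (node 530 (merge (node 529 (merge (leaf 0 494 494) (leaf 3 495 531))) (merge (node 498 (merge (leaf 0 495 531) (node 527 (merge (leaf 1 495 499) (leaf 1 494 526))))) (node 494 (merge (leaf 0 494 529) (node 466 (merge (leaf 2 462 465) (node 498 (merge (leaf 2 463 467) (node 527 (merge (leaf 1 495 499) (leaf 1 494 526)))))))))))) (merge (node 494 (merge (node 529 (merge (leaf 0 493 493) (node 530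 (merge (leaf 0 494 497) (leaf 3 495 531))))) (merge (node 525 (merge (leaf 1 493 526) (node 493 (merge (leaf 1 492 524) (node 461 (merge (leaf 3 460 460) (leaf 3 461 462))))))) (node 530 (merge (leaf 0 494 529) (node 498 (merge (leaf 0 495 531) (node 462 (merge (leaf 3 461 461) (leaf 3 462 463)))))))))) (merge (node 494 (merge (node 529 (merge (leaf 0 493 493) (node 530 (merge (leaf 3 494 527) (leaf 3 495 531))))) (node 466 (merge (leaf 2 462 465) (node 498 (merge (leaf 2 463 467) (node 462 (merge (leaf 3 461 461) (leaf 3 462 463))))))))) (merge (node 494 (merge (node 525 (merge (leaf 1 493 526) (node 493 (merge (leaf 1 492 524) (node 461 (merge (leaf 3 460 460) (leaf 3 461 462))))))) (merge (node 466 (merge (leaf 2 462 465) (node 498 (merge (leaf 2 463 467) (node 462 (merge (leaf 3 461 461) (leaf 3 462 463))))))) (node 525 (merge (leaf 1 493 526) (node 493 (merge (leaf 1 492 524) (node 465 (merge (leaf 2 461 464) (leaf 2 462 466)))))))))) (merge (node 494 (merge (node 529 (merge (leaf 0 493 493) (node 530 (merge (leaf 0 494 497) (leaf 3 495 531))))) (merge (node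 525 (merge (leaf 1 493 526) (node 493 (merge (leaf 1 492 524) (node 461 (merge (leaf 3 460 460) (leaf 3 461 462))))))) (node 529 (merge (leaf 0 494 530) (node 526 (merge (leaf 1 493 525) (node 465 (merge (leaf 2 462 466) (node 462 (merge (leaf 3 461 461) (node 433 (merge (leaf 5 400 401) (node 434 (merge (leaf 6 401 402) (node 463 (merge (leaf 2 430 464) (node 558 (merge (leaf 6 430 431) (leaf 6 462 590)))))))))))))))))))) (node 498 (merge (node 527 (merge (leaf 1 495 499) (node 526 (merge (leaf 2 493 525) (leaf 2 494 529))))) (merge (node 467 (merge (leaf 2 463 466) (node 499 (merge (leaf 2 464 468) (node 463 (merge (leaf 3 462 462) (leaf 3 463 464))))))) (node 527 (merge (leaf 1 494 526) (node 466 (merge (leaf 2 463 467) (node 463 (merge (leaf 3 462 462) (node 431 (merge (leaf 4 399 399) (node 432 (merge (leaf 6 399 400) (node 430 (merge (leaf 7 398 398) (node 465 (merge (leaf 0 430 433) (leaf 3 430 464)))))))))))))))))))))))) (merge (node 463 (merge (node 431 (merge (leaf 4 399 399) (node 560 (merge (leaf 7 431 464) (leaf 7 463 592))))) (merge (node 431 (merge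 (leaf 4 399 399) (node 560 (merge (leaf 4 431 527) (leaf 7 463 592))))) (merge (node 560 (merge (leaf 7 463 592) (node 494 (merge (node 529 (merge (leaf 0 493 493) (node 530 (merge (leaf 3 494 527) (leaf 3 495 531))))) (merge (node 493 (merge (leaf 0 493 529) (node 524 (merge (leaf 1 492 525) (node 492 (merge (leaf 2 460 464) (leaf 1 491 523))))))) (merge (node 493 (merge (node 492 (merge (leaf 2 460 464) (leaf 0 492 527))) (node 525 (merge (leaf 1 492 524) (node 526 (merge (leaf 1 493 497) (node 461 (merge (leaf 3 460 460) (node 558 (merge (leaf 4 429 429) (leaf 7 461 590))))))))))) (node 497 (merge (node 462 (merge (leaf 3 461 461) (leaf 3 462 498))) (merge (node 530 (merge (leaf 0 494 529) (node 498 (merge (leaf 0 495 531) (node 499 (merge (leaf 3 463 464) (leaf 1 495 527))))))) (node 529 (merge (leaf 0 494 530) (node 526 (merge (leaf 1 493 525) (node 462 (merge (leaf 3 461 461) (node 558 (merge (leaf 6 462 590) (node 557 (merge (leaf 1 525 527) (leaf 5 461 589)))))))))))))))))))) (node 431 (merge (leaf 4 399 399) (node 432 (merge (node 400 (merge (leaf 6 399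 527) (node 368 (merge (leaf 5 335 336) (leaf 5 367 464))))) (merge (node 527 (merge (leaf 6 399 400) (node 526 (merge (leaf 5 430 558) (node 525 (merge (leaf 2 493 497) (leaf 2 492 524))))))) (node 462 (merge (node 461 (merge (leaf 0 460 460) (node 497 (merge (leaf 0 461 464) (leaf 3 462 498))))) (merge (node 461 (merge (leaf 0 460 460) (node 433 (merge (leaf 1 429 430) (leaf 1 430 434))))) (merge (node 461 (merge (leaf 0 460 460) (node 433 (merge (leaf 1 429 430) (leaf 1 430 434))))) (node 433 (merge (leaf 1 430 434) (node 401 (merge (leaf 6 400 464) (node 430 (merge (leaf 2 398 402) (node 398 (merge (leaf 4 366 366) (leaf 3 397 397)))))))))))))))))))))) (merge (node 560 (merge (node 463 (merge (leaf 7 463 592) (node 431 (merge (leaf 4 399 399) (leaf 7 431 464))))) (merge (node 592 (merge (leaf 7 463 463) (node 625 (merge (leaf 4 496 593) (node 624 (merge (leaf 7 495 527) (leaf 4 528 657))))))) (merge (node 464 (merge (node 433 (merge (leaf 6 432 465) (node 432 (merge (leaf 6 400 401) (node 400 (merge (leaf 5 399 527) (node 399 (merge (leaf 7 367 367) (leaf 7 399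 431))))))))) (merge (node 432 (merge (node 431 (merge (leaf 7 399 399) (leaf 7 431 463))) (merge (node 400 (merge (leaf 5 399 527) (node 399 (merge (leaf 7 367 367) (leaf 7 399 431))))) (merge (node 400 (merge (leaf 5 399 527) (node 463 (merge (leaf 5 367 368) (leaf 7 431 431))))) (node 400 (merge (leaf 5 399 527) (node 368 (merge (leaf 5 367 463) (node 369 (merge (leaf 6 336 337) (leaf 6 368 401))))))))))) (node 465 (merge (leaf 6 432 433) (node 494 (merge (leaf 2 461 493) (node 466 (merge (leaf 1 462 463) (leaf 1 463 467)))))))))) (node 497 (merge (node 465 (merge (leaf 6 464 592) (node 433 (merge (leaf 5 400 401) (leaf 6 432 464))))) (node 494 (merge (node 525 (merge (leaf 1 493 526) (node 493 (merge (leaf 1 492 524) (node 461 (merge (leaf 3 460 460) (leaf 3 461 462))))))) (merge (node 526 (merge (leaf 1 493 525) (node 498 (merge (leaf 1 494 527) (node 531 (merge (leaf 0 495 530) (node 499 (merge (leaf 0 496 532) (node 467 (merge (leaf 2 463 466) (leaf 2 464 468))))))))))) (merge (node 461 (merge (leaf 3 461 462) (node 493 (merge (leaf 3 460 460) (node 527 (merge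 (leaf 0 492 492) (node 498 (merge (leaf 1 495 499) (leaf 1 494 526))))))))) (node 461 (merge (leaf 3 461 462) (node 493 (merge (leaf 3 460 460) (node 492 (merge (leaf 0 492 527) (node 524 (merge (leaf 1 491 523) (leaf 1 492 525))))))))))))))))))) (merge (node 560 (merge (node 463 (merge (leaf 7 463 592) (node 431 (merge (leaf 4 399 399) (leaf 7 431 464))))) (merge (node 464 (merge (node 433 (merge (leaf 6 432 465) (node 432 (merge (leaf 6 400 401) (node 400 (merge (leaf 5 399 527) (node 399 (merge (leaf 7 367 367) (leaf 7 399 431))))))))) (merge (node 432 (merge (node 431 (merge (leaf 7 399 399) (leaf 7 431 463))) (merge (node 400 (merge (leaf 5 399 527) (node 399 (merge (leaf 7 367 367) (leaf 7 399 431))))) (merge (node 400 (merge (leaf 5 399 527) (node 463 (merge (leaf 5 367 368) (leaf 7 431 431))))) (node 400 (merge (leaf 5 399 527) (node 368 (merge (leaf 5 367 463) (node 369 (merge (leaf 6 336 337) (leaf 6 368 401))))))))))) (node 465 (merge (leaf 6 432 433) (node 494 (merge (leaf 2 461 493) (node 466 (merge (leaf 1 462 463) (leaf 1 463 467)))))))))) (node 497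 (merge (node 465 (merge (leaf 6 464 592) (node 433 (merge (leaf 5 400 401) (leaf 5 432 529))))) (merge (node 592 (merge (leaf 6 464 465) (node 625 (merge (leaf 4 496 593) (node 624 (merge (leaf 7 495 527) (leaf 4 528 657))))))) (node 494 (merge (node 529 (merge (leaf 0 493 493) (leaf 0 494 530))) (merge (node 525 (merge (leaf 1 493 526) (node 493 (merge (leaf 1 492 524) (node 461 (merge (leaf 3 460 460) (leaf 3 461 462))))))) (node 529 (merge (leaf 0 494 530) (node 526 (merge (leaf 1 493 525) (node 498 (merge (leaf 1 494 527) (node 499 (merge (leaf 1 496 500) (node 467 (merge (leaf 2 463 466) (leaf 2 464 468)))))))))))))))))))) (merge (node 560 (merge (node 463 (merge (leaf 7 463 592) (node 431 (merge (leaf 4 399 399) (leaf 7 431 464))))) (merge (node 464 (merge (node 433 (merge (leaf 6 432 465) (node 432 (merge (leaf 6 400 401) (node 400 (merge (leaf 5 399 527) (node 399 (merge (leaf 7 367 367) (leaf 7 399 431))))))))) (merge (node 432 (merge (node 431 (merge (leaf 7 399 399) (leaf 7 431 463))) (merge (node 400 (merge (leaf 5 399 527) (node 399 (merge (leaf 7 367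 367) (leaf 7 399 431))))) (merge (node 400 (merge (leaf 5 399 527) (node 463 (merge (leaf 5 367 368) (leaf 7 431 431))))) (node 400 (merge (leaf 5 399 527) (node 368 (merge (leaf 5 367 463) (node 369 (merge (leaf 6 336 337) (leaf 6 368 401))))))))))) (node 465 (merge (leaf 6 432 433) (node 494 (merge (leaf 2 461 493) (node 466 (merge (leaf 1 462 463) (leaf 1 463 467)))))))))) (node 497 (merge (node 465 (merge (leaf 6 464 592) (node 433 (merge (leaf 5 400 401) (leaf 5 432 529))))) (merge (node 592 (merge (leaf 6 464 465) (node 625 (merge (leaf 4 496 593) (node 624 (merge (leaf 7 495 527) (leaf 4 528 657))))))) (node 494 (merge (node 525 (merge (leaf 1 493 526) (node 493 (merge (leaf 1 492 524) (node 461 (merge (leaf 3 460 460) (leaf 3 461 462))))))) (merge (node 526 (merge (leaf 1 493 525) (node 498 (merge (leaf 1 494 527) (node 467 (merge (leaf 2 463 466) (node 499 (merge (leaf 2 464 468) (node 532 (merge (leaf 0 496 531) (node 500 (merge (leaf 1 496 529) (leaf 0 497 533))))))))))))) (merge (node 461 (merge (leaf 3 461 462) (node 493 (merge (leaf 3 460 460) (node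 527 (merge (leaf 0 492 492) (node 498 (merge (leaf 1 495 499) (leaf 1 494 526))))))))) (node 493 (merge (leaf 0 493 529) (node 492 (merge (leaf 0 492 527) (node 524 (merge (leaf 1 491 523) (leaf 1 492 525))))))))))))))))) (merge (node 560 (merge (node 463 (merge (leaf 7 463 592) (node 431 (merge (leaf 4 399 399) (leaf 7 431 464))))) (merge (node 592 (merge (leaf 7 463 463) (node 497 (merge (leaf 6 464 465) (node 624 (merge (leaf 7 495 527) (leaf 6 496 529))))))) (merge (node 464 (merge (node 433 (merge (leaf 6 432 465) (node 432 (merge (leaf 6 400 401) (node 400 (merge (leaf 5 399 527) (node 399 (merge (leaf 7 367 367) (leaf 7 399 431))))))))) (merge (node 432 (merge (node 431 (merge (leaf 7 399 399) (leaf 7 431 463))) (merge (node 400 (merge (leaf 5 399 527) (node 399 (merge (leaf 7 367 367) (leaf 7 399 431))))) (merge (node 400 (merge (leaf 5 399 527) (node 463 (merge (leaf 5 367 368) (leaf 7 431 431))))) (node 400 (merge (leaf 5 399 527) (node 368 (merge (leaf 5 367 463) (node 369 (merge (leaf 6 336 337) (leaf 6 368 401))))))))))) (node 465 (merge (leaf 6 432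 433) (node 494 (merge (leaf 2 461 493) (node 466 (merge (leaf 1 462 463) (leaf 1 463 467)))))))))) (node 497 (merge (node 592 (merge (leaf 6 464 465) (node 625 (merge (leaf 4 496 593) (node 624 (merge (leaf 7 495 527) (leaf 4 528 657))))))) (merge (node 494 (merge (node 529 (merge (leaf 0 493 493) (leaf 0 494 530))) (merge (node 465 (merge (leaf 2 462 466) (node 464 (merge (leaf 6 432 433) (leaf 2 461 493))))) (node 465 (merge (leaf 2 462 466) (node 433 (merge (leaf 5 400 401) (leaf 5 432 529)))))))) (node 498 (merge (node 531 (merge (leaf 0 495 530) (node 499 (merge (leaf 0 496 532) (node 467 (merge (leaf 2 463 466) (leaf 2 464 468))))))) (merge (node 526 (merge (leaf 1 494 527) (node 494 (merge (leaf 1 493 525) (node 529 (merge (leaf 0 493 493) (leaf 0 494 530))))))) (node 499 (merge (leaf 1 495 527) (node 532 (merge (leaf 0 496 531) (node 500 (merge (leaf 1 496 529) (leaf 0 497 533))))))))))))))))) (merge (node 463 (merge (node 431 (merge (leaf 4 399 399) (node 560 (merge (leaf 7 431 464) (leaf 7 463 592))))) (merge (node 431 (merge (leaf 4 399 399) (node 560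 (merge (leaf 4 431 527) (leaf 7 463 592))))) (merge (node 431 (merge (leaf 4 399 399) (node 432 (merge (node 400 (merge (leaf 6 399 527) (node 368 (merge (leaf 5 335 336) (leaf 5 367 464))))) (merge (node 433 (merge (node 401 (merge (leaf 6 400 464) (node 430 (merge (leaf 2 398 402) (node 398 (merge (leaf 3 397 397) (node 366 (merge (leaf 4 334 334) (leaf 4 366 462))))))))) (merge (node 434 (merge (leaf 1 430 462) (node 467 (merge (leaf 0 431 466) (node 435 (merge (leaf 1 431 464) (leaf 0 432 468))))))) (merge (node 434 (merge (leaf 1 430 462) (node 466 (merge (leaf 0 431 467) (node 430 (merge (leaf 0 430 465) (node 402 (merge (leaf 2 398 401) (leaf 2 399 403))))))))) (merge (node 464 (merge (leaf 6 400 401) (node 434 (merge (leaf 1 431 435) (node 466 (merge (leaf 0 431 467) (node 465 (merge (leaf 0 430 430) (leaf 1 462 494))))))))) (node 462 (merge (leaf 1 430 434) (node 461 (merge (leaf 1 429 430) (leaf 2 429 464)))))))))) (node 527 (merge (leaf 6 399 400) (node 526 (merge (leaf 5 430 558) (node 525 (merge (leaf 2 492 524) (node 557 (merge (leaf 1 524 556) (node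 493 (merge (leaf 3 492 492) (node 430 (merge (leaf 7 398 398) (node 461 (merge (leaf 6 429 462) (node 460 (merge (leaf 7 428 428) (leaf 1 428 429)))))))))))))))))))))) (node 464 (merge (node 560 (merge (leaf 7 463 592) (node 465 (merge (leaf 6 432 433) (node 466 (merge (leaf 1 463 467) (leaf 1 462 494))))))) (merge (node 432 (merge (node 400 (merge (leaf 5 367 368) (leaf 5 399 527))) (node 433 (merge (leaf 6 400 401) (node 462 (merge (leaf 2 429 461) (node 465 (merge (leaf 2 430 434) (leaf 6 432 560))))))))) (merge (node 462 (merge (node 461 (merge (leaf 0 460 460) (node 493 (merge (leaf 1 460 492) (node 494 (merge (leaf 2 461 465) (leaf 0 493 529))))))) (merge (node 461 (merge (leaf 0 460 460) (node 429 (merge (leaf 3 428 428) (node 465 (merge (leaf 3 429 430) (node 466 (merge (leaf 1 463 467) (leaf 1 462 494))))))))) (merge (node 494 (merge (node 493 (merge (leaf 2 460 492) (leaf 0 493 529))) (node 465 (merge (leaf 1 462 466) (node 430 (merge (leaf 3 429 429) (node 398 (merge (leaf 4 366 366) (leaf 4 398 527))))))))) (merge (node 461 (merge (leaf 0 460 460) (node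 493 (merge (leaf 1 460 492) (node 429 (merge (leaf 3 428 428) (node 430 (merge (leaf 3 429 465) (node 398 (merge (leaf 4 366 366) (leaf 6 397 525))))))))))) (node 461 (merge (leaf 0 460 460) (node 493 (merge (leaf 1 460 492) (node 494 (merge (leaf 0 493 529) (node 429 (merge (leaf 3 428 428) (node 397 (merge (leaf 4 365 365) (leaf 4 397 526)))))))))))))))) (node 527 (merge (node 432 (merge (leaf 5 399 400) (leaf 5 431 559))) (node 560 (merge (leaf 7 463 592) (node 526 (merge (node 525 (merge (leaf 2 492 524) (node 557 (merge (leaf 1 524 556) (node 529 (merge (leaf 1 525 558) (node 530 (merge (leaf 3 494 494) (leaf 3 495 531))))))))) (merge (node 525 (merge (leaf 2 492 524) (node 557 (merge (leaf 1 524 556) (node 493 (merge (leaf 3 492 492) (node 494 (merge (leaf 0 493 529) (node 589 (merge (leaf 6 461 462) (leaf 6 493 621))))))))))) (merge (node 494 (merge (node 493 (merge (leaf 3 493 529) (node 492 (merge (leaf 0 491 491) (leaf 0 492 495))))) (merge (node 529 (merge (leaf 3 494 530) (node 558 (merge (leaf 1 525 557) (node 590 (merge (leaf 6 462 463) (leaf 6 494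 622))))))) (node 493 (merge (leaf 0 492 492) (node 461 (merge (leaf 3 460 460) (node 429 (merge (leaf 4 397 397) (node 558 (merge (leaf 7 429 462) (leaf 7 461 590)))))))))))) (merge (node 558 (merge (node 590 (merge (leaf 6 462 494) (leaf 6 494 622))) (merge (node 525 (merge (leaf 2 492 524) (node 493 (merge (leaf 3 492 492) (node 461 (merge (leaf 4 429 429) (node 460 (merge (leaf 0 460 462) (leaf 3 460 494))))))))) (node 525 (merge (leaf 2 492 524) (node 557 (merge (leaf 1 524 556) (node 493 (merge (leaf 3 492 492) (node 461 (merge (leaf 4 429 429) (leaf 4 461 590)))))))))))) (merge (node 525 (merge (leaf 2 492 524) (node 557 (merge (leaf 1 524 556) (node 558 (merge (leaf 1 525 529) (node 493 (merge (leaf 3 492 492) (node 461 (merge (leaf 4 429 429) (node 460 (merge (leaf 7 428 428) (leaf 0 460 462))))))))))))) (node 525 (merge (leaf 2 492 524) (node 493 (merge (leaf 3 492 492) (node 494 (merge (leaf 0 493 529) (node 461 (merge (leaf 3 460 460) (node 429 (merge (leaf 4 397 397) (leaf 4 429 558))))))))))))))))))))))))))))) (hyp 0)))))))))))))) nQ_11 cQ_11 15 (by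 decide +kernel)
def nQ_12 : ℕ := 0x1000000010000000000000000000000000000000000000000000000000000000000000000000000000000000000000000000000000000000000000000000000000000
def cQ_12 : ℕ := 0x2000000030000000b0000000ff800000df000007ef800003ef000003ff800001ff00000038000000380000000000000000000000000000000000000000000000000000000000000000000000000000000000000000000
theorem lQ_12 : S nQ_12 cQ_12 15 := S_of_chk [] trivial (node 560 (merge (node 463 (merge (node 431 (merge (leaf 7 431 464) (node 495 (merge (leaf 4 399 399) (leaf 4 431 527))))) (merge (node 464 (merge (leaf 7 431 431) (node 465 (merge (leaf 6 432 433) (node 497 (merge (leaf 6 464 592) (node 498 (merge (leaf 0 462 462) (leaf 3 463 499))))))))) (node 592 (merge (leaf 7 463 495) (node 625 (merge (leaf 4 496 593) (node 497 (merge (leaf 6 464 465) (node 624 (merge (leaf 6 496 529) (leaf 4 528 657)))))))))))) (merge (node 465 (merge (node 433 (merge (leaf 6 432 464) (node 497 (merge (leaf 5 400 401) (leaf 5 432 529))))) (merge (node 592 (merge (leaf 6 464 497) (node 625 (merge (leaf 4 496 593) (node 624 (merge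 (leaf 4 528 657) (node 495 (merge (leaf 7 463 463) (leaf 7 495 527))))))))) (node 464 (merge (leaf 6 432 433) (node 463 (merge (leaf 7 431 431) (node 495 (merge (leaf 7 463 592) (node 494 (merge (leaf 1 462 466) (leaf 2 461 493)))))))))))) (merge (node 464 (merge (node 559 (merge (leaf 5 463 591) (node 432 (merge (leaf 5 431 527) (node 431 (merge (leaf 7 399 399) (leaf 7 431 463))))))) (merge (node 433 (merge (leaf 6 432 465) (node 432 (merge (leaf 6 400 401) (node 559 (merge (leaf 5 431 527) (leaf 5 463 591))))))) (node 463 (merge (leaf 7 431 431) (node 465 (merge (leaf 6 432 433) (node 466 (merge (node 499 (merge (leaf 0 463 498) (node 467 (merge (leaf 0 464 500) (node 435 (merge (leaf 2 431 434) (leaf 2 432 436))))))) (merge (node 498 (merge (leaf 0 463 499) (node 462 (merge (leaf 0 462 497) (node 493 (merge (leaf 1 461 494) (node 461 (merge (leaf 1 460 492) (node 429 (merge (leaf 3 428 428) (leaf 3 429 430))))))))))) (merge (node 435 (merge (leaf 2 431 434) (node 467 (merge (leaf 2 432 436) (node 497 (merge (leaf 1 464 468) (node 462 (merge (leaf 0 461 461)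 (leaf 0 462 498))))))))) (node 435 (merge (leaf 2 431 434) (node 467 (merge (leaf 2 432 436) (node 500 (merge (leaf 0 464 499) (node 468 (merge (leaf 1 464 497) (leaf 0 465 501)))))))))))))))))))) (merge (node 495 (merge (node 463 (merge (leaf 7 463 592) (node 431 (merge (leaf 4 399 399) (leaf 4 431 527))))) (merge (node 592 (merge (leaf 7 463 463) (node 625 (merge (leaf 4 496 593) (node 497 (merge (leaf 6 464 465) (node 624 (merge (leaf 6 496 529) (leaf 4 528 657))))))))) (node 494 (merge (node 493 (merge (leaf 0 493 529) (node 492 (merge (leaf 0 492 527) (node 524 (merge (leaf 1 491 523) (leaf 1 492 525))))))) (merge (node 493 (merge (leaf 0 493 529) (node 525 (merge (leaf 1 492 524) (node 497 (merge (leaf 1 493 526) (node 461 (merge (leaf 3 460 460) (leaf 3 461 462))))))))) (merge (node 493 (merge (leaf 0 493 529) (node 527 (merge (leaf 0 492 492) (node 461 (merge (leaf 3 460 460) (node 497 (merge (leaf 3 461 462) (node 498 (merge (leaf 1 495 499) (leaf 1 494 526))))))))))) (merge (node 493 (merge (node 492 (merge (leaf 0 492 527) (node 524 (merge (leaf 1 491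 523) (leaf 1 492 525))))) (merge (node 492 (merge (leaf 0 492 527) (node 460 (merge (leaf 3 459 459) (leaf 3 460 461))))) (node 525 (merge (leaf 1 492 524) (node 526 (merge (leaf 1 493 497) (node 461 (merge (leaf 3 460 460) (node 558 (merge (leaf 4 429 429) (leaf 7 461 590)))))))))))) (node 497 (merge (node 529 (merge (leaf 0 494 530) (node 465 (merge (leaf 5 432 433) (leaf 2 462 466))))) (node 526 (merge (leaf 1 493 525) (node 527 (merge (leaf 1 494 498) (node 462 (merge (leaf 3 461 461) (node 559 (merge (leaf 4 430 430) (leaf 7 462 591))))))))))))))))))) (merge (node 495 (merge (node 463 (merge (leaf 7 463 592) (node 431 (merge (leaf 4 399 399) (leaf 7 431 464))))) (merge (node 592 (merge (leaf 7 463 463) (node 497 (merge (leaf 6 464 465) (node 624 (merge (leaf 7 495 527) (leaf 6 496 529))))))) (merge (node 497 (merge (node 592 (merge (leaf 6 464 465) (node 625 (merge (leaf 4 496 593) (node 624 (merge (leaf 7 495 527) (leaf 4 528 657))))))) (merge (node 465 (merge (leaf 6 464 592) (node 494 (merge (leaf 2 462 466) (node 493 (merge (leaf 2 461 464) (leaf 0 493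 529))))))) (node 494 (merge (node 529 (merge (leaf 0 493 493) (leaf 0 494 530))) (merge (node 525 (merge (leaf 1 493 526) (node 493 (merge (leaf 1 492 524) (node 492 (merge (leaf 0 492 527) (node 460 (merge (leaf 3 459 459) (leaf 3 460 461))))))))) (node 530 (merge (leaf 0 494 529) (node 498 (merge (leaf 0 495 531) (node 526 (merge (leaf 1 493 525) (leaf 1 494 527))))))))))))) (node 494 (merge (node 493 (merge (leaf 0 493 529) (node 464 (merge (leaf 2 461 465) (node 463 (merge (leaf 7 431 431) (leaf 2 460 492))))))) (merge (node 493 (merge (node 492 (merge (leaf 0 492 527) (node 524 (merge (leaf 1 491 523) (leaf 1 492 525))))) (merge (node 492 (merge (leaf 0 492 527) (node 460 (merge (leaf 3 459 459) (leaf 3 460 461))))) (node 525 (merge (leaf 1 492 524) (node 526 (merge (leaf 1 493 497) (node 461 (merge (leaf 3 460 460) (node 558 (merge (leaf 4 429 429) (leaf 7 461 590)))))))))))) (node 463 (merge (node 431 (merge (leaf 4 399 399) (leaf 7 431 464))) (merge (node 431 (merge (leaf 4 399 399) (leaf 4 431 527))) (node 497 (merge (node 462 (merge (leaf 3 462 498) (node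 461 (merge (leaf 0 460 460) (leaf 0 461 464))))) (merge (node 530 (merge (leaf 0 494 529) (node 498 (merge (leaf 0 495 531) (node 526 (merge (leaf 1 493 525) (leaf 1 494 527))))))) (node 529 (merge (leaf 0 494 530) (node 526 (merge (leaf 1 493 525) (node 462 (merge (leaf 3 461 461) (node 558 (merge (leaf 6 462 590) (node 557 (merge (leaf 1 525 527) (leaf 5 461 589)))))))))))))))))))))))) (merge (node 464 (merge (node 559 (merge (leaf 5 463 591) (node 432 (merge (leaf 5 431 527) (node 431 (merge (leaf 7 399 399) (leaf 7 431 463))))))) (merge (node 433 (merge (leaf 6 432 465) (node 432 (merge (leaf 6 400 401) (node 559 (merge (leaf 5 431 527) (leaf 5 463 591))))))) (merge (node 433 (merge (leaf 6 432 465) (node 432 (merge (leaf 6 400 401) (node 431 (merge (leaf 7 399 399) (leaf 7 431 463))))))) (node 463 (merge (leaf 7 431 431) (node 465 (merge (leaf 6 432 433) (node 494 (merge (node 466 (merge (leaf 1 462 495) (node 499 (merge (leaf 0 463 498) (node 467 (merge (leaf 0 464 500) (node 435 (merge (leaf 2 431 434) (leaf 2 432 436))))))))) (node 462 (merge (leaf 1 461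 493) (node 429 (merge (leaf 3 429 430) (node 461 (merge (leaf 3 428 428) (node 559 (merge (leaf 5 463 591) (node 558 (merge (leaf 7 429 526) (node 557 (merge (leaf 2 525 529) (node 588 (merge (leaf 1 556 589) (node 556 (merge (leaf 1 555 587) (node 524 (merge (leaf 3 523 523) (leaf 3 524 525))))))))))))))))))))))))))))) (merge (node 497 (merge (node 465 (merge (leaf 6 464 592) (node 433 (merge (leaf 5 400 401) (leaf 6 432 464))))) (merge (node 592 (merge (leaf 6 464 465) (node 625 (merge (leaf 4 496 593) (node 624 (merge (leaf 6 496 529) (leaf 4 528 657))))))) (merge (node 465 (merge (node 433 (merge (leaf 5 400 401) (leaf 6 432 464))) (node 498 (merge (node 499 (merge (leaf 1 495 527) (node 531 (merge (leaf 0 496 532) (node 495 (merge (leaf 0 495 530) (node 467 (merge (leaf 2 463 466) (leaf 2 464 468))))))))) (merge (node 499 (merge (leaf 1 495 527) (node 532 (merge (leaf 0 496 531) (node 500 (merge (leaf 1 496 529) (leaf 0 497 533))))))) (merge (node 499 (merge (leaf 1 495 527) (node 500 (merge (leaf 1 496 529) (node 533 (merge (leaf 0 497 532) (node 501 (merge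 (leaf 3 465 466) (leaf 0 498 534))))))))) (merge (node 499 (merge (node 468 (merge (leaf 2 464 467) (node 500 (merge (leaf 2 465 469) (leaf 1 496 529))))) (merge (node 532 (merge (leaf 0 496 531) (node 500 (merge (leaf 1 496 529) (leaf 0 497 533))))) (node 531 (merge (leaf 0 496 532) (node 467 (merge (leaf 2 464 468) (node 466 (merge (leaf 2 463 495) (node 563 (merge (leaf 7 434 434) (leaf 7 466 595)))))))))))) (node 495 (merge (node 466 (merge (leaf 2 463 467) (leaf 2 462 494))) (merge (node 530 (merge (leaf 0 495 531) (node 494 (merge (leaf 0 494 529) (node 525 (merge (leaf 1 493 526) (node 493 (merge (leaf 1 492 524) (node 461 (merge (leaf 3 460 460) (leaf 3 461 462))))))))))) (node 530 (merge (leaf 0 495 531) (node 527 (merge (leaf 1 494 526) (node 466 (merge (leaf 2 463 467) (node 562 (merge (leaf 7 465 594) (node 563 (merge (leaf 0 527 529) (leaf 4 466 595))))))))))))))))))))) (node 498 (merge (node 527 (merge (leaf 1 495 499) (node 526 (merge (leaf 1 494 495) (leaf 2 493 525))))) (merge (node 499 (merge (leaf 1 495 527) (node 468 (merge (leaf 2 464 467) (node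 500 (merge (leaf 2 465 469) (leaf 1 496 529))))))) (merge (node 499 (merge (node 468 (merge (leaf 2 464 467) (node 500 (merge (leaf 2 465 469) (leaf 1 496 529))))) (merge (node 532 (merge (leaf 0 496 531) (node 500 (merge (leaf 1 496 529) (leaf 0 497 533))))) (node 531 (merge (leaf 0 496 532) (node 495 (merge (leaf 0 495 530) (node 467 (merge (leaf 2 463 466) (leaf 2 464 468)))))))))) (node 527 (merge (node 526 (merge (leaf 2 493 525) (leaf 2 494 529))) (merge (node 526 (merge (leaf 1 494 495) (leaf 2 493 525))) (node 559 (merge (node 464 (merge (leaf 5 431 432) (leaf 5 463 591))) (node 592 (merge (node 624 (merge (leaf 7 495 495) (leaf 7 527 656))) (merge (node 624 (merge (leaf 6 496 529) (node 656 (merge (leaf 7 527 559) (node 657 (merge (leaf 4 528 625) (leaf 4 560 689))))))) (node 593 (merge (leaf 4 496 625) (node 558 (merge (leaf 0 557 557) (node 530 (merge (leaf 1 526 529) (node 531 (merge (leaf 0 495 495) (node 595 (merge (leaf 3 559 594) (node 563 (merge (leaf 7 498 627) (node 466 (merge (leaf 4 434 434) (leaf 4 466 562))))))))))))))))))))))))))))))) (merge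 (node 559 (merge (node 592 (merge (node 593 (merge (leaf 4 496 625) (node 558 (merge (leaf 0 557 557) (node 594 (merge (leaf 3 558 591) (leaf 3 559 595))))))) (node 495 (merge (leaf 7 463 463) (node 529 (merge (node 624 (merge (leaf 6 496 497) (leaf 7 495 527))) (merge (node 494 (merge (leaf 0 493 493) (node 530 (merge (leaf 0 494 497) (leaf 3 495 531))))) (node 530 (merge (leaf 3 495 531) (node 527 (merge (leaf 3 494 494) (leaf 7 495 624)))))))))))) (merge (node 463 (merge (node 464 (merge (leaf 7 431 431) (leaf 5 463 591))) (merge (node 431 (merge (leaf 7 431 464) (node 495 (merge (leaf 4 399 399) (leaf 7 463 592))))) (node 592 (merge (leaf 7 463 495) (node 593 (merge (leaf 4 496 625) (node 558 (merge (leaf 0 557 557) (node 594 (merge (leaf 3 558 591) (leaf 3 559 595)))))))))))) (merge (node 464 (merge (leaf 5 463 591) (node 432 (merge (leaf 5 431 527) (node 401 (merge (leaf 6 400 433) (node 400 (merge (leaf 6 368 369) (node 399 (merge (leaf 7 367 367) (leaf 7 399 431))))))))))) (node 527 (merge (node 464 (merge (leaf 5 431 432) (node 463 (merge (leaf 7 431 431)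 (node 495 (merge (leaf 4 463 592) (node 558 (merge (leaf 5 462 590) (node 557 (merge (leaf 2 525 529) (leaf 2 524 556))))))))))) (merge (node 526 (merge (node 525 (merge (leaf 2 493 497) (leaf 0 524 524))) (merge (node 529 (merge (node 558 (merge (leaf 1 526 530) (leaf 2 525 557))) (merge (node 530 (merge (leaf 1 527 531) (node 494 (merge (leaf 3 493 493) (leaf 3 494 495))))) (node 558 (merge (leaf 1 525 557) (node 497 (merge (leaf 2 494 498) (node 494 (merge (leaf 3 493 493) (node 462 (merge (leaf 4 430 430) (node 461 (merge (leaf 7 429 429) (leaf 3 461 495)))))))))))))) (node 525 (merge (leaf 0 524 524) (node 493 (merge (leaf 3 492 492) (node 529 (merge (leaf 3 493 494) (node 530 (merge (leaf 1 527 531) (leaf 1 526 558)))))))))))) (merge (node 529 (merge (node 530 (merge (leaf 1 527 531) (leaf 1 526 558))) (node 526 (merge (node 525 (merge (leaf 2 493 497) (leaf 0 524 524))) (merge (node 525 (merge (leaf 0 524 524) (node 493 (merge (leaf 3 492 492) (leaf 3 493 494))))) (node 497 (merge (leaf 2 494 498) (node 494 (merge (leaf 3 493 493) (node 462 (merge (leaf 4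 430 430) (node 464 (merge (leaf 5 431 432) (node 463 (merge (leaf 7 431 431) (leaf 0 461 461)))))))))))))))) (merge (node 464 (merge (leaf 5 431 432) (node 463 (merge (leaf 7 431 431) (node 495 (merge (leaf 4 463 592) (node 462 (merge (leaf 7 430 430) (node 461 (merge (leaf 0 460 460) (leaf 0 461 497))))))))))) (node 464 (merge (leaf 5 431 432) (node 463 (merge (leaf 7 431 431) (node 495 (merge (leaf 4 463 592) (node 462 (merge (leaf 7 430 430) (node 461 (merge (leaf 0 460 460) (leaf 0 461 497)))))))))))))))))))) (node 497 (merge (node 465 (merge (leaf 6 464 592) (node 433 (merge (leaf 5 400 401) (leaf 6 432 464))))) (merge (node 592 (merge (leaf 6 464 465) (node 625 (merge (leaf 4 496 593) (node 624 (merge (leaf 6 496 529) (leaf 4 528 657))))))) (merge (node 495 (merge (node 463 (merge (leaf 7 463 592) (node 431 (merge (leaf 4 399 399) (leaf 7 431 464))))) (node 498 (merge (node 531 (merge (leaf 0 495 530) (node 499 (merge (leaf 0 496 532) (node 467 (merge (leaf 2 463 466) (leaf 2 464 468))))))) (merge (node 530 (merge (leaf 0 495 531) (node 494 (merge (leaf 0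 494 529) (node 525 (merge (leaf 1 493 526) (node 493 (merge (leaf 1 492 524) (node 461 (merge (leaf 3 460 460) (leaf 3 461 462))))))))))) (merge (node 467 (merge (leaf 2 463 466) (node 499 (merge (leaf 2 464 468) (node 529 (merge (leaf 1 496 500) (node 494 (merge (leaf 0 493 493) (leaf 0 494 530))))))))) (node 467 (merge (leaf 2 463 466) (node 499 (merge (leaf 2 464 468) (node 532 (merge (leaf 0 496 531) (node 500 (merge (leaf 1 496 529) (leaf 0 497 533))))))))))))))) (node 464 (merge (node 463 (merge (leaf 7 431 431) (node 462 (merge (leaf 0 461 461) (node 498 (merge (leaf 3 462 495) (leaf 3 463 499))))))) (merge (node 433 (merge (leaf 6 432 465) (node 432 (merge (leaf 6 400 401) (node 400 (merge (leaf 4 400 529) (node 399 (merge (leaf 7 367 367) (leaf 7 399 431))))))))) (node 495 (merge (node 465 (merge (leaf 6 432 433) (node 494 (merge (leaf 2 462 466) (leaf 2 461 493))))) (merge (node 494 (merge (node 529 (merge (leaf 0 493 493) (leaf 0 494 530))) (merge (node 525 (merge (leaf 1 493 526) (node 493 (merge (leaf 1 492 524) (node 461 (merge (leaf 3 460 460) (leaf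 3 461 462))))))) (node 530 (merge (leaf 0 494 529) (node 498 (merge (leaf 0 495 531) (node 462 (merge (leaf 3 461 461) (leaf 3 462 463)))))))))) (node 433 (merge (leaf 6 432 465) (node 432 (merge (leaf 6 400 401) (node 400 (merge (leaf 4 400 529) (node 463 (merge (leaf 5 367 368) (node 498 (merge (leaf 3 462 462) (leaf 3 463 499)))))))))))))))))))))))))))))) nQ_12 cQ_12 15 (by decide +kernel)
def nQ_13 : ℕ := 0x1000000010000000000000000000000000000000000000000000000000000000000000000000000000000000000000000000000000000000000000000000000000000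
def cQ_13 : ℕ := 0x2800000038000000ff8000001f000000ef8000002f000000ff8000003e0000007f8000000a0000000000000000000000000000000000000000000000000000000000000000000000000000000000000000000
theorem lQ_13 : S nQ_13 cQ_13 13 := S_of_chk [] trivial (node 560 (merge (node 592 (merge (node 625 (merge (leaf 4 496 593) (node 624 (merge (leaf 4 528 657) (node 495 (merge (leaf 7 463 463) (leaf 7 495 527))))))) (merge (node 623 (merge (leaf 5 495 591) (node 495 (merge (leaf 7 463 463) (node 624 (merge (leaf 7 495 527) (leaf 5 527 655))))))) (node 593 (merge (leaf 4 496 625) (node 591 (merge (leaf 5 495 623) (node 559 (merge (leaf 5 463 464) (node 594 (merge (leaf 3 558 558) (leaf 3 559 595)))))))))))) (merge (node 592 (merge (node 465 (merge (leaf 6 464 497) (node 464 (merge (leaf 6 432 433) (node 591 (merge (leaf 5 463 559) (leaf 5 495 623))))))) (merge (node 625 (merge (leaf 4 496 593) (node 497 (merge (leaf 6 464 465) (node 624 (merge (leaf 6 496 529) (leaf 4 528 657))))))) (node 593 (merge (leaf 4 496 625) (node 591 (merge (leaf 5 495 623) (node 559 (merge (leaf 5 463 464)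 (node 594 (merge (leaf 3 558 558) (leaf 3 559 595)))))))))))) (merge (node 592 (merge (node 465 (merge (leaf 6 464 497) (node 464 (merge (leaf 6 432 433) (node 463 (merge (leaf 7 431 431) (leaf 7 463 495))))))) (merge (node 625 (merge (leaf 4 496 593) (node 624 (merge (leaf 4 528 657) (node 495 (merge (leaf 7 463 463) (leaf 7 495 527))))))) (node 625 (merge (leaf 4 496 593) (node 497 (merge (leaf 6 464 465) (node 624 (merge (leaf 6 496 529) (leaf 4 528 657)))))))))) (merge (node 464 (merge (node 559 (merge (leaf 5 463 591) (node 432 (merge (leaf 5 431 527) (node 431 (merge (leaf 7 399 399) (leaf 7 431 463))))))) (merge (node 433 (merge (leaf 6 432 465) (node 432 (merge (leaf 6 400 401) (node 559 (merge (leaf 5 431 527) (leaf 5 463 591))))))) (merge (node 433 (merge (leaf 6 432 465) (node 432 (merge (leaf 6 400 401) (node 431 (merge (leaf 7 399 399) (leaf 7 431 463))))))) (node 495 (merge (node 465 (merge (leaf 6 432 433) (node 494 (merge (leaf 2 461 493) (node 466 (merge (leaf 1 463 467) (leaf 2 462 497))))))) (merge (node 465 (merge (leaf 6 432 433) (node 494 (merge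 (leaf 2 461 493) (node 463 (merge (leaf 7 431 431) (leaf 1 462 466))))))) (node 559 (merge (leaf 5 463 591) (node 558 (merge (node 463 (merge (leaf 7 431 431) (node 527 (merge (leaf 5 462 590) (node 462 (merge (leaf 7 430 430) (node 461 (merge (leaf 0 460 460) (leaf 0 461 497))))))))) (node 557 (merge (leaf 2 525 529) (node 588 (merge (leaf 1 556 589) (node 556 (merge (leaf 1 555 587) (node 524 (merge (leaf 3 523 523) (leaf 3 524 525)))))))))))))))))))) (node 495 (merge (node 463 (merge (leaf 7 463 592) (node 431 (merge (leaf 4 399 399) (leaf 4 431 527))))) (merge (node 592 (merge (leaf 7 463 463) (node 625 (merge (leaf 4 496 593) (node 497 (merge (leaf 6 464 465) (node 624 (merge (leaf 6 496 529) (leaf 4 528 657))))))))) (merge (node 494 (merge (node 529 (merge (leaf 0 493 493) (node 530 (merge (leaf 0 494 497) (leaf 3 495 531))))) (merge (node 493 (merge (leaf 0 493 529) (node 492 (merge (leaf 0 492 527) (node 524 (merge (leaf 1 491 523) (leaf 1 492 525))))))) (merge (node 493 (merge (node 492 (merge (leaf 0 492 527) (node 524 (merge (leaf 1 491 523) (leaf 1 492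 525))))) (merge (node 492 (merge (leaf 0 492 527) (node 460 (merge (leaf 3 459 459) (leaf 3 460 461))))) (node 525 (merge (leaf 1 492 524) (node 526 (merge (leaf 1 493 497) (node 461 (merge (leaf 3 460 460) (node 558 (merge (leaf 4 429 429) (leaf 7 461 590)))))))))))) (node 497 (merge (node 465 (merge (leaf 2 462 466) (node 433 (merge (leaf 5 400 401) (leaf 5 432 529))))) (merge (node 592 (merge (leaf 6 464 465) (node 625 (merge (leaf 4 496 593) (node 624 (merge (leaf 7 495 527) (leaf 4 528 657))))))) (node 529 (merge (leaf 0 494 530) (node 462 (merge (leaf 3 461 461) (node 592 (merge (leaf 6 496 624) (node 593 (merge (leaf 4 496 625) (node 591 (merge (leaf 5 495 623) (node 559 (merge (leaf 7 462 527) (node 558 (merge (leaf 0 557 557) (leaf 3 558 594)))))))))))))))))))))) (node 431 (merge (node 463 (merge (leaf 4 399 399) (leaf 4 431 527))) (merge (node 527 (merge (leaf 4 431 463) (node 494 (merge (node 529 (merge (leaf 0 493 493) (leaf 3 494 530))) (merge (node 493 (merge (leaf 0 492 492) (node 525 (merge (leaf 1 492 524) (node 497 (merge (leaf 2 493 526) (node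 461 (merge (leaf 3 460 460) (leaf 3 461 462))))))))) (node 526 (merge (node 525 (merge (leaf 1 493 497) (node 524 (merge (leaf 2 491 523) (leaf 2 492 527))))) (merge (node 525 (merge (leaf 2 492 524) (node 557 (merge (leaf 1 524 556) (node 529 (merge (leaf 3 494 530) (leaf 1 525 558))))))) (node 462 (merge (node 430 (merge (leaf 4 398 398) (leaf 4 430 559))) (node 461 (merge (leaf 3 461 497) (node 558 (merge (leaf 7 429 429) (node 557 (merge (leaf 1 525 529) (leaf 5 461 589))))))))))))))))) (merge (node 494 (merge (node 529 (merge (leaf 0 493 493) (node 530 (merge (leaf 0 494 497) (leaf 3 495 531))))) (merge (node 493 (merge (leaf 0 493 529) (node 524 (merge (leaf 1 492 525) (node 492 (merge (leaf 1 491 523) (node 460 (merge (leaf 3 459 459) (leaf 3 460 461))))))))) (merge (node 463 (merge (leaf 4 399 399) (node 526 (merge (node 558 (merge (leaf 6 430 462) (leaf 6 462 590))) (node 525 (merge (leaf 1 493 497) (node 524 (merge (leaf 1 492 493) (leaf 2 491 523))))))))) (node 497 (merge (node 465 (merge (leaf 2 462 466) (node 433 (merge (leaf 5 400 401) (leaf 5 432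 529))))) (merge (node 526 (merge (leaf 1 493 525) (node 462 (merge (leaf 3 461 461) (node 558 (merge (leaf 6 430 463) (node 559 (merge (leaf 4 462 591) (node 557 (merge (leaf 2 525 529) (leaf 5 461 589))))))))))) (node 526 (merge (leaf 1 493 525) (node 465 (merge (leaf 2 462 466) (node 399 (merge (leaf 4 399 463) (node 401 (merge (leaf 5 400 433) (node 430 (merge (leaf 6 398 462) (node 400 (merge (leaf 1 398 402) (node 429 (merge (leaf 1 397 398) (leaf 2 397 432)))))))))))))))))))))) (node 494 (merge (node 529 (merge (leaf 0 493 493) (node 530 (merge (leaf 3 494 527) (leaf 3 495 531))))) (merge (node 493 (merge (leaf 0 493 529) (node 525 (merge (leaf 1 492 524) (node 497 (merge (leaf 1 493 526) (node 461 (merge (leaf 3 460 460) (leaf 3 461 462))))))))) (merge (node 497 (merge (node 465 (merge (leaf 2 462 466) (node 433 (merge (leaf 5 400 401) (leaf 5 432 529))))) (node 526 (merge (leaf 1 493 525) (node 462 (merge (leaf 3 461 461) (node 430 (merge (leaf 6 398 399) (node 527 (merge (leaf 4 398 398) (leaf 4 430 559))))))))))) (node 462 (merge (node 461 (merge (leaf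 3 461 497) (node 460 (merge (leaf 0 459 459) (leaf 3 460 493))))) (merge (node 497 (merge (leaf 3 461 461) (node 526 (merge (leaf 1 493 525) (node 430 (merge (leaf 6 398 399) (node 527 (merge (leaf 4 398 398) (leaf 4 430 559))))))))) (merge (node 493 (merge (node 525 (merge (leaf 1 492 524) (node 461 (merge (leaf 3 460 460) (node 430 (merge (leaf 5 397 398) (leaf 6 429 557))))))) (merge (node 527 (merge (leaf 0 492 492) (node 430 (merge (leaf 4 398 398) (node 526 (merge (leaf 6 398 399) (leaf 4 430 559))))))) (merge (node 525 (merge (leaf 1 492 524) (node 430 (merge (leaf 5 397 398) (node 526 (merge (leaf 6 398 399) (leaf 5 429 557))))))) (merge (node 492 (merge (leaf 0 492 527) (node 460 (merge (leaf 3 459 459) (leaf 3 460 461))))) (node 492 (merge (leaf 0 492 527) (node 524 (merge (leaf 1 491 523) (leaf 1 492 525)))))))))) (node 430 (merge (node 526 (merge (leaf 6 398 399) (node 525 (merge (leaf 1 493 497) (leaf 5 429 557))))) (merge (node 398 (merge (leaf 4 398 527) (node 525 (merge (leaf 5 397 493) (node 526 (merge (leaf 1 493 497) (node 397 (merge (leaf 7 365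 365) (leaf 7 397 429))))))))) (node 398 (merge (leaf 4 398 527) (node 399 (merge (leaf 6 366 367) (node 397 (merge (leaf 7 365 365) (node 396 (merge (leaf 0 395 395) (leaf 0 396 432))))))))))))))))))))))))))))))))) nQ_13 cQ_13 13 (by decide +kernel)
def nQ_14 : ℕ := 0x1000000010000000100000000000000000000000000000000000000000000000000000000000000000000000000000000000000000000000000000000000000000000
def cQ_14 : ℕ := 0x800000038000001f8000001f8000003de000001e8000003cf800003ef000007ef000003e8000001f8000001e000000000000000000000000000000000000000000000000000000000000000000000000000000000000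
theorem lQ_14 : S nQ_14 cQ_14 15 := S_of_chk [] trivial (node 465 (merge (node 560 (merge (leaf 6 432 433) (node 592 (merge (node 591 (merge (leaf 5 463 559) (leaf 5 495 623))) (merge (node 625 (merge (leaf 4 496 593) (node 624 (merge (leaf 4 528 657) (node 623 (merge (leaf 5 495 591) (leaf 5 527 655))))))) (merge (node 625 (merge (leaf 4 496 593) (node 624 (merge (leaf 4 528 657) (node 559 (merge (leaf 5 463 591) (node 527 (merge (leaf 7 495 495) (leaf 7 527 656))))))))) (node 625 (merge (leaf 4 496 593) (node 624 (merge (leaf 4 528 657) (node 655 (merge (leaf 5 527 623) (node 656 (merge (leaf 5 559 687) (node 527 (merge (leaf 7 495 495) (leaf 7 527 559))))))))))))))))) (merge (node 466 (merge (node 495 (merge (leaf 1 463 467) (node 494 (merge (leaf 1 462 463) (leaf 2 461 493))))) (merge (node 467 (merge (leaf 1 463 495) (node 500 (merge (leaf 0 464 499) (node 468 (merge (leaf 0 465 501) (node 436 (merge (leaf 2 432 435) (leaf 2 433 437))))))))) (merge (node 463 (merge (node 431 (merge (leaf 3 430 430) (node 399 (merge (leaf 4 367 367) (leaf 4 399 495))))) (merge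 (node 434 (merge (leaf 2 431 435) (node 462 (merge (leaf 2 430 433) (node 494 (merge (leaf 1 461 493) (leaf 1 462 495))))))) (node 434 (merge (leaf 2 431 435) (node 462 (merge (leaf 2 430 433) (node 493 (merge (leaf 1 461 494) (node 461 (merge (leaf 1 460 492) (node 429 (merge (leaf 3 428 428) (leaf 3 429 430)))))))))))))) (node 435 (merge (node 434 (merge (leaf 2 431 463) (node 436 (merge (leaf 1 432 433) (leaf 1 433 437))))) (merge (node 436 (merge (leaf 2 432 467) (node 434 (merge (leaf 1 432 433) (leaf 1 433 437))))) (merge (node 467 (merge (leaf 2 432 436) (node 499 (merge (leaf 0 464 500) (node 498 (merge (leaf 0 463 463) (node 530 (merge (leaf 5 402 403) (leaf 6 434 562))))))))) (node 498 (merge (node 499 (merge (leaf 0 463 463) (node 500 (merge (leaf 0 464 467) (leaf 3 465 501))))) (merge (node 434 (merge (leaf 2 431 463) (node 530 (merge (leaf 6 402 403) (node 562 (merge (leaf 7 433 433) (leaf 6 434 467))))))) (merge (node 463 (merge (leaf 0 463 499) (node 434 (merge (leaf 2 431 435) (node 433 (merge (leaf 2 430 462) (node 530 (merge (leaf 7 401 401) (leaf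 7 433 562))))))))) (node 403 (merge (node 371 (merge (leaf 5 370 467) (node 434 (merge (leaf 5 338 339) (leaf 6 370 402))))) (merge (node 467 (merge (leaf 5 370 371) (node 530 (merge (leaf 5 402 499) (leaf 6 434 562))))) (node 530 (merge (leaf 6 402 434) (node 562 (merge (leaf 7 433 433) (node 563 (merge (leaf 4 466 595) (node 529 (merge (leaf 0 527 527) (node 564 (merge (leaf 0 528 531) (leaf 3 529 565)))))))))))))))))))))))))) (merge (node 463 (merge (node 560 (merge (leaf 7 431 431) (node 591 (merge (leaf 5 463 559) (node 592 (merge (leaf 7 463 495) (leaf 5 495 623))))))) (merge (node 462 (merge (node 493 (merge (leaf 1 461 494) (node 461 (merge (leaf 1 460 492) (node 429 (merge (leaf 3 428 428) (leaf 3 429 430))))))) (merge (node 494 (merge (leaf 1 461 493) (node 466 (merge (leaf 1 462 495) (node 499 (merge (leaf 0 463 498) (node 467 (merge (leaf 0 464 500) (node 435 (merge (leaf 2 431 434) (leaf 2 432 436))))))))))) (merge (node 429 (merge (leaf 3 429 430) (node 461 (merge (leaf 3 428 428) (node 495 (merge (leaf 0 460 460) (node 466 (merge (leaf 1 463 467)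 (leaf 1 462 494))))))))) (node 429 (merge (leaf 3 429 430) (node 461 (merge (leaf 3 428 428) (node 460 (merge (leaf 0 460 495) (node 492 (merge (leaf 1 459 491) (leaf 1 460 493))))))))))))) (node 431 (merge (leaf 7 431 560) (node 466 (merge (leaf 3 430 430) (node 499 (merge (leaf 0 463 498) (node 467 (merge (leaf 0 464 500) (node 435 (merge (leaf 2 431 434) (leaf 2 432 436)))))))))))))) (node 466 (merge (node 498 (merge (node 499 (merge (leaf 0 463 463) (node 500 (merge (leaf 0 464 467) (leaf 3 465 501))))) (node 433 (merge (leaf 6 432 560) (node 401 (merge (leaf 4 369 369) (node 530 (merge (leaf 7 401 434) (leaf 7 433 562))))))))) (merge (node 467 (merge (node 435 (merge (leaf 2 432 436) (node 463 (merge (leaf 2 431 434) (node 560 (merge (leaf 7 431 431) (leaf 6 432 433))))))) (merge (node 500 (merge (leaf 0 464 499) (node 468 (merge (leaf 0 465 501) (node 436 (merge (leaf 2 432 435) (leaf 2 433 437))))))) (node 499 (merge (leaf 0 464 500) (node 463 (merge (leaf 0 463 498) (node 560 (merge (leaf 7 431 431) (leaf 6 432 433)))))))))) (merge (node 435 (merge (node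 434 (merge (leaf 2 431 463) (node 436 (merge (leaf 1 432 433) (leaf 1 433 437))))) (merge (node 436 (merge (leaf 2 432 467) (node 434 (merge (leaf 1 432 433) (leaf 1 433 437))))) (merge (node 467 (merge (leaf 2 432 436) (node 499 (merge (leaf 0 464 500) (node 498 (merge (leaf 0 463 463) (node 530 (merge (leaf 5 402 403) (leaf 6 434 562))))))))) (node 498 (merge (node 499 (merge (leaf 0 463 463) (node 500 (merge (leaf 0 464 467) (leaf 3 465 501))))) (merge (node 434 (merge (leaf 2 431 463) (node 530 (merge (leaf 6 402 403) (node 562 (merge (leaf 7 433 433) (leaf 6 434 467))))))) (merge (node 463 (merge (leaf 0 463 499) (node 434 (merge (leaf 2 431 435) (node 433 (merge (leaf 2 430 462) (node 530 (merge (leaf 7 401 401) (leaf 7 433 562))))))))) (node 403 (merge (node 371 (merge (leaf 5 370 467) (node 434 (merge (leaf 5 338 339) (leaf 6 370 402))))) (merge (node 467 (merge (leaf 5 370 371) (node 530 (merge (leaf 5 402 499) (leaf 6 434 562))))) (node 530 (merge (leaf 6 402 434) (node 562 (merge (leaf 7 433 433) (node 563 (merge (leaf 4 466 595) (node 529 (merge (leaf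 0 527 527) (node 564 (merge (leaf 0 528 531) (leaf 3 529 565)))))))))))))))))))))) (merge (node 499 (merge (node 463 (merge (leaf 0 463 498) (node 431 (merge (leaf 3 430 430) (leaf 7 431 560))))) (merge (node 467 (merge (leaf 0 464 500) (node 435 (merge (leaf 2 432 436) (node 434 (merge (leaf 2 431 463) (node 531 (merge (leaf 7 402 402) (leaf 7 434 563))))))))) (node 467 (merge (leaf 0 464 500) (node 402 (merge (node 434 (merge (leaf 4 370 370) (node 531 (merge (leaf 4 402 498) (leaf 7 434 563))))) (merge (node 435 (merge (leaf 2 432 436) (node 370 (merge (leaf 7 370 403) (leaf 4 370 434))))) (merge (node 435 (merge (leaf 2 432 436) (node 403 (merge (leaf 7 370 370) (node 498 (merge (leaf 5 370 371) (leaf 5 402 530))))))) (node 435 (merge (leaf 2 432 436) (node 531 (merge (leaf 7 402 434) (node 564 (merge (leaf 4 435 532) (node 563 (merge (leaf 4 467 596) (node 530 (merge (leaf 0 528 529) (leaf 5 434 562)))))))))))))))))))) (merge (node 560 (merge (leaf 6 432 433) (node 499 (merge (node 463 (merge (leaf 7 431 431) (leaf 0 463 498))) (node 467 (merge (leaf 0 464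 500) (node 436 (merge (leaf 2 432 435) (node 468 (merge (leaf 2 433 437) (node 591 (merge (leaf 5 463 559) (node 592 (merge (leaf 5 495 623) (node 593 (merge (leaf 4 496 625) (node 563 (merge (leaf 6 435 531) (node 594 (merge (leaf 2 559 562) (node 627 (merge (leaf 0 591 626) (node 595 (merge (leaf 2 560 564) (leaf 0 592 628))))))))))))))))))))))))) (merge (node 467 (merge (node 435 (merge (leaf 2 432 436) (node 463 (merge (leaf 2 431 434) (node 560 (merge (leaf 7 431 431) (leaf 6 432 433))))))) (merge (node 500 (merge (leaf 0 464 499) (node 468 (merge (leaf 0 465 501) (node 436 (merge (leaf 2 432 435) (leaf 2 433 437))))))) (merge (node 500 (merge (leaf 0 464 499) (node 468 (merge (leaf 0 465 501) (node 437 (merge (leaf 2 433 436) (node 469 (merge (leaf 2 434 438) (node 433 (merge (leaf 3 433 434) (leaf 6 432 560))))))))))) (node 499 (merge (leaf 0 464 500) (node 560 (merge (leaf 6 432 433) (node 591 (merge (leaf 5 463 559) (node 592 (merge (leaf 5 495 623) (node 593 (merge (leaf 4 496 625) (node 463 (merge (leaf 7 431 431) (node 434 (merge (leaf 2 431 435) (node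 563 (merge (leaf 7 434 531) (node 594 (merge (leaf 2 559 562) (node 627 (merge (leaf 0 591 626) (node 595 (merge (leaf 2 560 564) (leaf 0 592 628))))))))))))))))))))))))))) (merge (node 467 (merge (node 500 (merge (leaf 0 464 499) (node 468 (merge (leaf 0 465 501) (node 436 (merge (leaf 2 432 435) (leaf 2 433 437))))))) (merge (node 530 (merge (node 435 (merge (leaf 2 432 436) (node 498 (merge (leaf 6 434 562) (node 403 (merge (leaf 5 370 371) (leaf 6 402 434))))))) (node 560 (merge (leaf 6 432 433) (node 559 (merge (leaf 5 463 591) (node 529 (merge (leaf 1 527 531) (node 558 (merge (leaf 1 526 527) (leaf 2 525 557))))))))))) (merge (node 500 (merge (leaf 0 464 499) (node 468 (merge (leaf 0 465 501) (node 437 (merge (leaf 2 433 436) (node 469 (merge (leaf 2 434 438) (node 433 (merge (leaf 3 433 434) (leaf 6 432 560))))))))))) (node 499 (merge (leaf 0 464 500) (node 531 (merge (node 563 (merge (leaf 7 434 434) (node 596 (merge (leaf 4 467 564) (node 595 (merge (leaf 7 466 498) (leaf 4 499 628))))))) (merge (node 563 (merge (leaf 7 434 434) (node 564 (merge (leaf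 4 467 596) (node 435 (merge (leaf 4 435 532) (node 562 (merge (leaf 5 434 530) (leaf 5 466 594))))))))) (node 560 (merge (leaf 6 432 433) (node 559 (merge (leaf 5 463 591) (node 530 (merge (leaf 1 527 529) (node 435 (merge (leaf 5 434 562) (node 403 (merge (leaf 5 402 498) (node 372 (merge (leaf 6 371 404) (node 371 (merge (leaf 6 339 340) (node 370 (merge (leaf 7 338 338) (leaf 7 370 402)))))))))))))))))))))))))) (node 434 (merge (node 463 (merge (leaf 2 431 435) (node 431 (merge (leaf 3 430 430) (leaf 7 431 560))))) (merge (node 463 (merge (node 560 (merge (leaf 7 431 431) (leaf 6 432 433))) (merge (node 431 (merge (leaf 3 430 430) (leaf 7 431 560))) (node 462 (merge (leaf 2 430 433) (node 493 (merge (leaf 1 461 494) (node 461 (merge (leaf 1 460 492) (node 429 (merge (leaf 3 428 428) (leaf 3 429 430)))))))))))) (merge (node 463 (merge (leaf 2 431 435) (node 462 (merge (leaf 2 430 433) (node 493 (merge (leaf 1 461 494) (node 461 (merge (leaf 1 460 492) (node 429 (merge (leaf 3 428 428) (leaf 3 429 430))))))))))) (node 433 (merge (leaf 6 432 560) (node 402 (merge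 (node 370 (merge (leaf 5 337 338) (node 369 (merge (leaf 7 337 337) (leaf 5 368 401))))) (merge (node 370 (merge (leaf 5 337 338) (node 371 (merge (leaf 6 338 339) (node 498 (merge (leaf 6 370 403) (node 530 (merge (leaf 7 401 401) (leaf 7 433 562))))))))) (merge (node 370 (merge (leaf 5 337 338) (node 371 (merge (leaf 6 338 339) (node 403 (merge (leaf 6 370 498) (node 404 (merge (leaf 1 401 405) (node 369 (merge (leaf 7 337 337) (leaf 0 368 368))))))))))) (node 436 (merge (leaf 1 432 435) (node 401 (merge (leaf 5 368 369) (node 498 (merge (leaf 7 401 530) (node 403 (merge (leaf 6 370 371) (node 404 (merge (leaf 1 401 405) (leaf 0 401 437))))))))))))))))))))))))))))))))) nQ_14 cQ_14 15 (by decide +kernel)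
def nQ_15 : ℕ := 0x1000000010000000000000000000000000000000000000000000000000000000000000000000000000000000000000000000000000000000000000000000000000000
def cQ_15 : ℕ := 0x800000038000001fa000001fe000003df800001ef000003cfc00003ffc00007ffc00003ff000001fe000001fa00000000000000000000000000000000000000000000000000000000000000000000000000000000000
theorem lQ_15 : S nQ_15 cQ_15 16 := S_of_chk [(nQ_6, cQ_6, 10), (nQ_14, cQ_14, 15)] ⟨lQ_6, lQ_14, trivial⟩ (node 464 (merge (node 432 (merge (node 527 (merge (leaf 5 431 559) (node 400 (merge (leaf 5 399 495) (node 399 (merge (leaf 7 367 367) (leaf 7 399 431))))))) (merge (node 433 (merge (leaf 6 400 401) (node 560 (merge (leaf 6 432 465) (node 559 (merge (leaf 5 431 527) (leaf 5 463 591))))))) (node 401 (merge (leaf 6 400 433) (node 400 (merge (leaf 6 368 369) (node 399 (merge (leaf 7 367 367) (leaf 7 399 431)))))))))) (merge (node 432 (merge (node 401 (merge (leaf 6 400 433) (node 400 (merge (leaf 6 368 369) (node 399 (merge (leaf 7 367 367) (leaf 7 399 431))))))) (merge (node 433 (merge (leaf 6 400 401) (node 560 (merge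 (leaf 6 432 465) (node 559 (merge (leaf 5 431 527) (leaf 5 463 591))))))) (node 559 (merge (leaf 5 431 527) (node 431 (merge (leaf 7 399 399) (node 560 (merge (leaf 7 431 463) (leaf 5 463 591)))))))))) (merge (node 560 (merge (node 433 (merge (leaf 6 432 465) (node 432 (merge (leaf 6 400 401) (node 559 (merge (leaf 5 431 527) (leaf 5 463 591))))))) (merge (node 591 (merge (leaf 5 463 559) (node 463 (merge (leaf 7 431 431) (node 592 (merge (leaf 7 463 495) (leaf 5 495 623))))))) (node 465 (merge (leaf 6 432 433) (node 463 (merge (leaf 7 431 431) (node 495 (merge (leaf 7 463 592) (node 494 (merge (leaf 1 462 466) (leaf 2 461 493)))))))))))) (merge (node 463 (merge (node 431 (merge (leaf 7 431 560) (node 399 (merge (leaf 4 367 367) (leaf 4 399 495))))) (merge (node 431 (merge (leaf 7 431 560) (node 432 (merge (leaf 7 399 399) (node 433 (merge (leaf 6 400 401) (node 434 (merge (leaf 1 431 435) (leaf 1 430 462))))))))) (merge (node 465 (merge (node 433 (merge (leaf 6 432 560) (node 401 (merge (leaf 5 368 369) (leaf 6 400 432))))) (node 462 (merge (node 493 (merge (leaf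 1 461 494) (node 461 (merge (leaf 1 460 492) (node 429 (merge (leaf 3 428 428) (leaf 3 429 430))))))) (merge (node 494 (merge (leaf 1 461 493) (node 466 (merge (leaf 1 462 495) (node 499 (merge (leaf 0 463 498) (node 467 (merge (leaf 0 464 500) (node 435 (merge (leaf 2 431 434) (leaf 2 432 436))))))))))) (merge (node 429 (merge (leaf 3 429 430) (node 461 (merge (leaf 3 428 428) (node 495 (merge (leaf 0 460 460) (node 466 (merge (leaf 1 463 467) (leaf 1 462 494))))))))) (node 429 (merge (leaf 3 429 430) (node 461 (merge (leaf 3 428 428) (node 460 (merge (leaf 0 460 495) (node 492 (merge (leaf 1 459 491) (leaf 1 460 493))))))))))))))) (node 432 (merge (node 433 (merge (leaf 6 400 401) (node 462 (merge (leaf 2 429 461) (node 434 (merge (leaf 1 430 431) (leaf 1 431 435))))))) (merge (node 399 (merge (leaf 7 399 431) (node 400 (merge (leaf 7 367 367) (node 369 (merge (leaf 6 368 401) (node 368 (merge (leaf 6 336 337) (leaf 5 367 495))))))))) (merge (node 401 (merge (leaf 6 400 433) (node 400 (merge (leaf 6 368 369) (node 368 (merge (leaf 5 367 495) (node 367 (merge (leaf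 7 335 335) (leaf 7 367 399))))))))) (node 465 (merge (node 431 (merge (leaf 7 399 399) (node 430 (merge (leaf 0 429 429) (node 466 (merge (leaf 3 430 463) (leaf 3 431 467))))))) (merge (node 399 (merge (leaf 7 399 431) (node 400 (merge (leaf 7 367 367) (node 368 (merge (leaf 5 367 495) (node 433 (merge (leaf 4 336 336) (node 434 (merge (leaf 1 431 435) (leaf 2 430 462))))))))))) (node 462 (merge (node 493 (merge (leaf 1 461 494) (node 461 (merge (leaf 1 460 492) (node 429 (merge (leaf 3 428 428) (leaf 3 429 430))))))) (merge (node 494 (merge (leaf 1 461 493) (node 466 (merge (leaf 1 462 495) (node 499 (merge (leaf 0 463 498) (node 467 (merge (leaf 0 464 500) (node 435 (merge (leaf 2 431 434) (leaf 2 432 436))))))))))) (merge (node 429 (merge (leaf 3 429 430) (node 461 (merge (leaf 3 428 428) (node 495 (merge (leaf 0 460 460) (node 466 (merge (leaf 1 463 467) (leaf 1 462 494))))))))) (node 429 (merge (leaf 3 429 430) (node 461 (merge (leaf 3 428 428) (node 460 (merge (leaf 0 460 495) (node 492 (merge (leaf 1 459 491) (leaf 1 460 493)))))))))))))))))))))))) (merge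 (node 432 (merge (node 527 (merge (leaf 5 431 559) (node 400 (merge (leaf 5 399 495) (node 399 (merge (leaf 7 367 367) (leaf 7 399 431))))))) (merge (node 401 (merge (leaf 6 400 433) (node 400 (merge (leaf 6 368 369) (node 527 (merge (leaf 5 399 495) (leaf 5 431 559))))))) (merge (node 401 (merge (leaf 6 400 433) (node 400 (merge (leaf 6 368 369) (node 399 (merge (leaf 7 367 367) (leaf 7 399 431))))))) (node 431 (merge (leaf 7 399 399) (node 430 (merge (node 429 (merge (leaf 0 429 465) (node 461 (merge (leaf 1 428 460) (node 433 (merge (leaf 6 400 401) (leaf 1 429 462))))))) (merge (node 429 (merge (leaf 0 429 465) (node 397 (merge (leaf 3 396 396) (node 433 (merge (leaf 3 397 398) (leaf 6 400 401))))))) (merge (node 429 (merge (leaf 0 429 465) (node 463 (merge (leaf 0 428 428) (node 461 (merge (leaf 1 428 460) (node 397 (merge (leaf 3 396 396) (node 527 (merge (leaf 5 431 559) (node 495 (merge (leaf 7 398 398) (node 526 (merge (leaf 5 430 558) (node 494 (merge (leaf 7 397 462) (leaf 4 397 493))))))))))))))))) (node 433 (merge (leaf 6 400 401) (node 462 (merge (leaf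 1 429 461) (node 434 (merge (leaf 1 430 463) (node 467 (merge (leaf 0 431 466) (node 435 (merge (leaf 0 432 468) (node 403 (merge (leaf 2 399 402) (leaf 2 400 404))))))))))))))))))))))) (merge (node 560 (merge (node 559 (merge (leaf 5 463 591) (node 432 (merge (leaf 5 431 527) (node 431 (merge (leaf 7 399 399) (leaf 7 431 463))))))) (merge (node 592 (merge (node 591 (merge (leaf 5 463 559) (leaf 5 495 623))) (merge (node 559 (merge (leaf 5 463 591) (node 527 (merge (leaf 5 431 432) (node 624 (merge (leaf 7 495 495) (leaf 7 527 656))))))) (merge (node 625 (merge (leaf 4 496 593) (node 624 (merge (leaf 4 528 657) (node 623 (merge (leaf 5 495 591) (leaf 5 527 655))))))) (node 625 (merge (leaf 4 496 593) (node 624 (merge (leaf 4 528 657) (node 655 (merge (leaf 5 527 623) (node 656 (merge (leaf 5 559 687) (node 527 (merge (leaf 7 495 495) (leaf 7 527 559))))))))))))))) (merge (node 463 (merge (leaf 7 431 431) (node 592 (merge (leaf 7 463 495) (node 625 (merge (leaf 4 496 593) (node 624 (merge (leaf 4 528 657) (node 623 (merge (leaf 5 495 591) (leaf 5 527 655)))))))))))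 (node 527 (merge (node 432 (merge (leaf 5 431 559) (node 431 (merge (leaf 7 399 399) (leaf 7 431 463))))) (merge (node 432 (merge (node 431 (merge (leaf 7 399 399) (leaf 7 431 463))) (merge (node 495 (merge (leaf 5 399 400) (node 592 (merge (leaf 7 463 463) (leaf 7 495 624))))) (node 400 (merge (leaf 5 399 495) (node 399 (merge (leaf 7 367 367) (leaf 7 399 431)))))))) (merge (node 463 (merge (leaf 7 431 431) (node 592 (merge (leaf 7 463 495) (node 625 (merge (leaf 4 496 593) (node 624 (merge (leaf 4 528 657) (node 656 (merge (leaf 7 527 559) (node 655 (merge (leaf 5 527 623) (leaf 5 559 687))))))))))))) (node 432 (merge (leaf 5 431 559) (node 400 (merge (leaf 5 399 495) (node 369 (merge (leaf 6 368 401) (node 368 (merge (leaf 6 336 337) (node 367 (merge (leaf 7 335 335) (leaf 7 367 399))))))))))))))))))) (merge (node 432 (merge (node 433 (merge (leaf 6 400 401) (node 560 (merge (leaf 6 432 465) (node 559 (merge (leaf 5 431 527) (leaf 5 463 591))))))) (merge (node 527 (merge (leaf 5 431 559) (node 400 (merge (leaf 5 399 495) (node 369 (merge (leaf 6 368 401) (node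 368 (merge (leaf 6 336 337) (node 367 (merge (leaf 7 335 335) (leaf 7 367 399))))))))))) (merge (node 433 (merge (leaf 6 400 401) (node 465 (merge (leaf 6 432 560) (node 466 (merge (node 467 (merge (leaf 3 432 468) (leaf 1 463 495))) (merge (node 467 (merge (leaf 3 432 468) (node 499 (merge (leaf 0 464 500) (node 463 (merge (leaf 0 463 498) (node 434 (merge (leaf 1 431 435) (leaf 2 430 462))))))))) (node 434 (merge (node 463 (merge (leaf 2 431 435) (leaf 2 430 462))) (merge (node 435 (merge (leaf 1 432 436) (node 403 (merge (leaf 2 400 404) (node 371 (merge (leaf 5 338 339) (node 498 (merge (leaf 6 370 402) (leaf 6 402 530))))))))) (node 463 (merge (leaf 2 430 462) (node 498 (merge (leaf 0 463 499) (node 495 (merge (leaf 1 462 494) (node 530 (merge (leaf 7 433 562) (node 531 (merge (leaf 3 495 529) (leaf 4 434 563))))))))))))))))))))) (node 465 (merge (node 560 (merge (leaf 6 432 433) (node 559 (merge (leaf 5 431 527) (leaf 5 463 591))))) (merge (node 527 (merge (leaf 5 431 559) (node 495 (merge (leaf 5 399 400) (node 466 (merge (leaf 1 463 467) (node 494 (merge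 (leaf 1 462 463) (leaf 2 461 493))))))))) (node 463 (merge (node 560 (merge (leaf 6 432 433) (node 592 (merge (leaf 7 463 495) (node 625 (merge (leaf 4 496 593) (node 624 (merge (leaf 4 528 657) (node 623 (merge (leaf 5 495 591) (leaf 5 527 655))))))))))) (merge (node 433 (merge (leaf 6 432 560) (node 462 (merge (leaf 2 430 434) (node 493 (merge (leaf 1 461 494) (node 461 (merge (leaf 2 429 432) (leaf 1 460 492))))))))) (node 462 (merge (node 493 (merge (leaf 1 461 494) (node 461 (merge (leaf 1 460 492) (node 429 (merge (leaf 3 428 428) (leaf 3 429 430))))))) (merge (node 494 (merge (leaf 1 461 493) (node 466 (merge (leaf 1 462 495) (node 499 (merge (leaf 0 463 498) (node 467 (merge (leaf 0 464 500) (node 435 (merge (leaf 2 431 434) (leaf 2 432 436))))))))))) (merge (node 429 (merge (leaf 3 429 430) (node 461 (merge (leaf 3 428 428) (node 495 (merge (leaf 0 460 460) (node 466 (merge (leaf 1 463 467) (leaf 1 462 494))))))))) (node 429 (merge (leaf 3 429 430) (node 461 (merge (leaf 3 428 428) (node 460 (merge (leaf 0 460 495) (node 492 (merge (leaf 1 459 491) (leaf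 1 460 493))))))))))))))))))))))) (merge (node 463 (merge (node 431 (merge (leaf 7 431 560) (node 399 (merge (leaf 4 367 367) (leaf 7 399 432))))) (merge (node 495 (merge (node 560 (merge (leaf 7 463 592) (node 465 (merge (leaf 6 432 433) (node 494 (merge (leaf 1 462 466) (leaf 2 461 493))))))) (merge (node 560 (merge (leaf 7 463 592) (node 559 (merge (leaf 5 463 591) (node 527 (merge (leaf 5 431 432) (node 558 (merge (leaf 5 462 590) (node 557 (merge (leaf 2 525 529) (leaf 2 524 556))))))))))) (node 462 (merge (node 461 (merge (leaf 0 460 460) (node 493 (merge (leaf 1 460 492) (node 494 (merge (leaf 2 461 465) (leaf 0 493 529))))))) (merge (node 461 (merge (leaf 0 460 460) (node 432 (merge (leaf 2 429 433) (node 400 (merge (leaf 5 367 368) (leaf 5 399 527))))))) (node 465 (merge (node 466 (merge (leaf 1 463 467) (leaf 1 462 494))) (merge (node 430 (merge (leaf 3 429 429) (node 398 (merge (leaf 4 366 366) (node 527 (merge (leaf 4 398 494) (leaf 7 430 559))))))) (node 466 (merge (leaf 1 463 467) (node 434 (merge (leaf 2 430 433) (leaf 2 431 435)))))))))))))) (hyp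 0)))) (hyp 1)))))))))) nQ_15 cQ_15 16 (by decide +kernel)
def nQ_16 : ℕ := 0x1000000030000000000000000000000000000000000000000000000000000000000000000000000000000000000000000000000000000000000000000000000000000
def cQ_16 : ℕ := 0x2000000060000000e0000000c0000007e7000003ce000007ff000001fc000001f8000000e8000000e000000020000000000000000000000000000000000000000000000000000000000000000000000000000
theorem lQ_16 : S nQ_16 cQ_16 13 := S_of_chk [] trivial (node 498 (merge (node 499 (merge (node 532 (merge (leaf 0 496 531) (node 500 (merge (leaf 0 497 533) (node 464 (merge (leaf 3 463 463) (leaf 3 464 465))))))) (merge (node 531 (merge (leaf 0 496 532) (node 495 (merge (leaf 0 495 530) (node 467 (merge (leaf 2 463 466) (leaf 2 464 468))))))) (node 468 (merge (leaf 2 464 467) (node 500 (merge (leaf 2 465 469) (node 464 (merge (leaf 3 463 463) (leaf 3 464 465)))))))))) (merge (node 499 (merge (node 532 (merge (leaf 0 496 531) (node 500 (merge (leaf 1 496 529) (leaf 0 497 533))))) (merge (node 531 (merge (leaf 0 496 532) (node 495 (merge (leaf 0 495 530) (node 467 (merge (leaf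 2 463 466) (leaf 2 464 468))))))) (node 529 (merge (leaf 1 496 500) (node 467 (merge (leaf 2 464 468) (node 495 (merge (leaf 2 463 466) (node 494 (merge (leaf 0 493 493) (leaf 0 494 530)))))))))))) (merge (node 495 (merge (node 530 (merge (leaf 0 495 531) (node 494 (merge (leaf 0 494 529) (node 466 (merge (leaf 2 462 465) (leaf 2 463 467))))))) (merge (node 531 (merge (leaf 0 495 530) (node 499 (merge (leaf 0 496 532) (node 463 (merge (leaf 3 462 462) (leaf 3 463 464))))))) (merge (node 463 (merge (leaf 3 462 462) (node 499 (merge (leaf 3 463 464) (node 532 (merge (leaf 0 496 531) (node 500 (merge (leaf 1 496 529) (leaf 0 497 533))))))))) (node 466 (merge (leaf 2 463 467) (node 494 (merge (leaf 2 462 465) (node 529 (merge (leaf 0 493 493) (leaf 0 494 530))))))))))) (merge (node 495 (merge (node 530 (merge (leaf 0 495 531) (node 494 (merge (leaf 0 494 529) (node 466 (merge (leaf 2 462 465) (leaf 2 463 467))))))) (merge (node 467 (merge (leaf 2 463 466) (node 499 (merge (leaf 2 464 468) (node 463 (merge (leaf 3 462 462) (leaf 3 463 464))))))) (node 494 (merge (node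 529 (merge (leaf 0 493 493) (node 530 (merge (leaf 0 494 497) (leaf 3 495 531))))) (merge (node 525 (merge (leaf 1 493 526) (node 493 (merge (leaf 1 492 524) (node 461 (merge (leaf 3 460 460) (leaf 3 461 462))))))) (node 530 (merge (leaf 0 494 529) (node 498 (merge (leaf 0 495 531) (node 462 (merge (leaf 3 461 461) (leaf 3 462 463))))))))))))) (merge (node 499 (merge (node 532 (merge (leaf 0 496 531) (node 500 (merge (leaf 1 496 529) (leaf 0 497 533))))) (merge (node 500 (merge (leaf 1 496 529) (node 464 (merge (leaf 3 463 463) (leaf 3 464 465))))) (node 531 (merge (leaf 0 496 532) (node 467 (merge (leaf 2 464 468) (node 466 (merge (leaf 2 463 495) (node 563 (merge (leaf 7 434 434) (leaf 7 466 595)))))))))))) (merge (node 495 (merge (node 467 (merge (leaf 2 463 466) (node 499 (merge (leaf 2 464 468) (node 463 (merge (leaf 3 462 462) (leaf 3 463 464))))))) (merge (node 466 (merge (leaf 2 463 467) (node 494 (merge (leaf 2 462 465) (node 529 (merge (leaf 0 493 493) (leaf 0 494 530))))))) (merge (node 463 (merge (leaf 3 462 462) (node 499 (merge (leaf 3 463 464) (node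 529 (merge (leaf 1 496 500) (node 494 (merge (leaf 0 493 493) (leaf 0 494 530))))))))) (node 463 (merge (leaf 3 462 462) (node 499 (merge (leaf 3 463 464) (node 500 (merge (leaf 1 496 529) (node 533 (merge (leaf 0 497 532) (node 501 (merge (leaf 0 498 534) (node 469 (merge (leaf 2 465 468) (leaf 2 466 470))))))))))))))))) (merge (node 499 (merge (node 532 (merge (leaf 0 496 531) (node 500 (merge (leaf 1 496 529) (leaf 0 497 533))))) (merge (node 531 (merge (leaf 0 496 532) (node 495 (merge (leaf 0 495 530) (node 467 (merge (leaf 2 463 466) (leaf 2 464 468))))))) (merge (node 500 (merge (leaf 1 496 529) (node 469 (merge (leaf 2 465 468) (node 501 (merge (leaf 2 466 470) (node 465 (merge (leaf 3 464 464) (leaf 3 465 466))))))))) (node 500 (merge (leaf 1 496 529) (node 533 (merge (leaf 0 497 532) (node 501 (merge (leaf 0 498 534) (node 465 (merge (leaf 3 464 464) (leaf 3 465 466))))))))))))) (merge (node 495 (merge (node 531 (merge (leaf 0 495 530) (node 499 (merge (leaf 0 496 532) (node 463 (merge (leaf 3 462 462) (leaf 3 463 464))))))) (merge (node 494 (merge (node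 529 (merge (leaf 0 493 493) (node 530 (merge (leaf 0 494 497) (leaf 3 495 531))))) (merge (node 525 (merge (leaf 1 493 526) (node 493 (merge (leaf 1 492 524) (node 461 (merge (leaf 3 460 460) (leaf 3 461 462))))))) (node 530 (merge (leaf 0 494 529) (node 498 (merge (leaf 0 495 531) (node 462 (merge (leaf 3 461 461) (leaf 3 462 463)))))))))) (merge (node 530 (merge (leaf 0 495 531) (node 494 (merge (leaf 0 494 529) (node 525 (merge (leaf 1 493 526) (node 493 (merge (leaf 1 492 524) (node 465 (merge (leaf 2 461 464) (leaf 2 462 466))))))))))) (node 463 (merge (leaf 3 462 462) (node 499 (merge (leaf 3 463 464) (node 500 (merge (leaf 1 496 529) (node 533 (merge (leaf 0 497 532) (node 501 (merge (leaf 0 498 534) (node 469 (merge (leaf 2 465 468) (leaf 2 466 470))))))))))))))))) (merge (node 499 (merge (node 532 (merge (leaf 0 496 531) (node 500 (merge (leaf 1 496 529) (leaf 0 497 533))))) (merge (node 468 (merge (leaf 2 464 467) (node 500 (merge (leaf 2 465 469) (node 464 (merge (leaf 3 463 463) (leaf 3 464 465))))))) (node 531 (merge (leaf 0 496 532) (node 530 (merge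 (leaf 0 495 495) (node 467 (merge (leaf 2 464 468) (node 435 (merge (leaf 5 402 403) (leaf 5 434 562)))))))))))) (merge (node 464 (merge (node 463 (merge (leaf 3 463 499) (node 462 (merge (leaf 0 461 461) (leaf 0 462 465))))) (merge (node 499 (merge (leaf 3 463 463) (node 532 (merge (leaf 0 496 531) (node 500 (merge (leaf 1 496 529) (leaf 0 497 533))))))) (merge (node 432 (merge (node 401 (merge (leaf 6 400 433) (node 400 (merge (leaf 6 368 369) (node 399 (merge (leaf 7 367 367) (leaf 7 399 431))))))) (merge (node 400 (merge (leaf 4 400 529) (node 399 (merge (leaf 7 367 367) (leaf 7 399 431))))) (merge (node 400 (merge (leaf 4 400 529) (node 401 (merge (leaf 6 368 369) (leaf 6 400 433))))) (node 463 (merge (node 462 (merge (leaf 0 461 461) (leaf 0 462 465))) (merge (node 433 (merge (leaf 6 400 401) (node 434 (merge (leaf 1 431 435) (node 431 (merge (leaf 7 399 399) (node 402 (merge (leaf 2 399 403) (node 529 (merge (leaf 6 401 465) (leaf 5 401 466))))))))))) (node 462 (merge (leaf 0 461 461) (node 433 (merge (leaf 6 400 401) (node 431 (merge (leaf 7 399 399) (leaf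 1 430 434)))))))))))))) (node 467 (merge (node 468 (merge (leaf 2 464 499) (node 466 (merge (leaf 1 464 465) (leaf 1 465 469))))) (merge (node 499 (merge (leaf 2 464 468) (node 532 (merge (leaf 0 496 531) (node 500 (merge (leaf 1 496 529) (leaf 0 497 533))))))) (merge (node 432 (merge (node 433 (merge (leaf 6 400 401) (node 431 (merge (leaf 7 399 399) (node 466 (merge (leaf 0 431 434) (leaf 3 431 465))))))) (merge (node 401 (merge (leaf 6 400 433) (node 400 (merge (leaf 6 368 369) (node 399 (merge (leaf 7 367 367) (leaf 7 399 431))))))) (merge (node 400 (merge (leaf 4 400 529) (node 401 (merge (leaf 6 368 369) (leaf 6 400 433))))) (merge (node 431 (merge (leaf 7 399 399) (node 466 (merge (leaf 3 431 465) (node 434 (merge (leaf 0 431 433) (node 402 (merge (leaf 5 401 529) (node 371 (merge (leaf 6 370 403) (node 370 (merge (leaf 6 338 339) (node 338 (merge (leaf 4 338 435) (node 337 (merge (leaf 7 305 305) (leaf 7 337 369))))))))))))))))) (node 400 (merge (leaf 4 400 529) (node 401 (merge (leaf 6 368 369) (node 431 (merge (leaf 7 399 399) (node 403 (merge (leaf 1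 399 402) (node 466 (merge (leaf 3 431 465) (node 435 (merge (leaf 5 370 371) (node 530 (merge (leaf 6 402 434) (leaf 6 434 562)))))))))))))))))))) (node 432 (merge (node 433 (merge (leaf 6 400 401) (node 431 (merge (leaf 7 399 399) (node 466 (merge (leaf 0 431 434) (leaf 3 431 465))))))) (merge (node 401 (merge (leaf 6 400 433) (node 400 (merge (leaf 6 368 369) (node 399 (merge (leaf 7 367 367) (leaf 7 399 431))))))) (merge (node 400 (merge (leaf 4 400 529) (node 401 (merge (leaf 6 368 369) (leaf 6 400 433))))) (merge (node 400 (merge (leaf 4 400 529) (node 401 (merge (leaf 6 368 369) (node 431 (merge (leaf 7 399 399) (node 403 (merge (leaf 1 399 402) (node 466 (merge (leaf 3 431 465) (node 435 (merge (leaf 5 370 371) (node 530 (merge (leaf 6 402 434) (leaf 5 402 499))))))))))))))) (node 529 (merge (leaf 4 400 400) (node 499 (merge (leaf 1 496 500) (node 531 (merge (leaf 0 496 532) (node 431 (merge (leaf 7 399 399) (node 466 (merge (leaf 3 431 465) (node 434 (merge (leaf 0 431 433) (leaf 7 434 563)))))))))))))))))))))))))) (node 466 (merge (node 467 (merge (leaf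 2 463 495) (node 468 (merge (leaf 1 464 465) (leaf 1 465 469))))) (merge (node 495 (merge (leaf 2 463 467) (node 530 (merge (leaf 0 495 531) (node 494 (merge (leaf 0 494 529) (node 525 (merge (leaf 1 493 526) (node 493 (merge (leaf 1 492 524) (node 461 (merge (leaf 3 460 460) (leaf 3 461 462))))))))))))) (merge (node 530 (merge (node 433 (merge (node 465 (merge (leaf 4 401 401) (node 562 (merge (leaf 7 433 466) (leaf 7 465 594))))) (merge (node 434 (merge (leaf 7 401 401) (node 531 (merge (leaf 4 434 563) (node 529 (merge (leaf 5 401 402) (leaf 3 496 532))))))) (node 562 (merge (leaf 7 433 465) (node 563 (merge (leaf 4 466 595) (node 434 (merge (leaf 4 434 531) (node 402 (merge (leaf 5 401 529) (node 403 (merge (leaf 6 370 371) (leaf 6 402 435)))))))))))))) (merge (node 465 (merge (node 562 (merge (leaf 7 433 433) (leaf 7 465 594))) (node 495 (merge (leaf 2 462 494) (node 463 (merge (leaf 3 462 462) (node 431 (merge (leaf 4 399 399) (node 464 (merge (leaf 3 430 430) (node 434 (merge (leaf 2 431 435) (node 402 (merge (leaf 5 369 370) (leaf 5 401 529)))))))))))))))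 (merge (node 495 (merge (leaf 0 495 531) (node 494 (merge (leaf 2 462 465) (node 462 (merge (leaf 3 461 461) (leaf 3 462 463))))))) (node 495 (merge (leaf 0 495 531) (node 494 (merge (leaf 0 494 529) (node 462 (merge (leaf 3 461 461) (leaf 3 462 463))))))))))) (node 434 (merge (node 402 (merge (leaf 5 401 529) (node 401 (merge (leaf 7 369 369) (node 530 (merge (leaf 7 401 433) (node 563 (merge (leaf 4 434 531) (node 562 (merge (leaf 4 466 595) (node 435 (merge (leaf 6 402 403) (leaf 6 434 467))))))))))))) (merge (node 402 (merge (leaf 5 401 529) (node 370 (merge (leaf 5 369 465) (node 371 (merge (leaf 6 338 339) (leaf 6 370 403))))))) (merge (node 402 (merge (leaf 5 401 529) (node 465 (merge (leaf 5 369 370) (node 403 (merge (leaf 6 370 371) (node 530 (merge (leaf 6 402 435) (node 563 (merge (leaf 4 434 531) (node 562 (merge (leaf 7 465 594) (leaf 4 466 595))))))))))))) (merge (node 402 (merge (leaf 5 401 529) (node 465 (merge (leaf 5 369 370) (node 403 (merge (leaf 6 370 371) (node 530 (merge (leaf 6 402 435) (node 562 (merge (leaf 7 433 433) (leaf 7 465 594)))))))))))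 (merge (node 402 (merge (leaf 5 401 529) (node 465 (merge (leaf 5 369 370) (node 467 (merge (leaf 1 464 468) (node 401 (merge (leaf 7 369 369) (node 530 (merge (leaf 4 401 433) (node 562 (merge (leaf 6 434 435) (leaf 7 465 594))))))))))))) (merge (node 530 (merge (node 563 (merge (leaf 4 434 531) (node 562 (merge (leaf 4 466 595) (node 433 (merge (leaf 7 401 401) (leaf 7 433 465))))))) (merge (node 435 (merge (leaf 6 402 403) (node 562 (merge (leaf 6 434 467) (node 594 (merge (leaf 7 465 465) (node 625 (merge (leaf 5 497 593) (node 626 (merge (leaf 7 497 529) (leaf 5 529 657))))))))))) (node 531 (merge (leaf 4 434 563) (node 532 (merge (leaf 3 496 529) (leaf 3 497 533)))))))) (merge (node 402 (merge (leaf 5 401 529) (node 403 (merge (leaf 6 370 371) (node 401 (merge (leaf 7 369 369) (node 433 (merge (leaf 5 400 465) (node 432 (merge (leaf 1 400 404) (leaf 6 400 464))))))))))) (node 465 (merge (node 402 (merge (leaf 5 369 370) (node 401 (merge (leaf 7 369 369) (leaf 5 400 433))))) (merge (node 402 (merge (leaf 5 369 370) (node 403 (merge (leaf 6 370 371) (node 530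 (merge (leaf 6 402 435) (node 562 (merge (leaf 7 433 433) (leaf 7 465 594))))))))) (merge (node 402 (merge (leaf 5 369 370) (node 403 (merge (leaf 6 370 371) (node 530 (merge (leaf 6 402 435) (node 563 (merge (leaf 4 434 531) (node 562 (merge (leaf 7 465 594) (leaf 4 466 595))))))))))) (node 433 (merge (leaf 5 400 401) (node 530 (merge (leaf 7 433 562) (node 435 (merge (leaf 6 402 403) (node 464 (merge (leaf 1 432 436) (leaf 2 431 463)))))))))))))))))))))))))))))))))))) nQ_16 cQ_16 13 (by decide +kernel)
def nQ_17 : ℕ := 0x1000000030000000000000001000000000000000000000000000000000000000000000000000000000000000000000000000000000000000000000000000000000000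
def cQ_17 : ℕ := 0x8000000c8000001ce000003ee000001c6000007ee000003ee000007fe000000e0000000c000000000000000000000000000000000000000000000000000000000000000000000000000000000000
theorem lQ_17 : S nQ_17 cQ_17 14 := S_of_chk [] trivial (node 433 (merge (node 465 (merge (leaf 5 400 401) (node 529 (merge (leaf 7 400 400) (node 530 (merge (leaf 4 433 562) (node 531 (merge (leaf 3 496 532) (node 499 (merge (leaf 2 496 500) (node 527 (merge (leaf 1 495 498) (node 558 (merge (leaf 1 526 559) (node 526 (merge (leaf 2 493 525) (leaf 1 525 557))))))))))))))))) (merge (node 465 (merge (leaf 5 400 401) (node 529 (merge (leaf 7 400 400) (node 530 (merge (leaf 4 433 562) (node 531 (merge (leaf 3 496 532) (node 563 (merge (leaf 0 528 564) (node 499 (merge (leaf 2 496 500) (node 434 (merge (leaf 6 401 402) (node 467 (merge (leaf 7 434 466) (node 468 (merge (leaf 0 432 435) (leaf 6 435 436))))))))))))))))))) (merge (node 465 (merge (leaf 5 400 401) (node 434 (merge (node 529 (merge (leaf 7 400 400) (leaf 6 401 402))) (merge (node 402 (merge (node 370 (merge (leaf 5 337 338) (leaf 5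 369 466))) (merge (node 431 (merge (leaf 2 399 403) (node 466 (merge (leaf 0 430 430) (leaf 0 431 467))))) (node 431 (merge (leaf 2 399 403) (node 462 (merge (leaf 1 430 463) (node 430 (merge (leaf 1 429 461) (node 398 (merge (leaf 3 397 397) (leaf 3 398 399)))))))))))) (node 400 (merge (leaf 7 400 529) (node 435 (merge (leaf 3 399 399) (node 467 (merge (leaf 0 432 468) (node 466 (merge (leaf 0 431 431) (node 403 (merge (leaf 2 400 404) (node 371 (merge (leaf 5 338 339) (leaf 5 370 498)))))))))))))))))) (merge (node 465 (merge (leaf 5 400 401) (node 434 (merge (node 529 (merge (leaf 6 401 402) (node 530 (merge (leaf 4 433 562) (node 531 (merge (leaf 3 496 532) (node 499 (merge (leaf 2 496 500) (node 527 (merge (leaf 1 495 498) (node 558 (merge (leaf 1 526 559) (node 526 (merge (leaf 2 493 525) (leaf 1 525 557))))))))))))))) (merge (node 402 (merge (node 370 (merge (leaf 5 337 338) (leaf 5 369 466))) (merge (node 431 (merge (leaf 2 399 403) (node 466 (merge (leaf 0 430 430) (leaf 0 431 467))))) (node 431 (merge (leaf 2 399 403) (node 462 (merge (leaf 1 430 463) (node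 430 (merge (leaf 1 429 461) (node 398 (merge (leaf 3 397 397) (leaf 3 398 399)))))))))))) (node 435 (merge (node 468 (merge (leaf 0 432 467) (node 436 (merge (leaf 0 433 469) (node 404 (merge (leaf 2 400 403) (leaf 2 401 405))))))) (merge (node 404 (merge (leaf 2 400 403) (node 436 (merge (leaf 2 401 405) (node 466 (merge (leaf 1 433 437) (node 431 (merge (leaf 0 430 430) (leaf 0 431 467))))))))) (merge (node 404 (merge (leaf 2 400 403) (node 436 (merge (leaf 2 401 405) (node 469 (merge (leaf 0 433 468) (node 437 (merge (leaf 1 433 466) (leaf 0 434 470))))))))) (node 467 (merge (leaf 0 432 468) (node 431 (merge (leaf 0 431 466) (node 462 (merge (leaf 1 430 463) (node 430 (merge (leaf 1 429 461) (node 399 (merge (leaf 3 398 398) (node 526 (merge (leaf 6 398 494) (node 527 (merge (leaf 2 493 525) (node 498 (merge (leaf 1 495 499) (leaf 2 494 529)))))))))))))))))))))))))) (merge (node 529 (merge (node 465 (merge (leaf 7 400 400) (node 530 (merge (leaf 4 433 562) (node 531 (merge (leaf 3 496 532) (node 563 (merge (leaf 0 528 564) (node 434 (merge (leaf 6 401 402) (node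 466 (merge (leaf 4 434 498) (node 467 (merge (leaf 0 431 431) (leaf 1 464 468))))))))))))))) (merge (node 465 (merge (leaf 7 400 400) (node 530 (merge (leaf 4 433 562) (node 531 (merge (leaf 3 496 532) (node 499 (merge (leaf 2 496 500) (node 527 (merge (leaf 1 495 498) (node 558 (merge (leaf 1 526 559) (node 526 (merge (leaf 2 493 525) (leaf 1 525 557))))))))))))))) (merge (node 465 (merge (leaf 7 400 400) (node 530 (merge (leaf 4 433 562) (node 531 (merge (leaf 3 496 532) (node 563 (merge (leaf 0 528 564) (node 499 (merge (leaf 2 496 500) (node 434 (merge (leaf 6 401 402) (node 467 (merge (leaf 7 434 466) (node 468 (merge (leaf 0 432 435) (leaf 6 435 436))))))))))))))))) (merge (node 434 (merge (node 465 (merge (leaf 7 400 400) (leaf 6 401 402))) (merge (node 402 (merge (leaf 6 401 465) (node 431 (merge (leaf 2 399 403) (node 466 (merge (leaf 0 431 467) (leaf 5 401 498))))))) (merge (node 400 (merge (leaf 7 400 465) (node 435 (merge (leaf 3 399 399) (node 467 (merge (leaf 0 432 468) (node 466 (merge (leaf 0 431 431) (node 403 (merge (leaf 2 400 404) (node 371 (merge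 (leaf 5 338 339) (leaf 5 370 498))))))))))))) (node 431 (merge (node 467 (merge (leaf 0 431 466) (node 435 (merge (leaf 0 432 468) (node 399 (merge (leaf 3 398 398) (leaf 3 399 400))))))) (merge (node 403 (merge (leaf 2 399 402) (node 435 (merge (leaf 2 400 404) (node 399 (merge (leaf 3 398 398) (leaf 3 399 400))))))) (node 466 (merge (leaf 0 431 467) (node 402 (merge (leaf 2 399 403) (node 498 (merge (leaf 5 401 529) (node 499 (merge (leaf 1 495 527) (leaf 4 402 531)))))))))))))))) (merge (node 530 (merge (node 531 (merge (leaf 3 496 532) (node 499 (merge (leaf 2 496 500) (node 527 (merge (leaf 1 495 498) (node 558 (merge (leaf 1 526 559) (node 526 (merge (leaf 2 493 525) (leaf 1 525 557))))))))))) (merge (node 562 (merge (leaf 4 433 465) (node 527 (merge (leaf 0 527 563) (node 558 (merge (leaf 1 526 559) (node 526 (merge (leaf 2 493 525) (leaf 1 525 557))))))))) (node 531 (merge (leaf 3 496 532) (node 563 (merge (leaf 0 528 564) (node 499 (merge (leaf 2 496 500) (node 465 (merge (leaf 4 433 562) (node 434 (merge (leaf 6 401 402) (node 467 (merge (leaf 7 434 466)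 (node 468 (merge (leaf 0 432 435) (leaf 6 435 436)))))))))))))))))) (merge (node 527 (merge (node 526 (merge (leaf 2 494 498) (leaf 2 493 525))) (merge (node 526 (merge (leaf 2 493 525) (node 558 (merge (leaf 1 525 557) (node 559 (merge (leaf 1 526 530) (node 494 (merge (leaf 3 493 493) (node 591 (merge (leaf 4 462 462) (leaf 6 495 623))))))))))) (node 434 (merge (node 498 (merge (leaf 1 495 499) (node 402 (merge (leaf 5 401 466) (node 403 (merge (leaf 2 399 431) (node 404 (merge (leaf 1 401 405) (leaf 2 400 435))))))))) (merge (node 498 (merge (leaf 1 495 499) (node 466 (merge (leaf 5 401 402) (node 431 (merge (leaf 0 431 467) (node 462 (merge (leaf 1 430 463) (node 430 (merge (leaf 1 429 461) (node 398 (merge (leaf 3 397 397) (leaf 3 398 399))))))))))))) (merge (node 431 (merge (node 466 (merge (leaf 0 431 467) (node 402 (merge (leaf 2 399 403) (leaf 5 401 498))))) (merge (node 403 (merge (leaf 2 399 402) (node 435 (merge (leaf 2 400 404) (node 399 (merge (leaf 3 398 398) (leaf 3 399 400))))))) (node 467 (merge (leaf 0 431 466) (node 435 (merge (leaf 0 432 468)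 (node 399 (merge (leaf 3 398 398) (leaf 3 399 400)))))))))) (merge (node 435 (merge (node 468 (merge (leaf 0 432 467) (node 436 (merge (leaf 0 433 469) (node 404 (merge (leaf 2 400 403) (leaf 2 401 405))))))) (merge (node 467 (merge (leaf 0 432 468) (node 499 (merge (leaf 1 495 498) (node 531 (merge (leaf 7 402 402) (node 530 (merge (leaf 2 496 500) (leaf 3 496 532))))))))) (merge (node 499 (merge (leaf 1 495 498) (node 403 (merge (leaf 2 400 404) (node 402 (merge (leaf 2 399 431) (node 531 (merge (leaf 7 402 467) (node 530 (merge (leaf 2 496 500) (leaf 3 496 532))))))))))) (merge (node 467 (merge (leaf 0 432 468) (node 499 (merge (leaf 1 495 498) (node 403 (merge (leaf 2 400 404) (node 402 (merge (leaf 2 399 431) (leaf 7 402 531))))))))) (node 499 (merge (leaf 1 495 498) (node 404 (merge (leaf 2 400 403) (node 436 (merge (leaf 2 401 405) (node 468 (merge (leaf 0 433 469) (node 531 (merge (leaf 5 403 500) (node 530 (merge (leaf 3 496 532) (node 563 (merge (leaf 0 527 562) (leaf 0 528 564)))))))))))))))))))) (merge (node 435 (merge (node 468 (merge (leaf 0 432 467)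 (node 436 (merge (leaf 0 433 469) (node 404 (merge (leaf 2 400 403) (leaf 2 401 405))))))) (merge (node 498 (merge (leaf 1 495 499) (node 403 (merge (leaf 2 400 404) (node 530 (merge (leaf 6 402 466) (node 563 (merge (leaf 0 527 562) (node 531 (merge (leaf 3 496 532) (leaf 0 528 564))))))))))) (merge (node 467 (merge (leaf 0 432 468) (node 466 (merge (leaf 0 431 431) (node 499 (merge (leaf 1 495 498) (node 531 (merge (leaf 7 434 563) (node 530 (merge (leaf 2 496 500) (leaf 3 496 532))))))))))) (node 467 (merge (leaf 0 432 468) (node 466 (merge (leaf 0 431 431) (node 498 (merge (leaf 1 495 499) (node 403 (merge (leaf 2 400 404) (leaf 6 402 530))))))))))))) (merge (node 435 (merge (node 468 (merge (leaf 0 432 467) (node 436 (merge (leaf 0 433 469) (node 404 (merge (leaf 2 400 403) (leaf 2 401 405))))))) (merge (node 467 (merge (leaf 0 432 468) (node 499 (merge (leaf 1 495 498) (node 531 (merge (leaf 7 402 402) (node 562 (merge (leaf 5 434 530) (node 563 (merge (leaf 7 434 466) (leaf 5 466 594))))))))))) (merge (node 498 (merge (leaf 1 495 499) (node 403 (merge (leaf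 2 400 404) (node 466 (merge (leaf 5 401 402) (leaf 6 402 530))))))) (node 498 (merge (leaf 1 495 499) (node 403 (merge (leaf 2 400 404) (node 530 (merge (leaf 6 402 466) (node 563 (merge (leaf 0 527 562) (node 531 (merge (leaf 3 496 532) (leaf 0 528 564))))))))))))))) (node 467 (merge (node 431 (merge (leaf 0 431 466) (node 435 (merge (leaf 0 432 468) (node 403 (merge (leaf 2 399 402) (leaf 2 400 404))))))) (merge (node 431 (merge (leaf 0 431 466) (node 462 (merge (leaf 1 430 463) (node 430 (merge (leaf 1 429 461) (node 398 (merge (leaf 3 397 397) (leaf 3 398 399))))))))) (node 435 (merge (leaf 0 432 468) (node 404 (merge (leaf 2 400 403) (node 436 (merge (leaf 2 401 405) (node 531 (merge (leaf 6 403 499) (node 530 (merge (leaf 3 496 532) (node 563 (merge (leaf 0 527 562) (leaf 0 528 564)))))))))))))))))))))))))) (node 434 (merge (node 465 (merge (leaf 7 400 400) (leaf 6 401 402))) (merge (node 402 (merge (leaf 6 401 465) (node 431 (merge (leaf 2 399 403) (node 466 (merge (leaf 0 431 467) (leaf 5 401 498))))))) (merge (node 400 (merge (leaf 7 400 465) (node 435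 (merge (leaf 3 399 399) (node 467 (merge (leaf 0 432 468) (node 466 (merge (leaf 0 431 431) (node 403 (merge (leaf 2 400 404) (node 371 (merge (leaf 5 338 339) (leaf 5 370 498))))))))))))) (node 498 (merge (node 499 (merge (leaf 1 496 500) (leaf 1 495 527))) (merge (node 526 (merge (leaf 2 494 527) (node 466 (merge (leaf 5 401 402) (node 431 (merge (leaf 0 431 467) (node 462 (merge (leaf 1 430 463) (node 430 (merge (leaf 1 429 461) (node 399 (merge (leaf 3 398 398) (leaf 6 398 494))))))))))))) (node 466 (merge (leaf 5 401 402) (node 467 (merge (leaf 0 431 431) (node 468 (merge (leaf 0 432 435) (leaf 1 465 469))))))))))))))))))))) (merge (node 434 (merge (node 431 (merge (node 467 (merge (leaf 0 431 466) (node 435 (merge (leaf 0 432 468) (node 399 (merge (leaf 3 398 398) (leaf 3 399 400))))))) (merge (node 403 (merge (leaf 2 399 402) (node 435 (merge (leaf 2 400 404) (node 399 (merge (leaf 3 398 398) (leaf 3 399 400))))))) (node 466 (merge (leaf 0 431 467) (node 402 (merge (leaf 2 399 403) (node 498 (merge (leaf 5 401 529) (node 499 (merge (leaf 1 495 527) (leaf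 4 402 531)))))))))))) (merge (node 498 (merge (node 527 (merge (leaf 1 495 499) (node 526 (merge (leaf 2 493 525) (leaf 2 494 529))))) (merge (node 499 (merge (leaf 1 495 527) (node 532 (merge (leaf 0 496 531) (node 500 (merge (leaf 0 497 533) (node 468 (merge (leaf 2 464 467) (leaf 2 465 469))))))))) (node 466 (merge (node 402 (merge (leaf 5 401 529) (node 403 (merge (leaf 6 370 371) (node 401 (merge (leaf 7 369 369) (leaf 1 400 404))))))) (merge (node 530 (merge (leaf 7 401 401) (node 531 (merge (leaf 4 434 563) (node 532 (merge (leaf 3 496 529) (leaf 3 497 533))))))) (merge (node 402 (merge (leaf 5 401 529) (node 403 (merge (leaf 6 370 371) (node 435 (merge (leaf 2 400 404) (leaf 6 402 530))))))) (node 530 (merge (leaf 7 401 401) (node 563 (merge (leaf 4 434 531) (node 562 (merge (leaf 4 466 595) (node 435 (merge (leaf 6 402 403) (leaf 6 434 467)))))))))))))))) (merge (node 431 (merge (node 462 (merge (leaf 1 430 463) (node 430 (merge (leaf 1 429 461) (node 402 (merge (leaf 2 398 401) (leaf 2 399 403))))))) (merge (node 403 (merge (leaf 2 399 402) (node 435 (merge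 (leaf 2 400 404) (node 399 (merge (leaf 3 398 398) (leaf 3 399 400))))))) (node 462 (merge (leaf 1 430 463) (node 430 (merge (leaf 1 429 461) (node 399 (merge (leaf 3 398 398) (node 526 (merge (leaf 6 398 494) (node 527 (merge (leaf 2 493 525) (node 529 (merge (leaf 2 494 498) (node 558 (merge (leaf 1 525 557) (node 530 (merge (leaf 1 526 559) (node 563 (merge (leaf 0 527 562) (node 531 (merge (leaf 3 496 532) (leaf 0 528 564)))))))))))))))))))))))) (merge (node 431 (merge (node 462 (merge (leaf 1 430 463) (node 430 (merge (leaf 1 429 461) (node 402 (merge (leaf 2 398 401) (leaf 2 399 403))))))) (merge (node 466 (merge (leaf 0 431 467) (node 402 (merge (leaf 2 399 403) (node 498 (merge (leaf 5 401 529) (node 499 (merge (leaf 1 495 527) (leaf 4 402 531))))))))) (merge (node 466 (merge (leaf 0 431 467) (node 402 (merge (leaf 2 399 403) (node 498 (merge (leaf 5 401 529) (node 499 (merge (leaf 1 495 527) (leaf 4 402 531))))))))) (node 462 (merge (leaf 1 430 463) (node 430 (merge (leaf 1 429 461) (node 399 (merge (leaf 3 398 398) (node 526 (merge (leaf 6 398 494) (node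 527 (merge (leaf 2 493 525) (node 529 (merge (leaf 2 494 498) (node 558 (merge (leaf 1 525 557) (node 530 (merge (leaf 1 526 559) (node 563 (merge (leaf 0 527 562) (node 531 (merge (leaf 3 496 532) (leaf 0 528 564))))))))))))))))))))))))) (merge (node 431 (merge (node 467 (merge (leaf 0 431 466) (node 435 (merge (leaf 0 432 468) (node 399 (merge (leaf 3 398 398) (leaf 3 399 400))))))) (merge (node 462 (merge (leaf 1 430 463) (node 430 (merge (leaf 1 429 461) (node 399 (merge (leaf 3 398 398) (node 526 (merge (leaf 6 398 494) (node 527 (merge (leaf 2 493 525) (node 529 (merge (leaf 2 494 498) (node 558 (merge (leaf 1 525 557) (node 530 (merge (leaf 1 526 559) (node 563 (merge (leaf 0 527 562) (node 531 (merge (leaf 3 496 532) (leaf 0 528 564))))))))))))))))))))) (merge (node 467 (merge (leaf 0 431 466) (node 435 (merge (leaf 0 432 468) (node 400 (merge (leaf 3 399 399) (node 401 (merge (leaf 3 400 436) (node 430 (merge (leaf 2 398 402) (leaf 2 397 429))))))))))) (node 466 (merge (leaf 0 431 467) (node 462 (merge (leaf 1 430 463) (node 430 (merge (leaf 1 429 461)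 (node 402 (merge (leaf 2 398 401) (node 498 (merge (leaf 5 401 529) (node 499 (merge (leaf 1 495 527) (leaf 4 402 531))))))))))))))))) (node 435 (merge (node 468 (merge (leaf 0 432 467) (node 436 (merge (leaf 0 433 469) (node 400 (merge (leaf 3 399 399) (leaf 3 400 401))))))) (merge (node 468 (merge (leaf 0 432 467) (node 436 (merge (leaf 0 433 469) (node 404 (merge (leaf 2 400 403) (leaf 2 401 405))))))) (merge (node 404 (merge (leaf 2 400 403) (node 436 (merge (leaf 2 401 405) (node 400 (merge (leaf 3 399 399) (leaf 3 400 401))))))) (node 467 (merge (leaf 0 432 468) (node 431 (merge (leaf 0 431 466) (node 399 (merge (leaf 3 398 398) (leaf 3 399 400))))))))))))))))) (node 401 (merge (leaf 5 400 465) (node 434 (merge (node 403 (merge (node 435 (merge (leaf 2 400 404) (node 400 (merge (leaf 3 399 399) (leaf 3 400 436))))) (merge (node 404 (merge (leaf 2 400 435) (node 402 (merge (leaf 1 400 401) (leaf 1 401 405))))) (merge (node 402 (merge (leaf 1 400 404) (node 431 (merge (leaf 1 399 400) (leaf 2 399 434))))) (node 431 (merge (leaf 2 399 402) (node 462 (merge (leaf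 1 430 463) (node 430 (merge (leaf 1 429 461) (node 400 (merge (leaf 2 397 429) (node 399 (merge (leaf 0 398 398) (leaf 3 399 435))))))))))))))) (merge (node 431 (merge (node 467 (merge (leaf 0 431 466) (node 435 (merge (leaf 0 432 468) (node 399 (merge (leaf 3 398 398) (leaf 3 399 400))))))) (node 462 (merge (leaf 1 430 463) (node 430 (merge (leaf 1 429 461) (node 402 (merge (leaf 2 398 401) (leaf 2 399 403))))))))) (merge (node 498 (merge (node 466 (merge (leaf 7 401 530) (node 402 (merge (leaf 7 369 369) (node 403 (merge (leaf 6 370 371) (leaf 1 400 404))))))) (merge (node 499 (merge (leaf 1 495 527) (node 531 (merge (leaf 0 496 532) (node 467 (merge (leaf 2 464 468) (node 435 (merge (leaf 7 402 402) (node 436 (merge (leaf 3 400 400) (leaf 6 403 404))))))))))) (node 499 (merge (leaf 1 495 527) (node 532 (merge (leaf 0 496 531) (node 500 (merge (leaf 0 497 533) (node 468 (merge (leaf 2 464 467) (leaf 2 465 469)))))))))))) (merge (node 466 (merge (node 498 (merge (leaf 7 401 530) (node 402 (merge (leaf 7 369 369) (node 403 (merge (leaf 6 370 371) (leaf 1 400 404)))))))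 (merge (node 431 (merge (leaf 0 431 467) (node 402 (merge (leaf 2 399 403) (leaf 2 398 430))))) (merge (node 431 (merge (leaf 0 431 467) (node 402 (merge (leaf 2 399 403) (leaf 2 398 430))))) (node 431 (merge (leaf 0 431 467) (node 462 (merge (leaf 1 430 463) (node 430 (merge (leaf 1 429 461) (node 398 (merge (leaf 3 397 397) (leaf 3 398 399))))))))))))) (merge (node 435 (merge (node 468 (merge (leaf 0 432 467) (node 436 (merge (leaf 0 433 469) (node 400 (merge (leaf 3 399 399) (leaf 3 400 401))))))) (merge (node 468 (merge (leaf 0 432 467) (node 436 (merge (leaf 0 433 469) (node 404 (merge (leaf 2 400 403) (leaf 2 401 405))))))) (merge (node 404 (merge (leaf 2 400 403) (node 436 (merge (leaf 2 401 405) (node 400 (merge (leaf 3 399 399) (leaf 3 400 401))))))) (node 467 (merge (leaf 0 432 468) (node 431 (merge (leaf 0 431 466) (node 399 (merge (leaf 3 398 398) (leaf 3 399 400))))))))))) (node 435 (merge (node 436 (merge (leaf 3 400 400) (node 405 (merge (leaf 2 401 404) (node 437 (merge (leaf 3 401 402) (leaf 2 402 406))))))) (merge (node 468 (merge (leaf 0 432 467)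 (node 436 (merge (leaf 0 433 469) (node 400 (merge (leaf 3 399 399) (leaf 3 400 401))))))) (node 467 (merge (leaf 0 432 468) (node 431 (merge (leaf 0 431 466) (node 462 (merge (leaf 1 430 463) (node 430 (merge (leaf 2 398 402) (leaf 1 429 461))))))))))))))))))))))))))) nQ_17 cQ_17 14 (by decide +kernel)

end Crest.Agent.H26Snaky
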