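import Crest.Agent.H26SnQ00

/-! certificate data for S0047, part Q 1 (computer generated) -/

set_option autoImplicit false
set_option maxRecDepth 100000

namespace Crest.Agent.H26Snaky

open T

def nQ_18 : ℕ := 0x1000000030000000000000000000000000000000000000000000000000000000000000000000000000000000000000000000000000000000000000000000000000000
def cQ_18 : ℕ := 0x48000000c8000001ce000003ee000001c6000007ff000003fe000007ff000003fc000001f0000001a0000000000000000000000000000000000000000000000000000000000000000000000000000
theorem lQ_18 : S nQ_18 cQ_18 15 := S_of_chk [(nQ_17, cQ_17, 14)] ⟨lQ_17, trivial⟩ (node 432 (merge (node 464 (merge (node 400 (merge (leaf 4 400 529) (node 399 (merge (leaf 7 367 367) (leaf 7 399 431))))) (merge (node 401 (merge (leaf 6 400 433) (node 400 (merge (leaf 6 368 369) (node 399 (merge (leaf 7 367 367) (leaf 7 399 431))))))) (node 527 (merge (leaf 5 431 559) (node 498 (merge (leaf 1 495 499) (node 526 (merge (leaf 2 493 525) (leaf 2 494 529)))))))))) (merge (node 529 (merge (node 433 (merge (node 464 (merge (leaf 4 400 400) (leaf 6 400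 401))) (merge (node 465 (merge (leaf 7 400 400) (leaf 5 400 401))) (merge (node 400 (merge (leaf 4 400 464) (leaf 7 400 465))) (node 401 (merge (leaf 6 400 464) (leaf 5 400 465))))))) (merge (node 464 (merge (leaf 4 400 400) (node 527 (merge (leaf 5 431 559) (node 526 (merge (leaf 2 494 498) (leaf 2 493 525))))))) (node 527 (merge (node 526 (merge (leaf 2 494 498) (leaf 2 493 525))) (merge (node 526 (merge (leaf 2 493 525) (node 558 (merge (leaf 1 525 557) (node 530 (merge (leaf 1 526 559) (node 563 (merge (leaf 0 527 562) (node 531 (merge (leaf 3 496 532) (leaf 0 528 564))))))))))) (node 530 (merge (node 499 (merge (leaf 2 495 498) (node 531 (merge (leaf 2 496 500) (leaf 3 496 532))))) (merge (node 562 (merge (leaf 0 527 563) (node 498 (merge (leaf 1 495 499) (node 594 (merge (leaf 7 465 465) (leaf 7 497 626))))))) (merge (node 562 (merge (leaf 0 527 563) (node 465 (merge (leaf 4 433 433) (node 594 (merge (leaf 7 465 498) (leaf 7 497 626))))))) (node 563 (merge (leaf 0 527 562) (node 531 (merge (leaf 3 496 532) (leaf 0 528 564))))))))))))))) (merge (node 433 (merge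 (node 401 (merge (leaf 6 400 464) (leaf 5 400 465))) (merge (node 464 (merge (leaf 6 400 401) (node 400 (merge (leaf 4 400 529) (node 399 (merge (leaf 7 367 367) (leaf 7 399 431))))))) (merge (node 465 (merge (leaf 5 400 401) (node 529 (merge (leaf 7 400 400) (node 530 (merge (leaf 4 433 562) (node 531 (merge (leaf 3 496 532) (node 563 (merge (leaf 0 528 564) (node 434 (merge (leaf 6 401 402) (node 466 (merge (leaf 4 434 498) (node 467 (merge (leaf 0 431 431) (leaf 1 464 468))))))))))))))))) (node 465 (merge (node 400 (merge (leaf 7 400 529) (node 368 (merge (leaf 4 336 336) (leaf 4 368 464))))) (merge (node 529 (merge (leaf 7 400 400) (node 530 (merge (leaf 4 433 562) (node 531 (merge (leaf 3 496 532) (node 563 (merge (leaf 0 528 564) (node 434 (merge (leaf 6 401 402) (node 466 (merge (leaf 4 434 498) (node 467 (merge (leaf 0 431 431) (leaf 1 464 468))))))))))))))) (node 431 (merge (node 466 (merge (leaf 0 430 430) (node 464 (merge (leaf 7 399 399) (leaf 3 431 467))))) (merge (node 464 (merge (leaf 7 399 399) (node 430 (merge (leaf 0 429 429) (node 462 (merge (leaf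 1 429 461) (node 463 (merge (leaf 1 430 434) (leaf 0 462 498))))))))) (merge (node 430 (merge (leaf 0 430 466) (node 462 (merge (leaf 1 429 461) (node 434 (merge (leaf 1 430 463) (node 398 (merge (leaf 3 397 397) (leaf 3 398 399))))))))) (merge (node 466 (merge (leaf 0 430 430) (node 467 (merge (leaf 0 431 434) (leaf 3 431 464))))) (node 399 (merge (leaf 7 399 464) (node 434 (merge (leaf 3 398 398) (node 466 (merge (leaf 0 431 467) (node 402 (merge (leaf 2 399 403) (node 370 (merge (leaf 5 369 465) (node 339 (merge (leaf 6 338 371) (node 338 (merge (leaf 6 306 307) (node 337 (merge (leaf 7 305 305) (leaf 7 337 369))))))))))))))))))))))))))))) (merge (node 433 (merge (node 401 (merge (leaf 6 400 464) (leaf 5 400 465))) (merge (node 464 (merge (leaf 6 400 401) (node 400 (merge (leaf 4 400 529) (node 399 (merge (leaf 7 367 367) (leaf 7 399 431))))))) (merge (node 465 (merge (leaf 5 400 401) (node 529 (merge (leaf 7 400 400) (node 530 (merge (leaf 4 433 562) (node 531 (merge (leaf 3 496 532) (node 563 (merge (leaf 0 528 564) (node 499 (merge (leaf 2 496 500) (node 434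 (merge (leaf 6 401 402) (node 467 (merge (leaf 7 434 466) (node 468 (merge (leaf 0 432 435) (leaf 6 435 436))))))))))))))))))) (node 529 (merge (node 464 (merge (leaf 4 400 400) (node 527 (merge (leaf 5 431 559) (node 526 (merge (leaf 2 493 525) (node 558 (merge (leaf 1 525 557) (node 494 (merge (leaf 3 493 493) (node 431 (merge (leaf 7 399 399) (node 462 (merge (leaf 6 430 463) (node 461 (merge (leaf 7 429 429) (leaf 1 429 430))))))))))))))))) (merge (node 465 (merge (leaf 7 400 400) (node 530 (merge (leaf 4 433 562) (node 531 (merge (leaf 3 496 532) (node 563 (merge (leaf 0 528 564) (node 499 (merge (leaf 2 496 500) (node 434 (merge (leaf 6 401 402) (node 467 (merge (leaf 7 434 466) (node 468 (merge (leaf 0 432 435) (leaf 6 435 436))))))))))))))))) (node 527 (merge (node 526 (merge (leaf 2 493 525) (node 558 (merge (leaf 1 525 557) (node 530 (merge (leaf 1 526 559) (node 563 (merge (leaf 0 527 562) (node 531 (merge (leaf 3 496 532) (leaf 0 528 564))))))))))) (merge (node 526 (merge (leaf 2 493 525) (node 558 (merge (leaf 1 525 557) (node 494 (merge (leaf 3 493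 493) (node 464 (merge (leaf 5 431 559) (node 431 (merge (leaf 7 399 399) (node 462 (merge (leaf 6 430 463) (node 461 (merge (leaf 7 429 429) (leaf 1 429 430))))))))))))))) (merge (node 431 (merge (node 526 (merge (leaf 2 493 525) (node 558 (merge (leaf 1 525 557) (node 494 (merge (leaf 3 493 493) (node 462 (merge (leaf 6 430 463) (node 461 (merge (leaf 7 429 429) (leaf 1 429 430))))))))))) (merge (node 399 (merge (leaf 7 399 464) (node 434 (merge (leaf 3 398 398) (node 466 (merge (leaf 0 431 467) (node 465 (merge (leaf 6 401 402) (leaf 0 430 430))))))))) (node 526 (merge (leaf 2 493 525) (node 558 (merge (leaf 1 525 557) (node 494 (merge (leaf 3 493 493) (node 463 (merge (leaf 6 430 462) (node 464 (merge (leaf 7 399 399) (node 434 (merge (leaf 1 431 435) (node 402 (merge (leaf 2 399 403) (leaf 6 401 465)))))))))))))))))) (node 434 (merge (node 464 (merge (leaf 5 431 559) (node 463 (merge (leaf 1 431 435) (node 431 (merge (leaf 7 399 399) (leaf 1 430 462))))))) (merge (node 465 (merge (leaf 6 401 402) (node 530 (merge (leaf 4 433 562) (node 531 (merge (leaf 3 496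 532) (node 563 (merge (leaf 0 528 564) (node 499 (merge (leaf 2 496 500) (node 467 (merge (leaf 7 434 466) (node 468 (merge (leaf 0 432 435) (leaf 6 435 436))))))))))))))) (node 464 (merge (leaf 5 431 559) (node 465 (merge (leaf 6 401 402) (node 431 (merge (leaf 7 399 399) (node 430 (merge (leaf 0 429 429) (leaf 0 430 466))))))))))))))))))))))) (merge (node 464 (merge (node 400 (merge (leaf 4 400 529) (node 399 (merge (leaf 7 367 367) (leaf 7 399 431))))) (merge (node 400 (merge (leaf 4 400 529) (node 368 (merge (leaf 4 368 465) (node 369 (merge (leaf 6 336 337) (leaf 6 368 401))))))) (merge (node 399 (merge (leaf 7 399 431) (node 400 (merge (leaf 7 367 367) (node 368 (merge (leaf 4 368 465) (node 369 (merge (leaf 6 336 337) (leaf 6 368 401))))))))) (node 527 (merge (leaf 5 431 559) (node 526 (merge (leaf 2 493 525) (node 529 (merge (leaf 2 494 498) (node 558 (merge (leaf 1 525 557) (node 494 (merge (leaf 3 493 493) (node 431 (merge (leaf 7 399 399) (node 462 (merge (leaf 6 430 463) (node 429 (merge (leaf 7 429 461) (node 430 (merge (leaf 7 397 397) (leaf 0 429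 465))))))))))))))))))))))) (merge (node 498 (merge (node 527 (merge (leaf 1 495 499) (node 526 (merge (leaf 2 493 525) (leaf 2 494 529))))) (merge (node 499 (merge (leaf 1 495 527) (node 468 (merge (leaf 2 464 467) (node 500 (merge (leaf 2 465 469) (node 464 (merge (leaf 3 463 463) (leaf 3 464 465))))))))) (merge (node 464 (merge (node 499 (merge (leaf 3 463 463) (node 500 (merge (leaf 3 464 465) (leaf 1 496 529))))) (merge (node 400 (merge (leaf 4 400 529) (node 399 (merge (leaf 7 367 367) (leaf 7 399 431))))) (node 499 (merge (leaf 3 463 463) (node 468 (merge (leaf 2 464 467) (node 500 (merge (leaf 3 464 465) (leaf 2 465 469)))))))))) (node 464 (merge (node 400 (merge (leaf 4 400 529) (node 399 (merge (leaf 7 367 367) (leaf 7 399 431))))) (merge (node 527 (merge (leaf 5 431 559) (node 526 (merge (leaf 2 493 525) (leaf 2 494 529))))) (node 431 (merge (leaf 7 399 399) (node 465 (merge (node 430 (merge (leaf 0 429 429) (node 466 (merge (leaf 0 430 433) (leaf 3 431 467))))) (merge (node 463 (merge (leaf 0 462 462) (node 466 (merge (leaf 3 430 430) (leaf 3 431 467)))))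 (merge (node 430 (merge (leaf 0 429 429) (node 462 (merge (leaf 0 462 463) (node 461 (merge (leaf 1 429 433) (node 527 (merge (leaf 5 431 559) (node 525 (merge (leaf 2 493 526) (node 493 (merge (leaf 6 429 557) (node 398 (merge (leaf 5 365 366) (leaf 5 397 494))))))))))))))) (merge (node 430 (merge (leaf 0 429 429) (node 466 (merge (leaf 0 430 433) (leaf 3 430 463))))) (node 463 (merge (leaf 0 462 462) (node 466 (merge (leaf 3 431 467) (node 434 (merge (leaf 2 431 435) (node 402 (merge (leaf 5 369 370) (node 403 (merge (leaf 6 370 371) (leaf 2 399 433))))))))))))))))))))))))) (merge (node 433 (merge (node 401 (merge (leaf 6 400 464) (leaf 5 400 465))) (merge (node 464 (merge (leaf 6 400 401) (node 527 (merge (leaf 5 431 559) (node 526 (merge (leaf 2 493 525) (node 529 (merge (leaf 2 494 498) (node 558 (merge (leaf 1 525 557) (node 494 (merge (leaf 3 493 493) (node 431 (merge (leaf 7 399 399) (node 462 (merge (leaf 6 430 463) (node 461 (merge (leaf 7 429 429) (leaf 1 429 430))))))))))))))))))) (merge (node 465 (merge (leaf 5 400 401) (node 434 (merge (node 529 (merge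 (leaf 6 401 402) (node 530 (merge (leaf 4 433 562) (node 531 (merge (leaf 3 496 532) (node 499 (merge (leaf 2 496 500) (node 527 (merge (leaf 1 495 498) (node 558 (merge (leaf 1 526 559) (node 526 (merge (leaf 2 493 525) (leaf 1 525 557))))))))))))))) (merge (node 402 (merge (node 370 (merge (leaf 5 337 338) (leaf 5 369 466))) (merge (node 431 (merge (leaf 2 399 403) (node 466 (merge (leaf 0 430 430) (leaf 0 431 467))))) (node 431 (merge (leaf 2 399 403) (node 462 (merge (leaf 1 430 463) (node 430 (merge (leaf 1 429 461) (node 398 (merge (leaf 3 397 397) (leaf 3 398 399)))))))))))) (node 435 (merge (node 468 (merge (leaf 0 432 467) (node 436 (merge (leaf 0 433 469) (node 404 (merge (leaf 2 400 403) (leaf 2 401 405))))))) (merge (node 404 (merge (leaf 2 400 403) (node 436 (merge (leaf 2 401 405) (node 466 (merge (leaf 1 433 437) (node 431 (merge (leaf 0 430 430) (leaf 0 431 467))))))))) (merge (node 404 (merge (leaf 2 400 403) (node 436 (merge (leaf 2 401 405) (node 469 (merge (leaf 0 433 468) (node 437 (merge (leaf 1 433 466) (leaf 0 434 470))))))))) (node 467 (merge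 (leaf 0 432 468) (node 431 (merge (leaf 0 431 466) (node 462 (merge (leaf 1 430 463) (node 430 (merge (leaf 1 429 461) (node 399 (merge (leaf 3 398 398) (node 526 (merge (leaf 6 398 494) (node 527 (merge (leaf 2 493 525) (node 498 (merge (leaf 1 495 499) (leaf 2 494 529)))))))))))))))))))))))))) (node 431 (merge (node 464 (merge (leaf 7 399 399) (node 527 (merge (leaf 5 431 559) (node 498 (merge (leaf 1 495 499) (node 526 (merge (leaf 2 493 525) (leaf 2 494 529))))))))) (merge (node 399 (merge (leaf 7 399 464) (node 434 (merge (leaf 3 398 398) (node 466 (merge (leaf 0 431 467) (node 402 (merge (leaf 2 399 403) (node 370 (merge (leaf 5 369 465) (node 339 (merge (leaf 6 338 371) (node 338 (merge (leaf 6 306 307) (node 337 (merge (leaf 7 305 305) (leaf 7 337 369))))))))))))))))) (merge (node 434 (merge (node 466 (merge (leaf 0 431 467) (node 402 (merge (leaf 2 399 403) (node 529 (merge (leaf 6 401 465) (leaf 5 401 498))))))) (merge (node 462 (merge (leaf 1 430 463) (node 430 (merge (leaf 1 429 461) (node 399 (merge (leaf 3 398 398) (node 526 (merge (leaf 6 398 494)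 (node 527 (merge (leaf 2 493 525) (node 529 (merge (leaf 2 494 498) (node 558 (merge (leaf 1 525 557) (node 530 (merge (leaf 1 526 559) (node 563 (merge (leaf 0 527 562) (node 531 (merge (leaf 3 496 532) (leaf 0 528 564))))))))))))))))))))) (node 466 (merge (leaf 0 431 467) (node 402 (merge (leaf 2 399 403) (node 370 (merge (leaf 5 369 465) (node 339 (merge (leaf 6 338 371) (node 338 (merge (leaf 6 306 307) (node 337 (merge (leaf 7 305 305) (leaf 7 337 369)))))))))))))))) (node 434 (merge (node 466 (merge (leaf 0 431 467) (node 402 (merge (leaf 2 399 403) (node 529 (merge (leaf 6 401 465) (leaf 5 401 498))))))) (merge (node 467 (merge (leaf 0 431 466) (node 435 (merge (leaf 0 432 468) (node 463 (merge (leaf 1 430 462) (leaf 1 431 464))))))) (merge (node 463 (merge (leaf 1 430 462) (node 435 (merge (leaf 1 431 464) (node 467 (merge (leaf 0 432 468) (node 402 (merge (leaf 2 399 403) (node 529 (merge (leaf 6 401 465) (node 531 (merge (leaf 7 402 499) (node 530 (merge (leaf 3 496 532) (node 563 (merge (leaf 0 528 564) (node 527 (merge (leaf 0 527 562) (node 526 (merge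 (leaf 2 494 498) (leaf 2 493 525))))))))))))))))))))) (node 462 (merge (leaf 1 430 463) (node 430 (merge (leaf 1 429 461) (node 465 (merge (leaf 0 430 466) (node 402 (merge (leaf 2 399 403) (leaf 6 401 529))))))))))))))))))))) (merge (hyp 0) (node 498 (merge (node 499 (merge (leaf 1 495 527) (node 532 (merge (leaf 0 496 531) (node 500 (merge (leaf 0 497 533) (node 464 (merge (leaf 3 463 463) (leaf 3 464 465))))))))) (merge (node 499 (merge (leaf 1 495 527) (node 532 (merge (leaf 0 496 531) (node 500 (merge (leaf 0 497 533) (node 468 (merge (leaf 2 464 467) (leaf 2 465 469))))))))) (merge (node 464 (merge (node 401 (merge (leaf 6 400 433) (node 400 (merge (leaf 6 368 369) (node 399 (merge (leaf 7 367 367) (leaf 7 399 431))))))) (merge (node 499 (merge (leaf 3 463 463) (node 468 (merge (leaf 2 464 467) (node 500 (merge (leaf 3 464 465) (leaf 2 465 469))))))) (node 499 (merge (leaf 3 463 463) (node 468 (merge (leaf 2 464 467) (node 500 (merge (leaf 3 464 465) (leaf 2 465 469)))))))))) (node 433 (merge (node 401 (merge (leaf 6 400 464) (leaf 5 400 465))) (merge (node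 434 (merge (node 464 (merge (leaf 6 400 401) (node 463 (merge (leaf 1 431 435) (node 431 (merge (leaf 7 399 399) (leaf 1 430 462))))))) (merge (node 399 (merge (node 431 (merge (leaf 3 398 398) (leaf 7 399 464))) (node 435 (merge (leaf 3 399 400) (node 468 (merge (leaf 0 432 467) (node 436 (merge (leaf 0 433 469) (node 404 (merge (leaf 2 400 403) (leaf 2 401 405))))))))))) (merge (node 431 (merge (node 467 (merge (leaf 0 431 466) (node 435 (merge (leaf 0 432 468) (node 399 (merge (leaf 3 398 398) (leaf 3 399 400))))))) (node 462 (merge (leaf 1 430 463) (node 430 (merge (leaf 1 429 461) (node 402 (merge (leaf 2 398 401) (leaf 2 399 403))))))))) (merge (node 464 (merge (leaf 6 400 401) (node 435 (merge (leaf 1 431 463) (node 403 (merge (leaf 2 400 404) (node 402 (merge (leaf 2 399 431) (node 466 (merge (leaf 6 370 371) (leaf 6 402 530))))))))))) (merge (node 464 (merge (leaf 6 400 401) (node 435 (merge (leaf 1 431 463) (node 403 (merge (leaf 2 400 404) (node 466 (merge (leaf 6 402 530) (node 371 (merge (leaf 5 338 339) (leaf 5 370 467))))))))))) (node 464 (merge (leaf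 6 400 401) (node 527 (merge (leaf 5 431 559) (node 526 (merge (leaf 2 493 525) (node 431 (merge (leaf 7 399 399) (node 462 (merge (leaf 1 430 463) (node 430 (merge (leaf 1 429 461) (node 397 (merge (leaf 3 397 398) (node 429 (merge (leaf 3 396 396) (leaf 7 397 494))))))))))))))))))))))) (merge (node 434 (merge (node 401 (merge (leaf 5 400 465) (node 466 (merge (leaf 7 401 530) (node 402 (merge (leaf 7 369 369) (node 403 (merge (leaf 1 400 404) (leaf 2 399 431))))))))) (merge (node 401 (merge (leaf 5 400 465) (node 466 (merge (leaf 7 401 530) (node 467 (merge (leaf 0 431 431) (node 468 (merge (leaf 0 432 435) (leaf 1 465 469))))))))) (merge (node 431 (merge (node 467 (merge (leaf 0 431 466) (node 435 (merge (leaf 0 432 468) (node 399 (merge (leaf 3 398 398) (leaf 3 399 400))))))) (node 462 (merge (leaf 1 430 463) (node 430 (merge (leaf 1 429 461) (node 402 (merge (leaf 2 398 401) (leaf 2 399 403))))))))) (merge (node 401 (merge (leaf 5 400 465) (node 403 (merge (node 435 (merge (leaf 2 400 404) (node 400 (merge (leaf 3 399 399) (leaf 3 400 436))))) (merge (node 404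 (merge (leaf 2 400 435) (node 402 (merge (leaf 1 400 401) (leaf 1 401 405))))) (merge (node 402 (merge (leaf 1 400 404) (node 431 (merge (leaf 1 399 400) (leaf 2 399 434))))) (node 431 (merge (leaf 2 399 402) (node 462 (merge (leaf 1 430 463) (node 430 (merge (leaf 1 429 461) (node 400 (merge (leaf 2 397 429) (node 399 (merge (leaf 0 398 398) (leaf 3 399 435))))))))))))))))) (merge (node 431 (merge (node 467 (merge (leaf 0 431 466) (node 435 (merge (leaf 0 432 468) (node 399 (merge (leaf 3 398 398) (leaf 3 399 400))))))) (merge (node 403 (merge (leaf 2 399 402) (node 435 (merge (leaf 2 400 404) (node 399 (merge (leaf 3 398 398) (leaf 3 399 400))))))) (node 466 (merge (leaf 0 431 467) (node 402 (merge (leaf 2 399 403) (node 370 (merge (leaf 5 369 465) (node 339 (merge (leaf 6 338 371) (node 338 (merge (leaf 6 306 307) (node 337 (merge (leaf 7 305 305) (leaf 7 337 369)))))))))))))))) (node 401 (merge (leaf 5 400 465) (node 466 (merge (leaf 7 401 530) (node 402 (merge (leaf 7 369 369) (node 403 (merge (leaf 6 370 371) (node 404 (merge (leaf 1 401 405) (node 436 (merge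 (leaf 0 401 437) (node 435 (merge (leaf 0 400 400) (node 372 (merge (leaf 2 369 373) (node 340 (merge (leaf 5 307 308) (leaf 5 339 467))))))))))))))))))))))))) (node 431 (merge (node 399 (merge (leaf 7 399 464) (node 434 (merge (leaf 3 398 398) (node 403 (merge (leaf 2 399 402) (node 435 (merge (leaf 3 399 400) (leaf 2 400 404))))))))) (merge (node 434 (merge (node 463 (merge (leaf 1 430 462) (node 464 (merge (leaf 7 399 399) (leaf 1 431 435))))) (merge (node 467 (merge (leaf 0 431 466) (node 435 (merge (leaf 0 432 468) (node 463 (merge (leaf 1 430 462) (leaf 1 431 464))))))) (node 466 (merge (leaf 0 431 467) (node 402 (merge (leaf 2 399 403) (node 370 (merge (leaf 5 369 465) (node 339 (merge (leaf 6 338 371) (node 338 (merge (leaf 6 306 307) (node 337 (merge (leaf 7 305 305) (leaf 7 337 369)))))))))))))))) (merge (node 434 (merge (node 467 (merge (leaf 0 431 466) (node 435 (merge (leaf 0 432 468) (node 399 (merge (leaf 3 398 398) (leaf 3 399 400))))))) (merge (node 403 (merge (leaf 2 399 402) (node 435 (merge (leaf 2 400 404) (node 399 (merge (leaf 3 398 398) (leaf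 3 399 400))))))) (node 466 (merge (leaf 0 431 467) (node 402 (merge (leaf 2 399 403) (node 370 (merge (leaf 5 369 465) (node 339 (merge (leaf 6 338 371) (node 338 (merge (leaf 6 306 307) (node 337 (merge (leaf 7 305 305) (leaf 7 337 369)))))))))))))))) (merge (node 434 (merge (node 467 (merge (leaf 0 431 466) (node 435 (merge (leaf 0 432 468) (node 463 (merge (leaf 1 430 462) (leaf 1 431 464))))))) (merge (node 466 (merge (leaf 0 431 467) (node 402 (merge (leaf 2 399 403) (node 370 (merge (leaf 5 369 465) (node 339 (merge (leaf 6 338 371) (node 338 (merge (leaf 6 306 307) (node 337 (merge (leaf 7 305 305) (leaf 7 337 369))))))))))))) (node 462 (merge (leaf 1 430 463) (node 430 (merge (leaf 1 429 461) (node 397 (merge (leaf 3 397 398) (node 429 (merge (leaf 3 396 396) (node 464 (merge (leaf 0 429 465) (node 527 (merge (leaf 5 431 559) (node 526 (merge (leaf 7 397 494) (leaf 2 493 525)))))))))))))))))) (node 430 (merge (node 465 (merge (leaf 0 430 466) (node 464 (merge (leaf 7 399 399) (leaf 0 429 429))))) (merge (node 461 (merge (leaf 1 429 462) (node 429 (merge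 (leaf 1 428 460) (node 397 (merge (leaf 3 396 396) (leaf 3 397 398))))))) (merge (node 465 (merge (leaf 0 430 466) (node 464 (merge (leaf 0 429 429) (node 462 (merge (leaf 1 429 461) (leaf 0 462 463))))))) (node 465 (merge (leaf 0 430 466) (node 462 (merge (leaf 1 429 461) (node 464 (merge (leaf 7 399 399) (leaf 0 462 463))))))))))))))))))))))))))))))))) nQ_18 cQ_18 15 (by decide +kernel)
def nQ_19 : ℕ := 0x1800000030000000000000000000000000000000000000000000000000000000000000000000000000000000000000000000000000000000000000000000000000000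
def cQ_19 : ℕ := 0x50000007fc000007f8000000f800000070000000f000000ff000001ff000001ff000000280000000000000000000000000000000000000000000000000000000000000000000000000000000000000000000
theorem lQ_19 : S nQ_19 cQ_19 14 := S_of_chk [] trivial (node 464 (merge (node 559 (merge (leaf 5 431 432) (node 591 (merge (leaf 6 463 495) (leaf 6 495 623))))) (merge (node 432 (merge (leaf 5 431 559) (node 401 (merge (leaf 6 400 433) (node 400 (merge (leaf 6 368 369) (node 399 (merge (leaf 7 367 367) (leaf 7 399 431))))))))) (merge (node 495 (merge (node 526 (merge (leaf 2 493 525) (node 432 (merge (leaf 5 399 400) (node 433 (merge (leaf 6 400 401) (node 431 (merge (leaf 7 399 399) (node 463 (merge (leaf 5 430 558) (node 462 (merge (leaf 1 430 434) (leaf 0 461 461))))))))))))) (merge (node 525 (merge (leaf 2 493 526) (node 494 (merge (node 493 (merge (leaf 0 492 492) (leaf 1 492 524))) (merge (node 493 (merge (leaf 0 492 492) (leaf 1 492 524))) (node 465 (merge (leaf 2 462 466) (node 462 (merge (leaf 3 461 461) (node 430 (merge (leaf 4 398 398) (node 463 (merge (leaf 3 429 429)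 (node 433 (merge (leaf 5 400 401) (leaf 2 430 434)))))))))))))))) (merge (node 526 (merge (leaf 2 493 525) (node 432 (merge (leaf 5 399 400) (node 433 (merge (leaf 6 400 401) (node 431 (merge (leaf 7 399 399) (node 463 (merge (leaf 5 430 558) (node 434 (merge (leaf 1 431 435) (node 466 (merge (leaf 0 431 467) (node 430 (merge (leaf 7 398 398) (leaf 0 430 465))))))))))))))))) (merge (node 526 (merge (leaf 2 493 525) (node 432 (merge (leaf 5 399 400) (node 431 (merge (leaf 7 399 399) (node 463 (merge (leaf 5 430 558) (node 430 (merge (leaf 7 398 398) (node 429 (merge (leaf 0 428 428) (leaf 0 429 465))))))))))))) (merge (node 526 (merge (leaf 2 493 525) (node 432 (merge (leaf 5 399 400) (node 433 (merge (leaf 6 400 401) (node 431 (merge (leaf 7 399 399) (node 463 (merge (leaf 5 430 558) (node 462 (merge (leaf 1 430 434) (leaf 0 461 461))))))))))))) (merge (node 494 (merge (node 493 (merge (leaf 0 492 492) (node 461 (merge (leaf 3 460 460) (leaf 3 461 462))))) (merge (node 493 (merge (leaf 0 492 492) (node 465 (merge (leaf 2 461 464) (leaf 2 462 466))))) (node 465 (merge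 (leaf 2 462 466) (node 462 (merge (leaf 3 461 461) (node 432 (merge (leaf 5 399 400) (node 433 (merge (leaf 5 400 401) (node 434 (merge (leaf 2 430 463) (node 435 (merge (leaf 1 432 436) (node 403 (merge (leaf 2 400 404) (node 431 (merge (leaf 7 399 399) (leaf 2 399 402)))))))))))))))))))) (node 462 (merge (node 494 (merge (leaf 3 461 461) (node 465 (merge (leaf 2 462 466) (leaf 2 461 493))))) (merge (node 432 (merge (leaf 5 399 400) (node 433 (merge (leaf 6 400 401) (node 431 (merge (leaf 7 399 399) (node 430 (merge (leaf 1 429 461) (node 398 (merge (leaf 3 397 397) (leaf 4 398 494))))))))))) (merge (node 432 (merge (leaf 5 399 400) (node 433 (merge (leaf 6 400 401) (node 431 (merge (leaf 7 399 399) (node 430 (merge (leaf 1 429 461) (node 465 (merge (leaf 0 429 429) (leaf 0 430 466))))))))))) (node 430 (merge (node 494 (merge (leaf 4 398 398) (node 465 (merge (leaf 2 462 466) (leaf 2 461 493))))) (merge (node 398 (merge (leaf 4 398 494) (node 432 (merge (leaf 5 399 400) (node 433 (merge (leaf 6 400 401) (node 431 (merge (leaf 3 397 397) (leaf 7 399 399)))))))))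 (merge (node 526 (merge (leaf 2 493 525) (node 432 (merge (leaf 5 399 400) (node 431 (merge (leaf 7 399 399) (node 429 (merge (leaf 0 429 465) (node 397 (merge (leaf 3 396 396) (leaf 7 397 494))))))))))) (node 432 (merge (leaf 5 399 400) (node 433 (merge (leaf 6 400 401) (node 431 (merge (leaf 7 399 399) (node 429 (merge (leaf 0 429 465) (node 397 (merge (leaf 3 396 396) (leaf 3 397 398)))))))))))))))))))))))))) (node 495 (merge (node 494 (merge (node 493 (merge (leaf 0 492 492) (node 525 (merge (leaf 1 492 524) (leaf 2 493 526))))) (merge (node 493 (merge (leaf 0 492 492) (node 461 (merge (leaf 3 460 460) (leaf 3 461 462))))) (node 526 (merge (leaf 1 493 525) (node 462 (merge (leaf 3 461 461) (node 430 (merge (leaf 4 398 398) (leaf 4 430 559)))))))))) (merge (node 462 (merge (node 494 (merge (leaf 3 461 461) (node 465 (merge (leaf 2 462 466) (leaf 2 461 493))))) (merge (node 463 (merge (leaf 0 461 461) (node 559 (merge (leaf 7 430 430) (leaf 6 463 591))))) (node 559 (merge (leaf 6 463 591) (node 430 (merge (leaf 7 430 463) (node 494 (merge (leaf 4 398 398) (node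 465 (merge (leaf 2 462 466) (leaf 2 461 493)))))))))))) (merge (node 494 (merge (node 493 (merge (leaf 2 461 465) (leaf 0 492 492))) (merge (node 493 (merge (leaf 0 492 492) (node 525 (merge (leaf 1 492 524) (leaf 2 493 526))))) (node 526 (merge (leaf 1 493 525) (node 465 (merge (leaf 2 462 466) (node 462 (merge (leaf 3 461 461) (node 433 (merge (leaf 5 400 401) (node 463 (merge (leaf 2 430 434) (node 431 (merge (leaf 4 399 399) (leaf 5 430 558)))))))))))))))) (merge (node 494 (merge (node 493 (merge (leaf 0 492 492) (node 461 (merge (leaf 3 460 460) (leaf 3 461 462))))) (merge (node 493 (merge (leaf 0 492 492) (node 465 (merge (leaf 2 461 464) (leaf 2 462 466))))) (node 526 (merge (leaf 1 493 525) (node 465 (merge (leaf 2 462 466) (node 462 (merge (leaf 3 461 461) (node 433 (merge (leaf 5 400 401) (node 463 (merge (leaf 2 430 434) (node 431 (merge (leaf 4 399 399) (leaf 5 430 558)))))))))))))))) (merge (node 494 (merge (node 493 (merge (leaf 2 461 465) (leaf 0 492 492))) (merge (node 493 (merge (leaf 0 492 492) (node 525 (merge (leaf 1 492 524) (leaf 2 493 526)))))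 (node 526 (merge (leaf 1 493 525) (node 465 (merge (leaf 2 462 466) (node 433 (merge (leaf 5 400 401) (node 559 (merge (leaf 6 463 591) (node 462 (merge (leaf 4 430 430) (node 463 (merge (leaf 2 430 434) (node 558 (merge (leaf 5 430 431) (leaf 5 462 590)))))))))))))))))) (merge (node 463 (merge (node 431 (merge (leaf 4 399 399) (node 526 (merge (leaf 2 493 525) (leaf 5 430 558))))) (merge (node 559 (merge (node 462 (merge (leaf 7 430 430) (node 461 (merge (leaf 0 460 460) (leaf 0 461 464))))) (node 591 (merge (leaf 6 495 623) (node 590 (merge (leaf 5 462 558) (leaf 5 494 622))))))) (node 462 (merge (leaf 0 461 461) (node 431 (merge (leaf 4 399 399) (node 430 (merge (leaf 7 398 398) (node 465 (merge (leaf 3 429 429) (leaf 3 430 466)))))))))))) (node 590 (merge (node 559 (merge (leaf 6 463 591) (node 558 (merge (leaf 5 462 463) (node 622 (merge (leaf 6 494 526) (leaf 6 526 654))))))) (merge (node 526 (merge (leaf 2 493 525) (node 558 (merge (leaf 6 494 622) (node 494 (merge (leaf 6 462 463) (node 493 (merge (leaf 7 461 461) (leaf 2 461 465))))))))) (merge (node 525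 (merge (leaf 2 493 526) (node 559 (merge (leaf 6 463 591) (node 558 (merge (leaf 5 462 463) (node 557 (merge (leaf 2 524 556) (node 493 (merge (leaf 4 461 461) (node 494 (merge (leaf 0 492 492) (leaf 1 492 524))))))))))))) (merge (node 465 (merge (node 494 (merge (leaf 2 462 466) (leaf 2 461 493))) (merge (node 466 (merge (leaf 1 463 467) (node 559 (merge (leaf 6 463 591) (node 463 (merge (leaf 5 462 558) (node 431 (merge (leaf 4 399 399) (leaf 3 430 430))))))))) (node 493 (merge (leaf 2 461 494) (node 559 (merge (leaf 6 463 591) (node 558 (merge (leaf 5 462 463) (node 557 (merge (leaf 2 524 556) (node 525 (merge (leaf 4 461 461) (node 622 (merge (leaf 4 493 589) (leaf 7 525 654)))))))))))))))) (node 591 (merge (leaf 6 463 559) (node 589 (merge (node 493 (merge (node 494 (merge (leaf 2 461 465) (leaf 0 492 492))) (node 525 (merge (leaf 2 493 526) (node 557 (merge (leaf 4 493 622) (node 556 (merge (leaf 3 556 592) (node 588 (merge (leaf 3 555 555) (leaf 5 492 620))))))))))) (merge (node 493 (merge (node 494 (merge (leaf 2 461 465) (leaf 0 492 492))) (merge (node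 494 (merge (leaf 2 461 465) (node 525 (merge (leaf 1 492 524) (leaf 1 493 526))))) (node 525 (merge (leaf 2 493 526) (node 557 (merge (leaf 4 493 622) (node 620 (merge (leaf 5 492 588) (node 621 (merge (leaf 5 524 652) (node 492 (merge (leaf 7 460 460) (leaf 7 492 524)))))))))))))) (merge (node 493 (merge (node 494 (merge (leaf 2 461 465) (leaf 0 492 492))) (merge (node 494 (merge (leaf 2 461 465) (node 525 (merge (leaf 1 492 524) (leaf 1 493 526))))) (node 525 (merge (leaf 2 493 526) (node 557 (merge (leaf 4 493 622) (node 492 (merge (leaf 7 460 460) (node 621 (merge (leaf 7 492 524) (node 620 (merge (leaf 1 588 592) (leaf 5 524 652)))))))))))))) (merge (node 592 (merge (node 620 (merge (leaf 1 588 621) (node 588 (merge (leaf 1 587 619) (node 556 (merge (leaf 3 555 555) (leaf 3 556 557))))))) (merge (node 625 (merge (leaf 0 589 624) (node 593 (merge (leaf 0 590 626) (node 621 (merge (leaf 1 588 620) (leaf 1 589 622))))))) (merge (node 624 (merge (leaf 0 589 625) (node 588 (merge (leaf 0 588 623) (node 556 (merge (leaf 3 555 555) (leaf 3 556 557))))))) (node 556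 (merge (leaf 3 556 557) (node 588 (merge (leaf 3 555 555) (node 623 (merge (leaf 0 588 624) (node 622 (merge (leaf 0 587 587) (node 593 (merge (leaf 1 590 594) (leaf 1 589 621))))))))))))))) (merge (node 493 (merge (node 494 (merge (leaf 2 461 465) (leaf 0 492 492))) (merge (node 494 (merge (leaf 2 461 465) (node 525 (merge (leaf 1 492 524) (leaf 1 493 526))))) (node 525 (merge (leaf 2 493 526) (node 557 (merge (leaf 4 493 622) (node 556 (merge (leaf 3 556 592) (node 588 (merge (leaf 5 460 461) (leaf 3 555 555)))))))))))) (merge (node 620 (merge (node 621 (merge (leaf 1 588 592) (node 619 (merge (leaf 2 586 618) (leaf 2 587 622))))) (merge (node 588 (merge (leaf 1 587 619) (node 525 (merge (leaf 2 493 526) (node 556 (merge (leaf 3 555 555) (node 493 (merge (leaf 6 492 524) (node 494 (merge (leaf 2 461 465) (leaf 0 492 492))))))))))) (node 592 (merge (leaf 1 588 621) (node 624 (merge (leaf 0 589 625) (node 588 (merge (leaf 0 588 623) (node 525 (merge (leaf 2 493 526) (node 556 (merge (leaf 3 555 555) (node 493 (merge (leaf 6 492 524) (node 494 (merge (leaf 2 461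 465) (leaf 0 492 492)))))))))))))))))) (node 588 (merge (node 624 (merge (leaf 0 588 623) (node 592 (merge (leaf 0 589 625) (node 620 (merge (leaf 1 587 619) (leaf 1 588 621))))))) (merge (node 624 (merge (leaf 0 588 623) (node 592 (merge (leaf 0 589 625) (node 556 (merge (leaf 3 555 555) (leaf 3 556 557))))))) (merge (node 620 (merge (leaf 1 587 619) (node 621 (merge (leaf 1 588 592) (node 525 (merge (leaf 2 493 526) (node 556 (merge (leaf 3 555 555) (node 524 (merge (leaf 4 492 492) (leaf 6 492 493))))))))))) (node 620 (merge (leaf 1 587 619) (node 525 (merge (leaf 2 493 526) (node 556 (merge (leaf 3 555 555) (node 557 (merge (leaf 5 492 493) (leaf 6 524 652)))))))))))))))))))))))))))))))))))))) nQ_19 cQ_19 14 (by decide +kernel)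
def nQ_20 : ℕ := 0x1c00000030000000000000000000000000000000000000000000000000000000000000000000000000000000000000000000000000000000000000000000000000000
def cQ_20 : ℕ := 0x20000000e0000000e0000000e0000007fc000003f800001cf800001e1000000060000007e0000007e0000002a000000000000000000000000000000000000000000000000000000000000000000000000000000000000000000000000000
theorem lQ_20 : S nQ_20 cQ_20 11 := S_of_chk [] trivial (node 558 (merge (node 557 (merge (leaf 1 525 529) (node 556 (merge (leaf 2 523 555) (leaf 2 524 559))))) (merge (node 494 (merge (node 529 (merge (leaf 3 493 493) (leaf 1 525 557))) (merge (node 461 (merge (node 462 (merge (leaf 7 429 429) (node 463 (merge (leaf 6 430 431) (leaf 0 461 464))))) (node 590 (merge (leaf 7 461 493) (node 623 (merge (leaf 4 494 591) (node 622 (merge (leaf 4 526 655) (node 621 (merge (leaf 5 493 589) (leaf 5 525 653))))))))))) (node 557 (merge (leaf 1 525 529) (node 462 (merge (leaf 5 461 589) (node 463 (merge (leaf 6 430 431) (node 461 (merge (leaf 7 429 429) (leaf 0 461 464)))))))))))) (merge (node 494 (merge (node 529 (merge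 (leaf 3 493 493) (node 530 (merge (leaf 1 526 559) (node 563 (merge (leaf 0 527 562) (node 531 (merge (leaf 3 496 532) (leaf 0 528 564))))))))) (merge (node 461 (merge (node 462 (merge (leaf 7 429 429) (node 463 (merge (leaf 6 430 431) (leaf 0 461 464))))) (node 590 (merge (leaf 7 461 493) (node 623 (merge (leaf 4 494 591) (node 622 (merge (leaf 4 526 655) (node 621 (merge (leaf 5 493 589) (leaf 5 525 653))))))))))) (node 462 (merge (node 559 (merge (leaf 4 430 430) (leaf 4 462 591))) (merge (node 463 (merge (leaf 6 430 431) (node 461 (merge (leaf 7 429 429) (leaf 0 461 464))))) (merge (node 559 (merge (leaf 4 430 430) (leaf 4 462 591))) (node 430 (merge (leaf 4 430 559) (node 431 (merge (leaf 6 398 399) (node 463 (merge (leaf 6 430 558) (node 429 (merge (leaf 7 397 397) (node 465 (merge (leaf 3 429 464) (node 433 (merge (leaf 5 400 401) (node 432 (merge (leaf 1 430 434) (leaf 0 430 466)))))))))))))))))))))) (node 590 (merge (node 622 (merge (node 655 (merge (leaf 4 526 623) (node 654 (merge (leaf 6 526 559) (leaf 4 558 687))))) (merge (node 653 (merge (leaf 5 525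 621) (node 654 (merge (leaf 6 526 559) (leaf 5 557 685))))) (merge (node 655 (merge (leaf 4 526 623) (node 654 (merge (leaf 4 558 687) (node 653 (merge (leaf 5 525 621) (leaf 5 557 685))))))) (node 623 (merge (leaf 4 526 655) (node 621 (merge (leaf 5 525 653) (node 591 (merge (leaf 6 495 559) (node 620 (merge (leaf 2 588 592) (leaf 2 587 619))))))))))))) (merge (node 622 (merge (node 655 (merge (leaf 4 526 623) (node 654 (merge (leaf 6 526 559) (leaf 4 558 687))))) (node 621 (merge (leaf 5 525 653) (node 494 (merge (leaf 5 493 589) (node 461 (merge (leaf 7 461 493) (node 462 (merge (leaf 7 429 429) (node 463 (merge (leaf 6 430 431) (leaf 0 461 464))))))))))))) (merge (node 622 (merge (node 655 (merge (leaf 4 526 623) (node 654 (merge (leaf 4 558 687) (node 653 (merge (leaf 5 525 621) (leaf 5 557 685))))))) (merge (node 621 (merge (leaf 5 525 653) (node 494 (merge (leaf 5 493 589) (node 461 (merge (leaf 7 461 493) (node 462 (merge (leaf 7 429 429) (node 463 (merge (leaf 6 430 431) (leaf 0 461 464))))))))))) (node 623 (merge (leaf 4 526 655) (node 494 (merge (leaf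 4 494 591) (node 461 (merge (leaf 7 461 493) (node 462 (merge (leaf 7 429 429) (node 463 (merge (leaf 6 430 431) (leaf 0 461 464)))))))))))))) (merge (node 622 (merge (node 621 (merge (leaf 5 525 653) (node 494 (merge (leaf 5 493 589) (node 461 (merge (leaf 7 461 493) (node 462 (merge (leaf 7 429 429) (node 463 (merge (leaf 6 430 431) (leaf 0 461 464))))))))))) (merge (node 654 (merge (leaf 6 526 559) (node 687 (merge (leaf 4 558 655) (node 686 (merge (leaf 4 590 719) (node 685 (merge (leaf 5 557 653) (leaf 5 589 717))))))))) (node 654 (merge (leaf 6 526 559) (node 687 (merge (leaf 4 558 655) (node 686 (merge (leaf 4 590 719) (node 589 (merge (leaf 7 557 557) (node 718 (merge (leaf 7 589 621) (node 717 (merge (leaf 5 589 685) (leaf 5 621 749)))))))))))))))) (merge (node 622 (merge (node 654 (merge (leaf 6 526 559) (node 687 (merge (leaf 4 558 655) (node 686 (merge (leaf 4 590 719) (node 685 (merge (leaf 5 557 653) (leaf 5 589 717))))))))) (merge (node 623 (merge (leaf 4 526 655) (node 494 (merge (leaf 4 494 591) (node 461 (merge (leaf 7 461 493) (node 462 (merge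 (leaf 7 429 429) (node 463 (merge (leaf 6 430 431) (leaf 0 461 464))))))))))) (node 591 (merge (node 494 (merge (leaf 4 494 623) (node 461 (merge (leaf 7 461 493) (node 462 (merge (leaf 7 429 429) (node 463 (merge (leaf 6 430 431) (leaf 0 461 464))))))))) (node 557 (merge (node 559 (merge (leaf 2 524 556) (leaf 6 526 654))) (merge (node 556 (merge (leaf 0 555 555) (node 592 (merge (leaf 3 556 589) (leaf 3 557 593))))) (node 654 (merge (leaf 6 526 559) (node 686 (merge (leaf 7 557 589) (node 685 (merge (leaf 5 557 653) (leaf 5 589 717))))))))))))))) (merge (node 622 (merge (node 623 (merge (leaf 4 526 655) (node 494 (merge (leaf 4 494 591) (node 461 (merge (leaf 7 461 493) (node 462 (merge (leaf 7 429 429) (node 463 (merge (leaf 6 430 431) (leaf 0 461 464))))))))))) (merge (node 654 (merge (leaf 6 526 559) (node 687 (merge (leaf 4 558 655) (node 686 (merge (leaf 4 590 719) (node 589 (merge (leaf 7 557 557) (node 718 (merge (leaf 7 589 621) (node 717 (merge (leaf 5 589 685) (leaf 5 621 749))))))))))))) (node 559 (merge (leaf 6 526 654) (node 556 (merge (leaf 2 524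 557) (node 591 (merge (leaf 6 495 623) (node 494 (merge (leaf 4 462 462) (node 589 (merge (leaf 5 493 621) (node 588 (merge (leaf 3 555 555) (leaf 2 555 587)))))))))))))))) (merge (node 591 (merge (node 494 (merge (leaf 4 494 623) (node 461 (merge (leaf 7 461 493) (node 462 (merge (leaf 7 429 429) (node 463 (merge (leaf 6 430 431) (leaf 0 461 464))))))))) (merge (node 559 (merge (leaf 6 495 623) (node 622 (merge (leaf 6 526 654) (node 621 (merge (leaf 5 525 653) (node 592 (merge (leaf 1 589 593) (node 620 (merge (leaf 1 588 589) (leaf 2 587 619))))))))))) (node 622 (merge (node 653 (merge (leaf 5 525 621) (node 654 (merge (leaf 6 526 559) (leaf 5 557 685))))) (merge (node 621 (merge (leaf 5 525 653) (node 494 (merge (leaf 5 493 589) (node 461 (merge (leaf 7 461 493) (node 462 (merge (leaf 7 429 429) (node 463 (merge (leaf 6 430 431) (leaf 0 461 464))))))))))) (merge (node 557 (merge (node 559 (merge (leaf 2 524 556) (leaf 6 526 654))) (merge (node 556 (merge (leaf 0 555 555) (node 592 (merge (leaf 3 556 589) (leaf 3 557 593))))) (node 654 (merge (leaf 6 526 559)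 (node 686 (merge (leaf 7 557 589) (node 685 (merge (leaf 5 557 653) (leaf 5 589 717)))))))))) (node 559 (merge (leaf 6 526 654) (node 556 (merge (leaf 2 524 557) (node 494 (merge (leaf 4 462 462) (node 589 (merge (leaf 5 493 621) (node 588 (merge (leaf 3 555 555) (leaf 2 555 587)))))))))))))))))) (node 589 (merge (node 621 (merge (leaf 5 493 494) (node 653 (merge (leaf 6 525 557) (leaf 6 557 685))))) (merge (node 494 (merge (leaf 5 493 621) (node 461 (merge (leaf 7 461 493) (node 462 (merge (leaf 7 429 429) (node 559 (merge (leaf 4 430 430) (leaf 4 462 591))))))))) (merge (node 591 (merge (node 494 (merge (leaf 4 494 623) (node 461 (merge (leaf 7 461 493) (node 462 (merge (leaf 7 429 429) (node 463 (merge (leaf 6 430 431) (leaf 0 461 464))))))))) (node 556 (merge (node 557 (merge (leaf 0 555 555) (node 592 (merge (leaf 3 556 589) (leaf 3 557 593))))) (merge (node 557 (merge (leaf 2 524 559) (node 592 (merge (leaf 3 556 589) (leaf 3 557 593))))) (node 588 (merge (leaf 3 555 555) (node 619 (merge (leaf 1 587 620) (node 587 (merge (leaf 2 555 559) (leaf 1 586 618))))))))))))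 (node 591 (merge (node 557 (merge (node 556 (merge (leaf 0 555 555) (leaf 2 524 559))) (node 592 (merge (leaf 3 557 593) (node 621 (merge (leaf 1 588 620) (leaf 6 525 653))))))) (merge (node 559 (merge (leaf 6 495 623) (node 556 (merge (leaf 2 524 557) (node 588 (merge (leaf 3 555 555) (leaf 2 555 587))))))) (merge (node 623 (merge (leaf 6 495 559) (node 588 (merge (leaf 0 588 624) (node 620 (merge (leaf 1 587 619) (node 621 (merge (leaf 1 588 592) (node 653 (merge (leaf 6 525 557) (leaf 6 557 685))))))))))) (merge (node 623 (merge (leaf 6 495 559) (node 588 (merge (leaf 0 588 624) (node 620 (merge (leaf 1 587 619) (node 621 (merge (leaf 1 588 592) (node 556 (merge (leaf 3 555 555) (node 653 (merge (leaf 4 524 524) (leaf 7 556 685))))))))))))) (node 592 (merge (node 557 (merge (leaf 3 556 556) (leaf 3 557 593))) (merge (node 624 (merge (leaf 0 589 625) (node 588 (merge (leaf 0 588 623) (node 620 (merge (leaf 1 587 619) (leaf 1 588 621))))))) (node 625 (merge (leaf 0 589 624) (node 593 (merge (leaf 3 557 557) (leaf 0 590 626))))))))))))))))))))))))))))) nQ_20 cQ_20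 11 (by decide +kernel)
def nQ_21 : ℕ := 0x1c00000030000000000000001000000000000000000000000000000000000000000000000000000000000000000000000000000000000000000000000000000000000
def cQ_21 : ℕ := 0x1ce000001e000000188000001ef800003ef000001ff8000001e0000001600000000000000000000000000000000000000000000000000000000000000000000000000000000000
theorem lQ_21 : S nQ_21 cQ_21 12 := S_of_chk [] trivial (node 433 (merge (node 465 (merge (leaf 5 400 401) (node 529 (merge (leaf 7 400 400) (node 558 (merge (leaf 1 525 557) (node 530 (merge (leaf 1 526 559) (leaf 4 433 562))))))))) (merge (node 465 (merge (leaf 5 400 401) (node 529 (merge (leaf 7 400 400) (node 530 (merge (leaf 4 433 562) (node 531 (merge (leaf 3 496 532) (node 563 (merge (leaf 0 528 564) (node 499 (merge (leaf 2 496 500) (node 434 (merge (leaf 6 401 402) (node 467 (merge (leaf 7 434 466) (node 468 (merge (leaf 0 432 435) (leaf 6 435 436))))))))))))))))))) (merge (node 431 (merge (node 401 (merge (leaf 5 400 465) (node 430 (merge (leaf 2 398 402) (node 461 (merge (leaf 1 429 462) (node 429 (merge (leaf 1 428 460)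 (node 397 (merge (leaf 3 396 396) (leaf 3 397 398))))))))))) (merge (node 401 (merge (leaf 5 400 465) (node 430 (merge (leaf 2 398 402) (node 462 (merge (leaf 1 429 461) (node 463 (merge (leaf 1 430 434) (node 495 (merge (leaf 4 399 399) (leaf 7 430 559))))))))))) (merge (node 463 (merge (node 495 (merge (leaf 4 399 399) (leaf 5 430 558))) (merge (node 495 (merge (leaf 6 399 400) (leaf 5 430 558))) (node 434 (merge (leaf 1 430 462) (node 403 (merge (leaf 2 399 402) (node 435 (merge (leaf 2 400 404) (node 399 (merge (leaf 3 398 398) (leaf 3 399 400)))))))))))) (merge (node 465 (merge (leaf 5 400 401) (node 430 (merge (leaf 0 430 466) (node 398 (merge (leaf 3 397 397) (node 434 (merge (leaf 3 398 399) (node 463 (merge (leaf 1 430 462) (leaf 7 398 495))))))))))) (node 401 (merge (leaf 5 400 465) (node 402 (merge (leaf 2 398 430) (node 403 (merge (leaf 1 399 400) (leaf 1 400 404)))))))))))) (merge (node 431 (merge (node 401 (merge (leaf 5 400 465) (node 430 (merge (leaf 2 398 402) (node 461 (merge (leaf 1 429 462) (node 429 (merge (leaf 1 428 460) (node 397 (merge (leaf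 3 396 396) (leaf 3 397 398))))))))))) (merge (node 401 (merge (leaf 5 400 465) (node 430 (merge (leaf 2 398 402) (node 462 (merge (leaf 1 429 461) (node 463 (merge (leaf 1 430 434) (node 495 (merge (leaf 4 399 399) (leaf 7 430 559))))))))))) (merge (node 465 (merge (leaf 5 400 401) (node 430 (merge (leaf 0 430 466) (node 398 (merge (leaf 3 397 397) (node 434 (merge (leaf 3 398 399) (node 463 (merge (leaf 1 430 462) (leaf 7 398 495))))))))))) (merge (node 463 (merge (node 495 (merge (leaf 4 399 399) (leaf 5 430 558))) (merge (node 462 (merge (leaf 1 430 434) (node 430 (merge (leaf 1 429 461) (node 495 (merge (leaf 7 398 398) (leaf 5 430 558))))))) (node 434 (merge (leaf 1 430 462) (node 402 (merge (leaf 2 399 403) (node 430 (merge (leaf 2 398 401) (node 398 (merge (leaf 3 397 397) (leaf 3 398 399)))))))))))) (merge (node 465 (merge (leaf 5 400 401) (node 430 (merge (leaf 0 430 466) (node 398 (merge (leaf 3 397 397) (node 434 (merge (leaf 3 398 399) (node 529 (merge (leaf 6 401 402) (node 530 (merge (leaf 4 433 562) (node 495 (merge (leaf 7 398 463) (leaf 3 495 531)))))))))))))))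 (node 434 (merge (node 463 (merge (leaf 1 430 462) (node 399 (merge (leaf 3 398 398) (leaf 4 399 495))))) (merge (node 463 (merge (leaf 1 430 462) (node 402 (merge (leaf 2 399 403) (node 558 (merge (leaf 5 430 495) (node 529 (merge (leaf 6 401 465) (leaf 1 525 557))))))))) (node 467 (merge (leaf 0 431 466) (node 402 (merge (leaf 2 399 403) (node 529 (merge (leaf 6 401 465) (node 558 (merge (leaf 1 525 557) (node 530 (merge (leaf 1 526 559) (node 531 (merge (leaf 3 496 532) (node 499 (merge (leaf 7 402 435) (leaf 2 496 500)))))))))))))))))))))))) (merge (node 431 (merge (node 463 (merge (node 495 (merge (leaf 4 399 399) (leaf 5 430 558))) (merge (node 495 (merge (leaf 6 399 400) (leaf 5 430 558))) (node 434 (merge (leaf 1 430 462) (node 403 (merge (leaf 2 399 402) (node 435 (merge (leaf 2 400 404) (node 399 (merge (leaf 3 398 398) (leaf 3 399 400)))))))))))) (merge (node 465 (merge (node 529 (merge (leaf 7 400 400) (node 530 (merge (leaf 4 433 562) (node 531 (merge (leaf 3 495 495) (leaf 3 496 532))))))) (node 430 (merge (leaf 0 430 466) (node 461 (merge (leaf 1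 429 462) (node 429 (merge (leaf 1 428 460) (node 397 (merge (leaf 3 396 396) (leaf 3 397 398))))))))))) (merge (node 463 (merge (node 495 (merge (leaf 4 399 399) (leaf 6 399 400))) (node 434 (merge (leaf 1 430 462) (node 467 (merge (leaf 0 431 466) (node 402 (merge (leaf 2 399 403) (node 529 (merge (leaf 6 401 465) (node 558 (merge (leaf 1 525 557) (node 530 (merge (leaf 1 526 559) (node 531 (merge (leaf 3 496 532) (node 499 (merge (leaf 7 402 435) (leaf 2 496 500))))))))))))))))))) (merge (node 434 (merge (node 467 (merge (leaf 0 431 466) (node 435 (merge (leaf 0 432 468) (node 399 (merge (leaf 3 398 398) (leaf 3 399 400))))))) (merge (node 402 (merge (leaf 2 399 403) (node 529 (merge (leaf 6 401 465) (node 558 (merge (leaf 1 525 557) (node 530 (merge (leaf 1 526 559) (node 495 (merge (leaf 5 430 463) (leaf 3 495 531))))))))))) (node 402 (merge (leaf 2 399 403) (node 529 (merge (leaf 6 401 465) (node 558 (merge (leaf 1 525 557) (node 530 (merge (leaf 1 526 559) (node 531 (merge (leaf 3 495 495) (leaf 3 496 532)))))))))))))) (merge (node 434 (merge (node 463 (merge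 (leaf 1 430 462) (node 399 (merge (leaf 3 398 398) (leaf 4 399 495))))) (merge (node 463 (merge (leaf 1 430 462) (node 402 (merge (leaf 2 399 403) (node 558 (merge (leaf 5 430 495) (node 529 (merge (leaf 6 401 465) (leaf 1 525 557))))))))) (node 467 (merge (leaf 0 431 466) (node 402 (merge (leaf 2 399 403) (node 529 (merge (leaf 6 401 465) (node 558 (merge (leaf 1 525 557) (node 530 (merge (leaf 1 526 559) (node 531 (merge (leaf 3 496 532) (node 499 (merge (leaf 7 402 435) (leaf 2 496 500)))))))))))))))))) (node 465 (merge (node 529 (merge (leaf 7 400 400) (node 558 (merge (leaf 1 525 557) (node 530 (merge (leaf 1 526 559) (leaf 4 433 562))))))) (node 430 (merge (leaf 0 430 466) (node 462 (merge (leaf 1 429 461) (node 434 (merge (leaf 1 430 463) (node 398 (merge (leaf 3 397 397) (leaf 3 398 399))))))))))))))))) (node 431 (merge (node 463 (merge (node 495 (merge (leaf 4 399 399) (leaf 5 430 558))) (merge (node 495 (merge (leaf 6 399 400) (leaf 5 430 558))) (node 434 (merge (leaf 1 430 462) (node 467 (merge (leaf 0 431 466) (node 435 (merge (leaf 0 432 468) (node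 399 (merge (leaf 3 398 398) (leaf 3 399 400)))))))))))) (merge (node 463 (merge (node 495 (merge (leaf 4 399 399) (leaf 5 430 558))) (merge (node 462 (merge (leaf 1 430 434) (node 430 (merge (leaf 1 429 461) (node 495 (merge (leaf 7 398 398) (leaf 5 430 558))))))) (node 434 (merge (leaf 1 430 462) (node 402 (merge (leaf 2 399 403) (node 430 (merge (leaf 2 398 401) (node 398 (merge (leaf 3 397 397) (leaf 3 398 399)))))))))))) (merge (node 402 (merge (node 430 (merge (leaf 2 398 401) (node 461 (merge (leaf 1 429 462) (node 429 (merge (leaf 1 428 460) (node 397 (merge (leaf 3 396 396) (leaf 3 397 398))))))))) (merge (node 434 (merge (leaf 2 399 403) (node 467 (merge (leaf 0 431 466) (node 435 (merge (leaf 0 432 468) (node 399 (merge (leaf 3 398 398) (leaf 3 399 400))))))))) (node 401 (merge (leaf 2 398 430) (node 403 (merge (leaf 1 399 400) (leaf 2 399 434)))))))) (merge (node 463 (merge (node 495 (merge (leaf 6 399 400) (leaf 5 430 558))) (merge (node 462 (merge (leaf 1 430 434) (node 430 (merge (leaf 1 429 461) (node 495 (merge (leaf 7 398 398) (leaf 5 430 558)))))))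 (node 434 (merge (leaf 1 430 462) (node 467 (merge (leaf 0 431 466) (node 435 (merge (leaf 0 432 468) (node 402 (merge (leaf 2 399 403) (node 401 (merge (leaf 2 398 430) (node 436 (merge (leaf 3 400 400) (leaf 3 401 437)))))))))))))))) (merge (node 463 (merge (node 495 (merge (leaf 4 399 399) (leaf 5 430 558))) (node 434 (merge (leaf 1 430 462) (node 467 (merge (leaf 0 431 466) (node 435 (merge (leaf 0 432 468) (node 402 (merge (leaf 2 399 403) (node 401 (merge (leaf 2 398 430) (node 436 (merge (leaf 3 400 400) (leaf 3 401 437))))))))))))))) (merge (node 430 (merge (node 401 (merge (leaf 2 398 402) (node 429 (merge (leaf 2 397 400) (node 460 (merge (leaf 1 428 461) (node 428 (merge (leaf 1 427 459) (node 396 (merge (leaf 3 395 395) (leaf 3 396 397))))))))))) (merge (node 463 (merge (node 495 (merge (leaf 4 399 399) (leaf 5 430 558))) (merge (node 495 (merge (leaf 6 399 400) (leaf 5 430 558))) (node 397 (merge (leaf 3 397 398) (node 429 (merge (leaf 3 396 396) (node 460 (merge (leaf 1 428 461) (node 428 (merge (leaf 1 427 459) (node 400 (merge (leaf 2 396 399) (leaf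 2 397 401)))))))))))))) (merge (node 402 (merge (leaf 2 398 401) (node 434 (merge (leaf 2 399 403) (node 467 (merge (leaf 0 431 466) (node 435 (merge (leaf 0 432 468) (node 399 (merge (leaf 3 398 398) (leaf 3 399 400))))))))))) (node 398 (merge (leaf 3 397 397) (node 434 (merge (leaf 3 398 399) (node 467 (merge (leaf 0 431 466) (node 435 (merge (leaf 0 432 468) (node 403 (merge (leaf 2 399 402) (leaf 2 400 404))))))))))))))) (node 430 (merge (node 461 (merge (leaf 1 429 462) (node 429 (merge (leaf 1 428 460) (node 397 (merge (leaf 3 396 396) (leaf 3 397 398))))))) (merge (node 461 (merge (leaf 1 429 462) (node 429 (merge (leaf 1 428 460) (node 401 (merge (leaf 2 397 400) (leaf 2 398 402))))))) (merge (node 401 (merge (leaf 2 398 402) (node 400 (merge (leaf 2 397 429) (node 398 (merge (leaf 3 397 397) (node 463 (merge (leaf 6 399 495) (node 366 (merge (leaf 4 334 334) (node 365 (merge (leaf 3 365 399) (node 368 (merge (leaf 5 335 336) (leaf 0 365 367))))))))))))))) (node 462 (merge (leaf 1 429 461) (node 401 (merge (leaf 2 398 402) (node 398 (merge (leaf 3 397 397)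 (node 463 (merge (leaf 7 398 495) (node 366 (merge (leaf 4 334 334) (node 365 (merge (leaf 7 333 333) (node 400 (merge (leaf 3 365 399) (node 368 (merge (leaf 5 335 336) (leaf 0 365 367)))))))))))))))))))))))))))))))))) nQ_21 cQ_21 12 (by decide +kernel)
def nQ_22 : ℕ := 0x1000000030000000000000000000000000000000000000000000000000000000000000000000000000000000000000000000000000000000000000000000000000000
def cQ_22 : ℕ := 0x20000000e0000000e0000000f0000007fc000007f800001cf800001ef0000018f800001ff800003ff000001ff8000007e0000007600000020000000000000000000000000000000000000000000000000000000000000000000000000000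
theorem lQ_22 : S nQ_22 cQ_22 15 := S_of_chk [(nQ_19, cQ_19, 14), (nQ_20, cQ_20, 11), (nQ_21, cQ_21, 12)] ⟨lQ_19, lQ_20, lQ_21, trivial⟩ (node 527 (merge (node 526 (merge (leaf 2 493 525) (node 494 (merge (node 493 (merge (leaf 3 493 529) (node 492 (merge (leaf 0 491 491) (leaf 0 492 495))))) (merge (node 529 (merge (leaf 3 493 493) (node 558 (merge (leaf 1 525 557) (node 559 (merge (leaf 1 526 530) (node 591 (merge (leaf 4 462 462) (leaf 6 495 623))))))))) (merge (node 559 (merge (node 462 (merge (leaf 4 430 430) (node 591 (merge (leaf 4 462 558) (leaf 6 495 623))))) (merge (node 591 (merge (leaf 6 495 623) (node 464 (merge (leaf 5 431 432) (leaf 6 463 495))))) (node 462 (merge (leaf 4 430 430) (node 461 (merge (leaf 3 461 495) (node 558 (merge (leaf 7 429 429) (node 589 (merge (leaf 5 461 557) (node 590 (merge (leaf 7 461 493) (leaf 5 493 621)))))))))))))) (node 559 (merge (node 462 (merge (leaf 4 430 430) (node 591 (merge (leaf 4 462 558) (leaf 6 495 623))))) (merge (node 591 (merge (leaf 6 495 623) (node 464 (merge (leaf 5 431 432) (leaf 6 463 495))))) (node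 462 (merge (leaf 4 430 430) (node 495 (merge (leaf 3 461 461) (node 529 (merge (leaf 0 494 530) (node 465 (merge (leaf 2 462 466) (node 433 (merge (leaf 5 400 401) (node 432 (merge (leaf 7 400 400) (leaf 5 431 464)))))))))))))))))))))) (merge (node 529 (merge (node 526 (merge (leaf 2 493 525) (node 558 (merge (leaf 1 525 557) (node 530 (merge (leaf 1 526 559) (node 531 (merge (leaf 3 495 495) (leaf 3 496 532))))))))) (merge (node 526 (merge (leaf 2 493 525) (node 494 (merge (leaf 3 493 493) (node 530 (merge (leaf 0 494 495) (node 563 (merge (leaf 0 527 562) (node 531 (merge (leaf 3 496 532) (leaf 0 528 564))))))))))) (merge (node 526 (merge (leaf 2 493 525) (node 558 (merge (leaf 1 525 557) (node 530 (merge (leaf 1 526 559) (node 563 (merge (leaf 0 527 562) (node 531 (merge (leaf 3 496 532) (leaf 0 528 564))))))))))) (merge (node 530 (merge (node 495 (merge (leaf 0 494 494) (node 559 (merge (leaf 1 526 558) (node 591 (merge (leaf 6 463 464) (leaf 6 495 623))))))) (node 563 (merge (leaf 0 527 562) (node 531 (merge (leaf 3 496 532) (leaf 0 528 564))))))) (node 495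 (merge (node 526 (merge (leaf 2 493 525) (node 558 (merge (leaf 1 525 557) (node 463 (merge (leaf 5 430 431) (node 590 (merge (leaf 5 462 559) (leaf 6 494 622))))))))) (merge (node 494 (merge (leaf 0 493 493) (node 462 (merge (leaf 3 461 461) (node 559 (merge (leaf 7 462 591) (node 432 (merge (leaf 5 431 464) (node 463 (merge (leaf 7 430 430) (node 431 (merge (leaf 4 399 399) (leaf 6 399 400))))))))))))) (merge (node 494 (merge (leaf 0 493 493) (node 526 (merge (leaf 1 493 525) (node 558 (merge (leaf 1 525 557) (node 590 (merge (leaf 6 462 463) (leaf 6 494 622))))))))) (node 494 (merge (leaf 0 493 493) (node 526 (merge (leaf 1 493 525) (node 462 (merge (leaf 3 461 461) (node 430 (merge (leaf 4 398 398) (leaf 4 430 559)))))))))))))))))) (merge (node 495 (merge (node 525 (merge (leaf 2 493 526) (node 494 (merge (node 493 (merge (leaf 0 492 492) (leaf 1 492 524))) (node 462 (merge (leaf 3 461 461) (node 430 (merge (leaf 4 398 398) (node 559 (merge (leaf 7 430 463) (leaf 7 462 591))))))))))) (merge (node 494 (merge (node 529 (merge (leaf 0 493 493) (leaf 3 494 530)))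 (merge (node 525 (merge (leaf 1 493 526) (node 493 (merge (leaf 1 492 524) (node 465 (merge (leaf 2 461 464) (leaf 2 462 466))))))) (node 462 (merge (leaf 3 461 461) (node 430 (merge (leaf 4 398 398) (node 559 (merge (leaf 4 430 526) (leaf 7 462 591)))))))))) (merge (node 494 (merge (node 529 (merge (leaf 0 493 493) (node 530 (merge (leaf 0 494 497) (leaf 3 495 531))))) (merge (node 525 (merge (leaf 1 493 526) (node 493 (merge (leaf 1 492 524) (node 461 (merge (leaf 3 460 460) (leaf 3 461 462))))))) (node 529 (merge (leaf 0 494 530) (node 465 (merge (leaf 2 462 466) (node 462 (merge (leaf 3 461 461) (node 433 (merge (leaf 5 400 401) (node 434 (merge (leaf 6 401 402) (node 463 (merge (leaf 2 430 464) (node 432 (merge (leaf 7 400 400) (leaf 1 430 431)))))))))))))))))) (merge (node 525 (merge (leaf 2 493 526) (node 463 (merge (node 431 (merge (leaf 4 399 399) (node 430 (merge (leaf 7 398 398) (node 559 (merge (leaf 7 430 462) (node 591 (merge (leaf 6 463 464) (leaf 6 495 623))))))))) (merge (node 464 (merge (node 432 (merge (leaf 5 399 400) (leaf 5 431 559))) (merge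 (node 462 (merge (leaf 0 461 461) (node 559 (merge (leaf 7 430 430) (leaf 6 463 591))))) (node 462 (merge (leaf 0 461 461) (node 432 (merge (leaf 5 399 400) (node 433 (merge (leaf 6 400 401) (node 434 (merge (leaf 1 431 435) (leaf 2 430 465)))))))))))) (merge (node 432 (merge (node 431 (merge (leaf 4 399 399) (leaf 6 399 400))) (node 464 (merge (leaf 5 431 559) (node 462 (merge (leaf 0 461 461) (node 433 (merge (leaf 6 400 401) (node 434 (merge (leaf 1 431 435) (leaf 2 430 465))))))))))) (merge (node 431 (merge (leaf 4 399 399) (node 432 (merge (leaf 6 399 400) (node 464 (merge (leaf 5 431 559) (node 430 (merge (leaf 7 398 398) (node 465 (merge (leaf 0 429 429) (leaf 3 430 466))))))))))) (merge (node 431 (merge (leaf 4 399 399) (node 432 (merge (leaf 6 399 400) (node 430 (merge (leaf 7 398 398) (node 462 (merge (leaf 7 430 559) (node 461 (merge (leaf 1 429 433) (leaf 0 460 460))))))))))) (node 462 (merge (node 461 (merge (leaf 0 460 460) (leaf 0 461 464))) (merge (node 431 (merge (leaf 4 399 399) (node 432 (merge (leaf 6 399 400) (node 433 (merge (leaf 1 430 434)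 (node 464 (merge (leaf 6 400 401) (node 430 (merge (leaf 7 398 398) (node 465 (merge (leaf 0 429 429) (leaf 0 430 466))))))))))))) (node 461 (merge (leaf 0 460 460) (node 431 (merge (leaf 4 399 399) (node 432 (merge (leaf 6 399 400) (node 430 (merge (leaf 7 398 398) (leaf 1 429 433)))))))))))))))))))) (node 494 (merge (node 529 (merge (leaf 0 493 493) (leaf 3 494 530))) (merge (node 493 (merge (leaf 0 492 492) (node 465 (merge (leaf 2 461 464) (leaf 2 462 466))))) (node 529 (merge (leaf 0 494 530) (node 465 (merge (leaf 2 462 466) (node 433 (merge (leaf 5 400 401) (node 434 (merge (leaf 6 401 402) (node 432 (merge (leaf 7 400 400) (node 464 (merge (leaf 5 431 559) (node 435 (merge (leaf 1 432 436) (leaf 1 431 463))))))))))))))))))))))) (merge (node 494 (merge (node 526 (merge (leaf 2 493 525) (node 529 (merge (leaf 3 493 493) (node 558 (merge (leaf 1 525 557) (node 530 (merge (leaf 1 526 559) (node 563 (merge (leaf 0 527 562) (node 531 (merge (leaf 3 496 532) (leaf 0 528 564))))))))))))) (merge (node 495 (merge (node 529 (merge (leaf 0 493 493) (leaf 3 494 530)))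 (merge (node 493 (merge (leaf 0 492 492) (node 465 (merge (leaf 2 461 464) (leaf 2 462 466))))) (node 529 (merge (leaf 0 494 530) (node 465 (merge (leaf 2 462 466) (node 462 (merge (leaf 3 461 461) (node 398 (merge (leaf 4 398 430) (node 433 (merge (leaf 5 400 401) (node 434 (merge (leaf 6 401 402) (node 432 (merge (leaf 7 400 400) (node 431 (merge (leaf 3 398 399) (leaf 1 430 463)))))))))))))))))))) (merge (node 495 (merge (node 493 (merge (leaf 0 492 492) (node 465 (merge (leaf 2 461 464) (leaf 2 462 466))))) (merge (node 493 (merge (leaf 0 492 492) (node 525 (merge (leaf 1 492 524) (node 497 (merge (leaf 2 493 526) (node 461 (merge (leaf 3 460 460) (leaf 3 461 462))))))))) (node 526 (merge (leaf 1 493 525) (node 465 (merge (leaf 2 462 466) (node 462 (merge (leaf 3 461 461) (node 430 (merge (leaf 4 398 398) (node 429 (merge (leaf 7 397 397) (node 464 (merge (leaf 3 429 463) (node 432 (merge (leaf 5 399 400) (leaf 0 429 431)))))))))))))))))) (node 495 (merge (node 529 (merge (leaf 0 494 530) (node 526 (merge (leaf 1 493 525) (node 558 (merge (leaf 1 525 557) (node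 590 (merge (leaf 6 462 463) (leaf 6 494 622))))))))) (merge (node 526 (merge (leaf 1 493 525) (node 465 (merge (leaf 2 462 466) (node 462 (merge (leaf 3 461 461) (node 430 (merge (leaf 4 398 398) (node 429 (merge (leaf 7 397 397) (node 464 (merge (leaf 3 429 463) (node 432 (merge (leaf 5 399 400) (leaf 0 429 431))))))))))))))) (merge (node 526 (merge (leaf 1 493 525) (node 465 (merge (leaf 2 462 466) (node 462 (merge (leaf 3 461 461) (node 430 (merge (leaf 4 398 398) (node 401 (merge (leaf 5 400 433) (node 431 (merge (leaf 6 398 399) (node 429 (merge (leaf 7 397 397) (node 432 (merge (leaf 2 397 400) (leaf 0 429 464))))))))))))))))) (merge (node 529 (merge (leaf 0 494 530) (node 465 (merge (leaf 2 462 466) (node 462 (merge (leaf 3 461 461) (node 398 (merge (leaf 4 398 430) (node 433 (merge (leaf 5 400 401) (node 434 (merge (leaf 6 401 402) (node 432 (merge (leaf 7 400 400) (node 431 (merge (leaf 3 398 399) (leaf 1 430 463))))))))))))))))) (node 526 (merge (leaf 1 493 525) (node 462 (merge (leaf 3 461 461) (node 430 (merge (leaf 4 398 398) (node 431 (merge (leaf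 6 398 399) (node 558 (merge (leaf 5 430 463) (node 589 (merge (leaf 5 461 557) (node 590 (merge (leaf 5 493 621) (leaf 6 494 622)))))))))))))))))))))))) (merge (node 526 (merge (leaf 2 493 525) (node 494 (merge (node 493 (merge (leaf 3 493 529) (node 492 (merge (leaf 0 491 491) (leaf 0 492 495))))) (merge (node 529 (merge (leaf 3 493 493) (node 558 (merge (leaf 1 525 557) (node 559 (merge (leaf 1 526 530) (node 591 (merge (leaf 4 462 462) (leaf 6 495 623))))))))) (merge (node 495 (merge (node 493 (merge (leaf 0 492 492) (node 465 (merge (leaf 2 461 464) (leaf 2 462 466))))) (node 462 (merge (leaf 3 461 461) (node 559 (merge (leaf 7 462 591) (node 430 (merge (leaf 7 430 463) (leaf 4 430 526))))))))) (node 559 (merge (node 591 (merge (leaf 6 495 623) (node 495 (merge (leaf 7 462 462) (leaf 6 463 464))))) (merge (node 462 (merge (leaf 4 430 430) (node 591 (merge (leaf 4 462 558) (leaf 6 495 623))))) (merge (node 462 (merge (leaf 4 430 430) (node 495 (merge (leaf 3 461 461) (node 529 (merge (leaf 0 494 530) (node 558 (merge (leaf 1 525 557) (node 463 (merge (leaf 5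 430 431) (leaf 5 462 590))))))))))) (node 591 (merge (leaf 6 495 623) (node 495 (merge (leaf 6 463 464) (node 590 (merge (leaf 5 494 622) (node 558 (merge (leaf 5 462 463) (node 557 (merge (leaf 1 525 529) (leaf 2 524 556))))))))))))))))))))) (merge (node 526 (merge (leaf 2 493 525) (node 494 (merge (node 493 (merge (leaf 3 493 529) (node 492 (merge (leaf 0 491 491) (leaf 0 492 495))))) (merge (node 529 (merge (leaf 3 493 493) (node 558 (merge (leaf 1 525 557) (node 559 (merge (leaf 1 526 530) (node 591 (merge (leaf 4 462 462) (leaf 6 495 623))))))))) (merge (node 462 (merge (node 430 (merge (leaf 4 430 559) (node 431 (merge (leaf 6 398 399) (node 558 (merge (leaf 6 430 463) (node 429 (merge (leaf 7 397 397) (leaf 7 429 461))))))))) (merge (node 461 (merge (leaf 3 461 495) (node 558 (merge (leaf 7 429 429) (node 589 (merge (leaf 5 461 557) (node 590 (merge (leaf 7 461 493) (leaf 5 493 621))))))))) (merge (node 495 (merge (leaf 3 461 461) (node 430 (merge (leaf 4 398 398) (leaf 4 430 559))))) (merge (node 495 (merge (leaf 3 461 461) (node 430 (merge (leaf 4 398 398)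 (leaf 4 430 559))))) (node 559 (merge (leaf 4 430 430) (node 591 (merge (leaf 7 462 495) (leaf 4 462 558)))))))))) (node 462 (merge (node 430 (merge (leaf 4 430 559) (node 431 (merge (leaf 6 398 399) (node 558 (merge (leaf 6 430 463) (node 557 (merge (leaf 1 525 529) (leaf 5 461 589))))))))) (merge (node 430 (merge (leaf 4 430 559) (node 429 (merge (leaf 7 397 397) (node 558 (merge (leaf 7 429 461) (node 557 (merge (leaf 1 525 529) (leaf 5 461 589))))))))) (merge (node 495 (merge (leaf 3 461 461) (node 529 (merge (leaf 0 494 530) (node 558 (merge (leaf 1 525 557) (node 591 (merge (leaf 4 462 559) (node 590 (merge (leaf 6 462 463) (leaf 4 494 623))))))))))) (merge (node 430 (merge (leaf 4 430 559) (node 429 (merge (leaf 7 397 397) (node 558 (merge (leaf 7 429 461) (node 589 (merge (leaf 5 461 557) (node 590 (merge (leaf 5 493 621) (node 463 (merge (leaf 6 430 431) (leaf 6 462 495))))))))))))) (merge (node 495 (merge (leaf 3 461 461) (node 430 (merge (leaf 4 398 398) (node 559 (merge (leaf 7 430 463) (leaf 7 462 591))))))) (node 495 (merge (leaf 3 461 461) (node 529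 (merge (leaf 0 494 530) (node 558 (merge (leaf 1 525 557) (node 463 (merge (leaf 5 430 431) (leaf 6 462 590))))))))))))))))))))) (merge (node 494 (merge (node 526 (merge (leaf 2 493 525) (node 529 (merge (leaf 3 493 493) (node 530 (merge (leaf 0 494 495) (node 563 (merge (leaf 0 527 562) (node 531 (merge (leaf 3 496 532) (leaf 0 528 564))))))))))) (merge (node 495 (merge (node 529 (merge (leaf 0 493 493) (leaf 3 494 530))) (merge (node 493 (merge (leaf 0 492 492) (node 465 (merge (leaf 2 461 464) (leaf 2 462 466))))) (node 529 (merge (leaf 0 494 530) (node 465 (merge (leaf 2 462 466) (node 462 (merge (leaf 3 461 461) (node 398 (merge (leaf 4 398 430) (node 433 (merge (leaf 5 400 401) (node 434 (merge (leaf 6 401 402) (node 432 (merge (leaf 7 400 400) (node 431 (merge (leaf 3 398 399) (leaf 1 430 463)))))))))))))))))))) (merge (node 495 (merge (node 493 (merge (leaf 0 492 492) (node 465 (merge (leaf 2 461 464) (leaf 2 462 466))))) (merge (node 493 (merge (leaf 0 492 492) (node 525 (merge (leaf 1 492 524) (node 497 (merge (leaf 2 493 526) (node 461 (merge (leaf 3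 460 460) (leaf 3 461 462))))))))) (node 526 (merge (leaf 1 493 525) (node 465 (merge (leaf 2 462 466) (node 462 (merge (leaf 3 461 461) (node 430 (merge (leaf 4 398 398) (node 429 (merge (leaf 7 397 397) (node 464 (merge (leaf 3 429 463) (node 432 (merge (leaf 5 399 400) (leaf 0 429 431)))))))))))))))))) (merge (node 495 (merge (node 529 (merge (leaf 0 494 530) (node 526 (merge (leaf 1 493 525) (node 558 (merge (leaf 1 525 557) (node 590 (merge (leaf 6 462 463) (leaf 6 494 622))))))))) (merge (node 526 (merge (leaf 1 493 525) (node 465 (merge (leaf 2 462 466) (node 462 (merge (leaf 3 461 461) (node 430 (merge (leaf 4 398 398) (node 429 (merge (leaf 7 397 397) (node 464 (merge (leaf 3 429 463) (node 432 (merge (leaf 5 399 400) (leaf 0 429 431))))))))))))))) (merge (node 526 (merge (leaf 1 493 525) (node 465 (merge (leaf 2 462 466) (node 462 (merge (leaf 3 461 461) (node 430 (merge (leaf 4 398 398) (node 401 (merge (leaf 5 400 433) (node 431 (merge (leaf 6 398 399) (node 429 (merge (leaf 7 397 397) (node 432 (merge (leaf 2 397 400) (leaf 0 429 464)))))))))))))))))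 (merge (node 529 (merge (leaf 0 494 530) (node 465 (merge (leaf 2 462 466) (node 462 (merge (leaf 3 461 461) (node 398 (merge (leaf 4 398 430) (node 433 (merge (leaf 5 400 401) (node 434 (merge (leaf 6 401 402) (node 432 (merge (leaf 7 400 400) (node 431 (merge (leaf 3 398 399) (leaf 1 430 463))))))))))))))))) (node 526 (merge (leaf 1 493 525) (node 462 (merge (leaf 3 461 461) (node 430 (merge (leaf 4 398 398) (node 431 (merge (leaf 6 398 399) (node 558 (merge (leaf 5 430 463) (node 589 (merge (leaf 5 461 557) (node 590 (merge (leaf 5 493 621) (leaf 6 494 622)))))))))))))))))))) (node 526 (merge (leaf 2 493 525) (node 558 (merge (node 529 (merge (leaf 3 493 493) (leaf 1 525 557))) (merge (node 461 (merge (node 462 (merge (leaf 7 429 429) (node 463 (merge (leaf 6 430 431) (leaf 0 461 464))))) (node 590 (merge (leaf 7 461 493) (node 623 (merge (leaf 4 494 591) (node 622 (merge (leaf 4 526 655) (node 621 (merge (leaf 5 493 589) (leaf 5 525 653))))))))))) (node 557 (merge (leaf 1 525 529) (node 462 (merge (leaf 5 461 589) (node 463 (merge (leaf 6 430 431) (node 461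 (merge (leaf 7 429 429) (leaf 0 461 464))))))))))))))))))) (merge (node 495 (merge (node 529 (merge (node 494 (merge (leaf 0 493 493) (leaf 0 494 530))) (merge (node 530 (merge (leaf 3 495 531) (node 559 (merge (leaf 1 526 558) (node 591 (merge (leaf 6 463 464) (leaf 6 495 623))))))) (node 494 (merge (leaf 0 493 493) (node 462 (merge (leaf 3 461 461) (node 559 (merge (leaf 7 462 591) (node 432 (merge (leaf 5 431 464) (node 463 (merge (leaf 7 430 430) (node 431 (merge (leaf 4 399 399) (leaf 6 399 400)))))))))))))))) (merge (node 494 (merge (node 529 (merge (leaf 0 493 493) (leaf 3 494 530))) (merge (node 493 (merge (leaf 0 492 492) (node 465 (merge (leaf 2 461 464) (leaf 2 462 466))))) (node 529 (merge (leaf 0 494 530) (node 465 (merge (leaf 2 462 466) (node 462 (merge (leaf 3 461 461) (node 398 (merge (leaf 4 398 430) (node 433 (merge (leaf 5 400 401) (node 434 (merge (leaf 6 401 402) (node 432 (merge (leaf 7 400 400) (node 431 (merge (leaf 3 398 399) (leaf 1 430 463)))))))))))))))))))) (merge (node 529 (merge (node 494 (merge (leaf 0 493 493) (leaf 0 494 530)))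 (merge (node 530 (merge (leaf 3 495 531) (node 559 (merge (leaf 1 526 558) (node 591 (merge (leaf 6 463 464) (leaf 6 495 623))))))) (node 494 (merge (leaf 0 493 493) (node 465 (merge (leaf 2 462 466) (node 462 (merge (leaf 3 461 461) (node 433 (merge (leaf 5 400 401) (node 432 (merge (leaf 7 400 400) (node 559 (merge (leaf 5 431 464) (leaf 7 462 591)))))))))))))))) (merge (node 529 (merge (node 494 (merge (leaf 0 493 493) (leaf 0 494 530))) (merge (node 530 (merge (leaf 3 495 531) (node 559 (merge (leaf 1 526 558) (node 591 (merge (leaf 6 463 464) (leaf 6 495 623))))))) (node 494 (merge (leaf 0 493 493) (node 465 (merge (leaf 2 462 466) (node 462 (merge (leaf 3 461 461) (node 433 (merge (leaf 5 400 401) (node 434 (merge (leaf 6 401 402) (node 463 (merge (leaf 2 430 464) (node 432 (merge (leaf 7 400 400) (leaf 1 430 431)))))))))))))))))) (merge (node 463 (merge (node 559 (merge (node 462 (merge (leaf 7 430 430) (node 461 (merge (leaf 0 460 460) (leaf 0 461 464))))) (node 591 (merge (leaf 6 495 623) (node 590 (merge (leaf 5 462 558) (leaf 5 494 622))))))) (merge (node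 431 (merge (leaf 4 399 399) (node 430 (merge (leaf 7 398 398) (node 559 (merge (leaf 7 430 462) (node 590 (merge (leaf 5 462 558) (node 591 (merge (leaf 5 494 622) (leaf 6 495 623))))))))))) (merge (node 431 (merge (leaf 4 399 399) (node 432 (merge (leaf 6 399 400) (node 559 (merge (leaf 5 431 464) (node 590 (merge (leaf 5 462 558) (node 591 (merge (leaf 5 494 622) (leaf 6 495 623))))))))))) (node 462 (merge (node 461 (merge (leaf 0 460 460) (leaf 0 461 464))) (merge (node 431 (merge (leaf 4 399 399) (node 432 (merge (leaf 6 399 400) (node 433 (merge (leaf 1 430 434) (node 464 (merge (leaf 6 400 401) (node 430 (merge (leaf 7 398 398) (node 465 (merge (leaf 0 429 429) (leaf 0 430 466))))))))))))) (node 461 (merge (leaf 0 460 460) (node 431 (merge (leaf 4 399 399) (node 432 (merge (leaf 6 399 400) (node 430 (merge (leaf 7 398 398) (leaf 1 429 433)))))))))))))))) (merge (node 494 (merge (node 529 (merge (leaf 0 493 493) (leaf 3 494 530))) (merge (node 493 (merge (leaf 0 492 492) (node 465 (merge (leaf 2 461 464) (leaf 2 462 466))))) (node 529 (merge (leaf 0 494 530)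 (node 465 (merge (leaf 2 462 466) (node 433 (merge (leaf 5 400 401) (node 434 (merge (leaf 6 401 402) (node 432 (merge (leaf 7 400 400) (node 464 (merge (leaf 5 431 559) (node 435 (merge (leaf 1 432 436) (leaf 1 431 463)))))))))))))))))) (merge (node 529 (merge (node 494 (merge (leaf 0 493 493) (leaf 0 494 530))) (merge (node 530 (merge (leaf 3 495 531) (node 559 (merge (leaf 1 526 558) (node 591 (merge (leaf 6 463 464) (leaf 6 495 623))))))) (node 494 (merge (leaf 0 493 493) (node 465 (merge (leaf 2 462 466) (node 462 (merge (leaf 3 461 461) (node 433 (merge (leaf 5 400 401) (node 434 (merge (leaf 6 401 402) (node 463 (merge (leaf 2 430 464) (node 559 (merge (leaf 7 430 430) (leaf 7 462 591)))))))))))))))))) (node 559 (merge (node 591 (merge (leaf 6 495 623) (node 494 (merge (leaf 7 462 462) (node 493 (merge (leaf 0 492 492) (leaf 0 493 529))))))) (merge (node 591 (merge (leaf 6 495 623) (node 592 (merge (leaf 4 495 624) (node 590 (merge (leaf 5 494 622) (node 558 (merge (leaf 5 462 463) (node 557 (merge (leaf 0 556 556) (leaf 3 557 593))))))))))) (node 529 (merge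 (node 530 (merge (leaf 0 494 494) (leaf 3 495 531))) (merge (node 530 (merge (leaf 3 495 531) (leaf 1 526 558))) (node 494 (merge (leaf 0 493 493) (node 465 (merge (leaf 2 462 466) (node 462 (merge (leaf 3 461 461) (node 433 (merge (leaf 5 400 401) (node 432 (merge (leaf 7 400 400) (node 463 (merge (leaf 7 430 430) (node 431 (merge (leaf 4 399 399) (leaf 1 430 434))))))))))))))))))))))))))))) (merge (node 526 (merge (leaf 2 493 525) (node 558 (merge (node 557 (merge (leaf 1 525 529) (node 556 (merge (leaf 2 523 555) (leaf 2 524 559))))) (merge (node 529 (merge (leaf 1 525 557) (node 494 (merge (leaf 3 493 493) (node 530 (merge (leaf 0 494 495) (node 563 (merge (leaf 0 527 562) (node 531 (merge (leaf 3 496 532) (leaf 0 528 564))))))))))) (merge (node 559 (merge (node 529 (merge (leaf 1 526 530) (node 494 (merge (leaf 3 493 493) (node 591 (merge (leaf 4 462 462) (leaf 6 495 623))))))) (merge (node 464 (merge (leaf 5 431 432) (node 495 (merge (leaf 6 463 591) (node 590 (merge (leaf 5 462 463) (leaf 6 494 622))))))) (node 529 (merge (leaf 1 526 530) (node 494 (merge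 (leaf 3 493 493) (node 462 (merge (leaf 4 430 430) (node 463 (merge (leaf 6 430 431) (node 590 (merge (leaf 5 462 495) (node 621 (merge (leaf 5 493 589) (node 622 (merge (leaf 5 525 653) (leaf 6 526 654)))))))))))))))))) (node 590 (merge (node 622 (merge (leaf 6 494 495) (node 655 (merge (leaf 4 526 623) (node 654 (merge (leaf 6 526 559) (leaf 4 558 687))))))) (merge (node 622 (merge (leaf 6 494 495) (node 623 (merge (leaf 4 526 655) (node 494 (merge (leaf 4 494 591) (node 621 (merge (leaf 5 493 589) (leaf 5 525 653))))))))) (merge (node 622 (merge (node 655 (merge (leaf 4 526 623) (node 654 (merge (leaf 6 526 559) (leaf 4 558 687))))) (merge (node 653 (merge (leaf 5 525 621) (node 654 (merge (leaf 6 526 559) (leaf 5 557 685))))) (merge (node 655 (merge (leaf 4 526 623) (node 654 (merge (leaf 4 558 687) (node 653 (merge (leaf 5 525 621) (leaf 5 557 685))))))) (node 623 (merge (leaf 4 526 655) (node 621 (merge (leaf 5 525 653) (node 591 (merge (leaf 6 495 559) (node 620 (merge (leaf 2 588 592) (leaf 2 587 619))))))))))))) (node 494 (merge (node 589 (merge (leaf 5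 493 621) (node 462 (merge (leaf 5 461 557) (node 559 (merge (leaf 4 430 430) (leaf 4 462 591))))))) (node 495 (merge (leaf 6 462 463) (node 493 (merge (leaf 0 492 492) (node 465 (merge (leaf 2 461 464) (leaf 2 462 466))))))))))))))))))) (merge (node 526 (merge (leaf 2 493 525) (node 558 (merge (node 557 (merge (leaf 1 525 529) (node 556 (merge (leaf 2 523 555) (leaf 2 524 559))))) (merge (node 529 (merge (leaf 1 525 557) (node 494 (merge (leaf 3 493 493) (node 530 (merge (leaf 0 494 495) (node 563 (merge (leaf 0 527 562) (node 531 (merge (leaf 3 496 532) (leaf 0 528 564))))))))))) (merge (node 590 (merge (node 622 (merge (leaf 6 494 495) (node 654 (merge (leaf 6 526 559) (node 653 (merge (leaf 5 525 621) (leaf 5 557 685))))))) (merge (node 622 (merge (leaf 6 494 495) (node 623 (merge (leaf 4 526 655) (node 494 (merge (leaf 4 494 591) (node 621 (merge (leaf 5 493 589) (leaf 5 525 653))))))))) (merge (node 622 (merge (node 655 (merge (leaf 4 526 623) (node 654 (merge (leaf 6 526 559) (leaf 4 558 687))))) (merge (node 653 (merge (leaf 5 525 621) (node 654 (merge (leaf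 6 526 559) (leaf 5 557 685))))) (merge (node 655 (merge (leaf 4 526 623) (node 654 (merge (leaf 4 558 687) (node 653 (merge (leaf 5 525 621) (leaf 5 557 685))))))) (node 623 (merge (leaf 4 526 655) (node 621 (merge (leaf 5 525 653) (node 591 (merge (leaf 6 495 559) (node 620 (merge (leaf 2 588 592) (leaf 2 587 619))))))))))))) (node 591 (merge (node 623 (merge (leaf 4 494 494) (leaf 6 495 559))) (merge (node 559 (merge (leaf 6 495 623) (node 464 (merge (leaf 5 431 432) (leaf 6 463 495))))) (merge (node 494 (merge (leaf 4 494 623) (node 495 (merge (leaf 6 462 463) (node 493 (merge (leaf 0 492 492) (node 465 (merge (leaf 2 461 464) (leaf 2 462 466))))))))) (node 495 (merge (node 494 (merge (leaf 6 462 463) (node 493 (merge (leaf 7 461 461) (leaf 0 492 492))))) (node 559 (merge (leaf 6 463 464) (node 592 (merge (leaf 4 495 624) (node 593 (merge (leaf 3 557 557) (leaf 3 558 594))))))))))))))))) (node 494 (merge (node 493 (merge (leaf 3 493 529) (node 492 (merge (leaf 0 491 491) (leaf 0 492 495))))) (merge (node 493 (merge (leaf 3 493 529) (node 590 (merge (leaf 7 461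 461) (node 623 (merge (leaf 4 494 591) (node 622 (merge (leaf 4 526 655) (node 621 (merge (leaf 5 493 589) (leaf 5 525 653))))))))))) (merge (node 495 (merge (node 463 (merge (leaf 5 430 431) (leaf 6 462 590))) (node 493 (merge (leaf 0 492 492) (node 465 (merge (leaf 2 461 464) (leaf 2 462 466))))))) (node 464 (merge (node 432 (merge (leaf 5 431 559) (node 401 (merge (leaf 6 400 433) (node 400 (merge (leaf 6 368 369) (node 399 (merge (leaf 7 367 367) (leaf 7 399 431))))))))) (merge (node 590 (merge (node 591 (merge (leaf 4 494 623) (node 495 (merge (leaf 6 462 463) (leaf 6 463 559))))) (merge (node 621 (merge (leaf 5 493 589) (node 622 (merge (leaf 6 494 495) (leaf 5 525 653))))) (node 623 (merge (leaf 4 494 591) (node 622 (merge (leaf 4 526 655) (node 621 (merge (leaf 5 493 589) (leaf 5 525 653)))))))))) (node 432 (merge (node 400 (merge (leaf 5 399 495) (leaf 4 400 529))) (merge (node 401 (merge (leaf 6 400 433) (node 400 (merge (leaf 6 368 369) (node 399 (merge (leaf 7 367 367) (leaf 7 399 431))))))) (merge (node 400 (merge (leaf 5 399 495) (leaf 4 400 529)))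 (node 433 (merge (leaf 6 400 401) (node 431 (merge (leaf 7 399 399) (node 463 (merge (leaf 5 430 495) (node 434 (merge (leaf 1 431 435) (node 402 (merge (leaf 2 399 403) (node 465 (merge (leaf 6 401 529) (node 370 (merge (leaf 5 337 338) (leaf 5 369 466)))))))))))))))))))))))))))))))) (merge (hyp 0) (merge (node 526 (merge (leaf 2 493 525) (hyp 1))) (node 432 (merge (node 464 (merge (leaf 5 431 559) (node 400 (merge (leaf 5 399 495) (leaf 4 400 529))))) (merge (node 464 (merge (leaf 5 431 559) (node 401 (merge (leaf 6 400 433) (node 400 (merge (leaf 6 368 369) (node 399 (merge (leaf 7 367 367) (leaf 7 399 431))))))))) (merge (node 529 (merge (node 526 (merge (leaf 2 493 525) (node 558 (merge (leaf 1 525 557) (node 530 (merge (leaf 1 526 559) (node 531 (merge (leaf 3 495 495) (leaf 3 496 532))))))))) (merge (node 559 (merge (leaf 5 431 464) (node 530 (merge (leaf 1 526 558) (node 563 (merge (leaf 0 527 562) (node 531 (merge (leaf 3 496 532) (leaf 0 528 564))))))))) (merge (node 530 (merge (node 531 (merge (leaf 3 495 495) (leaf 3 496 532))) (merge (node 563 (merge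 (leaf 0 527 562) (node 531 (merge (leaf 3 496 532) (leaf 0 528 564))))) (node 562 (merge (leaf 0 527 563) (node 526 (merge (leaf 2 493 525) (node 558 (merge (leaf 1 525 557) (node 433 (merge (leaf 4 433 465) (node 464 (merge (leaf 6 400 401) (node 431 (merge (leaf 7 399 399) (node 463 (merge (leaf 5 430 495) (node 462 (merge (leaf 1 430 434) (leaf 0 461 461)))))))))))))))))))) (merge (node 526 (merge (leaf 2 493 525) (node 558 (merge (leaf 1 525 557) (node 464 (merge (leaf 5 431 559) (node 433 (merge (leaf 6 400 401) (node 431 (merge (leaf 7 399 399) (node 463 (merge (leaf 5 430 495) (node 462 (merge (leaf 1 430 434) (leaf 0 461 461))))))))))))))) (node 433 (merge (node 464 (merge (leaf 6 400 401) (leaf 5 431 559))) (merge (node 465 (merge (leaf 5 400 401) (node 530 (merge (leaf 4 433 562) (node 531 (merge (leaf 3 495 495) (leaf 3 496 532))))))) (node 434 (merge (node 464 (merge (leaf 5 431 559) (node 463 (merge (leaf 1 431 435) (node 431 (merge (leaf 7 399 399) (leaf 1 430 462))))))) (merge (node 465 (merge (leaf 6 401 402) (node 530 (merge (leaf 4 433 562) (node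 531 (merge (leaf 3 496 532) (node 563 (merge (leaf 0 528 564) (node 499 (merge (leaf 2 496 500) (node 467 (merge (leaf 7 434 466) (node 468 (merge (leaf 0 432 435) (leaf 6 435 436))))))))))))))) (node 464 (merge (leaf 5 431 559) (node 465 (merge (leaf 6 401 402) (node 431 (merge (leaf 7 399 399) (node 430 (merge (leaf 0 429 429) (leaf 0 430 466)))))))))))))))))))) (merge (node 526 (merge (leaf 2 493 525) (node 433 (merge (node 401 (merge (leaf 6 400 464) (leaf 5 400 465))) (merge (node 464 (merge (leaf 6 400 401) (node 400 (merge (leaf 5 399 495) (leaf 4 400 529))))) (merge (node 465 (merge (leaf 5 400 401) (node 529 (merge (leaf 7 400 400) (node 530 (merge (leaf 4 433 562) (node 531 (merge (leaf 3 496 532) (node 563 (merge (leaf 0 528 564) (node 499 (merge (leaf 2 496 500) (node 434 (merge (leaf 6 401 402) (node 467 (merge (leaf 7 434 466) (node 468 (merge (leaf 0 432 435) (leaf 6 435 436))))))))))))))))))) (node 431 (merge (node 399 (merge (leaf 7 399 464) (node 434 (merge (leaf 3 398 398) (node 463 (merge (leaf 1 430 462) (leaf 4 399 495))))))) (merge (node 399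 (merge (leaf 7 399 464) (node 434 (merge (leaf 3 398 398) (node 403 (merge (leaf 2 399 402) (node 435 (merge (leaf 3 399 400) (leaf 2 400 404))))))))) (merge (node 463 (merge (node 495 (merge (leaf 4 399 399) (leaf 5 430 558))) (merge (node 495 (merge (leaf 6 399 400) (leaf 5 430 558))) (node 434 (merge (leaf 1 430 462) (node 403 (merge (leaf 2 399 402) (node 435 (merge (leaf 2 400 404) (node 399 (merge (leaf 3 398 398) (leaf 3 399 400)))))))))))) (merge (node 400 (merge (node 495 (merge (leaf 6 399 463) (leaf 5 399 464))) (merge (node 529 (merge (leaf 4 400 464) (leaf 7 400 465))) (node 463 (merge (leaf 6 399 495) (node 434 (merge (leaf 1 430 462) (node 467 (merge (leaf 0 431 466) (node 435 (merge (leaf 0 432 468) (node 403 (merge (leaf 2 399 402) (leaf 2 400 404)))))))))))))) (node 464 (merge (leaf 7 399 399) (node 400 (merge (leaf 4 400 529) (node 368 (merge (leaf 4 368 465) (node 336 (merge (leaf 5 335 463) (node 337 (merge (leaf 6 304 305) (leaf 6 336 369)))))))))))))))))))))) (node 526 (merge (leaf 2 493 525) (hyp 2))))))))))))))))))))) nQ_22 cQ_22 15 (by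 decide +kernel)
def nQ_23 : ℕ := 0x1000000010000000000000000000000000000000000000000000000000000000000000000000000000000000000000000000000000000000000000000000000000000
def cQ_23 : ℕ := 0x20000000e0000000e000000af000000ffc00000ff800003cf800007ef000003ef800007ff800003ff000007ff800003fe000001f6000001a0000000000000000000000000000000000000000000000000000000000000000000000000000
theorem lQ_23 : S nQ_23 cQ_23 16 := S_of_chk [(nQ_16, cQ_16, 13), (nQ_18, cQ_18, 15), (nQ_22, cQ_22, 15)] ⟨lQ_16, lQ_18, lQ_22, trivial⟩ (node 497 (merge (node 495 (merge (node 494 (merge (node 529 (merge (leaf 0 493 493) (node 530 (merge (leaf 0 494 497) (leaf 3 495 531))))) (merge (node 525 (merge (leaf 1 493 526) (node 493 (merge (leaf 1 492 524) (node 461 (merge (leaf 3 460 460) (leaf 3 461 462))))))) (node 530 (merge (leaf 0 494 529) (node 498 (merge (leaf 0 495 531) (node 462 (merge (leaf 3 461 461) (leaf 3 462 463)))))))))) (merge (node 494 (merge (node 525 (merge (leaf 1 493 526) (node 493 (merge (leaf 1 492 524) (node 461 (merge (leaf 3 460 460) (leaf 3 461 462))))))) (merge (node 466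 (merge (leaf 2 462 465) (node 498 (merge (leaf 2 463 467) (node 462 (merge (leaf 3 461 461) (leaf 3 462 463))))))) (node 525 (merge (leaf 1 493 526) (node 493 (merge (leaf 1 492 524) (node 465 (merge (leaf 2 461 464) (leaf 2 462 466)))))))))) (merge (node 494 (merge (node 529 (merge (leaf 0 493 493) (node 530 (merge (leaf 0 494 497) (leaf 3 495 531))))) (merge (node 525 (merge (leaf 1 493 526) (node 493 (merge (leaf 1 492 524) (node 465 (merge (leaf 2 461 464) (leaf 2 462 466))))))) (node 530 (merge (leaf 0 494 529) (node 498 (merge (leaf 0 495 531) (node 526 (merge (leaf 1 493 525) (leaf 1 494 527)))))))))) (merge (node 530 (merge (node 529 (merge (leaf 0 494 494) (leaf 3 495 531))) (merge (node 531 (merge (leaf 0 495 498) (leaf 3 495 529))) (merge (node 494 (merge (leaf 0 494 529) (node 466 (merge (leaf 2 462 465) (node 498 (merge (leaf 2 463 467) (node 462 (merge (leaf 3 461 461) (leaf 3 462 463))))))))) (node 498 (merge (leaf 0 495 531) (node 466 (merge (leaf 2 463 467) (node 465 (merge (leaf 2 462 494) (node 562 (merge (leaf 7 433 433) (leaf 7 465 594)))))))))))))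 (merge (node 494 (merge (node 529 (merge (leaf 0 493 493) (node 530 (merge (leaf 0 494 497) (leaf 3 495 531))))) (merge (node 525 (merge (leaf 1 493 526) (node 493 (merge (leaf 1 492 524) (node 461 (merge (leaf 3 460 460) (leaf 3 461 462))))))) (node 529 (merge (leaf 0 494 530) (node 526 (merge (leaf 1 493 525) (node 465 (merge (leaf 2 462 466) (node 462 (merge (leaf 3 461 461) (node 433 (merge (leaf 5 400 401) (node 434 (merge (leaf 6 401 402) (node 463 (merge (leaf 2 430 464) (node 558 (merge (leaf 6 430 431) (leaf 6 462 590)))))))))))))))))))) (node 527 (merge (node 526 (merge (leaf 1 494 498) (leaf 2 493 525))) (merge (node 463 (merge (node 462 (merge (leaf 3 462 498) (node 461 (merge (leaf 0 460 460) (leaf 0 461 464))))) (merge (node 462 (merge (leaf 3 462 498) (node 464 (merge (leaf 0 461 461) (node 559 (merge (leaf 7 430 430) (leaf 5 431 432))))))) (merge (node 431 (merge (leaf 4 399 399) (node 432 (merge (leaf 6 399 400) (node 559 (merge (leaf 5 431 464) (node 430 (merge (leaf 7 398 398) (leaf 7 430 462))))))))) (merge (node 431 (merge (leaf 4 399 399) (node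 432 (merge (leaf 6 399 400) (node 430 (merge (leaf 7 398 398) (node 462 (merge (leaf 7 430 559) (node 461 (merge (leaf 1 429 433) (leaf 0 460 460))))))))))) (node 431 (merge (leaf 4 399 399) (node 432 (merge (leaf 6 399 400) (node 464 (merge (leaf 5 431 559) (node 433 (merge (leaf 6 400 401) (node 430 (merge (leaf 7 398 398) (node 466 (merge (leaf 0 430 465) (node 467 (merge (leaf 0 431 434) (leaf 2 463 498)))))))))))))))))))) (node 463 (merge (node 431 (merge (leaf 4 399 399) (node 526 (merge (leaf 5 430 558) (node 525 (merge (leaf 2 493 497) (leaf 2 492 524))))))) (merge (node 526 (merge (leaf 2 493 525) (node 431 (merge (leaf 5 430 558) (node 430 (merge (leaf 7 398 398) (node 559 (merge (leaf 7 430 462) (node 591 (merge (leaf 6 463 464) (leaf 6 495 623))))))))))) (merge (node 431 (merge (leaf 4 399 399) (node 432 (merge (leaf 6 399 400) (node 559 (merge (leaf 5 431 464) (node 430 (merge (leaf 7 398 398) (leaf 7 430 462))))))))) (node 559 (merge (node 462 (merge (leaf 7 430 430) (node 461 (merge (leaf 0 460 460) (leaf 0 461 464))))) (merge (node 464 (merge (leaf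 5 431 432) (leaf 6 463 591))) (node 558 (merge (leaf 5 462 590) (node 529 (merge (leaf 1 526 530) (node 557 (merge (leaf 1 525 526) (leaf 2 524 556))))))))))))))))))))))) (merge (node 527 (merge (node 526 (merge (leaf 2 493 525) (node 498 (merge (leaf 1 494 495) (leaf 2 494 529))))) (merge (node 526 (merge (leaf 2 493 525) (node 498 (merge (leaf 1 495 499) (leaf 2 494 529))))) (merge (node 526 (merge (leaf 2 493 525) (node 498 (merge (leaf 1 494 495) (leaf 1 495 499))))) (merge (node 495 (merge (node 498 (merge (leaf 1 495 499) (node 530 (merge (leaf 0 495 531) (node 529 (merge (leaf 0 494 494) (node 562 (merge (leaf 0 527 563) (node 594 (merge (leaf 7 465 465) (leaf 7 497 626))))))))))) (merge (node 498 (merge (leaf 1 495 499) (node 463 (merge (leaf 3 462 462) (node 431 (merge (leaf 4 399 399) (node 432 (merge (leaf 6 399 400) (node 559 (merge (leaf 5 431 464) (node 590 (merge (leaf 5 462 558) (node 591 (merge (leaf 5 494 622) (leaf 6 495 623))))))))))))))) (merge (node 498 (merge (leaf 1 495 499) (node 530 (merge (leaf 0 495 531) (node 529 (merge (leaf 0 494 494)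 (node 562 (merge (leaf 0 527 563) (node 594 (merge (leaf 7 465 465) (leaf 7 497 626))))))))))) (node 529 (merge (node 494 (merge (leaf 0 493 493) (leaf 0 494 530))) (merge (node 530 (merge (leaf 3 495 531) (node 559 (merge (leaf 1 526 558) (node 591 (merge (leaf 6 463 464) (leaf 6 495 623))))))) (node 494 (merge (leaf 0 493 493) (node 462 (merge (leaf 3 461 461) (node 559 (merge (leaf 7 462 591) (node 432 (merge (leaf 5 431 464) (node 463 (merge (leaf 7 430 430) (node 431 (merge (leaf 4 399 399) (leaf 6 399 400)))))))))))))))))))) (node 529 (merge (node 526 (merge (leaf 2 493 525) (node 558 (merge (leaf 1 525 557) (node 530 (merge (leaf 1 526 559) (node 531 (merge (leaf 3 495 495) (leaf 3 496 532))))))))) (merge (node 526 (merge (leaf 2 493 525) (node 494 (merge (leaf 3 493 493) (node 530 (merge (leaf 0 494 495) (node 563 (merge (leaf 0 527 562) (node 531 (merge (leaf 3 496 532) (leaf 0 528 564))))))))))) (merge (node 526 (merge (leaf 2 493 525) (node 558 (merge (leaf 1 525 557) (node 530 (merge (leaf 1 526 559) (node 563 (merge (leaf 0 527 562) (node 531 (merge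 (leaf 3 496 532) (leaf 0 528 564))))))))))) (merge (node 530 (merge (node 495 (merge (leaf 0 494 494) (node 559 (merge (leaf 1 526 558) (node 591 (merge (leaf 6 463 464) (leaf 6 495 623))))))) (node 563 (merge (leaf 0 527 562) (node 531 (merge (leaf 3 496 532) (leaf 0 528 564))))))) (node 495 (merge (node 526 (merge (leaf 2 493 525) (node 558 (merge (leaf 1 525 557) (node 463 (merge (leaf 5 430 431) (node 590 (merge (leaf 5 462 559) (leaf 6 494 622))))))))) (merge (node 494 (merge (leaf 0 493 493) (node 462 (merge (leaf 3 461 461) (node 559 (merge (leaf 7 462 591) (node 432 (merge (leaf 5 431 464) (node 463 (merge (leaf 7 430 430) (node 431 (merge (leaf 4 399 399) (leaf 6 399 400))))))))))))) (merge (node 494 (merge (leaf 0 493 493) (node 526 (merge (leaf 1 493 525) (node 558 (merge (leaf 1 525 557) (node 590 (merge (leaf 6 462 463) (leaf 6 494 622))))))))) (node 494 (merge (leaf 0 493 493) (node 526 (merge (leaf 1 493 525) (node 462 (merge (leaf 3 461 461) (node 430 (merge (leaf 4 398 398) (leaf 4 430 559))))))))))))))))))))))) (merge (node 498 (merge (node 527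 (merge (leaf 1 495 499) (node 526 (merge (leaf 2 493 525) (leaf 2 494 529))))) (merge (node 499 (merge (leaf 1 495 527) (node 532 (merge (leaf 0 496 531) (node 500 (merge (leaf 0 497 533) (node 468 (merge (leaf 2 464 467) (leaf 2 465 469))))))))) (merge (node 499 (merge (node 532 (merge (leaf 0 496 531) (node 500 (merge (leaf 1 496 529) (leaf 0 497 533))))) (merge (node 531 (merge (leaf 0 496 532) (node 495 (merge (leaf 0 495 530) (node 467 (merge (leaf 2 463 466) (leaf 2 464 468))))))) (node 529 (merge (leaf 1 496 500) (node 467 (merge (leaf 2 464 468) (node 495 (merge (leaf 2 463 466) (node 494 (merge (leaf 0 493 493) (leaf 0 494 530)))))))))))) (node 527 (merge (node 526 (merge (leaf 2 493 525) (leaf 2 494 529))) (merge (node 526 (merge (leaf 1 494 495) (leaf 2 493 525))) (node 495 (merge (node 462 (merge (leaf 3 462 463) (node 494 (merge (leaf 3 461 461) (node 529 (merge (leaf 0 493 493) (leaf 0 494 530))))))) (merge (node 530 (merge (leaf 0 495 531) (node 529 (merge (leaf 0 494 494) (node 559 (merge (leaf 1 526 558) (node 591 (merge (leaf 6 463 464) (leaf 6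 495 623))))))))) (node 463 (merge (leaf 3 462 462) (node 431 (merge (leaf 4 399 399) (node 432 (merge (leaf 6 399 400) (node 559 (merge (leaf 5 431 464) (node 590 (merge (leaf 5 462 558) (node 591 (merge (leaf 5 494 622) (leaf 6 495 623))))))))))))))))))))))) (merge (node 498 (merge (node 499 (merge (leaf 1 495 527) (node 468 (merge (leaf 2 464 467) (node 500 (merge (leaf 2 465 469) (node 464 (merge (leaf 3 463 463) (leaf 3 464 465))))))))) (merge (node 499 (merge (leaf 1 495 527) (node 531 (merge (leaf 0 496 532) (node 495 (merge (leaf 0 495 530) (node 467 (merge (leaf 2 463 466) (leaf 2 464 468))))))))) (merge (node 499 (merge (leaf 1 495 527) (node 532 (merge (leaf 0 496 531) (node 500 (merge (leaf 0 497 533) (node 464 (merge (leaf 3 463 463) (leaf 3 464 465))))))))) (merge (node 499 (merge (node 532 (merge (leaf 0 496 531) (node 500 (merge (leaf 0 497 533) (node 464 (merge (leaf 3 463 463) (leaf 3 464 465))))))) (merge (node 531 (merge (leaf 0 496 532) (node 495 (merge (leaf 0 495 530) (node 467 (merge (leaf 2 463 466) (leaf 2 464 468))))))) (node 468 (merge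 (leaf 2 464 467) (node 500 (merge (leaf 2 465 469) (node 464 (merge (leaf 3 463 463) (leaf 3 464 465)))))))))) (node 495 (merge (node 466 (merge (leaf 2 463 467) (node 494 (merge (leaf 2 462 465) (node 526 (merge (leaf 1 493 525) (leaf 1 494 527))))))) (merge (node 527 (merge (leaf 1 494 526) (node 463 (merge (leaf 3 462 462) (node 431 (merge (leaf 4 399 399) (node 432 (merge (leaf 6 399 400) (node 559 (merge (leaf 5 431 464) (node 590 (merge (leaf 5 462 558) (node 591 (merge (leaf 5 494 622) (leaf 6 495 623))))))))))))))) (node 530 (merge (leaf 0 495 531) (node 466 (merge (leaf 2 463 467) (node 465 (merge (leaf 2 462 494) (node 433 (merge (leaf 4 401 401) (leaf 7 433 562))))))))))))))))) (merge (node 498 (merge (node 527 (merge (leaf 1 495 499) (node 526 (merge (leaf 2 493 525) (leaf 2 494 529))))) (merge (node 499 (merge (leaf 1 495 527) (node 532 (merge (leaf 0 496 531) (node 500 (merge (leaf 0 497 533) (node 468 (merge (leaf 2 464 467) (leaf 2 465 469))))))))) (merge (node 499 (merge (node 532 (merge (leaf 0 496 531) (node 500 (merge (leaf 1 496 529) (leaf 0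 497 533))))) (merge (node 531 (merge (leaf 0 496 532) (node 495 (merge (leaf 0 495 530) (node 467 (merge (leaf 2 463 466) (leaf 2 464 468))))))) (node 529 (merge (leaf 1 496 500) (node 467 (merge (leaf 2 464 468) (node 495 (merge (leaf 2 463 466) (node 494 (merge (leaf 0 493 493) (leaf 0 494 530)))))))))))) (node 495 (merge (node 466 (merge (leaf 2 463 467) (node 494 (merge (leaf 2 462 465) (node 526 (merge (leaf 1 493 525) (leaf 1 494 527))))))) (merge (node 530 (merge (leaf 0 495 531) (node 494 (merge (leaf 0 494 529) (node 466 (merge (leaf 2 462 465) (leaf 2 463 467))))))) (merge (node 494 (merge (node 529 (merge (leaf 0 493 493) (node 530 (merge (leaf 0 494 497) (leaf 3 495 531))))) (merge (node 525 (merge (leaf 1 493 526) (node 493 (merge (leaf 1 492 524) (node 461 (merge (leaf 3 460 460) (leaf 3 461 462))))))) (node 530 (merge (leaf 0 494 529) (node 498 (merge (leaf 0 495 531) (node 462 (merge (leaf 3 461 461) (leaf 3 462 463)))))))))) (node 530 (merge (leaf 0 495 531) (node 527 (merge (leaf 1 494 526) (node 466 (merge (leaf 2 463 467) (node 463 (merge (leaf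 3 462 462) (node 431 (merge (leaf 4 399 399) (node 432 (merge (leaf 6 399 400) (node 430 (merge (leaf 7 398 398) (node 433 (merge (leaf 0 430 465) (node 401 (merge (leaf 2 398 402) (leaf 7 401 434))))))))))))))))))))))))))) (merge (node 498 (merge (node 499 (merge (leaf 1 495 527) (node 532 (merge (leaf 0 496 531) (node 500 (merge (leaf 1 496 529) (leaf 0 497 533))))))) (merge (node 499 (merge (leaf 1 495 527) (node 532 (merge (leaf 0 496 531) (node 500 (merge (leaf 0 497 533) (node 464 (merge (leaf 3 463 463) (leaf 3 464 465))))))))) (merge (node 499 (merge (node 532 (merge (leaf 0 496 531) (node 500 (merge (leaf 1 496 529) (leaf 0 497 533))))) (merge (node 500 (merge (leaf 1 496 529) (node 464 (merge (leaf 3 463 463) (leaf 3 464 465))))) (node 531 (merge (leaf 0 496 532) (node 467 (merge (leaf 2 464 468) (node 466 (merge (leaf 2 463 495) (node 563 (merge (leaf 7 434 434) (leaf 7 466 595)))))))))))) (node 495 (merge (node 466 (merge (leaf 2 463 467) (node 494 (merge (leaf 2 462 465) (node 526 (merge (leaf 1 493 525) (leaf 1 494 527))))))) (merge (node 527 (merge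 (leaf 1 494 526) (node 463 (merge (leaf 3 462 462) (node 431 (merge (leaf 4 399 399) (node 432 (merge (leaf 6 399 400) (node 559 (merge (leaf 5 431 464) (node 590 (merge (leaf 5 462 558) (node 591 (merge (leaf 5 494 622) (leaf 6 495 623))))))))))))))) (merge (node 466 (merge (leaf 2 463 467) (node 494 (merge (leaf 2 462 465) (node 462 (merge (leaf 3 461 461) (leaf 3 462 463))))))) (node 466 (merge (leaf 2 463 467) (node 494 (merge (leaf 2 462 465) (node 462 (merge (leaf 3 461 461) (leaf 3 462 463))))))))))))))) (merge (node 498 (merge (node 527 (merge (leaf 1 495 499) (node 526 (merge (leaf 2 493 525) (leaf 2 494 529))))) (merge (node 499 (merge (leaf 1 495 527) (node 468 (merge (leaf 2 464 467) (node 500 (merge (leaf 2 465 469) (node 464 (merge (leaf 3 463 463) (leaf 3 464 465))))))))) (merge (node 495 (merge (node 467 (merge (leaf 2 463 466) (node 499 (merge (leaf 2 464 468) (node 463 (merge (leaf 3 462 462) (leaf 3 463 464))))))) (merge (node 466 (merge (leaf 2 463 467) (node 494 (merge (leaf 2 462 465) (node 529 (merge (leaf 0 493 493) (leaf 0 494 530)))))))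 (merge (node 463 (merge (leaf 3 462 462) (node 499 (merge (leaf 3 463 464) (node 529 (merge (leaf 1 496 500) (node 494 (merge (leaf 0 493 493) (leaf 0 494 530))))))))) (node 463 (merge (leaf 3 462 462) (node 499 (merge (leaf 3 463 464) (node 500 (merge (leaf 1 496 529) (node 533 (merge (leaf 0 497 532) (node 501 (merge (leaf 0 498 534) (node 469 (merge (leaf 2 465 468) (leaf 2 466 470))))))))))))))))) (node 495 (merge (node 466 (merge (leaf 2 463 467) (node 494 (merge (leaf 2 462 465) (node 526 (merge (leaf 1 493 525) (leaf 1 494 527))))))) (merge (node 466 (merge (leaf 2 463 467) (node 494 (merge (leaf 2 462 465) (node 529 (merge (leaf 0 493 493) (leaf 0 494 530))))))) (merge (node 526 (merge (leaf 1 494 527) (node 494 (merge (leaf 1 493 525) (node 529 (merge (leaf 0 493 493) (leaf 0 494 530))))))) (node 527 (merge (leaf 1 494 526) (node 466 (merge (leaf 2 463 467) (node 463 (merge (leaf 3 462 462) (node 431 (merge (leaf 4 399 399) (node 430 (merge (leaf 7 398 398) (node 465 (merge (leaf 3 430 464) (node 433 (merge (leaf 5 400 401) (leaf 0 430 432)))))))))))))))))))))))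 (merge (node 498 (merge (node 527 (merge (leaf 1 495 499) (node 526 (merge (leaf 2 493 525) (leaf 2 494 529))))) (merge (node 499 (merge (leaf 1 495 527) (node 532 (merge (leaf 0 496 531) (node 500 (merge (leaf 0 497 533) (node 468 (merge (leaf 2 464 467) (leaf 2 465 469))))))))) (merge (node 499 (merge (node 532 (merge (leaf 0 496 531) (node 500 (merge (leaf 1 496 529) (leaf 0 497 533))))) (merge (node 531 (merge (leaf 0 496 532) (node 495 (merge (leaf 0 495 530) (node 467 (merge (leaf 2 463 466) (leaf 2 464 468))))))) (merge (node 500 (merge (leaf 1 496 529) (node 469 (merge (leaf 2 465 468) (node 501 (merge (leaf 2 466 470) (node 465 (merge (leaf 3 464 464) (leaf 3 465 466))))))))) (node 500 (merge (leaf 1 496 529) (node 533 (merge (leaf 0 497 532) (node 501 (merge (leaf 0 498 534) (node 465 (merge (leaf 3 464 464) (leaf 3 465 466))))))))))))) (node 530 (merge (node 531 (merge (leaf 0 495 495) (node 532 (merge (leaf 3 496 529) (leaf 3 497 533))))) (merge (node 495 (merge (leaf 0 495 531) (node 466 (merge (leaf 2 463 467) (node 494 (merge (leaf 2 462 465) (node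 526 (merge (leaf 1 493 525) (leaf 1 494 527))))))))) (merge (node 466 (merge (node 495 (merge (leaf 2 463 467) (node 494 (merge (leaf 2 462 465) (node 526 (merge (leaf 1 493 525) (leaf 1 494 527))))))) (merge (node 495 (merge (leaf 2 463 467) (node 529 (merge (leaf 0 494 494) (node 527 (merge (leaf 1 494 526) (node 559 (merge (leaf 1 526 558) (node 591 (merge (leaf 6 463 464) (leaf 6 495 623))))))))))) (merge (node 562 (merge (node 467 (merge (leaf 6 434 435) (node 465 (merge (leaf 7 433 433) (leaf 1 464 468))))) (node 594 (merge (node 627 (merge (leaf 4 498 595) (node 626 (merge (leaf 7 497 529) (leaf 4 530 659))))) (merge (node 625 (merge (leaf 5 497 593) (node 626 (merge (leaf 7 497 529) (leaf 5 529 657))))) (node 595 (merge (leaf 4 498 627) (node 563 (merge (leaf 4 466 466) (node 593 (merge (leaf 5 497 625) (node 592 (merge (leaf 2 560 564) (leaf 2 559 591)))))))))))))) (node 433 (merge (node 465 (merge (leaf 4 401 401) (node 562 (merge (leaf 7 433 466) (leaf 7 465 594))))) (merge (node 562 (merge (leaf 7 433 465) (node 563 (merge (leaf 4 466 595) (node 527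 (merge (leaf 0 527 529) (node 526 (merge (leaf 1 494 495) (leaf 2 493 525))))))))) (node 434 (merge (leaf 7 401 401) (node 529 (merge (leaf 5 401 402) (node 495 (merge (leaf 0 494 494) (node 527 (merge (leaf 1 494 526) (node 559 (merge (leaf 1 526 558) (node 591 (merge (leaf 6 463 464) (leaf 6 495 623)))))))))))))))))))) (node 562 (merge (node 465 (merge (leaf 7 465 594) (node 433 (merge (leaf 4 401 401) (leaf 4 433 529))))) (merge (node 594 (merge (leaf 7 465 465) (node 627 (merge (leaf 4 498 595) (node 626 (merge (leaf 4 530 659) (node 625 (merge (leaf 5 497 593) (leaf 5 529 657))))))))) (merge (node 594 (merge (node 627 (merge (leaf 4 498 595) (node 626 (merge (leaf 7 497 529) (leaf 4 530 659))))) (merge (node 625 (merge (leaf 5 497 593) (node 626 (merge (leaf 7 497 529) (leaf 5 529 657))))) (node 595 (merge (leaf 4 498 627) (node 563 (merge (leaf 4 466 466) (node 593 (merge (leaf 5 497 625) (node 592 (merge (leaf 2 560 564) (leaf 2 559 591)))))))))))) (node 466 (merge (node 467 (merge (leaf 6 434 435) (node 465 (merge (leaf 7 433 433) (leaf 1 464 468))))) (merge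 (node 563 (merge (leaf 4 466 595) (node 434 (merge (leaf 4 434 531) (node 402 (merge (leaf 5 401 529) (node 465 (merge (leaf 5 369 370) (leaf 7 433 433))))))))) (merge (node 563 (merge (leaf 4 466 595) (node 529 (merge (leaf 0 527 527) (node 564 (merge (leaf 0 528 531) (leaf 3 529 565))))))) (merge (node 563 (merge (leaf 4 466 595) (node 529 (merge (leaf 0 527 527) (node 434 (merge (leaf 5 401 402) (leaf 4 434 531))))))) (node 467 (merge (leaf 6 434 435) (node 468 (merge (leaf 1 464 465) (leaf 1 465 469)))))))))))))))))))))) (merge (node 498 (merge (node 499 (merge (leaf 1 495 527) (node 532 (merge (leaf 0 496 531) (node 500 (merge (leaf 1 496 529) (leaf 0 497 533))))))) (merge (node 499 (merge (leaf 1 495 527) (node 468 (merge (leaf 2 464 467) (node 500 (merge (leaf 2 465 469) (node 464 (merge (leaf 3 463 463) (leaf 3 464 465))))))))) (merge (node 499 (merge (node 500 (merge (leaf 1 496 529) (node 464 (merge (leaf 3 463 463) (leaf 3 464 465))))) (node 531 (merge (leaf 0 496 532) (node 495 (merge (leaf 0 495 530) (node 467 (merge (leaf 2 463 466) (leaf 2 464 468)))))))))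 (node 530 (merge (node 531 (merge (leaf 0 495 495) (node 532 (merge (leaf 3 496 529) (leaf 3 497 533))))) (merge (node 495 (merge (leaf 0 495 531) (node 466 (merge (leaf 2 463 467) (node 465 (merge (leaf 2 462 494) (node 562 (merge (leaf 7 433 433) (leaf 7 465 594))))))))) (merge (node 466 (merge (node 495 (merge (leaf 2 463 467) (node 465 (merge (leaf 2 462 494) (node 562 (merge (leaf 7 433 433) (leaf 7 465 594))))))) (merge (node 467 (merge (leaf 2 463 495) (node 562 (merge (leaf 6 434 435) (node 594 (merge (leaf 7 465 465) (node 625 (merge (leaf 5 497 593) (node 626 (merge (leaf 7 497 529) (leaf 5 529 657))))))))))) (merge (node 465 (merge (node 562 (merge (leaf 7 433 433) (leaf 7 465 594))) (node 495 (merge (leaf 2 462 494) (node 463 (merge (leaf 3 462 462) (node 431 (merge (leaf 4 399 399) (node 464 (merge (leaf 3 430 430) (node 434 (merge (leaf 2 431 435) (node 402 (merge (leaf 5 369 370) (leaf 5 401 529))))))))))))))) (merge (node 495 (merge (leaf 2 463 467) (node 529 (merge (leaf 0 494 494) (node 463 (merge (leaf 3 462 462) (node 399 (merge (leaf 4 399 431)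 (node 434 (merge (leaf 5 401 402) (node 435 (merge (leaf 6 402 403) (node 433 (merge (leaf 7 401 401) (node 432 (merge (leaf 3 399 400) (leaf 1 431 464))))))))))))))))) (node 562 (merge (node 467 (merge (leaf 6 434 435) (node 465 (merge (leaf 7 433 433) (leaf 1 464 468))))) (node 594 (merge (node 627 (merge (leaf 4 498 595) (node 626 (merge (leaf 7 497 529) (leaf 4 530 659))))) (merge (node 625 (merge (leaf 5 497 593) (node 626 (merge (leaf 7 497 529) (leaf 5 529 657))))) (node 595 (merge (leaf 4 498 627) (node 563 (merge (leaf 4 466 466) (node 593 (merge (leaf 5 497 625) (node 592 (merge (leaf 2 560 564) (leaf 2 559 591))))))))))))))))))) (node 562 (merge (node 465 (merge (leaf 7 465 594) (node 433 (merge (leaf 4 401 401) (leaf 4 433 529))))) (merge (node 594 (merge (leaf 7 465 465) (node 627 (merge (leaf 4 498 595) (node 626 (merge (leaf 4 530 659) (node 625 (merge (leaf 5 497 593) (leaf 5 529 657))))))))) (merge (node 594 (merge (node 627 (merge (leaf 4 498 595) (node 626 (merge (leaf 7 497 529) (leaf 4 530 659))))) (merge (node 625 (merge (leaf 5 497 593) (node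 626 (merge (leaf 7 497 529) (leaf 5 529 657))))) (node 595 (merge (leaf 4 498 627) (node 563 (merge (leaf 4 466 466) (node 593 (merge (leaf 5 497 625) (node 592 (merge (leaf 2 560 564) (leaf 2 559 591)))))))))))) (node 466 (merge (node 467 (merge (leaf 6 434 435) (node 465 (merge (leaf 7 433 433) (leaf 1 464 468))))) (merge (node 563 (merge (leaf 4 466 595) (node 434 (merge (leaf 4 434 531) (node 402 (merge (leaf 5 401 529) (node 465 (merge (leaf 5 369 370) (leaf 7 433 433))))))))) (merge (node 563 (merge (leaf 4 466 595) (node 529 (merge (leaf 0 527 527) (node 564 (merge (leaf 0 528 531) (leaf 3 529 565))))))) (merge (node 563 (merge (leaf 4 466 595) (node 529 (merge (leaf 0 527 527) (node 434 (merge (leaf 5 401 402) (leaf 4 434 531))))))) (node 467 (merge (leaf 6 434 435) (node 468 (merge (leaf 1 464 465) (leaf 1 465 469)))))))))))))))))))))) (merge (node 498 (merge (node 527 (merge (leaf 1 495 499) (node 526 (merge (leaf 2 493 525) (leaf 2 494 529))))) (merge (node 499 (merge (leaf 1 495 527) (node 532 (merge (leaf 0 496 531) (node 500 (merge (leaf 0 497 533)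 (node 464 (merge (leaf 3 463 463) (leaf 3 464 465))))))))) (merge (node 499 (merge (node 500 (merge (leaf 1 496 529) (node 464 (merge (leaf 3 463 463) (leaf 3 464 465))))) (node 531 (merge (leaf 0 496 532) (node 495 (merge (leaf 0 495 530) (node 467 (merge (leaf 2 463 466) (leaf 2 464 468))))))))) (node 466 (merge (node 467 (merge (leaf 2 463 495) (node 468 (merge (leaf 1 464 465) (leaf 1 465 469))))) (merge (node 495 (merge (leaf 2 463 467) (node 527 (merge (leaf 1 494 526) (node 463 (merge (leaf 3 462 462) (node 431 (merge (leaf 4 399 399) (node 432 (merge (leaf 6 399 400) (node 559 (merge (leaf 5 431 464) (node 590 (merge (leaf 5 462 558) (node 591 (merge (leaf 5 494 622) (leaf 6 495 623))))))))))))))))) (merge (node 530 (merge (node 531 (merge (leaf 0 495 495) (node 529 (merge (leaf 3 496 532) (node 434 (merge (leaf 5 401 402) (leaf 4 434 563))))))) (merge (node 495 (merge (leaf 0 495 531) (node 527 (merge (leaf 1 494 526) (node 463 (merge (leaf 3 462 462) (node 431 (merge (leaf 4 399 399) (node 432 (merge (leaf 6 399 400) (node 430 (merge (leaf 7 398 398) (node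 465 (merge (leaf 0 430 433) (leaf 3 430 464))))))))))))))) (merge (node 495 (merge (leaf 0 495 531) (node 527 (merge (leaf 1 494 526) (node 463 (merge (leaf 3 462 462) (node 431 (merge (leaf 4 399 399) (node 432 (merge (leaf 6 399 400) (node 559 (merge (leaf 5 431 464) (node 558 (merge (leaf 1 526 529) (leaf 5 462 590))))))))))))))) (merge (node 433 (merge (node 465 (merge (leaf 4 401 401) (node 562 (merge (leaf 7 433 466) (leaf 7 465 594))))) (merge (node 562 (merge (leaf 7 433 465) (node 563 (merge (leaf 4 466 595) (node 527 (merge (leaf 0 527 529) (node 526 (merge (leaf 1 494 495) (leaf 2 493 525))))))))) (node 434 (merge (leaf 7 401 401) (node 529 (merge (leaf 5 401 402) (node 527 (merge (leaf 2 494 526) (node 559 (merge (leaf 1 526 558) (node 464 (merge (leaf 5 431 432) (node 591 (merge (leaf 6 463 495) (leaf 6 495 623)))))))))))))))) (node 563 (merge (node 562 (merge (leaf 4 466 595) (node 594 (merge (leaf 7 465 465) (node 625 (merge (leaf 5 497 593) (node 626 (merge (leaf 7 497 529) (leaf 5 529 657))))))))) (merge (node 434 (merge (leaf 4 434 531) (node 562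 (merge (leaf 4 466 595) (node 529 (merge (leaf 5 401 402) (leaf 0 527 527))))))) (merge (node 434 (merge (leaf 4 434 531) (node 402 (merge (leaf 5 401 529) (node 403 (merge (leaf 6 370 371) (leaf 6 402 435))))))) (node 562 (merge (leaf 4 466 595) (node 465 (merge (leaf 7 433 433) (leaf 7 465 594)))))))))))))) (node 434 (merge (node 402 (merge (leaf 5 401 529) (node 401 (merge (leaf 7 369 369) (node 530 (merge (leaf 7 401 433) (node 563 (merge (leaf 4 434 531) (node 562 (merge (leaf 4 466 595) (node 435 (merge (leaf 6 402 403) (leaf 6 434 467))))))))))))) (merge (node 402 (merge (leaf 5 401 529) (node 370 (merge (leaf 5 369 465) (node 371 (merge (leaf 6 338 339) (leaf 6 370 403))))))) (merge (node 402 (merge (leaf 5 401 529) (node 465 (merge (leaf 5 369 370) (node 403 (merge (leaf 6 370 371) (node 530 (merge (leaf 6 402 435) (node 563 (merge (leaf 4 434 531) (node 562 (merge (leaf 7 465 594) (leaf 4 466 595))))))))))))) (merge (node 402 (merge (leaf 5 401 529) (node 465 (merge (leaf 5 369 370) (node 403 (merge (leaf 6 370 371) (node 530 (merge (leaf 6 402 435) (node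 562 (merge (leaf 7 433 433) (leaf 7 465 594))))))))))) (merge (node 402 (merge (leaf 5 401 529) (node 465 (merge (leaf 5 369 370) (node 467 (merge (leaf 1 464 468) (node 401 (merge (leaf 7 369 369) (node 530 (merge (leaf 4 401 433) (node 562 (merge (leaf 6 434 435) (leaf 7 465 594))))))))))))) (merge (node 530 (merge (node 563 (merge (leaf 4 434 531) (node 562 (merge (leaf 4 466 595) (node 433 (merge (leaf 7 401 401) (leaf 7 433 465))))))) (merge (node 435 (merge (leaf 6 402 403) (node 562 (merge (leaf 6 434 467) (node 594 (merge (leaf 7 465 465) (node 625 (merge (leaf 5 497 593) (node 626 (merge (leaf 7 497 529) (leaf 5 529 657))))))))))) (node 531 (merge (leaf 4 434 563) (node 532 (merge (leaf 3 496 529) (leaf 3 497 533)))))))) (merge (node 402 (merge (leaf 5 401 529) (node 403 (merge (leaf 6 370 371) (node 401 (merge (leaf 7 369 369) (node 433 (merge (leaf 5 400 465) (node 432 (merge (leaf 1 400 404) (leaf 6 400 464))))))))))) (node 465 (merge (node 402 (merge (leaf 5 369 370) (node 401 (merge (leaf 7 369 369) (leaf 5 400 433))))) (merge (node 402 (merge (leaf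 5 369 370) (node 403 (merge (leaf 6 370 371) (node 530 (merge (leaf 6 402 435) (node 562 (merge (leaf 7 433 433) (leaf 7 465 594))))))))) (merge (node 402 (merge (leaf 5 369 370) (node 403 (merge (leaf 6 370 371) (node 530 (merge (leaf 6 402 435) (node 563 (merge (leaf 4 434 531) (node 562 (merge (leaf 7 465 594) (leaf 4 466 595))))))))))) (node 433 (merge (leaf 5 400 401) (node 530 (merge (leaf 7 433 562) (node 435 (merge (leaf 6 402 403) (node 464 (merge (leaf 1 432 436) (leaf 2 431 463))))))))))))))))))))))))))))) (merge (hyp 0) (merge (hyp 1) (hyp 2)))))))))))))) nQ_23 cQ_23 16 (by decide +kernel)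
def nQ_24 : ℕ := 0x1c00000010000000100000000000000000000000000000000000000000000000000000000000000000000000000000000000000000000000000000000000000000000
def cQ_24 : ℕ := 0xa0000007e000000ff800000ff800001df80000000000000ef800000e60000002e0000003e000000280000000000000000000000000000000000000000000000000000000000000000000000000000000000000000000
theorem lQ_24 : S nQ_24 cQ_24 12 := S_of_chk [] trivial (node 558 (merge (node 560 (merge (node 465 (merge (leaf 6 432 433) (node 497 (merge (leaf 6 464 592) (node 498 (merge (leaf 1 494 495) (leaf 1 495 499))))))) (node 559 (merge (leaf 5 463 591) (node 557 (merge (leaf 2 524 556) (node 589 (merge (leaf 1 556 588) (node 494 (merge (leaf 5 461 462) (node 621 (merge (leaf 5 493 590) (leaf 6 525 653))))))))))))) (merge (node 590 (merge (node 622 (merge (leaf 6 494 495) (node 655 (merge (leaf 4 526 623) (node 654 (merge (leaf 6 526 559) (leaf 4 558 687))))))) (merge (node 622 (merge (leaf 6 494 495) (node 655 (merge (leaf 4 526 623) (node 654 (merge (leaf 4 558 687) (node 653 (merge (leaf 5 525 621) (leaf 5 557 685))))))))) (merge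 (node 623 (merge (node 591 (merge (leaf 4 494 494) (leaf 6 495 559))) (merge (node 622 (merge (leaf 4 526 655) (node 653 (merge (leaf 5 525 621) (node 654 (merge (leaf 6 526 559) (leaf 5 557 685))))))) (node 494 (merge (leaf 4 494 591) (node 622 (merge (leaf 4 526 655) (node 621 (merge (leaf 5 493 589) (leaf 5 525 653)))))))))) (node 494 (merge (node 493 (merge (leaf 7 461 461) (node 492 (merge (leaf 0 491 491) (leaf 0 492 495))))) (node 589 (merge (leaf 5 493 621) (node 462 (merge (leaf 5 461 557) (node 559 (merge (leaf 4 430 430) (leaf 4 462 591))))))))))))) (merge (node 560 (merge (node 465 (merge (leaf 6 432 433) (node 497 (merge (leaf 6 464 592) (node 498 (merge (leaf 1 494 495) (leaf 1 495 499))))))) (merge (node 465 (merge (leaf 6 432 433) (node 592 (merge (leaf 6 464 497) (node 591 (merge (leaf 5 463 559) (leaf 5 495 623))))))) (merge (node 591 (merge (leaf 5 463 559) (node 592 (merge (leaf 5 495 623) (node 625 (merge (leaf 4 496 593) (node 624 (merge (leaf 7 495 495) (leaf 4 528 657))))))))) (node 559 (merge (leaf 5 463 591) (node 557 (merge (leaf 2 524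 556) (node 589 (merge (leaf 1 556 588) (node 494 (merge (leaf 5 461 462) (node 465 (merge (leaf 6 432 433) (node 495 (merge (leaf 2 461 493) (node 497 (merge (leaf 2 462 466) (leaf 1 494 498))))))))))))))))))) (merge (node 560 (merge (node 465 (merge (leaf 6 432 433) (node 497 (merge (leaf 6 464 592) (node 498 (merge (leaf 1 494 495) (leaf 1 495 499))))))) (merge (node 465 (merge (leaf 6 432 433) (node 592 (merge (leaf 6 464 497) (node 591 (merge (leaf 5 463 559) (leaf 5 495 623))))))) (merge (node 591 (merge (leaf 5 463 559) (node 592 (merge (leaf 5 495 623) (node 625 (merge (leaf 4 496 593) (node 624 (merge (leaf 7 495 495) (leaf 4 528 657))))))))) (node 559 (merge (leaf 5 463 591) (node 557 (merge (leaf 2 524 556) (node 589 (merge (leaf 1 556 588) (node 494 (merge (leaf 5 461 462) (node 465 (merge (leaf 6 432 433) (node 495 (merge (leaf 2 461 493) (node 497 (merge (leaf 2 462 466) (leaf 1 494 498))))))))))))))))))) (merge (node 560 (merge (node 559 (merge (leaf 5 463 591) (node 557 (merge (leaf 2 524 556) (node 589 (merge (leaf 1 556 588) (node 494 (merge (leaf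 5 461 462) (node 621 (merge (leaf 5 493 590) (leaf 6 525 653))))))))))) (merge (node 465 (merge (leaf 6 432 433) (node 592 (merge (leaf 6 464 497) (node 625 (merge (leaf 4 496 593) (node 624 (merge (leaf 4 528 657) (node 623 (merge (leaf 5 495 591) (leaf 5 527 655))))))))))) (node 465 (merge (leaf 6 432 433) (node 592 (merge (leaf 6 464 497) (node 625 (merge (leaf 4 496 593) (node 624 (merge (leaf 4 528 657) (node 656 (merge (leaf 7 527 559) (node 655 (merge (leaf 5 527 623) (leaf 5 559 687)))))))))))))))) (merge (node 557 (merge (node 556 (merge (leaf 2 523 555) (leaf 2 524 559))) (merge (node 494 (merge (node 589 (merge (leaf 5 461 462) (node 621 (merge (leaf 5 493 590) (leaf 6 525 653))))) (merge (node 462 (merge (leaf 5 461 589) (node 461 (merge (leaf 7 429 429) (node 495 (merge (leaf 3 461 497) (node 493 (merge (leaf 2 461 465) (leaf 0 492 492))))))))) (merge (node 495 (merge (node 493 (merge (leaf 2 461 465) (leaf 0 492 492))) (node 497 (merge (leaf 1 494 498) (node 462 (merge (leaf 3 461 461) (node 430 (merge (leaf 4 398 398) (leaf 4 430 559))))))))) (node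 493 (merge (node 492 (merge (leaf 0 491 491) (leaf 0 492 495))) (node 590 (merge (leaf 7 461 461) (node 621 (merge (leaf 5 493 589) (node 622 (merge (leaf 5 525 653) (node 655 (merge (leaf 4 526 623) (node 654 (merge (leaf 6 526 559) (leaf 4 558 687))))))))))))))))) (node 494 (merge (node 589 (merge (leaf 5 461 462) (node 621 (merge (leaf 5 493 590) (leaf 6 525 653))))) (merge (node 462 (merge (leaf 5 461 589) (node 461 (merge (leaf 7 429 429) (node 495 (merge (leaf 3 461 497) (node 493 (merge (leaf 2 461 465) (leaf 0 492 492))))))))) (node 556 (merge (leaf 2 523 555) (node 495 (merge (node 493 (merge (leaf 2 461 465) (leaf 0 492 492))) (merge (node 493 (merge (leaf 0 492 492) (node 590 (merge (leaf 7 461 461) (leaf 6 494 622))))) (node 497 (merge (leaf 1 494 498) (node 465 (merge (leaf 2 462 466) (node 560 (merge (leaf 6 432 433) (leaf 6 464 592)))))))))))))))))) (merge (node 465 (merge (node 433 (merge (leaf 6 432 560) (node 401 (merge (leaf 5 368 369) (leaf 5 400 497))))) (merge (node 590 (merge (node 622 (merge (leaf 6 494 495) (node 653 (merge (leaf 5 525 621)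 (node 654 (merge (leaf 6 526 559) (leaf 5 557 685))))))) (merge (node 622 (merge (leaf 6 494 495) (node 655 (merge (leaf 4 526 623) (node 654 (merge (leaf 4 558 687) (node 653 (merge (leaf 5 525 621) (leaf 5 557 685))))))))) (merge (node 591 (merge (node 559 (merge (leaf 6 463 495) (leaf 5 463 560))) (merge (node 623 (merge (leaf 4 494 494) (leaf 6 495 559))) (node 494 (merge (leaf 4 494 623) (node 493 (merge (leaf 7 461 461) (node 495 (merge (leaf 2 461 465) (leaf 0 492 492)))))))))) (node 622 (merge (node 655 (merge (leaf 4 526 623) (node 654 (merge (leaf 6 526 559) (leaf 4 558 687))))) (merge (node 654 (merge (leaf 6 526 559) (node 653 (merge (leaf 5 525 621) (leaf 5 557 685))))) (merge (node 655 (merge (leaf 4 526 623) (node 654 (merge (leaf 4 558 687) (node 653 (merge (leaf 5 525 621) (leaf 5 557 685))))))) (node 623 (merge (leaf 4 526 655) (node 621 (merge (leaf 5 525 653) (node 591 (merge (leaf 6 495 559) (node 620 (merge (leaf 2 588 592) (leaf 2 587 619))))))))))))))))) (node 494 (merge (node 493 (merge (leaf 2 461 495) (node 461 (merge (leaf 7 461 590)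 (node 429 (merge (leaf 4 397 397) (leaf 7 429 462))))))) (merge (node 495 (merge (leaf 2 461 493) (node 466 (merge (leaf 1 463 467) (leaf 2 462 497))))) (merge (node 591 (merge (node 559 (merge (leaf 6 463 495) (node 462 (merge (leaf 4 430 430) (leaf 4 462 558))))) (merge (node 559 (merge (leaf 6 495 623) (node 462 (merge (leaf 4 430 430) (leaf 4 462 558))))) (node 590 (merge (leaf 4 494 623) (node 495 (merge (leaf 6 494 622) (node 497 (merge (leaf 2 462 466) (leaf 1 494 498)))))))))) (node 462 (merge (node 559 (merge (leaf 4 430 430) (leaf 4 462 591))) (merge (node 591 (merge (leaf 4 462 559) (node 590 (merge (leaf 4 494 623) (node 461 (merge (leaf 7 429 429) (leaf 7 461 493))))))) (node 429 (merge (leaf 7 429 461) (node 430 (merge (leaf 7 397 397) (node 399 (merge (leaf 6 398 431) (node 398 (merge (leaf 6 366 367) (node 401 (merge (leaf 1 397 400) (node 433 (merge (leaf 5 368 369) (leaf 5 400 497))))))))))))))))))))))) (merge (node 591 (merge (node 559 (merge (leaf 6 463 495) (leaf 6 495 623))) (merge (node 559 (merge (leaf 6 463 495) (leaf 5 463 560))) (merge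 (node 559 (merge (leaf 5 463 560) (leaf 6 495 623))) (node 590 (merge (node 622 (merge (leaf 6 494 495) (node 623 (merge (leaf 4 526 655) (node 621 (merge (leaf 5 525 653) (node 620 (merge (leaf 2 588 592) (leaf 2 587 619))))))))) (merge (node 622 (merge (leaf 6 494 495) (node 623 (merge (leaf 4 526 655) (node 592 (merge (leaf 5 495 560) (node 593 (merge (leaf 3 557 557) (leaf 1 590 594))))))))) (merge (node 622 (merge (leaf 6 494 495) (node 621 (merge (leaf 5 525 653) (node 592 (merge (leaf 1 589 593) (node 620 (merge (leaf 1 588 589) (leaf 2 587 619))))))))) (merge (node 622 (merge (leaf 6 494 495) (node 623 (merge (leaf 4 526 655) (node 621 (merge (leaf 5 525 653) (node 620 (merge (leaf 2 587 619) (node 588 (merge (leaf 3 587 587) (node 624 (merge (leaf 0 588 589) (node 657 (merge (leaf 0 621 656) (node 625 (merge (leaf 3 590 626) (leaf 0 622 658))))))))))))))))) (node 592 (merge (node 560 (merge (leaf 5 495 623) (node 465 (merge (leaf 6 432 433) (leaf 6 464 497))))) (merge (node 593 (merge (leaf 3 557 557) (node 560 (merge (leaf 4 496 625) (node 465 (merge (leaf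 6 432 433) (leaf 6 464 497))))))) (node 557 (merge (leaf 3 557 593) (node 556 (merge (leaf 0 555 555) (leaf 3 556 589))))))))))))))))) (node 590 (merge (node 622 (merge (leaf 6 494 495) (node 655 (merge (leaf 4 526 623) (node 654 (merge (leaf 4 558 687) (node 653 (merge (leaf 5 525 621) (leaf 5 557 685))))))))) (merge (node 622 (merge (leaf 6 494 495) (node 623 (merge (leaf 4 526 655) (node 591 (merge (leaf 4 494 494) (node 592 (merge (leaf 5 495 560) (node 593 (merge (leaf 3 557 557) (leaf 1 590 594))))))))))) (merge (node 494 (merge (node 493 (merge (leaf 7 461 461) (node 495 (merge (leaf 2 461 465) (leaf 0 492 492))))) (merge (node 622 (merge (leaf 6 494 495) (node 621 (merge (leaf 5 493 589) (leaf 5 525 653))))) (node 589 (merge (leaf 5 493 621) (node 462 (merge (leaf 5 461 557) (node 461 (merge (leaf 7 429 429) (leaf 7 461 493)))))))))) (merge (node 494 (merge (node 493 (merge (leaf 7 461 461) (node 495 (merge (leaf 2 461 465) (leaf 0 492 492))))) (merge (node 589 (merge (leaf 5 493 621) (node 462 (merge (leaf 5 461 557) (node 461 (merge (leaf 7 429 429) (leaf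 7 461 493))))))) (node 591 (merge (leaf 4 494 623) (node 589 (merge (leaf 5 493 621) (node 557 (merge (leaf 5 461 462) (node 556 (merge (leaf 0 555 555) (leaf 3 556 592)))))))))))) (node 623 (merge (node 494 (merge (leaf 4 494 591) (node 589 (merge (leaf 5 493 621) (node 462 (merge (leaf 5 461 557) (node 461 (merge (leaf 7 429 429) (leaf 7 461 493))))))))) (merge (node 622 (merge (leaf 4 526 655) (node 621 (merge (leaf 5 525 653) (node 589 (merge (leaf 5 493 494) (node 624 (merge (leaf 3 588 588) (leaf 3 589 625))))))))) (node 655 (merge (leaf 4 526 622) (node 591 (merge (leaf 7 558 687) (node 592 (merge (leaf 5 495 560) (node 593 (merge (leaf 3 557 557) (node 626 (merge (leaf 0 590 625) (node 594 (merge (leaf 0 591 627) (node 595 (merge (leaf 1 591 624) (node 563 (merge (leaf 2 559 562) (leaf 2 560 564)))))))))))))))))))))))))))))))))) nQ_24 cQ_24 12 (by decide +kernel)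
def nQ_25 : ℕ := 0x1800000010000000000000000000000000000000000000000000000000000000000000000000000000000000000000000000000000000000000000000000000000000
def cQ_25 : ℕ := 0xa0000001f0000001f0000003f800001dfe00000e7c00001cfe00000f70000003f0000003c000000280000000000000000000000000000000000000000000000000000000000000000000000000000000000000000000
theorem lQ_25 : S nQ_25 cQ_25 13 := S_of_chk [] trivial (node 526 (merge (node 525 (merge (node 524 (merge (leaf 2 492 495) (node 492 (merge (leaf 3 491 491) (leaf 3 492 493))))) (merge (node 524 (merge (leaf 2 492 495) (node 556 (merge (leaf 1 523 555) (leaf 1 524 557))))) (node 557 (merge (leaf 1 524 556) (node 493 (merge (leaf 3 492 492) (node 494 (merge (leaf 3 493 529) (node 589 (merge (leaf 6 461 462) (leaf 6 493 621)))))))))))) (merge (node 525 (merge (node 524 (merge (leaf 2 492 495) (node 492 (merge (leaf 3 491 491) (leaf 3 492 493))))) (merge (node 524 (merge (leaf 2 492 495) (node 556 (merge (leaf 1 523 555) (leaf 1 524 557))))) (node 557 (merge (leaf 1 524 556) (node 558 (merge (leaf 1 525 529) (node 493 (merge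 (leaf 3 492 492) (node 590 (merge (leaf 4 461 461) (leaf 7 493 622)))))))))))) (merge (node 557 (merge (node 556 (merge (leaf 1 524 525) (node 558 (merge (leaf 2 523 555) (leaf 2 524 559))))) (merge (node 525 (merge (leaf 1 524 556) (node 493 (merge (leaf 3 492 492) (node 494 (merge (leaf 3 493 529) (node 589 (merge (leaf 6 461 462) (leaf 6 493 621))))))))) (node 529 (merge (leaf 1 525 558) (node 494 (merge (leaf 3 493 493) (node 530 (merge (leaf 3 494 495) (node 563 (merge (leaf 0 527 562) (node 531 (merge (leaf 0 528 564) (node 499 (merge (leaf 2 495 498) (leaf 2 496 500)))))))))))))))) (merge (node 557 (merge (node 525 (merge (leaf 1 524 556) (node 524 (merge (leaf 2 492 495) (node 492 (merge (leaf 3 491 491) (leaf 3 492 493))))))) (merge (node 525 (merge (leaf 1 524 556) (node 529 (merge (leaf 1 525 558) (node 493 (merge (leaf 3 492 492) (leaf 3 493 494))))))) (merge (node 525 (merge (leaf 1 524 556) (node 529 (merge (leaf 1 525 558) (node 495 (merge (leaf 2 492 524) (node 530 (merge (leaf 3 494 494) (leaf 3 495 531))))))))) (node 529 (merge (leaf 1 525 558)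 (node 494 (merge (leaf 3 493 493) (node 530 (merge (leaf 3 494 495) (node 563 (merge (leaf 0 527 562) (node 531 (merge (leaf 0 528 564) (node 499 (merge (leaf 2 495 498) (leaf 2 496 500))))))))))))))))) (merge (node 558 (merge (node 557 (merge (leaf 1 525 529) (node 556 (merge (leaf 2 523 555) (leaf 2 524 559))))) (merge (node 529 (merge (leaf 1 525 557) (node 494 (merge (leaf 3 493 493) (node 530 (merge (leaf 3 494 495) (node 563 (merge (leaf 0 527 562) (node 531 (merge (leaf 0 528 564) (node 499 (merge (leaf 2 495 498) (leaf 2 496 500))))))))))))) (node 590 (merge (node 622 (merge (leaf 6 494 495) (node 655 (merge (leaf 4 526 623) (node 654 (merge (leaf 6 526 559) (leaf 4 558 687))))))) (merge (node 622 (merge (leaf 6 494 495) (node 654 (merge (leaf 6 526 559) (node 653 (merge (leaf 5 525 621) (leaf 5 557 685))))))) (merge (node 622 (merge (leaf 6 494 495) (node 655 (merge (leaf 4 526 623) (node 654 (merge (leaf 4 558 687) (node 653 (merge (leaf 5 525 621) (leaf 5 557 685))))))))) (merge (node 623 (merge (node 591 (merge (leaf 4 494 494) (leaf 6 495 559))) (merge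 (node 622 (merge (leaf 4 526 655) (node 653 (merge (leaf 5 525 621) (node 654 (merge (leaf 6 526 559) (leaf 5 557 685))))))) (node 494 (merge (leaf 4 494 591) (node 622 (merge (leaf 4 526 655) (node 621 (merge (leaf 5 493 589) (leaf 5 525 653)))))))))) (node 494 (merge (node 493 (merge (leaf 7 461 461) (node 492 (merge (leaf 0 491 491) (leaf 0 492 495))))) (node 591 (merge (leaf 4 494 623) (node 559 (merge (leaf 4 462 462) (node 464 (merge (leaf 5 431 432) (leaf 5 463 560))))))))))))))))) (merge (node 494 (merge (node 529 (merge (leaf 3 493 493) (node 558 (merge (leaf 1 525 557) (node 559 (merge (leaf 1 526 530) (node 591 (merge (leaf 4 462 462) (leaf 6 495 623))))))))) (merge (node 529 (merge (leaf 3 493 493) (node 530 (merge (leaf 3 494 495) (node 563 (merge (leaf 0 527 562) (node 531 (merge (leaf 0 528 564) (node 499 (merge (leaf 2 495 498) (leaf 2 496 500))))))))))) (node 525 (merge (node 524 (merge (leaf 2 492 495) (node 556 (merge (leaf 1 523 555) (leaf 1 524 557))))) (merge (node 557 (merge (leaf 1 524 556) (node 589 (merge (leaf 6 493 621) (node 462 (merge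 (leaf 5 429 430) (leaf 5 461 558))))))) (node 524 (merge (leaf 2 492 495) (node 559 (merge (leaf 0 524 560) (node 558 (merge (leaf 0 523 523) (node 462 (merge (leaf 4 430 430) (leaf 4 462 591))))))))))))))) (merge (node 525 (merge (node 524 (merge (leaf 2 492 495) (node 492 (merge (leaf 3 491 491) (leaf 3 492 493))))) (merge (node 493 (merge (leaf 3 492 492) (node 529 (merge (leaf 3 493 494) (node 558 (merge (leaf 1 525 557) (node 530 (merge (leaf 1 526 559) (node 563 (merge (leaf 0 527 562) (node 531 (merge (leaf 0 528 564) (node 499 (merge (leaf 2 495 498) (leaf 2 496 500))))))))))))))) (merge (node 524 (merge (leaf 2 492 495) (node 559 (merge (leaf 0 524 560) (node 558 (merge (leaf 0 523 523) (node 529 (merge (leaf 1 526 530) (leaf 1 525 557))))))))) (node 524 (merge (leaf 2 492 495) (node 559 (merge (leaf 0 524 560) (node 523 (merge (leaf 0 523 558) (node 554 (merge (leaf 1 522 555) (node 522 (merge (leaf 1 521 553) (node 490 (merge (leaf 3 489 489) (leaf 3 490 491))))))))))))))))) (merge (node 493 (merge (node 492 (merge (leaf 3 492 525) (node 494 (merge (leaf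 0 491 491) (leaf 3 493 529))))) (merge (node 529 (merge (leaf 3 493 494) (node 558 (merge (leaf 1 525 557) (node 559 (merge (leaf 1 526 530) (node 464 (merge (leaf 5 431 432) (node 591 (merge (leaf 5 463 560) (leaf 6 495 623))))))))))) (merge (node 525 (merge (leaf 3 492 492) (node 557 (merge (leaf 1 524 556) (node 558 (merge (leaf 1 525 529) (node 590 (merge (leaf 4 461 461) (leaf 7 493 622))))))))) (node 525 (merge (leaf 3 492 492) (node 556 (merge (leaf 1 524 557) (node 524 (merge (leaf 1 523 555) (node 559 (merge (leaf 0 524 560) (node 523 (merge (leaf 0 523 558) (node 522 (merge (leaf 2 490 494) (node 490 (merge (leaf 3 489 489) (leaf 3 490 491))))))))))))))))))) (merge (node 559 (merge (node 591 (merge (leaf 6 495 623) (node 464 (merge (leaf 5 431 432) (leaf 5 463 560))))) (merge (node 591 (merge (leaf 6 495 623) (node 464 (merge (leaf 5 431 432) (leaf 6 463 495))))) (merge (node 464 (merge (leaf 5 431 432) (node 557 (merge (node 558 (merge (leaf 1 525 529) (leaf 2 524 556))) (merge (node 525 (merge (leaf 1 524 556) (node 524 (merge (leaf 2 492 495) (leaf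 0 524 560))))) (node 558 (merge (leaf 1 525 529) (node 589 (merge (node 621 (merge (leaf 6 525 653) (node 494 (merge (leaf 5 461 462) (leaf 5 493 590))))) (merge (node 560 (merge (leaf 1 556 588) (node 592 (merge (leaf 0 557 593) (node 624 (merge (leaf 7 495 495) (leaf 7 527 656))))))) (node 560 (merge (leaf 1 556 588) (node 592 (merge (leaf 0 557 593) (node 624 (merge (leaf 7 495 495) (leaf 7 527 656))))))))))))))))) (node 591 (merge (leaf 6 495 623) (node 525 (merge (node 524 (merge (leaf 2 492 495) (leaf 0 524 560))) (merge (node 524 (merge (leaf 2 492 495) (node 555 (merge (leaf 1 523 556) (node 523 (merge (leaf 1 522 554) (node 491 (merge (leaf 3 490 490) (leaf 3 491 492))))))))) (merge (node 557 (merge (leaf 1 524 556) (node 558 (merge (leaf 1 525 529) (node 494 (merge (leaf 4 462 462) (node 589 (merge (leaf 6 493 621) (node 560 (merge (leaf 1 556 588) (node 592 (merge (leaf 0 557 593) (node 624 (merge (leaf 4 495 495) (leaf 7 527 656))))))))))))))) (node 560 (merge (leaf 0 524 524) (node 557 (merge (leaf 1 524 556) (node 558 (merge (leaf 1 525 529) (node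 589 (merge (leaf 1 556 588) (node 494 (merge (leaf 4 462 462) (leaf 6 493 621))))))))))))))))))))) (merge (node 525 (merge (node 524 (merge (leaf 2 492 495) (node 492 (merge (leaf 3 491 491) (leaf 3 492 493))))) (merge (node 524 (merge (leaf 2 492 495) (node 556 (merge (leaf 1 523 555) (leaf 1 524 557))))) (merge (node 556 (merge (leaf 1 524 557) (node 524 (merge (leaf 1 523 555) (node 492 (merge (leaf 3 491 491) (leaf 3 492 493))))))) (node 493 (merge (leaf 3 492 492) (node 590 (merge (node 557 (merge (leaf 1 524 556) (node 622 (merge (leaf 7 493 558) (leaf 4 493 589))))) (merge (node 557 (merge (leaf 1 524 556) (node 589 (merge (leaf 4 493 622) (node 620 (merge (leaf 5 492 588) (node 621 (merge (leaf 6 493 494) (leaf 5 524 652))))))))) (merge (node 558 (merge (leaf 7 493 622) (node 494 (merge (leaf 7 461 461) (node 591 (merge (leaf 4 494 623) (node 559 (merge (leaf 4 462 462) (node 589 (merge (leaf 5 493 621) (node 588 (merge (leaf 2 556 560) (leaf 2 555 587))))))))))))) (node 557 (merge (leaf 1 524 556) (node 461 (merge (leaf 4 461 558) (node 430 (merge (leaf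 6 429 462) (node 429 (merge (leaf 6 397 398) (node 460 (merge (leaf 7 428 428) (node 432 (merge (leaf 1 428 431) (node 495 (merge (leaf 3 460 494) (node 464 (merge (leaf 5 399 400) (leaf 5 431 559))))))))))))))))))))))))))) (node 464 (merge (node 559 (merge (leaf 5 431 432) (node 591 (merge (leaf 5 463 560) (leaf 6 495 623))))) (merge (node 432 (merge (leaf 5 431 559) (node 400 (merge (leaf 5 399 495) (node 399 (merge (leaf 7 367 367) (leaf 7 399 431))))))) (merge (node 432 (merge (node 400 (merge (leaf 5 399 495) (node 399 (merge (leaf 7 367 367) (leaf 7 399 431))))) (merge (node 401 (merge (leaf 6 400 433) (node 400 (merge (leaf 6 368 369) (leaf 5 399 495))))) (node 433 (merge (leaf 6 400 401) (node 465 (merge (leaf 6 432 560) (node 431 (merge (leaf 7 399 399) (node 466 (merge (leaf 0 430 430) (leaf 3 431 467)))))))))))) (node 525 (merge (node 524 (merge (leaf 2 492 495) (node 492 (merge (leaf 3 491 491) (leaf 3 492 493))))) (merge (node 493 (merge (leaf 3 492 492) (node 494 (merge (leaf 3 493 529) (node 495 (merge (leaf 2 461 465) (node 461 (merge (leaf 3 460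 460) (node 558 (merge (leaf 4 429 429) (leaf 7 461 590))))))))))) (merge (node 492 (merge (leaf 3 492 493) (node 524 (merge (leaf 3 491 491) (node 559 (merge (leaf 0 524 560) (node 523 (merge (leaf 0 523 558) (node 555 (merge (leaf 1 522 554) (leaf 1 523 556))))))))))) (merge (node 524 (merge (leaf 2 492 495) (node 559 (merge (leaf 0 524 560) (node 523 (merge (leaf 0 523 558) (node 555 (merge (leaf 1 522 554) (leaf 1 523 556))))))))) (node 524 (merge (leaf 2 492 495) (node 559 (merge (leaf 0 524 560) (node 523 (merge (leaf 0 523 558) (node 554 (merge (leaf 1 522 555) (node 522 (merge (leaf 1 521 553) (node 490 (merge (leaf 3 489 489) (leaf 3 490 491))))))))))))))))))))))))))))))))) nQ_25 cQ_25 13 (by decide +kernel)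
def nQ_26 : ℕ := 0x1800000010000000000000000000000000000000000000000000000000000000000000000000000000000000000000000000000000000000000000000000000000000
def cQ_26 : ℕ := 0x20000007a0000007f000001df000000e4000001ef000001f7800000ff000001ff800000200000000000000000000000000000000000000000000000000000000000000000000000000000000000000000000
theorem lQ_26 : S nQ_26 cQ_26 13 := S_of_chk [] trivial (node 559 (merge (node 591 (merge (leaf 6 495 623) (node 464 (merge (leaf 5 431 432) (leaf 5 463 560))))) (merge (node 591 (merge (leaf 6 495 623) (node 464 (merge (leaf 5 431 432) (leaf 6 463 495))))) (merge (node 497 (merge (node 498 (merge (leaf 1 495 499) (node 526 (merge (leaf 1 494 495) (leaf 2 494 529))))) (merge (node 495 (merge (node 591 (merge (leaf 6 495 623) (node 494 (merge (leaf 7 462 462) (node 529 (merge (leaf 0 493 493) (leaf 0 494 530))))))) (merge (node 591 (merge (leaf 6 495 623) (node 592 (merge (leaf 4 495 624) (node 560 (merge (leaf 6 464 465) (node 593 (merge (leaf 4 496 625) (node 558 (merge (leaf 0 557 557) (leaf 3 558 594))))))))))) (node 494 (merge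 (node 529 (merge (leaf 0 493 493) (leaf 3 494 530))) (merge (node 493 (merge (leaf 0 492 492) (node 461 (merge (leaf 3 460 460) (leaf 3 461 462))))) (node 529 (merge (leaf 0 494 530) (node 465 (merge (leaf 2 462 466) (node 560 (merge (leaf 5 432 433) (leaf 6 464 592))))))))))))) (merge (node 498 (merge (leaf 1 495 499) (node 495 (merge (leaf 1 494 526) (node 466 (merge (leaf 2 463 467) (node 494 (merge (leaf 2 462 465) (node 591 (merge (leaf 7 462 462) (leaf 6 495 623))))))))))) (node 498 (merge (leaf 1 495 499) (node 529 (merge (leaf 2 494 526) (node 530 (merge (leaf 1 526 558) (node 562 (merge (leaf 0 527 563) (node 594 (merge (leaf 7 465 465) (leaf 7 497 626))))))))))))))) (node 494 (merge (node 493 (merge (node 495 (merge (leaf 0 492 492) (node 464 (merge (leaf 5 431 432) (leaf 2 461 465))))) (node 529 (merge (leaf 3 493 526) (node 558 (merge (leaf 1 526 530) (node 557 (merge (leaf 2 524 556) (leaf 2 525 560))))))))) (merge (node 495 (merge (node 529 (merge (leaf 0 493 493) (leaf 3 494 530))) (merge (node 493 (merge (leaf 0 492 492) (node 461 (merge (leaf 3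 460 460) (node 497 (merge (leaf 3 461 462) (node 498 (merge (leaf 1 495 499) (leaf 1 494 526))))))))) (node 497 (merge (node 462 (merge (leaf 3 461 461) (node 430 (merge (leaf 4 398 398) (leaf 4 430 526))))) (node 530 (merge (leaf 0 494 529) (node 498 (merge (leaf 1 495 499) (leaf 0 495 531)))))))))) (merge (node 495 (merge (node 493 (merge (leaf 0 492 492) (node 464 (merge (leaf 5 431 432) (leaf 2 461 465))))) (merge (node 493 (merge (leaf 0 492 492) (node 461 (merge (leaf 3 460 460) (node 497 (merge (leaf 3 461 462) (node 498 (merge (leaf 1 495 499) (leaf 1 494 526))))))))) (node 497 (merge (node 462 (merge (leaf 3 461 461) (node 430 (merge (leaf 4 398 398) (leaf 4 430 526))))) (node 466 (merge (leaf 2 462 465) (node 498 (merge (leaf 2 463 467) (leaf 1 495 499)))))))))) (merge (node 529 (merge (node 530 (merge (leaf 3 494 495) (leaf 1 526 558))) (merge (node 558 (merge (leaf 1 526 530) (node 557 (merge (leaf 2 524 556) (leaf 2 525 560))))) (node 497 (merge (node 498 (merge (leaf 1 495 499) (leaf 2 494 526))) (merge (node 465 (merge (node 433 (merge (leaf 5 400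 401) (leaf 5 432 560))) (node 495 (merge (leaf 2 462 466) (node 462 (merge (leaf 3 461 461) (node 430 (merge (leaf 4 398 398) (leaf 4 430 526))))))))) (node 465 (merge (node 433 (merge (leaf 5 400 401) (leaf 5 432 560))) (merge (node 433 (merge (leaf 5 400 401) (node 432 (merge (leaf 7 400 400) (leaf 5 431 464))))) (node 499 (merge (leaf 1 495 498) (node 466 (merge (leaf 2 462 495) (node 467 (merge (leaf 1 464 468) (node 464 (merge (leaf 5 431 432) (leaf 0 464 500)))))))))))))))))) (merge (node 495 (merge (node 529 (merge (leaf 0 493 493) (leaf 3 494 530))) (merge (node 493 (merge (leaf 0 492 492) (node 464 (merge (leaf 5 431 432) (leaf 2 461 465))))) (node 497 (merge (node 498 (merge (leaf 1 495 499) (node 530 (merge (leaf 0 495 531) (node 529 (merge (leaf 0 494 494) (leaf 1 526 558))))))) (merge (node 498 (merge (leaf 1 495 499) (node 466 (merge (leaf 2 463 467) (node 465 (merge (leaf 2 462 494) (node 433 (merge (leaf 5 400 401) (node 560 (merge (leaf 5 432 529) (leaf 6 464 592))))))))))) (merge (node 498 (merge (leaf 1 495 499) (node 530 (merge (leaf 0 495 531)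 (node 466 (merge (leaf 2 463 467) (node 465 (merge (leaf 2 462 494) (node 433 (merge (leaf 4 401 401) (leaf 7 433 562))))))))))) (merge (node 465 (merge (node 560 (merge (leaf 6 464 592) (node 433 (merge (leaf 5 400 401) (leaf 5 432 529))))) (merge (node 433 (merge (leaf 5 400 401) (node 432 (merge (leaf 5 431 464) (node 529 (merge (leaf 7 400 400) (node 530 (merge (leaf 3 495 531) (leaf 1 526 558))))))))) (node 466 (merge (leaf 2 462 494) (node 467 (merge (leaf 1 463 464) (leaf 1 464 468)))))))) (node 498 (merge (leaf 1 495 499) (node 530 (merge (leaf 0 495 531) (node 529 (merge (leaf 1 526 558) (node 466 (merge (leaf 2 463 467) (node 434 (merge (leaf 5 401 402) (node 432 (merge (leaf 5 431 464) (node 433 (merge (leaf 7 401 401) (node 465 (merge (leaf 7 400 400) (leaf 5 432 560))))))))))))))))))))))))) (node 433 (merge (node 464 (merge (leaf 5 431 432) (node 465 (merge (leaf 6 432 560) (node 401 (merge (leaf 5 368 369) (leaf 5 400 497))))))) (merge (node 529 (merge (node 558 (merge (leaf 1 526 530) (node 526 (merge (leaf 3 493 493) (leaf 1 525 557))))) (merge (node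 497 (merge (node 498 (merge (leaf 1 495 499) (leaf 2 494 526))) (node 465 (merge (leaf 5 400 401) (leaf 5 432 560))))) (node 530 (merge (leaf 1 526 558) (node 531 (merge (leaf 1 527 560) (node 499 (merge (leaf 2 495 498) (leaf 2 496 500)))))))))) (merge (node 529 (merge (node 558 (merge (leaf 1 526 530) (node 526 (merge (leaf 3 493 493) (leaf 1 525 557))))) (merge (node 497 (merge (node 498 (merge (leaf 1 495 499) (leaf 2 494 526))) (node 465 (merge (leaf 5 400 401) (node 432 (merge (leaf 7 400 400) (leaf 5 431 464))))))) (node 530 (merge (leaf 1 526 558) (node 562 (merge (leaf 0 527 563) (node 498 (merge (leaf 2 495 499) (node 466 (merge (leaf 7 433 465) (node 435 (merge (leaf 6 434 467) (node 434 (merge (leaf 7 401 401) (leaf 6 402 403)))))))))))))))) (merge (node 432 (merge (leaf 5 431 464) (node 430 (merge (node 526 (merge (leaf 4 430 462) (node 529 (merge (leaf 3 493 493) (node 530 (merge (leaf 1 526 558) (node 563 (merge (leaf 0 527 562) (node 531 (merge (leaf 1 527 560) (leaf 0 528 564))))))))))) (node 431 (merge (node 401 (merge (leaf 2 398 402) (node 429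 (merge (leaf 2 397 400) (node 460 (merge (leaf 1 428 461) (node 428 (merge (leaf 1 427 459) (node 396 (merge (leaf 3 395 395) (leaf 3 396 397))))))))))) (merge (node 397 (merge (leaf 3 397 398) (node 429 (merge (leaf 3 396 396) (node 460 (merge (leaf 1 428 461) (node 428 (merge (leaf 1 427 459) (node 400 (merge (leaf 2 396 399) (leaf 2 397 401))))))))))) (merge (node 402 (merge (leaf 2 398 401) (node 434 (merge (leaf 2 399 403) (node 467 (merge (leaf 0 431 466) (node 435 (merge (leaf 0 432 468) (node 399 (merge (leaf 3 398 398) (leaf 3 399 400))))))))))) (node 398 (merge (leaf 3 397 397) (node 434 (merge (leaf 3 398 399) (node 467 (merge (leaf 0 431 466) (node 435 (merge (leaf 0 432 468) (node 403 (merge (leaf 2 399 402) (leaf 2 400 404))))))))))))))))))) (node 558 (merge (node 557 (merge (leaf 2 524 556) (node 529 (merge (leaf 1 526 530) (leaf 2 525 560))))) (merge (node 529 (merge (leaf 1 526 530) (node 526 (merge (leaf 3 493 493) (node 497 (merge (leaf 2 494 498) (node 432 (merge (leaf 5 431 464) (node 465 (merge (leaf 7 400 400) (leaf 5 432 560))))))))))) (merge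 (node 557 (merge (leaf 2 524 556) (node 464 (merge (leaf 5 431 432) (node 560 (merge (leaf 6 432 465) (node 589 (merge (leaf 1 556 588) (node 526 (merge (leaf 5 461 462) (node 621 (merge (leaf 5 493 590) (leaf 6 525 653))))))))))))) (node 529 (merge (leaf 1 526 530) (node 526 (merge (leaf 3 493 493) (leaf 1 525 557)))))))))))))))))))))))) nQ_26 cQ_26 13 (by decide +kernel)
def nQ_27 : ℕ := 0x1800000010000000000000000000000000000000000000000000000000000000000000000000000000000000000000000000000000000000000000000000000000000
def cQ_27 : ℕ := 0xa0000003e0000003f8000003f000001dfc00000e7800003edc00001f4000003fc000000f8000000e80000000000000000000000000000000000000000000000000000000000000000000000000000000000000000000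
theorem lQ_27 : S nQ_27 cQ_27 13 := S_of_chk [] trivial (node 526 (merge (node 497 (merge (leaf 2 493 525) (node 498 (merge (leaf 1 495 499) (leaf 2 494 529))))) (merge (node 525 (merge (leaf 2 493 497) (node 524 (merge (leaf 2 492 495) (node 556 (merge (leaf 1 523 555) (leaf 1 524 557))))))) (merge (node 559 (merge (node 591 (merge (leaf 6 495 623) (node 464 (merge (leaf 5 431 432) (leaf 5 463 560))))) (merge (node 591 (merge (leaf 6 495 623) (node 464 (merge (leaf 5 431 432) (leaf 6 463 495))))) (merge (node 464 (merge (leaf 5 431 432) (node 557 (merge (node 558 (merge (leaf 1 525 529) (leaf 2 524 556))) (merge (node 525 (merge (leaf 1 524 556) (node 524 (merge (leaf 2 492 495) (leaf 0 524 560))))) (node 558 (merge (leaf 1 525 529) (node 589 (merge (node 621 (merge (leaf 6 525 653) (node 494 (merge (leaf 5 461 462) (leaf 5 493 590))))) (merge (node 560 (merge (leaf 1 556 588) (node 592 (merge (leaf 0 557 593) (node 624 (merge (leaf 7 495 495) (leaf 7 527 656))))))) (node 560 (merge (leaf 1 556 588) (node 592 (merge (leaf 0 557 593) (node 624 (merge (leaf 7 495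 495) (leaf 7 527 656))))))))))))))))) (node 591 (merge (leaf 6 495 623) (node 525 (merge (node 524 (merge (leaf 2 492 495) (leaf 0 524 560))) (merge (node 524 (merge (leaf 2 492 495) (node 555 (merge (leaf 1 523 556) (node 523 (merge (leaf 1 522 554) (node 491 (merge (leaf 3 490 490) (leaf 3 491 492))))))))) (merge (node 557 (merge (leaf 1 524 556) (node 558 (merge (leaf 1 525 529) (node 494 (merge (leaf 4 462 462) (node 589 (merge (leaf 6 493 621) (node 560 (merge (leaf 1 556 588) (node 592 (merge (leaf 0 557 593) (node 624 (merge (leaf 4 495 495) (leaf 7 527 656))))))))))))))) (node 560 (merge (leaf 0 524 524) (node 557 (merge (leaf 1 524 556) (node 558 (merge (leaf 1 525 529) (node 589 (merge (leaf 1 556 588) (node 494 (merge (leaf 4 462 462) (leaf 6 493 621))))))))))))))))))))) (node 464 (merge (node 559 (merge (leaf 5 431 432) (node 591 (merge (leaf 5 463 560) (leaf 6 495 623))))) (merge (node 432 (merge (leaf 5 431 559) (node 400 (merge (leaf 5 399 495) (node 399 (merge (leaf 7 367 367) (leaf 7 399 431))))))) (merge (node 432 (merge (node 400 (merge (leaf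 5 399 495) (node 399 (merge (leaf 7 367 367) (leaf 7 399 431))))) (merge (node 401 (merge (leaf 6 400 433) (node 400 (merge (leaf 6 368 369) (leaf 5 399 495))))) (node 433 (merge (leaf 6 400 401) (node 465 (merge (leaf 6 432 560) (node 431 (merge (leaf 7 399 399) (node 466 (merge (leaf 0 430 430) (leaf 3 431 467)))))))))))) (node 465 (merge (node 433 (merge (leaf 6 432 560) (node 401 (merge (leaf 5 368 369) (leaf 5 400 497))))) (merge (node 560 (merge (leaf 6 432 433) (node 591 (merge (leaf 5 463 559) (node 592 (merge (leaf 5 495 623) (node 625 (merge (leaf 4 496 593) (node 624 (merge (leaf 7 495 495) (leaf 4 528 657))))))))))) (merge (node 466 (merge (node 467 (merge (leaf 1 463 495) (node 500 (merge (leaf 0 464 499) (node 468 (merge (leaf 1 464 497) (leaf 0 465 501))))))) (merge (node 467 (merge (leaf 1 463 495) (node 500 (merge (leaf 0 464 499) (node 468 (merge (leaf 0 465 501) (node 436 (merge (leaf 2 432 435) (leaf 2 433 437))))))))) (merge (node 467 (merge (leaf 1 463 495) (node 497 (merge (leaf 1 464 468) (node 498 (merge (leaf 1 495 499) (node 435 (merge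 (leaf 2 432 436) (node 403 (merge (leaf 5 370 371) (node 530 (merge (leaf 6 402 434) (leaf 6 434 562))))))))))))) (merge (node 467 (merge (leaf 1 463 495) (node 468 (merge (leaf 1 464 497) (node 436 (merge (leaf 2 432 435) (leaf 2 433 437))))))) (merge (node 498 (merge (node 497 (merge (leaf 1 494 495) (leaf 1 495 499))) (merge (node 497 (merge (leaf 1 494 495) (leaf 2 494 529))) (merge (node 530 (merge (node 433 (merge (leaf 7 433 562) (node 434 (merge (leaf 7 401 401) (node 435 (merge (leaf 6 402 403) (leaf 1 432 436))))))) (merge (node 529 (merge (leaf 2 495 499) (node 531 (merge (leaf 3 495 495) (node 434 (merge (leaf 4 434 563) (node 435 (merge (leaf 6 402 403) (node 433 (merge (leaf 7 401 401) (leaf 1 432 436))))))))))) (node 529 (merge (leaf 2 495 499) (node 563 (merge (leaf 0 527 562) (node 531 (merge (leaf 3 495 495) (leaf 0 528 564)))))))))) (node 499 (merge (leaf 1 495 497) (node 530 (merge (leaf 2 495 529) (node 433 (merge (leaf 7 433 562) (node 434 (merge (leaf 7 401 401) (node 435 (merge (leaf 6 402 403) (leaf 1 432 436))))))))))))))) (node 467 (merge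 (node 500 (merge (leaf 0 464 499) (node 468 (merge (leaf 1 464 497) (leaf 0 465 501))))) (merge (node 500 (merge (leaf 0 464 499) (node 468 (merge (leaf 0 465 501) (node 436 (merge (leaf 2 432 435) (leaf 2 433 437))))))) (merge (node 497 (merge (leaf 1 464 468) (node 498 (merge (leaf 1 495 499) (node 435 (merge (leaf 2 432 436) (node 401 (merge (leaf 5 400 433) (node 530 (merge (leaf 6 434 562) (node 434 (merge (leaf 6 402 403) (node 402 (merge (leaf 7 369 369) (leaf 5 369 370))))))))))))))) (merge (node 468 (merge (leaf 1 464 497) (node 436 (merge (leaf 2 432 435) (leaf 2 433 437))))) (node 499 (merge (leaf 0 464 500) (node 498 (merge (leaf 1 495 497) (node 435 (merge (leaf 2 432 436) (node 403 (merge (leaf 5 370 371) (leaf 5 402 530)))))))))))))))))))) (node 558 (merge (node 557 (merge (leaf 1 525 529) (node 556 (merge (leaf 2 523 555) (leaf 2 524 559))))) (merge (node 529 (merge (leaf 1 525 557) (node 498 (merge (leaf 2 494 497) (node 530 (merge (leaf 2 495 499) (node 563 (merge (leaf 0 527 562) (node 531 (merge (leaf 3 495 495) (leaf 0 528 564))))))))))) (merge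 (node 560 (merge (node 592 (merge (leaf 6 464 497) (node 625 (merge (leaf 4 496 593) (node 624 (merge (leaf 7 495 495) (leaf 4 528 657))))))) (node 559 (merge (leaf 5 463 591) (node 557 (merge (leaf 2 524 556) (node 589 (merge (leaf 1 556 588) (node 494 (merge (leaf 5 461 462) (node 621 (merge (leaf 5 493 590) (leaf 6 525 653))))))))))))) (node 590 (merge (node 622 (merge (leaf 6 494 495) (node 655 (merge (leaf 4 526 623) (node 654 (merge (leaf 6 526 559) (leaf 4 558 687))))))) (merge (node 622 (merge (leaf 6 494 495) (node 653 (merge (leaf 5 525 621) (node 654 (merge (leaf 6 526 559) (leaf 5 557 685))))))) (merge (node 622 (merge (leaf 6 494 495) (node 655 (merge (leaf 4 526 623) (node 654 (merge (leaf 4 558 687) (node 653 (merge (leaf 5 525 621) (leaf 5 557 685))))))))) (merge (node 622 (merge (node 655 (merge (leaf 4 526 623) (node 654 (merge (leaf 6 526 559) (leaf 4 558 687))))) (merge (node 654 (merge (leaf 6 526 559) (node 653 (merge (leaf 5 525 621) (leaf 5 557 685))))) (merge (node 655 (merge (leaf 4 526 623) (node 654 (merge (leaf 4 558 687) (node 653 (merge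 (leaf 5 525 621) (leaf 5 557 685))))))) (node 623 (merge (leaf 4 526 655) (node 621 (merge (leaf 5 525 653) (node 591 (merge (leaf 6 495 559) (node 620 (merge (leaf 2 588 592) (leaf 2 587 619))))))))))))) (node 466 (merge (node 591 (merge (node 559 (merge (leaf 6 463 495) (leaf 5 463 560))) (merge (node 623 (merge (leaf 4 494 494) (leaf 6 495 559))) (node 494 (merge (leaf 4 494 623) (node 497 (merge (leaf 2 462 495) (node 498 (merge (leaf 1 495 499) (leaf 2 494 529)))))))))) (merge (node 467 (merge (leaf 1 463 495) (node 500 (merge (leaf 0 464 499) (node 468 (merge (leaf 0 465 501) (node 436 (merge (leaf 2 432 435) (leaf 2 433 437))))))))) (merge (node 467 (merge (leaf 1 463 495) (node 468 (merge (leaf 1 464 497) (node 436 (merge (leaf 2 432 435) (leaf 2 433 437))))))) (node 467 (merge (node 500 (merge (leaf 0 464 499) (node 468 (merge (leaf 1 464 497) (leaf 0 465 501))))) (merge (node 499 (merge (leaf 0 464 500) (node 498 (merge (leaf 1 495 497) (node 435 (merge (leaf 2 432 436) (node 530 (merge (leaf 5 402 403) (leaf 2 495 529))))))))) (merge (node 500 (merge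 (leaf 0 464 499) (node 468 (merge (leaf 0 465 501) (node 436 (merge (leaf 2 432 435) (leaf 2 433 437))))))) (merge (node 468 (merge (leaf 1 464 497) (node 436 (merge (leaf 2 432 435) (leaf 2 433 437))))) (node 497 (merge (leaf 1 464 468) (node 498 (merge (leaf 1 495 499) (leaf 2 494 529))))))))))))))))))))))))))))))))))) nQ_27 cQ_27 13 (by decide +kernel)
def nQ_28 : ℕ := 0x1800000030000000000000000000000000000000000000000000000000000000000000000000000000000000000000000000000000000000000000000000000000000
def cQ_28 : ℕ := 0x5000000070000007f800000ffe000007fc000001fe00000670000000b000000770000003f0000003f000000210000000000000000000000000000000000000000000000000000000000000000000000000000000000000000000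
theorem lQ_28 : S nQ_28 cQ_28 14 := S_of_chk [] trivial (node 557 (merge (node 526 (merge (leaf 2 493 525) (node 558 (merge (leaf 1 525 529) (node 556 (merge (leaf 2 523 555) (leaf 2 524 559))))))) (merge (node 559 (merge (node 558 (merge (leaf 2 524 556) (node 529 (merge (leaf 1 526 530) (leaf 2 525 560))))) (node 591 (merge (leaf 6 495 623) (node 464 (merge (leaf 5 431 432) (leaf 6 463 495))))))) (merge (node 559 (merge (node 591 (merge (leaf 6 495 623) (node 464 (merge (leaf 5 431 432) (leaf 6 463 495))))) (node 525 (merge (leaf 2 493 526) (node 558 (merge (leaf 2 524 556) (node 560 (merge (leaf 3 524 524) (node 592 (merge (leaf 6 464 465) (leaf 0 557 593))))))))))) (merge (node 464 (merge (node 559 (merge (leaf 5 431 432) (node 591 (merge (leaf 6 463 495) (leaf 6 495 623))))) (merge (node 432 (merge (leaf 5 431 559) (node 400 (merge (leaf 4 400 529) (node 401 (merge (leaf 6 368 369) (leaf 6 400 433))))))) (merge (node 432 (merge (node 400 (merge (leaf 5 399 495) (leaf 4 400 529))) (node 433 (merge (leaf 6 400 401) (node 465 (merge (leaf 6 432 560) (node 431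 (merge (leaf 7 399 399) (node 430 (merge (leaf 0 429 429) (leaf 0 430 466))))))))))) (node 559 (merge (node 591 (merge (leaf 6 463 495) (leaf 6 495 623))) (merge (node 560 (merge (leaf 5 463 591) (node 592 (merge (leaf 6 464 465) (node 624 (merge (leaf 7 527 656) (node 625 (merge (leaf 4 496 593) (leaf 4 528 657))))))))) (node 560 (merge (node 592 (merge (node 624 (merge (leaf 7 495 495) (leaf 7 527 656))) (node 593 (merge (leaf 0 557 558) (leaf 4 496 625))))) (merge (node 465 (merge (leaf 6 432 433) (node 592 (merge (leaf 6 464 497) (node 624 (merge (leaf 7 527 656) (node 625 (merge (leaf 4 496 593) (leaf 4 528 657))))))))) (node 558 (merge (leaf 2 525 529) (node 525 (merge (leaf 3 524 524) (node 526 (merge (leaf 2 493 497) (node 493 (merge (leaf 3 492 492) (node 590 (merge (leaf 4 461 461) (leaf 7 493 622))))))))))))))))))))) (merge (node 592 (merge (node 560 (merge (leaf 6 464 465) (node 624 (merge (leaf 7 495 495) (leaf 6 496 529))))) (merge (node 560 (merge (leaf 6 464 465) (node 593 (merge (leaf 4 496 625) (node 591 (merge (leaf 5 495 623) (node 590 (merge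 (leaf 3 557 558) (node 621 (merge (leaf 1 589 622) (node 589 (merge (leaf 3 556 556) (leaf 1 588 620))))))))))))) (node 590 (merge (node 526 (merge (leaf 2 493 525) (node 558 (merge (leaf 1 525 529) (node 591 (merge (leaf 3 557 593) (node 589 (merge (leaf 3 556 556) (node 621 (merge (leaf 1 588 620) (leaf 6 525 653))))))))))) (merge (node 526 (merge (leaf 2 493 525) (node 558 (merge (leaf 1 525 529) (node 593 (merge (leaf 3 557 591) (node 622 (merge (leaf 6 494 495) (node 623 (merge (leaf 4 526 655) (node 621 (merge (leaf 2 589 624) (leaf 5 525 653))))))))))))) (merge (node 526 (merge (leaf 2 493 525) (node 558 (merge (leaf 1 525 529) (node 591 (merge (leaf 3 557 593) (node 589 (merge (leaf 3 556 556) (node 624 (merge (leaf 0 589 625) (node 623 (merge (leaf 0 588 588) (node 622 (merge (leaf 6 494 495) (leaf 4 526 655))))))))))))))) (merge (node 589 (merge (node 591 (merge (leaf 3 556 556) (node 625 (merge (leaf 0 589 624) (node 593 (merge (leaf 0 590 626) (node 621 (merge (leaf 1 588 620) (leaf 1 589 622))))))))) (merge (node 525 (merge (leaf 2 493 526) (node 493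 (merge (leaf 4 493 622) (node 620 (merge (leaf 5 492 588) (node 621 (merge (leaf 5 524 652) (node 492 (merge (leaf 7 460 460) (leaf 7 492 524))))))))))) (merge (node 525 (merge (leaf 2 493 526) (node 591 (merge (leaf 3 556 556) (node 624 (merge (leaf 0 589 625) (node 588 (merge (leaf 0 588 623) (node 620 (merge (leaf 5 492 493) (leaf 1 587 619))))))))))) (node 525 (merge (leaf 2 493 526) (node 622 (merge (leaf 4 493 493) (node 654 (merge (leaf 4 525 621) (leaf 7 557 686))))))))))) (merge (node 526 (merge (leaf 2 493 525) (node 558 (merge (leaf 1 525 529) (node 622 (merge (leaf 6 494 495) (node 623 (merge (leaf 4 526 655) (node 621 (merge (leaf 5 525 653) (node 620 (merge (leaf 2 588 591) (node 652 (merge (leaf 1 619 651) (node 588 (merge (leaf 3 587 587) (node 589 (merge (leaf 3 588 624) (leaf 6 556 684))))))))))))))))))) (merge (node 526 (merge (leaf 2 493 525) (node 558 (merge (leaf 1 525 529) (node 622 (merge (leaf 6 494 495) (node 623 (merge (leaf 4 526 655) (node 621 (merge (leaf 5 525 653) (node 624 (merge (leaf 2 589 593) (node 657 (merge (leaf 0 621 656)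 (node 625 (merge (leaf 3 589 589) (leaf 0 622 658))))))))))))))))) (merge (node 591 (merge (node 589 (merge (leaf 3 556 556) (node 625 (merge (leaf 0 589 624) (node 593 (merge (leaf 3 557 558) (leaf 0 590 626))))))) (merge (node 593 (merge (leaf 3 557 558) (node 626 (merge (leaf 0 590 625) (node 594 (merge (leaf 0 591 627) (node 622 (merge (leaf 1 589 621) (leaf 1 590 623))))))))) (merge (node 589 (merge (leaf 3 556 556) (node 625 (merge (leaf 0 589 624) (node 593 (merge (leaf 0 590 626) (node 621 (merge (leaf 1 588 620) (leaf 1 589 622))))))))) (node 589 (merge (leaf 3 556 556) (node 620 (merge (leaf 1 588 621) (node 588 (merge (leaf 1 587 619) (node 623 (merge (leaf 0 588 624) (node 587 (merge (leaf 0 587 622) (node 586 (merge (leaf 2 554 558) (node 554 (merge (leaf 3 553 553) (leaf 3 554 555))))))))))))))))))) (node 526 (merge (leaf 2 493 525) (node 558 (merge (leaf 1 525 529) (node 556 (merge (leaf 2 523 555) (node 591 (merge (leaf 3 556 589) (leaf 3 557 593)))))))))))))))))))) (node 525 (merge (leaf 2 493 526) (node 589 (merge (node 621 (merge (node 620 (merge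 (leaf 5 524 652) (node 493 (merge (leaf 5 492 588) (node 492 (merge (leaf 7 460 460) (leaf 7 492 524))))))) (merge (node 654 (merge (leaf 4 525 622) (node 653 (merge (leaf 4 557 686) (node 652 (merge (leaf 5 524 620) (leaf 5 556 684))))))) (node 622 (merge (leaf 4 525 654) (node 493 (merge (leaf 4 493 590) (node 492 (merge (leaf 7 460 460) (leaf 7 492 524)))))))))) (merge (node 591 (merge (node 559 (merge (leaf 6 495 623) (node 464 (merge (leaf 5 431 432) (leaf 5 463 560))))) (merge (node 559 (merge (leaf 6 495 623) (node 495 (merge (leaf 6 463 464) (node 592 (merge (leaf 4 495 624) (node 590 (merge (leaf 3 556 556) (leaf 5 494 622))))))))) (merge (node 592 (merge (node 560 (merge (leaf 6 464 465) (leaf 5 495 623))) (node 590 (merge (leaf 3 556 556) (node 625 (merge (leaf 0 589 624) (node 593 (merge (leaf 0 590 626) (node 621 (merge (leaf 1 588 620) (leaf 1 589 622))))))))))) (node 592 (merge (node 560 (merge (leaf 6 464 465) (node 624 (merge (leaf 7 495 495) (leaf 6 496 529))))) (merge (node 590 (merge (leaf 3 556 556) (node 625 (merge (leaf 0 589 624) (node 593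 (merge (leaf 0 590 626) (node 621 (merge (leaf 1 588 620) (leaf 1 589 622))))))))) (node 590 (merge (leaf 3 556 556) (node 621 (merge (leaf 1 588 620) (node 593 (merge (leaf 1 589 622) (node 560 (merge (leaf 6 464 465) (leaf 4 496 625)))))))))))))))) (merge (node 621 (merge (node 622 (merge (leaf 4 525 654) (node 493 (merge (leaf 4 493 590) (node 492 (merge (leaf 7 460 460) (leaf 7 492 524))))))) (merge (node 592 (merge (node 560 (merge (leaf 6 464 465) (node 624 (merge (leaf 7 495 495) (leaf 6 496 529))))) (node 622 (merge (leaf 4 525 654) (node 590 (merge (leaf 4 493 493) (node 591 (merge (leaf 3 556 556) (leaf 1 589 593))))))))) (merge (node 592 (merge (node 560 (merge (leaf 6 464 465) (node 624 (merge (leaf 7 495 495) (leaf 6 496 529))))) (node 524 (merge (leaf 7 492 492) (node 556 (merge (leaf 7 524 653) (node 590 (merge (leaf 3 556 591) (node 493 (merge (leaf 4 493 622) (node 461 (merge (leaf 5 428 429) (leaf 5 460 588))))))))))))) (node 524 (merge (leaf 7 492 492) (node 653 (merge (leaf 7 524 556) (node 686 (merge (leaf 4 557 654) (node 685 (merge (leaf 4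 589 718) (node 684 (merge (leaf 5 556 652) (leaf 5 588 716))))))))))))))) (merge (node 493 (merge (node 620 (merge (leaf 5 492 588) (node 621 (merge (leaf 5 524 652) (node 492 (merge (leaf 7 460 460) (leaf 7 492 524))))))) (merge (node 460 (merge (leaf 7 460 492) (node 461 (merge (leaf 7 428 428) (node 430 (merge (leaf 6 429 462) (node 429 (merge (leaf 6 397 398) (node 432 (merge (leaf 1 428 431) (node 464 (merge (leaf 5 431 559) (node 400 (merge (leaf 5 399 495) (leaf 4 400 529))))))))))))))) (node 588 (merge (leaf 5 492 620) (node 461 (merge (leaf 5 460 556) (node 430 (merge (leaf 6 429 462) (node 429 (merge (leaf 6 397 398) (node 396 (merge (leaf 7 396 428) (node 397 (merge (leaf 7 364 364) (node 432 (merge (leaf 3 396 431) (node 464 (merge (leaf 5 431 559) (node 400 (merge (leaf 5 399 495) (leaf 4 400 529)))))))))))))))))))))) (node 588 (merge (node 620 (merge (leaf 5 492 493) (node 652 (merge (leaf 6 524 556) (leaf 6 556 684))))) (merge (node 493 (merge (leaf 5 492 620) (node 460 (merge (leaf 7 460 492) (node 461 (merge (leaf 7 428 428) (node 430 (merge (leaf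 6 429 462) (node 429 (merge (leaf 6 397 398) (node 432 (merge (leaf 1 428 431) (node 464 (merge (leaf 5 431 559) (node 400 (merge (leaf 5 399 495) (leaf 4 400 529))))))))))))))))) (merge (node 591 (merge (node 559 (merge (leaf 6 495 623) (node 464 (merge (leaf 5 431 432) (leaf 5 463 560))))) (merge (node 623 (merge (leaf 6 495 559) (node 590 (merge (leaf 0 588 624) (node 556 (merge (leaf 3 555 555) (leaf 3 556 592))))))) (merge (node 620 (merge (node 652 (merge (leaf 6 524 556) (leaf 6 556 684))) (merge (node 590 (merge (leaf 1 587 619) (node 560 (merge (leaf 2 556 559) (node 592 (merge (leaf 6 464 465) (leaf 3 556 556))))))) (node 590 (merge (leaf 1 587 619) (node 559 (merge (leaf 2 556 560) (node 495 (merge (leaf 6 463 464) (leaf 5 494 622)))))))))) (node 592 (merge (node 560 (merge (leaf 6 464 465) (leaf 5 495 623))) (merge (node 560 (merge (leaf 6 464 465) (node 624 (merge (leaf 7 495 495) (leaf 6 496 529))))) (node 590 (merge (leaf 3 556 556) (node 624 (merge (leaf 0 588 623) (leaf 0 589 625)))))))))))) (node 590 (merge (node 592 (merge (node 591 (merge (leaf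 3 556 556) (node 623 (merge (leaf 6 495 559) (leaf 0 588 624))))) (merge (node 560 (merge (leaf 6 464 465) (node 624 (merge (leaf 7 495 495) (leaf 6 496 529))))) (node 591 (merge (leaf 3 556 556) (node 623 (merge (leaf 6 495 559) (leaf 5 495 560)))))))) (merge (node 622 (merge (leaf 4 493 493) (node 587 (merge (leaf 0 587 623) (node 618 (merge (leaf 1 586 619) (node 586 (merge (leaf 1 585 617) (node 554 (merge (leaf 3 553 553) (leaf 3 554 555))))))))))) (node 493 (merge (leaf 4 493 622) (node 556 (merge (leaf 5 460 461) (node 592 (merge (leaf 3 556 591) (node 560 (merge (leaf 6 464 465) (node 624 (merge (leaf 7 495 495) (leaf 6 496 529))))))))))))))))))))))))))))))) nQ_28 cQ_28 14 (by decide +kernel)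
def nQ_29 : ℕ := 0x40000001c00000010000000000000000000000000000000000000000000000000000000000000000000000000000000000000000000000000000000000000000000000000000
def cQ_29 : ℕ := 0xa000000ff000000ff000000ff000001d0000001e0000003ef800001f7000000ffc00001ffc00000ffc000003e00000028000000000000000000000000000000000000000000000000000000000000000000000000000
theorem lQ_29 : S nQ_29 cQ_29 13 := S_of_chk [] trivial (node 432 (merge (node 464 (merge (node 400 (merge (leaf 5 399 495) (node 399 (merge (leaf 7 367 367) (leaf 7 399 431))))) (merge (node 401 (merge (leaf 6 400 433) (node 400 (merge (leaf 6 368 369) (leaf 5 399 495))))) (node 433 (merge (leaf 6 400 401) (node 465 (merge (leaf 6 432 560) (node 431 (merge (leaf 7 399 399) (node 466 (merge (leaf 0 430 430) (leaf 3 431 467)))))))))))) (merge (node 590 (merge (node 622 (merge (leaf 6 494 495) (node 621 (merge (leaf 5 525 653) (node 494 (merge (leaf 5 493 589) (node 493 (merge (leaf 7 461 461) (leaf 3 493 529))))))))) (merge (node 622 (merge (leaf 6 494 495) (node 655 (merge (leaf 4 526 623) (node 654 (merge (leaf 4 558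 687) (node 653 (merge (leaf 5 525 621) (leaf 5 557 685))))))))) (merge (node 622 (merge (leaf 6 494 495) (node 623 (merge (leaf 4 526 655) (node 494 (merge (leaf 4 494 591) (node 493 (merge (leaf 7 461 461) (leaf 3 493 529))))))))) (merge (node 494 (merge (node 493 (merge (leaf 7 461 461) (leaf 3 493 529))) (node 623 (merge (leaf 4 494 591) (node 622 (merge (leaf 4 526 655) (node 621 (merge (leaf 5 493 589) (leaf 5 525 653))))))))) (node 497 (merge (node 498 (merge (leaf 1 495 499) (leaf 2 494 529))) (merge (node 498 (merge (leaf 1 494 495) (leaf 1 495 499))) (node 433 (merge (node 401 (merge (leaf 6 400 464) (leaf 5 400 465))) (merge (node 465 (merge (leaf 5 400 401) (node 560 (merge (leaf 5 432 529) (leaf 6 464 592))))) (merge (node 464 (merge (leaf 6 400 401) (node 400 (merge (leaf 5 399 495) (leaf 4 400 529))))) (node 529 (merge (node 465 (merge (leaf 7 400 400) (leaf 5 432 560))) (merge (node 494 (merge (leaf 3 493 493) (node 530 (merge (leaf 0 494 495) (node 563 (merge (leaf 0 527 562) (node 531 (merge (leaf 3 496 532) (leaf 0 528 564))))))))) (node 494 (merge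 (leaf 3 493 493) (node 530 (merge (leaf 0 494 495) (node 465 (merge (leaf 5 432 560) (leaf 4 433 562)))))))))))))))))))))) (merge (node 494 (merge (node 529 (merge (leaf 3 493 493) (node 498 (merge (leaf 2 494 497) (node 530 (merge (leaf 3 494 495) (leaf 2 495 499))))))) (merge (node 493 (merge (leaf 3 493 529) (node 590 (merge (leaf 7 461 461) (node 623 (merge (leaf 4 494 591) (node 622 (merge (leaf 4 526 655) (node 621 (merge (leaf 5 493 589) (leaf 5 525 653))))))))))) (merge (node 590 (merge (node 493 (merge (leaf 7 461 461) (node 492 (merge (leaf 0 491 491) (leaf 0 492 495))))) (node 623 (merge (leaf 4 494 591) (node 622 (merge (leaf 4 526 655) (node 621 (merge (leaf 5 493 589) (leaf 5 525 653))))))))) (node 462 (merge (node 461 (merge (leaf 7 429 429) (node 497 (merge (leaf 3 461 495) (node 498 (merge (leaf 1 495 499) (leaf 2 494 529))))))) (merge (node 429 (merge (leaf 7 429 461) (node 430 (merge (leaf 7 397 397) (node 398 (merge (leaf 4 398 495) (node 399 (merge (leaf 6 366 367) (leaf 6 398 431))))))))) (merge (node 429 (merge (leaf 7 429 461) (node 430 (merge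 (leaf 7 397 397) (node 431 (merge (leaf 6 398 399) (node 401 (merge (leaf 2 397 400) (node 433 (merge (leaf 2 398 402) (node 465 (merge (leaf 0 430 466) (leaf 5 400 497))))))))))))) (merge (node 430 (merge (node 398 (merge (leaf 4 398 495) (node 431 (merge (leaf 6 398 399) (node 397 (merge (leaf 7 365 365) (leaf 3 397 433))))))) (merge (node 495 (merge (leaf 4 398 398) (node 497 (merge (leaf 3 461 461) (leaf 1 494 498))))) (node 431 (merge (leaf 6 398 399) (node 433 (merge (leaf 1 429 461) (node 465 (merge (leaf 0 430 466) (node 401 (merge (leaf 2 398 402) (leaf 5 400 497)))))))))))) (node 430 (merge (node 399 (merge (leaf 6 398 431) (node 398 (merge (leaf 6 366 367) (node 397 (merge (leaf 7 365 365) (leaf 7 397 429))))))) (merge (node 431 (merge (leaf 6 398 399) (node 429 (merge (leaf 7 397 397) (node 401 (merge (leaf 2 397 400) (node 433 (merge (leaf 2 398 402) (node 465 (merge (leaf 0 430 466) (leaf 5 400 497))))))))))) (merge (node 495 (merge (leaf 4 398 398) (node 497 (merge (leaf 1 494 498) (node 529 (merge (leaf 0 494 530) (node 465 (merge (leaf 2 462 466)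 (node 433 (merge (leaf 5 400 401) (leaf 5 432 560))))))))))) (node 495 (merge (leaf 4 398 398) (node 497 (merge (leaf 1 494 498) (node 529 (merge (leaf 0 494 530) (node 465 (merge (leaf 2 462 466) (node 433 (merge (leaf 5 400 401) (leaf 5 432 560)))))))))))))))))))))))) (merge (node 497 (merge (node 498 (merge (leaf 1 495 499) (leaf 2 494 529))) (merge (node 498 (merge (leaf 1 494 495) (leaf 1 495 499))) (merge (node 498 (merge (leaf 1 494 495) (leaf 2 494 529))) (node 494 (merge (node 529 (merge (leaf 3 493 493) (node 530 (merge (leaf 3 494 495) (node 563 (merge (leaf 0 527 562) (node 531 (merge (leaf 0 528 564) (node 500 (merge (leaf 2 496 499) (node 532 (merge (leaf 3 496 497) (leaf 2 497 501))))))))))))) (merge (node 493 (merge (leaf 3 493 529) (node 590 (merge (leaf 7 461 461) (node 623 (merge (leaf 4 494 591) (node 622 (merge (leaf 4 526 655) (node 621 (merge (leaf 5 493 589) (leaf 5 525 653))))))))))) (merge (node 590 (merge (node 493 (merge (leaf 7 461 461) (node 492 (merge (leaf 0 491 491) (leaf 0 492 495))))) (node 623 (merge (leaf 4 494 591) (node 622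 (merge (leaf 4 526 655) (node 621 (merge (leaf 5 493 589) (leaf 5 525 653))))))))) (node 462 (merge (node 461 (merge (leaf 7 429 429) (leaf 3 461 495))) (merge (node 495 (merge (leaf 3 461 461) (node 529 (merge (leaf 0 494 530) (node 465 (merge (leaf 2 462 466) (node 400 (merge (leaf 7 400 433) (leaf 4 400 464))))))))) (merge (node 429 (merge (leaf 7 429 461) (node 430 (merge (leaf 7 397 397) (node 431 (merge (leaf 6 398 399) (node 465 (merge (leaf 0 429 464) (node 433 (merge (leaf 0 430 466) (node 560 (merge (leaf 5 432 529) (leaf 6 464 592))))))))))))) (node 430 (merge (node 398 (merge (leaf 4 398 495) (node 431 (merge (leaf 6 398 399) (node 397 (merge (leaf 7 365 365) (leaf 3 397 433))))))) (merge (node 431 (merge (leaf 6 398 399) (node 429 (merge (leaf 7 397 397) (node 464 (merge (leaf 0 429 465) (node 400 (merge (leaf 5 399 495) (leaf 4 400 529))))))))) (merge (node 495 (merge (leaf 4 398 398) (node 529 (merge (leaf 0 494 530) (node 465 (merge (leaf 2 462 466) (node 400 (merge (leaf 7 400 433) (leaf 4 400 464))))))))) (merge (node 495 (merge (leaf 4 398 398)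 (node 529 (merge (leaf 0 494 530) (node 465 (merge (leaf 2 462 466) (node 400 (merge (leaf 7 400 433) (leaf 4 400 464))))))))) (node 431 (merge (leaf 6 398 399) (node 429 (merge (leaf 7 397 397) (node 465 (merge (leaf 0 429 464) (node 433 (merge (leaf 0 430 466) (node 560 (merge (leaf 5 432 529) (leaf 6 464 592)))))))))))))))))))))))))))) (merge (node 494 (merge (node 529 (merge (leaf 3 493 493) (node 498 (merge (leaf 2 494 497) (node 530 (merge (leaf 3 494 495) (leaf 2 495 499))))))) (merge (node 493 (merge (leaf 3 493 529) (node 590 (merge (leaf 7 461 461) (node 623 (merge (leaf 4 494 591) (node 622 (merge (leaf 4 526 655) (node 621 (merge (leaf 5 493 589) (leaf 5 525 653))))))))))) (merge (node 590 (merge (node 493 (merge (leaf 7 461 461) (node 492 (merge (leaf 0 491 491) (leaf 0 492 495))))) (node 623 (merge (leaf 4 494 591) (node 622 (merge (leaf 4 526 655) (node 621 (merge (leaf 5 493 589) (leaf 5 525 653))))))))) (node 399 (merge (node 464 (merge (leaf 7 399 431) (node 401 (merge (leaf 6 400 433) (node 400 (merge (leaf 7 367 367) (leaf 6 368 369))))))) (merge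 (node 431 (merge (leaf 7 399 464) (node 462 (merge (leaf 6 398 430) (node 461 (merge (leaf 7 429 429) (node 497 (merge (leaf 3 461 495) (node 498 (merge (leaf 1 495 499) (leaf 2 494 529))))))))))) (merge (node 462 (merge (node 430 (merge (leaf 6 398 431) (node 398 (merge (leaf 6 366 367) (leaf 4 398 495))))) (merge (node 430 (merge (leaf 6 398 431) (node 429 (merge (leaf 7 397 397) (leaf 7 429 461))))) (node 461 (merge (leaf 7 429 429) (node 497 (merge (leaf 3 461 495) (node 498 (merge (leaf 1 495 499) (leaf 2 494 529)))))))))) (node 400 (merge (node 464 (merge (leaf 7 367 367) (leaf 5 399 495))) (merge (node 464 (merge (leaf 7 367 367) (node 401 (merge (leaf 6 368 369) (leaf 6 400 433))))) (merge (node 464 (merge (leaf 5 399 495) (node 401 (merge (leaf 6 368 369) (leaf 6 400 433))))) (node 398 (merge (node 397 (merge (leaf 0 397 433) (node 428 (merge (leaf 1 396 429) (node 396 (merge (leaf 1 395 427) (node 368 (merge (leaf 2 364 367) (leaf 2 365 369))))))))) (merge (node 397 (merge (leaf 0 397 433) (node 369 (merge (leaf 2 365 368) (node 401 (merge (leaf 2 366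 370) (node 365 (merge (leaf 3 364 364) (leaf 3 365 366))))))))) (merge (node 430 (merge (node 462 (merge (leaf 6 366 367) (leaf 4 398 495))) (merge (node 429 (merge (leaf 1 397 401) (node 462 (merge (leaf 7 429 461) (leaf 4 398 495))))) (node 401 (merge (leaf 1 397 429) (node 370 (merge (leaf 2 366 369) (node 402 (merge (leaf 2 367 371) (node 366 (merge (leaf 3 365 365) (leaf 3 366 367)))))))))))) (node 397 (merge (leaf 0 397 433) (node 365 (merge (leaf 3 364 364) (node 462 (merge (leaf 7 365 430) (node 461 (merge (leaf 4 365 429) (node 497 (merge (leaf 3 461 495) (node 498 (merge (leaf 1 495 499) (leaf 2 494 529))))))))))))))))))))))))))))) (merge (node 399 (merge (node 464 (merge (leaf 7 399 431) (node 400 (merge (leaf 7 367 367) (leaf 5 399 495))))) (merge (node 464 (merge (leaf 7 399 431) (node 400 (merge (leaf 7 367 367) (node 497 (merge (leaf 4 400 529) (node 368 (merge (leaf 4 368 465) (node 369 (merge (leaf 6 336 337) (leaf 6 368 401))))))))))) (merge (node 464 (merge (leaf 7 399 431) (node 400 (merge (leaf 5 399 495) (node 497 (merge (leaf 4 400 529) (node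 368 (merge (leaf 4 368 465) (node 369 (merge (leaf 6 336 337) (leaf 6 368 401))))))))))) (merge (node 494 (merge (node 462 (merge (node 430 (merge (leaf 6 398 431) (node 398 (merge (leaf 6 366 367) (leaf 4 398 495))))) (merge (node 430 (merge (leaf 6 398 431) (node 429 (merge (leaf 7 397 397) (leaf 7 429 461))))) (node 461 (merge (leaf 7 429 429) (node 497 (merge (leaf 3 461 495) (node 498 (merge (leaf 1 495 499) (leaf 2 494 529)))))))))) (merge (node 493 (merge (leaf 3 493 529) (node 590 (merge (leaf 7 461 461) (node 623 (merge (leaf 4 494 591) (node 622 (merge (leaf 4 526 655) (node 621 (merge (leaf 5 493 589) (leaf 5 525 653))))))))))) (merge (node 590 (merge (node 493 (merge (leaf 7 461 461) (node 492 (merge (leaf 0 491 491) (leaf 0 492 495))))) (node 623 (merge (leaf 4 494 591) (node 622 (merge (leaf 4 526 655) (node 621 (merge (leaf 5 493 589) (leaf 5 525 653))))))))) (node 529 (merge (leaf 3 493 493) (node 530 (merge (leaf 3 494 495) (node 563 (merge (leaf 0 527 562) (node 531 (merge (leaf 0 528 564) (node 500 (merge (leaf 2 496 499) (node 532 (merge (leaf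 3 496 497) (leaf 2 497 501))))))))))))))))) (node 400 (merge (node 464 (merge (leaf 7 367 367) (leaf 5 399 495))) (merge (node 497 (merge (node 464 (merge (leaf 5 399 495) (leaf 4 400 529))) (merge (node 498 (merge (leaf 1 495 499) (leaf 2 494 529))) (node 498 (merge (leaf 1 494 495) (leaf 1 495 499)))))) (merge (node 464 (merge (leaf 7 367 367) (node 497 (merge (leaf 4 400 529) (node 368 (merge (leaf 4 368 465) (node 369 (merge (leaf 6 336 337) (leaf 6 368 401))))))))) (node 494 (merge (node 529 (merge (leaf 3 493 493) (node 498 (merge (leaf 2 494 497) (node 530 (merge (leaf 3 494 495) (leaf 2 495 499))))))) (merge (node 493 (merge (leaf 3 493 529) (node 590 (merge (leaf 7 461 461) (node 623 (merge (leaf 4 494 591) (node 622 (merge (leaf 4 526 655) (node 621 (merge (leaf 5 493 589) (leaf 5 525 653))))))))))) (merge (node 590 (merge (node 493 (merge (leaf 7 461 461) (node 492 (merge (leaf 0 491 491) (leaf 0 492 495))))) (node 623 (merge (leaf 4 494 591) (node 622 (merge (leaf 4 526 655) (node 621 (merge (leaf 5 493 589) (leaf 5 525 653))))))))) (node 398 (merge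 (node 462 (merge (node 430 (merge (leaf 6 366 367) (leaf 4 398 495))) (merge (node 461 (merge (leaf 7 429 429) (node 497 (merge (leaf 3 461 495) (node 498 (merge (leaf 1 495 499) (leaf 2 494 529))))))) (node 430 (merge (leaf 6 366 367) (node 429 (merge (leaf 7 397 397) (leaf 7 429 461)))))))) (merge (node 397 (merge (node 429 (merge (leaf 1 396 428) (node 401 (merge (leaf 1 397 430) (node 365 (merge (leaf 3 364 364) (leaf 3 365 366))))))) (merge (node 428 (merge (leaf 1 396 429) (node 396 (merge (leaf 1 395 427) (node 368 (merge (leaf 2 364 367) (leaf 2 365 369))))))) (node 369 (merge (leaf 2 365 368) (node 401 (merge (leaf 2 366 370) (node 365 (merge (leaf 3 364 364) (leaf 3 365 366)))))))))) (merge (node 397 (merge (node 428 (merge (leaf 1 396 429) (node 396 (merge (leaf 1 395 427) (node 368 (merge (leaf 2 364 367) (leaf 2 365 369))))))) (merge (node 369 (merge (leaf 2 365 368) (node 401 (merge (leaf 2 366 370) (node 365 (merge (leaf 3 364 364) (leaf 3 365 366))))))) (node 429 (merge (leaf 1 396 428) (node 365 (merge (leaf 3 364 364) (node 366 (merge (leaf 3 365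 401) (node 461 (merge (leaf 6 333 334) (leaf 4 365 462)))))))))))) (merge (node 430 (merge (node 462 (merge (leaf 4 398 495) (node 429 (merge (leaf 7 397 397) (leaf 7 429 461))))) (merge (node 429 (merge (leaf 1 397 401) (node 428 (merge (leaf 1 396 397) (leaf 2 395 427))))) (merge (node 429 (merge (leaf 1 397 401) (node 462 (merge (leaf 7 429 461) (leaf 4 398 495))))) (node 462 (merge (leaf 4 398 495) (node 365 (merge (leaf 7 365 397) (node 366 (merge (leaf 7 333 333) (leaf 3 365 401))))))))))) (merge (node 430 (merge (node 462 (merge (leaf 6 366 367) (leaf 4 398 495))) (merge (node 429 (merge (leaf 1 397 401) (node 462 (merge (leaf 7 429 461) (leaf 4 398 495))))) (node 401 (merge (leaf 1 397 429) (node 370 (merge (leaf 2 366 369) (node 402 (merge (leaf 2 367 371) (node 366 (merge (leaf 3 365 365) (leaf 3 366 367)))))))))))) (node 397 (merge (node 369 (merge (leaf 2 365 368) (node 401 (merge (leaf 2 366 370) (node 365 (merge (leaf 3 364 364) (leaf 3 365 366))))))) (merge (node 368 (merge (leaf 2 365 369) (node 396 (merge (leaf 2 364 367) (node 427 (merge (leaf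 1 395 428) (node 395 (merge (leaf 1 394 426) (node 363 (merge (leaf 3 362 362) (leaf 3 363 364))))))))))) (merge (node 396 (merge (node 364 (merge (leaf 3 363 363) (leaf 3 364 365))) (merge (node 427 (merge (leaf 1 395 428) (node 395 (merge (leaf 1 394 426) (node 363 (merge (leaf 3 362 362) (leaf 3 363 364))))))) (merge (node 427 (merge (leaf 1 395 428) (node 395 (merge (leaf 1 394 426) (node 366 (merge (leaf 2 363 367) (node 365 (merge (leaf 2 362 394) (leaf 3 365 401))))))))) (node 365 (merge (leaf 3 364 364) (node 366 (merge (leaf 3 365 401) (node 395 (merge (leaf 2 363 367) (leaf 2 362 394))))))))))) (node 498 (merge (node 497 (merge (leaf 1 495 499) (leaf 2 494 529))) (node 369 (merge (leaf 2 365 368) (node 401 (merge (leaf 2 366 370) (node 366 (merge (leaf 3 365 365) (node 402 (merge (leaf 3 366 367) (node 434 (merge (leaf 0 399 435) (leaf 7 369 466)))))))))))))))))))))))))))))))))))) (merge (node 590 (merge (node 622 (merge (leaf 6 494 495) (node 621 (merge (leaf 5 525 653) (node 494 (merge (leaf 5 493 589) (node 493 (merge (leaf 7 461 461) (leaf 3 493 529)))))))))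 (merge (node 622 (merge (leaf 6 494 495) (node 655 (merge (leaf 4 526 623) (node 654 (merge (leaf 4 558 687) (node 653 (merge (leaf 5 525 621) (leaf 5 557 685))))))))) (merge (node 622 (merge (leaf 6 494 495) (node 623 (merge (leaf 4 526 655) (node 494 (merge (leaf 4 494 591) (node 493 (merge (leaf 7 461 461) (leaf 3 493 529))))))))) (merge (node 494 (merge (node 493 (merge (leaf 7 461 461) (leaf 3 493 529))) (node 623 (merge (leaf 4 494 591) (node 622 (merge (leaf 4 526 655) (node 621 (merge (leaf 5 493 589) (leaf 5 525 653))))))))) (node 433 (merge (node 464 (merge (leaf 6 400 401) (node 465 (merge (leaf 6 432 560) (node 431 (merge (leaf 7 399 399) (node 466 (merge (leaf 0 430 430) (leaf 3 431 467))))))))) (merge (node 529 (merge (node 497 (merge (leaf 2 494 498) (node 465 (merge (leaf 5 400 401) (leaf 5 432 560))))) (merge (node 494 (merge (leaf 3 493 493) (node 530 (merge (leaf 3 494 495) (node 563 (merge (leaf 0 527 562) (node 531 (merge (leaf 0 528 564) (node 499 (merge (leaf 2 495 498) (leaf 2 496 500))))))))))) (node 494 (merge (leaf 3 493 493) (node 530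 (merge (leaf 3 494 495) (node 563 (merge (leaf 0 527 562) (node 531 (merge (leaf 0 528 564) (node 500 (merge (leaf 2 496 499) (node 532 (merge (leaf 3 496 497) (leaf 2 497 501)))))))))))))))) (merge (node 431 (merge (node 464 (merge (leaf 7 399 399) (leaf 6 400 401))) (merge (node 399 (merge (leaf 7 399 464) (node 434 (merge (leaf 3 398 398) (node 467 (merge (leaf 0 431 466) (node 435 (merge (leaf 0 432 468) (node 403 (merge (leaf 2 399 402) (leaf 2 400 404))))))))))) (merge (node 498 (merge (node 497 (merge (leaf 1 494 495) (leaf 1 495 499))) (node 401 (merge (leaf 6 400 464) (node 430 (merge (leaf 2 398 402) (node 462 (merge (leaf 1 429 461) (node 397 (merge (leaf 3 397 398) (node 429 (merge (leaf 3 396 396) (leaf 7 397 494))))))))))))) (node 430 (merge (node 402 (merge (leaf 2 398 401) (node 434 (merge (leaf 2 399 403) (node 398 (merge (leaf 3 397 397) (leaf 3 398 399))))))) (merge (node 461 (merge (leaf 1 429 462) (node 429 (merge (leaf 1 428 460) (node 397 (merge (leaf 3 396 396) (leaf 3 397 398))))))) (merge (node 462 (merge (leaf 1 429 461) (node 494 (merge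 (leaf 6 398 399) (node 493 (merge (leaf 3 493 529) (node 492 (merge (leaf 0 491 491) (leaf 0 492 495))))))))) (node 462 (merge (leaf 1 429 461) (node 494 (merge (leaf 6 398 399) (node 529 (merge (leaf 3 493 493) (node 495 (merge (leaf 4 398 398) (leaf 3 494 530))))))))))))))))) (node 431 (merge (node 464 (merge (leaf 7 399 399) (node 465 (merge (leaf 6 432 560) (node 466 (merge (leaf 0 430 430) (leaf 3 431 467))))))) (merge (node 399 (merge (leaf 7 399 464) (node 434 (merge (leaf 3 398 398) (node 467 (merge (leaf 0 431 466) (node 435 (merge (leaf 0 432 468) (node 403 (merge (leaf 2 399 402) (leaf 2 400 404))))))))))) (merge (node 497 (merge (node 498 (merge (leaf 1 495 499) (leaf 2 494 529))) (merge (node 498 (merge (leaf 1 494 495) (leaf 1 495 499))) (node 399 (merge (leaf 7 399 464) (node 434 (merge (leaf 3 398 398) (node 402 (merge (leaf 2 399 403) (node 529 (merge (leaf 6 401 465) (node 494 (merge (leaf 3 493 493) (node 462 (merge (leaf 6 398 430) (node 461 (merge (leaf 7 429 429) (leaf 3 461 495)))))))))))))))))) (merge (node 430 (merge (node 461 (merge (leaf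 1 429 462) (node 429 (merge (leaf 1 428 460) (node 397 (merge (leaf 3 396 396) (leaf 3 397 398))))))) (merge (node 398 (merge (leaf 3 397 397) (node 434 (merge (leaf 3 398 399) (node 467 (merge (leaf 0 431 466) (node 435 (merge (leaf 0 432 468) (node 403 (merge (leaf 2 399 402) (leaf 2 400 404))))))))))) (node 465 (merge (leaf 0 430 466) (node 462 (merge (leaf 1 429 461) (node 494 (merge (leaf 6 398 399) (node 529 (merge (leaf 3 493 493) (node 497 (merge (leaf 2 494 498) (leaf 5 432 560)))))))))))))) (node 430 (merge (node 461 (merge (leaf 1 429 462) (node 429 (merge (leaf 1 428 460) (node 397 (merge (leaf 3 396 396) (leaf 3 397 398))))))) (merge (node 465 (merge (leaf 0 430 466) (node 560 (merge (leaf 6 432 464) (node 592 (merge (leaf 6 464 497) (node 625 (merge (leaf 4 496 593) (node 624 (merge (leaf 4 528 657) (node 623 (merge (leaf 5 495 591) (leaf 5 527 655))))))))))))) (node 465 (merge (leaf 0 430 466) (node 560 (merge (leaf 6 432 464) (node 592 (merge (leaf 6 464 497) (node 625 (merge (leaf 4 496 593) (node 624 (merge (leaf 4 528 657) (node 623 (merge (leaf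 5 495 591) (leaf 5 527 655)))))))))))))))))))))))))))))) (node 464 (merge (node 401 (merge (leaf 6 400 433) (node 400 (merge (leaf 6 368 369) (node 399 (merge (leaf 7 367 367) (leaf 7 399 431))))))) (merge (node 433 (merge (leaf 6 400 401) (node 465 (merge (leaf 6 432 560) (node 431 (merge (leaf 7 399 399) (node 430 (merge (leaf 0 429 429) (leaf 0 430 466))))))))) (merge (node 399 (merge (leaf 7 399 431) (node 400 (merge (leaf 7 367 367) (node 497 (merge (leaf 4 400 529) (node 368 (merge (leaf 4 368 465) (node 369 (merge (leaf 6 336 337) (leaf 6 368 401))))))))))) (merge (node 465 (merge (node 399 (merge (leaf 7 399 431) (node 400 (merge (leaf 7 367 367) (node 497 (merge (leaf 4 368 368) (leaf 4 400 529))))))) (merge (node 431 (merge (leaf 7 399 399) (node 430 (merge (leaf 0 429 429) (node 466 (merge (leaf 0 430 433) (leaf 3 431 467))))))) (node 560 (merge (leaf 6 432 433) (node 592 (merge (leaf 6 464 497) (node 625 (merge (leaf 4 496 593) (node 624 (merge (leaf 4 528 657) (node 623 (merge (leaf 5 495 591) (leaf 5 527 655)))))))))))))) (node 623 (merge (node 433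 (merge (leaf 6 400 401) (node 560 (merge (leaf 6 432 465) (node 592 (merge (leaf 5 495 591) (node 625 (merge (leaf 4 496 593) (node 624 (merge (leaf 5 527 655) (leaf 4 528 657))))))))))) (merge (node 494 (merge (node 529 (merge (leaf 3 493 493) (node 497 (merge (leaf 4 400 400) (leaf 2 494 498))))) (node 590 (merge (leaf 4 494 591) (node 622 (merge (leaf 4 526 655) (node 621 (merge (leaf 5 493 589) (leaf 5 525 653))))))))) (merge (node 433 (merge (leaf 6 400 401) (node 560 (merge (leaf 6 432 465) (node 591 (merge (leaf 5 495 592) (node 494 (merge (leaf 4 494 590) (node 529 (merge (leaf 3 493 493) (node 497 (merge (leaf 4 400 400) (leaf 2 494 498))))))))))))) (node 624 (merge (node 433 (merge (leaf 6 400 401) (node 560 (merge (leaf 6 432 465) (node 592 (merge (leaf 5 527 655) (node 625 (merge (leaf 4 496 593) (leaf 4 528 657))))))))) (merge (node 400 (merge (node 401 (merge (leaf 6 368 369) (leaf 6 400 433))) (merge (node 497 (merge (leaf 4 400 529) (node 465 (merge (leaf 4 368 368) (node 560 (merge (leaf 6 432 433) (leaf 6 464 592))))))) (node 497 (merge (leaf 4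 400 529) (node 368 (merge (leaf 4 368 465) (node 369 (merge (leaf 6 336 337) (leaf 6 368 401)))))))))) (merge (node 622 (merge (node 590 (merge (leaf 4 526 655) (node 653 (merge (leaf 5 525 621) (node 654 (merge (leaf 1 621 625) (leaf 5 557 685))))))) (merge (node 590 (merge (leaf 4 526 655) (node 625 (merge (leaf 3 589 589) (node 658 (merge (leaf 0 622 657) (node 626 (merge (leaf 0 623 659) (node 594 (merge (leaf 2 590 593) (leaf 2 591 595))))))))))) (merge (node 625 (merge (node 657 (merge (leaf 0 622 658) (node 621 (merge (leaf 0 621 656) (node 590 (merge (leaf 3 589 589) (leaf 5 525 653))))))) (merge (node 653 (merge (leaf 1 621 654) (node 621 (merge (leaf 1 620 652) (node 593 (merge (leaf 2 589 592) (leaf 2 590 594))))))) (merge (node 657 (merge (leaf 0 622 658) (node 621 (merge (leaf 0 621 656) (node 593 (merge (leaf 2 589 592) (leaf 2 590 594))))))) (node 658 (merge (leaf 0 622 657) (node 626 (merge (leaf 0 623 659) (node 594 (merge (leaf 2 590 593) (leaf 2 591 595))))))))))) (merge (node 625 (merge (node 658 (merge (leaf 0 622 657) (node 626 (merge (leaf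 0 623 659) (node 654 (merge (leaf 1 621 653) (leaf 1 622 655))))))) (merge (node 653 (merge (leaf 1 621 654) (node 621 (merge (leaf 1 620 652) (node 593 (merge (leaf 2 589 592) (leaf 2 590 594))))))) (merge (node 657 (merge (leaf 0 622 658) (node 621 (merge (leaf 0 621 656) (node 593 (merge (leaf 2 589 592) (leaf 2 590 594))))))) (node 593 (merge (leaf 2 590 594) (node 621 (merge (leaf 2 589 592) (node 656 (merge (leaf 0 621 657) (node 655 (merge (leaf 0 620 620) (node 626 (merge (leaf 1 623 627) (leaf 1 622 654))))))))))))))) (node 590 (merge (leaf 4 526 655) (node 621 (merge (leaf 5 525 653) (node 494 (merge (leaf 5 493 589) (node 493 (merge (leaf 7 461 461) (leaf 3 493 529)))))))))))))) (node 622 (merge (node 590 (merge (leaf 4 526 655) (node 589 (merge (leaf 3 589 625) (node 621 (merge (leaf 3 588 588) (leaf 5 525 653))))))) (node 400 (merge (node 401 (merge (leaf 6 368 369) (leaf 6 400 433))) (merge (node 497 (merge (leaf 4 400 529) (node 368 (merge (leaf 4 368 465) (node 337 (merge (leaf 6 336 369) (node 336 (merge (leaf 6 304 305) (node 335 (merge (leaf 7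 303 303) (leaf 7 335 367))))))))))) (node 497 (merge (leaf 4 400 529) (node 465 (merge (leaf 4 368 368) (node 433 (merge (leaf 5 400 401) (leaf 6 432 560))))))))))))))))))))))))))))))))) nQ_29 cQ_29 13 (by decide +kernel)
def nQ_30 : ℕ := 0x1c00000010000000000000000000000000000000000000000000000000000000000000000000000000000000000000000000000000000000000000000000000000000
def cQ_30 : ℕ := 0xa000000ff000000ff000000ff000001d7800001e0000003ef800001f7000000ffc00001ffc00000ffc000003e00000028000000000000000000000000000000000000000000000000000000000000000000000000000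
theorem lQ_30 : S nQ_30 cQ_30 14 := S_of_chk [(nQ_29, cQ_29, 13)] ⟨lQ_29, trivial⟩ (node 558 (merge (node 529 (merge (leaf 1 525 557) (node 498 (merge (leaf 2 494 497) (node 530 (merge (leaf 2 495 499) (node 494 (merge (leaf 3 493 493) (leaf 3 494 495))))))))) (merge (node 529 (merge (leaf 1 525 557) (node 498 (merge (leaf 2 494 497) (node 530 (merge (leaf 2 495 499) (node 563 (merge (leaf 0 527 562) (node 531 (merge (leaf 3 495 495) (leaf 0 528 564))))))))))) (merge (node 529 (merge (leaf 1 525 557) (node 497 (merge (leaf 2 494 498) (node 494 (merge (leaf 3 493 493) (node 530 (merge (leaf 0 494 495) (node 563 (merge (leaf 0 527 562) (node 531 (merge (leaf 3 496 532) (leaf 0 528 564))))))))))))) (merge (node 529 (merge (leaf 1 525 557) (node 494 (merge (leaf 3 493 493) (node 530 (merge (leaf 3 494 495) (node 563 (merge (leaf 0 527 562) (node 531 (merge (leaf 0 528 564) (node 499 (merge (leaf 2 495 498) (leaf 2 496 500))))))))))))) (merge (node 529 (merge (leaf 1 525 557) (node 494 (merge (leaf 3 493 493) (node 530 (merge (leaf 3 494 495) (node 563 (merge (leaf 0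 527 562) (node 531 (merge (leaf 0 528 564) (node 500 (merge (leaf 2 496 499) (node 532 (merge (leaf 3 496 497) (leaf 2 497 501))))))))))))))) (merge (node 590 (merge (node 622 (merge (leaf 6 494 495) (node 655 (merge (leaf 4 526 623) (node 654 (merge (leaf 4 558 687) (node 653 (merge (leaf 5 525 621) (leaf 5 557 685))))))))) (merge (node 622 (merge (leaf 6 494 495) (node 623 (merge (leaf 4 526 655) (node 591 (merge (leaf 4 494 494) (node 592 (merge (leaf 5 495 560) (node 593 (merge (leaf 3 557 557) (leaf 1 590 594))))))))))) (merge (node 494 (merge (node 622 (merge (leaf 6 494 495) (node 621 (merge (leaf 5 493 589) (leaf 5 525 653))))) (merge (node 493 (merge (leaf 7 461 461) (node 492 (merge (leaf 0 491 491) (leaf 0 492 495))))) (node 589 (merge (leaf 5 493 621) (node 462 (merge (leaf 5 461 557) (node 461 (merge (leaf 7 429 429) (leaf 7 461 493)))))))))) (merge (node 591 (merge (node 494 (merge (leaf 4 494 623) (node 493 (merge (leaf 7 461 461) (node 492 (merge (leaf 0 491 491) (leaf 0 492 495))))))) (merge (node 494 (merge (leaf 4 494 623) (node 589 (merge (leaf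 5 493 621) (node 557 (merge (leaf 5 461 462) (node 592 (merge (leaf 3 556 556) (leaf 3 557 593))))))))) (merge (node 494 (merge (node 493 (merge (leaf 7 461 461) (node 492 (merge (leaf 0 491 491) (leaf 0 492 495))))) (node 589 (merge (leaf 5 493 621) (node 557 (merge (leaf 5 461 462) (node 592 (merge (leaf 3 556 556) (leaf 3 557 593))))))))) (node 592 (merge (node 593 (merge (leaf 3 557 557) (node 625 (merge (leaf 4 496 560) (leaf 0 590 626))))) (merge (node 560 (merge (leaf 5 495 623) (node 497 (merge (leaf 6 464 465) (node 498 (merge (leaf 1 494 495) (leaf 1 495 499))))))) (node 625 (merge (node 593 (merge (leaf 3 557 557) (leaf 0 590 626))) (merge (node 589 (merge (leaf 0 589 624) (node 621 (merge (leaf 1 588 620) (node 557 (merge (leaf 3 556 556) (leaf 6 525 653))))))) (node 624 (merge (leaf 0 589 589) (node 626 (merge (leaf 0 590 593) (leaf 3 590 623))))))))))))))) (node 623 (merge (node 494 (merge (leaf 4 494 591) (node 589 (merge (leaf 5 493 621) (node 462 (merge (leaf 5 461 557) (node 461 (merge (leaf 7 429 429) (leaf 7 461 493))))))))) (merge (node 622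 (merge (leaf 4 526 655) (node 621 (merge (leaf 5 525 653) (node 589 (merge (leaf 5 493 494) (node 624 (merge (leaf 3 588 588) (leaf 3 589 625))))))))) (node 655 (merge (leaf 4 526 622) (node 591 (merge (leaf 7 558 687) (node 592 (merge (leaf 5 495 560) (node 593 (merge (leaf 3 557 557) (node 626 (merge (leaf 0 590 625) (node 594 (merge (leaf 0 591 627) (node 595 (merge (leaf 1 591 624) (node 563 (merge (leaf 2 559 562) (leaf 2 560 564))))))))))))))))))))))))) (merge (node 590 (merge (node 494 (merge (node 493 (merge (leaf 7 461 461) (leaf 3 493 529))) (merge (node 557 (merge (leaf 1 525 529) (node 589 (merge (leaf 5 461 462) (leaf 5 493 621))))) (node 589 (merge (leaf 5 493 621) (node 462 (merge (leaf 5 461 557) (node 461 (merge (leaf 7 429 429) (leaf 7 461 493)))))))))) (merge (node 494 (merge (node 493 (merge (leaf 7 461 461) (leaf 3 493 529))) (node 623 (merge (leaf 4 494 591) (node 622 (merge (leaf 4 526 655) (node 621 (merge (leaf 5 493 589) (leaf 5 525 653))))))))) (merge (node 592 (merge (node 529 (merge (leaf 1 525 557) (node 497 (merge (leaf 2 494 498)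 (node 560 (merge (leaf 6 464 465) (leaf 6 496 624))))))) (merge (node 557 (merge (leaf 1 525 529) (node 591 (merge (leaf 3 557 593) (node 623 (merge (leaf 4 494 494) (node 655 (merge (leaf 4 526 622) (leaf 7 558 687))))))))) (merge (node 591 (merge (node 593 (merge (leaf 3 557 557) (node 625 (merge (leaf 4 496 560) (leaf 0 590 626))))) (node 623 (merge (leaf 4 494 494) (node 655 (merge (leaf 4 526 622) (leaf 7 558 687))))))) (node 560 (merge (node 497 (merge (leaf 6 464 465) (node 498 (merge (leaf 1 495 499) (leaf 2 494 529))))) (node 625 (merge (leaf 4 496 593) (node 624 (merge (leaf 4 528 657) (node 591 (merge (leaf 0 589 589) (leaf 5 495 623))))))))))))) (merge (node 592 (merge (node 529 (merge (leaf 1 525 557) (node 497 (merge (leaf 2 494 498) (node 560 (merge (leaf 6 464 465) (leaf 6 496 624))))))) (merge (node 557 (merge (leaf 1 525 529) (node 591 (merge (leaf 3 557 593) (node 623 (merge (leaf 4 494 494) (node 655 (merge (leaf 4 526 622) (leaf 7 558 687))))))))) (merge (node 591 (merge (node 593 (merge (leaf 3 557 557) (node 625 (merge (leaf 4 496 560) (leaf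 0 590 626))))) (node 623 (merge (leaf 4 494 494) (node 655 (merge (leaf 4 526 622) (leaf 7 558 687))))))) (node 494 (merge (node 493 (merge (leaf 7 461 461) (leaf 3 493 529))) (merge (node 623 (merge (leaf 4 494 591) (node 622 (merge (leaf 4 526 655) (node 621 (merge (leaf 5 525 653) (node 624 (merge (leaf 2 589 593) (node 657 (merge (leaf 0 621 656) (node 560 (merge (leaf 4 528 625) (node 497 (merge (leaf 6 464 465) (leaf 6 496 529))))))))))))))) (node 623 (merge (leaf 4 494 591) (node 622 (merge (leaf 4 526 655) (node 621 (merge (leaf 5 525 653) (node 624 (merge (leaf 2 589 593) (node 657 (merge (leaf 0 621 656) (node 625 (merge (leaf 4 528 560) (leaf 0 622 658)))))))))))))))))))) (merge (node 623 (merge (node 494 (merge (leaf 4 494 591) (node 589 (merge (leaf 5 493 621) (node 462 (merge (leaf 5 461 557) (node 461 (merge (leaf 7 429 429) (leaf 7 461 493))))))))) (merge (node 622 (merge (leaf 4 526 655) (node 621 (merge (leaf 5 525 653) (node 589 (merge (leaf 5 493 494) (node 624 (merge (leaf 3 588 588) (leaf 3 589 625))))))))) (node 655 (merge (leaf 4 526 622)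 (node 591 (merge (leaf 7 558 687) (node 592 (merge (leaf 5 495 560) (node 593 (merge (leaf 3 557 557) (node 626 (merge (leaf 0 590 625) (node 594 (merge (leaf 0 591 627) (node 595 (merge (leaf 1 591 624) (node 563 (merge (leaf 2 559 562) (leaf 2 560 564)))))))))))))))))))) (node 592 (merge (node 529 (merge (leaf 1 525 557) (node 497 (merge (leaf 2 494 498) (node 560 (merge (leaf 6 464 465) (leaf 6 496 624))))))) (merge (node 557 (merge (leaf 1 525 529) (node 591 (merge (leaf 3 557 593) (node 589 (merge (leaf 3 556 556) (node 621 (merge (leaf 1 588 620) (leaf 6 525 653))))))))) (merge (node 560 (merge (node 497 (merge (leaf 6 464 465) (node 498 (merge (leaf 1 495 499) (leaf 2 494 529))))) (node 625 (merge (leaf 4 496 593) (node 624 (merge (leaf 4 528 657) (node 591 (merge (leaf 0 589 589) (leaf 5 495 623))))))))) (merge (node 557 (merge (leaf 1 525 529) (node 556 (merge (leaf 2 523 555) (node 591 (merge (leaf 3 556 589) (leaf 3 557 593))))))) (node 591 (merge (node 593 (merge (leaf 3 557 557) (node 625 (merge (leaf 4 496 560) (leaf 0 590 626))))) (merge (node 623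 (merge (leaf 5 495 560) (node 655 (merge (leaf 4 526 622) (leaf 7 558 687))))) (node 593 (merge (leaf 3 557 557) (node 626 (merge (leaf 0 590 625) (node 594 (merge (leaf 0 591 627) (node 623 (merge (leaf 1 590 622) (node 595 (merge (leaf 1 591 624) (node 563 (merge (leaf 2 559 562) (leaf 2 560 564))))))))))))))))))))))))))) (hyp 0))))))))) nQ_30 cQ_30 14 (by decide +kernel)
def nQ_31 : ℕ := 0x1800000050000000000000002000000000000000000000000000000000000000000000000000000000000000000000000000000000000000000000000000000000000
def cQ_31 : ℕ := 0x1c0000001c0000001c0000000a8000007e0000007d8000007fc000003e0000001e000000140000000000000000000000000000000000000000000000000000000000000000000000000000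
theorem lQ_31 : S nQ_31 cQ_31 12 := S_of_chk [] trivial (node 434 (merge (node 497 (merge (leaf 1 495 499) (node 401 (merge (leaf 5 400 465) (node 466 (merge (leaf 7 401 530) (node 402 (merge (leaf 7 369 369) (node 403 (merge (leaf 6 370 371) (node 432 (merge (leaf 1 400 404) (leaf 2 399 431))))))))))))) (merge (node 497 (merge (leaf 1 495 499) (node 401 (merge (leaf 5 400 465) (node 466 (merge (leaf 7 401 530) (node 467 (merge (leaf 2 463 495) (node 432 (merge (leaf 0 431 431) (node 468 (merge (leaf 0 432 435) (leaf 1 465 469))))))))))))) (merge (node 497 (merge (leaf 1 495 499) (node 401 (merge (leaf 5 400 465) (node 466 (merge (leaf 7 401 530) (node 402 (merge (leaf 7 369 369) (node 403 (merge (leaf 6 370 371) (node 404 (merge (leaf 1 401 405) (node 436 (merge (leaf 0 401 437) (node 435 (merge (leaf 0 400 400) (node 372 (merge (leaf 2 369 373) (node 340 (merge (leaf 5 307 308) (leaf 5 339 467))))))))))))))))))))) (merge (node 466 (merge (node 497 (merge (leaf 1 495 499) (node 467 (merge (leaf 2 463 495) (node 432 (merge (leaf 0 431 431) (node 468 (merge (leaf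 0 432 435) (leaf 1 465 469))))))))) (merge (node 499 (merge (leaf 1 495 497) (node 531 (merge (leaf 4 402 402) (node 563 (merge (leaf 4 434 530) (leaf 7 466 595))))))) (node 530 (merge (leaf 7 401 401) (node 563 (merge (leaf 4 434 531) (node 562 (merge (leaf 4 466 595) (node 435 (merge (leaf 6 402 403) (leaf 6 434 467)))))))))))) (merge (node 466 (merge (node 530 (merge (leaf 7 401 401) (node 563 (merge (leaf 4 434 531) (node 562 (merge (leaf 7 433 465) (leaf 4 466 595))))))) (merge (node 530 (merge (leaf 7 401 401) (node 563 (merge (leaf 4 434 531) (node 562 (merge (leaf 4 466 595) (node 435 (merge (leaf 6 402 403) (leaf 6 434 467))))))))) (merge (node 467 (merge (node 432 (merge (leaf 0 431 431) (node 468 (merge (leaf 0 432 435) (leaf 3 433 469))))) (merge (node 468 (merge (leaf 3 433 469) (node 465 (merge (leaf 3 432 432) (leaf 1 464 497))))) (merge (node 432 (merge (leaf 0 431 431) (node 497 (merge (leaf 2 463 495) (node 401 (merge (leaf 5 400 465) (node 402 (merge (leaf 7 369 369) (node 403 (merge (leaf 6 370 371) (leaf 1 400 404))))))))))) (node 497 (merge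 (leaf 2 463 495) (node 468 (merge (leaf 1 464 465) (leaf 1 465 469))))))))) (node 435 (merge (node 530 (merge (leaf 6 402 403) (node 562 (merge (leaf 7 433 465) (leaf 6 434 467))))) (merge (node 403 (merge (leaf 6 402 530) (node 432 (merge (leaf 2 400 404) (node 402 (merge (leaf 6 370 371) (leaf 2 399 431))))))) (merge (node 468 (merge (node 469 (merge (leaf 0 433 436) (leaf 3 433 467))) (merge (node 467 (merge (leaf 0 432 432) (node 497 (merge (leaf 1 464 465) (leaf 2 463 495))))) (node 436 (merge (leaf 0 433 469) (node 437 (merge (leaf 1 433 465) (node 405 (merge (leaf 2 401 404) (leaf 2 402 406)))))))))) (node 467 (merge (node 432 (merge (leaf 0 431 431) (node 403 (merge (leaf 5 370 371) (leaf 2 400 404))))) (merge (node 468 (merge (leaf 3 433 469) (node 465 (merge (leaf 3 432 432) (leaf 1 464 497))))) (node 468 (merge (leaf 3 433 469) (node 465 (merge (leaf 1 464 497) (node 436 (merge (leaf 1 433 437) (node 404 (merge (leaf 2 401 405) (node 372 (merge (leaf 5 339 340) (node 371 (merge (leaf 7 339 339) (leaf 5 370 403)))))))))))))))))))))))) (merge (node 466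 (merge (node 497 (merge (leaf 1 495 499) (node 467 (merge (leaf 2 463 495) (node 432 (merge (leaf 0 431 431) (node 468 (merge (leaf 0 432 435) (leaf 1 465 469))))))))) (merge (node 499 (merge (leaf 1 495 497) (node 531 (merge (leaf 4 402 402) (node 563 (merge (leaf 4 434 530) (leaf 7 466 595))))))) (merge (node 435 (merge (node 530 (merge (leaf 6 402 403) (node 562 (merge (leaf 7 433 465) (leaf 6 434 467))))) (merge (node 403 (merge (leaf 6 402 530) (node 432 (merge (leaf 2 400 404) (node 402 (merge (leaf 6 370 371) (leaf 2 399 431))))))) (merge (node 468 (merge (node 469 (merge (leaf 0 433 436) (leaf 3 433 467))) (merge (node 467 (merge (leaf 0 432 432) (node 497 (merge (leaf 1 464 465) (leaf 2 463 495))))) (node 436 (merge (leaf 0 433 469) (node 437 (merge (leaf 1 433 465) (node 405 (merge (leaf 2 401 404) (leaf 2 402 406)))))))))) (node 467 (merge (node 432 (merge (leaf 0 431 431) (node 403 (merge (leaf 5 370 371) (leaf 2 400 404))))) (merge (node 468 (merge (leaf 3 433 469) (node 465 (merge (leaf 3 432 432) (leaf 1 464 497))))) (node 468 (merge (leaf 3 433 469)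 (node 465 (merge (leaf 1 464 497) (node 436 (merge (leaf 1 433 437) (node 404 (merge (leaf 2 401 405) (node 372 (merge (leaf 5 339 340) (node 371 (merge (leaf 7 339 339) (leaf 5 370 403)))))))))))))))))))) (node 531 (merge (node 530 (merge (leaf 4 434 563) (node 435 (merge (leaf 6 402 403) (node 562 (merge (leaf 7 433 465) (leaf 6 434 467))))))) (merge (node 499 (merge (leaf 4 402 402) (node 563 (merge (leaf 7 434 467) (leaf 4 434 530))))) (merge (node 402 (merge (leaf 4 402 499) (node 530 (merge (leaf 4 434 563) (node 403 (merge (leaf 6 370 371) (leaf 6 402 435))))))) (merge (node 402 (merge (leaf 4 402 499) (node 403 (merge (leaf 6 370 371) (node 432 (merge (leaf 2 399 431) (node 435 (merge (leaf 2 400 404) (node 468 (merge (leaf 0 432 467) (node 436 (merge (leaf 0 433 469) (node 437 (merge (leaf 3 402 438) (leaf 1 433 465))))))))))))))) (node 499 (merge (leaf 4 402 402) (node 563 (merge (leaf 7 434 467) (leaf 4 434 530)))))))))))))) (merge (node 435 (merge (node 497 (merge (leaf 1 495 499) (node 401 (merge (leaf 5 400 465) (node 436 (merge (leaf 3 400 400) (node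 469 (merge (leaf 0 433 468) (node 437 (merge (leaf 3 401 402) (leaf 0 434 470))))))))))) (merge (node 497 (merge (leaf 1 495 499) (node 401 (merge (leaf 5 400 465) (node 436 (merge (leaf 3 400 400) (node 405 (merge (leaf 2 401 404) (node 437 (merge (leaf 3 401 402) (leaf 2 402 406))))))))))) (merge (node 436 (merge (node 469 (merge (leaf 0 433 468) (node 437 (merge (leaf 0 434 470) (node 401 (merge (leaf 3 400 400) (leaf 3 401 402))))))) (merge (node 468 (merge (leaf 0 433 469) (node 432 (merge (leaf 0 432 467) (node 404 (merge (leaf 2 400 403) (leaf 2 401 405))))))) (node 405 (merge (leaf 2 401 404) (node 437 (merge (leaf 2 402 406) (node 401 (merge (leaf 3 400 400) (leaf 3 401 402)))))))))) (merge (node 497 (merge (leaf 1 495 499) (node 401 (merge (leaf 5 400 465) (node 436 (merge (leaf 3 400 400) (node 468 (merge (leaf 0 433 469) (node 432 (merge (leaf 0 432 467) (node 404 (merge (leaf 2 400 403) (leaf 2 401 405))))))))))))) (merge (node 401 (merge (node 497 (merge (leaf 5 400 465) (leaf 1 495 499))) (node 436 (merge (node 469 (merge (leaf 0 433 468) (node 437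 (merge (leaf 3 401 402) (leaf 0 434 470))))) (merge (node 405 (merge (leaf 2 401 404) (node 437 (merge (leaf 3 401 402) (leaf 2 402 406))))) (node 468 (merge (leaf 0 433 469) (node 432 (merge (leaf 0 432 467) (node 404 (merge (leaf 2 400 403) (leaf 2 401 405)))))))))))) (node 467 (merge (node 432 (merge (leaf 0 432 468) (node 499 (merge (leaf 1 495 497) (node 403 (merge (leaf 2 400 404) (leaf 5 402 530))))))) (merge (node 499 (merge (leaf 1 495 497) (node 530 (merge (leaf 5 402 403) (node 531 (merge (leaf 7 402 402) (leaf 5 434 562))))))) (merge (node 432 (merge (leaf 0 432 468) (node 403 (merge (leaf 2 400 404) (node 431 (merge (leaf 2 399 402) (node 399 (merge (leaf 3 398 398) (leaf 3 399 400))))))))) (node 499 (merge (leaf 1 495 497) (node 531 (merge (leaf 7 402 402) (node 564 (merge (leaf 4 435 532) (node 563 (merge (leaf 4 467 596) (node 562 (merge (leaf 5 434 530) (leaf 5 466 594))))))))))))))))))))) (merge (node 466 (merge (node 530 (merge (leaf 7 401 401) (node 435 (merge (leaf 6 402 403) (node 562 (merge (leaf 7 433 465) (leaf 6 434 467))))))) (merge (node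 530 (merge (leaf 7 401 401) (node 563 (merge (leaf 4 434 531) (node 562 (merge (leaf 7 433 465) (leaf 4 466 595))))))) (merge (node 530 (merge (leaf 7 401 401) (node 563 (merge (leaf 4 434 531) (node 562 (merge (leaf 4 466 595) (node 435 (merge (leaf 6 402 403) (leaf 6 434 467))))))))) (merge (node 402 (merge (node 499 (merge (leaf 4 402 531) (node 370 (merge (leaf 4 370 467) (node 338 (merge (leaf 5 337 465) (node 401 (merge (leaf 5 305 306) (leaf 7 369 369))))))))) (merge (node 403 (merge (leaf 6 370 371) (node 404 (merge (leaf 1 401 405) (node 401 (merge (leaf 7 369 369) (leaf 1 400 432))))))) (merge (node 499 (merge (leaf 4 402 531) (node 370 (merge (leaf 4 370 467) (node 371 (merge (leaf 6 338 339) (leaf 6 370 403))))))) (node 499 (merge (leaf 4 402 531) (node 370 (merge (leaf 4 370 467) (node 371 (merge (leaf 6 338 339) (leaf 6 370 403))))))))))) (node 531 (merge (node 530 (merge (leaf 4 434 563) (node 435 (merge (leaf 6 402 403) (node 562 (merge (leaf 7 433 465) (leaf 6 434 467))))))) (merge (node 499 (merge (leaf 4 402 402) (node 563 (merge (leaf 7 434 467)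 (leaf 4 434 530))))) (merge (node 402 (merge (leaf 4 402 499) (node 530 (merge (leaf 4 434 563) (node 403 (merge (leaf 6 370 371) (leaf 6 402 435))))))) (merge (node 402 (merge (leaf 4 402 499) (node 403 (merge (leaf 6 370 371) (node 432 (merge (leaf 2 399 431) (node 435 (merge (leaf 2 400 404) (node 468 (merge (leaf 0 432 467) (node 436 (merge (leaf 0 433 469) (node 437 (merge (leaf 3 402 438) (leaf 1 433 465))))))))))))))) (node 499 (merge (leaf 4 402 402) (node 563 (merge (leaf 7 434 467) (leaf 4 434 530))))))))))))))) (node 466 (merge (node 499 (merge (leaf 1 495 497) (node 531 (merge (leaf 4 402 402) (node 563 (merge (leaf 7 434 467) (leaf 7 466 595))))))) (merge (node 497 (merge (leaf 1 495 499) (node 467 (merge (leaf 2 463 495) (node 465 (merge (leaf 5 400 401) (leaf 1 464 468))))))) (merge (node 499 (merge (leaf 1 495 497) (node 402 (merge (leaf 4 402 531) (node 371 (merge (leaf 6 370 403) (node 370 (merge (leaf 6 338 339) (node 369 (merge (leaf 7 337 337) (leaf 7 369 401))))))))))) (merge (node 467 (merge (node 432 (merge (leaf 0 431 431) (node 468 (merge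 (leaf 0 432 435) (leaf 3 433 469))))) (merge (node 468 (merge (leaf 3 433 469) (node 465 (merge (leaf 3 432 432) (leaf 1 464 497))))) (merge (node 432 (merge (leaf 0 431 431) (node 497 (merge (leaf 2 463 495) (node 401 (merge (leaf 5 400 465) (node 402 (merge (leaf 7 369 369) (node 403 (merge (leaf 6 370 371) (leaf 1 400 404))))))))))) (node 497 (merge (leaf 2 463 495) (node 468 (merge (leaf 1 464 465) (leaf 1 465 469))))))))) (node 402 (merge (node 499 (merge (leaf 4 402 531) (node 370 (merge (leaf 4 370 467) (node 338 (merge (leaf 5 337 465) (node 401 (merge (leaf 5 305 306) (leaf 7 369 369))))))))) (merge (node 403 (merge (leaf 6 370 371) (node 404 (merge (leaf 1 401 405) (node 401 (merge (leaf 7 369 369) (leaf 1 400 432))))))) (merge (node 499 (merge (leaf 4 402 531) (node 370 (merge (leaf 4 370 467) (node 371 (merge (leaf 6 338 339) (leaf 6 370 403))))))) (node 499 (merge (leaf 4 402 531) (node 370 (merge (leaf 4 370 467) (node 371 (merge (leaf 6 338 339) (leaf 6 370 403))))))))))))))))))))))))) nQ_31 cQ_31 12 (by decide +kernel)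
def nQ_32 : ℕ := 0x1800000010000000000000002000000000000000000000000000000000000000000000000000000000000000000000000000000000000000000000000000000000000
def cQ_32 : ℕ := 0xa0000000f8000001f8000003dc000001e0000000ef000007e7000007d8000007fc000003e0000001e000000140000000000000000000000000000000000000000000000000000000000000000000000000000
theorem lQ_32 : S nQ_32 cQ_32 13 := S_of_chk [(nQ_31, cQ_31, 12)] ⟨lQ_31, trivial⟩ (node 498 (merge (node 497 (merge (leaf 1 495 499) (node 465 (merge (leaf 5 400 401) (node 560 (merge (leaf 5 432 529) (leaf 6 464 592))))))) (merge (node 530 (merge (node 499 (merge (leaf 1 495 497) (leaf 2 495 529))) (merge (node 529 (merge (leaf 2 495 499) (node 495 (merge (leaf 3 494 494) (leaf 3 495 531))))) (merge (node 497 (merge (leaf 1 495 499) (node 495 (merge (leaf 0 495 531) (node 466 (merge (leaf 2 463 467) (node 465 (merge (leaf 2 462 494) (leaf 7 433 562))))))))) (node 495 (merge (node 529 (merge (leaf 3 494 494) (leaf 3 495 531))) (merge (node 531 (merge (leaf 0 495 497) (leaf 3 495 529))) (merge (node 497 (merge (leaf 0 495 531) (node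 466 (merge (leaf 2 463 467) (node 494 (merge (leaf 2 462 465) (node 493 (merge (leaf 0 492 492) (node 461 (merge (leaf 3 460 460) (leaf 3 461 462))))))))))) (node 494 (merge (leaf 3 494 529) (node 493 (merge (leaf 0 492 492) (node 461 (merge (leaf 3 460 460) (node 497 (merge (leaf 3 461 462) (node 466 (merge (leaf 2 462 465) (leaf 2 463 467))))))))))))))))))) (merge (node 530 (merge (node 499 (merge (leaf 1 495 497) (leaf 2 495 529))) (merge (node 529 (merge (leaf 2 495 499) (node 495 (merge (leaf 3 494 494) (leaf 3 495 531))))) (merge (node 466 (merge (node 497 (merge (leaf 1 495 499) (node 495 (merge (leaf 2 463 467) (leaf 0 495 531))))) (merge (node 434 (merge (leaf 7 401 401) (node 563 (merge (leaf 4 434 531) (node 562 (merge (leaf 4 466 595) (node 435 (merge (leaf 6 402 403) (leaf 6 434 467))))))))) (merge (node 497 (merge (leaf 1 495 499) (node 531 (merge (leaf 0 495 495) (node 434 (merge (leaf 7 401 401) (leaf 4 434 563))))))) (node 497 (merge (leaf 1 495 499) (node 467 (merge (leaf 2 463 495) (node 435 (merge (leaf 6 434 562) (node 403 (merge (leaf 5 370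 371) (leaf 6 402 434))))))))))))) (node 466 (merge (node 495 (merge (node 497 (merge (leaf 2 463 467) (leaf 0 495 531))) (merge (node 529 (merge (leaf 3 494 494) (leaf 3 495 531))) (node 467 (merge (leaf 2 463 497) (node 529 (merge (leaf 3 494 494) (node 562 (merge (leaf 6 434 435) (leaf 0 527 563)))))))))) (merge (node 434 (merge (leaf 7 401 401) (node 563 (merge (leaf 4 434 531) (node 562 (merge (leaf 4 466 595) (node 435 (merge (leaf 6 402 403) (leaf 6 434 467))))))))) (merge (node 434 (merge (leaf 7 401 401) (node 435 (merge (leaf 6 402 403) (node 562 (merge (leaf 6 434 467) (node 563 (merge (leaf 0 527 529) (leaf 4 466 595))))))))) (merge (node 434 (merge (leaf 7 401 401) (node 435 (merge (leaf 6 402 403) (node 467 (merge (leaf 6 434 562) (node 495 (merge (leaf 2 463 497) (node 529 (merge (leaf 3 494 494) (leaf 3 495 531))))))))))) (node 434 (merge (leaf 7 401 401) (node 531 (merge (leaf 4 434 563) (node 495 (merge (leaf 0 495 497) (leaf 3 495 529)))))))))))))))) (merge (node 530 (merge (node 529 (merge (leaf 2 495 499) (node 495 (merge (leaf 3 494 494) (leaf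 3 495 531))))) (merge (node 529 (merge (leaf 2 495 499) (node 562 (merge (leaf 0 527 563) (node 466 (merge (leaf 7 433 465) (node 435 (merge (leaf 6 434 467) (node 434 (merge (leaf 7 401 401) (leaf 6 402 403))))))))))) (merge (node 466 (merge (node 562 (merge (leaf 7 433 465) (node 563 (merge (leaf 0 527 529) (leaf 4 466 595))))) (merge (node 434 (merge (leaf 7 401 401) (node 435 (merge (leaf 6 402 403) (node 562 (merge (leaf 7 433 465) (leaf 6 434 467))))))) (node 434 (merge (leaf 7 401 401) (node 531 (merge (leaf 4 434 563) (node 529 (merge (leaf 3 495 495) (node 559 (merge (leaf 1 526 558) (leaf 1 527 560)))))))))))) (node 466 (merge (node 434 (merge (leaf 7 401 401) (node 435 (merge (leaf 6 402 403) (node 562 (merge (leaf 7 433 465) (leaf 6 434 467))))))) (merge (node 434 (merge (leaf 7 401 401) (node 563 (merge (leaf 4 434 531) (node 562 (merge (leaf 7 433 465) (leaf 4 466 595))))))) (merge (node 562 (merge (leaf 7 433 465) (node 595 (merge (leaf 4 466 563) (node 594 (merge (leaf 4 498 627) (node 467 (merge (leaf 6 434 435) (leaf 6 466 499))))))))) (node 434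 (merge (leaf 7 401 401) (node 531 (merge (leaf 4 434 563) (node 402 (merge (leaf 4 402 499) (node 403 (merge (leaf 6 370 371) (leaf 6 402 435))))))))))))))))) (merge (node 530 (merge (node 495 (merge (node 529 (merge (leaf 3 494 494) (leaf 3 495 531))) (merge (node 531 (merge (leaf 0 495 497) (leaf 3 495 529))) (merge (node 497 (merge (leaf 0 495 531) (node 466 (merge (leaf 2 463 467) (node 494 (merge (leaf 2 462 465) (node 493 (merge (leaf 0 492 492) (node 461 (merge (leaf 3 460 460) (leaf 3 461 462))))))))))) (node 494 (merge (leaf 3 494 529) (node 493 (merge (leaf 0 492 492) (node 461 (merge (leaf 3 460 460) (node 497 (merge (leaf 3 461 462) (node 466 (merge (leaf 2 462 465) (leaf 2 463 467))))))))))))))) (merge (node 466 (merge (node 401 (merge (leaf 7 401 434) (node 465 (merge (leaf 4 369 369) (leaf 4 401 497))))) (merge (node 497 (merge (node 465 (merge (leaf 4 401 401) (leaf 7 433 562))) (node 495 (merge (leaf 2 463 467) (leaf 0 495 531))))) (merge (node 562 (merge (leaf 7 433 465) (node 563 (merge (leaf 4 466 595) (node 434 (merge (leaf 4 434 531) (node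 435 (merge (leaf 6 402 403) (leaf 6 434 467))))))))) (node 434 (merge (leaf 7 401 401) (node 563 (merge (leaf 4 434 531) (node 562 (merge (leaf 4 466 595) (node 435 (merge (leaf 6 402 403) (leaf 6 434 467))))))))))))) (merge (node 466 (merge (node 562 (merge (leaf 7 433 465) (node 563 (merge (leaf 0 527 529) (leaf 4 466 595))))) (merge (node 434 (merge (leaf 7 401 401) (node 435 (merge (leaf 6 402 403) (node 562 (merge (leaf 7 433 465) (leaf 6 434 467))))))) (node 434 (merge (leaf 7 401 401) (node 531 (merge (leaf 4 434 563) (node 529 (merge (leaf 3 495 495) (node 559 (merge (leaf 1 526 558) (leaf 1 527 560)))))))))))) (merge (node 465 (merge (node 466 (merge (leaf 7 433 562) (node 401 (merge (leaf 4 369 369) (leaf 7 401 434))))) (merge (node 497 (merge (leaf 5 400 401) (node 560 (merge (leaf 5 432 529) (leaf 6 464 592))))) (node 562 (merge (leaf 7 433 466) (node 594 (merge (leaf 7 465 497) (node 627 (merge (leaf 4 498 595) (node 626 (merge (leaf 4 530 659) (node 625 (merge (leaf 5 497 593) (leaf 5 529 657)))))))))))))) (merge (node 466 (merge (node 495 (merge (node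 497 (merge (leaf 2 463 467) (leaf 0 495 531))) (merge (node 529 (merge (leaf 3 494 494) (leaf 3 495 531))) (node 467 (merge (leaf 2 463 497) (node 529 (merge (leaf 3 494 494) (node 562 (merge (leaf 6 434 435) (leaf 0 527 563)))))))))) (merge (node 434 (merge (leaf 7 401 401) (node 563 (merge (leaf 4 434 531) (node 562 (merge (leaf 4 466 595) (node 435 (merge (leaf 6 402 403) (leaf 6 434 467))))))))) (merge (node 434 (merge (leaf 7 401 401) (node 435 (merge (leaf 6 402 403) (node 562 (merge (leaf 6 434 467) (node 563 (merge (leaf 0 527 529) (leaf 4 466 595))))))))) (merge (node 434 (merge (leaf 7 401 401) (node 435 (merge (leaf 6 402 403) (node 467 (merge (leaf 6 434 562) (node 495 (merge (leaf 2 463 497) (node 529 (merge (leaf 3 494 494) (leaf 3 495 531))))))))))) (node 434 (merge (leaf 7 401 401) (node 531 (merge (leaf 4 434 563) (node 495 (merge (leaf 0 495 497) (leaf 3 495 529)))))))))))) (node 529 (merge (node 563 (merge (leaf 0 527 562) (node 531 (merge (leaf 3 495 495) (leaf 0 528 564))))) (merge (node 559 (merge (leaf 1 526 558) (node 531 (merge (leaf 3 495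 495) (leaf 1 527 560))))) (merge (node 559 (merge (leaf 1 526 558) (node 531 (merge (leaf 1 527 560) (node 564 (merge (leaf 0 528 563) (node 532 (merge (leaf 3 496 497) (leaf 0 529 565))))))))) (node 562 (merge (leaf 0 527 563) (node 559 (merge (leaf 1 526 558) (node 497 (merge (leaf 4 433 465) (node 623 (merge (leaf 6 495 591) (node 594 (merge (leaf 7 497 626) (node 595 (merge (leaf 4 498 627) (node 593 (merge (leaf 5 497 625) (node 592 (merge (leaf 3 559 560) (leaf 1 591 624))))))))))))))))))))))))))) (hyp 0))))))) nQ_32 cQ_32 13 (by decide +kernel)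
def nQ_33 : ℕ := 0x80000001800000010000000000000003000000000000000000000000000000000000000000000000000000000000000000000000000000000000000000000000000000000000
def cQ_33 : ℕ := 0xd4000000e0000000e800000fc7000007ce00000fff000000e0000000e0000000a0000000000000000000000000000000000000000000000000000000000000000000000000000
theorem lQ_33 : S nQ_33 cQ_33 12 := S_of_chk [] trivial (node 434 (merge (node 435 (merge (node 403 (merge (leaf 2 400 404) (node 431 (merge (leaf 2 399 402) (node 399 (merge (leaf 3 398 398) (leaf 3 399 400))))))) (merge (node 468 (merge (leaf 0 432 467) (node 436 (merge (leaf 0 433 469) (node 404 (merge (leaf 2 400 403) (leaf 2 401 405))))))) (node 467 (merge (leaf 0 432 468) (node 431 (merge (leaf 0 431 466) (node 399 (merge (leaf 3 398 398) (leaf 3 399 400)))))))))) (merge (node 530 (merge (node 529 (merge (leaf 1 526 558) (node 531 (merge (leaf 3 495 495) (leaf 1 527 560))))) (node 435 (merge (node 467 (merge (leaf 0 432 468) (node 403 (merge (leaf 2 400 404) (node 498 (merge (leaf 6 402 466) (leaf 5 402 499))))))) (merge (node 468 (merge (leaf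 0 432 467) (node 436 (merge (leaf 0 433 469) (node 400 (merge (leaf 3 399 399) (leaf 3 400 401))))))) (node 404 (merge (leaf 2 400 403) (node 436 (merge (leaf 2 401 405) (node 400 (merge (leaf 3 399 399) (leaf 3 400 401)))))))))))) (merge (node 431 (merge (node 467 (merge (leaf 0 431 466) (node 435 (merge (leaf 0 432 468) (node 399 (merge (leaf 3 398 398) (leaf 3 399 400))))))) (merge (node 402 (merge (leaf 2 399 403) (node 430 (merge (leaf 2 398 401) (node 461 (merge (leaf 1 429 462) (node 429 (merge (leaf 1 428 460) (node 397 (merge (leaf 3 396 396) (leaf 3 397 398))))))))))) (node 467 (merge (leaf 0 431 466) (node 435 (merge (leaf 0 432 468) (node 400 (merge (leaf 3 399 399) (node 401 (merge (leaf 3 400 436) (node 430 (merge (leaf 2 398 402) (leaf 2 397 429)))))))))))))) (merge (node 435 (merge (node 404 (merge (leaf 2 400 403) (node 436 (merge (leaf 2 401 405) (node 469 (merge (leaf 0 433 468) (node 437 (merge (leaf 0 434 470) (node 401 (merge (leaf 3 400 400) (leaf 3 401 402))))))))))) (merge (node 467 (merge (leaf 0 432 468) (node 466 (merge (leaf 0 431 431)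 (node 403 (merge (leaf 2 400 404) (node 498 (merge (leaf 6 402 530) (node 497 (merge (leaf 2 463 495) (leaf 1 495 499))))))))))) (merge (node 468 (merge (leaf 0 432 467) (node 436 (merge (leaf 0 433 469) (node 405 (merge (leaf 2 401 404) (node 437 (merge (leaf 2 402 406) (node 401 (merge (leaf 3 400 400) (leaf 3 401 402))))))))))) (merge (node 403 (merge (leaf 2 400 404) (node 431 (merge (leaf 2 399 402) (node 466 (merge (leaf 0 431 467) (node 530 (merge (leaf 6 402 498) (node 529 (merge (leaf 1 526 558) (node 531 (merge (leaf 3 495 495) (leaf 1 527 560))))))))))))) (node 467 (merge (leaf 0 432 468) (node 431 (merge (leaf 0 431 466) (node 402 (merge (leaf 2 399 403) (node 430 (merge (leaf 2 398 401) (node 461 (merge (leaf 1 429 462) (node 429 (merge (leaf 1 428 460) (node 397 (merge (leaf 3 396 396) (leaf 3 397 398)))))))))))))))))))) (merge (node 402 (merge (node 403 (merge (leaf 2 399 431) (node 404 (merge (leaf 1 401 405) (leaf 2 400 435))))) (merge (node 431 (merge (leaf 2 399 403) (node 430 (merge (leaf 2 398 401) (node 398 (merge (leaf 3 397 397) (leaf 3 398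 399))))))) (merge (node 466 (merge (node 467 (merge (leaf 0 431 431) (node 468 (merge (leaf 0 432 435) (leaf 3 433 469))))) (node 530 (merge (node 529 (merge (leaf 1 526 558) (node 498 (merge (leaf 7 401 401) (leaf 2 495 499))))) (merge (node 529 (merge (leaf 1 526 558) (node 531 (merge (leaf 3 495 495) (leaf 1 527 560))))) (node 498 (merge (leaf 7 401 401) (node 499 (merge (leaf 1 495 497) (node 531 (merge (leaf 4 402 402) (leaf 4 434 563)))))))))))) (node 435 (merge (node 467 (merge (leaf 0 432 468) (node 370 (merge (leaf 4 338 338) (node 499 (merge (leaf 4 370 466) (leaf 7 402 531))))))) (merge (node 404 (merge (leaf 2 400 403) (node 436 (merge (leaf 2 401 405) (node 469 (merge (leaf 0 433 468) (node 437 (merge (leaf 3 401 401) (leaf 0 434 470))))))))) (node 436 (merge (node 404 (merge (leaf 2 400 403) (leaf 2 401 405))) (merge (node 405 (merge (leaf 2 401 404) (node 437 (merge (leaf 3 401 401) (leaf 2 402 406))))) (node 437 (merge (leaf 3 401 401) (node 470 (merge (leaf 0 434 469) (node 438 (merge (leaf 3 402 403) (leaf 0 435 471))))))))))))))))) (merge (node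 435 (merge (node 403 (merge (leaf 2 400 404) (node 431 (merge (leaf 2 399 402) (node 399 (merge (leaf 3 398 398) (leaf 3 399 400))))))) (merge (node 400 (merge (leaf 3 399 399) (node 436 (merge (leaf 3 400 401) (node 469 (merge (leaf 0 433 468) (node 437 (merge (leaf 0 434 470) (node 405 (merge (leaf 2 401 404) (leaf 2 402 406))))))))))) (merge (node 436 (merge (node 404 (merge (leaf 2 400 403) (leaf 2 401 405))) (merge (node 469 (merge (leaf 0 433 468) (node 437 (merge (leaf 0 434 470) (node 405 (merge (leaf 2 401 404) (leaf 2 402 406))))))) (merge (node 469 (merge (leaf 0 433 468) (node 437 (merge (leaf 0 434 470) (node 406 (merge (leaf 2 402 405) (node 438 (merge (leaf 2 403 407) (node 402 (merge (leaf 3 401 401) (leaf 3 402 403))))))))))) (node 403 (merge (leaf 2 400 404) (node 402 (merge (leaf 2 399 431) (node 437 (merge (leaf 3 401 401) (leaf 3 402 438))))))))))) (node 431 (merge (node 399 (merge (leaf 3 398 398) (leaf 3 399 400))) (merge (node 402 (merge (leaf 2 399 403) (node 401 (merge (leaf 2 398 430) (node 436 (merge (leaf 3 400 400) (leaf 3 401 437)))))))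 (node 402 (merge (leaf 2 399 403) (node 430 (merge (leaf 2 398 401) (node 461 (merge (leaf 1 429 462) (node 429 (merge (leaf 1 428 460) (node 397 (merge (leaf 3 396 396) (leaf 3 397 398)))))))))))))))))) (merge (node 530 (merge (node 529 (merge (leaf 1 526 558) (node 531 (merge (leaf 3 495 495) (leaf 1 527 560))))) (merge (node 435 (merge (node 467 (merge (leaf 0 432 468) (node 466 (merge (leaf 0 431 431) (node 498 (merge (leaf 7 401 401) (leaf 6 434 562))))))) (merge (node 400 (merge (leaf 3 399 399) (node 401 (merge (leaf 3 400 436) (node 466 (merge (leaf 7 401 498) (node 431 (merge (leaf 0 431 467) (node 430 (merge (leaf 2 398 402) (leaf 2 397 429))))))))))) (merge (node 467 (merge (leaf 0 432 468) (node 466 (merge (leaf 0 431 431) (node 498 (merge (leaf 6 434 562) (node 499 (merge (leaf 1 495 497) (node 531 (merge (leaf 4 402 402) (leaf 4 434 563))))))))))) (node 400 (merge (leaf 3 399 399) (node 436 (merge (leaf 3 400 401) (node 469 (merge (leaf 0 433 468) (node 437 (merge (leaf 0 434 470) (node 405 (merge (leaf 2 401 404) (leaf 2 402 406))))))))))))))) (node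 529 (merge (leaf 1 526 558) (node 562 (merge (leaf 0 527 563) (node 498 (merge (leaf 2 495 499) (node 466 (merge (leaf 7 401 401) (node 467 (merge (leaf 0 431 431) (leaf 6 434 435)))))))))))))) (node 466 (merge (node 530 (merge (node 529 (merge (leaf 1 526 558) (node 498 (merge (leaf 7 401 401) (leaf 2 495 499))))) (merge (node 529 (merge (leaf 1 526 558) (node 531 (merge (leaf 3 495 495) (leaf 1 527 560))))) (node 498 (merge (leaf 7 401 401) (node 499 (merge (leaf 1 495 497) (node 531 (merge (leaf 4 402 402) (leaf 4 434 563)))))))))) (merge (node 431 (merge (leaf 0 431 467) (node 402 (merge (leaf 2 399 403) (node 430 (merge (leaf 2 398 401) (node 398 (merge (leaf 3 397 397) (leaf 3 398 399))))))))) (merge (node 431 (merge (leaf 0 431 467) (node 398 (merge (leaf 3 398 399) (node 430 (merge (leaf 3 397 397) (node 461 (merge (leaf 1 429 462) (node 429 (merge (leaf 1 428 460) (node 401 (merge (leaf 2 397 400) (node 530 (merge (leaf 7 401 498) (node 529 (merge (leaf 1 526 558) (node 531 (merge (leaf 3 495 495) (leaf 1 527 560))))))))))))))))))) (node 402 (merge (node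 431 (merge (leaf 2 399 403) (leaf 0 431 467))) (merge (node 403 (merge (leaf 2 399 431) (node 498 (merge (leaf 6 370 371) (node 497 (merge (leaf 1 495 499) (leaf 5 401 529))))))) (merge (node 467 (merge (leaf 0 431 431) (node 370 (merge (leaf 4 370 499) (node 339 (merge (leaf 6 338 371) (node 338 (merge (leaf 6 306 307) (node 337 (merge (leaf 7 305 305) (leaf 7 337 369))))))))))) (node 529 (merge (node 530 (merge (leaf 1 526 558) (node 531 (merge (leaf 3 495 495) (leaf 1 527 560))))) (merge (node 530 (merge (leaf 1 526 558) (node 498 (merge (leaf 5 401 497) (leaf 2 495 499))))) (node 498 (merge (leaf 5 401 497) (node 499 (merge (leaf 4 402 531) (node 370 (merge (leaf 4 370 467) (node 371 (merge (leaf 6 338 339) (leaf 6 370 403)))))))))))))))))))))))))))) nQ_33 cQ_33 12 (by decide +kernel)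
def nQ_34 : ℕ := 0x1800000010000000000000000000000000000000000000000000000000000000000000000000000000000000000000000000000000000000000000000000000000000
def cQ_34 : ℕ := 0x2000000030000000bc000000fe000001ff000003df000001e3000007ef00000ff7000007fe00000fff000003f8000001f8000001f8000000500000000000000000000000000000000000000000000000000000000000000000000
theorem lQ_34 : S nQ_34 cQ_34 15 := S_of_chk [(nQ_32, cQ_32, 13), (nQ_33, cQ_33, 12)] ⟨lQ_32, lQ_33, trivial⟩ (node 433 (merge (node 465 (merge (node 497 (merge (leaf 5 400 401) (node 560 (merge (leaf 5 432 529) (leaf 6 464 592))))) (merge (node 401 (merge (leaf 5 400 497) (node 464 (merge (leaf 5 368 369) (leaf 6 400 432))))) (node 464 (merge (leaf 6 432 560) (node 432 (merge (leaf 5 431 559) (node 431 (merge (leaf 7 399 399) (node 466 (merge (leaf 0 430 430) (leaf 3 431 467)))))))))))) (merge (node 465 (merge (node 497 (merge (leaf 5 400 401) (node 560 (merge (leaf 5 432 529) (leaf 6 464 592))))) (merge (node 401 (merge (leaf 5 400 497) (node 464 (merge (leaf 5 368 369) (leaf 6 400 432))))) (merge (node 560 (merge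 (leaf 6 432 464) (node 592 (merge (leaf 6 464 497) (node 623 (merge (leaf 5 495 591) (node 624 (merge (leaf 7 495 495) (leaf 5 527 655))))))))) (node 464 (merge (leaf 6 432 560) (node 432 (merge (leaf 6 400 401) (node 431 (merge (leaf 7 399 399) (node 466 (merge (leaf 0 430 430) (leaf 3 431 467))))))))))))) (merge (node 464 (merge (node 560 (merge (leaf 6 432 465) (node 559 (merge (leaf 5 431 432) (leaf 5 463 591))))) (merge (node 432 (merge (leaf 6 400 401) (node 400 (merge (leaf 5 399 495) (node 399 (merge (leaf 7 367 367) (leaf 7 399 431))))))) (node 560 (merge (leaf 6 432 465) (node 591 (merge (leaf 5 463 559) (node 592 (merge (leaf 5 495 623) (node 625 (merge (leaf 4 496 593) (node 624 (merge (leaf 7 495 495) (leaf 4 528 657)))))))))))))) (merge (node 464 (merge (node 560 (merge (leaf 6 432 465) (node 559 (merge (leaf 5 431 432) (leaf 5 463 591))))) (merge (node 559 (merge (leaf 5 431 432) (node 591 (merge (leaf 6 463 495) (leaf 6 495 623))))) (merge (node 560 (merge (leaf 6 432 465) (node 591 (merge (leaf 5 463 559) (node 592 (merge (leaf 5 495 623) (node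 625 (merge (leaf 4 496 593) (node 624 (merge (leaf 7 495 495) (leaf 4 528 657))))))))))) (node 432 (merge (node 400 (merge (leaf 5 399 495) (node 399 (merge (leaf 7 367 367) (leaf 7 399 431))))) (merge (node 465 (merge (leaf 6 432 560) (node 431 (merge (leaf 7 399 399) (node 430 (merge (leaf 0 429 429) (leaf 0 430 466))))))) (node 400 (merge (leaf 5 399 495) (node 497 (merge (leaf 4 400 529) (node 368 (merge (leaf 4 368 465) (node 337 (merge (leaf 6 336 369) (node 336 (merge (leaf 6 304 305) (node 335 (merge (leaf 7 303 303) (leaf 7 335 367)))))))))))))))))))) (merge (node 530 (merge (node 498 (merge (node 499 (merge (leaf 1 495 497) (leaf 2 495 529))) (merge (node 529 (merge (leaf 2 495 499) (node 495 (merge (leaf 3 494 494) (leaf 3 495 531))))) (merge (node 497 (merge (leaf 1 495 499) (node 495 (merge (leaf 0 495 531) (node 466 (merge (leaf 2 463 467) (node 465 (merge (leaf 2 462 494) (leaf 7 433 562))))))))) (node 495 (merge (node 529 (merge (leaf 3 494 494) (leaf 3 495 531))) (merge (node 531 (merge (leaf 0 495 497) (leaf 3 495 529))) (merge (node 497 (merge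 (leaf 0 495 531) (node 466 (merge (leaf 2 463 467) (node 494 (merge (leaf 2 462 465) (node 493 (merge (leaf 0 492 492) (node 461 (merge (leaf 3 460 460) (leaf 3 461 462))))))))))) (node 494 (merge (leaf 3 494 529) (node 493 (merge (leaf 0 492 492) (node 461 (merge (leaf 3 460 460) (node 497 (merge (leaf 3 461 462) (node 466 (merge (leaf 2 462 465) (leaf 2 463 467))))))))))))))))))) (merge (node 529 (merge (node 559 (merge (leaf 1 526 558) (node 495 (merge (leaf 3 494 494) (node 464 (merge (leaf 5 431 432) (leaf 6 463 591))))))) (node 499 (merge (leaf 2 495 498) (node 531 (merge (leaf 2 496 500) (node 564 (merge (leaf 0 528 563) (node 532 (merge (leaf 3 496 497) (leaf 0 529 565))))))))))) (merge (node 529 (merge (node 559 (merge (leaf 1 526 558) (node 495 (merge (leaf 3 494 494) (node 464 (merge (leaf 5 431 432) (leaf 6 463 591))))))) (node 562 (merge (leaf 0 527 563) (node 498 (merge (leaf 2 495 499) (node 466 (merge (leaf 7 433 465) (node 435 (merge (leaf 6 434 467) (node 434 (merge (leaf 7 401 401) (leaf 6 402 403))))))))))))) (merge (node 529 (merge (node 563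 (merge (leaf 0 527 562) (node 531 (merge (leaf 3 495 495) (leaf 0 528 564))))) (merge (node 559 (merge (leaf 1 526 558) (node 495 (merge (leaf 3 494 494) (node 464 (merge (leaf 5 431 432) (leaf 6 463 591))))))) (node 562 (merge (leaf 0 527 563) (node 559 (merge (leaf 1 526 558) (node 465 (merge (leaf 4 433 497) (node 432 (merge (leaf 5 431 464) (node 466 (merge (leaf 7 433 498) (node 431 (merge (leaf 0 430 430) (node 467 (merge (leaf 0 431 434) (leaf 3 432 468)))))))))))))))))) (merge (node 464 (merge (node 432 (merge (leaf 6 400 401) (leaf 5 431 559))) (merge (node 432 (merge (leaf 6 400 401) (node 400 (merge (leaf 5 399 495) (node 399 (merge (leaf 7 367 367) (leaf 7 399 431))))))) (node 529 (merge (node 559 (merge (leaf 1 526 558) (node 495 (merge (leaf 3 494 494) (leaf 6 463 591))))) (node 563 (merge (leaf 0 527 562) (node 531 (merge (leaf 0 528 564) (node 500 (merge (leaf 2 496 499) (node 532 (merge (leaf 3 496 497) (leaf 2 497 501)))))))))))))) (merge (node 464 (merge (node 432 (merge (leaf 6 400 401) (leaf 5 431 559))) (merge (node 432 (merge (leaf 5 431 559)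 (node 400 (merge (leaf 5 399 495) (node 399 (merge (leaf 7 367 367) (leaf 7 399 431))))))) (node 465 (merge (node 401 (merge (leaf 5 368 369) (leaf 5 400 497))) (merge (node 466 (merge (node 401 (merge (leaf 5 368 369) (node 498 (merge (leaf 7 401 434) (leaf 7 433 562))))) (merge (node 467 (merge (leaf 1 463 495) (node 499 (merge (leaf 0 464 500) (node 435 (merge (leaf 2 432 436) (node 562 (merge (leaf 6 434 498) (leaf 5 434 531))))))))) (node 467 (merge (leaf 1 463 495) (node 436 (merge (leaf 2 432 435) (node 468 (merge (leaf 2 433 437) (node 501 (merge (leaf 0 465 500) (node 469 (merge (leaf 3 433 434) (leaf 0 466 502)))))))))))))) (node 466 (merge (node 498 (merge (leaf 7 433 562) (node 499 (merge (leaf 1 495 497) (node 500 (merge (leaf 0 464 467) (leaf 3 465 501))))))) (merge (node 498 (merge (leaf 7 433 562) (node 497 (merge (leaf 1 495 499) (node 495 (merge (leaf 2 462 494) (leaf 0 495 531))))))) (node 467 (merge (leaf 1 463 495) (node 436 (merge (leaf 2 432 435) (node 468 (merge (leaf 2 433 437) (node 501 (merge (leaf 0 465 500) (node 469 (merge (leaf 3 433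 434) (leaf 0 466 502)))))))))))))))))))) (node 401 (merge (node 464 (merge (leaf 6 400 432) (node 465 (merge (leaf 5 368 369) (leaf 5 400 497))))) (merge (node 498 (merge (node 497 (merge (leaf 4 401 465) (leaf 1 495 499))) (merge (node 499 (merge (leaf 1 495 497) (leaf 2 495 529))) (node 466 (merge (leaf 7 401 434) (node 562 (merge (leaf 7 433 465) (node 563 (merge (leaf 0 527 529) (leaf 4 466 595)))))))))) (merge (node 466 (merge (node 498 (merge (leaf 7 401 434) (node 465 (merge (leaf 4 369 369) (leaf 7 433 562))))) (merge (node 432 (merge (leaf 6 400 464) (node 434 (merge (leaf 7 401 498) (node 431 (merge (leaf 0 431 467) (node 403 (merge (leaf 2 399 402) (node 435 (merge (leaf 2 400 404) (node 399 (merge (leaf 3 398 398) (leaf 3 399 400))))))))))))) (merge (node 464 (merge (leaf 6 400 432) (node 465 (merge (leaf 5 368 369) (node 498 (merge (leaf 7 433 562) (node 499 (merge (leaf 2 495 529) (node 500 (merge (leaf 0 464 467) (leaf 3 465 501))))))))))) (node 464 (merge (leaf 6 400 432) (node 369 (merge (leaf 5 368 465) (node 337 (merge (leaf 4 337 434) (node 306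 (merge (leaf 6 305 338) (node 305 (merge (leaf 6 273 274) (node 304 (merge (leaf 7 272 272) (leaf 7 304 336))))))))))))))))) (node 432 (merge (leaf 6 400 464) (node 434 (merge (node 498 (merge (leaf 7 401 466) (node 499 (merge (leaf 1 495 497) (leaf 2 495 529))))) (merge (node 435 (merge (node 404 (merge (leaf 2 400 403) (node 436 (merge (leaf 3 400 400) (leaf 2 401 405))))) (merge (node 467 (merge (leaf 0 432 468) (node 431 (merge (leaf 0 431 466) (node 403 (merge (leaf 2 399 402) (leaf 2 400 404))))))) (node 436 (merge (leaf 3 400 400) (node 469 (merge (leaf 0 433 468) (node 437 (merge (leaf 3 401 402) (leaf 0 434 470)))))))))) (node 435 (merge (node 404 (merge (leaf 2 400 403) (node 436 (merge (leaf 3 400 400) (leaf 2 401 405))))) (merge (node 436 (merge (leaf 3 400 400) (node 469 (merge (leaf 0 433 468) (node 437 (merge (leaf 3 401 402) (leaf 0 434 470))))))) (node 467 (merge (leaf 0 432 468) (node 403 (merge (leaf 2 400 404) (node 402 (merge (leaf 2 399 431) (node 499 (merge (leaf 5 402 498) (leaf 7 402 531)))))))))))))))))))))))))))) (merge (hyp 0) (merge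 (node 559 (merge (node 591 (merge (leaf 6 495 623) (node 464 (merge (leaf 5 431 432) (leaf 5 463 560))))) (merge (node 591 (merge (leaf 6 495 623) (node 464 (merge (leaf 5 431 432) (leaf 6 463 495))))) (merge (node 591 (merge (leaf 6 495 623) (node 592 (merge (node 624 (merge (leaf 4 495 495) (node 656 (merge (leaf 7 527 560) (leaf 7 559 688))))) (merge (node 495 (merge (leaf 4 495 624) (node 494 (merge (leaf 7 462 462) (node 493 (merge (leaf 0 492 492) (leaf 0 493 529))))))) (merge (node 560 (merge (node 593 (merge (leaf 4 496 625) (node 558 (merge (leaf 0 557 557) (leaf 3 558 594))))) (merge (node 624 (merge (leaf 7 527 656) (node 529 (merge (leaf 6 496 497) (node 530 (merge (leaf 1 527 531) (leaf 1 526 558))))))) (node 624 (merge (leaf 7 527 656) (node 625 (merge (leaf 4 496 593) (leaf 4 528 657)))))))) (node 558 (merge (node 557 (merge (leaf 0 556 556) (node 529 (merge (leaf 1 526 530) (leaf 2 525 560))))) (merge (node 593 (merge (leaf 3 558 594) (node 590 (merge (leaf 3 557 557) (node 622 (merge (leaf 1 589 621) (leaf 6 526 654))))))) (node 593 (merge (leaf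 3 558 594) (node 625 (merge (leaf 4 496 560) (node 590 (merge (leaf 0 590 626) (node 622 (merge (leaf 5 494 495) (leaf 1 589 621)))))))))))))))))) (node 432 (merge (leaf 5 431 464) (hyp 1))))))) (node 560 (merge (node 465 (merge (leaf 6 432 464) (node 497 (merge (leaf 5 400 401) (leaf 5 432 529))))) (merge (node 464 (merge (leaf 6 432 465) (node 591 (merge (leaf 5 463 559) (node 592 (merge (leaf 5 495 623) (node 625 (merge (leaf 4 496 593) (node 624 (merge (leaf 7 495 495) (leaf 4 528 657))))))))))) (merge (node 592 (merge (node 625 (merge (leaf 4 496 593) (node 624 (merge (leaf 4 528 657) (node 623 (merge (leaf 5 495 591) (leaf 5 527 655))))))) (merge (node 593 (merge (leaf 4 496 625) (node 591 (merge (leaf 5 495 623) (node 559 (merge (leaf 5 463 464) (node 558 (merge (leaf 0 557 557) (leaf 3 558 594))))))))) (merge (node 623 (merge (leaf 5 495 591) (node 624 (merge (leaf 5 527 655) (node 559 (merge (leaf 7 527 656) (node 529 (merge (leaf 6 496 497) (node 558 (merge (leaf 1 526 530) (leaf 2 525 557))))))))))) (node 625 (merge (leaf 4 496 593) (node 624 (merge (leaf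 4 528 657) (node 559 (merge (leaf 7 527 656) (node 529 (merge (leaf 6 496 497) (node 558 (merge (leaf 1 526 530) (leaf 2 525 557))))))))))))))) (node 559 (merge (node 592 (merge (node 624 (merge (leaf 7 527 656) (node 625 (merge (leaf 4 496 593) (leaf 4 528 657))))) (merge (node 624 (merge (leaf 7 527 656) (node 623 (merge (leaf 6 495 591) (leaf 5 527 655))))) (node 593 (merge (leaf 4 496 625) (node 594 (merge (leaf 3 559 595) (node 591 (merge (leaf 3 558 558) (leaf 5 495 623)))))))))) (merge (node 495 (merge (node 497 (merge (node 465 (merge (leaf 5 400 401) (leaf 5 432 529))) (merge (node 498 (merge (leaf 1 495 499) (node 530 (merge (leaf 0 495 531) (node 466 (merge (leaf 2 463 467) (node 401 (merge (leaf 7 401 434) (leaf 4 401 465))))))))) (merge (node 498 (merge (leaf 1 495 499) (node 530 (merge (leaf 0 495 531) (node 466 (merge (leaf 2 463 467) (node 562 (merge (leaf 7 433 465) (node 563 (merge (leaf 0 527 529) (leaf 4 466 595))))))))))) (node 498 (merge (leaf 1 495 499) (node 530 (merge (leaf 0 495 531) (node 466 (merge (leaf 2 463 467) (node 434 (merge (leaf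 7 401 401) (node 402 (merge (leaf 5 401 529) (node 403 (merge (leaf 6 370 371) (leaf 6 402 435))))))))))))))))) (node 591 (merge (leaf 6 495 623) (node 590 (merge (leaf 5 494 622) (node 588 (merge (leaf 2 556 589) (node 494 (merge (leaf 7 462 462) (node 493 (merge (leaf 0 492 492) (node 525 (merge (leaf 1 492 524) (node 461 (merge (leaf 3 460 460) (node 557 (merge (leaf 5 460 556) (leaf 4 461 558))))))))))))))))))) (merge (node 592 (merge (node 624 (merge (leaf 7 495 495) (leaf 7 527 656))) (merge (node 625 (merge (leaf 4 496 593) (node 624 (merge (leaf 4 528 657) (node 529 (merge (leaf 6 496 497) (node 530 (merge (leaf 1 527 531) (leaf 1 526 558))))))))) (node 593 (merge (leaf 4 496 625) (node 558 (merge (leaf 0 557 557) (node 530 (merge (leaf 1 526 529) (node 595 (merge (leaf 3 559 594) (node 497 (merge (leaf 6 464 465) (node 498 (merge (leaf 1 495 499) (node 531 (merge (leaf 0 495 495) (node 563 (merge (leaf 7 498 627) (node 466 (merge (leaf 4 434 434) (leaf 4 466 562)))))))))))))))))))))) (merge (node 592 (merge (node 624 (merge (leaf 7 495 495) (leaf 7 527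 656))) (node 593 (merge (leaf 4 496 625) (node 591 (merge (leaf 5 495 623) (node 594 (merge (leaf 3 558 558) (node 626 (merge (leaf 0 591 627) (node 562 (merge (leaf 2 559 563) (node 497 (merge (leaf 6 464 465) (node 499 (merge (leaf 1 495 498) (node 530 (merge (leaf 7 497 529) (leaf 6 498 531))))))))))))))))))) (node 592 (merge (node 624 (merge (leaf 7 527 656) (node 625 (merge (leaf 4 496 593) (leaf 4 528 657))))) (merge (node 497 (merge (leaf 6 464 465) (node 624 (merge (leaf 6 496 529) (node 656 (merge (leaf 7 527 527) (node 688 (merge (leaf 7 559 591) (node 689 (merge (leaf 4 560 657) (leaf 4 592 721))))))))))) (node 593 (merge (leaf 4 496 625) (node 594 (merge (leaf 3 559 595) (node 591 (merge (leaf 5 495 623) (node 626 (merge (leaf 0 591 627) (node 562 (merge (leaf 2 559 563) (node 497 (merge (leaf 6 464 465) (node 499 (merge (leaf 1 495 498) (node 530 (merge (leaf 7 497 529) (leaf 6 498 531))))))))))))))))))))))))))))))))))))) nQ_34 cQ_34 15 (by decide +kernel)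
def nQ_35 : ℕ := 0x1000000010000000000000000000000000000000000000000000000000000000000000000000000000000000000000000000000000000000000000000000000000000
def cQ_35 : ℕ := 0x250000003f000000ff800000ffe00001ffc00003dfe00003efc00007efe0000ff7800007ffc0000fffc00003ffc00001fe000001f8000000500000000000000000000000000000000000000000000000000000000000000000000
theorem lQ_35 : S nQ_35 cQ_35 16 := S_of_chk [(nQ_24, cQ_24, 12), (nQ_25, cQ_25, 13), (nQ_26, cQ_26, 13), (nQ_27, cQ_27, 13), (nQ_28, cQ_28, 14), (nQ_30, cQ_30, 14), (nQ_34, cQ_34, 15)] ⟨lQ_24, lQ_25, lQ_26, lQ_27, lQ_28, lQ_30, lQ_34, trivial⟩ (node 527 (merge (node 526 (merge (node 497 (merge (leaf 2 493 525) (node 498 (merge (leaf 1 495 499) (leaf 2 494 529))))) (merge (node 525 (merge (leaf 2 493 497) (node 524 (merge (leaf 2 492 495) (node 492 (merge (leaf 3 491 491) (leaf 3 492 493))))))) (merge (node 525 (merge (node 524 (merge (leaf 2 492 495) (node 492 (merge (leaf 3 491 491) (leaf 3 492 493))))) (merge (node 524 (merge (leaf 2 492 495) (node 556 (merge (leaf 1 523 555) (leaf 1 524 557))))) (node 557 (merge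 (leaf 1 524 556) (node 529 (merge (leaf 1 525 558) (node 493 (merge (leaf 3 492 492) (leaf 3 493 494)))))))))) (node 497 (merge (node 498 (merge (leaf 1 495 499) (leaf 2 494 529))) (merge (node 498 (merge (leaf 1 494 495) (leaf 1 495 499))) (node 494 (merge (node 529 (merge (leaf 3 493 493) (node 558 (merge (leaf 1 525 557) (node 530 (merge (leaf 1 526 559) (node 563 (merge (leaf 0 527 562) (node 531 (merge (leaf 3 496 532) (leaf 0 528 564))))))))))) (merge (node 465 (merge (node 560 (merge (leaf 6 464 592) (node 433 (merge (leaf 5 400 401) (leaf 6 432 464))))) (merge (node 495 (merge (leaf 2 462 466) (node 493 (merge (leaf 2 461 464) (leaf 0 492 492))))) (node 495 (merge (leaf 2 462 466) (node 493 (merge (leaf 0 492 492) (node 461 (merge (leaf 3 460 460) (leaf 3 461 462)))))))))) (node 495 (merge (node 462 (merge (leaf 3 461 461) (node 430 (merge (leaf 4 398 398) (leaf 4 430 559))))) (merge (node 529 (merge (leaf 0 494 530) (node 465 (merge (leaf 2 462 466) (node 433 (merge (leaf 5 400 401) (leaf 5 432 560))))))) (node 465 (merge (leaf 2 462 466) (node 433 (merge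 (leaf 5 400 401) (node 560 (merge (leaf 6 432 464) (leaf 6 464 592)))))))))))))))))))) (merge (node 464 (merge (node 559 (merge (leaf 5 431 432) (node 591 (merge (leaf 5 463 560) (leaf 6 495 623))))) (merge (node 432 (merge (leaf 5 431 559) (node 400 (merge (leaf 5 399 495) (node 399 (merge (leaf 7 367 367) (leaf 7 399 431))))))) (merge (node 432 (merge (node 400 (merge (leaf 5 399 495) (node 399 (merge (leaf 7 367 367) (leaf 7 399 431))))) (merge (node 401 (merge (leaf 6 400 433) (node 400 (merge (leaf 6 368 369) (leaf 5 399 495))))) (node 433 (merge (leaf 6 400 401) (node 465 (merge (leaf 6 432 560) (node 431 (merge (leaf 7 399 399) (node 430 (merge (leaf 0 429 429) (leaf 0 430 466)))))))))))) (node 526 (merge (node 497 (merge (leaf 2 493 525) (node 498 (merge (leaf 1 495 499) (leaf 2 494 529))))) (merge (node 525 (merge (leaf 2 493 497) (node 524 (merge (leaf 2 492 495) (node 492 (merge (leaf 3 491 491) (leaf 3 492 493))))))) (merge (node 525 (merge (node 524 (merge (leaf 2 492 495) (node 492 (merge (leaf 3 491 491) (leaf 3 492 493))))) (merge (node 524 (merge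 (leaf 2 492 495) (node 556 (merge (leaf 1 523 555) (leaf 1 524 557))))) (node 557 (merge (leaf 1 524 556) (node 529 (merge (leaf 1 525 558) (node 493 (merge (leaf 3 492 492) (leaf 3 493 494)))))))))) (node 465 (merge (node 433 (merge (leaf 6 432 560) (node 401 (merge (leaf 5 368 369) (leaf 5 400 497))))) (merge (node 560 (merge (leaf 6 432 433) (node 591 (merge (leaf 5 463 559) (node 592 (merge (leaf 5 495 623) (node 625 (merge (leaf 4 496 593) (node 624 (merge (leaf 7 495 495) (leaf 4 528 657))))))))))) (merge (node 529 (merge (node 558 (merge (leaf 1 525 557) (node 559 (merge (leaf 1 526 530) (node 591 (merge (leaf 6 463 495) (leaf 6 495 623))))))) (merge (node 498 (merge (leaf 2 494 497) (node 530 (merge (leaf 2 495 499) (node 494 (merge (leaf 3 493 493) (leaf 3 494 495))))))) (merge (node 558 (merge (leaf 1 525 557) (node 497 (merge (leaf 2 494 498) (node 494 (merge (leaf 3 493 493) (node 495 (merge (leaf 2 462 466) (node 591 (merge (leaf 6 463 559) (node 590 (merge (leaf 6 494 622) (leaf 4 494 623))))))))))))) (node 558 (merge (leaf 1 525 557) (node 530 (merge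 (leaf 1 526 559) (node 563 (merge (leaf 0 527 562) (node 531 (merge (leaf 0 528 564) (node 499 (merge (leaf 2 495 498) (leaf 2 496 500))))))))))))))) (node 529 (merge (node 558 (merge (leaf 1 525 557) (node 559 (merge (leaf 1 526 530) (node 591 (merge (leaf 6 463 495) (leaf 6 495 623))))))) (merge (node 498 (merge (leaf 2 494 497) (node 530 (merge (leaf 2 495 499) (node 494 (merge (leaf 3 493 493) (leaf 3 494 495))))))) (merge (node 558 (merge (leaf 1 525 557) (node 497 (merge (leaf 2 494 498) (node 494 (merge (leaf 3 493 493) (node 495 (merge (leaf 2 462 466) (node 591 (merge (leaf 6 463 559) (node 590 (merge (leaf 6 494 622) (leaf 4 494 623))))))))))))) (node 558 (merge (leaf 1 525 557) (node 530 (merge (leaf 1 526 559) (node 563 (merge (leaf 0 527 562) (node 531 (merge (leaf 0 528 564) (node 499 (merge (leaf 2 495 498) (leaf 2 496 500))))))))))))))))))))))))))) (merge (node 464 (merge (node 559 (merge (leaf 5 431 432) (node 591 (merge (leaf 5 463 560) (leaf 6 495 623))))) (merge (node 432 (merge (leaf 5 431 559) (node 400 (merge (leaf 5 399 495) (node 399 (merge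 (leaf 7 367 367) (leaf 7 399 431))))))) (merge (node 432 (merge (node 400 (merge (leaf 5 399 495) (node 399 (merge (leaf 7 367 367) (leaf 7 399 431))))) (merge (node 401 (merge (leaf 6 400 433) (node 400 (merge (leaf 6 368 369) (leaf 5 399 495))))) (node 433 (merge (leaf 6 400 401) (node 465 (merge (leaf 6 432 560) (node 431 (merge (leaf 7 399 399) (node 430 (merge (leaf 0 429 429) (leaf 0 430 466)))))))))))) (node 560 (merge (node 591 (merge (leaf 5 463 559) (node 592 (merge (leaf 5 495 623) (node 625 (merge (leaf 4 496 593) (node 624 (merge (leaf 7 495 495) (leaf 4 528 657))))))))) (merge (node 465 (merge (leaf 6 432 433) (node 497 (merge (leaf 6 464 592) (node 498 (merge (leaf 1 495 499) (node 526 (merge (leaf 2 493 525) (leaf 2 494 529))))))))) (node 559 (merge (node 591 (merge (leaf 5 463 464) (leaf 6 495 623))) (node 529 (merge (node 530 (merge (leaf 1 527 531) (leaf 1 526 558))) (node 526 (merge (node 525 (merge (leaf 0 524 524) (node 493 (merge (leaf 3 492 492) (leaf 3 493 494))))) (merge (node 497 (merge (leaf 2 493 525) (node 498 (merge (leaf 1 494 495)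 (leaf 1 495 499))))) (node 497 (merge (leaf 2 494 498) (node 494 (merge (leaf 3 493 493) (node 462 (merge (leaf 4 430 430) (node 495 (merge (leaf 3 461 461) (node 465 (merge (leaf 5 432 433) (leaf 2 462 466))))))))))))))))))))))))) (merge (node 526 (merge (node 497 (merge (leaf 2 493 525) (node 498 (merge (leaf 1 495 499) (leaf 2 494 529))))) (merge (node 525 (merge (leaf 2 493 497) (node 524 (merge (leaf 2 492 495) (node 492 (merge (leaf 3 491 491) (leaf 3 492 493))))))) (merge (node 525 (merge (node 524 (merge (leaf 2 492 495) (node 492 (merge (leaf 3 491 491) (leaf 3 492 493))))) (merge (node 524 (merge (leaf 2 492 495) (node 556 (merge (leaf 1 523 555) (leaf 1 524 557))))) (node 557 (merge (leaf 1 524 556) (node 493 (merge (leaf 3 492 492) (node 494 (merge (leaf 3 493 529) (node 589 (merge (leaf 6 461 462) (leaf 6 493 621)))))))))))) (node 464 (merge (node 559 (merge (leaf 5 431 432) (node 591 (merge (leaf 5 463 560) (leaf 6 495 623))))) (merge (node 432 (merge (leaf 5 431 559) (node 400 (merge (leaf 5 399 495) (node 399 (merge (leaf 7 367 367) (leaf 7 399 431)))))))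 (merge (node 432 (merge (node 400 (merge (leaf 5 399 495) (node 399 (merge (leaf 7 367 367) (leaf 7 399 431))))) (merge (node 401 (merge (leaf 6 400 433) (node 400 (merge (leaf 6 368 369) (leaf 5 399 495))))) (node 433 (merge (leaf 6 400 401) (node 465 (merge (leaf 6 432 560) (node 431 (merge (leaf 7 399 399) (node 466 (merge (leaf 0 430 430) (leaf 3 431 467)))))))))))) (node 560 (merge (node 465 (merge (leaf 6 432 433) (node 497 (merge (leaf 6 464 592) (node 498 (merge (leaf 1 494 495) (leaf 1 495 499))))))) (merge (node 465 (merge (leaf 6 432 433) (node 592 (merge (leaf 6 464 497) (node 591 (merge (leaf 5 463 559) (leaf 5 495 623))))))) (merge (node 591 (merge (leaf 5 463 559) (node 592 (merge (leaf 5 495 623) (node 625 (merge (leaf 4 496 593) (node 624 (merge (leaf 7 495 495) (leaf 4 528 657))))))))) (node 529 (merge (node 498 (merge (leaf 2 494 497) (node 530 (merge (leaf 2 495 499) (node 563 (merge (leaf 0 527 562) (node 531 (merge (leaf 3 495 495) (leaf 0 528 564))))))))) (merge (node 494 (merge (leaf 3 493 493) (node 530 (merge (leaf 3 494 495) (node 531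 (merge (leaf 1 527 559) (node 500 (merge (leaf 2 496 499) (node 532 (merge (leaf 3 496 497) (leaf 2 497 501))))))))))) (merge (node 494 (merge (leaf 3 493 493) (node 530 (merge (leaf 3 494 495) (node 563 (merge (leaf 0 527 562) (node 531 (merge (leaf 0 528 564) (node 499 (merge (leaf 2 495 498) (leaf 2 496 500))))))))))) (merge (node 498 (merge (leaf 2 494 497) (node 530 (merge (leaf 2 495 499) (node 563 (merge (leaf 0 527 562) (node 531 (merge (leaf 1 527 559) (leaf 0 528 564))))))))) (node 497 (merge (leaf 2 494 498) (node 494 (merge (leaf 3 493 493) (node 465 (merge (leaf 5 432 433) (node 495 (merge (leaf 2 462 466) (node 462 (merge (leaf 3 461 461) (node 430 (merge (leaf 4 398 398) (leaf 4 430 559)))))))))))))))))))))))))))))) (merge (node 526 (merge (node 525 (merge (leaf 2 493 497) (node 524 (merge (leaf 2 492 495) (node 492 (merge (leaf 3 491 491) (leaf 3 492 493))))))) (merge (node 525 (merge (leaf 2 493 497) (node 524 (merge (leaf 2 492 495) (node 556 (merge (leaf 1 523 555) (leaf 1 524 557))))))) (merge (node 525 (merge (node 524 (merge (leaf 2 492 495)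 (node 492 (merge (leaf 3 491 491) (leaf 3 492 493))))) (merge (node 524 (merge (leaf 2 492 495) (node 556 (merge (leaf 1 523 555) (leaf 1 524 557))))) (node 557 (merge (leaf 1 524 556) (node 529 (merge (leaf 1 525 558) (node 493 (merge (leaf 3 492 492) (leaf 3 493 494)))))))))) (merge (node 525 (merge (leaf 2 493 497) (node 557 (merge (leaf 1 524 556) (node 529 (merge (leaf 1 525 558) (node 493 (merge (leaf 3 492 492) (leaf 3 493 494))))))))) (node 494 (merge (node 493 (merge (leaf 3 493 529) (node 492 (merge (leaf 0 491 491) (leaf 0 492 495))))) (merge (node 529 (merge (leaf 3 493 493) (node 558 (merge (leaf 1 525 557) (node 559 (merge (leaf 1 526 530) (node 591 (merge (leaf 4 462 462) (leaf 6 495 623))))))))) (merge (node 558 (merge (node 529 (merge (leaf 1 525 557) (node 530 (merge (leaf 3 494 495) (leaf 1 526 559))))) (merge (node 557 (merge (leaf 1 525 529) (node 589 (merge (leaf 5 461 462) (node 621 (merge (leaf 5 493 590) (leaf 6 525 653))))))) (node 591 (merge (node 623 (merge (leaf 6 495 559) (leaf 4 494 590))) (merge (node 590 (merge (leaf 4 494 623) (node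 622 (merge (leaf 6 494 495) (node 621 (merge (leaf 5 493 589) (leaf 5 525 653))))))) (node 462 (merge (leaf 4 462 559) (node 429 (merge (leaf 7 429 461) (node 430 (merge (leaf 7 397 397) (node 398 (merge (leaf 4 398 495) (node 399 (merge (leaf 6 366 367) (leaf 6 398 431))))))))))))))))) (node 462 (merge (node 559 (merge (leaf 4 430 430) (node 591 (merge (leaf 4 462 558) (leaf 6 495 623))))) (merge (node 430 (merge (leaf 4 430 559) (node 399 (merge (leaf 6 398 431) (node 398 (merge (leaf 6 366 367) (node 397 (merge (leaf 7 365 365) (leaf 7 397 429))))))))) (merge (node 461 (merge (node 558 (merge (leaf 7 429 429) (node 589 (merge (leaf 5 461 557) (node 590 (merge (leaf 7 461 493) (leaf 5 493 621))))))) (merge (node 495 (merge (leaf 3 461 497) (node 493 (merge (leaf 3 460 460) (leaf 0 492 492))))) (node 429 (merge (leaf 7 429 558) (node 430 (merge (leaf 7 397 397) (node 431 (merge (leaf 6 398 399) (node 460 (merge (leaf 1 428 432) (leaf 2 427 459)))))))))))) (node 461 (merge (node 558 (merge (leaf 7 429 429) (node 589 (merge (leaf 5 461 557) (node 590 (merge (leaf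 7 461 493) (leaf 5 493 621))))))) (merge (node 495 (merge (leaf 3 461 497) (node 493 (merge (leaf 3 460 460) (leaf 0 492 492))))) (node 558 (merge (leaf 7 429 429) (node 557 (merge (leaf 5 461 589) (node 556 (merge (leaf 2 523 555) (leaf 2 524 559))))))))))))))))))))))) (merge (node 464 (merge (node 559 (merge (leaf 5 431 432) (node 591 (merge (leaf 5 463 560) (leaf 6 495 623))))) (merge (node 432 (merge (leaf 5 431 559) (node 400 (merge (leaf 5 399 495) (node 399 (merge (leaf 7 367 367) (leaf 7 399 431))))))) (merge (node 432 (merge (node 400 (merge (leaf 5 399 495) (node 399 (merge (leaf 7 367 367) (leaf 7 399 431))))) (merge (node 401 (merge (leaf 6 400 433) (node 400 (merge (leaf 6 368 369) (leaf 5 399 495))))) (node 433 (merge (leaf 6 400 401) (node 465 (merge (leaf 6 432 560) (node 431 (merge (leaf 7 399 399) (node 430 (merge (leaf 0 429 429) (leaf 0 430 466)))))))))))) (node 526 (merge (node 497 (merge (leaf 2 493 525) (node 498 (merge (leaf 1 494 495) (leaf 1 495 499))))) (merge (node 525 (merge (leaf 2 493 497) (node 556 (merge (leaf 1 524 557) (node 524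 (merge (leaf 1 523 555) (node 492 (merge (leaf 3 491 491) (leaf 3 492 493))))))))) (merge (node 525 (merge (node 524 (merge (leaf 2 492 495) (node 492 (merge (leaf 3 491 491) (leaf 3 492 493))))) (merge (node 524 (merge (leaf 2 492 495) (node 556 (merge (leaf 1 523 555) (leaf 1 524 557))))) (merge (node 556 (merge (leaf 1 524 557) (node 524 (merge (leaf 1 523 555) (node 492 (merge (leaf 3 491 491) (leaf 3 492 493))))))) (node 557 (merge (leaf 1 524 556) (node 494 (merge (node 589 (merge (leaf 6 493 621) (node 462 (merge (leaf 5 429 430) (leaf 5 461 558))))) (merge (node 493 (merge (leaf 3 492 492) (node 495 (merge (leaf 2 461 465) (node 461 (merge (leaf 3 460 460) (node 558 (merge (leaf 4 429 429) (leaf 4 461 590))))))))) (merge (node 493 (merge (leaf 3 492 492) (node 495 (merge (leaf 2 461 465) (node 461 (merge (leaf 3 460 460) (node 429 (merge (leaf 4 397 397) (leaf 4 429 558))))))))) (node 493 (merge (leaf 3 492 492) (node 462 (merge (leaf 5 429 430) (leaf 6 461 589))))))))))))))) (hyp 0))))))))) (merge (node 526 (merge (node 497 (merge (leaf 2 493 525) (node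 498 (merge (leaf 1 495 499) (leaf 2 494 529))))) (merge (node 525 (merge (leaf 2 493 497) (node 524 (merge (leaf 2 492 495) (node 556 (merge (leaf 1 523 555) (leaf 1 524 557))))))) (merge (node 494 (merge (node 529 (merge (leaf 3 493 493) (node 558 (merge (leaf 1 525 557) (node 559 (merge (leaf 1 526 530) (node 591 (merge (leaf 4 462 462) (leaf 6 495 623))))))))) (merge (node 529 (merge (leaf 3 493 493) (node 530 (merge (leaf 3 494 495) (node 563 (merge (leaf 0 527 562) (node 531 (merge (leaf 0 528 564) (node 499 (merge (leaf 2 495 498) (leaf 2 496 500))))))))))) (node 525 (merge (node 524 (merge (leaf 2 492 495) (node 556 (merge (leaf 1 523 555) (leaf 1 524 557))))) (merge (node 557 (merge (leaf 1 524 556) (node 589 (merge (leaf 6 493 621) (node 462 (merge (leaf 5 429 430) (leaf 5 461 558))))))) (node 524 (merge (leaf 2 492 495) (node 559 (merge (leaf 0 524 560) (node 558 (merge (leaf 0 523 523) (node 462 (merge (leaf 4 430 430) (leaf 4 462 591))))))))))))))) (node 464 (merge (node 559 (merge (leaf 5 431 432) (node 591 (merge (leaf 5 463 560) (leaf 6 495 623)))))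 (merge (node 432 (merge (leaf 5 431 559) (node 400 (merge (leaf 5 399 495) (node 399 (merge (leaf 7 367 367) (leaf 7 399 431))))))) (merge (node 432 (merge (node 400 (merge (leaf 5 399 495) (node 399 (merge (leaf 7 367 367) (leaf 7 399 431))))) (merge (node 401 (merge (leaf 6 400 433) (node 400 (merge (leaf 6 368 369) (leaf 5 399 495))))) (node 433 (merge (leaf 6 400 401) (node 465 (merge (leaf 6 432 560) (node 431 (merge (leaf 7 399 399) (node 466 (merge (leaf 0 430 430) (leaf 3 431 467)))))))))))) (node 560 (merge (node 465 (merge (leaf 6 432 433) (node 592 (merge (leaf 6 464 497) (node 591 (merge (leaf 5 463 559) (leaf 5 495 623))))))) (merge (node 591 (merge (leaf 5 463 559) (node 592 (merge (leaf 5 495 623) (node 625 (merge (leaf 4 496 593) (node 624 (merge (leaf 7 495 495) (leaf 4 528 657))))))))) (merge (node 465 (merge (leaf 6 432 433) (node 592 (merge (leaf 6 464 497) (node 625 (merge (leaf 4 496 593) (node 624 (merge (leaf 7 495 495) (leaf 4 528 657))))))))) (merge (node 465 (merge (leaf 6 432 433) (node 592 (merge (leaf 6 464 497) (node 624 (merge (leaf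 7 495 495) (node 656 (merge (leaf 7 527 559) (node 657 (merge (leaf 4 528 625) (leaf 4 560 689))))))))))) (node 529 (merge (node 559 (merge (node 530 (merge (leaf 1 527 531) (leaf 1 526 558))) (node 591 (merge (leaf 5 463 464) (leaf 6 495 623))))) (merge (node 498 (merge (leaf 2 494 497) (node 530 (merge (leaf 2 495 499) (node 494 (merge (leaf 3 493 493) (leaf 3 494 495))))))) (node 497 (merge (leaf 2 494 498) (node 494 (merge (leaf 3 493 493) (node 465 (merge (leaf 5 432 433) (node 495 (merge (leaf 2 462 466) (node 462 (merge (leaf 3 461 461) (node 559 (merge (leaf 4 430 430) (leaf 7 462 591))))))))))))))))))))))))))))) (merge (hyp 1) (merge (node 464 (merge (node 559 (merge (leaf 5 431 432) (node 591 (merge (leaf 5 463 560) (leaf 6 495 623))))) (merge (node 432 (merge (leaf 5 431 559) (node 400 (merge (leaf 5 399 495) (node 399 (merge (leaf 7 367 367) (leaf 7 399 431))))))) (merge (node 526 (merge (node 497 (merge (leaf 2 493 525) (node 498 (merge (leaf 1 495 499) (leaf 2 494 529))))) (merge (node 525 (merge (leaf 2 493 497) (node 524 (merge (leaf 2 492 495) (node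 492 (merge (leaf 3 491 491) (leaf 3 492 493))))))) (merge (node 525 (merge (node 524 (merge (leaf 2 492 495) (node 492 (merge (leaf 3 491 491) (leaf 3 492 493))))) (merge (node 524 (merge (leaf 2 492 495) (node 556 (merge (leaf 1 523 555) (leaf 1 524 557))))) (node 557 (merge (leaf 1 524 556) (node 529 (merge (leaf 1 525 558) (node 493 (merge (leaf 3 492 492) (leaf 3 493 494)))))))))) (node 465 (merge (node 433 (merge (leaf 6 432 560) (node 401 (merge (leaf 5 368 369) (leaf 5 400 497))))) (merge (node 560 (merge (leaf 6 432 433) (node 591 (merge (leaf 5 463 559) (node 592 (merge (leaf 5 495 623) (node 625 (merge (leaf 4 496 593) (node 624 (merge (leaf 7 495 495) (leaf 4 528 657))))))))))) (merge (node 529 (merge (node 558 (merge (leaf 1 525 557) (node 559 (merge (leaf 1 526 530) (node 591 (merge (leaf 6 463 495) (leaf 6 495 623))))))) (merge (node 498 (merge (leaf 2 494 497) (node 530 (merge (leaf 2 495 499) (node 494 (merge (leaf 3 493 493) (leaf 3 494 495))))))) (merge (node 558 (merge (leaf 1 525 557) (node 530 (merge (leaf 1 526 559) (node 563 (merge (leaf 0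 527 562) (node 531 (merge (leaf 0 528 564) (node 499 (merge (leaf 2 495 498) (leaf 2 496 500))))))))))) (node 558 (merge (leaf 1 525 557) (node 497 (merge (leaf 2 494 498) (node 494 (merge (leaf 3 493 493) (node 495 (merge (leaf 2 462 466) (node 591 (merge (leaf 6 463 559) (node 590 (merge (leaf 6 494 622) (leaf 4 494 623))))))))))))))))) (node 529 (merge (node 558 (merge (leaf 1 525 557) (node 559 (merge (leaf 1 526 530) (node 591 (merge (leaf 6 463 495) (leaf 6 495 623))))))) (merge (node 498 (merge (leaf 2 494 497) (node 530 (merge (leaf 2 495 499) (node 494 (merge (leaf 3 493 493) (leaf 3 494 495))))))) (merge (node 558 (merge (leaf 1 525 557) (node 530 (merge (leaf 1 526 559) (node 563 (merge (leaf 0 527 562) (node 531 (merge (leaf 0 528 564) (node 499 (merge (leaf 2 495 498) (leaf 2 496 500))))))))))) (node 558 (merge (leaf 1 525 557) (node 497 (merge (leaf 2 494 498) (node 494 (merge (leaf 3 493 493) (node 495 (merge (leaf 2 462 466) (node 591 (merge (leaf 6 463 559) (node 590 (merge (leaf 6 494 622) (leaf 4 494 623))))))))))))))))))))))))) (node 526 (merge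 (node 497 (merge (leaf 2 493 525) (node 498 (merge (leaf 1 495 499) (leaf 2 494 529))))) (merge (node 525 (merge (leaf 2 493 497) (node 524 (merge (leaf 2 492 495) (node 492 (merge (leaf 3 491 491) (leaf 3 492 493))))))) (merge (node 525 (merge (node 524 (merge (leaf 2 492 495) (node 492 (merge (leaf 3 491 491) (leaf 3 492 493))))) (merge (node 524 (merge (leaf 2 492 495) (node 556 (merge (leaf 1 523 555) (leaf 1 524 557))))) (node 557 (merge (leaf 1 524 556) (node 529 (merge (leaf 1 525 558) (node 493 (merge (leaf 3 492 492) (leaf 3 493 494)))))))))) (node 558 (merge (node 529 (merge (leaf 1 525 557) (node 498 (merge (leaf 2 494 497) (node 530 (merge (leaf 2 495 499) (node 563 (merge (leaf 0 527 562) (node 531 (merge (leaf 3 495 495) (leaf 0 528 564))))))))))) (merge (node 529 (merge (leaf 1 525 557) (node 497 (merge (leaf 2 494 498) (node 432 (merge (leaf 4 400 400) (node 433 (merge (leaf 6 400 401) (node 465 (merge (leaf 5 432 560) (node 434 (merge (leaf 6 401 402) (node 435 (merge (leaf 1 432 436) (node 467 (merge (leaf 0 432 468) (node 431 (merge (leaf 7 399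 399) (leaf 0 431 466))))))))))))))))))) (merge (node 529 (merge (leaf 1 525 557) (node 494 (merge (leaf 3 493 493) (node 530 (merge (leaf 3 494 495) (node 563 (merge (leaf 0 527 562) (node 531 (merge (leaf 0 528 564) (node 499 (merge (leaf 2 495 498) (leaf 2 496 500))))))))))))) (merge (node 529 (merge (node 494 (merge (leaf 3 493 493) (node 530 (merge (leaf 3 494 495) (node 563 (merge (leaf 0 527 562) (node 531 (merge (leaf 0 528 564) (node 499 (merge (leaf 2 495 498) (leaf 2 496 500))))))))))) (merge (node 494 (merge (leaf 3 493 493) (node 530 (merge (leaf 3 494 495) (node 563 (merge (leaf 0 527 562) (node 531 (merge (leaf 0 528 564) (node 500 (merge (leaf 2 496 499) (node 532 (merge (leaf 3 496 497) (leaf 2 497 501))))))))))))) (merge (node 497 (merge (leaf 2 494 498) (node 432 (merge (leaf 4 400 400) (node 433 (merge (leaf 6 400 401) (node 465 (merge (leaf 5 432 560) (node 530 (merge (leaf 4 433 562) (node 531 (merge (leaf 3 495 495) (leaf 3 496 532))))))))))))) (node 497 (merge (leaf 2 494 498) (node 432 (merge (leaf 4 400 400) (node 433 (merge (leaf 6 400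 401) (node 465 (merge (leaf 5 432 560) (node 434 (merge (leaf 6 401 402) (node 435 (merge (leaf 1 432 436) (node 467 (merge (leaf 0 432 468) (node 431 (merge (leaf 7 399 399) (leaf 0 431 466))))))))))))))))))))) (node 590 (merge (node 622 (merge (leaf 6 494 495) (node 655 (merge (leaf 4 526 623) (node 654 (merge (leaf 4 558 687) (node 653 (merge (leaf 5 525 621) (leaf 5 557 685))))))))) (merge (node 622 (merge (leaf 6 494 495) (node 623 (merge (leaf 4 526 655) (node 591 (merge (leaf 4 494 494) (node 592 (merge (leaf 5 495 560) (node 593 (merge (leaf 3 557 557) (leaf 1 590 594))))))))))) (merge (node 494 (merge (node 493 (merge (leaf 7 461 461) (node 495 (merge (leaf 2 461 465) (leaf 0 492 492))))) (merge (node 622 (merge (leaf 6 494 495) (node 621 (merge (leaf 5 493 589) (leaf 5 525 653))))) (node 589 (merge (leaf 5 493 621) (node 462 (merge (leaf 5 461 557) (node 461 (merge (leaf 7 429 429) (leaf 7 461 493)))))))))) (merge (node 494 (merge (node 493 (merge (leaf 7 461 461) (node 495 (merge (leaf 2 461 465) (leaf 0 492 492))))) (merge (node 589 (merge (leaf 5 493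 621) (node 462 (merge (leaf 5 461 557) (node 461 (merge (leaf 7 429 429) (leaf 7 461 493))))))) (node 591 (merge (leaf 4 494 623) (node 589 (merge (leaf 5 493 621) (node 557 (merge (leaf 5 461 462) (node 556 (merge (leaf 0 555 555) (leaf 3 556 592)))))))))))) (node 623 (merge (node 494 (merge (leaf 4 494 591) (node 589 (merge (leaf 5 493 621) (node 462 (merge (leaf 5 461 557) (node 461 (merge (leaf 7 429 429) (leaf 7 461 493))))))))) (merge (node 622 (merge (leaf 4 526 655) (node 621 (merge (leaf 5 525 653) (node 589 (merge (leaf 5 493 494) (node 624 (merge (leaf 3 588 588) (leaf 3 589 625))))))))) (node 655 (merge (leaf 4 526 622) (node 591 (merge (leaf 7 558 687) (node 592 (merge (leaf 5 495 560) (node 593 (merge (leaf 3 557 557) (node 626 (merge (leaf 0 590 625) (node 594 (merge (leaf 0 591 627) (node 595 (merge (leaf 1 591 624) (node 563 (merge (leaf 2 559 562) (leaf 2 560 564)))))))))))))))))))))))))))))))))))))) (merge (node 526 (merge (node 497 (merge (leaf 2 493 525) (node 498 (merge (leaf 1 495 499) (leaf 2 494 529))))) (merge (node 525 (merge (leaf 2 493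 497) (node 556 (merge (leaf 1 524 557) (node 524 (merge (leaf 1 523 555) (node 492 (merge (leaf 3 491 491) (leaf 3 492 493))))))))) (merge (node 493 (merge (node 492 (merge (leaf 3 492 525) (node 494 (merge (leaf 0 491 491) (leaf 3 493 529))))) (merge (node 529 (merge (leaf 3 493 494) (node 558 (merge (leaf 1 525 557) (node 559 (merge (leaf 1 526 530) (node 464 (merge (leaf 5 431 432) (node 591 (merge (leaf 5 463 560) (leaf 6 495 623))))))))))) (merge (node 525 (merge (leaf 3 492 492) (node 557 (merge (leaf 1 524 556) (node 558 (merge (leaf 1 525 529) (node 590 (merge (leaf 4 461 461) (leaf 7 493 622))))))))) (node 525 (merge (leaf 3 492 492) (node 556 (merge (leaf 1 524 557) (node 524 (merge (leaf 1 523 555) (node 559 (merge (leaf 0 524 560) (node 523 (merge (leaf 0 523 558) (node 522 (merge (leaf 2 490 494) (node 490 (merge (leaf 3 489 489) (leaf 3 490 491))))))))))))))))))) (node 559 (merge (node 464 (merge (leaf 5 431 432) (node 560 (merge (leaf 5 463 591) (node 465 (merge (leaf 6 432 433) (node 592 (merge (leaf 6 464 497) (node 624 (merge (leaf 7 527 656) (node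 625 (merge (leaf 4 496 593) (leaf 4 528 657))))))))))))) (merge (node 558 (merge (node 557 (merge (leaf 1 525 529) (leaf 2 524 556))) (merge (node 529 (merge (leaf 1 526 530) (node 494 (merge (leaf 3 493 493) (node 591 (merge (leaf 4 462 462) (leaf 6 495 623))))))) (node 494 (merge (node 591 (merge (leaf 4 462 462) (leaf 6 495 623))) (merge (node 557 (merge (leaf 2 524 556) (node 462 (merge (leaf 4 430 430) (leaf 5 461 589))))) (node 590 (merge (node 623 (merge (leaf 6 495 591) (node 622 (merge (leaf 6 526 654) (leaf 4 526 655))))) (merge (node 556 (merge (leaf 2 524 557) (node 591 (merge (leaf 4 494 623) (node 589 (merge (leaf 5 493 621) (node 588 (merge (leaf 3 555 555) (leaf 2 555 587))))))))) (merge (node 621 (merge (leaf 5 493 589) (node 622 (merge (leaf 5 525 653) (node 655 (merge (leaf 4 526 623) (node 654 (merge (leaf 6 526 559) (leaf 4 558 687))))))))) (node 556 (merge (leaf 2 524 557) (node 589 (merge (leaf 5 493 621) (node 588 (merge (leaf 2 555 587) (node 555 (merge (leaf 3 555 591) (node 493 (merge (leaf 7 461 461) (node 491 (merge (leaf 0 491 492)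 (node 523 (merge (leaf 4 459 459) (node 620 (merge (leaf 7 491 524) (leaf 7 523 652))))))))))))))))))))))))))) (node 433 (merge (node 464 (merge (leaf 5 431 432) (node 465 (merge (leaf 6 432 560) (node 401 (merge (leaf 5 368 369) (leaf 5 400 497))))))) (merge (node 529 (merge (node 497 (merge (leaf 2 494 498) (node 465 (merge (leaf 5 400 401) (leaf 5 432 560))))) (merge (node 530 (merge (leaf 1 526 558) (node 498 (merge (leaf 2 494 497) (leaf 2 495 499))))) (merge (node 530 (merge (leaf 1 526 558) (node 563 (merge (leaf 0 527 562) (node 531 (merge (leaf 1 527 560) (leaf 0 528 564))))))) (node 530 (merge (leaf 1 526 558) (node 563 (merge (leaf 0 527 562) (node 531 (merge (leaf 0 528 564) (node 500 (merge (leaf 2 496 499) (node 532 (merge (leaf 3 496 497) (leaf 2 497 501))))))))))))))) (merge (node 432 (merge (leaf 5 431 464) (node 430 (merge (node 494 (merge (leaf 4 430 462) (node 529 (merge (leaf 3 493 493) (node 530 (merge (leaf 1 526 558) (node 563 (merge (leaf 0 527 562) (node 531 (merge (leaf 1 527 560) (leaf 0 528 564))))))))))) (node 431 (merge (node 401 (merge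 (leaf 2 398 402) (node 429 (merge (leaf 2 397 400) (node 460 (merge (leaf 1 428 461) (node 428 (merge (leaf 1 427 459) (node 396 (merge (leaf 3 395 395) (leaf 3 396 397))))))))))) (merge (node 397 (merge (leaf 3 397 398) (node 429 (merge (leaf 3 396 396) (node 460 (merge (leaf 1 428 461) (node 428 (merge (leaf 1 427 459) (node 400 (merge (leaf 2 396 399) (leaf 2 397 401))))))))))) (merge (node 402 (merge (leaf 2 398 401) (node 434 (merge (leaf 2 399 403) (node 467 (merge (leaf 0 431 466) (node 435 (merge (leaf 0 432 468) (node 399 (merge (leaf 3 398 398) (leaf 3 399 400))))))))))) (node 398 (merge (leaf 3 397 397) (node 434 (merge (leaf 3 398 399) (node 467 (merge (leaf 0 431 466) (node 435 (merge (leaf 0 432 468) (node 403 (merge (leaf 2 399 402) (leaf 2 400 404))))))))))))))))))) (merge (node 529 (merge (node 530 (merge (leaf 1 526 558) (node 498 (merge (leaf 2 494 497) (leaf 2 495 499))))) (merge (node 530 (merge (leaf 1 526 558) (node 563 (merge (leaf 0 527 562) (node 531 (merge (leaf 0 528 564) (node 500 (merge (leaf 2 496 499) (node 532 (merge (leaf 3 496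 497) (leaf 2 497 501))))))))))) (merge (node 497 (merge (leaf 2 494 498) (node 465 (merge (leaf 5 400 401) (node 432 (merge (leaf 7 400 400) (leaf 5 431 464))))))) (node 530 (merge (leaf 1 526 558) (node 562 (merge (leaf 0 527 563) (node 498 (merge (leaf 2 495 499) (node 466 (merge (leaf 7 433 465) (node 435 (merge (leaf 6 434 467) (node 434 (merge (leaf 7 401 401) (leaf 6 402 403))))))))))))))))) (node 558 (merge (node 529 (merge (leaf 1 526 530) (leaf 1 525 557))) (merge (node 529 (merge (leaf 1 526 530) (node 497 (merge (leaf 2 494 498) (node 432 (merge (leaf 5 431 464) (node 465 (merge (leaf 7 400 400) (leaf 5 432 560))))))))) (node 557 (merge (leaf 2 524 556) (node 464 (merge (leaf 5 431 432) (node 560 (merge (leaf 6 432 465) (node 592 (merge (leaf 0 557 593) (node 624 (merge (leaf 7 527 656) (node 589 (merge (leaf 1 556 588) (node 625 (merge (leaf 4 528 657) (node 623 (merge (leaf 5 527 655) (node 622 (merge (leaf 3 589 590) (node 653 (merge (leaf 6 525 621) (leaf 1 621 654)))))))))))))))))))))))))))))))))))) (merge (hyp 2) (merge (hyp 3) (merge (node 497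 (merge (node 526 (merge (leaf 2 493 525) (node 498 (merge (leaf 1 495 499) (leaf 2 494 529))))) (merge (node 526 (merge (leaf 2 493 525) (node 498 (merge (leaf 1 494 495) (leaf 1 495 499))))) (merge (node 498 (merge (leaf 1 495 499) (node 530 (merge (node 531 (merge (leaf 0 495 495) (node 532 (merge (leaf 3 496 529) (leaf 3 497 533))))) (merge (node 559 (merge (node 464 (merge (leaf 5 431 432) (node 591 (merge (leaf 6 463 495) (leaf 5 463 560))))) (node 529 (merge (leaf 1 526 558) (node 562 (merge (leaf 0 527 563) (node 594 (merge (leaf 7 465 465) (leaf 7 497 626))))))))) (merge (node 433 (merge (node 465 (merge (leaf 4 401 401) (node 560 (merge (leaf 6 432 464) (leaf 6 464 592))))) (merge (node 465 (merge (leaf 4 401 401) (node 562 (merge (leaf 7 433 466) (leaf 7 465 594))))) (merge (node 495 (merge (leaf 0 495 531) (node 466 (merge (leaf 2 463 467) (node 465 (merge (leaf 7 433 562) (node 560 (merge (leaf 6 432 464) (leaf 6 464 592))))))))) (node 495 (merge (leaf 0 495 531) (node 466 (merge (leaf 2 463 467) (node 434 (merge (leaf 7 401 401) (node 403 (merge (leaf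 6 402 435) (node 402 (merge (leaf 6 370 371) (node 432 (merge (leaf 2 399 431) (node 464 (merge (leaf 5 399 400) (leaf 5 431 559))))))))))))))))))) (node 529 (merge (node 531 (merge (leaf 3 496 532) (node 560 (merge (leaf 1 527 559) (node 592 (merge (leaf 6 464 465) (leaf 6 496 624))))))) (merge (node 531 (merge (leaf 3 496 532) (node 563 (merge (leaf 0 528 564) (node 466 (merge (leaf 4 434 434) (node 595 (merge (leaf 4 466 562) (leaf 7 498 627))))))))) (node 466 (merge (node 434 (merge (leaf 5 401 402) (node 435 (merge (leaf 6 402 403) (node 562 (merge (leaf 6 434 467) (node 594 (merge (leaf 7 465 465) (leaf 7 497 626))))))))) (merge (node 434 (merge (leaf 5 401 402) (node 433 (merge (leaf 7 401 401) (node 562 (merge (leaf 4 433 465) (node 595 (merge (leaf 4 466 563) (node 594 (merge (leaf 7 497 626) (leaf 4 498 627))))))))))) (merge (node 434 (merge (leaf 5 401 402) (node 435 (merge (leaf 6 402 403) (node 562 (merge (leaf 6 434 467) (node 595 (merge (leaf 4 466 563) (node 594 (merge (leaf 7 497 626) (leaf 4 498 627))))))))))) (merge (node 434 (merge (leaf 5 401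 402) (node 433 (merge (leaf 7 401 401) (node 465 (merge (leaf 5 432 560) (node 467 (merge (leaf 1 464 468) (node 432 (merge (leaf 7 400 400) (leaf 0 431 431))))))))))) (node 562 (merge (node 467 (merge (leaf 6 434 435) (node 465 (merge (leaf 7 433 433) (leaf 1 464 468))))) (node 594 (merge (node 627 (merge (leaf 4 498 595) (node 626 (merge (leaf 7 497 529) (leaf 4 530 659))))) (merge (node 625 (merge (leaf 5 497 593) (node 626 (merge (leaf 7 497 529) (leaf 5 529 657))))) (node 595 (merge (leaf 4 498 627) (node 563 (merge (leaf 4 466 466) (node 593 (merge (leaf 5 497 625) (node 592 (merge (leaf 2 560 564) (leaf 2 559 591)))))))))))))))))))))))))))) (hyp 4))))) (merge (node 526 (merge (node 497 (merge (leaf 2 493 525) (node 498 (merge (leaf 1 495 499) (leaf 2 494 529))))) (merge (node 525 (merge (leaf 2 493 497) (node 524 (merge (leaf 2 492 495) (node 492 (merge (leaf 3 491 491) (leaf 3 492 493))))))) (merge (node 525 (merge (node 524 (merge (leaf 2 492 495) (node 492 (merge (leaf 3 491 491) (leaf 3 492 493))))) (merge (node 524 (merge (leaf 2 492 495) (node 556 (merge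 (leaf 1 523 555) (leaf 1 524 557))))) (node 557 (merge (leaf 1 524 556) (node 529 (merge (leaf 1 525 558) (node 493 (merge (leaf 3 492 492) (leaf 3 493 494)))))))))) (hyp 5))))) (hyp 6)))))))))))))))) nQ_35 cQ_35 16 (by decide +kernel)

end Crest.Agent.H26Snaky
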