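import Crest.Agent.H26SnQ01

/-! certificate data for S0047, part Q 2 (computer generated) -/

set_option autoImplicit false
set_option maxRecDepth 100000

namespace Crest.Agent.H26Snaky

open T

def nQ_36 : ℕ := 0x1800000010000000000000000000000000000000000000000000000000000000000000000000000000000000000000000000000000000000000000000000000000000
def cQ_36 : ℕ := 0x3c0000007f0000005f000000c7000000ef000000ef0000003c0000003c000000000000000000000000000000000000000000000000000000000000000000000000000000000000000000000000000
theorem lQ_36 : S nQ_36 cQ_36 12 := S_of_chk [] trivial (node 495 (merge (node 497 (merge (node 526 (merge (leaf 1 494 498) (leaf 2 493 525))) (merge (node 498 (merge (leaf 1 495 499) (node 466 (merge (leaf 2 463 467) (node 494 (merge (leaf 2 462 465) (node 493 (merge (leaf 0 492 492) (node 461 (merge (leaf 3 460 460) (leaf 3 461 462))))))))))) (node 494 (merge (node 493 (merge (leaf 0 492 492) (node 525 (merge (leaf 1 492 524) (leaf 2 493 526))))) (merge (node 493 (merge (leaf 0 492 492) (node 461 (merge (leaf 3 460 460) (leaf 3 461 462))))) (node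 526 (merge (leaf 1 493 525) (node 462 (merge (leaf 3 461 461) (node 430 (merge (leaf 4 398 398) (leaf 4 430 559))))))))))))) (merge (node 559 (merge (node 591 (merge (leaf 6 495 623) (node 462 (merge (leaf 7 462 494) (node 463 (merge (leaf 7 430 430) (node 431 (merge (leaf 4 399 399) (leaf 4 431 560))))))))) (merge (node 591 (merge (leaf 6 495 623) (node 592 (merge (leaf 4 495 624) (node 463 (merge (leaf 4 463 560) (node 590 (merge (leaf 5 462 558) (leaf 5 494 622))))))))) (merge (node 591 (merge (leaf 6 495 623) (node 590 (merge (leaf 5 494 622) (node 494 (merge (leaf 7 462 462) (node 493 (merge (leaf 0 492 492) (node 461 (merge (leaf 3 460 460) (node 558 (merge (leaf 7 461 526) (node 557 (merge (leaf 4 461 525) (leaf 2 524 556))))))))))))))) (node 463 (merge (node 431 (merge (leaf 4 399 399) (leaf 4 431 560))) (merge (node 431 (merge (leaf 4 399 399) (node 430 (merge (leaf 7 398 398) (leaf 7 430 462))))) (node 560 (merge (leaf 4 463 592) (node 558 (merge (leaf 5 462 590) (node 557 (merge (leaf 2 524 556) (node 589 (merge (leaf 1 556 588) (node 525 (merge (leaf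 3 524 524) (node 462 (merge (leaf 7 430 430) (node 460 (merge (leaf 0 460 461) (node 493 (merge (leaf 7 460 492) (leaf 6 461 494)))))))))))))))))))))))) (merge (node 497 (merge (node 498 (merge (leaf 1 495 499) (leaf 1 494 526))) (merge (node 498 (merge (leaf 1 495 499) (node 463 (merge (leaf 3 462 462) (node 560 (merge (leaf 4 431 431) (leaf 7 463 592))))))) (node 559 (merge (node 591 (merge (leaf 6 495 623) (node 590 (merge (leaf 5 494 622) (node 463 (merge (leaf 5 462 558) (node 431 (merge (leaf 4 399 399) (leaf 4 431 560))))))))) (merge (node 591 (merge (leaf 6 495 623) (node 592 (merge (leaf 4 495 624) (node 465 (merge (leaf 6 464 560) (node 494 (merge (leaf 7 462 462) (leaf 2 462 466))))))))) (merge (node 591 (merge (leaf 6 495 623) (node 590 (merge (leaf 5 494 622) (node 463 (merge (leaf 5 462 558) (node 431 (merge (leaf 4 399 399) (node 430 (merge (leaf 7 398 398) (leaf 7 430 462))))))))))) (node 462 (merge (node 494 (merge (leaf 3 461 461) (node 430 (merge (leaf 4 398 398) (leaf 4 430 526))))) (merge (node 463 (merge (leaf 7 430 430) (node 431 (merge (leaf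 4 399 399) (leaf 4 431 560))))) (node 494 (merge (leaf 3 461 461) (node 465 (merge (leaf 2 462 466) (node 560 (merge (leaf 6 464 592) (node 463 (merge (leaf 4 431 431) (node 558 (merge (leaf 5 462 590) (node 557 (merge (leaf 2 524 556) (node 589 (merge (leaf 5 461 526) (leaf 1 556 588))))))))))))))))))))))))) (merge (node 497 (merge (node 526 (merge (leaf 1 494 498) (leaf 2 493 525))) (merge (node 498 (merge (leaf 1 495 499) (node 463 (merge (leaf 3 462 462) (node 560 (merge (leaf 4 431 431) (leaf 7 463 592))))))) (node 559 (merge (node 591 (merge (leaf 6 495 623) (node 592 (merge (leaf 4 495 624) (node 560 (merge (leaf 4 463 463) (leaf 6 464 465))))))) (merge (node 591 (merge (leaf 6 495 623) (node 590 (merge (leaf 5 494 622) (node 463 (merge (leaf 5 462 558) (node 431 (merge (leaf 4 399 399) (leaf 4 431 560))))))))) (merge (node 463 (merge (node 431 (merge (leaf 4 399 399) (node 558 (merge (leaf 5 430 526) (leaf 5 462 590))))) (merge (node 431 (merge (leaf 4 399 399) (node 560 (merge (leaf 4 431 527) (leaf 7 463 592))))) (node 525 (merge (leaf 2 493 526) (node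 560 (merge (leaf 4 463 592) (node 558 (merge (leaf 5 462 590) (node 557 (merge (leaf 3 524 524) (leaf 2 524 556)))))))))))) (merge (node 591 (merge (leaf 6 495 623) (node 592 (merge (leaf 4 495 624) (node 590 (merge (leaf 5 494 622) (node 558 (merge (leaf 5 462 463) (node 557 (merge (leaf 0 556 556) (leaf 3 557 593))))))))))) (node 591 (merge (leaf 6 495 623) (node 592 (merge (leaf 4 495 624) (node 560 (merge (leaf 6 464 465) (node 593 (merge (leaf 4 496 625) (node 558 (merge (leaf 0 557 557) (leaf 3 558 594))))))))))))))))))) (merge (node 497 (merge (node 526 (merge (leaf 1 494 498) (leaf 2 493 525))) (merge (node 498 (merge (leaf 1 495 499) (node 530 (merge (leaf 0 495 531) (node 466 (merge (leaf 2 463 467) (node 465 (merge (leaf 2 462 494) (node 433 (merge (leaf 4 401 401) (leaf 7 433 562))))))))))) (node 559 (merge (node 591 (merge (leaf 6 495 623) (node 592 (merge (leaf 4 495 624) (node 560 (merge (leaf 4 463 463) (leaf 6 464 465))))))) (merge (node 591 (merge (leaf 6 495 623) (node 590 (merge (leaf 5 494 622) (node 463 (merge (leaf 5 462 558) (node 431 (merge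 (leaf 4 399 399) (leaf 4 431 560))))))))) (merge (node 463 (merge (node 431 (merge (leaf 4 399 399) (node 558 (merge (leaf 5 430 526) (leaf 5 462 590))))) (merge (node 431 (merge (leaf 4 399 399) (node 560 (merge (leaf 4 431 527) (leaf 7 463 592))))) (node 525 (merge (leaf 2 493 526) (node 560 (merge (leaf 4 463 592) (node 558 (merge (leaf 5 462 590) (node 557 (merge (leaf 3 524 524) (leaf 2 524 556)))))))))))) (merge (node 591 (merge (leaf 6 495 623) (node 592 (merge (leaf 4 495 624) (node 590 (merge (leaf 5 494 622) (node 558 (merge (leaf 5 462 463) (node 557 (merge (leaf 0 556 556) (leaf 3 557 593))))))))))) (node 591 (merge (leaf 6 495 623) (node 592 (merge (leaf 4 495 624) (node 560 (merge (leaf 6 464 465) (node 593 (merge (leaf 4 496 625) (node 558 (merge (leaf 0 557 557) (leaf 3 558 594))))))))))))))))))) (merge (node 497 (merge (node 498 (merge (leaf 1 495 499) (node 463 (merge (leaf 3 462 462) (node 560 (merge (leaf 4 431 431) (leaf 7 463 592))))))) (merge (node 498 (merge (leaf 1 495 499) (node 466 (merge (leaf 2 463 467) (node 494 (merge (leaf 2 462 465)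 (node 493 (merge (leaf 0 492 492) (node 461 (merge (leaf 3 460 460) (leaf 3 461 462))))))))))) (merge (node 498 (merge (leaf 1 495 499) (node 530 (merge (leaf 0 495 531) (node 466 (merge (leaf 2 463 467) (node 465 (merge (leaf 2 462 494) (node 433 (merge (leaf 4 401 401) (leaf 7 433 562))))))))))) (node 463 (merge (node 560 (merge (leaf 4 431 431) (leaf 7 463 592))) (merge (node 431 (merge (leaf 4 399 399) (node 432 (merge (leaf 6 399 400) (node 430 (merge (leaf 7 398 398) (node 462 (merge (leaf 7 430 559) (node 461 (merge (leaf 1 429 433) (leaf 0 460 460))))))))))) (node 559 (merge (node 592 (merge (leaf 4 463 560) (node 591 (merge (leaf 6 495 623) (leaf 4 495 624))))) (merge (node 590 (merge (leaf 5 462 558) (node 462 (merge (leaf 7 430 430) (node 591 (merge (leaf 7 462 494) (leaf 5 494 622))))))) (node 558 (merge (leaf 5 462 590) (node 557 (merge (leaf 2 524 556) (node 462 (merge (leaf 7 430 430) (node 494 (merge (leaf 3 461 461) (node 493 (merge (leaf 0 492 492) (node 525 (merge (leaf 1 492 524) (leaf 6 461 589))))))))))))))))))))))) (node 497 (merge (node 526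 (merge (leaf 1 494 498) (leaf 2 493 525))) (merge (node 498 (merge (leaf 1 495 499) (node 463 (merge (leaf 3 462 462) (node 560 (merge (leaf 4 431 431) (leaf 7 463 592))))))) (node 494 (merge (node 493 (merge (leaf 0 492 492) (node 525 (merge (leaf 1 492 524) (leaf 2 493 526))))) (merge (node 493 (merge (leaf 0 492 492) (node 461 (merge (leaf 3 460 460) (leaf 3 461 462))))) (node 526 (merge (leaf 1 493 525) (node 462 (merge (leaf 3 461 461) (node 430 (merge (leaf 4 398 398) (node 431 (merge (leaf 6 398 399) (node 463 (merge (leaf 5 430 558) (leaf 4 431 560)))))))))))))))))))))))) nQ_36 cQ_36 12 (by decide +kernel)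
def nQ_37 : ℕ := 0x1c00000010000000000000000000000000000000000000000000000000000000000000000000000000000000000000000000000000000000000000000000000000000
def cQ_37 : ℕ := 0xa0000007e000000ff000000ff000001d7800001e0000003ef8000002f0000000e0000000a000000000000000000000000000000000000000000000000000000000000000000000000000000000000000000000000000
theorem lQ_37 : S nQ_37 cQ_37 12 := S_of_chk [] trivial (node 558 (merge (node 529 (merge (leaf 1 525 557) (node 498 (merge (leaf 2 494 497) (node 530 (merge (leaf 2 495 499) (node 494 (merge (leaf 3 493 493) (leaf 3 494 495))))))))) (merge (node 529 (merge (leaf 1 525 557) (node 498 (merge (leaf 2 494 497) (node 530 (merge (leaf 2 495 499) (node 563 (merge (leaf 0 527 562) (node 531 (merge (leaf 3 495 495) (leaf 0 528 564))))))))))) (merge (node 529 (merge (leaf 1 525 557) (node 497 (merge (leaf 2 494 498) (node 494 (merge (leaf 3 493 493) (node 530 (merge (leaf 0 494 495) (node 563 (merge (leaf 0 527 562) (node 531 (merge (leaf 3 496 532) (leaf 0 528 564))))))))))))) (merge (node 529 (merge (leaf 1 525 557) (node 494 (merge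 (leaf 3 493 493) (node 530 (merge (leaf 3 494 495) (node 563 (merge (leaf 0 527 562) (node 531 (merge (leaf 0 528 564) (node 499 (merge (leaf 2 495 498) (leaf 2 496 500))))))))))))) (merge (node 529 (merge (leaf 1 525 557) (node 494 (merge (leaf 3 493 493) (node 530 (merge (leaf 3 494 495) (node 563 (merge (leaf 0 527 562) (node 531 (merge (leaf 0 528 564) (node 500 (merge (leaf 2 496 499) (node 532 (merge (leaf 3 496 497) (leaf 2 497 501))))))))))))))) (merge (node 590 (merge (node 622 (merge (leaf 6 494 495) (node 655 (merge (leaf 4 526 623) (node 654 (merge (leaf 4 558 687) (node 653 (merge (leaf 5 525 621) (leaf 5 557 685))))))))) (merge (node 622 (merge (leaf 6 494 495) (node 623 (merge (leaf 4 526 655) (node 591 (merge (leaf 4 494 494) (node 592 (merge (leaf 5 495 560) (node 593 (merge (leaf 3 557 557) (leaf 1 590 594))))))))))) (merge (node 494 (merge (node 622 (merge (leaf 6 494 495) (node 621 (merge (leaf 5 493 589) (leaf 5 525 653))))) (merge (node 493 (merge (leaf 7 461 461) (node 492 (merge (leaf 0 491 491) (leaf 0 492 495))))) (node 589 (merge (leaf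 5 493 621) (node 462 (merge (leaf 5 461 557) (node 461 (merge (leaf 7 429 429) (leaf 7 461 493)))))))))) (merge (node 591 (merge (node 494 (merge (leaf 4 494 623) (node 493 (merge (leaf 7 461 461) (node 492 (merge (leaf 0 491 491) (leaf 0 492 495))))))) (merge (node 494 (merge (leaf 4 494 623) (node 589 (merge (leaf 5 493 621) (node 557 (merge (leaf 5 461 462) (node 592 (merge (leaf 3 556 556) (leaf 3 557 593))))))))) (merge (node 494 (merge (node 493 (merge (leaf 7 461 461) (node 492 (merge (leaf 0 491 491) (leaf 0 492 495))))) (node 589 (merge (leaf 5 493 621) (node 557 (merge (leaf 5 461 462) (node 592 (merge (leaf 3 556 556) (leaf 3 557 593))))))))) (node 592 (merge (node 593 (merge (leaf 3 557 557) (node 625 (merge (leaf 4 496 560) (leaf 0 590 626))))) (merge (node 560 (merge (leaf 5 495 623) (node 497 (merge (leaf 6 464 465) (node 498 (merge (leaf 1 494 495) (leaf 1 495 499))))))) (node 625 (merge (node 593 (merge (leaf 3 557 557) (leaf 0 590 626))) (merge (node 589 (merge (leaf 0 589 624) (node 621 (merge (leaf 1 588 620) (node 557 (merge (leaf 3 556 556)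 (leaf 6 525 653))))))) (node 624 (merge (leaf 0 589 589) (node 626 (merge (leaf 0 590 593) (leaf 3 590 623))))))))))))))) (node 623 (merge (node 494 (merge (leaf 4 494 591) (node 589 (merge (leaf 5 493 621) (node 462 (merge (leaf 5 461 557) (node 461 (merge (leaf 7 429 429) (leaf 7 461 493))))))))) (merge (node 622 (merge (leaf 4 526 655) (node 621 (merge (leaf 5 525 653) (node 589 (merge (leaf 5 493 494) (node 624 (merge (leaf 3 588 588) (leaf 3 589 625))))))))) (node 655 (merge (leaf 4 526 622) (node 591 (merge (leaf 7 558 687) (node 592 (merge (leaf 5 495 560) (node 593 (merge (leaf 3 557 557) (node 626 (merge (leaf 0 590 625) (node 594 (merge (leaf 0 591 627) (node 595 (merge (leaf 1 591 624) (node 563 (merge (leaf 2 559 562) (leaf 2 560 564))))))))))))))))))))))))) (merge (node 494 (merge (node 493 (merge (leaf 3 493 529) (node 461 (merge (leaf 7 461 590) (node 429 (merge (leaf 4 397 397) (leaf 7 429 462))))))) (merge (node 529 (merge (leaf 3 493 493) (node 497 (merge (leaf 2 494 498) (node 530 (merge (leaf 0 494 495) (node 563 (merge (leaf 0 527 562) (node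 531 (merge (leaf 3 496 532) (leaf 0 528 564))))))))))) (merge (node 495 (merge (node 463 (merge (leaf 5 430 431) (leaf 6 462 590))) (node 493 (merge (leaf 0 492 492) (node 497 (merge (leaf 1 494 498) (node 461 (merge (leaf 3 460 460) (leaf 3 461 462))))))))) (node 462 (merge (node 431 (merge (leaf 6 430 463) (node 430 (merge (leaf 6 398 399) (node 429 (merge (leaf 7 397 397) (leaf 7 429 461))))))) (merge (node 461 (merge (leaf 7 429 429) (node 497 (merge (leaf 3 461 495) (node 498 (merge (leaf 1 495 499) (leaf 2 494 529))))))) (node 463 (merge (leaf 6 430 431) (node 590 (merge (leaf 6 462 495) (node 623 (merge (leaf 4 494 591) (node 622 (merge (leaf 4 526 655) (node 621 (merge (leaf 5 493 589) (leaf 5 525 653)))))))))))))))))) (node 590 (merge (node 494 (merge (node 493 (merge (leaf 7 461 461) (leaf 3 493 529))) (merge (node 557 (merge (leaf 1 525 529) (node 589 (merge (leaf 5 461 462) (leaf 5 493 621))))) (node 589 (merge (leaf 5 493 621) (node 462 (merge (leaf 5 461 557) (node 461 (merge (leaf 7 429 429) (leaf 7 461 493)))))))))) (merge (node 494 (merge (node 493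 (merge (leaf 7 461 461) (leaf 3 493 529))) (node 623 (merge (leaf 4 494 591) (node 622 (merge (leaf 4 526 655) (node 621 (merge (leaf 5 493 589) (leaf 5 525 653))))))))) (merge (node 592 (merge (node 529 (merge (leaf 1 525 557) (node 497 (merge (leaf 2 494 498) (node 560 (merge (leaf 6 464 465) (leaf 6 496 624))))))) (merge (node 557 (merge (leaf 1 525 529) (node 591 (merge (leaf 3 557 593) (node 623 (merge (leaf 4 494 494) (node 655 (merge (leaf 4 526 622) (leaf 7 558 687))))))))) (merge (node 591 (merge (node 593 (merge (leaf 3 557 557) (node 625 (merge (leaf 4 496 560) (leaf 0 590 626))))) (node 623 (merge (leaf 4 494 494) (node 655 (merge (leaf 4 526 622) (leaf 7 558 687))))))) (node 560 (merge (node 497 (merge (leaf 6 464 465) (node 498 (merge (leaf 1 495 499) (leaf 2 494 529))))) (node 625 (merge (leaf 4 496 593) (node 624 (merge (leaf 4 528 657) (node 591 (merge (leaf 0 589 589) (leaf 5 495 623))))))))))))) (merge (node 592 (merge (node 529 (merge (leaf 1 525 557) (node 497 (merge (leaf 2 494 498) (node 560 (merge (leaf 6 464 465) (leaf 6 496 624))))))) (merge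 (node 557 (merge (leaf 1 525 529) (node 591 (merge (leaf 3 557 593) (node 623 (merge (leaf 4 494 494) (node 655 (merge (leaf 4 526 622) (leaf 7 558 687))))))))) (merge (node 591 (merge (node 593 (merge (leaf 3 557 557) (node 625 (merge (leaf 4 496 560) (leaf 0 590 626))))) (node 623 (merge (leaf 4 494 494) (node 655 (merge (leaf 4 526 622) (leaf 7 558 687))))))) (node 494 (merge (node 493 (merge (leaf 7 461 461) (leaf 3 493 529))) (merge (node 623 (merge (leaf 4 494 591) (node 622 (merge (leaf 4 526 655) (node 621 (merge (leaf 5 525 653) (node 624 (merge (leaf 2 589 593) (node 657 (merge (leaf 0 621 656) (node 560 (merge (leaf 4 528 625) (node 497 (merge (leaf 6 464 465) (leaf 6 496 529))))))))))))))) (node 623 (merge (leaf 4 494 591) (node 622 (merge (leaf 4 526 655) (node 621 (merge (leaf 5 525 653) (node 624 (merge (leaf 2 589 593) (node 657 (merge (leaf 0 621 656) (node 625 (merge (leaf 4 528 560) (leaf 0 622 658)))))))))))))))))))) (merge (node 623 (merge (node 494 (merge (leaf 4 494 591) (node 589 (merge (leaf 5 493 621) (node 462 (merge (leaf 5 461 557) (node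 461 (merge (leaf 7 429 429) (leaf 7 461 493))))))))) (merge (node 622 (merge (leaf 4 526 655) (node 621 (merge (leaf 5 525 653) (node 589 (merge (leaf 5 493 494) (node 624 (merge (leaf 3 588 588) (leaf 3 589 625))))))))) (node 655 (merge (leaf 4 526 622) (node 591 (merge (leaf 7 558 687) (node 592 (merge (leaf 5 495 560) (node 593 (merge (leaf 3 557 557) (node 626 (merge (leaf 0 590 625) (node 594 (merge (leaf 0 591 627) (node 595 (merge (leaf 1 591 624) (node 563 (merge (leaf 2 559 562) (leaf 2 560 564)))))))))))))))))))) (node 592 (merge (node 529 (merge (leaf 1 525 557) (node 497 (merge (leaf 2 494 498) (node 560 (merge (leaf 6 464 465) (leaf 6 496 624))))))) (merge (node 557 (merge (leaf 1 525 529) (node 591 (merge (leaf 3 557 593) (node 589 (merge (leaf 3 556 556) (node 621 (merge (leaf 1 588 620) (leaf 6 525 653))))))))) (merge (node 560 (merge (node 497 (merge (leaf 6 464 465) (node 498 (merge (leaf 1 495 499) (leaf 2 494 529))))) (node 625 (merge (leaf 4 496 593) (node 624 (merge (leaf 4 528 657) (node 591 (merge (leaf 0 589 589) (leaf 5 495 623)))))))))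 (merge (node 557 (merge (leaf 1 525 529) (node 556 (merge (leaf 2 523 555) (node 591 (merge (leaf 3 556 589) (leaf 3 557 593))))))) (node 591 (merge (node 593 (merge (leaf 3 557 557) (node 625 (merge (leaf 4 496 560) (leaf 0 590 626))))) (merge (node 623 (merge (leaf 5 495 560) (node 655 (merge (leaf 4 526 622) (leaf 7 558 687))))) (node 593 (merge (leaf 3 557 557) (node 626 (merge (leaf 0 590 625) (node 594 (merge (leaf 0 591 627) (node 623 (merge (leaf 1 590 622) (node 595 (merge (leaf 1 591 624) (node 563 (merge (leaf 2 559 562) (leaf 2 560 564))))))))))))))))))))))))))))))))))) nQ_37 cQ_37 12 (by decide +kernel)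
def nQ_38 : ℕ := 0x40000001c00000010000000000000000000000000000000000000000000000000000000000000000000000000000000000000000000000000000000000000000000000000000
def cQ_38 : ℕ := 0x20000000e0000001e0000001e000000ff800000ff800001db80000000000000060000000e0000000e0000000a000000000000000000000000000000000000000000000000000000000000000000000000000000000000000000000000000
theorem lQ_38 : S nQ_38 cQ_38 11 := S_of_chk [] trivial (node 590 (merge (node 622 (merge (node 655 (merge (leaf 4 526 623) (node 654 (merge (leaf 6 526 559) (leaf 4 558 687))))) (merge (node 654 (merge (leaf 6 526 559) (node 653 (merge (leaf 5 525 621) (leaf 5 557 685))))) (merge (node 655 (merge (leaf 4 526 623) (node 654 (merge (leaf 4 558 687) (node 653 (merge (leaf 5 525 621) (leaf 5 557 685))))))) (node 623 (merge (leaf 4 526 655) (node 621 (merge (leaf 5 525 653) (node 591 (merge (leaf 6 495 559) (node 620 (merge (leaf 2 588 592) (leaf 2 587 619))))))))))))) (merge (node 494 (merge (node 589 (merge (leaf 5 493 621) (node 462 (merge (leaf 5 461 557) (node 461 (merge (leaf 7 429 429) (leaf 7 461 493)))))))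 (merge (node 621 (merge (leaf 5 493 589) (node 622 (merge (leaf 5 525 653) (node 655 (merge (leaf 4 526 623) (node 654 (merge (leaf 6 526 559) (leaf 4 558 687))))))))) (node 461 (merge (leaf 7 461 493) (node 462 (merge (leaf 7 429 429) (node 430 (merge (leaf 4 430 559) (node 431 (merge (leaf 6 398 399) (leaf 6 430 463)))))))))))) (merge (node 591 (merge (node 623 (merge (leaf 4 494 494) (leaf 6 495 559))) (merge (node 494 (merge (leaf 4 494 623) (node 589 (merge (leaf 5 493 621) (node 557 (merge (leaf 5 461 462) (node 592 (merge (leaf 3 556 556) (leaf 3 557 593))))))))) (merge (node 623 (merge (leaf 6 495 559) (node 592 (merge (leaf 5 495 560) (node 557 (merge (leaf 3 557 593) (node 589 (merge (leaf 3 556 556) (node 621 (merge (leaf 1 588 620) (leaf 6 525 653))))))))))) (node 589 (merge (node 621 (merge (leaf 5 493 494) (node 653 (merge (leaf 6 525 557) (leaf 6 557 685))))) (merge (node 494 (merge (leaf 5 493 621) (node 461 (merge (leaf 7 461 493) (node 462 (merge (leaf 7 429 429) (node 559 (merge (leaf 4 430 430) (leaf 4 462 591))))))))) (merge (node 559 (merge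 (node 588 (merge (leaf 2 556 560) (leaf 2 555 587))) (merge (node 556 (merge (leaf 2 524 557) (node 588 (merge (leaf 3 555 555) (leaf 2 555 587))))) (node 557 (merge (leaf 2 524 556) (node 592 (merge (leaf 3 557 593) (node 624 (merge (leaf 0 589 625) (node 656 (merge (leaf 7 527 560) (leaf 7 559 688)))))))))))) (node 559 (merge (node 588 (merge (leaf 2 556 560) (leaf 2 555 587))) (merge (node 557 (merge (leaf 2 524 556) (node 592 (merge (leaf 3 557 593) (node 621 (merge (leaf 1 588 620) (leaf 6 525 653))))))) (node 557 (merge (leaf 2 524 556) (node 592 (merge (leaf 3 557 593) (node 624 (merge (leaf 0 589 625) (node 656 (merge (leaf 7 527 560) (leaf 7 559 688)))))))))))))))))))) (merge (node 591 (merge (node 623 (merge (leaf 4 494 494) (leaf 6 495 559))) (merge (node 494 (merge (leaf 4 494 623) (node 589 (merge (leaf 5 493 621) (node 557 (merge (leaf 5 461 462) (node 592 (merge (leaf 3 556 556) (leaf 3 557 593))))))))) (merge (node 559 (merge (leaf 6 495 623) (node 622 (merge (leaf 6 526 654) (node 621 (merge (leaf 5 525 653) (node 592 (merge (leaf 1 589 593) (node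 620 (merge (leaf 1 588 589) (leaf 2 587 619))))))))))) (node 589 (merge (node 621 (merge (leaf 5 493 494) (node 653 (merge (leaf 6 525 557) (leaf 6 557 685))))) (merge (node 494 (merge (leaf 5 493 621) (node 461 (merge (leaf 7 461 493) (node 462 (merge (leaf 7 429 429) (node 559 (merge (leaf 4 430 430) (leaf 4 462 591))))))))) (merge (node 559 (merge (node 588 (merge (leaf 2 556 560) (leaf 2 555 587))) (merge (node 556 (merge (leaf 2 524 557) (node 588 (merge (leaf 3 555 555) (leaf 2 555 587))))) (node 557 (merge (leaf 2 524 556) (node 592 (merge (leaf 3 557 593) (node 624 (merge (leaf 0 589 625) (node 656 (merge (leaf 7 527 560) (leaf 7 559 688)))))))))))) (node 559 (merge (node 588 (merge (leaf 2 556 560) (leaf 2 555 587))) (merge (node 557 (merge (leaf 2 524 556) (node 592 (merge (leaf 3 557 593) (node 621 (merge (leaf 1 588 620) (leaf 6 525 653))))))) (node 557 (merge (leaf 2 524 556) (node 592 (merge (leaf 3 557 593) (node 624 (merge (leaf 0 589 625) (node 656 (merge (leaf 7 527 560) (leaf 7 559 688)))))))))))))))))))) (merge (node 494 (merge (node 589 (merge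 (leaf 5 493 621) (node 462 (merge (leaf 5 461 557) (node 461 (merge (leaf 7 429 429) (leaf 7 461 493))))))) (merge (node 461 (merge (leaf 7 461 493) (node 462 (merge (leaf 7 429 429) (node 430 (merge (leaf 4 430 559) (node 431 (merge (leaf 6 398 399) (leaf 6 430 463))))))))) (merge (node 589 (merge (leaf 5 493 621) (node 462 (merge (leaf 5 461 557) (node 559 (merge (leaf 4 430 430) (leaf 4 462 591))))))) (node 623 (merge (leaf 4 494 591) (node 622 (merge (leaf 4 526 655) (node 589 (merge (leaf 5 493 621) (node 588 (merge (leaf 0 587 587) (node 559 (merge (leaf 6 526 654) (node 557 (merge (leaf 2 524 556) (leaf 1 556 560))))))))))))))))) (merge (node 557 (merge (node 556 (merge (leaf 2 523 555) (leaf 2 524 559))) (merge (node 591 (merge (node 556 (merge (leaf 0 555 555) (node 592 (merge (leaf 3 556 589) (leaf 3 557 593))))) (node 623 (merge (leaf 4 494 494) (node 655 (merge (leaf 4 526 622) (leaf 7 558 687))))))) (node 494 (merge (node 462 (merge (leaf 5 461 589) (node 559 (merge (leaf 4 430 430) (leaf 4 462 591))))) (merge (node 461 (merge (leaf 7 461 493) (node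 462 (merge (leaf 7 429 429) (node 430 (merge (leaf 4 430 559) (node 431 (merge (leaf 6 398 399) (leaf 6 430 463))))))))) (merge (node 462 (merge (leaf 5 461 589) (node 431 (merge (leaf 6 430 463) (node 430 (merge (leaf 6 398 399) (node 429 (merge (leaf 7 397 397) (leaf 7 429 461))))))))) (node 623 (merge (leaf 4 494 591) (node 622 (merge (leaf 4 526 655) (node 654 (merge (leaf 6 526 559) (node 686 (merge (leaf 7 557 589) (node 685 (merge (leaf 5 557 653) (leaf 5 589 717)))))))))))))))))) (merge (node 622 (merge (node 654 (merge (leaf 6 526 559) (node 653 (merge (leaf 5 525 621) (leaf 5 557 685))))) (merge (node 621 (merge (leaf 5 525 653) (node 494 (merge (leaf 5 493 589) (node 461 (merge (leaf 7 461 493) (node 462 (merge (leaf 7 429 429) (node 559 (merge (leaf 4 430 430) (leaf 4 462 591))))))))))) (merge (node 654 (merge (leaf 6 526 559) (node 687 (merge (leaf 4 558 655) (node 686 (merge (leaf 4 590 719) (node 685 (merge (leaf 5 557 653) (leaf 5 589 717))))))))) (merge (node 654 (merge (node 653 (merge (leaf 5 525 621) (leaf 5 557 685))) (merge (node 589 (merge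 (node 621 (merge (leaf 5 493 494) (leaf 5 525 653))) (node 686 (merge (leaf 7 557 557) (node 687 (merge (leaf 4 558 655) (leaf 4 590 719))))))) (merge (node 687 (merge (leaf 4 558 655) (node 686 (merge (leaf 4 590 719) (node 685 (merge (leaf 5 557 653) (leaf 5 589 717))))))) (node 687 (merge (leaf 4 558 655) (node 686 (merge (leaf 4 590 719) (node 589 (merge (leaf 7 557 557) (node 718 (merge (leaf 7 589 621) (node 717 (merge (leaf 5 589 685) (leaf 5 621 749))))))))))))))) (node 654 (merge (leaf 6 526 559) (node 687 (merge (leaf 4 558 655) (node 686 (merge (leaf 4 590 719) (node 589 (merge (leaf 7 557 557) (node 718 (merge (leaf 7 589 621) (node 717 (merge (leaf 5 589 685) (leaf 5 621 749)))))))))))))))))) (node 623 (merge (node 494 (merge (leaf 4 494 591) (node 589 (merge (leaf 5 493 621) (node 462 (merge (leaf 5 461 557) (node 461 (merge (leaf 7 429 429) (leaf 7 461 493))))))))) (merge (node 622 (merge (leaf 4 526 655) (node 621 (merge (leaf 5 525 653) (node 589 (merge (leaf 5 493 494) (node 624 (merge (leaf 3 588 588) (leaf 3 589 625))))))))) (node 655 (merge (leaf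 4 526 622) (node 591 (merge (leaf 7 558 687) (node 592 (merge (leaf 5 495 560) (node 593 (merge (leaf 3 557 557) (node 626 (merge (leaf 0 590 625) (node 594 (merge (leaf 0 591 627) (node 595 (merge (leaf 1 591 624) (node 563 (merge (leaf 2 559 562) (leaf 2 560 564)))))))))))))))))))))))))))) nQ_38 cQ_38 11 (by decide +kernel)
def nQ_39 : ℕ := 0x1800000010000000000000000000000000000000000000000000000000000000000000000000000000000000000000000000000000000000000000000000000000000
def cQ_39 : ℕ := 0xa0000000f000000ffc00000ffc00001dfe00000e7c00001cfe000000fc000000fc000000f0000000b0000000000000000000000000000000000000000000000000000000000000000000000000000000000000000000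
theorem lQ_39 : S nQ_39 cQ_39 14 := S_of_chk [] trivial (node 526 (merge (node 525 (merge (node 524 (merge (leaf 2 492 495) (node 492 (merge (leaf 3 491 491) (leaf 3 492 493))))) (merge (node 524 (merge (leaf 2 492 495) (node 556 (merge (leaf 1 523 555) (leaf 1 524 557))))) (node 557 (merge (leaf 1 524 556) (node 493 (merge (leaf 3 492 492) (node 494 (merge (leaf 3 493 529) (node 589 (merge (leaf 6 461 462) (leaf 6 493 621)))))))))))) (merge (node 525 (merge (node 524 (merge (leaf 2 492 495) (node 492 (merge (leaf 3 491 491) (leaf 3 492 493))))) (merge (node 524 (merge (leaf 2 492 495) (node 556 (merge (leaf 1 523 555) (leaf 1 524 557))))) (node 557 (merge (leaf 1 524 556) (node 558 (merge (leaf 1 525 529) (node 493 (merge (leaf 3 492 492) (node 590 (merge (leaf 4 461 461) (leaf 7 493 622)))))))))))) (merge (node 557 (merge (node 556 (merge (leaf 1 524 525) (node 558 (merge (leaf 2 523 555) (leaf 2 524 559))))) (merge (node 525 (merge (leaf 1 524 556) (node 493 (merge (leaf 3 492 492) (node 494 (merge (leaf 3 493 529) (node 589 (merge (leaf 6 461 462) (leaf 6 493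 621))))))))) (node 529 (merge (leaf 1 525 558) (node 494 (merge (leaf 3 493 493) (node 530 (merge (leaf 3 494 495) (node 563 (merge (leaf 0 527 562) (node 531 (merge (leaf 0 528 564) (node 499 (merge (leaf 2 495 498) (leaf 2 496 500)))))))))))))))) (merge (node 557 (merge (node 525 (merge (leaf 1 524 556) (node 524 (merge (leaf 2 492 495) (node 492 (merge (leaf 3 491 491) (leaf 3 492 493))))))) (merge (node 525 (merge (leaf 1 524 556) (node 529 (merge (leaf 1 525 558) (node 493 (merge (leaf 3 492 492) (leaf 3 493 494))))))) (merge (node 525 (merge (leaf 1 524 556) (node 529 (merge (leaf 1 525 558) (node 495 (merge (leaf 2 492 524) (node 530 (merge (leaf 3 494 494) (leaf 3 495 531))))))))) (node 529 (merge (leaf 1 525 558) (node 494 (merge (leaf 3 493 493) (node 530 (merge (leaf 3 494 495) (node 563 (merge (leaf 0 527 562) (node 531 (merge (leaf 0 528 564) (node 499 (merge (leaf 2 495 498) (leaf 2 496 500))))))))))))))))) (merge (node 493 (merge (node 492 (merge (leaf 3 492 525) (node 494 (merge (leaf 0 491 491) (leaf 3 493 529))))) (merge (node 525 (merge (leaf 3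 492 492) (node 557 (merge (leaf 1 524 556) (node 558 (merge (leaf 1 525 529) (node 590 (merge (leaf 4 461 461) (leaf 7 493 622))))))))) (merge (node 529 (merge (leaf 3 493 494) (node 558 (merge (leaf 1 525 557) (node 530 (merge (leaf 1 526 559) (node 563 (merge (leaf 0 527 562) (node 531 (merge (leaf 0 528 564) (node 499 (merge (leaf 2 495 498) (leaf 2 496 500))))))))))))) (node 525 (merge (leaf 3 492 492) (node 556 (merge (leaf 1 524 557) (node 524 (merge (leaf 1 523 555) (node 559 (merge (leaf 0 524 560) (node 523 (merge (leaf 0 523 558) (node 522 (merge (leaf 2 490 494) (node 490 (merge (leaf 3 489 489) (leaf 3 490 491))))))))))))))))))) (merge (node 494 (merge (node 529 (merge (leaf 3 493 493) (node 558 (merge (leaf 1 525 557) (node 559 (merge (leaf 1 526 530) (node 591 (merge (leaf 4 462 462) (leaf 6 495 623))))))))) (merge (node 529 (merge (leaf 3 493 493) (node 530 (merge (leaf 3 494 495) (node 563 (merge (leaf 0 527 562) (node 531 (merge (leaf 0 528 564) (node 499 (merge (leaf 2 495 498) (leaf 2 496 500))))))))))) (merge (node 525 (merge (node 524 (merge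 (leaf 2 492 495) (node 556 (merge (leaf 1 523 555) (leaf 1 524 557))))) (merge (node 557 (merge (leaf 1 524 556) (node 589 (merge (leaf 6 493 621) (node 462 (merge (leaf 5 429 430) (leaf 5 461 558))))))) (node 524 (merge (leaf 2 492 495) (node 559 (merge (leaf 0 524 560) (node 523 (merge (leaf 0 523 558) (node 554 (merge (leaf 1 522 555) (node 522 (merge (leaf 1 521 553) (node 490 (merge (leaf 3 489 489) (leaf 3 490 491)))))))))))))))) (node 558 (merge (node 557 (merge (leaf 1 525 529) (node 556 (merge (leaf 2 523 555) (leaf 2 524 559))))) (merge (node 557 (merge (leaf 1 525 529) (node 589 (merge (leaf 5 461 462) (node 621 (merge (leaf 5 493 590) (leaf 6 525 653))))))) (node 591 (merge (node 623 (merge (leaf 6 495 559) (leaf 4 494 590))) (merge (node 590 (merge (leaf 4 494 623) (node 622 (merge (leaf 6 494 495) (node 621 (merge (leaf 5 493 589) (leaf 5 525 653))))))) (node 462 (merge (leaf 4 462 559) (node 429 (merge (leaf 7 429 461) (node 430 (merge (leaf 7 397 397) (node 398 (merge (leaf 4 398 495) (node 399 (merge (leaf 6 366 367) (leaf 6 398 431)))))))))))))))))))))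 (merge (node 558 (merge (node 557 (merge (leaf 1 525 529) (node 556 (merge (leaf 2 523 555) (leaf 2 524 559))))) (merge (node 529 (merge (leaf 1 525 557) (node 494 (merge (leaf 3 493 493) (node 530 (merge (leaf 3 494 495) (node 563 (merge (leaf 0 527 562) (node 531 (merge (leaf 0 528 564) (node 499 (merge (leaf 2 495 498) (leaf 2 496 500))))))))))))) (merge (node 590 (merge (node 622 (merge (leaf 6 494 495) (node 655 (merge (leaf 4 526 623) (node 654 (merge (leaf 6 526 559) (leaf 4 558 687))))))) (merge (node 622 (merge (leaf 6 494 495) (node 655 (merge (leaf 4 526 623) (node 654 (merge (leaf 4 558 687) (node 653 (merge (leaf 5 525 621) (leaf 5 557 685))))))))) (merge (node 623 (merge (node 591 (merge (leaf 4 494 494) (leaf 6 495 559))) (merge (node 622 (merge (leaf 4 526 655) (node 653 (merge (leaf 5 525 621) (node 654 (merge (leaf 6 526 559) (leaf 5 557 685))))))) (node 494 (merge (leaf 4 494 591) (node 622 (merge (leaf 4 526 655) (node 621 (merge (leaf 5 493 589) (leaf 5 525 653)))))))))) (node 494 (merge (node 493 (merge (leaf 7 461 461) (node 492 (merge (leaf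 0 491 491) (leaf 0 492 495))))) (node 589 (merge (leaf 5 493 621) (node 462 (merge (leaf 5 461 557) (node 559 (merge (leaf 4 430 430) (leaf 4 462 591))))))))))))) (node 494 (merge (node 529 (merge (leaf 3 493 493) (node 530 (merge (leaf 3 494 495) (leaf 1 526 559))))) (merge (node 493 (merge (leaf 3 493 529) (node 590 (merge (leaf 7 461 461) (node 623 (merge (leaf 4 494 591) (node 622 (merge (leaf 4 526 655) (node 621 (merge (leaf 5 493 589) (leaf 5 525 653))))))))))) (node 591 (merge (node 623 (merge (leaf 6 495 559) (leaf 4 494 590))) (merge (node 590 (merge (leaf 4 494 623) (node 622 (merge (leaf 6 494 495) (node 621 (merge (leaf 5 493 589) (leaf 5 525 653))))))) (node 462 (merge (leaf 4 462 559) (node 429 (merge (leaf 7 429 461) (node 430 (merge (leaf 7 397 397) (node 398 (merge (leaf 4 398 495) (node 399 (merge (leaf 6 366 367) (leaf 6 398 431))))))))))))))))))))) (merge (node 525 (merge (node 524 (merge (leaf 2 492 495) (node 559 (merge (leaf 0 524 560) (node 558 (merge (leaf 0 523 523) (node 529 (merge (leaf 1 526 530) (leaf 1 525 557))))))))) (merge (node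 524 (merge (leaf 2 492 495) (node 555 (merge (leaf 1 523 556) (node 523 (merge (leaf 1 522 554) (node 491 (merge (leaf 3 490 490) (leaf 3 491 492))))))))) (merge (node 556 (merge (leaf 1 524 557) (node 524 (merge (leaf 1 523 555) (node 559 (merge (leaf 0 524 560) (node 523 (merge (leaf 0 523 558) (node 491 (merge (leaf 3 490 490) (leaf 3 491 492))))))))))) (node 557 (merge (leaf 1 524 556) (node 558 (merge (leaf 1 525 529) (node 590 (merge (node 622 (merge (leaf 6 494 495) (leaf 7 525 654))) (merge (node 494 (merge (node 589 (merge (leaf 5 461 462) (leaf 5 493 621))) (merge (node 591 (merge (leaf 4 494 623) (node 462 (merge (leaf 5 429 430) (leaf 4 462 559))))) (node 591 (merge (leaf 4 494 623) (node 592 (merge (leaf 3 557 593) (node 495 (merge (leaf 6 462 463) (node 624 (merge (leaf 4 495 559) (leaf 7 495 560)))))))))))) (node 622 (merge (leaf 7 525 654) (node 621 (merge (leaf 5 525 653) (node 589 (merge (leaf 5 493 494) (node 620 (merge (leaf 5 524 652) (node 619 (merge (leaf 2 587 591) (leaf 2 586 618)))))))))))))))))))))) (merge (node 493 (merge (node 492 (merge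 (leaf 3 492 525) (node 494 (merge (leaf 0 491 491) (leaf 3 493 529))))) (merge (node 525 (merge (leaf 3 492 492) (node 524 (merge (leaf 2 492 495) (node 559 (merge (leaf 0 524 560) (node 523 (merge (leaf 0 523 558) (node 554 (merge (leaf 1 522 555) (node 522 (merge (leaf 2 490 494) (leaf 1 521 553))))))))))))) (merge (node 525 (merge (leaf 3 492 492) (node 524 (merge (leaf 2 492 495) (node 559 (merge (leaf 0 524 560) (node 523 (merge (leaf 0 523 558) (node 554 (merge (leaf 1 522 555) (node 522 (merge (leaf 1 521 553) (node 490 (merge (leaf 3 489 489) (leaf 3 490 491))))))))))))))) (node 494 (merge (leaf 3 493 529) (node 462 (merge (node 559 (merge (leaf 4 430 430) (node 591 (merge (leaf 4 462 558) (leaf 6 495 623))))) (merge (node 430 (merge (leaf 4 430 559) (node 399 (merge (leaf 6 398 431) (node 398 (merge (leaf 6 366 367) (node 397 (merge (leaf 7 365 365) (leaf 7 397 429))))))))) (node 461 (merge (node 429 (merge (leaf 4 397 397) (node 558 (merge (leaf 7 429 462) (leaf 7 461 590))))) (merge (node 460 (merge (leaf 3 460 495) (node 459 (merge (leaf 0 458 458) (node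 491 (merge (leaf 1 458 490) (node 427 (merge (leaf 3 426 426) (node 428 (merge (leaf 3 427 463) (node 396 (merge (leaf 4 364 364) (leaf 6 395 523))))))))))))) (node 460 (merge (leaf 3 460 495) (node 459 (merge (leaf 0 458 458) (node 491 (merge (leaf 1 458 490) (node 427 (merge (leaf 3 426 426) (node 428 (merge (leaf 3 427 463) (node 396 (merge (leaf 4 364 364) (leaf 6 395 523))))))))))))))))))))))))) (node 557 (merge (node 556 (merge (leaf 1 524 525) (node 558 (merge (leaf 2 523 555) (leaf 2 524 559))))) (merge (node 525 (merge (leaf 1 524 556) (node 524 (merge (leaf 2 492 495) (node 492 (merge (leaf 3 491 491) (leaf 3 492 493))))))) (merge (node 525 (merge (node 524 (merge (leaf 2 492 495) (node 492 (merge (leaf 3 491 491) (leaf 3 492 493))))) (merge (node 462 (merge (node 494 (merge (leaf 5 429 430) (node 589 (merge (leaf 5 461 558) (leaf 6 493 621))))) (merge (node 493 (merge (leaf 3 492 492) (node 430 (merge (leaf 6 429 461) (leaf 5 429 494))))) (merge (node 493 (merge (leaf 3 492 492) (node 461 (merge (leaf 6 429 430) (node 558 (merge (leaf 4 429 429) (leaf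 4 461 590))))))) (node 493 (merge (leaf 3 492 492) (node 589 (merge (leaf 6 461 494) (node 590 (merge (leaf 4 493 622) (node 558 (merge (leaf 4 461 461) (node 588 (merge (leaf 5 492 620) (node 587 (merge (leaf 2 555 559) (leaf 2 554 586))))))))))))))))) (merge (node 524 (merge (leaf 2 492 495) (node 491 (merge (leaf 3 491 492) (node 523 (merge (leaf 3 490 490) (node 522 (merge (leaf 0 522 558) (node 554 (merge (leaf 1 521 553) (leaf 1 522 555))))))))))) (node 524 (merge (leaf 2 492 495) (node 559 (merge (leaf 0 524 560) (node 523 (merge (leaf 0 523 558) (node 554 (merge (leaf 1 522 555) (node 522 (merge (leaf 1 521 553) (node 490 (merge (leaf 3 489 489) (leaf 3 490 491))))))))))))))))) (node 558 (merge (node 556 (merge (leaf 2 523 555) (leaf 2 524 559))) (node 590 (merge (node 494 (merge (node 589 (merge (leaf 5 461 462) (leaf 5 493 621))) (node 493 (merge (leaf 7 461 461) (node 492 (merge (leaf 0 491 491) (leaf 0 492 495))))))) (merge (node 622 (merge (leaf 6 494 495) (node 655 (merge (leaf 4 526 623) (node 654 (merge (leaf 4 558 687) (node 653 (merge (leaf 5 525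 621) (leaf 5 557 685))))))))) (merge (node 622 (merge (leaf 6 494 495) (node 623 (merge (leaf 4 526 655) (node 591 (merge (leaf 4 494 494) (node 592 (merge (leaf 5 495 560) (node 593 (merge (leaf 3 557 557) (leaf 1 590 594))))))))))) (node 623 (merge (node 494 (merge (leaf 4 494 591) (node 589 (merge (leaf 5 493 621) (node 462 (merge (leaf 5 461 557) (node 461 (merge (leaf 7 429 429) (leaf 7 461 493))))))))) (merge (node 622 (merge (leaf 4 526 655) (node 621 (merge (leaf 5 525 653) (node 589 (merge (leaf 5 493 494) (node 624 (merge (leaf 3 588 588) (leaf 3 589 625))))))))) (node 655 (merge (leaf 4 526 622) (node 591 (merge (leaf 7 558 687) (node 592 (merge (leaf 5 495 560) (node 593 (merge (leaf 3 557 557) (node 626 (merge (leaf 0 590 625) (node 594 (merge (leaf 0 591 627) (node 595 (merge (leaf 1 591 624) (node 563 (merge (leaf 2 559 562) (leaf 2 560 564)))))))))))))))))))))))))))))))))))))))) nQ_39 cQ_39 14 (by decide +kernel)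
def nQ_40 : ℕ := 0x20000001a00000030000000000000000000000000000000000000000000000000000000000000000000000000000000000000000000000000000000000000000000000000000
def cQ_40 : ℕ := 0x5000000070000007f8000003fe000003fe000001de0000001f000000be000002fc000000700000007000000000000000000000000000000000000000000000000000000000000000000000000000000000000000000000000000
theorem lQ_40 : S nQ_40 cQ_40 12 := S_of_chk [] trivial (node 589 (merge (node 621 (merge (node 654 (merge (leaf 4 525 622) (node 653 (merge (leaf 4 557 686) (node 524 (merge (leaf 7 492 492) (leaf 7 524 556))))))) (merge (node 652 (merge (leaf 5 524 620) (node 653 (merge (leaf 5 556 684) (node 524 (merge (leaf 7 492 492) (leaf 7 524 556))))))) (node 622 (merge (leaf 4 525 654) (node 620 (merge (leaf 5 524 652) (node 588 (merge (leaf 5 492 493) (node 623 (merge (leaf 3 587 587) (leaf 3 588 624)))))))))))) (merge (node 621 (merge (node 654 (merge (leaf 4 525 622) (node 653 (merge (leaf 4 557 686) (node 524 (merge (leaf 7 492 492) (leaf 7 524 556))))))) (merge (node 652 (merge (leaf 5 524 620) (node 653 (merge (leaf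 5 556 684) (node 524 (merge (leaf 7 492 492) (leaf 7 524 556))))))) (node 622 (merge (leaf 4 525 654) (node 590 (merge (leaf 4 493 493) (node 620 (merge (leaf 5 524 652) (node 619 (merge (leaf 2 587 591) (leaf 2 586 618)))))))))))) (merge (node 493 (merge (node 620 (merge (leaf 5 492 588) (node 621 (merge (leaf 5 524 652) (node 492 (merge (leaf 7 460 460) (leaf 7 492 524))))))) (merge (node 590 (merge (leaf 4 493 622) (node 558 (merge (leaf 4 461 461) (node 588 (merge (leaf 5 492 620) (node 587 (merge (leaf 2 555 559) (leaf 2 554 586))))))))) (node 590 (merge (leaf 4 493 622) (node 461 (merge (leaf 4 461 558) (node 430 (merge (leaf 6 429 462) (node 429 (merge (leaf 6 397 398) (node 492 (merge (leaf 7 460 460) (node 524 (merge (leaf 5 396 397) (leaf 7 492 621)))))))))))))))) (merge (node 622 (merge (node 590 (merge (leaf 4 493 493) (node 654 (merge (leaf 4 525 621) (leaf 7 557 686))))) (merge (node 493 (merge (leaf 4 493 590) (node 588 (merge (leaf 5 492 620) (node 461 (merge (leaf 5 460 556) (node 460 (merge (leaf 7 428 428) (leaf 7 460 492))))))))) (merge (node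 621 (merge (leaf 4 525 654) (node 620 (merge (leaf 5 524 652) (node 588 (merge (leaf 5 492 493) (node 623 (merge (leaf 3 587 587) (leaf 3 588 624))))))))) (node 621 (merge (leaf 4 525 654) (node 652 (merge (leaf 5 524 620) (node 653 (merge (leaf 5 556 684) (node 623 (merge (leaf 1 620 624) (node 591 (merge (leaf 6 495 559) (node 592 (merge (leaf 5 495 560) (node 590 (merge (leaf 3 556 556) (leaf 1 589 593))))))))))))))))))) (merge (node 493 (merge (node 588 (merge (leaf 5 492 620) (node 461 (merge (leaf 5 460 556) (node 430 (merge (leaf 6 429 462) (node 429 (merge (leaf 6 397 398) (node 428 (merge (leaf 7 396 396) (leaf 7 428 460))))))))))) (merge (node 622 (merge (leaf 4 493 590) (node 621 (merge (leaf 4 525 654) (node 588 (merge (leaf 5 492 620) (node 623 (merge (leaf 3 588 624) (node 559 (merge (leaf 6 495 591) (node 556 (merge (leaf 2 524 558) (node 653 (merge (leaf 7 524 524) (leaf 7 556 685))))))))))))))) (merge (node 590 (merge (leaf 4 493 622) (node 461 (merge (leaf 4 461 558) (node 430 (merge (leaf 6 429 462) (node 429 (merge (leaf 6 397 398) (node 428 (merge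 (leaf 7 396 396) (leaf 7 428 460))))))))))) (node 590 (merge (leaf 4 493 622) (node 461 (merge (leaf 4 461 558) (node 430 (merge (leaf 6 429 462) (node 429 (merge (leaf 6 397 398) (node 556 (merge (leaf 5 428 524) (node 592 (merge (leaf 3 556 591) (node 560 (merge (leaf 6 464 465) (node 495 (merge (leaf 7 463 463) (leaf 7 495 624))))))))))))))))))))) (merge (node 621 (merge (node 620 (merge (leaf 5 524 652) (node 493 (merge (leaf 5 492 588) (node 460 (merge (leaf 7 460 492) (node 461 (merge (leaf 7 428 428) (node 590 (merge (leaf 4 461 558) (node 592 (merge (leaf 1 588 591) (node 560 (merge (leaf 6 464 465) (node 495 (merge (leaf 7 463 463) (leaf 7 495 624))))))))))))))))) (merge (node 524 (merge (leaf 7 492 492) (node 653 (merge (leaf 7 524 556) (node 686 (merge (leaf 4 557 654) (node 685 (merge (leaf 4 589 718) (node 558 (merge (leaf 6 557 590) (node 560 (merge (leaf 3 524 559) (node 592 (merge (leaf 6 464 465) (node 623 (merge (leaf 5 495 591) (node 624 (merge (leaf 7 495 495) (leaf 5 527 655))))))))))))))))))) (node 652 (merge (leaf 5 524 620) (node 653 (merge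 (leaf 5 556 684) (node 556 (merge (leaf 7 524 524) (node 685 (merge (leaf 7 556 588) (node 686 (merge (leaf 4 557 654) (leaf 4 589 718)))))))))))))) (merge (node 492 (merge (node 460 (merge (leaf 7 460 493) (node 524 (merge (leaf 4 428 428) (leaf 4 460 556))))) (merge (node 493 (merge (leaf 7 460 460) (node 622 (merge (leaf 4 493 590) (node 621 (merge (leaf 7 492 524) (leaf 4 525 654))))))) (merge (node 621 (merge (leaf 7 492 524) (node 654 (merge (leaf 4 525 622) (node 653 (merge (leaf 4 557 686) (node 684 (merge (leaf 5 556 652) (node 685 (merge (leaf 5 588 716) (node 556 (merge (leaf 7 556 588) (node 558 (merge (leaf 2 524 559) (leaf 6 557 590))))))))))))))) (node 493 (merge (leaf 7 460 460) (node 590 (merge (leaf 4 493 622) (node 461 (merge (leaf 4 461 558) (node 556 (merge (leaf 5 460 588) (node 592 (merge (leaf 3 556 591) (node 560 (merge (leaf 6 464 465) (node 495 (merge (leaf 7 463 463) (leaf 7 495 624))))))))))))))))))) (merge (node 590 (merge (node 622 (merge (leaf 4 493 493) (node 654 (merge (leaf 7 525 558) (leaf 7 557 686))))) (merge (node 493 (merge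 (leaf 4 493 622) (node 588 (merge (leaf 5 492 620) (node 461 (merge (leaf 5 460 556) (node 460 (merge (leaf 7 428 428) (leaf 7 460 492))))))))) (merge (node 591 (merge (node 592 (merge (leaf 3 556 556) (node 560 (merge (leaf 6 464 465) (leaf 5 495 623))))) (merge (node 623 (merge (leaf 6 495 559) (node 588 (merge (leaf 0 588 624) (node 493 (merge (leaf 5 492 620) (node 461 (merge (leaf 5 460 556) (leaf 4 461 558))))))))) (merge (node 623 (merge (leaf 6 495 559) (node 588 (merge (leaf 0 588 624) (node 493 (merge (leaf 5 492 620) (node 461 (merge (leaf 4 461 558) (node 460 (merge (leaf 7 428 428) (leaf 7 460 492))))))))))) (node 592 (merge (leaf 3 556 556) (node 624 (merge (leaf 0 589 625) (node 560 (merge (leaf 6 464 465) (leaf 7 495 495))))))))))) (node 591 (merge (node 592 (merge (leaf 3 556 556) (node 560 (merge (leaf 6 464 465) (leaf 5 495 623))))) (merge (node 592 (merge (leaf 3 556 556) (node 624 (merge (leaf 0 589 625) (node 560 (merge (leaf 6 464 465) (leaf 7 495 495))))))) (merge (node 623 (merge (leaf 6 495 559) (node 588 (merge (leaf 0 588 624) (node 587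 (merge (leaf 0 587 622) (node 586 (merge (leaf 2 554 558) (node 556 (merge (leaf 3 555 555) (leaf 2 553 585))))))))))) (node 623 (merge (leaf 6 495 559) (node 588 (merge (leaf 0 588 624) (node 587 (merge (leaf 0 587 622) (node 586 (merge (leaf 2 554 558) (node 554 (merge (leaf 3 553 553) (leaf 3 554 555))))))))))))))))))) (node 556 (merge (node 559 (merge (leaf 2 524 558) (node 591 (merge (leaf 6 495 623) (node 592 (merge (leaf 3 556 590) (node 624 (merge (leaf 4 495 495) (node 560 (merge (leaf 6 464 465) (leaf 7 527 656))))))))))) (merge (node 621 (merge (node 653 (merge (leaf 7 524 524) (node 685 (merge (leaf 7 556 588) (node 684 (merge (leaf 5 556 652) (leaf 5 588 716))))))) (merge (node 654 (merge (leaf 4 525 622) (node 653 (merge (leaf 4 557 686) (node 524 (merge (leaf 7 492 492) (leaf 7 524 556))))))) (merge (node 654 (merge (leaf 4 525 622) (node 653 (merge (leaf 4 557 686) (node 652 (merge (leaf 5 524 620) (leaf 5 556 684))))))) (node 558 (merge (leaf 2 524 559) (node 622 (merge (leaf 4 525 654) (node 620 (merge (leaf 5 524 652) (node 524 (merge (leaf 7 492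 492) (node 523 (merge (leaf 0 522 522) (node 588 (merge (leaf 7 491 491) (node 587 (merge (leaf 0 586 586) (leaf 3 587 623))))))))))))))))))) (merge (node 621 (merge (node 653 (merge (leaf 7 524 524) (node 685 (merge (leaf 7 556 588) (node 684 (merge (leaf 5 556 652) (leaf 5 588 716))))))) (merge (node 654 (merge (leaf 4 525 622) (node 653 (merge (leaf 4 557 686) (node 524 (merge (leaf 7 492 492) (leaf 7 524 556))))))) (merge (node 654 (merge (leaf 4 525 622) (node 653 (merge (leaf 4 557 686) (node 652 (merge (leaf 5 524 620) (leaf 5 556 684))))))) (node 558 (merge (leaf 2 524 559) (node 620 (merge (leaf 5 524 652) (node 524 (merge (leaf 7 492 492) (node 523 (merge (leaf 0 522 522) (node 588 (merge (leaf 7 491 491) (node 619 (merge (leaf 5 523 651) (node 590 (merge (leaf 1 587 591) (leaf 2 586 618))))))))))))))))))) (merge (node 623 (merge (node 591 (merge (leaf 6 495 559) (node 592 (merge (leaf 5 495 560) (leaf 3 556 590))))) (merge (node 621 (merge (node 653 (merge (leaf 7 524 524) (node 652 (merge (leaf 5 524 620) (leaf 5 556 684))))) (merge (node 653 (merge (leaf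 7 524 524) (node 685 (merge (leaf 7 556 588) (node 686 (merge (leaf 4 557 654) (leaf 4 589 718))))))) (node 622 (merge (leaf 4 525 654) (node 624 (merge (leaf 3 588 588) (node 657 (merge (leaf 0 621 656) (node 625 (merge (leaf 3 589 590) (leaf 0 622 658)))))))))))) (node 621 (merge (node 653 (merge (leaf 7 524 524) (node 652 (merge (leaf 5 524 620) (leaf 5 556 684))))) (merge (node 622 (merge (leaf 4 525 654) (node 624 (merge (leaf 3 588 588) (node 592 (merge (leaf 2 589 593) (node 620 (merge (leaf 2 588 591) (leaf 5 524 652))))))))) (node 653 (merge (leaf 7 524 524) (node 685 (merge (leaf 7 556 588) (node 686 (merge (leaf 4 557 654) (leaf 4 589 718))))))))))))) (node 555 (merge (node 554 (merge (leaf 0 554 590) (node 553 (merge (leaf 2 521 524) (leaf 0 553 588))))) (merge (node 554 (merge (leaf 0 554 590) (node 586 (merge (leaf 1 553 585) (node 558 (merge (leaf 1 554 587) (node 522 (merge (leaf 3 521 521) (leaf 3 522 523))))))))) (merge (node 524 (merge (node 621 (merge (leaf 7 492 492) (leaf 7 524 653))) (merge (node 554 (merge (leaf 2 521 553) (node 586 (merge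 (leaf 1 553 585) (node 558 (merge (leaf 1 554 587) (node 522 (merge (leaf 3 521 521) (leaf 0 522 523))))))))) (node 554 (merge (leaf 2 521 553) (node 586 (merge (leaf 1 553 585) (node 558 (merge (leaf 1 554 587) (node 522 (merge (leaf 3 521 521) (leaf 0 522 523)))))))))))) (node 523 (merge (node 522 (merge (leaf 3 522 558) (node 521 (merge (leaf 0 520 520) (leaf 0 521 524))))) (merge (node 558 (merge (leaf 3 522 522) (node 590 (merge (leaf 0 555 591) (node 622 (merge (leaf 7 525 654) (node 587 (merge (leaf 1 554 586) (node 588 (merge (leaf 0 587 623) (node 620 (merge (leaf 4 491 491) (leaf 7 523 652))))))))))))) (merge (node 524 (merge (node 621 (merge (leaf 7 492 492) (leaf 7 524 653))) (merge (node 621 (merge (leaf 7 524 653) (node 620 (merge (leaf 5 524 652) (node 588 (merge (leaf 7 491 491) (node 619 (merge (leaf 5 523 651) (node 618 (merge (leaf 2 586 590) (leaf 2 585 617))))))))))) (node 492 (merge (leaf 4 460 460) (node 587 (merge (leaf 6 491 619) (node 586 (merge (leaf 1 554 558) (node 491 (merge (leaf 5 490 618) (node 490 (merge (leaf 7 458 458) (leaf 0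 489 489)))))))))))))) (node 524 (merge (node 621 (merge (leaf 7 492 492) (leaf 7 524 653))) (merge (node 621 (merge (leaf 7 524 653) (node 620 (merge (leaf 5 524 652) (node 588 (merge (leaf 7 491 491) (node 619 (merge (leaf 5 523 651) (node 618 (merge (leaf 2 586 590) (leaf 2 585 617))))))))))) (node 522 (merge (leaf 0 521 521) (node 490 (merge (leaf 3 489 489) (node 587 (merge (leaf 7 490 619) (node 491 (merge (leaf 7 458 458) (node 588 (merge (leaf 4 459 459) (leaf 4 491 620)))))))))))))))))))))))))))))))))))) nQ_40 cQ_40 12 (by decide +kernel)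
def nQ_41 : ℕ := 0x20000001800000030000000000000000000000000000000000000000000000000000000000000000000000000000000000000000000000000000000000000000000000000000
def cQ_41 : ℕ := 0x500000007c000007fc00000ffe000007ff000001df0000063f000000bf000002dc000000c0000000c000000000000000000000000000000000000000000000000000000000000000000000000000000000000000000000000000
theorem lQ_41 : S nQ_41 cQ_41 13 := S_of_chk [] trivial (node 591 (merge (node 559 (merge (leaf 6 495 623) (node 558 (merge (leaf 2 524 556) (node 529 (merge (leaf 1 526 530) (leaf 2 525 560))))))) (merge (node 592 (merge (node 560 (merge (leaf 6 464 465) (leaf 5 495 623))) (merge (node 560 (merge (leaf 6 464 465) (node 624 (merge (leaf 7 495 495) (leaf 6 496 529))))) (node 559 (merge (leaf 6 495 623) (node 495 (merge (leaf 4 495 624) (node 590 (merge (leaf 5 494 622) (node 463 (merge (leaf 5 462 558) (node 431 (merge (leaf 4 399 399) (node 430 (merge (leaf 7 398 398) (leaf 7 430 462)))))))))))))))) (merge (node 592 (merge (node 560 (merge (leaf 6 464 465) (node 624 (merge (leaf 7 495 495) (leaf 6 496 529)))))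 (merge (node 560 (merge (leaf 6 464 465) (node 593 (merge (leaf 4 496 625) (node 558 (merge (leaf 0 557 559) (leaf 3 557 590))))))) (node 590 (merge (node 556 (merge (leaf 3 556 589) (node 558 (merge (leaf 0 555 555) (leaf 0 556 559))))) (merge (node 558 (merge (leaf 3 557 593) (node 556 (merge (leaf 0 555 555) (leaf 0 556 559))))) (merge (node 589 (merge (leaf 3 556 556) (node 621 (merge (leaf 1 588 620) (node 622 (merge (leaf 1 589 593) (node 654 (merge (leaf 4 525 525) (leaf 7 557 686))))))))) (node 495 (merge (node 559 (merge (leaf 5 494 622) (leaf 4 495 624))) (merge (node 559 (merge (leaf 5 494 622) (node 463 (merge (leaf 5 462 558) (node 431 (merge (leaf 4 399 399) (node 430 (merge (leaf 7 398 398) (leaf 7 430 462))))))))) (merge (node 559 (merge (leaf 4 495 624) (node 463 (merge (leaf 5 462 558) (node 431 (merge (leaf 4 399 399) (node 430 (merge (leaf 7 398 398) (leaf 7 430 462))))))))) (node 593 (merge (leaf 3 557 558) (node 625 (merge (leaf 0 590 626) (node 589 (merge (leaf 0 589 624) (node 621 (merge (leaf 1 588 620) (leaf 1 589 622))))))))))))))))))))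 (merge (node 592 (merge (node 560 (merge (leaf 6 464 465) (leaf 5 495 623))) (merge (node 560 (merge (leaf 6 464 465) (node 624 (merge (leaf 7 495 495) (leaf 6 496 529))))) (node 590 (merge (node 589 (merge (leaf 3 556 556) (node 625 (merge (leaf 0 589 624) (node 593 (merge (leaf 3 557 558) (leaf 0 590 626))))))) (merge (node 593 (merge (leaf 3 557 558) (node 626 (merge (leaf 0 590 625) (node 594 (merge (leaf 0 591 627) (node 622 (merge (leaf 1 589 621) (leaf 1 590 623))))))))) (merge (node 589 (merge (leaf 3 556 556) (node 625 (merge (leaf 0 589 624) (node 593 (merge (leaf 0 590 626) (node 621 (merge (leaf 1 588 620) (leaf 1 589 622))))))))) (node 589 (merge (leaf 3 556 556) (node 620 (merge (leaf 1 588 621) (node 588 (merge (leaf 1 587 619) (node 623 (merge (leaf 0 588 624) (node 587 (merge (leaf 0 587 622) (node 586 (merge (leaf 2 554 558) (node 554 (merge (leaf 3 553 553) (leaf 3 554 555)))))))))))))))))))))) (merge (node 589 (merge (node 623 (merge (leaf 6 495 559) (node 592 (merge (leaf 5 495 560) (node 590 (merge (leaf 3 556 556) (node 624 (merge (leaf 0 588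 588) (leaf 0 589 625))))))))) (merge (node 623 (merge (leaf 6 495 559) (node 592 (merge (leaf 5 495 560) (node 590 (merge (leaf 3 556 556) (node 621 (merge (leaf 1 588 620) (node 622 (merge (leaf 1 589 593) (node 654 (merge (leaf 4 525 525) (leaf 7 557 686))))))))))))) (merge (node 592 (merge (node 560 (merge (leaf 6 464 465) (leaf 5 495 623))) (node 590 (merge (leaf 3 556 556) (node 625 (merge (leaf 0 589 624) (node 593 (merge (leaf 0 590 626) (node 621 (merge (leaf 1 588 620) (leaf 1 589 622))))))))))) (merge (node 592 (merge (node 560 (merge (leaf 6 464 465) (node 624 (merge (leaf 7 495 495) (leaf 6 496 529))))) (merge (node 590 (merge (leaf 3 556 556) (node 625 (merge (leaf 0 589 624) (node 593 (merge (leaf 0 590 626) (node 621 (merge (leaf 1 588 620) (leaf 1 589 622))))))))) (node 590 (merge (leaf 3 556 556) (node 560 (merge (leaf 6 464 465) (node 559 (merge (leaf 2 556 588) (node 495 (merge (leaf 4 463 463) (leaf 5 494 622)))))))))))) (merge (node 592 (merge (node 560 (merge (leaf 6 464 465) (leaf 5 495 623))) (merge (node 560 (merge (leaf 6 464 465) (node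 624 (merge (leaf 7 495 495) (leaf 6 496 529))))) (node 559 (merge (leaf 6 495 623) (node 624 (merge (leaf 4 495 495) (node 590 (merge (leaf 0 589 625) (node 621 (merge (leaf 1 588 620) (node 622 (merge (leaf 1 589 593) (node 654 (merge (leaf 4 525 525) (leaf 7 557 686)))))))))))))))) (merge (node 621 (merge (node 623 (merge (leaf 6 495 559) (node 592 (merge (leaf 5 495 560) (node 622 (merge (leaf 2 588 620) (node 624 (merge (leaf 3 588 588) (leaf 2 589 593))))))))) (merge (node 653 (merge (node 556 (merge (leaf 7 524 524) (node 685 (merge (leaf 7 556 588) (node 686 (merge (leaf 4 557 654) (leaf 4 589 718))))))) (merge (node 654 (merge (leaf 4 557 686) (node 525 (merge (leaf 4 525 622) (node 652 (merge (leaf 5 524 620) (leaf 5 556 684))))))) (node 556 (merge (leaf 7 524 524) (node 685 (merge (leaf 7 556 588) (node 684 (merge (leaf 5 556 652) (leaf 5 588 716)))))))))) (merge (node 623 (merge (leaf 6 495 559) (node 592 (merge (leaf 5 495 560) (node 620 (merge (leaf 2 588 622) (node 652 (merge (leaf 5 524 525) (node 684 (merge (leaf 5 556 653) (leaf 6 588 716)))))))))))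 (merge (node 653 (merge (node 556 (merge (leaf 7 524 524) (node 685 (merge (leaf 7 556 588) (node 686 (merge (leaf 4 557 654) (leaf 4 589 718))))))) (merge (node 556 (merge (leaf 7 524 524) (node 685 (merge (leaf 7 556 588) (node 684 (merge (leaf 5 556 652) (leaf 5 588 716))))))) (node 654 (merge (leaf 4 557 686) (node 622 (merge (leaf 4 525 525) (node 652 (merge (leaf 5 556 684) (node 623 (merge (leaf 1 620 624) (leaf 2 619 651)))))))))))) (node 559 (merge (leaf 6 495 623) (node 653 (merge (node 556 (merge (leaf 7 524 524) (node 685 (merge (leaf 7 556 588) (node 686 (merge (leaf 4 557 654) (leaf 4 589 718))))))) (merge (node 556 (merge (leaf 7 524 524) (node 685 (merge (leaf 7 556 588) (node 684 (merge (leaf 5 556 652) (leaf 5 588 716))))))) (node 654 (merge (leaf 4 557 686) (node 652 (merge (leaf 5 556 684) (node 620 (merge (leaf 5 524 525) (node 655 (merge (leaf 3 619 619) (leaf 3 620 656))))))))))))))))))) (merge (node 590 (merge (node 592 (merge (leaf 3 556 556) (node 624 (merge (leaf 0 589 625) (node 559 (merge (leaf 4 495 495) (leaf 6 495 623))))))) (merge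 (node 592 (merge (leaf 3 556 556) (node 625 (merge (leaf 0 589 624) (node 593 (merge (leaf 0 590 626) (node 621 (merge (leaf 1 588 620) (leaf 1 589 622))))))))) (merge (node 592 (merge (leaf 3 556 556) (node 621 (merge (leaf 1 588 620) (node 622 (merge (leaf 1 589 593) (node 559 (merge (leaf 5 494 495) (leaf 6 495 623))))))))) (merge (node 623 (merge (leaf 6 495 559) (node 588 (merge (leaf 0 588 624) (node 622 (merge (leaf 0 587 587) (node 654 (merge (leaf 7 557 686) (node 525 (merge (leaf 4 493 493) (leaf 4 525 621))))))))))) (node 623 (merge (leaf 6 495 559) (node 588 (merge (leaf 0 588 624) (node 620 (merge (leaf 1 587 619) (node 621 (merge (leaf 1 588 592) (node 525 (merge (leaf 5 492 493) (leaf 5 524 652)))))))))))))))) (node 590 (merge (node 559 (merge (leaf 6 495 623) (node 622 (merge (leaf 5 494 495) (node 654 (merge (leaf 7 557 686) (node 525 (merge (leaf 4 493 493) (leaf 4 525 621))))))))) (merge (node 623 (merge (leaf 6 495 559) (node 588 (merge (leaf 0 588 624) (node 620 (merge (leaf 1 587 619) (node 556 (merge (leaf 3 555 555) (node 652 (merge (leaf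 6 524 525) (leaf 6 556 684))))))))))) (merge (node 623 (merge (leaf 6 495 559) (node 588 (merge (leaf 0 588 624) (node 622 (merge (leaf 0 587 587) (node 620 (merge (leaf 1 587 619) (node 556 (merge (leaf 3 555 555) (node 652 (merge (leaf 6 556 684) (node 651 (merge (leaf 1 619 621) (leaf 5 555 683))))))))))))))) (merge (node 622 (merge (node 654 (merge (leaf 7 557 686) (node 525 (merge (leaf 4 493 493) (leaf 4 525 621))))) (merge (node 559 (merge (leaf 5 494 495) (node 588 (merge (leaf 2 556 560) (node 620 (merge (leaf 1 587 619) (node 556 (merge (leaf 3 555 555) (node 652 (merge (leaf 6 524 525) (leaf 6 556 684))))))))))) (node 559 (merge (leaf 5 494 495) (node 588 (merge (leaf 2 556 560) (node 619 (merge (leaf 1 587 620) (node 587 (merge (leaf 1 586 618) (node 586 (merge (leaf 0 586 621) (node 556 (merge (leaf 3 555 555) (leaf 2 553 585)))))))))))))))) (node 588 (merge (node 620 (merge (leaf 1 587 619) (node 556 (merge (leaf 3 555 555) (node 652 (merge (leaf 6 524 525) (leaf 6 556 684))))))) (merge (node 623 (merge (leaf 0 588 624) (node 622 (merge (leaf 0 587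 587) (node 654 (merge (leaf 7 557 686) (node 525 (merge (leaf 4 493 493) (leaf 4 525 621))))))))) (merge (node 620 (merge (leaf 1 587 619) (node 525 (merge (leaf 5 492 493) (node 652 (merge (leaf 5 524 621) (leaf 6 556 684))))))) (node 620 (merge (leaf 1 587 619) (node 556 (merge (leaf 3 555 555) (node 652 (merge (leaf 6 556 684) (node 653 (merge (leaf 4 556 685) (node 621 (merge (leaf 7 524 524) (node 651 (merge (leaf 5 555 683) (node 622 (merge (leaf 1 619 623) (leaf 2 618 650)))))))))))))))))))))))))))))))) (node 556 (merge (node 559 (merge (leaf 2 524 558) (leaf 6 495 623))) (merge (node 558 (merge (leaf 2 524 559) (node 590 (merge (leaf 0 555 555) (node 592 (merge (leaf 3 556 589) (leaf 3 557 593))))))) (merge (node 589 (merge (node 590 (merge (leaf 3 556 592) (node 588 (merge (leaf 3 555 555) (node 623 (merge (leaf 6 495 559) (leaf 0 588 624))))))) (merge (node 590 (merge (leaf 3 556 592) (node 588 (merge (leaf 3 555 555) (node 620 (merge (leaf 1 587 619) (node 652 (merge (leaf 6 524 525) (leaf 6 556 684))))))))) (merge (node 590 (merge (node 588 (merge (leaf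 3 555 555) (node 620 (merge (leaf 1 587 619) (node 652 (merge (leaf 6 524 525) (leaf 6 556 684))))))) (merge (node 559 (merge (leaf 6 495 623) (node 622 (merge (leaf 5 494 495) (node 654 (merge (leaf 7 557 686) (node 525 (merge (leaf 4 493 493) (leaf 4 525 621))))))))) (merge (node 588 (merge (leaf 3 555 555) (node 623 (merge (leaf 6 495 559) (leaf 0 588 624))))) (node 623 (merge (leaf 6 495 559) (node 588 (merge (leaf 0 588 624) (node 620 (merge (leaf 1 587 619) (node 525 (merge (leaf 5 492 493) (leaf 6 524 652))))))))))))) (merge (node 590 (merge (leaf 3 556 592) (node 559 (merge (leaf 6 495 623) (node 622 (merge (leaf 5 494 495) (node 654 (merge (leaf 7 557 686) (node 525 (merge (leaf 4 493 493) (leaf 4 525 621))))))))))) (node 621 (merge (node 653 (merge (leaf 7 524 524) (node 685 (merge (leaf 7 556 588) (node 686 (merge (leaf 4 557 654) (leaf 4 589 718))))))) (merge (node 653 (merge (leaf 7 524 524) (node 685 (merge (leaf 7 556 588) (node 684 (merge (leaf 5 556 652) (leaf 5 588 716))))))) (merge (node 653 (merge (leaf 7 524 524) (node 654 (merge (leaf 4 557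 686) (node 652 (merge (leaf 5 556 684) (node 620 (merge (leaf 5 524 525) (node 655 (merge (leaf 3 619 619) (leaf 3 620 656))))))))))) (merge (node 652 (merge (node 620 (merge (leaf 5 524 525) (node 684 (merge (leaf 6 556 588) (leaf 6 588 716))))) (merge (node 653 (merge (leaf 5 556 684) (node 685 (merge (leaf 7 556 588) (node 686 (merge (leaf 4 557 654) (leaf 4 589 718))))))) (merge (node 620 (merge (leaf 5 524 525) (node 653 (merge (leaf 5 556 684) (node 654 (merge (leaf 4 557 686) (node 655 (merge (leaf 3 619 619) (leaf 3 620 656))))))))) (node 525 (merge (leaf 5 524 620) (node 622 (merge (leaf 4 525 654) (node 623 (merge (leaf 6 495 559) (node 624 (merge (leaf 3 588 588) (leaf 1 620 653))))))))))))) (node 622 (merge (node 623 (merge (leaf 6 495 559) (node 592 (merge (leaf 2 588 620) (node 624 (merge (leaf 3 588 588) (leaf 2 589 593))))))) (merge (node 525 (merge (leaf 4 525 654) (node 620 (merge (leaf 5 524 652) (node 623 (merge (leaf 6 495 559) (leaf 2 588 592))))))) (merge (node 525 (merge (leaf 4 525 654) (node 620 (merge (leaf 5 524 652) (node 588 (merge (leaf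 5 492 493) (node 586 (merge (leaf 0 586 587) (node 524 (merge (leaf 4 492 492) (node 619 (merge (leaf 5 523 651) (node 618 (merge (leaf 3 585 585) (leaf 2 585 617))))))))))))))) (node 623 (merge (leaf 6 495 559) (node 624 (merge (leaf 3 588 588) (node 657 (merge (leaf 0 621 656) (node 625 (merge (leaf 0 622 658) (node 593 (merge (leaf 2 589 592) (leaf 2 590 594))))))))))))))))))))))))) (node 555 (merge (node 590 (merge (leaf 0 555 558) (node 589 (merge (leaf 3 555 588) (leaf 3 556 592))))) (merge (node 558 (merge (leaf 0 555 590) (node 586 (merge (leaf 1 554 587) (node 554 (merge (leaf 1 553 585) (node 522 (merge (leaf 3 521 521) (leaf 3 522 523))))))))) (merge (node 589 (merge (node 590 (merge (leaf 0 554 554) (leaf 3 556 592))) (merge (node 590 (merge (leaf 0 554 554) (leaf 3 555 588))) (merge (node 590 (merge (leaf 3 556 592) (node 588 (merge (leaf 3 555 555) (node 620 (merge (leaf 1 587 619) (node 652 (merge (leaf 6 524 525) (leaf 6 556 684))))))))) (node 621 (merge (node 653 (merge (leaf 7 524 524) (node 685 (merge (leaf 7 556 588) (node 686 (merge (leaf 4 557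 654) (leaf 4 589 718))))))) (merge (node 653 (merge (leaf 7 524 524) (node 685 (merge (leaf 7 556 588) (node 684 (merge (leaf 5 556 652) (leaf 5 588 716))))))) (merge (node 653 (merge (leaf 7 524 524) (node 654 (merge (leaf 4 557 686) (node 652 (merge (leaf 5 556 684) (node 620 (merge (leaf 5 524 525) (node 655 (merge (leaf 3 619 619) (leaf 3 620 656))))))))))) (merge (node 653 (merge (node 685 (merge (leaf 7 556 588) (node 686 (merge (leaf 4 557 654) (leaf 4 589 718))))) (merge (node 685 (merge (leaf 7 556 588) (node 684 (merge (leaf 5 556 652) (leaf 5 588 716))))) (node 654 (merge (leaf 4 557 686) (node 525 (merge (leaf 4 525 622) (node 652 (merge (leaf 5 524 620) (leaf 5 556 684)))))))))) (node 588 (merge (node 554 (merge (leaf 0 553 553) (node 586 (merge (leaf 1 553 585) (node 587 (merge (leaf 0 586 622) (node 522 (merge (leaf 3 521 521) (node 619 (merge (leaf 4 490 490) (leaf 7 522 651))))))))))) (merge (node 620 (merge (node 652 (merge (leaf 7 523 523) (leaf 6 556 684))) (merge (node 652 (merge (leaf 5 524 525) (leaf 6 556 684))) (node 525 (merge (leaf 5 492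 493) (node 622 (merge (leaf 4 525 654) (node 623 (merge (leaf 2 588 592) (leaf 3 588 624)))))))))) (node 491 (merge (node 524 (merge (leaf 4 492 492) (node 620 (merge (leaf 7 491 523) (node 652 (merge (leaf 5 524 525) (leaf 6 556 684))))))) (node 554 (merge (leaf 0 553 553) (node 586 (merge (leaf 1 553 585) (node 522 (merge (leaf 3 521 521) (node 490 (merge (leaf 6 458 459) (node 587 (merge (leaf 4 458 458) (leaf 4 490 619))))))))))))))))))))))))) (node 523 (merge (node 522 (merge (leaf 3 522 558) (node 521 (merge (leaf 0 520 520) (leaf 0 521 524))))) (merge (node 522 (merge (leaf 3 522 558) (node 554 (merge (leaf 3 521 521) (node 586 (merge (leaf 1 553 585) (node 618 (merge (leaf 6 490 491) (leaf 6 522 650))))))))) (merge (node 587 (merge (node 586 (merge (leaf 1 554 558) (node 585 (merge (leaf 1 553 554) (leaf 2 552 584))))) (node 620 (merge (node 588 (merge (leaf 4 491 491) (leaf 7 523 652))) (merge (node 619 (merge (leaf 4 523 652) (node 650 (merge (leaf 5 522 618) (node 651 (merge (leaf 6 523 524) (leaf 5 554 682))))))) (node 491 (merge (leaf 4 491 588) (node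 492 (merge (leaf 6 459 460) (node 524 (merge (leaf 6 491 619) (node 490 (merge (leaf 7 458 458) (node 489 (merge (leaf 0 488 488) (leaf 0 489 525)))))))))))))))) (node 554 (merge (node 521 (merge (leaf 3 521 522) (node 553 (merge (leaf 3 520 520) (node 524 (merge (leaf 2 521 525) (leaf 2 520 552))))))) (merge (node 585 (merge (leaf 1 553 586) (node 553 (merge (leaf 1 552 584) (node 524 (merge (leaf 2 521 525) (leaf 2 520 552))))))) (node 586 (merge (leaf 1 553 585) (node 618 (merge (leaf 6 522 650) (node 491 (merge (leaf 6 490 522) (leaf 5 490 587)))))))))))))))))))))))))))) nQ_41 cQ_41 13 (by decide +kernel)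
def nQ_42 : ℕ := 0x1800000030000000000000000000000000000000000000000000000000000000000000000000000000000000000000000000000000000000000000000000000000000
def cQ_42 : ℕ := 0x4000000070000000fc000007fc00001ffe00000fff00001dff0000067f000000bf000002fc000000f0000000f000000000000000000000000000000000000000000000000000000000000000000000000000000000000000000000000000
theorem lQ_42 : S nQ_42 cQ_42 14 := S_of_chk [(nQ_40, cQ_40, 12), (nQ_41, cQ_41, 13)] ⟨lQ_40, lQ_41, trivial⟩ (node 557 (merge (node 526 (merge (leaf 2 493 525) (node 558 (merge (leaf 1 525 529) (node 556 (merge (leaf 2 523 555) (leaf 2 524 559))))))) (merge (node 526 (merge (leaf 2 493 525) (node 558 (merge (leaf 1 525 529) (node 590 (merge (node 622 (merge (leaf 6 494 495) (node 654 (merge (leaf 6 526 559) (node 686 (merge (leaf 7 557 589) (node 685 (merge (leaf 5 557 653) (leaf 5 589 717))))))))) (merge (node 622 (merge (leaf 6 494 495) (node 655 (merge (leaf 4 526 623) (node 654 (merge (leaf 4 558 687) (node 653 (merge (leaf 5 525 621) (leaf 5 557 685))))))))) (merge (node 622 (merge (node 655 (merge (leaf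 4 526 623) (node 654 (merge (leaf 6 526 559) (leaf 4 558 687))))) (merge (node 653 (merge (leaf 5 525 621) (node 654 (merge (leaf 6 526 559) (leaf 5 557 685))))) (merge (node 655 (merge (leaf 4 526 623) (node 654 (merge (leaf 4 558 687) (node 653 (merge (leaf 5 525 621) (leaf 5 557 685))))))) (node 623 (merge (leaf 4 526 655) (node 621 (merge (leaf 5 525 653) (node 591 (merge (leaf 6 495 559) (node 620 (merge (leaf 2 588 592) (leaf 2 587 619))))))))))))) (node 592 (merge (node 560 (merge (leaf 6 464 465) (node 625 (merge (leaf 4 496 593) (node 624 (merge (leaf 7 495 495) (leaf 4 528 657))))))) (merge (node 591 (merge (leaf 3 557 593) (node 559 (merge (leaf 6 495 623) (node 495 (merge (leaf 5 462 463) (leaf 4 495 624))))))) (merge (node 591 (merge (leaf 3 557 593) (node 560 (merge (leaf 6 464 465) (leaf 5 495 623))))) (merge (node 560 (merge (leaf 6 464 465) (node 623 (merge (leaf 5 495 591) (node 624 (merge (leaf 7 495 495) (leaf 5 527 655))))))) (node 560 (merge (leaf 6 464 465) (node 625 (merge (leaf 4 496 593) (node 624 (merge (leaf 4 528 657) (node 623 (merge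 (leaf 5 495 591) (leaf 5 527 655)))))))))))))))))))))) (merge (node 592 (merge (node 560 (merge (leaf 6 464 465) (node 624 (merge (leaf 7 495 495) (leaf 6 496 529))))) (merge (node 560 (merge (leaf 6 464 465) (node 593 (merge (leaf 4 496 625) (node 591 (merge (leaf 5 495 623) (node 590 (merge (leaf 3 557 558) (node 621 (merge (leaf 1 589 622) (node 589 (merge (leaf 3 556 556) (leaf 1 588 620))))))))))))) (node 590 (merge (node 526 (merge (leaf 2 493 525) (node 558 (merge (leaf 1 525 529) (node 591 (merge (leaf 3 557 593) (node 589 (merge (leaf 3 556 556) (node 621 (merge (leaf 1 588 620) (leaf 6 525 653))))))))))) (merge (node 526 (merge (leaf 2 493 525) (node 558 (merge (leaf 1 525 529) (node 593 (merge (leaf 3 557 591) (node 622 (merge (leaf 6 494 495) (node 623 (merge (leaf 4 526 655) (node 621 (merge (leaf 2 589 624) (leaf 5 525 653))))))))))))) (merge (node 526 (merge (leaf 2 493 525) (node 558 (merge (leaf 1 525 529) (node 591 (merge (leaf 3 557 593) (node 589 (merge (leaf 3 556 556) (node 624 (merge (leaf 0 589 625) (node 623 (merge (leaf 0 588 588) (node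 622 (merge (leaf 6 494 495) (leaf 4 526 655))))))))))))))) (merge (node 589 (merge (node 591 (merge (leaf 3 556 556) (node 625 (merge (leaf 0 589 624) (node 593 (merge (leaf 0 590 626) (node 621 (merge (leaf 1 588 620) (leaf 1 589 622))))))))) (merge (node 525 (merge (leaf 2 493 526) (node 493 (merge (leaf 4 493 622) (node 620 (merge (leaf 5 492 588) (node 621 (merge (leaf 5 524 652) (node 492 (merge (leaf 7 460 460) (leaf 7 492 524))))))))))) (merge (node 525 (merge (leaf 2 493 526) (node 591 (merge (leaf 3 556 556) (node 624 (merge (leaf 0 589 625) (node 588 (merge (leaf 0 588 623) (node 620 (merge (leaf 5 492 493) (leaf 1 587 619))))))))))) (node 525 (merge (leaf 2 493 526) (node 622 (merge (leaf 4 493 493) (node 654 (merge (leaf 4 525 621) (leaf 7 557 686))))))))))) (merge (node 526 (merge (leaf 2 493 525) (node 558 (merge (leaf 1 525 529) (node 622 (merge (leaf 6 494 495) (node 623 (merge (leaf 4 526 655) (node 621 (merge (leaf 5 525 653) (node 620 (merge (leaf 2 588 591) (node 652 (merge (leaf 1 619 651) (node 588 (merge (leaf 3 587 587) (node 589 (merge (leaf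 3 588 624) (leaf 6 556 684))))))))))))))))))) (merge (node 526 (merge (leaf 2 493 525) (node 558 (merge (leaf 1 525 529) (node 622 (merge (leaf 6 494 495) (node 623 (merge (leaf 4 526 655) (node 621 (merge (leaf 5 525 653) (node 624 (merge (leaf 2 589 593) (node 657 (merge (leaf 0 621 656) (node 625 (merge (leaf 3 589 589) (leaf 0 622 658))))))))))))))))) (merge (node 591 (merge (node 589 (merge (leaf 3 556 556) (node 625 (merge (leaf 0 589 624) (node 593 (merge (leaf 3 557 558) (leaf 0 590 626))))))) (merge (node 593 (merge (leaf 3 557 558) (node 626 (merge (leaf 0 590 625) (node 594 (merge (leaf 0 591 627) (node 622 (merge (leaf 1 589 621) (leaf 1 590 623))))))))) (merge (node 589 (merge (leaf 3 556 556) (node 625 (merge (leaf 0 589 624) (node 593 (merge (leaf 0 590 626) (node 621 (merge (leaf 1 588 620) (leaf 1 589 622))))))))) (node 589 (merge (leaf 3 556 556) (node 620 (merge (leaf 1 588 621) (node 588 (merge (leaf 1 587 619) (node 623 (merge (leaf 0 588 624) (node 587 (merge (leaf 0 587 622) (node 586 (merge (leaf 2 554 558) (node 554 (merge (leaf 3 553 553)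 (leaf 3 554 555))))))))))))))))))) (node 526 (merge (leaf 2 493 525) (node 558 (merge (leaf 1 525 529) (node 556 (merge (leaf 2 523 555) (node 591 (merge (leaf 3 556 589) (leaf 3 557 593)))))))))))))))))))) (merge (node 592 (merge (node 560 (merge (leaf 6 464 465) (node 624 (merge (leaf 7 495 495) (leaf 6 496 529))))) (merge (node 560 (merge (leaf 6 464 465) (node 593 (merge (leaf 4 496 625) (node 558 (merge (leaf 0 557 559) (node 591 (merge (leaf 3 557 590) (leaf 5 495 623))))))))) (node 591 (merge (node 559 (merge (leaf 6 495 623) (node 495 (merge (leaf 4 495 624) (node 590 (merge (leaf 5 494 622) (node 463 (merge (leaf 5 462 558) (node 431 (merge (leaf 4 399 399) (node 430 (merge (leaf 7 398 398) (leaf 7 430 462))))))))))))) (merge (node 559 (merge (leaf 6 495 623) (node 558 (merge (leaf 0 556 556) (node 529 (merge (leaf 1 525 526) (leaf 1 526 530))))))) (merge (node 590 (merge (node 559 (merge (leaf 6 495 623) (node 495 (merge (leaf 5 494 622) (leaf 4 495 624))))) (merge (node 589 (merge (leaf 3 556 556) (node 625 (merge (leaf 0 589 624) (node 593 (merge (leaf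 0 590 626) (node 621 (merge (leaf 1 588 620) (leaf 1 589 622))))))))) (merge (node 589 (merge (leaf 3 556 556) (node 624 (merge (leaf 0 589 625) (node 559 (merge (leaf 4 495 495) (leaf 6 495 623))))))) (node 589 (merge (leaf 3 556 556) (node 621 (merge (leaf 1 588 620) (node 622 (merge (leaf 1 589 593) (node 559 (merge (leaf 5 494 495) (leaf 6 495 623))))))))))))) (merge (node 590 (merge (node 589 (merge (leaf 3 556 556) (node 625 (merge (leaf 0 589 624) (node 593 (merge (leaf 3 557 558) (leaf 0 590 626))))))) (merge (node 593 (merge (leaf 3 557 558) (node 626 (merge (leaf 0 590 625) (node 594 (merge (leaf 0 591 627) (node 622 (merge (leaf 1 589 621) (leaf 1 590 623))))))))) (merge (node 589 (merge (leaf 3 556 556) (node 625 (merge (leaf 0 589 624) (node 593 (merge (leaf 0 590 626) (node 621 (merge (leaf 1 588 620) (leaf 1 589 622))))))))) (node 589 (merge (leaf 3 556 556) (node 620 (merge (leaf 1 588 621) (node 588 (merge (leaf 1 587 619) (node 623 (merge (leaf 0 588 624) (node 587 (merge (leaf 0 587 622) (node 586 (merge (leaf 2 554 558) (node 554 (merge (leaf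 3 553 553) (leaf 3 554 555))))))))))))))))))) (node 558 (merge (node 590 (merge (leaf 3 557 593) (node 589 (merge (leaf 3 556 556) (node 621 (merge (leaf 1 588 620) (node 653 (merge (leaf 6 525 526) (leaf 6 557 685))))))))) (merge (node 556 (merge (leaf 0 556 559) (node 555 (merge (leaf 2 523 526) (node 586 (merge (leaf 1 554 587) (node 554 (merge (leaf 1 553 585) (node 522 (merge (leaf 3 521 521) (leaf 3 522 523))))))))))) (node 593 (merge (leaf 3 557 590) (node 594 (merge (leaf 3 558 559) (node 627 (merge (leaf 0 591 626) (node 595 (merge (leaf 0 592 628) (node 563 (merge (leaf 2 559 562) (leaf 2 560 564)))))))))))))))))))))) (merge (node 525 (merge (leaf 2 493 526) (node 589 (merge (node 621 (merge (node 620 (merge (leaf 5 524 652) (node 493 (merge (leaf 5 492 588) (node 492 (merge (leaf 7 460 460) (leaf 7 492 524))))))) (merge (node 654 (merge (leaf 4 525 622) (node 653 (merge (leaf 4 557 686) (node 652 (merge (leaf 5 524 620) (leaf 5 556 684))))))) (node 622 (merge (leaf 4 525 654) (node 493 (merge (leaf 4 493 590) (node 492 (merge (leaf 7 460 460) (leaf 7 492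 524)))))))))) (merge (node 621 (merge (node 654 (merge (leaf 4 525 622) (node 653 (merge (leaf 4 557 686) (node 524 (merge (leaf 7 492 492) (leaf 7 524 556))))))) (merge (node 652 (merge (leaf 5 524 620) (node 653 (merge (leaf 5 556 684) (node 524 (merge (leaf 7 492 492) (leaf 7 524 556))))))) (node 622 (merge (leaf 4 525 654) (node 620 (merge (leaf 5 524 652) (node 588 (merge (leaf 5 492 493) (node 623 (merge (leaf 3 587 587) (leaf 3 588 624)))))))))))) (merge (node 592 (merge (node 560 (merge (leaf 6 464 465) (node 624 (merge (leaf 7 495 495) (leaf 6 496 529))))) (node 621 (merge (node 654 (merge (leaf 4 525 622) (node 653 (merge (leaf 4 557 686) (node 652 (merge (leaf 5 524 620) (leaf 5 556 684))))))) (merge (node 654 (merge (leaf 4 525 622) (node 653 (merge (leaf 4 557 686) (node 524 (merge (leaf 7 492 492) (leaf 7 524 556))))))) (merge (node 652 (merge (leaf 5 524 620) (node 653 (merge (leaf 5 556 684) (node 524 (merge (leaf 7 492 492) (leaf 7 524 556))))))) (node 620 (merge (leaf 5 524 652) (node 591 (merge (leaf 1 588 590) (node 623 (merge (leaf 6 495 559)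 (leaf 2 588 622))))))))))))) (merge (node 622 (merge (node 590 (merge (leaf 4 493 493) (node 654 (merge (leaf 4 525 621) (leaf 7 557 686))))) (merge (node 493 (merge (leaf 4 493 590) (node 588 (merge (leaf 5 492 620) (node 461 (merge (leaf 5 460 556) (node 460 (merge (leaf 7 428 428) (leaf 7 460 492))))))))) (merge (node 621 (merge (leaf 4 525 654) (node 620 (merge (leaf 5 524 652) (node 588 (merge (leaf 5 492 493) (node 623 (merge (leaf 3 587 587) (leaf 3 588 624))))))))) (node 621 (merge (leaf 4 525 654) (node 652 (merge (leaf 5 524 620) (node 653 (merge (leaf 5 556 684) (node 623 (merge (leaf 1 620 624) (node 591 (merge (leaf 6 495 559) (node 592 (merge (leaf 5 495 560) (node 590 (merge (leaf 3 556 556) (leaf 1 589 593))))))))))))))))))) (merge (node 621 (merge (node 622 (merge (leaf 4 525 654) (node 493 (merge (leaf 4 493 590) (node 492 (merge (leaf 7 460 460) (leaf 7 492 524))))))) (merge (node 592 (merge (node 560 (merge (leaf 6 464 465) (node 624 (merge (leaf 7 495 495) (leaf 6 496 529))))) (node 622 (merge (leaf 4 525 654) (node 590 (merge (leaf 4 493 493)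 (node 591 (merge (leaf 3 556 556) (leaf 1 589 593))))))))) (merge (node 592 (merge (node 560 (merge (leaf 6 464 465) (node 624 (merge (leaf 7 495 495) (leaf 6 496 529))))) (node 524 (merge (leaf 7 492 492) (node 556 (merge (leaf 7 524 653) (node 590 (merge (leaf 3 556 591) (node 493 (merge (leaf 4 493 622) (node 461 (merge (leaf 5 428 429) (leaf 5 460 588))))))))))))) (node 524 (merge (leaf 7 492 492) (node 653 (merge (leaf 7 524 556) (node 686 (merge (leaf 4 557 654) (node 685 (merge (leaf 4 589 718) (node 684 (merge (leaf 5 556 652) (leaf 5 588 716))))))))))))))) (merge (node 621 (merge (node 652 (merge (leaf 5 524 620) (node 653 (merge (leaf 5 556 684) (node 556 (merge (leaf 7 524 524) (node 685 (merge (leaf 7 556 588) (node 686 (merge (leaf 4 557 654) (leaf 4 589 718))))))))))) (merge (node 524 (merge (leaf 7 492 492) (node 653 (merge (leaf 7 524 556) (node 686 (merge (leaf 4 557 654) (node 685 (merge (leaf 4 589 718) (node 684 (merge (leaf 5 556 652) (leaf 5 588 716))))))))))) (merge (node 493 (merge (node 492 (merge (leaf 7 460 460) (leaf 7 492 524))) (merge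 (node 588 (merge (leaf 5 492 620) (node 556 (merge (leaf 5 460 461) (node 653 (merge (leaf 7 524 524) (leaf 7 556 685))))))) (node 588 (merge (leaf 5 492 620) (node 461 (merge (leaf 5 460 556) (node 430 (merge (leaf 6 429 462) (node 429 (merge (leaf 6 397 398) (node 428 (merge (leaf 7 396 396) (leaf 7 428 460)))))))))))))) (node 592 (merge (node 560 (merge (leaf 6 464 465) (node 624 (merge (leaf 7 495 495) (leaf 6 496 529))))) (merge (node 620 (merge (leaf 5 524 652) (node 591 (merge (leaf 1 588 590) (node 623 (merge (leaf 6 495 559) (leaf 5 495 560))))))) (node 620 (merge (leaf 5 524 652) (node 591 (merge (leaf 1 588 590) (node 493 (merge (leaf 5 492 588) (node 559 (merge (leaf 6 495 623) (node 495 (merge (leaf 4 495 624) (node 460 (merge (leaf 7 460 492) (node 461 (merge (leaf 7 428 428) (node 462 (merge (leaf 6 429 430) (leaf 0 460 463)))))))))))))))))))))))) (merge (node 622 (merge (node 590 (merge (leaf 4 493 493) (node 654 (merge (leaf 4 525 621) (leaf 7 557 686))))) (merge (node 621 (merge (leaf 4 525 654) (node 620 (merge (leaf 5 524 652) (node 588 (merge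 (leaf 5 492 493) (node 623 (merge (leaf 3 587 587) (leaf 3 588 624))))))))) (merge (node 493 (merge (leaf 4 493 590) (node 588 (merge (leaf 5 492 620) (node 461 (merge (leaf 5 460 556) (node 430 (merge (leaf 6 429 462) (node 429 (merge (leaf 6 397 398) (node 428 (merge (leaf 7 396 396) (leaf 7 428 460))))))))))))) (node 621 (merge (leaf 4 525 654) (node 652 (merge (leaf 5 524 620) (node 653 (merge (leaf 5 556 684) (node 556 (merge (leaf 7 524 524) (node 685 (merge (leaf 7 556 588) (node 718 (merge (leaf 4 589 686) (node 717 (merge (leaf 6 589 590) (leaf 4 621 750))))))))))))))))))) (node 590 (merge (node 588 (merge (node 493 (merge (leaf 5 492 620) (leaf 4 493 622))) (merge (node 620 (merge (leaf 5 492 493) (node 591 (merge (leaf 1 587 619) (node 623 (merge (leaf 6 495 559) (leaf 0 588 624))))))) (node 623 (merge (node 591 (merge (leaf 6 495 559) (leaf 0 588 624))) (node 587 (merge (leaf 0 587 622) (node 618 (merge (leaf 1 586 619) (node 586 (merge (leaf 1 585 617) (node 554 (merge (leaf 3 553 553) (leaf 3 554 555)))))))))))))) (merge (node 592 (merge (node 591 (merge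 (leaf 3 556 556) (node 623 (merge (leaf 6 495 559) (leaf 5 495 560))))) (merge (node 560 (merge (leaf 6 464 465) (node 624 (merge (leaf 7 495 495) (leaf 6 496 529))))) (node 591 (merge (leaf 3 556 556) (node 623 (merge (leaf 6 495 559) (node 588 (merge (leaf 0 588 624) (node 620 (merge (leaf 5 492 493) (leaf 1 587 619)))))))))))) (merge (node 592 (merge (node 560 (merge (leaf 6 464 465) (node 624 (merge (leaf 7 495 495) (leaf 6 496 529))))) (merge (node 591 (merge (leaf 3 556 556) (node 560 (merge (leaf 6 464 465) (leaf 5 495 623))))) (node 591 (merge (leaf 3 556 556) (node 623 (merge (leaf 6 495 559) (node 588 (merge (leaf 0 588 624) (node 587 (merge (leaf 0 587 622) (node 618 (merge (leaf 1 586 619) (node 586 (merge (leaf 1 585 617) (node 554 (merge (leaf 3 553 553) (leaf 3 554 555)))))))))))))))))) (merge (node 493 (merge (leaf 4 493 622) (node 588 (merge (leaf 5 492 620) (node 461 (merge (leaf 5 460 556) (node 460 (merge (leaf 7 428 428) (leaf 7 460 492))))))))) (node 493 (merge (leaf 4 493 622) (node 460 (merge (leaf 7 460 492) (node 461 (merge (leaf 7 428 428)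 (node 430 (merge (leaf 6 429 462) (node 429 (merge (leaf 6 397 398) (node 556 (merge (leaf 5 428 524) (node 592 (merge (leaf 3 556 591) (node 560 (merge (leaf 6 464 465) (node 624 (merge (leaf 7 495 495) (leaf 6 496 529)))))))))))))))))))))))))))))))))) (merge (node 525 (merge (leaf 2 493 526) (hyp 0))) (hyp 1)))))))) nQ_42 cQ_42 14 (by decide +kernel)
def nQ_43 : ℕ := 0x1000000010000000000000000000000000000000000000000000000000000000000000000000000000000000000000000000000000000000000000000000000000000
def cQ_43 : ℕ := 0x60000000f0000001fc000007fc00001ffe00000fff00001dff00003eff00003eff00003efc000007fc000007f0000000b0000000000000000000000000000000000000000000000000000000000000000000000000000000000000000000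
theorem lQ_43 : S nQ_43 cQ_43 16 := S_of_chk [(nQ_36, cQ_36, 12), (nQ_37, cQ_37, 12), (nQ_38, cQ_38, 11), (nQ_39, cQ_39, 14), (nQ_42, cQ_42, 14)] ⟨lQ_36, lQ_37, lQ_38, lQ_39, lQ_42, trivial⟩ (node 527 (merge (node 526 (merge (node 525 (merge (leaf 2 493 497) (node 524 (merge (leaf 2 492 495) (node 492 (merge (leaf 3 491 491) (leaf 3 492 493))))))) (merge (node 525 (merge (leaf 2 493 497) (node 524 (merge (leaf 2 492 495) (node 556 (merge (leaf 1 523 555) (leaf 1 524 557))))))) (merge (node 525 (merge (node 524 (merge (leaf 2 492 495) (node 492 (merge (leaf 3 491 491) (leaf 3 492 493))))) (merge (node 524 (merge (leaf 2 492 495) (node 556 (merge (leaf 1 523 555) (leaf 1 524 557))))) (node 557 (merge (leaf 1 524 556) (node 529 (merge (leaf 1 525 558) (node 493 (merge (leaf 3 492 492) (leaf 3 493 494)))))))))) (merge (node 525 (merge (leaf 2 493 497) (node 557 (merge (leaf 1 524 556) (node 529 (merge (leaf 1 525 558) (node 493 (merge (leaf 3 492 492) (leaf 3 493 494))))))))) (node 494 (merge (node 493 (merge (leaf 3 493 529) (node 492 (merge (leaf 0 491 491) (leaf 0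 492 495))))) (merge (node 529 (merge (leaf 3 493 493) (node 558 (merge (leaf 1 525 557) (node 559 (merge (leaf 1 526 530) (node 591 (merge (leaf 4 462 462) (leaf 6 495 623))))))))) (merge (node 558 (merge (node 529 (merge (leaf 1 525 557) (node 530 (merge (leaf 3 494 495) (leaf 1 526 559))))) (merge (node 557 (merge (leaf 1 525 529) (node 589 (merge (leaf 5 461 462) (node 621 (merge (leaf 5 493 590) (leaf 6 525 653))))))) (node 591 (merge (node 623 (merge (leaf 6 495 559) (leaf 4 494 590))) (merge (node 590 (merge (leaf 4 494 623) (node 622 (merge (leaf 6 494 495) (node 621 (merge (leaf 5 493 589) (leaf 5 525 653))))))) (node 462 (merge (leaf 4 462 559) (node 429 (merge (leaf 7 429 461) (node 430 (merge (leaf 7 397 397) (node 398 (merge (leaf 4 398 495) (node 399 (merge (leaf 6 366 367) (leaf 6 398 431))))))))))))))))) (node 462 (merge (node 559 (merge (leaf 4 430 430) (node 591 (merge (leaf 4 462 558) (leaf 6 495 623))))) (merge (node 430 (merge (leaf 4 430 559) (node 399 (merge (leaf 6 398 431) (node 398 (merge (leaf 6 366 367) (node 397 (merge (leaf 7 365 365)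 (leaf 7 397 429))))))))) (merge (node 461 (merge (node 558 (merge (leaf 7 429 429) (node 589 (merge (leaf 5 461 557) (node 590 (merge (leaf 7 461 493) (leaf 5 493 621))))))) (merge (node 495 (merge (leaf 3 461 497) (node 493 (merge (leaf 3 460 460) (leaf 0 492 492))))) (node 429 (merge (leaf 7 429 558) (node 430 (merge (leaf 7 397 397) (node 431 (merge (leaf 6 398 399) (node 460 (merge (leaf 1 428 432) (leaf 2 427 459)))))))))))) (node 461 (merge (node 558 (merge (leaf 7 429 429) (node 589 (merge (leaf 5 461 557) (node 590 (merge (leaf 7 461 493) (leaf 5 493 621))))))) (merge (node 495 (merge (leaf 3 461 497) (node 493 (merge (leaf 3 460 460) (leaf 0 492 492))))) (node 558 (merge (leaf 7 429 429) (node 557 (merge (leaf 5 461 589) (node 556 (merge (leaf 2 523 555) (leaf 2 524 559))))))))))))))))))))))) (merge (node 497 (merge (node 526 (merge (leaf 2 493 525) (node 498 (merge (leaf 1 495 499) (leaf 2 494 529))))) (merge (node 526 (merge (leaf 2 493 525) (node 498 (merge (leaf 1 494 495) (leaf 1 495 499))))) (merge (node 495 (merge (node 498 (merge (leaf 1 495 499)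 (node 466 (merge (leaf 2 463 467) (node 494 (merge (leaf 2 462 465) (node 493 (merge (leaf 0 492 492) (leaf 0 493 529))))))))) (merge (node 498 (merge (leaf 1 495 499) (node 530 (merge (leaf 0 495 531) (node 466 (merge (leaf 2 463 467) (node 465 (merge (leaf 2 462 494) (node 433 (merge (leaf 4 401 401) (leaf 7 433 562))))))))))) (merge (node 465 (merge (node 560 (merge (leaf 6 464 592) (node 433 (merge (leaf 5 400 401) (leaf 5 432 529))))) (merge (node 498 (merge (leaf 1 495 499) (node 530 (merge (leaf 0 495 531) (node 466 (merge (leaf 2 463 467) (node 562 (merge (leaf 7 465 594) (node 563 (merge (leaf 0 527 529) (leaf 4 466 595))))))))))) (node 498 (merge (leaf 1 495 499) (node 530 (merge (leaf 0 495 531) (node 466 (merge (leaf 2 463 467) (node 433 (merge (leaf 4 401 401) (leaf 7 433 562)))))))))))) (merge (node 465 (merge (node 560 (merge (leaf 6 464 592) (node 433 (merge (leaf 5 400 401) (leaf 5 432 529))))) (merge (node 494 (merge (leaf 2 462 466) (node 529 (merge (leaf 0 493 493) (leaf 0 494 530))))) (node 466 (merge (leaf 2 462 494) (node 467 (merge (leaf 1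 464 468) (node 433 (merge (leaf 5 400 401) (node 560 (merge (leaf 6 464 592) (node 431 (merge (leaf 4 431 463) (node 432 (merge (leaf 0 430 430) (leaf 0 431 434)))))))))))))))) (node 498 (merge (leaf 1 495 499) (node 530 (merge (leaf 0 495 531) (node 529 (merge (leaf 0 494 494) (node 562 (merge (leaf 0 527 563) (node 559 (merge (leaf 1 526 558) (node 591 (merge (leaf 6 495 623) (node 592 (merge (leaf 4 495 624) (node 594 (merge (leaf 7 497 626) (node 595 (merge (leaf 4 498 627) (node 593 (merge (leaf 3 559 560) (leaf 5 497 625)))))))))))))))))))))))))) (node 495 (merge (node 494 (merge (node 493 (merge (leaf 0 492 492) (node 525 (merge (leaf 1 492 524) (leaf 2 493 526))))) (node 465 (merge (leaf 2 462 466) (node 560 (merge (leaf 6 464 592) (node 433 (merge (leaf 5 400 401) (leaf 5 432 529))))))))) (merge (node 526 (merge (leaf 2 493 525) (node 558 (merge (node 590 (merge (leaf 6 494 622) (node 463 (merge (leaf 5 430 431) (leaf 5 462 559))))) (merge (node 557 (merge (leaf 1 525 529) (node 556 (merge (leaf 2 523 555) (leaf 2 524 559))))) (node 529 (merge (leaf 1 525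 557) (node 530 (merge (leaf 0 494 494) (leaf 3 495 531)))))))))) (merge (node 465 (merge (node 560 (merge (leaf 6 464 592) (node 433 (merge (leaf 5 400 401) (leaf 5 432 529))))) (merge (node 494 (merge (leaf 2 462 466) (node 529 (merge (leaf 0 493 493) (leaf 0 494 530))))) (node 466 (merge (leaf 2 462 494) (node 467 (merge (leaf 1 464 468) (node 433 (merge (leaf 5 400 401) (node 560 (merge (leaf 6 464 592) (node 431 (merge (leaf 4 431 463) (node 432 (merge (leaf 0 430 430) (leaf 0 431 434)))))))))))))))) (node 559 (merge (node 591 (merge (leaf 6 495 623) (node 592 (merge (leaf 4 495 624) (node 560 (merge (leaf 4 463 463) (leaf 6 464 465))))))) (merge (node 591 (merge (leaf 6 495 623) (node 590 (merge (leaf 5 494 622) (node 463 (merge (leaf 5 462 558) (node 431 (merge (leaf 4 399 399) (leaf 4 431 560))))))))) (merge (node 463 (merge (node 431 (merge (leaf 4 399 399) (node 558 (merge (leaf 5 430 526) (leaf 5 462 590))))) (merge (node 431 (merge (leaf 4 399 399) (node 560 (merge (leaf 4 431 527) (leaf 7 463 592))))) (node 525 (merge (leaf 2 493 526) (node 560 (merge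 (leaf 4 463 592) (node 558 (merge (leaf 5 462 590) (node 557 (merge (leaf 3 524 524) (leaf 2 524 556)))))))))))) (merge (node 591 (merge (leaf 6 495 623) (node 592 (merge (leaf 4 495 624) (node 590 (merge (leaf 5 494 622) (node 558 (merge (leaf 5 462 463) (node 557 (merge (leaf 0 556 556) (leaf 3 557 593))))))))))) (node 591 (merge (leaf 6 495 623) (node 592 (merge (leaf 4 495 624) (node 560 (merge (leaf 6 464 465) (node 593 (merge (leaf 4 496 625) (node 558 (merge (leaf 0 557 557) (leaf 3 558 594)))))))))))))))))))))))) (merge (node 526 (merge (node 497 (merge (leaf 2 493 525) (node 498 (merge (leaf 1 495 499) (leaf 2 494 529))))) (merge (node 525 (merge (leaf 2 493 497) (node 524 (merge (leaf 2 492 495) (node 492 (merge (leaf 3 491 491) (leaf 3 492 493))))))) (merge (node 525 (merge (node 524 (merge (leaf 2 492 495) (node 492 (merge (leaf 3 491 491) (leaf 3 492 493))))) (merge (node 524 (merge (leaf 2 492 495) (node 556 (merge (leaf 1 523 555) (leaf 1 524 557))))) (node 557 (merge (leaf 1 524 556) (node 529 (merge (leaf 1 525 558) (node 493 (merge (leaf 3 492 492)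 (leaf 3 493 494)))))))))) (node 495 (merge (node 497 (merge (leaf 1 494 498) (node 494 (merge (node 493 (merge (leaf 0 492 492) (leaf 0 493 529))) (node 462 (merge (leaf 3 461 461) (node 430 (merge (leaf 4 398 398) (node 559 (merge (leaf 4 430 526) (leaf 7 462 591))))))))))) (merge (node 558 (merge (node 557 (merge (leaf 1 525 529) (node 556 (merge (leaf 2 523 555) (leaf 2 524 559))))) (merge (node 557 (merge (leaf 1 525 529) (node 556 (merge (leaf 2 523 555) (leaf 2 524 559))))) (node 590 (merge (leaf 6 494 622) (node 494 (merge (leaf 6 462 463) (node 493 (merge (leaf 7 461 461) (leaf 0 492 492)))))))))) (merge (node 463 (merge (node 431 (merge (leaf 4 399 399) (leaf 5 430 558))) (merge (node 560 (merge (leaf 4 431 431) (leaf 7 463 592))) (node 559 (merge (node 592 (merge (leaf 4 463 560) (node 591 (merge (leaf 4 495 624) (node 590 (merge (leaf 5 462 558) (leaf 5 494 622))))))) (merge (node 590 (merge (leaf 5 462 558) (node 462 (merge (leaf 7 430 430) (node 591 (merge (leaf 7 462 494) (leaf 5 494 622))))))) (node 497 (merge (leaf 1 494 498) (node 462 (merge (leaf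 7 430 430) (node 461 (merge (leaf 0 460 460) (leaf 3 461 494))))))))))))) (merge (node 463 (merge (node 431 (merge (leaf 4 399 399) (leaf 5 430 558))) (merge (node 560 (merge (leaf 4 431 431) (leaf 7 463 592))) (node 559 (merge (node 591 (merge (leaf 6 495 623) (node 590 (merge (leaf 5 462 558) (leaf 5 494 622))))) (merge (node 592 (merge (leaf 4 463 560) (node 591 (merge (leaf 6 495 623) (leaf 4 495 624))))) (node 560 (merge (leaf 4 463 592) (node 558 (merge (leaf 5 462 590) (node 557 (merge (leaf 2 525 529) (leaf 2 524 556))))))))))))) (node 497 (merge (leaf 1 494 498) (node 465 (merge (node 494 (merge (leaf 2 462 466) (node 493 (merge (leaf 0 492 492) (leaf 0 493 529))))) (merge (node 560 (merge (leaf 6 464 592) (node 433 (merge (leaf 5 400 401) (leaf 5 432 529))))) (node 466 (merge (leaf 2 462 494) (node 467 (merge (leaf 1 464 468) (node 433 (merge (leaf 5 400 401) (node 560 (merge (leaf 6 464 592) (node 431 (merge (leaf 4 431 463) (node 432 (merge (leaf 0 430 430) (leaf 0 431 434))))))))))))))))))))))))))) (merge (node 497 (merge (node 498 (merge (leaf 1 495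 499) (node 526 (merge (leaf 1 494 495) (leaf 2 494 529))))) (merge (node 498 (merge (leaf 1 495 499) (node 495 (merge (leaf 1 494 526) (node 466 (merge (leaf 2 463 467) (node 494 (merge (leaf 2 462 465) (node 493 (merge (leaf 0 492 492) (node 461 (merge (leaf 3 460 460) (leaf 3 461 462))))))))))))) (merge (node 495 (merge (node 498 (merge (leaf 1 495 499) (node 463 (merge (leaf 3 462 462) (node 560 (merge (leaf 4 431 431) (leaf 7 463 592))))))) (merge (node 498 (merge (leaf 1 495 499) (node 466 (merge (leaf 2 463 467) (node 494 (merge (leaf 2 462 465) (node 493 (merge (leaf 0 492 492) (leaf 0 493 529))))))))) (node 494 (merge (node 529 (merge (leaf 0 493 493) (leaf 3 494 530))) (merge (node 493 (merge (leaf 0 492 492) (node 461 (merge (leaf 3 460 460) (leaf 3 461 462))))) (node 529 (merge (leaf 0 494 530) (node 465 (merge (leaf 2 462 466) (node 560 (merge (leaf 5 432 433) (leaf 6 464 592))))))))))))) (merge (node 498 (merge (leaf 1 495 499) (node 529 (merge (leaf 2 494 526) (node 530 (merge (node 562 (merge (leaf 0 527 563) (node 465 (merge (leaf 4 433 433) (leaf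 7 465 594))))) (node 559 (merge (leaf 1 526 558) (node 531 (merge (leaf 3 496 532) (leaf 1 527 560))))))))))) (node 495 (merge (node 494 (merge (node 493 (merge (leaf 0 492 492) (leaf 0 493 529))) (node 462 (merge (leaf 3 461 461) (node 430 (merge (leaf 4 398 398) (node 559 (merge (leaf 4 430 526) (leaf 7 462 591))))))))) (merge (node 494 (merge (node 529 (merge (leaf 0 493 493) (leaf 3 494 530))) (merge (node 493 (merge (leaf 0 492 492) (node 461 (merge (leaf 3 460 460) (leaf 3 461 462))))) (node 529 (merge (leaf 0 494 530) (node 465 (merge (leaf 2 462 466) (node 560 (merge (leaf 5 432 433) (leaf 6 464 592)))))))))) (merge (node 465 (merge (node 560 (merge (leaf 6 464 592) (node 433 (merge (leaf 5 400 401) (leaf 5 432 529))))) (merge (node 494 (merge (leaf 2 462 466) (node 529 (merge (leaf 0 493 493) (leaf 0 494 530))))) (node 466 (merge (leaf 2 462 494) (node 467 (merge (leaf 1 464 468) (node 433 (merge (leaf 5 400 401) (node 560 (merge (leaf 6 464 592) (node 431 (merge (leaf 4 431 463) (node 432 (merge (leaf 0 430 430) (leaf 0 431 434)))))))))))))))) (merge (node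 463 (merge (node 560 (merge (leaf 4 431 431) (leaf 7 463 592))) (merge (node 431 (merge (leaf 4 399 399) (node 432 (merge (leaf 6 399 400) (node 430 (merge (leaf 7 398 398) (node 462 (merge (leaf 7 430 559) (node 461 (merge (leaf 1 429 433) (leaf 0 460 460))))))))))) (node 559 (merge (node 592 (merge (leaf 4 463 560) (node 591 (merge (leaf 6 495 623) (leaf 4 495 624))))) (node 558 (merge (leaf 5 462 590) (node 557 (merge (leaf 2 524 556) (node 529 (merge (leaf 1 525 526) (leaf 1 526 530)))))))))))) (node 559 (merge (node 591 (merge (leaf 6 495 623) (node 590 (merge (leaf 5 494 622) (node 463 (merge (leaf 5 462 558) (node 431 (merge (leaf 4 399 399) (leaf 4 431 560))))))))) (merge (node 591 (merge (leaf 6 495 623) (node 592 (merge (leaf 4 495 624) (node 465 (merge (leaf 6 464 560) (node 494 (merge (leaf 7 462 462) (leaf 2 462 466))))))))) (merge (node 591 (merge (leaf 6 495 623) (node 590 (merge (leaf 5 494 622) (node 463 (merge (leaf 5 462 558) (node 431 (merge (leaf 4 399 399) (node 430 (merge (leaf 7 398 398) (leaf 7 430 462))))))))))) (node 462 (merge (node 494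 (merge (leaf 3 461 461) (node 430 (merge (leaf 4 398 398) (leaf 4 430 526))))) (merge (node 463 (merge (leaf 7 430 430) (node 431 (merge (leaf 4 399 399) (leaf 4 431 560))))) (node 494 (merge (leaf 3 461 461) (node 465 (merge (leaf 2 462 466) (node 560 (merge (leaf 6 464 592) (node 463 (merge (leaf 4 431 431) (node 558 (merge (leaf 5 462 590) (node 557 (merge (leaf 2 524 556) (node 589 (merge (leaf 5 461 526) (leaf 1 556 588)))))))))))))))))))))))))))))))) (merge (hyp 0) (merge (node 495 (merge (node 559 (merge (node 591 (merge (leaf 6 495 623) (node 494 (merge (leaf 7 462 462) (node 493 (merge (leaf 0 492 492) (leaf 0 493 529))))))) (merge (node 591 (merge (leaf 6 495 623) (node 590 (merge (leaf 5 494 622) (node 463 (merge (leaf 5 462 558) (node 560 (merge (leaf 4 431 431) (leaf 4 463 592))))))))) (node 463 (merge (node 431 (merge (leaf 4 399 399) (leaf 4 431 560))) (merge (node 431 (merge (leaf 4 399 399) (node 430 (merge (leaf 7 398 398) (leaf 7 430 462))))) (node 560 (merge (leaf 4 463 592) (node 558 (merge (leaf 5 462 590) (node 557 (merge (leaf 2 525 529) (leaf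 2 524 556))))))))))))) (merge (node 497 (merge (node 494 (merge (node 493 (merge (leaf 0 492 492) (node 461 (merge (leaf 3 460 460) (leaf 3 461 462))))) (node 530 (merge (leaf 0 494 529) (node 498 (merge (leaf 1 495 499) (leaf 0 495 531))))))) (merge (node 498 (merge (leaf 1 495 499) (node 466 (merge (leaf 2 463 467) (node 494 (merge (leaf 2 462 465) (node 493 (merge (leaf 0 492 492) (node 461 (merge (leaf 3 460 460) (leaf 3 461 462))))))))))) (merge (node 494 (merge (node 529 (merge (leaf 0 493 493) (leaf 3 494 530))) (merge (node 493 (merge (leaf 0 492 492) (node 461 (merge (leaf 3 460 460) (leaf 3 461 462))))) (node 529 (merge (leaf 0 494 530) (node 465 (merge (leaf 2 462 466) (node 560 (merge (leaf 5 432 433) (leaf 6 464 592)))))))))) (node 465 (merge (node 560 (merge (leaf 6 464 592) (node 433 (merge (leaf 5 400 401) (leaf 5 432 529))))) (merge (node 498 (merge (leaf 1 495 499) (node 530 (merge (leaf 0 495 531) (node 466 (merge (leaf 2 463 467) (node 562 (merge (leaf 7 465 594) (node 563 (merge (leaf 0 527 529) (leaf 4 466 595))))))))))) (node 498 (merge (leaf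 1 495 499) (node 530 (merge (leaf 0 495 531) (node 466 (merge (leaf 2 463 467) (node 433 (merge (leaf 4 401 401) (leaf 7 433 562)))))))))))))))) (merge (node 463 (merge (node 560 (merge (leaf 4 431 431) (leaf 7 463 592))) (merge (node 431 (merge (leaf 4 399 399) (node 430 (merge (leaf 7 398 398) (node 559 (merge (leaf 7 430 462) (node 590 (merge (leaf 5 462 558) (node 591 (merge (leaf 5 494 622) (leaf 6 495 623))))))))))) (node 559 (merge (node 591 (merge (leaf 6 495 623) (node 590 (merge (leaf 5 462 558) (leaf 5 494 622))))) (merge (node 592 (merge (leaf 4 463 560) (node 591 (merge (leaf 6 495 623) (leaf 4 495 624))))) (node 560 (merge (leaf 4 463 592) (node 558 (merge (leaf 5 462 590) (node 557 (merge (leaf 2 525 529) (leaf 2 524 556))))))))))))) (merge (node 497 (merge (node 498 (merge (leaf 1 495 499) (node 530 (merge (leaf 0 495 531) (node 494 (merge (leaf 0 494 529) (node 466 (merge (leaf 2 462 465) (leaf 2 463 467))))))))) (merge (node 498 (merge (leaf 1 495 499) (node 466 (merge (leaf 2 463 467) (node 494 (merge (leaf 2 462 465) (node 493 (merge (leaf 0 492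 492) (node 461 (merge (leaf 3 460 460) (leaf 3 461 462))))))))))) (merge (node 494 (merge (node 529 (merge (leaf 0 493 493) (leaf 3 494 530))) (merge (node 493 (merge (leaf 0 492 492) (node 461 (merge (leaf 3 460 460) (leaf 3 461 462))))) (node 462 (merge (leaf 3 461 461) (node 430 (merge (leaf 4 398 398) (node 559 (merge (leaf 7 430 463) (leaf 7 462 591)))))))))) (node 498 (merge (leaf 1 495 499) (node 530 (merge (leaf 0 495 531) (node 466 (merge (leaf 2 463 467) (node 463 (merge (leaf 3 462 462) (node 431 (merge (leaf 4 399 399) (node 432 (merge (leaf 6 399 400) (node 430 (merge (leaf 7 398 398) (node 433 (merge (leaf 0 430 465) (node 401 (merge (leaf 2 398 402) (leaf 7 401 434))))))))))))))))))))))) (merge (node 497 (merge (node 498 (merge (leaf 1 495 499) (node 466 (merge (leaf 2 463 467) (node 494 (merge (leaf 2 462 465) (node 493 (merge (leaf 0 492 492) (leaf 0 493 529))))))))) (merge (node 498 (merge (leaf 1 495 499) (node 530 (merge (leaf 0 495 531) (node 466 (merge (leaf 2 463 467) (node 465 (merge (leaf 2 462 494) (node 433 (merge (leaf 4 401 401) (leaf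 7 433 562))))))))))) (merge (node 465 (merge (node 560 (merge (leaf 6 464 592) (node 433 (merge (leaf 5 400 401) (leaf 5 432 529))))) (merge (node 498 (merge (leaf 1 495 499) (node 530 (merge (leaf 0 495 531) (node 466 (merge (leaf 2 463 467) (node 562 (merge (leaf 7 465 594) (node 563 (merge (leaf 0 527 529) (leaf 4 466 595))))))))))) (node 498 (merge (leaf 1 495 499) (node 530 (merge (leaf 0 495 531) (node 466 (merge (leaf 2 463 467) (node 433 (merge (leaf 4 401 401) (leaf 7 433 562)))))))))))) (merge (node 465 (merge (node 560 (merge (leaf 6 464 592) (node 433 (merge (leaf 5 400 401) (leaf 5 432 529))))) (merge (node 494 (merge (leaf 2 462 466) (node 529 (merge (leaf 0 493 493) (leaf 0 494 530))))) (node 466 (merge (leaf 2 462 494) (node 467 (merge (leaf 1 464 468) (node 433 (merge (leaf 5 400 401) (node 560 (merge (leaf 6 464 592) (node 431 (merge (leaf 4 431 463) (node 432 (merge (leaf 0 430 430) (leaf 0 431 434)))))))))))))))) (node 498 (merge (leaf 1 495 499) (node 530 (merge (leaf 0 495 531) (node 529 (merge (leaf 0 494 494) (node 562 (merge (leaf 0 527 563)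 (node 559 (merge (leaf 1 526 558) (node 591 (merge (leaf 6 495 623) (node 592 (merge (leaf 4 495 624) (node 594 (merge (leaf 7 497 626) (node 595 (merge (leaf 4 498 627) (node 593 (merge (leaf 3 559 560) (leaf 5 497 625)))))))))))))))))))))))))) (node 497 (merge (node 498 (merge (leaf 1 495 499) (node 463 (merge (leaf 3 462 462) (node 560 (merge (leaf 4 431 431) (leaf 7 463 592))))))) (merge (node 498 (merge (leaf 1 495 499) (node 466 (merge (leaf 2 463 467) (node 494 (merge (leaf 2 462 465) (node 493 (merge (leaf 0 492 492) (node 461 (merge (leaf 3 460 460) (leaf 3 461 462))))))))))) (merge (node 498 (merge (leaf 1 495 499) (node 530 (merge (leaf 0 495 531) (node 466 (merge (leaf 2 463 467) (node 465 (merge (leaf 2 462 494) (node 433 (merge (leaf 4 401 401) (leaf 7 433 562))))))))))) (node 463 (merge (node 560 (merge (leaf 4 431 431) (leaf 7 463 592))) (merge (node 431 (merge (leaf 4 399 399) (node 432 (merge (leaf 6 399 400) (node 430 (merge (leaf 7 398 398) (node 462 (merge (leaf 7 430 559) (node 461 (merge (leaf 1 429 433) (leaf 0 460 460))))))))))) (node 559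 (merge (node 592 (merge (leaf 4 463 560) (node 591 (merge (leaf 6 495 623) (leaf 4 495 624))))) (merge (node 590 (merge (leaf 5 462 558) (node 462 (merge (leaf 7 430 430) (node 591 (merge (leaf 7 462 494) (leaf 5 494 622))))))) (node 558 (merge (leaf 5 462 590) (node 557 (merge (leaf 2 524 556) (node 462 (merge (leaf 7 430 430) (node 494 (merge (leaf 3 461 461) (node 493 (merge (leaf 0 492 492) (node 525 (merge (leaf 1 492 524) (leaf 6 461 589))))))))))))))))))))))))))))) (merge (node 497 (merge (node 526 (merge (leaf 2 493 525) (node 498 (merge (leaf 1 495 499) (leaf 2 494 529))))) (merge (node 526 (merge (leaf 2 493 525) (node 498 (merge (leaf 1 494 495) (leaf 1 495 499))))) (merge (node 498 (merge (node 499 (merge (leaf 1 495 527) (node 468 (merge (leaf 2 464 467) (node 500 (merge (leaf 2 465 469) (leaf 1 496 529))))))) (merge (node 499 (merge (leaf 1 495 527) (node 532 (merge (leaf 0 496 531) (node 500 (merge (leaf 1 496 529) (leaf 0 497 533))))))) (merge (node 499 (merge (node 468 (merge (leaf 2 464 467) (node 500 (merge (leaf 2 465 469) (leaf 1 496 529)))))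 (merge (node 532 (merge (leaf 0 496 531) (node 500 (merge (leaf 1 496 529) (leaf 0 497 533))))) (node 531 (merge (leaf 0 496 532) (node 495 (merge (leaf 0 495 530) (node 467 (merge (leaf 2 463 466) (leaf 2 464 468)))))))))) (merge (node 499 (merge (leaf 1 495 527) (node 531 (merge (leaf 0 496 532) (node 495 (merge (leaf 0 495 530) (node 467 (merge (leaf 2 463 466) (leaf 2 464 468))))))))) (node 495 (merge (node 463 (merge (leaf 3 462 462) (node 431 (merge (leaf 4 399 399) (node 560 (merge (leaf 4 431 527) (leaf 7 463 592))))))) (node 530 (merge (leaf 0 495 531) (node 494 (merge (leaf 0 494 529) (node 466 (merge (leaf 2 462 465) (leaf 2 463 467)))))))))))))) (node 526 (merge (leaf 2 493 525) (node 495 (merge (node 465 (merge (node 560 (merge (leaf 6 464 592) (node 433 (merge (leaf 5 400 401) (leaf 5 432 529))))) (node 494 (merge (leaf 2 462 466) (node 462 (merge (leaf 3 461 461) (node 559 (merge (leaf 4 430 430) (leaf 7 462 591))))))))) (merge (node 558 (merge (node 590 (merge (leaf 6 494 622) (node 463 (merge (leaf 5 430 431) (leaf 5 462 559))))) (merge (node 557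 (merge (leaf 1 525 529) (node 556 (merge (leaf 2 523 555) (leaf 2 524 559))))) (node 529 (merge (leaf 1 525 557) (node 530 (merge (leaf 0 494 494) (leaf 3 495 531)))))))) (merge (node 558 (merge (node 529 (merge (leaf 1 525 557) (node 530 (merge (leaf 3 495 531) (leaf 1 526 559))))) (merge (node 590 (merge (leaf 6 494 622) (node 463 (merge (leaf 5 430 431) (leaf 5 462 559))))) (node 557 (merge (leaf 1 525 529) (node 463 (merge (leaf 5 430 431) (node 590 (merge (leaf 6 494 622) (node 592 (merge (leaf 7 463 560) (node 591 (merge (leaf 3 557 593) (node 589 (merge (leaf 3 556 556) (node 621 (merge (leaf 1 588 620) (leaf 6 525 653)))))))))))))))))) (merge (node 494 (merge (node 529 (merge (leaf 0 494 530) (node 465 (merge (leaf 2 462 466) (node 560 (merge (leaf 5 432 433) (leaf 6 464 592))))))) (merge (node 465 (merge (leaf 2 462 466) (node 433 (merge (leaf 5 400 401) (node 560 (merge (leaf 5 432 529) (leaf 6 464 592))))))) (node 462 (merge (leaf 3 461 461) (node 430 (merge (leaf 4 398 398) (node 431 (merge (leaf 6 398 399) (node 558 (merge (leaf 5 430 463) (node 589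 (merge (leaf 5 461 557) (node 590 (merge (leaf 5 493 621) (leaf 6 494 622)))))))))))))))) (node 559 (merge (node 591 (merge (leaf 6 495 623) (node 590 (merge (leaf 5 494 622) (node 463 (merge (leaf 5 462 558) (node 431 (merge (leaf 4 399 399) (leaf 4 431 560))))))))) (merge (node 591 (merge (leaf 6 495 623) (node 592 (merge (leaf 4 495 624) (node 465 (merge (leaf 6 464 560) (node 494 (merge (leaf 7 462 462) (leaf 2 462 466))))))))) (merge (node 591 (merge (leaf 6 495 623) (node 590 (merge (leaf 5 494 622) (node 463 (merge (leaf 5 462 558) (node 431 (merge (leaf 4 399 399) (node 430 (merge (leaf 7 398 398) (leaf 7 430 462))))))))))) (node 462 (merge (node 494 (merge (leaf 3 461 461) (node 430 (merge (leaf 4 398 398) (leaf 4 430 526))))) (merge (node 463 (merge (leaf 7 430 430) (node 431 (merge (leaf 4 399 399) (leaf 4 431 560))))) (node 494 (merge (leaf 3 461 461) (node 465 (merge (leaf 2 462 466) (node 560 (merge (leaf 6 464 592) (node 463 (merge (leaf 4 431 431) (node 558 (merge (leaf 5 462 590) (node 557 (merge (leaf 2 524 556) (node 589 (merge (leaf 5 461 526)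 (leaf 1 556 588))))))))))))))))))))))))))))))))) (merge (node 526 (merge (node 497 (merge (leaf 2 493 525) (node 498 (merge (leaf 1 495 499) (leaf 2 494 529))))) (merge (node 525 (merge (leaf 2 493 497) (node 524 (merge (leaf 2 492 495) (node 492 (merge (leaf 3 491 491) (leaf 3 492 493))))))) (merge (node 525 (merge (node 524 (merge (leaf 2 492 495) (node 492 (merge (leaf 3 491 491) (leaf 3 492 493))))) (merge (node 524 (merge (leaf 2 492 495) (node 556 (merge (leaf 1 523 555) (leaf 1 524 557))))) (node 557 (merge (leaf 1 524 556) (node 493 (merge (leaf 3 492 492) (node 494 (merge (leaf 3 493 529) (node 589 (merge (leaf 6 461 462) (leaf 6 493 621)))))))))))) (node 529 (merge (node 494 (merge (leaf 3 493 493) (node 530 (merge (leaf 3 494 495) (node 563 (merge (leaf 0 527 562) (node 531 (merge (leaf 0 528 564) (node 499 (merge (leaf 2 495 498) (leaf 2 496 500))))))))))) (merge (node 494 (merge (leaf 3 493 493) (node 530 (merge (leaf 3 494 495) (node 563 (merge (leaf 0 527 562) (node 531 (merge (leaf 0 528 564) (node 500 (merge (leaf 2 496 499) (node 532 (merge (leaf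 3 496 497) (leaf 2 497 501))))))))))))) (merge (node 530 (merge (node 498 (merge (leaf 2 494 497) (leaf 2 495 499))) (merge (node 563 (merge (leaf 0 527 562) (node 531 (merge (leaf 0 528 564) (node 499 (merge (leaf 2 495 498) (leaf 2 496 500))))))) (merge (node 563 (merge (leaf 0 527 562) (node 531 (merge (leaf 0 528 564) (node 500 (merge (leaf 2 496 499) (node 532 (merge (leaf 3 496 497) (leaf 2 497 501))))))))) (node 497 (merge (leaf 2 494 498) (node 531 (merge (leaf 3 496 532) (node 560 (merge (leaf 1 527 559) (node 465 (merge (leaf 5 432 433) (leaf 6 464 592))))))))))))) (node 494 (merge (leaf 3 493 493) (node 462 (merge (node 430 (merge (leaf 4 430 559) (node 399 (merge (leaf 6 398 431) (node 398 (merge (leaf 6 366 367) (node 397 (merge (leaf 7 365 365) (leaf 7 397 429))))))))) (merge (node 497 (merge (leaf 2 494 498) (node 495 (merge (leaf 3 461 461) (node 465 (merge (leaf 2 462 466) (node 560 (merge (leaf 5 432 433) (leaf 6 464 592))))))))) (node 497 (merge (leaf 2 494 498) (node 495 (merge (leaf 3 461 461) (node 465 (merge (leaf 2 462 466) (node 433 (merge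 (leaf 5 400 401) (leaf 5 432 560)))))))))))))))))))))) (merge (node 526 (merge (node 497 (merge (leaf 2 493 525) (node 498 (merge (leaf 1 495 499) (leaf 2 494 529))))) (merge (node 525 (merge (leaf 2 493 497) (node 524 (merge (leaf 2 492 495) (node 492 (merge (leaf 3 491 491) (leaf 3 492 493))))))) (merge (node 525 (merge (node 524 (merge (leaf 2 492 495) (node 492 (merge (leaf 3 491 491) (leaf 3 492 493))))) (merge (node 524 (merge (leaf 2 492 495) (node 556 (merge (leaf 1 523 555) (leaf 1 524 557))))) (node 557 (merge (leaf 1 524 556) (node 529 (merge (leaf 1 525 558) (node 493 (merge (leaf 3 492 492) (leaf 3 493 494)))))))))) (node 497 (merge (node 498 (merge (leaf 1 495 499) (leaf 2 494 529))) (merge (node 498 (merge (leaf 1 494 495) (leaf 1 495 499))) (node 558 (merge (node 557 (merge (leaf 1 525 529) (node 556 (merge (leaf 2 523 555) (leaf 2 524 559))))) (merge (node 529 (merge (leaf 1 525 557) (node 494 (merge (leaf 3 493 493) (node 530 (merge (leaf 0 494 495) (node 563 (merge (leaf 0 527 562) (node 531 (merge (leaf 3 496 532) (leaf 0 528 564))))))))))) (merge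 (node 494 (merge (node 493 (merge (leaf 3 493 529) (node 492 (merge (leaf 0 491 491) (leaf 0 492 495))))) (merge (node 493 (merge (leaf 3 493 529) (node 590 (merge (leaf 7 461 461) (node 623 (merge (leaf 4 494 591) (node 622 (merge (leaf 4 526 655) (node 621 (merge (leaf 5 493 589) (leaf 5 525 653))))))))))) (merge (node 590 (merge (node 493 (merge (leaf 7 461 461) (node 492 (merge (leaf 0 491 491) (leaf 0 492 495))))) (node 623 (merge (leaf 4 494 591) (node 622 (merge (leaf 4 526 655) (node 621 (merge (leaf 5 493 589) (leaf 5 525 653))))))))) (node 590 (merge (node 622 (merge (leaf 6 494 495) (node 621 (merge (leaf 5 493 589) (leaf 5 525 653))))) (merge (node 623 (merge (leaf 4 494 591) (node 622 (merge (leaf 4 526 655) (node 621 (merge (leaf 5 493 589) (leaf 5 525 653))))))) (node 591 (merge (leaf 4 494 623) (node 462 (merge (leaf 4 462 559) (node 495 (merge (leaf 3 461 461) (leaf 6 462 463)))))))))))))) (node 557 (merge (node 556 (merge (leaf 2 523 555) (leaf 2 524 559))) (node 590 (merge (node 494 (merge (node 589 (merge (leaf 5 461 462) (leaf 5 493 621))) (node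 493 (merge (leaf 7 461 461) (node 492 (merge (leaf 0 491 491) (leaf 0 492 495))))))) (merge (node 622 (merge (leaf 6 494 495) (node 655 (merge (leaf 4 526 623) (node 654 (merge (leaf 4 558 687) (node 653 (merge (leaf 5 525 621) (leaf 5 557 685))))))))) (merge (node 622 (merge (leaf 6 494 495) (node 623 (merge (leaf 4 526 655) (node 591 (merge (leaf 4 494 494) (node 592 (merge (leaf 5 495 560) (node 593 (merge (leaf 3 557 557) (leaf 1 590 594))))))))))) (node 623 (merge (node 494 (merge (leaf 4 494 591) (node 589 (merge (leaf 5 493 621) (node 462 (merge (leaf 5 461 557) (node 461 (merge (leaf 7 429 429) (leaf 7 461 493))))))))) (merge (node 622 (merge (leaf 4 526 655) (node 621 (merge (leaf 5 525 653) (node 589 (merge (leaf 5 493 494) (node 624 (merge (leaf 3 588 588) (leaf 3 589 625))))))))) (node 655 (merge (leaf 4 526 622) (node 591 (merge (leaf 7 558 687) (node 592 (merge (leaf 5 495 560) (node 593 (merge (leaf 3 557 557) (node 626 (merge (leaf 0 590 625) (node 594 (merge (leaf 0 591 627) (node 595 (merge (leaf 1 591 624) (node 563 (merge (leaf 2 559 562) (leaf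 2 560 564))))))))))))))))))))))))))))))))))))) (merge (node 526 (merge (node 497 (merge (leaf 2 493 525) (node 498 (merge (leaf 1 495 499) (leaf 2 494 529))))) (merge (node 525 (merge (leaf 2 493 497) (node 524 (merge (leaf 2 492 495) (node 492 (merge (leaf 3 491 491) (leaf 3 492 493))))))) (merge (node 525 (merge (node 524 (merge (leaf 2 492 495) (node 492 (merge (leaf 3 491 491) (leaf 3 492 493))))) (merge (node 524 (merge (leaf 2 492 495) (node 556 (merge (leaf 1 523 555) (leaf 1 524 557))))) (node 557 (merge (leaf 1 524 556) (node 529 (merge (leaf 1 525 558) (node 493 (merge (leaf 3 492 492) (leaf 3 493 494)))))))))) (node 558 (merge (node 557 (merge (leaf 1 525 529) (node 556 (merge (leaf 2 523 555) (leaf 2 524 559))))) (merge (node 529 (merge (leaf 1 525 557) (node 498 (merge (leaf 2 494 497) (node 530 (merge (leaf 2 495 499) (node 494 (merge (leaf 3 493 493) (leaf 3 494 495))))))))) (merge (node 494 (merge (node 529 (merge (leaf 3 493 493) (node 530 (merge (leaf 3 494 495) (leaf 1 526 559))))) (merge (node 493 (merge (leaf 3 493 529) (node 461 (merge (leaf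 7 461 590) (node 429 (merge (leaf 4 397 397) (leaf 7 429 462))))))) (merge (node 495 (merge (node 463 (merge (leaf 5 430 431) (leaf 6 462 590))) (node 493 (merge (leaf 0 492 492) (node 497 (merge (leaf 1 494 498) (node 461 (merge (leaf 3 460 460) (leaf 3 461 462))))))))) (node 497 (merge (node 498 (merge (leaf 1 495 499) (leaf 2 494 529))) (merge (node 498 (merge (leaf 1 494 495) (leaf 1 495 499))) (node 495 (merge (node 462 (merge (leaf 3 461 461) (node 430 (merge (leaf 4 398 398) (leaf 4 430 559))))) (node 529 (merge (leaf 0 494 530) (node 465 (merge (leaf 2 462 466) (node 560 (merge (leaf 5 432 433) (leaf 6 464 592)))))))))))))))) (node 590 (merge (node 622 (merge (leaf 6 494 495) (node 655 (merge (leaf 4 526 623) (node 654 (merge (leaf 6 526 559) (leaf 4 558 687))))))) (merge (node 622 (merge (leaf 6 494 495) (node 655 (merge (leaf 4 526 623) (node 654 (merge (leaf 4 558 687) (node 653 (merge (leaf 5 525 621) (leaf 5 557 685))))))))) (merge (node 494 (merge (node 493 (merge (leaf 7 461 461) (node 492 (merge (leaf 0 491 491) (leaf 0 492 495))))) (merge (node 589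 (merge (leaf 5 493 621) (node 462 (merge (leaf 5 461 557) (node 461 (merge (leaf 7 429 429) (leaf 7 461 493))))))) (merge (node 589 (merge (leaf 5 493 621) (node 462 (merge (leaf 5 461 557) (node 430 (merge (leaf 4 430 559) (node 495 (merge (leaf 4 398 398) (leaf 6 462 463))))))))) (node 557 (merge (node 556 (merge (leaf 2 523 555) (leaf 2 524 559))) (node 462 (merge (leaf 5 461 589) (node 463 (merge (leaf 6 430 431) (node 495 (merge (leaf 6 462 590) (node 461 (merge (leaf 7 429 429) (leaf 0 460 460))))))))))))))) (node 494 (merge (node 589 (merge (leaf 5 493 621) (node 462 (merge (leaf 5 461 557) (node 461 (merge (leaf 7 429 429) (leaf 7 461 493))))))) (merge (node 621 (merge (leaf 5 493 589) (node 622 (merge (leaf 5 525 653) (node 655 (merge (leaf 4 526 623) (node 654 (merge (leaf 6 526 559) (leaf 4 558 687))))))))) (node 461 (merge (leaf 7 461 493) (node 462 (merge (leaf 7 429 429) (node 430 (merge (leaf 4 430 559) (node 431 (merge (leaf 6 398 399) (leaf 6 430 463)))))))))))))))))))))))) (merge (node 526 (merge (node 497 (merge (leaf 2 493 525) (node 498 (merge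 (leaf 1 495 499) (leaf 2 494 529))))) (merge (node 525 (merge (leaf 2 493 497) (node 524 (merge (leaf 2 492 495) (node 492 (merge (leaf 3 491 491) (leaf 3 492 493))))))) (merge (node 525 (merge (node 524 (merge (leaf 2 492 495) (node 492 (merge (leaf 3 491 491) (leaf 3 492 493))))) (merge (node 524 (merge (leaf 2 492 495) (node 556 (merge (leaf 1 523 555) (leaf 1 524 557))))) (node 557 (merge (leaf 1 524 556) (node 529 (merge (leaf 1 525 558) (node 493 (merge (leaf 3 492 492) (leaf 3 493 494)))))))))) (hyp 1))))) (merge (node 526 (merge (node 497 (merge (leaf 2 493 525) (node 498 (merge (leaf 1 495 499) (leaf 2 494 529))))) (merge (node 525 (merge (leaf 2 493 497) (node 556 (merge (leaf 1 524 557) (node 524 (merge (leaf 1 523 555) (node 492 (merge (leaf 3 491 491) (leaf 3 492 493))))))))) (merge (node 493 (merge (node 492 (merge (leaf 3 492 525) (node 494 (merge (leaf 0 491 491) (leaf 3 493 529))))) (merge (node 525 (merge (leaf 3 492 492) (node 557 (merge (leaf 1 524 556) (node 558 (merge (leaf 1 525 529) (node 590 (merge (leaf 4 461 461) (leaf 7 493 622)))))))))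 (merge (node 529 (merge (leaf 3 493 494) (node 558 (merge (leaf 1 525 557) (node 530 (merge (leaf 1 526 559) (node 563 (merge (leaf 0 527 562) (node 531 (merge (leaf 0 528 564) (node 499 (merge (leaf 2 495 498) (leaf 2 496 500))))))))))))) (node 525 (merge (leaf 3 492 492) (node 556 (merge (leaf 1 524 557) (node 524 (merge (leaf 1 523 555) (node 559 (merge (leaf 0 524 560) (node 523 (merge (leaf 0 523 558) (node 522 (merge (leaf 2 490 494) (node 490 (merge (leaf 3 489 489) (leaf 3 490 491))))))))))))))))))) (node 558 (merge (node 557 (merge (leaf 1 525 529) (node 556 (merge (leaf 2 523 555) (leaf 2 524 559))))) (merge (node 494 (merge (node 493 (merge (leaf 3 493 529) (node 461 (merge (leaf 7 461 590) (node 429 (merge (leaf 4 397 397) (leaf 7 429 462))))))) (merge (node 529 (merge (leaf 3 493 493) (node 530 (merge (leaf 1 526 559) (node 563 (merge (leaf 0 527 562) (node 531 (merge (leaf 0 528 564) (node 497 (merge (leaf 2 494 498) (leaf 3 496 532))))))))))) (node 590 (merge (node 623 (merge (leaf 4 494 591) (node 622 (merge (leaf 4 526 655) (node 621 (merge (leaf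 5 493 589) (leaf 5 525 653))))))) (merge (node 591 (merge (leaf 4 494 623) (node 462 (merge (leaf 4 462 559) (node 431 (merge (leaf 6 430 463) (node 430 (merge (leaf 6 398 399) (node 429 (merge (leaf 7 397 397) (leaf 7 429 461))))))))))) (merge (node 621 (merge (leaf 5 493 589) (node 622 (merge (leaf 5 525 653) (node 559 (merge (leaf 6 526 654) (node 462 (merge (leaf 4 430 430) (leaf 4 462 591))))))))) (node 621 (merge (leaf 5 493 589) (node 622 (merge (leaf 5 525 653) (node 655 (merge (leaf 4 526 623) (node 654 (merge (leaf 6 526 559) (leaf 4 558 687)))))))))))))))) (merge (hyp 2) (node 590 (merge (node 494 (merge (node 493 (merge (leaf 7 461 461) (leaf 3 493 529))) (merge (node 557 (merge (leaf 1 525 529) (node 589 (merge (leaf 5 461 462) (leaf 5 493 621))))) (node 589 (merge (leaf 5 493 621) (node 462 (merge (leaf 5 461 557) (node 461 (merge (leaf 7 429 429) (leaf 7 461 493)))))))))) (merge (node 494 (merge (node 493 (merge (leaf 7 461 461) (leaf 3 493 529))) (node 623 (merge (leaf 4 494 591) (node 622 (merge (leaf 4 526 655) (node 621 (merge (leaf 5 493 589)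 (leaf 5 525 653))))))))) (merge (node 592 (merge (node 529 (merge (leaf 1 525 557) (node 497 (merge (leaf 2 494 498) (node 560 (merge (leaf 6 464 465) (leaf 6 496 624))))))) (merge (node 557 (merge (leaf 1 525 529) (node 591 (merge (leaf 3 557 593) (node 623 (merge (leaf 4 494 494) (node 655 (merge (leaf 4 526 622) (leaf 7 558 687))))))))) (merge (node 591 (merge (node 593 (merge (leaf 3 557 557) (node 625 (merge (leaf 4 496 560) (leaf 0 590 626))))) (node 623 (merge (leaf 4 494 494) (node 655 (merge (leaf 4 526 622) (leaf 7 558 687))))))) (node 560 (merge (node 497 (merge (leaf 6 464 465) (node 498 (merge (leaf 1 495 499) (leaf 2 494 529))))) (node 625 (merge (leaf 4 496 593) (node 624 (merge (leaf 4 528 657) (node 591 (merge (leaf 0 589 589) (leaf 5 495 623))))))))))))) (merge (node 592 (merge (node 529 (merge (leaf 1 525 557) (node 497 (merge (leaf 2 494 498) (node 560 (merge (leaf 6 464 465) (leaf 6 496 624))))))) (merge (node 557 (merge (leaf 1 525 529) (node 591 (merge (leaf 3 557 593) (node 623 (merge (leaf 4 494 494) (node 655 (merge (leaf 4 526 622) (leaf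 7 558 687))))))))) (merge (node 591 (merge (node 593 (merge (leaf 3 557 557) (node 625 (merge (leaf 4 496 560) (leaf 0 590 626))))) (node 623 (merge (leaf 4 494 494) (node 655 (merge (leaf 4 526 622) (leaf 7 558 687))))))) (node 494 (merge (node 493 (merge (leaf 7 461 461) (leaf 3 493 529))) (merge (node 623 (merge (leaf 4 494 591) (node 622 (merge (leaf 4 526 655) (node 621 (merge (leaf 5 525 653) (node 624 (merge (leaf 2 589 593) (node 657 (merge (leaf 0 621 656) (node 560 (merge (leaf 4 528 625) (node 497 (merge (leaf 6 464 465) (leaf 6 496 529))))))))))))))) (node 623 (merge (leaf 4 494 591) (node 622 (merge (leaf 4 526 655) (node 621 (merge (leaf 5 525 653) (node 624 (merge (leaf 2 589 593) (node 657 (merge (leaf 0 621 656) (node 625 (merge (leaf 4 528 560) (leaf 0 622 658)))))))))))))))))))) (merge (node 623 (merge (node 494 (merge (leaf 4 494 591) (node 589 (merge (leaf 5 493 621) (node 462 (merge (leaf 5 461 557) (node 461 (merge (leaf 7 429 429) (leaf 7 461 493))))))))) (merge (node 622 (merge (leaf 4 526 655) (node 621 (merge (leaf 5 525 653) (node 589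 (merge (leaf 5 493 494) (node 624 (merge (leaf 3 588 588) (leaf 3 589 625))))))))) (node 655 (merge (leaf 4 526 622) (node 591 (merge (leaf 7 558 687) (node 592 (merge (leaf 5 495 560) (node 593 (merge (leaf 3 557 557) (node 626 (merge (leaf 0 590 625) (node 594 (merge (leaf 0 591 627) (node 595 (merge (leaf 1 591 624) (node 563 (merge (leaf 2 559 562) (leaf 2 560 564)))))))))))))))))))) (node 592 (merge (node 529 (merge (leaf 1 525 557) (node 497 (merge (leaf 2 494 498) (node 560 (merge (leaf 6 464 465) (leaf 6 496 624))))))) (merge (node 557 (merge (leaf 1 525 529) (node 591 (merge (leaf 3 557 593) (node 589 (merge (leaf 3 556 556) (node 621 (merge (leaf 1 588 620) (leaf 6 525 653))))))))) (merge (node 560 (merge (node 497 (merge (leaf 6 464 465) (node 498 (merge (leaf 1 495 499) (leaf 2 494 529))))) (node 625 (merge (leaf 4 496 593) (node 624 (merge (leaf 4 528 657) (node 591 (merge (leaf 0 589 589) (leaf 5 495 623))))))))) (merge (node 557 (merge (leaf 1 525 529) (node 556 (merge (leaf 2 523 555) (node 591 (merge (leaf 3 556 589) (leaf 3 557 593))))))) (node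 591 (merge (node 593 (merge (leaf 3 557 557) (node 625 (merge (leaf 4 496 560) (leaf 0 590 626))))) (merge (node 623 (merge (leaf 5 495 560) (node 655 (merge (leaf 4 526 622) (leaf 7 558 687))))) (node 593 (merge (leaf 3 557 557) (node 626 (merge (leaf 0 590 625) (node 594 (merge (leaf 0 591 627) (node 623 (merge (leaf 1 590 622) (node 595 (merge (leaf 1 591 624) (node 563 (merge (leaf 2 559 562) (leaf 2 560 564))))))))))))))))))))))))))))))))))) (merge (node 526 (merge (node 497 (merge (leaf 2 493 525) (node 498 (merge (leaf 1 495 499) (leaf 2 494 529))))) (merge (node 525 (merge (leaf 2 493 497) (node 524 (merge (leaf 2 492 495) (node 492 (merge (leaf 3 491 491) (leaf 3 492 493))))))) (merge (node 493 (merge (node 492 (merge (leaf 3 492 525) (node 494 (merge (leaf 0 491 491) (leaf 3 493 529))))) (merge (node 525 (merge (leaf 3 492 492) (node 524 (merge (leaf 2 492 495) (node 559 (merge (leaf 0 524 560) (node 523 (merge (leaf 0 523 558) (node 554 (merge (leaf 1 522 555) (node 522 (merge (leaf 2 490 494) (leaf 1 521 553))))))))))))) (merge (node 525 (merge (leaf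 3 492 492) (node 524 (merge (leaf 2 492 495) (node 559 (merge (leaf 0 524 560) (node 523 (merge (leaf 0 523 558) (node 554 (merge (leaf 1 522 555) (node 522 (merge (leaf 1 521 553) (node 490 (merge (leaf 3 489 489) (leaf 3 490 491))))))))))))))) (node 494 (merge (leaf 3 493 529) (node 462 (merge (node 559 (merge (leaf 4 430 430) (node 591 (merge (leaf 4 462 558) (leaf 6 495 623))))) (merge (node 430 (merge (leaf 4 430 559) (node 399 (merge (leaf 6 398 431) (node 398 (merge (leaf 6 366 367) (node 397 (merge (leaf 7 365 365) (leaf 7 397 429))))))))) (node 461 (merge (node 429 (merge (leaf 4 397 397) (node 558 (merge (leaf 7 429 462) (leaf 7 461 590))))) (merge (node 460 (merge (leaf 3 460 495) (node 459 (merge (leaf 0 458 458) (node 491 (merge (leaf 1 458 490) (node 427 (merge (leaf 3 426 426) (node 428 (merge (leaf 3 427 463) (node 396 (merge (leaf 4 364 364) (leaf 6 395 523))))))))))))) (node 460 (merge (leaf 3 460 495) (node 459 (merge (leaf 0 458 458) (node 491 (merge (leaf 1 458 490) (node 427 (merge (leaf 3 426 426) (node 428 (merge (leaf 3 427 463) (node 396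 (merge (leaf 4 364 364) (leaf 6 395 523))))))))))))))))))))))))) (node 494 (merge (node 493 (merge (leaf 3 493 529) (node 492 (merge (leaf 0 491 491) (leaf 0 492 495))))) (merge (node 497 (merge (node 498 (merge (leaf 1 495 499) (leaf 2 494 529))) (merge (node 498 (merge (leaf 1 494 495) (leaf 1 495 499))) (node 495 (merge (node 462 (merge (leaf 3 461 461) (node 430 (merge (leaf 4 398 398) (leaf 4 430 559))))) (node 529 (merge (leaf 0 494 530) (node 465 (merge (leaf 2 462 466) (node 560 (merge (leaf 5 432 433) (leaf 6 464 592)))))))))))) (merge (node 529 (merge (leaf 3 493 493) (node 498 (merge (leaf 2 494 497) (node 530 (merge (leaf 2 495 499) (node 563 (merge (leaf 0 527 562) (node 531 (merge (leaf 0 528 564) (node 559 (merge (leaf 1 526 558) (leaf 1 527 560))))))))))))) (node 462 (merge (node 559 (merge (leaf 4 430 430) (node 591 (merge (leaf 4 462 558) (leaf 6 495 623))))) (merge (node 430 (merge (leaf 4 430 559) (node 399 (merge (leaf 6 398 431) (node 398 (merge (leaf 6 366 367) (node 397 (merge (leaf 7 365 365) (leaf 7 397 429))))))))) (merge (node 461 (merge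 (node 495 (merge (leaf 3 461 497) (node 493 (merge (leaf 3 460 460) (leaf 0 492 492))))) (merge (node 558 (merge (leaf 7 429 429) (node 590 (merge (leaf 7 461 493) (node 621 (merge (leaf 5 493 589) (node 622 (merge (leaf 6 494 495) (leaf 5 525 653))))))))) (merge (node 558 (merge (leaf 7 429 429) (node 591 (merge (leaf 4 462 559) (node 590 (merge (leaf 7 461 493) (leaf 4 494 623))))))) (node 558 (merge (leaf 7 429 429) (node 591 (merge (leaf 4 462 559) (node 590 (merge (leaf 4 494 623) (node 463 (merge (leaf 6 430 431) (leaf 6 462 495))))))))))))) (node 461 (merge (node 495 (merge (leaf 3 461 497) (node 493 (merge (leaf 3 460 460) (leaf 0 492 492))))) (merge (node 558 (merge (leaf 7 429 429) (node 590 (merge (leaf 7 461 493) (node 621 (merge (leaf 5 493 589) (node 622 (merge (leaf 6 494 495) (leaf 5 525 653))))))))) (node 429 (merge (leaf 7 429 558) (node 430 (merge (leaf 7 397 397) (node 431 (merge (leaf 6 398 399) (node 460 (merge (leaf 1 428 432) (leaf 2 427 459)))))))))))))))))))))))) (merge (hyp 3) (node 497 (merge (node 526 (merge (leaf 2 493 525) (node 498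 (merge (leaf 1 495 499) (leaf 2 494 529))))) (merge (node 526 (merge (leaf 2 493 525) (node 498 (merge (leaf 1 494 495) (leaf 1 495 499))))) (merge (node 495 (merge (node 498 (merge (leaf 1 495 499) (node 463 (merge (leaf 3 462 462) (node 560 (merge (leaf 4 431 431) (leaf 7 463 592))))))) (merge (node 465 (merge (node 560 (merge (leaf 6 464 592) (node 433 (merge (leaf 5 400 401) (leaf 5 432 529))))) (merge (node 498 (merge (leaf 1 495 499) (node 530 (merge (leaf 0 495 531) (node 466 (merge (leaf 2 463 467) (node 562 (merge (leaf 7 465 594) (node 563 (merge (leaf 0 527 529) (leaf 4 466 595))))))))))) (node 498 (merge (leaf 1 495 499) (node 530 (merge (leaf 0 495 531) (node 466 (merge (leaf 2 463 467) (node 433 (merge (leaf 4 401 401) (leaf 7 433 562)))))))))))) (merge (node 498 (merge (leaf 1 495 499) (node 530 (merge (leaf 0 495 531) (node 466 (merge (leaf 2 463 467) (node 463 (merge (leaf 3 462 462) (node 431 (merge (leaf 4 399 399) (node 432 (merge (leaf 6 399 400) (node 430 (merge (leaf 7 398 398) (node 465 (merge (leaf 0 430 433) (node 562 (merge (leaf 7 465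 594) (node 563 (merge (leaf 0 527 529) (leaf 4 466 595))))))))))))))))))))) (node 559 (merge (node 591 (merge (leaf 6 495 623) (node 592 (merge (leaf 4 495 624) (node 560 (merge (leaf 4 463 463) (leaf 6 464 465))))))) (merge (node 591 (merge (leaf 6 495 623) (node 590 (merge (leaf 5 494 622) (node 463 (merge (leaf 5 462 558) (node 431 (merge (leaf 4 399 399) (leaf 4 431 560))))))))) (merge (node 591 (merge (leaf 6 495 623) (node 592 (merge (leaf 4 495 624) (node 590 (merge (leaf 5 494 622) (node 558 (merge (leaf 5 462 463) (node 557 (merge (leaf 0 556 556) (leaf 3 557 593))))))))))) (merge (node 591 (merge (leaf 6 495 623) (node 592 (merge (leaf 4 495 624) (node 560 (merge (leaf 6 464 465) (node 593 (merge (leaf 4 496 625) (node 558 (merge (leaf 0 557 557) (leaf 3 558 594))))))))))) (node 463 (merge (node 431 (merge (leaf 4 399 399) (node 430 (merge (leaf 7 398 398) (leaf 7 430 462))))) (merge (node 431 (merge (leaf 4 399 399) (node 560 (merge (leaf 4 431 527) (leaf 7 463 592))))) (node 560 (merge (leaf 4 463 592) (node 558 (merge (leaf 5 462 590) (node 557 (merge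 (leaf 2 525 529) (leaf 2 524 556))))))))))))))))))) (hyp 4)))))))))))))))))))) nQ_43 cQ_43 16 (by decide +kernel)
def nQ_44 : ℕ := 0x3000000120000001a00000010000000000000000000000000000000000000000000000000000000000000000000000000000000000000000000000000000000000000000000000000000
def cQ_44 : ℕ := 0x40000001e0000001e0000001f000001df800000cf8000009f8000001e0000001e0000011e000000180000000000000000000000000000000000000000000000000000000000000000000000000000000000000000000000000000000000
theorem lQ_44 : S nQ_44 cQ_44 10 := S_of_chk [] trivial (node 587 (merge (node 590 (merge (node 623 (merge (leaf 0 587 622) (node 591 (merge (leaf 2 556 559) (leaf 0 588 624))))) (node 554 (merge (leaf 3 554 555) (node 586 (merge (leaf 3 553 553) (node 617 (merge (leaf 1 585 618) (node 585 (merge (leaf 2 553 556) (leaf 1 584 616))))))))))) (merge (node 590 (merge (node 623 (merge (leaf 0 587 622) (node 591 (merge (leaf 2 556 559) (leaf 0 588 624))))) (merge (node 618 (merge (leaf 1 586 619) (node 586 (merge (leaf 1 585 617) (node 554 (merge (leaf 3 553 553) (leaf 3 554 555))))))) (node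 623 (merge (leaf 0 587 622) (node 591 (merge (leaf 2 556 559) (leaf 0 588 624)))))))) (merge (node 586 (merge (node 618 (merge (leaf 1 585 617) (node 590 (merge (leaf 1 586 619) (node 623 (merge (leaf 0 587 622) (node 591 (merge (leaf 2 556 559) (leaf 0 588 624))))))))) (merge (node 585 (merge (leaf 2 553 556) (node 616 (merge (leaf 1 584 617) (node 584 (merge (leaf 1 583 615) (node 552 (merge (leaf 3 551 551) (leaf 3 552 553))))))))) (node 585 (merge (leaf 2 553 556) (node 552 (merge (leaf 3 552 553) (node 584 (merge (leaf 3 551 551) (node 619 (merge (leaf 0 584 620) (node 618 (merge (leaf 0 583 583) (leaf 1 586 590)))))))))))))) (merge (node 555 (merge (node 554 (merge (leaf 3 554 590) (node 553 (merge (leaf 0 552 552) (leaf 0 553 556))))) (merge (node 590 (merge (leaf 3 554 554) (node 623 (merge (leaf 0 587 622) (node 591 (merge (leaf 0 588 624) (node 619 (merge (leaf 1 586 618) (leaf 1 587 620))))))))) (merge (node 591 (merge (node 559 (merge (leaf 5 463 464) (leaf 6 495 623))) (merge (node 559 (merge (leaf 5 463 464) (leaf 2 556 590))) (node 590 (merge (leaf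 3 555 556) (node 623 (merge (leaf 0 587 622) (leaf 0 588 624)))))))) (node 523 (merge (node 491 (merge (leaf 4 491 620) (node 459 (merge (leaf 4 459 556) (node 460 (merge (leaf 6 427 428) (leaf 6 459 492))))))) (merge (node 491 (merge (leaf 4 491 620) (node 492 (merge (leaf 6 459 460) (node 619 (merge (leaf 6 491 524) (node 490 (merge (leaf 7 458 458) (leaf 7 490 522))))))))) (merge (node 491 (merge (leaf 4 491 620) (node 556 (merge (leaf 4 459 459) (node 490 (merge (leaf 7 458 458) (node 619 (merge (leaf 7 490 522) (node 651 (merge (leaf 6 523 524) (leaf 6 555 683))))))))))) (merge (node 491 (merge (leaf 4 491 620) (node 556 (merge (leaf 4 459 459) (node 492 (merge (leaf 6 459 460) (node 619 (merge (leaf 5 491 524) (node 650 (merge (leaf 5 522 618) (node 651 (merge (leaf 5 554 682) (leaf 6 555 683))))))))))))) (merge (node 490 (merge (node 491 (merge (leaf 7 458 458) (node 459 (merge (leaf 4 459 556) (node 460 (merge (leaf 6 427 428) (leaf 6 459 492))))))) (merge (node 491 (merge (leaf 7 458 458) (node 492 (merge (leaf 6 459 460) (node 524 (merge (leaf 0 489 489)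 (leaf 6 491 619))))))) (merge (node 619 (merge (leaf 7 490 522) (node 650 (merge (leaf 5 522 618) (node 651 (merge (leaf 5 554 682) (node 524 (merge (leaf 6 491 492) (leaf 6 523 556))))))))) (node 491 (merge (leaf 7 458 458) (node 556 (merge (leaf 4 459 459) (node 619 (merge (leaf 7 490 522) (node 651 (merge (leaf 6 523 524) (leaf 6 555 683))))))))))))) (node 619 (merge (node 524 (merge (leaf 6 491 492) (node 522 (merge (leaf 7 490 490) (node 521 (merge (leaf 0 521 556) (node 553 (merge (leaf 1 520 552) (leaf 1 521 554))))))))) (merge (node 652 (merge (leaf 4 523 620) (node 651 (merge (leaf 4 555 684) (node 522 (merge (leaf 7 490 490) (leaf 7 522 554))))))) (node 524 (merge (leaf 6 491 492) (node 651 (merge (leaf 6 523 556) (node 684 (merge (leaf 4 555 652) (node 683 (merge (leaf 4 587 716) (node 682 (merge (leaf 5 554 650) (leaf 5 586 714)))))))))))))))))))))))) (merge (node 555 (merge (node 554 (merge (leaf 3 554 590) (node 553 (merge (leaf 0 552 552) (leaf 0 553 556))))) (merge (node 590 (merge (leaf 3 554 554) (node 623 (merge (leaf 0 587 622) (node 591 (merge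 (leaf 2 556 559) (leaf 0 588 624))))))) (merge (node 591 (merge (node 559 (merge (leaf 5 463 464) (leaf 6 495 623))) (merge (node 559 (merge (leaf 5 463 464) (leaf 2 556 590))) (node 590 (merge (leaf 3 555 556) (node 623 (merge (leaf 0 587 622) (leaf 0 588 624)))))))) (node 523 (merge (node 491 (merge (leaf 4 491 620) (node 459 (merge (leaf 4 459 556) (node 460 (merge (leaf 6 427 428) (leaf 6 459 492))))))) (merge (node 491 (merge (leaf 4 491 620) (node 492 (merge (leaf 6 459 460) (node 619 (merge (leaf 6 491 524) (node 490 (merge (leaf 7 458 458) (leaf 7 490 522))))))))) (merge (node 491 (merge (leaf 4 491 620) (node 556 (merge (leaf 4 459 459) (node 490 (merge (leaf 7 458 458) (node 619 (merge (leaf 7 490 522) (node 651 (merge (leaf 6 523 524) (leaf 6 555 683))))))))))) (merge (node 491 (merge (leaf 4 491 620) (node 459 (merge (leaf 4 459 556) (node 554 (merge (leaf 5 458 586) (node 522 (merge (leaf 5 426 427) (node 619 (merge (leaf 7 522 651) (node 492 (merge (leaf 6 459 460) (leaf 6 491 524))))))))))))) (merge (node 556 (merge (node 491 (merge (leaf 4 459 459)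 (node 492 (merge (leaf 6 459 460) (node 524 (merge (leaf 5 491 619) (node 490 (merge (leaf 7 458 458) (leaf 0 489 489))))))))) (merge (node 554 (merge (leaf 0 553 553) (node 522 (merge (leaf 3 521 521) (node 619 (merge (leaf 7 490 490) (leaf 7 522 651))))))) (merge (node 554 (merge (leaf 0 553 553) (node 586 (merge (leaf 1 553 585) (node 522 (merge (leaf 3 521 521) (node 490 (merge (leaf 4 458 458) (node 489 (merge (leaf 7 457 457) (leaf 3 489 524))))))))))) (node 554 (merge (leaf 0 553 553) (node 491 (merge (leaf 4 459 459) (node 492 (merge (leaf 6 459 460) (node 619 (merge (leaf 5 491 524) (node 651 (merge (leaf 7 522 522) (leaf 6 555 683))))))))))))))) (node 619 (merge (node 524 (merge (leaf 6 491 492) (node 522 (merge (leaf 7 490 490) (node 521 (merge (leaf 0 521 556) (node 553 (merge (leaf 1 520 552) (leaf 1 521 554))))))))) (merge (node 652 (merge (leaf 4 523 620) (node 651 (merge (leaf 4 555 684) (node 522 (merge (leaf 7 490 490) (leaf 7 522 554))))))) (node 524 (merge (leaf 6 491 492) (node 651 (merge (leaf 6 523 556) (node 684 (merge (leaf 4 555 652) (node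 683 (merge (leaf 4 587 716) (node 682 (merge (leaf 5 554 650) (leaf 5 586 714)))))))))))))))))))))))) (merge (node 586 (merge (node 585 (merge (leaf 2 553 556) (node 553 (merge (leaf 3 552 552) (leaf 3 553 554))))) (merge (node 617 (merge (leaf 1 585 618) (node 585 (merge (leaf 2 553 556) (leaf 1 584 616))))) (merge (node 617 (merge (leaf 1 585 618) (node 585 (merge (leaf 1 584 616) (node 553 (merge (leaf 3 552 552) (leaf 3 553 554))))))) (node 554 (merge (leaf 3 553 553) (node 651 (merge (node 683 (merge (leaf 7 554 619) (node 618 (merge (leaf 1 585 617) (leaf 4 554 650))))) (merge (node 619 (merge (leaf 7 554 683) (node 555 (merge (leaf 7 522 522) (node 652 (merge (leaf 4 555 684) (node 556 (merge (leaf 6 523 524) (leaf 6 524 620))))))))) (merge (node 618 (merge (leaf 1 585 617) (node 522 (merge (leaf 4 522 619) (node 523 (merge (leaf 6 490 491) (node 521 (merge (leaf 7 489 489) (node 556 (merge (leaf 0 521 524) (leaf 3 521 555))))))))))) (node 618 (merge (leaf 1 585 617) (node 650 (merge (leaf 4 554 683) (node 681 (merge (leaf 5 553 649) (node 682 (merge (leaf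 6 554 555) (leaf 5 585 713))))))))))))))))))) (node 619 (merge (node 590 (merge (leaf 1 586 618) (node 591 (merge (leaf 2 556 559) (leaf 1 587 620))))) (merge (node 618 (merge (leaf 1 586 590) (node 617 (merge (leaf 1 585 586) (leaf 2 584 616))))) (merge (node 591 (merge (node 559 (merge (leaf 5 463 464) (leaf 6 495 623))) (merge (node 559 (merge (leaf 5 463 464) (leaf 2 556 590))) (node 590 (merge (leaf 1 587 620) (node 623 (merge (leaf 0 587 622) (leaf 0 588 624)))))))) (node 651 (merge (node 683 (merge (leaf 6 555 556) (node 714 (merge (leaf 5 586 682) (node 715 (merge (leaf 6 587 620) (leaf 5 618 746))))))) (merge (node 683 (merge (leaf 6 555 556) (node 586 (merge (leaf 7 554 554) (node 715 (merge (leaf 7 586 618) (leaf 6 587 620))))))) (merge (node 683 (merge (leaf 6 555 556) (node 586 (merge (leaf 7 554 554) (node 715 (merge (leaf 7 586 618) (node 714 (merge (leaf 5 586 682) (leaf 5 618 746))))))))) (merge (node 652 (merge (node 620 (merge (leaf 6 524 556) (leaf 6 556 684))) (merge (node 684 (merge (leaf 4 555 555) (leaf 6 556 620))) (merge (node 620 (merge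 (leaf 6 524 556) (node 617 (merge (leaf 2 585 618) (node 555 (merge (leaf 4 523 523) (node 650 (merge (leaf 5 554 682) (node 649 (merge (leaf 3 616 616) (leaf 2 616 648))))))))))) (node 555 (merge (leaf 4 555 684) (node 650 (merge (leaf 5 554 682) (node 523 (merge (leaf 5 522 618) (node 524 (merge (leaf 6 491 492) (leaf 6 523 556))))))))))))) (node 683 (merge (node 714 (merge (leaf 5 586 682) (node 715 (merge (leaf 6 587 620) (leaf 5 618 746))))) (merge (node 586 (merge (leaf 7 554 554) (node 715 (merge (leaf 7 586 618) (leaf 6 587 620))))) (node 684 (merge (leaf 4 587 716) (node 555 (merge (leaf 4 555 652) (node 682 (merge (leaf 5 554 650) (leaf 5 586 714)))))))))))))))))))))))))) nQ_44 cQ_44 10 (by decide +kernel)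
def nQ_45 : ℕ := 0x120000001a00000010000000000000000000000000000000000000000000000000000000000000000000000000000000000000000000000000000000000000000000000000000
def cQ_45 : ℕ := 0x40000005e0000007e0000007f000001ff800000ff8000009f8000001e000002be000003fe000003580000000000000000000000000000000000000000000000000000000000000000000000000000000000000000000000000000000000
theorem lQ_45 : S nQ_45 cQ_45 12 := S_of_chk [(nQ_44, cQ_44, 10)] ⟨lQ_44, trivial⟩ (node 589 (merge (node 621 (merge (node 654 (merge (leaf 4 525 622) (node 653 (merge (leaf 4 557 686) (node 524 (merge (leaf 7 492 492) (leaf 7 524 556))))))) (merge (node 622 (merge (leaf 4 525 654) (node 493 (merge (leaf 4 493 590) (node 620 (merge (leaf 5 492 588) (leaf 5 524 652))))))) (node 652 (merge (leaf 5 524 620) (node 653 (merge (leaf 5 556 684) (node 524 (merge (leaf 7 492 492) (leaf 7 524 556)))))))))) (merge (node 493 (merge (node 622 (merge (leaf 4 493 590) (node 621 (merge (leaf 4 525 654) (node 620 (merge (leaf 5 492 588) (leaf 5 524 652))))))) (node 460 (merge (leaf 7 460 492) (node 461 (merge (leaf 7 428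 428) (node 462 (merge (leaf 6 429 430) (node 463 (merge (leaf 0 460 495) (node 464 (merge (leaf 0 461 497) (node 559 (merge (leaf 5 431 432) (leaf 5 463 591))))))))))))))) (merge (node 621 (merge (node 654 (merge (leaf 4 525 622) (node 653 (merge (leaf 4 557 686) (node 524 (merge (leaf 7 492 492) (leaf 7 524 556))))))) (merge (node 492 (merge (leaf 7 492 524) (node 493 (merge (leaf 7 460 460) (node 588 (merge (leaf 5 492 620) (node 461 (merge (leaf 5 460 556) (node 462 (merge (leaf 6 429 430) (node 464 (merge (leaf 1 460 463) (node 559 (merge (leaf 5 431 432) (leaf 5 463 591))))))))))))))) (merge (node 622 (merge (leaf 4 525 654) (node 493 (merge (leaf 4 493 590) (node 460 (merge (leaf 7 460 492) (node 461 (merge (leaf 7 428 428) (node 462 (merge (leaf 6 429 430) (node 463 (merge (leaf 0 460 495) (node 464 (merge (leaf 0 461 497) (node 433 (merge (leaf 2 429 432) (leaf 6 432 465))))))))))))))))) (node 622 (merge (leaf 4 525 654) (node 493 (merge (leaf 4 493 590) (node 588 (merge (leaf 5 492 620) (node 461 (merge (leaf 5 460 556) (node 462 (merge (leaf 6 429 430)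 (node 460 (merge (leaf 7 428 428) (node 463 (merge (leaf 0 460 495) (node 464 (merge (leaf 0 461 497) (node 433 (merge (leaf 2 429 432) (leaf 6 432 465))))))))))))))))))))))) (merge (node 621 (merge (node 654 (merge (leaf 4 525 622) (node 653 (merge (leaf 4 557 686) (node 652 (merge (leaf 5 524 620) (leaf 5 556 684))))))) (merge (node 652 (merge (leaf 5 524 620) (node 653 (merge (leaf 5 556 684) (node 524 (merge (leaf 7 492 492) (leaf 7 524 556))))))) (node 622 (merge (leaf 4 525 654) (node 493 (merge (leaf 4 493 590) (node 460 (merge (leaf 7 460 492) (node 461 (merge (leaf 7 428 428) (node 462 (merge (leaf 6 429 430) (node 463 (merge (leaf 0 460 495) (node 464 (merge (leaf 0 461 497) (node 433 (merge (leaf 2 429 432) (leaf 6 432 465)))))))))))))))))))) (merge (node 621 (merge (node 620 (merge (leaf 5 524 652) (node 493 (merge (leaf 5 492 588) (node 460 (merge (leaf 7 460 492) (node 461 (merge (leaf 7 428 428) (node 462 (merge (leaf 6 429 430) (node 463 (merge (leaf 0 460 495) (node 464 (merge (leaf 0 461 497) (node 433 (merge (leaf 2 429 432) (leaf 6 432 465)))))))))))))))))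 (merge (node 492 (merge (leaf 7 492 524) (node 493 (merge (leaf 7 460 460) (node 588 (merge (leaf 5 492 620) (node 461 (merge (leaf 5 460 556) (node 462 (merge (leaf 6 429 430) (node 464 (merge (leaf 1 460 463) (node 559 (merge (leaf 5 431 432) (leaf 5 463 591))))))))))))))) (merge (node 652 (merge (leaf 5 524 620) (node 653 (merge (leaf 5 556 684) (node 556 (merge (leaf 7 524 524) (node 685 (merge (leaf 7 556 588) (node 686 (merge (leaf 4 557 654) (leaf 4 589 718))))))))))) (node 524 (merge (leaf 7 492 492) (node 653 (merge (leaf 7 524 556) (node 686 (merge (leaf 4 557 654) (node 685 (merge (leaf 4 589 718) (node 684 (merge (leaf 5 556 652) (leaf 5 588 716))))))))))))))) (merge (node 621 (merge (node 654 (merge (leaf 4 525 622) (node 653 (merge (leaf 4 557 686) (node 652 (merge (leaf 5 524 620) (leaf 5 556 684))))))) (merge (node 652 (merge (leaf 5 524 620) (node 653 (merge (leaf 5 556 684) (node 556 (merge (leaf 7 524 524) (node 685 (merge (leaf 7 556 588) (node 686 (merge (leaf 4 557 654) (leaf 4 589 718))))))))))) (merge (node 654 (merge (leaf 4 525 622) (node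 653 (merge (leaf 4 557 686) (node 556 (merge (leaf 7 524 524) (node 685 (merge (leaf 7 556 588) (node 684 (merge (leaf 5 556 652) (leaf 5 588 716))))))))))) (merge (node 652 (merge (leaf 5 524 620) (node 653 (merge (leaf 5 556 684) (node 556 (merge (leaf 7 524 524) (node 588 (merge (leaf 7 556 685) (node 493 (merge (leaf 5 460 461) (node 590 (merge (leaf 4 493 622) (node 591 (merge (leaf 3 555 555) (leaf 2 556 559))))))))))))))) (node 622 (merge (leaf 4 525 654) (node 493 (merge (leaf 4 493 590) (node 588 (merge (leaf 5 492 620) (node 461 (merge (leaf 5 460 556) (node 462 (merge (leaf 6 429 430) (node 460 (merge (leaf 7 428 428) (node 463 (merge (leaf 0 460 495) (node 464 (merge (leaf 0 461 497) (node 433 (merge (leaf 2 429 432) (leaf 6 432 465)))))))))))))))))))))))) (merge (node 621 (merge (node 622 (merge (leaf 4 525 654) (node 493 (merge (leaf 4 493 590) (node 460 (merge (leaf 7 460 492) (node 461 (merge (leaf 7 428 428) (node 462 (merge (leaf 6 429 430) (node 463 (merge (leaf 0 460 495) (node 464 (merge (leaf 0 461 497) (node 433 (merge (leaf 2 429 432) (leaf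 6 432 465))))))))))))))))) (merge (node 524 (merge (leaf 7 492 492) (node 653 (merge (leaf 7 524 556) (node 686 (merge (leaf 4 557 654) (node 685 (merge (leaf 4 589 718) (node 684 (merge (leaf 5 556 652) (leaf 5 588 716))))))))))) (merge (node 654 (merge (leaf 4 525 622) (node 653 (merge (leaf 4 557 686) (node 556 (merge (leaf 7 524 524) (node 685 (merge (leaf 7 556 588) (node 684 (merge (leaf 5 556 652) (leaf 5 588 716))))))))))) (node 556 (merge (node 524 (merge (leaf 7 492 492) (leaf 7 524 653))) (merge (node 653 (merge (leaf 7 524 524) (node 685 (merge (leaf 7 556 588) (node 684 (merge (leaf 5 556 652) (leaf 5 588 716))))))) (merge (node 492 (merge (leaf 7 492 524) (node 493 (merge (leaf 7 460 460) (node 461 (merge (leaf 5 460 588) (node 462 (merge (leaf 6 429 430) (node 464 (merge (leaf 1 460 463) (node 559 (merge (leaf 5 431 432) (leaf 5 463 591))))))))))))) (node 590 (merge (node 555 (merge (leaf 0 554 554) (node 591 (merge (leaf 3 555 588) (node 559 (merge (leaf 5 463 464) (leaf 6 495 623))))))) (merge (node 493 (merge (leaf 4 493 622) (node 588 (merge (leaf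 5 460 461) (node 591 (merge (leaf 3 555 555) (leaf 2 556 559))))))) (node 493 (merge (leaf 4 493 622) (node 460 (merge (leaf 7 460 492) (node 461 (merge (leaf 7 428 428) (node 462 (merge (leaf 6 429 430) (node 463 (merge (leaf 0 460 495) (node 464 (merge (leaf 0 461 497) (node 433 (merge (leaf 2 429 432) (leaf 6 432 465)))))))))))))))))))))))))) (merge (node 621 (merge (node 652 (merge (leaf 5 524 620) (node 653 (merge (leaf 5 556 684) (node 524 (merge (leaf 7 492 492) (leaf 7 524 556))))))) (merge (node 620 (merge (leaf 5 524 652) (node 493 (merge (leaf 5 492 588) (node 460 (merge (leaf 7 460 492) (node 461 (merge (leaf 7 428 428) (node 462 (merge (leaf 6 429 430) (node 463 (merge (leaf 0 460 495) (node 464 (merge (leaf 0 461 497) (node 433 (merge (leaf 2 429 432) (leaf 6 432 465))))))))))))))))) (merge (node 492 (merge (leaf 7 492 524) (node 493 (merge (leaf 7 460 460) (node 588 (merge (leaf 5 492 620) (node 461 (merge (leaf 5 460 556) (node 462 (merge (leaf 6 429 430) (node 464 (merge (leaf 1 460 463) (node 559 (merge (leaf 5 431 432) (leaf 5 463 591)))))))))))))))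 (merge (node 652 (merge (leaf 5 524 620) (node 653 (merge (leaf 5 556 684) (node 556 (merge (leaf 7 524 524) (node 588 (merge (leaf 7 556 685) (node 493 (merge (leaf 5 460 461) (node 590 (merge (leaf 4 493 622) (node 591 (merge (leaf 3 555 555) (leaf 2 556 559))))))))))))))) (node 556 (merge (node 524 (merge (leaf 7 492 492) (leaf 7 524 653))) (merge (node 653 (merge (leaf 7 524 524) (node 685 (merge (leaf 7 556 588) (node 684 (merge (leaf 5 556 652) (leaf 5 588 716))))))) (merge (node 492 (merge (leaf 7 492 524) (node 493 (merge (leaf 7 460 460) (node 461 (merge (leaf 5 460 588) (node 462 (merge (leaf 6 429 430) (node 464 (merge (leaf 1 460 463) (node 559 (merge (leaf 5 431 432) (leaf 5 463 591))))))))))))) (node 590 (merge (node 555 (merge (leaf 0 554 554) (node 591 (merge (leaf 3 555 588) (node 559 (merge (leaf 5 463 464) (leaf 6 495 623))))))) (merge (node 493 (merge (leaf 4 493 622) (node 588 (merge (leaf 5 460 461) (node 591 (merge (leaf 3 555 555) (leaf 2 556 559))))))) (node 493 (merge (leaf 4 493 622) (node 460 (merge (leaf 7 460 492) (node 461 (merge (leaf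 7 428 428) (node 462 (merge (leaf 6 429 430) (node 463 (merge (leaf 0 460 495) (node 464 (merge (leaf 0 461 497) (node 433 (merge (leaf 2 429 432) (leaf 6 432 465))))))))))))))))))))))))))) (merge (node 621 (merge (node 654 (merge (leaf 4 525 622) (node 653 (merge (leaf 4 557 686) (node 524 (merge (leaf 7 492 492) (leaf 7 524 556))))))) (merge (node 654 (merge (leaf 4 525 622) (node 653 (merge (leaf 4 557 686) (node 652 (merge (leaf 5 524 620) (leaf 5 556 684))))))) (merge (node 652 (merge (leaf 5 524 620) (node 653 (merge (leaf 5 556 684) (node 524 (merge (leaf 7 492 492) (leaf 7 524 556))))))) (node 620 (merge (leaf 5 524 652) (node 591 (merge (node 559 (merge (leaf 5 463 464) (leaf 6 495 623))) (merge (node 622 (merge (leaf 4 525 654) (node 619 (merge (leaf 2 587 590) (node 651 (merge (leaf 1 618 650) (node 587 (merge (leaf 3 586 586) (node 588 (merge (leaf 3 587 623) (node 524 (merge (leaf 7 492 492) (leaf 5 523 556))))))))))))) (node 622 (merge (leaf 4 525 654) (node 619 (merge (leaf 2 587 590) (node 650 (merge (leaf 1 618 651) (node 618 (merge (leaf 1 617 649)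 (node 586 (merge (leaf 3 585 585) (leaf 3 586 587)))))))))))))))))))) (node 588 (merge (node 620 (merge (leaf 5 492 493) (node 652 (merge (leaf 6 524 556) (leaf 6 556 684))))) (merge (node 493 (merge (leaf 5 492 620) (node 460 (merge (leaf 7 460 492) (node 461 (merge (leaf 7 428 428) (node 462 (merge (leaf 6 429 430) (node 463 (merge (leaf 0 460 495) (node 464 (merge (leaf 0 461 497) (node 559 (merge (leaf 5 431 432) (leaf 5 463 591))))))))))))))) (merge (node 590 (merge (node 591 (merge (leaf 2 556 559) (node 623 (merge (leaf 0 588 624) (node 587 (merge (leaf 0 587 622) (node 555 (merge (leaf 3 554 554) (leaf 3 555 556))))))))) (merge (node 493 (merge (leaf 4 493 622) (node 460 (merge (leaf 7 460 492) (node 461 (merge (leaf 7 428 428) (node 462 (merge (leaf 6 429 430) (node 463 (merge (leaf 0 460 495) (node 464 (merge (leaf 0 461 497) (node 559 (merge (leaf 5 431 432) (leaf 5 463 591))))))))))))))) (merge (node 622 (merge (leaf 4 493 493) (node 587 (merge (leaf 0 587 623) (node 554 (merge (leaf 3 554 555) (node 586 (merge (leaf 3 553 553) (node 617 (merge (leaf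 1 585 618) (node 585 (merge (leaf 2 553 556) (leaf 1 584 616))))))))))))) (node 587 (merge (node 591 (merge (leaf 2 556 559) (node 555 (merge (leaf 3 554 554) (leaf 3 555 556))))) (merge (node 618 (merge (leaf 1 586 619) (node 586 (merge (leaf 1 585 617) (node 554 (merge (leaf 3 553 553) (leaf 3 554 555))))))) (merge (node 618 (merge (leaf 1 586 619) (node 586 (merge (leaf 1 585 617) (node 585 (merge (leaf 2 553 556) (node 553 (merge (leaf 3 552 552) (leaf 3 553 554))))))))) (node 619 (merge (leaf 1 586 618) (node 591 (merge (leaf 2 556 559) (node 556 (merge (leaf 3 555 555) (node 493 (merge (leaf 5 460 461) (node 492 (merge (leaf 7 460 460) (leaf 5 491 524))))))))))))))))))) (hyp 0))))))))))))))) nQ_45 cQ_45 12 (by decide +kernel)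
def nQ_46 : ℕ := 0x100000001000000010000000000000000000000000000000000000000000000000000000000000000000000000000000000000000000000000000000000000000000000000000
def cQ_46 : ℕ := 0x40000005e000000fe000000ff000001ff800004ff80001cff80001efe00003efe00000ffe000003780000024000000000000000000000000000000000000000000000000000000000000000000000000000000000000000000000000000
theorem lQ_46 : S nQ_46 cQ_46 15 := S_of_chk [(nQ_45, cQ_45, 12)] ⟨lQ_45, trivial⟩ (node 527 (merge (node 559 (merge (node 464 (merge (leaf 5 431 432) (leaf 5 463 591))) (node 526 (merge (node 525 (merge (leaf 2 493 497) (leaf 0 524 524))) (merge (node 529 (merge (node 558 (merge (leaf 1 526 530) (leaf 2 525 557))) (merge (node 530 (merge (leaf 1 527 531) (node 494 (merge (leaf 3 493 493) (leaf 3 494 495))))) (node 558 (merge (leaf 1 525 557) (node 497 (merge (leaf 2 494 498) (node 494 (merge (leaf 3 493 493) (node 462 (merge (leaf 4 430 430) (node 461 (merge (leaf 7 429 429) (leaf 3 461 495)))))))))))))) (node 525 (merge (leaf 0 524 524) (node 493 (merge (leaf 3 492 492) (node 529 (merge (leaf 3 493 494)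 (node 530 (merge (leaf 1 527 531) (leaf 1 526 558)))))))))))))) (merge (node 559 (merge (node 591 (merge (leaf 5 463 464) (leaf 6 495 623))) (node 529 (merge (node 530 (merge (leaf 1 527 531) (leaf 1 526 558))) (node 526 (merge (node 525 (merge (leaf 0 524 524) (node 493 (merge (leaf 3 492 492) (leaf 3 493 494))))) (merge (node 497 (merge (leaf 2 493 525) (node 498 (merge (leaf 1 494 495) (leaf 1 495 499))))) (node 497 (merge (leaf 2 494 498) (node 494 (merge (leaf 3 493 493) (node 462 (merge (leaf 4 430 430) (node 495 (merge (leaf 3 461 461) (node 465 (merge (leaf 5 432 433) (leaf 2 462 466)))))))))))))))))) (merge (node 526 (merge (node 497 (merge (leaf 2 493 525) (node 498 (merge (leaf 1 495 499) (leaf 2 494 529))))) (merge (node 525 (merge (leaf 2 493 497) (node 524 (merge (leaf 2 492 495) (node 492 (merge (leaf 3 491 491) (leaf 3 492 493))))))) (merge (node 525 (merge (node 524 (merge (leaf 2 492 495) (node 492 (merge (leaf 3 491 491) (leaf 3 492 493))))) (merge (node 524 (merge (leaf 2 492 495) (node 556 (merge (leaf 1 523 555) (leaf 1 524 557))))) (node 557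 (merge (leaf 1 524 556) (node 529 (merge (leaf 1 525 558) (node 493 (merge (leaf 3 492 492) (leaf 3 493 494)))))))))) (node 529 (merge (node 494 (merge (leaf 3 493 493) (node 530 (merge (leaf 3 494 495) (node 563 (merge (leaf 0 527 562) (node 531 (merge (leaf 0 528 564) (node 499 (merge (leaf 2 495 498) (leaf 2 496 500))))))))))) (merge (node 494 (merge (leaf 3 493 493) (node 530 (merge (leaf 3 494 495) (node 563 (merge (leaf 0 527 562) (node 531 (merge (leaf 0 528 564) (node 500 (merge (leaf 2 496 499) (node 532 (merge (leaf 3 496 497) (leaf 2 497 501))))))))))))) (merge (node 558 (merge (leaf 1 525 557) (node 530 (merge (node 498 (merge (leaf 2 494 497) (leaf 2 495 499))) (merge (node 563 (merge (leaf 0 527 562) (node 531 (merge (leaf 0 528 564) (node 497 (merge (leaf 2 494 498) (leaf 3 496 532))))))) (merge (node 563 (merge (leaf 0 527 562) (node 531 (merge (leaf 0 528 564) (node 499 (merge (leaf 2 495 498) (leaf 2 496 500))))))) (node 563 (merge (leaf 0 527 562) (node 531 (merge (leaf 0 528 564) (node 500 (merge (leaf 2 496 499) (node 532 (merge (leaf 3 496 497)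 (leaf 2 497 501))))))))))))))) (node 558 (merge (leaf 1 525 557) (node 497 (merge (leaf 2 494 498) (node 494 (merge (leaf 3 493 493) (node 465 (merge (leaf 5 432 433) (node 495 (merge (leaf 2 462 466) (node 590 (merge (leaf 6 462 463) (leaf 6 494 622))))))))))))))))))))) (merge (node 559 (merge (node 591 (merge (leaf 5 463 464) (leaf 6 495 623))) (merge (node 526 (merge (node 525 (merge (leaf 2 493 497) (leaf 0 524 524))) (merge (node 529 (merge (node 558 (merge (leaf 1 526 530) (leaf 2 525 557))) (merge (node 494 (merge (leaf 3 493 493) (node 462 (merge (leaf 4 430 430) (node 591 (merge (leaf 4 462 558) (leaf 6 495 623))))))) (node 530 (merge (leaf 1 527 531) (node 498 (merge (leaf 2 494 497) (leaf 2 495 499)))))))) (node 525 (merge (leaf 0 524 524) (node 493 (merge (leaf 3 492 492) (node 529 (merge (leaf 3 493 494) (node 530 (merge (leaf 1 527 531) (leaf 1 526 558)))))))))))) (node 558 (merge (node 557 (merge (leaf 2 525 529) (leaf 2 524 556))) (merge (node 557 (merge (leaf 2 524 556) (node 525 (merge (leaf 3 524 524) (node 526 (merge (leaf 2 493 497) (node 493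 (merge (leaf 3 492 492) (node 461 (merge (leaf 4 429 429) (leaf 4 461 590))))))))))) (node 526 (merge (node 525 (merge (leaf 2 493 497) (leaf 0 524 524))) (merge (node 525 (merge (leaf 0 524 524) (node 529 (merge (leaf 1 526 530) (node 493 (merge (leaf 3 492 492) (leaf 3 493 494))))))) (node 529 (merge (leaf 1 526 530) (node 497 (merge (leaf 2 494 498) (node 494 (merge (leaf 3 493 493) (node 462 (merge (leaf 4 430 430) (node 464 (merge (leaf 5 431 432) (node 461 (merge (leaf 7 429 429) (leaf 0 461 463)))))))))))))))))))))) (merge (node 495 (merge (node 464 (merge (node 559 (merge (leaf 5 431 432) (leaf 6 463 591))) (node 465 (merge (leaf 6 432 433) (node 494 (merge (leaf 2 461 493) (node 466 (merge (leaf 1 462 463) (leaf 1 463 467))))))))) (merge (node 559 (merge (node 591 (merge (leaf 6 463 464) (leaf 6 495 623))) (merge (node 591 (merge (leaf 6 495 623) (node 590 (merge (leaf 5 494 622) (node 558 (merge (leaf 5 462 463) (node 529 (merge (leaf 1 526 530) (leaf 2 525 557))))))))) (node 463 (merge (node 558 (merge (leaf 5 462 590) (node 557 (merge (leaf 2 525 529)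 (leaf 2 524 556))))) (node 464 (merge (leaf 6 431 432) (node 462 (merge (leaf 7 430 430) (node 461 (merge (leaf 0 460 460) (leaf 0 461 497)))))))))))) (node 494 (merge (node 529 (merge (leaf 0 493 493) (leaf 3 494 530))) (merge (node 497 (merge (node 466 (merge (leaf 2 462 465) (node 498 (merge (leaf 2 463 467) (leaf 1 495 499))))) (merge (node 530 (merge (leaf 0 494 529) (node 498 (merge (leaf 1 495 499) (leaf 0 495 531))))) (node 529 (merge (leaf 0 494 530) (node 465 (merge (leaf 5 432 433) (leaf 2 462 466)))))))) (node 493 (merge (leaf 0 492 492) (node 461 (merge (leaf 3 460 460) (node 497 (merge (leaf 3 461 462) (node 498 (merge (leaf 1 495 499) (node 466 (merge (leaf 2 462 465) (leaf 2 463 467))))))))))))))))) (merge (node 529 (merge (node 559 (merge (node 530 (merge (leaf 1 527 531) (leaf 1 526 558))) (node 464 (merge (leaf 5 431 432) (leaf 5 463 591))))) (merge (node 530 (merge (node 563 (merge (leaf 0 527 562) (node 531 (merge (leaf 3 495 495) (leaf 0 528 564))))) (merge (node 494 (merge (leaf 3 494 495) (node 526 (merge (leaf 3 493 493) (node 525 (merge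 (leaf 2 493 497) (node 557 (merge (leaf 1 524 556) (leaf 1 525 558))))))))) (node 563 (merge (leaf 0 527 562) (node 531 (merge (leaf 0 528 564) (node 500 (merge (leaf 2 496 499) (node 532 (merge (leaf 3 496 497) (leaf 2 497 501)))))))))))) (merge (node 559 (merge (node 591 (merge (leaf 5 463 464) (leaf 6 495 623))) (node 530 (merge (leaf 1 527 531) (node 494 (merge (leaf 3 494 495) (node 526 (merge (leaf 3 493 493) (node 525 (merge (leaf 2 493 497) (leaf 0 524 524))))))))))) (node 559 (merge (node 591 (merge (leaf 5 463 464) (leaf 6 495 623))) (merge (node 526 (merge (node 525 (merge (leaf 2 493 497) (leaf 0 524 524))) (node 558 (merge (leaf 1 525 557) (node 494 (merge (leaf 3 493 493) (node 591 (merge (leaf 4 462 462) (leaf 6 495 623))))))))) (node 558 (merge (leaf 2 525 557) (node 495 (merge (node 590 (merge (leaf 5 462 463) (node 622 (merge (leaf 6 494 526) (leaf 6 526 654))))) (node 464 (merge (leaf 5 431 432) (node 465 (merge (leaf 6 432 433) (node 466 (merge (leaf 1 463 467) (node 494 (merge (leaf 2 461 493) (leaf 2 462 497)))))))))))))))))))) (merge (node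 495 (merge (node 464 (merge (node 559 (merge (leaf 5 431 432) (leaf 6 463 591))) (node 465 (merge (leaf 6 432 433) (node 466 (merge (leaf 1 463 467) (node 494 (merge (leaf 1 462 463) (leaf 2 462 497))))))))) (merge (node 464 (merge (node 559 (merge (leaf 5 431 432) (leaf 6 463 591))) (node 465 (merge (leaf 6 432 433) (node 494 (merge (leaf 2 461 493) (node 466 (merge (leaf 1 462 463) (leaf 1 463 467))))))))) (merge (node 559 (merge (node 591 (merge (leaf 6 463 464) (leaf 6 495 623))) (merge (node 591 (merge (leaf 6 495 623) (node 590 (merge (leaf 5 494 622) (node 558 (merge (leaf 5 462 463) (node 557 (merge (leaf 2 524 556) (node 525 (merge (leaf 3 524 524) (node 526 (merge (leaf 2 493 497) (node 493 (merge (leaf 4 461 461) (leaf 3 492 492))))))))))))))) (node 558 (merge (node 590 (merge (leaf 5 462 463) (node 622 (merge (leaf 6 494 526) (leaf 6 526 654))))) (merge (node 464 (merge (leaf 5 431 432) (node 463 (merge (leaf 5 462 590) (node 462 (merge (leaf 7 430 430) (node 461 (merge (leaf 0 460 460) (leaf 0 461 497))))))))) (merge (node 557 (merge (leaf 2 524 556)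 (node 525 (merge (leaf 3 524 524) (node 526 (merge (leaf 2 493 497) (node 493 (merge (leaf 3 492 492) (node 590 (merge (leaf 4 461 461) (leaf 6 494 622))))))))))) (node 557 (merge (leaf 2 524 556) (node 525 (merge (leaf 3 524 524) (node 526 (merge (leaf 2 493 497) (node 493 (merge (leaf 3 492 492) (node 461 (merge (leaf 4 429 429) (node 462 (merge (leaf 6 429 430) (node 460 (merge (leaf 7 428 428) (leaf 0 460 463)))))))))))))))))))))) (merge (node 497 (merge (node 526 (merge (leaf 1 494 498) (leaf 2 493 525))) (merge (node 498 (merge (leaf 1 495 499) (node 466 (merge (leaf 2 463 467) (node 494 (merge (leaf 2 462 465) (node 493 (merge (leaf 0 492 492) (node 461 (merge (leaf 3 460 460) (leaf 3 461 462))))))))))) (node 494 (merge (node 493 (merge (leaf 0 492 492) (node 525 (merge (leaf 1 492 524) (leaf 2 493 526))))) (merge (node 493 (merge (leaf 0 492 492) (node 461 (merge (leaf 3 460 460) (leaf 3 461 462))))) (node 526 (merge (leaf 1 493 525) (node 462 (merge (leaf 3 461 461) (node 430 (merge (leaf 4 398 398) (leaf 4 430 559))))))))))))) (node 497 (merge (node 526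 (merge (leaf 1 494 498) (leaf 2 493 525))) (merge (node 498 (merge (leaf 1 495 499) (node 530 (merge (leaf 0 495 531) (node 466 (merge (leaf 2 463 467) (node 465 (merge (leaf 2 462 494) (node 433 (merge (leaf 4 401 401) (leaf 7 433 562))))))))))) (node 494 (merge (node 465 (merge (leaf 2 462 466) (node 464 (merge (leaf 6 432 433) (leaf 2 461 493))))) (merge (node 525 (merge (leaf 1 493 526) (node 493 (merge (leaf 1 492 524) (node 461 (merge (leaf 3 460 460) (leaf 3 461 462))))))) (node 465 (merge (leaf 2 462 466) (node 433 (merge (leaf 5 400 401) (leaf 6 432 464)))))))))))))))) (merge (node 526 (merge (node 525 (merge (leaf 2 493 497) (node 524 (merge (leaf 2 492 495) (leaf 0 524 559))))) (merge (node 497 (merge (leaf 2 493 525) (node 498 (merge (leaf 1 495 499) (leaf 2 494 529))))) (merge (node 525 (merge (node 524 (merge (leaf 2 492 495) (leaf 0 524 559))) (node 557 (merge (leaf 1 524 556) (node 493 (merge (leaf 3 492 492) (node 494 (merge (leaf 3 493 529) (node 589 (merge (leaf 6 461 462) (leaf 6 493 621))))))))))) (node 529 (merge (node 498 (merge (leaf 2 494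 497) (node 530 (merge (leaf 2 495 499) (node 563 (merge (leaf 0 527 562) (node 531 (merge (leaf 3 495 495) (leaf 0 528 564))))))))) (merge (node 494 (merge (leaf 3 493 493) (node 530 (merge (leaf 3 494 495) (node 531 (merge (leaf 1 527 559) (node 500 (merge (leaf 2 496 499) (node 532 (merge (leaf 3 496 497) (leaf 2 497 501))))))))))) (merge (node 494 (merge (leaf 3 493 493) (node 530 (merge (leaf 3 494 495) (node 563 (merge (leaf 0 527 562) (node 531 (merge (leaf 0 528 564) (node 499 (merge (leaf 2 495 498) (leaf 2 496 500))))))))))) (merge (node 498 (merge (leaf 2 494 497) (node 530 (merge (leaf 2 495 499) (node 563 (merge (leaf 0 527 562) (node 531 (merge (leaf 1 527 559) (leaf 0 528 564))))))))) (node 497 (merge (leaf 2 494 498) (node 494 (merge (leaf 3 493 493) (node 465 (merge (leaf 5 432 433) (node 495 (merge (leaf 2 462 466) (node 462 (merge (leaf 3 461 461) (node 430 (merge (leaf 4 398 398) (leaf 4 430 559)))))))))))))))))))))) (merge (node 529 (merge (node 559 (merge (node 530 (merge (leaf 1 527 531) (leaf 1 526 558))) (node 464 (merge (leaf 5 431 432) (leaf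 5 463 591))))) (merge (node 530 (merge (node 563 (merge (leaf 0 527 562) (node 531 (merge (leaf 3 495 495) (leaf 0 528 564))))) (merge (node 563 (merge (leaf 0 527 562) (node 531 (merge (leaf 0 528 564) (node 499 (merge (leaf 2 495 498) (leaf 2 496 500))))))) (node 498 (merge (leaf 2 495 499) (node 526 (merge (leaf 2 494 497) (node 557 (merge (leaf 1 525 558) (node 525 (merge (leaf 1 524 556) (node 495 (merge (leaf 3 494 494) (leaf 2 492 524)))))))))))))) (merge (node 465 (merge (node 497 (merge (leaf 5 432 433) (node 498 (merge (leaf 1 495 499) (leaf 2 494 526))))) (merge (node 464 (merge (leaf 6 432 433) (node 559 (merge (leaf 5 431 432) (leaf 5 463 591))))) (node 530 (merge (node 531 (merge (leaf 3 495 495) (leaf 1 527 559))) (node 562 (merge (leaf 0 527 563) (node 498 (merge (leaf 2 495 499) (node 497 (merge (leaf 2 494 526) (leaf 7 465 594)))))))))))) (node 559 (merge (node 591 (merge (leaf 5 463 464) (leaf 6 495 623))) (merge (node 526 (merge (node 525 (merge (leaf 0 524 524) (node 557 (merge (leaf 1 524 556) (leaf 2 525 558))))) (merge (node 497 (merge (leaf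 2 493 525) (node 498 (merge (leaf 1 494 495) (leaf 1 495 499))))) (node 558 (merge (leaf 1 525 557) (node 497 (merge (leaf 2 494 498) (node 465 (merge (leaf 5 432 433) (node 591 (merge (leaf 6 495 623) (node 494 (merge (leaf 4 462 462) (node 495 (merge (leaf 2 462 466) (node 590 (merge (leaf 5 494 622) (node 589 (merge (leaf 2 556 588) (leaf 5 493 621)))))))))))))))))))) (node 558 (merge (leaf 2 525 557) (node 495 (merge (node 590 (merge (leaf 5 462 463) (node 622 (merge (leaf 6 494 526) (leaf 6 526 654))))) (merge (node 464 (merge (leaf 5 431 432) (node 463 (merge (leaf 5 462 590) (node 462 (merge (leaf 7 430 430) (node 461 (merge (leaf 0 460 460) (leaf 0 461 497))))))))) (node 464 (merge (leaf 5 431 432) (node 465 (merge (leaf 6 432 433) (node 466 (merge (leaf 1 463 467) (node 497 (merge (leaf 2 462 494) (node 498 (merge (leaf 1 495 499) (leaf 1 494 526))))))))))))))))))))))) (merge (node 526 (merge (node 525 (merge (leaf 2 493 497) (node 524 (merge (leaf 2 492 495) (leaf 0 524 559))))) (merge (node 497 (merge (leaf 2 493 525) (node 498 (merge (leaf 1 495 499)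 (leaf 2 494 529))))) (merge (node 525 (merge (node 524 (merge (leaf 2 492 495) (leaf 0 524 559))) (node 557 (merge (leaf 1 524 556) (node 493 (merge (leaf 3 492 492) (node 494 (merge (leaf 3 493 529) (node 589 (merge (leaf 6 461 462) (leaf 6 493 621))))))))))) (node 558 (merge (node 557 (merge (leaf 1 525 529) (node 556 (merge (leaf 2 523 555) (leaf 2 524 559))))) (merge (node 529 (merge (leaf 1 525 557) (node 497 (merge (leaf 2 494 498) (node 494 (merge (leaf 3 493 493) (node 465 (merge (leaf 5 432 433) (node 495 (merge (leaf 2 462 466) (node 590 (merge (leaf 6 462 463) (leaf 6 494 622))))))))))))) (node 590 (merge (node 622 (merge (leaf 6 494 495) (node 655 (merge (leaf 4 526 623) (node 654 (merge (leaf 6 526 559) (leaf 4 558 687))))))) (merge (node 622 (merge (leaf 6 494 495) (node 654 (merge (leaf 6 526 559) (node 653 (merge (leaf 5 525 621) (leaf 5 557 685))))))) (merge (node 622 (merge (leaf 6 494 495) (node 655 (merge (leaf 4 526 623) (node 654 (merge (leaf 4 558 687) (node 653 (merge (leaf 5 525 621) (leaf 5 557 685))))))))) (merge (node 623 (merge (node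 591 (merge (leaf 4 494 494) (leaf 6 495 559))) (merge (node 622 (merge (leaf 4 526 655) (node 653 (merge (leaf 5 525 621) (node 654 (merge (leaf 6 526 559) (leaf 5 557 685))))))) (node 494 (merge (leaf 4 494 591) (node 622 (merge (leaf 4 526 655) (node 621 (merge (leaf 5 493 589) (leaf 5 525 653)))))))))) (node 494 (merge (node 493 (merge (leaf 7 461 461) (node 492 (merge (leaf 0 491 491) (leaf 0 492 495))))) (node 591 (merge (leaf 4 494 623) (node 559 (merge (leaf 4 462 462) (node 464 (merge (leaf 5 431 432) (leaf 5 463 560))))))))))))))))))))) (merge (node 526 (merge (node 525 (merge (node 524 (merge (leaf 2 492 495) (node 492 (merge (leaf 3 491 491) (leaf 3 492 493))))) (merge (node 524 (merge (leaf 2 492 495) (node 556 (merge (leaf 1 523 555) (leaf 1 524 557))))) (node 557 (merge (leaf 1 524 556) (node 529 (merge (leaf 1 525 558) (node 493 (merge (leaf 3 492 492) (leaf 3 493 494)))))))))) (merge (node 559 (merge (node 591 (merge (leaf 5 463 464) (leaf 6 495 623))) (node 525 (merge (leaf 0 524 524) (node 493 (merge (leaf 3 492 492) (node 529 (merge (leaf 3 493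 494) (node 530 (merge (leaf 1 527 531) (leaf 1 526 558))))))))))) (merge (node 559 (merge (node 591 (merge (leaf 5 463 464) (leaf 6 495 623))) (node 525 (merge (leaf 0 524 524) (node 557 (merge (leaf 1 524 556) (node 558 (merge (leaf 1 525 529) (node 589 (merge (leaf 1 556 588) (node 621 (merge (leaf 6 493 494) (leaf 6 525 653))))))))))))) (merge (node 525 (merge (node 524 (merge (leaf 0 524 559) (node 556 (merge (leaf 1 523 555) (leaf 1 524 557))))) (merge (node 524 (merge (leaf 0 524 559) (node 492 (merge (leaf 3 491 491) (leaf 3 492 493))))) (node 557 (merge (leaf 1 524 556) (node 493 (merge (leaf 3 492 492) (node 494 (merge (leaf 3 493 529) (node 589 (merge (leaf 6 461 462) (leaf 6 493 621)))))))))))) (merge (node 525 (merge (node 524 (merge (leaf 0 524 559) (node 556 (merge (leaf 1 523 555) (leaf 1 524 557))))) (merge (node 524 (merge (leaf 0 524 559) (node 492 (merge (leaf 3 491 491) (leaf 3 492 493))))) (node 557 (merge (leaf 1 524 556) (node 558 (merge (leaf 1 525 529) (node 493 (merge (leaf 3 492 492) (node 590 (merge (leaf 4 461 461) (leaf 7 493 622))))))))))))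 (merge (node 525 (merge (node 524 (merge (leaf 0 524 559) (node 556 (merge (leaf 1 523 555) (leaf 1 524 557))))) (merge (node 524 (merge (leaf 0 524 559) (node 492 (merge (leaf 3 491 491) (leaf 3 492 493))))) (merge (node 556 (merge (leaf 1 524 557) (node 524 (merge (leaf 1 523 555) (node 492 (merge (leaf 3 491 491) (leaf 3 492 493))))))) (node 557 (merge (leaf 1 524 556) (node 462 (merge (node 494 (merge (leaf 5 429 430) (node 589 (merge (leaf 5 461 558) (leaf 6 493 621))))) (merge (node 493 (merge (leaf 3 492 492) (node 430 (merge (leaf 6 429 461) (leaf 5 429 494))))) (merge (node 493 (merge (leaf 3 492 492) (node 461 (merge (leaf 6 429 430) (node 558 (merge (leaf 4 429 429) (leaf 4 461 590))))))) (node 493 (merge (leaf 3 492 492) (node 589 (merge (leaf 6 461 494) (node 590 (merge (leaf 4 493 622) (node 558 (merge (leaf 4 461 461) (node 588 (merge (leaf 5 492 620) (node 587 (merge (leaf 2 555 559) (leaf 2 554 586))))))))))))))))))))))) (node 558 (merge (node 557 (merge (leaf 1 525 529) (node 556 (merge (leaf 2 523 555) (leaf 2 524 559))))) (merge (node 529 (merge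 (leaf 1 525 557) (node 494 (merge (leaf 3 493 493) (node 530 (merge (leaf 3 494 495) (node 563 (merge (leaf 0 527 562) (node 531 (merge (leaf 0 528 564) (node 499 (merge (leaf 2 495 498) (leaf 2 496 500))))))))))))) (node 590 (merge (node 622 (merge (leaf 6 494 495) (node 655 (merge (leaf 4 526 623) (node 654 (merge (leaf 6 526 559) (leaf 4 558 687))))))) (merge (node 622 (merge (leaf 6 494 495) (node 654 (merge (leaf 6 526 559) (node 653 (merge (leaf 5 525 621) (leaf 5 557 685))))))) (merge (node 622 (merge (leaf 6 494 495) (node 655 (merge (leaf 4 526 623) (node 654 (merge (leaf 4 558 687) (node 653 (merge (leaf 5 525 621) (leaf 5 557 685))))))))) (merge (node 623 (merge (node 591 (merge (leaf 4 494 494) (leaf 6 495 559))) (merge (node 622 (merge (leaf 4 526 655) (node 653 (merge (leaf 5 525 621) (node 654 (merge (leaf 6 526 559) (leaf 5 557 685))))))) (node 494 (merge (leaf 4 494 591) (node 622 (merge (leaf 4 526 655) (node 621 (merge (leaf 5 493 589) (leaf 5 525 653)))))))))) (node 494 (merge (node 493 (merge (leaf 7 461 461) (node 492 (merge (leaf 0 491 491)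 (leaf 0 492 495))))) (node 591 (merge (leaf 4 494 623) (node 559 (merge (leaf 4 462 462) (node 464 (merge (leaf 5 431 432) (leaf 5 463 560)))))))))))))))))))))))) (node 557 (merge (node 559 (merge (node 558 (merge (leaf 2 525 529) (leaf 2 524 556))) (node 591 (merge (leaf 5 463 464) (leaf 6 495 623))))) (merge (node 526 (merge (node 525 (merge (leaf 2 493 497) (leaf 1 524 556))) (merge (node 556 (merge (leaf 1 524 525) (node 558 (merge (leaf 1 525 529) (leaf 2 523 555))))) (node 529 (merge (leaf 1 525 558) (node 498 (merge (leaf 2 494 497) (node 530 (merge (leaf 2 495 499) (node 563 (merge (leaf 0 527 562) (node 531 (merge (leaf 3 495 495) (leaf 0 528 564)))))))))))))) (merge (node 529 (merge (node 559 (merge (leaf 2 525 558) (node 464 (merge (leaf 5 431 432) (leaf 5 463 591))))) (merge (node 526 (merge (leaf 1 525 558) (node 497 (merge (leaf 2 494 498) (leaf 2 493 525))))) (node 465 (merge (node 497 (merge (leaf 5 432 433) (node 498 (merge (leaf 1 495 499) (leaf 2 494 526))))) (merge (node 464 (merge (leaf 6 432 433) (node 559 (merge (leaf 5 431 432) (leaf 5 463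 591))))) (node 530 (merge (node 531 (merge (leaf 3 495 495) (leaf 1 527 559))) (node 562 (merge (leaf 0 527 563) (node 498 (merge (leaf 2 495 499) (node 497 (merge (leaf 2 494 526) (leaf 7 465 594))))))))))))))) (node 525 (merge (node 526 (merge (leaf 2 493 497) (leaf 1 524 556))) (merge (node 526 (merge (leaf 1 524 556) (node 524 (merge (leaf 2 492 495) (leaf 0 524 559))))) (merge (node 526 (merge (leaf 2 493 497) (node 524 (merge (leaf 2 492 495) (leaf 0 524 559))))) (hyp 0))))))))))))))))))))) nQ_46 cQ_46 15 (by decide +kernel)
def nQ_47 : ℕ := 0x1000000010000000000000000000000000000000000000000000000000000000000000000000000000000000000000000000000000000000000000000000000000000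
def cQ_47 : ℕ := 0x40000005e000000fe000002ff00003fff80001fff80001dff80007efe00003efe00003ffe000007780000064000000000000000000000000000000000000000000000000000000000000000000000000000000000000000000000000000
theorem lQ_47 : S nQ_47 cQ_47 16 := S_of_chk [(nQ_46, cQ_46, 15)] ⟨lQ_46, trivial⟩ (node 560 (merge (node 592 (merge (node 465 (merge (leaf 6 464 497) (node 464 (merge (leaf 6 432 433) (node 591 (merge (leaf 5 463 559) (leaf 5 495 623))))))) (merge (node 497 (merge (leaf 6 464 465) (node 624 (merge (leaf 6 496 529) (node 495 (merge (leaf 7 463 463) (leaf 7 495 527))))))) (node 623 (merge (leaf 5 495 591) (node 495 (merge (leaf 7 463 463) (node 624 (merge (leaf 7 495 527) (leaf 5 527 655)))))))))) (merge (node 592 (merge (node 625 (merge (leaf 4 496 593) (node 624 (merge (leaf 4 528 657) (node 495 (merge (leaf 7 463 463) (leaf 7 495 527))))))) (merge (node 623 (merge (leaf 5 495 591) (node 495 (merge (leaf 7 463 463) (node 624 (merge (leaf 7 495 527) (leaf 5 527 655))))))) (node 593 (merge (leaf 4 496 625) (node 591 (merge (leaf 5 495 623) (node 559 (merge (leaf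 5 463 464) (node 594 (merge (leaf 3 558 558) (leaf 3 559 595)))))))))))) (merge (node 592 (merge (node 465 (merge (leaf 6 464 497) (node 464 (merge (leaf 6 432 433) (node 591 (merge (leaf 5 463 559) (leaf 5 495 623))))))) (merge (node 625 (merge (leaf 4 496 593) (node 497 (merge (leaf 6 464 465) (node 624 (merge (leaf 6 496 529) (leaf 4 528 657))))))) (node 593 (merge (leaf 4 496 625) (node 591 (merge (leaf 5 495 623) (node 559 (merge (leaf 5 463 464) (node 594 (merge (leaf 3 558 558) (leaf 3 559 595)))))))))))) (merge (node 497 (merge (node 465 (merge (leaf 6 464 592) (node 433 (merge (leaf 5 400 401) (leaf 6 432 464))))) (merge (node 592 (merge (leaf 6 464 465) (node 625 (merge (leaf 4 496 593) (node 624 (merge (leaf 6 496 529) (leaf 4 528 657))))))) (merge (node 495 (merge (node 592 (merge (leaf 7 463 463) (node 624 (merge (leaf 7 495 527) (leaf 6 496 529))))) (merge (node 463 (merge (leaf 7 463 592) (node 498 (merge (leaf 3 462 462) (node 467 (merge (leaf 2 463 466) (node 499 (merge (leaf 3 463 464) (leaf 2 464 468))))))))) (node 494 (merge (node 529 (merge (leaf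 0 493 493) (leaf 0 494 530))) (merge (node 525 (merge (leaf 1 493 526) (node 493 (merge (leaf 1 492 524) (node 461 (merge (leaf 3 460 460) (leaf 3 461 462))))))) (node 529 (merge (leaf 0 494 530) (node 526 (merge (leaf 1 493 525) (node 498 (merge (leaf 1 494 527) (node 499 (merge (leaf 1 496 500) (node 467 (merge (leaf 2 463 466) (leaf 2 464 468))))))))))))))))) (node 465 (merge (node 433 (merge (leaf 5 400 401) (leaf 6 432 464))) (node 498 (merge (node 499 (merge (leaf 1 495 527) (node 531 (merge (leaf 0 496 532) (node 495 (merge (leaf 0 495 530) (node 467 (merge (leaf 2 463 466) (leaf 2 464 468))))))))) (merge (node 499 (merge (leaf 1 495 527) (node 532 (merge (leaf 0 496 531) (node 500 (merge (leaf 1 496 529) (leaf 0 497 533))))))) (merge (node 499 (merge (leaf 1 495 527) (node 500 (merge (leaf 1 496 529) (node 533 (merge (leaf 0 497 532) (node 501 (merge (leaf 3 465 466) (leaf 0 498 534))))))))) (merge (node 499 (merge (node 468 (merge (leaf 2 464 467) (node 500 (merge (leaf 2 465 469) (leaf 1 496 529))))) (merge (node 532 (merge (leaf 0 496 531) (node 500 (merge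 (leaf 1 496 529) (leaf 0 497 533))))) (node 531 (merge (leaf 0 496 532) (node 467 (merge (leaf 2 464 468) (node 466 (merge (leaf 2 463 495) (node 563 (merge (leaf 7 434 434) (leaf 7 466 595)))))))))))) (node 495 (merge (node 466 (merge (leaf 2 463 467) (leaf 2 462 494))) (merge (node 530 (merge (leaf 0 495 531) (node 494 (merge (leaf 0 494 529) (node 525 (merge (leaf 1 493 526) (node 493 (merge (leaf 1 492 524) (node 461 (merge (leaf 3 460 460) (leaf 3 461 462))))))))))) (node 530 (merge (leaf 0 495 531) (node 527 (merge (leaf 1 494 526) (node 466 (merge (leaf 2 463 467) (node 562 (merge (leaf 7 465 594) (node 563 (merge (leaf 0 527 529) (leaf 4 466 595))))))))))))))))))))))))) (merge (node 497 (merge (node 465 (merge (leaf 6 464 592) (node 433 (merge (leaf 5 400 401) (leaf 5 432 529))))) (merge (node 592 (merge (leaf 6 464 465) (node 593 (merge (leaf 4 496 625) (node 591 (merge (leaf 5 495 623) (node 559 (merge (leaf 5 463 464) (node 594 (merge (leaf 3 558 558) (leaf 3 559 595))))))))))) (merge (node 495 (merge (node 463 (merge (leaf 7 463 592) (node 498 (merge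 (leaf 3 462 462) (node 499 (merge (leaf 3 463 464) (leaf 1 495 527))))))) (merge (node 592 (merge (leaf 7 463 463) (node 593 (merge (leaf 4 496 625) (node 591 (merge (leaf 5 495 623) (node 559 (merge (leaf 5 463 464) (node 594 (merge (leaf 3 558 558) (leaf 3 559 595))))))))))) (node 530 (merge (node 529 (merge (leaf 0 494 494) (leaf 3 495 531))) (merge (node 498 (merge (leaf 0 495 531) (node 527 (merge (leaf 1 495 499) (leaf 1 494 526))))) (node 494 (merge (leaf 0 494 529) (node 526 (merge (leaf 1 493 525) (node 527 (merge (leaf 1 494 498) (node 462 (merge (leaf 3 461 461) (node 559 (merge (leaf 4 430 430) (leaf 7 462 591))))))))))))))))) (node 498 (merge (node 527 (merge (leaf 1 495 499) (node 526 (merge (leaf 2 493 525) (leaf 2 494 529))))) (merge (node 499 (merge (leaf 1 495 527) (node 532 (merge (leaf 0 496 531) (node 500 (merge (leaf 0 497 533) (node 468 (merge (leaf 2 464 467) (leaf 2 465 469))))))))) (merge (node 499 (merge (node 468 (merge (leaf 2 464 467) (node 500 (merge (leaf 2 465 469) (leaf 1 496 529))))) (merge (node 532 (merge (leaf 0 496 531) (node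 500 (merge (leaf 1 496 529) (leaf 0 497 533))))) (node 531 (merge (leaf 0 496 532) (node 467 (merge (leaf 2 464 468) (node 466 (merge (leaf 2 463 495) (node 563 (merge (leaf 7 434 434) (leaf 7 466 595)))))))))))) (node 530 (merge (node 531 (merge (leaf 0 495 495) (node 532 (merge (leaf 3 496 529) (leaf 3 497 533))))) (merge (node 495 (merge (leaf 0 495 531) (node 526 (merge (leaf 1 494 527) (node 494 (merge (leaf 1 493 525) (node 466 (merge (leaf 2 462 465) (leaf 2 463 467))))))))) (merge (node 529 (merge (node 531 (merge (leaf 3 496 532) (leaf 1 527 559))) (merge (node 527 (merge (leaf 2 494 526) (node 562 (merge (leaf 0 527 563) (node 594 (merge (leaf 7 465 465) (leaf 7 497 626))))))) (node 531 (merge (leaf 3 496 532) (node 563 (merge (leaf 0 528 564) (node 562 (merge (leaf 0 527 527) (node 594 (merge (leaf 7 465 465) (leaf 7 497 626)))))))))))) (node 529 (merge (node 495 (merge (leaf 0 494 494) (node 466 (merge (leaf 2 463 467) (node 434 (merge (leaf 5 401 402) (node 433 (merge (leaf 7 401 401) (leaf 5 432 465))))))))) (merge (node 527 (merge (leaf 2 494 526)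 (node 562 (merge (leaf 0 527 563) (node 594 (merge (leaf 7 465 465) (leaf 7 497 626))))))) (node 527 (merge (leaf 2 494 526) (node 559 (merge (leaf 1 526 558) (node 591 (merge (leaf 5 463 464) (leaf 6 495 623)))))))))))))))))))))) (merge (node 592 (merge (node 625 (merge (leaf 4 496 593) (node 624 (merge (leaf 4 528 657) (node 623 (merge (leaf 5 495 591) (leaf 5 527 655))))))) (merge (node 625 (merge (leaf 4 496 593) (node 497 (merge (leaf 6 464 465) (node 624 (merge (leaf 6 496 529) (leaf 4 528 657))))))) (merge (node 497 (merge (leaf 6 464 465) (node 624 (merge (leaf 6 496 529) (node 623 (merge (leaf 5 495 591) (leaf 5 527 655))))))) (node 497 (merge (leaf 6 464 465) (node 593 (merge (leaf 4 496 625) (node 594 (merge (node 595 (merge (leaf 3 559 559) (node 563 (merge (leaf 2 560 564) (node 591 (merge (leaf 2 559 562) (leaf 5 495 623))))))) (merge (node 595 (merge (leaf 3 559 559) (node 627 (merge (leaf 0 592 628) (node 591 (merge (leaf 5 495 623) (leaf 0 591 626))))))) (merge (node 591 (merge (leaf 5 495 623) (node 626 (merge (leaf 0 591 627) (node 562 (merge (leaf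 2 559 563) (node 530 (merge (leaf 7 497 529) (node 499 (merge (leaf 6 498 531) (node 498 (merge (leaf 6 466 467) (leaf 1 495 527))))))))))))) (node 595 (merge (leaf 3 559 559) (node 628 (merge (leaf 0 592 627) (node 596 (merge (leaf 0 593 629) (node 563 (merge (leaf 2 560 564) (node 499 (merge (leaf 4 499 531) (node 498 (merge (leaf 1 495 527) (node 500 (merge (leaf 1 496 529) (node 468 (merge (leaf 2 464 467) (leaf 2 465 469))))))))))))))))))))))))))))) (hyp 0)))))))) nQ_47 cQ_47 16 (by decide +kernel)
def nQ_48 : ℕ := 0x80000000800000000000000100000001c000000000000000000000000000000000000000000000000000000000000000000000000000000000000000000000000000000000000000000000000000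
def cQ_48 : ℕ := 0x170000001f000000ff800000ff800000f7800000e78000001f8000000780000020000000000000000000000000000000000000000000000000000000000000000000000000000000000000000000000000000000000000000000000000000
theorem lQ_48 : S nQ_48 cQ_48 12 := S_of_chk [] trivial (node 655 (merge (node 559 (merge (leaf 6 527 560) (node 558 (merge (leaf 7 526 526) (node 687 (merge (leaf 7 558 590) (node 688 (merge (leaf 4 559 656) (leaf 4 591 720))))))))) (merge (node 559 (merge (leaf 6 527 560) (node 688 (merge (leaf 4 559 656) (node 687 (merge (leaf 4 591 720) (node 686 (merge (leaf 5 558 654) (leaf 5 590 718))))))))) (merge (node 559 (merge (leaf 6 527 560) (node 558 (merge (leaf 7 526 526) (node 687 (merge (leaf 7 558 590) (node 686 (merge (leaf 5 558 654) (leaf 5 590 718))))))))) (merge (node 687 (merge (node 590 (merge (leaf 7 558 558) (node 719 (merge (leaf 7 590 622) (node 720 (merge (leaf 4 591 688) (leaf 4 623 752))))))) (merge (node 720 (merge (leaf 4 591 688) (node 719 (merge (leaf 4 623 752) (node 718 (merge (leaf 5 590 686) (leaf 5 622 750))))))) (merge (node 590 (merge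 (leaf 7 558 558) (node 719 (merge (leaf 7 590 622) (node 718 (merge (leaf 5 590 686) (leaf 5 622 750))))))) (node 654 (merge (node 688 (merge (leaf 4 591 720) (node 689 (merge (leaf 3 654 690) (node 686 (merge (leaf 3 653 653) (leaf 5 590 718))))))) (merge (node 688 (merge (leaf 4 591 720) (node 653 (merge (leaf 0 652 652) (node 689 (merge (leaf 0 653 656) (leaf 3 654 690))))))) (merge (node 656 (merge (node 688 (merge (leaf 4 591 720) (node 686 (merge (leaf 5 590 718) (node 685 (merge (leaf 2 653 657) (leaf 2 652 684))))))) (merge (node 688 (merge (leaf 4 591 720) (node 653 (merge (leaf 0 652 652) (node 625 (merge (leaf 2 621 624) (node 657 (merge (leaf 2 622 626) (node 621 (merge (leaf 3 620 620) (leaf 3 621 622))))))))))) (node 590 (merge (leaf 7 558 558) (node 686 (merge (leaf 5 590 718) (node 685 (merge (leaf 2 652 684) (node 622 (merge (leaf 5 589 717) (node 589 (merge (leaf 7 557 557) (node 624 (merge (leaf 0 588 588) (leaf 3 589 625)))))))))))))))) (merge (node 590 (merge (leaf 7 558 558) (node 688 (merge (leaf 4 591 720) (node 689 (merge (leaf 3 654 690)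 (node 686 (merge (leaf 5 590 718) (node 657 (merge (leaf 2 654 658) (node 685 (merge (leaf 1 653 656) (node 717 (merge (leaf 5 589 622) (leaf 1 684 716))))))))))))))) (node 624 (merge (node 590 (merge (leaf 7 558 558) (node 589 (merge (leaf 0 588 588) (node 622 (merge (leaf 3 589 625) (node 686 (merge (leaf 5 590 718) (node 654 (merge (leaf 7 557 557) (node 685 (merge (leaf 5 589 717) (node 684 (merge (leaf 2 652 656) (leaf 2 651 683))))))))))))))) (merge (node 590 (merge (leaf 7 558 558) (node 589 (merge (leaf 0 588 588) (node 686 (merge (leaf 5 590 718) (node 622 (merge (leaf 7 557 557) (node 685 (merge (leaf 5 589 717) (node 684 (merge (leaf 2 652 656) (leaf 2 651 683))))))))))))) (merge (node 625 (merge (leaf 1 622 626) (node 653 (merge (leaf 1 621 622) (leaf 2 620 652))))) (merge (node 625 (merge (leaf 1 622 626) (node 653 (merge (leaf 1 621 622) (leaf 2 620 652))))) (node 653 (merge (leaf 2 620 652) (node 656 (merge (leaf 2 621 625) (node 685 (merge (leaf 1 652 684) (node 657 (merge (leaf 1 653 686) (node 690 (merge (leaf 0 654 689) (node 658 (merge (leaf 3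 623 659) (leaf 0 655 691))))))))))))))))))))))))))) (node 622 (merge (node 559 (merge (leaf 6 527 560) (node 656 (merge (leaf 4 559 688) (node 657 (merge (leaf 3 622 658) (node 654 (merge (leaf 3 621 621) (leaf 5 558 686))))))))) (merge (node 559 (merge (leaf 6 527 560) (node 656 (merge (leaf 4 559 688) (node 621 (merge (leaf 0 620 620) (node 657 (merge (leaf 0 621 624) (leaf 3 622 658))))))))) (merge (node 559 (merge (leaf 6 527 560) (node 558 (merge (leaf 7 526 526) (node 656 (merge (leaf 4 559 688) (node 654 (merge (leaf 5 558 686) (node 657 (merge (leaf 3 621 621) (node 625 (merge (leaf 2 622 626) (node 653 (merge (leaf 1 621 624) (node 685 (merge (leaf 5 557 590) (leaf 1 652 684))))))))))))))))) (merge (node 559 (merge (leaf 6 527 560) (node 558 (merge (leaf 7 526 526) (node 656 (merge (leaf 4 559 688) (node 657 (merge (leaf 3 622 658) (node 654 (merge (leaf 5 558 686) (node 625 (merge (leaf 2 622 626) (node 653 (merge (leaf 1 621 624) (node 685 (merge (leaf 5 557 590) (leaf 1 652 684))))))))))))))))) (merge (node 654 (merge (node 686 (merge (leaf 5 558 559)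 (leaf 6 590 718))) (merge (node 653 (merge (node 652 (merge (leaf 2 620 624) (leaf 2 619 651))) (merge (node 624 (merge (leaf 1 621 625) (node 559 (merge (leaf 6 527 560) (node 558 (merge (leaf 7 526 526) (node 590 (merge (leaf 5 557 685) (node 557 (merge (leaf 7 525 525) (node 556 (merge (leaf 0 555 555) (node 588 (merge (leaf 1 555 587) (leaf 0 588 589))))))))))))))) (node 652 (merge (leaf 2 619 651) (node 684 (merge (leaf 1 651 683) (node 620 (merge (leaf 3 619 619) (node 559 (merge (leaf 6 527 560) (node 558 (merge (leaf 7 526 526) (node 685 (merge (leaf 5 557 590) (node 717 (merge (leaf 4 588 588) (leaf 7 620 749)))))))))))))))))) (node 621 (merge (node 620 (merge (leaf 0 619 619) (node 652 (merge (leaf 1 619 651) (node 624 (merge (leaf 1 620 653) (node 588 (merge (leaf 3 587 587) (leaf 3 588 589))))))))) (merge (node 620 (merge (leaf 0 619 619) (node 588 (merge (leaf 3 587 587) (node 624 (merge (leaf 3 588 589) (node 625 (merge (leaf 1 622 626) (leaf 1 621 653))))))))) (merge (node 620 (merge (leaf 0 619 619) (node 652 (merge (leaf 1 619 651) (node 653 (merge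 (leaf 1 620 624) (node 684 (merge (leaf 1 651 683) (node 716 (merge (leaf 6 588 589) (leaf 6 620 748))))))))))) (merge (node 620 (merge (leaf 0 619 619) (node 652 (merge (leaf 1 619 651) (node 588 (merge (leaf 3 587 587) (node 589 (merge (leaf 3 588 624) (node 557 (merge (leaf 4 525 525) (leaf 6 556 684))))))))))) (merge (node 620 (merge (leaf 0 619 619) (node 652 (merge (leaf 1 619 651) (node 653 (merge (leaf 1 620 624) (node 588 (merge (leaf 3 587 587) (node 685 (merge (leaf 4 556 556) (leaf 7 588 717))))))))))) (merge (node 653 (merge (node 652 (merge (leaf 2 619 651) (node 684 (merge (leaf 1 651 683) (node 589 (merge (leaf 5 556 557) (node 716 (merge (leaf 5 588 685) (leaf 6 620 748))))))))) (merge (node 620 (merge (leaf 0 619 619) (node 588 (merge (leaf 3 587 587) (node 685 (merge (leaf 7 588 717) (node 589 (merge (leaf 7 556 556) (node 686 (merge (leaf 4 557 557) (leaf 7 589 718))))))))))) (merge (node 620 (merge (leaf 0 619 619) (node 652 (merge (leaf 1 619 651) (node 684 (merge (leaf 1 651 683) (node 716 (merge (leaf 6 588 589) (leaf 6 620 748))))))))) (node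 620 (merge (leaf 0 619 619) (node 652 (merge (leaf 1 619 651) (node 684 (merge (leaf 1 651 683) (node 588 (merge (leaf 3 587 587) (node 717 (merge (leaf 7 588 685) (node 716 (merge (leaf 6 620 748) (leaf 4 620 749))))))))))))))))) (node 624 (merge (node 589 (merge (leaf 3 588 588) (node 625 (merge (leaf 3 589 590) (node 658 (merge (leaf 0 622 657) (node 626 (merge (leaf 1 622 654) (leaf 0 623 659))))))))) (merge (node 653 (merge (leaf 1 620 652) (node 625 (merge (leaf 1 621 654) (node 594 (merge (leaf 2 590 593) (node 626 (merge (leaf 3 590 590) (leaf 2 591 595))))))))) (merge (node 653 (merge (leaf 1 620 652) (node 625 (merge (leaf 1 621 654) (node 658 (merge (leaf 0 622 657) (node 626 (merge (leaf 0 623 659) (node 594 (merge (leaf 2 590 593) (leaf 2 591 595))))))))))) (node 653 (merge (leaf 1 620 652) (node 589 (merge (leaf 3 588 588) (node 686 (merge (leaf 4 557 557) (leaf 7 589 718))))))))))))))))))))) (merge (node 621 (merge (node 620 (merge (leaf 0 620 656) (node 619 (merge (leaf 2 587 590) (leaf 0 619 654))))) (merge (node 624 (merge (node 657 (merge (leaf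 0 621 656) (node 625 (merge (leaf 0 622 658) (node 589 (merge (leaf 3 588 588) (leaf 3 589 590))))))) (merge (node 653 (merge (leaf 1 620 652) (node 625 (merge (leaf 1 621 654) (node 594 (merge (leaf 2 590 593) (node 626 (merge (leaf 3 590 590) (leaf 2 591 595))))))))) (node 656 (merge (leaf 0 621 657) (node 688 (merge (leaf 7 591 720) (node 653 (merge (leaf 1 620 652) (node 654 (merge (leaf 0 653 689) (node 589 (merge (leaf 3 588 588) (node 686 (merge (leaf 4 557 557) (leaf 7 589 718)))))))))))))))) (merge (node 620 (merge (leaf 0 620 656) (node 654 (merge (leaf 0 619 619) (node 588 (merge (leaf 3 587 587) (node 624 (merge (leaf 3 588 589) (node 653 (merge (leaf 1 621 625) (leaf 1 620 652))))))))))) (merge (node 620 (merge (leaf 0 620 656) (node 590 (merge (leaf 2 587 619) (node 588 (merge (leaf 3 587 587) (node 624 (merge (leaf 0 588 589) (node 653 (merge (leaf 1 620 652) (node 526 (merge (leaf 4 494 558) (node 525 (merge (leaf 1 493 497) (node 524 (merge (leaf 2 491 523) (leaf 4 524 556))))))))))))))))) (node 624 (merge (node 653 (merge (leaf 1 620 652) (node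 625 (merge (leaf 1 621 654) (node 594 (merge (leaf 2 590 593) (node 626 (merge (leaf 3 590 590) (leaf 2 591 595))))))))) (merge (node 589 (merge (leaf 3 588 588) (node 625 (merge (leaf 3 589 590) (node 658 (merge (leaf 0 622 657) (node 626 (merge (leaf 0 623 659) (node 594 (merge (leaf 2 590 593) (leaf 2 591 595))))))))))) (merge (node 653 (merge (leaf 1 620 652) (node 625 (merge (leaf 1 621 654) (node 658 (merge (leaf 0 622 657) (node 626 (merge (leaf 0 623 659) (node 594 (merge (leaf 2 590 593) (leaf 2 591 595))))))))))) (node 652 (merge (leaf 1 620 653) (node 620 (merge (leaf 1 619 651) (node 619 (merge (leaf 2 587 590) (leaf 0 619 654)))))))))))))))) (node 624 (merge (node 559 (merge (leaf 6 527 560) (node 654 (merge (leaf 5 558 686) (node 653 (merge (leaf 1 621 625) (leaf 2 620 652))))))) (merge (node 559 (merge (leaf 6 527 560) (node 656 (merge (leaf 4 559 688) (node 621 (merge (leaf 0 620 620) (node 589 (merge (leaf 3 588 588) (node 625 (merge (leaf 3 589 590) (node 626 (merge (leaf 1 623 627) (node 594 (merge (leaf 2 590 593) (leaf 2 591 595)))))))))))))))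 (merge (node 559 (merge (leaf 6 527 560) (node 654 (merge (leaf 5 558 686) (node 653 (merge (leaf 1 621 625) (leaf 2 620 652))))))) (merge (node 625 (merge (node 594 (merge (leaf 2 590 593) (node 626 (merge (leaf 3 590 590) (leaf 2 591 595))))) (merge (node 626 (merge (leaf 1 622 654) (node 594 (merge (leaf 2 590 593) (leaf 2 591 595))))) (node 653 (merge (leaf 1 621 654) (node 621 (merge (leaf 1 620 652) (node 620 (merge (leaf 0 620 656) (node 590 (merge (leaf 3 589 589) (leaf 2 587 619)))))))))))) (node 559 (merge (leaf 6 527 560) (node 558 (merge (leaf 7 526 526) (node 654 (merge (leaf 5 558 686) (node 653 (merge (leaf 2 620 652) (node 590 (merge (leaf 5 557 685) (node 557 (merge (leaf 7 525 525) (node 556 (merge (leaf 0 555 555) (node 588 (merge (leaf 1 555 587) (leaf 0 588 589)))))))))))))))))))))))))))))))))) nQ_48 cQ_48 12 (by decide +kernel)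
def nQ_49 : ℕ := 0x800000008000000000000000000000000000000000000000000000000000000000000000000000000000000000000000000000000000000000000000000000000000000000000000000000000000
def cQ_49 : ℕ := 0x140000001c0000003e000000ff000000ffc000007f800000f7c00000778000000fc000000700000006000000000000000000000000000000000000000000000000000000000000000000000000000000000000000000000000000000000000000000000000000
theorem lQ_49 : S nQ_49 cQ_49 12 := S_of_chk [] trivial (node 655 (merge (node 687 (merge (node 590 (merge (leaf 7 558 558) (node 719 (merge (leaf 7 590 622) (node 720 (merge (leaf 4 591 688) (leaf 4 623 752))))))) (merge (node 720 (merge (leaf 4 591 688) (node 719 (merge (leaf 4 623 752) (node 718 (merge (leaf 5 590 686) (leaf 5 622 750))))))) (merge (node 590 (merge (leaf 7 558 558) (node 719 (merge (leaf 7 590 622) (node 718 (merge (leaf 5 590 686) (leaf 5 622 750))))))) (node 688 (merge (leaf 4 591 720) (node 686 (merge (leaf 5 590 718) (node 654 (merge (leaf 5 558 559) (node 689 (merge (leaf 3 653 653) (leaf 3 654 690))))))))))))) (merge (node 688 (merge (node 656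 (merge (leaf 4 559 559) (node 720 (merge (leaf 7 591 624) (leaf 7 623 752))))) (merge (node 720 (merge (leaf 4 591 687) (node 656 (merge (leaf 7 591 624) (leaf 7 623 752))))) (merge (node 687 (merge (leaf 4 591 720) (node 686 (merge (leaf 5 590 718) (node 654 (merge (leaf 5 558 559) (node 689 (merge (leaf 3 653 653) (leaf 3 654 690))))))))) (node 559 (merge (leaf 4 559 656) (node 558 (merge (leaf 7 526 526) (node 687 (merge (leaf 7 558 590) (node 686 (merge (leaf 5 558 654) (leaf 5 590 718))))))))))))) (merge (node 687 (merge (node 590 (merge (leaf 7 558 558) (node 719 (merge (leaf 7 590 622) (node 720 (merge (leaf 4 591 688) (leaf 4 623 752))))))) (merge (node 720 (merge (leaf 4 591 688) (node 719 (merge (leaf 4 623 752) (node 718 (merge (leaf 5 590 686) (leaf 5 622 750))))))) (merge (node 590 (merge (leaf 7 558 558) (node 719 (merge (leaf 7 590 622) (node 718 (merge (leaf 5 590 686) (leaf 5 622 750))))))) (node 688 (merge (leaf 4 591 720) (node 656 (merge (leaf 4 559 559) (node 686 (merge (leaf 5 590 718) (node 685 (merge (leaf 2 653 657) (leaf 2 652 684)))))))))))))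 (merge (node 687 (merge (node 688 (merge (leaf 4 591 720) (node 559 (merge (leaf 4 559 656) (node 686 (merge (leaf 5 558 654) (leaf 5 590 718))))))) (merge (node 720 (merge (leaf 4 591 688) (node 719 (merge (leaf 4 623 752) (node 718 (merge (leaf 5 590 686) (leaf 5 622 750))))))) (merge (node 719 (merge (node 718 (merge (leaf 5 590 686) (leaf 5 622 750))) (merge (node 624 (merge (leaf 6 591 592) (node 751 (merge (leaf 6 623 656) (node 654 (merge (leaf 7 622 622) (node 783 (merge (leaf 7 654 686) (node 784 (merge (leaf 4 655 752) (leaf 4 687 816))))))))))) (node 750 (merge (leaf 5 622 718) (node 751 (merge (leaf 5 654 782) (node 624 (merge (leaf 6 591 592) (leaf 6 623 656)))))))))) (merge (node 720 (merge (leaf 4 591 688) (node 719 (merge (leaf 4 623 752) (node 624 (merge (leaf 6 591 592) (node 751 (merge (leaf 6 623 656) (node 654 (merge (leaf 7 622 622) (node 783 (merge (leaf 7 654 686) (node 782 (merge (leaf 5 654 750) (leaf 5 686 814))))))))))))))) (node 720 (merge (leaf 4 591 688) (node 719 (merge (leaf 4 623 752) (node 750 (merge (leaf 5 622 718) (node 751 (merge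 (leaf 5 654 782) (node 624 (merge (leaf 6 591 592) (leaf 6 623 656)))))))))))))))) (merge (node 687 (merge (node 558 (merge (leaf 7 558 590) (node 559 (merge (leaf 7 526 526) (node 688 (merge (leaf 4 559 656) (leaf 4 591 720))))))) (merge (node 590 (merge (leaf 7 558 558) (node 719 (merge (leaf 7 590 622) (node 720 (merge (leaf 4 591 688) (leaf 4 623 752))))))) (merge (node 720 (merge (leaf 4 591 688) (node 719 (merge (leaf 4 623 752) (node 624 (merge (leaf 6 591 592) (node 751 (merge (leaf 6 623 656) (node 654 (merge (leaf 7 622 622) (node 783 (merge (leaf 7 654 686) (node 782 (merge (leaf 5 654 750) (leaf 5 686 814))))))))))))))) (node 590 (merge (leaf 7 558 558) (node 719 (merge (leaf 7 590 622) (node 624 (merge (leaf 6 591 592) (node 751 (merge (leaf 6 623 656) (node 784 (merge (leaf 4 655 752) (node 783 (merge (leaf 4 687 816) (node 782 (merge (leaf 5 654 750) (leaf 5 686 814))))))))))))))))))) (merge (node 687 (merge (node 558 (merge (leaf 7 558 590) (node 559 (merge (leaf 7 526 526) (node 686 (merge (leaf 5 558 654) (leaf 5 590 718))))))) (merge (node 590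 (merge (leaf 7 558 558) (node 719 (merge (leaf 7 590 622) (node 752 (merge (leaf 4 623 720) (node 751 (merge (leaf 4 655 784) (node 624 (merge (leaf 6 591 592) (leaf 6 623 656))))))))))) (node 718 (merge (leaf 5 590 686) (node 719 (merge (leaf 5 622 750) (node 752 (merge (leaf 4 623 720) (node 751 (merge (leaf 4 655 784) (node 624 (merge (leaf 6 591 592) (leaf 6 623 656)))))))))))))) (merge (node 687 (merge (node 558 (merge (leaf 7 558 590) (node 559 (merge (leaf 7 526 526) (node 688 (merge (leaf 4 559 656) (leaf 4 591 720))))))) (merge (node 590 (merge (leaf 7 558 558) (node 719 (merge (leaf 7 590 622) (node 720 (merge (leaf 4 591 688) (leaf 4 623 752))))))) (merge (node 590 (merge (leaf 7 558 558) (node 719 (merge (leaf 7 590 622) (node 750 (merge (leaf 5 622 718) (node 751 (merge (leaf 5 654 782) (node 624 (merge (leaf 6 591 592) (leaf 6 623 656))))))))))) (node 720 (merge (leaf 4 591 688) (node 719 (merge (leaf 4 623 752) (node 750 (merge (leaf 5 622 718) (node 751 (merge (leaf 5 654 782) (node 624 (merge (leaf 6 591 592) (leaf 6 623 656))))))))))))))) (merge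 (node 656 (merge (node 688 (merge (leaf 4 559 559) (node 720 (merge (leaf 7 591 624) (leaf 7 623 752))))) (merge (node 654 (merge (node 686 (merge (leaf 5 558 559) (node 718 (merge (leaf 6 590 622) (leaf 6 622 750))))) (merge (node 625 (merge (node 624 (merge (leaf 1 622 626) (node 653 (merge (leaf 2 620 652) (leaf 2 621 656))))) (merge (node 657 (merge (leaf 2 622 626) (node 690 (merge (leaf 0 654 689) (node 658 (merge (leaf 3 622 622) (leaf 0 655 691))))))) (node 653 (merge (leaf 2 621 624) (node 685 (merge (leaf 1 652 684) (node 621 (merge (leaf 3 620 620) (node 622 (merge (leaf 3 621 657) (node 717 (merge (leaf 6 589 590) (leaf 6 621 749)))))))))))))) (node 686 (merge (leaf 5 558 559) (node 657 (merge (leaf 1 653 685) (node 689 (merge (leaf 0 654 690) (node 625 (merge (leaf 2 622 626) (node 624 (merge (leaf 2 621 653) (node 721 (merge (leaf 7 592 592) (leaf 7 624 753)))))))))))))))) (merge (node 654 (merge (node 559 (merge (leaf 5 558 686) (leaf 4 559 688))) (merge (node 686 (merge (leaf 5 558 559) (node 718 (merge (leaf 6 590 622) (leaf 6 622 750))))) (merge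 (node 686 (merge (node 718 (merge (leaf 6 590 622) (leaf 6 622 750))) (merge (node 657 (merge (leaf 1 653 685) (node 626 (merge (leaf 2 622 625) (node 658 (merge (leaf 3 622 622) (leaf 2 623 627))))))) (node 657 (merge (leaf 1 653 685) (node 689 (merge (leaf 0 654 690) (node 688 (merge (leaf 0 653 653) (node 720 (merge (leaf 7 623 752) (node 625 (merge (leaf 5 592 593) (leaf 2 622 626)))))))))))))) (node 688 (merge (leaf 4 559 559) (node 653 (merge (leaf 0 653 689) (node 685 (merge (leaf 1 652 684) (node 621 (merge (leaf 3 620 620) (node 622 (merge (leaf 3 621 657) (node 717 (merge (leaf 6 589 590) (leaf 6 621 749))))))))))))))))) (node 622 (merge (node 621 (merge (leaf 0 620 620) (node 657 (merge (leaf 0 621 624) (leaf 3 622 658))))) (merge (node 657 (merge (leaf 3 622 658) (node 654 (merge (leaf 3 621 621) (node 686 (merge (leaf 1 653 685) (leaf 6 590 718))))))) (merge (node 654 (merge (node 657 (merge (leaf 3 622 658) (node 686 (merge (leaf 1 653 685) (leaf 6 590 718))))) (merge (node 653 (merge (node 624 (merge (leaf 1 621 625) (leaf 2 620 652))) (merge (node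 685 (merge (leaf 1 652 684) (node 590 (merge (leaf 5 557 558) (node 717 (merge (leaf 5 589 686) (leaf 6 621 749))))))) (node 685 (merge (leaf 1 652 684) (node 590 (merge (leaf 5 557 558) (node 717 (merge (leaf 5 589 686) (leaf 6 621 749)))))))))) (merge (node 657 (merge (leaf 3 622 658) (node 689 (merge (leaf 0 654 690) (node 653 (merge (leaf 0 653 688) (node 652 (merge (leaf 2 620 624) (leaf 2 619 651))))))))) (node 657 (merge (leaf 3 622 658) (node 689 (merge (leaf 0 654 690) (node 653 (merge (leaf 0 653 688) (node 624 (merge (leaf 1 621 625) (leaf 2 620 652))))))))))))) (node 624 (merge (node 621 (merge (leaf 0 620 620) (node 653 (merge (leaf 1 620 652) (node 625 (merge (leaf 1 621 654) (node 589 (merge (leaf 3 588 588) (leaf 3 589 590))))))))) (merge (node 621 (merge (leaf 0 620 620) (node 593 (merge (leaf 2 589 592) (node 625 (merge (leaf 2 590 594) (node 589 (merge (leaf 3 588 588) (leaf 3 589 590))))))))) (merge (node 625 (merge (node 626 (merge (leaf 3 590 590) (leaf 1 623 627))) (merge (node 626 (merge (leaf 1 623 627) (leaf 1 622 654))) (node 654 (merge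 (leaf 1 621 653) (node 593 (merge (leaf 2 590 594) (node 590 (merge (leaf 3 589 589) (node 558 (merge (leaf 4 526 526) (node 557 (merge (leaf 7 525 525) (leaf 3 557 592)))))))))))))) (merge (node 688 (merge (leaf 7 591 720) (node 621 (merge (leaf 0 620 620) (node 653 (merge (leaf 1 620 652) (node 689 (merge (leaf 0 653 654) (node 592 (merge (leaf 2 589 593) (leaf 4 592 721))))))))))) (node 621 (merge (leaf 0 620 620) (node 653 (merge (leaf 1 620 652) (node 654 (merge (leaf 1 621 625) (node 685 (merge (leaf 1 652 684) (node 717 (merge (leaf 6 589 590) (leaf 6 621 749)))))))))))))))))))))))) (merge (node 654 (merge (node 686 (merge (leaf 5 558 559) (node 718 (merge (leaf 5 590 687) (leaf 6 622 750))))) (merge (node 686 (merge (leaf 5 558 559) (node 718 (merge (leaf 6 590 622) (leaf 6 622 750))))) (merge (node 653 (merge (node 652 (merge (leaf 2 620 624) (node 683 (merge (leaf 1 651 684) (node 651 (merge (leaf 2 619 622) (leaf 1 650 682))))))) (merge (node 652 (merge (leaf 2 620 624) (node 688 (merge (leaf 0 652 687) (node 656 (merge (leaf 0 653 689) (node 620 (merge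 (leaf 3 619 619) (leaf 3 620 621))))))))) (merge (node 688 (merge (node 656 (merge (leaf 4 559 559) (leaf 0 653 689))) (node 652 (merge (leaf 0 652 687) (node 683 (merge (leaf 1 651 684) (node 651 (merge (leaf 2 619 622) (leaf 1 650 682))))))))) (node 656 (merge (node 625 (merge (leaf 2 621 624) (node 657 (merge (leaf 2 622 626) (node 621 (merge (leaf 3 620 620) (leaf 3 621 622))))))) (merge (node 624 (merge (leaf 2 621 625) (node 559 (merge (leaf 4 559 688) (node 558 (merge (leaf 7 526 526) (node 687 (merge (leaf 7 558 590) (node 719 (merge (leaf 6 591 592) (leaf 6 623 751))))))))))) (node 559 (merge (leaf 4 559 688) (node 558 (merge (leaf 7 526 526) (node 590 (merge (leaf 7 558 687) (node 622 (merge (leaf 5 557 685) (node 657 (merge (leaf 3 621 621) (leaf 3 622 658)))))))))))))))))) (node 653 (merge (node 652 (merge (leaf 2 620 624) (node 683 (merge (leaf 1 651 684) (node 651 (merge (leaf 2 619 622) (leaf 1 650 682))))))) (merge (node 652 (merge (leaf 2 620 624) (node 688 (merge (leaf 0 652 687) (node 656 (merge (leaf 0 653 689) (node 620 (merge (leaf 3 619 619)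 (leaf 3 620 621))))))))) (merge (node 687 (merge (node 590 (merge (leaf 7 558 558) (node 719 (merge (leaf 7 590 622) (node 718 (merge (leaf 5 590 686) (leaf 5 622 750))))))) (merge (node 688 (merge (leaf 0 652 652) (node 689 (merge (leaf 0 653 656) (leaf 3 653 686))))) (merge (node 652 (merge (leaf 0 652 688) (node 684 (merge (leaf 1 651 683) (node 656 (merge (leaf 1 652 685) (node 620 (merge (leaf 3 619 619) (leaf 3 620 621))))))))) (node 652 (merge (leaf 0 652 688) (node 651 (merge (leaf 2 619 622) (leaf 0 651 686))))))))) (node 621 (merge (node 656 (merge (leaf 3 620 620) (node 625 (merge (leaf 2 621 624) (node 657 (merge (leaf 3 621 622) (leaf 2 622 626))))))) (merge (node 656 (merge (leaf 3 620 620) (node 657 (merge (leaf 3 621 622) (node 686 (merge (leaf 1 653 685) (node 718 (merge (leaf 5 590 687) (leaf 7 621 750))))))))) (merge (node 656 (merge (leaf 3 620 620) (node 689 (merge (leaf 0 653 688) (node 657 (merge (leaf 0 654 690) (node 685 (merge (leaf 1 652 684) (leaf 1 653 686))))))))) (merge (node 622 (merge (node 620 (merge (leaf 2 588 592) (leaf 0 619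 619))) (merge (node 624 (merge (leaf 1 621 625) (node 589 (merge (leaf 3 588 588) (node 686 (merge (leaf 4 557 557) (leaf 7 589 718))))))) (node 620 (merge (leaf 0 619 619) (node 624 (merge (leaf 1 621 625) (node 588 (merge (leaf 3 587 587) (leaf 3 588 589)))))))))) (node 622 (merge (node 656 (merge (leaf 3 621 657) (node 685 (merge (leaf 1 652 684) (node 717 (merge (leaf 6 589 590) (node 718 (merge (leaf 6 590 686) (leaf 4 621 750))))))))) (merge (node 624 (merge (leaf 1 621 625) (node 592 (merge (leaf 2 589 593) (node 589 (merge (leaf 3 588 588) (node 557 (merge (leaf 4 525 525) (node 556 (merge (leaf 7 524 524) (leaf 3 556 590))))))))))) (merge (node 624 (merge (leaf 1 621 625) (node 589 (merge (leaf 3 588 588) (node 686 (merge (leaf 4 557 557) (leaf 7 589 718))))))) (node 656 (merge (leaf 3 621 657) (node 685 (merge (leaf 1 652 684) (node 718 (merge (leaf 6 590 686) (node 717 (merge (leaf 6 621 749) (leaf 4 621 750)))))))))))))))))))))))))) (node 590 (merge (node 687 (merge (leaf 7 558 558) (node 719 (merge (leaf 7 590 622) (node 720 (merge (leaf 4 591 688) (leaf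 4 623 752))))))) (merge (node 687 (merge (leaf 7 558 558) (node 720 (merge (leaf 4 591 688) (node 719 (merge (leaf 4 623 752) (node 718 (merge (leaf 5 590 686) (leaf 5 622 750))))))))) (merge (node 589 (merge (node 624 (merge (leaf 0 588 588) (node 625 (merge (leaf 3 589 622) (leaf 3 590 626))))) (merge (node 588 (merge (leaf 0 588 624) (node 619 (merge (leaf 1 587 620) (node 587 (merge (leaf 1 586 618) (node 555 (merge (leaf 3 554 554) (leaf 3 555 556))))))))) (merge (node 588 (merge (node 620 (merge (leaf 1 587 619) (node 592 (merge (leaf 1 588 621) (node 556 (merge (leaf 3 555 555) (leaf 3 556 557))))))) (merge (node 622 (merge (leaf 0 587 587) (node 620 (merge (leaf 1 587 619) (node 621 (merge (leaf 1 588 592) (leaf 0 620 656))))))) (merge (node 587 (merge (leaf 0 587 622) (node 619 (merge (leaf 1 586 618) (leaf 1 587 620))))) (merge (node 622 (merge (leaf 0 587 587) (node 556 (merge (leaf 3 555 555) (node 592 (merge (leaf 3 556 557) (node 593 (merge (leaf 1 590 594) (leaf 1 589 621))))))))) (node 622 (merge (leaf 0 587 587) (node 620 (merge (leaf 1 587 619)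 (node 621 (merge (leaf 0 620 656) (node 556 (merge (leaf 3 555 555) (node 653 (merge (leaf 4 524 524) (leaf 7 556 685)))))))))))))))) (node 621 (merge (node 620 (merge (leaf 1 588 592) (node 619 (merge (leaf 2 586 618) (leaf 2 587 622))))) (merge (node 592 (merge (leaf 1 588 620) (node 625 (merge (leaf 0 589 624) (node 593 (merge (leaf 0 590 626) (node 557 (merge (leaf 3 556 556) (leaf 3 557 558))))))))) (merge (node 622 (merge (node 620 (merge (leaf 2 587 619) (leaf 0 620 656))) (merge (node 624 (merge (leaf 3 589 625) (node 653 (merge (leaf 1 620 652) (node 558 (merge (leaf 4 526 526) (leaf 6 557 685))))))) (merge (node 620 (merge (leaf 2 587 619) (leaf 0 620 656))) (node 620 (merge (leaf 2 587 619) (node 652 (merge (leaf 1 619 651) (node 624 (merge (leaf 3 589 625) (leaf 1 620 653))))))))))) (node 622 (merge (node 592 (merge (leaf 1 589 593) (node 557 (merge (leaf 3 556 556) (node 525 (merge (leaf 4 493 493) (node 526 (merge (leaf 6 493 494) (leaf 4 526 558))))))))) (merge (node 624 (merge (leaf 3 589 625) (node 653 (merge (leaf 1 620 652) (node 558 (merge (leaf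 4 526 526) (leaf 6 557 685))))))) (merge (node 624 (merge (leaf 3 589 625) (node 656 (merge (leaf 0 621 657) (node 653 (merge (leaf 1 620 652) (node 685 (merge (leaf 6 589 717) (node 684 (merge (leaf 1 652 654) (leaf 5 588 716))))))))))) (node 592 (merge (leaf 1 589 593) (node 557 (merge (leaf 3 556 556) (node 654 (merge (leaf 4 525 525) (leaf 7 557 686))))))))))))))))))) (node 589 (merge (node 624 (merge (leaf 0 588 588) (node 625 (merge (leaf 3 589 622) (leaf 3 590 626))))) (merge (node 588 (merge (leaf 0 588 624) (node 619 (merge (leaf 1 587 620) (node 587 (merge (leaf 1 586 618) (node 555 (merge (leaf 3 554 554) (leaf 3 555 556))))))))) (merge (node 588 (merge (node 620 (merge (leaf 1 587 619) (node 592 (merge (leaf 1 588 621) (node 556 (merge (leaf 3 555 555) (leaf 3 556 557))))))) (merge (node 622 (merge (leaf 0 587 587) (node 620 (merge (leaf 1 587 619) (node 621 (merge (leaf 1 588 592) (leaf 0 620 656))))))) (merge (node 587 (merge (leaf 0 587 622) (node 619 (merge (leaf 1 586 618) (leaf 1 587 620))))) (merge (node 622 (merge (leaf 0 587 587) (node 556 (merge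 (leaf 3 555 555) (node 592 (merge (leaf 3 556 557) (node 593 (merge (leaf 1 590 594) (leaf 1 589 621))))))))) (node 622 (merge (leaf 0 587 587) (node 620 (merge (leaf 1 587 619) (node 621 (merge (leaf 0 620 656) (node 556 (merge (leaf 3 555 555) (node 653 (merge (leaf 4 524 524) (leaf 7 556 685)))))))))))))))) (node 686 (merge (node 687 (merge (leaf 5 590 718) (node 719 (merge (leaf 7 590 622) (node 720 (merge (leaf 4 591 688) (leaf 4 623 752))))))) (merge (node 687 (merge (leaf 5 590 718) (node 720 (merge (leaf 4 591 688) (node 719 (merge (leaf 4 623 752) (node 624 (merge (leaf 6 591 592) (node 751 (merge (leaf 6 623 656) (node 783 (merge (leaf 7 654 654) (node 782 (merge (leaf 5 654 750) (leaf 5 686 814))))))))))))))) (merge (node 687 (merge (node 719 (merge (leaf 7 590 622) (node 720 (merge (leaf 4 591 688) (leaf 4 623 752))))) (merge (node 719 (merge (leaf 7 590 622) (node 624 (merge (leaf 6 591 592) (node 751 (merge (leaf 6 623 656) (node 783 (merge (leaf 7 654 654) (node 782 (merge (leaf 5 654 750) (leaf 5 686 814))))))))))) (merge (node 720 (merge (leaf 4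 591 688) (node 719 (merge (leaf 4 623 752) (node 624 (merge (leaf 6 591 592) (node 751 (merge (leaf 6 623 656) (node 783 (merge (leaf 7 654 654) (node 782 (merge (leaf 5 654 750) (leaf 5 686 814))))))))))))) (node 657 (merge (node 656 (merge (leaf 1 654 658) (node 685 (merge (leaf 1 653 654) (leaf 2 652 684))))) (merge (node 658 (merge (leaf 1 654 656) (node 688 (merge (leaf 2 654 689) (leaf 4 591 720))))) (merge (node 688 (merge (leaf 4 591 720) (node 689 (merge (leaf 2 654 658) (node 722 (merge (leaf 0 686 721) (node 690 (merge (leaf 3 654 654) (leaf 0 687 723))))))))) (node 688 (merge (leaf 4 591 720) (node 685 (merge (leaf 2 653 656) (node 653 (merge (leaf 3 652 652) (node 654 (merge (leaf 3 653 689) (node 622 (merge (leaf 7 557 557) (leaf 5 589 717))))))))))))))))))) (node 621 (merge (node 592 (merge (leaf 1 588 620) (node 625 (merge (leaf 0 589 624) (node 593 (merge (leaf 1 589 622) (leaf 0 590 626))))))) (merge (node 654 (merge (node 718 (merge (leaf 6 590 622) (leaf 6 622 750))) (merge (node 622 (merge (leaf 7 557 557) (node 685 (merge (leaf 5 589 717) (node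 656 (merge (leaf 1 653 657) (node 684 (merge (leaf 1 652 653) (leaf 2 651 683))))))))) (node 653 (merge (leaf 4 557 557) (node 718 (merge (leaf 4 589 685) (leaf 7 621 750)))))))) (node 592 (merge (leaf 1 588 620) (node 557 (merge (leaf 3 556 556) (node 653 (merge (leaf 4 557 654) (node 685 (merge (leaf 4 589 718) (node 684 (merge (leaf 5 556 652) (leaf 5 588 716)))))))))))))))))))))))))))))))))))) nQ_49 cQ_49 12 (by decide +kernel)
def nQ_50 : ℕ := 0x800000008000000000000005000000018000000000000000000000000000000000000000000000000000000000000000000000000000000000000000000000000000000000000000000000000000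
def cQ_50 : ℕ := 0x140000001c0000003e0000003fc00000ffc000007f800000f7c00000778000000f800000a700000062000000000000000000000000000000000000000000000000000000000000000000000000000000000000000000000000000000000000000000000000000
theorem lQ_50 : S nQ_50 cQ_50 12 := S_of_chk [] trivial (node 655 (merge (node 688 (merge (node 656 (merge (leaf 4 559 559) (node 720 (merge (leaf 7 591 624) (leaf 7 623 752))))) (merge (node 720 (merge (leaf 4 591 687) (node 656 (merge (leaf 7 591 624) (leaf 7 623 752))))) (merge (node 687 (merge (leaf 4 591 720) (node 686 (merge (leaf 5 590 718) (node 654 (merge (leaf 5 558 559) (node 689 (merge (leaf 3 653 653) (leaf 3 654 690))))))))) (node 559 (merge (leaf 4 559 656) (node 558 (merge (leaf 7 526 526) (node 687 (merge (leaf 7 558 590) (node 686 (merge (leaf 5 558 654) (leaf 5 590 718))))))))))))) (merge (node 687 (merge (node 590 (merge (leaf 7 558 558) (node 719 (merge (leaf 7 590 622) (node 720 (merge (leaf 4 591 688) (leaf 4 623 752))))))) (merge (node 720 (merge (leaf 4 591 688) (node 719 (merge (leaf 4 623 752) (node 718 (merge (leaf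 5 590 686) (leaf 5 622 750))))))) (merge (node 590 (merge (leaf 7 558 558) (node 719 (merge (leaf 7 590 622) (node 718 (merge (leaf 5 590 686) (leaf 5 622 750))))))) (node 688 (merge (leaf 4 591 720) (node 686 (merge (leaf 5 590 718) (node 654 (merge (leaf 5 558 559) (node 689 (merge (leaf 3 653 653) (leaf 3 654 690))))))))))))) (merge (node 687 (merge (node 590 (merge (leaf 7 558 558) (node 719 (merge (leaf 7 590 622) (node 720 (merge (leaf 4 591 688) (leaf 4 623 752))))))) (merge (node 720 (merge (leaf 4 591 688) (node 719 (merge (leaf 4 623 752) (node 718 (merge (leaf 5 590 686) (leaf 5 622 750))))))) (merge (node 590 (merge (leaf 7 558 558) (node 719 (merge (leaf 7 590 622) (node 718 (merge (leaf 5 590 686) (leaf 5 622 750))))))) (node 688 (merge (leaf 4 591 720) (node 656 (merge (leaf 4 559 559) (node 686 (merge (leaf 5 590 718) (node 685 (merge (leaf 2 653 657) (leaf 2 652 684))))))))))))) (merge (node 687 (merge (node 688 (merge (leaf 4 591 720) (node 559 (merge (leaf 4 559 656) (node 686 (merge (leaf 5 558 654) (leaf 5 590 718))))))) (merge (node 720 (merge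 (leaf 4 591 688) (node 719 (merge (leaf 4 623 752) (node 718 (merge (leaf 5 590 686) (leaf 5 622 750))))))) (merge (node 719 (merge (node 718 (merge (leaf 5 590 686) (leaf 5 622 750))) (merge (node 624 (merge (leaf 6 591 592) (node 751 (merge (leaf 6 623 656) (node 654 (merge (leaf 7 622 622) (node 783 (merge (leaf 7 654 686) (node 784 (merge (leaf 4 655 752) (leaf 4 687 816))))))))))) (node 750 (merge (leaf 5 622 718) (node 751 (merge (leaf 5 654 782) (node 624 (merge (leaf 6 591 592) (leaf 6 623 656)))))))))) (merge (node 720 (merge (leaf 4 591 688) (node 719 (merge (leaf 4 623 752) (node 624 (merge (leaf 6 591 592) (node 751 (merge (leaf 6 623 656) (node 654 (merge (leaf 7 622 622) (node 783 (merge (leaf 7 654 686) (node 782 (merge (leaf 5 654 750) (leaf 5 686 814))))))))))))))) (node 720 (merge (leaf 4 591 688) (node 719 (merge (leaf 4 623 752) (node 750 (merge (leaf 5 622 718) (node 751 (merge (leaf 5 654 782) (node 624 (merge (leaf 6 591 592) (leaf 6 623 656)))))))))))))))) (merge (node 687 (merge (node 558 (merge (leaf 7 558 590) (node 559 (merge (leaf 7 526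 526) (node 688 (merge (leaf 4 559 656) (leaf 4 591 720))))))) (merge (node 590 (merge (leaf 7 558 558) (node 719 (merge (leaf 7 590 622) (node 720 (merge (leaf 4 591 688) (leaf 4 623 752))))))) (merge (node 720 (merge (leaf 4 591 688) (node 719 (merge (leaf 4 623 752) (node 624 (merge (leaf 6 591 592) (node 751 (merge (leaf 6 623 656) (node 654 (merge (leaf 7 622 622) (node 783 (merge (leaf 7 654 686) (node 782 (merge (leaf 5 654 750) (leaf 5 686 814))))))))))))))) (node 590 (merge (leaf 7 558 558) (node 719 (merge (leaf 7 590 622) (node 624 (merge (leaf 6 591 592) (node 751 (merge (leaf 6 623 656) (node 784 (merge (leaf 4 655 752) (node 783 (merge (leaf 4 687 816) (node 782 (merge (leaf 5 654 750) (leaf 5 686 814))))))))))))))))))) (merge (node 687 (merge (node 558 (merge (leaf 7 558 590) (node 559 (merge (leaf 7 526 526) (node 686 (merge (leaf 5 558 654) (leaf 5 590 718))))))) (merge (node 590 (merge (leaf 7 558 558) (node 719 (merge (leaf 7 590 622) (node 752 (merge (leaf 4 623 720) (node 751 (merge (leaf 4 655 784) (node 624 (merge (leaf 6 591 592) (leaf 6 623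 656))))))))))) (node 718 (merge (leaf 5 590 686) (node 719 (merge (leaf 5 622 750) (node 752 (merge (leaf 4 623 720) (node 751 (merge (leaf 4 655 784) (node 624 (merge (leaf 6 591 592) (leaf 6 623 656)))))))))))))) (merge (node 687 (merge (node 558 (merge (leaf 7 558 590) (node 559 (merge (leaf 7 526 526) (node 688 (merge (leaf 4 559 656) (leaf 4 591 720))))))) (merge (node 590 (merge (leaf 7 558 558) (node 719 (merge (leaf 7 590 622) (node 720 (merge (leaf 4 591 688) (leaf 4 623 752))))))) (merge (node 590 (merge (leaf 7 558 558) (node 719 (merge (leaf 7 590 622) (node 750 (merge (leaf 5 622 718) (node 751 (merge (leaf 5 654 782) (node 624 (merge (leaf 6 591 592) (leaf 6 623 656))))))))))) (node 720 (merge (leaf 4 591 688) (node 719 (merge (leaf 4 623 752) (node 750 (merge (leaf 5 622 718) (node 751 (merge (leaf 5 654 782) (node 624 (merge (leaf 6 591 592) (leaf 6 623 656))))))))))))))) (merge (node 656 (merge (node 688 (merge (leaf 4 559 559) (node 720 (merge (leaf 7 591 624) (leaf 7 623 752))))) (merge (node 654 (merge (node 686 (merge (leaf 5 558 559) (node 718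 (merge (leaf 6 590 622) (leaf 6 622 750))))) (merge (node 625 (merge (node 624 (merge (leaf 1 622 626) (node 653 (merge (leaf 2 620 652) (leaf 2 621 656))))) (merge (node 657 (merge (leaf 2 622 626) (node 690 (merge (leaf 0 654 689) (node 658 (merge (leaf 3 622 622) (leaf 0 655 691))))))) (node 653 (merge (leaf 2 621 624) (node 685 (merge (leaf 1 652 684) (node 621 (merge (leaf 3 620 620) (node 622 (merge (leaf 3 621 657) (node 717 (merge (leaf 6 589 590) (leaf 6 621 749)))))))))))))) (node 686 (merge (leaf 5 558 559) (node 657 (merge (leaf 1 653 685) (node 689 (merge (leaf 0 654 690) (node 625 (merge (leaf 2 622 626) (node 624 (merge (leaf 2 621 653) (node 721 (merge (leaf 7 592 592) (leaf 7 624 753)))))))))))))))) (merge (node 654 (merge (node 559 (merge (leaf 5 558 686) (leaf 4 559 688))) (merge (node 686 (merge (leaf 5 558 559) (node 718 (merge (leaf 6 590 622) (leaf 6 622 750))))) (merge (node 686 (merge (node 718 (merge (leaf 6 590 622) (leaf 6 622 750))) (merge (node 657 (merge (leaf 1 653 685) (node 626 (merge (leaf 2 622 625) (node 658 (merge (leaf 3 622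 622) (leaf 2 623 627))))))) (node 657 (merge (leaf 1 653 685) (node 689 (merge (leaf 0 654 690) (node 688 (merge (leaf 0 653 653) (node 720 (merge (leaf 7 623 752) (node 625 (merge (leaf 5 592 593) (leaf 2 622 626)))))))))))))) (node 688 (merge (leaf 4 559 559) (node 653 (merge (leaf 0 653 689) (node 685 (merge (leaf 1 652 684) (node 621 (merge (leaf 3 620 620) (node 622 (merge (leaf 3 621 657) (node 717 (merge (leaf 6 589 590) (leaf 6 621 749))))))))))))))))) (node 622 (merge (node 621 (merge (leaf 0 620 620) (node 657 (merge (leaf 0 621 624) (leaf 3 622 658))))) (merge (node 657 (merge (leaf 3 622 658) (node 654 (merge (leaf 3 621 621) (node 686 (merge (leaf 1 653 685) (leaf 6 590 718))))))) (merge (node 654 (merge (node 657 (merge (leaf 3 622 658) (node 686 (merge (leaf 1 653 685) (leaf 6 590 718))))) (merge (node 653 (merge (node 624 (merge (leaf 1 621 625) (leaf 2 620 652))) (merge (node 685 (merge (leaf 1 652 684) (node 590 (merge (leaf 5 557 558) (node 717 (merge (leaf 5 589 686) (leaf 6 621 749))))))) (node 685 (merge (leaf 1 652 684) (node 590 (merge (leaf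 5 557 558) (node 717 (merge (leaf 5 589 686) (leaf 6 621 749)))))))))) (merge (node 657 (merge (leaf 3 622 658) (node 689 (merge (leaf 0 654 690) (node 653 (merge (leaf 0 653 688) (node 652 (merge (leaf 2 620 624) (leaf 2 619 651))))))))) (node 657 (merge (leaf 3 622 658) (node 689 (merge (leaf 0 654 690) (node 653 (merge (leaf 0 653 688) (node 624 (merge (leaf 1 621 625) (leaf 2 620 652))))))))))))) (node 624 (merge (node 621 (merge (leaf 0 620 620) (node 653 (merge (leaf 1 620 652) (node 625 (merge (leaf 1 621 654) (node 589 (merge (leaf 3 588 588) (leaf 3 589 590))))))))) (merge (node 621 (merge (leaf 0 620 620) (node 593 (merge (leaf 2 589 592) (node 625 (merge (leaf 2 590 594) (node 589 (merge (leaf 3 588 588) (leaf 3 589 590))))))))) (merge (node 625 (merge (node 626 (merge (leaf 3 590 590) (leaf 1 623 627))) (merge (node 626 (merge (leaf 1 623 627) (leaf 1 622 654))) (node 654 (merge (leaf 1 621 653) (node 593 (merge (leaf 2 590 594) (node 590 (merge (leaf 3 589 589) (node 558 (merge (leaf 4 526 526) (node 557 (merge (leaf 7 525 525) (leaf 3 557 592))))))))))))))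 (merge (node 688 (merge (leaf 7 591 720) (node 621 (merge (leaf 0 620 620) (node 653 (merge (leaf 1 620 652) (node 689 (merge (leaf 0 653 654) (node 592 (merge (leaf 2 589 593) (leaf 4 592 721))))))))))) (node 621 (merge (leaf 0 620 620) (node 653 (merge (leaf 1 620 652) (node 654 (merge (leaf 1 621 625) (node 685 (merge (leaf 1 652 684) (node 717 (merge (leaf 6 589 590) (leaf 6 621 749)))))))))))))))))))))))) (merge (node 654 (merge (node 686 (merge (leaf 5 558 559) (node 718 (merge (leaf 5 590 687) (leaf 6 622 750))))) (merge (node 686 (merge (leaf 5 558 559) (node 718 (merge (leaf 6 590 622) (leaf 6 622 750))))) (merge (node 653 (merge (node 652 (merge (leaf 2 620 624) (node 683 (merge (leaf 1 651 684) (node 651 (merge (leaf 2 619 622) (leaf 1 650 682))))))) (merge (node 652 (merge (leaf 2 620 624) (node 688 (merge (leaf 0 652 687) (node 656 (merge (leaf 0 653 689) (node 620 (merge (leaf 3 619 619) (leaf 3 620 621))))))))) (merge (node 688 (merge (node 656 (merge (leaf 4 559 559) (leaf 0 653 689))) (node 652 (merge (leaf 0 652 687) (node 683 (merge (leaf 1 651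 684) (node 651 (merge (leaf 2 619 622) (leaf 1 650 682))))))))) (node 656 (merge (node 625 (merge (leaf 2 621 624) (node 657 (merge (leaf 2 622 626) (node 621 (merge (leaf 3 620 620) (leaf 3 621 622))))))) (merge (node 624 (merge (leaf 2 621 625) (node 559 (merge (leaf 4 559 688) (node 558 (merge (leaf 7 526 526) (node 687 (merge (leaf 7 558 590) (node 719 (merge (leaf 6 591 592) (leaf 6 623 751))))))))))) (node 559 (merge (leaf 4 559 688) (node 558 (merge (leaf 7 526 526) (node 590 (merge (leaf 7 558 687) (node 622 (merge (leaf 5 557 685) (node 657 (merge (leaf 3 621 621) (leaf 3 622 658)))))))))))))))))) (node 653 (merge (node 652 (merge (leaf 2 620 624) (node 683 (merge (leaf 1 651 684) (node 651 (merge (leaf 2 619 622) (leaf 1 650 682))))))) (merge (node 652 (merge (leaf 2 620 624) (node 688 (merge (leaf 0 652 687) (node 656 (merge (leaf 0 653 689) (node 620 (merge (leaf 3 619 619) (leaf 3 620 621))))))))) (merge (node 687 (merge (node 590 (merge (leaf 7 558 558) (node 719 (merge (leaf 7 590 622) (node 718 (merge (leaf 5 590 686) (leaf 5 622 750))))))) (merge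 (node 688 (merge (leaf 0 652 652) (node 689 (merge (leaf 0 653 656) (leaf 3 653 686))))) (merge (node 652 (merge (leaf 0 652 688) (node 684 (merge (leaf 1 651 683) (node 656 (merge (leaf 1 652 685) (node 620 (merge (leaf 3 619 619) (leaf 3 620 621))))))))) (node 652 (merge (leaf 0 652 688) (node 651 (merge (leaf 2 619 622) (leaf 0 651 686))))))))) (node 621 (merge (node 656 (merge (leaf 3 620 620) (node 625 (merge (leaf 2 621 624) (node 657 (merge (leaf 3 621 622) (leaf 2 622 626))))))) (merge (node 656 (merge (leaf 3 620 620) (node 657 (merge (leaf 3 621 622) (node 686 (merge (leaf 1 653 685) (node 718 (merge (leaf 5 590 687) (leaf 7 621 750))))))))) (merge (node 656 (merge (leaf 3 620 620) (node 689 (merge (leaf 0 653 688) (node 657 (merge (leaf 0 654 690) (node 685 (merge (leaf 1 652 684) (leaf 1 653 686))))))))) (merge (node 622 (merge (node 620 (merge (leaf 2 588 592) (leaf 0 619 619))) (merge (node 624 (merge (leaf 1 621 625) (node 589 (merge (leaf 3 588 588) (node 686 (merge (leaf 4 557 557) (leaf 7 589 718))))))) (node 620 (merge (leaf 0 619 619) (node 624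 (merge (leaf 1 621 625) (node 588 (merge (leaf 3 587 587) (leaf 3 588 589)))))))))) (node 622 (merge (node 656 (merge (leaf 3 621 657) (node 685 (merge (leaf 1 652 684) (node 717 (merge (leaf 6 589 590) (node 718 (merge (leaf 6 590 686) (leaf 4 621 750))))))))) (merge (node 624 (merge (leaf 1 621 625) (node 592 (merge (leaf 2 589 593) (node 589 (merge (leaf 3 588 588) (node 557 (merge (leaf 4 525 525) (node 556 (merge (leaf 7 524 524) (leaf 3 556 590))))))))))) (merge (node 624 (merge (leaf 1 621 625) (node 589 (merge (leaf 3 588 588) (node 686 (merge (leaf 4 557 557) (leaf 7 589 718))))))) (node 656 (merge (leaf 3 621 657) (node 685 (merge (leaf 1 652 684) (node 718 (merge (leaf 6 590 686) (node 717 (merge (leaf 6 621 749) (leaf 4 621 750)))))))))))))))))))))))))) (node 531 (merge (leaf 3 495 529) (node 498 (merge (leaf 0 495 497) (node 590 (merge (node 687 (merge (leaf 7 558 558) (node 719 (merge (leaf 7 590 622) (node 718 (merge (leaf 5 590 686) (leaf 5 622 750))))))) (merge (node 687 (merge (leaf 7 558 558) (node 718 (merge (leaf 5 590 686) (node 719 (merge (leaf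 5 622 750) (node 752 (merge (leaf 4 623 720) (node 751 (merge (leaf 4 655 784) (node 624 (merge (leaf 6 591 592) (leaf 6 623 656))))))))))))) (merge (node 589 (merge (node 588 (merge (leaf 0 588 624) (node 620 (merge (leaf 1 587 619) (node 592 (merge (leaf 1 588 621) (node 556 (merge (leaf 3 555 555) (leaf 3 556 557))))))))) (merge (node 588 (merge (leaf 0 588 624) (node 622 (merge (leaf 0 587 587) (node 620 (merge (leaf 1 587 619) (node 621 (merge (leaf 1 588 592) (leaf 0 620 656))))))))) (merge (node 588 (merge (leaf 0 588 624) (node 587 (merge (leaf 0 587 622) (node 619 (merge (leaf 1 586 618) (leaf 1 587 620))))))) (merge (node 588 (merge (leaf 0 588 624) (node 622 (merge (leaf 0 587 587) (node 556 (merge (leaf 3 555 555) (node 592 (merge (leaf 3 556 557) (node 593 (merge (leaf 1 590 594) (leaf 1 589 621))))))))))) (merge (node 588 (merge (leaf 0 588 624) (node 622 (merge (leaf 0 587 587) (node 620 (merge (leaf 1 587 619) (node 621 (merge (leaf 0 620 656) (node 556 (merge (leaf 3 555 555) (node 653 (merge (leaf 4 524 524) (leaf 7 556 685))))))))))))) (merge (node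 620 (merge (node 621 (merge (leaf 1 588 592) (node 619 (merge (leaf 2 586 618) (leaf 2 587 622))))) (merge (node 588 (merge (leaf 1 587 619) (node 556 (merge (leaf 3 555 555) (node 557 (merge (leaf 3 556 592) (node 652 (merge (leaf 6 524 525) (leaf 6 556 684))))))))) (merge (node 621 (merge (leaf 1 588 592) (node 622 (merge (leaf 0 620 656) (node 588 (merge (leaf 0 587 587) (node 556 (merge (leaf 3 555 555) (node 653 (merge (leaf 4 524 524) (leaf 7 556 685))))))))))) (node 588 (merge (leaf 1 587 619) (node 622 (merge (leaf 0 587 587) (node 621 (merge (leaf 0 620 656) (node 556 (merge (leaf 3 555 555) (node 653 (merge (leaf 4 524 524) (leaf 7 556 685))))))))))))))) (node 621 (merge (node 620 (merge (leaf 1 588 592) (node 619 (merge (leaf 2 586 618) (leaf 2 587 622))))) (merge (node 592 (merge (leaf 1 588 620) (node 625 (merge (leaf 0 589 624) (node 593 (merge (leaf 0 590 626) (node 557 (merge (leaf 3 556 556) (leaf 3 557 558))))))))) (merge (node 622 (merge (node 620 (merge (leaf 2 587 619) (leaf 0 620 656))) (node 624 (merge (leaf 3 589 625) (node 653 (merge (leaf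 1 620 652) (node 558 (merge (leaf 4 526 526) (leaf 6 557 685))))))))) (node 622 (merge (node 624 (merge (leaf 3 589 625) (node 653 (merge (leaf 1 620 652) (node 558 (merge (leaf 4 526 526) (leaf 6 557 685))))))) (node 592 (merge (leaf 1 589 593) (node 557 (merge (leaf 3 556 556) (node 525 (merge (leaf 4 493 493) (leaf 4 525 654)))))))))))))))))))) (node 687 (merge (node 719 (merge (leaf 7 590 622) (node 718 (merge (leaf 5 590 686) (leaf 5 622 750))))) (merge (node 719 (merge (leaf 7 590 622) (node 752 (merge (leaf 4 623 720) (node 751 (merge (leaf 4 655 784) (node 624 (merge (leaf 6 591 592) (leaf 6 623 656))))))))) (merge (node 718 (merge (leaf 5 590 686) (node 719 (merge (leaf 5 622 750) (node 752 (merge (leaf 4 623 720) (node 751 (merge (leaf 4 655 784) (node 624 (merge (leaf 6 591 592) (leaf 6 623 656))))))))))) (node 686 (merge (leaf 5 590 718) (node 685 (merge (node 684 (merge (leaf 2 652 656) (node 715 (merge (leaf 1 683 716) (node 683 (merge (leaf 2 651 654) (leaf 1 682 714))))))) (merge (node 684 (merge (leaf 2 652 656) (node 652 (merge (leaf 3 651 651)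 (node 688 (merge (leaf 3 652 653) (leaf 4 591 720))))))) (node 688 (merge (leaf 4 591 720) (node 717 (merge (leaf 1 684 716) (node 653 (merge (leaf 3 652 652) (node 654 (merge (leaf 5 589 622) (leaf 3 653 689)))))))))))))))))))))))))))))))))))) nQ_50 cQ_50 12 (by decide +kernel)
def nQ_51 : ℕ := 0x800000008000000000000005000000018000000000000000000000000000000000000000000000000000000000000000000000000000000000000000000000000000000000000000000000000000
def cQ_51 : ℕ := 0x140000001c0000003e000000ff000000ffc000007f800001f7c00000f78000000fc00000a700000024000000000000000000000000000000000000000000000000000000000000000000000000000000000000000000000000000000000000000000000000000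
theorem lQ_51 : S nQ_51 cQ_51 12 := S_of_chk [] trivial (node 655 (merge (node 687 (merge (node 590 (merge (leaf 7 558 558) (node 719 (merge (leaf 7 590 622) (node 720 (merge (leaf 4 591 688) (leaf 4 623 752))))))) (merge (node 720 (merge (leaf 4 591 688) (node 719 (merge (leaf 4 623 752) (node 718 (merge (leaf 5 590 686) (leaf 5 622 750))))))) (merge (node 590 (merge (leaf 7 558 558) (node 719 (merge (leaf 7 590 622) (node 718 (merge (leaf 5 590 686) (leaf 5 622 750))))))) (node 688 (merge (leaf 4 591 720) (node 686 (merge (leaf 5 590 718) (node 654 (merge (leaf 5 558 559) (node 689 (merge (leaf 3 653 653) (leaf 3 654 690))))))))))))) (merge (node 688 (merge (node 656 (merge (leaf 4 559 559) (node 720 (merge (leaf 7 591 624) (leaf 7 623 752))))) (merge (node 720 (merge (leaf 4 591 687) (node 656 (merge (leaf 7 591 624) (leaf 7 623 752))))) (merge (node 687 (merge (leaf 4 591 720) (node 686 (merge (leaf 5 590 718) (node 654 (merge (leaf 5 558 559) (node 689 (merge (leaf 3 653 653) (leaf 3 654 690))))))))) (node 559 (merge (leaf 4 559 656) (node 558 (merge (leaf 7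 526 526) (node 687 (merge (leaf 7 558 590) (node 686 (merge (leaf 5 558 654) (leaf 5 590 718))))))))))))) (merge (node 687 (merge (node 590 (merge (leaf 7 558 558) (node 719 (merge (leaf 7 590 622) (node 720 (merge (leaf 4 591 688) (leaf 4 623 752))))))) (merge (node 720 (merge (leaf 4 591 688) (node 719 (merge (leaf 4 623 752) (node 718 (merge (leaf 5 590 686) (leaf 5 622 750))))))) (merge (node 590 (merge (leaf 7 558 558) (node 719 (merge (leaf 7 590 622) (node 718 (merge (leaf 5 590 686) (leaf 5 622 750))))))) (node 688 (merge (leaf 4 591 720) (node 656 (merge (leaf 4 559 559) (node 686 (merge (leaf 5 590 718) (node 685 (merge (leaf 2 653 657) (leaf 2 652 684))))))))))))) (merge (node 687 (merge (node 688 (merge (leaf 4 591 720) (node 559 (merge (leaf 4 559 656) (node 686 (merge (leaf 5 558 654) (leaf 5 590 718))))))) (merge (node 720 (merge (leaf 4 591 688) (node 719 (merge (leaf 4 623 752) (node 718 (merge (leaf 5 590 686) (leaf 5 622 750))))))) (merge (node 719 (merge (node 718 (merge (leaf 5 590 686) (leaf 5 622 750))) (merge (node 624 (merge (leaf 6 591 592)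 (node 751 (merge (leaf 6 623 656) (node 654 (merge (leaf 7 622 622) (node 783 (merge (leaf 7 654 686) (node 784 (merge (leaf 4 655 752) (leaf 4 687 816))))))))))) (node 750 (merge (leaf 5 622 718) (node 751 (merge (leaf 5 654 782) (node 624 (merge (leaf 6 591 592) (leaf 6 623 656)))))))))) (merge (node 720 (merge (leaf 4 591 688) (node 719 (merge (leaf 4 623 752) (node 624 (merge (leaf 6 591 592) (node 751 (merge (leaf 6 623 656) (node 654 (merge (leaf 7 622 622) (node 783 (merge (leaf 7 654 686) (node 782 (merge (leaf 5 654 750) (leaf 5 686 814))))))))))))))) (node 720 (merge (leaf 4 591 688) (node 719 (merge (leaf 4 623 752) (node 750 (merge (leaf 5 622 718) (node 751 (merge (leaf 5 654 782) (node 624 (merge (leaf 6 591 592) (leaf 6 623 656)))))))))))))))) (merge (node 687 (merge (node 558 (merge (leaf 7 558 590) (node 559 (merge (leaf 7 526 526) (node 688 (merge (leaf 4 559 656) (leaf 4 591 720))))))) (merge (node 590 (merge (leaf 7 558 558) (node 719 (merge (leaf 7 590 622) (node 720 (merge (leaf 4 591 688) (leaf 4 623 752))))))) (merge (node 720 (merge (leaf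 4 591 688) (node 719 (merge (leaf 4 623 752) (node 624 (merge (leaf 6 591 592) (node 751 (merge (leaf 6 623 656) (node 654 (merge (leaf 7 622 622) (node 783 (merge (leaf 7 654 686) (node 782 (merge (leaf 5 654 750) (leaf 5 686 814))))))))))))))) (node 590 (merge (leaf 7 558 558) (node 719 (merge (leaf 7 590 622) (node 624 (merge (leaf 6 591 592) (node 751 (merge (leaf 6 623 656) (node 784 (merge (leaf 4 655 752) (node 783 (merge (leaf 4 687 816) (node 782 (merge (leaf 5 654 750) (leaf 5 686 814))))))))))))))))))) (merge (node 687 (merge (node 558 (merge (leaf 7 558 590) (node 559 (merge (leaf 7 526 526) (node 686 (merge (leaf 5 558 654) (leaf 5 590 718))))))) (merge (node 590 (merge (leaf 7 558 558) (node 719 (merge (leaf 7 590 622) (node 752 (merge (leaf 4 623 720) (node 751 (merge (leaf 4 655 784) (node 624 (merge (leaf 6 591 592) (leaf 6 623 656))))))))))) (node 718 (merge (leaf 5 590 686) (node 719 (merge (leaf 5 622 750) (node 752 (merge (leaf 4 623 720) (node 751 (merge (leaf 4 655 784) (node 624 (merge (leaf 6 591 592) (leaf 6 623 656)))))))))))))) (merge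 (node 687 (merge (node 558 (merge (leaf 7 558 590) (node 559 (merge (leaf 7 526 526) (node 688 (merge (leaf 4 559 656) (leaf 4 591 720))))))) (merge (node 590 (merge (leaf 7 558 558) (node 719 (merge (leaf 7 590 622) (node 720 (merge (leaf 4 591 688) (leaf 4 623 752))))))) (merge (node 590 (merge (leaf 7 558 558) (node 719 (merge (leaf 7 590 622) (node 750 (merge (leaf 5 622 718) (node 751 (merge (leaf 5 654 782) (node 624 (merge (leaf 6 591 592) (leaf 6 623 656))))))))))) (node 720 (merge (leaf 4 591 688) (node 719 (merge (leaf 4 623 752) (node 750 (merge (leaf 5 622 718) (node 751 (merge (leaf 5 654 782) (node 624 (merge (leaf 6 591 592) (leaf 6 623 656))))))))))))))) (merge (node 656 (merge (node 688 (merge (leaf 4 559 559) (node 720 (merge (leaf 7 591 624) (leaf 7 623 752))))) (merge (node 654 (merge (node 686 (merge (leaf 5 558 559) (node 718 (merge (leaf 6 590 622) (leaf 6 622 750))))) (merge (node 625 (merge (node 624 (merge (leaf 1 622 626) (node 653 (merge (leaf 2 620 652) (leaf 2 621 656))))) (merge (node 657 (merge (leaf 2 622 626) (node 690 (merge (leaf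 0 654 689) (node 658 (merge (leaf 3 622 622) (leaf 0 655 691))))))) (node 653 (merge (leaf 2 621 624) (node 685 (merge (leaf 1 652 684) (node 621 (merge (leaf 3 620 620) (node 622 (merge (leaf 3 621 657) (node 717 (merge (leaf 6 589 590) (leaf 6 621 749)))))))))))))) (node 686 (merge (leaf 5 558 559) (node 657 (merge (leaf 1 653 685) (node 689 (merge (leaf 0 654 690) (node 625 (merge (leaf 2 622 626) (node 624 (merge (leaf 2 621 653) (node 721 (merge (leaf 7 592 592) (leaf 7 624 753)))))))))))))))) (merge (node 654 (merge (node 559 (merge (leaf 5 558 686) (leaf 4 559 688))) (merge (node 686 (merge (leaf 5 558 559) (node 718 (merge (leaf 6 590 622) (leaf 6 622 750))))) (merge (node 686 (merge (node 718 (merge (leaf 6 590 622) (leaf 6 622 750))) (merge (node 657 (merge (leaf 1 653 685) (node 626 (merge (leaf 2 622 625) (node 658 (merge (leaf 3 622 622) (leaf 2 623 627))))))) (node 657 (merge (leaf 1 653 685) (node 689 (merge (leaf 0 654 690) (node 688 (merge (leaf 0 653 653) (node 720 (merge (leaf 7 623 752) (node 625 (merge (leaf 5 592 593) (leaf 2 622 626))))))))))))))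 (node 688 (merge (leaf 4 559 559) (node 653 (merge (leaf 0 653 689) (node 685 (merge (leaf 1 652 684) (node 621 (merge (leaf 3 620 620) (node 622 (merge (leaf 3 621 657) (node 717 (merge (leaf 6 589 590) (leaf 6 621 749))))))))))))))))) (node 622 (merge (node 621 (merge (leaf 0 620 620) (node 657 (merge (leaf 0 621 624) (leaf 3 622 658))))) (merge (node 657 (merge (leaf 3 622 658) (node 654 (merge (leaf 3 621 621) (node 686 (merge (leaf 1 653 685) (leaf 6 590 718))))))) (merge (node 654 (merge (node 657 (merge (leaf 3 622 658) (node 686 (merge (leaf 1 653 685) (leaf 6 590 718))))) (merge (node 653 (merge (node 624 (merge (leaf 1 621 625) (leaf 2 620 652))) (merge (node 685 (merge (leaf 1 652 684) (node 590 (merge (leaf 5 557 558) (node 717 (merge (leaf 5 589 686) (leaf 6 621 749))))))) (node 685 (merge (leaf 1 652 684) (node 590 (merge (leaf 5 557 558) (node 717 (merge (leaf 5 589 686) (leaf 6 621 749)))))))))) (merge (node 657 (merge (leaf 3 622 658) (node 689 (merge (leaf 0 654 690) (node 653 (merge (leaf 0 653 688) (node 652 (merge (leaf 2 620 624) (leaf 2 619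 651))))))))) (node 657 (merge (leaf 3 622 658) (node 689 (merge (leaf 0 654 690) (node 653 (merge (leaf 0 653 688) (node 624 (merge (leaf 1 621 625) (leaf 2 620 652))))))))))))) (node 624 (merge (node 621 (merge (leaf 0 620 620) (node 653 (merge (leaf 1 620 652) (node 625 (merge (leaf 1 621 654) (node 589 (merge (leaf 3 588 588) (leaf 3 589 590))))))))) (merge (node 621 (merge (leaf 0 620 620) (node 593 (merge (leaf 2 589 592) (node 625 (merge (leaf 2 590 594) (node 589 (merge (leaf 3 588 588) (leaf 3 589 590))))))))) (merge (node 625 (merge (node 626 (merge (leaf 3 590 590) (leaf 1 623 627))) (merge (node 626 (merge (leaf 1 623 627) (leaf 1 622 654))) (node 654 (merge (leaf 1 621 653) (node 593 (merge (leaf 2 590 594) (node 590 (merge (leaf 3 589 589) (node 558 (merge (leaf 4 526 526) (node 557 (merge (leaf 7 525 525) (leaf 3 557 592)))))))))))))) (merge (node 688 (merge (leaf 7 591 720) (node 621 (merge (leaf 0 620 620) (node 653 (merge (leaf 1 620 652) (node 689 (merge (leaf 0 653 654) (node 592 (merge (leaf 2 589 593) (leaf 4 592 721))))))))))) (node 621 (merge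 (leaf 0 620 620) (node 653 (merge (leaf 1 620 652) (node 654 (merge (leaf 1 621 625) (node 685 (merge (leaf 1 652 684) (node 717 (merge (leaf 6 589 590) (leaf 6 621 749)))))))))))))))))))))))) (merge (node 654 (merge (node 686 (merge (leaf 5 558 559) (node 718 (merge (leaf 5 590 687) (leaf 6 622 750))))) (merge (node 686 (merge (leaf 5 558 559) (node 718 (merge (leaf 6 590 622) (leaf 6 622 750))))) (merge (node 653 (merge (node 652 (merge (leaf 2 620 624) (node 683 (merge (leaf 1 651 684) (node 651 (merge (leaf 2 619 622) (leaf 1 650 682))))))) (merge (node 652 (merge (leaf 2 620 624) (node 688 (merge (leaf 0 652 687) (node 656 (merge (leaf 0 653 689) (node 620 (merge (leaf 3 619 619) (leaf 3 620 621))))))))) (merge (node 688 (merge (node 656 (merge (leaf 4 559 559) (leaf 0 653 689))) (node 652 (merge (leaf 0 652 687) (node 683 (merge (leaf 1 651 684) (node 651 (merge (leaf 2 619 622) (leaf 1 650 682))))))))) (node 656 (merge (node 625 (merge (leaf 2 621 624) (node 657 (merge (leaf 2 622 626) (node 621 (merge (leaf 3 620 620) (leaf 3 621 622))))))) (merge (node 624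 (merge (leaf 2 621 625) (node 559 (merge (leaf 4 559 688) (node 558 (merge (leaf 7 526 526) (node 687 (merge (leaf 7 558 590) (node 719 (merge (leaf 6 591 592) (leaf 6 623 751))))))))))) (node 559 (merge (leaf 4 559 688) (node 558 (merge (leaf 7 526 526) (node 590 (merge (leaf 7 558 687) (node 622 (merge (leaf 5 557 685) (node 657 (merge (leaf 3 621 621) (leaf 3 622 658)))))))))))))))))) (node 653 (merge (node 652 (merge (leaf 2 620 624) (node 683 (merge (leaf 1 651 684) (node 651 (merge (leaf 2 619 622) (leaf 1 650 682))))))) (merge (node 652 (merge (leaf 2 620 624) (node 688 (merge (leaf 0 652 687) (node 656 (merge (leaf 0 653 689) (node 620 (merge (leaf 3 619 619) (leaf 3 620 621))))))))) (merge (node 687 (merge (node 590 (merge (leaf 7 558 558) (node 719 (merge (leaf 7 590 622) (node 718 (merge (leaf 5 590 686) (leaf 5 622 750))))))) (merge (node 688 (merge (leaf 0 652 652) (node 689 (merge (leaf 0 653 656) (leaf 3 653 686))))) (merge (node 652 (merge (leaf 0 652 688) (node 684 (merge (leaf 1 651 683) (node 656 (merge (leaf 1 652 685) (node 620 (merge (leaf 3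 619 619) (leaf 3 620 621))))))))) (node 652 (merge (leaf 0 652 688) (node 651 (merge (leaf 2 619 622) (leaf 0 651 686))))))))) (node 621 (merge (node 656 (merge (leaf 3 620 620) (node 625 (merge (leaf 2 621 624) (node 657 (merge (leaf 3 621 622) (leaf 2 622 626))))))) (merge (node 656 (merge (leaf 3 620 620) (node 657 (merge (leaf 3 621 622) (node 686 (merge (leaf 1 653 685) (node 718 (merge (leaf 5 590 687) (leaf 7 621 750))))))))) (merge (node 656 (merge (leaf 3 620 620) (node 689 (merge (leaf 0 653 688) (node 657 (merge (leaf 0 654 690) (node 685 (merge (leaf 1 652 684) (leaf 1 653 686))))))))) (merge (node 622 (merge (node 620 (merge (leaf 2 588 592) (leaf 0 619 619))) (merge (node 624 (merge (leaf 1 621 625) (node 589 (merge (leaf 3 588 588) (node 686 (merge (leaf 4 557 557) (leaf 7 589 718))))))) (node 620 (merge (leaf 0 619 619) (node 624 (merge (leaf 1 621 625) (node 588 (merge (leaf 3 587 587) (leaf 3 588 589)))))))))) (node 622 (merge (node 656 (merge (leaf 3 621 657) (node 685 (merge (leaf 1 652 684) (node 717 (merge (leaf 6 589 590) (node 718 (merge (leaf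 6 590 686) (leaf 4 621 750))))))))) (merge (node 624 (merge (leaf 1 621 625) (node 592 (merge (leaf 2 589 593) (node 589 (merge (leaf 3 588 588) (node 557 (merge (leaf 4 525 525) (node 556 (merge (leaf 7 524 524) (leaf 3 556 590))))))))))) (merge (node 624 (merge (leaf 1 621 625) (node 589 (merge (leaf 3 588 588) (node 686 (merge (leaf 4 557 557) (leaf 7 589 718))))))) (node 656 (merge (leaf 3 621 657) (node 685 (merge (leaf 1 652 684) (node 718 (merge (leaf 6 590 686) (node 717 (merge (leaf 6 621 749) (leaf 4 621 750)))))))))))))))))))))))))) (node 590 (merge (node 558 (merge (leaf 7 558 687) (node 529 (merge (leaf 3 495 531) (node 494 (merge (leaf 0 494 497) (leaf 4 494 526))))))) (merge (node 589 (merge (node 624 (merge (leaf 0 588 588) (node 625 (merge (leaf 3 589 622) (leaf 3 590 626))))) (merge (node 588 (merge (leaf 0 588 624) (node 619 (merge (leaf 1 587 620) (node 587 (merge (leaf 1 586 618) (node 555 (merge (leaf 3 554 554) (leaf 3 555 556))))))))) (merge (node 588 (merge (node 620 (merge (leaf 1 587 619) (node 592 (merge (leaf 1 588 621) (node 556 (merge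 (leaf 3 555 555) (leaf 3 556 557))))))) (merge (node 622 (merge (leaf 0 587 587) (node 620 (merge (leaf 1 587 619) (node 621 (merge (leaf 1 588 592) (leaf 0 620 656))))))) (merge (node 587 (merge (leaf 0 587 622) (node 619 (merge (leaf 1 586 618) (leaf 1 587 620))))) (merge (node 622 (merge (leaf 0 587 587) (node 556 (merge (leaf 3 555 555) (node 592 (merge (leaf 3 556 557) (node 593 (merge (leaf 1 590 594) (leaf 1 589 621))))))))) (node 622 (merge (leaf 0 587 587) (node 620 (merge (leaf 1 587 619) (node 621 (merge (leaf 0 620 656) (node 556 (merge (leaf 3 555 555) (node 653 (merge (leaf 4 524 524) (leaf 7 556 685)))))))))))))))) (node 592 (merge (node 625 (merge (leaf 0 589 624) (node 593 (merge (leaf 0 590 626) (node 621 (merge (leaf 1 588 620) (leaf 1 589 622))))))) (merge (node 621 (merge (leaf 1 588 620) (node 529 (merge (leaf 3 495 531) (node 494 (merge (leaf 0 494 497) (node 557 (merge (leaf 3 556 556) (node 526 (merge (leaf 6 493 525) (leaf 4 494 558))))))))))) (merge (node 557 (merge (leaf 3 556 556) (node 593 (merge (leaf 3 557 558) (node 594 (merge (leaf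 1 590 622) (node 627 (merge (leaf 0 591 626) (node 595 (merge (leaf 1 591 624) (leaf 0 592 628))))))))))) (node 557 (merge (leaf 3 556 556) (node 593 (merge (leaf 3 557 558) (node 626 (merge (leaf 0 590 625) (node 594 (merge (leaf 1 590 622) (leaf 0 591 627))))))))))))))))) (node 589 (merge (node 624 (merge (leaf 0 588 588) (node 625 (merge (leaf 3 589 622) (leaf 3 590 626))))) (merge (node 588 (merge (leaf 0 588 624) (node 619 (merge (leaf 1 587 620) (node 587 (merge (leaf 1 586 618) (node 555 (merge (leaf 3 554 554) (leaf 3 555 556))))))))) (merge (node 588 (merge (node 620 (merge (leaf 1 587 619) (node 592 (merge (leaf 1 588 621) (node 556 (merge (leaf 3 555 555) (leaf 3 556 557))))))) (merge (node 622 (merge (leaf 0 587 587) (node 620 (merge (leaf 1 587 619) (node 621 (merge (leaf 1 588 592) (leaf 0 620 656))))))) (merge (node 587 (merge (leaf 0 587 622) (node 619 (merge (leaf 1 586 618) (leaf 1 587 620))))) (merge (node 622 (merge (leaf 0 587 587) (node 556 (merge (leaf 3 555 555) (node 592 (merge (leaf 3 556 557) (node 593 (merge (leaf 1 590 594) (leaf 1 589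 621))))))))) (node 622 (merge (leaf 0 587 587) (node 620 (merge (leaf 1 587 619) (node 621 (merge (leaf 0 620 656) (node 556 (merge (leaf 3 555 555) (node 653 (merge (leaf 4 524 524) (leaf 7 556 685)))))))))))))))) (node 686 (merge (node 687 (merge (leaf 5 590 718) (node 719 (merge (leaf 7 590 622) (node 720 (merge (leaf 4 591 688) (leaf 4 623 752))))))) (merge (node 687 (merge (leaf 5 590 718) (node 720 (merge (leaf 4 591 688) (node 719 (merge (leaf 4 623 752) (node 624 (merge (leaf 6 591 592) (node 751 (merge (leaf 6 623 656) (node 783 (merge (leaf 7 654 654) (node 782 (merge (leaf 5 654 750) (leaf 5 686 814))))))))))))))) (merge (node 687 (merge (node 719 (merge (leaf 7 590 622) (node 720 (merge (leaf 4 591 688) (leaf 4 623 752))))) (merge (node 719 (merge (leaf 7 590 622) (node 624 (merge (leaf 6 591 592) (node 751 (merge (leaf 6 623 656) (node 783 (merge (leaf 7 654 654) (node 782 (merge (leaf 5 654 750) (leaf 5 686 814))))))))))) (merge (node 720 (merge (leaf 4 591 688) (node 719 (merge (leaf 4 623 752) (node 624 (merge (leaf 6 591 592) (node 751 (merge (leaf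 6 623 656) (node 783 (merge (leaf 7 654 654) (node 782 (merge (leaf 5 654 750) (leaf 5 686 814))))))))))))) (node 657 (merge (node 656 (merge (leaf 1 654 658) (node 685 (merge (leaf 1 653 654) (leaf 2 652 684))))) (merge (node 658 (merge (leaf 1 654 656) (node 688 (merge (leaf 2 654 689) (leaf 4 591 720))))) (merge (node 688 (merge (leaf 4 591 720) (node 689 (merge (leaf 2 654 658) (node 722 (merge (leaf 0 686 721) (node 690 (merge (leaf 3 654 654) (leaf 0 687 723))))))))) (node 688 (merge (leaf 4 591 720) (node 685 (merge (leaf 2 653 656) (node 653 (merge (leaf 3 652 652) (node 654 (merge (leaf 3 653 689) (node 622 (merge (leaf 7 557 557) (leaf 5 589 717))))))))))))))))))) (node 621 (merge (node 592 (merge (leaf 1 588 620) (node 625 (merge (leaf 0 589 624) (node 593 (merge (leaf 1 589 622) (leaf 0 590 626))))))) (merge (node 654 (merge (node 718 (merge (leaf 6 590 622) (leaf 6 622 750))) (merge (node 622 (merge (leaf 7 557 557) (node 685 (merge (leaf 5 589 717) (node 656 (merge (leaf 1 653 657) (node 684 (merge (leaf 1 652 653) (leaf 2 651 683))))))))) (node 653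 (merge (leaf 4 557 557) (node 718 (merge (leaf 4 589 685) (leaf 7 621 750)))))))) (node 592 (merge (leaf 1 588 620) (node 557 (merge (leaf 3 556 556) (node 653 (merge (leaf 4 557 654) (node 685 (merge (leaf 4 589 718) (node 684 (merge (leaf 5 556 652) (leaf 5 588 716))))))))))))))))))))))))))))))))))) nQ_51 cQ_51 12 (by decide +kernel)

end Crest.Agent.H26Snaky
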