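import Crest.Agent.H26SnQ02

/-! certificate data for S0047, part Q 3 (computer generated) -/

set_option autoImplicit false
set_option maxRecDepth 100000

namespace Crest.Agent.H26Snaky

open T

def nQ_52 : ℕ := 0x1000000018000000000000000000000000000000000000000000000000000000000000000000000000000000000000000000000000000000000000000000000000000
def cQ_52 : ℕ := 0x140000001c0000003f000000ffc00000ffc00000ff800001ffc00000ff800001dfc00003ef800001e7000001d78000001e0000000e0000000a0000000000000000000000000000000000000000000000000000000000000000000000000000000000000000000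
theorem lQ_52 : S nQ_52 cQ_52 15 := S_of_chk [(nQ_48, cQ_48, 12), (nQ_49, cQ_49, 12), (nQ_50, cQ_50, 12), (nQ_51, cQ_51, 12)] ⟨lQ_48, lQ_49, lQ_50, lQ_51, trivial⟩ (node 591 (merge (node 559 (merge (node 623 (merge (leaf 6 495 527) (node 560 (merge (leaf 5 495 592) (leaf 6 527 655))))) (merge (node 464 (merge (leaf 5 463 560) (node 527 (merge (leaf 5 431 432) (leaf 6 463 495))))) (merge (node 560 (merge (leaf 5 463 464) (node 623 (merge (leaf 5 495 592) (leaf 6 527 655))))) (node 527 (merge (leaf 6 495 623) (node 464 (merge (leaf 5 431 432) (leaf 6 463 495))))))))) (merge (node 494 (merge (node 529 (merge (leaf 0 493 493) (node 530 (merge (leaf 0 494 497) (leaf 3 495 531))))) (merge (node 493 (merge (leaf 0 493 529) (node 492 (merge (leaf 0 492 527) (node 460 (merge (leaf 3 459 459) (leaf 3 460 461))))))) (merge (node 493 (merge (node 492 (merge (leaf 0 492 527) (node 524 (merge (leaf 1 491 523) (leaf 1 492 525))))) (merge (node 492 (merge (leaf 0 492 527) (node 460 (merge (leaf 3 459 459) (leaf 3 460 461))))) (node 525 (merge (leaf 1 492 524) (node 497 (merge (leaf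 1 493 526) (node 461 (merge (leaf 3 460 460) (leaf 3 461 462)))))))))) (node 497 (merge (node 530 (merge (leaf 0 494 529) (node 498 (merge (leaf 0 495 531) (node 467 (merge (leaf 2 463 466) (node 499 (merge (leaf 2 464 468) (leaf 1 495 527))))))))) (node 526 (merge (leaf 1 493 525) (node 462 (merge (leaf 3 461 461) (node 558 (merge (leaf 4 462 559) (node 590 (merge (leaf 4 494 623) (node 589 (merge (leaf 5 461 557) (leaf 5 493 621))))))))))))))))) (merge (node 497 (merge (node 494 (merge (node 529 (merge (leaf 0 493 493) (leaf 0 494 530))) (node 526 (merge (leaf 1 493 525) (node 462 (merge (leaf 3 461 461) (node 559 (merge (leaf 7 462 527) (leaf 4 462 558))))))))) (merge (node 498 (merge (node 467 (merge (leaf 2 463 466) (node 499 (merge (leaf 2 464 468) (leaf 1 495 527))))) (merge (node 467 (merge (leaf 2 463 466) (node 499 (merge (leaf 2 464 468) (node 532 (merge (leaf 0 496 531) (node 500 (merge (leaf 1 496 529) (leaf 0 497 533))))))))) (node 526 (merge (leaf 1 494 527) (node 494 (merge (leaf 1 493 525) (node 493 (merge (leaf 0 493 529) (node 461 (merge (leaf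 3 460 460) (leaf 3 461 462)))))))))))) (merge (node 498 (merge (node 531 (merge (leaf 0 495 530) (node 499 (merge (leaf 0 496 532) (node 467 (merge (leaf 2 463 466) (leaf 2 464 468))))))) (merge (node 530 (merge (leaf 0 495 531) (node 494 (merge (leaf 0 494 529) (node 525 (merge (leaf 1 493 526) (node 493 (merge (leaf 1 492 524) (node 461 (merge (leaf 3 460 460) (leaf 3 461 462))))))))))) (merge (node 467 (merge (leaf 2 463 466) (node 499 (merge (leaf 2 464 468) (node 529 (merge (leaf 1 496 500) (node 494 (merge (leaf 0 493 493) (leaf 0 494 530))))))))) (node 467 (merge (leaf 2 463 466) (node 499 (merge (leaf 2 464 468) (node 532 (merge (leaf 0 496 531) (node 500 (merge (leaf 1 496 529) (leaf 0 497 533))))))))))))) (merge (node 494 (merge (node 525 (merge (leaf 1 493 526) (node 493 (merge (leaf 1 492 524) (node 461 (merge (leaf 3 460 460) (leaf 3 461 462))))))) (merge (node 461 (merge (leaf 3 461 462) (node 493 (merge (leaf 3 460 460) (node 527 (merge (leaf 0 492 492) (node 498 (merge (leaf 1 495 499) (leaf 1 494 526))))))))) (merge (node 461 (merge (leaf 3 461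 462) (node 493 (merge (leaf 3 460 460) (node 492 (merge (leaf 0 492 527) (node 524 (merge (leaf 1 491 523) (leaf 1 492 525))))))))) (node 526 (merge (leaf 1 493 525) (node 498 (merge (leaf 1 494 527) (node 531 (merge (leaf 0 495 530) (node 499 (merge (leaf 0 496 532) (node 467 (merge (leaf 2 463 466) (leaf 2 464 468))))))))))))))) (merge (node 494 (merge (node 529 (merge (leaf 0 493 493) (leaf 0 494 530))) (merge (node 461 (merge (leaf 3 461 462) (node 493 (merge (leaf 3 460 460) (node 492 (merge (leaf 0 492 527) (node 524 (merge (leaf 1 491 523) (leaf 1 492 525))))))))) (node 530 (merge (leaf 0 494 529) (node 498 (merge (leaf 0 495 531) (node 467 (merge (leaf 2 463 466) (node 499 (merge (leaf 2 464 468) (leaf 1 495 527)))))))))))) (node 498 (merge (node 527 (merge (leaf 1 495 499) (leaf 1 494 526))) (merge (node 467 (merge (leaf 2 463 466) (node 499 (merge (leaf 2 464 468) (node 532 (merge (leaf 0 496 531) (node 500 (merge (leaf 1 496 529) (leaf 0 497 533))))))))) (node 530 (merge (leaf 0 495 531) (node 527 (merge (leaf 1 494 526) (node 559 (merge (leaf 6 463 464)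 (node 558 (merge (leaf 1 526 529) (node 592 (merge (leaf 4 495 624) (node 593 (merge (leaf 3 558 594) (node 625 (merge (leaf 4 496 560) (node 590 (merge (leaf 5 494 622) (leaf 0 590 626)))))))))))))))))))))))))) (merge (node 494 (merge (node 529 (merge (leaf 0 493 493) (node 530 (merge (leaf 0 494 497) (leaf 3 495 531))))) (merge (node 493 (merge (leaf 0 493 529) (node 492 (merge (leaf 0 492 527) (node 460 (merge (leaf 3 459 459) (leaf 3 460 461))))))) (merge (node 493 (merge (node 492 (merge (leaf 0 492 527) (node 524 (merge (leaf 1 491 523) (leaf 1 492 525))))) (merge (node 492 (merge (leaf 0 492 527) (node 460 (merge (leaf 3 459 459) (leaf 3 460 461))))) (node 525 (merge (leaf 1 492 524) (node 497 (merge (leaf 1 493 526) (node 461 (merge (leaf 3 460 460) (leaf 3 461 462)))))))))) (node 526 (merge (node 525 (merge (leaf 1 493 497) (node 524 (merge (leaf 2 491 523) (leaf 2 492 527))))) (merge (node 462 (merge (node 497 (merge (leaf 3 461 461) (node 530 (merge (leaf 0 494 529) (node 498 (merge (leaf 1 494 527) (leaf 0 495 531))))))) (merge (node 461 (merge (leaf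 3 461 497) (node 558 (merge (leaf 7 429 429) (node 590 (merge (leaf 4 494 623) (node 589 (merge (leaf 5 461 557) (leaf 5 493 621))))))))) (merge (node 558 (merge (node 557 (merge (leaf 5 461 589) (node 529 (merge (leaf 1 525 527) (node 530 (merge (leaf 0 494 497) (leaf 3 495 531))))))) (merge (node 590 (merge (leaf 4 494 623) (node 622 (merge (leaf 6 494 527) (node 621 (merge (leaf 5 493 589) (leaf 5 525 653))))))) (merge (node 590 (merge (leaf 4 494 623) (node 527 (merge (leaf 6 494 622) (node 529 (merge (leaf 3 494 530) (leaf 1 525 557))))))) (node 590 (merge (leaf 4 494 623) (node 589 (merge (leaf 5 493 621) (node 557 (merge (leaf 5 461 462) (node 592 (merge (leaf 3 556 556) (leaf 3 557 593))))))))))))) (node 558 (merge (node 429 (merge (leaf 7 429 461) (node 430 (merge (leaf 7 397 397) (node 398 (merge (leaf 4 398 527) (node 399 (merge (leaf 6 366 367) (leaf 6 398 431))))))))) (node 590 (merge (leaf 4 494 623) (node 589 (merge (leaf 5 493 621) (node 557 (merge (leaf 5 461 462) (node 592 (merge (leaf 3 556 556) (leaf 3 557 593))))))))))))))) (merge (node 558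 (merge (node 590 (merge (leaf 4 494 623) (node 622 (merge (leaf 6 494 527) (node 621 (merge (leaf 5 493 589) (leaf 5 525 653))))))) (merge (node 590 (merge (leaf 4 494 623) (node 527 (merge (leaf 6 494 622) (node 529 (merge (leaf 3 494 530) (leaf 1 525 557))))))) (merge (node 590 (merge (leaf 4 494 623) (node 589 (merge (leaf 5 493 621) (node 557 (merge (leaf 5 461 462) (node 592 (merge (leaf 3 556 556) (leaf 3 557 593))))))))) (node 462 (merge (node 429 (merge (leaf 7 429 461) (node 430 (merge (leaf 7 397 397) (node 398 (merge (leaf 4 398 527) (node 399 (merge (leaf 6 366 367) (leaf 6 398 431))))))))) (merge (node 557 (merge (leaf 5 461 589) (node 527 (merge (leaf 1 525 529) (node 430 (merge (leaf 4 398 398) (leaf 5 429 525))))))) (merge (node 557 (merge (leaf 5 461 589) (node 527 (merge (leaf 1 525 529) (node 556 (merge (leaf 1 524 525) (leaf 2 523 555))))))) (node 557 (merge (leaf 5 461 589) (node 430 (merge (leaf 5 429 525) (node 399 (merge (leaf 6 398 431) (node 398 (merge (leaf 6 366 367) (node 397 (merge (leaf 7 365 365) (leaf 7 397 429)))))))))))))))))))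 (node 589 (merge (node 558 (merge (node 590 (merge (leaf 5 493 621) (leaf 4 494 623))) (node 462 (merge (leaf 5 461 557) (node 461 (merge (leaf 7 429 429) (leaf 3 461 497))))))) (merge (node 592 (merge (node 560 (merge (leaf 5 495 623) (node 625 (merge (leaf 4 496 593) (node 624 (merge (leaf 0 589 590) (leaf 4 528 657))))))) (merge (node 497 (merge (leaf 1 493 525) (node 529 (merge (leaf 0 494 530) (node 560 (merge (leaf 5 495 623) (leaf 6 496 624))))))) (merge (node 525 (merge (leaf 1 493 497) (node 621 (merge (leaf 6 493 557) (node 590 (merge (leaf 1 588 620) (node 625 (merge (leaf 0 589 624) (node 593 (merge (leaf 1 589 622) (leaf 0 590 626))))))))))) (node 525 (merge (leaf 1 493 497) (node 623 (merge (leaf 5 495 560) (node 621 (merge (leaf 6 493 557) (node 620 (merge (leaf 1 588 590) (leaf 2 588 622))))))))))))) (merge (node 590 (merge (node 558 (merge (leaf 5 493 621) (leaf 4 494 623))) (merge (node 621 (merge (leaf 5 493 558) (node 592 (merge (leaf 1 588 620) (node 625 (merge (leaf 0 589 624) (node 593 (merge (leaf 4 496 560) (leaf 1 589 622))))))))) (merge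 (node 592 (merge (node 621 (merge (leaf 1 588 620) (node 593 (merge (leaf 1 589 622) (node 560 (merge (leaf 5 495 623) (leaf 4 496 625))))))) (merge (node 560 (merge (leaf 5 495 623) (node 625 (merge (leaf 4 496 593) (node 624 (merge (leaf 0 589 589) (leaf 4 528 657))))))) (merge (node 625 (merge (leaf 0 589 624) (node 593 (merge (leaf 0 590 626) (node 621 (merge (leaf 1 588 620) (leaf 1 589 622))))))) (merge (node 624 (merge (leaf 0 589 625) (node 497 (merge (leaf 1 493 525) (node 560 (merge (leaf 6 496 529) (leaf 5 495 623))))))) (node 497 (merge (leaf 1 493 525) (node 529 (merge (leaf 0 494 530) (node 560 (merge (leaf 5 495 623) (leaf 6 496 624)))))))))))) (node 623 (merge (leaf 4 494 558) (node 588 (merge (leaf 0 588 624) (node 587 (merge (leaf 0 587 622) (node 619 (merge (leaf 1 586 618) (leaf 1 587 620))))))))))))) (merge (node 590 (merge (node 558 (merge (leaf 5 493 621) (leaf 4 494 623))) (merge (node 558 (merge (leaf 5 493 621) (node 557 (merge (leaf 5 461 462) (node 592 (merge (leaf 3 556 556) (leaf 3 557 593))))))) (merge (node 592 (merge (node 621 (merge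 (leaf 1 588 620) (node 557 (merge (leaf 6 493 525) (leaf 3 556 556))))) (node 560 (merge (leaf 5 495 623) (node 625 (merge (leaf 4 496 593) (node 624 (merge (leaf 0 589 589) (leaf 4 528 657))))))))) (node 623 (merge (leaf 4 494 558) (node 588 (merge (leaf 0 588 624) (node 587 (merge (leaf 0 587 622) (node 619 (merge (leaf 1 586 618) (leaf 1 587 620))))))))))))) (node 462 (merge (node 497 (merge (leaf 3 461 461) (leaf 1 493 525))) (merge (node 461 (merge (leaf 3 461 497) (node 558 (merge (leaf 7 429 429) (leaf 5 461 557))))) (node 557 (merge (leaf 5 461 558) (node 430 (merge (leaf 5 429 525) (node 399 (merge (leaf 6 398 431) (node 398 (merge (leaf 6 366 367) (node 397 (merge (leaf 7 365 365) (leaf 7 397 429))))))))))))))))))))))))))) (node 623 (merge (node 560 (merge (leaf 5 495 592) (node 559 (merge (leaf 5 463 464) (leaf 6 527 655))))) (merge (node 592 (merge (leaf 5 495 560) (node 494 (merge (node 529 (merge (leaf 0 493 493) (node 530 (merge (leaf 0 494 497) (leaf 3 495 531))))) (merge (node 493 (merge (leaf 0 493 529) (node 524 (merge (leaf 1 492 525) (node 492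 (merge (leaf 1 491 523) (node 460 (merge (leaf 3 459 459) (leaf 3 460 461))))))))) (merge (node 526 (merge (node 525 (merge (leaf 1 493 497) (node 524 (merge (leaf 1 492 493) (leaf 2 491 523))))) (merge (node 558 (merge (leaf 4 494 590) (node 462 (merge (leaf 4 462 559) (node 461 (merge (leaf 7 429 429) (leaf 3 461 497))))))) (node 558 (merge (leaf 4 494 590) (node 462 (merge (leaf 4 462 559) (node 557 (merge (leaf 5 461 589) (node 525 (merge (leaf 5 429 430) (node 493 (merge (leaf 1 492 524) (node 461 (merge (leaf 4 429 429) (leaf 3 460 460)))))))))))))))) (node 497 (merge (node 526 (merge (leaf 1 493 525) (node 462 (merge (leaf 3 461 461) (node 558 (merge (leaf 4 462 559) (leaf 4 494 590))))))) (merge (node 530 (merge (leaf 0 494 529) (node 498 (merge (leaf 0 495 531) (node 467 (merge (leaf 2 463 466) (node 499 (merge (leaf 2 464 468) (node 594 (merge (leaf 6 466 562) (node 593 (merge (leaf 1 590 622) (node 627 (merge (leaf 0 591 626) (node 595 (merge (leaf 1 591 624) (leaf 0 592 628))))))))))))))))) (node 530 (merge (leaf 0 494 529) (node 498 (merge (leaf 0 495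 531) (node 526 (merge (leaf 1 493 525) (node 467 (merge (leaf 2 463 466) (node 499 (merge (leaf 2 464 468) (node 558 (merge (leaf 4 494 590) (node 594 (merge (leaf 6 466 562) (node 593 (merge (leaf 3 558 559) (leaf 1 590 622)))))))))))))))))))))))))) (merge (node 592 (merge (leaf 5 495 560) (node 494 (merge (node 529 (merge (leaf 0 493 493) (node 530 (merge (leaf 0 494 497) (leaf 3 495 531))))) (merge (node 493 (merge (leaf 0 493 529) (node 524 (merge (leaf 1 492 525) (node 492 (merge (leaf 1 491 523) (node 460 (merge (leaf 3 459 459) (leaf 3 460 461))))))))) (merge (node 590 (merge (node 526 (merge (leaf 4 494 558) (node 525 (merge (leaf 1 493 497) (node 524 (merge (leaf 1 492 493) (leaf 2 491 523))))))) (merge (node 621 (merge (node 620 (merge (leaf 1 588 589) (leaf 2 588 622))) (merge (node 589 (merge (leaf 1 588 620) (node 625 (merge (leaf 0 589 624) (node 593 (merge (leaf 0 590 626) (node 557 (merge (leaf 3 556 556) (leaf 3 557 558))))))))) (node 593 (merge (leaf 1 589 622) (node 626 (merge (leaf 0 590 625) (node 594 (merge (leaf 0 591 627) (node 595 (merge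 (leaf 1 591 624) (node 563 (merge (leaf 2 559 562) (leaf 2 560 564)))))))))))))) (node 621 (merge (node 622 (merge (leaf 1 589 593) (leaf 2 588 620))) (merge (node 589 (merge (leaf 1 588 620) (node 624 (merge (leaf 0 588 588) (leaf 0 589 625))))) (node 593 (merge (leaf 1 589 622) (node 625 (merge (leaf 0 590 626) (node 589 (merge (leaf 0 589 624) (node 557 (merge (leaf 3 556 556) (node 525 (merge (leaf 6 493 526) (node 524 (merge (leaf 7 492 492) (leaf 1 492 493))))))))))))))))))) (node 590 (merge (node 558 (merge (leaf 4 494 526) (node 593 (merge (leaf 3 557 557) (node 594 (merge (leaf 1 590 622) (node 627 (merge (leaf 0 591 626) (node 595 (merge (leaf 1 591 624) (leaf 0 592 628))))))))))) (merge (node 526 (merge (leaf 4 494 558) (node 497 (merge (leaf 1 493 525) (node 530 (merge (leaf 0 494 529) (node 498 (merge (leaf 0 495 531) (node 467 (merge (leaf 2 463 466) (node 499 (merge (leaf 2 464 468) (node 594 (merge (leaf 6 466 562) (node 593 (merge (leaf 1 590 622) (node 626 (merge (leaf 0 590 625) (leaf 0 591 627))))))))))))))))))) (merge (node 558 (merge (leaf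 4 494 526) (node 593 (merge (leaf 3 557 557) (node 625 (merge (leaf 0 590 626) (node 624 (merge (leaf 0 589 589) (node 594 (merge (leaf 1 591 595) (node 562 (merge (leaf 2 559 563) (node 530 (merge (leaf 5 497 498) (node 529 (merge (leaf 0 494 497) (leaf 3 495 531))))))))))))))))) (merge (node 621 (merge (node 620 (merge (leaf 1 588 589) (leaf 2 588 622))) (merge (node 589 (merge (leaf 1 588 620) (node 625 (merge (leaf 0 589 624) (node 593 (merge (leaf 0 590 626) (node 557 (merge (leaf 3 556 556) (leaf 3 557 558))))))))) (node 593 (merge (leaf 1 589 622) (node 626 (merge (leaf 0 590 625) (node 594 (merge (leaf 0 591 627) (node 595 (merge (leaf 1 591 624) (node 563 (merge (leaf 2 559 562) (leaf 2 560 564)))))))))))))) (merge (node 589 (merge (node 624 (merge (leaf 0 588 588) (leaf 0 589 625))) (merge (node 621 (merge (leaf 1 588 620) (node 557 (merge (leaf 3 556 556) (node 526 (merge (leaf 6 493 525) (leaf 4 494 558))))))) (node 624 (merge (leaf 0 588 588) (leaf 0 589 625)))))) (node 621 (merge (node 622 (merge (leaf 1 589 593) (leaf 2 588 620))) (merge (node 589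 (merge (leaf 1 588 620) (node 624 (merge (leaf 0 588 588) (leaf 0 589 625))))) (node 593 (merge (leaf 1 589 622) (node 625 (merge (leaf 0 590 626) (node 624 (merge (leaf 0 589 589) (node 594 (merge (leaf 1 591 595) (node 562 (merge (leaf 2 559 563) (node 530 (merge (leaf 5 497 498) (node 529 (merge (leaf 0 494 497) (leaf 3 495 531)))))))))))))))))))))))))))))) (merge (node 494 (merge (node 529 (merge (leaf 0 493 493) (node 530 (merge (leaf 0 494 497) (leaf 3 495 531))))) (merge (node 493 (merge (leaf 0 493 529) (node 524 (merge (leaf 1 492 525) (node 492 (merge (leaf 1 491 523) (node 460 (merge (leaf 3 459 459) (leaf 3 460 461))))))))) (hyp 0)))) (node 530 (merge (node 529 (merge (leaf 3 495 531) (node 494 (merge (leaf 0 493 493) (leaf 0 494 497))))) (merge (hyp 1) (merge (hyp 2) (hyp 3))))))))))))))) nQ_52 cQ_52 15 (by decide +kernel)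
def nQ_53 : ℕ := 0x1000000010000000000000000000000000000000000000000000000000000000000000000000000000000000000000000000000000000000000000000000000000000
def cQ_53 : ℕ := 0x140000001c0000003f000000ffc00000ffc00000ff800001ffc00000ff800001dfc00003efe00001efc00001df8000007f8000007e0000003e0000001800000000000000000000000000000000000000000000000000000000000000000000000000000000000
theorem lQ_53 : S nQ_53 cQ_53 16 := S_of_chk [(nQ_52, cQ_52, 15)] ⟨lQ_52, trivial⟩ (node 495 (merge (node 560 (merge (node 463 (merge (leaf 7 463 592) (node 431 (merge (leaf 4 399 399) (leaf 7 431 464))))) (merge (node 592 (merge (leaf 7 463 463) (node 625 (merge (leaf 4 496 593) (node 624 (merge (leaf 7 495 527) (leaf 4 528 657))))))) (merge (node 592 (merge (node 623 (merge (leaf 5 495 591) (node 624 (merge (leaf 7 495 527) (leaf 5 527 655))))) (merge (node 593 (merge (leaf 4 496 625) (node 591 (merge (leaf 5 495 623) (node 559 (merge (leaf 5 463 464) (node 594 (merge (leaf 3 558 558) (leaf 3 559 595))))))))) (node 625 (merge (leaf 4 496 593) (node 624 (merge (leaf 7 495 527) (leaf 4 528 657))))))))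 (node 529 (merge (node 494 (merge (leaf 0 493 493) (node 530 (merge (leaf 0 494 497) (leaf 3 495 531))))) (merge (node 530 (merge (leaf 3 495 531) (node 527 (merge (leaf 3 494 494) (node 559 (merge (leaf 1 526 558) (node 591 (merge (leaf 6 463 464) (leaf 6 495 623))))))))) (merge (node 559 (merge (node 558 (merge (leaf 2 525 557) (node 530 (merge (leaf 1 526 527) (leaf 1 527 531))))) (merge (node 464 (merge (leaf 5 463 591) (node 432 (merge (leaf 5 431 527) (node 400 (merge (leaf 4 400 497) (node 401 (merge (leaf 6 368 369) (leaf 6 400 433))))))))) (node 464 (merge (leaf 5 463 591) (node 431 (merge (leaf 7 431 463) (node 432 (merge (leaf 7 399 399) (node 400 (merge (leaf 4 400 497) (node 401 (merge (leaf 6 368 369) (leaf 6 400 433)))))))))))))) (node 464 (merge (node 559 (merge (leaf 5 463 591) (node 432 (merge (leaf 5 431 527) (node 400 (merge (leaf 4 400 497) (node 401 (merge (leaf 6 368 369) (leaf 6 400 433))))))))) (merge (node 431 (merge (leaf 7 431 463) (node 432 (merge (leaf 7 399 399) (node 400 (merge (leaf 4 400 497) (node 401 (merge (leaf 6 368 369) (leaf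 6 400 433))))))))) (node 494 (merge (leaf 0 493 493) (node 559 (merge (leaf 5 463 591) (node 558 (merge (leaf 2 525 557) (node 463 (merge (leaf 7 431 431) (node 590 (merge (leaf 6 462 526) (leaf 5 462 527)))))))))))))))))))))) (merge (node 494 (merge (node 529 (merge (leaf 0 493 493) (node 530 (merge (leaf 0 494 497) (leaf 3 495 531))))) (merge (node 493 (merge (leaf 0 493 529) (node 492 (merge (leaf 0 492 527) (node 460 (merge (leaf 3 459 459) (leaf 3 460 461))))))) (merge (node 493 (merge (node 492 (merge (leaf 0 492 527) (node 524 (merge (leaf 1 491 523) (leaf 1 492 525))))) (merge (node 492 (merge (leaf 0 492 527) (node 460 (merge (leaf 3 459 459) (leaf 3 460 461))))) (node 525 (merge (leaf 1 492 524) (node 497 (merge (leaf 1 493 526) (node 461 (merge (leaf 3 460 460) (leaf 3 461 462)))))))))) (node 526 (merge (node 525 (merge (leaf 1 493 497) (node 524 (merge (leaf 2 491 523) (leaf 2 492 527))))) (merge (node 497 (merge (leaf 1 493 525) (node 530 (merge (leaf 0 494 529) (node 498 (merge (leaf 0 495 531) (node 462 (merge (leaf 3 461 461) (leaf 3 462 463)))))))))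 (merge (node 527 (merge (node 497 (merge (leaf 1 494 498) (node 462 (merge (leaf 3 461 461) (node 430 (merge (leaf 4 398 398) (leaf 4 430 559))))))) (node 529 (merge (leaf 3 494 530) (node 558 (merge (leaf 1 525 557) (node 590 (merge (leaf 6 462 463) (leaf 6 494 622))))))))) (node 558 (merge (node 590 (merge (leaf 6 462 463) (node 622 (merge (leaf 6 494 527) (node 621 (merge (leaf 5 493 589) (leaf 5 525 653))))))) (merge (node 590 (merge (leaf 6 462 463) (node 591 (merge (leaf 4 494 623) (node 462 (merge (leaf 4 462 559) (node 589 (merge (leaf 5 461 557) (leaf 5 493 621))))))))) (merge (node 590 (merge (node 623 (merge (leaf 4 494 591) (node 622 (merge (leaf 6 494 527) (leaf 4 526 655))))) (merge (node 622 (merge (leaf 6 494 527) (node 621 (merge (leaf 5 493 589) (leaf 5 525 653))))) (node 591 (merge (leaf 4 494 623) (node 462 (merge (leaf 4 462 559) (node 589 (merge (leaf 5 461 557) (leaf 5 493 621)))))))))) (node 462 (merge (node 461 (merge (leaf 7 429 429) (node 460 (merge (leaf 0 459 459) (leaf 0 460 463))))) (node 527 (merge (node 559 (merge (leaf 4 430 430)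 (leaf 7 462 591))) (node 525 (merge (leaf 2 492 524) (node 557 (merge (leaf 1 524 556) (node 529 (merge (leaf 3 494 530) (leaf 1 525 558))))))))))))))))))))))) (merge (node 560 (merge (node 463 (merge (leaf 7 463 592) (node 431 (merge (leaf 4 399 399) (leaf 7 431 464))))) (merge (node 592 (merge (leaf 7 463 463) (node 625 (merge (leaf 4 496 593) (node 624 (merge (leaf 7 495 527) (leaf 4 528 657))))))) (merge (node 592 (merge (node 625 (merge (leaf 4 496 593) (node 624 (merge (leaf 7 495 527) (leaf 4 528 657))))) (merge (node 623 (merge (leaf 5 495 591) (node 624 (merge (leaf 7 495 527) (leaf 5 527 655))))) (node 593 (merge (leaf 4 496 625) (node 591 (merge (leaf 5 495 623) (node 559 (merge (leaf 5 463 464) (node 558 (merge (leaf 0 557 557) (leaf 3 558 594)))))))))))) (node 464 (merge (node 431 (merge (leaf 7 431 463) (node 432 (merge (leaf 7 399 399) (node 401 (merge (leaf 6 400 433) (node 400 (merge (leaf 6 368 369) (leaf 5 399 527))))))))) (merge (node 559 (merge (leaf 5 463 591) (node 432 (merge (leaf 5 431 527) (node 401 (merge (leaf 6 400 433) (node 400 (merge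 (leaf 6 368 369) (node 399 (merge (leaf 7 367 367) (leaf 7 399 431))))))))))) (merge (node 559 (merge (leaf 5 463 591) (node 432 (merge (node 431 (merge (leaf 7 399 399) (leaf 7 431 463))) (merge (node 401 (merge (leaf 6 400 433) (node 400 (merge (leaf 6 368 369) (node 399 (merge (leaf 7 367 367) (leaf 7 399 431))))))) (merge (node 401 (merge (leaf 6 400 433) (node 400 (merge (leaf 6 368 369) (node 463 (merge (leaf 5 367 368) (leaf 7 431 431))))))) (node 401 (merge (leaf 6 400 433) (node 400 (merge (leaf 6 368 369) (node 368 (merge (leaf 5 367 463) (node 367 (merge (leaf 7 335 335) (leaf 7 367 399))))))))))))))) (merge (node 559 (merge (leaf 5 463 591) (node 432 (merge (leaf 5 431 527) (node 401 (merge (leaf 6 400 433) (node 400 (merge (leaf 6 368 369) (node 497 (merge (leaf 4 400 529) (node 463 (merge (leaf 5 367 368) (node 498 (merge (leaf 3 462 462) (leaf 3 463 499))))))))))))))) (node 559 (merge (leaf 5 463 591) (node 558 (merge (node 463 (merge (leaf 7 431 431) (node 527 (merge (leaf 5 462 590) (node 462 (merge (leaf 7 430 430) (node 461 (merge (leaf 0 460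 460) (leaf 0 461 497))))))))) (node 557 (merge (leaf 2 525 529) (node 588 (merge (leaf 1 556 589) (node 556 (merge (leaf 1 555 587) (node 524 (merge (leaf 3 523 523) (leaf 3 524 525)))))))))))))))))))))) (merge (node 463 (merge (node 431 (merge (leaf 4 399 399) (node 560 (merge (leaf 7 431 464) (leaf 7 463 592))))) (merge (node 431 (merge (leaf 4 399 399) (node 560 (merge (leaf 4 431 527) (leaf 7 463 592))))) (merge (node 560 (merge (leaf 7 463 592) (node 494 (merge (node 529 (merge (leaf 0 493 493) (node 530 (merge (leaf 3 494 527) (leaf 3 495 531))))) (merge (node 493 (merge (leaf 0 493 529) (node 524 (merge (leaf 1 492 525) (node 492 (merge (leaf 2 460 464) (leaf 1 491 523))))))) (merge (node 493 (merge (node 492 (merge (leaf 2 460 464) (leaf 0 492 527))) (node 525 (merge (leaf 1 492 524) (node 526 (merge (leaf 1 493 497) (node 461 (merge (leaf 3 460 460) (node 558 (merge (leaf 4 429 429) (leaf 7 461 590))))))))))) (node 497 (merge (node 462 (merge (leaf 3 461 461) (leaf 3 462 498))) (merge (node 530 (merge (leaf 0 494 529) (node 498 (merge (leaf 0 495 531) (node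 499 (merge (leaf 3 463 464) (leaf 1 495 527))))))) (node 529 (merge (leaf 0 494 530) (node 526 (merge (leaf 1 493 525) (node 462 (merge (leaf 3 461 461) (node 558 (merge (leaf 6 462 590) (node 557 (merge (leaf 1 525 527) (leaf 5 461 589)))))))))))))))))))) (node 431 (merge (leaf 4 399 399) (node 432 (merge (node 400 (merge (leaf 6 399 527) (node 368 (merge (leaf 5 335 336) (leaf 5 367 464))))) (merge (node 527 (merge (leaf 6 399 400) (node 526 (merge (leaf 5 430 558) (node 525 (merge (leaf 2 493 497) (leaf 2 492 524))))))) (node 462 (merge (node 461 (merge (leaf 0 460 460) (node 497 (merge (leaf 0 461 464) (leaf 3 462 498))))) (merge (node 461 (merge (leaf 0 460 460) (node 433 (merge (leaf 1 429 430) (leaf 1 430 434))))) (merge (node 461 (merge (leaf 0 460 460) (node 433 (merge (leaf 1 429 430) (leaf 1 430 434))))) (node 433 (merge (leaf 1 430 434) (node 401 (merge (leaf 6 400 464) (node 430 (merge (leaf 2 398 402) (node 398 (merge (leaf 4 366 366) (leaf 3 397 397)))))))))))))))))))))) (merge (node 494 (merge (node 529 (merge (leaf 0 493 493) (node 530 (merge (leaf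 0 494 497) (leaf 3 495 531))))) (merge (node 493 (merge (leaf 0 493 529) (node 492 (merge (leaf 0 492 527) (node 460 (merge (leaf 3 459 459) (leaf 3 460 461))))))) (merge (node 493 (merge (node 492 (merge (leaf 0 492 527) (node 524 (merge (leaf 1 491 523) (leaf 1 492 525))))) (merge (node 492 (merge (leaf 0 492 527) (node 460 (merge (leaf 3 459 459) (leaf 3 460 461))))) (node 525 (merge (leaf 1 492 524) (node 497 (merge (leaf 1 493 526) (node 461 (merge (leaf 3 460 460) (leaf 3 461 462)))))))))) (node 462 (merge (node 461 (merge (leaf 3 461 497) (node 460 (merge (leaf 0 459 459) (leaf 0 460 463))))) (merge (node 497 (merge (leaf 3 461 461) (node 526 (merge (leaf 1 493 525) (node 527 (merge (leaf 1 494 498) (node 559 (merge (leaf 4 430 430) (leaf 7 462 591))))))))) (merge (node 526 (merge (node 497 (merge (leaf 1 493 525) (node 498 (merge (leaf 3 462 463) (leaf 1 494 527))))) (merge (node 525 (merge (leaf 1 493 497) (node 430 (merge (leaf 5 429 557) (node 399 (merge (leaf 6 398 431) (node 398 (merge (leaf 6 366 367) (node 397 (merge (leaf 7 365 365) (leaf 7 397 429)))))))))))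 (node 431 (merge (node 399 (merge (leaf 6 398 430) (node 463 (merge (leaf 5 366 367) (leaf 4 399 495))))) (merge (node 463 (merge (leaf 4 399 399) (node 560 (merge (leaf 4 431 527) (leaf 7 463 592))))) (merge (node 430 (merge (leaf 6 398 399) (node 527 (merge (leaf 4 398 398) (leaf 4 430 559))))) (node 527 (merge (node 559 (merge (leaf 4 430 430) (leaf 7 462 591))) (merge (node 463 (merge (leaf 4 431 560) (node 432 (merge (leaf 6 399 400) (node 559 (merge (leaf 6 431 464) (leaf 7 462 591))))))) (node 430 (merge (leaf 4 398 398) (node 463 (merge (leaf 4 431 560) (node 429 (merge (leaf 7 397 397) (node 428 (merge (leaf 0 427 427) (leaf 0 428 464))))))))))))))))))) (node 430 (merge (node 527 (merge (leaf 4 398 398) (node 559 (merge (leaf 7 430 463) (leaf 7 462 591))))) (merge (node 398 (merge (leaf 4 398 527) (node 399 (merge (leaf 6 366 367) (node 431 (merge (leaf 6 398 526) (node 432 (merge (leaf 7 399 464) (node 433 (merge (leaf 3 398 434) (leaf 1 429 461))))))))))) (merge (node 463 (merge (node 398 (merge (leaf 4 366 366) (node 399 (merge (leaf 6 366 367) (leaf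 4 399 431))))) (merge (node 461 (merge (leaf 0 460 460) (node 560 (merge (leaf 7 463 592) (node 464 (merge (leaf 7 431 431) (node 429 (merge (leaf 3 428 428) (node 397 (merge (leaf 4 365 365) (leaf 7 397 526))))))))))) (node 398 (merge (leaf 4 366 366) (node 399 (merge (leaf 6 366 367) (node 397 (merge (leaf 7 365 365) (node 429 (merge (leaf 7 397 526) (node 428 (merge (leaf 1 396 400) (leaf 0 427 427)))))))))))))) (node 463 (merge (node 431 (merge (leaf 4 399 399) (node 560 (merge (leaf 7 431 464) (leaf 4 431 527))))) (merge (node 560 (merge (leaf 7 463 592) (node 527 (merge (leaf 4 431 431) (node 559 (merge (leaf 7 430 430) (leaf 7 462 591))))))) (merge (node 461 (merge (leaf 0 460 460) (node 560 (merge (leaf 7 463 592) (node 464 (merge (leaf 7 431 431) (node 429 (merge (leaf 3 428 428) (node 397 (merge (leaf 4 365 365) (leaf 7 397 526))))))))))) (merge (node 461 (merge (leaf 0 460 460) (node 559 (merge (leaf 7 430 527) (node 560 (merge (leaf 7 463 592) (node 464 (merge (leaf 5 463 591) (node 429 (merge (leaf 3 428 428) (node 397 (merge (leaf 4 365 365) (leaf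 7 397 526))))))))))))) (node 461 (merge (leaf 0 460 460) (node 431 (merge (leaf 4 399 399) (node 432 (merge (leaf 1 429 433) (node 527 (merge (leaf 6 399 400) (leaf 7 430 559)))))))))))))))))))))))))) (merge (node 494 (merge (node 529 (merge (leaf 0 493 493) (node 530 (merge (leaf 0 494 497) (leaf 3 495 531))))) (merge (node 493 (merge (leaf 0 493 529) (node 492 (merge (leaf 0 492 527) (node 460 (merge (leaf 3 459 459) (leaf 3 460 461))))))) (merge (node 493 (merge (node 492 (merge (leaf 0 492 527) (node 524 (merge (leaf 1 491 523) (leaf 1 492 525))))) (merge (node 492 (merge (leaf 0 492 527) (node 460 (merge (leaf 3 459 459) (leaf 3 460 461))))) (node 525 (merge (leaf 1 492 524) (node 497 (merge (leaf 1 493 526) (node 461 (merge (leaf 3 460 460) (leaf 3 461 462)))))))))) (node 463 (merge (node 431 (merge (leaf 4 399 399) (node 560 (merge (leaf 7 431 464) (leaf 7 463 592))))) (merge (node 431 (merge (leaf 4 399 399) (node 560 (merge (leaf 4 431 527) (leaf 7 463 592))))) (merge (node 560 (merge (leaf 7 463 592) (node 497 (merge (node 462 (merge (leaf 3 461 461) (leaf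 3 462 498))) (merge (node 530 (merge (leaf 0 494 529) (node 498 (merge (leaf 0 495 531) (node 499 (merge (leaf 3 463 464) (leaf 1 495 527))))))) (node 526 (merge (leaf 1 493 525) (node 462 (merge (leaf 3 461 461) (node 558 (merge (leaf 6 462 590) (node 559 (merge (leaf 4 462 591) (node 430 (merge (leaf 4 430 527) (node 398 (merge (leaf 4 366 366) (node 397 (merge (leaf 7 365 365) (leaf 7 397 429)))))))))))))))))))) (node 431 (merge (leaf 4 399 399) (node 432 (merge (node 400 (merge (leaf 6 399 527) (node 368 (merge (leaf 5 335 336) (leaf 5 367 464))))) (merge (node 527 (merge (leaf 6 399 400) (node 526 (merge (leaf 5 430 558) (node 525 (merge (leaf 2 493 497) (leaf 2 492 524))))))) (node 462 (merge (node 461 (merge (leaf 0 460 460) (node 497 (merge (leaf 0 461 464) (leaf 3 462 498))))) (merge (node 461 (merge (leaf 0 460 460) (node 433 (merge (leaf 1 429 430) (leaf 1 430 434))))) (merge (node 461 (merge (leaf 0 460 460) (node 433 (merge (leaf 1 429 430) (leaf 1 430 434))))) (node 433 (merge (leaf 1 430 434) (node 401 (merge (leaf 6 400 464) (node 430 (merge (leaf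 2 398 402) (node 398 (merge (leaf 4 366 366) (leaf 3 397 397)))))))))))))))))))))))))) (merge (node 560 (merge (node 463 (merge (leaf 7 463 592) (node 431 (merge (leaf 4 399 399) (leaf 7 431 464))))) (merge (node 592 (merge (leaf 7 463 463) (node 625 (merge (leaf 4 496 593) (node 624 (merge (leaf 7 495 527) (leaf 4 528 657))))))) (merge (node 592 (merge (node 625 (merge (leaf 4 496 593) (node 624 (merge (leaf 7 495 527) (leaf 4 528 657))))) (merge (node 623 (merge (leaf 5 495 591) (node 624 (merge (leaf 7 495 527) (leaf 5 527 655))))) (node 593 (merge (leaf 4 496 625) (node 591 (merge (leaf 5 495 623) (node 559 (merge (leaf 5 463 464) (node 558 (merge (leaf 0 557 557) (leaf 3 558 594)))))))))))) (node 463 (merge (node 431 (merge (leaf 4 399 399) (leaf 7 431 464))) (merge (node 431 (merge (leaf 4 399 399) (leaf 4 431 527))) (node 527 (merge (node 559 (merge (node 464 (merge (leaf 5 431 432) (leaf 6 463 591))) (node 558 (merge (leaf 5 462 590) (node 557 (merge (leaf 2 524 556) (node 529 (merge (leaf 1 525 526) (leaf 1 526 530))))))))) (merge (node 559 (merge (node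 591 (merge (leaf 6 495 623) (node 462 (merge (leaf 7 430 430) (leaf 7 462 494))))) (merge (node 591 (merge (leaf 5 463 464) (node 623 (merge (leaf 6 495 527) (leaf 6 527 655))))) (node 464 (merge (leaf 5 431 432) (node 462 (merge (leaf 7 430 430) (node 461 (merge (leaf 0 460 460) (node 493 (merge (leaf 1 460 492) (node 494 (merge (leaf 0 493 529) (node 429 (merge (leaf 3 428 428) (node 397 (merge (leaf 4 365 365) (leaf 4 397 526)))))))))))))))))) (merge (node 559 (merge (node 591 (merge (leaf 6 495 623) (node 590 (merge (leaf 5 462 558) (leaf 5 494 622))))) (merge (node 591 (merge (leaf 6 495 623) (node 462 (merge (leaf 7 430 430) (leaf 7 462 494))))) (node 558 (merge (leaf 5 462 590) (node 529 (merge (leaf 1 526 530) (node 557 (merge (leaf 1 525 526) (leaf 2 524 556)))))))))) (merge (node 526 (merge (node 525 (merge (leaf 2 492 524) (node 557 (merge (leaf 1 524 556) (node 529 (merge (leaf 1 525 558) (node 530 (merge (leaf 3 494 494) (leaf 3 495 531))))))))) (merge (node 525 (merge (leaf 2 492 524) (node 557 (merge (leaf 1 524 556) (node 493 (merge (leaf 3 492 492)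 (node 494 (merge (leaf 0 493 529) (node 589 (merge (leaf 6 461 462) (leaf 6 493 621))))))))))) (merge (node 494 (merge (node 493 (merge (leaf 3 493 529) (node 492 (merge (leaf 0 491 491) (leaf 0 492 495))))) (merge (node 529 (merge (leaf 3 494 530) (node 558 (merge (leaf 1 525 557) (node 590 (merge (leaf 6 462 463) (leaf 6 494 622))))))) (node 493 (merge (leaf 0 492 492) (node 461 (merge (leaf 3 460 460) (node 429 (merge (leaf 4 397 397) (node 558 (merge (leaf 7 429 462) (leaf 7 461 590)))))))))))) (merge (node 558 (merge (node 590 (merge (leaf 6 462 494) (leaf 6 494 622))) (merge (node 525 (merge (leaf 2 492 524) (node 493 (merge (leaf 3 492 492) (node 461 (merge (leaf 4 429 429) (node 460 (merge (leaf 0 460 462) (leaf 3 460 494))))))))) (node 525 (merge (leaf 2 492 524) (node 557 (merge (leaf 1 524 556) (node 493 (merge (leaf 3 492 492) (node 461 (merge (leaf 4 429 429) (leaf 4 461 590)))))))))))) (merge (node 525 (merge (leaf 2 492 524) (node 557 (merge (leaf 1 524 556) (node 558 (merge (leaf 1 525 529) (node 493 (merge (leaf 3 492 492) (node 461 (merge (leaf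 4 429 429) (node 460 (merge (leaf 7 428 428) (leaf 0 460 462))))))))))))) (node 525 (merge (leaf 2 492 524) (node 493 (merge (leaf 3 492 492) (node 494 (merge (leaf 0 493 529) (node 461 (merge (leaf 3 460 460) (node 429 (merge (leaf 4 397 397) (leaf 4 429 558))))))))))))))))) (node 559 (merge (node 591 (merge (leaf 5 463 464) (node 623 (merge (leaf 6 495 527) (leaf 6 527 655))))) (node 558 (merge (leaf 5 462 590) (node 557 (merge (leaf 2 524 556) (node 589 (merge (leaf 1 556 588) (node 525 (merge (leaf 3 524 524) (node 462 (merge (leaf 7 430 430) (node 460 (merge (leaf 0 460 461) (node 493 (merge (leaf 7 460 492) (leaf 6 461 494))))))))))))))))))))))))))))) (merge (node 463 (merge (node 431 (merge (leaf 4 399 399) (node 560 (merge (leaf 7 431 464) (leaf 7 463 592))))) (merge (node 431 (merge (leaf 4 399 399) (node 560 (merge (leaf 4 431 527) (leaf 7 463 592))))) (merge (node 431 (merge (leaf 4 399 399) (node 432 (merge (node 400 (merge (leaf 6 399 527) (node 368 (merge (leaf 5 335 336) (leaf 5 367 464))))) (merge (node 527 (merge (leaf 6 399 400) (node 526 (merge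 (leaf 5 430 558) (node 525 (merge (leaf 2 493 497) (leaf 2 492 524))))))) (node 462 (merge (node 461 (merge (leaf 0 460 460) (node 497 (merge (leaf 0 461 464) (leaf 3 462 498))))) (merge (node 461 (merge (leaf 0 460 460) (node 433 (merge (leaf 1 429 430) (leaf 1 430 434))))) (merge (node 461 (merge (leaf 0 460 460) (node 433 (merge (leaf 1 429 430) (leaf 1 430 434))))) (node 433 (merge (leaf 1 430 434) (node 401 (merge (leaf 6 400 464) (node 430 (merge (leaf 2 398 402) (node 398 (merge (leaf 4 366 366) (leaf 3 397 397)))))))))))))))))) (node 494 (merge (node 560 (merge (leaf 7 463 592) (node 493 (merge (node 492 (merge (leaf 2 460 464) (leaf 0 492 527))) (node 525 (merge (leaf 1 492 524) (node 461 (merge (leaf 3 460 460) (node 462 (merge (leaf 3 461 497) (node 557 (merge (leaf 6 429 430) (leaf 6 461 589))))))))))))) (merge (node 560 (merge (leaf 7 463 592) (node 497 (merge (node 462 (merge (leaf 3 461 461) (leaf 3 462 498))) (merge (node 526 (merge (leaf 1 493 525) (node 498 (merge (leaf 1 494 527) (node 467 (merge (leaf 2 463 466) (node 499 (merge (leaf 3 463 464)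 (leaf 2 464 468))))))))) (node 526 (merge (leaf 1 493 525) (node 462 (merge (leaf 3 461 461) (node 558 (merge (leaf 6 462 590) (node 559 (merge (leaf 4 462 591) (node 527 (merge (leaf 4 430 430) (node 557 (merge (leaf 2 524 556) (leaf 5 461 589)))))))))))))))))) (merge (node 560 (merge (leaf 7 463 592) (node 497 (merge (node 525 (merge (leaf 1 493 526) (node 493 (merge (leaf 1 492 524) (node 461 (merge (leaf 3 460 460) (leaf 3 461 462))))))) (merge (node 498 (merge (leaf 3 462 462) (node 467 (merge (leaf 2 463 466) (node 499 (merge (leaf 3 463 464) (leaf 2 464 468))))))) (node 525 (merge (leaf 1 493 526) (node 493 (merge (leaf 1 492 524) (node 492 (merge (leaf 2 460 464) (node 460 (merge (leaf 3 459 459) (leaf 3 460 461)))))))))))))) (merge (node 525 (merge (node 526 (merge (leaf 1 493 497) (node 524 (merge (leaf 2 491 523) (leaf 2 492 527))))) (merge (node 493 (merge (leaf 1 492 524) (node 492 (merge (leaf 2 460 464) (leaf 0 492 527))))) (node 497 (merge (leaf 1 493 526) (node 498 (merge (leaf 3 462 462) (node 467 (merge (leaf 2 463 466) (node 499 (merge (leaf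 3 463 464) (leaf 2 464 468)))))))))))) (merge (node 493 (merge (node 492 (merge (leaf 0 492 527) (node 524 (merge (leaf 1 491 523) (leaf 1 492 525))))) (merge (node 492 (merge (leaf 0 492 527) (node 460 (merge (leaf 3 459 459) (leaf 3 460 461))))) (node 525 (merge (leaf 1 492 524) (node 526 (merge (leaf 1 493 497) (node 461 (merge (leaf 3 460 460) (node 558 (merge (leaf 4 429 429) (leaf 7 461 590)))))))))))) (merge (node 493 (merge (node 492 (merge (leaf 0 492 527) (node 524 (merge (leaf 1 491 523) (leaf 1 492 525))))) (merge (node 492 (merge (leaf 0 492 527) (node 460 (merge (leaf 3 459 459) (leaf 3 460 461))))) (merge (node 524 (merge (leaf 1 492 525) (node 492 (merge (leaf 1 491 523) (node 460 (merge (leaf 3 459 459) (leaf 3 460 461))))))) (node 525 (merge (leaf 1 492 524) (node 430 (merge (node 462 (merge (leaf 5 397 398) (node 557 (merge (leaf 5 429 526) (leaf 6 461 589))))) (merge (node 461 (merge (leaf 3 460 460) (node 398 (merge (leaf 6 397 429) (leaf 5 397 462))))) (merge (node 461 (merge (leaf 3 460 460) (node 429 (merge (leaf 6 397 398) (node 526 (merge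 (leaf 4 397 397) (leaf 4 429 558))))))) (node 461 (merge (leaf 3 460 460) (node 557 (merge (leaf 6 429 462) (node 558 (merge (leaf 4 461 590) (node 556 (merge (leaf 5 460 588) (node 527 (merge (leaf 1 524 526) (leaf 2 524 559))))))))))))))))))))) (node 560 (merge (leaf 7 463 592) (node 559 (merge (node 591 (merge (leaf 5 463 464) (node 623 (merge (leaf 6 495 527) (leaf 6 527 655))))) (merge (node 462 (merge (node 527 (merge (leaf 7 430 430) (leaf 7 462 591))) (node 497 (merge (leaf 3 461 461) (leaf 3 462 498))))) (merge (node 464 (merge (leaf 5 463 591) (node 493 (merge (leaf 2 460 492) (node 461 (merge (leaf 3 460 460) (node 462 (merge (leaf 0 461 497) (node 429 (merge (leaf 3 428 428) (node 397 (merge (leaf 4 365 365) (leaf 4 397 526))))))))))))) (node 462 (merge (node 497 (merge (leaf 3 461 461) (leaf 3 462 498))) (node 527 (merge (leaf 7 430 430) (node 558 (merge (leaf 5 462 590) (node 557 (merge (leaf 2 524 556) (node 589 (merge (leaf 5 461 526) (leaf 1 556 588)))))))))))))))))))))))))))) (merge (node 494 (merge (node 529 (merge (leaf 0 493 493) (node 530 (merge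 (leaf 0 494 497) (leaf 3 495 531))))) (merge (node 493 (merge (leaf 0 493 529) (node 524 (merge (leaf 1 492 525) (node 492 (merge (leaf 1 491 523) (node 460 (merge (leaf 3 459 459) (leaf 3 460 461))))))))) (merge (node 525 (merge (node 524 (merge (leaf 1 492 493) (node 526 (merge (leaf 1 493 497) (leaf 2 491 523))))) (merge (node 493 (merge (leaf 1 492 524) (node 461 (merge (leaf 3 460 460) (node 462 (merge (leaf 3 461 497) (node 557 (merge (leaf 6 429 430) (leaf 6 461 589))))))))) (merge (node 497 (merge (leaf 1 493 526) (node 462 (merge (leaf 3 461 461) (node 498 (merge (leaf 3 462 463) (node 531 (merge (leaf 0 495 530) (node 499 (merge (leaf 0 496 532) (node 467 (merge (leaf 2 463 466) (leaf 2 464 468))))))))))))) (node 493 (merge (leaf 1 492 524) (node 460 (merge (leaf 3 460 461) (node 492 (merge (leaf 3 459 459) (node 463 (merge (leaf 2 460 464) (node 491 (merge (leaf 2 459 462) (node 490 (merge (leaf 0 490 526) (node 522 (merge (leaf 1 489 521) (leaf 1 490 523))))))))))))))))))) (node 463 (merge (node 431 (merge (leaf 4 399 399) (node 560 (merge (leaf 7 431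 464) (leaf 7 463 592))))) (merge (node 526 (merge (node 558 (merge (leaf 6 462 590) (node 462 (merge (leaf 6 430 431) (node 461 (merge (leaf 7 429 429) (leaf 0 460 460))))))) (node 497 (merge (leaf 1 493 525) (node 530 (merge (leaf 0 494 529) (node 498 (merge (leaf 0 495 531) (node 467 (merge (leaf 2 463 466) (node 499 (merge (leaf 3 463 464) (leaf 2 464 468))))))))))))) (merge (node 560 (merge (leaf 7 463 592) (node 497 (merge (node 498 (merge (leaf 3 462 462) (node 467 (merge (leaf 2 463 466) (node 499 (merge (leaf 3 463 464) (leaf 2 464 468))))))) (merge (node 530 (merge (leaf 0 494 529) (node 498 (merge (leaf 0 495 531) (node 467 (merge (leaf 2 463 466) (node 499 (merge (leaf 3 463 464) (leaf 2 464 468))))))))) (node 526 (merge (leaf 1 493 525) (node 462 (merge (leaf 3 461 461) (node 558 (merge (leaf 6 462 590) (node 559 (merge (leaf 4 462 591) (node 557 (merge (leaf 2 525 529) (leaf 5 461 589)))))))))))))))) (node 560 (merge (leaf 7 463 592) (node 462 (merge (node 461 (merge (leaf 3 461 497) (node 460 (merge (leaf 0 459 459) (leaf 0 460 463))))) (merge (node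 497 (merge (leaf 3 462 498) (node 526 (merge (leaf 1 493 525) (node 558 (merge (leaf 6 430 431) (leaf 6 462 590))))))) (node 430 (merge (node 398 (merge (leaf 4 366 366) (node 399 (merge (leaf 6 366 367) (leaf 4 399 431))))) (merge (node 398 (merge (leaf 4 366 366) (node 397 (merge (leaf 7 365 365) (node 526 (merge (leaf 7 397 429) (node 557 (merge (leaf 5 429 525) (node 558 (merge (leaf 5 461 589) (leaf 6 462 590))))))))))) (node 460 (merge (leaf 0 460 461) (node 431 (merge (leaf 4 399 399) (node 526 (merge (leaf 6 430 558) (node 429 (merge (leaf 7 397 397) (node 428 (merge (leaf 0 427 427) (leaf 1 427 459))))))))))))))))))))))))))) (hyp 0))))))))))) nQ_53 cQ_53 16 (by decide +kernel)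
def nQ_54 : ℕ := 0x1000000010000000300000000000000000000000000000000000000000000000000000000000000000000000000000000000000000000000000000000000000000000
def cQ_54 : ℕ := 0x20000000e0000001e0000003c0000001e8000007e7000007ce00000fef000000e0000000e00000008000000000000000000000000000000000000000000000000000000000000000000000000000000000000
theorem lQ_54 : S nQ_54 cQ_54 11 := S_of_chk [] trivial (node 466 (merge (node 463 (merge (node 498 (merge (leaf 0 463 499) (node 497 (merge (leaf 0 462 462) (node 434 (merge (leaf 2 431 435) (node 402 (merge (leaf 5 369 370) (leaf 5 401 529))))))))) (merge (node 430 (merge (leaf 3 430 431) (node 462 (merge (leaf 3 429 429) (node 461 (merge (leaf 0 461 497) (node 493 (merge (leaf 1 460 492) (leaf 1 461 494))))))))) (merge (node 434 (merge (leaf 2 431 435) (node 462 (merge (leaf 2 430 433) (node 493 (merge (leaf 1 461 494) (node 461 (merge (leaf 1 460 492) (node 429 (merge (leaf 3 428 428) (leaf 3 429 430))))))))))) (node 401 (merge (node 433 (merge (leaf 5 368 369) (leaf 5 400 497))) (merge (node 498 (merge (leaf 0 463 499) (node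 434 (merge (leaf 2 431 435) (node 433 (merge (leaf 5 400 497) (leaf 7 401 530))))))) (merge (node 498 (merge (leaf 0 463 499) (node 434 (merge (leaf 2 431 435) (node 369 (merge (leaf 7 369 402) (leaf 4 369 433))))))) (node 498 (merge (leaf 0 463 499) (node 434 (merge (leaf 2 431 435) (node 402 (merge (leaf 7 369 369) (node 497 (merge (leaf 5 369 370) (leaf 5 401 529))))))))))))))))) (merge (node 467 (merge (node 500 (merge (leaf 0 464 499) (node 468 (merge (leaf 1 464 497) (leaf 0 465 501))))) (merge (node 500 (merge (leaf 0 464 499) (node 468 (merge (leaf 0 465 501) (node 436 (merge (leaf 2 432 435) (leaf 2 433 437))))))) (node 435 (merge (leaf 2 432 436) (node 463 (merge (leaf 2 431 434) (node 430 (merge (leaf 3 430 431) (node 462 (merge (leaf 3 429 429) (node 461 (merge (leaf 0 461 497) (node 493 (merge (leaf 1 460 492) (leaf 1 461 494)))))))))))))))) (merge (node 467 (merge (node 436 (merge (leaf 2 432 435) (node 468 (merge (leaf 2 433 437) (leaf 1 464 497))))) (merge (node 500 (merge (leaf 0 464 499) (node 468 (merge (leaf 1 464 497) (leaf 0 465 501))))) (node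 499 (merge (leaf 0 464 500) (node 498 (merge (leaf 0 463 463) (node 435 (merge (leaf 2 432 436) (node 530 (merge (leaf 5 402 403) (leaf 6 434 562)))))))))))) (merge (node 433 (merge (node 401 (merge (leaf 5 368 369) (leaf 5 400 497))) (merge (node 498 (merge (node 401 (merge (leaf 4 369 369) (node 530 (merge (leaf 7 401 434) (leaf 7 433 562))))) (merge (node 463 (merge (leaf 0 463 499) (node 462 (merge (leaf 2 430 434) (node 430 (merge (leaf 3 429 429) (leaf 3 430 431))))))) (merge (node 463 (merge (leaf 0 463 499) (node 462 (merge (leaf 2 430 434) (node 430 (merge (leaf 3 429 429) (leaf 3 430 431))))))) (node 499 (merge (leaf 0 463 463) (node 500 (merge (leaf 0 464 467) (leaf 3 465 501))))))))) (node 463 (merge (node 462 (merge (leaf 2 430 434) (node 430 (merge (leaf 3 429 429) (leaf 3 430 431))))) (merge (node 462 (merge (leaf 2 430 434) (node 497 (merge (leaf 0 461 461) (leaf 0 462 498))))) (merge (node 430 (merge (leaf 3 430 431) (node 462 (merge (leaf 3 429 429) (node 497 (merge (leaf 0 461 461) (leaf 0 462 498))))))) (node 499 (merge (leaf 0 463 498) (node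 467 (merge (leaf 0 464 500) (node 468 (merge (leaf 1 464 497) (node 437 (merge (leaf 2 433 436) (node 469 (merge (leaf 3 433 434) (leaf 2 434 438)))))))))))))))))) (merge (node 467 (merge (node 436 (merge (leaf 2 432 435) (node 468 (merge (leaf 2 433 437) (leaf 1 464 497))))) (merge (node 435 (merge (leaf 2 432 436) (node 463 (merge (leaf 2 431 434) (node 430 (merge (leaf 3 430 431) (node 462 (merge (leaf 3 429 429) (node 497 (merge (leaf 0 461 461) (leaf 0 462 498))))))))))) (merge (node 468 (merge (leaf 1 464 497) (node 501 (merge (leaf 0 465 500) (node 469 (merge (leaf 0 466 502) (node 437 (merge (leaf 2 433 436) (leaf 2 434 438))))))))) (merge (node 468 (merge (leaf 1 464 497) (node 501 (merge (leaf 0 465 500) (node 469 (merge (leaf 0 466 502) (node 438 (merge (leaf 2 434 437) (node 470 (merge (leaf 2 435 439) (node 434 (merge (leaf 3 433 433) (leaf 3 434 435))))))))))))) (node 468 (merge (node 436 (merge (leaf 2 432 435) (leaf 2 433 437))) (merge (node 501 (merge (leaf 0 465 500) (node 469 (merge (leaf 0 466 502) (node 437 (merge (leaf 2 433 436) (leaf 2 434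 438))))))) (merge (node 501 (merge (leaf 0 465 500) (node 469 (merge (leaf 0 466 502) (node 438 (merge (leaf 2 434 437) (node 470 (merge (leaf 2 435 439) (node 434 (merge (leaf 3 433 433) (leaf 3 434 435))))))))))) (node 435 (merge (leaf 2 432 436) (node 434 (merge (leaf 2 431 463) (node 469 (merge (leaf 3 433 433) (leaf 3 434 470)))))))))))))))) (merge (node 435 (merge (node 434 (merge (leaf 2 431 463) (node 436 (merge (leaf 1 432 433) (leaf 1 433 437))))) (merge (node 436 (merge (leaf 2 432 467) (node 434 (merge (leaf 1 432 433) (leaf 1 433 437))))) (merge (node 467 (merge (leaf 2 432 436) (node 499 (merge (leaf 0 464 500) (node 498 (merge (leaf 0 463 463) (node 530 (merge (leaf 5 402 403) (leaf 6 434 562))))))))) (node 498 (merge (node 499 (merge (leaf 0 463 463) (node 500 (merge (leaf 0 464 467) (leaf 3 465 501))))) (merge (node 434 (merge (leaf 2 431 463) (node 530 (merge (leaf 6 402 403) (node 562 (merge (leaf 7 433 433) (leaf 6 434 467))))))) (merge (node 463 (merge (leaf 0 463 499) (node 434 (merge (leaf 2 431 435) (node 433 (merge (leaf 2 430 462) (node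 530 (merge (leaf 7 401 401) (leaf 7 433 562))))))))) (node 403 (merge (node 371 (merge (leaf 5 370 467) (node 434 (merge (leaf 5 338 339) (leaf 6 370 402))))) (merge (node 467 (merge (leaf 5 370 371) (node 530 (merge (leaf 5 402 499) (leaf 6 434 562))))) (node 530 (merge (leaf 6 402 434) (node 562 (merge (leaf 7 433 433) (node 563 (merge (leaf 4 466 595) (node 529 (merge (leaf 0 527 527) (node 564 (merge (leaf 0 528 531) (leaf 3 529 565)))))))))))))))))))))) (node 499 (merge (node 500 (merge (leaf 0 464 467) (node 498 (merge (leaf 3 464 497) (leaf 3 465 501))))) (merge (node 467 (merge (leaf 0 464 500) (node 436 (merge (leaf 2 432 435) (node 468 (merge (leaf 2 433 437) (leaf 1 464 497))))))) (merge (node 498 (merge (node 500 (merge (leaf 3 464 497) (leaf 3 465 501))) (merge (node 497 (merge (leaf 1 495 527) (node 531 (merge (leaf 0 496 532) (node 434 (merge (leaf 4 402 402) (node 563 (merge (leaf 4 434 530) (leaf 7 466 595))))))))) (node 500 (merge (leaf 3 465 501) (node 530 (merge (node 529 (merge (leaf 2 495 527) (leaf 2 496 531))) (node 433 (merge (leaf 7 433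 562) (node 434 (merge (leaf 7 401 401) (node 435 (merge (leaf 6 402 403) (leaf 1 432 436)))))))))))))) (merge (node 467 (merge (leaf 0 464 500) (node 402 (merge (node 434 (merge (leaf 4 370 370) (node 531 (merge (leaf 4 402 498) (leaf 7 434 563))))) (merge (node 435 (merge (leaf 2 432 436) (node 370 (merge (leaf 7 370 403) (leaf 4 370 434))))) (merge (node 435 (merge (leaf 2 432 436) (node 403 (merge (leaf 7 370 370) (node 498 (merge (leaf 5 370 371) (leaf 5 402 530))))))) (node 435 (merge (leaf 2 432 436) (node 531 (merge (leaf 7 402 434) (node 564 (merge (leaf 4 435 532) (node 563 (merge (leaf 4 467 596) (node 530 (merge (leaf 0 528 529) (leaf 5 434 562))))))))))))))))) (node 498 (merge (node 497 (merge (leaf 1 495 527) (node 531 (merge (leaf 0 496 532) (node 434 (merge (leaf 4 402 402) (node 563 (merge (leaf 4 434 530) (leaf 7 466 595))))))))) (merge (node 497 (merge (leaf 1 495 527) (node 531 (merge (leaf 0 496 532) (node 467 (merge (leaf 1 464 468) (node 563 (merge (leaf 7 434 434) (leaf 7 466 595))))))))) (merge (node 497 (merge (leaf 1 495 527) (node 467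 (merge (leaf 1 464 468) (node 435 (merge (leaf 2 432 436) (node 403 (merge (leaf 5 370 371) (leaf 5 402 530))))))))) (merge (node 497 (merge (leaf 1 495 527) (node 467 (merge (leaf 1 464 468) (node 435 (merge (leaf 2 432 436) (node 403 (merge (leaf 5 370 371) (leaf 5 402 530))))))))) (merge (node 497 (merge (node 531 (merge (leaf 0 496 532) (node 434 (merge (leaf 4 402 402) (node 563 (merge (leaf 4 434 530) (leaf 7 466 595))))))) (merge (node 531 (merge (leaf 0 496 532) (node 467 (merge (leaf 1 464 468) (node 563 (merge (leaf 7 434 434) (leaf 7 466 595))))))) (merge (node 467 (merge (leaf 1 464 468) (node 435 (merge (leaf 2 432 436) (node 401 (merge (leaf 5 400 433) (node 530 (merge (leaf 6 434 562) (node 434 (merge (leaf 6 402 403) (node 402 (merge (leaf 7 369 369) (leaf 5 369 370))))))))))))) (merge (node 467 (merge (leaf 1 464 468) (node 435 (merge (leaf 2 432 436) (node 403 (merge (leaf 5 370 371) (leaf 5 402 530))))))) (node 467 (merge (leaf 1 464 468) (node 435 (merge (leaf 2 432 436) (node 403 (merge (leaf 5 370 371) (leaf 5 402 530)))))))))))) (merge (node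 497 (merge (leaf 1 495 527) (node 467 (merge (leaf 1 464 468) (node 435 (merge (leaf 2 432 436) (node 403 (merge (leaf 5 370 371) (leaf 5 402 530))))))))) (node 530 (merge (node 562 (merge (leaf 7 433 433) (node 595 (merge (leaf 4 466 563) (node 594 (merge (leaf 6 466 467) (leaf 4 498 627))))))) (merge (node 562 (merge (leaf 7 433 433) (node 594 (merge (leaf 6 466 467) (node 625 (merge (leaf 5 497 593) (node 626 (merge (leaf 6 498 531) (leaf 5 529 657))))))))) (merge (node 435 (merge (node 434 (merge (leaf 6 402 403) (node 531 (merge (leaf 4 402 402) (leaf 4 434 563))))) (merge (node 467 (merge (leaf 2 432 436) (node 530 (merge (leaf 5 402 403) (leaf 6 434 562))))) (node 529 (merge (leaf 2 495 527) (node 562 (merge (leaf 6 434 467) (node 563 (merge (leaf 4 466 595) (node 531 (merge (leaf 4 434 434) (leaf 0 528 564)))))))))))) (node 531 (merge (node 529 (merge (leaf 2 495 527) (node 563 (merge (leaf 0 528 564) (leaf 7 466 595))))) (node 434 (merge (leaf 4 402 402) (node 435 (merge (leaf 6 402 403) (node 433 (merge (leaf 7 401 401) (leaf 1 432 436))))))))))))))))))))))))))))))))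 nQ_54 cQ_54 11 (by decide +kernel)
def nQ_55 : ℕ := 0x1000000010000000100000000000000000000000000000000000000000000000000000000000000000000000000000000000000000000000000000000000000000000
def cQ_55 : ℕ := 0x20000001f8000001f8000003de000001e8000007e7000007ee00000fef000003e0000001f0000001e000000000000000000000000000000000000000000000000000000000000000000000000000000000000
theorem lQ_55 : S nQ_55 cQ_55 15 := S_of_chk [(nQ_54, cQ_54, 11)] ⟨lQ_54, trivial⟩ (node 465 (merge (node 560 (merge (leaf 6 432 433) (node 592 (merge (leaf 6 464 497) (node 591 (merge (leaf 5 463 559) (leaf 5 495 623))))))) (merge (node 463 (merge (node 431 (merge (leaf 7 431 560) (node 466 (merge (leaf 3 430 430) (node 499 (merge (leaf 0 463 498) (node 467 (merge (leaf 0 464 500) (node 435 (merge (leaf 2 431 434) (leaf 2 432 436))))))))))) (merge (node 560 (merge (leaf 7 431 431) (node 591 (merge (leaf 5 463 559) (node 592 (merge (leaf 5 495 623) (node 625 (merge (leaf 4 496 593) (node 624 (merge (leaf 4 528 657) (node 497 (merge (leaf 6 464 465) (leaf 6 496 529))))))))))))) (node 466 (merge (node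 499 (merge (leaf 0 463 498) (node 467 (merge (leaf 0 464 500) (node 435 (merge (leaf 2 431 434) (leaf 2 432 436))))))) (merge (node 498 (merge (leaf 0 463 499) (node 462 (merge (leaf 0 462 497) (node 493 (merge (leaf 1 461 494) (node 461 (merge (leaf 1 460 492) (node 429 (merge (leaf 3 428 428) (leaf 3 429 430))))))))))) (merge (node 435 (merge (leaf 2 431 434) (node 467 (merge (leaf 2 432 436) (node 497 (merge (leaf 1 464 468) (node 462 (merge (leaf 0 461 461) (leaf 0 462 498))))))))) (node 435 (merge (leaf 2 431 434) (node 467 (merge (leaf 2 432 436) (node 500 (merge (leaf 0 464 499) (node 468 (merge (leaf 1 464 497) (leaf 0 465 501)))))))))))))))) (merge (hyp 0) (node 466 (merge (node 498 (merge (node 499 (merge (leaf 0 463 463) (node 500 (merge (leaf 0 464 467) (leaf 3 465 501))))) (node 433 (merge (leaf 6 432 560) (node 401 (merge (leaf 4 369 369) (node 530 (merge (leaf 7 401 434) (leaf 7 433 562))))))))) (merge (node 467 (merge (node 435 (merge (leaf 2 432 436) (node 463 (merge (leaf 2 431 434) (node 560 (merge (leaf 7 431 431) (leaf 6 432 433))))))) (merge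 (node 500 (merge (leaf 0 464 499) (node 468 (merge (leaf 0 465 501) (node 436 (merge (leaf 2 432 435) (leaf 2 433 437))))))) (node 499 (merge (leaf 0 464 500) (node 463 (merge (leaf 0 463 498) (node 560 (merge (leaf 7 431 431) (leaf 6 432 433)))))))))) (merge (node 435 (merge (node 434 (merge (leaf 2 431 463) (node 436 (merge (leaf 1 432 433) (leaf 1 433 437))))) (merge (node 436 (merge (leaf 2 432 467) (node 434 (merge (leaf 1 432 433) (leaf 1 433 437))))) (merge (node 467 (merge (leaf 2 432 436) (node 499 (merge (leaf 0 464 500) (node 498 (merge (leaf 0 463 463) (node 530 (merge (leaf 5 402 403) (leaf 6 434 562))))))))) (node 498 (merge (node 499 (merge (leaf 0 463 463) (node 500 (merge (leaf 0 464 467) (leaf 3 465 501))))) (merge (node 434 (merge (leaf 2 431 463) (node 530 (merge (leaf 6 402 403) (node 562 (merge (leaf 7 433 433) (leaf 6 434 467))))))) (merge (node 463 (merge (leaf 0 463 499) (node 434 (merge (leaf 2 431 435) (node 433 (merge (leaf 2 430 462) (node 530 (merge (leaf 7 401 401) (leaf 7 433 562))))))))) (node 403 (merge (node 371 (merge (leaf 5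 370 467) (node 434 (merge (leaf 5 338 339) (leaf 6 370 402))))) (merge (node 467 (merge (leaf 5 370 371) (node 530 (merge (leaf 5 402 499) (leaf 6 434 562))))) (node 530 (merge (leaf 6 402 434) (node 562 (merge (leaf 7 433 433) (node 563 (merge (leaf 4 466 595) (node 529 (merge (leaf 0 527 527) (node 564 (merge (leaf 0 528 531) (leaf 3 529 565)))))))))))))))))))))) (merge (node 499 (merge (node 463 (merge (leaf 0 463 498) (node 431 (merge (leaf 3 430 430) (leaf 7 431 560))))) (merge (node 467 (merge (leaf 0 464 500) (node 435 (merge (leaf 2 432 436) (node 434 (merge (leaf 2 431 463) (node 531 (merge (leaf 7 402 402) (leaf 7 434 563))))))))) (node 467 (merge (leaf 0 464 500) (node 402 (merge (node 434 (merge (leaf 4 370 370) (node 531 (merge (leaf 4 402 498) (leaf 7 434 563))))) (merge (node 435 (merge (leaf 2 432 436) (node 370 (merge (leaf 7 370 403) (leaf 4 370 434))))) (merge (node 435 (merge (leaf 2 432 436) (node 403 (merge (leaf 7 370 370) (node 498 (merge (leaf 5 370 371) (leaf 5 402 530))))))) (node 435 (merge (leaf 2 432 436) (node 531 (merge (leaf 7 402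 434) (node 564 (merge (leaf 4 435 532) (node 563 (merge (leaf 4 467 596) (node 530 (merge (leaf 0 528 529) (leaf 5 434 562)))))))))))))))))))) (merge (node 560 (merge (leaf 6 432 433) (node 499 (merge (node 463 (merge (leaf 7 431 431) (leaf 0 463 498))) (node 467 (merge (leaf 0 464 500) (node 436 (merge (leaf 2 432 435) (node 468 (merge (leaf 2 433 437) (node 591 (merge (leaf 5 463 559) (node 592 (merge (leaf 5 495 623) (node 593 (merge (leaf 4 496 625) (node 563 (merge (leaf 6 435 531) (node 594 (merge (leaf 2 559 562) (node 627 (merge (leaf 0 591 626) (node 595 (merge (leaf 2 560 564) (leaf 0 592 628))))))))))))))))))))))))) (merge (node 467 (merge (node 435 (merge (leaf 2 432 436) (node 463 (merge (leaf 2 431 434) (node 560 (merge (leaf 7 431 431) (leaf 6 432 433))))))) (merge (node 500 (merge (leaf 0 464 499) (node 468 (merge (leaf 0 465 501) (node 436 (merge (leaf 2 432 435) (leaf 2 433 437))))))) (merge (node 500 (merge (leaf 0 464 499) (node 468 (merge (leaf 0 465 501) (node 437 (merge (leaf 2 433 436) (node 469 (merge (leaf 2 434 438) (node 433 (merge (leaf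 3 433 434) (leaf 6 432 560))))))))))) (node 499 (merge (leaf 0 464 500) (node 560 (merge (leaf 6 432 433) (node 591 (merge (leaf 5 463 559) (node 592 (merge (leaf 5 495 623) (node 593 (merge (leaf 4 496 625) (node 463 (merge (leaf 7 431 431) (node 434 (merge (leaf 2 431 435) (node 563 (merge (leaf 7 434 531) (node 594 (merge (leaf 2 559 562) (node 627 (merge (leaf 0 591 626) (node 595 (merge (leaf 2 560 564) (leaf 0 592 628))))))))))))))))))))))))))) (merge (node 467 (merge (node 500 (merge (leaf 0 464 499) (node 468 (merge (leaf 0 465 501) (node 436 (merge (leaf 2 432 435) (leaf 2 433 437))))))) (merge (node 530 (merge (node 435 (merge (leaf 2 432 436) (node 498 (merge (leaf 6 434 562) (node 403 (merge (leaf 5 370 371) (leaf 6 402 434))))))) (node 560 (merge (leaf 6 432 433) (node 559 (merge (leaf 5 463 591) (node 529 (merge (leaf 1 527 531) (node 558 (merge (leaf 1 526 527) (leaf 2 525 557))))))))))) (merge (node 500 (merge (leaf 0 464 499) (node 468 (merge (leaf 0 465 501) (node 437 (merge (leaf 2 433 436) (node 469 (merge (leaf 2 434 438) (node 433 (merge (leaf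 3 433 434) (leaf 6 432 560))))))))))) (node 499 (merge (leaf 0 464 500) (node 531 (merge (node 563 (merge (leaf 7 434 434) (node 596 (merge (leaf 4 467 564) (node 595 (merge (leaf 7 466 498) (leaf 4 499 628))))))) (merge (node 563 (merge (leaf 7 434 434) (node 564 (merge (leaf 4 467 596) (node 435 (merge (leaf 4 435 532) (node 562 (merge (leaf 5 434 530) (leaf 5 466 594))))))))) (node 560 (merge (leaf 6 432 433) (node 559 (merge (leaf 5 463 591) (node 530 (merge (leaf 1 527 529) (node 435 (merge (leaf 5 434 562) (node 403 (merge (leaf 5 402 498) (node 372 (merge (leaf 6 371 404) (node 371 (merge (leaf 6 339 340) (node 370 (merge (leaf 7 338 338) (leaf 7 370 402)))))))))))))))))))))))))) (node 434 (merge (node 463 (merge (leaf 2 431 435) (node 431 (merge (leaf 3 430 430) (leaf 7 431 560))))) (merge (node 463 (merge (node 560 (merge (leaf 7 431 431) (leaf 6 432 433))) (merge (node 431 (merge (leaf 3 430 430) (leaf 7 431 560))) (node 462 (merge (leaf 2 430 433) (node 493 (merge (leaf 1 461 494) (node 461 (merge (leaf 1 460 492) (node 429 (merge (leaf 3 428 428) (leaf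 3 429 430)))))))))))) (merge (node 463 (merge (leaf 2 431 435) (node 462 (merge (leaf 2 430 433) (node 493 (merge (leaf 1 461 494) (node 461 (merge (leaf 1 460 492) (node 429 (merge (leaf 3 428 428) (leaf 3 429 430))))))))))) (node 433 (merge (leaf 6 432 560) (node 402 (merge (node 370 (merge (leaf 5 337 338) (node 369 (merge (leaf 7 337 337) (leaf 5 368 401))))) (merge (node 370 (merge (leaf 5 337 338) (node 371 (merge (leaf 6 338 339) (node 498 (merge (leaf 6 370 403) (node 530 (merge (leaf 7 401 401) (leaf 7 433 562))))))))) (merge (node 370 (merge (leaf 5 337 338) (node 371 (merge (leaf 6 338 339) (node 403 (merge (leaf 6 370 498) (node 404 (merge (leaf 1 401 405) (node 369 (merge (leaf 7 337 337) (leaf 0 368 368))))))))))) (node 436 (merge (leaf 1 432 435) (node 401 (merge (leaf 5 368 369) (node 498 (merge (leaf 7 401 530) (node 403 (merge (leaf 6 370 371) (node 404 (merge (leaf 1 401 405) (leaf 0 401 437))))))))))))))))))))))))))))))))) nQ_55 cQ_55 15 (by decide +kernel)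
def nQ_56 : ℕ := 0x1000000010000000120000001000000000000000000000000000000000000000000000000000000000000000000000000000000000000000000000000000000000000
def cQ_56 : ℕ := 0x5000000170000002fc0000027c000000dc000002fc0000037c000003fc000001f00000005000000000000000000000000000000000000000000000000000000000000000000000000000
theorem lQ_56 : S nQ_56 cQ_56 13 := S_of_chk [] trivial (node 429 (merge (node 433 (merge (leaf 6 400 401) (node 463 (merge (leaf 2 429 462) (node 431 (merge (leaf 7 431 560) (node 430 (merge (leaf 0 428 428) (leaf 1 428 460))))))))) (merge (node 401 (merge (leaf 6 400 433) (node 400 (merge (leaf 6 368 369) (node 431 (merge (leaf 2 397 430) (node 497 (merge (leaf 4 400 529) (node 463 (merge (leaf 0 461 462) (leaf 7 431 560))))))))))) (merge (node 397 (merge (node 433 (merge (leaf 6 400 401) (node 462 (merge (leaf 2 429 463) (node 365 (merge (leaf 4 365 494) (node 366 (merge (leaf 6 333 334) (node 493 (merge (leaf 6 365 398) (node 364 (merge (leaf 7 332 332) (leaf 7 364 396))))))))))))) (merge (node 433 (merge (leaf 6 400 401) (node 462 (merge (leaf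 2 429 463) (node 365 (merge (leaf 4 365 494) (node 492 (merge (leaf 5 364 460) (node 493 (merge (leaf 5 396 524) (node 364 (merge (leaf 7 332 332) (leaf 7 364 396))))))))))))) (merge (node 433 (merge (leaf 6 400 401) (node 462 (merge (leaf 2 429 463) (node 365 (merge (leaf 4 365 494) (node 492 (merge (leaf 5 364 460) (node 493 (merge (leaf 5 396 524) (node 366 (merge (leaf 6 333 334) (leaf 6 365 398))))))))))))) (merge (node 433 (merge (leaf 6 400 401) (node 462 (merge (leaf 2 429 463) (node 365 (merge (leaf 4 365 494) (node 460 (merge (leaf 5 364 492) (node 333 (merge (leaf 5 332 428) (node 334 (merge (leaf 6 301 302) (leaf 6 333 366))))))))))))) (merge (node 497 (merge (node 400 (merge (leaf 4 400 529) (node 401 (merge (leaf 6 368 369) (leaf 6 400 433))))) (node 492 (merge (node 365 (merge (leaf 5 364 460) (node 334 (merge (leaf 6 333 366) (node 333 (merge (leaf 6 301 302) (node 332 (merge (leaf 7 300 300) (leaf 7 332 364))))))))) (merge (node 493 (merge (leaf 5 396 524) (node 526 (merge (leaf 4 397 494) (node 525 (merge (leaf 3 492 527) (leaf 4 429 558)))))))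 (node 493 (merge (leaf 5 396 524) (node 526 (merge (leaf 4 397 494) (node 525 (merge (leaf 4 429 558) (node 396 (merge (leaf 7 364 364) (leaf 7 396 428)))))))))))))) (merge (node 493 (merge (node 524 (merge (leaf 5 396 492) (node 525 (merge (leaf 5 428 556) (node 398 (merge (leaf 6 365 366) (leaf 6 397 430))))))) (merge (node 524 (merge (leaf 5 396 492) (node 525 (merge (leaf 5 428 556) (node 396 (merge (leaf 7 364 364) (leaf 7 396 428))))))) (merge (node 396 (merge (leaf 7 364 364) (node 525 (merge (leaf 7 396 428) (node 526 (merge (leaf 4 429 558) (node 430 (merge (leaf 6 397 398) (node 557 (merge (leaf 6 429 462) (node 556 (merge (leaf 1 524 527) (leaf 5 460 588))))))))))))) (node 492 (merge (leaf 5 396 524) (node 365 (merge (leaf 5 364 460) (node 366 (merge (leaf 6 333 334) (leaf 6 365 398))))))))))) (node 493 (merge (node 526 (merge (leaf 4 397 494) (node 525 (merge (leaf 4 429 558) (node 396 (merge (leaf 7 364 364) (leaf 7 396 428))))))) (merge (node 524 (merge (leaf 5 396 492) (node 525 (merge (leaf 5 428 556) (node 396 (merge (leaf 7 364 364) (leaf 7 396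 428))))))) (merge (node 526 (merge (leaf 4 397 494) (node 525 (merge (leaf 4 429 558) (node 492 (merge (leaf 5 396 524) (leaf 3 492 527))))))) (node 494 (merge (leaf 4 397 526) (node 492 (merge (leaf 5 396 524) (node 462 (merge (leaf 1 460 463) (node 491 (merge (leaf 2 458 490) (node 523 (merge (leaf 1 490 522) (node 459 (merge (leaf 3 458 458) (node 396 (merge (leaf 7 364 364) (node 428 (merge (leaf 6 395 427) (leaf 5 395 460)))))))))))))))))))))))))))) (merge (node 493 (merge (node 463 (merge (node 462 (merge (leaf 1 460 492) (leaf 0 461 497))) (node 431 (merge (leaf 7 431 560) (node 430 (merge (leaf 0 428 428) (leaf 1 428 460))))))) (merge (node 525 (merge (node 558 (merge (leaf 4 429 526) (node 557 (merge (leaf 4 461 590) (node 428 (merge (leaf 7 396 396) (leaf 7 428 460))))))) (merge (node 556 (merge (leaf 5 428 524) (node 557 (merge (leaf 5 460 588) (node 428 (merge (leaf 7 396 396) (leaf 7 428 460))))))) (node 526 (merge (leaf 4 429 558) (node 397 (merge (leaf 4 397 494) (node 524 (merge (leaf 5 396 492) (leaf 5 428 556)))))))))) (merge (node 525 (merge (node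 558 (merge (leaf 4 429 526) (node 557 (merge (leaf 4 461 590) (node 430 (merge (leaf 6 397 398) (leaf 6 429 462))))))) (merge (node 556 (merge (leaf 5 428 524) (node 557 (merge (leaf 5 460 588) (node 430 (merge (leaf 6 397 398) (leaf 6 429 462))))))) (merge (node 526 (merge (leaf 4 429 558) (node 397 (merge (leaf 4 397 494) (node 524 (merge (leaf 5 396 492) (leaf 5 428 556))))))) (node 526 (merge (leaf 4 429 558) (node 397 (merge (leaf 4 397 494) (node 524 (merge (leaf 5 396 492) (leaf 5 428 556))))))))))) (node 525 (merge (node 558 (merge (leaf 4 429 526) (node 557 (merge (leaf 4 461 590) (node 430 (merge (leaf 6 397 398) (leaf 6 429 462))))))) (merge (node 556 (merge (leaf 5 428 524) (node 557 (merge (leaf 5 460 588) (node 428 (merge (leaf 7 396 396) (leaf 7 428 460))))))) (node 526 (merge (leaf 4 429 558) (node 527 (merge (leaf 2 493 497) (node 494 (merge (leaf 4 397 397) (leaf 3 493 529)))))))))))))) (merge (node 397 (merge (node 433 (merge (leaf 6 400 401) (node 462 (merge (leaf 2 429 463) (node 365 (merge (leaf 4 365 494) (node 366 (merge (leaf 6 333 334)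 (node 493 (merge (leaf 6 365 398) (node 364 (merge (leaf 7 332 332) (leaf 7 364 396))))))))))))) (merge (node 433 (merge (leaf 6 400 401) (node 462 (merge (leaf 2 429 463) (node 365 (merge (leaf 4 365 494) (node 492 (merge (leaf 5 364 460) (node 493 (merge (leaf 5 396 524) (node 364 (merge (leaf 7 332 332) (leaf 7 364 396))))))))))))) (merge (node 433 (merge (leaf 6 400 401) (node 462 (merge (leaf 2 429 463) (node 365 (merge (leaf 4 365 494) (node 492 (merge (leaf 5 364 460) (node 493 (merge (leaf 5 396 524) (node 366 (merge (leaf 6 333 334) (leaf 6 365 398))))))))))))) (merge (node 433 (merge (leaf 6 400 401) (node 462 (merge (leaf 2 429 463) (node 365 (merge (leaf 4 365 494) (node 460 (merge (leaf 5 364 492) (node 333 (merge (leaf 5 332 428) (node 334 (merge (leaf 6 301 302) (leaf 6 333 366))))))))))))) (merge (node 497 (merge (node 400 (merge (leaf 4 400 529) (node 401 (merge (leaf 6 368 369) (leaf 6 400 433))))) (node 492 (merge (node 365 (merge (leaf 5 364 460) (node 334 (merge (leaf 6 333 366) (node 333 (merge (leaf 6 301 302) (node 332 (merge (leaf 7 300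 300) (leaf 7 332 364))))))))) (merge (node 493 (merge (leaf 5 396 524) (node 526 (merge (leaf 4 397 494) (node 525 (merge (leaf 3 492 527) (leaf 4 429 558))))))) (node 493 (merge (leaf 5 396 524) (node 526 (merge (leaf 4 397 494) (node 525 (merge (leaf 4 429 558) (node 396 (merge (leaf 7 364 364) (leaf 7 396 428)))))))))))))) (merge (node 366 (merge (node 365 (merge (leaf 6 333 334) (node 492 (merge (leaf 5 364 460) (node 493 (merge (leaf 6 365 398) (leaf 5 396 524))))))) (merge (node 365 (merge (leaf 6 333 334) (node 460 (merge (leaf 5 364 492) (node 428 (merge (leaf 5 332 333) (node 463 (merge (leaf 3 428 462) (node 401 (merge (leaf 6 400 433) (node 400 (merge (leaf 6 368 369) (node 368 (merge (leaf 0 365 367) (node 431 (merge (leaf 5 335 336) (leaf 7 431 560))))))))))))))))) (node 493 (merge (leaf 6 365 398) (node 401 (merge (leaf 6 400 433) (node 400 (merge (leaf 6 368 369) (node 497 (merge (leaf 4 400 529) (node 396 (merge (leaf 7 364 364) (node 525 (merge (leaf 7 396 428) (node 526 (merge (leaf 2 493 527) (leaf 4 429 558)))))))))))))))))) (node 493 (merge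 (node 526 (merge (leaf 4 397 494) (node 525 (merge (leaf 4 429 558) (node 396 (merge (leaf 7 364 364) (leaf 7 396 428))))))) (merge (node 524 (merge (leaf 5 396 492) (node 525 (merge (leaf 5 428 556) (node 396 (merge (leaf 7 364 364) (leaf 7 396 428))))))) (merge (node 526 (merge (leaf 4 397 494) (node 525 (merge (leaf 4 429 558) (node 492 (merge (leaf 5 396 524) (leaf 3 492 527))))))) (node 494 (merge (leaf 4 397 526) (node 492 (merge (leaf 5 396 524) (node 462 (merge (leaf 1 460 463) (node 491 (merge (leaf 2 458 490) (node 523 (merge (leaf 1 490 522) (node 459 (merge (leaf 3 458 458) (node 396 (merge (leaf 7 364 364) (node 428 (merge (leaf 6 395 427) (leaf 5 395 460)))))))))))))))))))))))))))) (merge (node 493 (merge (node 401 (merge (leaf 6 400 433) (node 400 (merge (leaf 6 368 369) (node 430 (merge (leaf 2 397 431) (node 525 (merge (leaf 6 397 398) (node 558 (merge (leaf 4 429 526) (node 557 (merge (leaf 4 461 590) (node 428 (merge (leaf 7 396 396) (leaf 7 428 460))))))))))))))) (merge (node 525 (merge (node 558 (merge (leaf 4 429 526) (node 557 (merge (leaf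 4 461 590) (node 428 (merge (leaf 7 396 396) (leaf 7 428 460))))))) (merge (node 556 (merge (leaf 5 428 524) (node 557 (merge (leaf 5 460 588) (node 428 (merge (leaf 7 396 396) (leaf 7 428 460))))))) (node 526 (merge (leaf 4 429 558) (node 397 (merge (leaf 4 397 494) (node 524 (merge (leaf 5 396 492) (leaf 5 428 556)))))))))) (merge (node 401 (merge (leaf 6 400 433) (node 400 (merge (leaf 6 368 369) (node 430 (merge (leaf 2 397 431) (node 525 (merge (leaf 6 397 398) (node 526 (merge (leaf 4 429 558) (node 397 (merge (leaf 4 397 494) (node 524 (merge (leaf 5 396 492) (leaf 5 428 556))))))))))))))) (merge (node 397 (merge (node 526 (merge (leaf 4 397 494) (node 525 (merge (leaf 4 429 558) (node 396 (merge (leaf 7 364 364) (leaf 7 396 428))))))) (merge (node 524 (merge (leaf 5 396 492) (node 525 (merge (leaf 5 428 556) (node 396 (merge (leaf 7 364 364) (leaf 7 396 428))))))) (node 492 (merge (leaf 5 396 524) (node 365 (merge (leaf 5 364 460) (node 366 (merge (leaf 6 333 334) (node 401 (merge (leaf 6 400 433) (node 400 (merge (leaf 6 368 369) (node 368 (merge (leaf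 0 365 367) (node 431 (merge (leaf 2 397 430) (node 463 (merge (leaf 5 335 336) (leaf 7 431 560)))))))))))))))))))) (node 366 (merge (node 398 (merge (leaf 6 365 397) (node 430 (merge (leaf 5 333 334) (node 431 (merge (leaf 1 428 460) (node 401 (merge (leaf 2 397 400) (leaf 6 400 433))))))))) (merge (node 397 (merge (leaf 6 365 398) (node 492 (merge (leaf 5 396 524) (node 365 (merge (leaf 6 333 334) (leaf 5 364 460))))))) (merge (node 369 (merge (node 401 (merge (leaf 6 368 400) (leaf 6 400 433))) (node 397 (merge (leaf 6 365 398) (node 492 (merge (leaf 5 396 524) (node 365 (merge (leaf 6 333 334) (leaf 5 364 460))))))))) (node 401 (merge (leaf 6 400 433) (node 400 (merge (leaf 6 368 369) (node 431 (merge (leaf 2 397 430) (node 463 (merge (leaf 7 431 560) (node 368 (merge (leaf 5 335 336) (node 367 (merge (leaf 7 335 335) (leaf 0 365 365)))))))))))))))))))))) (node 430 (merge (node 401 (merge (leaf 6 400 433) (node 400 (merge (leaf 6 368 369) (leaf 2 397 431))))) (merge (node 397 (merge (node 431 (merge (leaf 3 396 396) (leaf 1 428 460))) (merge (node 396 (merge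 (leaf 3 396 431) (node 493 (merge (leaf 7 364 364) (node 525 (merge (leaf 6 397 398) (leaf 7 396 428))))))) (merge (node 460 (merge (leaf 1 428 431) (node 365 (merge (leaf 5 364 492) (node 494 (merge (leaf 4 365 462) (node 493 (merge (leaf 4 397 526) (node 366 (merge (leaf 6 333 334) (leaf 6 365 398))))))))))) (node 493 (merge (node 526 (merge (leaf 4 397 494) (node 525 (merge (leaf 4 429 558) (node 396 (merge (leaf 7 364 364) (leaf 7 396 428))))))) (merge (node 524 (merge (leaf 5 396 492) (node 525 (merge (leaf 5 428 556) (node 396 (merge (leaf 7 364 364) (leaf 7 396 428))))))) (node 494 (merge (leaf 4 397 526) (node 365 (merge (leaf 4 365 462) (node 492 (merge (leaf 5 364 460) (leaf 5 396 524)))))))))))))) (node 397 (merge (node 494 (merge (node 462 (merge (leaf 4 365 365) (leaf 7 397 526))) (merge (node 493 (merge (leaf 4 397 526) (node 524 (merge (leaf 5 396 492) (node 525 (merge (leaf 5 428 556) (node 398 (merge (leaf 6 365 366) (leaf 6 397 430))))))))) (node 365 (merge (leaf 4 365 462) (node 492 (merge (leaf 5 364 460) (node 493 (merge (leaf 5 396 524) (node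 366 (merge (leaf 6 333 334) (leaf 6 365 398)))))))))))) (merge (node 494 (merge (node 462 (merge (leaf 4 365 365) (leaf 7 397 526))) (merge (node 365 (merge (leaf 4 365 462) (node 492 (merge (leaf 5 364 460) (node 493 (merge (leaf 5 396 524) (node 364 (merge (leaf 7 332 332) (leaf 7 364 396))))))))) (node 493 (merge (leaf 4 397 526) (node 524 (merge (leaf 5 396 492) (node 525 (merge (leaf 5 428 556) (node 396 (merge (leaf 7 364 364) (leaf 7 396 428)))))))))))) (merge (node 365 (merge (node 333 (merge (leaf 4 333 462) (node 460 (merge (leaf 5 332 428) (leaf 5 364 492))))) (merge (node 492 (merge (leaf 5 364 460) (node 493 (merge (leaf 5 396 524) (node 366 (merge (leaf 6 333 334) (leaf 6 365 398))))))) (merge (node 366 (merge (leaf 6 333 334) (node 493 (merge (leaf 6 365 398) (node 524 (merge (leaf 5 396 492) (node 525 (merge (leaf 5 428 556) (node 396 (merge (leaf 7 364 364) (leaf 7 396 428))))))))))) (node 364 (merge (leaf 7 332 332) (node 493 (merge (leaf 7 364 396) (node 525 (merge (leaf 6 397 398) (node 556 (merge (leaf 5 428 524) (node 557 (merge (leaf 6 429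 462) (leaf 5 460 588))))))))))))))) (merge (node 365 (merge (node 462 (merge (leaf 4 333 333) (leaf 4 365 494))) (merge (node 333 (merge (leaf 4 333 462) (node 460 (merge (leaf 5 332 428) (leaf 5 364 492))))) (merge (node 333 (merge (leaf 4 333 462) (node 460 (merge (leaf 5 332 428) (leaf 5 364 492))))) (merge (node 462 (merge (leaf 4 365 494) (node 460 (merge (leaf 5 364 492) (node 459 (merge (leaf 2 426 458) (node 491 (merge (leaf 1 458 490) (node 427 (merge (leaf 3 426 426) (node 364 (merge (leaf 7 332 332) (node 396 (merge (leaf 6 363 395) (leaf 5 363 428))))))))))))))) (node 460 (merge (leaf 5 364 492) (node 333 (merge (leaf 5 332 428) (node 334 (merge (leaf 6 301 302) (leaf 6 333 366)))))))))))) (merge (node 493 (merge (node 526 (merge (leaf 4 397 494) (node 525 (merge (leaf 4 429 558) (node 396 (merge (leaf 7 364 364) (leaf 7 396 428))))))) (merge (node 525 (merge (leaf 6 397 398) (node 556 (merge (leaf 5 428 524) (node 557 (merge (leaf 6 429 462) (leaf 5 460 588))))))) (node 366 (merge (leaf 6 365 398) (node 365 (merge (leaf 6 333 334) (node 462 (merge (leaf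 4 333 333) (leaf 4 365 494)))))))))) (merge (node 433 (merge (leaf 6 400 401) (node 493 (merge (node 526 (merge (leaf 4 397 494) (node 525 (merge (leaf 4 429 558) (node 398 (merge (leaf 6 365 366) (leaf 6 397 430))))))) (merge (node 396 (merge (leaf 7 364 364) (node 525 (merge (leaf 7 396 428) (node 556 (merge (leaf 5 428 524) (node 557 (merge (leaf 6 429 462) (leaf 5 460 588))))))))) (node 492 (merge (leaf 5 396 524) (node 398 (merge (leaf 6 365 366) (node 396 (merge (leaf 7 364 364) (node 395 (merge (leaf 0 394 394) (node 427 (merge (leaf 1 394 426) (node 363 (merge (leaf 3 362 362) (node 460 (merge (leaf 7 363 428) (leaf 4 363 459)))))))))))))))))))) (node 497 (merge (node 400 (merge (leaf 4 400 529) (node 401 (merge (leaf 6 368 369) (leaf 6 400 433))))) (node 492 (merge (node 365 (merge (leaf 5 364 460) (node 334 (merge (leaf 6 333 366) (node 333 (merge (leaf 6 301 302) (node 332 (merge (leaf 7 300 300) (leaf 7 332 364))))))))) (merge (node 493 (merge (leaf 5 396 524) (node 526 (merge (leaf 4 397 494) (node 525 (merge (leaf 3 492 527) (leaf 4 429 558)))))))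 (node 493 (merge (leaf 5 396 524) (node 526 (merge (leaf 4 397 494) (node 525 (merge (leaf 4 429 558) (node 396 (merge (leaf 7 364 364) (leaf 7 396 428))))))))))))))))))))))))))))))) nQ_56 cQ_56 13 (by decide +kernel)
def nQ_57 : ℕ := 0x1000000012000000120000001000000000000000000000000000000000000000000000000000000000000000000000000000000000000000000000000000000000000
def cQ_57 : ℕ := 0x100000003000000070000000700000007c0000025c000000dc0000027c0000037c000003f0000002f00000005000000000000000000000000000000000000000000000000000000000000000000000000000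
theorem lQ_57 : S nQ_57 cQ_57 12 := S_of_chk [] trivial (node 369 (merge (node 401 (merge (leaf 6 368 400) (leaf 6 400 433))) (merge (node 429 (merge (node 524 (merge (node 492 (merge (leaf 5 396 397) (node 556 (merge (leaf 6 428 460) (leaf 6 460 588))))) (merge (node 397 (merge (leaf 5 396 492) (node 526 (merge (leaf 4 397 494) (node 525 (merge (leaf 4 429 558) (node 396 (merge (leaf 7 364 364) (leaf 7 396 428))))))))) (node 525 (merge (leaf 5 428 556) (node 558 (merge (leaf 4 429 526) (node 557 (merge (leaf 4 461 590) (node 428 (merge (leaf 7 396 396) (leaf 7 428 460)))))))))))) (merge (node 398 (merge (node 430 (merge (leaf 6 397 525) (node 366 (merge (leaf 5 333 334) (leaf 5 365 462))))) (merge (node 397 (merge (leaf 6 365 366) (node 494 (merge (leaf 4 397 526) (node 462 (merge (leaf 4 365 365) (node 463 (merge (leaf 2 429 433) (leaf 0 461 497))))))))) (node 525 (merge (leaf 6 397 430) (node 558 (merge (leaf 4 429 526) (node 557 (merge (leaf 4 461 590) (node 428 (merge (leaf 7 396 396) (leaf 7 428 460)))))))))))) (merge (node 396 (merge (node 428 (merge (leaf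 7 396 525) (node 364 (merge (leaf 4 332 332) (leaf 4 364 460))))) (merge (node 397 (merge (leaf 7 364 364) (node 524 (merge (leaf 5 396 492) (node 525 (merge (leaf 5 428 556) (node 398 (merge (leaf 6 365 366) (leaf 6 397 430))))))))) (merge (node 525 (merge (leaf 7 396 428) (node 556 (merge (leaf 5 428 524) (node 557 (merge (leaf 5 460 588) (node 430 (merge (leaf 6 397 398) (leaf 6 429 462))))))))) (node 364 (merge (leaf 7 364 397) (node 428 (merge (leaf 4 332 332) (leaf 4 364 460))))))))) (merge (node 525 (merge (node 558 (merge (leaf 4 429 526) (node 557 (merge (leaf 4 461 590) (node 430 (merge (leaf 6 397 398) (leaf 6 429 462))))))) (merge (node 556 (merge (leaf 5 428 524) (node 557 (merge (leaf 5 460 588) (node 430 (merge (leaf 6 397 398) (leaf 6 429 462))))))) (merge (node 526 (merge (leaf 4 429 558) (node 397 (merge (leaf 4 397 494) (node 524 (merge (leaf 5 396 492) (leaf 5 428 556))))))) (node 524 (merge (leaf 5 428 556) (node 397 (merge (leaf 5 396 492) (node 494 (merge (leaf 4 397 526) (node 365 (merge (leaf 4 365 462) (node 334 (merge (leaf 6 333 366)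 (node 333 (merge (leaf 6 301 302) (node 332 (merge (leaf 7 300 300) (leaf 7 332 364))))))))))))))))))) (merge (node 462 (merge (node 463 (merge (leaf 2 429 433) (leaf 1 460 492))) (merge (node 463 (merge (leaf 3 428 428) (leaf 0 461 497))) (node 397 (merge (node 494 (merge (leaf 4 365 365) (leaf 4 397 526))) (merge (node 365 (merge (leaf 4 365 494) (node 492 (merge (leaf 5 364 460) (node 493 (merge (leaf 5 396 524) (node 366 (merge (leaf 6 333 334) (leaf 6 365 398))))))))) (merge (node 492 (merge (leaf 5 396 524) (node 365 (merge (leaf 5 364 460) (node 366 (merge (leaf 6 333 334) (leaf 6 365 398))))))) (node 494 (merge (leaf 4 397 526) (node 492 (merge (leaf 5 396 524) (node 491 (merge (leaf 2 458 490) (node 523 (merge (leaf 1 490 522) (node 459 (merge (leaf 3 458 458) (node 396 (merge (leaf 7 364 364) (node 428 (merge (leaf 6 395 427) (leaf 5 395 460)))))))))))))))))))))) (node 462 (merge (node 463 (merge (leaf 2 429 433) (leaf 1 460 492))) (merge (node 463 (merge (leaf 3 428 428) (leaf 0 461 497))) (node 525 (merge (node 428 (merge (leaf 7 396 396) (node 557 (merge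 (leaf 7 428 460) (node 588 (merge (leaf 5 460 556) (node 589 (merge (leaf 6 461 494) (leaf 5 492 620))))))))) (merge (node 557 (merge (leaf 6 429 430) (node 588 (merge (leaf 5 460 556) (node 589 (merge (leaf 6 461 494) (leaf 5 492 620))))))) (merge (node 557 (merge (leaf 6 429 430) (node 589 (merge (leaf 6 461 494) (node 620 (merge (leaf 5 492 588) (node 621 (merge (leaf 5 524 652) (node 492 (merge (leaf 7 460 460) (leaf 7 492 524))))))))))) (node 524 (merge (leaf 5 428 556) (node 430 (merge (leaf 6 397 398) (node 428 (merge (leaf 7 396 396) (node 427 (merge (leaf 0 426 426) (node 459 (merge (leaf 1 426 458) (node 395 (merge (leaf 3 394 394) (node 492 (merge (leaf 7 395 460) (leaf 4 395 491)))))))))))))))))))))))))))) (node 429 (merge (node 524 (merge (node 492 (merge (leaf 5 396 397) (node 556 (merge (leaf 6 428 460) (leaf 6 460 588))))) (merge (node 397 (merge (leaf 5 396 492) (node 526 (merge (leaf 4 397 494) (node 525 (merge (leaf 4 429 558) (node 396 (merge (leaf 7 364 364) (leaf 7 396 428))))))))) (node 525 (merge (leaf 5 428 556) (node 558 (merge (leaf 4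 429 526) (node 557 (merge (leaf 4 461 590) (node 428 (merge (leaf 7 396 396) (leaf 7 428 460)))))))))))) (merge (node 396 (merge (node 428 (merge (leaf 7 396 525) (node 364 (merge (leaf 4 332 332) (leaf 4 364 460))))) (merge (node 397 (merge (leaf 7 364 364) (node 524 (merge (leaf 5 396 492) (node 525 (merge (leaf 5 428 556) (node 398 (merge (leaf 6 365 366) (leaf 6 397 430))))))))) (merge (node 525 (merge (leaf 7 396 428) (node 556 (merge (leaf 5 428 524) (node 557 (merge (leaf 5 460 588) (node 430 (merge (leaf 6 397 398) (leaf 6 429 462))))))))) (node 364 (merge (leaf 7 364 397) (node 428 (merge (leaf 4 332 332) (leaf 4 364 460))))))))) (merge (node 525 (merge (node 558 (merge (leaf 4 429 526) (node 557 (merge (leaf 4 461 590) (node 430 (merge (leaf 6 397 398) (leaf 6 429 462))))))) (merge (node 556 (merge (leaf 5 428 524) (node 557 (merge (leaf 5 460 588) (node 430 (merge (leaf 6 397 398) (leaf 6 429 462))))))) (merge (node 526 (merge (leaf 4 429 558) (node 397 (merge (leaf 4 397 494) (node 524 (merge (leaf 5 396 492) (leaf 5 428 556))))))) (node 524 (merge (leaf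 5 428 556) (node 397 (merge (leaf 5 396 492) (node 494 (merge (leaf 4 397 526) (node 365 (merge (leaf 4 365 462) (node 334 (merge (leaf 6 333 366) (node 333 (merge (leaf 6 301 302) (node 332 (merge (leaf 7 300 300) (leaf 7 332 364))))))))))))))))))) (merge (node 462 (merge (node 463 (merge (leaf 1 460 492) (leaf 0 461 497))) (merge (node 463 (merge (leaf 3 428 428) (leaf 0 461 497))) (node 397 (merge (node 494 (merge (leaf 4 365 365) (leaf 4 397 526))) (merge (node 365 (merge (leaf 4 365 494) (node 492 (merge (leaf 5 364 460) (node 493 (merge (leaf 5 396 524) (node 366 (merge (leaf 6 333 334) (leaf 6 365 398))))))))) (merge (node 492 (merge (leaf 5 396 524) (node 365 (merge (leaf 5 364 460) (node 366 (merge (leaf 6 333 334) (leaf 6 365 398))))))) (node 494 (merge (leaf 4 397 526) (node 492 (merge (leaf 5 396 524) (node 491 (merge (leaf 2 458 490) (node 523 (merge (leaf 1 490 522) (node 459 (merge (leaf 3 458 458) (node 396 (merge (leaf 7 364 364) (node 428 (merge (leaf 6 395 427) (leaf 5 395 460)))))))))))))))))))))) (merge (node 462 (merge (node 463 (merge (leaf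 1 460 492) (leaf 0 461 497))) (merge (node 463 (merge (leaf 3 428 428) (leaf 0 461 497))) (node 525 (merge (node 428 (merge (leaf 7 396 396) (node 557 (merge (leaf 7 428 460) (node 588 (merge (leaf 5 460 556) (node 589 (merge (leaf 6 461 494) (leaf 5 492 620))))))))) (merge (node 557 (merge (leaf 6 429 430) (node 588 (merge (leaf 5 460 556) (node 589 (merge (leaf 6 461 494) (leaf 5 492 620))))))) (merge (node 557 (merge (leaf 6 429 430) (node 589 (merge (leaf 6 461 494) (node 620 (merge (leaf 5 492 588) (node 621 (merge (leaf 5 524 652) (node 492 (merge (leaf 7 460 460) (leaf 7 492 524))))))))))) (node 524 (merge (leaf 5 428 556) (node 430 (merge (leaf 6 397 398) (node 428 (merge (leaf 7 396 396) (node 427 (merge (leaf 0 426 426) (node 459 (merge (leaf 1 426 458) (node 395 (merge (leaf 3 394 394) (node 492 (merge (leaf 7 395 460) (leaf 4 395 491)))))))))))))))))))))) (node 396 (merge (node 397 (merge (leaf 7 364 364) (node 526 (merge (leaf 4 397 494) (node 525 (merge (leaf 7 396 428) (leaf 4 429 558))))))) (merge (node 525 (merge (leaf 7 396 428) (node 558 (merge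 (leaf 4 429 526) (node 557 (merge (leaf 4 461 590) (node 430 (merge (leaf 6 397 398) (leaf 6 429 462))))))))) (node 400 (merge (leaf 6 368 401) (node 368 (merge (leaf 6 336 337) (node 367 (merge (leaf 7 335 335) (node 397 (merge (leaf 7 364 364) (node 366 (merge (leaf 1 364 365) (leaf 1 365 398))))))))))))))))))))))) nQ_57 cQ_57 12 (by decide +kernel)
def nQ_58 : ℕ := 0x1000000012000000120000001000000000000000000000000000000000000000000000000000000000000000000000000000000000000000000000000000000000000
def cQ_58 : ℕ := 0x210000003f0000003f0000001ff0000027e0000025e000000df000002be0000033c00000230000000000000000000000000000000000000000000000000000000000000000000000000000000000000000000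
theorem lQ_58 : S nQ_58 cQ_58 12 := S_of_chk [] trivial (node 525 (merge (node 429 (merge (node 558 (merge (leaf 4 429 526) (node 557 (merge (leaf 4 461 590) (node 428 (merge (leaf 7 396 396) (leaf 7 428 460))))))) (merge (node 556 (merge (leaf 5 428 524) (node 557 (merge (leaf 5 460 588) (node 428 (merge (leaf 7 396 396) (leaf 7 428 460))))))) (node 526 (merge (leaf 4 429 558) (node 397 (merge (leaf 4 397 494) (node 524 (merge (leaf 5 396 492) (leaf 5 428 556)))))))))) (merge (node 433 (merge (leaf 6 400 401) (node 463 (merge (leaf 2 429 462) (node 560 (merge (leaf 7 431 431) (node 591 (merge (leaf 5 463 559) (node 592 (merge (leaf 5 495 623) (node 625 (merge (leaf 4 496 593) (node 624 (merge (leaf 4 528 657) (node 590 (merge (leaf 0 589 589) (node 558 (merge (leaf 4 461 557) (node 526 (merge (leaf 4 429 429) (leaf 7 493 622))))))))))))))))))))) (merge (node 560 (merge (node 463 (merge (leaf 7 431 431) (node 462 (merge (leaf 2 429 433) (leaf 0 461 497))))) (merge (node 463 (merge (leaf 7 431 431) (node 462 (merge (leaf 1 460 492) (leaf 0 461 497))))) (merge (node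 463 (merge (leaf 7 431 431) (node 462 (merge (leaf 2 429 433) (leaf 1 460 492))))) (merge (node 559 (merge (leaf 5 463 591) (node 401 (merge (leaf 6 400 433) (node 400 (merge (leaf 6 368 369) (node 529 (merge (leaf 4 400 497) (node 557 (merge (leaf 2 525 558) (node 588 (merge (leaf 5 460 556) (node 589 (merge (leaf 5 492 620) (node 460 (merge (leaf 7 428 428) (leaf 7 460 492))))))))))))))))) (node 559 (merge (leaf 5 463 591) (node 401 (merge (leaf 6 400 433) (node 400 (merge (leaf 6 368 369) (node 529 (merge (leaf 4 400 497) (node 557 (merge (leaf 2 525 558) (node 588 (merge (leaf 5 460 556) (node 589 (merge (leaf 5 492 620) (node 460 (merge (leaf 7 428 428) (leaf 7 460 492)))))))))))))))))))))) (merge (node 460 (merge (node 557 (merge (leaf 7 428 428) (node 588 (merge (leaf 5 460 556) (node 589 (merge (leaf 7 460 492) (leaf 5 492 620))))))) (merge (node 433 (merge (leaf 6 400 401) (node 462 (merge (leaf 2 429 463) (node 557 (merge (leaf 7 428 428) (node 556 (merge (leaf 5 460 588) (node 429 (merge (leaf 5 428 524) (node 494 (merge (leaf 6 461 589) (node 397 (merge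 (leaf 4 365 365) (leaf 4 397 526))))))))))))))) (merge (node 557 (merge (leaf 7 428 428) (node 589 (merge (leaf 7 460 492) (node 620 (merge (leaf 5 492 588) (node 621 (merge (leaf 5 524 652) (node 494 (merge (leaf 6 461 462) (leaf 6 493 526))))))))))) (merge (node 463 (merge (node 462 (merge (leaf 2 429 433) (leaf 0 461 497))) (node 560 (merge (leaf 7 431 431) (node 591 (merge (leaf 5 463 559) (node 592 (merge (leaf 5 495 623) (node 625 (merge (leaf 4 496 593) (node 624 (merge (leaf 4 528 657) (node 589 (merge (leaf 0 589 590) (node 557 (merge (leaf 7 460 492) (node 588 (merge (leaf 5 460 556) (leaf 5 492 620))))))))))))))))))) (node 459 (merge (node 458 (merge (leaf 0 458 494) (node 426 (merge (leaf 3 425 425) (node 462 (merge (leaf 3 426 427) (node 463 (merge (leaf 2 428 431) (leaf 0 461 497))))))))) (merge (node 458 (merge (leaf 0 458 494) (node 490 (merge (leaf 1 457 489) (node 462 (merge (leaf 1 458 491) (node 463 (merge (leaf 1 460 492) (leaf 0 461 497))))))))) (merge (node 458 (merge (leaf 0 458 494) (node 457 (merge (leaf 0 457 492) (node 490 (merge (leaf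 1 457 489) (node 428 (merge (leaf 2 425 429) (node 427 (merge (leaf 2 424 456) (node 426 (merge (leaf 0 425 425) (node 522 (merge (leaf 6 394 395) (leaf 6 426 554))))))))))))))) (merge (node 433 (merge (leaf 6 400 401) (node 462 (merge (leaf 2 429 463) (node 490 (merge (leaf 1 458 491) (node 458 (merge (leaf 1 457 489) (node 457 (merge (leaf 0 457 492) (node 428 (merge (leaf 2 425 429) (node 427 (merge (leaf 3 426 426) (leaf 2 424 456))))))))))))))) (node 428 (merge (node 396 (merge (leaf 4 364 364) (leaf 4 396 492))) (node 433 (merge (leaf 6 400 401) (node 462 (merge (leaf 2 429 463) (node 491 (merge (leaf 1 458 490) (node 427 (merge (leaf 3 426 426) (node 523 (merge (leaf 6 427 555) (node 524 (merge (leaf 4 427 556) (node 522 (merge (leaf 2 490 494) (leaf 5 426 554))))))))))))))))))))))))))) (node 524 (merge (node 556 (merge (leaf 5 428 429) (node 588 (merge (leaf 6 460 492) (leaf 6 492 620))))) (merge (node 463 (merge (node 462 (merge (leaf 2 429 433) (leaf 0 461 497))) (node 429 (merge (leaf 5 428 556) (node 526 (merge (leaf 4 429 558) (node 397 (merge (leaf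 4 397 494) (node 396 (merge (leaf 7 364 364) (leaf 7 396 428))))))))))) (merge (node 523 (merge (node 522 (merge (leaf 2 490 494) (node 553 (merge (leaf 1 521 554) (node 521 (merge (leaf 2 489 492) (leaf 1 520 552))))))) (merge (node 433 (merge (leaf 6 400 401) (node 462 (merge (leaf 2 429 463) (node 522 (merge (leaf 2 490 494) (node 490 (merge (leaf 3 489 489) (node 491 (merge (leaf 2 458 492) (leaf 3 490 526))))))))))) (merge (node 433 (merge (leaf 6 400 401) (node 463 (merge (leaf 2 429 462) (node 560 (merge (leaf 7 431 431) (node 559 (merge (leaf 5 463 591) (node 526 (merge (leaf 0 523 558) (node 554 (merge (leaf 1 522 555) (node 522 (merge (leaf 1 521 553) (node 490 (merge (leaf 3 489 489) (leaf 3 490 491))))))))))))))))) (node 491 (merge (node 526 (merge (leaf 3 490 490) (node 558 (merge (leaf 0 523 559) (node 590 (merge (leaf 7 461 494) (leaf 7 493 622))))))) (merge (node 433 (merge (leaf 6 400 401) (node 462 (merge (leaf 2 429 463) (node 490 (merge (leaf 2 458 492) (node 459 (merge (leaf 1 458 460) (node 556 (merge (leaf 4 427 427) (node 588 (merge (leaf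 4 459 555) (leaf 6 492 620))))))))))))) (node 555 (merge (node 526 (merge (leaf 1 522 554) (node 558 (merge (leaf 0 523 559) (node 590 (merge (leaf 7 461 494) (leaf 7 493 622))))))) (merge (node 556 (merge (node 588 (merge (leaf 6 460 492) (leaf 6 492 620))) (merge (node 459 (merge (leaf 4 427 427) (node 588 (merge (leaf 4 459 555) (leaf 6 492 620))))) (node 459 (merge (leaf 4 427 427) (node 458 (merge (leaf 7 426 426) (node 494 (merge (leaf 0 458 460) (leaf 3 458 492)))))))))) (node 526 (merge (leaf 1 522 554) (node 559 (merge (leaf 0 523 558) (node 560 (merge (leaf 5 463 591) (node 463 (merge (leaf 7 431 431) (node 462 (merge (leaf 1 460 492) (leaf 0 461 497))))))))))))))))))))) (node 523 (merge (node 522 (merge (leaf 2 490 494) (node 553 (merge (leaf 1 521 554) (node 521 (merge (leaf 2 489 492) (leaf 1 520 552))))))) (merge (node 433 (merge (leaf 6 400 401) (node 462 (merge (leaf 2 429 463) (node 522 (merge (leaf 2 490 494) (node 490 (merge (leaf 3 489 489) (node 491 (merge (leaf 2 458 492) (leaf 3 490 526))))))))))) (merge (node 433 (merge (leaf 6 400 401) (node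 463 (merge (leaf 2 429 462) (node 560 (merge (leaf 7 431 431) (node 559 (merge (leaf 5 463 591) (node 526 (merge (leaf 0 523 558) (node 554 (merge (leaf 1 522 555) (node 522 (merge (leaf 1 521 553) (node 490 (merge (leaf 3 489 489) (leaf 3 490 491))))))))))))))))) (node 428 (merge (node 429 (merge (leaf 7 396 396) (node 526 (merge (leaf 4 429 558) (node 397 (merge (leaf 5 396 492) (leaf 4 397 494))))))) (merge (node 396 (merge (leaf 7 396 429) (node 460 (merge (leaf 4 364 364) (leaf 4 396 492))))) (merge (node 429 (merge (leaf 7 396 396) (node 526 (merge (leaf 4 429 558) (node 555 (merge (leaf 1 522 554) (node 491 (merge (leaf 3 490 490) (node 459 (merge (leaf 6 427 460) (node 426 (merge (leaf 7 426 458) (node 427 (merge (leaf 7 394 394) (leaf 0 426 462))))))))))))))) (node 560 (merge (node 463 (merge (leaf 7 431 431) (node 462 (merge (leaf 2 429 433) (leaf 0 461 497))))) (node 559 (merge (leaf 5 463 591) (node 526 (merge (leaf 0 523 558) (node 555 (merge (leaf 1 522 554) (node 491 (merge (leaf 3 490 490) (node 460 (merge (leaf 6 427 459) (leaf 5 427 492))))))))))))))))))))))))))))))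 nQ_58 cQ_58 12 (by decide +kernel)
def nQ_59 : ℕ := 0x1000000010000000120000001000000000000000000000000000000000000000000000000000000000000000000000000000000000000000000000000000000000000
def cQ_59 : ℕ := 0x210000003f0000003f8000001ff0000027e0000027e000000df000002fe0000037c000003fc000003f0000000f000000000000000000000000000000000000000000000000000000000000000000000000000
theorem lQ_59 : S nQ_59 cQ_59 13 := S_of_chk [(nQ_57, cQ_57, 12), (nQ_58, cQ_58, 12)] ⟨lQ_57, lQ_58, trivial⟩ (node 493 (merge (node 433 (merge (leaf 6 400 401) (node 462 (merge (leaf 2 429 463) (node 430 (merge (leaf 1 429 431) (node 398 (merge (leaf 5 365 366) (node 525 (merge (leaf 5 397 494) (leaf 6 429 557))))))))))) (merge (node 462 (merge (node 463 (merge (leaf 1 460 492) (leaf 0 461 497))) (node 430 (merge (node 398 (merge (leaf 5 365 366) (node 525 (merge (leaf 5 397 494) (leaf 6 429 557))))) (merge (node 431 (merge (leaf 1 429 433) (node 460 (merge (leaf 1 428 429) (leaf 2 427 459))))) (node 431 (merge (leaf 1 429 433) (node 460 (merge (leaf 1 428 429) (leaf 2 427 459)))))))))) (merge (node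 433 (merge (leaf 6 400 401) (node 462 (merge (leaf 2 429 463) (node 430 (merge (leaf 1 429 431) (node 525 (merge (leaf 6 429 557) (node 429 (merge (leaf 6 397 398) (node 524 (merge (leaf 5 428 556) (node 492 (merge (leaf 5 396 397) (node 428 (merge (leaf 7 396 396) (node 427 (merge (leaf 0 426 426) (node 395 (merge (leaf 3 394 394) (leaf 7 395 460))))))))))))))))))))) (merge (node 431 (merge (node 463 (merge (leaf 7 431 560) (node 462 (merge (leaf 2 428 460) (leaf 0 461 497))))) (merge (node 433 (merge (leaf 6 400 401) (node 430 (merge (leaf 1 429 462) (node 429 (merge (leaf 1 428 460) (node 397 (merge (leaf 3 396 396) (node 526 (merge (leaf 4 397 494) (node 525 (merge (leaf 4 429 558) (node 524 (merge (leaf 5 396 492) (leaf 5 428 556))))))))))))))) (node 401 (merge (leaf 6 400 433) (node 400 (merge (leaf 6 368 369) (node 429 (merge (leaf 2 397 430) (node 529 (merge (leaf 4 400 497) (node 560 (merge (leaf 7 431 463) (node 559 (merge (leaf 5 463 591) (node 558 (merge (leaf 2 525 557) (node 526 (merge (leaf 4 429 525) (node 494 (merge (leaf 4 397 397) (leaf 7 461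 590)))))))))))))))))))))) (merge (node 429 (merge (node 401 (merge (leaf 6 400 433) (node 400 (merge (leaf 6 368 369) (node 430 (merge (leaf 2 397 431) (node 525 (merge (leaf 6 397 398) (node 526 (merge (leaf 4 429 558) (node 397 (merge (leaf 4 397 494) (node 524 (merge (leaf 5 396 492) (leaf 5 428 556))))))))))))))) (merge (node 401 (merge (leaf 6 400 433) (node 400 (merge (leaf 6 368 369) (node 430 (merge (leaf 2 397 431) (node 525 (merge (leaf 6 397 398) (node 558 (merge (leaf 4 429 526) (node 557 (merge (leaf 4 461 590) (node 428 (merge (leaf 7 396 396) (leaf 7 428 460))))))))))))))) (merge (node 525 (merge (node 558 (merge (leaf 4 429 526) (node 557 (merge (leaf 4 461 590) (node 428 (merge (leaf 7 396 396) (leaf 7 428 460))))))) (merge (node 556 (merge (leaf 5 428 524) (node 557 (merge (leaf 5 460 588) (node 428 (merge (leaf 7 396 396) (leaf 7 428 460))))))) (node 526 (merge (leaf 4 429 558) (node 397 (merge (leaf 4 397 494) (node 524 (merge (leaf 5 396 492) (leaf 5 428 556)))))))))) (merge (node 397 (merge (node 526 (merge (leaf 4 397 494) (node 525 (merge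 (leaf 4 429 558) (node 396 (merge (leaf 7 364 364) (leaf 7 396 428))))))) (merge (node 524 (merge (leaf 5 396 492) (node 525 (merge (leaf 5 428 556) (node 396 (merge (leaf 7 364 364) (leaf 7 396 428))))))) (node 492 (merge (leaf 5 396 524) (node 365 (merge (leaf 5 364 460) (node 366 (merge (leaf 6 333 334) (node 401 (merge (leaf 6 400 433) (node 400 (merge (leaf 6 368 369) (node 368 (merge (leaf 0 365 367) (node 431 (merge (leaf 2 397 430) (node 463 (merge (leaf 5 335 336) (leaf 7 431 560)))))))))))))))))))) (node 366 (merge (node 398 (merge (leaf 6 365 397) (node 430 (merge (leaf 5 333 334) (node 431 (merge (leaf 1 428 460) (node 401 (merge (leaf 2 397 400) (leaf 6 400 433))))))))) (merge (node 397 (merge (leaf 6 365 398) (node 492 (merge (leaf 5 396 524) (node 365 (merge (leaf 6 333 334) (leaf 5 364 460))))))) (merge (node 369 (merge (node 401 (merge (leaf 6 368 400) (leaf 6 400 433))) (node 397 (merge (leaf 6 365 398) (node 492 (merge (leaf 5 396 524) (node 365 (merge (leaf 6 333 334) (leaf 5 364 460))))))))) (node 401 (merge (leaf 6 400 433) (node 400 (merge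 (leaf 6 368 369) (node 431 (merge (leaf 2 397 430) (node 463 (merge (leaf 7 431 560) (node 368 (merge (leaf 5 335 336) (node 367 (merge (leaf 7 335 335) (leaf 0 365 365)))))))))))))))))))))) (merge (node 429 (merge (node 401 (merge (leaf 6 400 433) (node 400 (merge (leaf 6 368 369) (node 430 (merge (leaf 2 397 431) (node 525 (merge (leaf 6 397 398) (node 557 (merge (leaf 6 429 462) (node 428 (merge (leaf 7 396 396) (leaf 7 428 460))))))))))))) (merge (node 401 (merge (leaf 6 400 433) (node 400 (merge (leaf 6 368 369) (node 430 (merge (leaf 2 397 431) (node 525 (merge (leaf 6 397 398) (node 556 (merge (leaf 5 428 524) (node 557 (merge (leaf 6 429 462) (leaf 5 460 588))))))))))))) (merge (node 401 (merge (leaf 6 400 433) (node 400 (merge (leaf 6 368 369) (node 430 (merge (leaf 2 397 431) (node 525 (merge (leaf 6 397 398) (node 556 (merge (leaf 5 428 524) (node 557 (merge (leaf 5 460 588) (node 428 (merge (leaf 7 396 396) (leaf 7 428 460))))))))))))))) (merge (node 397 (merge (node 526 (merge (leaf 4 397 494) (node 525 (merge (leaf 4 429 558) (node 396 (merge (leaf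 7 364 364) (leaf 7 396 428))))))) (merge (node 524 (merge (leaf 5 396 492) (node 525 (merge (leaf 5 428 556) (node 396 (merge (leaf 7 364 364) (leaf 7 396 428))))))) (node 494 (merge (leaf 4 397 526) (node 365 (merge (leaf 4 365 462) (node 492 (merge (leaf 5 364 460) (leaf 5 396 524)))))))))) (merge (node 396 (merge (node 397 (merge (leaf 7 364 364) (node 526 (merge (leaf 4 397 494) (node 525 (merge (leaf 7 396 428) (leaf 4 429 558))))))) (merge (node 397 (merge (leaf 7 364 364) (node 524 (merge (leaf 5 396 492) (node 525 (merge (leaf 7 396 428) (leaf 5 428 556))))))) (merge (node 525 (merge (leaf 7 396 428) (node 558 (merge (leaf 4 429 526) (node 557 (merge (leaf 4 461 590) (node 556 (merge (leaf 5 428 524) (leaf 5 460 588))))))))) (node 397 (merge (leaf 7 364 364) (node 430 (merge (leaf 3 396 431) (node 492 (merge (leaf 5 396 524) (node 365 (merge (leaf 5 364 460) (node 462 (merge (leaf 4 333 333) (leaf 4 365 494))))))))))))))) (node 430 (merge (node 401 (merge (leaf 6 400 433) (node 400 (merge (leaf 6 368 369) (leaf 2 397 431))))) (merge (node 431 (merge (leaf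 1 428 460) (node 397 (merge (leaf 3 396 396) (node 494 (merge (leaf 4 397 526) (node 365 (merge (leaf 4 365 462) (node 398 (merge (leaf 6 365 366) (node 333 (merge (leaf 4 301 301) (node 332 (merge (leaf 7 300 300) (leaf 7 332 364))))))))))))))) (node 433 (merge (leaf 6 400 401) (node 397 (merge (node 494 (merge (leaf 4 397 526) (node 365 (merge (leaf 4 365 462) (node 492 (merge (leaf 5 364 460) (leaf 5 396 524))))))) (merge (node 366 (merge (leaf 6 365 398) (node 365 (merge (leaf 6 333 334) (node 462 (merge (leaf 4 333 333) (leaf 4 365 494))))))) (merge (node 492 (merge (leaf 5 396 524) (node 365 (merge (leaf 5 364 460) (node 462 (merge (leaf 4 333 333) (leaf 4 365 494))))))) (node 492 (merge (leaf 5 396 524) (node 398 (merge (leaf 6 365 366) (node 396 (merge (leaf 7 364 364) (node 395 (merge (leaf 0 394 394) (node 427 (merge (leaf 1 394 426) (node 363 (merge (leaf 3 362 362) (node 460 (merge (leaf 7 363 428) (leaf 4 363 459)))))))))))))))))))))))))))))) (merge (node 560 (merge (node 463 (merge (leaf 7 431 431) (node 462 (merge (leaf 1 460 492) (leaf 0 461 497)))))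 (merge (node 557 (merge (node 559 (merge (leaf 5 463 591) (node 558 (merge (leaf 2 525 529) (node 525 (merge (leaf 3 524 524) (leaf 4 461 590))))))) (merge (node 525 (merge (node 428 (merge (leaf 7 428 460) (node 430 (merge (leaf 6 429 462) (node 429 (merge (leaf 7 396 396) (leaf 6 397 398))))))) (merge (node 588 (merge (leaf 5 460 556) (node 589 (merge (leaf 5 492 620) (node 462 (merge (leaf 6 429 430) (leaf 6 461 494))))))) (node 588 (merge (leaf 5 460 556) (node 589 (merge (leaf 5 492 620) (node 460 (merge (leaf 7 428 428) (leaf 7 460 492)))))))))) (node 559 (merge (leaf 5 463 591) (node 558 (merge (leaf 2 525 529) (node 588 (merge (leaf 1 556 589) (node 556 (merge (leaf 1 555 587) (node 524 (merge (leaf 3 523 523) (node 492 (merge (leaf 6 460 493) (node 460 (merge (leaf 6 428 429) (node 459 (merge (leaf 7 427 427) (leaf 7 459 491)))))))))))))))))))) (merge (node 591 (merge (leaf 5 463 559) (node 592 (merge (leaf 5 495 623) (node 463 (merge (leaf 7 431 431) (node 497 (merge (leaf 0 461 462) (node 529 (merge (leaf 4 400 400) (leaf 6 496 624))))))))))) (node 429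 (merge (node 591 (merge (leaf 5 463 559) (node 431 (merge (leaf 7 431 463) (node 430 (merge (leaf 1 428 460) (node 396 (merge (leaf 3 396 397) (node 525 (merge (leaf 6 397 398) (leaf 7 396 428))))))))))) (merge (node 525 (merge (node 558 (merge (leaf 4 429 526) (node 557 (merge (leaf 4 461 590) (node 428 (merge (leaf 7 396 396) (leaf 7 428 460))))))) (merge (node 556 (merge (leaf 5 428 524) (node 557 (merge (leaf 5 460 588) (node 428 (merge (leaf 7 396 396) (leaf 7 428 460))))))) (node 526 (merge (leaf 4 429 558) (node 397 (merge (leaf 4 397 494) (node 524 (merge (leaf 5 396 492) (leaf 5 428 556)))))))))) (merge (node 431 (merge (leaf 7 431 463) (node 430 (merge (leaf 1 428 460) (node 525 (merge (leaf 6 397 398) (node 558 (merge (leaf 4 429 526) (node 557 (merge (leaf 4 461 590) (node 524 (merge (leaf 5 428 556) (leaf 3 524 559))))))))))))) (merge (node 431 (merge (leaf 7 431 463) (node 430 (merge (leaf 1 428 460) (node 525 (merge (leaf 6 397 398) (node 526 (merge (leaf 4 429 558) (node 397 (merge (leaf 4 397 494) (node 524 (merge (leaf 5 396 492) (leaf 5 428 556)))))))))))))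 (merge (node 397 (merge (node 396 (merge (leaf 7 364 364) (node 431 (merge (leaf 3 396 430) (leaf 7 431 463))))) (merge (node 524 (merge (leaf 5 396 492) (node 525 (merge (leaf 5 428 556) (node 398 (merge (leaf 6 365 366) (leaf 6 397 430))))))) (node 524 (merge (leaf 5 396 492) (node 525 (merge (leaf 5 428 556) (node 396 (merge (leaf 7 364 364) (leaf 7 396 428)))))))))) (merge (node 592 (merge (node 591 (merge (leaf 5 463 559) (leaf 5 495 623))) (node 593 (merge (leaf 4 496 625) (node 397 (merge (node 396 (merge (leaf 7 364 364) (node 431 (merge (leaf 3 396 430) (leaf 7 431 463))))) (merge (node 492 (merge (leaf 5 396 524) (node 365 (merge (leaf 5 364 460) (node 366 (merge (leaf 6 333 334) (leaf 6 365 398))))))) (node 492 (merge (leaf 5 396 524) (node 460 (merge (leaf 5 364 365) (node 431 (merge (leaf 1 428 430) (leaf 7 431 463)))))))))))))) (node 431 (merge (leaf 7 431 463) (node 430 (merge (leaf 1 428 460) (node 400 (merge (leaf 2 397 401) (node 397 (merge (leaf 3 396 396) (node 526 (merge (leaf 4 397 494) (node 529 (merge (leaf 4 400 497) (node 558 (merge (leaf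 4 429 525) (node 559 (merge (leaf 2 525 557) (leaf 5 463 591)))))))))))))))))))))))))))) (merge (hyp 0) (merge (node 429 (merge (node 463 (merge (node 462 (merge (leaf 1 460 492) (leaf 0 461 497))) (node 431 (merge (leaf 7 431 560) (node 430 (merge (leaf 0 428 428) (leaf 1 428 460))))))) (merge (node 401 (merge (leaf 6 400 433) (node 400 (merge (leaf 6 368 369) (node 431 (merge (leaf 2 397 430) (node 497 (merge (leaf 4 400 529) (node 463 (merge (leaf 0 461 462) (leaf 7 431 560))))))))))) (merge (node 430 (merge (node 401 (merge (leaf 6 400 433) (node 400 (merge (leaf 6 368 369) (leaf 2 397 431))))) (merge (node 431 (merge (leaf 1 428 460) (node 397 (merge (leaf 3 396 396) (node 494 (merge (leaf 4 397 526) (node 365 (merge (leaf 4 365 462) (node 398 (merge (leaf 6 365 366) (node 333 (merge (leaf 4 301 301) (node 332 (merge (leaf 7 300 300) (leaf 7 332 364))))))))))))))) (node 433 (merge (leaf 6 400 401) (node 397 (merge (node 494 (merge (leaf 4 397 526) (node 365 (merge (leaf 4 365 462) (node 492 (merge (leaf 5 364 460) (leaf 5 396 524))))))) (merge (node 366 (merge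 (leaf 6 365 398) (node 365 (merge (leaf 6 333 334) (node 462 (merge (leaf 4 333 333) (leaf 4 365 494))))))) (merge (node 492 (merge (leaf 5 396 524) (node 365 (merge (leaf 5 364 460) (node 462 (merge (leaf 4 333 333) (leaf 4 365 494))))))) (node 492 (merge (leaf 5 396 524) (node 398 (merge (leaf 6 365 366) (node 396 (merge (leaf 7 364 364) (node 395 (merge (leaf 0 394 394) (node 427 (merge (leaf 1 394 426) (node 363 (merge (leaf 3 362 362) (node 460 (merge (leaf 7 363 428) (leaf 4 363 459)))))))))))))))))))))))) (merge (node 366 (merge (node 398 (merge (leaf 6 365 397) (node 430 (merge (leaf 5 333 334) (node 431 (merge (leaf 1 428 460) (node 401 (merge (leaf 2 397 400) (leaf 6 400 433))))))))) (merge (node 397 (merge (leaf 6 365 398) (node 492 (merge (leaf 5 396 524) (node 365 (merge (leaf 6 333 334) (leaf 5 364 460))))))) (merge (node 369 (merge (node 401 (merge (leaf 6 368 400) (leaf 6 400 433))) (node 397 (merge (leaf 6 365 398) (node 492 (merge (leaf 5 396 524) (node 365 (merge (leaf 6 333 334) (leaf 5 364 460))))))))) (node 401 (merge (leaf 6 400 433) (node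 400 (merge (leaf 6 368 369) (node 431 (merge (leaf 2 397 430) (node 463 (merge (leaf 7 431 560) (node 368 (merge (leaf 5 335 336) (node 367 (merge (leaf 7 335 335) (leaf 0 365 365))))))))))))))))) (merge (node 369 (merge (node 401 (merge (leaf 6 368 400) (leaf 6 400 433))) (merge (node 462 (merge (node 463 (merge (leaf 2 429 433) (leaf 1 460 492))) (merge (node 463 (merge (leaf 3 428 428) (leaf 0 461 497))) (node 397 (merge (node 494 (merge (leaf 4 365 365) (leaf 4 397 526))) (merge (node 365 (merge (leaf 4 365 494) (node 492 (merge (leaf 5 364 460) (node 493 (merge (leaf 5 396 524) (node 366 (merge (leaf 6 333 334) (leaf 6 365 398))))))))) (merge (node 492 (merge (leaf 5 396 524) (node 365 (merge (leaf 5 364 460) (node 366 (merge (leaf 6 333 334) (leaf 6 365 398))))))) (node 494 (merge (leaf 4 397 526) (node 492 (merge (leaf 5 396 524) (node 491 (merge (leaf 2 458 490) (node 523 (merge (leaf 1 490 522) (node 459 (merge (leaf 3 458 458) (node 396 (merge (leaf 7 364 364) (node 428 (merge (leaf 6 395 427) (leaf 5 395 460)))))))))))))))))))))) (node 400 (merge (leaf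 6 368 401) (node 368 (merge (leaf 6 336 337) (node 335 (merge (leaf 7 335 367) (node 336 (merge (leaf 7 303 303) (node 463 (merge (leaf 5 335 431) (node 462 (merge (leaf 3 428 428) (leaf 1 460 492)))))))))))))))) (node 462 (merge (node 463 (merge (leaf 2 429 433) (leaf 0 461 497))) (node 397 (merge (node 494 (merge (leaf 4 365 365) (leaf 4 397 526))) (merge (node 365 (merge (leaf 4 365 494) (node 492 (merge (leaf 5 364 460) (leaf 5 396 524))))) (merge (node 494 (merge (leaf 4 397 526) (node 365 (merge (leaf 4 365 462) (node 492 (merge (leaf 5 364 460) (leaf 5 396 524))))))) (merge (node 494 (merge (leaf 4 397 526) (node 492 (merge (leaf 5 396 524) (node 491 (merge (leaf 2 458 490) (node 523 (merge (leaf 1 490 522) (node 459 (merge (leaf 3 458 458) (node 396 (merge (leaf 7 364 364) (node 428 (merge (leaf 6 395 427) (leaf 5 395 460))))))))))))))) (node 492 (merge (leaf 5 396 524) (node 365 (merge (leaf 5 364 460) (node 366 (merge (leaf 6 333 334) (leaf 6 365 398)))))))))))))))))))) (hyp 1))))))))))) nQ_59 cQ_59 13 (by decide +kernel)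
def nQ_60 : ℕ := 0x1000000010000000100000001000000000000000000000000000000000000000000000000000000000000000000000000000000000000000000000000000000000000
def cQ_60 : ℕ := 0x210000003f0000003f8000001ff000002fe00000e7e000000ff000002fe0000037c000003fc000003f0000000f000000000000000000000000000000000000000000000000000000000000000000000000000
theorem lQ_60 : S nQ_60 cQ_60 14 := S_of_chk [(nQ_56, cQ_56, 13), (nQ_59, cQ_59, 13)] ⟨lQ_56, lQ_59, trivial⟩ (node 461 (merge (node 559 (merge (leaf 5 431 527) (node 560 (merge (leaf 5 463 591) (node 433 (merge (leaf 6 400 401) (node 463 (merge (leaf 7 431 431) (leaf 2 429 462))))))))) (merge (node 497 (merge (node 400 (merge (leaf 4 400 529) (node 401 (merge (leaf 6 368 369) (leaf 6 400 433))))) (merge (node 527 (merge (leaf 5 431 559) (node 526 (merge (leaf 2 493 525) (node 498 (merge (leaf 1 495 499) (leaf 2 494 529))))))) (node 462 (merge (leaf 0 461 463) (node 527 (merge (leaf 5 431 559) (node 525 (merge (leaf 2 493 526) (node 433 (merge (leaf 6 400 401) (node 430 (merge (leaf 1 429 431) (node 493 (merge (leaf 6 429 557) (node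 398 (merge (leaf 5 365 366) (leaf 5 397 494)))))))))))))))))) (merge (node 559 (merge (leaf 5 431 527) (node 560 (merge (leaf 5 463 591) (node 463 (merge (leaf 7 431 431) (node 462 (merge (leaf 0 461 497) (node 492 (merge (leaf 1 460 493) (node 460 (merge (leaf 1 459 491) (node 428 (merge (leaf 3 427 427) (leaf 3 428 429))))))))))))))) (merge (node 525 (merge (node 527 (merge (leaf 5 431 559) (node 497 (merge (leaf 2 493 526) (node 400 (merge (leaf 4 400 529) (node 401 (merge (leaf 6 368 369) (leaf 6 400 433))))))))) (merge (node 527 (merge (leaf 5 431 559) (node 526 (merge (leaf 2 493 497) (node 557 (merge (leaf 1 524 556) (node 493 (merge (leaf 3 492 492) (node 429 (merge (leaf 4 429 558) (node 428 (merge (leaf 7 396 396) (leaf 7 428 460))))))))))))) (merge (node 430 (merge (node 433 (merge (leaf 6 400 401) (node 462 (merge (leaf 1 429 431) (node 493 (merge (leaf 6 429 557) (node 398 (merge (leaf 5 365 366) (leaf 5 397 494))))))))) (merge (node 433 (merge (leaf 6 400 401) (node 431 (merge (leaf 1 429 462) (node 429 (merge (leaf 1 428 460) (node 397 (merge (leaf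 3 396 396) (leaf 3 397 398))))))))) (merge (node 433 (merge (leaf 6 400 401) (node 431 (merge (leaf 1 429 462) (node 429 (merge (leaf 1 428 460) (node 396 (merge (leaf 3 396 397) (node 428 (merge (leaf 3 395 395) (leaf 7 396 493))))))))))) (merge (node 493 (merge (node 429 (merge (leaf 6 397 398) (node 556 (merge (leaf 5 428 524) (node 557 (merge (leaf 6 429 462) (leaf 5 460 588))))))) (merge (node 429 (merge (leaf 6 397 398) (node 526 (merge (leaf 4 429 558) (node 397 (merge (leaf 4 397 494) (node 524 (merge (leaf 5 396 492) (leaf 5 428 556))))))))) (merge (node 557 (merge (leaf 6 429 462) (node 590 (merge (leaf 4 461 558) (node 589 (merge (leaf 4 493 622) (node 460 (merge (leaf 7 428 428) (leaf 7 460 492))))))))) (node 398 (merge (leaf 6 397 429) (node 462 (merge (leaf 5 365 366) (leaf 5 397 494))))))))) (node 401 (merge (leaf 6 400 433) (node 400 (merge (leaf 6 368 369) (node 429 (merge (leaf 2 397 431) (node 493 (merge (leaf 6 397 398) (node 556 (merge (leaf 5 428 524) (node 557 (merge (leaf 5 460 588) (node 428 (merge (leaf 7 396 396) (leaf 7 428 460))))))))))))))))))))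 (merge (node 557 (merge (node 559 (merge (leaf 5 431 527) (node 560 (merge (leaf 5 463 591) (node 558 (merge (leaf 3 524 524) (leaf 2 525 529))))))) (merge (node 430 (merge (node 433 (merge (leaf 6 400 401) (node 431 (merge (leaf 1 429 462) (node 429 (merge (leaf 1 428 460) (node 397 (merge (leaf 3 396 396) (leaf 3 397 398))))))))) (merge (node 433 (merge (leaf 6 400 401) (node 462 (merge (leaf 1 429 431) (node 493 (merge (leaf 6 429 557) (node 398 (merge (leaf 5 365 366) (leaf 5 397 494))))))))) (merge (node 493 (merge (leaf 6 429 462) (node 588 (merge (leaf 5 460 556) (node 589 (merge (leaf 5 492 620) (node 460 (merge (leaf 7 428 428) (leaf 7 460 492))))))))) (node 401 (merge (leaf 6 400 433) (node 400 (merge (leaf 6 368 369) (node 429 (merge (leaf 2 397 431) (node 493 (merge (leaf 6 397 398) (node 556 (merge (leaf 5 428 524) (node 557 (merge (leaf 5 460 588) (node 428 (merge (leaf 7 396 396) (leaf 7 428 460))))))))))))))))))) (node 560 (merge (node 559 (merge (leaf 5 431 527) (leaf 5 463 591))) (node 493 (merge (node 430 (merge (leaf 6 429 462) (node 429 (merge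 (leaf 6 397 398) (node 460 (merge (leaf 7 428 428) (leaf 1 428 431))))))) (merge (node 588 (merge (leaf 5 460 556) (node 589 (merge (leaf 5 492 620) (node 462 (merge (leaf 6 429 430) (leaf 6 461 494))))))) (node 588 (merge (leaf 5 460 556) (node 589 (merge (leaf 5 492 620) (node 460 (merge (leaf 7 428 428) (leaf 7 460 492))))))))))))))) (node 493 (merge (node 527 (merge (leaf 5 431 559) (node 526 (merge (leaf 3 492 492) (node 557 (merge (leaf 1 524 556) (node 529 (merge (leaf 3 493 494) (leaf 1 525 558))))))))) (merge (node 527 (merge (leaf 5 431 559) (node 526 (merge (leaf 3 492 492) (node 429 (merge (leaf 4 429 558) (node 430 (merge (leaf 6 397 398) (node 431 (merge (leaf 1 428 460) (node 433 (merge (leaf 6 400 401) (leaf 1 429 462))))))))))))) (merge (node 527 (merge (leaf 5 431 559) (node 526 (merge (leaf 3 492 492) (node 557 (merge (leaf 1 524 556) (node 430 (merge (leaf 6 429 462) (node 429 (merge (leaf 6 397 398) (node 460 (merge (leaf 7 428 428) (leaf 1 428 431))))))))))))) (merge (node 429 (merge (node 558 (merge (leaf 4 429 526) (node 557 (merge (leaf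 4 461 590) (node 428 (merge (leaf 7 396 396) (leaf 7 428 460))))))) (merge (node 556 (merge (leaf 5 428 524) (node 557 (merge (leaf 5 460 588) (node 428 (merge (leaf 7 396 396) (leaf 7 428 460))))))) (node 526 (merge (leaf 4 429 558) (node 397 (merge (leaf 4 397 494) (node 524 (merge (leaf 5 396 492) (leaf 5 428 556)))))))))) (node 557 (merge (node 588 (merge (leaf 5 460 556) (node 589 (merge (leaf 5 492 620) (node 462 (merge (leaf 6 429 430) (leaf 6 461 494))))))) (node 559 (merge (leaf 5 431 527) (node 560 (merge (leaf 5 463 591) (node 558 (merge (leaf 2 525 529) (node 525 (merge (leaf 3 524 524) (leaf 4 461 590))))))))))))))))))))) (merge (node 429 (merge (node 559 (merge (leaf 5 431 527) (node 560 (merge (leaf 5 463 591) (node 401 (merge (leaf 6 400 433) (node 400 (merge (leaf 6 368 369) (node 431 (merge (leaf 2 397 430) (leaf 7 431 463))))))))))) (merge (node 527 (merge (leaf 5 431 559) (node 401 (merge (leaf 6 400 433) (node 400 (merge (leaf 6 368 369) (node 430 (merge (leaf 2 397 431) (node 497 (merge (leaf 4 400 529) (node 525 (merge (leaf 2 493 526) (node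 493 (merge (leaf 6 397 398) (node 524 (merge (leaf 5 428 556) (node 397 (merge (leaf 5 396 492) (node 396 (merge (leaf 7 364 364) (leaf 7 396 428))))))))))))))))))))) (merge (node 559 (merge (leaf 5 431 527) (node 560 (merge (leaf 5 463 591) (node 431 (merge (leaf 7 431 463) (node 430 (merge (leaf 1 428 460) (node 397 (merge (leaf 3 396 396) (node 398 (merge (leaf 3 397 433) (node 493 (merge (leaf 6 365 366) (leaf 6 397 525))))))))))))))) (merge (node 525 (merge (node 527 (merge (leaf 5 431 559) (node 526 (merge (leaf 2 493 497) (node 493 (merge (leaf 3 492 492) (leaf 4 429 558))))))) (merge (node 527 (merge (leaf 5 431 559) (node 526 (merge (leaf 2 493 497) (node 556 (merge (leaf 1 524 557) (node 524 (merge (leaf 1 523 555) (node 492 (merge (leaf 6 428 460) (leaf 3 491 491))))))))))) (merge (node 493 (merge (node 558 (merge (leaf 4 429 526) (node 557 (merge (leaf 4 461 590) (node 428 (merge (leaf 7 396 396) (leaf 7 428 460))))))) (merge (node 556 (merge (leaf 5 428 524) (node 557 (merge (leaf 5 460 588) (node 428 (merge (leaf 7 396 396) (leaf 7 428 460))))))) (node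 526 (merge (leaf 4 429 558) (node 397 (merge (leaf 4 397 494) (node 524 (merge (leaf 5 396 492) (leaf 5 428 556)))))))))) (merge (node 527 (merge (leaf 5 431 559) (node 526 (merge (leaf 2 493 497) (node 557 (merge (leaf 1 524 556) (node 493 (merge (leaf 4 429 558) (node 428 (merge (leaf 7 396 396) (leaf 7 428 460))))))))))) (node 557 (merge (node 559 (merge (leaf 5 431 527) (node 560 (merge (leaf 5 463 591) (node 558 (merge (leaf 3 524 524) (leaf 2 525 529))))))) (merge (node 493 (merge (node 556 (merge (leaf 5 428 524) (leaf 5 460 588))) (node 590 (merge (leaf 4 461 558) (node 589 (merge (leaf 4 493 622) (node 460 (merge (leaf 7 428 428) (leaf 7 460 492))))))))) (merge (node 560 (merge (node 559 (merge (leaf 5 431 527) (leaf 5 463 591))) (node 493 (merge (node 556 (merge (leaf 5 428 524) (leaf 5 460 588))) (node 428 (merge (leaf 7 396 396) (leaf 7 428 460))))))) (node 559 (merge (leaf 5 431 527) (node 560 (merge (leaf 5 463 591) (node 558 (merge (leaf 2 525 529) (node 589 (merge (leaf 1 556 588) (node 493 (merge (leaf 4 461 590) (node 460 (merge (leaf 7 428 428)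 (leaf 7 460 492)))))))))))))))))))))) (merge (node 493 (merge (node 401 (merge (leaf 6 400 433) (node 400 (merge (leaf 6 368 369) (node 430 (merge (leaf 2 397 431) (node 525 (merge (leaf 6 397 398) (node 558 (merge (leaf 4 429 526) (node 557 (merge (leaf 4 461 590) (node 428 (merge (leaf 7 396 396) (leaf 7 428 460))))))))))))))) (merge (node 525 (merge (node 558 (merge (leaf 4 429 526) (node 557 (merge (leaf 4 461 590) (node 428 (merge (leaf 7 396 396) (leaf 7 428 460))))))) (merge (node 556 (merge (leaf 5 428 524) (node 557 (merge (leaf 5 460 588) (node 428 (merge (leaf 7 396 396) (leaf 7 428 460))))))) (node 526 (merge (leaf 4 429 558) (node 397 (merge (leaf 4 397 494) (node 524 (merge (leaf 5 396 492) (leaf 5 428 556)))))))))) (merge (node 401 (merge (leaf 6 400 433) (node 400 (merge (leaf 6 368 369) (node 430 (merge (leaf 2 397 431) (node 525 (merge (leaf 6 397 398) (node 526 (merge (leaf 4 429 558) (node 397 (merge (leaf 4 397 494) (node 524 (merge (leaf 5 396 492) (leaf 5 428 556))))))))))))))) (merge (node 397 (merge (node 526 (merge (leaf 4 397 494) (node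 525 (merge (leaf 4 429 558) (node 396 (merge (leaf 7 364 364) (leaf 7 396 428))))))) (merge (node 524 (merge (leaf 5 396 492) (node 525 (merge (leaf 5 428 556) (node 396 (merge (leaf 7 364 364) (leaf 7 396 428))))))) (node 492 (merge (leaf 5 396 524) (node 365 (merge (leaf 5 364 460) (node 366 (merge (leaf 6 333 334) (node 401 (merge (leaf 6 400 433) (node 400 (merge (leaf 6 368 369) (node 368 (merge (leaf 0 365 367) (node 431 (merge (leaf 2 397 430) (node 463 (merge (leaf 5 335 336) (leaf 7 431 560)))))))))))))))))))) (node 366 (merge (node 398 (merge (leaf 6 365 397) (node 430 (merge (leaf 5 333 334) (node 431 (merge (leaf 1 428 460) (node 401 (merge (leaf 2 397 400) (leaf 6 400 433))))))))) (merge (node 397 (merge (leaf 6 365 398) (node 492 (merge (leaf 5 396 524) (node 365 (merge (leaf 6 333 334) (leaf 5 364 460))))))) (merge (node 369 (merge (node 401 (merge (leaf 6 368 400) (leaf 6 400 433))) (node 397 (merge (leaf 6 365 398) (node 492 (merge (leaf 5 396 524) (node 365 (merge (leaf 6 333 334) (leaf 5 364 460))))))))) (node 401 (merge (leaf 6 400 433) (node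 400 (merge (leaf 6 368 369) (node 431 (merge (leaf 2 397 430) (node 463 (merge (leaf 7 431 560) (node 368 (merge (leaf 5 335 336) (node 367 (merge (leaf 7 335 335) (leaf 0 365 365)))))))))))))))))))))) (node 397 (merge (node 559 (merge (leaf 5 431 527) (node 560 (merge (leaf 5 463 591) (node 431 (merge (leaf 7 431 463) (node 430 (merge (leaf 3 396 396) (leaf 1 428 460))))))))) (merge (node 497 (merge (node 529 (merge (leaf 4 400 400) (node 527 (merge (leaf 5 431 559) (node 526 (merge (leaf 2 494 498) (leaf 2 493 525))))))) (merge (node 400 (merge (leaf 4 400 529) (node 369 (merge (leaf 6 368 401) (node 368 (merge (leaf 6 336 337) (node 367 (merge (leaf 7 335 335) (node 366 (merge (leaf 1 365 398) (node 365 (merge (leaf 6 333 334) (leaf 1 364 396))))))))))))) (node 527 (merge (leaf 5 431 559) (node 526 (merge (leaf 2 493 525) (node 493 (merge (leaf 4 397 494) (node 492 (merge (leaf 5 396 524) (node 365 (merge (leaf 5 364 460) (node 366 (merge (leaf 6 333 334) (leaf 6 365 398)))))))))))))))) (merge (node 493 (merge (node 524 (merge (leaf 5 396 492) (node 525 (merge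 (leaf 5 428 556) (node 398 (merge (leaf 6 365 366) (leaf 6 397 430))))))) (merge (node 526 (merge (leaf 4 397 494) (node 525 (merge (leaf 4 429 558) (node 396 (merge (leaf 7 364 364) (leaf 7 396 428))))))) (node 492 (merge (leaf 5 396 524) (node 365 (merge (leaf 5 364 460) (node 366 (merge (leaf 6 333 334) (leaf 6 365 398)))))))))) (merge (node 559 (merge (leaf 5 431 527) (node 560 (merge (leaf 5 463 591) (node 431 (merge (leaf 7 431 463) (node 396 (merge (leaf 3 396 430) (node 493 (merge (leaf 7 364 364) (node 524 (merge (leaf 5 396 492) (node 525 (merge (leaf 7 396 428) (leaf 5 428 556))))))))))))))) (node 559 (merge (leaf 5 431 527) (node 560 (merge (leaf 5 463 591) (node 431 (merge (leaf 7 431 463) (node 460 (merge (leaf 1 428 430) (node 365 (merge (leaf 5 364 492) (node 333 (merge (leaf 5 332 428) (node 334 (merge (leaf 6 301 302) (leaf 6 333 366)))))))))))))))))))))))))) (merge (node 525 (merge (node 527 (merge (leaf 5 431 559) (node 497 (merge (leaf 2 493 526) (node 400 (merge (leaf 4 400 529) (node 401 (merge (leaf 6 368 369) (leaf 6 400 433))))))))) (merge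 (node 527 (merge (leaf 5 431 559) (node 526 (merge (leaf 2 493 497) (node 556 (merge (leaf 1 524 557) (node 524 (merge (leaf 1 523 555) (node 492 (merge (leaf 3 491 491) (leaf 3 492 493))))))))))) (merge (node 529 (merge (node 400 (merge (leaf 4 400 497) (node 401 (merge (leaf 6 368 369) (leaf 6 400 433))))) (merge (node 559 (merge (leaf 5 431 527) (node 560 (merge (leaf 5 463 591) (node 557 (merge (leaf 2 525 558) (node 433 (merge (leaf 6 400 401) (node 462 (merge (leaf 2 429 463) (node 493 (merge (leaf 6 429 430) (node 589 (merge (leaf 6 461 494) (node 460 (merge (leaf 7 428 428) (leaf 7 460 492))))))))))))))))) (node 497 (merge (leaf 4 400 400) (node 462 (merge (leaf 0 461 463) (node 559 (merge (leaf 5 431 527) (node 560 (merge (leaf 5 463 591) (node 557 (merge (leaf 2 525 558) (node 493 (merge (leaf 6 429 430) (node 589 (merge (leaf 6 461 494) (node 460 (merge (leaf 7 428 428) (leaf 7 460 492)))))))))))))))))))) (merge (node 493 (merge (node 433 (merge (leaf 6 400 401) (node 462 (merge (leaf 2 429 463) (node 557 (merge (leaf 6 429 430) (node 588 (merge (leaf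 5 460 556) (node 589 (merge (leaf 6 461 494) (leaf 5 492 620))))))))))) (merge (node 527 (merge (leaf 5 431 559) (node 526 (merge (leaf 3 492 492) (node 557 (merge (leaf 1 524 556) (node 429 (merge (leaf 4 429 558) (node 428 (merge (leaf 7 396 396) (leaf 7 428 460))))))))))) (node 527 (merge (leaf 5 431 559) (node 526 (merge (leaf 3 492 492) (node 494 (merge (leaf 3 493 529) (node 429 (merge (leaf 4 397 397) (leaf 4 429 558)))))))))))) (node 493 (merge (node 433 (merge (leaf 6 400 401) (node 462 (merge (leaf 2 429 463) (node 557 (merge (leaf 6 429 430) (node 588 (merge (leaf 5 460 556) (node 589 (merge (leaf 6 461 494) (leaf 5 492 620))))))))))) (merge (node 433 (merge (leaf 6 400 401) (node 462 (merge (leaf 2 429 463) (node 557 (merge (leaf 6 429 430) (node 589 (merge (leaf 6 461 494) (node 460 (merge (leaf 7 428 428) (leaf 7 460 492))))))))))) (merge (node 433 (merge (leaf 6 400 401) (node 462 (merge (leaf 2 429 463) (node 557 (merge (leaf 6 429 430) (node 588 (merge (leaf 5 460 556) (node 589 (merge (leaf 5 492 620) (node 460 (merge (leaf 7 428 428) (leaf 7 460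 492))))))))))))) (merge (node 429 (merge (node 558 (merge (leaf 4 429 526) (node 557 (merge (leaf 4 461 590) (node 428 (merge (leaf 7 396 396) (leaf 7 428 460))))))) (merge (node 556 (merge (leaf 5 428 524) (node 557 (merge (leaf 5 460 588) (node 428 (merge (leaf 7 396 396) (leaf 7 428 460))))))) (node 526 (merge (leaf 4 429 558) (node 397 (merge (leaf 4 397 494) (node 524 (merge (leaf 5 396 492) (leaf 5 428 556)))))))))) (node 462 (merge (node 463 (merge (leaf 2 429 433) (leaf 0 461 497))) (merge (node 463 (merge (leaf 1 460 492) (leaf 0 461 497))) (node 369 (merge (node 401 (merge (leaf 6 368 400) (leaf 6 400 433))) (node 429 (merge (node 526 (merge (leaf 4 429 558) (node 397 (merge (leaf 4 397 494) (node 398 (merge (leaf 6 365 366) (leaf 6 397 430))))))) (merge (node 524 (merge (leaf 5 428 556) (node 397 (merge (leaf 5 396 492) (node 494 (merge (leaf 4 397 526) (node 365 (merge (leaf 4 365 462) (node 334 (merge (leaf 6 333 366) (node 333 (merge (leaf 6 301 302) (node 332 (merge (leaf 7 300 300) (leaf 7 332 364))))))))))))))) (node 524 (merge (leaf 5 428 556)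 (node 430 (merge (leaf 6 397 398) (node 428 (merge (leaf 7 396 396) (node 427 (merge (leaf 0 426 426) (node 459 (merge (leaf 1 426 458) (node 395 (merge (leaf 3 394 394) (node 492 (merge (leaf 7 395 460) (leaf 4 395 491))))))))))))))))))))))))))))))))) (merge (hyp 0) (hyp 1))))))))) nQ_60 cQ_60 14 (by decide +kernel)
def nQ_61 : ℕ := 0x1000000090000000100000001000000000000000000000000000000000000000000000000000000000000000000000000000000000000000000000000000000000000
def cQ_61 : ℕ := 0x40000001e800000ff8000007f8000007d8000007e800000760000007c8000007e0000003d0000001c0000001c000000140000000000000000000000000000000000000000000000000000000000000000000000000000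
theorem lQ_61 : S nQ_61 cQ_61 13 := S_of_chk [] trivial (node 531 (merge (node 527 (merge (leaf 5 431 559) (node 497 (merge (leaf 1 495 498) (node 529 (merge (leaf 4 400 400) (node 530 (merge (leaf 2 496 500) (leaf 3 496 532))))))))) (merge (node 527 (merge (leaf 5 431 559) (node 497 (merge (leaf 1 495 498) (node 529 (merge (leaf 4 400 400) (node 530 (merge (leaf 2 496 500) (node 563 (merge (leaf 0 527 562) (leaf 0 528 564))))))))))) (merge (node 527 (merge (leaf 5 431 559) (node 497 (merge (leaf 1 495 498) (node 529 (merge (leaf 4 400 400) (node 530 (merge (leaf 3 496 532) (node 563 (merge (leaf 0 527 562) (leaf 0 528 564))))))))))) (merge (node 530 (merge (node 559 (merge (leaf 5 431 527) (node 560 (merge (leaf 1 527 529) (leaf 5 463 591))))) (node 467 (merge (node 435 (merge (leaf 5 434 562) (node 434 (merge (leaf 7 402 402) (node 433 (merge (leaf 1 431 463) (leaf 0 432 468))))))) (merge (node 435 (merge (leaf 5 434 562) (node 564 (merge (leaf 4 435 532) (node 563 (merge (leaf 4 467 596) (node 436 (merge (leaf 6 403 404) (leaf 6 435 468))))))))) (merge (node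 435 (merge (node 434 (merge (leaf 7 402 402) (node 433 (merge (leaf 1 431 463) (leaf 0 432 468))))) (merge (node 564 (merge (leaf 4 435 532) (node 563 (merge (leaf 4 467 596) (node 436 (merge (leaf 6 403 404) (leaf 6 435 468))))))) (node 564 (merge (leaf 4 435 532) (node 563 (merge (leaf 4 467 596) (node 434 (merge (leaf 7 402 402) (leaf 7 434 466)))))))))) (merge (node 435 (merge (leaf 5 434 562) (node 564 (merge (leaf 4 435 532) (node 563 (merge (leaf 4 467 596) (node 434 (merge (leaf 7 402 402) (leaf 7 434 466))))))))) (node 563 (merge (node 594 (merge (leaf 5 466 562) (node 595 (merge (leaf 5 498 626) (node 466 (merge (leaf 7 434 434) (leaf 7 466 498))))))) (merge (node 594 (merge (leaf 5 466 562) (node 595 (merge (leaf 5 498 626) (node 468 (merge (leaf 6 435 436) (leaf 6 467 500))))))) (merge (node 596 (merge (leaf 4 467 564) (node 595 (merge (leaf 4 499 628) (node 468 (merge (leaf 6 435 436) (leaf 6 467 500))))))) (node 564 (merge (leaf 4 467 596) (node 565 (merge (leaf 3 530 566) (node 562 (merge (leaf 5 466 594) (node 597 (merge (leaf 0 562 598) (node 533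 (merge (leaf 2 530 534) (node 468 (merge (leaf 6 435 436) (node 500 (merge (leaf 7 468 501) (leaf 4 468 532)))))))))))))))))))))))))) (merge (node 563 (merge (node 527 (merge (leaf 5 431 559) (node 498 (merge (leaf 1 495 497) (node 595 (merge (leaf 7 466 466) (node 626 (merge (leaf 5 498 594) (node 627 (merge (leaf 7 498 530) (leaf 5 530 658))))))))))) (merge (node 527 (merge (leaf 5 431 559) (node 498 (merge (leaf 1 495 497) (node 595 (merge (leaf 7 466 466) (node 628 (merge (leaf 4 499 596) (node 627 (merge (leaf 4 531 660) (node 500 (merge (leaf 6 467 468) (leaf 6 499 532))))))))))))) (merge (node 560 (merge (node 559 (merge (leaf 5 431 527) (leaf 5 463 591))) (node 595 (merge (node 628 (merge (leaf 4 499 596) (node 627 (merge (leaf 4 531 660) (node 500 (merge (leaf 6 467 468) (leaf 6 499 532))))))) (merge (node 626 (merge (leaf 5 498 594) (node 627 (merge (leaf 5 530 658) (node 500 (merge (leaf 6 467 468) (leaf 6 499 532))))))) (node 596 (merge (leaf 4 499 628) (node 564 (merge (leaf 4 467 467) (node 594 (merge (leaf 5 498 626) (node 593 (merge (leaf 2 561 565)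 (leaf 2 560 592)))))))))))))) (merge (node 595 (merge (node 498 (merge (leaf 7 466 466) (node 497 (merge (leaf 3 463 463) (leaf 0 496 532))))) (merge (node 628 (merge (leaf 4 499 596) (node 627 (merge (leaf 4 531 660) (node 500 (merge (leaf 6 467 468) (leaf 6 499 532))))))) (node 596 (merge (leaf 4 499 628) (node 467 (merge (leaf 4 467 564) (node 594 (merge (leaf 5 466 562) (leaf 5 498 626)))))))))) (node 434 (merge (node 527 (merge (leaf 5 431 559) (node 498 (merge (leaf 1 495 497) (node 466 (merge (leaf 7 434 467) (leaf 4 434 530))))))) (merge (node 467 (merge (leaf 7 434 466) (node 436 (merge (leaf 6 435 468) (node 435 (merge (leaf 7 402 402) (leaf 6 403 404))))))) (merge (node 527 (merge (leaf 5 431 559) (node 498 (merge (leaf 1 495 497) (node 466 (merge (leaf 4 402 402) (leaf 4 434 530))))))) (node 435 (merge (node 467 (merge (leaf 7 402 402) (node 468 (merge (leaf 0 432 433) (leaf 6 435 436))))) (merge (node 467 (merge (leaf 7 402 402) (node 562 (merge (leaf 5 434 530) (leaf 5 466 594))))) (merge (node 433 (merge (leaf 1 431 463) (node 467 (merge (leaf 0 432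 468) (node 562 (merge (leaf 5 434 530) (leaf 5 466 594))))))) (node 433 (merge (leaf 1 431 463) (node 404 (merge (leaf 2 400 403) (node 436 (merge (leaf 2 401 405) (node 468 (merge (leaf 0 433 469) (leaf 5 403 500)))))))))))))))))))))) (merge (node 532 (merge (node 497 (merge (leaf 0 496 498) (node 529 (merge (leaf 4 400 400) (leaf 3 496 530))))) (merge (node 467 (merge (node 435 (merge (leaf 4 435 564) (node 434 (merge (leaf 7 402 402) (node 433 (merge (leaf 1 431 463) (leaf 0 432 468))))))) (merge (node 435 (merge (leaf 4 435 564) (node 562 (merge (leaf 5 434 530) (node 563 (merge (leaf 5 466 594) (node 436 (merge (leaf 6 403 404) (leaf 6 435 468))))))))) (merge (node 435 (merge (leaf 4 435 564) (node 562 (merge (leaf 5 434 530) (node 563 (merge (leaf 5 466 594) (node 434 (merge (leaf 7 402 402) (leaf 7 434 466))))))))) (merge (node 435 (merge (node 434 (merge (leaf 7 402 402) (node 433 (merge (leaf 1 431 463) (leaf 0 432 468))))) (merge (node 562 (merge (leaf 5 434 530) (node 563 (merge (leaf 5 466 594) (node 436 (merge (leaf 6 403 404) (leaf 6 435 468)))))))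 (node 562 (merge (leaf 5 434 530) (node 563 (merge (leaf 5 466 594) (node 434 (merge (leaf 7 402 402) (leaf 7 434 466)))))))))) (node 563 (merge (node 594 (merge (leaf 5 466 562) (node 595 (merge (leaf 5 498 626) (node 468 (merge (leaf 6 435 436) (leaf 6 467 500))))))) (merge (node 596 (merge (leaf 4 467 564) (node 595 (merge (leaf 4 499 628) (node 468 (merge (leaf 6 435 436) (leaf 6 467 500))))))) (merge (node 596 (merge (leaf 4 467 564) (node 595 (merge (leaf 4 499 628) (node 594 (merge (leaf 5 466 562) (leaf 5 498 626))))))) (merge (node 596 (merge (leaf 4 467 564) (node 595 (merge (leaf 4 499 628) (node 594 (merge (leaf 5 466 562) (leaf 5 498 626))))))) (node 564 (merge (leaf 4 467 596) (node 530 (merge (leaf 0 528 529) (node 565 (merge (leaf 3 530 566) (node 562 (merge (leaf 5 466 594) (node 597 (merge (leaf 0 562 598) (node 468 (merge (leaf 6 435 436) (leaf 4 468 500))))))))))))))))))))))) (merge (node 467 (merge (node 435 (merge (leaf 4 435 564) (node 434 (merge (leaf 7 402 402) (node 433 (merge (leaf 1 431 463) (leaf 0 432 468))))))) (merge (node 435 (merge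 (leaf 4 435 564) (node 403 (merge (leaf 4 403 500) (node 434 (merge (leaf 7 402 402) (node 433 (merge (leaf 2 400 404) (leaf 1 431 463))))))))) (merge (node 498 (merge (leaf 0 496 497) (node 435 (merge (leaf 4 435 564) (node 403 (merge (leaf 4 403 500) (node 466 (merge (leaf 5 370 371) (node 436 (merge (leaf 6 403 404) (node 563 (merge (leaf 6 435 468) (leaf 7 466 595))))))))))))) (merge (node 434 (merge (node 435 (merge (leaf 7 402 402) (node 433 (merge (leaf 1 431 463) (leaf 0 432 468))))) (merge (node 563 (merge (leaf 7 434 466) (node 594 (merge (leaf 5 466 562) (node 595 (merge (leaf 5 498 626) (node 468 (merge (leaf 6 435 436) (leaf 6 467 500))))))))) (merge (node 435 (merge (leaf 7 402 402) (node 403 (merge (leaf 4 403 500) (node 404 (merge (leaf 6 371 372) (leaf 2 400 433))))))) (node 435 (merge (leaf 7 402 402) (node 433 (merge (leaf 1 431 463) (leaf 0 432 468))))))))) (node 563 (merge (node 594 (merge (leaf 5 466 562) (node 595 (merge (leaf 5 498 626) (node 466 (merge (leaf 7 434 434) (leaf 7 466 498))))))) (merge (node 594 (merge (leaf 5 466 562) (node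 595 (merge (leaf 5 498 626) (node 468 (merge (leaf 6 435 436) (leaf 6 467 500))))))) (node 498 (merge (leaf 0 496 497) (node 564 (merge (leaf 4 467 596) (node 468 (merge (leaf 6 435 436) (node 469 (merge (leaf 1 466 470) (node 437 (merge (leaf 6 436 500) (node 466 (merge (leaf 7 434 434) (leaf 2 434 438))))))))))))))))))))) (node 563 (merge (node 498 (merge (leaf 0 496 497) (node 595 (merge (leaf 7 466 466) (node 626 (merge (leaf 5 498 594) (node 627 (merge (leaf 6 499 500) (leaf 5 530 658))))))))) (merge (node 498 (merge (leaf 0 496 497) (node 595 (merge (leaf 7 466 466) (node 627 (merge (leaf 7 498 530) (node 658 (merge (leaf 5 530 626) (node 659 (merge (leaf 6 531 564) (leaf 5 562 690))))))))))) (merge (node 467 (merge (node 594 (merge (leaf 5 466 562) (node 595 (merge (leaf 5 498 626) (node 468 (merge (leaf 6 435 436) (leaf 6 467 500))))))) (merge (node 596 (merge (leaf 4 467 564) (node 595 (merge (leaf 4 499 628) (node 468 (merge (leaf 6 435 436) (leaf 6 467 500))))))) (merge (node 564 (merge (leaf 4 467 596) (node 435 (merge (leaf 4 435 532) (node 562 (merge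 (leaf 5 434 530) (leaf 5 466 594))))))) (node 562 (merge (leaf 5 466 594) (node 435 (merge (leaf 5 434 530) (node 434 (merge (leaf 7 402 402) (leaf 7 434 466))))))))))) (merge (node 595 (merge (node 627 (merge (leaf 6 499 500) (node 659 (merge (leaf 6 531 564) (node 530 (merge (leaf 7 498 498) (leaf 7 530 562))))))) (merge (node 628 (merge (leaf 4 499 596) (node 627 (merge (leaf 4 531 660) (node 500 (merge (leaf 6 467 468) (leaf 6 499 532))))))) (node 594 (merge (leaf 5 498 626) (node 467 (merge (leaf 5 466 562) (node 564 (merge (leaf 4 435 435) (leaf 4 467 596)))))))))) (node 467 (merge (node 435 (merge (leaf 4 435 564) (node 562 (merge (leaf 5 434 530) (node 563 (merge (leaf 5 466 594) (node 436 (merge (leaf 6 403 404) (leaf 6 435 468))))))))) (merge (node 435 (merge (leaf 4 435 564) (node 562 (merge (leaf 5 434 530) (node 563 (merge (leaf 5 466 594) (node 434 (merge (leaf 7 402 402) (leaf 7 434 466))))))))) (merge (node 498 (merge (leaf 0 496 497) (node 562 (merge (leaf 5 466 594) (node 435 (merge (leaf 5 434 530) (node 403 (merge (leaf 4 403 500) (node 466 (merge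 (leaf 5 370 371) (leaf 7 434 434))))))))))) (node 498 (merge (leaf 0 496 497) (node 564 (merge (leaf 4 467 596) (node 468 (merge (leaf 6 435 436) (node 469 (merge (leaf 1 466 470) (node 437 (merge (leaf 6 436 500) (node 466 (merge (leaf 7 434 434) (leaf 2 434 438)))))))))))))))))))))))))) (merge (node 560 (merge (node 559 (merge (leaf 5 431 527) (leaf 5 463 591))) (merge (node 591 (merge (leaf 5 463 559) (node 592 (merge (leaf 5 495 623) (node 625 (merge (leaf 4 496 593) (node 624 (merge (leaf 4 528 657) (node 497 (merge (leaf 6 496 529) (node 498 (merge (leaf 3 463 463) (leaf 0 496 532))))))))))))) (node 467 (merge (node 435 (merge (node 434 (merge (leaf 7 402 402) (node 433 (merge (leaf 1 431 463) (leaf 0 432 468))))) (node 532 (merge (leaf 4 435 564) (node 498 (merge (leaf 0 496 497) (node 403 (merge (leaf 4 403 500) (node 371 (merge (leaf 5 370 466) (node 340 (merge (leaf 6 339 372) (node 339 (merge (leaf 6 307 308) (node 338 (merge (leaf 7 306 306) (leaf 7 338 370))))))))))))))))) (merge (node 435 (merge (node 404 (merge (leaf 6 403 436) (node 403 (merge (leaf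 6 371 372) (node 402 (merge (leaf 7 370 370) (leaf 7 402 434))))))) (merge (node 564 (merge (leaf 4 435 532) (node 563 (merge (leaf 4 467 596) (node 434 (merge (leaf 7 402 402) (leaf 7 434 466))))))) (merge (node 532 (merge (leaf 4 435 564) (node 498 (merge (leaf 0 496 497) (node 403 (merge (leaf 4 403 500) (node 371 (merge (leaf 5 370 466) (node 372 (merge (leaf 6 339 340) (leaf 6 371 404))))))))))) (node 532 (merge (leaf 4 435 564) (node 498 (merge (leaf 0 496 497) (node 403 (merge (leaf 4 403 500) (node 466 (merge (leaf 5 370 371) (node 563 (merge (leaf 7 434 434) (leaf 7 466 595))))))))))))))) (merge (node 563 (merge (node 436 (merge (leaf 6 435 468) (node 435 (merge (leaf 6 403 404) (node 434 (merge (leaf 7 402 402) (leaf 7 434 466))))))) (node 596 (merge (leaf 4 467 564) (node 595 (merge (leaf 4 499 628) (node 594 (merge (leaf 5 466 562) (leaf 5 498 626))))))))) (merge (node 435 (merge (node 564 (merge (leaf 4 435 532) (node 563 (merge (leaf 4 467 596) (node 436 (merge (leaf 6 403 404) (leaf 6 435 468))))))) (merge (node 532 (merge (leaf 4 435 564) (node 498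 (merge (leaf 0 496 497) (node 403 (merge (leaf 4 403 500) (node 371 (merge (leaf 5 370 466) (node 340 (merge (leaf 6 339 372) (node 339 (merge (leaf 6 307 308) (node 338 (merge (leaf 7 306 306) (leaf 7 338 370))))))))))))))) (merge (node 436 (merge (leaf 6 403 404) (node 563 (merge (leaf 6 435 468) (node 594 (merge (leaf 5 466 562) (node 595 (merge (leaf 5 498 626) (node 498 (merge (leaf 7 466 466) (node 497 (merge (leaf 1 495 527) (leaf 0 496 532))))))))))))) (node 436 (merge (leaf 6 403 404) (node 563 (merge (leaf 6 435 468) (node 596 (merge (leaf 4 467 564) (node 595 (merge (leaf 4 499 628) (node 498 (merge (leaf 7 466 466) (node 497 (merge (leaf 3 463 463) (leaf 1 495 527))))))))))))))))) (merge (node 435 (merge (node 404 (merge (leaf 6 403 436) (node 403 (merge (leaf 6 371 372) (node 402 (merge (leaf 7 370 370) (leaf 7 402 434))))))) (merge (node 436 (merge (leaf 6 403 404) (node 563 (merge (leaf 6 435 468) (node 594 (merge (leaf 5 466 562) (node 595 (merge (leaf 5 498 626) (node 498 (merge (leaf 7 466 466) (node 497 (merge (leaf 1 495 527) (leaf 0 496 532)))))))))))))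 (node 434 (merge (leaf 7 402 402) (node 563 (merge (leaf 7 434 466) (node 594 (merge (leaf 5 466 562) (node 595 (merge (leaf 5 498 626) (node 628 (merge (leaf 4 499 596) (node 627 (merge (leaf 4 531 660) (node 500 (merge (leaf 6 467 468) (leaf 6 499 532)))))))))))))))))) (merge (node 563 (merge (node 596 (merge (leaf 4 467 564) (node 595 (merge (leaf 4 499 628) (node 468 (merge (leaf 6 435 436) (leaf 6 467 500))))))) (merge (node 594 (merge (leaf 5 466 562) (node 595 (merge (leaf 5 498 626) (node 468 (merge (leaf 6 435 436) (leaf 6 467 500))))))) (merge (node 564 (merge (leaf 4 467 596) (node 435 (merge (leaf 4 435 532) (node 404 (merge (leaf 6 403 436) (node 403 (merge (leaf 6 371 372) (node 402 (merge (leaf 7 370 370) (leaf 7 402 434))))))))))) (node 595 (merge (node 628 (merge (leaf 4 499 596) (node 627 (merge (leaf 4 531 660) (node 500 (merge (leaf 6 467 468) (leaf 6 499 532))))))) (merge (node 626 (merge (leaf 5 498 594) (node 627 (merge (leaf 5 530 658) (node 500 (merge (leaf 6 467 468) (leaf 6 499 532))))))) (node 596 (merge (leaf 4 499 628) (node 564 (merge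 (leaf 4 467 467) (node 594 (merge (leaf 5 498 626) (node 593 (merge (leaf 2 561 565) (leaf 2 560 592)))))))))))))))) (node 563 (merge (node 594 (merge (leaf 5 466 562) (node 595 (merge (leaf 5 498 626) (node 466 (merge (leaf 7 434 434) (leaf 7 466 498))))))) (merge (node 594 (merge (leaf 5 466 562) (node 595 (merge (leaf 5 498 626) (node 468 (merge (leaf 6 435 436) (leaf 6 467 500))))))) (node 564 (merge (leaf 4 467 596) (node 468 (merge (leaf 6 435 436) (node 498 (merge (leaf 2 464 497) (node 469 (merge (leaf 1 466 470) (node 466 (merge (leaf 7 434 434) (node 501 (merge (leaf 0 466 502) (node 437 (merge (leaf 2 434 438) (node 532 (merge (leaf 6 436 500) (leaf 5 436 533)))))))))))))))))))))))))))))) (node 563 (merge (node 560 (merge (node 559 (merge (leaf 5 431 527) (leaf 5 463 591))) (node 595 (merge (node 628 (merge (leaf 4 499 596) (node 627 (merge (leaf 4 531 660) (node 500 (merge (leaf 6 467 468) (leaf 6 499 532))))))) (merge (node 626 (merge (leaf 5 498 594) (node 627 (merge (leaf 5 530 658) (node 500 (merge (leaf 6 467 468) (leaf 6 499 532))))))) (node 596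 (merge (leaf 4 499 628) (node 564 (merge (leaf 4 467 467) (node 594 (merge (leaf 5 498 626) (node 593 (merge (leaf 2 561 565) (leaf 2 560 592)))))))))))))) (merge (node 559 (merge (leaf 5 431 527) (node 560 (merge (leaf 5 463 591) (node 529 (merge (leaf 1 527 530) (node 497 (merge (leaf 4 400 400) (node 592 (merge (leaf 6 496 624) (node 593 (merge (leaf 4 496 625) (node 595 (merge (leaf 3 559 594) (node 628 (merge (leaf 4 499 596) (node 627 (merge (leaf 4 531 660) (node 500 (merge (leaf 6 467 468) (leaf 6 499 532))))))))))))))))))))) (merge (node 467 (merge (node 594 (merge (leaf 5 466 562) (node 595 (merge (leaf 5 498 626) (node 468 (merge (leaf 6 435 436) (leaf 6 467 500))))))) (merge (node 596 (merge (leaf 4 467 564) (node 595 (merge (leaf 4 499 628) (node 468 (merge (leaf 6 435 436) (leaf 6 467 500))))))) (merge (node 564 (merge (leaf 4 467 596) (node 435 (merge (leaf 4 435 532) (node 562 (merge (leaf 5 434 530) (leaf 5 466 594))))))) (node 562 (merge (leaf 5 466 594) (node 435 (merge (leaf 5 434 530) (node 532 (merge (leaf 4 435 564) (node 403 (merge (leaf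 4 403 500) (node 434 (merge (leaf 7 402 402) (node 433 (merge (leaf 2 400 404) (leaf 1 431 463))))))))))))))))) (merge (node 467 (merge (node 594 (merge (leaf 5 466 562) (node 595 (merge (leaf 5 498 626) (node 468 (merge (leaf 6 435 436) (leaf 6 467 500))))))) (merge (node 559 (merge (leaf 5 431 527) (node 560 (merge (leaf 5 463 591) (node 530 (merge (leaf 1 527 529) (node 435 (merge (leaf 5 434 562) (node 434 (merge (leaf 7 402 402) (node 433 (merge (leaf 1 431 463) (leaf 0 432 468))))))))))))) (merge (node 559 (merge (leaf 5 431 527) (node 560 (merge (leaf 5 463 591) (node 529 (merge (leaf 1 527 530) (node 497 (merge (leaf 4 400 400) (node 468 (merge (leaf 6 435 436) (node 595 (merge (leaf 6 467 500) (node 594 (merge (leaf 5 498 626) (node 592 (merge (leaf 3 559 593) (leaf 6 496 624))))))))))))))))) (node 562 (merge (leaf 5 466 594) (node 435 (merge (leaf 5 434 530) (node 532 (merge (leaf 4 435 564) (node 403 (merge (leaf 4 403 500) (node 434 (merge (leaf 7 402 402) (node 433 (merge (leaf 2 400 404) (leaf 1 431 463))))))))))))))))) (merge (node 467 (merge (node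 596 (merge (leaf 4 467 564) (node 595 (merge (leaf 4 499 628) (node 468 (merge (leaf 6 435 436) (leaf 6 467 500))))))) (merge (node 559 (merge (leaf 5 431 527) (node 560 (merge (leaf 5 463 591) (node 530 (merge (leaf 1 527 529) (node 435 (merge (leaf 5 434 562) (node 434 (merge (leaf 7 402 402) (node 433 (merge (leaf 1 431 463) (leaf 0 432 468))))))))))))) (merge (node 559 (merge (leaf 5 431 527) (node 560 (merge (leaf 5 463 591) (node 530 (merge (leaf 1 527 529) (node 435 (merge (leaf 5 434 562) (node 564 (merge (leaf 4 435 532) (node 563 (merge (leaf 4 467 596) (node 434 (merge (leaf 7 402 402) (leaf 7 434 466))))))))))))))) (node 559 (merge (leaf 5 431 527) (node 560 (merge (leaf 5 463 591) (node 530 (merge (leaf 1 527 529) (node 435 (merge (leaf 5 434 562) (node 564 (merge (leaf 4 435 532) (node 563 (merge (leaf 4 467 596) (node 436 (merge (leaf 6 403 404) (leaf 6 435 468))))))))))))))))))) (merge (node 560 (merge (node 559 (merge (leaf 5 431 527) (leaf 5 463 591))) (node 467 (merge (node 564 (merge (leaf 4 467 596) (node 435 (merge (leaf 4 435 532) (node 562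 (merge (leaf 5 434 530) (leaf 5 466 594))))))) (merge (node 564 (merge (leaf 4 467 596) (node 435 (merge (leaf 4 435 532) (node 436 (merge (leaf 6 403 404) (leaf 6 435 468))))))) (merge (node 562 (merge (leaf 5 466 594) (node 435 (merge (leaf 5 434 530) (node 436 (merge (leaf 6 403 404) (leaf 6 435 468))))))) (node 564 (merge (leaf 4 467 596) (node 530 (merge (leaf 0 528 529) (node 565 (merge (leaf 3 530 566) (node 562 (merge (leaf 5 466 594) (node 597 (merge (leaf 0 562 598) (node 533 (merge (leaf 2 530 534) (node 468 (merge (leaf 6 435 436) (node 500 (merge (leaf 7 468 501) (leaf 4 468 532))))))))))))))))))))))) (merge (node 596 (merge (node 467 (merge (leaf 4 467 564) (node 595 (merge (leaf 4 499 628) (node 594 (merge (leaf 5 466 562) (leaf 5 498 626))))))) (merge (node 467 (merge (leaf 4 467 564) (node 527 (merge (leaf 5 431 559) (node 562 (merge (leaf 5 466 594) (node 530 (merge (leaf 5 434 435) (leaf 0 527 529))))))))) (merge (node 467 (merge (leaf 4 467 564) (node 559 (merge (leaf 5 431 527) (node 560 (merge (leaf 5 463 591) (node 530 (merge (leaf 1 527 529)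 (node 435 (merge (leaf 5 434 562) (node 436 (merge (leaf 6 403 404) (leaf 6 435 468))))))))))))) (merge (node 595 (merge (leaf 4 499 628) (node 559 (merge (leaf 5 431 527) (node 560 (merge (leaf 5 463 591) (node 529 (merge (leaf 1 527 530) (node 497 (merge (leaf 4 400 400) (node 594 (merge (leaf 5 498 626) (node 592 (merge (leaf 3 559 593) (leaf 6 496 624))))))))))))))) (merge (node 595 (merge (leaf 4 499 628) (node 559 (merge (leaf 5 431 527) (node 560 (merge (leaf 5 463 591) (node 529 (merge (leaf 1 527 530) (node 497 (merge (leaf 4 400 400) (node 594 (merge (leaf 5 498 626) (node 592 (merge (leaf 3 559 593) (leaf 6 496 624))))))))))))))) (node 595 (merge (leaf 4 499 628) (node 559 (merge (leaf 5 431 527) (node 560 (merge (leaf 5 463 591) (node 594 (merge (leaf 5 498 626) (node 593 (merge (leaf 3 559 592) (node 565 (merge (leaf 2 561 564) (node 597 (merge (leaf 2 562 566) (node 630 (merge (leaf 0 594 629) (node 598 (merge (leaf 3 562 562) (leaf 0 595 631))))))))))))))))))))))))) (node 560 (merge (node 559 (merge (leaf 5 431 527) (leaf 5 463 591))) (merge (node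 592 (merge (node 625 (merge (leaf 4 496 593) (node 624 (merge (leaf 4 528 657) (node 623 (merge (leaf 5 495 591) (leaf 5 527 655))))))) (merge (node 623 (merge (leaf 5 495 591) (node 624 (merge (leaf 5 527 655) (node 529 (merge (leaf 6 496 497) (node 530 (merge (leaf 2 496 500) (leaf 0 528 564))))))))) (merge (node 625 (merge (leaf 4 496 593) (node 624 (merge (leaf 4 528 657) (node 529 (merge (leaf 6 496 497) (node 530 (merge (leaf 2 496 500) (leaf 0 528 564))))))))) (node 593 (merge (leaf 4 496 625) (node 591 (merge (leaf 5 495 623) (node 594 (merge (leaf 2 559 562) (node 595 (merge (leaf 2 560 564) (leaf 5 498 626))))))))))))) (node 595 (merge (node 596 (merge (leaf 4 499 628) (node 564 (merge (leaf 4 467 467) (node 594 (merge (leaf 5 498 626) (node 593 (merge (leaf 2 561 565) (leaf 2 560 592))))))))) (merge (node 596 (merge (leaf 4 499 628) (node 467 (merge (leaf 4 467 564) (node 434 (merge (leaf 7 434 466) (node 435 (merge (leaf 7 402 402) (node 530 (merge (leaf 5 434 562) (node 500 (merge (leaf 2 496 529) (node 532 (merge (leaf 4 403 403) (leaf 6 499 627)))))))))))))))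 (merge (node 559 (merge (leaf 5 431 527) (node 529 (merge (leaf 1 527 530) (node 497 (merge (leaf 4 400 400) (node 594 (merge (leaf 5 498 626) (node 592 (merge (leaf 3 559 593) (leaf 6 496 624))))))))))) (node 628 (merge (leaf 4 499 596) (node 627 (merge (leaf 4 531 660) (node 626 (merge (leaf 5 498 594) (leaf 5 530 658)))))))))))))))))))))))))))))) nQ_61 cQ_61 13 (by decide +kernel)
def nQ_62 : ℕ := 0x1000000010000000100000001000000000000000000000000000000000000000000000000000000000000000000000000000000000000000000000000000000000000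
def cQ_62 : ℕ := 0x40000001e800000ff8000007f8000007d8000007e8000007e0000007c8000007e0000007f8000007f8000001e8000001c0000000000000000000000000000000000000000000000000000000000000000000000000000
theorem lQ_62 : S nQ_62 cQ_62 14 := S_of_chk [(nQ_61, cQ_61, 13)] ⟨lQ_61, trivial⟩ (node 499 (merge (node 527 (merge (leaf 5 431 559) (node 497 (merge (leaf 1 495 498) (node 400 (merge (leaf 4 400 529) (node 369 (merge (leaf 6 368 401) (node 368 (merge (leaf 6 336 337) (node 367 (merge (leaf 7 335 335) (leaf 7 367 399))))))))))))) (merge (node 401 (merge (leaf 6 400 433) (node 400 (merge (leaf 6 368 369) (node 497 (merge (leaf 4 400 529) (node 498 (merge (leaf 3 463 463) (node 532 (merge (leaf 0 496 531) (node 500 (merge (leaf 0 497 533) (node 468 (merge (leaf 2 464 467) (leaf 2 465 469))))))))))))))) (merge (node 435 (merge (node 527 (merge (leaf 5 431 559) (node 498 (merge (leaf 1 495 497) (node 530 (merge (leaf 2 495 529) (node 467 (merge (leaf 5 402 403) (node 562 (merge (leaf 5 434 531) (leaf 6 466 594))))))))))) (merge (node 433 (merge (leaf 6 400 401) (node 434 (merge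 (leaf 1 431 463) (node 467 (merge (leaf 0 432 468) (node 531 (merge (leaf 7 402 402) (node 562 (merge (leaf 5 434 530) (node 563 (merge (leaf 7 434 466) (leaf 5 466 594))))))))))))) (merge (node 527 (merge (leaf 5 431 559) (node 498 (merge (leaf 1 495 497) (node 530 (merge (leaf 2 495 529) (node 433 (merge (leaf 6 400 401) (node 434 (merge (leaf 1 431 463) (node 403 (merge (leaf 2 400 404) (leaf 6 402 466))))))))))))) (node 433 (merge (leaf 6 400 401) (node 434 (merge (leaf 1 431 463) (node 467 (merge (leaf 0 432 468) (node 531 (merge (leaf 7 402 402) (node 564 (merge (leaf 4 435 532) (node 563 (merge (leaf 7 434 466) (leaf 4 467 596))))))))))))))))) (merge (node 435 (merge (node 401 (merge (leaf 6 400 433) (node 400 (merge (leaf 6 368 369) (node 399 (merge (leaf 7 367 367) (node 402 (merge (leaf 0 399 434) (node 403 (merge (leaf 0 400 436) (node 371 (merge (leaf 2 367 370) (leaf 2 368 372))))))))))))) (merge (node 433 (merge (leaf 6 400 401) (node 434 (merge (leaf 1 431 463) (node 467 (merge (leaf 0 432 468) (node 531 (merge (leaf 7 402 402) (node 562 (merge (leaf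 5 434 530) (node 563 (merge (leaf 7 434 466) (leaf 5 466 594))))))))))))) (merge (node 433 (merge (leaf 6 400 401) (node 434 (merge (leaf 1 431 463) (node 467 (merge (leaf 0 432 468) (node 403 (merge (leaf 2 400 404) (node 532 (merge (leaf 4 403 500) (node 531 (merge (leaf 4 435 564) (node 498 (merge (leaf 5 402 530) (node 466 (merge (leaf 5 370 371) (leaf 7 434 563))))))))))))))))) (merge (node 530 (merge (node 527 (merge (leaf 5 431 559) (node 498 (merge (leaf 2 495 529) (node 467 (merge (leaf 5 402 403) (node 562 (merge (leaf 6 434 466) (leaf 6 466 594))))))))) (merge (node 527 (merge (leaf 5 431 559) (node 529 (merge (leaf 2 495 498) (node 563 (merge (leaf 0 527 562) (node 531 (merge (leaf 2 496 500) (leaf 0 528 564))))))))) (merge (node 467 (merge (node 531 (merge (leaf 5 434 562) (node 564 (merge (leaf 4 435 532) (node 563 (merge (leaf 4 467 596) (node 434 (merge (leaf 7 402 402) (leaf 7 434 466))))))))) (merge (node 531 (merge (leaf 5 434 562) (node 564 (merge (leaf 4 435 532) (node 563 (merge (leaf 4 467 596) (node 436 (merge (leaf 6 403 404) (leaf 6 435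 468))))))))) (node 403 (merge (leaf 5 402 498) (node 372 (merge (leaf 6 371 404) (node 371 (merge (leaf 6 339 340) (node 370 (merge (leaf 7 338 338) (leaf 7 370 402)))))))))))) (merge (node 527 (merge (leaf 5 431 559) (node 529 (merge (leaf 2 495 498) (node 531 (merge (leaf 2 496 500) (node 564 (merge (leaf 0 528 563) (node 467 (merge (leaf 4 435 532) (node 404 (merge (leaf 6 403 436) (node 403 (merge (leaf 6 371 372) (node 402 (merge (leaf 7 370 370) (leaf 7 402 434))))))))))))))))) (node 559 (merge (leaf 5 431 527) (node 560 (merge (leaf 5 463 591) (node 531 (merge (leaf 1 527 529) (node 467 (merge (leaf 5 434 562) (node 564 (merge (leaf 4 435 532) (node 563 (merge (leaf 4 467 596) (node 434 (merge (leaf 7 402 402) (leaf 7 434 466)))))))))))))))))))) (node 530 (merge (node 527 (merge (leaf 5 431 559) (node 529 (merge (leaf 2 495 498) (node 563 (merge (leaf 0 527 562) (node 531 (merge (leaf 2 496 500) (leaf 0 528 564))))))))) (merge (node 401 (merge (leaf 6 400 433) (node 400 (merge (leaf 6 368 369) (node 367 (merge (leaf 7 367 399) (node 368 (merge (leaf 7 335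 335) (node 403 (merge (leaf 3 367 402) (node 467 (merge (leaf 5 402 498) (node 500 (merge (leaf 4 403 532) (node 371 (merge (leaf 4 371 468) (node 372 (merge (leaf 6 339 340) (leaf 6 371 404))))))))))))))))))) (node 559 (merge (leaf 5 431 527) (node 560 (merge (leaf 5 463 591) (node 531 (merge (leaf 1 527 529) (node 467 (merge (leaf 5 434 562) (node 564 (merge (leaf 4 435 532) (node 563 (merge (leaf 4 467 596) (node 436 (merge (leaf 6 403 404) (leaf 6 435 468))))))))))))))))))))))) (merge (node 435 (merge (node 401 (merge (leaf 6 400 433) (node 400 (merge (leaf 6 368 369) (node 399 (merge (leaf 7 367 367) (node 402 (merge (leaf 0 399 434) (node 403 (merge (leaf 0 400 436) (node 371 (merge (leaf 2 367 370) (leaf 2 368 372))))))))))))) (merge (node 433 (merge (leaf 6 400 401) (node 434 (merge (leaf 1 431 463) (node 467 (merge (leaf 0 432 468) (node 531 (merge (leaf 7 402 402) (node 562 (merge (leaf 5 434 530) (node 563 (merge (leaf 7 434 466) (leaf 5 466 594))))))))))))) (merge (node 433 (merge (leaf 6 400 401) (node 434 (merge (leaf 1 431 463) (node 467 (merge (leaf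 0 432 468) (node 403 (merge (leaf 2 400 404) (node 532 (merge (leaf 4 403 500) (node 531 (merge (leaf 4 435 564) (node 562 (merge (leaf 5 434 530) (node 563 (merge (leaf 7 434 466) (leaf 5 466 594))))))))))))))))) (merge (node 467 (merge (node 531 (merge (node 532 (merge (leaf 4 435 564) (node 530 (merge (leaf 5 434 562) (node 529 (merge (leaf 3 496 497) (leaf 2 496 500))))))) (merge (node 564 (merge (leaf 4 435 532) (node 563 (merge (leaf 4 467 596) (node 436 (merge (leaf 6 403 404) (leaf 6 435 468))))))) (node 562 (merge (leaf 5 434 530) (node 563 (merge (leaf 5 466 594) (node 436 (merge (leaf 6 403 404) (leaf 6 435 468)))))))))) (merge (node 401 (merge (leaf 6 400 433) (node 400 (merge (leaf 6 368 369) (node 529 (merge (leaf 4 400 497) (node 367 (merge (leaf 7 367 399) (node 368 (merge (leaf 7 335 335) (node 403 (merge (leaf 3 367 402) (node 404 (merge (leaf 6 371 372) (node 531 (merge (leaf 6 403 436) (node 530 (merge (leaf 2 496 500) (leaf 5 434 562))))))))))))))))))) (merge (node 559 (merge (leaf 5 431 527) (node 401 (merge (leaf 6 400 433) (node 400 (merge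 (leaf 6 368 369) (node 367 (merge (leaf 7 367 399) (node 368 (merge (leaf 7 335 335) (node 403 (merge (leaf 3 367 402) (node 500 (merge (leaf 4 403 532) (node 371 (merge (leaf 4 371 468) (node 372 (merge (leaf 6 339 340) (leaf 6 371 404))))))))))))))))))) (merge (node 559 (merge (leaf 5 431 527) (node 560 (merge (leaf 5 463 591) (node 401 (merge (leaf 6 400 433) (node 400 (merge (leaf 6 368 369) (node 529 (merge (leaf 4 400 497) (node 531 (merge (leaf 1 527 530) (node 564 (merge (leaf 4 435 532) (node 563 (merge (leaf 4 467 596) (node 436 (merge (leaf 6 403 404) (leaf 6 435 468))))))))))))))))))) (node 559 (merge (leaf 5 431 527) (node 560 (merge (leaf 5 463 591) (node 401 (merge (leaf 6 400 433) (node 400 (merge (leaf 6 368 369) (node 529 (merge (leaf 4 400 497) (node 531 (merge (leaf 1 527 530) (node 532 (merge (leaf 4 435 564) (node 403 (merge (leaf 4 403 500) (node 402 (merge (leaf 7 370 370) (leaf 0 400 436)))))))))))))))))))))))) (merge (node 531 (merge (node 559 (merge (leaf 5 431 527) (node 560 (merge (leaf 5 463 591) (node 530 (merge (leaf 1 527 529) (node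 467 (merge (leaf 5 434 562) (node 564 (merge (leaf 4 435 532) (node 563 (merge (leaf 4 467 596) (node 434 (merge (leaf 7 402 402) (leaf 7 434 466))))))))))))))) (merge (node 559 (merge (leaf 5 431 527) (node 560 (merge (leaf 5 463 591) (node 530 (merge (leaf 1 527 529) (node 467 (merge (leaf 5 434 562) (node 564 (merge (leaf 4 435 532) (node 563 (merge (leaf 4 467 596) (node 436 (merge (leaf 6 403 404) (leaf 6 435 468))))))))))))))) (merge (node 559 (merge (leaf 5 431 527) (node 560 (merge (leaf 5 463 591) (node 529 (merge (leaf 1 527 530) (node 400 (merge (leaf 4 400 497) (node 401 (merge (leaf 6 368 369) (node 399 (merge (leaf 7 367 367) (node 402 (merge (leaf 0 399 434) (node 403 (merge (leaf 0 400 436) (node 371 (merge (leaf 2 367 370) (leaf 2 368 372))))))))))))))))))) (merge (node 529 (merge (node 530 (merge (leaf 2 496 500) (node 564 (merge (leaf 0 528 563) (node 532 (merge (leaf 3 496 497) (leaf 0 529 565))))))) (merge (node 530 (merge (leaf 2 496 500) (node 563 (merge (leaf 0 528 564) (node 467 (merge (leaf 5 434 562) (node 434 (merge (leaf 7 402 402) (leaf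 7 434 466))))))))) (node 400 (merge (leaf 4 400 497) (node 401 (merge (leaf 6 368 369) (node 399 (merge (leaf 7 367 367) (node 402 (merge (leaf 0 399 434) (node 403 (merge (leaf 0 400 436) (node 371 (merge (leaf 2 367 370) (leaf 2 368 372)))))))))))))))) (node 560 (merge (node 559 (merge (leaf 5 431 527) (leaf 5 463 591))) (node 467 (merge (node 564 (merge (leaf 4 435 532) (node 563 (merge (leaf 4 467 596) (node 436 (merge (leaf 6 403 404) (leaf 6 435 468))))))) (merge (node 564 (merge (leaf 4 435 532) (node 563 (merge (leaf 4 467 596) (node 434 (merge (leaf 7 402 402) (leaf 7 434 466))))))) (merge (node 434 (merge (leaf 7 402 402) (node 563 (merge (leaf 7 434 466) (node 594 (merge (leaf 5 466 562) (node 595 (merge (leaf 5 498 626) (node 468 (merge (leaf 6 435 436) (leaf 6 467 500))))))))))) (node 404 (merge (leaf 6 403 436) (node 403 (merge (leaf 6 371 372) (node 402 (merge (leaf 7 370 370) (leaf 7 402 434)))))))))))))))))) (node 560 (merge (node 559 (merge (leaf 5 431 527) (leaf 5 463 591))) (node 467 (merge (node 434 (merge (node 433 (merge (leaf 1 431 463) (leaf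 0 432 468))) (node 531 (merge (leaf 7 402 402) (node 562 (merge (leaf 5 434 530) (node 563 (merge (leaf 7 434 466) (leaf 5 466 594))))))))) (merge (node 531 (merge (node 532 (merge (leaf 4 435 564) (node 530 (merge (leaf 5 434 562) (node 529 (merge (leaf 3 496 497) (leaf 2 496 500))))))) (merge (node 564 (merge (leaf 4 435 532) (node 563 (merge (leaf 4 467 596) (node 436 (merge (leaf 6 403 404) (leaf 6 435 468))))))) (node 562 (merge (leaf 5 434 530) (node 563 (merge (leaf 5 466 594) (node 436 (merge (leaf 6 403 404) (leaf 6 435 468)))))))))) (merge (node 531 (merge (node 564 (merge (leaf 4 435 532) (node 563 (merge (leaf 4 467 596) (node 434 (merge (leaf 7 402 402) (leaf 7 434 466))))))) (merge (node 532 (merge (leaf 4 435 564) (node 530 (merge (leaf 5 434 562) (node 529 (merge (leaf 3 496 497) (leaf 2 496 500))))))) (node 562 (merge (leaf 5 434 530) (node 563 (merge (leaf 5 466 594) (node 434 (merge (leaf 7 402 402) (leaf 7 434 466)))))))))) (node 403 (merge (node 372 (merge (leaf 6 371 404) (node 371 (merge (leaf 6 339 340) (node 370 (merge (leaf 7 338 338) (leaf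 7 370 402))))))) (merge (node 500 (merge (leaf 4 403 532) (node 371 (merge (leaf 4 371 468) (node 404 (merge (leaf 6 371 372) (node 434 (merge (leaf 2 400 433) (node 339 (merge (leaf 5 338 466) (node 307 (merge (leaf 5 306 402) (leaf 4 307 436))))))))))))) (merge (node 500 (merge (leaf 4 403 532) (node 371 (merge (leaf 4 371 468) (node 372 (merge (leaf 6 339 340) (leaf 6 371 404))))))) (merge (node 370 (merge (leaf 7 370 402) (node 371 (merge (leaf 7 338 338) (node 468 (merge (leaf 4 371 500) (node 434 (merge (leaf 0 432 433) (node 339 (merge (leaf 4 339 436) (leaf 5 338 466))))))))))) (node 500 (merge (leaf 4 403 532) (node 404 (merge (leaf 6 371 372) (node 434 (merge (leaf 2 400 433) (node 405 (merge (leaf 1 402 406) (node 402 (merge (leaf 7 370 370) (node 437 (merge (leaf 0 402 438) (node 373 (merge (leaf 2 370 374) (node 468 (merge (leaf 6 372 436) (leaf 5 372 469)))))))))))))))))))))))))))))))))) (merge (node 435 (merge (node 401 (merge (leaf 6 400 433) (node 400 (merge (leaf 6 368 369) (node 399 (merge (leaf 7 367 367) (node 402 (merge (leaf 0 399 434) (node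 403 (merge (leaf 0 400 436) (node 371 (merge (leaf 2 367 370) (leaf 2 368 372))))))))))))) (merge (node 433 (merge (leaf 6 400 401) (node 434 (merge (leaf 1 431 463) (node 467 (merge (leaf 0 432 468) (node 531 (merge (leaf 7 402 402) (node 562 (merge (leaf 5 434 530) (node 563 (merge (leaf 7 434 466) (leaf 5 466 594))))))))))))) (merge (node 433 (merge (leaf 6 400 401) (node 434 (merge (leaf 1 431 463) (node 467 (merge (leaf 0 432 468) (node 403 (merge (leaf 2 400 404) (node 532 (merge (leaf 4 403 500) (node 531 (merge (leaf 4 435 564) (node 498 (merge (leaf 5 402 530) (node 466 (merge (leaf 5 370 371) (leaf 7 434 563))))))))))))))))) (merge (node 527 (merge (leaf 5 431 559) (node 498 (merge (leaf 1 495 497) (node 401 (merge (leaf 6 400 433) (node 400 (merge (leaf 6 368 369) (node 367 (merge (leaf 7 367 399) (node 368 (merge (leaf 7 335 335) (node 403 (merge (leaf 3 367 402) (node 467 (merge (leaf 5 402 530) (node 371 (merge (leaf 5 370 466) (node 372 (merge (leaf 6 339 340) (leaf 6 371 404))))))))))))))))))))) (node 467 (merge (node 527 (merge (leaf 5 431 559)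 (node 498 (merge (leaf 1 495 497) (node 403 (merge (leaf 5 402 530) (node 532 (merge (leaf 4 403 500) (node 531 (merge (leaf 4 435 564) (node 402 (merge (leaf 7 370 370) (leaf 7 402 434))))))))))))) (merge (node 527 (merge (leaf 5 431 559) (node 498 (merge (leaf 1 495 497) (node 403 (merge (leaf 5 402 530) (node 532 (merge (leaf 4 403 500) (node 531 (merge (leaf 4 435 564) (node 404 (merge (leaf 6 371 372) (leaf 6 403 436))))))))))))) (merge (node 527 (merge (leaf 5 431 559) (node 498 (merge (leaf 1 495 497) (node 530 (merge (leaf 5 402 403) (node 562 (merge (leaf 6 434 466) (leaf 5 434 531))))))))) (merge (node 531 (merge (node 564 (merge (leaf 4 435 532) (node 563 (merge (leaf 4 467 596) (node 436 (merge (leaf 6 403 404) (leaf 6 435 468))))))) (merge (node 564 (merge (leaf 4 435 532) (node 563 (merge (leaf 4 467 596) (node 434 (merge (leaf 7 402 402) (leaf 7 434 466))))))) (merge (node 434 (merge (leaf 7 402 402) (node 563 (merge (leaf 7 434 466) (node 594 (merge (leaf 5 466 562) (node 595 (merge (leaf 5 498 626) (node 468 (merge (leaf 6 435 436) (leaf 6 467 500)))))))))))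 (node 532 (merge (leaf 4 435 564) (node 403 (merge (leaf 4 403 500) (node 404 (merge (leaf 6 371 372) (leaf 6 403 436))))))))))) (merge (node 527 (merge (leaf 5 431 559) (node 498 (merge (leaf 1 495 497) (node 403 (merge (leaf 5 402 530) (node 371 (merge (leaf 5 370 466) (node 370 (merge (leaf 7 338 338) (leaf 7 370 402))))))))))) (merge (node 403 (merge (node 532 (merge (leaf 4 403 500) (node 531 (merge (leaf 4 435 564) (node 402 (merge (leaf 7 370 370) (leaf 7 402 434))))))) (merge (node 532 (merge (leaf 4 403 500) (node 531 (merge (leaf 4 435 564) (node 404 (merge (leaf 6 371 372) (leaf 6 403 436))))))) (merge (node 404 (merge (leaf 6 371 372) (node 531 (merge (leaf 6 403 436) (node 562 (merge (leaf 5 434 530) (node 563 (merge (leaf 5 466 594) (node 434 (merge (leaf 7 402 402) (leaf 7 434 466))))))))))) (node 372 (merge (leaf 6 371 404) (node 371 (merge (leaf 6 339 340) (node 370 (merge (leaf 7 338 338) (leaf 7 370 402))))))))))) (node 531 (merge (node 562 (merge (leaf 5 434 530) (node 563 (merge (leaf 5 466 594) (node 434 (merge (leaf 7 402 402) (leaf 7 434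 466))))))) (merge (node 564 (merge (leaf 4 435 532) (node 563 (merge (leaf 4 467 596) (node 436 (merge (leaf 6 403 404) (leaf 6 435 468))))))) (node 532 (merge (leaf 4 435 564) (node 498 (merge (leaf 0 496 497) (node 533 (merge (leaf 3 498 534) (node 530 (merge (leaf 5 434 562) (node 565 (merge (leaf 0 530 566) (node 501 (merge (leaf 2 498 502) (node 436 (merge (leaf 6 403 404) (node 468 (merge (leaf 7 436 469) (leaf 4 436 500)))))))))))))))))))))))))))))))) (hyp 0)))))))) nQ_62 cQ_62 14 (by decide +kernel)
def nQ_63 : ℕ := 0x1000000010000000000000000000000000000000000000000000000000000000000000000000000000000000000000000000000000000000000000000000000000000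
def cQ_63 : ℕ := 0x48000001f900000fff000007ff800007dff00007efe00007e7e00007fff0000fffe00007ffc00007ffc00001ff000001cf000000000000000000000000000000000000000000000000000000000000000000000000000
theorem lQ_63 : S nQ_63 cQ_63 16 := S_of_chk [(nQ_55, cQ_55, 15), (nQ_60, cQ_60, 14), (nQ_62, cQ_62, 14)] ⟨lQ_55, lQ_60, lQ_62, trivial⟩ (node 464 (merge (node 432 (merge (node 401 (merge (leaf 6 400 433) (node 400 (merge (leaf 6 368 369) (node 399 (merge (leaf 7 367 367) (leaf 7 399 431))))))) (merge (node 433 (merge (leaf 6 400 401) (node 560 (merge (leaf 6 432 465) (node 559 (merge (leaf 5 431 527) (leaf 5 463 591))))))) (node 559 (merge (leaf 5 431 527) (node 431 (merge (leaf 7 399 399) (node 560 (merge (leaf 7 431 463) (leaf 5 463 591)))))))))) (merge (node 560 (merge (node 559 (merge (leaf 5 463 591) (node 432 (merge (leaf 5 431 527) (node 431 (merge (leaf 7 399 399) (leaf 7 431 463))))))) (merge (node 465 (merge (leaf 6 432 433) (node 592 (merge (leaf 6 464 497) (node 591 (merge (leaf 5 463 559) (leaf 5 495 623))))))) (node 465 (merge (leaf 6 432 433) (node 497 (merge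 (leaf 6 464 592) (node 463 (merge (leaf 7 431 431) (node 498 (merge (leaf 0 462 462) (leaf 3 463 499)))))))))))) (merge (node 432 (merge (node 401 (merge (leaf 6 400 433) (node 400 (merge (leaf 6 368 369) (node 399 (merge (leaf 7 367 367) (leaf 7 399 431))))))) (merge (node 433 (merge (leaf 6 400 401) (node 560 (merge (leaf 6 432 465) (node 559 (merge (leaf 5 431 527) (leaf 5 463 591))))))) (merge (node 559 (merge (leaf 5 431 527) (node 560 (merge (leaf 5 463 591) (node 465 (merge (leaf 6 432 433) (node 497 (merge (leaf 6 464 592) (node 400 (merge (leaf 4 368 368) (leaf 4 400 529))))))))))) (node 399 (merge (leaf 7 399 431) (node 400 (merge (leaf 7 367 367) (node 497 (merge (leaf 4 400 529) (node 368 (merge (leaf 4 368 465) (node 369 (merge (leaf 6 336 337) (leaf 6 368 401))))))))))))))) (merge (node 463 (merge (node 431 (merge (leaf 7 431 560) (node 399 (merge (leaf 4 367 367) (leaf 7 399 432))))) (merge (node 465 (merge (node 560 (merge (leaf 7 431 431) (leaf 6 432 433))) (merge (node 433 (merge (leaf 6 432 560) (node 401 (merge (leaf 5 368 369) (leaf 5 400 497)))))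 (merge (node 498 (merge (node 497 (merge (leaf 0 462 462) (leaf 3 463 499))) (merge (node 499 (merge (leaf 0 463 466) (leaf 3 463 497))) (merge (node 462 (merge (leaf 0 462 497) (node 434 (merge (leaf 2 430 433) (node 466 (merge (leaf 2 431 435) (node 430 (merge (leaf 3 429 429) (leaf 3 430 431))))))))) (node 466 (merge (leaf 0 463 499) (node 434 (merge (leaf 2 431 435) (node 433 (merge (leaf 2 430 462) (node 530 (merge (leaf 7 401 401) (leaf 7 433 562))))))))))))) (node 431 (merge (leaf 7 431 560) (node 466 (merge (leaf 3 430 430) (node 498 (merge (leaf 0 463 499) (node 497 (merge (leaf 0 462 462) (node 434 (merge (leaf 2 431 435) (node 402 (merge (leaf 5 369 370) (leaf 5 401 529))))))))))))))))) (merge (node 462 (merge (node 461 (merge (leaf 0 461 497) (node 432 (merge (leaf 2 429 433) (node 431 (merge (leaf 7 399 399) (leaf 2 428 460))))))) (merge (node 461 (merge (leaf 0 461 497) (node 493 (merge (leaf 1 460 492) (node 465 (merge (leaf 1 461 494) (node 429 (merge (leaf 3 428 428) (leaf 3 429 430))))))))) (merge (node 432 (merge (node 433 (merge (leaf 6 400 401)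 (leaf 2 429 461))) (merge (node 433 (merge (leaf 6 400 401) (node 431 (merge (leaf 7 399 399) (leaf 1 430 434))))) (node 431 (merge (leaf 7 399 399) (node 461 (merge (leaf 2 428 460) (node 493 (merge (leaf 1 460 492) (node 465 (merge (leaf 1 461 494) (node 429 (merge (leaf 3 428 428) (leaf 0 429 430)))))))))))))) (node 465 (merge (node 433 (merge (leaf 2 430 434) (node 401 (merge (leaf 5 368 369) (leaf 5 400 497))))) (merge (node 498 (merge (leaf 0 462 497) (node 466 (merge (leaf 0 463 499) (node 430 (merge (leaf 3 429 429) (leaf 3 430 431))))))) (node 434 (merge (leaf 2 430 433) (node 466 (merge (leaf 2 431 435) (node 430 (merge (leaf 3 429 429) (leaf 3 430 431)))))))))))))) (node 465 (merge (node 433 (merge (leaf 6 432 560) (node 401 (merge (leaf 5 368 369) (leaf 5 400 497))))) (merge (node 433 (merge (leaf 6 432 560) (node 462 (merge (leaf 2 430 434) (node 493 (merge (leaf 1 461 494) (node 461 (merge (leaf 2 429 432) (leaf 1 460 492))))))))) (node 466 (merge (node 499 (merge (leaf 0 463 498) (node 467 (merge (leaf 0 464 500) (node 435 (merge (leaf 2 431 434)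 (leaf 2 432 436))))))) (merge (node 498 (merge (leaf 0 463 499) (node 462 (merge (leaf 0 462 497) (node 493 (merge (leaf 1 461 494) (node 461 (merge (leaf 1 460 492) (node 429 (merge (leaf 3 428 428) (leaf 3 429 430))))))))))) (merge (node 435 (merge (leaf 2 431 434) (node 467 (merge (leaf 2 432 436) (node 497 (merge (leaf 1 464 468) (node 462 (merge (leaf 0 461 461) (leaf 0 462 498))))))))) (node 435 (merge (leaf 2 431 434) (node 467 (merge (leaf 2 432 436) (node 500 (merge (leaf 0 464 499) (node 468 (merge (leaf 1 464 497) (leaf 0 465 501)))))))))))))))))))) (merge (node 497 (merge (node 527 (merge (node 526 (merge (leaf 2 493 525) (node 498 (merge (leaf 1 495 499) (leaf 2 494 529))))) (node 559 (merge (leaf 5 431 432) (node 591 (merge (leaf 5 463 560) (leaf 6 495 623))))))) (merge (node 498 (merge (node 499 (merge (leaf 3 463 463) (leaf 1 495 527))) (merge (node 499 (merge (leaf 3 463 463) (node 500 (merge (leaf 3 464 465) (leaf 1 496 529))))) (node 527 (merge (node 526 (merge (leaf 2 493 525) (leaf 2 494 529))) (node 432 (merge (leaf 5 431 559) (node 399 (merge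 (leaf 7 399 431) (node 400 (merge (leaf 7 367 367) (node 368 (merge (leaf 4 368 465) (node 369 (merge (leaf 6 336 337) (leaf 6 368 401)))))))))))))))) (merge (node 432 (merge (node 400 (merge (leaf 4 400 529) (node 399 (merge (leaf 7 367 367) (leaf 7 399 431))))) (merge (node 400 (merge (leaf 4 400 529) (node 368 (merge (leaf 4 368 465) (node 369 (merge (leaf 6 336 337) (leaf 6 368 401))))))) (merge (node 399 (merge (leaf 7 399 431) (node 400 (merge (leaf 7 367 367) (node 368 (merge (leaf 4 368 465) (node 369 (merge (leaf 6 336 337) (leaf 6 368 401))))))))) (node 431 (merge (leaf 7 399 399) (node 560 (merge (leaf 7 431 463) (node 592 (merge (leaf 6 464 465) (node 623 (merge (leaf 5 495 591) (node 624 (merge (leaf 6 496 529) (leaf 5 527 655))))))))))))))) (merge (node 560 (merge (node 592 (merge (leaf 6 464 465) (node 591 (merge (leaf 5 463 559) (leaf 5 495 623))))) (merge (node 463 (merge (leaf 7 431 431) (node 462 (merge (leaf 0 461 461) (node 498 (merge (leaf 0 462 465) (leaf 3 463 499))))))) (node 559 (merge (leaf 5 463 591) (node 432 (merge (leaf 5 431 527)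 (node 431 (merge (leaf 7 399 399) (leaf 7 431 463)))))))))) (node 560 (merge (node 463 (merge (leaf 7 431 431) (node 462 (merge (leaf 0 461 461) (node 498 (merge (leaf 0 462 465) (leaf 3 463 499))))))) (node 591 (merge (leaf 5 463 559) (node 592 (merge (leaf 5 495 623) (node 625 (merge (leaf 4 496 593) (node 624 (merge (leaf 6 496 529) (leaf 4 528 657)))))))))))))))) (merge (node 560 (merge (node 433 (merge (leaf 6 432 465) (node 432 (merge (leaf 6 400 401) (node 559 (merge (leaf 5 431 527) (leaf 5 463 591))))))) (merge (node 465 (merge (leaf 6 432 433) (node 592 (merge (leaf 6 464 497) (node 625 (merge (leaf 4 496 593) (node 624 (merge (leaf 4 528 657) (node 623 (merge (leaf 5 495 591) (leaf 5 527 655))))))))))) (merge (node 527 (merge (node 433 (merge (leaf 6 432 465) (node 432 (merge (leaf 6 400 401) (leaf 5 431 559))))) (merge (node 465 (merge (leaf 6 432 433) (node 497 (merge (leaf 6 464 592) (node 498 (merge (leaf 1 495 499) (node 526 (merge (leaf 2 493 525) (leaf 2 494 529))))))))) (merge (node 497 (merge (node 526 (merge (leaf 2 493 525) (node 498 (merge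 (leaf 1 495 499) (leaf 2 494 529))))) (merge (node 592 (merge (leaf 6 464 465) (node 624 (merge (leaf 6 496 529) (node 656 (merge (leaf 7 527 559) (node 655 (merge (leaf 5 527 623) (leaf 5 559 687))))))))) (node 592 (merge (leaf 6 464 465) (node 625 (merge (leaf 4 496 593) (node 624 (merge (leaf 4 528 657) (node 656 (merge (leaf 7 527 559) (node 655 (merge (leaf 5 527 623) (leaf 5 559 687)))))))))))))) (node 529 (merge (node 559 (merge (leaf 5 431 432) (node 558 (merge (leaf 1 526 530) (leaf 2 525 557))))) (merge (node 432 (merge (leaf 5 431 559) (node 497 (merge (leaf 4 400 400) (node 526 (merge (leaf 2 494 498) (leaf 2 493 525))))))) (merge (node 530 (merge (node 563 (merge (leaf 0 527 562) (node 531 (merge (leaf 1 527 559) (leaf 0 528 564))))) (merge (node 531 (merge (leaf 1 527 559) (node 564 (merge (leaf 0 528 563) (node 532 (merge (leaf 3 496 497) (leaf 0 529 565))))))) (merge (node 531 (merge (node 564 (merge (leaf 0 528 563) (node 532 (merge (leaf 3 496 497) (leaf 0 529 565))))) (merge (node 500 (merge (leaf 2 496 499) (node 532 (merge (leaf 3 496 497) (leaf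 2 497 501))))) (node 563 (merge (leaf 0 528 564) (node 527 (merge (leaf 0 527 562) (node 499 (merge (leaf 2 495 498) (leaf 2 496 500)))))))))) (node 558 (merge (leaf 1 526 559) (node 526 (merge (leaf 1 525 557) (node 498 (merge (leaf 2 494 497) (leaf 2 495 499))))))))))) (node 530 (merge (node 563 (merge (leaf 0 527 562) (node 531 (merge (leaf 0 528 564) (node 499 (merge (leaf 2 495 498) (leaf 2 496 500))))))) (merge (node 498 (merge (leaf 2 495 499) (node 526 (merge (leaf 2 494 497) (node 557 (merge (leaf 1 525 558) (node 525 (merge (leaf 1 524 556) (node 493 (merge (leaf 3 492 492) (leaf 3 493 494))))))))))) (merge (node 563 (merge (leaf 0 527 562) (node 531 (merge (leaf 0 528 564) (node 500 (merge (leaf 2 496 499) (node 532 (merge (leaf 3 496 497) (leaf 2 497 501))))))))) (node 563 (merge (leaf 0 527 562) (node 531 (merge (leaf 0 528 564) (node 497 (merge (leaf 3 496 532) (node 526 (merge (leaf 2 494 498) (leaf 2 493 525))))))))))))))))))))) (node 559 (merge (leaf 5 463 591) (node 558 (merge (node 529 (merge (leaf 2 525 557) (node 530 (merge (leaf 1 526 527)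 (leaf 1 527 531))))) (merge (node 557 (merge (leaf 2 525 529) (node 588 (merge (leaf 1 556 589) (node 556 (merge (leaf 1 555 587) (node 524 (merge (leaf 3 523 523) (leaf 3 524 525))))))))) (merge (node 527 (merge (leaf 5 431 432) (node 526 (merge (node 525 (merge (leaf 2 493 497) (leaf 0 524 524))) (merge (node 529 (merge (leaf 1 526 530) (node 497 (merge (leaf 2 494 498) (node 494 (merge (leaf 3 493 493) (node 462 (merge (leaf 4 430 430) (node 461 (merge (leaf 7 429 429) (leaf 0 461 463))))))))))) (node 525 (merge (leaf 0 524 524) (node 493 (merge (leaf 3 492 492) (node 529 (merge (leaf 3 493 494) (node 530 (merge (leaf 1 527 531) (leaf 1 526 558)))))))))))))) (node 527 (merge (leaf 5 431 432) (node 557 (merge (leaf 2 524 556) (node 525 (merge (leaf 3 524 524) (node 526 (merge (leaf 2 493 497) (node 493 (merge (leaf 3 492 492) (node 461 (merge (leaf 4 429 429) (leaf 4 461 590))))))))))))))))))))))) (merge (node 432 (merge (node 401 (merge (leaf 6 400 433) (node 400 (merge (leaf 6 368 369) (node 399 (merge (leaf 7 367 367) (leaf 7 399 431))))))) (merge (node 401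 (merge (leaf 6 400 433) (node 400 (merge (leaf 6 368 369) (node 497 (merge (leaf 4 400 529) (node 368 (merge (leaf 4 368 465) (node 367 (merge (leaf 7 335 335) (leaf 7 367 399))))))))))) (merge (node 399 (merge (leaf 7 399 431) (node 400 (merge (leaf 7 367 367) (node 497 (merge (leaf 4 400 529) (node 368 (merge (leaf 4 368 465) (node 369 (merge (leaf 6 336 337) (leaf 6 368 401))))))))))) (merge (node 433 (merge (leaf 6 400 401) (node 431 (merge (leaf 7 399 399) (node 466 (merge (node 465 (merge (leaf 0 430 430) (leaf 3 431 467))) (merge (node 434 (merge (leaf 0 431 467) (node 463 (merge (leaf 1 431 435) (leaf 1 430 462))))) (node 430 (merge (leaf 0 430 465) (node 462 (merge (leaf 1 429 461) (node 434 (merge (leaf 1 430 463) (node 403 (merge (leaf 2 399 402) (node 435 (merge (leaf 2 400 404) (node 527 (merge (leaf 5 431 559) (node 498 (merge (leaf 6 402 530) (node 497 (merge (leaf 1 495 499) (node 526 (merge (leaf 2 493 525) (leaf 2 494 529)))))))))))))))))))))))))) (merge (node 497 (merge (node 400 (merge (leaf 4 400 529) (node 401 (merge (leaf 6 368 369) (leaf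 6 400 433))))) (merge (node 527 (merge (leaf 5 431 559) (node 526 (merge (leaf 2 493 525) (node 498 (merge (leaf 1 495 499) (leaf 2 494 529))))))) (node 465 (merge (node 400 (merge (leaf 4 368 368) (node 401 (merge (leaf 6 368 369) (leaf 6 400 433))))) (merge (node 466 (merge (node 467 (merge (leaf 3 431 431) (leaf 1 464 468))) (merge (node 467 (merge (leaf 1 464 468) (node 499 (merge (leaf 0 464 500) (node 498 (merge (leaf 0 463 463) (leaf 1 495 527))))))) (node 401 (merge (leaf 5 400 433) (node 527 (merge (leaf 5 431 559) (node 498 (merge (leaf 1 495 499) (node 463 (merge (leaf 0 462 462) (node 434 (merge (leaf 2 431 435) (node 402 (merge (leaf 7 369 369) (leaf 5 369 370)))))))))))))))) (merge (node 466 (merge (node 467 (merge (leaf 3 431 431) (leaf 1 464 468))) (merge (node 467 (merge (leaf 1 464 468) (node 499 (merge (leaf 0 464 500) (node 498 (merge (leaf 0 463 463) (leaf 1 495 527))))))) (node 527 (merge (leaf 5 431 559) (node 498 (merge (leaf 1 495 499) (node 463 (merge (leaf 0 462 462) (node 434 (merge (leaf 2 431 435) (node 431 (merge (leaf 3 430 430) (node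 402 (merge (leaf 5 369 370) (node 403 (merge (leaf 6 370 371) (leaf 2 399 433)))))))))))))))))) (node 466 (merge (node 467 (merge (leaf 3 431 431) (leaf 1 464 468))) (merge (node 467 (merge (leaf 1 464 468) (node 499 (merge (leaf 0 464 500) (node 498 (merge (leaf 0 463 463) (leaf 1 495 527))))))) (node 527 (merge (leaf 5 431 559) (node 498 (merge (leaf 1 495 499) (node 463 (merge (leaf 0 462 462) (node 434 (merge (leaf 2 431 435) (node 431 (merge (leaf 3 430 430) (node 402 (merge (leaf 5 369 370) (node 403 (merge (leaf 6 370 371) (node 401 (merge (leaf 7 369 369) (leaf 1 399 400))))))))))))))))))))))))))) (node 497 (merge (node 400 (merge (leaf 4 400 529) (node 399 (merge (leaf 7 367 367) (leaf 7 399 431))))) (merge (node 527 (merge (leaf 5 431 559) (node 526 (merge (leaf 2 493 525) (node 498 (merge (leaf 1 495 499) (leaf 2 494 529))))))) (node 431 (merge (leaf 7 399 399) (node 498 (merge (node 499 (merge (leaf 3 463 463) (leaf 1 495 527))) (merge (node 499 (merge (leaf 3 463 463) (node 468 (merge (leaf 2 464 467) (node 500 (merge (leaf 3 464 465) (leaf 2 465 469)))))))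 (merge (node 499 (merge (leaf 1 495 527) (node 468 (merge (leaf 2 464 467) (node 500 (merge (leaf 3 464 465) (leaf 2 465 469))))))) (node 465 (merge (node 430 (merge (leaf 0 429 429) (node 466 (merge (leaf 0 430 433) (leaf 3 431 467))))) (merge (node 463 (merge (leaf 0 462 462) (node 466 (merge (leaf 3 430 430) (leaf 3 431 467))))) (merge (node 430 (merge (leaf 0 429 429) (node 462 (merge (leaf 0 462 463) (node 461 (merge (leaf 1 429 433) (node 527 (merge (leaf 5 431 559) (node 525 (merge (leaf 2 493 526) (node 493 (merge (leaf 6 429 557) (node 398 (merge (leaf 5 365 366) (leaf 5 397 494))))))))))))))) (merge (node 430 (merge (leaf 0 429 429) (node 466 (merge (leaf 0 430 433) (leaf 3 430 463))))) (node 463 (merge (leaf 0 462 462) (node 466 (merge (leaf 3 431 467) (node 434 (merge (leaf 2 431 435) (node 402 (merge (leaf 5 369 370) (node 403 (merge (leaf 6 370 371) (leaf 2 399 433))))))))))))))))))))))))))))))) (merge (hyp 0) (node 432 (merge (node 401 (merge (leaf 6 400 433) (node 400 (merge (leaf 6 368 369) (node 399 (merge (leaf 7 367 367) (leaf 7 399 431)))))))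 (merge (node 559 (merge (leaf 5 431 527) (node 431 (merge (leaf 7 399 399) (node 560 (merge (leaf 7 431 463) (leaf 5 463 591))))))) (merge (hyp 1) (hyp 2)))))))))))))) nQ_63 cQ_63 16 (by decide +kernel)
def nQ_64 : ℕ := 0x100000001000000030000000000000000000000000000000000000000000000000000000000000000000000000000000000000000000000000000000000000000000000000000
def cQ_64 : ℕ := 0x20000000e0000000e0000001c800000fe7000007ce00000ff7000001f8000001f0000001f0000000e0000000a0000000000000000000000000000000000000000000000000000000000000000000000000000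
theorem lQ_64 : S nQ_64 cQ_64 13 := S_of_chk [] trivial (node 498 (merge (node 499 (merge (node 468 (merge (leaf 2 464 467) (node 500 (merge (leaf 2 465 469) (leaf 1 496 529))))) (merge (node 532 (merge (leaf 0 496 531) (node 500 (merge (leaf 1 496 529) (leaf 0 497 533))))) (node 531 (merge (leaf 0 496 532) (node 467 (merge (leaf 2 464 468) (node 466 (merge (leaf 2 463 495) (node 563 (merge (leaf 7 434 434) (leaf 7 466 595)))))))))))) (merge (node 499 (merge (node 468 (merge (leaf 2 464 467) (node 500 (merge (leaf 2 465 469) (leaf 1 496 529))))) (merge (node 532 (merge (leaf 0 496 531) (node 500 (merge (leaf 1 496 529) (leaf 0 497 533))))) (node 531 (merge (leaf 0 496 532) (node 530 (merge (leaf 0 495 495) (node 467 (merge (leaf 2 464 468) (node 562 (merge (leaf 5 434 435) (leaf 6 466 594)))))))))))) (merge (node 467 (merge (node 468 (merge (leaf 2 464 499) (node 466 (merge (leaf 1 464 465) (leaf 1 465 469))))) (merge (node 466 (merge (leaf 2 463 495) (node 468 (merge (leaf 1 464 465) (leaf 1 465 469))))) (merge (node 499 (merge (leaf 2 464 468) (node 531 (merge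 (leaf 0 496 532) (node 530 (merge (leaf 0 495 495) (node 562 (merge (leaf 5 434 435) (leaf 6 466 594))))))))) (node 530 (merge (node 495 (merge (leaf 2 463 466) (leaf 0 495 531))) (merge (node 531 (merge (leaf 0 495 495) (node 532 (merge (leaf 0 496 499) (leaf 3 497 533))))) (merge (node 466 (merge (leaf 2 463 495) (node 562 (merge (leaf 6 434 435) (node 594 (merge (leaf 7 465 465) (leaf 6 466 499))))))) (node 562 (merge (node 594 (merge (leaf 7 465 465) (leaf 6 466 499))) (merge (node 466 (merge (leaf 6 434 435) (node 595 (merge (leaf 4 466 563) (node 594 (merge (leaf 7 465 465) (leaf 4 498 627))))))) (merge (node 466 (merge (leaf 6 434 435) (node 595 (merge (leaf 4 466 563) (node 594 (merge (leaf 6 466 499) (leaf 4 498 627))))))) (node 466 (merge (leaf 6 434 435) (node 563 (merge (leaf 4 466 595) (node 531 (merge (leaf 4 434 434) (node 532 (merge (leaf 0 496 499) (leaf 3 497 533))))))))))))))))))))) (merge (node 465 (merge (node 433 (merge (leaf 5 400 401) (leaf 6 432 464))) (merge (node 433 (merge (leaf 5 400 401) (leaf 5 432 529))) (node 467 (merge (node 466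 (merge (leaf 1 464 468) (leaf 2 463 495))) (merge (node 499 (merge (leaf 2 464 468) (node 500 (merge (leaf 3 464 464) (leaf 1 496 529))))) (node 466 (merge (leaf 2 463 495) (node 435 (merge (node 530 (merge (leaf 6 434 562) (node 403 (merge (leaf 5 370 371) (leaf 5 402 499))))) (merge (node 464 (merge (leaf 2 432 436) (node 432 (merge (leaf 3 431 431) (node 400 (merge (leaf 4 368 368) (leaf 4 400 529))))))) (merge (node 464 (merge (leaf 2 432 436) (node 432 (merge (leaf 3 431 431) (node 400 (merge (leaf 4 368 368) (leaf 4 400 529))))))) (node 464 (merge (leaf 2 432 436) (node 432 (merge (leaf 3 431 431) (node 400 (merge (leaf 4 368 368) (leaf 4 400 529))))))))))))))))))) (merge (node 499 (merge (node 532 (merge (leaf 0 496 531) (node 500 (merge (leaf 1 496 529) (leaf 0 497 533))))) (merge (node 500 (merge (leaf 1 496 529) (node 469 (merge (leaf 2 465 468) (node 501 (merge (leaf 2 466 470) (node 465 (merge (leaf 3 464 464) (leaf 3 465 466))))))))) (merge (node 532 (merge (leaf 0 496 531) (node 500 (merge (leaf 0 497 533) (node 469 (merge (leaf 2 465 468) (node 501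 (merge (leaf 2 466 470) (node 465 (merge (leaf 3 464 464) (leaf 3 465 466))))))))))) (node 531 (merge (leaf 0 496 532) (node 530 (merge (leaf 0 495 495) (node 529 (merge (leaf 1 527 559) (node 563 (merge (leaf 0 528 564) (node 595 (merge (leaf 7 466 466) (leaf 7 498 627))))))))))))))) (merge (node 499 (merge (node 468 (merge (leaf 2 464 467) (node 500 (merge (leaf 2 465 469) (leaf 1 496 529))))) (merge (node 532 (merge (leaf 0 496 531) (node 500 (merge (leaf 1 496 529) (leaf 0 497 533))))) (merge (node 468 (merge (leaf 2 464 467) (node 500 (merge (leaf 2 465 469) (node 533 (merge (leaf 0 497 532) (node 501 (merge (leaf 0 498 534) (node 465 (merge (leaf 3 464 464) (leaf 3 465 466))))))))))) (node 531 (merge (leaf 0 496 532) (node 434 (merge (node 466 (merge (leaf 4 402 402) (node 563 (merge (leaf 4 434 530) (leaf 7 466 595))))) (merge (node 467 (merge (leaf 2 464 468) (node 402 (merge (leaf 7 402 435) (leaf 4 402 466))))) (merge (node 467 (merge (leaf 2 464 468) (node 435 (merge (leaf 7 402 402) (node 530 (merge (leaf 5 402 403) (leaf 5 434 562))))))) (node 467 (merge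 (leaf 2 464 468) (node 563 (merge (leaf 7 434 466) (node 562 (merge (leaf 5 466 594) (node 435 (merge (leaf 5 434 530) (node 404 (merge (leaf 6 403 436) (node 403 (merge (leaf 6 371 372) (node 433 (merge (leaf 2 400 432) (node 465 (merge (leaf 5 400 401) (leaf 5 432 529))))))))))))))))))))))))))) (merge (node 499 (merge (node 532 (merge (leaf 0 496 531) (node 500 (merge (leaf 1 496 529) (leaf 0 497 533))))) (merge (node 500 (merge (leaf 1 496 529) (node 533 (merge (leaf 0 497 532) (node 501 (merge (leaf 0 498 534) (node 465 (merge (leaf 3 464 464) (leaf 3 465 466))))))))) (merge (node 500 (merge (leaf 1 496 529) (node 465 (merge (leaf 3 464 464) (node 501 (merge (leaf 3 465 466) (node 534 (merge (leaf 0 498 533) (node 502 (merge (leaf 0 499 535) (node 470 (merge (leaf 2 466 469) (leaf 2 467 471))))))))))))) (node 531 (merge (leaf 0 496 532) (node 495 (merge (leaf 0 495 530) (node 466 (merge (leaf 2 463 467) (node 494 (merge (leaf 2 462 465) (node 525 (merge (leaf 1 493 526) (node 493 (merge (leaf 1 492 524) (node 461 (merge (leaf 3 460 460) (leaf 3 461 462)))))))))))))))))))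 (node 466 (merge (node 467 (merge (leaf 2 463 495) (node 468 (merge (leaf 1 464 465) (leaf 1 465 469))))) (merge (node 495 (merge (leaf 2 463 467) (node 530 (merge (leaf 0 495 531) (node 494 (merge (leaf 0 494 529) (node 525 (merge (leaf 1 493 526) (node 493 (merge (leaf 1 492 524) (node 461 (merge (leaf 3 460 460) (leaf 3 461 462))))))))))))) (merge (node 530 (merge (node 531 (merge (leaf 0 495 495) (node 532 (merge (leaf 3 496 529) (leaf 3 497 533))))) (merge (node 531 (merge (leaf 0 495 495) (node 434 (merge (leaf 4 434 563) (node 433 (merge (leaf 7 401 401) (node 465 (merge (leaf 6 432 464) (leaf 7 433 562))))))))) (node 562 (merge (node 595 (merge (leaf 4 466 563) (node 594 (merge (leaf 7 465 465) (leaf 4 498 627))))) (merge (node 595 (merge (leaf 4 466 563) (node 594 (merge (leaf 4 498 627) (node 625 (merge (leaf 5 497 593) (node 626 (merge (leaf 7 497 529) (leaf 5 529 657))))))))) (node 433 (merge (leaf 7 433 465) (node 434 (merge (leaf 7 401 401) (node 402 (merge (leaf 5 401 529) (node 403 (merge (leaf 6 370 371) (leaf 6 402 435))))))))))))))) (node 434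 (merge (node 402 (merge (leaf 5 401 529) (node 371 (merge (leaf 6 370 403) (node 370 (merge (leaf 6 338 339) (node 369 (merge (leaf 7 337 337) (leaf 7 369 401))))))))) (merge (node 401 (merge (node 433 (merge (leaf 5 400 465) (leaf 7 401 530))) (merge (node 402 (merge (leaf 7 369 369) (node 370 (merge (leaf 5 369 465) (node 371 (merge (leaf 6 338 339) (leaf 6 370 403))))))) (node 369 (merge (leaf 7 369 402) (node 433 (merge (leaf 4 337 337) (leaf 7 401 530)))))))) (merge (node 402 (merge (leaf 5 401 529) (node 370 (merge (leaf 5 369 465) (node 339 (merge (leaf 6 338 371) (node 338 (merge (leaf 6 306 307) (node 337 (merge (leaf 7 305 305) (leaf 7 337 369))))))))))) (node 530 (merge (node 435 (merge (leaf 6 402 403) (node 562 (merge (leaf 6 434 467) (node 433 (merge (leaf 7 401 401) (leaf 7 433 465))))))) (merge (node 563 (merge (leaf 4 434 531) (node 562 (merge (leaf 4 466 595) (node 435 (merge (leaf 6 402 403) (leaf 6 434 467))))))) (merge (node 563 (merge (leaf 4 434 531) (node 562 (merge (leaf 4 466 595) (node 433 (merge (leaf 7 401 401) (leaf 7 433 465)))))))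 (node 531 (merge (leaf 4 434 563) (node 532 (merge (leaf 3 496 529) (leaf 3 497 533))))))))))))))))))))))))) nQ_64 cQ_64 13 (by decide +kernel)
def nQ_65 : ℕ := 0x100000001000000030000000000000000000000000000000000000000000000000000000000000000000000000000000000000000000000000000000000000000000000000000
def cQ_65 : ℕ := 0x4800000048000007e7000003cf000007df800003ff000001ff800003ff0000008000000000000000000000000000000000000000000000000000000000000000000000000000000000000
theorem lQ_65 : S nQ_65 cQ_65 14 := S_of_chk [] trivial (node 498 (merge (node 499 (merge (node 468 (merge (leaf 2 464 467) (node 500 (merge (leaf 2 465 469) (leaf 1 496 529))))) (merge (node 532 (merge (leaf 0 496 531) (node 500 (merge (leaf 1 496 529) (leaf 0 497 533))))) (node 531 (merge (leaf 0 496 532) (node 495 (merge (leaf 0 495 530) (node 467 (merge (leaf 2 463 466) (leaf 2 464 468)))))))))) (merge (node 495 (merge (node 463 (merge (leaf 3 462 462) (node 431 (merge (leaf 4 399 399) (leaf 7 431 464))))) (node 531 (merge (leaf 0 495 530) (node 499 (merge (leaf 0 496 532) (node 467 (merge (leaf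 2 463 466) (leaf 2 464 468))))))))) (merge (node 463 (merge (node 464 (merge (leaf 7 431 431) (leaf 3 463 499))) (merge (node 462 (merge (leaf 3 462 495) (node 464 (merge (leaf 7 431 431) (leaf 0 461 461))))) (merge (node 495 (merge (leaf 3 462 462) (node 467 (merge (leaf 2 463 466) (node 499 (merge (leaf 3 463 464) (leaf 2 464 468))))))) (node 495 (merge (leaf 3 462 462) (node 467 (merge (leaf 2 463 466) (node 499 (merge (leaf 2 464 468) (node 529 (merge (leaf 1 496 500) (node 494 (merge (leaf 0 493 493) (leaf 0 494 530))))))))))))))) (merge (node 463 (merge (node 464 (merge (leaf 7 431 431) (leaf 3 463 499))) (merge (node 462 (merge (leaf 3 462 495) (node 464 (merge (leaf 7 431 431) (leaf 0 461 461))))) (merge (node 495 (merge (leaf 3 462 462) (node 467 (merge (leaf 2 463 466) (node 499 (merge (leaf 3 463 464) (leaf 2 464 468))))))) (node 495 (merge (leaf 3 462 462) (node 467 (merge (leaf 2 463 466) (node 499 (merge (leaf 2 464 468) (node 532 (merge (leaf 0 496 531) (node 500 (merge (leaf 1 496 529) (leaf 0 497 533))))))))))))))) (merge (node 495 (merge (node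 463 (merge (leaf 3 462 462) (node 464 (merge (leaf 7 431 431) (leaf 3 463 499))))) (merge (node 530 (merge (leaf 0 495 531) (node 494 (merge (leaf 0 494 529) (node 525 (merge (leaf 1 493 526) (node 493 (merge (leaf 1 492 524) (node 461 (merge (leaf 3 460 460) (leaf 3 461 462))))))))))) (node 499 (merge (node 532 (merge (leaf 0 496 531) (node 500 (merge (leaf 1 496 529) (leaf 0 497 533))))) (merge (node 531 (merge (leaf 0 495 530) (leaf 0 496 532))) (node 529 (merge (leaf 1 496 500) (node 494 (merge (leaf 0 493 493) (leaf 0 494 530))))))))))) (merge (node 499 (merge (node 532 (merge (leaf 0 496 531) (node 500 (merge (leaf 1 496 529) (leaf 0 497 533))))) (merge (node 532 (merge (leaf 0 496 531) (node 500 (merge (leaf 0 497 533) (node 468 (merge (leaf 2 464 467) (leaf 2 465 469))))))) (merge (node 500 (merge (leaf 1 496 529) (node 533 (merge (leaf 0 497 532) (node 501 (merge (leaf 0 498 534) (node 469 (merge (leaf 2 465 468) (leaf 2 466 470))))))))) (merge (node 529 (merge (leaf 1 496 500) (node 467 (merge (leaf 2 464 468) (node 464 (merge (leaf 3 463 463) (node 559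 (merge (leaf 5 463 591) (node 530 (merge (leaf 1 527 531) (node 435 (merge (leaf 5 402 403) (node 562 (merge (leaf 6 434 466) (leaf 6 466 594))))))))))))))) (node 531 (merge (leaf 0 496 532) (node 467 (merge (leaf 2 464 468) (node 464 (merge (leaf 3 463 463) (node 559 (merge (leaf 5 463 591) (node 530 (merge (leaf 1 527 529) (node 435 (merge (leaf 5 402 403) (leaf 5 434 562)))))))))))))))))) (node 495 (merge (node 463 (merge (leaf 3 462 462) (node 431 (merge (leaf 4 399 399) (leaf 7 431 464))))) (merge (node 530 (merge (leaf 0 495 531) (node 494 (merge (leaf 0 494 529) (node 525 (merge (leaf 1 493 526) (node 493 (merge (leaf 1 492 524) (node 461 (merge (leaf 3 460 460) (leaf 3 461 462))))))))))) (node 401 (merge (node 530 (merge (leaf 0 495 531) (node 466 (merge (leaf 2 463 467) (node 434 (merge (leaf 7 401 433) (node 403 (merge (leaf 6 402 435) (node 402 (merge (leaf 7 369 369) (leaf 6 370 371))))))))))) (merge (node 530 (merge (leaf 0 495 531) (node 529 (merge (leaf 0 494 494) (node 466 (merge (leaf 2 463 467) (node 434 (merge (leaf 5 401 402) (leaf 7 401 433)))))))))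 (merge (node 494 (merge (node 529 (merge (leaf 0 493 493) (leaf 0 494 530))) (merge (node 530 (merge (leaf 0 494 529) (leaf 0 495 531))) (node 525 (merge (leaf 1 493 526) (node 493 (merge (leaf 1 492 524) (node 460 (merge (leaf 3 460 461) (node 492 (merge (leaf 3 459 459) (node 464 (merge (leaf 2 460 463) (node 432 (merge (leaf 6 400 433) (node 400 (merge (leaf 6 368 369) (node 399 (merge (leaf 7 367 367) (leaf 7 399 431)))))))))))))))))))) (merge (node 402 (merge (node 466 (merge (leaf 2 463 467) (node 434 (merge (leaf 7 369 369) (leaf 5 401 529))))) (merge (node 431 (merge (node 463 (merge (leaf 4 399 399) (leaf 7 431 464))) (merge (node 464 (merge (leaf 7 431 463) (node 432 (merge (leaf 6 400 433) (node 400 (merge (leaf 6 368 369) (leaf 4 400 529))))))) (merge (node 399 (merge (leaf 4 399 463) (node 400 (merge (leaf 1 398 430) (node 403 (merge (leaf 1 399 432) (node 367 (merge (leaf 3 366 366) (leaf 3 367 368))))))))) (node 432 (merge (node 464 (merge (leaf 7 399 399) (leaf 6 400 433))) (merge (node 400 (merge (leaf 1 399 403) (node 464 (merge (leaf 6 368 369)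 (leaf 4 400 529))))) (node 430 (merge (leaf 2 398 433) (node 429 (merge (leaf 2 397 400) (node 460 (merge (leaf 1 428 461) (node 428 (merge (leaf 1 427 459) (node 396 (merge (leaf 3 395 395) (leaf 3 396 397)))))))))))))))))) (merge (node 466 (merge (leaf 2 463 467) (node 434 (merge (leaf 7 369 369) (node 371 (merge (leaf 6 370 403) (node 370 (merge (leaf 6 338 339) (node 399 (merge (leaf 2 367 400) (node 431 (merge (leaf 4 399 463) (node 432 (merge (leaf 7 399 464) (node 433 (merge (leaf 3 398 398) (leaf 2 398 430))))))))))))))))) (node 466 (merge (leaf 2 463 467) (node 434 (merge (leaf 5 401 529) (node 371 (merge (leaf 6 370 403) (node 370 (merge (leaf 6 338 339) (node 399 (merge (leaf 2 367 400) (node 431 (merge (leaf 4 399 463) (node 432 (merge (leaf 7 399 464) (node 433 (merge (leaf 3 398 398) (leaf 2 398 430))))))))))))))))))))) (node 400 (merge (node 530 (merge (leaf 0 495 531) (node 494 (merge (leaf 0 494 529) (node 525 (merge (leaf 1 493 526) (node 493 (merge (leaf 1 492 524) (node 460 (merge (leaf 3 460 461) (node 492 (merge (leaf 3 459 459) (node 464 (merge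 (leaf 2 460 463) (node 432 (merge (leaf 6 368 369) (node 399 (merge (leaf 7 367 367) (leaf 7 399 431))))))))))))))))))) (merge (node 402 (merge (node 466 (merge (leaf 2 463 467) (node 434 (merge (leaf 7 369 369) (node 399 (merge (leaf 0 399 435) (node 431 (merge (leaf 1 398 430) (leaf 4 399 463))))))))) (merge (node 530 (merge (leaf 0 495 531) (node 466 (merge (leaf 2 463 467) (node 434 (merge (leaf 7 369 369) (node 403 (merge (leaf 6 370 371) (leaf 6 402 435))))))))) (merge (node 371 (merge (node 399 (merge (leaf 2 367 370) (node 431 (merge (leaf 1 398 430) (leaf 4 399 463))))) (node 403 (merge (leaf 2 368 372) (node 466 (merge (leaf 6 370 434) (leaf 2 463 467))))))) (node 403 (merge (node 431 (merge (leaf 1 399 432) (node 399 (merge (leaf 1 398 430) (node 371 (merge (leaf 2 367 370) (leaf 2 368 372))))))) (node 436 (merge (leaf 0 400 435) (node 404 (merge (leaf 0 401 437) (node 368 (merge (leaf 3 367 367) (leaf 3 368 369))))))))))))) (merge (node 402 (merge (node 466 (merge (leaf 2 463 467) (node 434 (merge (leaf 7 369 369) (leaf 5 401 529))))) (merge (node 431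 (merge (node 464 (merge (leaf 7 431 463) (node 432 (merge (leaf 6 368 369) (leaf 4 400 529))))) (merge (node 403 (merge (leaf 1 399 432) (node 372 (merge (leaf 2 368 371) (node 404 (merge (leaf 2 369 373) (node 368 (merge (leaf 3 367 367) (leaf 3 368 369))))))))) (node 399 (merge (leaf 1 398 430) (leaf 4 399 463)))))) (merge (node 466 (merge (leaf 2 463 467) (node 434 (merge (leaf 7 369 369) (node 403 (merge (leaf 6 370 371) (node 431 (merge (leaf 1 399 432) (node 463 (merge (leaf 4 399 399) (leaf 7 431 464))))))))))) (node 466 (merge (leaf 2 463 467) (node 434 (merge (leaf 5 401 529) (node 435 (merge (leaf 0 399 399) (node 403 (merge (leaf 6 370 371) (leaf 0 400 436))))))))))))) (merge (node 530 (merge (leaf 0 495 531) (node 529 (merge (leaf 0 494 494) (node 466 (merge (leaf 2 463 467) (node 432 (merge (leaf 4 400 464) (node 402 (merge (leaf 5 401 434) (node 403 (merge (leaf 1 399 431) (node 436 (merge (leaf 0 400 435) (node 404 (merge (leaf 0 401 437) (node 372 (merge (leaf 2 368 371) (leaf 2 369 373))))))))))))))))))) (merge (node 399 (merge (node 431 (merge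 (leaf 4 399 463) (node 402 (merge (leaf 1 398 430) (node 371 (merge (leaf 2 367 370) (node 403 (merge (leaf 2 368 372) (node 367 (merge (leaf 3 366 366) (leaf 3 367 368))))))))))) (merge (node 530 (merge (leaf 0 495 531) (node 529 (merge (leaf 0 494 494) (node 466 (merge (leaf 2 463 467) (node 402 (merge (leaf 5 401 434) (node 370 (merge (leaf 2 367 371) (node 398 (merge (leaf 2 366 369) (node 366 (merge (leaf 3 365 365) (leaf 3 366 367))))))))))))))) (node 530 (merge (leaf 0 495 531) (node 494 (merge (leaf 0 494 529) (node 525 (merge (leaf 1 493 526) (node 493 (merge (leaf 1 492 524) (node 460 (merge (leaf 3 460 461) (node 492 (merge (leaf 3 459 459) (node 463 (merge (leaf 4 399 431) (leaf 2 460 464)))))))))))))))))) (node 402 (merge (node 466 (merge (leaf 2 463 467) (node 434 (merge (leaf 7 369 369) (leaf 5 401 529))))) (merge (node 530 (merge (leaf 0 495 531) (node 466 (merge (leaf 2 463 467) (node 434 (merge (leaf 5 401 529) (node 403 (merge (leaf 6 370 371) (leaf 6 402 435))))))))) (node 399 (merge (node 370 (merge (leaf 2 367 371) (node 398 (merge (leaf 2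 366 369) (node 429 (merge (leaf 1 397 430) (node 397 (merge (leaf 1 396 428) (node 365 (merge (leaf 3 364 364) (leaf 3 365 366))))))))))) (merge (node 366 (merge (leaf 3 366 367) (node 398 (merge (leaf 3 365 365) (node 429 (merge (leaf 1 397 430) (node 397 (merge (leaf 1 396 428) (node 369 (merge (leaf 2 365 368) (leaf 2 366 370))))))))))) (merge (node 367 (merge (leaf 3 366 366) (node 403 (merge (leaf 3 367 368) (node 436 (merge (leaf 0 400 435) (node 404 (merge (leaf 0 401 437) (node 372 (merge (leaf 2 368 371) (leaf 2 369 373))))))))))) (node 531 (merge (leaf 0 495 530) (node 371 (merge (leaf 2 367 370) (node 403 (merge (leaf 2 368 372) (node 436 (merge (leaf 0 400 435) (node 404 (merge (leaf 0 401 437) (node 368 (merge (leaf 3 367 367) (leaf 3 368 369))))))))))))))))))))))))))))))))))))))))) nQ_65 cQ_65 14 (by decide +kernel)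
def nQ_66 : ℕ := 0x100000001000000010000000000000000000000000000000000000000000000000000000000000000000000000000000000000000000000000000000000000000000000000000
def cQ_66 : ℕ := 0x20000000e0000000ee000001ce00000fe7000007ef00000fff800003ff000001ff800003ff000000f8000000a8000000000000000000000000000000000000000000000000000000000000000000000000000
theorem lQ_66 : S nQ_66 cQ_66 15 := S_of_chk [(nQ_64, cQ_64, 13), (nQ_65, cQ_65, 14)] ⟨lQ_64, lQ_65, trivial⟩ (node 497 (merge (node 464 (merge (node 463 (merge (leaf 7 431 431) (node 462 (merge (leaf 0 461 461) (node 498 (merge (leaf 0 462 465) (leaf 3 463 499))))))) (merge (node 432 (merge (node 433 (merge (leaf 6 400 401) (leaf 6 432 465))) (merge (node 400 (merge (leaf 4 400 529) (node 368 (merge (leaf 4 368 465) (node 367 (merge (leaf 7 335 335) (leaf 7 367 399))))))) (node 400 (merge (leaf 4 400 529) (node 401 (merge (leaf 6 368 369) (leaf 6 400 433)))))))) (node 431 (merge (leaf 7 431 463) (node 432 (merge (leaf 7 399 399) (node 400 (merge (leaf 4 400 529) (node 401 (merge (leaf 6 368 369) (leaf 6 400 433))))))))))))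 (merge (node 495 (merge (node 465 (merge (node 433 (merge (leaf 5 400 401) (leaf 5 432 529))) (node 466 (merge (leaf 2 462 494) (node 467 (merge (leaf 1 463 464) (leaf 1 464 468))))))) (merge (node 498 (merge (node 463 (merge (leaf 3 462 462) (node 431 (merge (leaf 4 399 399) (leaf 7 431 464))))) (node 531 (merge (leaf 0 495 530) (node 499 (merge (leaf 0 496 532) (node 467 (merge (leaf 2 463 466) (leaf 2 464 468))))))))) (merge (node 465 (merge (node 433 (merge (leaf 5 400 401) (leaf 5 432 529))) (merge (node 494 (merge (leaf 2 462 466) (node 529 (merge (leaf 0 493 493) (leaf 0 494 530))))) (node 466 (merge (leaf 2 462 494) (node 498 (merge (leaf 2 463 467) (node 530 (merge (leaf 0 495 531) (node 562 (merge (leaf 7 433 433) (leaf 7 465 594)))))))))))) (node 530 (merge (node 531 (merge (leaf 0 495 498) (leaf 3 495 529))) (merge (node 498 (merge (leaf 0 495 531) (node 463 (merge (leaf 3 462 462) (node 464 (merge (leaf 7 431 431) (leaf 3 463 499))))))) (node 494 (merge (leaf 0 494 529) (node 525 (merge (leaf 1 493 526) (node 493 (merge (leaf 1 492 524) (node 464 (merge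 (leaf 2 461 465) (node 463 (merge (leaf 7 431 431) (leaf 2 460 492)))))))))))))))))) (merge (node 464 (merge (node 433 (merge (leaf 6 432 465) (node 432 (merge (leaf 6 400 401) (node 431 (merge (leaf 7 399 399) (leaf 7 431 463))))))) (merge (node 432 (merge (node 433 (merge (leaf 6 400 401) (leaf 6 432 465))) (merge (node 400 (merge (leaf 4 400 529) (node 368 (merge (leaf 4 368 465) (node 367 (merge (leaf 7 335 335) (leaf 7 367 399))))))) (node 400 (merge (leaf 4 400 529) (node 401 (merge (leaf 6 368 369) (leaf 6 400 433)))))))) (merge (node 431 (merge (leaf 7 431 463) (node 432 (merge (leaf 7 399 399) (node 400 (merge (leaf 4 400 529) (node 401 (merge (leaf 6 368 369) (leaf 6 400 433))))))))) (merge (node 431 (merge (leaf 7 431 463) (node 432 (merge (leaf 7 399 399) (node 400 (merge (leaf 4 400 529) (node 368 (merge (leaf 4 368 465) (node 337 (merge (leaf 6 336 369) (node 336 (merge (leaf 6 304 305) (node 335 (merge (leaf 7 303 303) (leaf 7 335 367))))))))))))))) (node 495 (merge (node 465 (merge (leaf 6 432 433) (node 494 (merge (leaf 2 462 466) (leaf 2 461 493)))))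 (merge (node 463 (merge (leaf 7 431 431) (node 498 (merge (leaf 3 463 499) (node 530 (merge (leaf 0 495 531) (node 494 (merge (leaf 0 494 529) (node 525 (merge (leaf 1 493 526) (node 493 (merge (leaf 2 460 492) (leaf 1 492 524))))))))))))) (node 465 (merge (leaf 6 432 433) (node 466 (merge (leaf 1 463 467) (node 463 (merge (leaf 7 431 431) (node 498 (merge (leaf 0 463 499) (node 434 (merge (leaf 2 431 435) (node 402 (merge (leaf 5 369 370) (leaf 5 401 529))))))))))))))))))))) (merge (node 464 (merge (node 433 (merge (leaf 6 432 465) (node 432 (merge (leaf 6 400 401) (node 431 (merge (leaf 7 399 399) (leaf 7 431 463))))))) (merge (node 432 (merge (node 433 (merge (leaf 6 400 401) (leaf 6 432 465))) (merge (node 400 (merge (leaf 4 400 529) (node 368 (merge (leaf 4 368 465) (node 367 (merge (leaf 7 335 335) (leaf 7 367 399))))))) (node 400 (merge (leaf 4 400 529) (node 401 (merge (leaf 6 368 369) (leaf 6 400 433)))))))) (merge (node 431 (merge (leaf 7 431 463) (node 432 (merge (leaf 7 399 399) (node 400 (merge (leaf 4 400 529) (node 401 (merge (leaf 6 368 369) (leaf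 6 400 433))))))))) (merge (node 431 (merge (leaf 7 431 463) (node 432 (merge (leaf 7 399 399) (node 400 (merge (leaf 4 400 529) (node 368 (merge (leaf 4 368 465) (node 337 (merge (leaf 6 336 369) (node 336 (merge (leaf 6 304 305) (node 335 (merge (leaf 7 303 303) (leaf 7 335 367))))))))))))))) (node 559 (merge (leaf 5 463 591) (node 465 (merge (leaf 6 432 433) (node 463 (merge (leaf 7 431 431) (node 462 (merge (leaf 0 461 461) (node 494 (merge (leaf 1 461 493) (node 495 (merge (leaf 1 462 466) (node 526 (merge (leaf 1 493 525) (node 558 (merge (leaf 6 462 590) (node 557 (merge (leaf 2 525 529) (leaf 5 461 589)))))))))))))))))))))))) (merge (node 498 (merge (node 499 (merge (node 468 (merge (leaf 2 464 467) (node 500 (merge (leaf 2 465 469) (leaf 1 496 529))))) (merge (node 532 (merge (leaf 0 496 531) (node 500 (merge (leaf 1 496 529) (leaf 0 497 533))))) (node 531 (merge (leaf 0 496 532) (node 495 (merge (leaf 0 495 530) (node 467 (merge (leaf 2 463 466) (leaf 2 464 468)))))))))) (merge (node 495 (merge (node 463 (merge (leaf 3 462 462) (node 431 (merge (leaf 4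 399 399) (leaf 7 431 464))))) (node 531 (merge (leaf 0 495 530) (node 499 (merge (leaf 0 496 532) (node 467 (merge (leaf 2 463 466) (leaf 2 464 468))))))))) (merge (node 463 (merge (node 464 (merge (leaf 7 431 431) (node 462 (merge (leaf 0 461 461) (leaf 0 462 465))))) (merge (node 495 (merge (leaf 3 462 462) (node 431 (merge (leaf 4 399 399) (leaf 7 431 464))))) (merge (node 495 (merge (leaf 3 462 462) (node 466 (merge (leaf 2 463 467) (node 494 (merge (leaf 2 462 465) (node 529 (merge (leaf 0 493 493) (leaf 0 494 530))))))))) (node 431 (merge (leaf 7 431 464) (node 495 (merge (leaf 4 399 399) (node 466 (merge (leaf 2 463 467) (node 494 (merge (leaf 2 462 465) (node 529 (merge (leaf 0 493 493) (leaf 0 494 530))))))))))))))) (merge (node 463 (merge (node 464 (merge (leaf 7 431 431) (leaf 3 463 499))) (merge (node 462 (merge (leaf 3 462 495) (node 464 (merge (leaf 7 431 431) (leaf 0 461 461))))) (merge (node 495 (merge (leaf 3 462 462) (node 467 (merge (leaf 2 463 466) (node 499 (merge (leaf 3 463 464) (leaf 2 464 468))))))) (node 495 (merge (leaf 3 462 462) (node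 467 (merge (leaf 2 463 466) (node 499 (merge (leaf 2 464 468) (node 532 (merge (leaf 0 496 531) (node 500 (merge (leaf 1 496 529) (leaf 0 497 533))))))))))))))) (merge (node 495 (merge (node 463 (merge (leaf 3 462 462) (node 464 (merge (leaf 7 431 431) (leaf 3 463 499))))) (merge (node 530 (merge (leaf 0 495 531) (node 494 (merge (leaf 0 494 529) (node 525 (merge (leaf 1 493 526) (node 493 (merge (leaf 1 492 524) (node 461 (merge (leaf 3 460 460) (leaf 3 461 462))))))))))) (node 499 (merge (node 532 (merge (leaf 0 496 531) (node 500 (merge (leaf 1 496 529) (leaf 0 497 533))))) (merge (node 531 (merge (leaf 0 495 530) (leaf 0 496 532))) (node 529 (merge (leaf 1 496 500) (node 494 (merge (leaf 0 493 493) (leaf 0 494 530))))))))))) (node 499 (merge (node 532 (merge (leaf 0 496 531) (node 500 (merge (leaf 1 496 529) (leaf 0 497 533))))) (merge (node 532 (merge (leaf 0 496 531) (node 500 (merge (leaf 0 497 533) (node 468 (merge (leaf 2 464 467) (leaf 2 465 469))))))) (merge (node 500 (merge (leaf 1 496 529) (node 533 (merge (leaf 0 497 532) (node 501 (merge (leaf 0 498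 534) (node 469 (merge (leaf 2 465 468) (leaf 2 466 470))))))))) (merge (node 529 (merge (leaf 1 496 500) (node 467 (merge (leaf 2 464 468) (node 464 (merge (leaf 3 463 463) (node 559 (merge (leaf 5 463 591) (node 530 (merge (leaf 1 527 531) (node 435 (merge (leaf 5 402 403) (node 562 (merge (leaf 6 434 466) (leaf 6 466 594))))))))))))))) (node 531 (merge (leaf 0 496 532) (node 467 (merge (leaf 2 464 468) (node 464 (merge (leaf 3 463 463) (node 559 (merge (leaf 5 463 591) (node 530 (merge (leaf 1 527 529) (node 435 (merge (leaf 5 402 403) (leaf 5 434 562)))))))))))))))))))))))) (merge (node 498 (merge (node 495 (merge (node 463 (merge (leaf 3 462 462) (node 431 (merge (leaf 4 399 399) (leaf 7 431 464))))) (node 531 (merge (leaf 0 495 530) (node 499 (merge (leaf 0 496 532) (node 467 (merge (leaf 2 463 466) (leaf 2 464 468))))))))) (merge (node 464 (merge (node 463 (merge (leaf 7 431 431) (leaf 3 463 499))) (merge (node 433 (merge (leaf 6 432 465) (node 432 (merge (leaf 6 400 401) (node 431 (merge (leaf 7 399 399) (leaf 7 431 463))))))) (node 465 (merge (leaf 6 432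 433) (node 499 (merge (leaf 3 464 500) (node 531 (merge (leaf 0 496 532) (node 495 (merge (leaf 0 495 530) (node 494 (merge (leaf 2 462 466) (leaf 2 461 493)))))))))))))) (merge (node 464 (merge (node 463 (merge (leaf 7 431 431) (leaf 3 463 499))) (merge (node 463 (merge (leaf 7 431 431) (node 462 (merge (leaf 0 461 461) (leaf 0 462 465))))) (node 465 (merge (leaf 6 432 433) (node 499 (merge (leaf 3 464 500) (node 531 (merge (leaf 0 496 532) (node 530 (merge (leaf 0 495 495) (node 467 (merge (leaf 2 464 468) (node 562 (merge (leaf 5 434 435) (leaf 6 466 594)))))))))))))))) (merge (node 495 (merge (node 463 (merge (leaf 3 462 462) (node 431 (merge (leaf 4 399 399) (leaf 7 431 464))))) (merge (node 466 (merge (leaf 2 463 467) (node 494 (merge (leaf 2 462 465) (node 525 (merge (leaf 1 493 526) (node 493 (merge (leaf 1 492 524) (node 461 (merge (leaf 3 460 460) (leaf 3 461 462))))))))))) (node 465 (merge (node 433 (merge (leaf 5 400 401) (leaf 6 432 464))) (merge (node 466 (merge (leaf 2 462 494) (node 467 (merge (leaf 1 463 464) (leaf 1 464 468))))) (node 466 (merge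 (leaf 2 462 494) (node 498 (merge (leaf 2 463 467) (node 530 (merge (leaf 0 495 531) (node 562 (merge (leaf 7 433 433) (leaf 7 465 594))))))))))))))) (merge (node 467 (merge (node 468 (merge (leaf 2 464 499) (node 466 (merge (leaf 1 464 465) (leaf 1 465 469))))) (merge (node 466 (merge (leaf 2 463 495) (node 468 (merge (leaf 1 464 465) (leaf 1 465 469))))) (merge (node 499 (merge (leaf 2 464 468) (node 531 (merge (leaf 0 496 532) (node 530 (merge (leaf 0 495 495) (node 562 (merge (leaf 5 434 435) (leaf 6 466 594))))))))) (node 530 (merge (node 495 (merge (leaf 2 463 466) (leaf 0 495 531))) (merge (node 531 (merge (leaf 0 495 495) (node 532 (merge (leaf 0 496 499) (leaf 3 497 533))))) (merge (node 466 (merge (leaf 2 463 495) (node 562 (merge (leaf 6 434 435) (node 594 (merge (leaf 7 465 465) (leaf 6 466 499))))))) (node 562 (merge (node 594 (merge (leaf 7 465 465) (leaf 6 466 499))) (merge (node 466 (merge (leaf 6 434 435) (node 595 (merge (leaf 4 466 563) (node 594 (merge (leaf 7 465 465) (leaf 4 498 627))))))) (merge (node 466 (merge (leaf 6 434 435) (node 595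 (merge (leaf 4 466 563) (node 594 (merge (leaf 6 466 499) (leaf 4 498 627))))))) (node 466 (merge (leaf 6 434 435) (node 563 (merge (leaf 4 466 595) (node 531 (merge (leaf 4 434 434) (node 532 (merge (leaf 0 496 499) (leaf 3 497 533))))))))))))))))))))) (merge (node 499 (merge (node 464 (merge (leaf 3 463 463) (node 465 (merge (leaf 6 432 433) (leaf 3 464 500))))) (merge (node 532 (merge (leaf 0 496 531) (node 500 (merge (leaf 0 497 533) (node 468 (merge (leaf 2 464 467) (leaf 2 465 469))))))) (node 531 (merge (leaf 0 496 532) (node 467 (merge (leaf 2 464 468) (node 464 (merge (leaf 3 463 463) (node 433 (merge (leaf 6 432 465) (node 432 (merge (leaf 6 400 401) (node 431 (merge (leaf 7 399 399) (node 434 (merge (leaf 0 431 466) (node 402 (merge (leaf 2 399 403) (leaf 7 402 435)))))))))))))))))))) (node 464 (merge (node 463 (merge (leaf 7 431 431) (leaf 3 463 499))) (merge (node 463 (merge (leaf 7 431 431) (node 462 (merge (leaf 0 461 461) (leaf 0 462 465))))) (merge (node 465 (merge (leaf 6 432 433) (node 499 (merge (leaf 3 463 463) (leaf 3 464 500))))) (node 465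 (merge (leaf 6 432 433) (node 499 (merge (leaf 3 464 500) (node 467 (merge (leaf 2 464 468) (node 466 (merge (leaf 1 463 495) (node 435 (merge (leaf 2 432 436) (node 530 (merge (leaf 5 402 403) (leaf 6 434 562)))))))))))))))))))))))) (merge (node 498 (merge (node 495 (merge (node 466 (merge (leaf 2 463 467) (node 465 (merge (leaf 2 462 494) (node 433 (merge (leaf 5 400 401) (leaf 5 432 529))))))) (merge (node 462 (merge (leaf 3 462 463) (node 494 (merge (leaf 3 461 461) (node 529 (merge (leaf 0 493 493) (leaf 0 494 530))))))) (merge (node 530 (merge (leaf 0 495 531) (node 466 (merge (leaf 2 463 467) (node 465 (merge (leaf 2 462 494) (node 433 (merge (leaf 4 401 401) (leaf 7 433 562))))))))) (node 433 (merge (node 465 (merge (leaf 5 400 401) (leaf 5 432 529))) (merge (node 530 (merge (leaf 0 495 531) (node 466 (merge (leaf 2 463 467) (node 401 (merge (leaf 7 401 434) (leaf 4 401 465))))))) (merge (node 530 (merge (leaf 0 495 531) (node 466 (merge (leaf 2 463 467) (node 465 (merge (leaf 5 432 529) (leaf 7 433 562))))))) (node 530 (merge (leaf 0 495 531) (node 466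 (merge (leaf 2 463 467) (node 434 (merge (leaf 7 401 401) (node 402 (merge (leaf 5 401 529) (node 403 (merge (leaf 6 370 371) (leaf 6 402 435))))))))))))))))))) (merge (node 499 (merge (node 468 (merge (leaf 2 464 467) (node 500 (merge (leaf 2 465 469) (leaf 1 496 529))))) (merge (node 532 (merge (leaf 0 496 531) (node 500 (merge (leaf 1 496 529) (leaf 0 497 533))))) (node 531 (merge (leaf 0 496 532) (node 530 (merge (leaf 0 495 495) (node 467 (merge (leaf 2 464 468) (node 562 (merge (leaf 5 434 435) (leaf 6 466 594)))))))))))) (merge (node 499 (merge (node 468 (merge (leaf 2 464 467) (node 500 (merge (leaf 2 465 469) (leaf 1 496 529))))) (merge (node 532 (merge (leaf 0 496 531) (node 500 (merge (leaf 1 496 529) (leaf 0 497 533))))) (node 531 (merge (leaf 0 496 532) (node 467 (merge (leaf 2 464 468) (node 466 (merge (leaf 2 463 495) (node 563 (merge (leaf 7 434 434) (leaf 7 466 595)))))))))))) (merge (node 467 (merge (node 468 (merge (leaf 2 464 499) (node 466 (merge (leaf 1 464 465) (leaf 1 465 469))))) (merge (node 466 (merge (leaf 2 463 495) (node 468 (merge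 (leaf 1 464 465) (leaf 1 465 469))))) (merge (node 499 (merge (leaf 2 464 468) (node 531 (merge (leaf 0 496 532) (node 530 (merge (leaf 0 495 495) (node 562 (merge (leaf 5 434 435) (leaf 6 466 594))))))))) (node 530 (merge (node 495 (merge (leaf 2 463 466) (leaf 0 495 531))) (merge (node 531 (merge (leaf 0 495 495) (node 532 (merge (leaf 0 496 499) (leaf 3 497 533))))) (merge (node 466 (merge (leaf 2 463 495) (node 562 (merge (leaf 6 434 435) (node 594 (merge (leaf 7 465 465) (leaf 6 466 499))))))) (node 562 (merge (node 594 (merge (leaf 7 465 465) (leaf 6 466 499))) (merge (node 466 (merge (leaf 6 434 435) (node 595 (merge (leaf 4 466 563) (node 594 (merge (leaf 7 465 465) (leaf 4 498 627))))))) (merge (node 466 (merge (leaf 6 434 435) (node 595 (merge (leaf 4 466 563) (node 594 (merge (leaf 6 466 499) (leaf 4 498 627))))))) (node 466 (merge (leaf 6 434 435) (node 563 (merge (leaf 4 466 595) (node 531 (merge (leaf 4 434 434) (node 532 (merge (leaf 0 496 499) (leaf 3 497 533))))))))))))))))))))) (merge (node 499 (merge (node 468 (merge (leaf 2 464 467) (node 500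 (merge (leaf 2 465 469) (leaf 1 496 529))))) (merge (node 532 (merge (leaf 0 496 531) (node 500 (merge (leaf 1 496 529) (leaf 0 497 533))))) (merge (node 532 (merge (leaf 0 496 531) (node 500 (merge (leaf 0 497 533) (node 468 (merge (leaf 2 464 467) (leaf 2 465 469))))))) (node 531 (merge (leaf 0 496 532) (node 434 (merge (node 466 (merge (leaf 4 402 402) (node 563 (merge (leaf 4 434 530) (leaf 7 466 595))))) (merge (node 467 (merge (leaf 2 464 468) (node 402 (merge (leaf 7 402 435) (leaf 4 402 466))))) (merge (node 467 (merge (leaf 2 464 468) (node 435 (merge (leaf 7 402 402) (node 530 (merge (leaf 5 402 403) (leaf 5 434 562))))))) (node 467 (merge (leaf 2 464 468) (node 563 (merge (leaf 7 434 466) (node 562 (merge (leaf 5 466 594) (node 435 (merge (leaf 5 434 530) (node 404 (merge (leaf 6 403 436) (node 403 (merge (leaf 6 371 372) (node 433 (merge (leaf 2 400 432) (node 465 (merge (leaf 5 400 401) (leaf 5 432 529))))))))))))))))))))))))))) (merge (node 465 (merge (node 433 (merge (leaf 5 400 401) (leaf 5 432 529))) (merge (node 530 (merge (node 433 (merge (leaf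 4 401 401) (node 562 (merge (leaf 7 433 466) (leaf 7 465 594))))) (node 531 (merge (leaf 0 495 495) (node 532 (merge (leaf 0 496 499) (leaf 3 497 533))))))) (node 495 (merge (node 494 (merge (leaf 2 462 466) (node 529 (merge (leaf 0 493 493) (leaf 0 494 530))))) (merge (node 462 (merge (leaf 3 462 463) (node 494 (merge (leaf 3 461 461) (node 529 (merge (leaf 0 493 493) (leaf 0 494 530))))))) (merge (node 494 (merge (leaf 2 462 466) (node 525 (merge (leaf 1 493 526) (node 493 (merge (leaf 1 492 524) (node 461 (merge (leaf 3 460 460) (leaf 3 461 462))))))))) (node 531 (merge (leaf 0 495 530) (node 499 (merge (leaf 0 496 532) (node 500 (merge (leaf 1 496 529) (node 469 (merge (leaf 2 465 468) (node 501 (merge (leaf 3 465 466) (leaf 2 466 470)))))))))))))))))) (node 499 (merge (node 468 (merge (leaf 2 464 467) (node 500 (merge (leaf 2 465 469) (leaf 1 496 529))))) (merge (node 467 (merge (leaf 2 464 468) (node 495 (merge (leaf 2 463 466) (node 462 (merge (leaf 3 462 463) (node 494 (merge (leaf 3 461 461) (node 529 (merge (leaf 0 493 493) (leaf 0 494 530))))))))))) (merge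 (node 500 (merge (leaf 1 496 529) (node 533 (merge (leaf 0 497 532) (node 501 (merge (leaf 0 498 534) (node 469 (merge (leaf 2 465 468) (leaf 2 466 470))))))))) (merge (node 500 (merge (leaf 1 496 529) (node 533 (merge (leaf 0 497 532) (node 501 (merge (leaf 0 498 534) (node 470 (merge (leaf 2 466 469) (node 502 (merge (leaf 2 467 471) (node 466 (merge (leaf 3 465 465) (leaf 3 466 467))))))))))))) (node 500 (merge (node 468 (merge (leaf 2 464 467) (leaf 2 465 469))) (merge (node 533 (merge (leaf 0 497 532) (node 501 (merge (leaf 0 498 534) (node 469 (merge (leaf 2 465 468) (leaf 2 466 470))))))) (merge (node 533 (merge (leaf 0 497 532) (node 501 (merge (leaf 0 498 534) (node 470 (merge (leaf 2 466 469) (node 502 (merge (leaf 2 467 471) (node 466 (merge (leaf 3 465 465) (leaf 3 466 467))))))))))) (node 467 (merge (leaf 2 464 468) (node 466 (merge (leaf 2 463 495) (node 501 (merge (leaf 3 465 465) (leaf 3 466 502))))))))))))))))))))))) (merge (hyp 0) (merge (node 498 (merge (node 499 (merge (node 468 (merge (leaf 2 464 467) (node 500 (merge (leaf 2 465 469) (leaf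 1 496 529))))) (merge (node 532 (merge (leaf 0 496 531) (node 500 (merge (leaf 1 496 529) (leaf 0 497 533))))) (node 531 (merge (leaf 0 496 532) (node 495 (merge (leaf 0 495 530) (node 467 (merge (leaf 2 463 466) (leaf 2 464 468)))))))))) (merge (node 464 (merge (node 463 (merge (leaf 3 463 499) (node 462 (merge (leaf 0 461 461) (leaf 3 462 495))))) (node 432 (merge (node 433 (merge (leaf 6 400 401) (leaf 6 432 465))) (merge (node 400 (merge (leaf 4 400 529) (node 368 (merge (leaf 4 368 465) (node 367 (merge (leaf 7 335 335) (leaf 7 367 399))))))) (node 400 (merge (leaf 4 400 529) (node 401 (merge (leaf 6 368 369) (leaf 6 400 433)))))))))) (merge (node 499 (merge (node 468 (merge (leaf 2 464 467) (node 500 (merge (leaf 2 465 469) (leaf 1 496 529))))) (merge (node 532 (merge (leaf 0 496 531) (node 500 (merge (leaf 1 496 529) (leaf 0 497 533))))) (merge (node 468 (merge (leaf 2 464 467) (node 500 (merge (leaf 2 465 469) (node 533 (merge (leaf 0 497 532) (node 501 (merge (leaf 0 498 534) (node 465 (merge (leaf 3 464 464) (leaf 3 465 466))))))))))) (node 531 (merge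 (leaf 0 496 532) (node 434 (merge (node 466 (merge (leaf 4 402 402) (node 563 (merge (leaf 4 434 530) (leaf 7 466 595))))) (merge (node 467 (merge (leaf 2 464 468) (node 402 (merge (leaf 7 402 435) (leaf 4 402 466))))) (merge (node 467 (merge (leaf 2 464 468) (node 435 (merge (leaf 7 402 402) (node 530 (merge (leaf 5 402 403) (leaf 5 434 562))))))) (node 467 (merge (leaf 2 464 468) (node 563 (merge (leaf 7 434 466) (node 562 (merge (leaf 5 466 594) (node 435 (merge (leaf 5 434 530) (node 404 (merge (leaf 6 403 436) (node 403 (merge (leaf 6 371 372) (node 433 (merge (leaf 2 400 432) (node 465 (merge (leaf 5 400 401) (leaf 5 432 529))))))))))))))))))))))))))) (merge (node 531 (merge (node 530 (merge (leaf 0 495 495) (node 532 (merge (leaf 0 496 499) (leaf 3 497 533))))) (merge (node 499 (merge (leaf 0 496 532) (node 467 (merge (leaf 2 464 468) (node 466 (merge (leaf 2 463 495) (node 563 (merge (leaf 7 434 434) (leaf 7 466 595))))))))) (merge (node 495 (merge (leaf 0 495 530) (node 466 (merge (leaf 2 463 467) (node 494 (merge (leaf 2 462 465) (node 525 (merge (leaf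 1 493 526) (node 493 (merge (leaf 1 492 524) (node 461 (merge (leaf 3 460 460) (leaf 3 461 462))))))))))))) (node 499 (merge (leaf 0 496 532) (node 468 (merge (leaf 2 464 467) (node 500 (merge (leaf 2 465 469) (node 465 (merge (leaf 3 464 464) (node 501 (merge (leaf 3 465 466) (node 534 (merge (leaf 0 498 533) (node 502 (merge (leaf 1 498 530) (leaf 0 499 535))))))))))))))))))) (node 466 (merge (node 467 (merge (leaf 2 463 495) (node 468 (merge (leaf 1 464 465) (leaf 1 465 469))))) (merge (node 495 (merge (leaf 2 463 467) (node 530 (merge (leaf 0 495 531) (node 494 (merge (leaf 0 494 529) (node 525 (merge (leaf 1 493 526) (node 493 (merge (leaf 1 492 524) (node 461 (merge (leaf 3 460 460) (leaf 3 461 462))))))))))))) (merge (node 530 (merge (node 531 (merge (leaf 0 495 495) (node 532 (merge (leaf 3 496 529) (leaf 3 497 533))))) (merge (node 531 (merge (leaf 0 495 495) (node 434 (merge (leaf 4 434 563) (node 433 (merge (leaf 7 401 401) (node 465 (merge (leaf 6 432 464) (leaf 7 433 562))))))))) (node 562 (merge (node 595 (merge (leaf 4 466 563) (node 594 (merge (leaf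 7 465 465) (leaf 4 498 627))))) (merge (node 595 (merge (leaf 4 466 563) (node 594 (merge (leaf 4 498 627) (node 625 (merge (leaf 5 497 593) (node 626 (merge (leaf 7 497 529) (leaf 5 529 657))))))))) (node 433 (merge (leaf 7 433 465) (node 434 (merge (leaf 7 401 401) (node 402 (merge (leaf 5 401 529) (node 403 (merge (leaf 6 370 371) (leaf 6 402 435))))))))))))))) (node 434 (merge (node 402 (merge (leaf 5 401 529) (node 371 (merge (leaf 6 370 403) (node 370 (merge (leaf 6 338 339) (node 369 (merge (leaf 7 337 337) (leaf 7 369 401))))))))) (merge (node 401 (merge (node 433 (merge (leaf 5 400 465) (leaf 7 401 530))) (merge (node 402 (merge (leaf 7 369 369) (node 370 (merge (leaf 5 369 465) (node 371 (merge (leaf 6 338 339) (leaf 6 370 403))))))) (node 369 (merge (leaf 7 369 402) (node 433 (merge (leaf 4 337 337) (leaf 7 401 530)))))))) (merge (node 402 (merge (leaf 5 401 529) (node 370 (merge (leaf 5 369 465) (node 339 (merge (leaf 6 338 371) (node 338 (merge (leaf 6 306 307) (node 337 (merge (leaf 7 305 305) (leaf 7 337 369))))))))))) (node 530 (merge (node 435 (merge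 (leaf 6 402 403) (node 562 (merge (leaf 6 434 467) (node 433 (merge (leaf 7 401 401) (leaf 7 433 465))))))) (merge (node 563 (merge (leaf 4 434 531) (node 562 (merge (leaf 4 466 595) (node 435 (merge (leaf 6 402 403) (leaf 6 434 467))))))) (merge (node 563 (merge (leaf 4 434 531) (node 562 (merge (leaf 4 466 595) (node 433 (merge (leaf 7 401 401) (leaf 7 433 465))))))) (node 531 (merge (leaf 4 434 563) (node 532 (merge (leaf 3 496 529) (leaf 3 497 533)))))))))))))))))))))) (hyp 1))))))))))) nQ_66 cQ_66 15 (by decide +kernel)
def nQ_67 : ℕ := 0x100000001000000012000000000000000000000000000000000000000000000000000000000000000000000000000000000000000000000000000000000000000000000000000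
def cQ_67 : ℕ := 0x250000003f0000003fc000003fc000000fc0000027800000090000003f0000003f0000002f000000000000000000000000000000000000000000000000000000000000000000000000000000000000000000000000000
theorem lQ_67 : S nQ_67 cQ_67 14 := S_of_chk [] trivial (node 557 (merge (node 559 (merge (node 591 (merge (leaf 5 463 464) (node 623 (merge (leaf 5 495 592) (leaf 6 527 655))))) (node 558 (merge (leaf 2 525 529) (node 589 (merge (leaf 1 556 588) (node 525 (merge (leaf 3 524 524) (node 461 (merge (leaf 4 461 590) (node 460 (merge (leaf 7 428 428) (leaf 7 460 492))))))))))))) (merge (node 591 (merge (node 592 (merge (leaf 5 495 623) (node 593 (merge (leaf 4 496 625) (node 590 (merge (leaf 3 557 558) (node 621 (merge (leaf 1 589 622) (node 589 (merge (leaf 3 556 556) (leaf 1 588 620))))))))))) (node 464 (merge (leaf 5 463 559) (node 433 (merge (leaf 6 432 465) (node 432 (merge (leaf 6 400 401) (node 431 (merge (leaf 7 399 399) (leaf 7 431 463))))))))))) (merge (node 464 (merge (node 433 (merge (leaf 6 432 465) (node 432 (merge (leaf 6 400 401) (node 431 (merge (leaf 7 399 399)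 (leaf 7 431 463))))))) (node 559 (merge (leaf 5 463 591) (node 558 (merge (leaf 2 525 529) (node 588 (merge (leaf 1 556 589) (node 556 (merge (leaf 1 555 587) (node 524 (merge (leaf 3 523 523) (leaf 3 524 525))))))))))))) (merge (node 559 (merge (node 591 (merge (leaf 5 463 464) (node 623 (merge (leaf 5 495 592) (leaf 6 527 655))))) (merge (node 464 (merge (leaf 5 463 591) (node 433 (merge (leaf 6 432 465) (node 432 (merge (leaf 6 400 401) (node 431 (merge (leaf 7 399 399) (leaf 7 431 463))))))))) (merge (node 558 (merge (leaf 2 525 529) (node 592 (merge (leaf 0 557 593) (node 591 (merge (leaf 0 556 556) (leaf 5 495 623))))))) (node 558 (merge (leaf 2 525 529) (node 592 (merge (leaf 0 557 593) (node 525 (merge (leaf 3 524 524) (node 463 (merge (leaf 7 463 495) (node 464 (merge (leaf 7 431 431) (node 433 (merge (leaf 6 432 465) (node 432 (merge (leaf 6 400 401) (node 461 (merge (leaf 2 429 462) (node 493 (merge (leaf 4 461 590) (node 429 (merge (leaf 4 429 526) (node 428 (merge (leaf 7 396 396) (leaf 7 428 460))))))))))))))))))))))))))) (merge (node 464 (merge (node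 433 (merge (leaf 6 432 465) (node 432 (merge (leaf 6 400 401) (node 431 (merge (leaf 7 399 399) (leaf 7 431 463))))))) (merge (node 591 (merge (leaf 5 463 559) (node 592 (merge (leaf 5 495 623) (node 463 (merge (leaf 7 431 431) (leaf 7 463 495))))))) (merge (node 589 (merge (node 591 (merge (leaf 5 463 559) (node 592 (merge (leaf 5 495 623) (node 625 (merge (leaf 4 496 593) (node 624 (merge (leaf 0 589 590) (leaf 4 528 657))))))))) (merge (node 592 (merge (node 625 (merge (leaf 4 496 593) (node 624 (merge (leaf 4 528 657) (node 623 (merge (leaf 5 495 591) (leaf 5 527 655))))))) (merge (node 591 (merge (leaf 5 495 623) (node 590 (merge (leaf 3 556 556) (node 621 (merge (leaf 1 588 620) (node 525 (merge (leaf 4 493 622) (node 492 (merge (leaf 7 460 460) (leaf 7 492 524))))))))))) (merge (node 625 (merge (leaf 4 496 593) (node 624 (merge (leaf 4 528 657) (node 590 (merge (leaf 0 589 591) (node 525 (merge (leaf 4 493 622) (node 620 (merge (leaf 5 492 588) (node 621 (merge (leaf 5 524 652) (node 492 (merge (leaf 7 460 460) (leaf 7 492 524))))))))))))))) (node 625 (merge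 (leaf 4 496 593) (node 624 (merge (leaf 4 528 657) (node 623 (merge (leaf 5 527 655) (node 622 (merge (leaf 3 589 590) (node 653 (merge (leaf 1 621 654) (node 621 (merge (leaf 3 588 588) (leaf 1 620 652))))))))))))))))) (merge (node 461 (merge (node 525 (merge (node 588 (merge (leaf 5 460 556) (leaf 5 492 620))) (node 622 (merge (leaf 4 493 590) (node 621 (merge (leaf 4 525 654) (node 492 (merge (leaf 7 460 460) (leaf 7 492 524))))))))) (merge (node 433 (merge (leaf 6 432 465) (node 432 (merge (leaf 6 400 401) (node 431 (merge (leaf 7 399 399) (node 430 (merge (leaf 1 429 462) (node 429 (merge (leaf 1 428 460) (node 397 (merge (leaf 3 396 396) (leaf 3 397 398))))))))))))) (node 433 (merge (leaf 6 432 465) (node 432 (merge (leaf 6 400 401) (node 431 (merge (leaf 7 399 399) (node 430 (merge (leaf 1 429 462) (node 398 (merge (leaf 3 397 397) (node 525 (merge (leaf 6 397 429) (node 588 (merge (leaf 5 460 556) (leaf 5 492 620)))))))))))))))))) (node 461 (merge (node 592 (merge (node 591 (merge (leaf 5 463 559) (leaf 5 495 623))) (node 525 (merge (node 588 (merge (leaf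 5 460 556) (leaf 5 492 620))) (node 460 (merge (leaf 7 428 428) (leaf 7 460 492))))))) (merge (node 433 (merge (leaf 6 432 465) (node 432 (merge (leaf 6 400 401) (node 431 (merge (leaf 7 399 399) (node 430 (merge (leaf 1 429 462) (node 429 (merge (leaf 1 428 460) (node 397 (merge (leaf 3 396 396) (leaf 3 397 398))))))))))))) (node 433 (merge (leaf 6 432 465) (node 432 (merge (leaf 6 400 401) (node 431 (merge (leaf 7 399 399) (node 430 (merge (leaf 1 429 462) (node 398 (merge (leaf 3 397 397) (node 525 (merge (leaf 6 397 429) (node 588 (merge (leaf 5 460 556) (leaf 5 492 620)))))))))))))))))))))) (node 525 (merge (node 461 (merge (node 428 (merge (leaf 7 428 460) (node 430 (merge (leaf 6 429 462) (node 429 (merge (leaf 7 396 396) (leaf 6 397 398))))))) (merge (node 588 (merge (leaf 5 460 556) (node 589 (merge (leaf 5 492 620) (node 460 (merge (leaf 7 428 428) (leaf 7 460 492))))))) (merge (node 429 (merge (node 556 (merge (leaf 5 428 524) (leaf 5 460 588))) (node 430 (merge (leaf 6 397 398) (leaf 6 429 462))))) (node 588 (merge (leaf 5 460 556) (node 589 (merge (leaf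 5 492 620) (node 622 (merge (leaf 4 493 590) (node 621 (merge (leaf 4 525 654) (node 492 (merge (leaf 7 460 460) (leaf 7 492 524))))))))))))))) (merge (node 591 (merge (leaf 5 463 559) (node 592 (merge (leaf 5 495 623) (node 625 (merge (leaf 4 496 593) (node 624 (merge (leaf 4 528 657) (node 589 (merge (leaf 0 589 590) (node 620 (merge (leaf 5 492 588) (node 621 (merge (leaf 5 524 652) (node 492 (merge (leaf 7 460 460) (leaf 7 492 524))))))))))))))))) (merge (node 433 (merge (leaf 6 432 465) (node 591 (merge (leaf 5 463 559) (node 592 (merge (leaf 5 495 623) (node 432 (merge (leaf 6 400 401) (node 463 (merge (leaf 7 463 495) (node 461 (merge (leaf 2 429 462) (node 556 (merge (leaf 5 460 588) (node 429 (merge (leaf 5 428 524) (node 428 (merge (leaf 7 396 396) (leaf 7 428 460))))))))))))))))))) (merge (node 433 (merge (leaf 6 432 465) (node 591 (merge (leaf 5 463 559) (node 592 (merge (leaf 5 495 623) (node 432 (merge (leaf 6 400 401) (node 463 (merge (leaf 7 463 495) (node 461 (merge (leaf 2 429 462) (node 460 (merge (leaf 7 428 428) (node 589 (merge (leaf 7 460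 492) (node 590 (merge (leaf 3 556 556) (leaf 4 493 622))))))))))))))))))) (node 433 (merge (leaf 6 432 465) (node 591 (merge (leaf 5 463 559) (node 592 (merge (leaf 5 495 623) (node 432 (merge (leaf 6 400 401) (node 463 (merge (leaf 7 463 495) (node 461 (merge (leaf 2 429 462) (node 556 (merge (leaf 5 460 588) (node 589 (merge (leaf 3 556 590) (node 524 (merge (leaf 5 428 429) (node 621 (merge (leaf 7 492 492) (leaf 7 524 653)))))))))))))))))))))))))))))) (merge (node 592 (merge (node 625 (merge (leaf 4 496 593) (node 624 (merge (leaf 4 528 657) (node 623 (merge (leaf 5 495 591) (leaf 5 527 655))))))) (merge (node 593 (merge (leaf 4 496 625) (node 591 (merge (leaf 5 495 623) (node 590 (merge (leaf 3 557 558) (node 621 (merge (leaf 1 589 622) (node 589 (merge (leaf 3 556 556) (leaf 1 588 620))))))))))) (merge (node 590 (merge (node 591 (merge (leaf 5 495 623) (node 556 (merge (leaf 3 556 589) (node 558 (merge (leaf 0 555 555) (leaf 3 557 593))))))) (merge (node 591 (merge (leaf 5 495 623) (node 558 (merge (leaf 3 557 593) (node 525 (merge (leaf 4 461 461) (node 622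 (merge (leaf 7 493 526) (leaf 7 525 654))))))))) (merge (node 591 (merge (leaf 5 495 623) (node 589 (merge (leaf 3 556 556) (node 621 (merge (leaf 1 588 620) (node 525 (merge (leaf 4 493 622) (node 492 (merge (leaf 7 460 460) (leaf 7 492 524))))))))))) (node 463 (merge (leaf 7 463 495) (node 464 (merge (leaf 7 431 431) (node 433 (merge (leaf 6 432 465) (node 432 (merge (leaf 6 400 401) (node 461 (merge (leaf 2 429 462) (node 525 (merge (leaf 4 461 558) (node 589 (merge (leaf 4 493 622) (node 460 (merge (leaf 7 428 428) (leaf 7 460 492))))))))))))))))))))) (merge (node 590 (merge (node 593 (merge (leaf 4 496 625) (node 591 (merge (leaf 3 557 558) (node 621 (merge (leaf 1 589 622) (node 589 (merge (leaf 3 556 556) (leaf 1 588 620))))))))) (merge (node 593 (merge (leaf 4 496 625) (node 558 (merge (leaf 3 557 591) (node 525 (merge (leaf 4 461 461) (node 622 (merge (leaf 7 493 526) (leaf 7 525 654))))))))) (merge (node 593 (merge (leaf 4 496 625) (node 591 (merge (leaf 3 557 558) (node 589 (merge (leaf 3 556 556) (node 620 (merge (leaf 1 588 621) (node 588 (merge (leaf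 5 492 525) (leaf 1 587 619))))))))))) (merge (node 463 (merge (leaf 7 463 495) (node 464 (merge (leaf 7 431 431) (node 433 (merge (leaf 6 432 465) (node 432 (merge (leaf 6 400 401) (node 461 (merge (leaf 2 429 462) (node 525 (merge (leaf 4 461 558) (node 589 (merge (leaf 4 493 622) (node 460 (merge (leaf 7 428 428) (leaf 7 460 492))))))))))))))))) (node 625 (merge (leaf 4 496 593) (node 624 (merge (leaf 4 528 657) (node 589 (merge (leaf 0 589 591) (node 525 (merge (leaf 4 493 622) (node 620 (merge (leaf 5 492 588) (node 621 (merge (leaf 5 524 652) (node 492 (merge (leaf 7 460 460) (leaf 7 492 524)))))))))))))))))))) (merge (node 461 (merge (node 463 (merge (leaf 7 463 495) (node 464 (merge (leaf 7 431 431) (node 433 (merge (leaf 6 432 465) (node 432 (merge (leaf 6 400 401) (leaf 2 429 462))))))))) (merge (node 525 (merge (node 588 (merge (leaf 5 460 556) (node 589 (merge (leaf 5 492 620) (node 460 (merge (leaf 7 428 428) (leaf 7 460 492))))))) (merge (node 590 (merge (leaf 4 461 558) (node 589 (merge (leaf 4 493 622) (node 460 (merge (leaf 7 428 428) (leaf 7 460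 492))))))) (merge (node 558 (merge (leaf 4 461 590) (node 429 (merge (leaf 4 429 526) (node 556 (merge (leaf 5 428 524) (leaf 5 460 588))))))) (node 625 (merge (leaf 4 496 593) (node 624 (merge (leaf 4 528 657) (node 588 (merge (leaf 5 460 556) (node 589 (merge (leaf 5 492 620) (node 622 (merge (leaf 4 493 590) (node 621 (merge (leaf 3 588 623) (leaf 4 525 654))))))))))))))))) (node 464 (merge (node 463 (merge (leaf 7 431 431) (leaf 7 463 495))) (node 525 (merge (node 558 (merge (leaf 4 461 590) (node 429 (merge (leaf 4 429 526) (node 556 (merge (leaf 5 428 524) (leaf 5 460 588))))))) (merge (node 590 (merge (leaf 4 461 558) (node 589 (merge (leaf 4 493 622) (node 460 (merge (leaf 7 428 428) (leaf 7 460 492))))))) (node 588 (merge (leaf 5 460 556) (node 589 (merge (leaf 5 492 620) (node 460 (merge (leaf 7 428 428) (leaf 7 460 492))))))))))))))) (node 525 (merge (node 463 (merge (leaf 7 463 495) (node 464 (merge (leaf 7 431 431) (node 433 (merge (leaf 6 432 465) (node 432 (merge (leaf 6 400 401) (node 461 (merge (leaf 2 429 462) (node 588 (merge (leaf 5 460 556)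 (node 589 (merge (leaf 5 492 620) (node 460 (merge (leaf 7 428 428) (leaf 7 460 492))))))))))))))))) (merge (node 623 (merge (leaf 5 495 591) (node 624 (merge (leaf 5 527 655) (node 657 (merge (leaf 4 528 625) (node 656 (merge (leaf 4 560 689) (node 622 (merge (leaf 0 621 621) (node 590 (merge (leaf 4 493 589) (node 558 (merge (leaf 7 493 526) (leaf 7 525 654))))))))))))))) (node 463 (merge (leaf 7 463 495) (node 464 (merge (leaf 7 431 431) (node 433 (merge (leaf 6 432 465) (node 432 (merge (leaf 6 400 401) (node 461 (merge (leaf 2 429 462) (node 558 (merge (leaf 4 461 590) (node 429 (merge (leaf 4 429 526) (node 556 (merge (leaf 5 428 524) (leaf 5 460 588)))))))))))))))))))))))))) (merge (node 558 (merge (node 559 (merge (leaf 2 525 529) (node 592 (merge (leaf 0 557 593) (node 591 (merge (leaf 0 556 556) (leaf 5 495 623))))))) (merge (node 559 (merge (leaf 2 525 529) (node 589 (merge (leaf 1 556 588) (node 525 (merge (leaf 3 524 524) (node 461 (merge (leaf 4 461 590) (node 460 (merge (leaf 7 428 428) (leaf 7 460 492))))))))))) (node 525 (merge (node 590 (merge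 (leaf 4 461 461) (node 622 (merge (leaf 7 493 526) (leaf 7 525 654))))) (merge (node 461 (merge (leaf 4 461 590) (node 588 (merge (leaf 5 460 556) (node 589 (merge (leaf 5 492 620) (node 460 (merge (leaf 7 428 428) (leaf 7 460 492))))))))) (merge (node 461 (merge (node 429 (merge (leaf 4 429 526) (node 556 (merge (leaf 5 428 524) (leaf 5 460 588))))) (merge (node 430 (merge (leaf 6 429 462) (node 429 (merge (leaf 6 397 398) (node 428 (merge (leaf 7 396 396) (leaf 7 428 460))))))) (node 588 (merge (leaf 5 460 556) (node 589 (merge (leaf 5 492 620) (node 460 (merge (leaf 7 428 428) (leaf 7 460 492)))))))))) (node 589 (merge (node 622 (merge (leaf 4 493 590) (node 621 (merge (leaf 4 525 654) (node 492 (merge (leaf 7 460 460) (leaf 7 492 524))))))) (merge (node 620 (merge (leaf 5 492 588) (node 621 (merge (leaf 5 524 652) (node 492 (merge (leaf 7 460 460) (leaf 7 492 524))))))) (merge (node 622 (merge (leaf 4 493 590) (node 621 (merge (leaf 4 525 654) (node 620 (merge (leaf 5 492 588) (leaf 5 524 652))))))) (node 590 (merge (leaf 4 493 622) (node 588 (merge (leaf 5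 492 620) (node 587 (merge (leaf 2 554 586) (node 555 (merge (leaf 3 554 554) (node 591 (merge (leaf 0 555 556) (node 592 (merge (leaf 3 557 593) (leaf 5 495 623)))))))))))))))))))))))) (node 431 (merge (node 463 (merge (leaf 7 431 464) (node 495 (merge (leaf 4 399 399) (leaf 7 463 592))))) (merge (node 525 (merge (node 558 (merge (node 559 (merge (leaf 3 524 524) (leaf 2 525 529))) (node 590 (merge (leaf 4 461 461) (node 622 (merge (leaf 7 493 526) (leaf 7 525 654))))))) (merge (node 558 (merge (node 559 (merge (leaf 3 524 524) (leaf 2 525 529))) (node 461 (merge (leaf 4 461 590) (node 430 (merge (leaf 6 429 462) (node 429 (merge (leaf 6 397 398) (node 460 (merge (leaf 7 428 428) (leaf 1 428 432))))))))))) (merge (node 460 (merge (node 461 (merge (leaf 7 428 428) (node 462 (merge (leaf 6 429 430) (node 463 (merge (leaf 2 428 432) (leaf 0 460 495))))))) (node 589 (merge (leaf 7 460 492) (node 622 (merge (leaf 4 493 590) (node 621 (merge (leaf 4 525 654) (node 620 (merge (leaf 5 492 588) (leaf 5 524 652))))))))))) (merge (node 460 (merge (node 461 (merge (leaf 7 428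 428) (node 462 (merge (leaf 6 429 430) (node 463 (merge (leaf 2 428 432) (leaf 0 460 495))))))) (node 589 (merge (leaf 7 460 492) (node 620 (merge (leaf 5 492 588) (node 621 (merge (leaf 5 524 652) (node 654 (merge (leaf 4 525 622) (node 653 (merge (leaf 4 557 686) (node 524 (merge (leaf 7 524 556) (node 558 (merge (leaf 6 525 526) (leaf 3 524 559))))))))))))))))) (node 589 (merge (node 622 (merge (leaf 4 493 590) (node 621 (merge (leaf 4 525 654) (node 492 (merge (leaf 7 460 460) (leaf 7 492 524))))))) (merge (node 620 (merge (leaf 5 492 588) (node 621 (merge (leaf 5 524 652) (node 492 (merge (leaf 7 460 460) (leaf 7 492 524))))))) (merge (node 622 (merge (leaf 4 493 590) (node 621 (merge (leaf 4 525 654) (node 620 (merge (leaf 5 492 588) (leaf 5 524 652))))))) (node 590 (merge (leaf 4 493 622) (node 588 (merge (leaf 5 492 620) (node 558 (merge (leaf 1 556 559) (node 587 (merge (leaf 2 554 586) (node 619 (merge (leaf 1 586 618) (node 555 (merge (leaf 3 554 554) (node 492 (merge (leaf 7 460 460) (node 524 (merge (leaf 6 491 523) (leaf 5 491 556))))))))))))))))))))))))))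 (node 525 (merge (node 558 (merge (node 559 (merge (leaf 3 524 524) (leaf 2 525 529))) (node 590 (merge (leaf 4 461 461) (node 622 (merge (leaf 7 493 526) (leaf 7 525 654))))))) (merge (node 461 (merge (node 430 (merge (leaf 6 429 462) (node 429 (merge (leaf 6 397 398) (node 460 (merge (leaf 7 428 428) (leaf 1 428 432))))))) (merge (node 588 (merge (leaf 5 460 556) (node 589 (merge (leaf 5 492 620) (node 460 (merge (leaf 7 428 428) (leaf 7 460 492))))))) (node 558 (merge (leaf 4 461 590) (node 429 (merge (leaf 4 429 526) (node 556 (merge (leaf 5 428 524) (leaf 5 460 588)))))))))) (merge (node 460 (merge (node 461 (merge (leaf 7 428 428) (node 430 (merge (leaf 6 429 462) (node 429 (merge (leaf 6 397 398) (leaf 1 428 432))))))) (node 589 (merge (leaf 7 460 492) (node 620 (merge (leaf 5 492 588) (node 621 (merge (leaf 5 524 652) (node 654 (merge (leaf 4 525 622) (node 653 (merge (leaf 4 557 686) (node 524 (merge (leaf 7 524 556) (node 558 (merge (leaf 6 525 526) (leaf 3 524 559))))))))))))))))) (merge (node 558 (merge (node 590 (merge (leaf 4 461 461) (node 622 (merge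 (leaf 7 493 526) (leaf 7 525 654))))) (merge (node 461 (merge (leaf 4 461 590) (node 430 (merge (leaf 6 429 462) (node 429 (merge (leaf 6 397 398) (node 460 (merge (leaf 7 428 428) (leaf 1 428 432))))))))) (merge (node 559 (merge (leaf 2 525 529) (node 589 (merge (leaf 1 556 588) (node 460 (merge (leaf 7 460 492) (node 461 (merge (leaf 7 428 428) (node 429 (merge (leaf 4 429 526) (node 430 (merge (leaf 1 428 432) (leaf 6 429 462))))))))))))) (node 559 (merge (leaf 2 525 529) (node 589 (merge (leaf 1 556 588) (node 622 (merge (leaf 4 493 590) (node 621 (merge (leaf 4 525 654) (node 652 (merge (leaf 5 524 620) (node 653 (merge (leaf 6 525 526) (leaf 5 556 684))))))))))))))))) (merge (node 464 (merge (node 433 (merge (leaf 6 432 465) (node 432 (merge (leaf 7 399 399) (leaf 6 400 401))))) (node 461 (merge (node 428 (merge (leaf 7 428 460) (node 430 (merge (leaf 6 429 462) (node 429 (merge (leaf 7 396 396) (leaf 6 397 398))))))) (merge (node 588 (merge (leaf 5 460 556) (node 589 (merge (leaf 5 492 620) (node 460 (merge (leaf 7 428 428) (leaf 7 460 492))))))) (merge (node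 429 (merge (node 556 (merge (leaf 5 428 524) (leaf 5 460 588))) (node 430 (merge (leaf 6 397 398) (leaf 6 429 462))))) (node 588 (merge (leaf 5 460 556) (node 589 (merge (leaf 5 492 620) (node 622 (merge (leaf 4 493 590) (node 621 (merge (leaf 4 525 654) (node 492 (merge (leaf 7 460 460) (leaf 7 492 524))))))))))))))))) (node 589 (merge (node 622 (merge (leaf 4 493 590) (node 621 (merge (leaf 4 525 654) (node 492 (merge (leaf 7 460 460) (leaf 7 492 524))))))) (merge (node 620 (merge (leaf 5 492 588) (node 621 (merge (leaf 5 524 652) (node 492 (merge (leaf 7 460 460) (leaf 7 492 524))))))) (merge (node 622 (merge (leaf 4 493 590) (node 621 (merge (leaf 4 525 654) (node 620 (merge (leaf 5 492 588) (leaf 5 524 652))))))) (node 590 (merge (leaf 4 493 622) (node 588 (merge (leaf 5 492 620) (node 558 (merge (leaf 1 556 559) (node 587 (merge (leaf 2 554 586) (node 619 (merge (leaf 1 586 618) (node 555 (merge (leaf 3 554 554) (node 492 (merge (leaf 7 460 460) (node 524 (merge (leaf 6 491 523) (leaf 5 491 556)))))))))))))))))))))))))))))))))))))) nQ_67 cQ_67 14 (by decide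 +kernel)

end Crest.Agent.H26Snaky
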