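import Crest.Agent.H26SnQ03

/-! certificate data for S0047, part Q 4 (computer generated) -/

set_option autoImplicit false
set_option maxRecDepth 100000

namespace Crest.Agent.H26Snaky

open T

def nQ_68 : ℕ := 0x120000001000000012000000000000000000000000000000000000000000000000000000000000000000000000000000000000000000000000000000000000000000000000000
def cQ_68 : ℕ := 0x290000003f8000003f0000003f8000000500000007000000050000003f8000003f8000003f800000280000000000000000000000000000000000000000000000000000000000000000000000000000000000000000000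
theorem lQ_68 : S nQ_68 cQ_68 11 := S_of_chk [] trivial (node 464 (merge (node 433 (merge (leaf 6 432 465) (node 432 (merge (leaf 6 400 401) (node 431 (merge (leaf 7 399 399) (leaf 7 431 463))))))) (merge (node 461 (merge (node 463 (merge (leaf 7 431 431) (node 462 (merge (leaf 1 460 492) (node 465 (merge (leaf 1 461 494) (node 429 (merge (leaf 3 428 428) (leaf 3 429 430))))))))) (merge (node 525 (merge (node 558 (merge (leaf 4 461 590) (node 429 (merge (leaf 4 429 526) (node 556 (merge (leaf 5 428 524) (leaf 5 460 588))))))) (merge (node 590 (merge (leaf 4 461 558) (node 589 (merge (leaf 4 493 622) (node 460 (merge (leaf 7 428 428) (leaf 7 460 492))))))) (node 588 (merge (leaf 5 460 556) (node 589 (merge (leaf 5 492 620) (node 460 (merge (leaf 7 428 428) (leaf 7 460 492)))))))))) (merge (node 463 (merge (leaf 7 431 431) (node 462 (merge (leaf 1 460 492) (node 525 (merge (leaf 6 429 430) (node 588 (merge (leaf 5 460 556) (node 589 (merge (leaf 6 461 494) (leaf 5 492 620))))))))))) (node 525 (merge (node 558 (merge (leaf 4 461 590) (node 429 (merge (leaf 4 429 526)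 (node 556 (merge (leaf 5 428 524) (leaf 5 460 588))))))) (merge (node 428 (merge (leaf 7 428 460) (node 430 (merge (leaf 6 429 462) (node 429 (merge (leaf 7 396 396) (leaf 6 397 398))))))) (node 588 (merge (leaf 5 460 556) (node 589 (merge (leaf 5 492 620) (node 462 (merge (leaf 6 429 430) (leaf 6 461 494)))))))))))))) (merge (node 461 (merge (node 463 (merge (leaf 7 431 431) (node 462 (merge (leaf 1 460 492) (node 525 (merge (leaf 6 429 430) (node 588 (merge (leaf 5 460 556) (node 589 (merge (leaf 6 461 494) (leaf 5 492 620))))))))))) (merge (node 431 (merge (leaf 7 431 463) (node 432 (merge (leaf 7 399 399) (node 433 (merge (leaf 6 400 401) (node 430 (merge (leaf 1 429 462) (node 429 (merge (leaf 1 428 460) (node 397 (merge (leaf 3 396 396) (leaf 3 397 398))))))))))))) (node 525 (merge (node 558 (merge (leaf 4 461 590) (node 429 (merge (leaf 4 429 526) (node 556 (merge (leaf 5 428 524) (leaf 5 460 588))))))) (merge (node 590 (merge (leaf 4 461 558) (node 589 (merge (leaf 4 493 622) (node 460 (merge (leaf 7 428 428) (leaf 7 460 492))))))) (node 588 (merge (leaf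 5 460 556) (node 589 (merge (leaf 5 492 620) (node 460 (merge (leaf 7 428 428) (leaf 7 460 492))))))))))))) (merge (node 525 (merge (node 461 (merge (node 428 (merge (leaf 7 428 460) (node 430 (merge (leaf 6 429 462) (node 429 (merge (leaf 7 396 396) (leaf 6 397 398))))))) (merge (node 588 (merge (leaf 5 460 556) (node 589 (merge (leaf 5 492 620) (node 462 (merge (leaf 6 429 430) (leaf 6 461 494))))))) (node 588 (merge (leaf 5 460 556) (node 589 (merge (leaf 5 492 620) (node 460 (merge (leaf 7 428 428) (leaf 7 460 492)))))))))) (merge (node 589 (merge (node 462 (merge (leaf 6 461 494) (node 461 (merge (leaf 6 429 430) (node 492 (merge (leaf 7 460 460) (leaf 1 460 463))))))) (merge (node 620 (merge (leaf 5 492 588) (node 621 (merge (leaf 5 524 652) (node 494 (merge (leaf 6 461 462) (leaf 6 493 526))))))) (node 620 (merge (leaf 5 492 588) (node 621 (merge (leaf 5 524 652) (node 492 (merge (leaf 7 460 460) (leaf 7 492 524)))))))))) (merge (node 461 (merge (node 558 (merge (leaf 4 461 590) (node 429 (merge (leaf 4 429 526) (node 556 (merge (leaf 5 428 524) (leaf 5 460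 588))))))) (merge (node 428 (merge (leaf 7 428 460) (node 430 (merge (leaf 6 429 462) (node 429 (merge (leaf 7 396 396) (leaf 6 397 398))))))) (node 588 (merge (leaf 5 460 556) (node 589 (merge (leaf 5 492 620) (node 462 (merge (leaf 6 429 430) (leaf 6 461 494)))))))))) (merge (node 461 (merge (node 428 (merge (leaf 7 428 460) (node 430 (merge (leaf 6 429 462) (node 429 (merge (leaf 7 396 396) (leaf 6 397 398))))))) (merge (node 590 (merge (leaf 4 461 558) (node 589 (merge (leaf 4 493 622) (node 460 (merge (leaf 7 428 428) (leaf 7 460 492))))))) (node 462 (merge (leaf 6 429 430) (node 589 (merge (leaf 6 461 494) (node 622 (merge (leaf 4 493 590) (node 621 (merge (leaf 4 525 654) (node 652 (merge (leaf 5 524 620) (node 653 (merge (leaf 5 556 684) (node 524 (merge (leaf 7 492 492) (leaf 7 524 556)))))))))))))))))) (merge (node 461 (merge (node 558 (merge (leaf 4 461 590) (node 429 (merge (leaf 4 429 526) (node 556 (merge (leaf 5 428 524) (leaf 5 460 588))))))) (merge (node 588 (merge (leaf 5 460 556) (node 589 (merge (leaf 5 492 620) (node 462 (merge (leaf 6 429 430)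 (leaf 6 461 494))))))) (merge (node 590 (merge (leaf 4 461 558) (node 589 (merge (leaf 4 493 622) (node 462 (merge (leaf 6 429 430) (leaf 6 461 494))))))) (node 462 (merge (leaf 6 429 430) (node 589 (merge (leaf 6 461 494) (node 622 (merge (leaf 4 493 590) (node 621 (merge (leaf 4 525 654) (node 652 (merge (leaf 5 524 620) (node 653 (merge (leaf 5 556 684) (node 524 (merge (leaf 7 492 492) (leaf 7 524 556))))))))))))))))))) (merge (node 462 (merge (node 430 (merge (leaf 6 429 461) (node 494 (merge (leaf 5 397 398) (leaf 5 429 526))))) (merge (node 461 (merge (leaf 6 429 430) (node 556 (merge (leaf 5 460 588) (node 429 (merge (leaf 5 428 524) (node 428 (merge (leaf 7 396 396) (leaf 3 428 463))))))))) (merge (node 465 (merge (leaf 6 432 433) (node 494 (merge (leaf 1 461 463) (node 430 (merge (leaf 5 397 398) (leaf 5 429 526))))))) (node 465 (merge (leaf 6 432 433) (node 463 (merge (leaf 1 461 494) (node 461 (merge (leaf 1 460 492) (node 428 (merge (leaf 3 428 429) (node 460 (merge (leaf 3 427 427) (leaf 7 428 525))))))))))))))) (node 592 (merge (node 625 (merge (leaf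 4 496 593) (node 624 (merge (leaf 4 528 657) (node 623 (merge (leaf 5 495 591) (leaf 5 527 655))))))) (merge (node 623 (merge (leaf 5 495 591) (node 624 (merge (leaf 5 527 655) (node 657 (merge (leaf 4 528 625) (node 656 (merge (leaf 4 560 689) (node 622 (merge (leaf 0 621 621) (node 590 (merge (leaf 4 493 589) (node 558 (merge (leaf 7 493 526) (leaf 7 525 654))))))))))))))) (merge (node 590 (merge (node 622 (merge (leaf 4 493 589) (node 558 (merge (leaf 7 493 526) (leaf 7 525 654))))) (merge (node 589 (merge (leaf 4 493 622) (node 620 (merge (leaf 5 492 588) (node 621 (merge (leaf 1 588 591) (node 492 (merge (leaf 7 460 460) (leaf 7 492 524))))))))) (merge (node 591 (merge (leaf 5 495 623) (node 558 (merge (leaf 3 557 593) (node 622 (merge (leaf 7 493 526) (leaf 7 525 654))))))) (node 591 (merge (leaf 5 495 623) (node 589 (merge (leaf 3 556 556) (node 621 (merge (leaf 1 588 620) (node 492 (merge (leaf 7 460 460) (leaf 7 492 524))))))))))))) (merge (node 590 (merge (node 622 (merge (leaf 4 493 589) (node 558 (merge (leaf 7 493 526) (leaf 7 525 654))))) (merge (node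 589 (merge (leaf 4 493 622) (node 620 (merge (leaf 5 492 588) (node 621 (merge (leaf 1 588 591) (node 492 (merge (leaf 7 460 460) (leaf 7 492 524))))))))) (merge (node 593 (merge (leaf 4 496 625) (node 558 (merge (leaf 3 557 591) (node 622 (merge (leaf 7 493 526) (leaf 7 525 654))))))) (node 593 (merge (leaf 4 496 625) (node 591 (merge (leaf 3 557 558) (node 589 (merge (leaf 3 556 556) (node 621 (merge (leaf 1 588 620) (node 492 (merge (leaf 7 460 460) (leaf 7 492 524))))))))))))))) (node 624 (merge (node 625 (merge (leaf 4 496 593) (leaf 4 528 657))) (merge (node 657 (merge (leaf 4 528 625) (node 656 (merge (leaf 4 560 689) (node 655 (merge (leaf 5 527 623) (leaf 5 559 687))))))) (node 622 (merge (node 590 (merge (leaf 4 493 589) (node 558 (merge (leaf 7 493 526) (leaf 7 525 654))))) (node 623 (merge (leaf 5 527 655) (node 621 (merge (leaf 2 589 593) (node 652 (merge (leaf 1 620 653) (node 620 (merge (leaf 1 619 651) (node 588 (merge (leaf 6 524 556) (leaf 3 587 587)))))))))))))))))))))))))))) (node 525 (merge (node 461 (merge (node 558 (merge (leaf 4 461 590) (node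 429 (merge (leaf 4 429 526) (node 556 (merge (leaf 5 428 524) (leaf 5 460 588))))))) (merge (node 428 (merge (leaf 7 428 460) (node 430 (merge (leaf 6 429 462) (node 429 (merge (leaf 7 396 396) (leaf 6 397 398))))))) (node 588 (merge (leaf 5 460 556) (node 589 (merge (leaf 5 492 620) (node 462 (merge (leaf 6 429 430) (leaf 6 461 494)))))))))) (merge (node 461 (merge (node 428 (merge (leaf 7 428 460) (node 430 (merge (leaf 6 429 462) (node 429 (merge (leaf 7 396 396) (leaf 6 397 398))))))) (merge (node 590 (merge (leaf 4 461 558) (node 589 (merge (leaf 4 493 622) (node 460 (merge (leaf 7 428 428) (leaf 7 460 492))))))) (node 462 (merge (leaf 6 429 430) (node 589 (merge (leaf 6 461 494) (node 622 (merge (leaf 4 493 590) (node 621 (merge (leaf 4 525 654) (node 652 (merge (leaf 5 524 620) (node 653 (merge (leaf 5 556 684) (node 524 (merge (leaf 7 492 492) (leaf 7 524 556)))))))))))))))))) (merge (node 461 (merge (node 558 (merge (leaf 4 461 590) (node 429 (merge (leaf 4 429 526) (node 556 (merge (leaf 5 428 524) (leaf 5 460 588))))))) (merge (node 588 (merge (leaf 5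 460 556) (node 589 (merge (leaf 5 492 620) (node 462 (merge (leaf 6 429 430) (leaf 6 461 494))))))) (merge (node 590 (merge (leaf 4 461 558) (node 589 (merge (leaf 4 493 622) (node 462 (merge (leaf 6 429 430) (leaf 6 461 494))))))) (node 462 (merge (leaf 6 429 430) (node 589 (merge (leaf 6 461 494) (node 622 (merge (leaf 4 493 590) (node 621 (merge (leaf 4 525 654) (node 652 (merge (leaf 5 524 620) (node 653 (merge (leaf 5 556 684) (node 524 (merge (leaf 7 492 492) (leaf 7 524 556))))))))))))))))))) (merge (node 432 (merge (node 433 (merge (leaf 6 400 401) (leaf 6 432 465))) (merge (node 401 (merge (leaf 6 400 433) (node 400 (merge (leaf 6 368 369) (node 399 (merge (leaf 7 367 367) (leaf 7 399 431))))))) (node 430 (merge (node 462 (merge (leaf 6 429 461) (node 494 (merge (leaf 5 397 398) (leaf 5 429 526))))) (node 431 (merge (leaf 7 399 399) (node 429 (merge (leaf 0 429 465) (node 396 (merge (leaf 3 396 397) (node 428 (merge (leaf 3 395 395) (node 460 (merge (leaf 1 427 459) (leaf 4 396 492)))))))))))))))) (node 592 (merge (node 625 (merge (leaf 4 496 593) (node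 624 (merge (leaf 4 528 657) (node 623 (merge (leaf 5 495 591) (leaf 5 527 655))))))) (merge (node 623 (merge (leaf 5 495 591) (node 624 (merge (leaf 5 527 655) (node 657 (merge (leaf 4 528 625) (node 656 (merge (leaf 4 560 689) (node 622 (merge (leaf 0 621 621) (node 590 (merge (leaf 4 493 589) (node 558 (merge (leaf 7 493 526) (leaf 7 525 654))))))))))))))) (merge (node 590 (merge (node 622 (merge (leaf 4 493 589) (node 558 (merge (leaf 7 493 526) (leaf 7 525 654))))) (merge (node 589 (merge (leaf 4 493 622) (node 620 (merge (leaf 5 492 588) (node 621 (merge (leaf 1 588 591) (node 492 (merge (leaf 7 460 460) (leaf 7 492 524))))))))) (merge (node 591 (merge (leaf 5 495 623) (node 558 (merge (leaf 3 557 593) (node 622 (merge (leaf 7 493 526) (leaf 7 525 654))))))) (node 591 (merge (leaf 5 495 623) (node 589 (merge (leaf 3 556 556) (node 621 (merge (leaf 1 588 620) (node 492 (merge (leaf 7 460 460) (leaf 7 492 524))))))))))))) (merge (node 590 (merge (node 622 (merge (leaf 4 493 589) (node 558 (merge (leaf 7 493 526) (leaf 7 525 654))))) (merge (node 589 (merge (leaf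 4 493 622) (node 620 (merge (leaf 5 492 588) (node 621 (merge (leaf 1 588 591) (node 492 (merge (leaf 7 460 460) (leaf 7 492 524))))))))) (merge (node 593 (merge (leaf 4 496 625) (node 558 (merge (leaf 3 557 591) (node 622 (merge (leaf 7 493 526) (leaf 7 525 654))))))) (node 593 (merge (leaf 4 496 625) (node 591 (merge (leaf 3 557 558) (node 589 (merge (leaf 3 556 556) (node 621 (merge (leaf 1 588 620) (node 492 (merge (leaf 7 460 460) (leaf 7 492 524))))))))))))))) (node 624 (merge (node 625 (merge (leaf 4 496 593) (leaf 4 528 657))) (merge (node 657 (merge (leaf 4 528 625) (node 656 (merge (leaf 4 560 689) (node 655 (merge (leaf 5 527 623) (leaf 5 559 687))))))) (node 622 (merge (node 590 (merge (leaf 4 493 589) (node 558 (merge (leaf 7 493 526) (leaf 7 525 654))))) (node 623 (merge (leaf 5 527 655) (node 621 (merge (leaf 2 589 593) (node 652 (merge (leaf 1 620 653) (node 620 (merge (leaf 1 619 651) (node 588 (merge (leaf 6 524 556) (leaf 3 587 587))))))))))))))))))))))))))))))) nQ_68 cQ_68 11 (by decide +kernel)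
def nQ_69 : ℕ := 0x100000001000000012000000000000000000000000000000000000000000000000000000000000000000000000000000000000000000000000000000000000000000000000000
def cQ_69 : ℕ := 0x290000003f8000003fc000003fc000000fc0000027800000050000003f8000003f8000003f800000280000000000000000000000000000000000000000000000000000000000000000000000000000000000000000000
theorem lQ_69 : S nQ_69 cQ_69 13 := S_of_chk [(nQ_68, cQ_68, 11)] ⟨lQ_68, trivial⟩ (node 557 (merge (node 559 (merge (node 591 (merge (leaf 5 463 464) (node 623 (merge (leaf 5 495 592) (leaf 6 527 655))))) (node 558 (merge (leaf 2 525 529) (node 588 (merge (leaf 1 556 589) (node 556 (merge (leaf 1 555 587) (node 524 (merge (leaf 3 523 523) (leaf 3 524 525))))))))))) (merge (node 559 (merge (node 464 (merge (leaf 5 463 591) (node 433 (merge (leaf 6 432 465) (node 432 (merge (leaf 6 400 401) (node 431 (merge (leaf 7 399 399) (leaf 7 431 463))))))))) (node 558 (merge (leaf 2 525 529) (node 525 (merge (leaf 3 524 524) (node 461 (merge (leaf 4 461 590) (node 429 (merge (leaf 4 429 526) (node 430 (merge (leaf 6 397 398) (leaf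 6 429 462))))))))))))) (merge (node 591 (merge (node 592 (merge (leaf 5 495 623) (node 593 (merge (leaf 4 496 625) (node 590 (merge (leaf 3 557 558) (node 621 (merge (leaf 1 589 622) (node 589 (merge (leaf 3 556 556) (leaf 1 588 620))))))))))) (node 464 (merge (leaf 5 463 559) (node 433 (merge (leaf 6 432 465) (node 432 (merge (leaf 6 400 401) (node 431 (merge (leaf 7 399 399) (leaf 7 431 463))))))))))) (merge (node 464 (merge (node 433 (merge (leaf 6 432 465) (node 432 (merge (leaf 6 400 401) (node 431 (merge (leaf 7 399 399) (leaf 7 431 463))))))) (merge (node 589 (merge (node 591 (merge (leaf 5 463 559) (node 592 (merge (leaf 5 495 623) (node 590 (merge (leaf 3 556 556) (node 621 (merge (leaf 1 588 620) (node 593 (merge (leaf 1 589 622) (leaf 4 496 625))))))))))) (merge (node 525 (merge (node 462 (merge (leaf 6 461 494) (node 461 (merge (leaf 6 429 430) (node 492 (merge (leaf 7 460 460) (leaf 1 460 463))))))) (merge (node 620 (merge (leaf 5 492 588) (node 621 (merge (leaf 5 524 652) (node 494 (merge (leaf 6 461 462) (leaf 6 493 526))))))) (node 620 (merge (leaf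 5 492 588) (node 621 (merge (leaf 5 524 652) (node 492 (merge (leaf 7 460 460) (leaf 7 492 524)))))))))) (node 591 (merge (leaf 5 463 559) (node 592 (merge (leaf 5 495 623) (node 590 (merge (leaf 3 556 556) (node 525 (merge (leaf 4 493 622) (node 462 (merge (leaf 6 461 494) (node 463 (merge (leaf 7 431 431) (node 492 (merge (leaf 7 460 460) (leaf 1 460 461)))))))))))))))))) (merge (node 589 (merge (node 591 (merge (leaf 5 463 559) (node 592 (merge (leaf 5 495 623) (node 625 (merge (leaf 4 496 593) (node 624 (merge (leaf 0 589 590) (leaf 4 528 657))))))))) (node 525 (merge (node 462 (merge (leaf 6 461 494) (node 461 (merge (leaf 6 429 430) (node 492 (merge (leaf 7 460 460) (leaf 1 460 463))))))) (merge (node 620 (merge (leaf 5 492 588) (node 621 (merge (leaf 5 524 652) (node 494 (merge (leaf 6 461 462) (leaf 6 493 526))))))) (node 620 (merge (leaf 5 492 588) (node 621 (merge (leaf 5 524 652) (node 492 (merge (leaf 7 460 460) (leaf 7 492 524)))))))))))) (node 589 (merge (node 591 (merge (leaf 5 463 559) (node 592 (merge (leaf 5 495 623) (node 625 (merge (leaf 4 496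 593) (node 624 (merge (leaf 0 589 590) (leaf 4 528 657))))))))) (merge (node 592 (merge (node 625 (merge (leaf 4 496 593) (node 624 (merge (leaf 4 528 657) (node 623 (merge (leaf 5 495 591) (leaf 5 527 655))))))) (merge (node 591 (merge (leaf 5 495 623) (node 590 (merge (leaf 3 556 556) (node 621 (merge (leaf 1 588 620) (node 525 (merge (leaf 4 493 622) (node 492 (merge (leaf 7 460 460) (leaf 7 492 524))))))))))) (merge (node 625 (merge (leaf 4 496 593) (node 624 (merge (leaf 4 528 657) (node 590 (merge (leaf 0 589 591) (node 525 (merge (leaf 4 493 622) (node 620 (merge (leaf 5 492 588) (node 621 (merge (leaf 5 524 652) (node 492 (merge (leaf 7 460 460) (leaf 7 492 524))))))))))))))) (node 625 (merge (leaf 4 496 593) (node 624 (merge (leaf 4 528 657) (node 623 (merge (leaf 5 527 655) (node 622 (merge (leaf 3 589 590) (node 653 (merge (leaf 1 621 654) (node 621 (merge (leaf 3 588 588) (leaf 1 620 652))))))))))))))))) (merge (node 461 (merge (node 525 (merge (node 588 (merge (leaf 5 460 556) (leaf 5 492 620))) (node 622 (merge (leaf 4 493 590) (node 621 (merge (leaf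 4 525 654) (node 492 (merge (leaf 7 460 460) (leaf 7 492 524))))))))) (merge (node 433 (merge (leaf 6 432 465) (node 432 (merge (leaf 6 400 401) (node 431 (merge (leaf 7 399 399) (node 430 (merge (leaf 1 429 462) (node 429 (merge (leaf 1 428 460) (node 397 (merge (leaf 3 396 396) (leaf 3 397 398))))))))))))) (node 433 (merge (leaf 6 432 465) (node 432 (merge (leaf 6 400 401) (node 431 (merge (leaf 7 399 399) (node 430 (merge (leaf 1 429 462) (node 398 (merge (leaf 3 397 397) (node 525 (merge (leaf 6 397 429) (node 588 (merge (leaf 5 460 556) (leaf 5 492 620)))))))))))))))))) (node 461 (merge (node 592 (merge (node 591 (merge (leaf 5 463 559) (leaf 5 495 623))) (node 525 (merge (node 588 (merge (leaf 5 460 556) (leaf 5 492 620))) (node 460 (merge (leaf 7 428 428) (leaf 7 460 492))))))) (merge (node 433 (merge (leaf 6 432 465) (node 432 (merge (leaf 6 400 401) (node 431 (merge (leaf 7 399 399) (node 430 (merge (leaf 1 429 462) (node 429 (merge (leaf 1 428 460) (node 397 (merge (leaf 3 396 396) (leaf 3 397 398))))))))))))) (node 433 (merge (leaf 6 432 465) (node 432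 (merge (leaf 6 400 401) (node 431 (merge (leaf 7 399 399) (node 430 (merge (leaf 1 429 462) (node 398 (merge (leaf 3 397 397) (node 525 (merge (leaf 6 397 429) (node 588 (merge (leaf 5 460 556) (leaf 5 492 620)))))))))))))))))))))))))) (merge (node 558 (merge (node 559 (merge (leaf 2 525 529) (node 592 (merge (leaf 0 557 593) (node 591 (merge (leaf 0 556 556) (leaf 5 495 623))))))) (merge (node 559 (merge (leaf 2 525 529) (node 589 (merge (leaf 1 556 588) (node 525 (merge (leaf 3 524 524) (node 461 (merge (leaf 4 461 590) (node 462 (merge (leaf 6 429 430) (leaf 6 461 494))))))))))) (merge (node 592 (merge (node 593 (merge (leaf 0 557 559) (leaf 4 496 625))) (merge (node 591 (merge (leaf 5 495 623) (node 590 (merge (leaf 3 557 593) (node 556 (merge (leaf 0 555 555) (leaf 3 556 589))))))) (node 591 (merge (leaf 5 495 623) (node 556 (merge (leaf 0 556 559) (node 590 (merge (leaf 0 555 555) (leaf 3 556 589)))))))))) (node 525 (merge (node 590 (merge (leaf 4 461 461) (node 622 (merge (leaf 7 493 526) (leaf 7 525 654))))) (merge (node 461 (merge (leaf 4 461 590) (node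 588 (merge (leaf 5 460 556) (node 589 (merge (leaf 5 492 620) (node 460 (merge (leaf 7 428 428) (leaf 7 460 492))))))))) (merge (node 461 (merge (node 429 (merge (leaf 4 429 526) (node 556 (merge (leaf 5 428 524) (leaf 5 460 588))))) (merge (node 430 (merge (leaf 6 429 462) (node 429 (merge (leaf 6 397 398) (node 428 (merge (leaf 7 396 396) (leaf 7 428 460))))))) (node 588 (merge (leaf 5 460 556) (node 589 (merge (leaf 5 492 620) (node 460 (merge (leaf 7 428 428) (leaf 7 460 492)))))))))) (node 589 (merge (node 622 (merge (leaf 4 493 590) (node 621 (merge (leaf 4 525 654) (node 492 (merge (leaf 7 460 460) (leaf 7 492 524))))))) (merge (node 620 (merge (leaf 5 492 588) (node 621 (merge (leaf 5 524 652) (node 492 (merge (leaf 7 460 460) (leaf 7 492 524))))))) (merge (node 622 (merge (leaf 4 493 590) (node 621 (merge (leaf 4 525 654) (node 620 (merge (leaf 5 492 588) (leaf 5 524 652))))))) (node 590 (merge (leaf 4 493 622) (node 588 (merge (leaf 5 492 620) (node 587 (merge (leaf 2 554 586) (node 555 (merge (leaf 3 554 554) (node 591 (merge (leaf 0 555 556) (node 592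 (merge (leaf 3 557 593) (leaf 5 495 623))))))))))))))))))))))))) (merge (node 464 (merge (node 433 (merge (leaf 6 432 465) (node 432 (merge (leaf 6 400 401) (node 431 (merge (leaf 7 399 399) (leaf 7 431 463))))))) (node 525 (merge (node 558 (merge (node 559 (merge (leaf 3 524 524) (leaf 2 525 529))) (node 590 (merge (leaf 4 461 461) (node 622 (merge (leaf 7 493 526) (leaf 7 525 654))))))) (merge (node 461 (merge (node 428 (merge (leaf 7 428 460) (node 430 (merge (leaf 6 429 462) (node 429 (merge (leaf 7 396 396) (leaf 6 397 398))))))) (merge (node 588 (merge (leaf 5 460 556) (node 589 (merge (leaf 5 492 620) (node 462 (merge (leaf 6 429 430) (leaf 6 461 494))))))) (node 588 (merge (leaf 5 460 556) (node 589 (merge (leaf 5 492 620) (node 460 (merge (leaf 7 428 428) (leaf 7 460 492)))))))))) (node 589 (merge (node 622 (merge (leaf 4 493 590) (node 621 (merge (leaf 4 525 654) (node 492 (merge (leaf 7 460 460) (leaf 7 492 524))))))) (merge (node 620 (merge (leaf 5 492 588) (node 621 (merge (leaf 5 524 652) (node 494 (merge (leaf 6 461 462) (leaf 6 493 526))))))) (node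 590 (merge (leaf 4 493 622) (node 588 (merge (leaf 5 492 620) (node 558 (merge (leaf 1 556 559) (node 587 (merge (leaf 2 554 586) (node 619 (merge (leaf 1 586 618) (node 555 (merge (leaf 3 554 554) (node 492 (merge (leaf 7 460 460) (node 524 (merge (leaf 6 491 523) (leaf 5 491 556))))))))))))))))))))))))) (hyp 0)))))))) nQ_69 cQ_69 13 (by decide +kernel)
def nQ_70 : ℕ := 0x100000001000000012000000000000000000000000000000000000000000000000000000000000000000000000000000000000000000000000000000000000000000000000000
def cQ_70 : ℕ := 0x50000002f0000003f0000003fc000000fc0000027c000000df0000037c000003ff000003fc00000078000000580000000000000000000000000000000000000000000000000000000000000000000000000000000000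
theorem lQ_70 : S nQ_70 cQ_70 14 := S_of_chk [] trivial (node 494 (merge (node 495 (merge (leaf 0 493 529) (node 524 (merge (leaf 1 492 525) (node 492 (merge (leaf 1 491 523) (node 460 (merge (leaf 3 459 459) (leaf 3 460 461))))))))) (merge (node 495 (merge (leaf 0 493 529) (node 525 (merge (leaf 1 492 524) (node 464 (merge (leaf 2 461 465) (node 591 (merge (leaf 5 463 559) (node 592 (merge (leaf 5 495 623) (node 625 (merge (leaf 4 496 593) (node 624 (merge (leaf 4 528 657) (node 589 (merge (leaf 0 589 590) (node 557 (merge (leaf 6 461 462) (node 620 (merge (leaf 5 492 588) (node 621 (merge (leaf 6 493 526) (leaf 5 524 652))))))))))))))))))))))) (merge (node 557 (merge (node 559 (merge (node 591 (merge (leaf 5 463 464) (node 623 (merge (leaf 5 495 592) (leaf 6 527 655))))) (node 558 (merge (leaf 2 525 529) (node 588 (merge (leaf 1 556 589) (node 556 (merge (leaf 1 555 587) (node 524 (merge (leaf 3 523 523) (leaf 3 524 525))))))))))) (merge (node 559 (merge (node 591 (merge (leaf 5 463 464) (node 623 (merge (leaf 5 495 592) (leaf 6 527 655))))) (node 558 (merge (leaf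 2 525 529) (node 589 (merge (leaf 1 556 588) (node 526 (merge (leaf 5 461 462) (node 621 (merge (leaf 5 493 590) (leaf 6 525 653))))))))))) (merge (node 525 (merge (node 589 (merge (leaf 6 461 462) (node 620 (merge (leaf 5 492 588) (node 621 (merge (leaf 6 493 526) (leaf 5 524 652))))))) (merge (node 589 (merge (leaf 6 461 462) (node 621 (merge (leaf 6 493 526) (node 492 (merge (leaf 7 460 460) (leaf 7 492 524))))))) (merge (node 589 (merge (leaf 6 461 462) (node 620 (merge (leaf 5 492 588) (node 621 (merge (leaf 5 524 652) (node 492 (merge (leaf 7 460 460) (leaf 7 492 524))))))))) (merge (node 589 (merge (node 622 (merge (leaf 4 493 590) (node 621 (merge (leaf 4 525 654) (node 492 (merge (leaf 7 460 460) (leaf 7 492 524))))))) (merge (node 620 (merge (leaf 5 492 588) (node 621 (merge (leaf 5 524 652) (node 492 (merge (leaf 7 460 460) (leaf 7 492 524))))))) (merge (node 621 (merge (leaf 6 493 526) (node 654 (merge (leaf 4 525 622) (node 653 (merge (leaf 4 557 686) (node 652 (merge (leaf 5 524 620) (leaf 5 556 684))))))))) (node 590 (merge (leaf 4 493 622) (node 461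 (merge (leaf 4 461 558) (node 588 (merge (leaf 5 460 556) (leaf 5 492 620))))))))))) (node 461 (merge (node 556 (merge (leaf 5 460 588) (node 429 (merge (leaf 5 428 524) (node 397 (merge (leaf 4 397 526) (node 462 (merge (leaf 4 365 365) (leaf 6 429 430))))))))) (merge (node 430 (merge (leaf 6 429 462) (node 429 (merge (leaf 6 397 398) (node 428 (merge (leaf 7 396 396) (leaf 7 428 460))))))) (merge (node 556 (merge (leaf 5 460 588) (node 429 (merge (leaf 5 428 524) (node 428 (merge (leaf 7 396 396) (leaf 7 428 460))))))) (merge (node 556 (merge (leaf 5 460 588) (node 429 (merge (leaf 5 428 524) (node 428 (merge (leaf 7 396 396) (leaf 7 428 460))))))) (node 556 (merge (leaf 5 460 588) (node 462 (merge (leaf 6 429 430) (node 460 (merge (leaf 7 428 428) (node 459 (merge (leaf 0 458 458) (node 491 (merge (leaf 1 458 490) (node 427 (merge (leaf 3 426 426) (node 524 (merge (leaf 7 427 492) (leaf 4 427 523))))))))))))))))))))))))) (merge (node 559 (merge (node 591 (merge (leaf 5 463 464) (node 623 (merge (leaf 5 495 592) (leaf 6 527 655))))) (node 558 (merge (leaf 2 525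 529) (node 525 (merge (leaf 3 524 524) (node 461 (merge (leaf 4 461 590) (node 429 (merge (leaf 4 429 526) (node 430 (merge (leaf 6 397 398) (leaf 6 429 462))))))))))))) (node 525 (merge (node 589 (merge (leaf 6 461 462) (node 620 (merge (leaf 5 492 588) (node 621 (merge (leaf 6 493 526) (leaf 5 524 652))))))) (merge (node 589 (merge (leaf 6 461 462) (node 621 (merge (leaf 6 493 526) (node 492 (merge (leaf 7 460 460) (leaf 7 492 524))))))) (merge (node 589 (merge (leaf 6 461 462) (node 620 (merge (leaf 5 492 588) (node 621 (merge (leaf 5 524 652) (node 492 (merge (leaf 7 460 460) (leaf 7 492 524))))))))) (merge (node 461 (merge (node 556 (merge (leaf 5 460 588) (node 429 (merge (leaf 5 428 524) (node 397 (merge (leaf 4 397 526) (node 462 (merge (leaf 4 365 365) (leaf 6 429 430))))))))) (merge (node 430 (merge (leaf 6 429 462) (node 429 (merge (leaf 6 397 398) (node 428 (merge (leaf 7 396 396) (leaf 7 428 460))))))) (merge (node 556 (merge (leaf 5 460 588) (node 429 (merge (leaf 5 428 524) (node 428 (merge (leaf 7 396 396) (leaf 7 428 460))))))) (merge (node 556 (merge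 (leaf 5 460 588) (node 429 (merge (leaf 5 428 524) (node 428 (merge (leaf 7 396 396) (leaf 7 428 460))))))) (node 556 (merge (leaf 5 460 588) (node 462 (merge (leaf 6 429 430) (node 460 (merge (leaf 7 428 428) (node 459 (merge (leaf 0 458 458) (node 491 (merge (leaf 1 458 490) (node 427 (merge (leaf 3 426 426) (node 524 (merge (leaf 7 427 492) (leaf 4 427 523)))))))))))))))))))) (node 589 (merge (node 622 (merge (leaf 4 493 590) (node 621 (merge (leaf 4 525 654) (node 492 (merge (leaf 7 460 460) (leaf 7 492 524))))))) (merge (node 620 (merge (leaf 5 492 588) (node 621 (merge (leaf 5 524 652) (node 492 (merge (leaf 7 460 460) (leaf 7 492 524))))))) (merge (node 621 (merge (leaf 6 493 526) (node 654 (merge (leaf 4 525 622) (node 653 (merge (leaf 4 557 686) (node 652 (merge (leaf 5 524 620) (leaf 5 556 684))))))))) (node 590 (merge (leaf 4 493 622) (node 588 (merge (leaf 5 492 620) (node 591 (merge (leaf 2 556 559) (node 623 (merge (leaf 5 495 592) (leaf 0 588 624))))))))))))))))))))))) (merge (node 461 (merge (node 495 (merge (leaf 3 460 460) (leaf 0 493 529))) (merge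 (node 559 (merge (node 591 (merge (leaf 5 463 464) (node 623 (merge (leaf 5 495 592) (leaf 6 527 655))))) (node 558 (merge (node 526 (merge (leaf 7 461 590) (node 429 (merge (leaf 4 397 397) (leaf 7 429 462))))) (node 557 (merge (leaf 2 525 529) (node 588 (merge (leaf 1 556 589) (node 556 (merge (leaf 1 555 587) (node 524 (merge (leaf 6 460 492) (leaf 3 523 523))))))))))))) (node 460 (merge (leaf 3 460 495) (node 459 (merge (leaf 0 458 458) (node 491 (merge (node 490 (merge (leaf 1 458 462) (node 489 (merge (leaf 2 456 488) (leaf 2 457 492))))) (merge (node 523 (merge (node 522 (merge (leaf 1 490 492) (node 427 (merge (leaf 5 426 554) (node 426 (merge (leaf 7 394 394) (node 425 (merge (leaf 0 424 424) (leaf 0 425 428))))))))) (merge (node 555 (merge (leaf 6 427 428) (node 556 (merge (leaf 4 459 588) (node 427 (merge (leaf 4 427 524) (node 554 (merge (leaf 5 426 522) (leaf 5 458 586))))))))) (merge (node 555 (merge (leaf 6 427 428) (node 588 (merge (leaf 4 459 556) (node 587 (merge (leaf 6 459 492) (leaf 4 491 620))))))) (node 492 (merge (leaf 1 490 522) (node 555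 (merge (leaf 6 459 587) (node 556 (merge (leaf 4 459 588) (node 524 (merge (leaf 4 427 427) (leaf 6 428 429))))))))))))) (node 462 (merge (leaf 1 458 490) (node 430 (merge (leaf 2 427 431) (node 427 (merge (leaf 3 426 426) (node 398 (merge (leaf 5 365 366) (node 397 (merge (leaf 7 365 365) (node 429 (merge (leaf 4 397 526) (node 428 (merge (leaf 2 395 399) (node 396 (merge (leaf 4 364 364) (leaf 6 395 523))))))))))))))))))))))))))) (merge (node 461 (merge (node 495 (merge (leaf 3 460 460) (node 525 (merge (leaf 1 492 524) (node 464 (merge (leaf 2 461 465) (node 591 (merge (leaf 5 463 559) (node 592 (merge (leaf 5 495 623) (node 625 (merge (leaf 4 496 593) (node 624 (merge (leaf 4 528 657) (node 590 (merge (leaf 0 589 589) (node 558 (merge (leaf 7 461 526) (leaf 4 461 557))))))))))))))))))) (merge (node 464 (merge (node 465 (merge (leaf 6 432 433) (leaf 2 461 495))) (merge (node 591 (merge (leaf 5 463 559) (node 592 (merge (leaf 5 495 623) (node 625 (merge (leaf 4 496 593) (node 624 (merge (leaf 4 528 657) (node 590 (merge (leaf 0 589 589) (node 558 (merge (leaf 7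 461 526) (node 525 (merge (leaf 4 461 557) (node 524 (merge (leaf 1 492 495) (node 556 (merge (leaf 5 428 429) (node 588 (merge (leaf 6 460 492) (leaf 6 492 620))))))))))))))))))))) (node 433 (merge (leaf 6 432 465) (node 432 (merge (leaf 6 400 401) (node 431 (merge (leaf 7 399 399) (node 430 (merge (leaf 1 429 462) (node 397 (merge (leaf 3 397 398) (node 429 (merge (leaf 3 396 396) (node 524 (merge (leaf 5 396 492) (node 525 (merge (leaf 5 428 556) (node 558 (merge (leaf 4 429 526) (node 557 (merge (leaf 3 524 559) (leaf 4 461 590)))))))))))))))))))))))) (merge (node 429 (merge (node 526 (merge (leaf 4 397 397) (node 558 (merge (leaf 7 429 462) (leaf 7 461 590))))) (merge (node 397 (merge (leaf 4 397 526) (node 524 (merge (leaf 5 396 492) (node 525 (merge (leaf 5 428 556) (node 396 (merge (leaf 7 364 364) (leaf 7 396 428))))))))) (merge (node 525 (merge (node 556 (merge (leaf 5 428 524) (node 557 (merge (leaf 5 460 588) (node 428 (merge (leaf 7 396 396) (leaf 7 428 460))))))) (merge (node 556 (merge (leaf 5 428 524) (node 557 (merge (leaf 5 460 588) (node 430 (merge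 (leaf 6 397 398) (leaf 6 429 462))))))) (merge (node 558 (merge (leaf 4 429 526) (node 557 (merge (leaf 4 461 590) (node 428 (merge (leaf 7 396 396) (leaf 7 428 460))))))) (node 526 (merge (leaf 4 429 558) (node 524 (merge (leaf 5 428 556) (node 523 (merge (leaf 2 490 522) (node 555 (merge (leaf 1 522 554) (node 491 (merge (leaf 3 490 490) (node 428 (merge (leaf 7 396 396) (node 460 (merge (leaf 6 427 459) (leaf 5 427 492))))))))))))))))))) (node 525 (merge (node 556 (merge (leaf 5 428 524) (node 557 (merge (leaf 5 460 588) (node 428 (merge (leaf 7 396 396) (leaf 7 428 460))))))) (merge (node 556 (merge (leaf 5 428 524) (node 557 (merge (leaf 5 460 588) (node 430 (merge (leaf 6 397 398) (leaf 6 429 462))))))) (merge (node 524 (merge (leaf 5 428 556) (node 397 (merge (leaf 5 396 492) (node 398 (merge (leaf 6 365 366) (leaf 6 397 430))))))) (node 428 (merge (leaf 7 396 396) (node 557 (merge (leaf 7 428 460) (node 558 (merge (leaf 4 461 590) (node 589 (merge (leaf 6 461 462) (node 588 (merge (leaf 1 556 559) (leaf 5 492 620))))))))))))))))))) (merge (node 460 (merge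 (leaf 3 460 495) (node 459 (merge (leaf 0 458 458) (node 491 (merge (node 490 (merge (leaf 1 458 462) (node 489 (merge (leaf 2 456 488) (leaf 2 457 492))))) (merge (node 462 (merge (leaf 1 458 490) (node 430 (merge (leaf 2 427 431) (node 525 (merge (leaf 5 397 398) (leaf 6 429 557))))))) (node 428 (merge (node 525 (merge (leaf 7 428 557) (node 429 (merge (leaf 7 396 396) (node 430 (merge (leaf 6 397 398) (leaf 1 427 431))))))) (merge (node 523 (merge (leaf 6 427 555) (node 427 (merge (leaf 6 395 396) (node 426 (merge (leaf 7 394 394) (leaf 0 425 425))))))) (node 523 (merge (leaf 6 427 555) (node 522 (merge (leaf 1 490 492) (node 427 (merge (leaf 5 426 554) (node 426 (merge (leaf 7 394 394) (leaf 0 425 425))))))))))))))))))) (node 460 (merge (leaf 3 460 495) (node 459 (merge (leaf 0 458 458) (node 491 (merge (node 490 (merge (leaf 1 458 462) (node 489 (merge (leaf 2 456 488) (leaf 2 457 492))))) (merge (node 523 (merge (node 522 (merge (leaf 1 490 492) (node 427 (merge (leaf 5 426 554) (node 426 (merge (leaf 7 394 394) (node 425 (merge (leaf 0 424 424) (leaf 0 425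 428))))))))) (merge (node 555 (merge (leaf 6 427 428) (node 556 (merge (leaf 4 459 588) (node 427 (merge (leaf 4 427 524) (node 554 (merge (leaf 5 426 522) (leaf 5 458 586))))))))) (merge (node 555 (merge (leaf 6 427 428) (node 588 (merge (leaf 4 459 556) (node 587 (merge (leaf 6 459 492) (leaf 4 491 620))))))) (node 492 (merge (leaf 1 490 522) (node 555 (merge (leaf 6 459 587) (node 556 (merge (leaf 4 459 588) (node 524 (merge (leaf 4 427 427) (leaf 6 428 429))))))))))))) (node 462 (merge (leaf 1 458 490) (node 430 (merge (leaf 2 427 431) (node 427 (merge (leaf 3 426 426) (node 398 (merge (leaf 5 365 366) (node 397 (merge (leaf 7 365 365) (node 429 (merge (leaf 4 397 526) (node 428 (merge (leaf 2 395 399) (node 396 (merge (leaf 4 364 364) (leaf 6 395 523))))))))))))))))))))))))))))) (node 461 (merge (node 495 (merge (leaf 3 460 460) (leaf 0 493 529))) (merge (node 464 (merge (node 495 (merge (leaf 2 461 465) (leaf 0 493 529))) (merge (node 529 (merge (leaf 0 493 495) (node 559 (merge (leaf 5 463 591) (node 558 (merge (leaf 2 525 557) (node 526 (merge (leaf 7 461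 590) (node 429 (merge (leaf 4 397 397) (leaf 7 429 462))))))))))) (node 433 (merge (leaf 6 432 465) (node 432 (merge (leaf 6 400 401) (node 431 (merge (leaf 7 399 399) (node 430 (merge (leaf 1 429 462) (node 397 (merge (leaf 3 397 398) (node 429 (merge (leaf 3 396 396) (leaf 4 397 526)))))))))))))))) (merge (node 460 (merge (leaf 3 460 495) (node 459 (merge (leaf 0 458 458) (node 491 (merge (node 490 (merge (leaf 1 458 462) (node 489 (merge (leaf 2 456 488) (leaf 2 457 492))))) (merge (node 462 (merge (leaf 1 458 490) (node 430 (merge (leaf 2 427 431) (node 525 (merge (leaf 5 397 398) (leaf 6 429 557))))))) (node 428 (merge (node 525 (merge (leaf 7 428 557) (node 429 (merge (leaf 7 396 396) (node 430 (merge (leaf 6 397 398) (leaf 1 427 431))))))) (merge (node 523 (merge (leaf 6 427 555) (node 427 (merge (leaf 6 395 396) (node 426 (merge (leaf 7 394 394) (leaf 0 425 425))))))) (node 523 (merge (leaf 6 427 555) (node 522 (merge (leaf 1 490 492) (node 427 (merge (leaf 5 426 554) (node 426 (merge (leaf 7 394 394) (leaf 0 425 425))))))))))))))))))) (node 429 (merge (node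 526 (merge (leaf 4 397 397) (node 558 (merge (leaf 7 429 462) (leaf 7 461 590))))) (merge (node 397 (merge (leaf 4 397 526) (node 398 (merge (leaf 6 365 366) (node 525 (merge (leaf 6 397 430) (node 396 (merge (leaf 7 364 364) (leaf 7 396 428))))))))) (merge (node 525 (merge (node 428 (merge (leaf 7 396 396) (node 557 (merge (leaf 7 428 460) (node 558 (merge (leaf 4 461 590) (node 559 (merge (leaf 2 525 529) (node 556 (merge (leaf 5 460 588) (node 591 (merge (leaf 5 463 464) (leaf 0 556 592))))))))))))) (merge (node 430 (merge (leaf 6 397 398) (node 557 (merge (leaf 6 429 462) (node 558 (merge (leaf 4 461 590) (node 559 (merge (leaf 2 525 529) (node 556 (merge (leaf 5 460 588) (node 591 (merge (leaf 5 463 464) (leaf 0 556 592))))))))))))) (merge (node 398 (merge (leaf 6 397 430) (node 397 (merge (leaf 6 365 366) (node 396 (merge (leaf 7 364 364) (leaf 7 396 428))))))) (node 430 (merge (leaf 6 397 398) (node 557 (merge (leaf 6 429 462) (node 558 (merge (leaf 4 461 590) (node 559 (merge (leaf 2 525 529) (node 464 (merge (leaf 5 463 591) (node 433 (merge (leaf 6 432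 465) (node 432 (merge (leaf 6 400 401) (node 431 (merge (leaf 7 399 399) (leaf 1 428 460))))))))))))))))))))) (node 430 (merge (node 398 (merge (leaf 6 397 525) (node 366 (merge (leaf 5 333 334) (leaf 5 365 462))))) (merge (node 525 (merge (leaf 6 397 398) (node 558 (merge (leaf 4 429 526) (node 557 (merge (leaf 4 461 590) (node 428 (merge (leaf 7 396 396) (leaf 7 428 460))))))))) (merge (node 431 (merge (node 432 (merge (leaf 1 428 460) (node 464 (merge (leaf 7 399 399) (leaf 0 429 465))))) (merge (node 428 (merge (node 396 (merge (leaf 3 395 395) (node 364 (merge (leaf 4 332 332) (leaf 4 364 460))))) (merge (node 459 (merge (leaf 1 427 460) (node 427 (merge (leaf 1 426 458) (node 399 (merge (leaf 2 395 398) (leaf 2 396 400))))))) (node 399 (merge (leaf 2 396 400) (node 398 (merge (leaf 2 395 427) (node 462 (merge (leaf 5 365 366) (leaf 6 398 526)))))))))) (merge (node 432 (merge (leaf 1 428 460) (node 464 (merge (leaf 0 429 465) (node 433 (merge (leaf 6 400 401) (leaf 1 429 462))))))) (node 432 (merge (node 464 (merge (leaf 7 399 399) (leaf 0 429 465))) (merge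 (node 464 (merge (leaf 0 429 465) (node 433 (merge (leaf 6 400 401) (leaf 1 429 462))))) (node 462 (merge (leaf 1 429 433) (node 400 (merge (leaf 2 397 401) (node 428 (merge (leaf 2 396 399) (node 427 (merge (leaf 0 426 426) (node 395 (merge (leaf 3 394 394) (leaf 3 395 396)))))))))))))))))) (node 462 (merge (node 526 (merge (leaf 7 429 558) (node 431 (merge (leaf 6 398 399) (node 460 (merge (leaf 1 428 432) (leaf 2 427 459))))))) (merge (node 557 (merge (leaf 6 429 525) (node 558 (merge (leaf 7 429 526) (node 559 (merge (leaf 2 525 529) (node 592 (merge (leaf 0 557 593) (node 591 (merge (leaf 0 556 556) (leaf 5 495 623))))))))))) (node 525 (merge (leaf 6 429 557) (node 428 (merge (leaf 7 396 396) (node 427 (merge (leaf 0 426 426) (node 459 (merge (leaf 1 426 458) (node 460 (merge (leaf 1 427 431) (node 395 (merge (leaf 3 394 394) (node 363 (merge (leaf 4 331 331) (leaf 4 363 492)))))))))))))))))))))))))))))))))))) nQ_70 cQ_70 14 (by decide +kernel)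
def nQ_71 : ℕ := 0x100000001000000010000000000000000000000000000000000000000000000000000000000000000000000000000000000000000000000000000000000000000000000000000
def cQ_71 : ℕ := 0x2d0000003f800001ffc00000ffc00001cfc0000027c000000ff000003fc000003ff000003fc000003f8000000d80000000000000000000000000000000000000000000000000000000000000000000000000000000000
theorem lQ_71 : S nQ_71 cQ_71 15 := S_of_chk [(nQ_67, cQ_67, 14), (nQ_69, cQ_69, 13), (nQ_70, cQ_70, 14)] ⟨lQ_67, lQ_69, lQ_70, trivial⟩ (node 493 (merge (node 495 (merge (node 463 (merge (leaf 7 463 592) (node 431 (merge (leaf 4 399 399) (leaf 7 431 464))))) (node 494 (merge (leaf 0 493 529) (node 524 (merge (leaf 1 492 525) (node 492 (merge (leaf 1 491 523) (node 460 (merge (leaf 3 459 459) (leaf 3 460 461))))))))))) (merge (node 495 (merge (node 494 (merge (leaf 0 493 529) (node 524 (merge (leaf 1 492 525) (node 492 (merge (leaf 1 491 523) (node 460 (merge (leaf 3 459 459) (leaf 3 460 461))))))))) (node 592 (merge (leaf 7 463 463) (node 625 (merge (leaf 4 496 593) (node 624 (merge (leaf 4 528 657) (node 623 (merge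 (leaf 5 495 591) (leaf 5 527 655))))))))))) (merge (node 591 (merge (node 559 (merge (leaf 5 463 464) (node 623 (merge (leaf 5 495 592) (leaf 6 527 655))))) (merge (node 464 (merge (leaf 5 463 559) (node 465 (merge (leaf 6 432 433) (node 494 (merge (leaf 2 461 495) (node 463 (merge (leaf 7 431 431) (leaf 1 461 462))))))))) (node 592 (merge (leaf 5 495 623) (node 625 (merge (leaf 4 496 593) (node 624 (merge (leaf 4 528 657) (node 589 (merge (leaf 0 589 590) (node 495 (merge (leaf 7 463 463) (node 494 (merge (leaf 0 493 529) (node 525 (merge (leaf 1 492 524) (node 557 (merge (leaf 6 461 462) (node 620 (merge (leaf 5 492 588) (node 621 (merge (leaf 6 493 526) (leaf 5 524 652)))))))))))))))))))))))) (merge (node 591 (merge (node 559 (merge (leaf 5 463 464) (node 623 (merge (leaf 5 495 592) (leaf 6 527 655))))) (merge (node 464 (merge (leaf 5 463 559) (node 465 (merge (leaf 6 432 433) (node 494 (merge (leaf 2 461 495) (node 463 (merge (leaf 7 431 431) (leaf 1 461 462))))))))) (node 592 (merge (leaf 5 495 623) (node 625 (merge (leaf 4 496 593) (node 624 (merge (leaf 4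 528 657) (node 589 (merge (leaf 0 589 590) (node 495 (merge (leaf 7 463 463) (node 494 (merge (leaf 0 493 529) (node 460 (merge (leaf 3 460 461) (node 492 (merge (leaf 3 459 459) (node 524 (merge (leaf 1 491 523) (node 556 (merge (leaf 4 460 557) (node 588 (merge (leaf 4 492 621) (node 587 (merge (leaf 5 459 555) (leaf 5 491 619)))))))))))))))))))))))))))) (merge (node 591 (merge (node 464 (merge (leaf 5 463 559) (node 465 (merge (leaf 6 432 433) (node 494 (merge (leaf 2 461 495) (node 463 (merge (leaf 7 431 431) (leaf 1 461 462))))))))) (merge (node 592 (merge (leaf 5 495 623) (node 593 (merge (leaf 4 496 625) (node 463 (merge (leaf 7 463 495) (node 464 (merge (leaf 7 431 431) (node 465 (merge (leaf 6 432 433) (node 462 (merge (leaf 1 461 494) (node 461 (merge (leaf 1 460 492) (node 430 (merge (leaf 3 429 429) (node 557 (merge (leaf 6 429 525) (node 590 (merge (leaf 3 557 558) (node 621 (merge (leaf 1 589 622) (node 589 (merge (leaf 3 556 556) (leaf 1 588 620))))))))))))))))))))))))) (node 592 (merge (leaf 5 495 623) (node 593 (merge (leaf 4 496 625) (node 590 (merge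 (node 621 (merge (leaf 1 589 622) (node 589 (merge (leaf 1 588 620) (node 557 (merge (leaf 3 556 556) (leaf 3 557 558))))))) (merge (node 558 (merge (leaf 3 557 557) (node 594 (merge (leaf 3 558 559) (node 627 (merge (leaf 0 591 626) (node 595 (merge (leaf 0 592 628) (node 563 (merge (leaf 2 559 562) (leaf 2 560 564))))))))))) (merge (node 621 (merge (leaf 1 589 622) (node 589 (merge (leaf 1 588 620) (node 559 (merge (leaf 2 556 588) (node 594 (merge (leaf 3 558 558) (leaf 3 559 595))))))))) (node 621 (merge (leaf 1 589 622) (node 589 (merge (leaf 1 588 620) (node 588 (merge (leaf 2 556 559) (node 556 (merge (leaf 3 555 555) (leaf 3 556 557)))))))))))))))))))) (merge (node 464 (merge (node 433 (merge (leaf 6 432 465) (node 432 (merge (leaf 6 400 401) (node 431 (merge (leaf 7 399 399) (leaf 7 431 463))))))) (merge (node 494 (merge (node 495 (merge (leaf 2 461 465) (leaf 0 493 529))) (merge (node 463 (merge (leaf 7 431 431) (node 462 (merge (leaf 1 461 465) (node 492 (merge (leaf 1 460 461) (leaf 2 459 491))))))) (node 495 (merge (leaf 0 493 529) (node 492 (merge (leaf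 2 460 463) (node 524 (merge (leaf 1 491 523) (leaf 1 492 525)))))))))) (merge (node 432 (merge (node 431 (merge (leaf 7 399 399) (leaf 7 431 463))) (merge (node 401 (merge (leaf 6 400 433) (node 400 (merge (leaf 6 368 369) (node 399 (merge (leaf 7 367 367) (leaf 7 399 431))))))) (merge (node 401 (merge (leaf 6 400 433) (node 400 (merge (leaf 6 368 369) (node 463 (merge (leaf 7 431 431) (node 495 (merge (leaf 5 367 368) (node 494 (merge (leaf 2 460 492) (leaf 0 493 529))))))))))) (node 401 (merge (leaf 6 400 433) (node 400 (merge (leaf 6 368 369) (node 367 (merge (leaf 7 367 399) (node 368 (merge (leaf 7 335 335) (node 495 (merge (leaf 5 367 463) (node 494 (merge (leaf 0 493 529) (node 524 (merge (leaf 1 492 525) (node 492 (merge (leaf 1 491 523) (node 460 (merge (leaf 3 459 459) (leaf 3 460 461))))))))))))))))))))))) (merge (node 559 (merge (leaf 5 463 591) (node 557 (merge (node 558 (merge (leaf 2 525 529) (node 588 (merge (leaf 1 556 589) (node 556 (merge (leaf 1 555 587) (node 524 (merge (leaf 3 523 523) (leaf 3 524 525))))))))) (merge (node 465 (merge (leaf 6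 432 433) (node 494 (merge (leaf 2 461 495) (node 462 (merge (leaf 1 461 463) (node 525 (merge (leaf 6 461 589) (node 430 (merge (leaf 5 397 398) (leaf 5 429 526))))))))))) (merge (node 558 (merge (leaf 2 525 529) (node 589 (merge (leaf 1 556 588) (node 465 (merge (leaf 6 432 433) (node 494 (merge (leaf 2 461 495) (node 462 (merge (leaf 1 461 463) (leaf 5 461 526))))))))))) (node 558 (merge (leaf 2 525 529) (node 525 (merge (leaf 3 524 524) (node 461 (merge (leaf 4 461 590) (node 462 (merge (leaf 6 429 430) (node 460 (merge (leaf 7 428 428) (node 495 (merge (leaf 0 460 463) (leaf 3 460 494))))))))))))))))))) (node 461 (merge (node 433 (merge (leaf 6 432 465) (node 432 (merge (leaf 6 400 401) (node 431 (merge (leaf 7 399 399) (node 430 (merge (leaf 1 429 462) (node 429 (merge (leaf 1 428 460) (node 397 (merge (leaf 3 396 396) (leaf 3 397 398))))))))))))) (merge (node 557 (merge (node 559 (merge (leaf 5 463 591) (node 558 (merge (leaf 2 525 529) (node 525 (merge (leaf 3 524 524) (leaf 4 461 590))))))) (merge (node 525 (merge (node 428 (merge (leaf 7 428 460) (node 430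 (merge (leaf 6 429 462) (node 429 (merge (leaf 7 396 396) (leaf 6 397 398))))))) (merge (node 588 (merge (leaf 5 460 556) (node 589 (merge (leaf 5 492 620) (node 462 (merge (leaf 6 429 430) (leaf 6 461 494))))))) (node 588 (merge (leaf 5 460 556) (node 589 (merge (leaf 5 492 620) (node 460 (merge (leaf 7 428 428) (leaf 7 460 492)))))))))) (node 559 (merge (leaf 5 463 591) (node 558 (merge (leaf 2 525 529) (node 588 (merge (leaf 1 556 589) (node 556 (merge (leaf 1 555 587) (node 524 (merge (leaf 3 523 523) (node 492 (merge (leaf 6 460 493) (node 460 (merge (leaf 6 428 429) (node 459 (merge (leaf 7 427 427) (leaf 7 459 491)))))))))))))))))))) (merge (node 433 (merge (leaf 6 432 465) (node 432 (merge (leaf 6 400 401) (node 431 (merge (leaf 7 399 399) (node 430 (merge (leaf 1 429 462) (node 397 (merge (leaf 3 397 398) (node 429 (merge (leaf 3 396 396) (node 524 (merge (leaf 5 396 492) (node 525 (merge (leaf 5 428 556) (node 558 (merge (leaf 4 429 526) (node 557 (merge (leaf 3 524 559) (leaf 4 461 590))))))))))))))))))))) (merge (node 591 (merge (leaf 5 463 559) (node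 494 (merge (node 495 (merge (leaf 3 460 460) (leaf 0 493 529))) (node 433 (merge (leaf 6 432 465) (node 432 (merge (leaf 6 400 401) (node 399 (merge (leaf 7 399 431) (node 400 (merge (leaf 7 367 367) (node 397 (merge (leaf 0 397 398) (node 429 (merge (leaf 4 397 526) (node 524 (merge (leaf 5 396 492) (node 525 (merge (leaf 5 428 556) (node 396 (merge (leaf 7 364 364) (leaf 7 396 428))))))))))))))))))))))) (node 557 (merge (node 559 (merge (leaf 5 463 591) (node 558 (merge (leaf 2 525 529) (node 525 (merge (leaf 3 524 524) (leaf 4 461 590))))))) (merge (node 462 (merge (node 433 (merge (leaf 6 432 465) (node 432 (merge (leaf 6 400 401) (node 431 (merge (leaf 7 399 399) (leaf 1 429 430))))))) (merge (node 525 (merge (leaf 6 429 430) (node 589 (merge (leaf 6 461 494) (node 460 (merge (leaf 7 428 428) (leaf 7 460 492))))))) (node 465 (merge (leaf 6 432 433) (node 494 (merge (leaf 2 461 495) (node 525 (merge (leaf 6 461 589) (node 556 (merge (leaf 5 460 588) (node 460 (merge (leaf 7 428 428) (node 459 (merge (leaf 0 458 458) (node 491 (merge (leaf 1 458 490) (node 427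 (merge (leaf 3 426 426) (node 524 (merge (leaf 7 427 492) (leaf 4 427 523)))))))))))))))))))))) (node 559 (merge (leaf 5 463 591) (node 558 (merge (leaf 2 525 529) (node 589 (merge (leaf 1 556 588) (node 465 (merge (leaf 6 432 433) (node 494 (merge (leaf 2 461 495) (node 526 (merge (leaf 5 461 462) (node 590 (merge (leaf 7 461 461) (leaf 5 493 621)))))))))))))))))))))))))))) (merge (hyp 0) (merge (hyp 1) (hyp 2)))))))))) nQ_71 cQ_71 15 (by decide +kernel)
def nQ_72 : ℕ := 0x10000000120000001000000010000000000000000000000000000000000000000000000000000000000000000000000000000000000000000000000000000000000000000000000000000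
def cQ_72 : ℕ := 0x40000000600000027000000370000002f00000005000000278000002fc000001fc000000fe0000007000000070000000400000000000000000000000000000000000000000000000000000000000000000000000000000000000
theorem lQ_72 : S nQ_72 cQ_72 13 := S_of_chk [] trivial (node 493 (merge (node 625 (merge (leaf 4 496 593) (node 624 (merge (leaf 4 528 657) (node 529 (merge (leaf 6 496 497) (node 495 (merge (leaf 7 463 463) (leaf 0 493 494))))))))) (merge (node 495 (merge (leaf 7 463 463) (node 494 (merge (leaf 0 493 529) (node 524 (merge (leaf 1 492 525) (node 492 (merge (leaf 1 491 523) (node 460 (merge (leaf 3 459 459) (leaf 3 460 461))))))))))) (merge (node 525 (merge (node 495 (merge (leaf 7 463 463) (node 494 (merge (leaf 1 492 524) (node 461 (merge (leaf 3 460 460) (node 462 (merge (leaf 6 429 430) (leaf 3 461 497))))))))) (merge (node 495 (merge (leaf 7 463 463) (node 494 (merge (leaf 1 492 524) (node 589 (merge (leaf 6 461 462) (node 620 (merge (leaf 5 492 588) (node 621 (merge (leaf 6 493 526) (leaf 5 524 652))))))))))) (merge (node 590 (merge (node 622 (merge (leaf 4 493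 589) (node 558 (merge (leaf 7 493 526) (leaf 7 525 654))))) (merge (node 461 (merge (leaf 4 461 558) (node 430 (merge (leaf 6 429 462) (node 429 (merge (leaf 6 397 398) (node 428 (merge (leaf 7 396 396) (leaf 7 428 460))))))))) (node 589 (merge (leaf 4 493 622) (node 620 (merge (leaf 5 492 588) (node 621 (merge (leaf 5 524 652) (node 494 (merge (leaf 6 461 462) (leaf 6 493 526)))))))))))) (merge (node 495 (merge (leaf 7 463 463) (node 494 (merge (leaf 1 492 524) (node 461 (merge (leaf 3 460 460) (node 558 (merge (leaf 4 461 590) (node 429 (merge (leaf 4 429 526) (node 398 (merge (leaf 6 397 430) (node 397 (merge (leaf 6 365 366) (node 396 (merge (leaf 7 364 364) (leaf 7 396 428))))))))))))))))) (node 590 (merge (node 461 (merge (leaf 4 461 558) (node 430 (merge (leaf 6 429 462) (node 429 (merge (leaf 6 397 398) (node 428 (merge (leaf 7 396 396) (leaf 7 428 460))))))))) (merge (node 589 (merge (leaf 4 493 622) (node 620 (merge (leaf 5 492 588) (node 621 (merge (leaf 5 524 652) (node 492 (merge (leaf 7 460 460) (leaf 7 492 524))))))))) (node 589 (merge (leaf 4 493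 622) (node 620 (merge (leaf 5 492 588) (node 621 (merge (leaf 5 524 652) (node 524 (merge (leaf 7 492 492) (node 653 (merge (leaf 7 524 556) (node 686 (merge (leaf 4 557 654) (node 685 (merge (leaf 6 557 558) (leaf 4 589 718))))))))))))))))))))))) (merge (node 525 (merge (node 593 (merge (leaf 4 496 625) (node 461 (merge (node 430 (merge (leaf 6 429 462) (node 429 (merge (leaf 6 397 398) (node 428 (merge (leaf 7 396 396) (leaf 7 428 460))))))) (merge (node 588 (merge (leaf 5 460 556) (node 589 (merge (leaf 5 492 620) (node 460 (merge (leaf 7 428 428) (leaf 7 460 492))))))) (node 556 (merge (leaf 5 460 588) (node 429 (merge (leaf 5 428 524) (node 430 (merge (leaf 6 397 398) (leaf 6 429 462)))))))))))) (merge (node 589 (merge (node 620 (merge (leaf 5 492 588) (node 621 (merge (leaf 5 524 652) (node 492 (merge (leaf 7 460 460) (leaf 7 492 524))))))) (node 625 (merge (leaf 4 496 593) (node 624 (merge (leaf 4 528 657) (node 590 (merge (leaf 0 589 591) (node 622 (merge (leaf 4 493 493) (node 654 (merge (leaf 7 525 558) (leaf 7 557 686))))))))))))) (merge (node 625 (merge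 (leaf 4 496 593) (node 624 (merge (leaf 4 528 657) (node 497 (merge (leaf 6 496 529) (node 463 (merge (leaf 7 463 495) (node 464 (merge (leaf 7 431 431) (node 461 (merge (leaf 0 461 462) (node 558 (merge (leaf 4 461 590) (node 429 (merge (leaf 4 429 526) (node 556 (merge (leaf 5 428 524) (leaf 5 460 588))))))))))))))))))) (merge (node 625 (merge (leaf 4 496 593) (node 624 (merge (leaf 4 528 657) (node 497 (merge (leaf 6 496 529) (node 463 (merge (leaf 7 463 495) (node 464 (merge (leaf 7 431 431) (node 461 (merge (leaf 0 461 462) (node 590 (merge (leaf 4 461 558) (node 589 (merge (leaf 0 589 591) (node 460 (merge (leaf 7 428 428) (leaf 7 460 492))))))))))))))))))) (node 590 (merge (node 461 (merge (leaf 4 461 558) (node 430 (merge (leaf 6 429 462) (node 429 (merge (leaf 6 397 398) (node 428 (merge (leaf 7 396 396) (leaf 7 428 460))))))))) (merge (node 589 (merge (leaf 4 493 622) (node 620 (merge (leaf 5 492 588) (node 621 (merge (leaf 5 524 652) (node 492 (merge (leaf 7 460 460) (leaf 7 492 524))))))))) (node 589 (merge (leaf 4 493 622) (node 620 (merge (leaf 5 492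 588) (node 621 (merge (leaf 5 524 652) (node 524 (merge (leaf 7 492 492) (node 653 (merge (leaf 7 524 556) (node 686 (merge (leaf 4 557 654) (node 685 (merge (leaf 6 557 558) (leaf 4 589 718))))))))))))))))))))))) (merge (node 525 (merge (node 625 (merge (leaf 4 496 593) (node 624 (merge (leaf 4 528 657) (node 529 (merge (leaf 6 496 497) (node 494 (merge (leaf 0 493 495) (node 589 (merge (leaf 6 461 462) (node 620 (merge (leaf 5 492 588) (node 621 (merge (leaf 6 493 526) (leaf 5 524 652))))))))))))))) (merge (node 625 (merge (leaf 4 496 593) (node 624 (merge (leaf 4 528 657) (node 529 (merge (leaf 6 496 497) (node 494 (merge (leaf 0 493 495) (node 589 (merge (leaf 6 461 462) (node 621 (merge (leaf 6 493 526) (node 492 (merge (leaf 7 460 460) (leaf 7 492 524))))))))))))))) (merge (node 589 (merge (node 620 (merge (leaf 5 492 588) (node 621 (merge (leaf 5 524 652) (node 494 (merge (leaf 6 461 462) (leaf 6 493 526))))))) (merge (node 620 (merge (leaf 5 492 588) (node 621 (merge (leaf 5 524 652) (node 492 (merge (leaf 7 460 460) (leaf 7 492 524))))))) (merge (node 588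 (merge (leaf 5 492 620) (node 461 (merge (leaf 5 460 556) (node 462 (merge (leaf 6 429 430) (leaf 6 461 494))))))) (node 494 (merge (leaf 6 461 462) (node 621 (merge (leaf 6 493 526) (node 654 (merge (leaf 4 525 622) (node 653 (merge (leaf 4 557 686) (node 524 (merge (leaf 7 492 492) (leaf 7 524 556))))))))))))))) (merge (node 589 (merge (node 620 (merge (leaf 5 492 588) (node 621 (merge (leaf 5 524 652) (node 492 (merge (leaf 7 460 460) (leaf 7 492 524))))))) (node 625 (merge (leaf 4 496 593) (node 624 (merge (leaf 4 528 657) (node 590 (merge (leaf 0 589 591) (node 622 (merge (leaf 4 493 493) (node 654 (merge (leaf 7 525 558) (leaf 7 557 686))))))))))))) (node 593 (merge (leaf 4 496 625) (node 461 (merge (node 430 (merge (leaf 6 429 462) (node 429 (merge (leaf 6 397 398) (node 428 (merge (leaf 7 396 396) (leaf 7 428 460))))))) (merge (node 556 (merge (leaf 5 460 588) (node 429 (merge (leaf 5 428 524) (node 430 (merge (leaf 6 397 398) (leaf 6 429 462))))))) (merge (node 556 (merge (leaf 5 460 588) (node 429 (merge (leaf 5 428 524) (node 398 (merge (leaf 6 397 430)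 (node 397 (merge (leaf 6 365 366) (node 396 (merge (leaf 7 364 364) (leaf 7 396 428))))))))))) (merge (node 428 (merge (leaf 7 428 460) (node 429 (merge (leaf 7 396 396) (node 524 (merge (leaf 5 428 556) (node 397 (merge (leaf 5 396 492) (node 494 (merge (leaf 4 397 526) (node 365 (merge (leaf 4 365 462) (node 366 (merge (leaf 6 333 334) (leaf 6 365 398))))))))))))))) (node 556 (merge (leaf 5 460 588) (node 462 (merge (leaf 6 429 430) (node 460 (merge (leaf 7 428 428) (node 494 (merge (leaf 3 460 495) (node 459 (merge (leaf 0 458 458) (node 491 (merge (leaf 1 458 490) (node 427 (merge (leaf 3 426 426) (node 524 (merge (leaf 7 427 492) (leaf 4 427 523))))))))))))))))))))))))))))) (node 525 (merge (node 589 (merge (node 620 (merge (leaf 5 492 588) (node 621 (merge (leaf 5 524 652) (node 494 (merge (leaf 6 461 462) (leaf 6 493 526))))))) (merge (node 620 (merge (leaf 5 492 588) (node 621 (merge (leaf 5 524 652) (node 492 (merge (leaf 7 460 460) (leaf 7 492 524))))))) (merge (node 588 (merge (leaf 5 492 620) (node 461 (merge (leaf 5 460 556) (node 462 (merge (leaf 6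 429 430) (leaf 6 461 494))))))) (node 494 (merge (leaf 6 461 462) (node 621 (merge (leaf 6 493 526) (node 654 (merge (leaf 4 525 622) (node 653 (merge (leaf 4 557 686) (node 524 (merge (leaf 7 492 492) (leaf 7 524 556))))))))))))))) (merge (node 590 (merge (node 622 (merge (leaf 4 493 589) (node 558 (merge (leaf 7 493 526) (leaf 7 525 654))))) (merge (node 461 (merge (leaf 4 461 558) (node 430 (merge (leaf 6 429 462) (node 429 (merge (leaf 6 397 398) (node 428 (merge (leaf 7 396 396) (leaf 7 428 460))))))))) (node 589 (merge (leaf 4 493 622) (node 620 (merge (leaf 5 492 588) (node 621 (merge (leaf 5 524 652) (node 494 (merge (leaf 6 461 462) (leaf 6 493 526)))))))))))) (merge (node 589 (merge (node 620 (merge (leaf 5 492 588) (node 621 (merge (leaf 5 524 652) (node 492 (merge (leaf 7 460 460) (leaf 7 492 524))))))) (node 625 (merge (leaf 4 496 593) (node 624 (merge (leaf 4 528 657) (node 590 (merge (leaf 0 589 591) (node 622 (merge (leaf 4 493 493) (node 654 (merge (leaf 7 525 558) (leaf 7 557 686))))))))))))) (merge (node 462 (merge (node 494 (merge (leaf 6 461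 589) (node 430 (merge (leaf 5 397 398) (leaf 5 429 526))))) (merge (node 461 (merge (leaf 6 429 430) (node 590 (merge (leaf 4 461 558) (node 589 (merge (leaf 4 493 622) (node 460 (merge (leaf 7 428 428) (leaf 7 460 492))))))))) (merge (node 589 (merge (leaf 6 461 494) (node 622 (merge (leaf 4 493 590) (node 621 (merge (leaf 4 525 654) (node 492 (merge (leaf 7 460 460) (leaf 7 492 524))))))))) (node 430 (merge (leaf 6 429 461) (node 494 (merge (leaf 5 397 398) (leaf 5 429 526))))))))) (merge (node 588 (merge (node 620 (merge (leaf 5 492 589) (node 556 (merge (leaf 6 492 524) (leaf 6 524 652))))) (merge (node 589 (merge (leaf 5 492 620) (node 622 (merge (leaf 4 493 590) (node 621 (merge (leaf 4 525 654) (node 494 (merge (leaf 6 461 462) (leaf 6 493 526))))))))) (node 461 (merge (leaf 5 460 556) (node 558 (merge (leaf 4 461 590) (node 429 (merge (leaf 4 429 526) (node 430 (merge (leaf 6 397 398) (leaf 6 429 462)))))))))))) (node 497 (merge (node 625 (merge (leaf 4 496 593) (node 624 (merge (leaf 6 496 529) (leaf 4 528 657))))) (node 461 (merge (node 462 (merge (leaf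 6 429 430) (node 463 (merge (leaf 0 461 464) (node 460 (merge (leaf 7 428 428) (node 491 (merge (leaf 1 459 492) (node 459 (merge (leaf 1 458 490) (node 458 (merge (leaf 0 458 494) (node 426 (merge (leaf 3 425 425) (leaf 3 426 427))))))))))))))) (merge (node 558 (merge (leaf 4 461 590) (node 429 (merge (leaf 4 429 526) (node 556 (merge (leaf 5 428 524) (leaf 5 460 588))))))) (merge (node 556 (merge (leaf 5 460 588) (node 429 (merge (leaf 5 428 524) (node 428 (merge (leaf 7 396 396) (leaf 7 428 460))))))) (node 556 (merge (leaf 5 460 588) (node 429 (merge (leaf 5 428 524) (node 430 (merge (leaf 6 397 398) (leaf 6 429 462))))))))))))))))))))))))) nQ_72 cQ_72 13 (by decide +kernel)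
def nQ_73 : ℕ := 0x120000001000000010000000080000000000000000000000000000000000000000000000000000000000000000000000000000000000000000000000000000000000000000000
def cQ_73 : ℕ := 0x500000007e000001fc000000fe000000dc00001c7c00000efc00001d70000000f8000000f0000001d0000001c00000014000000000000000000000000000000000000000000000000000000000000000000000000000
theorem lQ_73 : S nQ_73 cQ_73 12 := S_of_chk [] trivial (node 525 (merge (node 464 (merge (leaf 7 431 431) (node 559 (merge (leaf 5 463 591) (node 558 (merge (leaf 3 524 524) (node 588 (merge (leaf 1 556 589) (node 556 (merge (leaf 1 555 587) (node 461 (merge (leaf 5 460 493) (node 462 (merge (leaf 0 461 497) (node 460 (merge (leaf 0 460 495) (node 428 (merge (leaf 3 427 427) (leaf 3 428 429))))))))))))))))))) (merge (node 462 (merge (node 431 (merge (leaf 7 431 464) (node 399 (merge (leaf 4 399 495) (node 367 (merge (leaf 5 366 494) (node 335 (merge (leaf 5 334 430) (node 336 (merge (leaf 6 303 304) (leaf 6 335 368))))))))))) (merge (node 461 (merge (node 460 (merge (leaf 0 460 495) (node 492 (merge (leaf 1 459 491)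 (node 428 (merge (leaf 3 427 427) (leaf 4 428 524))))))) (node 493 (merge (leaf 6 429 430) (node 590 (merge (leaf 4 461 558) (node 589 (merge (leaf 6 461 494) (leaf 4 493 622))))))))) (node 464 (merge (leaf 7 431 431) (node 461 (merge (leaf 0 461 497) (node 428 (merge (leaf 3 428 429) (node 460 (merge (leaf 3 427 427) (node 492 (merge (leaf 1 459 491) (leaf 4 428 524)))))))))))))) (merge (node 462 (merge (node 464 (merge (leaf 7 431 431) (node 461 (merge (leaf 0 461 497) (node 493 (merge (leaf 6 429 430) (leaf 1 460 492))))))) (merge (node 431 (merge (leaf 7 431 464) (node 399 (merge (leaf 4 399 495) (node 367 (merge (leaf 5 366 494) (node 335 (merge (leaf 5 334 430) (node 336 (merge (leaf 6 303 304) (leaf 6 335 368))))))))))) (merge (node 493 (merge (node 461 (merge (leaf 6 429 430) (node 460 (merge (leaf 7 428 428) (leaf 0 460 495))))) (merge (node 461 (merge (leaf 6 429 430) (node 588 (merge (leaf 5 460 556) (node 589 (merge (leaf 6 461 494) (leaf 5 492 620))))))) (node 589 (merge (leaf 6 461 494) (node 590 (merge (leaf 4 493 622) (node 588 (merge (leaf 5 492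 620) (node 559 (merge (leaf 1 556 558) (leaf 2 556 591)))))))))))) (node 464 (merge (leaf 7 431 431) (node 461 (merge (leaf 0 461 497) (node 493 (merge (leaf 1 460 492) (node 588 (merge (leaf 5 460 556) (node 559 (merge (leaf 5 463 591) (node 589 (merge (leaf 6 461 494) (leaf 1 556 558))))))))))))))))) (merge (node 589 (merge (node 588 (merge (node 559 (merge (leaf 1 556 558) (node 591 (merge (leaf 5 463 464) (leaf 2 556 590))))) (node 620 (merge (leaf 5 492 493) (node 652 (merge (leaf 6 524 556) (leaf 6 556 684))))))) (merge (node 622 (merge (node 590 (merge (leaf 4 493 493) (node 654 (merge (leaf 7 525 558) (leaf 7 557 686))))) (merge (node 621 (merge (leaf 4 525 654) (node 652 (merge (leaf 5 524 620) (node 653 (merge (leaf 5 556 684) (node 526 (merge (leaf 6 493 494) (leaf 6 525 558))))))))) (merge (node 493 (merge (leaf 4 493 590) (node 492 (merge (leaf 7 460 460) (node 621 (merge (leaf 7 492 524) (node 652 (merge (leaf 5 524 620) (node 653 (merge (leaf 5 556 684) (node 526 (merge (leaf 6 493 494) (leaf 6 525 558))))))))))))) (node 493 (merge (leaf 4 493 590)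 (node 621 (merge (leaf 4 525 654) (node 620 (merge (leaf 5 492 588) (leaf 5 524 652))))))))))) (merge (node 464 (merge (leaf 7 431 431) (node 559 (merge (leaf 5 463 591) (node 524 (merge (leaf 3 524 558) (node 621 (merge (leaf 7 492 492) (node 653 (merge (leaf 7 524 556) (node 654 (merge (leaf 4 525 622) (leaf 4 557 686))))))))))))) (node 621 (merge (node 654 (merge (leaf 4 525 622) (node 653 (merge (leaf 4 557 686) (node 524 (merge (leaf 7 492 492) (leaf 7 524 556))))))) (merge (node 652 (merge (leaf 5 524 620) (node 653 (merge (leaf 5 556 684) (node 524 (merge (leaf 7 492 492) (leaf 7 524 556))))))) (node 622 (merge (leaf 4 525 654) (node 620 (merge (leaf 5 524 652) (node 464 (merge (leaf 7 431 431) (node 591 (merge (leaf 5 463 559) (node 619 (merge (leaf 2 587 590) (node 650 (merge (leaf 1 618 651) (node 618 (merge (leaf 1 617 649) (node 586 (merge (leaf 3 585 585) (leaf 3 586 587)))))))))))))))))))))))) (merge (node 589 (merge (node 588 (merge (node 559 (merge (leaf 1 556 558) (node 591 (merge (leaf 5 463 464) (leaf 2 556 590))))) (node 620 (merge (leaf 5 492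 493) (node 652 (merge (leaf 6 524 556) (leaf 6 556 684))))))) (merge (node 493 (merge (node 494 (merge (leaf 6 461 462) (node 495 (merge (leaf 1 492 524) (node 492 (merge (leaf 7 460 460) (leaf 2 460 464))))))) (merge (node 620 (merge (leaf 5 492 588) (node 621 (merge (leaf 5 524 652) (node 494 (merge (leaf 6 461 462) (leaf 6 493 526))))))) (node 620 (merge (leaf 5 492 588) (node 621 (merge (leaf 5 524 652) (node 492 (merge (leaf 7 460 460) (leaf 7 492 524)))))))))) (merge (node 492 (merge (node 460 (merge (leaf 7 460 493) (node 524 (merge (leaf 4 428 428) (leaf 4 460 556))))) (merge (node 493 (merge (leaf 7 460 460) (node 622 (merge (leaf 4 493 590) (node 621 (merge (leaf 4 525 654) (node 494 (merge (leaf 6 461 462) (leaf 6 493 526))))))))) (node 621 (merge (leaf 7 492 524) (node 654 (merge (leaf 4 525 622) (node 653 (merge (leaf 4 557 686) (node 526 (merge (leaf 6 493 494) (leaf 6 525 558)))))))))))) (node 558 (merge (node 559 (merge (leaf 3 524 524) (leaf 1 556 588))) (merge (node 524 (merge (leaf 3 524 559) (node 621 (merge (leaf 7 492 492) (node 653 (merge (leaf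 6 525 526) (leaf 7 524 556))))))) (merge (node 622 (merge (node 590 (merge (leaf 7 525 654) (node 588 (merge (leaf 1 556 559) (node 587 (merge (leaf 2 554 586) (leaf 0 587 623))))))) (merge (node 621 (merge (leaf 4 525 654) (node 652 (merge (leaf 5 524 620) (node 653 (merge (leaf 6 525 526) (leaf 5 556 684))))))) (node 588 (merge (leaf 1 556 559) (node 587 (merge (leaf 2 554 586) (node 623 (merge (leaf 0 587 590) (node 620 (merge (leaf 3 587 621) (node 652 (merge (leaf 6 524 556) (leaf 6 556 684)))))))))))))) (node 621 (merge (node 654 (merge (leaf 4 525 622) (node 653 (merge (leaf 4 557 686) (node 526 (merge (leaf 6 493 494) (leaf 6 525 558))))))) (merge (node 654 (merge (leaf 4 525 622) (node 653 (merge (leaf 4 557 686) (node 524 (merge (leaf 7 492 492) (leaf 7 524 556))))))) (node 620 (merge (leaf 5 524 652) (node 526 (merge (leaf 6 493 494) (node 524 (merge (leaf 7 492 492) (node 523 (merge (leaf 0 522 522) (node 555 (merge (leaf 1 522 554) (node 491 (merge (leaf 3 490 490) (node 588 (merge (leaf 7 491 556) (leaf 4 491 587)))))))))))))))))))))))))) (merge (node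 589 (merge (node 464 (merge (leaf 7 431 431) (node 559 (merge (leaf 5 463 591) (node 558 (merge (leaf 3 524 524) (leaf 1 556 588))))))) (merge (node 494 (merge (node 621 (merge (leaf 6 493 526) (node 652 (merge (leaf 5 524 620) (node 653 (merge (leaf 5 556 684) (node 524 (merge (leaf 7 492 492) (leaf 7 524 556))))))))) (node 431 (merge (leaf 7 431 464) (node 399 (merge (leaf 4 399 495) (node 367 (merge (leaf 5 366 462) (node 336 (merge (leaf 6 335 368) (node 335 (merge (leaf 6 303 304) (node 334 (merge (leaf 7 302 302) (leaf 7 334 366))))))))))))))) (merge (node 558 (merge (node 559 (merge (leaf 3 524 524) (leaf 1 556 588))) (merge (node 524 (merge (leaf 3 524 559) (node 621 (merge (leaf 7 492 492) (node 653 (merge (leaf 6 525 526) (leaf 7 524 556))))))) (merge (node 622 (merge (node 590 (merge (leaf 7 525 654) (node 588 (merge (leaf 1 556 559) (node 587 (merge (leaf 2 554 586) (leaf 0 587 623))))))) (merge (node 621 (merge (leaf 4 525 654) (node 652 (merge (leaf 5 524 620) (node 653 (merge (leaf 6 525 526) (leaf 5 556 684))))))) (node 588 (merge (leaf 1 556 559)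 (node 587 (merge (leaf 2 554 586) (node 623 (merge (leaf 0 587 590) (node 620 (merge (leaf 3 587 621) (node 652 (merge (leaf 6 524 556) (leaf 6 556 684)))))))))))))) (node 621 (merge (node 654 (merge (leaf 4 525 622) (node 653 (merge (leaf 4 557 686) (node 526 (merge (leaf 6 493 494) (leaf 6 525 558))))))) (merge (node 654 (merge (leaf 4 525 622) (node 653 (merge (leaf 4 557 686) (node 524 (merge (leaf 7 492 492) (leaf 7 524 556))))))) (node 620 (merge (leaf 5 524 652) (node 526 (merge (leaf 6 493 494) (node 524 (merge (leaf 7 492 492) (node 523 (merge (leaf 0 522 522) (node 555 (merge (leaf 1 522 554) (node 491 (merge (leaf 3 490 490) (node 588 (merge (leaf 7 491 556) (leaf 4 491 587)))))))))))))))))))))) (node 621 (merge (node 654 (merge (leaf 4 525 622) (node 653 (merge (leaf 4 557 686) (node 526 (merge (leaf 6 493 494) (leaf 6 525 558))))))) (merge (node 652 (merge (leaf 5 524 620) (node 653 (merge (leaf 5 556 684) (node 526 (merge (leaf 6 493 494) (leaf 6 525 558))))))) (merge (node 622 (merge (leaf 4 525 654) (node 620 (merge (leaf 5 524 652) (node 464 (merge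 (leaf 7 431 431) (node 559 (merge (leaf 5 463 591) (node 588 (merge (leaf 1 556 558) (node 623 (merge (leaf 3 587 587) (leaf 3 588 624))))))))))))) (node 622 (merge (leaf 4 525 654) (node 620 (merge (leaf 5 524 652) (node 464 (merge (leaf 7 431 431) (node 591 (merge (leaf 5 463 559) (node 619 (merge (leaf 2 587 590) (node 650 (merge (leaf 1 618 651) (node 618 (merge (leaf 1 617 649) (node 586 (merge (leaf 3 585 585) (leaf 3 586 587))))))))))))))))))))))))) (merge (node 589 (merge (node 492 (merge (node 460 (merge (leaf 7 460 493) (node 524 (merge (leaf 4 428 428) (leaf 4 460 556))))) (merge (node 493 (merge (leaf 7 460 460) (node 622 (merge (leaf 4 493 590) (node 621 (merge (leaf 4 525 654) (node 494 (merge (leaf 6 461 462) (leaf 6 493 526))))))))) (node 621 (merge (leaf 7 492 524) (node 654 (merge (leaf 4 525 622) (node 653 (merge (leaf 4 557 686) (node 526 (merge (leaf 6 493 494) (leaf 6 525 558)))))))))))) (merge (node 493 (merge (node 622 (merge (leaf 4 493 590) (node 621 (merge (leaf 4 525 654) (node 492 (merge (leaf 7 460 460) (leaf 7 492 524))))))) (merge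 (node 620 (merge (leaf 5 492 588) (node 621 (merge (leaf 5 524 652) (node 492 (merge (leaf 7 460 460) (leaf 7 492 524))))))) (node 590 (merge (leaf 4 493 622) (node 461 (merge (leaf 4 461 558) (node 588 (merge (leaf 5 460 556) (leaf 5 492 620)))))))))) (merge (node 622 (merge (node 590 (merge (leaf 4 493 493) (node 654 (merge (leaf 7 525 558) (leaf 7 557 686))))) (merge (node 621 (merge (leaf 4 525 654) (node 652 (merge (leaf 5 524 620) (node 653 (merge (leaf 5 556 684) (node 526 (merge (leaf 6 493 494) (leaf 6 525 558))))))))) (merge (node 493 (merge (leaf 4 493 590) (node 492 (merge (leaf 7 460 460) (node 621 (merge (leaf 7 492 524) (node 652 (merge (leaf 5 524 620) (node 653 (merge (leaf 5 556 684) (node 526 (merge (leaf 6 493 494) (leaf 6 525 558))))))))))))) (node 493 (merge (leaf 4 493 590) (node 621 (merge (leaf 4 525 654) (node 620 (merge (leaf 5 492 588) (leaf 5 524 652))))))))))) (merge (node 622 (merge (node 590 (merge (leaf 4 493 493) (node 654 (merge (leaf 7 525 558) (leaf 7 557 686))))) (merge (node 621 (merge (leaf 4 525 654) (node 652 (merge (leaf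 5 524 620) (node 653 (merge (leaf 5 556 684) (node 526 (merge (leaf 6 493 494) (leaf 6 525 558))))))))) (node 493 (merge (leaf 4 493 590) (node 588 (merge (leaf 5 492 620) (node 461 (merge (leaf 5 460 556) (node 462 (merge (leaf 6 429 430) (leaf 6 461 494)))))))))))) (merge (node 620 (merge (node 588 (merge (leaf 5 492 493) (node 652 (merge (leaf 6 524 556) (leaf 6 556 684))))) (merge (node 621 (merge (leaf 5 524 652) (node 524 (merge (leaf 7 492 492) (node 653 (merge (leaf 7 524 556) (node 558 (merge (leaf 6 525 526) (leaf 3 524 559))))))))) (node 493 (merge (leaf 5 492 588) (node 492 (merge (leaf 7 460 460) (node 621 (merge (leaf 7 492 524) (node 526 (merge (leaf 6 493 494) (node 558 (merge (leaf 6 525 653) (node 461 (merge (leaf 4 429 429) (leaf 4 461 590)))))))))))))))) (merge (node 621 (merge (node 524 (merge (leaf 7 492 492) (node 653 (merge (leaf 7 524 556) (node 558 (merge (leaf 6 525 526) (leaf 3 524 559))))))) (merge (node 654 (merge (leaf 4 525 622) (node 653 (merge (leaf 4 557 686) (node 524 (merge (leaf 7 492 492) (leaf 7 524 556))))))) (node 620 (merge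 (leaf 5 524 652) (node 493 (merge (leaf 5 492 588) (node 590 (merge (leaf 4 493 622) (node 461 (merge (leaf 4 461 558) (node 462 (merge (leaf 6 429 430) (node 460 (merge (leaf 7 428 428) (leaf 0 460 495)))))))))))))))) (merge (node 621 (merge (node 524 (merge (leaf 7 492 492) (node 653 (merge (leaf 7 524 556) (node 558 (merge (leaf 6 525 526) (leaf 3 524 559))))))) (merge (node 654 (merge (leaf 4 525 622) (node 653 (merge (leaf 4 557 686) (node 526 (merge (leaf 6 493 494) (leaf 6 525 558))))))) (merge (node 654 (merge (leaf 4 525 622) (node 653 (merge (leaf 4 557 686) (node 524 (merge (leaf 7 492 492) (leaf 7 524 556))))))) (node 622 (merge (leaf 4 525 654) (node 620 (merge (leaf 5 524 652) (node 588 (merge (leaf 5 492 493) (node 623 (merge (leaf 3 587 587) (leaf 3 588 624))))))))))))) (merge (node 493 (merge (node 620 (merge (leaf 5 492 588) (node 621 (merge (leaf 5 524 652) (node 494 (merge (leaf 6 461 462) (leaf 6 493 526))))))) (merge (node 622 (merge (leaf 4 493 590) (node 621 (merge (leaf 4 525 654) (node 492 (merge (leaf 7 460 460) (leaf 7 492 524))))))) (node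 494 (merge (leaf 6 461 462) (node 495 (merge (leaf 1 492 524) (node 460 (merge (leaf 3 460 461) (leaf 7 460 492)))))))))) (merge (node 493 (merge (node 590 (merge (leaf 4 493 622) (node 461 (merge (leaf 4 461 558) (node 588 (merge (leaf 5 460 556) (leaf 5 492 620))))))) (merge (node 590 (merge (leaf 4 493 622) (node 461 (merge (leaf 4 461 558) (node 588 (merge (leaf 5 460 556) (leaf 5 492 620))))))) (merge (node 590 (merge (leaf 4 493 622) (node 494 (merge (leaf 6 461 462) (node 495 (merge (leaf 1 492 524) (node 526 (merge (leaf 1 493 497) (leaf 6 462 558))))))))) (merge (node 588 (merge (leaf 5 492 620) (node 461 (merge (leaf 5 460 556) (node 462 (merge (leaf 6 429 430) (leaf 6 461 494))))))) (node 494 (merge (leaf 6 461 462) (node 495 (merge (leaf 1 492 524) (node 460 (merge (leaf 3 460 461) (leaf 7 460 492)))))))))))) (node 558 (merge (node 559 (merge (leaf 3 524 524) (leaf 1 556 588))) (merge (node 524 (merge (leaf 3 524 559) (node 621 (merge (leaf 7 492 492) (node 653 (merge (leaf 6 525 526) (leaf 7 524 556))))))) (merge (node 622 (merge (node 590 (merge (leaf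 7 525 654) (node 588 (merge (leaf 1 556 559) (node 587 (merge (leaf 2 554 586) (leaf 0 587 623))))))) (merge (node 621 (merge (leaf 4 525 654) (node 652 (merge (leaf 5 524 620) (node 653 (merge (leaf 6 525 526) (leaf 5 556 684))))))) (node 588 (merge (leaf 1 556 559) (node 587 (merge (leaf 2 554 586) (node 623 (merge (leaf 0 587 590) (node 620 (merge (leaf 3 587 621) (node 652 (merge (leaf 6 524 556) (leaf 6 556 684)))))))))))))) (node 621 (merge (node 654 (merge (leaf 4 525 622) (node 653 (merge (leaf 4 557 686) (node 526 (merge (leaf 6 493 494) (leaf 6 525 558))))))) (merge (node 654 (merge (leaf 4 525 622) (node 653 (merge (leaf 4 557 686) (node 524 (merge (leaf 7 492 492) (leaf 7 524 556))))))) (node 620 (merge (leaf 5 524 652) (node 526 (merge (leaf 6 493 494) (node 524 (merge (leaf 7 492 492) (node 523 (merge (leaf 0 522 522) (node 555 (merge (leaf 1 522 554) (node 491 (merge (leaf 3 490 490) (node 588 (merge (leaf 7 491 556) (leaf 4 491 587)))))))))))))))))))))))))))))))) (merge (node 461 (merge (node 464 (merge (leaf 7 431 431) (node 462 (merge (leaf 0 461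 497) (node 493 (merge (leaf 6 429 430) (leaf 1 460 492))))))) (merge (node 431 (merge (leaf 7 431 464) (node 495 (merge (leaf 4 399 399) (node 460 (merge (leaf 0 460 462) (node 493 (merge (leaf 7 428 428) (leaf 3 460 494))))))))) (merge (node 493 (merge (node 462 (merge (leaf 6 429 430) (node 464 (merge (leaf 1 460 492) (leaf 0 461 497))))) (merge (node 460 (merge (leaf 7 428 428) (node 495 (merge (leaf 0 460 462) (leaf 3 460 494))))) (node 558 (merge (leaf 4 461 590) (node 429 (merge (leaf 4 429 526) (node 556 (merge (leaf 5 428 524) (leaf 5 460 588)))))))))) (merge (node 493 (merge (node 460 (merge (leaf 7 428 428) (node 495 (merge (leaf 0 460 462) (leaf 3 460 494))))) (merge (node 558 (merge (leaf 4 461 590) (node 429 (merge (leaf 4 429 526) (node 556 (merge (leaf 5 428 524) (leaf 5 460 588))))))) (merge (node 558 (merge (leaf 4 461 590) (node 429 (merge (leaf 4 429 526) (node 556 (merge (leaf 5 428 524) (leaf 5 460 588))))))) (node 556 (merge (leaf 5 460 588) (node 524 (merge (leaf 5 428 429) (node 495 (merge (leaf 1 492 494) (node 462 (merge (leaf 6 429 430)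 (leaf 0 460 460))))))))))))) (merge (node 464 (merge (leaf 7 431 431) (node 462 (merge (leaf 0 461 497) (node 460 (merge (leaf 0 460 495) (node 428 (merge (leaf 3 427 427) (leaf 3 428 429))))))))) (node 464 (merge (leaf 7 431 431) (node 559 (merge (leaf 5 463 591) (node 558 (merge (leaf 3 524 524) (node 493 (merge (leaf 4 461 590) (node 429 (merge (leaf 4 429 526) (node 398 (merge (leaf 6 397 430) (node 397 (merge (leaf 6 365 366) (node 396 (merge (leaf 7 364 364) (leaf 7 396 428))))))))))))))))))))))) (node 493 (merge (node 461 (merge (node 588 (merge (leaf 5 460 556) (node 589 (merge (leaf 5 492 620) (node 460 (merge (leaf 7 428 428) (leaf 7 460 492))))))) (merge (node 464 (merge (leaf 7 431 431) (node 462 (merge (leaf 0 461 497) (node 493 (merge (leaf 6 429 430) (leaf 1 460 492))))))) (node 464 (merge (leaf 7 431 431) (node 462 (merge (leaf 0 461 497) (node 460 (merge (leaf 0 460 495) (node 493 (merge (leaf 7 428 428) (leaf 6 429 430)))))))))))) (merge (node 589 (merge (node 620 (merge (leaf 5 492 588) (node 621 (merge (leaf 5 524 652) (node 494 (merge (leaf 6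 461 462) (leaf 6 493 526))))))) (merge (node 622 (merge (leaf 4 493 590) (node 621 (merge (leaf 4 525 654) (node 492 (merge (leaf 7 460 460) (leaf 7 492 524))))))) (node 590 (merge (leaf 4 493 622) (node 588 (merge (leaf 5 492 620) (node 591 (merge (leaf 2 556 559) (node 556 (merge (leaf 5 460 461) (leaf 3 555 555)))))))))))) (merge (node 431 (merge (leaf 7 431 464) (node 495 (merge (leaf 4 399 399) (node 494 (merge (leaf 1 492 524) (node 461 (merge (leaf 3 460 460) (node 588 (merge (leaf 5 460 556) (node 589 (merge (leaf 5 492 620) (node 622 (merge (leaf 4 493 590) (node 621 (merge (leaf 6 493 526) (leaf 4 525 654))))))))))))))))) (node 431 (merge (leaf 7 431 464) (node 495 (merge (leaf 4 399 399) (node 494 (merge (leaf 1 492 524) (node 497 (merge (leaf 1 493 526) (node 498 (merge (leaf 3 462 462) (node 531 (merge (leaf 0 495 530) (node 499 (merge (leaf 0 496 532) (node 467 (merge (leaf 2 463 466) (leaf 2 464 468)))))))))))))))))))))))))))))) nQ_73 cQ_73 12 (by decide +kernel)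
def nQ_74 : ℕ := 0x120000001000000014000000000000000000000000000000000000000000000000000000000000000000000000000000000000000000000000000000000000000000000000000
def cQ_74 : ℕ := 0x5000000070000000f0000003fc000000fc000000dc0000027c000002bc00000170000000700000007000000050000000000000000000000000000000000000000000000000000000000000000000000000000000000000000000
theorem lQ_74 : S nQ_74 cQ_74 12 := S_of_chk [] trivial (node 589 (merge (node 558 (merge (node 559 (merge (leaf 2 525 529) (leaf 1 556 588))) (node 526 (merge (leaf 5 461 462) (node 621 (merge (leaf 5 493 590) (leaf 6 525 653))))))) (merge (node 525 (merge (node 493 (merge (leaf 6 461 462) (node 622 (merge (leaf 4 493 590) (node 621 (merge (leaf 6 493 526) (leaf 4 525 654))))))) (merge (node 493 (merge (leaf 6 461 462) (node 495 (merge (leaf 1 492 524) (leaf 0 493 529))))) (node 621 (merge (leaf 6 493 526) (node 654 (merge (leaf 4 525 622) (node 653 (merge (leaf 4 557 686) (node 524 (merge (leaf 7 492 492) (leaf 7 524 556)))))))))))) (merge (node 462 (merge (node 525 (merge (leaf 6 461 493) (node 526 (merge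 (leaf 5 429 430) (leaf 5 461 558))))) (merge (node 558 (merge (leaf 5 461 526) (node 559 (merge (leaf 2 525 529) (leaf 1 556 588))))) (node 493 (merge (leaf 6 461 525) (node 495 (merge (leaf 0 493 529) (node 461 (merge (leaf 3 460 460) (leaf 3 461 497)))))))))) (merge (node 525 (merge (node 492 (merge (node 524 (merge (leaf 7 492 621) (node 460 (merge (leaf 4 428 428) (leaf 4 460 556))))) (merge (node 460 (merge (leaf 7 460 493) (node 524 (merge (leaf 4 428 428) (leaf 4 460 556))))) (merge (node 493 (merge (leaf 7 460 460) (node 622 (merge (leaf 4 493 590) (node 621 (merge (leaf 4 525 654) (node 494 (merge (leaf 6 461 462) (leaf 6 493 526))))))))) (node 621 (merge (leaf 7 492 524) (node 622 (merge (leaf 4 525 654) (node 493 (merge (leaf 4 493 590) (node 494 (merge (leaf 6 461 462) (leaf 6 493 526))))))))))))) (merge (node 493 (merge (node 460 (merge (leaf 7 460 492) (node 462 (merge (leaf 6 461 494) (node 461 (merge (leaf 7 428 428) (leaf 6 429 430))))))) (merge (node 620 (merge (leaf 5 492 588) (node 621 (merge (leaf 5 524 652) (node 494 (merge (leaf 6 461 462)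 (leaf 6 493 526))))))) (node 620 (merge (leaf 5 492 588) (node 621 (merge (leaf 5 524 652) (node 492 (merge (leaf 7 460 460) (leaf 7 492 524)))))))))) (merge (node 622 (merge (node 654 (merge (leaf 4 525 621) (node 590 (merge (leaf 7 525 558) (leaf 7 557 686))))) (merge (node 621 (merge (leaf 4 525 654) (node 620 (merge (leaf 5 524 652) (node 588 (merge (leaf 5 492 493) (node 623 (merge (leaf 3 587 587) (leaf 3 588 624))))))))) (node 493 (merge (leaf 4 493 590) (node 588 (merge (leaf 5 492 620) (node 461 (merge (leaf 5 460 556) (node 462 (merge (leaf 6 429 430) (leaf 6 461 494)))))))))))) (merge (node 622 (merge (node 654 (merge (leaf 4 525 621) (node 590 (merge (leaf 7 525 558) (leaf 7 557 686))))) (merge (node 590 (merge (leaf 4 493 493) (node 654 (merge (leaf 7 525 558) (leaf 7 557 686))))) (merge (node 493 (merge (leaf 4 493 590) (node 620 (merge (leaf 5 492 588) (node 621 (merge (leaf 5 524 652) (node 492 (merge (leaf 7 460 460) (leaf 7 492 524))))))))) (node 621 (merge (leaf 4 525 654) (node 620 (merge (leaf 5 524 652) (node 588 (merge (leaf 5 492 493) (node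 623 (merge (leaf 3 587 587) (leaf 3 588 624))))))))))))) (merge (node 621 (merge (node 654 (merge (leaf 4 525 622) (node 653 (merge (leaf 4 557 686) (node 526 (merge (leaf 6 493 494) (leaf 6 525 558))))))) (merge (node 524 (merge (leaf 7 492 492) (node 653 (merge (leaf 7 524 556) (node 558 (merge (leaf 6 525 526) (leaf 3 524 559))))))) (merge (node 654 (merge (leaf 4 525 622) (node 653 (merge (leaf 4 557 686) (node 524 (merge (leaf 7 492 492) (leaf 7 524 556))))))) (node 620 (merge (leaf 5 524 652) (node 524 (merge (leaf 7 492 492) (node 559 (merge (leaf 3 524 558) (node 591 (merge (leaf 5 463 464) (node 590 (merge (leaf 2 556 588) (node 619 (merge (leaf 2 586 618) (leaf 2 587 622))))))))))))))))) (node 493 (merge (node 588 (merge (leaf 5 492 620) (node 461 (merge (leaf 5 460 556) (node 462 (merge (leaf 6 429 430) (leaf 6 461 494))))))) (merge (node 460 (merge (leaf 7 460 492) (node 462 (merge (leaf 6 461 494) (node 461 (merge (leaf 7 428 428) (leaf 6 429 430))))))) (merge (node 590 (merge (leaf 4 493 622) (node 461 (merge (leaf 4 461 558) (node 588 (merge (leaf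 5 460 556) (leaf 5 492 620))))))) (node 590 (merge (leaf 4 493 622) (node 588 (merge (leaf 5 492 620) (node 558 (merge (leaf 1 556 559) (node 587 (merge (leaf 2 554 586) (node 619 (merge (leaf 1 586 618) (node 555 (merge (leaf 3 554 554) (node 492 (merge (leaf 7 460 460) (node 524 (merge (leaf 6 491 523) (leaf 5 491 556))))))))))))))))))))))))))) (merge (node 525 (merge (node 493 (merge (node 588 (merge (leaf 5 492 620) (node 461 (merge (leaf 5 460 556) (node 462 (merge (leaf 6 429 430) (leaf 6 461 494))))))) (merge (node 620 (merge (leaf 5 492 588) (node 621 (merge (leaf 5 524 652) (node 492 (merge (leaf 7 460 460) (leaf 7 492 524))))))) (node 460 (merge (leaf 7 460 492) (node 462 (merge (leaf 6 461 494) (node 461 (merge (leaf 7 428 428) (leaf 6 429 430)))))))))) (merge (node 622 (merge (node 654 (merge (leaf 4 525 621) (node 590 (merge (leaf 7 525 558) (leaf 7 557 686))))) (merge (node 493 (merge (leaf 4 493 590) (node 588 (merge (leaf 5 492 620) (node 461 (merge (leaf 5 460 556) (node 462 (merge (leaf 6 429 430) (leaf 6 461 494))))))))) (node 621 (merge (leaf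 4 525 654) (node 620 (merge (leaf 5 524 652) (node 493 (merge (leaf 5 492 588) (node 462 (merge (leaf 6 461 494) (node 461 (merge (leaf 6 429 430) (node 460 (merge (leaf 7 428 428) (leaf 7 460 492)))))))))))))))) (merge (node 558 (merge (node 559 (merge (leaf 3 524 524) (leaf 2 525 529))) (merge (node 559 (merge (leaf 2 525 529) (leaf 1 556 588))) (node 493 (merge (node 620 (merge (leaf 5 492 588) (node 621 (merge (leaf 5 524 652) (node 492 (merge (leaf 7 460 460) (leaf 7 492 524))))))) (merge (node 622 (merge (leaf 4 493 590) (node 621 (merge (leaf 4 525 654) (node 620 (merge (leaf 5 492 588) (leaf 5 524 652))))))) (node 461 (merge (leaf 4 461 590) (node 462 (merge (leaf 6 429 430) (node 589 (merge (leaf 6 461 494) (node 460 (merge (leaf 7 428 428) (leaf 7 460 492))))))))))))))) (merge (node 621 (merge (node 654 (merge (leaf 4 525 622) (node 653 (merge (leaf 4 557 686) (node 652 (merge (leaf 5 524 620) (leaf 5 556 684))))))) (merge (node 622 (merge (leaf 4 525 654) (node 493 (merge (leaf 4 493 590) (node 462 (merge (leaf 6 461 494) (node 461 (merge (leaf 6 429 430)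 (node 556 (merge (leaf 5 460 588) (node 524 (merge (leaf 5 428 429) (leaf 7 524 653))))))))))))) (node 620 (merge (leaf 5 524 652) (node 493 (merge (leaf 5 492 588) (node 462 (merge (leaf 6 461 494) (node 461 (merge (leaf 6 429 430) (node 558 (merge (leaf 4 461 590) (node 559 (merge (leaf 3 524 524) (leaf 2 525 529)))))))))))))))) (merge (node 621 (merge (node 654 (merge (leaf 4 525 622) (node 653 (merge (leaf 4 557 686) (node 652 (merge (leaf 5 524 620) (leaf 5 556 684))))))) (merge (node 654 (merge (leaf 4 525 622) (node 653 (merge (leaf 4 557 686) (node 524 (merge (leaf 7 492 492) (leaf 7 524 556))))))) (merge (node 652 (merge (leaf 5 524 620) (node 653 (merge (leaf 5 556 684) (node 524 (merge (leaf 7 492 492) (leaf 7 524 556))))))) (node 622 (merge (leaf 4 525 654) (node 493 (merge (leaf 4 493 590) (node 492 (merge (leaf 7 460 460) (leaf 7 492 524))))))))))) (merge (node 558 (merge (node 559 (merge (leaf 2 525 529) (leaf 1 556 588))) (node 621 (merge (node 492 (merge (leaf 7 492 524) (node 493 (merge (leaf 7 460 460) (node 590 (merge (leaf 4 461 461) (leaf 4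 493 622))))))) (merge (node 654 (merge (leaf 4 525 622) (node 653 (merge (leaf 4 557 686) (node 524 (merge (leaf 7 492 492) (leaf 7 524 556))))))) (merge (node 653 (merge (node 654 (merge (leaf 4 525 622) (leaf 4 557 686))) (merge (node 686 (merge (leaf 4 557 654) (node 685 (merge (leaf 6 557 590) (leaf 4 589 718))))) (node 684 (merge (leaf 5 556 652) (node 685 (merge (leaf 6 557 590) (leaf 5 588 716)))))))) (node 524 (merge (leaf 7 492 492) (node 653 (merge (leaf 7 524 556) (node 686 (merge (leaf 4 557 654) (node 685 (merge (leaf 6 557 590) (leaf 4 589 718))))))))))))))) (merge (node 621 (merge (node 654 (merge (leaf 4 525 622) (node 653 (merge (leaf 4 557 686) (node 652 (merge (leaf 5 524 620) (leaf 5 556 684))))))) (merge (node 654 (merge (leaf 4 525 622) (node 653 (merge (leaf 4 557 686) (node 524 (merge (leaf 7 492 492) (leaf 7 524 556))))))) (merge (node 652 (merge (leaf 5 524 620) (node 653 (merge (leaf 5 556 684) (node 524 (merge (leaf 7 492 492) (leaf 7 524 556))))))) (node 620 (merge (leaf 5 524 652) (node 524 (merge (leaf 7 492 492) (node 559 (merge (leaf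 3 524 558) (node 591 (merge (leaf 5 463 464) (node 590 (merge (leaf 2 556 588) (node 619 (merge (leaf 2 586 618) (leaf 2 587 622))))))))))))))))) (node 493 (merge (node 588 (merge (leaf 5 492 620) (node 461 (merge (leaf 5 460 556) (node 462 (merge (leaf 6 429 430) (leaf 6 461 494))))))) (merge (node 460 (merge (leaf 7 460 492) (node 462 (merge (leaf 6 461 494) (node 461 (merge (leaf 7 428 428) (leaf 6 429 430))))))) (merge (node 590 (merge (leaf 4 493 622) (node 461 (merge (leaf 4 461 558) (node 588 (merge (leaf 5 460 556) (leaf 5 492 620))))))) (node 590 (merge (leaf 4 493 622) (node 588 (merge (leaf 5 492 620) (node 558 (merge (leaf 1 556 559) (node 587 (merge (leaf 2 554 586) (node 619 (merge (leaf 1 586 618) (node 555 (merge (leaf 3 554 554) (node 492 (merge (leaf 7 460 460) (node 524 (merge (leaf 6 491 523) (leaf 5 491 556))))))))))))))))))))))))))))) (node 525 (merge (node 621 (merge (node 654 (merge (leaf 4 525 622) (node 653 (merge (leaf 4 557 686) (node 526 (merge (leaf 6 493 494) (leaf 6 525 558))))))) (merge (node 622 (merge (leaf 4 525 654) (node 493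 (merge (leaf 4 493 590) (node 620 (merge (leaf 5 492 588) (leaf 5 524 652))))))) (node 652 (merge (leaf 5 524 620) (node 653 (merge (leaf 5 556 684) (node 526 (merge (leaf 6 493 494) (leaf 6 525 558)))))))))) (merge (node 622 (merge (node 590 (merge (leaf 4 493 493) (node 654 (merge (leaf 7 525 558) (leaf 7 557 686))))) (merge (node 621 (merge (leaf 4 525 654) (node 652 (merge (leaf 5 524 620) (node 653 (merge (leaf 5 556 684) (node 524 (merge (leaf 7 492 492) (leaf 7 524 556))))))))) (node 493 (merge (leaf 4 493 590) (node 492 (merge (leaf 7 460 460) (node 621 (merge (leaf 7 492 524) (node 652 (merge (leaf 5 524 620) (node 653 (merge (leaf 5 556 684) (node 526 (merge (leaf 6 493 494) (leaf 6 525 558)))))))))))))))) (merge (node 621 (merge (node 654 (merge (leaf 4 525 622) (node 653 (merge (leaf 4 557 686) (node 652 (merge (leaf 5 524 620) (leaf 5 556 684))))))) (merge (node 654 (merge (leaf 4 525 622) (node 653 (merge (leaf 4 557 686) (node 524 (merge (leaf 7 492 492) (leaf 7 524 556))))))) (merge (node 652 (merge (leaf 5 524 620) (node 653 (merge (leaf 5 556 684)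 (node 524 (merge (leaf 7 492 492) (leaf 7 524 556))))))) (node 622 (merge (leaf 4 525 654) (node 620 (merge (leaf 5 524 652) (node 588 (merge (leaf 5 492 493) (node 623 (merge (leaf 3 587 587) (leaf 3 588 624))))))))))))) (merge (node 558 (merge (node 559 (merge (leaf 3 524 524) (leaf 2 525 529))) (merge (node 559 (merge (leaf 2 525 529) (leaf 1 556 588))) (node 621 (merge (node 653 (merge (leaf 6 525 526) (node 524 (merge (leaf 7 492 492) (leaf 7 524 556))))) (merge (node 652 (merge (leaf 5 524 620) (node 653 (merge (leaf 5 556 684) (node 526 (merge (leaf 6 493 494) (leaf 6 525 558))))))) (merge (node 652 (merge (leaf 5 524 620) (node 653 (merge (leaf 5 556 684) (node 524 (merge (leaf 7 492 492) (leaf 7 524 556))))))) (node 620 (merge (leaf 5 524 652) (node 526 (merge (leaf 6 493 494) (node 524 (merge (leaf 7 492 492) (node 523 (merge (leaf 0 522 522) (node 555 (merge (leaf 1 522 554) (node 491 (merge (leaf 3 490 490) (node 588 (merge (leaf 7 491 556) (leaf 4 491 587)))))))))))))))))))))) (merge (node 558 (merge (node 559 (merge (leaf 3 524 524) (leaf 2 525 529)))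 (merge (node 559 (merge (leaf 2 525 529) (leaf 1 556 588))) (node 621 (merge (node 653 (merge (leaf 6 525 526) (node 524 (merge (leaf 7 492 492) (leaf 7 524 556))))) (merge (node 654 (merge (leaf 4 525 622) (node 653 (merge (leaf 4 557 686) (node 526 (merge (leaf 6 493 494) (leaf 6 525 558))))))) (merge (node 654 (merge (leaf 4 525 622) (node 653 (merge (leaf 4 557 686) (node 524 (merge (leaf 7 492 492) (leaf 7 524 556))))))) (node 622 (merge (leaf 4 525 654) (node 590 (merge (leaf 4 493 493) (node 526 (merge (leaf 5 493 494) (node 623 (merge (leaf 4 526 655) (node 624 (merge (leaf 3 588 588) (leaf 3 589 625)))))))))))))))))) (node 558 (merge (node 559 (merge (leaf 3 524 524) (leaf 2 525 529))) (merge (node 559 (merge (leaf 2 525 529) (leaf 1 556 588))) (node 493 (merge (node 590 (merge (leaf 4 461 461) (node 622 (merge (leaf 7 493 526) (leaf 7 525 654))))) (merge (node 588 (merge (leaf 5 492 620) (node 461 (merge (leaf 5 460 556) (node 429 (merge (leaf 4 429 526) (node 398 (merge (leaf 6 397 430) (node 397 (merge (leaf 6 365 366) (node 396 (merge (leaf 7 364 364)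 (leaf 7 396 428))))))))))))) (node 590 (merge (leaf 4 493 622) (node 588 (merge (leaf 5 492 620) (node 587 (merge (leaf 2 554 586) (node 619 (merge (leaf 1 586 618) (node 555 (merge (leaf 3 554 554) (node 492 (merge (leaf 7 460 460) (node 524 (merge (leaf 6 491 523) (leaf 5 491 556))))))))))))))))))))))))))))))))) nQ_74 cQ_74 12 (by decide +kernel)
def nQ_75 : ℕ := 0x3000000120000000000000004000000000000000000000000000000000000000000000000000000000000000000000000000000000000000000000000000000000000000000000000000
def cQ_75 : ℕ := 0x1c0000001c0000001f8000000f800000df8000007f0000003e000000fe000000500000000000000000000000000000000000000000000000000000000000000000000000000000000000000000000000000000000000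
theorem lQ_75 : S nQ_75 cQ_75 11 := S_of_chk [] trivial (node 587 (merge (node 558 (merge (leaf 1 556 559) (leaf 2 554 586))) (merge (node 555 (merge (node 586 (merge (node 617 (merge (leaf 1 585 618) (node 585 (merge (leaf 2 553 556) (leaf 1 584 616))))) (merge (node 585 (merge (leaf 2 553 556) (node 553 (merge (leaf 3 552 552) (leaf 3 553 554))))) (node 618 (merge (leaf 1 585 617) (node 554 (merge (leaf 3 553 553) (node 650 (merge (leaf 6 522 523) (leaf 6 554 682)))))))))) (merge (node 554 (merge (node 553 (merge (leaf 0 552 552) (leaf 3 553 586))) (merge (node 553 (merge (leaf 0 552 552) (leaf 0 553 556))) (node 525 (merge (node 493 (merge (leaf 6 461 462) (leaf 5 492 620))) (merge (node 556 (merge (leaf 2 522 526) (node 493 (merge (leaf 5 460 461) (leaf 6 461 462))))) (node 556 (merge (leaf 2 522 526) (node 522 (merge (leaf 3 521 521) (node 619 (merge (leaf 7 522 651) (node 490 (merge (leaf 4 458 458) (leaf 4 490 586))))))))))))))) (merge (node 523 (merge (node 491 (merge (leaf 4 491 620) (node 618 (merge (leaf 5 490 586) (node 619 (merge (leaf 5 522 650) (node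 492 (merge (leaf 6 459 460) (leaf 6 491 524))))))))) (merge (node 491 (merge (leaf 4 491 620) (node 492 (merge (leaf 6 459 460) (node 619 (merge (leaf 6 491 524) (node 490 (merge (leaf 7 458 458) (leaf 7 490 522))))))))) (merge (node 491 (merge (leaf 4 491 620) (node 556 (merge (leaf 4 459 459) (node 586 (merge (leaf 2 553 585) (leaf 5 490 618))))))) (merge (node 586 (merge (node 617 (merge (leaf 1 585 618) (node 585 (merge (leaf 2 553 556) (leaf 1 584 616))))) (merge (node 618 (merge (leaf 1 585 617) (node 523 (merge (leaf 5 490 491) (node 650 (merge (leaf 5 522 619) (leaf 6 554 682))))))) (node 556 (merge (leaf 2 553 585) (node 491 (merge (leaf 4 459 459) (node 492 (merge (leaf 6 459 460) (node 619 (merge (leaf 5 491 524) (node 490 (merge (leaf 7 458 458) (leaf 7 490 522)))))))))))))) (node 586 (merge (node 618 (merge (leaf 1 585 617) (node 650 (merge (leaf 6 522 554) (leaf 5 522 619))))) (merge (node 617 (merge (leaf 1 585 618) (node 585 (merge (leaf 2 553 556) (leaf 1 584 616))))) (node 556 (merge (leaf 2 553 585) (node 620 (merge (leaf 7 523 652) (node 525 (merge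 (leaf 5 492 493) (node 554 (merge (leaf 2 522 526) (node 522 (merge (leaf 3 521 521) (node 619 (merge (leaf 4 490 490) (leaf 7 522 651))))))))))))))))))))) (merge (node 523 (merge (node 491 (merge (leaf 4 491 620) (node 618 (merge (leaf 5 490 586) (node 619 (merge (leaf 5 522 650) (node 492 (merge (leaf 6 459 460) (leaf 6 491 524))))))))) (merge (node 491 (merge (leaf 4 491 620) (node 492 (merge (leaf 6 459 460) (node 493 (merge (leaf 1 490 522) (node 525 (merge (leaf 6 461 462) (node 490 (merge (leaf 7 458 458) (leaf 0 490 526))))))))))) (merge (node 586 (merge (node 618 (merge (leaf 1 585 617) (node 523 (merge (leaf 5 490 491) (node 650 (merge (leaf 5 522 619) (leaf 6 554 682))))))) (merge (node 618 (merge (leaf 1 585 617) (node 554 (merge (leaf 3 553 553) (node 650 (merge (leaf 6 522 523) (leaf 6 554 682))))))) (node 554 (merge (leaf 3 553 553) (node 491 (merge (leaf 5 458 459) (node 492 (merge (leaf 6 459 460) (node 619 (merge (leaf 6 491 524) (node 651 (merge (leaf 7 522 522) (leaf 7 554 683)))))))))))))) (node 618 (merge (node 617 (merge (leaf 1 585 586) (node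 619 (merge (leaf 2 584 616) (leaf 2 585 620))))) (merge (node 586 (merge (leaf 1 585 617) (node 554 (merge (leaf 3 553 553) (node 650 (merge (leaf 6 522 523) (leaf 6 554 682))))))) (node 619 (merge (leaf 5 522 650) (node 652 (merge (leaf 4 523 620) (node 651 (merge (leaf 4 555 684) (node 522 (merge (leaf 7 490 490) (leaf 7 522 554)))))))))))))))) (merge (node 556 (merge (node 554 (merge (leaf 0 553 553) (node 525 (merge (leaf 2 522 526) (node 493 (merge (leaf 5 460 461) (leaf 6 461 462))))))) (merge (node 554 (merge (leaf 0 553 553) (node 525 (merge (leaf 2 522 526) (node 493 (merge (leaf 5 460 461) (leaf 6 461 462))))))) (merge (node 554 (merge (leaf 0 553 553) (node 522 (merge (leaf 3 521 521) (node 619 (merge (leaf 7 522 651) (node 523 (merge (leaf 7 490 490) (node 620 (merge (leaf 4 491 491) (leaf 7 523 652))))))))))) (node 523 (merge (node 491 (merge (leaf 4 459 459) (node 492 (merge (leaf 6 459 460) (node 619 (merge (leaf 5 491 524) (node 490 (merge (leaf 7 458 458) (leaf 7 490 522))))))))) (merge (node 491 (merge (leaf 4 491 620) (node 492 (merge (leaf 6 459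 460) (node 493 (merge (leaf 1 490 522) (node 525 (merge (leaf 6 461 462) (node 490 (merge (leaf 7 458 458) (leaf 0 490 526))))))))))) (merge (node 491 (merge (leaf 4 491 620) (node 556 (merge (leaf 4 459 459) (node 492 (merge (leaf 6 459 460) (node 493 (merge (leaf 1 490 522) (node 525 (merge (leaf 5 460 461) (leaf 6 461 462))))))))))) (merge (node 620 (merge (leaf 4 491 491) (leaf 7 523 652))) (node 522 (merge (node 521 (merge (leaf 0 520 520) (leaf 0 521 524))) (node 619 (merge (leaf 7 490 490) (node 618 (merge (leaf 5 522 650) (node 617 (merge (leaf 2 584 616) (leaf 2 585 620)))))))))))))))))) (node 586 (merge (node 618 (merge (leaf 1 585 617) (node 523 (merge (leaf 5 490 491) (node 650 (merge (leaf 5 522 619) (leaf 6 554 682))))))) (merge (node 585 (merge (leaf 2 553 556) (node 616 (merge (leaf 1 584 617) (node 584 (merge (leaf 1 583 615) (node 552 (merge (leaf 3 551 551) (leaf 3 552 553))))))))) (node 585 (merge (leaf 2 553 556) (node 552 (merge (leaf 3 552 553) (node 584 (merge (leaf 3 551 551) (node 619 (merge (leaf 0 584 620) (node 618 (merge (leaf 0 583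 583) (node 650 (merge (leaf 5 522 523) (leaf 6 554 682)))))))))))))))))))))) (node 523 (merge (node 558 (merge (leaf 1 556 559) (node 462 (merge (leaf 5 461 526) (node 525 (merge (leaf 6 461 493) (node 522 (merge (leaf 0 522 524) (node 555 (merge (leaf 3 522 556) (node 620 (merge (leaf 4 491 491) (node 652 (merge (leaf 4 523 619) (leaf 7 555 684))))))))))))))) (merge (node 558 (merge (leaf 1 556 559) (node 462 (merge (leaf 5 461 526) (node 525 (merge (leaf 6 461 493) (node 522 (merge (leaf 0 522 524) (node 555 (merge (leaf 3 522 556) (node 619 (merge (leaf 7 490 490) (node 651 (merge (leaf 7 522 554) (node 650 (merge (leaf 5 522 618) (leaf 5 554 682))))))))))))))))) (merge (node 525 (merge (node 493 (merge (leaf 6 461 462) (leaf 5 492 620))) (merge (node 462 (merge (leaf 6 461 493) (node 526 (merge (leaf 5 429 430) (leaf 5 461 558))))) (merge (node 558 (merge (leaf 1 556 559) (node 524 (merge (leaf 0 522 522) (node 526 (merge (leaf 5 461 462) (node 555 (merge (leaf 1 522 554) (node 491 (merge (leaf 3 490 490) (leaf 4 491 620))))))))))) (node 493 (merge (leaf 5 492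 620) (node 492 (merge (leaf 7 460 460) (node 491 (merge (leaf 1 490 522) (node 490 (merge (leaf 0 490 526) (node 458 (merge (leaf 3 457 457) (leaf 3 458 459))))))))))))))) (merge (node 620 (merge (node 652 (merge (leaf 6 556 684) (node 556 (merge (leaf 6 524 525) (leaf 7 523 555))))) (merge (node 555 (merge (leaf 4 491 491) (node 652 (merge (leaf 7 523 556) (leaf 4 523 619))))) (merge (node 652 (merge (leaf 6 556 684) (node 556 (merge (leaf 6 524 525) (node 651 (merge (leaf 5 555 683) (node 524 (merge (leaf 5 523 619) (node 492 (merge (leaf 4 460 460) (node 491 (merge (leaf 7 459 459) (leaf 7 491 523))))))))))))) (merge (node 491 (merge (leaf 4 491 555) (node 493 (merge (leaf 5 492 525) (node 492 (merge (leaf 1 490 522) (node 462 (merge (leaf 2 459 463) (node 490 (merge (leaf 2 458 461) (node 458 (merge (leaf 3 457 457) (leaf 3 458 459))))))))))))) (node 491 (merge (leaf 4 491 555) (node 493 (merge (leaf 5 492 525) (node 492 (merge (leaf 1 490 522) (node 462 (merge (leaf 2 459 463) (node 490 (merge (leaf 2 458 461) (node 458 (merge (leaf 3 457 457) (leaf 3 458 459))))))))))))))))))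 (merge (node 525 (merge (node 493 (merge (leaf 6 461 462) (leaf 5 492 620))) (merge (node 462 (merge (leaf 6 461 493) (node 526 (merge (leaf 5 429 430) (leaf 5 461 558))))) (merge (node 558 (merge (leaf 1 556 559) (node 524 (merge (leaf 0 522 522) (node 526 (merge (leaf 5 461 462) (node 491 (merge (leaf 3 490 490) (node 556 (merge (leaf 7 491 620) (node 492 (merge (leaf 7 459 459) (leaf 4 460 460))))))))))))) (node 493 (merge (leaf 5 492 620) (node 556 (merge (leaf 5 460 461) (node 492 (merge (leaf 7 460 460) (node 524 (merge (leaf 5 491 619) (node 491 (merge (leaf 7 459 459) (node 490 (merge (leaf 0 489 489) (leaf 0 490 526))))))))))))))))) (merge (node 555 (merge (node 491 (merge (leaf 4 491 620) (node 492 (merge (leaf 6 459 460) (node 619 (merge (leaf 6 491 524) (node 490 (merge (leaf 7 458 458) (leaf 7 490 522))))))))) (merge (node 558 (merge (leaf 1 556 559) (node 556 (merge (leaf 3 522 522) (node 620 (merge (leaf 7 523 652) (node 554 (merge (leaf 0 553 553) (node 525 (merge (leaf 5 492 493) (leaf 2 522 526))))))))))) (merge (node 558 (merge (leaf 1 556 559)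 (node 522 (merge (leaf 3 522 556) (node 524 (merge (leaf 0 522 525) (node 619 (merge (leaf 7 490 490) (leaf 6 491 492))))))))) (node 491 (merge (leaf 4 491 620) (node 459 (merge (leaf 4 459 556) (node 492 (merge (leaf 6 459 460) (node 458 (merge (leaf 7 458 490) (leaf 3 458 493))))))))))))) (merge (node 555 (merge (node 558 (merge (leaf 1 556 559) (node 556 (merge (leaf 3 522 522) (node 620 (merge (leaf 7 523 652) (node 554 (merge (leaf 0 553 553) (node 525 (merge (leaf 5 492 493) (leaf 2 522 526))))))))))) (merge (node 491 (merge (leaf 4 491 620) (node 492 (merge (leaf 6 459 460) (node 493 (merge (leaf 1 490 522) (node 525 (merge (leaf 6 461 462) (node 490 (merge (leaf 7 458 458) (leaf 0 490 526))))))))))) (merge (node 491 (merge (leaf 4 491 620) (node 556 (merge (leaf 4 459 459) (node 554 (merge (leaf 0 553 553) (node 522 (merge (leaf 3 521 521) (leaf 3 522 558))))))))) (merge (node 558 (merge (leaf 1 556 559) (node 491 (merge (leaf 4 491 620) (node 459 (merge (leaf 4 459 556) (node 462 (merge (leaf 5 461 526) (node 493 (merge (leaf 6 461 525) (node 492 (merge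 (leaf 3 458 458) (leaf 2 459 463))))))))))))) (node 558 (merge (leaf 1 556 559) (node 522 (merge (leaf 3 522 556) (node 619 (merge (leaf 7 490 490) (node 651 (merge (leaf 7 522 554) (node 650 (merge (leaf 5 522 618) (leaf 5 554 682)))))))))))))))) (merge (node 555 (merge (node 491 (merge (leaf 4 491 620) (node 492 (merge (leaf 6 459 460) (node 619 (merge (leaf 6 491 524) (node 490 (merge (leaf 7 458 458) (leaf 7 490 522))))))))) (merge (node 558 (merge (leaf 1 556 559) (node 522 (merge (leaf 3 522 556) (node 619 (merge (leaf 7 490 490) (node 651 (merge (leaf 7 522 554) (node 650 (merge (leaf 5 522 618) (leaf 5 554 682))))))))))) (merge (node 491 (merge (leaf 4 491 620) (node 556 (merge (leaf 4 459 459) (node 492 (merge (leaf 6 459 460) (node 619 (merge (leaf 5 491 524) (node 650 (merge (leaf 5 522 618) (node 651 (merge (leaf 5 554 682) (leaf 6 555 683))))))))))))) (merge (node 558 (merge (leaf 1 556 559) (node 556 (merge (leaf 3 522 522) (node 491 (merge (leaf 4 459 459) (leaf 4 491 620))))))) (node 491 (merge (leaf 4 491 620) (node 556 (merge (leaf 4 459 459) (node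 554 (merge (leaf 0 553 553) (node 522 (merge (leaf 3 521 521) (leaf 3 522 558)))))))))))))) (node 491 (merge (node 558 (merge (leaf 1 556 559) (node 462 (merge (leaf 5 461 526) (node 493 (merge (leaf 6 461 525) (node 492 (merge (leaf 2 459 463) (node 490 (merge (leaf 2 458 461) (node 458 (merge (leaf 3 457 457) (leaf 3 458 459))))))))))))) (merge (node 555 (merge (leaf 4 491 620) (node 556 (merge (leaf 4 459 459) (node 492 (merge (leaf 6 459 460) (node 619 (merge (leaf 5 491 524) (node 650 (merge (leaf 5 522 618) (node 651 (merge (leaf 5 554 682) (leaf 6 555 683))))))))))))) (merge (node 558 (merge (leaf 1 556 559) (node 555 (merge (leaf 4 491 620) (node 462 (merge (leaf 5 461 526) (node 492 (merge (leaf 6 459 460) (node 493 (merge (leaf 2 459 463) (leaf 6 461 525))))))))))) (node 558 (merge (leaf 1 556 559) (node 555 (merge (leaf 4 491 620) (node 459 (merge (leaf 4 459 556) (node 462 (merge (leaf 5 461 526) (node 460 (merge (leaf 6 427 428) (node 490 (merge (leaf 7 458 458) (leaf 1 458 461))))))))))))))))))))))))))))) nQ_75 cQ_75 11 (by decide +kernel)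
def nQ_76 : ℕ := 0x3000000120000000000000004000000000000000000000000000000000000000000000000000000000000000000000000000000000000000000000000000000000000000000000000000
def cQ_76 : ℕ := 0x3c0000007c000001de000000ce0000009e0000007e0000003e00000078000000000000000000000000000000000000000000000000000000000000000000000000000000000000000000000000000000000000000000
theorem lQ_76 : S nQ_76 cQ_76 11 := S_of_chk [] trivial (node 556 (merge (node 524 (merge (node 492 (merge (leaf 4 460 460) (node 619 (merge (leaf 5 491 587) (node 620 (merge (leaf 5 523 651) (node 491 (merge (leaf 7 459 459) (leaf 7 491 523))))))))) (merge (node 525 (merge (node 493 (merge (leaf 5 460 461) (leaf 6 461 462))) (node 620 (merge (leaf 6 524 652) (node 619 (merge (leaf 5 523 651) (node 590 (merge (leaf 1 587 591) (node 618 (merge (leaf 1 586 587) (leaf 2 585 617))))))))))) (node 492 (merge (leaf 4 460 460) (node 493 (merge (leaf 6 460 461) (node 525 (merge (leaf 6 461 462) (node 491 (merge (leaf 7 459 459) (node 490 (merge (leaf 0 489 489) (leaf 0 490 526)))))))))))))) (merge (node 587 (merge (node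 586 (merge (leaf 2 553 585) (node 554 (merge (leaf 3 553 553) (node 590 (merge (leaf 0 554 555) (node 623 (merge (leaf 0 587 622) (node 591 (merge (leaf 2 556 559) (leaf 0 588 624))))))))))) (merge (node 586 (merge (leaf 2 553 585) (node 618 (merge (leaf 1 585 617) (node 590 (merge (leaf 1 586 619) (node 623 (merge (leaf 0 587 622) (node 591 (merge (leaf 2 556 559) (leaf 0 588 624))))))))))) (merge (node 590 (merge (node 555 (merge (leaf 0 554 554) (node 619 (merge (leaf 1 586 618) (node 651 (merge (leaf 6 523 524) (leaf 6 555 683))))))) (node 623 (merge (leaf 0 587 622) (node 591 (merge (leaf 2 556 559) (leaf 0 588 624))))))) (node 619 (merge (node 524 (merge (leaf 5 491 492) (node 651 (merge (leaf 5 523 620) (leaf 6 555 683))))) (merge (node 586 (merge (leaf 2 553 585) (node 554 (merge (leaf 3 553 553) (node 522 (merge (leaf 4 490 490) (node 521 (merge (leaf 3 521 555) (node 524 (merge (leaf 5 491 492) (leaf 0 521 523))))))))))) (node 586 (merge (leaf 2 553 585) (node 618 (merge (leaf 1 585 617) (node 554 (merge (leaf 3 553 553) (node 651 (merge (leaf 4 522 522)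 (leaf 7 554 683)))))))))))))))) (merge (node 587 (merge (node 586 (merge (leaf 2 553 585) (node 554 (merge (leaf 3 553 553) (node 590 (merge (leaf 0 554 555) (node 623 (merge (leaf 0 587 622) (node 591 (merge (leaf 2 556 559) (leaf 0 588 624))))))))))) (merge (node 586 (merge (leaf 2 553 585) (node 618 (merge (leaf 1 585 617) (node 590 (merge (leaf 1 586 619) (node 623 (merge (leaf 0 587 622) (node 591 (merge (leaf 2 556 559) (leaf 0 588 624))))))))))) (merge (node 590 (merge (node 555 (merge (leaf 0 554 554) (node 619 (merge (leaf 1 586 618) (node 651 (merge (leaf 6 523 524) (leaf 6 555 683))))))) (node 623 (merge (leaf 0 587 622) (node 591 (merge (leaf 2 556 559) (leaf 0 588 624))))))) (node 555 (merge (node 586 (merge (leaf 2 553 585) (node 618 (merge (leaf 1 585 617) (node 523 (merge (leaf 5 490 491) (node 650 (merge (leaf 5 522 619) (leaf 6 554 682))))))))) (node 554 (merge (leaf 0 553 553) (node 525 (merge (leaf 2 522 526) (node 493 (merge (leaf 5 460 461) (leaf 6 461 462))))))))))))) (merge (node 524 (merge (node 492 (merge (leaf 4 460 460) (node 493 (merge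 (leaf 6 460 461) (node 491 (merge (leaf 7 459 459) (node 523 (merge (leaf 1 490 522) (leaf 7 491 620))))))))) (merge (node 492 (merge (leaf 4 460 460) (node 491 (merge (leaf 7 459 459) (node 620 (merge (leaf 7 491 523) (node 652 (merge (leaf 6 524 525) (leaf 6 556 684))))))))) (merge (node 492 (merge (leaf 4 460 460) (node 493 (merge (leaf 6 460 461) (node 525 (merge (leaf 6 461 462) (node 590 (merge (leaf 4 493 622) (node 591 (merge (leaf 3 555 555) (leaf 2 556 559))))))))))) (merge (node 492 (merge (leaf 4 460 460) (node 493 (merge (leaf 6 460 461) (node 620 (merge (leaf 5 492 525) (node 652 (merge (leaf 6 556 684) (node 555 (merge (leaf 7 523 523) (node 590 (merge (leaf 0 554 554) (leaf 3 555 591))))))))))))) (node 620 (merge (node 652 (merge (leaf 6 524 525) (leaf 6 556 684))) (merge (node 652 (merge (leaf 6 556 684) (node 523 (merge (leaf 7 491 491) (leaf 7 523 555))))) (node 525 (merge (leaf 5 492 493) (node 523 (merge (leaf 7 491 491) (node 522 (merge (leaf 0 521 521) (node 554 (merge (leaf 1 521 553) (node 555 (merge (leaf 1 522 526) (leaf 0 554 590)))))))))))))))))))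 (merge (node 524 (merge (node 492 (merge (leaf 4 460 460) (node 619 (merge (leaf 5 491 587) (node 620 (merge (leaf 5 523 651) (node 493 (merge (leaf 6 460 461) (leaf 5 492 525))))))))) (merge (node 492 (merge (leaf 4 460 460) (node 619 (merge (leaf 5 491 587) (node 620 (merge (leaf 5 523 651) (node 491 (merge (leaf 7 459 459) (leaf 7 491 523))))))))) (merge (node 620 (merge (node 652 (merge (leaf 6 524 525) (leaf 6 556 684))) (merge (node 652 (merge (leaf 6 556 684) (node 523 (merge (leaf 7 491 491) (leaf 7 523 555))))) (node 525 (merge (leaf 5 492 493) (node 619 (merge (leaf 5 523 651) (node 523 (merge (leaf 7 491 491) (node 522 (merge (leaf 0 521 521) (node 554 (merge (leaf 1 521 553) (node 555 (merge (leaf 1 522 526) (node 490 (merge (leaf 3 489 489) (leaf 7 490 587)))))))))))))))))) (node 492 (merge (leaf 4 460 460) (node 493 (merge (leaf 6 460 461) (node 525 (merge (leaf 6 461 462) (node 491 (merge (leaf 7 459 459) (node 490 (merge (leaf 0 489 489) (leaf 0 490 526))))))))))))))) (merge (node 587 (merge (node 586 (merge (leaf 2 553 585) (node 554 (merge (leaf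 3 553 553) (node 590 (merge (leaf 0 554 555) (node 623 (merge (leaf 0 587 622) (node 591 (merge (leaf 2 556 559) (leaf 0 588 624))))))))))) (merge (node 586 (merge (leaf 2 553 585) (node 618 (merge (leaf 1 585 617) (node 590 (merge (leaf 1 586 619) (node 623 (merge (leaf 0 587 622) (node 591 (merge (leaf 2 556 559) (leaf 0 588 624))))))))))) (merge (node 620 (merge (node 652 (merge (leaf 6 524 525) (leaf 6 556 684))) (merge (node 586 (merge (leaf 2 553 585) (node 554 (merge (leaf 3 553 553) (node 525 (merge (leaf 5 492 493) (node 555 (merge (leaf 2 522 526) (node 522 (merge (leaf 3 521 521) (node 619 (merge (leaf 4 490 490) (leaf 7 522 651))))))))))))) (node 652 (merge (leaf 6 556 684) (node 555 (merge (leaf 7 523 523) (node 554 (merge (leaf 0 553 553) (node 522 (merge (leaf 3 521 521) (node 651 (merge (leaf 7 522 619) (leaf 5 555 683)))))))))))))) (node 590 (merge (node 591 (merge (leaf 3 555 555) (leaf 2 556 559))) (merge (node 555 (merge (leaf 0 554 554) (node 619 (merge (leaf 1 586 618) (node 651 (merge (leaf 6 555 683) (node 652 (merge (leaf 4 555 684) (node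 620 (merge (leaf 7 523 523) (leaf 6 524 525))))))))))) (node 623 (merge (leaf 0 587 622) (node 591 (merge (leaf 2 556 559) (leaf 0 588 624)))))))))))) (merge (node 524 (merge (node 492 (merge (leaf 4 460 460) (node 619 (merge (leaf 5 491 587) (node 620 (merge (leaf 5 523 651) (node 493 (merge (leaf 6 460 461) (leaf 5 492 525))))))))) (merge (node 492 (merge (leaf 4 460 460) (node 587 (merge (leaf 5 491 619) (node 586 (merge (leaf 2 553 585) (node 554 (merge (leaf 3 553 553) (node 590 (merge (leaf 0 554 555) (node 623 (merge (leaf 0 587 622) (node 591 (merge (leaf 2 556 559) (leaf 0 588 624))))))))))))))) (merge (node 492 (merge (leaf 4 460 460) (node 493 (merge (leaf 6 460 461) (node 620 (merge (leaf 5 492 525) (node 652 (merge (leaf 6 556 684) (node 555 (merge (leaf 7 523 523) (node 590 (merge (leaf 0 554 554) (leaf 3 555 591))))))))))))) (node 525 (merge (node 493 (merge (leaf 5 460 461) (leaf 6 461 462))) (node 620 (merge (leaf 6 524 652) (node 619 (merge (leaf 5 523 651) (node 590 (merge (leaf 1 587 591) (node 618 (merge (leaf 1 586 587) (leaf 2 585 617)))))))))))))))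 (node 620 (merge (node 525 (merge (leaf 6 524 652) (leaf 5 492 493))) (merge (node 652 (merge (leaf 6 556 684) (node 653 (merge (leaf 4 556 685) (node 651 (merge (leaf 5 555 683) (node 619 (merge (leaf 5 523 524) (node 618 (merge (leaf 0 617 617) (leaf 3 618 654))))))))))) (node 587 (merge (node 586 (merge (leaf 2 553 585) (node 554 (merge (leaf 3 553 553) (node 590 (merge (leaf 0 554 555) (node 623 (merge (leaf 0 587 622) (node 591 (merge (leaf 2 556 559) (leaf 0 588 624))))))))))) (merge (node 619 (merge (node 524 (merge (leaf 5 491 492) (node 651 (merge (leaf 5 523 620) (leaf 6 555 683))))) (merge (node 590 (merge (leaf 1 586 618) (node 591 (merge (leaf 2 556 559) (leaf 1 587 620))))) (node 590 (merge (leaf 1 586 618) (node 623 (merge (leaf 0 587 622) (node 591 (merge (leaf 2 556 559) (leaf 0 588 624)))))))))) (node 586 (merge (leaf 2 553 585) (node 554 (merge (leaf 3 553 553) (node 525 (merge (leaf 5 492 493) (node 555 (merge (leaf 2 522 526) (node 522 (merge (leaf 3 521 521) (node 619 (merge (leaf 4 490 490) (leaf 7 522 651))))))))))))))))))))))))))) nQ_76 cQ_76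 11 (by decide +kernel)
def nQ_77 : ℕ := 0x120000001000000014000000000000000000000000000000000000000000000000000000000000000000000000000000000000000000000000000000000000000000000000000
def cQ_77 : ℕ := 0x500000007c000000fc000003ff800000ff800000df8000027f0000003e000001fe000000700000007000000050000000000000000000000000000000000000000000000000000000000000000000000000000000000000000000
theorem lQ_77 : S nQ_77 cQ_77 13 := S_of_chk [(nQ_75, cQ_75, 11), (nQ_76, cQ_76, 11)] ⟨lQ_75, lQ_76, trivial⟩ (node 589 (merge (node 558 (merge (node 559 (merge (leaf 2 525 529) (leaf 1 556 588))) (node 526 (merge (leaf 5 461 462) (node 621 (merge (leaf 5 493 590) (leaf 6 525 653))))))) (merge (node 558 (merge (node 559 (merge (leaf 2 525 529) (leaf 1 556 588))) (node 526 (merge (leaf 5 461 462) (node 621 (merge (leaf 6 493 525) (leaf 6 525 653))))))) (merge (node 525 (merge (node 462 (merge (leaf 6 461 493) (node 526 (merge (leaf 5 429 430) (leaf 5 461 558))))) (merge (node 493 (merge (leaf 6 461 462) (node 622 (merge (leaf 4 493 590) (node 621 (merge (leaf 4 525 654) (node 492 (merge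 (leaf 7 460 460) (leaf 7 492 524))))))))) (node 621 (merge (leaf 6 493 526) (node 654 (merge (leaf 4 525 622) (node 653 (merge (leaf 4 557 686) (node 524 (merge (leaf 7 492 492) (leaf 7 524 556)))))))))))) (merge (node 525 (merge (node 526 (merge (leaf 6 493 621) (node 462 (merge (leaf 5 429 430) (leaf 5 461 558))))) (merge (node 462 (merge (leaf 6 461 493) (node 526 (merge (leaf 5 429 430) (leaf 5 461 558))))) (merge (node 493 (merge (leaf 6 461 462) (node 622 (merge (leaf 4 493 590) (node 621 (merge (leaf 4 525 654) (node 492 (merge (leaf 7 460 460) (leaf 7 492 524))))))))) (node 621 (merge (leaf 6 493 526) (node 620 (merge (leaf 5 524 652) (node 493 (merge (leaf 5 492 588) (node 590 (merge (leaf 4 493 622) (node 558 (merge (leaf 4 461 461) (node 559 (merge (leaf 3 524 524) (leaf 2 525 529))))))))))))))))) (merge (node 525 (merge (node 493 (merge (leaf 6 461 462) (node 622 (merge (leaf 4 493 590) (node 621 (merge (leaf 6 493 526) (leaf 4 525 654))))))) (merge (node 621 (merge (leaf 6 493 526) (node 654 (merge (leaf 4 525 622) (node 653 (merge (leaf 4 557 686) (node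 652 (merge (leaf 5 524 620) (leaf 5 556 684))))))))) (node 493 (merge (leaf 6 461 462) (node 588 (merge (leaf 5 492 620) (node 461 (merge (leaf 5 460 556) (node 460 (merge (leaf 7 428 428) (leaf 7 460 492)))))))))))) (merge (node 525 (merge (node 493 (merge (node 588 (merge (leaf 5 492 620) (node 461 (merge (leaf 5 460 556) (node 462 (merge (leaf 6 429 430) (leaf 6 461 494))))))) (merge (node 620 (merge (leaf 5 492 588) (node 621 (merge (leaf 5 524 652) (node 492 (merge (leaf 7 460 460) (leaf 7 492 524))))))) (node 460 (merge (leaf 7 460 492) (node 462 (merge (leaf 6 461 494) (node 461 (merge (leaf 7 428 428) (leaf 6 429 430)))))))))) (merge (node 622 (merge (node 654 (merge (leaf 4 525 621) (node 590 (merge (leaf 7 525 558) (leaf 7 557 686))))) (merge (node 493 (merge (leaf 4 493 590) (node 588 (merge (leaf 5 492 620) (node 461 (merge (leaf 5 460 556) (node 462 (merge (leaf 6 429 430) (leaf 6 461 494))))))))) (node 621 (merge (leaf 4 525 654) (node 620 (merge (leaf 5 524 652) (node 493 (merge (leaf 5 492 588) (node 462 (merge (leaf 6 461 494) (node 461 (merge (leaf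 6 429 430) (node 460 (merge (leaf 7 428 428) (leaf 7 460 492)))))))))))))))) (merge (node 558 (merge (node 559 (merge (leaf 3 524 524) (leaf 2 525 529))) (merge (node 559 (merge (leaf 2 525 529) (leaf 1 556 588))) (node 493 (merge (node 620 (merge (leaf 5 492 588) (node 621 (merge (leaf 5 524 652) (node 492 (merge (leaf 7 460 460) (leaf 7 492 524))))))) (merge (node 622 (merge (leaf 4 493 590) (node 621 (merge (leaf 4 525 654) (node 620 (merge (leaf 5 492 588) (leaf 5 524 652))))))) (node 461 (merge (leaf 4 461 590) (node 462 (merge (leaf 6 429 430) (node 589 (merge (leaf 6 461 494) (node 460 (merge (leaf 7 428 428) (leaf 7 460 492))))))))))))))) (merge (node 621 (merge (node 654 (merge (leaf 4 525 622) (node 653 (merge (leaf 4 557 686) (node 652 (merge (leaf 5 524 620) (leaf 5 556 684))))))) (merge (node 622 (merge (leaf 4 525 654) (node 493 (merge (leaf 4 493 590) (node 462 (merge (leaf 6 461 494) (node 461 (merge (leaf 6 429 430) (node 556 (merge (leaf 5 460 588) (node 524 (merge (leaf 5 428 429) (leaf 7 524 653))))))))))))) (node 620 (merge (leaf 5 524 652) (node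 493 (merge (leaf 5 492 588) (node 462 (merge (leaf 6 461 494) (node 461 (merge (leaf 6 429 430) (node 558 (merge (leaf 4 461 590) (node 559 (merge (leaf 3 524 524) (leaf 2 525 529)))))))))))))))) (merge (node 621 (merge (node 654 (merge (leaf 4 525 622) (node 653 (merge (leaf 4 557 686) (node 652 (merge (leaf 5 524 620) (leaf 5 556 684))))))) (merge (node 654 (merge (leaf 4 525 622) (node 653 (merge (leaf 4 557 686) (node 524 (merge (leaf 7 492 492) (leaf 7 524 556))))))) (merge (node 652 (merge (leaf 5 524 620) (node 653 (merge (leaf 5 556 684) (node 524 (merge (leaf 7 492 492) (leaf 7 524 556))))))) (node 622 (merge (leaf 4 525 654) (node 493 (merge (leaf 4 493 590) (node 492 (merge (leaf 7 460 460) (leaf 7 492 524))))))))))) (merge (node 558 (merge (node 559 (merge (leaf 2 525 529) (leaf 1 556 588))) (node 621 (merge (node 492 (merge (leaf 7 492 524) (node 493 (merge (leaf 7 460 460) (node 590 (merge (leaf 4 461 461) (leaf 4 493 622))))))) (merge (node 654 (merge (leaf 4 525 622) (node 653 (merge (leaf 4 557 686) (node 524 (merge (leaf 7 492 492) (leaf 7 524 556)))))))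 (merge (node 653 (merge (node 654 (merge (leaf 4 525 622) (leaf 4 557 686))) (merge (node 686 (merge (leaf 4 557 654) (node 685 (merge (leaf 6 557 590) (leaf 4 589 718))))) (node 684 (merge (leaf 5 556 652) (node 685 (merge (leaf 6 557 590) (leaf 5 588 716)))))))) (node 524 (merge (leaf 7 492 492) (node 653 (merge (leaf 7 524 556) (node 686 (merge (leaf 4 557 654) (node 685 (merge (leaf 6 557 590) (leaf 4 589 718))))))))))))))) (merge (node 621 (merge (node 654 (merge (leaf 4 525 622) (node 653 (merge (leaf 4 557 686) (node 652 (merge (leaf 5 524 620) (leaf 5 556 684))))))) (merge (node 654 (merge (leaf 4 525 622) (node 653 (merge (leaf 4 557 686) (node 524 (merge (leaf 7 492 492) (leaf 7 524 556))))))) (merge (node 652 (merge (leaf 5 524 620) (node 653 (merge (leaf 5 556 684) (node 524 (merge (leaf 7 492 492) (leaf 7 524 556))))))) (node 620 (merge (leaf 5 524 652) (node 524 (merge (leaf 7 492 492) (node 559 (merge (leaf 3 524 558) (node 591 (merge (leaf 5 463 464) (node 590 (merge (leaf 2 556 588) (node 619 (merge (leaf 2 586 618) (leaf 2 587 622)))))))))))))))))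 (node 493 (merge (node 588 (merge (leaf 5 492 620) (node 461 (merge (leaf 5 460 556) (node 462 (merge (leaf 6 429 430) (leaf 6 461 494))))))) (merge (node 460 (merge (leaf 7 460 492) (node 462 (merge (leaf 6 461 494) (node 461 (merge (leaf 7 428 428) (leaf 6 429 430))))))) (merge (node 590 (merge (leaf 4 493 622) (node 461 (merge (leaf 4 461 558) (node 588 (merge (leaf 5 460 556) (leaf 5 492 620))))))) (node 590 (merge (leaf 4 493 622) (node 588 (merge (leaf 5 492 620) (node 558 (merge (leaf 1 556 559) (node 587 (merge (leaf 2 554 586) (node 619 (merge (leaf 1 586 618) (node 555 (merge (leaf 3 554 554) (node 492 (merge (leaf 7 460 460) (node 524 (merge (leaf 6 491 523) (leaf 5 491 556))))))))))))))))))))))))))))) (merge (node 525 (merge (node 621 (merge (node 654 (merge (leaf 4 525 622) (node 653 (merge (leaf 4 557 686) (node 526 (merge (leaf 6 493 494) (leaf 6 525 558))))))) (merge (node 622 (merge (leaf 4 525 654) (node 493 (merge (leaf 4 493 590) (node 620 (merge (leaf 5 492 588) (leaf 5 524 652))))))) (node 652 (merge (leaf 5 524 620) (node 653 (merge (leaf 5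 556 684) (node 526 (merge (leaf 6 493 494) (leaf 6 525 558)))))))))) (merge (node 622 (merge (node 590 (merge (leaf 4 493 493) (node 654 (merge (leaf 7 525 558) (leaf 7 557 686))))) (merge (node 621 (merge (leaf 4 525 654) (node 652 (merge (leaf 5 524 620) (node 653 (merge (leaf 5 556 684) (node 524 (merge (leaf 7 492 492) (leaf 7 524 556))))))))) (node 493 (merge (leaf 4 493 590) (node 492 (merge (leaf 7 460 460) (node 621 (merge (leaf 7 492 524) (node 652 (merge (leaf 5 524 620) (node 653 (merge (leaf 5 556 684) (node 526 (merge (leaf 6 493 494) (leaf 6 525 558)))))))))))))))) (merge (node 621 (merge (node 654 (merge (leaf 4 525 622) (node 653 (merge (leaf 4 557 686) (node 652 (merge (leaf 5 524 620) (leaf 5 556 684))))))) (merge (node 654 (merge (leaf 4 525 622) (node 653 (merge (leaf 4 557 686) (node 524 (merge (leaf 7 492 492) (leaf 7 524 556))))))) (merge (node 652 (merge (leaf 5 524 620) (node 653 (merge (leaf 5 556 684) (node 524 (merge (leaf 7 492 492) (leaf 7 524 556))))))) (node 622 (merge (leaf 4 525 654) (node 620 (merge (leaf 5 524 652) (node 588 (merge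 (leaf 5 492 493) (node 623 (merge (leaf 3 587 587) (leaf 3 588 624))))))))))))) (merge (node 558 (merge (node 559 (merge (leaf 3 524 524) (leaf 2 525 529))) (merge (node 559 (merge (leaf 2 525 529) (leaf 1 556 588))) (node 621 (merge (node 653 (merge (leaf 6 525 526) (node 524 (merge (leaf 7 492 492) (leaf 7 524 556))))) (merge (node 652 (merge (leaf 5 524 620) (node 653 (merge (leaf 5 556 684) (node 526 (merge (leaf 6 493 494) (leaf 6 525 558))))))) (merge (node 652 (merge (leaf 5 524 620) (node 653 (merge (leaf 5 556 684) (node 524 (merge (leaf 7 492 492) (leaf 7 524 556))))))) (node 620 (merge (leaf 5 524 652) (node 526 (merge (leaf 6 493 494) (node 524 (merge (leaf 7 492 492) (node 523 (merge (leaf 0 522 522) (node 555 (merge (leaf 1 522 554) (node 491 (merge (leaf 3 490 490) (node 588 (merge (leaf 7 491 556) (leaf 4 491 587)))))))))))))))))))))) (merge (node 558 (merge (node 559 (merge (leaf 3 524 524) (leaf 2 525 529))) (merge (node 559 (merge (leaf 2 525 529) (leaf 1 556 588))) (node 621 (merge (node 653 (merge (leaf 6 525 526) (node 524 (merge (leaf 7 492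 492) (leaf 7 524 556))))) (merge (node 654 (merge (leaf 4 525 622) (node 653 (merge (leaf 4 557 686) (node 526 (merge (leaf 6 493 494) (leaf 6 525 558))))))) (merge (node 654 (merge (leaf 4 525 622) (node 653 (merge (leaf 4 557 686) (node 524 (merge (leaf 7 492 492) (leaf 7 524 556))))))) (node 622 (merge (leaf 4 525 654) (node 590 (merge (leaf 4 493 493) (node 526 (merge (leaf 5 493 494) (node 623 (merge (leaf 4 526 655) (node 624 (merge (leaf 3 588 588) (leaf 3 589 625)))))))))))))))))) (node 558 (merge (node 559 (merge (leaf 3 524 524) (leaf 2 525 529))) (merge (node 559 (merge (leaf 2 525 529) (leaf 1 556 588))) (node 493 (merge (node 590 (merge (leaf 4 461 461) (node 622 (merge (leaf 7 493 526) (leaf 7 525 654))))) (merge (node 588 (merge (leaf 5 492 620) (node 461 (merge (leaf 5 460 556) (node 429 (merge (leaf 4 429 526) (node 398 (merge (leaf 6 397 430) (node 397 (merge (leaf 6 365 366) (node 396 (merge (leaf 7 364 364) (leaf 7 396 428))))))))))))) (node 590 (merge (leaf 4 493 622) (node 588 (merge (leaf 5 492 620) (node 587 (merge (leaf 2 554 586) (node 619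 (merge (leaf 1 586 618) (node 555 (merge (leaf 3 554 554) (node 492 (merge (leaf 7 460 460) (node 524 (merge (leaf 6 491 523) (leaf 5 491 556))))))))))))))))))))))))))) (node 588 (merge (node 559 (merge (leaf 1 556 558) (node 591 (merge (leaf 5 463 464) (leaf 2 556 590))))) (merge (node 587 (merge (node 586 (merge (leaf 2 554 558) (node 585 (merge (leaf 2 553 556) (node 553 (merge (leaf 3 552 552) (leaf 3 553 554))))))) (merge (node 586 (merge (leaf 2 554 558) (node 617 (merge (leaf 1 585 618) (node 585 (merge (leaf 2 553 556) (leaf 1 584 616))))))) (merge (node 586 (merge (leaf 2 554 558) (node 617 (merge (leaf 1 585 618) (node 585 (merge (leaf 1 584 616) (node 553 (merge (leaf 3 552 552) (leaf 3 553 554))))))))) (merge (node 590 (merge (node 622 (merge (leaf 0 587 623) (node 654 (merge (leaf 7 557 686) (node 525 (merge (leaf 4 493 493) (leaf 7 525 558))))))) (node 619 (merge (leaf 1 586 618) (node 555 (merge (leaf 3 554 554) (node 556 (merge (leaf 3 555 591) (node 651 (merge (leaf 6 523 524) (leaf 6 555 683))))))))))) (node 618 (merge (node 619 (merge (leaf 1 586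 590) (node 617 (merge (leaf 2 584 616) (leaf 2 585 620))))) (merge (node 586 (merge (leaf 1 585 617) (node 585 (merge (leaf 2 553 556) (node 553 (merge (leaf 3 552 552) (leaf 3 553 554))))))) (node 590 (merge (leaf 1 586 619) (node 623 (merge (leaf 0 587 622) (node 591 (merge (leaf 0 588 624) (node 555 (merge (leaf 3 554 554) (leaf 3 555 556))))))))))))))))) (merge (hyp 0) (hyp 1))))))))))))) nQ_77 cQ_77 13 (by decide +kernel)
def nQ_78 : ℕ := 0x120000001000000010000000000000000000000000000000000000000000000000000000000000000000000000000000000000000000000000000000000000000000000000000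
def cQ_78 : ℕ := 0x500000007c000000fc000003ff800000ff800000df80001e7f00000efe00001dfe00000ffc000007f0000003f0000001c00000014000000000000000000000000000000000000000000000000000000000000000000000000000
theorem lQ_78 : S nQ_78 cQ_78 14 := S_of_chk [(nQ_74, cQ_74, 12), (nQ_77, cQ_77, 13)] ⟨lQ_74, lQ_77, trivial⟩ (node 494 (merge (node 495 (merge (node 529 (merge (leaf 0 493 493) (node 530 (merge (leaf 0 494 497) (leaf 3 495 531))))) (merge (node 493 (merge (leaf 0 493 529) (node 460 (merge (leaf 3 460 461) (node 492 (merge (leaf 3 459 459) (node 523 (merge (leaf 1 491 524) (node 491 (merge (leaf 1 490 522) (node 463 (merge (leaf 2 459 462) (leaf 2 460 464))))))))))))) (merge (node 463 (merge (node 431 (merge (leaf 4 399 399) (leaf 7 431 464))) (merge (node 526 (merge (node 525 (merge (leaf 1 493 497) (node 524 (merge (leaf 1 492 493) (leaf 2 491 523))))) (node 558 (merge (leaf 6 462 590) (node 462 (merge (leaf 6 430 431) (node 461 (merge (leaf 7 429 429) (leaf 0 460 460))))))))) (node 497 (merge (node 525 (merge (leaf 1 493 526) (node 493 (merge (leaf 1 492 524) (node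 461 (merge (leaf 3 460 460) (leaf 3 461 462))))))) (merge (node 498 (merge (leaf 3 462 462) (node 467 (merge (leaf 2 463 466) (node 499 (merge (leaf 3 463 464) (leaf 2 464 468))))))) (node 525 (merge (leaf 1 493 526) (node 493 (merge (leaf 1 492 524) (node 492 (merge (leaf 2 460 464) (node 460 (merge (leaf 3 459 459) (leaf 3 460 461))))))))))))))) (node 463 (merge (node 431 (merge (leaf 4 399 399) (leaf 7 431 464))) (merge (node 558 (merge (node 529 (merge (leaf 2 525 559) (node 530 (merge (leaf 0 494 497) (leaf 3 495 531))))) (node 526 (merge (leaf 6 462 590) (node 462 (merge (leaf 6 430 431) (node 461 (merge (leaf 7 429 429) (leaf 0 460 460))))))))) (node 497 (merge (node 462 (merge (leaf 3 461 461) (leaf 3 462 498))) (merge (node 530 (merge (leaf 0 494 529) (node 498 (merge (leaf 0 495 531) (node 467 (merge (leaf 2 463 466) (node 499 (merge (leaf 3 463 464) (leaf 2 464 468))))))))) (node 526 (merge (leaf 1 493 525) (node 462 (merge (leaf 3 461 461) (node 558 (merge (leaf 6 462 590) (node 559 (merge (leaf 2 525 529) (leaf 4 462 591))))))))))))))))))) (merge (node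 495 (merge (node 529 (merge (leaf 0 493 493) (node 530 (merge (leaf 0 494 497) (leaf 3 495 531))))) (merge (node 493 (merge (leaf 0 493 529) (node 525 (merge (leaf 1 492 524) (node 589 (merge (leaf 6 461 462) (node 620 (merge (leaf 5 492 588) (node 621 (merge (leaf 6 493 526) (leaf 5 524 652))))))))))) (merge (node 525 (merge (node 524 (merge (leaf 1 492 493) (node 526 (merge (leaf 1 493 497) (leaf 2 491 523))))) (merge (node 526 (merge (leaf 1 493 497) (node 462 (merge (leaf 5 429 430) (node 589 (merge (leaf 5 461 558) (leaf 6 493 621))))))) (merge (node 493 (merge (leaf 1 492 524) (node 461 (merge (leaf 3 460 460) (node 462 (merge (leaf 3 461 497) (node 557 (merge (leaf 6 429 430) (leaf 6 461 589))))))))) (node 493 (merge (leaf 1 492 524) (node 589 (merge (leaf 6 461 462) (node 620 (merge (leaf 5 492 588) (node 621 (merge (leaf 6 493 526) (leaf 5 524 652))))))))))))) (node 497 (merge (node 530 (merge (leaf 0 494 529) (node 498 (merge (leaf 0 495 531) (node 462 (merge (leaf 3 461 461) (leaf 3 462 463))))))) (merge (node 526 (merge (leaf 1 493 525) (node 462 (merge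 (leaf 3 461 461) (node 558 (merge (leaf 5 461 589) (node 463 (merge (leaf 6 430 431) (leaf 6 462 590))))))))) (merge (node 529 (merge (leaf 0 494 530) (node 526 (merge (leaf 1 493 525) (node 558 (merge (leaf 2 525 559) (node 462 (merge (leaf 3 461 461) (leaf 5 461 589))))))))) (node 529 (merge (leaf 0 494 530) (node 526 (merge (leaf 1 493 525) (node 558 (merge (leaf 2 525 559) (node 590 (merge (leaf 6 462 463) (node 623 (merge (leaf 4 494 591) (node 622 (merge (leaf 4 526 655) (node 621 (merge (leaf 5 493 589) (leaf 5 525 653))))))))))))))))))))))) (merge (node 493 (merge (node 529 (merge (leaf 0 493 495) (node 559 (merge (leaf 2 525 558) (node 464 (merge (leaf 5 463 591) (node 431 (merge (leaf 7 431 463) (node 432 (merge (leaf 7 399 399) (node 400 (merge (leaf 4 400 497) (node 401 (merge (leaf 6 368 369) (leaf 6 400 433))))))))))))))) (merge (node 495 (merge (leaf 0 493 529) (node 525 (merge (leaf 1 492 524) (node 461 (merge (leaf 3 460 460) (node 588 (merge (leaf 5 460 556) (node 589 (merge (leaf 6 461 462) (leaf 5 492 620))))))))))) (merge (node 495 (merge (node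 461 (merge (leaf 3 460 460) (node 462 (merge (leaf 3 461 497) (node 525 (merge (leaf 6 429 430) (leaf 6 461 589))))))) (merge (node 524 (merge (leaf 1 492 525) (node 492 (merge (leaf 1 491 523) (node 460 (merge (leaf 3 459 459) (leaf 3 460 461))))))) (merge (node 460 (merge (leaf 3 460 461) (node 492 (merge (leaf 3 459 459) (node 523 (merge (leaf 1 491 524) (node 491 (merge (leaf 1 490 522) (node 463 (merge (leaf 2 459 462) (leaf 2 460 464))))))))))) (merge (node 525 (merge (leaf 1 492 524) (node 589 (merge (leaf 6 461 462) (node 588 (merge (leaf 5 492 620) (node 558 (merge (leaf 1 556 559) (node 461 (merge (leaf 5 460 556) (leaf 4 461 590))))))))))) (node 525 (merge (leaf 1 492 524) (node 589 (merge (leaf 6 461 462) (node 590 (merge (leaf 4 493 622) (node 588 (merge (leaf 5 492 620) (node 559 (merge (leaf 1 556 558) (leaf 2 556 591)))))))))))))))) (node 525 (merge (node 589 (merge (leaf 6 461 462) (node 588 (merge (leaf 5 492 620) (node 558 (merge (leaf 1 556 559) (node 461 (merge (leaf 5 460 556) (leaf 4 461 590))))))))) (merge (node 589 (merge (leaf 6 461 462)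 (node 620 (merge (leaf 5 492 588) (node 621 (merge (leaf 5 524 652) (node 492 (merge (leaf 7 460 460) (leaf 7 492 524))))))))) (merge (node 558 (merge (node 559 (merge (leaf 3 524 524) (leaf 2 525 529))) (node 461 (merge (leaf 4 461 590) (node 430 (merge (leaf 6 429 462) (node 429 (merge (leaf 6 397 398) (node 428 (merge (leaf 7 396 396) (leaf 7 428 460))))))))))) (node 461 (merge (node 590 (merge (leaf 4 461 558) (node 589 (merge (leaf 4 493 622) (node 460 (merge (leaf 7 428 428) (leaf 7 460 492))))))) (merge (node 588 (merge (leaf 5 460 556) (node 589 (merge (leaf 5 492 620) (node 460 (merge (leaf 7 428 428) (leaf 7 460 492))))))) (merge (node 558 (merge (leaf 4 461 590) (node 559 (merge (leaf 3 524 524) (leaf 2 525 529))))) (node 558 (merge (leaf 4 461 590) (node 559 (merge (leaf 3 524 524) (leaf 2 525 529))))))))))))))))) (merge (node 495 (merge (node 529 (merge (leaf 0 493 493) (node 530 (merge (leaf 0 494 497) (leaf 3 495 531))))) (merge (node 493 (merge (leaf 0 493 529) (node 525 (merge (leaf 1 492 524) (node 589 (merge (leaf 6 461 462) (node 620 (merge (leaf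 5 492 588) (node 621 (merge (leaf 6 493 526) (leaf 5 524 652))))))))))) (merge (node 525 (merge (node 524 (merge (leaf 1 492 493) (node 526 (merge (leaf 1 493 497) (leaf 2 491 523))))) (merge (node 526 (merge (leaf 1 493 497) (node 462 (merge (leaf 5 429 430) (node 589 (merge (leaf 5 461 558) (leaf 6 493 621))))))) (node 493 (merge (leaf 1 492 524) (node 589 (merge (leaf 6 461 462) (node 588 (merge (leaf 5 492 620) (node 558 (merge (leaf 1 556 559) (node 461 (merge (leaf 5 460 556) (leaf 4 461 590)))))))))))))) (node 497 (merge (node 462 (merge (leaf 3 461 461) (node 463 (merge (leaf 3 462 498) (node 431 (merge (leaf 4 399 399) (leaf 7 431 464))))))) (merge (node 529 (merge (leaf 0 494 530) (node 526 (merge (leaf 1 493 525) (node 558 (merge (leaf 2 525 559) (node 462 (merge (leaf 3 461 461) (leaf 5 461 589))))))))) (node 529 (merge (leaf 0 494 530) (node 526 (merge (leaf 1 493 525) (node 558 (merge (leaf 2 525 559) (node 463 (merge (leaf 6 462 590) (node 464 (merge (leaf 7 431 431) (node 498 (merge (leaf 3 463 499) (node 466 (merge (leaf 2 463 467) (node 432 (merge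 (leaf 4 400 400) (node 434 (merge (leaf 5 401 402) (node 433 (merge (leaf 6 400 401) (leaf 1 431 435)))))))))))))))))))))))))))) (merge (node 495 (merge (node 529 (merge (leaf 0 493 493) (node 530 (merge (leaf 0 494 497) (leaf 3 495 531))))) (merge (node 493 (merge (leaf 0 493 529) (node 525 (merge (leaf 1 492 524) (node 589 (merge (leaf 6 461 462) (node 620 (merge (leaf 5 492 588) (node 621 (merge (leaf 6 493 526) (leaf 5 524 652))))))))))) (merge (node 525 (merge (node 524 (merge (leaf 1 492 493) (node 526 (merge (leaf 1 493 497) (leaf 2 491 523))))) (merge (node 526 (merge (leaf 1 493 497) (node 462 (merge (leaf 5 429 430) (node 589 (merge (leaf 5 461 558) (leaf 6 493 621))))))) (merge (node 493 (merge (leaf 1 492 524) (node 461 (merge (leaf 3 460 460) (node 462 (merge (leaf 3 461 497) (node 557 (merge (leaf 6 429 430) (leaf 6 461 589))))))))) (node 493 (merge (leaf 1 492 524) (node 589 (merge (leaf 6 461 462) (node 620 (merge (leaf 5 492 588) (node 621 (merge (leaf 6 493 526) (leaf 5 524 652))))))))))))) (node 497 (merge (node 462 (merge (leaf 3 461 461) (node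 463 (merge (leaf 3 462 498) (node 431 (merge (leaf 4 399 399) (leaf 7 431 464))))))) (merge (node 529 (merge (leaf 0 494 530) (node 526 (merge (leaf 1 493 525) (node 558 (merge (leaf 2 525 559) (node 462 (merge (leaf 3 461 461) (leaf 5 461 589))))))))) (node 529 (merge (leaf 0 494 530) (node 559 (merge (leaf 2 525 558) (node 464 (merge (leaf 5 463 591) (node 432 (merge (leaf 4 400 400) (node 433 (merge (leaf 6 400 401) (node 463 (merge (leaf 7 431 431) (node 434 (merge (leaf 1 431 435) (node 498 (merge (leaf 3 463 499) (node 466 (merge (leaf 5 401 402) (leaf 2 463 467)))))))))))))))))))))))))) (merge (node 495 (merge (node 529 (merge (leaf 0 493 493) (node 530 (merge (leaf 0 494 497) (leaf 3 495 531))))) (merge (node 493 (merge (leaf 0 493 529) (node 525 (merge (leaf 1 492 524) (node 589 (merge (leaf 6 461 462) (node 620 (merge (leaf 5 492 588) (node 621 (merge (leaf 6 493 526) (leaf 5 524 652))))))))))) (merge (node 525 (merge (node 526 (merge (leaf 1 493 497) (node 462 (merge (leaf 5 429 430) (node 589 (merge (leaf 5 461 558) (leaf 6 493 621))))))) (merge (node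 493 (merge (leaf 1 492 524) (node 497 (merge (leaf 1 493 526) (node 461 (merge (leaf 3 460 460) (leaf 3 461 462))))))) (merge (node 493 (merge (leaf 1 492 524) (node 461 (merge (leaf 3 460 460) (node 462 (merge (leaf 3 461 497) (node 557 (merge (leaf 6 429 430) (leaf 6 461 589))))))))) (merge (node 493 (merge (leaf 1 492 524) (node 589 (merge (leaf 6 461 462) (node 620 (merge (leaf 5 492 588) (node 621 (merge (leaf 6 493 526) (leaf 5 524 652))))))))) (node 493 (merge (leaf 1 492 524) (node 461 (merge (leaf 3 460 460) (node 590 (merge (leaf 4 461 558) (node 589 (merge (leaf 4 493 622) (node 588 (merge (leaf 5 460 556) (leaf 5 492 620)))))))))))))))) (node 497 (merge (node 462 (merge (leaf 3 461 461) (node 463 (merge (leaf 3 462 498) (node 431 (merge (leaf 4 399 399) (leaf 7 431 464))))))) (merge (node 529 (merge (leaf 0 494 530) (node 526 (merge (leaf 1 493 525) (node 558 (merge (leaf 2 525 559) (node 462 (merge (leaf 3 461 461) (leaf 5 461 589))))))))) (node 529 (merge (leaf 0 494 530) (node 526 (merge (leaf 1 493 525) (node 558 (merge (leaf 2 525 559) (node 463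 (merge (leaf 6 462 590) (node 464 (merge (leaf 7 431 431) (node 498 (merge (leaf 3 463 499) (node 466 (merge (leaf 2 463 467) (node 432 (merge (leaf 4 400 400) (node 434 (merge (leaf 5 401 402) (node 433 (merge (leaf 6 400 401) (leaf 1 431 435)))))))))))))))))))))))))))) (merge (node 558 (merge (node 529 (merge (leaf 2 525 559) (node 495 (merge (leaf 0 493 493) (node 530 (merge (leaf 0 494 497) (leaf 3 495 531))))))) (merge (node 559 (merge (leaf 2 525 529) (node 591 (merge (leaf 5 463 464) (node 526 (merge (leaf 4 462 462) (node 623 (merge (leaf 4 494 590) (leaf 7 526 655))))))))) (merge (node 495 (merge (node 529 (merge (leaf 0 493 493) (node 530 (merge (leaf 0 494 497) (leaf 3 495 531))))) (merge (node 493 (merge (leaf 0 493 529) (node 460 (merge (leaf 3 460 461) (node 492 (merge (leaf 3 459 459) (node 523 (merge (leaf 1 491 524) (node 491 (merge (leaf 1 490 522) (node 463 (merge (leaf 2 459 462) (leaf 2 460 464))))))))))))) (node 462 (merge (node 526 (merge (leaf 5 461 589) (node 463 (merge (leaf 6 430 431) (leaf 6 462 590))))) (merge (node 461 (merge (leaf 3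 461 497) (node 526 (merge (leaf 7 429 429) (leaf 5 461 589))))) (node 497 (merge (leaf 3 461 461) (node 498 (merge (leaf 3 462 463) (node 531 (merge (leaf 0 495 530) (node 499 (merge (leaf 0 496 532) (node 467 (merge (leaf 2 463 466) (leaf 2 464 468))))))))))))))))) (node 559 (merge (node 589 (merge (leaf 1 556 588) (node 526 (merge (leaf 5 461 462) (node 621 (merge (leaf 5 493 590) (leaf 6 525 653))))))) (merge (node 591 (merge (leaf 5 463 464) (node 526 (merge (leaf 4 462 462) (node 623 (merge (leaf 4 494 590) (leaf 7 526 655))))))) (merge (node 588 (merge (leaf 1 556 589) (node 556 (merge (leaf 1 555 587) (node 523 (merge (leaf 3 523 524) (node 555 (merge (leaf 3 522 522) (node 591 (merge (leaf 5 463 464) (leaf 0 555 590))))))))))) (node 589 (merge (leaf 1 556 588) (node 462 (merge (leaf 5 461 526) (node 464 (merge (leaf 5 463 591) (node 463 (merge (leaf 7 431 431) (node 461 (merge (leaf 0 461 497) (node 460 (merge (leaf 0 460 495) (node 492 (merge (leaf 1 459 491) (leaf 1 460 493))))))))))))))))))))))) (merge (node 493 (merge (node 495 (merge (leaf 0 493 529)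 (node 525 (merge (leaf 1 492 524) (node 589 (merge (leaf 6 461 462) (node 620 (merge (leaf 5 492 588) (node 621 (merge (leaf 6 493 526) (leaf 5 524 652))))))))))) (merge (node 495 (merge (leaf 0 493 529) (node 460 (merge (leaf 3 460 461) (node 492 (merge (leaf 3 459 459) (node 523 (merge (leaf 1 491 524) (node 491 (merge (leaf 1 490 522) (node 463 (merge (leaf 2 459 462) (leaf 2 460 464))))))))))))) (merge (node 495 (merge (leaf 0 493 529) (node 525 (merge (leaf 1 492 524) (node 461 (merge (leaf 3 460 460) (node 588 (merge (leaf 5 460 556) (node 589 (merge (leaf 5 492 620) (node 622 (merge (leaf 4 493 590) (node 621 (merge (leaf 6 493 526) (leaf 4 525 654))))))))))))))) (merge (node 495 (merge (leaf 0 493 529) (node 463 (merge (node 431 (merge (leaf 4 399 399) (leaf 7 431 464))) (merge (node 492 (merge (leaf 2 460 464) (node 460 (merge (leaf 3 459 459) (leaf 3 460 461))))) (node 460 (merge (leaf 3 460 461) (node 492 (merge (leaf 3 459 459) (node 491 (merge (leaf 2 459 462) (node 522 (merge (leaf 1 490 523) (node 490 (merge (leaf 1 489 521) (node 525 (merge (leaf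 0 490 526) (leaf 7 460 589)))))))))))))))))) (node 525 (merge (node 589 (merge (leaf 6 461 462) (node 620 (merge (leaf 5 492 588) (node 621 (merge (leaf 6 493 526) (leaf 5 524 652))))))) (merge (node 589 (merge (leaf 6 461 462) (node 621 (merge (leaf 6 493 526) (node 492 (merge (leaf 7 460 460) (leaf 7 492 524))))))) (merge (node 589 (merge (leaf 6 461 462) (node 620 (merge (leaf 5 492 588) (node 621 (merge (leaf 5 524 652) (node 492 (merge (leaf 7 460 460) (leaf 7 492 524))))))))) (merge (node 589 (merge (node 622 (merge (leaf 4 493 590) (node 621 (merge (leaf 4 525 654) (node 492 (merge (leaf 7 460 460) (leaf 7 492 524))))))) (merge (node 620 (merge (leaf 5 492 588) (node 621 (merge (leaf 5 524 652) (node 492 (merge (leaf 7 460 460) (leaf 7 492 524))))))) (merge (node 621 (merge (leaf 6 493 526) (node 654 (merge (leaf 4 525 622) (node 653 (merge (leaf 4 557 686) (node 652 (merge (leaf 5 524 620) (leaf 5 556 684))))))))) (node 590 (merge (leaf 4 493 622) (node 461 (merge (leaf 4 461 558) (node 588 (merge (leaf 5 460 556) (leaf 5 492 620))))))))))) (node 461 (merge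 (node 556 (merge (leaf 5 460 588) (node 429 (merge (leaf 5 428 524) (node 397 (merge (leaf 4 397 526) (node 462 (merge (leaf 4 365 365) (leaf 6 429 430))))))))) (merge (node 430 (merge (leaf 6 429 462) (node 429 (merge (leaf 6 397 398) (node 428 (merge (leaf 7 396 396) (leaf 7 428 460))))))) (merge (node 556 (merge (leaf 5 460 588) (node 429 (merge (leaf 5 428 524) (node 428 (merge (leaf 7 396 396) (leaf 7 428 460))))))) (merge (node 556 (merge (leaf 5 460 588) (node 429 (merge (leaf 5 428 524) (node 428 (merge (leaf 7 396 396) (leaf 7 428 460))))))) (node 556 (merge (leaf 5 460 588) (node 462 (merge (leaf 6 429 430) (node 460 (merge (leaf 7 428 428) (node 459 (merge (leaf 0 458 458) (node 491 (merge (leaf 1 458 490) (node 427 (merge (leaf 3 426 426) (node 524 (merge (leaf 7 427 492) (leaf 4 427 523)))))))))))))))))))))))))))))) (merge (node 493 (merge (node 495 (merge (leaf 0 493 529) (node 461 (merge (leaf 3 460 460) (node 462 (merge (leaf 3 461 497) (node 525 (merge (leaf 6 429 430) (leaf 6 461 589))))))))) (merge (node 495 (merge (leaf 0 493 529) (node 525 (merge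 (leaf 1 492 524) (node 589 (merge (leaf 6 461 462) (node 620 (merge (leaf 5 492 588) (node 621 (merge (leaf 6 493 526) (leaf 5 524 652))))))))))) (merge (node 495 (merge (leaf 0 493 529) (node 460 (merge (leaf 3 460 461) (node 492 (merge (leaf 3 459 459) (node 523 (merge (leaf 1 491 524) (node 491 (merge (leaf 1 490 522) (node 463 (merge (leaf 2 459 462) (leaf 2 460 464))))))))))))) (merge (node 495 (merge (leaf 0 493 529) (node 525 (merge (leaf 1 492 524) (node 461 (merge (leaf 3 460 460) (node 588 (merge (leaf 5 460 556) (node 589 (merge (leaf 5 492 620) (node 622 (merge (leaf 4 493 590) (node 621 (merge (leaf 6 493 526) (leaf 4 525 654))))))))))))))) (node 525 (merge (node 589 (merge (leaf 6 461 462) (node 620 (merge (leaf 5 492 588) (node 621 (merge (leaf 6 493 526) (leaf 5 524 652))))))) (merge (node 589 (merge (leaf 6 461 462) (node 621 (merge (leaf 6 493 526) (node 492 (merge (leaf 7 460 460) (leaf 7 492 524))))))) (merge (node 589 (merge (leaf 6 461 462) (node 620 (merge (leaf 5 492 588) (node 621 (merge (leaf 5 524 652) (node 492 (merge (leaf 7 460 460)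 (leaf 7 492 524))))))))) (merge (node 461 (merge (node 556 (merge (leaf 5 460 588) (node 429 (merge (leaf 5 428 524) (node 397 (merge (leaf 4 397 526) (node 462 (merge (leaf 4 365 365) (leaf 6 429 430))))))))) (merge (node 430 (merge (leaf 6 429 462) (node 429 (merge (leaf 6 397 398) (node 428 (merge (leaf 7 396 396) (leaf 7 428 460))))))) (merge (node 556 (merge (leaf 5 460 588) (node 429 (merge (leaf 5 428 524) (node 428 (merge (leaf 7 396 396) (leaf 7 428 460))))))) (merge (node 556 (merge (leaf 5 460 588) (node 429 (merge (leaf 5 428 524) (node 428 (merge (leaf 7 396 396) (leaf 7 428 460))))))) (node 556 (merge (leaf 5 460 588) (node 462 (merge (leaf 6 429 430) (node 460 (merge (leaf 7 428 428) (node 459 (merge (leaf 0 458 458) (node 491 (merge (leaf 1 458 490) (node 427 (merge (leaf 3 426 426) (node 524 (merge (leaf 7 427 492) (leaf 4 427 523)))))))))))))))))))) (node 589 (merge (node 622 (merge (leaf 4 493 590) (node 621 (merge (leaf 4 525 654) (node 492 (merge (leaf 7 460 460) (leaf 7 492 524))))))) (merge (node 620 (merge (leaf 5 492 588) (node 621 (merge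 (leaf 5 524 652) (node 492 (merge (leaf 7 460 460) (leaf 7 492 524))))))) (merge (node 621 (merge (leaf 6 493 526) (node 654 (merge (leaf 4 525 622) (node 653 (merge (leaf 4 557 686) (node 652 (merge (leaf 5 524 620) (leaf 5 556 684))))))))) (node 590 (merge (leaf 4 493 622) (node 588 (merge (leaf 5 492 620) (node 591 (merge (leaf 2 556 559) (node 556 (merge (leaf 5 460 461) (leaf 3 555 555))))))))))))))))))))))) (merge (node 525 (merge (node 589 (merge (node 462 (merge (leaf 6 461 493) (node 526 (merge (leaf 5 429 430) (leaf 5 461 558))))) (merge (node 493 (merge (leaf 6 461 462) (node 620 (merge (leaf 5 492 588) (node 621 (merge (leaf 5 524 652) (node 492 (merge (leaf 7 460 460) (leaf 7 492 524))))))))) (node 621 (merge (leaf 6 493 526) (node 652 (merge (leaf 5 524 620) (node 653 (merge (leaf 5 556 684) (node 524 (merge (leaf 7 492 492) (leaf 7 524 556)))))))))))) (merge (node 589 (merge (node 493 (merge (leaf 6 461 462) (node 622 (merge (leaf 4 493 590) (node 621 (merge (leaf 6 493 526) (leaf 4 525 654))))))) (merge (node 621 (merge (leaf 6 493 526) (node 654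 (merge (leaf 4 525 622) (node 653 (merge (leaf 4 557 686) (node 652 (merge (leaf 5 524 620) (leaf 5 556 684))))))))) (node 493 (merge (leaf 6 461 462) (node 588 (merge (leaf 5 492 620) (node 461 (merge (leaf 5 460 556) (node 460 (merge (leaf 7 428 428) (leaf 7 460 492)))))))))))) (merge (node 589 (merge (node 462 (merge (leaf 6 461 493) (node 526 (merge (leaf 5 429 430) (leaf 5 461 558))))) (merge (node 493 (merge (leaf 6 461 462) (node 622 (merge (leaf 4 493 590) (node 621 (merge (leaf 4 525 654) (node 492 (merge (leaf 7 460 460) (leaf 7 492 524))))))))) (node 621 (merge (leaf 6 493 526) (node 654 (merge (leaf 4 525 622) (node 653 (merge (leaf 4 557 686) (node 652 (merge (leaf 5 524 620) (leaf 5 556 684)))))))))))) (merge (node 495 (merge (node 524 (merge (leaf 1 492 493) (node 526 (merge (leaf 1 493 497) (leaf 2 491 523))))) (merge (node 493 (merge (leaf 1 492 524) (node 461 (merge (leaf 3 460 460) (node 462 (merge (leaf 6 429 430) (leaf 3 461 497))))))) (merge (node 497 (merge (leaf 1 493 526) (node 462 (merge (leaf 3 461 461) (node 463 (merge (leaf 3 462 498)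 (node 431 (merge (leaf 4 399 399) (leaf 7 431 464))))))))) (node 493 (merge (leaf 1 492 524) (node 461 (merge (leaf 3 460 460) (node 558 (merge (leaf 4 461 590) (node 429 (merge (leaf 4 429 526) (node 398 (merge (leaf 6 397 430) (node 397 (merge (leaf 6 365 366) (node 396 (merge (leaf 7 364 364) (leaf 7 396 428))))))))))))))))))) (merge (node 495 (merge (node 524 (merge (leaf 1 492 493) (node 526 (merge (leaf 1 493 497) (leaf 2 491 523))))) (merge (node 493 (merge (leaf 1 492 524) (node 461 (merge (leaf 3 460 460) (node 590 (merge (leaf 4 461 558) (node 589 (merge (leaf 4 493 622) (node 588 (merge (leaf 5 460 556) (leaf 5 492 620))))))))))) (merge (node 526 (merge (leaf 1 493 497) (node 524 (merge (leaf 2 491 523) (node 558 (merge (leaf 3 524 559) (node 590 (merge (leaf 6 462 463) (node 622 (merge (leaf 7 525 654) (node 621 (merge (leaf 5 493 589) (leaf 5 525 653))))))))))))) (node 463 (merge (node 431 (merge (leaf 4 399 399) (leaf 7 431 464))) (merge (node 526 (merge (leaf 1 493 497) (node 590 (merge (leaf 6 462 558) (node 589 (merge (leaf 6 493 621) (node 493 (merge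 (leaf 4 493 622) (node 492 (merge (leaf 7 460 460) (leaf 2 460 464))))))))))) (node 526 (merge (leaf 1 493 497) (node 590 (merge (leaf 6 462 558) (node 589 (merge (leaf 6 493 621) (node 493 (merge (leaf 4 493 622) (node 460 (merge (leaf 3 460 461) (leaf 7 460 492)))))))))))))))))) (merge (node 589 (merge (node 526 (merge (leaf 6 493 621) (node 462 (merge (leaf 5 429 430) (leaf 5 461 558))))) (merge (node 621 (merge (leaf 6 493 526) (node 654 (merge (leaf 4 525 622) (node 653 (merge (leaf 4 557 686) (node 524 (merge (leaf 7 492 492) (leaf 7 524 556))))))))) (merge (node 558 (merge (node 559 (merge (leaf 3 524 524) (leaf 1 556 588))) (node 526 (merge (leaf 5 461 462) (node 495 (merge (leaf 1 493 497) (node 463 (merge (leaf 6 462 590) (node 431 (merge (leaf 4 399 399) (leaf 7 431 464))))))))))) (node 621 (merge (node 654 (merge (leaf 4 525 622) (node 653 (merge (leaf 4 557 686) (node 652 (merge (leaf 5 524 620) (leaf 5 556 684))))))) (merge (node 654 (merge (leaf 4 525 622) (node 653 (merge (leaf 4 557 686) (node 524 (merge (leaf 7 492 492) (leaf 7 524 556))))))) (merge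 (node 652 (merge (leaf 5 524 620) (node 653 (merge (leaf 5 556 684) (node 524 (merge (leaf 7 492 492) (leaf 7 524 556))))))) (node 620 (merge (leaf 5 524 652) (node 524 (merge (leaf 7 492 492) (node 559 (merge (leaf 3 524 558) (node 591 (merge (leaf 5 463 464) (node 590 (merge (leaf 2 556 588) (node 619 (merge (leaf 2 586 618) (leaf 2 587 622))))))))))))))))))))) (node 589 (merge (node 493 (merge (leaf 6 461 462) (node 590 (merge (leaf 4 493 622) (node 461 (merge (leaf 4 461 558) (node 460 (merge (leaf 7 428 428) (leaf 7 460 492))))))))) (merge (node 493 (merge (leaf 6 461 462) (node 620 (merge (leaf 5 492 588) (node 621 (merge (leaf 5 524 652) (node 492 (merge (leaf 7 460 460) (leaf 7 492 524))))))))) (merge (node 493 (merge (leaf 6 461 462) (node 590 (merge (leaf 4 493 622) (node 461 (merge (leaf 4 461 558) (node 588 (merge (leaf 5 460 556) (leaf 5 492 620))))))))) (node 621 (merge (node 654 (merge (leaf 4 525 622) (node 653 (merge (leaf 4 557 686) (node 652 (merge (leaf 5 524 620) (leaf 5 556 684))))))) (merge (node 654 (merge (leaf 4 525 622) (node 653 (merge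 (leaf 4 557 686) (node 524 (merge (leaf 7 492 492) (leaf 7 524 556))))))) (merge (node 652 (merge (leaf 5 524 620) (node 653 (merge (leaf 5 556 684) (node 524 (merge (leaf 7 492 492) (leaf 7 524 556))))))) (node 620 (merge (leaf 5 524 652) (node 524 (merge (leaf 7 492 492) (node 559 (merge (leaf 3 524 558) (node 591 (merge (leaf 5 463 464) (node 590 (merge (leaf 2 556 588) (node 619 (merge (leaf 2 586 618) (leaf 2 587 622)))))))))))))))))))))))))))) (merge (node 493 (merge (node 495 (merge (leaf 0 493 529) (node 461 (merge (leaf 3 460 460) (node 462 (merge (leaf 3 461 497) (node 525 (merge (leaf 6 429 430) (leaf 6 461 589))))))))) (merge (node 529 (merge (leaf 0 493 495) (node 559 (merge (leaf 2 525 558) (node 464 (merge (leaf 5 463 591) (node 431 (merge (leaf 7 431 463) (node 432 (merge (leaf 7 399 399) (node 400 (merge (leaf 4 400 497) (node 401 (merge (leaf 6 368 369) (leaf 6 400 433))))))))))))))) (merge (node 495 (merge (leaf 0 493 529) (node 463 (merge (node 431 (merge (leaf 4 399 399) (leaf 7 431 464))) (merge (node 492 (merge (leaf 2 460 464) (node 460 (merge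 (leaf 3 459 459) (leaf 3 460 461))))) (node 460 (merge (leaf 3 460 461) (node 492 (merge (leaf 3 459 459) (node 491 (merge (leaf 2 459 462) (node 522 (merge (leaf 1 490 523) (node 490 (merge (leaf 1 489 521) (node 525 (merge (leaf 0 490 526) (leaf 7 460 589)))))))))))))))))) (merge (node 589 (merge (node 525 (merge (leaf 6 461 462) (node 620 (merge (leaf 5 492 588) (node 621 (merge (leaf 6 493 526) (leaf 5 524 652))))))) (merge (node 525 (merge (leaf 6 461 462) (node 590 (merge (leaf 4 493 622) (node 461 (merge (leaf 4 461 558) (node 460 (merge (leaf 7 428 428) (leaf 7 460 492))))))))) (merge (node 558 (merge (node 559 (merge (leaf 2 525 529) (leaf 1 556 588))) (node 526 (merge (leaf 5 461 462) (node 621 (merge (leaf 5 493 590) (leaf 6 525 653))))))) (node 559 (merge (node 558 (merge (leaf 2 525 529) (leaf 1 556 588))) (merge (node 591 (merge (leaf 5 463 464) (node 588 (merge (leaf 2 556 590) (node 525 (merge (leaf 5 492 620) (node 556 (merge (leaf 5 460 461) (node 621 (merge (leaf 6 493 526) (node 653 (merge (leaf 7 556 685) (node 654 (merge (leaf 4 525 622) (leaf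 4 557 686))))))))))))))) (node 529 (merge (leaf 2 525 558) (node 464 (merge (leaf 5 463 591) (node 431 (merge (leaf 7 431 463) (node 432 (merge (leaf 7 399 399) (node 400 (merge (leaf 4 400 497) (node 401 (merge (leaf 6 368 369) (leaf 6 400 433)))))))))))))))))))) (node 525 (merge (node 589 (merge (leaf 6 461 462) (node 620 (merge (leaf 5 492 588) (node 621 (merge (leaf 6 493 526) (leaf 5 524 652))))))) (merge (node 589 (merge (leaf 6 461 462) (node 622 (merge (leaf 4 493 590) (node 621 (merge (leaf 6 493 526) (leaf 4 525 654))))))) (merge (node 589 (merge (leaf 6 461 462) (node 588 (merge (leaf 5 492 620) (node 559 (merge (leaf 1 556 558) (node 591 (merge (leaf 5 463 464) (leaf 2 556 590))))))))) (merge (node 589 (merge (node 622 (merge (leaf 4 493 590) (node 621 (merge (leaf 6 493 526) (leaf 4 525 654))))) (merge (node 590 (merge (leaf 4 493 622) (node 461 (merge (leaf 4 461 558) (node 588 (merge (leaf 5 460 556) (leaf 5 492 620))))))) (merge (node 621 (merge (leaf 6 493 526) (node 654 (merge (leaf 4 525 622) (node 653 (merge (leaf 4 557 686) (node 652 (merge (leaf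 5 524 620) (leaf 5 556 684))))))))) (node 621 (merge (leaf 6 493 526) (node 652 (merge (leaf 5 524 620) (node 653 (merge (leaf 5 556 684) (node 686 (merge (leaf 4 557 654) (node 685 (merge (leaf 4 589 718) (node 588 (merge (leaf 7 556 556) (node 558 (merge (leaf 1 556 559) (leaf 6 557 590))))))))))))))))))) (node 461 (merge (node 460 (merge (leaf 7 428 428) (leaf 3 460 495))) (merge (node 558 (merge (leaf 4 461 590) (node 429 (merge (leaf 4 429 526) (node 398 (merge (leaf 6 397 430) (node 397 (merge (leaf 6 365 366) (node 396 (merge (leaf 7 364 364) (leaf 7 396 428))))))))))) (node 495 (merge (leaf 3 460 460) (node 462 (merge (leaf 3 461 497) (node 525 (merge (leaf 6 429 430) (node 558 (merge (leaf 4 461 590) (node 526 (merge (leaf 4 429 429) (node 463 (merge (leaf 6 430 431) (node 492 (merge (leaf 1 460 464) (leaf 2 459 491)))))))))))))))))))))))))))) (merge (node 493 (merge (node 495 (merge (leaf 0 493 529) (node 525 (merge (leaf 1 492 524) (node 589 (merge (leaf 6 461 462) (node 620 (merge (leaf 5 492 588) (node 621 (merge (leaf 6 493 526) (leaf 5 524 652)))))))))))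 (merge (node 529 (merge (leaf 0 493 495) (node 559 (merge (leaf 2 525 558) (node 464 (merge (leaf 5 463 591) (node 431 (merge (leaf 7 431 463) (node 432 (merge (leaf 7 399 399) (node 400 (merge (leaf 4 400 497) (node 401 (merge (leaf 6 368 369) (leaf 6 400 433))))))))))))))) (merge (node 525 (merge (node 589 (merge (leaf 6 461 462) (node 620 (merge (leaf 5 492 588) (node 621 (merge (leaf 5 524 652) (node 492 (merge (leaf 7 460 460) (leaf 7 492 524))))))))) (merge (node 589 (merge (leaf 6 461 462) (node 588 (merge (leaf 5 492 620) (node 559 (merge (leaf 1 556 558) (node 591 (merge (leaf 5 463 464) (leaf 2 556 590))))))))) (merge (node 495 (merge (leaf 1 492 524) (node 526 (merge (leaf 1 493 497) (node 589 (merge (leaf 6 493 621) (node 590 (merge (leaf 4 493 622) (node 463 (merge (leaf 6 462 558) (node 492 (merge (leaf 7 460 460) (leaf 2 460 464))))))))))))) (node 524 (merge (leaf 1 492 495) (node 559 (merge (leaf 3 524 558) (node 464 (merge (leaf 5 463 591) (node 431 (merge (leaf 7 431 463) (node 432 (merge (leaf 7 399 399) (node 401 (merge (leaf 6 400 433) (node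 400 (merge (leaf 6 368 369) (node 430 (merge (leaf 2 397 429) (node 462 (merge (leaf 5 397 398) (leaf 5 429 526))))))))))))))))))))))) (node 589 (merge (node 525 (merge (leaf 6 461 462) (node 621 (merge (leaf 6 493 526) (node 492 (merge (leaf 7 460 460) (leaf 7 492 524))))))) (merge (node 558 (merge (node 559 (merge (leaf 2 525 529) (leaf 1 556 588))) (node 526 (merge (leaf 5 461 462) (node 621 (merge (leaf 5 493 590) (leaf 6 525 653))))))) (merge (node 559 (merge (node 558 (merge (leaf 2 525 529) (leaf 1 556 588))) (merge (node 591 (merge (leaf 5 463 464) (node 588 (merge (leaf 2 556 590) (node 525 (merge (leaf 5 492 620) (node 621 (merge (leaf 6 493 526) (node 492 (merge (leaf 7 460 460) (leaf 7 492 524))))))))))) (node 558 (merge (leaf 2 525 529) (node 525 (merge (leaf 3 524 524) (node 621 (merge (leaf 6 493 526) (node 652 (merge (leaf 5 524 620) (node 653 (merge (leaf 5 556 684) (node 686 (merge (leaf 4 557 654) (node 685 (merge (leaf 6 557 590) (leaf 4 589 718)))))))))))))))))) (node 525 (merge (leaf 6 461 462) (node 590 (merge (leaf 4 493 622) (node 588 (merge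 (leaf 5 492 620) (node 558 (merge (leaf 1 556 559) (node 587 (merge (leaf 2 554 586) (node 619 (merge (leaf 1 586 618) (node 555 (merge (leaf 3 554 554) (node 492 (merge (leaf 7 460 460) (node 524 (merge (leaf 6 491 523) (leaf 5 491 556))))))))))))))))))))))))))) (merge (node 493 (merge (node 529 (merge (leaf 0 493 495) (node 559 (merge (leaf 2 525 558) (node 464 (merge (leaf 5 463 591) (node 431 (merge (leaf 7 431 463) (node 432 (merge (leaf 7 399 399) (node 400 (merge (leaf 4 400 497) (node 401 (merge (leaf 6 368 369) (leaf 6 400 433))))))))))))))) (merge (node 495 (merge (leaf 0 493 529) (node 525 (merge (leaf 1 492 524) (node 461 (merge (leaf 3 460 460) (node 588 (merge (leaf 5 460 556) (node 589 (merge (leaf 5 492 620) (node 622 (merge (leaf 4 493 590) (node 621 (merge (leaf 6 493 526) (leaf 4 525 654))))))))))))))) (merge (node 525 (merge (node 495 (merge (leaf 1 492 524) (node 461 (merge (leaf 3 460 460) (node 590 (merge (leaf 4 461 558) (node 589 (merge (leaf 4 493 622) (node 588 (merge (leaf 5 460 556) (leaf 5 492 620))))))))))) (merge (node 495 (merge (leaf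 1 492 524) (node 526 (merge (leaf 1 493 497) (node 589 (merge (leaf 6 493 621) (node 590 (merge (leaf 4 493 622) (node 463 (merge (leaf 6 462 558) (node 492 (merge (leaf 7 460 460) (leaf 2 460 464))))))))))))) (merge (node 495 (merge (leaf 1 492 524) (node 526 (merge (leaf 1 493 497) (node 589 (merge (leaf 6 493 621) (node 590 (merge (leaf 4 493 622) (node 461 (merge (leaf 4 461 558) (node 588 (merge (leaf 5 460 556) (leaf 5 492 620))))))))))))) (merge (node 495 (merge (leaf 1 492 524) (node 526 (merge (leaf 1 493 497) (node 461 (merge (leaf 3 460 460) (node 429 (merge (leaf 4 397 397) (leaf 4 429 558))))))))) (merge (node 589 (merge (node 622 (merge (leaf 4 493 590) (node 621 (merge (leaf 4 525 654) (node 492 (merge (leaf 7 460 460) (leaf 7 492 524))))))) (merge (node 620 (merge (leaf 5 492 588) (node 621 (merge (leaf 5 524 652) (node 492 (merge (leaf 7 460 460) (leaf 7 492 524))))))) (merge (node 621 (merge (leaf 6 493 526) (node 654 (merge (leaf 4 525 622) (node 653 (merge (leaf 4 557 686) (node 652 (merge (leaf 5 524 620) (leaf 5 556 684))))))))) (node 590 (merge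 (leaf 4 493 622) (node 588 (merge (leaf 5 492 620) (node 591 (merge (leaf 2 556 559) (node 556 (merge (leaf 5 460 461) (leaf 3 555 555))))))))))))) (merge (node 589 (merge (node 622 (merge (leaf 4 493 590) (node 621 (merge (leaf 6 493 526) (leaf 4 525 654))))) (merge (node 590 (merge (leaf 4 493 622) (node 461 (merge (leaf 4 461 558) (node 588 (merge (leaf 5 460 556) (leaf 5 492 620))))))) (merge (node 621 (merge (leaf 6 493 526) (node 654 (merge (leaf 4 525 622) (node 653 (merge (leaf 4 557 686) (node 652 (merge (leaf 5 524 620) (leaf 5 556 684))))))))) (node 621 (merge (leaf 6 493 526) (node 652 (merge (leaf 5 524 620) (node 653 (merge (leaf 5 556 684) (node 686 (merge (leaf 4 557 654) (node 685 (merge (leaf 4 589 718) (node 588 (merge (leaf 7 556 556) (node 558 (merge (leaf 1 556 559) (leaf 6 557 590))))))))))))))))))) (node 495 (merge (leaf 1 492 524) (node 461 (merge (leaf 3 460 460) (node 558 (merge (leaf 4 461 590) (node 429 (merge (leaf 4 429 526) (node 398 (merge (leaf 6 397 430) (node 397 (merge (leaf 6 365 366) (node 396 (merge (leaf 7 364 364) (leaf 7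 396 428)))))))))))))))))))))) (node 525 (merge (node 558 (merge (node 559 (merge (leaf 3 524 524) (leaf 2 525 529))) (node 590 (merge (leaf 4 461 461) (node 622 (merge (leaf 7 493 526) (leaf 7 525 654))))))) (merge (node 461 (merge (node 588 (merge (leaf 5 460 556) (node 589 (merge (leaf 5 492 620) (node 460 (merge (leaf 7 428 428) (leaf 7 460 492))))))) (merge (node 556 (merge (leaf 5 460 588) (node 429 (merge (leaf 5 428 524) (node 526 (merge (leaf 4 397 397) (leaf 4 429 558))))))) (merge (node 460 (merge (leaf 7 428 428) (node 589 (merge (leaf 7 460 492) (node 620 (merge (leaf 5 492 588) (node 621 (merge (leaf 6 493 526) (leaf 5 524 652))))))))) (node 460 (merge (leaf 7 428 428) (node 589 (merge (leaf 7 460 492) (node 621 (merge (leaf 6 493 526) (node 654 (merge (leaf 4 525 622) (node 653 (merge (leaf 4 557 686) (node 652 (merge (leaf 5 524 620) (leaf 5 556 684))))))))))))))))) (merge (node 461 (merge (node 588 (merge (leaf 5 460 556) (node 589 (merge (leaf 5 492 620) (node 460 (merge (leaf 7 428 428) (leaf 7 460 492))))))) (merge (node 556 (merge (leaf 5 460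 588) (node 429 (merge (leaf 5 428 524) (node 526 (merge (leaf 4 397 397) (leaf 4 429 558))))))) (node 558 (merge (leaf 4 461 590) (node 559 (merge (leaf 3 524 524) (leaf 2 525 529)))))))) (merge (node 589 (merge (node 622 (merge (leaf 4 493 590) (node 621 (merge (leaf 4 525 654) (node 492 (merge (leaf 7 460 460) (leaf 7 492 524))))))) (merge (node 620 (merge (leaf 5 492 588) (node 621 (merge (leaf 5 524 652) (node 492 (merge (leaf 7 460 460) (leaf 7 492 524))))))) (merge (node 621 (merge (leaf 6 493 526) (node 654 (merge (leaf 4 525 622) (node 653 (merge (leaf 4 557 686) (node 652 (merge (leaf 5 524 620) (leaf 5 556 684))))))))) (node 590 (merge (leaf 4 493 622) (node 588 (merge (leaf 5 492 620) (node 591 (merge (leaf 2 556 559) (node 556 (merge (leaf 5 460 461) (leaf 3 555 555))))))))))))) (merge (node 461 (merge (node 590 (merge (leaf 4 461 558) (node 589 (merge (leaf 4 493 622) (node 460 (merge (leaf 7 428 428) (leaf 7 460 492))))))) (merge (node 588 (merge (leaf 5 460 556) (node 589 (merge (leaf 5 492 620) (node 460 (merge (leaf 7 428 428) (leaf 7 460 492)))))))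 (merge (node 558 (merge (leaf 4 461 590) (node 559 (merge (leaf 3 524 524) (leaf 2 525 529))))) (node 558 (merge (leaf 4 461 590) (node 559 (merge (leaf 3 524 524) (leaf 2 525 529))))))))) (merge (node 461 (merge (node 588 (merge (leaf 5 460 556) (node 589 (merge (leaf 5 492 620) (node 460 (merge (leaf 7 428 428) (leaf 7 460 492))))))) (merge (node 460 (merge (leaf 7 428 428) (node 589 (merge (leaf 7 460 492) (node 622 (merge (leaf 4 493 590) (node 621 (merge (leaf 6 493 526) (leaf 4 525 654))))))))) (merge (node 558 (merge (leaf 4 461 590) (node 559 (merge (leaf 2 525 529) (node 429 (merge (leaf 4 429 526) (node 464 (merge (leaf 5 463 591) (node 430 (merge (leaf 6 397 398) (node 431 (merge (leaf 7 431 463) (node 432 (merge (leaf 7 399 399) (leaf 1 428 460))))))))))))))) (node 558 (merge (leaf 4 461 590) (node 559 (merge (leaf 2 525 529) (node 429 (merge (leaf 4 429 526) (node 464 (merge (leaf 5 463 591) (node 430 (merge (leaf 6 397 398) (node 428 (merge (leaf 7 396 396) (node 431 (merge (leaf 0 428 463) (node 399 (merge (leaf 2 396 400) (leaf 7 399 432)))))))))))))))))))))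 (node 558 (merge (node 559 (merge (leaf 3 524 524) (leaf 2 525 529))) (merge (node 589 (merge (node 622 (merge (leaf 4 493 590) (node 621 (merge (leaf 4 525 654) (node 492 (merge (leaf 7 460 460) (leaf 7 492 524))))))) (merge (node 620 (merge (leaf 5 492 588) (node 621 (merge (leaf 5 524 652) (node 492 (merge (leaf 7 460 460) (leaf 7 492 524))))))) (merge (node 622 (merge (leaf 4 493 590) (node 621 (merge (leaf 4 525 654) (node 620 (merge (leaf 5 492 588) (leaf 5 524 652))))))) (node 590 (merge (leaf 4 493 622) (node 588 (merge (leaf 5 492 620) (node 587 (merge (leaf 2 554 586) (node 619 (merge (leaf 1 586 618) (node 555 (merge (leaf 3 554 554) (node 492 (merge (leaf 7 460 460) (node 524 (merge (leaf 6 491 523) (leaf 5 491 556))))))))))))))))))) (node 559 (merge (leaf 2 525 529) (node 589 (merge (leaf 1 556 588) (node 622 (merge (leaf 4 493 590) (node 621 (merge (leaf 6 493 526) (leaf 4 525 654))))))))))))))))))))))) (merge (hyp 0) (merge (node 463 (merge (node 464 (merge (leaf 7 431 431) (node 559 (merge (leaf 5 463 591) (node 558 (merge (leaf 2 525 529) (node 588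 (merge (leaf 1 556 589) (node 556 (merge (leaf 1 555 587) (node 524 (merge (leaf 3 523 523) (leaf 3 524 525))))))))))))) (merge (node 431 (merge (leaf 7 431 464) (node 399 (merge (leaf 4 399 495) (node 367 (merge (leaf 5 366 462) (node 336 (merge (leaf 6 335 368) (node 335 (merge (leaf 6 303 304) (node 334 (merge (leaf 7 302 302) (leaf 7 334 366))))))))))))) (merge (node 558 (merge (node 559 (merge (leaf 2 525 529) (node 588 (merge (leaf 1 556 589) (node 556 (merge (leaf 1 555 587) (node 524 (merge (leaf 3 523 523) (leaf 3 524 525))))))))) (merge (node 559 (merge (leaf 2 525 529) (node 591 (merge (leaf 5 463 464) (node 526 (merge (leaf 4 462 462) (node 623 (merge (leaf 4 494 590) (leaf 7 526 655))))))))) (node 526 (merge (node 589 (merge (leaf 5 461 462) (node 621 (merge (leaf 5 493 590) (leaf 6 525 653))))) (merge (node 462 (merge (leaf 5 461 589) (node 461 (merge (leaf 7 429 429) (node 497 (merge (leaf 0 461 464) (leaf 3 461 495))))))) (node 590 (merge (leaf 6 462 495) (node 623 (merge (leaf 4 494 591) (node 622 (merge (leaf 4 526 655) (node 654 (merge (leaf 7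 525 525) (node 653 (merge (leaf 5 525 621) (leaf 5 557 685))))))))))))))))) (node 558 (merge (node 559 (merge (leaf 2 525 529) (node 588 (merge (leaf 1 556 589) (node 556 (merge (leaf 1 555 587) (node 524 (merge (leaf 3 523 523) (leaf 3 524 525))))))))) (merge (node 526 (merge (node 462 (merge (leaf 6 430 431) (leaf 5 461 589))) (node 590 (merge (leaf 6 462 495) (node 623 (merge (leaf 4 494 591) (node 622 (merge (leaf 4 526 655) (node 654 (merge (leaf 7 525 525) (node 653 (merge (leaf 5 525 621) (leaf 5 557 685))))))))))))) (node 495 (merge (node 529 (merge (leaf 2 525 559) (node 530 (merge (leaf 0 494 497) (leaf 3 495 531))))) (node 526 (merge (leaf 6 462 590) (node 462 (merge (leaf 6 430 431) (node 461 (merge (leaf 7 429 429) (leaf 0 460 460)))))))))))))))) (hyp 1))))))))))))))))) nQ_78 cQ_78 14 (by decide +kernel)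
def nQ_79 : ℕ := 0x10000000100000009000000010000000000000000000000000000000000000000000000000000000000000000000000000000000000000000000000000000000000000000000000000000
def cQ_79 : ℕ := 0x140000001c0000001e8000007f8000007f8000007e0000003c800000120000001e8000001d80000010800000000000000000000000000000000000000000000000000000000000000000000000000000000000000000000000000000000000
theorem lQ_79 : S nQ_79 cQ_79 12 := S_of_chk [] trivial (node 595 (merge (node 463 (merge (leaf 7 463 495) (node 625 (merge (leaf 4 496 593) (node 624 (merge (leaf 4 528 657) (node 623 (merge (leaf 5 527 655) (node 626 (merge (leaf 2 591 594) (node 659 (merge (leaf 0 623 658) (node 627 (merge (leaf 2 592 596) (leaf 0 624 660))))))))))))))) (merge (node 593 (merge (leaf 4 496 625) (node 594 (merge (leaf 3 559 559) (node 628 (merge (leaf 0 592 627) (node 563 (merge (leaf 2 560 564) (node 499 (merge (leaf 4 499 596) (node 467 (merge (leaf 5 466 562) (node 468 (merge (leaf 6 435 436) (leaf 6 467 500))))))))))))))) (merge (node 593 (merge (leaf 4 496 625) (node 594 (merge (leaf 3 559 559) (node 563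 (merge (leaf 2 560 564) (node 499 (merge (leaf 5 498 626) (node 467 (merge (leaf 5 466 562) (node 468 (merge (leaf 6 435 436) (leaf 6 467 500))))))))))))) (merge (node 499 (merge (node 463 (merge (leaf 7 463 495) (node 464 (merge (leaf 7 431 431) (node 498 (merge (leaf 3 463 497) (node 563 (merge (leaf 7 466 466) (node 596 (merge (leaf 4 499 628) (node 467 (merge (leaf 4 467 564) (node 468 (merge (leaf 6 435 436) (leaf 6 467 500))))))))))))))) (merge (node 463 (merge (leaf 7 463 495) (node 464 (merge (leaf 7 431 431) (node 498 (merge (leaf 3 463 497) (node 563 (merge (leaf 7 466 466) (node 626 (merge (leaf 5 498 594) (node 627 (merge (leaf 5 530 658) (node 500 (merge (leaf 6 467 468) (leaf 6 499 532))))))))))))))) (merge (node 563 (merge (node 628 (merge (leaf 4 499 596) (node 627 (merge (leaf 4 531 660) (node 500 (merge (leaf 6 467 468) (leaf 6 499 532))))))) (merge (node 626 (merge (leaf 5 498 594) (node 627 (merge (leaf 5 530 658) (node 500 (merge (leaf 6 467 468) (leaf 6 499 532))))))) (node 596 (merge (leaf 4 499 628) (node 467 (merge (leaf 4 467 564) (node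 594 (merge (leaf 5 466 562) (leaf 5 498 626)))))))))) (node 463 (merge (leaf 7 463 495) (node 464 (merge (leaf 7 431 431) (node 497 (merge (leaf 3 463 498) (node 624 (merge (leaf 6 496 529) (node 625 (merge (leaf 4 528 657) (node 623 (merge (leaf 5 527 655) (node 626 (merge (leaf 2 591 594) (node 659 (merge (leaf 0 623 658) (node 627 (merge (leaf 2 592 596) (leaf 0 624 660))))))))))))))))))))))) (merge (node 499 (merge (node 463 (merge (leaf 7 463 495) (node 464 (merge (leaf 7 431 431) (node 498 (merge (leaf 3 463 497) (node 563 (merge (leaf 7 466 466) (node 596 (merge (leaf 4 499 628) (node 467 (merge (leaf 4 467 564) (node 468 (merge (leaf 6 435 436) (leaf 6 467 500))))))))))))))) (merge (node 463 (merge (leaf 7 463 495) (node 464 (merge (leaf 7 431 431) (node 497 (merge (leaf 3 463 498) (node 624 (merge (leaf 6 496 529) (node 657 (merge (leaf 4 528 625) (node 656 (merge (leaf 4 560 689) (node 655 (merge (leaf 5 527 623) (leaf 5 559 687))))))))))))))) (node 627 (merge (node 625 (merge (leaf 4 496 593) (node 624 (merge (leaf 4 528 657) (node 655 (merge (leaf 5 527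 623) (node 656 (merge (leaf 1 623 626) (leaf 5 559 687))))))))) (merge (node 563 (merge (node 628 (merge (leaf 4 499 596) (leaf 4 531 660))) (merge (node 658 (merge (leaf 5 530 626) (node 659 (merge (leaf 5 562 690) (node 532 (merge (leaf 6 499 500) (leaf 6 531 564))))))) (node 628 (merge (leaf 4 499 596) (node 627 (merge (leaf 4 531 660) (node 500 (merge (leaf 6 467 468) (leaf 6 499 532)))))))))) (node 563 (merge (node 628 (merge (leaf 4 499 596) (leaf 4 531 660))) (merge (node 625 (merge (leaf 4 496 593) (node 628 (merge (leaf 4 499 596) (node 657 (merge (leaf 4 528 624) (node 532 (merge (leaf 6 499 500) (node 659 (merge (leaf 6 531 564) (node 658 (merge (leaf 2 624 656) (leaf 5 562 690))))))))))))) (node 625 (merge (leaf 4 496 593) (node 657 (merge (leaf 4 528 624) (node 532 (merge (leaf 6 499 500) (node 659 (merge (leaf 6 531 564) (node 692 (merge (leaf 4 563 660) (node 691 (merge (leaf 4 595 724) (node 658 (merge (leaf 0 656 656) (leaf 5 562 690)))))))))))))))))))))))) (node 563 (merge (node 594 (merge (node 593 (merge (leaf 3 559 559) (leaf 2 560 564))) (node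 499 (merge (leaf 5 498 626) (node 467 (merge (leaf 5 466 562) (node 498 (merge (leaf 7 466 466) (node 497 (merge (leaf 2 464 468) (leaf 0 496 532))))))))))) (merge (node 431 (merge (node 463 (merge (leaf 7 431 464) (leaf 7 463 495))) (node 627 (merge (node 660 (merge (leaf 4 531 628) (node 659 (merge (leaf 4 563 692) (node 532 (merge (leaf 6 499 500) (leaf 6 531 564))))))) (merge (node 660 (merge (leaf 4 531 628) (node 659 (merge (leaf 4 563 692) (node 658 (merge (leaf 5 530 626) (leaf 5 562 690))))))) (merge (node 658 (merge (leaf 5 530 626) (node 659 (merge (leaf 5 562 690) (node 532 (merge (leaf 6 499 500) (leaf 6 531 564))))))) (node 628 (merge (leaf 4 531 660) (node 499 (merge (leaf 4 499 596) (node 532 (merge (leaf 6 499 500) (node 498 (merge (leaf 7 466 466) (leaf 0 496 497))))))))))))))) (merge (node 431 (merge (node 463 (merge (leaf 7 431 464) (leaf 7 463 495))) (node 627 (merge (node 660 (merge (leaf 4 531 628) (node 659 (merge (leaf 4 563 692) (node 658 (merge (leaf 5 530 626) (leaf 5 562 690))))))) (merge (node 626 (merge (leaf 5 530 658) (node 499 (merge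 (leaf 5 498 594) (node 468 (merge (leaf 6 467 500) (node 467 (merge (leaf 6 435 436) (node 498 (merge (leaf 7 466 466) (leaf 2 464 497))))))))))) (node 628 (merge (leaf 4 531 660) (node 499 (merge (leaf 4 499 596) (node 468 (merge (leaf 6 467 500) (node 467 (merge (leaf 6 435 436) (node 498 (merge (leaf 7 466 466) (leaf 2 464 497)))))))))))))))) (merge (node 464 (merge (node 463 (merge (leaf 7 431 431) (leaf 7 463 495))) (node 594 (merge (node 593 (merge (leaf 3 559 559) (leaf 2 560 564))) (node 499 (merge (leaf 5 498 626) (node 467 (merge (leaf 5 466 562) (node 468 (merge (leaf 6 435 436) (leaf 6 467 500))))))))))) (merge (node 594 (merge (node 593 (merge (leaf 3 559 559) (leaf 2 560 564))) (merge (node 627 (merge (node 660 (merge (leaf 4 531 628) (node 659 (merge (leaf 4 563 692) (node 532 (merge (leaf 6 499 500) (leaf 6 531 564))))))) (merge (node 532 (merge (leaf 6 499 500) (node 659 (merge (leaf 6 531 564) (node 691 (merge (leaf 7 562 562) (node 723 (merge (leaf 7 594 626) (node 722 (merge (leaf 5 594 690) (leaf 5 626 754))))))))))) (merge (node 660 (merge (leaf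 4 531 628) (node 659 (merge (leaf 4 563 692) (node 691 (merge (leaf 7 562 562) (node 626 (merge (leaf 5 530 658) (leaf 7 594 723))))))))) (merge (node 658 (merge (leaf 5 530 626) (node 659 (merge (leaf 5 562 690) (node 691 (merge (leaf 7 562 562) (node 724 (merge (leaf 4 595 692) (node 723 (merge (leaf 4 627 756) (node 596 (merge (leaf 6 563 564) (leaf 6 595 628))))))))))))) (node 628 (merge (leaf 4 531 660) (node 629 (merge (leaf 3 594 630) (node 626 (merge (leaf 5 530 658) (node 661 (merge (leaf 0 626 662) (node 597 (merge (leaf 2 594 598) (node 532 (merge (leaf 6 499 500) (node 564 (merge (leaf 7 532 565) (leaf 4 532 596)))))))))))))))))))) (node 593 (merge (leaf 3 559 559) (node 627 (merge (leaf 0 592 628) (node 658 (merge (leaf 5 530 626) (node 659 (merge (leaf 5 562 690) (node 691 (merge (leaf 7 562 562) (node 692 (merge (leaf 4 563 660) (leaf 4 595 724)))))))))))))))) (node 500 (merge (node 499 (merge (leaf 6 467 468) (node 463 (merge (leaf 7 463 495) (node 498 (merge (leaf 7 466 466) (node 497 (merge (leaf 3 463 464) (leaf 1 496 529))))))))) (node 627 (merge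 (leaf 6 499 532) (node 660 (merge (leaf 4 531 628) (node 659 (merge (leaf 4 563 692) (node 690 (merge (leaf 5 562 658) (node 691 (merge (leaf 5 594 722) (node 594 (merge (leaf 7 562 562) (node 593 (merge (leaf 3 559 559) (leaf 2 560 564))))))))))))))))))))))))))))) nQ_79 cQ_79 12 (by decide +kernel)
def nQ_80 : ℕ := 0x10000000100000009000000010000000000000000000000000000000000000000000000000000000000000000000000000000000000000000000000000000000000000000000000000000
def cQ_80 : ℕ := 0x540000007c8000007f800001ff800000fe000001fc800000760000007c8000007d8000001c8000001c0000001400000000000000000000000000000000000000000000000000000000000000000000000000000000000000000000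
theorem lQ_80 : S nQ_80 cQ_80 12 := S_of_chk [] trivial (node 595 (merge (node 593 (merge (leaf 4 496 625) (node 594 (merge (leaf 3 559 559) (node 627 (merge (leaf 0 592 628) (node 563 (merge (leaf 2 560 564) (node 499 (merge (leaf 5 498 626) (node 498 (merge (leaf 7 466 466) (leaf 7 498 530))))))))))))) (merge (node 593 (merge (leaf 4 496 625) (node 594 (merge (leaf 3 559 559) (node 627 (merge (leaf 0 592 628) (node 563 (merge (leaf 2 560 564) (node 495 (merge (leaf 7 463 463) (node 530 (merge (leaf 7 498 498) (leaf 3 495 529))))))))))))) (merge (node 463 (merge (leaf 7 463 495) (node 625 (merge (leaf 4 496 593) (node 624 (merge (leaf 4 528 657) (node 623 (merge (leaf 5 527 655) (node 626 (merge (leaf 2 591 594) (node 659 (merge (leaf 0 623 658) (node 627 (merge (leaf 2 592 596) (leaf 0 624 660))))))))))))))) (merge (node 593 (merge (leaf 4 496 625) (node 594 (merge (leaf 3 559 559) (node 563 (merge (leaf 2 560 564) (node 499 (merge (leaf 5 498 626) (node 467 (merge (leaf 5 466 562) (node 468 (merge (leaf 6 435 436) (leaf 6 467 500))))))))))))) (merge (node 625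 (merge (leaf 4 496 593) (node 624 (merge (leaf 4 528 657) (node 655 (merge (leaf 5 527 623) (node 656 (merge (leaf 5 559 687) (node 627 (merge (leaf 1 623 626) (node 495 (merge (leaf 7 463 463) (node 530 (merge (leaf 3 495 529) (node 563 (merge (leaf 7 498 498) (node 659 (merge (leaf 7 530 562) (node 532 (merge (leaf 6 499 500) (leaf 6 531 564))))))))))))))))))))) (merge (node 563 (merge (node 495 (merge (leaf 7 463 463) (node 530 (merge (leaf 3 495 529) (node 627 (merge (leaf 7 498 498) (node 659 (merge (leaf 7 530 562) (node 658 (merge (leaf 5 530 626) (leaf 5 562 690))))))))))) (merge (node 464 (merge (node 463 (merge (leaf 7 431 431) (leaf 7 463 495))) (node 594 (merge (node 593 (merge (leaf 3 559 559) (leaf 2 560 564))) (node 499 (merge (leaf 5 498 626) (node 467 (merge (leaf 5 466 562) (node 468 (merge (leaf 6 435 436) (leaf 6 467 500))))))))))) (merge (node 495 (merge (leaf 7 463 463) (node 530 (merge (leaf 3 495 529) (node 627 (merge (leaf 7 498 498) (node 658 (merge (leaf 5 530 626) (node 659 (merge (leaf 5 562 690) (node 532 (merge (leaf 6 499 500) (leaf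 6 531 564))))))))))))) (merge (node 499 (merge (node 626 (merge (leaf 5 498 594) (node 627 (merge (leaf 5 530 658) (node 498 (merge (leaf 7 466 466) (leaf 7 498 530))))))) (merge (node 628 (merge (leaf 4 499 596) (node 627 (merge (leaf 4 531 660) (node 500 (merge (leaf 6 467 468) (leaf 6 499 532))))))) (merge (node 596 (merge (leaf 4 499 628) (node 467 (merge (leaf 4 467 564) (node 594 (merge (leaf 5 466 562) (leaf 5 498 626))))))) (node 498 (merge (leaf 7 466 466) (node 627 (merge (leaf 7 498 530) (node 660 (merge (leaf 4 531 628) (node 659 (merge (leaf 4 563 692) (node 532 (merge (leaf 6 499 500) (leaf 6 531 564))))))))))))))) (merge (node 495 (merge (leaf 7 463 463) (node 530 (merge (leaf 3 495 529) (node 627 (merge (leaf 7 498 498) (node 659 (merge (leaf 7 530 562) (node 690 (merge (leaf 5 562 658) (node 691 (merge (leaf 5 594 722) (node 564 (merge (leaf 6 531 532) (leaf 6 563 596))))))))))))))) (node 431 (merge (node 463 (merge (leaf 7 431 464) (leaf 7 463 495))) (node 499 (merge (node 626 (merge (leaf 5 498 594) (node 627 (merge (leaf 5 530 658) (node 500 (merge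 (leaf 6 467 468) (leaf 6 499 532))))))) (merge (node 628 (merge (leaf 4 499 596) (node 627 (merge (leaf 4 531 660) (node 500 (merge (leaf 6 467 468) (leaf 6 499 532))))))) (merge (node 596 (merge (leaf 4 499 628) (node 467 (merge (leaf 4 467 564) (node 594 (merge (leaf 5 466 562) (leaf 5 498 626))))))) (node 594 (merge (leaf 5 498 626) (node 467 (merge (leaf 5 466 562) (node 564 (merge (leaf 4 467 596) (node 435 (merge (leaf 4 435 532) (node 404 (merge (leaf 6 403 436) (node 403 (merge (leaf 6 371 372) (node 402 (merge (leaf 7 370 370) (leaf 7 402 434))))))))))))))))))))))))))) (node 563 (merge (node 495 (merge (leaf 7 463 463) (node 530 (merge (leaf 3 495 529) (node 627 (merge (leaf 7 498 498) (node 659 (merge (leaf 7 530 562) (node 658 (merge (leaf 5 530 626) (leaf 5 562 690))))))))))) (merge (node 495 (merge (leaf 7 463 463) (node 530 (merge (leaf 3 495 529) (node 627 (merge (leaf 7 498 498) (node 628 (merge (leaf 4 531 660) (node 499 (merge (leaf 4 499 596) (node 626 (merge (leaf 5 498 594) (leaf 5 530 658))))))))))))) (merge (node 627 (merge (node 660 (merge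 (leaf 4 531 628) (node 659 (merge (leaf 4 563 692) (node 530 (merge (leaf 7 498 498) (leaf 7 530 562))))))) (merge (node 660 (merge (leaf 4 531 628) (node 659 (merge (leaf 4 563 692) (node 532 (merge (leaf 6 499 500) (leaf 6 531 564))))))) (merge (node 530 (merge (leaf 7 498 498) (node 659 (merge (leaf 7 530 562) (node 690 (merge (leaf 5 562 658) (node 691 (merge (leaf 5 594 722) (node 564 (merge (leaf 6 531 532) (leaf 6 563 596))))))))))) (node 500 (merge (leaf 6 499 532) (node 499 (merge (leaf 6 467 468) (node 498 (merge (leaf 7 466 466) (leaf 7 498 530))))))))))) (merge (node 495 (merge (leaf 7 463 463) (node 530 (merge (leaf 3 495 529) (node 627 (merge (leaf 7 498 498) (node 659 (merge (leaf 7 530 562) (node 692 (merge (leaf 4 563 660) (node 691 (merge (leaf 4 595 724) (node 564 (merge (leaf 6 531 532) (leaf 6 563 596))))))))))))))) (merge (node 431 (merge (node 463 (merge (leaf 7 431 464) (leaf 7 463 495))) (node 499 (merge (node 626 (merge (leaf 5 498 594) (node 627 (merge (leaf 5 530 658) (node 500 (merge (leaf 6 467 468) (leaf 6 499 532))))))) (merge (node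 628 (merge (leaf 4 499 596) (node 627 (merge (leaf 4 531 660) (node 500 (merge (leaf 6 467 468) (leaf 6 499 532))))))) (merge (node 596 (merge (leaf 4 499 628) (node 467 (merge (leaf 4 467 564) (node 594 (merge (leaf 5 466 562) (leaf 5 498 626))))))) (node 594 (merge (leaf 5 498 626) (node 467 (merge (leaf 5 466 562) (node 564 (merge (leaf 4 467 596) (node 435 (merge (leaf 4 435 532) (node 404 (merge (leaf 6 403 436) (node 403 (merge (leaf 6 371 372) (node 402 (merge (leaf 7 370 370) (leaf 7 402 434))))))))))))))))))))) (node 596 (merge (node 499 (merge (leaf 4 499 628) (node 467 (merge (leaf 4 467 564) (node 594 (merge (leaf 5 466 562) (leaf 5 498 626))))))) (merge (node 499 (merge (leaf 4 499 628) (node 500 (merge (leaf 6 467 468) (node 530 (merge (leaf 2 496 529) (node 501 (merge (leaf 1 498 502) (node 498 (merge (leaf 7 466 466) (node 533 (merge (leaf 0 498 534) (node 469 (merge (leaf 2 466 470) (node 564 (merge (leaf 6 468 532) (leaf 5 468 565))))))))))))))))) (merge (node 463 (merge (leaf 7 463 495) (node 499 (merge (leaf 4 499 628) (node 594 (merge (leaf 5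 498 626) (node 467 (merge (leaf 5 466 562) (node 468 (merge (leaf 6 435 436) (leaf 6 467 500))))))))))) (merge (node 597 (merge (node 598 (merge (leaf 3 562 562) (node 631 (merge (leaf 0 595 630) (node 599 (merge (leaf 3 563 564) (leaf 0 596 632))))))) (merge (node 598 (merge (leaf 3 562 562) (node 567 (merge (leaf 2 563 566) (node 599 (merge (leaf 3 563 564) (leaf 2 564 568))))))) (merge (node 598 (merge (leaf 3 562 562) (node 630 (merge (leaf 0 595 631) (node 594 (merge (leaf 0 594 629) (node 566 (merge (leaf 2 562 565) (leaf 2 563 567))))))))) (merge (node 598 (merge (node 631 (merge (leaf 0 595 630) (node 599 (merge (leaf 3 563 564) (leaf 0 596 632))))) (merge (node 567 (merge (leaf 2 563 566) (node 599 (merge (leaf 3 563 564) (leaf 2 564 568))))) (node 630 (merge (leaf 0 595 631) (node 594 (merge (leaf 0 594 629) (node 566 (merge (leaf 2 562 565) (leaf 2 563 567)))))))))) (node 565 (merge (node 594 (merge (leaf 2 562 566) (node 626 (merge (leaf 1 593 625) (node 658 (merge (leaf 6 530 562) (leaf 6 562 690))))))) (merge (node 530 (merge (node 529 (merge (leaf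 3 495 495) (leaf 1 527 559))) (node 564 (merge (leaf 3 530 566) (node 499 (merge (leaf 4 467 467) (node 500 (merge (leaf 6 467 468) (node 501 (merge (leaf 1 498 502) (node 532 (merge (leaf 6 468 469) (leaf 4 500 629))))))))))))) (node 499 (merge (node 467 (merge (leaf 4 467 564) (node 594 (merge (leaf 5 466 562) (leaf 5 498 626))))) (merge (node 467 (merge (leaf 4 467 564) (node 594 (merge (leaf 5 466 562) (leaf 5 498 626))))) (merge (node 467 (merge (leaf 4 467 564) (node 500 (merge (leaf 6 467 468) (node 530 (merge (leaf 2 496 529) (node 435 (merge (leaf 5 434 562) (node 498 (merge (leaf 5 402 403) (leaf 7 466 466))))))))))) (merge (node 594 (merge (leaf 5 498 626) (node 467 (merge (leaf 5 466 562) (node 468 (merge (leaf 6 435 436) (leaf 6 467 500))))))) (node 594 (merge (leaf 5 498 626) (node 629 (merge (leaf 0 594 630) (node 500 (merge (leaf 6 467 468) (node 532 (merge (leaf 7 500 533) (leaf 4 500 564)))))))))))))))))))))) (node 597 (merge (node 598 (merge (leaf 3 562 562) (node 631 (merge (leaf 0 595 630) (node 599 (merge (leaf 3 563 564) (leaf 0 596 632)))))))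 (merge (node 598 (merge (leaf 3 562 562) (node 567 (merge (leaf 2 563 566) (node 599 (merge (leaf 3 563 564) (leaf 2 564 568))))))) (merge (node 598 (merge (leaf 3 562 562) (node 630 (merge (leaf 0 595 631) (node 594 (merge (leaf 0 594 629) (node 566 (merge (leaf 2 562 565) (leaf 2 563 567))))))))) (merge (node 598 (merge (node 631 (merge (leaf 0 595 630) (node 599 (merge (leaf 3 563 564) (leaf 0 596 632))))) (merge (node 567 (merge (leaf 2 563 566) (node 599 (merge (leaf 3 563 564) (leaf 2 564 568))))) (node 630 (merge (leaf 0 595 631) (node 594 (merge (leaf 0 594 629) (node 566 (merge (leaf 2 562 565) (leaf 2 563 567)))))))))) (node 629 (merge (node 630 (merge (leaf 0 594 594) (node 631 (merge (leaf 3 595 628) (leaf 3 596 632))))) (merge (node 594 (merge (leaf 0 594 630) (node 626 (merge (leaf 1 593 625) (node 658 (merge (leaf 6 530 562) (leaf 6 562 690))))))) (merge (node 565 (merge (node 594 (merge (leaf 2 562 566) (node 626 (merge (leaf 1 593 625) (node 658 (merge (leaf 6 530 562) (leaf 6 562 690))))))) (node 660 (merge (node 628 (merge (leaf 5 532 533) (leaf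 7 531 564))) (merge (node 628 (merge (leaf 5 532 533) (leaf 7 563 692))) (node 661 (merge (leaf 5 564 692) (node 693 (merge (leaf 7 564 564) (node 694 (merge (leaf 4 565 662) (leaf 4 597 726)))))))))))) (node 565 (merge (node 495 (merge (leaf 7 463 463) (node 530 (merge (leaf 3 495 529) (node 564 (merge (leaf 3 530 566) (node 661 (merge (leaf 7 532 532) (leaf 7 564 693))))))))) (merge (node 630 (merge (node 631 (merge (leaf 3 595 628) (leaf 3 596 632))) (node 533 (merge (leaf 4 533 662) (node 534 (merge (leaf 6 501 502) (node 532 (merge (leaf 7 500 500) (leaf 1 530 562))))))))) (node 495 (merge (leaf 7 463 463) (node 530 (merge (leaf 3 495 529) (node 566 (merge (leaf 3 530 564) (node 534 (merge (leaf 6 533 661) (node 502 (merge (leaf 5 469 470) (leaf 6 501 533))))))))))))))))))))))))))))))))))))))))) nQ_80 cQ_80 12 (by decide +kernel)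
def nQ_81 : ℕ := 0x90000000100000009000000010000000000000000000000000000000000000000000000000000000000000000000000000000000000000000000000000000000000000000000000000000
def cQ_81 : ℕ := 0x40000001c0000001c0000003c000000f4000001fc000003f4000001fe8000007d8000003c8000001c0000001400000000000000000000000000000000000000000000000000000000000000000000000000000000000000000000
theorem lQ_81 : S nQ_81 cQ_81 11 := S_of_chk [] trivial (node 563 (merge (node 431 (merge (node 463 (merge (leaf 7 431 464) (leaf 7 463 495))) (node 627 (merge (node 660 (merge (leaf 4 531 628) (node 659 (merge (leaf 4 563 692) (node 532 (merge (leaf 6 499 500) (leaf 6 531 564))))))) (merge (node 660 (merge (leaf 4 531 628) (node 659 (merge (leaf 4 563 692) (node 658 (merge (leaf 5 530 626) (leaf 5 562 690))))))) (merge (node 658 (merge (leaf 5 530 626) (node 659 (merge (leaf 5 562 690) (node 532 (merge (leaf 6 499 500) (leaf 6 531 564))))))) (node 628 (merge (leaf 4 531 660) (node 499 (merge (leaf 4 499 596) (node 532 (merge (leaf 6 499 500) (node 498 (merge (leaf 7 466 466) (leaf 0 496 497)))))))))))))))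 (merge (node 498 (merge (node 495 (merge (leaf 7 463 463) (node 530 (merge (leaf 0 495 497) (node 466 (merge (leaf 4 434 434) (leaf 4 466 562))))))) (merge (node 499 (merge (leaf 7 466 466) (node 594 (merge (leaf 5 498 626) (node 467 (merge (leaf 5 466 562) (node 468 (merge (leaf 6 435 436) (leaf 2 464 497))))))))) (node 627 (merge (leaf 7 498 530) (node 658 (merge (leaf 5 530 626) (node 659 (merge (leaf 5 562 690) (node 532 (merge (leaf 6 499 500) (leaf 6 531 564)))))))))))) (merge (node 431 (merge (node 463 (merge (leaf 7 431 464) (leaf 7 463 495))) (node 627 (merge (node 660 (merge (leaf 4 531 628) (node 659 (merge (leaf 4 563 692) (node 658 (merge (leaf 5 530 626) (leaf 5 562 690))))))) (merge (node 626 (merge (leaf 5 530 658) (node 499 (merge (leaf 5 498 594) (node 468 (merge (leaf 6 467 500) (node 467 (merge (leaf 6 435 436) (node 498 (merge (leaf 7 466 466) (leaf 2 464 497))))))))))) (node 628 (merge (leaf 4 531 660) (node 499 (merge (leaf 4 499 596) (node 468 (merge (leaf 6 467 500) (node 467 (merge (leaf 6 435 436) (node 498 (merge (leaf 7 466 466) (leaf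 2 464 497)))))))))))))))) (merge (node 498 (merge (node 495 (merge (leaf 7 463 463) (node 530 (merge (leaf 0 495 497) (node 466 (merge (leaf 4 434 434) (leaf 4 466 562))))))) (merge (node 499 (merge (leaf 7 466 466) (node 594 (merge (leaf 5 498 626) (node 467 (merge (leaf 5 466 562) (node 468 (merge (leaf 6 435 436) (leaf 2 464 497))))))))) (merge (node 495 (merge (leaf 7 463 463) (node 497 (merge (leaf 0 495 530) (node 499 (merge (leaf 0 496 532) (node 467 (merge (leaf 2 463 466) (leaf 2 464 468))))))))) (merge (node 495 (merge (leaf 7 463 463) (node 497 (merge (leaf 0 495 530) (node 499 (merge (leaf 0 496 532) (node 468 (merge (leaf 2 464 467) (leaf 6 467 500))))))))) (node 466 (merge (leaf 7 466 499) (node 530 (merge (leaf 4 434 434) (leaf 4 466 562)))))))))) (merge (node 431 (merge (node 463 (merge (leaf 7 431 464) (leaf 7 463 495))) (node 499 (merge (node 626 (merge (leaf 5 498 594) (node 627 (merge (leaf 5 530 658) (node 500 (merge (leaf 6 467 468) (leaf 6 499 532))))))) (merge (node 628 (merge (leaf 4 499 596) (node 627 (merge (leaf 4 531 660) (node 500 (merge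 (leaf 6 467 468) (leaf 6 499 532))))))) (merge (node 596 (merge (leaf 4 499 628) (node 467 (merge (leaf 4 467 564) (node 594 (merge (leaf 5 466 562) (leaf 5 498 626))))))) (node 594 (merge (leaf 5 498 626) (node 467 (merge (leaf 5 466 562) (node 564 (merge (leaf 4 467 596) (node 435 (merge (leaf 4 435 532) (node 404 (merge (leaf 6 403 436) (node 403 (merge (leaf 6 371 372) (node 402 (merge (leaf 7 370 370) (leaf 7 402 434))))))))))))))))))))) (merge (node 627 (merge (node 660 (merge (leaf 4 531 628) (node 659 (merge (leaf 4 563 692) (node 530 (merge (leaf 7 498 498) (leaf 7 530 562))))))) (merge (node 660 (merge (leaf 4 531 628) (node 659 (merge (leaf 4 563 692) (node 532 (merge (leaf 6 499 500) (leaf 6 531 564))))))) (merge (node 530 (merge (leaf 7 498 498) (node 659 (merge (leaf 7 530 562) (node 690 (merge (leaf 5 562 658) (node 691 (merge (leaf 5 594 722) (node 564 (merge (leaf 6 531 532) (leaf 6 563 596))))))))))) (node 500 (merge (leaf 6 499 532) (node 499 (merge (leaf 6 467 468) (node 498 (merge (leaf 7 466 466) (leaf 7 498 530))))))))))) (merge (node 498 (merge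 (node 495 (merge (leaf 7 463 463) (node 530 (merge (leaf 0 495 497) (node 466 (merge (leaf 4 434 434) (leaf 4 466 562))))))) (merge (node 499 (merge (leaf 7 466 466) (node 594 (merge (leaf 5 498 626) (node 467 (merge (leaf 5 466 562) (node 468 (merge (leaf 6 435 436) (leaf 2 464 497))))))))) (node 627 (merge (leaf 7 498 530) (node 660 (merge (leaf 4 531 628) (node 659 (merge (leaf 4 563 692) (node 658 (merge (leaf 5 530 626) (leaf 5 562 690)))))))))))) (node 532 (merge (node 500 (merge (leaf 6 499 627) (node 468 (merge (leaf 5 435 436) (leaf 5 467 564))))) (merge (node 627 (merge (leaf 6 499 500) (node 660 (merge (leaf 4 531 628) (node 659 (merge (leaf 4 563 692) (node 530 (merge (leaf 7 498 498) (leaf 7 530 562))))))))) (merge (node 533 (merge (node 534 (merge (leaf 1 530 562) (node 567 (merge (leaf 0 531 566) (node 535 (merge (leaf 1 531 564) (leaf 0 532 568))))))) (merge (node 534 (merge (leaf 1 530 562) (node 566 (merge (leaf 0 531 567) (node 530 (merge (leaf 0 530 565) (node 502 (merge (leaf 2 498 501) (leaf 2 499 503))))))))) (merge (node 534 (merge (leaf 1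 530 562) (node 502 (merge (leaf 2 499 503) (node 530 (merge (leaf 2 498 501) (node 627 (merge (leaf 7 498 498) (node 658 (merge (leaf 5 530 626) (node 659 (merge (leaf 6 531 564) (leaf 5 562 690))))))))))))) (node 627 (merge (node 658 (merge (leaf 5 530 626) (node 659 (merge (leaf 6 531 564) (leaf 5 562 690))))) (merge (node 660 (merge (leaf 4 531 628) (node 659 (merge (leaf 6 531 564) (leaf 4 563 692))))) (merge (node 660 (merge (leaf 4 531 628) (node 659 (merge (leaf 4 563 692) (node 658 (merge (leaf 5 530 626) (leaf 5 562 690))))))) (node 628 (merge (leaf 4 531 660) (node 530 (merge (leaf 7 498 498) (node 565 (merge (leaf 0 530 566) (node 501 (merge (leaf 2 498 502) (node 596 (merge (leaf 6 500 564) (leaf 5 500 597))))))))))))))))))) (node 533 (merge (node 534 (merge (leaf 1 530 562) (node 567 (merge (leaf 0 531 566) (node 535 (merge (leaf 1 531 564) (leaf 0 532 568))))))) (merge (node 534 (merge (leaf 1 530 562) (node 566 (merge (leaf 0 531 567) (node 530 (merge (leaf 0 530 565) (node 502 (merge (leaf 2 498 501) (leaf 2 499 503))))))))) (merge (node 463 (merge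 (leaf 7 463 495) (node 534 (merge (leaf 1 530 562) (node 535 (merge (leaf 1 531 564) (node 502 (merge (leaf 2 499 503) (node 501 (merge (leaf 2 498 530) (node 536 (merge (leaf 3 500 500) (leaf 3 501 537))))))))))))) (merge (node 564 (merge (node 534 (merge (leaf 1 531 535) (node 566 (merge (leaf 0 531 567) (node 565 (merge (leaf 0 530 530) (leaf 1 562 594))))))) (merge (node 534 (merge (leaf 1 531 535) (node 566 (merge (leaf 0 531 567) (node 530 (merge (leaf 0 530 565) (node 502 (merge (leaf 2 498 501) (leaf 2 499 503))))))))) (merge (node 501 (merge (node 469 (merge (leaf 5 436 437) (node 596 (merge (leaf 5 468 565) (leaf 6 500 628))))) (node 502 (merge (leaf 2 498 530) (node 503 (merge (leaf 1 499 500) (leaf 1 500 504))))))) (merge (node 534 (merge (leaf 1 531 535) (node 566 (merge (leaf 0 531 567) (node 502 (merge (leaf 2 499 503) (node 501 (merge (leaf 2 498 530) (node 469 (merge (leaf 4 437 437) (leaf 7 469 598))))))))))) (node 534 (merge (leaf 1 531 535) (node 566 (merge (leaf 0 531 567) (node 565 (merge (leaf 1 562 594) (node 502 (merge (leaf 2 499 503) (node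 597 (merge (leaf 5 469 470) (leaf 6 501 629)))))))))))))))) (node 501 (merge (node 502 (merge (leaf 2 498 530) (node 503 (merge (leaf 1 499 500) (leaf 1 500 504))))) (merge (node 530 (merge (leaf 2 498 502) (node 498 (merge (leaf 3 497 497) (node 466 (merge (leaf 4 434 434) (leaf 4 466 562))))))) (node 564 (merge (node 469 (merge (leaf 5 436 437) (node 596 (merge (leaf 5 468 565) (leaf 6 500 628))))) (merge (node 469 (merge (leaf 5 436 437) (node 468 (merge (leaf 5 467 500) (node 565 (merge (leaf 7 436 436) (node 566 (merge (leaf 3 531 567) (leaf 1 562 594))))))))) (node 500 (merge (leaf 5 467 468) (node 596 (merge (leaf 6 500 628) (node 597 (merge (leaf 4 500 629) (node 598 (merge (leaf 3 562 562) (leaf 3 563 599)))))))))))))))))))))))))))))))) nQ_81 cQ_81 11 (by decide +kernel)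
def nQ_82 : ℕ := 0x10000000100000009000000010000000000000000000000000000000000000000000000000000000000000000000000000000000000000000000000000000000000000000000000000000
def cQ_82 : ℕ := 0x140000003d800001fe000000fc800001f60000007e8000007d8000007f8000001f0000001c0000001c000000140000000000000000000000000000000000000000000000000000000000000000000000000000
theorem lQ_82 : S nQ_82 cQ_82 12 := S_of_chk [] trivial (node 499 (merge (node 529 (merge (node 530 (merge (leaf 2 496 500) (leaf 1 527 559))) (merge (node 497 (merge (leaf 6 496 624) (node 498 (merge (leaf 1 496 500) (leaf 0 496 532))))) (node 497 (merge (leaf 6 496 624) (node 532 (merge (leaf 0 496 498) (leaf 3 496 530)))))))) (merge (node 495 (merge (leaf 7 463 463) (node 529 (merge (leaf 3 495 530) (node 497 (merge (leaf 6 496 624) (node 498 (merge (leaf 1 496 500) (node 467 (merge (leaf 2 463 466) (leaf 2 464 468))))))))))) (merge (node 495 (merge (leaf 7 463 463) (node 529 (merge (leaf 3 495 530) (node 497 (merge (leaf 6 496 624) (node 498 (merge (leaf 0 496 532) (node 467 (merge (leaf 2 463 466) (leaf 2 464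 468))))))))))) (merge (node 467 (merge (node 435 (merge (node 562 (merge (leaf 5 434 530) (node 563 (merge (leaf 5 466 594) (node 434 (merge (leaf 7 402 402) (leaf 7 434 466))))))) (merge (node 404 (merge (leaf 6 403 436) (node 403 (merge (leaf 6 371 372) (node 402 (merge (leaf 7 370 370) (leaf 7 402 434))))))) (node 562 (merge (leaf 5 434 530) (node 563 (merge (leaf 5 466 594) (node 436 (merge (leaf 6 403 404) (leaf 6 435 468)))))))))) (merge (node 563 (merge (node 436 (merge (leaf 6 435 468) (node 435 (merge (leaf 6 403 404) (node 434 (merge (leaf 7 402 402) (leaf 7 434 466))))))) (merge (node 596 (merge (leaf 4 467 564) (node 595 (merge (leaf 4 499 628) (node 466 (merge (leaf 7 434 434) (leaf 7 466 498))))))) (node 596 (merge (leaf 4 467 564) (node 595 (merge (leaf 4 499 628) (node 468 (merge (leaf 6 435 436) (leaf 6 467 500)))))))))) (merge (node 498 (merge (node 497 (merge (leaf 2 464 468) (leaf 0 496 532))) (merge (node 497 (merge (leaf 2 464 468) (node 495 (merge (leaf 2 463 466) (leaf 0 495 530))))) (node 435 (merge (node 530 (merge (leaf 5 402 403) (leaf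 5 434 562))) (node 564 (merge (leaf 4 435 532) (node 563 (merge (leaf 4 467 596) (node 434 (merge (leaf 7 402 402) (leaf 7 434 466)))))))))))) (merge (node 498 (merge (node 463 (merge (leaf 7 463 495) (node 464 (merge (leaf 7 431 431) (leaf 3 463 497))))) (node 435 (merge (node 530 (merge (leaf 5 402 403) (leaf 5 434 562))) (node 564 (merge (leaf 4 435 532) (node 563 (merge (leaf 4 467 596) (node 436 (merge (leaf 6 403 404) (leaf 6 435 468))))))))))) (merge (node 435 (merge (node 404 (merge (leaf 6 403 436) (node 403 (merge (leaf 6 371 372) (node 402 (merge (leaf 7 370 370) (leaf 7 402 434))))))) (merge (node 532 (merge (leaf 4 435 564) (node 403 (merge (leaf 4 403 500) (node 530 (merge (leaf 5 402 498) (leaf 5 434 562))))))) (merge (node 532 (merge (leaf 4 435 564) (node 403 (merge (leaf 4 403 500) (node 530 (merge (leaf 5 402 498) (leaf 5 434 562))))))) (node 530 (merge (leaf 5 434 562) (node 436 (merge (leaf 6 403 404) (node 434 (merge (leaf 7 402 402) (node 463 (merge (leaf 7 463 495) (node 464 (merge (leaf 7 431 431) (node 433 (merge (leaf 1 431 432) (node 401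 (merge (leaf 3 400 400) (node 498 (merge (leaf 7 401 466) (leaf 3 463 497))))))))))))))))))))) (node 498 (merge (node 463 (merge (leaf 7 463 495) (node 464 (merge (leaf 7 431 431) (leaf 3 463 497))))) (node 563 (merge (node 595 (merge (leaf 7 466 466) (node 626 (merge (leaf 5 498 594) (node 627 (merge (leaf 7 498 530) (leaf 5 530 658))))))) (merge (node 564 (merge (leaf 4 467 596) (node 468 (merge (leaf 6 435 436) (node 469 (merge (leaf 1 466 470) (node 466 (merge (leaf 7 434 434) (node 501 (merge (leaf 0 466 502) (node 437 (merge (leaf 2 434 438) (node 532 (merge (leaf 6 436 500) (leaf 5 436 533))))))))))))))) (node 468 (merge (leaf 6 435 436) (node 595 (merge (leaf 6 467 500) (node 626 (merge (leaf 5 498 594) (node 627 (merge (leaf 7 498 530) (leaf 5 530 658)))))))))))))))))))) (merge (node 467 (merge (node 495 (merge (leaf 7 463 463) (node 530 (merge (leaf 3 495 529) (node 435 (merge (leaf 5 434 562) (node 564 (merge (leaf 4 435 532) (node 563 (merge (leaf 4 467 596) (node 434 (merge (leaf 7 402 402) (leaf 7 434 466))))))))))))) (merge (node 435 (merge (node 562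 (merge (leaf 5 434 530) (node 563 (merge (leaf 5 466 594) (node 434 (merge (leaf 7 402 402) (leaf 7 434 466))))))) (merge (node 404 (merge (leaf 6 403 436) (node 403 (merge (leaf 6 371 372) (node 402 (merge (leaf 7 370 370) (leaf 7 402 434))))))) (node 562 (merge (leaf 5 434 530) (node 563 (merge (leaf 5 466 594) (node 436 (merge (leaf 6 403 404) (leaf 6 435 468)))))))))) (merge (node 495 (merge (leaf 7 463 463) (node 530 (merge (leaf 3 495 529) (node 435 (merge (leaf 5 434 562) (node 564 (merge (leaf 4 435 532) (node 563 (merge (leaf 4 467 596) (node 436 (merge (leaf 6 403 404) (leaf 6 435 468))))))))))))) (merge (node 435 (merge (node 404 (merge (leaf 6 403 436) (node 403 (merge (leaf 6 371 372) (node 402 (merge (leaf 7 370 370) (leaf 7 402 434))))))) (merge (node 564 (merge (leaf 4 435 532) (node 563 (merge (leaf 4 467 596) (node 434 (merge (leaf 7 402 402) (leaf 7 434 466))))))) (node 564 (merge (leaf 4 435 532) (node 563 (merge (leaf 4 467 596) (node 436 (merge (leaf 6 403 404) (leaf 6 435 468)))))))))) (merge (node 495 (merge (leaf 7 463 463) (node 530 (merge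 (leaf 3 495 529) (node 435 (merge (leaf 5 434 562) (node 532 (merge (leaf 4 435 564) (node 403 (merge (leaf 4 403 500) (node 404 (merge (leaf 6 371 372) (leaf 6 403 436))))))))))))) (node 594 (merge (node 495 (merge (leaf 7 463 463) (node 530 (merge (leaf 3 495 529) (node 562 (merge (leaf 6 466 498) (leaf 6 498 626))))))) (merge (node 563 (merge (leaf 5 466 562) (node 596 (merge (leaf 4 467 564) (node 595 (merge (leaf 4 499 628) (node 468 (merge (leaf 6 435 436) (leaf 6 467 500))))))))) (node 595 (merge (node 563 (merge (leaf 5 498 626) (node 500 (merge (leaf 6 467 468) (node 530 (merge (leaf 2 496 529) (node 627 (merge (leaf 7 498 498) (leaf 6 499 532))))))))) (merge (node 563 (merge (leaf 5 498 626) (node 596 (merge (leaf 4 467 564) (leaf 4 499 628))))) (node 593 (merge (leaf 3 559 559) (node 628 (merge (leaf 0 592 627) (node 596 (merge (leaf 0 593 629) (node 564 (merge (leaf 7 499 532) (leaf 2 561 565))))))))))))))))))))) (merge (node 467 (merge (node 435 (merge (node 404 (merge (leaf 6 403 436) (node 403 (merge (leaf 6 371 372) (node 402 (merge (leaf 7 370 370)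 (leaf 7 402 434))))))) (node 564 (merge (leaf 4 435 532) (node 563 (merge (leaf 4 467 596) (node 594 (merge (leaf 5 466 562) (node 595 (merge (leaf 2 560 593) (leaf 5 498 626))))))))))) (merge (node 498 (merge (node 463 (merge (leaf 7 463 495) (node 464 (merge (leaf 7 431 431) (leaf 3 463 497))))) (node 563 (merge (node 466 (merge (leaf 7 434 434) (leaf 7 466 595))) (merge (node 594 (merge (leaf 5 466 562) (node 595 (merge (leaf 5 498 626) (node 468 (merge (leaf 6 435 436) (leaf 6 467 500))))))) (node 436 (merge (leaf 6 435 468) (node 435 (merge (leaf 6 403 404) (node 434 (merge (leaf 7 402 402) (leaf 7 434 466)))))))))))) (merge (node 436 (merge (node 404 (merge (leaf 6 403 435) (node 468 (merge (leaf 5 371 372) (leaf 5 403 500))))) (merge (node 563 (merge (leaf 6 435 468) (node 596 (merge (leaf 4 467 564) (node 595 (merge (leaf 4 499 628) (node 594 (merge (leaf 5 466 562) (leaf 5 498 626))))))))) (node 435 (merge (leaf 6 403 404) (node 532 (merge (leaf 4 435 564) (node 498 (merge (leaf 0 496 497) (node 403 (merge (leaf 4 403 500) (node 371 (merge (leaf 5 370 466)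 (node 340 (merge (leaf 6 339 372) (node 339 (merge (leaf 6 307 308) (node 338 (merge (leaf 7 306 306) (leaf 7 338 370)))))))))))))))))))) (merge (node 435 (merge (node 564 (merge (leaf 4 435 532) (node 563 (merge (leaf 4 467 596) (node 594 (merge (leaf 5 466 562) (node 595 (merge (leaf 2 560 593) (leaf 5 498 626))))))))) (merge (node 434 (merge (leaf 7 402 402) (node 463 (merge (leaf 7 463 495) (node 464 (merge (leaf 7 431 431) (node 432 (merge (leaf 1 431 433) (node 497 (merge (leaf 3 463 498) (node 529 (merge (leaf 4 400 400) (leaf 6 496 624))))))))))))) (node 434 (merge (leaf 7 402 402) (node 463 (merge (leaf 7 463 495) (node 464 (merge (leaf 7 431 431) (node 432 (merge (leaf 1 431 433) (node 497 (merge (leaf 3 463 498) (node 529 (merge (leaf 4 400 400) (leaf 6 496 624)))))))))))))))) (merge (node 435 (merge (node 404 (merge (leaf 6 403 436) (node 403 (merge (leaf 6 371 372) (node 402 (merge (leaf 7 370 370) (leaf 7 402 434))))))) (merge (node 463 (merge (leaf 7 463 495) (node 464 (merge (leaf 7 431 431) (node 497 (merge (leaf 3 463 498) (node 529 (merge (leaf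 6 496 624) (node 432 (merge (leaf 4 400 400) (node 433 (merge (leaf 6 400 401) (leaf 1 431 434))))))))))))) (node 532 (merge (leaf 4 435 564) (node 403 (merge (leaf 4 403 500) (node 404 (merge (leaf 6 371 372) (leaf 6 403 436)))))))))) (node 498 (merge (node 463 (merge (leaf 7 463 495) (node 464 (merge (leaf 7 431 431) (leaf 3 463 497))))) (node 563 (merge (node 594 (merge (leaf 5 466 562) (node 595 (merge (leaf 7 466 466) (leaf 5 498 626))))) (merge (node 564 (merge (leaf 4 467 596) (node 468 (merge (leaf 6 435 436) (node 469 (merge (leaf 1 466 470) (node 466 (merge (leaf 7 434 434) (node 501 (merge (leaf 0 466 502) (node 437 (merge (leaf 2 434 438) (node 532 (merge (leaf 6 436 500) (leaf 5 436 533))))))))))))))) (node 594 (merge (leaf 5 466 562) (node 595 (merge (leaf 5 498 626) (node 468 (merge (leaf 6 435 436) (leaf 6 467 500)))))))))))))))))) (node 563 (merge (node 595 (merge (node 594 (merge (leaf 5 498 626) (node 593 (merge (leaf 3 559 559) (leaf 2 560 564))))) (node 628 (merge (leaf 4 499 596) (node 627 (merge (leaf 4 531 660) (node 500 (merge (leaf 6 467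 468) (leaf 6 499 532))))))))) (merge (node 468 (merge (node 467 (merge (leaf 6 435 436) (node 594 (merge (leaf 5 466 562) (node 595 (merge (leaf 6 467 500) (leaf 5 498 626))))))) (merge (node 595 (merge (leaf 6 467 500) (node 594 (merge (leaf 5 498 626) (node 593 (merge (leaf 3 559 559) (leaf 2 560 564))))))) (merge (node 467 (merge (leaf 6 435 436) (node 562 (merge (leaf 5 466 594) (node 530 (merge (leaf 5 434 435) (node 529 (merge (leaf 1 527 559) (leaf 0 528 564))))))))) (node 467 (merge (leaf 6 435 436) (node 500 (merge (leaf 6 467 595) (node 530 (merge (leaf 2 496 529) (node 435 (merge (leaf 5 434 562) (node 434 (merge (leaf 7 402 402) (leaf 7 434 466))))))))))))))) (merge (node 467 (merge (node 596 (merge (leaf 4 467 564) (node 595 (merge (leaf 4 499 628) (node 468 (merge (leaf 6 435 436) (leaf 6 467 500))))))) (merge (node 495 (merge (leaf 7 463 463) (node 530 (merge (leaf 3 495 529) (node 435 (merge (leaf 5 434 562) (node 564 (merge (leaf 4 435 532) (node 563 (merge (leaf 4 467 596) (node 434 (merge (leaf 7 402 402) (leaf 7 434 466))))))))))))) (node 495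 (merge (leaf 7 463 463) (node 530 (merge (leaf 3 495 529) (node 435 (merge (leaf 5 434 562) (node 434 (merge (leaf 7 402 402) (node 563 (merge (leaf 7 434 466) (node 468 (merge (leaf 6 435 436) (node 500 (merge (leaf 6 467 595) (node 403 (merge (leaf 4 371 371) (leaf 4 403 532)))))))))))))))))))) (merge (node 468 (merge (node 500 (merge (leaf 6 467 595) (node 436 (merge (leaf 5 403 404) (leaf 5 435 532))))) (merge (node 467 (merge (leaf 6 435 436) (node 562 (merge (leaf 5 466 594) (node 530 (merge (leaf 5 434 435) (node 529 (merge (leaf 3 495 495) (leaf 1 527 559))))))))) (node 595 (merge (leaf 6 467 500) (node 628 (merge (leaf 4 499 596) (node 627 (merge (leaf 4 531 660) (node 626 (merge (leaf 5 498 594) (leaf 5 530 658)))))))))))) (merge (node 595 (merge (node 594 (merge (leaf 5 498 626) (node 593 (merge (leaf 3 559 559) (leaf 2 560 564))))) (merge (node 596 (merge (leaf 4 499 628) (node 467 (merge (leaf 4 467 564) (node 594 (merge (leaf 5 466 562) (leaf 5 498 626))))))) (merge (node 596 (merge (leaf 4 499 628) (node 467 (merge (leaf 4 467 564) (node 436 (merge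 (leaf 6 435 468) (node 435 (merge (leaf 6 403 404) (node 530 (merge (leaf 5 434 562) (node 529 (merge (leaf 3 495 495) (leaf 1 527 559))))))))))))) (node 594 (merge (leaf 5 498 626) (node 593 (merge (leaf 3 559 559) (node 624 (merge (leaf 1 591 623) (node 529 (merge (leaf 6 496 497) (node 495 (merge (leaf 7 463 463) (leaf 3 495 530))))))))))))))) (merge (node 595 (merge (node 594 (merge (leaf 5 498 626) (node 593 (merge (leaf 3 559 559) (leaf 2 560 564))))) (merge (node 596 (merge (leaf 4 499 628) (node 467 (merge (leaf 4 467 564) (node 594 (merge (leaf 5 466 562) (leaf 5 498 626))))))) (merge (node 596 (merge (leaf 4 499 628) (node 467 (merge (leaf 4 467 564) (node 434 (merge (leaf 7 434 466) (node 435 (merge (leaf 7 402 402) (node 530 (merge (leaf 5 434 562) (node 529 (merge (leaf 2 496 500) (leaf 1 527 559))))))))))))) (node 594 (merge (leaf 5 498 626) (node 593 (merge (leaf 3 559 559) (node 624 (merge (leaf 1 591 623) (node 529 (merge (leaf 6 496 497) (node 530 (merge (leaf 3 495 495) (leaf 2 496 500))))))))))))))) (node 564 (merge (node 596 (merge (leaf 4 467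 467) (node 628 (merge (leaf 7 499 532) (leaf 7 531 660))))) (merge (node 530 (merge (leaf 0 528 529) (node 467 (merge (leaf 4 467 596) (node 562 (merge (leaf 5 434 435) (leaf 5 466 594))))))) (merge (node 565 (merge (node 566 (merge (leaf 3 530 530) (node 599 (merge (leaf 0 563 598) (node 567 (merge (leaf 3 531 532) (leaf 0 564 600))))))) (merge (node 566 (merge (leaf 3 530 530) (node 598 (merge (leaf 0 563 599) (node 562 (merge (leaf 0 562 597) (node 534 (merge (leaf 2 530 533) (leaf 2 531 535))))))))) (merge (node 566 (merge (node 599 (merge (leaf 0 563 598) (node 567 (merge (leaf 3 531 532) (leaf 0 564 600))))) (merge (node 535 (merge (leaf 2 531 534) (node 567 (merge (leaf 3 531 532) (leaf 2 532 536))))) (node 598 (merge (leaf 0 563 599) (node 562 (merge (leaf 0 562 597) (node 534 (merge (leaf 2 530 533) (leaf 2 531 535)))))))))) (node 533 (merge (node 534 (merge (leaf 2 530 562) (node 535 (merge (leaf 1 531 532) (leaf 1 532 536))))) (merge (node 562 (merge (leaf 2 530 534) (node 594 (merge (leaf 1 561 593) (node 626 (merge (leaf 6 498 530) (leaf 6 530 658)))))))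 (node 596 (merge (node 628 (merge (leaf 7 499 532) (leaf 7 531 660))) (merge (node 530 (merge (leaf 0 528 529) (node 501 (merge (leaf 5 468 469) (node 502 (merge (leaf 1 498 500) (leaf 2 498 532))))))) (node 628 (merge (leaf 7 531 660) (node 501 (merge (leaf 5 468 469) (leaf 5 500 597))))))))))))))) (node 565 (merge (node 566 (merge (leaf 3 530 530) (node 535 (merge (leaf 2 531 534) (node 567 (merge (leaf 3 531 532) (leaf 2 532 536))))))) (merge (node 566 (merge (leaf 3 530 530) (node 598 (merge (leaf 0 563 599) (node 562 (merge (leaf 0 562 597) (node 534 (merge (leaf 2 530 533) (leaf 2 531 535))))))))) (merge (node 566 (merge (node 599 (merge (leaf 0 563 598) (node 567 (merge (leaf 3 531 532) (leaf 0 564 600))))) (merge (node 535 (merge (leaf 2 531 534) (node 567 (merge (leaf 3 531 532) (leaf 2 532 536))))) (node 598 (merge (leaf 0 563 599) (node 562 (merge (leaf 0 562 597) (node 534 (merge (leaf 2 530 533) (leaf 2 531 535)))))))))) (node 435 (merge (node 467 (merge (leaf 4 435 532) (node 436 (merge (leaf 6 403 404) (leaf 6 435 468))))) (merge (node 467 (merge (leaf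 4 435 532) (node 562 (merge (leaf 5 434 530) (leaf 5 466 594))))) (node 529 (merge (leaf 0 528 530) (node 497 (merge (leaf 6 496 624) (node 463 (merge (leaf 7 463 495) (node 464 (merge (leaf 7 431 431) (node 432 (merge (leaf 4 400 400) (node 433 (merge (leaf 6 400 401) (leaf 1 431 434)))))))))))))))))))))))))))))))))))))) nQ_82 cQ_82 12 (by decide +kernel)
def nQ_83 : ℕ := 0x120000001000000010000000000000000000000000000000000000000000000000000000000000000000000000000000000000000000000000000000000000000000000000000
def cQ_83 : ℕ := 0x140000005c0000007fd000007ff00001fff00001fff00001fc900003fe780001fef000007df800007fd000001f0000001c0000001c000000140000000000000000000000000000000000000000000000000000000000000000000000000000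
theorem lQ_83 : S nQ_83 cQ_83 14 := S_of_chk [(nQ_79, cQ_79, 12), (nQ_80, cQ_80, 12), (nQ_81, cQ_81, 11), (nQ_82, cQ_82, 12)] ⟨lQ_79, lQ_80, lQ_81, lQ_82, trivial⟩ (node 592 (merge (node 625 (merge (leaf 4 496 593) (node 624 (merge (leaf 4 528 657) (node 623 (merge (leaf 5 495 591) (leaf 5 527 655))))))) (merge (node 591 (merge (leaf 5 495 623) (node 464 (merge (leaf 5 463 559) (node 463 (merge (leaf 7 431 431) (leaf 7 463 495))))))) (merge (node 589 (merge (node 625 (merge (leaf 4 496 593) (node 624 (merge (leaf 4 528 657) (node 591 (merge (leaf 0 589 590) (node 464 (merge (leaf 5 463 559) (node 463 (merge (leaf 7 431 431) (leaf 7 463 495))))))))))) (merge (node 493 (merge (node 495 (merge (leaf 7 463 463) (node 494 (merge (leaf 0 493 529) (node 525 (merge (leaf 6 461 462) (leaf 1 492 524))))))) (merge (node 495 (merge (leaf 7 463 463) (node 494 (merge (leaf 0 493 529) (node 460 (merge (leaf 3 460 461) (node 492 (merge (leaf 3 459 459) (node 524 (merge (leaf 1 491 523) (leaf 4 460 556))))))))))) (merge (node 525 (merge (node 494 (merge (leaf 6 461 462) (node 621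 (merge (leaf 6 493 526) (node 492 (merge (leaf 7 460 460) (leaf 7 492 524))))))) (merge (node 620 (merge (leaf 5 492 588) (node 621 (merge (leaf 5 524 652) (node 494 (merge (leaf 6 461 462) (leaf 6 493 526))))))) (merge (node 620 (merge (leaf 5 492 588) (node 621 (merge (leaf 5 524 652) (node 492 (merge (leaf 7 460 460) (leaf 7 492 524))))))) (node 588 (merge (leaf 5 492 620) (node 461 (merge (leaf 5 460 556) (node 462 (merge (leaf 6 429 430) (leaf 6 461 494))))))))))) (node 461 (merge (node 525 (merge (node 588 (merge (leaf 5 460 556) (leaf 5 492 620))) (node 460 (merge (leaf 7 428 428) (leaf 7 460 492))))) (merge (node 463 (merge (leaf 7 463 495) (node 464 (merge (leaf 7 431 431) (node 462 (merge (leaf 1 460 492) (leaf 0 461 497))))))) (node 463 (merge (leaf 7 463 495) (node 464 (merge (leaf 7 431 431) (node 462 (merge (leaf 0 461 497) (node 525 (merge (leaf 6 429 430) (node 588 (merge (leaf 5 460 556) (leaf 5 492 620)))))))))))))))))) (merge (node 493 (merge (node 625 (merge (leaf 4 496 593) (node 624 (merge (leaf 4 528 657) (node 590 (merge (leaf 0 589 591) (node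 525 (merge (leaf 4 493 622) (node 620 (merge (leaf 5 492 588) (node 621 (merge (leaf 5 524 652) (node 492 (merge (leaf 7 460 460) (leaf 7 492 524))))))))))))))) (merge (node 625 (merge (leaf 4 496 593) (node 624 (merge (leaf 4 528 657) (node 590 (merge (leaf 0 589 591) (node 525 (merge (leaf 4 493 622) (node 620 (merge (leaf 5 492 588) (node 621 (merge (leaf 5 524 652) (node 494 (merge (leaf 6 461 462) (leaf 6 493 526))))))))))))))) (node 495 (merge (leaf 7 463 463) (node 494 (merge (leaf 0 493 529) (node 460 (merge (leaf 3 460 461) (node 492 (merge (leaf 3 459 459) (node 524 (merge (leaf 1 491 523) (leaf 4 460 556)))))))))))))) (node 525 (merge (node 492 (merge (node 524 (merge (leaf 7 492 621) (node 460 (merge (leaf 4 428 428) (leaf 4 460 556))))) (merge (node 460 (merge (leaf 7 460 493) (node 524 (merge (leaf 4 428 428) (leaf 4 460 556))))) (merge (node 493 (merge (leaf 7 460 460) (node 622 (merge (leaf 4 493 590) (node 621 (merge (leaf 4 525 654) (node 494 (merge (leaf 6 461 462) (leaf 6 493 526))))))))) (node 621 (merge (leaf 7 492 524) (node 622 (merge (leaf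 4 525 654) (node 493 (merge (leaf 4 493 590) (node 494 (merge (leaf 6 461 462) (leaf 6 493 526))))))))))))) (merge (node 493 (merge (node 460 (merge (leaf 7 460 492) (node 462 (merge (leaf 6 461 494) (node 461 (merge (leaf 7 428 428) (leaf 6 429 430))))))) (merge (node 620 (merge (leaf 5 492 588) (node 621 (merge (leaf 5 524 652) (node 494 (merge (leaf 6 461 462) (leaf 6 493 526))))))) (node 620 (merge (leaf 5 492 588) (node 621 (merge (leaf 5 524 652) (node 492 (merge (leaf 7 460 460) (leaf 7 492 524)))))))))) (merge (node 625 (merge (leaf 4 496 593) (node 624 (merge (leaf 4 528 657) (node 590 (merge (leaf 0 589 591) (node 493 (merge (leaf 4 493 622) (node 588 (merge (leaf 5 492 620) (node 461 (merge (leaf 5 460 556) (node 462 (merge (leaf 6 429 430) (leaf 6 461 494))))))))))))))) (merge (node 625 (merge (leaf 4 496 593) (node 624 (merge (leaf 4 528 657) (node 590 (merge (leaf 0 589 591) (node 493 (merge (leaf 4 493 622) (node 620 (merge (leaf 5 492 588) (node 621 (merge (leaf 5 524 652) (node 494 (merge (leaf 6 461 462) (leaf 6 493 526))))))))))))))) (node 654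 (merge (node 621 (merge (leaf 4 525 622) (node 652 (merge (leaf 5 524 620) (node 653 (merge (leaf 5 556 684) (node 524 (merge (leaf 7 492 492) (leaf 7 524 556))))))))) (merge (node 625 (merge (leaf 4 496 593) (node 624 (merge (leaf 4 528 657) (node 591 (merge (leaf 0 589 590) (node 559 (merge (leaf 5 463 464) (node 656 (merge (leaf 7 559 688) (node 655 (merge (leaf 2 621 653) (leaf 5 559 687))))))))))))) (node 622 (merge (leaf 4 525 621) (node 590 (merge (leaf 7 557 686) (node 591 (merge (leaf 3 556 556) (node 625 (merge (leaf 4 496 593) (leaf 0 589 624))))))))))))))))))))) (node 531 (merge (node 495 (merge (leaf 7 463 463) (node 529 (merge (leaf 3 495 530) (node 624 (merge (leaf 6 496 497) (node 657 (merge (leaf 4 528 625) (node 656 (merge (leaf 4 560 689) (node 655 (merge (leaf 5 527 623) (leaf 5 559 687))))))))))))) (merge (node 625 (merge (leaf 4 496 593) (node 624 (merge (leaf 4 528 657) (node 529 (merge (leaf 6 496 497) (node 530 (merge (leaf 1 527 559) (node 564 (merge (leaf 0 528 563) (node 532 (merge (leaf 0 529 565) (node 500 (merge (leaf 2 496 499) (leaf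 2 497 501))))))))))))))) (merge (node 595 (merge (node 495 (merge (leaf 7 463 463) (node 530 (merge (leaf 3 495 529) (node 498 (merge (leaf 0 495 497) (node 563 (merge (leaf 7 498 627) (node 466 (merge (leaf 4 434 434) (leaf 4 466 562))))))))))) (merge (node 593 (merge (leaf 4 496 625) (node 594 (merge (leaf 3 559 559) (node 627 (merge (leaf 0 592 628) (node 563 (merge (leaf 2 560 564) (node 499 (merge (leaf 5 498 626) (node 500 (merge (leaf 6 467 468) (leaf 6 499 532))))))))))))) (merge (node 593 (merge (leaf 4 496 625) (node 594 (merge (leaf 3 559 559) (node 563 (merge (leaf 2 560 564) (node 499 (merge (leaf 5 498 626) (node 495 (merge (leaf 7 463 463) (node 498 (merge (leaf 7 466 466) (node 497 (merge (leaf 0 495 530) (leaf 0 496 532))))))))))))))) (node 593 (merge (leaf 4 496 625) (node 594 (merge (leaf 3 559 559) (node 495 (merge (leaf 7 463 463) (node 530 (merge (leaf 3 495 529) (node 498 (merge (leaf 0 495 497) (node 562 (merge (leaf 4 498 627) (node 499 (merge (leaf 6 466 467) (leaf 6 498 626))))))))))))))))))) (merge (hyp 0) (merge (hyp 1) (merge (node 595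 (merge (node 593 (merge (leaf 4 496 625) (node 594 (merge (leaf 3 559 559) (node 563 (merge (leaf 2 560 564) (node 499 (merge (leaf 5 498 626) (node 467 (merge (leaf 5 466 562) (node 468 (merge (leaf 6 435 436) (leaf 6 467 500))))))))))))) (merge (node 463 (merge (leaf 7 463 495) (node 625 (merge (leaf 4 496 593) (node 624 (merge (leaf 4 528 657) (node 623 (merge (leaf 5 527 655) (node 626 (merge (leaf 2 591 594) (node 659 (merge (leaf 0 623 658) (node 627 (merge (leaf 2 592 596) (leaf 0 624 660))))))))))))))) (merge (node 593 (merge (leaf 4 496 625) (node 594 (merge (leaf 3 559 559) (node 628 (merge (leaf 0 592 627) (node 563 (merge (leaf 2 560 564) (node 499 (merge (leaf 4 499 596) (node 467 (merge (leaf 5 466 562) (node 468 (merge (leaf 6 435 436) (leaf 6 467 500))))))))))))))) (merge (node 498 (merge (node 495 (merge (leaf 7 463 463) (node 530 (merge (leaf 0 495 497) (node 563 (merge (leaf 7 498 627) (node 466 (merge (leaf 4 434 434) (leaf 4 466 562))))))))) (merge (node 495 (merge (leaf 7 463 463) (node 497 (merge (leaf 0 495 530) (node 499 (merge (leaf 0 496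 532) (node 467 (merge (leaf 2 463 466) (leaf 2 464 468))))))))) (merge (node 495 (merge (leaf 7 463 463) (node 497 (merge (leaf 0 495 530) (node 499 (merge (leaf 0 496 532) (node 468 (merge (leaf 2 464 467) (node 500 (merge (leaf 2 465 469) (leaf 6 467 563))))))))))) (merge (node 625 (merge (leaf 4 496 593) (node 624 (merge (leaf 4 528 657) (node 655 (merge (leaf 5 527 623) (node 656 (merge (leaf 5 559 687) (node 627 (merge (leaf 1 623 626) (node 563 (merge (leaf 7 498 530) (node 500 (merge (leaf 6 499 532) (node 499 (merge (leaf 7 466 466) (leaf 6 467 468))))))))))))))))) (node 463 (merge (leaf 7 463 495) (node 464 (merge (leaf 7 431 431) (node 499 (merge (leaf 3 463 497) (node 563 (merge (leaf 7 466 466) (node 628 (merge (leaf 4 499 596) (node 627 (merge (leaf 4 531 660) (node 500 (merge (leaf 6 467 468) (leaf 6 499 532)))))))))))))))))))) (hyp 2)))))) (hyp 3)))))))))))) nQ_83 cQ_83 14 (by decide +kernel)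
def nQ_84 : ℕ := 0x100000001000000010000000000000000000000000000000000000000000000000000000000000000000000000000000000000000000000000000000000000000000000000000
def cQ_84 : ℕ := 0x140000005cd000007ffc00007ffe0001ffff8001ffff8001fcff8003fe7f0001fefe00007dfe00007ffe00001ff000001ff000001dc00000154000000000000000000000000000000000000000000000000000000000000000000000000000
theorem lQ_84 : S nQ_84 cQ_84 15 := S_of_chk [(nQ_72, cQ_72, 13), (nQ_73, cQ_73, 12), (nQ_78, cQ_78, 14), (nQ_83, cQ_83, 14)] ⟨lQ_72, lQ_73, lQ_78, lQ_83, trivial⟩ (node 557 (merge (node 559 (merge (node 591 (merge (leaf 5 463 464) (node 623 (merge (leaf 5 495 592) (leaf 6 527 655))))) (node 558 (merge (leaf 2 525 529) (node 588 (merge (leaf 1 556 589) (node 556 (merge (leaf 1 555 587) (node 524 (merge (leaf 3 523 523) (leaf 3 524 525))))))))))) (merge (node 559 (merge (node 591 (merge (leaf 5 463 464) (node 623 (merge (leaf 5 495 592) (leaf 6 527 655))))) (merge (node 558 (merge (leaf 2 525 529) (node 592 (merge (leaf 0 557 593) (node 591 (merge (leaf 0 556 556) (leaf 5 495 623))))))) (merge (node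 495 (merge (node 463 (merge (leaf 7 463 592) (node 431 (merge (leaf 4 399 399) (leaf 7 431 464))))) (node 529 (merge (leaf 2 525 558) (node 494 (merge (leaf 0 493 493) (node 530 (merge (leaf 0 494 497) (leaf 1 527 531))))))))) (node 529 (merge (leaf 2 525 558) (node 464 (merge (leaf 5 463 591) (node 431 (merge (leaf 7 431 463) (node 432 (merge (leaf 7 399 399) (node 400 (merge (leaf 4 400 497) (node 401 (merge (leaf 6 368 369) (leaf 6 400 433))))))))))))))))) (merge (node 529 (merge (node 559 (merge (leaf 2 525 558) (node 591 (merge (leaf 5 463 464) (node 623 (merge (leaf 5 495 592) (leaf 6 527 655))))))) (merge (node 559 (merge (leaf 2 525 558) (node 464 (merge (leaf 5 463 591) (node 431 (merge (leaf 7 431 463) (node 432 (merge (leaf 7 399 399) (node 400 (merge (leaf 4 400 497) (node 401 (merge (leaf 6 368 369) (leaf 6 400 433))))))))))))) (merge (node 592 (merge (node 625 (merge (leaf 4 496 593) (node 624 (merge (leaf 4 528 657) (node 623 (merge (leaf 5 495 591) (leaf 5 527 655))))))) (node 495 (merge (leaf 7 463 463) (node 494 (merge (leaf 0 493 493) (node 530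 (merge (leaf 0 494 497) (leaf 3 495 531))))))))) (node 495 (merge (node 494 (merge (leaf 0 493 493) (node 530 (merge (leaf 0 494 497) (leaf 3 495 531))))) (merge (node 592 (merge (leaf 7 463 463) (node 625 (merge (leaf 4 496 593) (node 624 (merge (leaf 6 496 497) (leaf 4 528 657))))))) (node 494 (merge (leaf 0 493 493) (node 558 (merge (leaf 2 525 559) (node 463 (merge (leaf 7 463 592) (node 526 (merge (leaf 6 462 590) (node 462 (merge (leaf 5 461 589) (node 461 (merge (leaf 7 429 429) (leaf 0 460 460)))))))))))))))))))) (merge (node 592 (merge (node 625 (merge (leaf 4 496 593) (node 624 (merge (leaf 4 528 657) (node 623 (merge (leaf 5 495 591) (leaf 5 527 655))))))) (merge (node 558 (merge (node 559 (merge (leaf 2 525 529) (leaf 0 557 593))) (merge (node 591 (merge (leaf 5 495 623) (node 590 (merge (leaf 3 557 593) (node 556 (merge (leaf 0 555 555) (leaf 3 556 589))))))) (node 591 (merge (leaf 5 495 623) (node 556 (merge (leaf 0 556 559) (node 590 (merge (leaf 0 555 555) (leaf 3 556 589)))))))))) (merge (node 624 (merge (node 623 (merge (leaf 5 495 591) (leaf 5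 527 655))) (merge (node 657 (merge (leaf 4 528 625) (node 656 (merge (leaf 4 560 689) (node 655 (merge (leaf 5 527 623) (leaf 5 559 687))))))) (merge (node 657 (merge (leaf 4 528 625) (node 656 (merge (leaf 4 560 689) (node 591 (merge (leaf 5 495 623) (node 559 (merge (leaf 7 559 688) (node 558 (merge (leaf 2 525 529) (leaf 0 556 556))))))))))) (node 657 (merge (leaf 4 528 625) (node 656 (merge (leaf 4 560 689) (node 687 (merge (leaf 5 559 655) (node 688 (merge (leaf 5 591 719) (node 559 (merge (leaf 7 559 591) (node 558 (merge (leaf 2 525 529) (node 588 (merge (leaf 1 556 589) (node 556 (merge (leaf 1 555 587) (node 524 (merge (leaf 3 523 523) (leaf 3 524 525))))))))))))))))))))))) (merge (node 529 (merge (node 625 (merge (leaf 4 496 593) (node 624 (merge (leaf 6 496 497) (leaf 4 528 657))))) (merge (node 495 (merge (leaf 7 463 463) (node 494 (merge (leaf 0 493 493) (node 530 (merge (leaf 0 494 497) (leaf 3 495 531))))))) (node 558 (merge (leaf 2 525 559) (node 593 (merge (leaf 4 496 625) (node 590 (merge (leaf 3 557 591) (node 495 (merge (leaf 7 463 463) (node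 493 (merge (leaf 0 493 494) (node 525 (merge (leaf 4 461 461) (node 622 (merge (leaf 7 493 526) (leaf 7 525 654)))))))))))))))))) (node 495 (merge (leaf 7 463 463) (node 494 (merge (node 529 (merge (leaf 0 493 493) (node 530 (merge (leaf 0 494 497) (leaf 3 495 531))))) (merge (node 493 (merge (leaf 0 493 529) (node 524 (merge (leaf 1 492 525) (node 492 (merge (leaf 1 491 523) (node 460 (merge (leaf 3 459 459) (leaf 3 460 461))))))))) (merge (node 525 (merge (node 524 (merge (leaf 1 492 493) (node 526 (merge (leaf 1 493 497) (leaf 2 491 523))))) (merge (node 526 (merge (leaf 1 493 497) (node 462 (merge (leaf 5 429 430) (node 589 (merge (leaf 5 461 558) (leaf 6 493 621))))))) (merge (node 493 (merge (leaf 1 492 524) (node 461 (merge (leaf 3 460 460) (node 462 (merge (leaf 3 461 497) (node 557 (merge (leaf 6 429 430) (leaf 6 461 589))))))))) (node 493 (merge (leaf 1 492 524) (node 589 (merge (leaf 6 461 462) (node 620 (merge (leaf 5 492 588) (node 621 (merge (leaf 6 493 526) (leaf 5 524 652))))))))))))) (node 625 (merge (leaf 4 496 593) (node 624 (merge (leaf 4 528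 657) (node 623 (merge (leaf 5 527 655) (node 497 (merge (leaf 6 496 529) (node 526 (merge (leaf 1 493 525) (node 462 (merge (leaf 3 461 461) (node 589 (merge (leaf 5 461 558) (node 622 (merge (leaf 3 589 590) (node 653 (merge (leaf 1 621 654) (node 621 (merge (leaf 3 588 588) (leaf 1 620 652)))))))))))))))))))))))))))))))) (merge (node 558 (merge (node 559 (merge (leaf 2 525 529) (node 592 (merge (leaf 0 557 593) (node 464 (merge (leaf 5 463 591) (node 463 (merge (leaf 7 431 431) (leaf 7 463 495))))))))) (merge (node 559 (merge (leaf 2 525 529) (node 588 (merge (leaf 1 556 589) (node 556 (merge (leaf 1 555 587) (node 524 (merge (leaf 3 523 523) (leaf 3 524 525))))))))) (merge (node 463 (merge (node 431 (merge (leaf 7 431 464) (node 495 (merge (leaf 4 399 399) (leaf 7 463 592))))) (merge (node 592 (merge (leaf 7 463 495) (node 593 (merge (leaf 0 557 559) (leaf 4 496 625))))) (node 464 (merge (leaf 7 431 431) (node 559 (merge (leaf 5 463 591) (node 588 (merge (leaf 1 556 589) (node 556 (merge (leaf 1 555 587) (node 524 (merge (leaf 3 523 523) (leaf 3 524 525))))))))))))))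 (node 495 (merge (node 463 (merge (leaf 7 463 592) (node 431 (merge (leaf 4 399 399) (leaf 7 431 464))))) (node 493 (merge (node 494 (merge (leaf 0 493 529) (node 525 (merge (leaf 1 492 524) (node 461 (merge (leaf 3 460 460) (leaf 4 461 590))))))) (merge (node 494 (merge (leaf 0 493 529) (node 525 (merge (leaf 1 492 524) (node 589 (merge (leaf 6 461 462) (node 620 (merge (leaf 5 492 588) (node 621 (merge (leaf 6 493 526) (leaf 5 524 652))))))))))) (merge (node 494 (merge (leaf 0 493 529) (node 461 (merge (leaf 3 460 460) (node 462 (merge (leaf 3 461 497) (node 526 (merge (leaf 5 461 589) (leaf 7 461 590))))))))) (node 525 (merge (node 590 (merge (leaf 4 461 461) (node 622 (merge (leaf 7 493 526) (leaf 7 525 654))))) (merge (node 461 (merge (leaf 4 461 590) (node 588 (merge (leaf 5 460 556) (node 589 (merge (leaf 5 492 620) (node 460 (merge (leaf 7 428 428) (leaf 7 460 492))))))))) (merge (node 461 (merge (node 429 (merge (leaf 4 429 526) (node 556 (merge (leaf 5 428 524) (leaf 5 460 588))))) (merge (node 588 (merge (leaf 5 460 556) (node 589 (merge (leaf 5 492 620)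 (node 460 (merge (leaf 7 428 428) (leaf 7 460 492))))))) (node 430 (merge (leaf 6 429 462) (node 429 (merge (leaf 6 397 398) (node 428 (merge (leaf 7 396 396) (leaf 7 428 460)))))))))) (node 589 (merge (node 622 (merge (leaf 4 493 590) (node 621 (merge (leaf 4 525 654) (node 492 (merge (leaf 7 460 460) (leaf 7 492 524))))))) (merge (node 620 (merge (leaf 5 492 588) (node 621 (merge (leaf 5 524 652) (node 492 (merge (leaf 7 460 460) (leaf 7 492 524))))))) (merge (node 622 (merge (leaf 4 493 590) (node 621 (merge (leaf 4 525 654) (node 620 (merge (leaf 5 492 588) (leaf 5 524 652))))))) (node 590 (merge (leaf 4 493 622) (node 588 (merge (leaf 5 492 620) (node 587 (merge (leaf 2 554 586) (node 619 (merge (leaf 1 586 618) (node 555 (merge (leaf 3 554 554) (node 492 (merge (leaf 7 460 460) (node 524 (merge (leaf 6 491 523) (leaf 5 491 556))))))))))))))))))))))))))))))))) (merge (node 495 (merge (node 463 (merge (leaf 7 463 592) (node 431 (merge (leaf 4 399 399) (leaf 7 431 464))))) (node 558 (merge (node 529 (merge (leaf 2 525 559) (node 494 (merge (leaf 0 493 493) (node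 530 (merge (leaf 0 494 497) (leaf 3 495 531))))))) (merge (node 559 (merge (leaf 2 525 529) (node 588 (merge (leaf 1 556 589) (node 556 (merge (leaf 1 555 587) (node 524 (merge (leaf 3 523 523) (leaf 3 524 525))))))))) (merge (node 493 (merge (node 494 (merge (leaf 0 493 529) (node 525 (merge (leaf 1 492 524) (node 461 (merge (leaf 3 460 460) (leaf 4 461 590))))))) (merge (node 494 (merge (leaf 0 493 529) (node 525 (merge (leaf 1 492 524) (node 589 (merge (leaf 6 461 462) (node 620 (merge (leaf 5 492 588) (node 621 (merge (leaf 6 493 526) (leaf 5 524 652))))))))))) (merge (node 494 (merge (leaf 0 493 529) (node 461 (merge (leaf 3 460 460) (node 462 (merge (leaf 3 461 497) (node 526 (merge (leaf 5 461 589) (leaf 7 461 590))))))))) (node 525 (merge (node 590 (merge (leaf 4 461 461) (node 622 (merge (leaf 7 493 526) (leaf 7 525 654))))) (merge (node 461 (merge (leaf 4 461 590) (node 588 (merge (leaf 5 460 556) (node 589 (merge (leaf 5 492 620) (node 460 (merge (leaf 7 428 428) (leaf 7 460 492))))))))) (merge (node 461 (merge (node 429 (merge (leaf 4 429 526) (node 556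 (merge (leaf 5 428 524) (leaf 5 460 588))))) (merge (node 588 (merge (leaf 5 460 556) (node 589 (merge (leaf 5 492 620) (node 460 (merge (leaf 7 428 428) (leaf 7 460 492))))))) (node 430 (merge (leaf 6 429 462) (node 429 (merge (leaf 6 397 398) (node 428 (merge (leaf 7 396 396) (leaf 7 428 460)))))))))) (node 589 (merge (node 622 (merge (leaf 4 493 590) (node 621 (merge (leaf 4 525 654) (node 492 (merge (leaf 7 460 460) (leaf 7 492 524))))))) (merge (node 620 (merge (leaf 5 492 588) (node 621 (merge (leaf 5 524 652) (node 492 (merge (leaf 7 460 460) (leaf 7 492 524))))))) (merge (node 622 (merge (leaf 4 493 590) (node 621 (merge (leaf 4 525 654) (node 620 (merge (leaf 5 492 588) (leaf 5 524 652))))))) (node 590 (merge (leaf 4 493 622) (node 588 (merge (leaf 5 492 620) (node 587 (merge (leaf 2 554 586) (node 619 (merge (leaf 1 586 618) (node 555 (merge (leaf 3 554 554) (node 492 (merge (leaf 7 460 460) (node 524 (merge (leaf 6 491 523) (leaf 5 491 556))))))))))))))))))))))))))) (node 525 (merge (node 524 (merge (leaf 3 524 559) (node 523 (merge (leaf 0 522 522) (node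 494 (merge (leaf 1 492 493) (leaf 2 491 526))))))) (merge (node 524 (merge (leaf 3 524 559) (node 493 (merge (leaf 1 492 494) (node 461 (merge (leaf 4 461 590) (node 588 (merge (leaf 5 460 556) (node 589 (merge (leaf 5 492 620) (node 460 (merge (leaf 7 428 428) (leaf 7 460 492))))))))))))) (merge (node 493 (merge (node 590 (merge (leaf 4 461 461) (node 622 (merge (leaf 7 493 526) (leaf 7 525 654))))) (merge (node 494 (merge (leaf 1 492 524) (node 589 (merge (leaf 6 461 462) (node 620 (merge (leaf 5 492 588) (node 621 (merge (leaf 6 493 526) (leaf 5 524 652))))))))) (node 461 (merge (leaf 4 461 590) (node 588 (merge (leaf 5 460 556) (node 589 (merge (leaf 5 492 620) (node 462 (merge (leaf 6 429 430) (leaf 6 461 494)))))))))))) (merge (node 493 (merge (node 590 (merge (leaf 4 461 461) (node 622 (merge (leaf 7 493 526) (leaf 7 525 654))))) (merge (node 461 (merge (leaf 4 461 590) (node 588 (merge (leaf 5 460 556) (node 589 (merge (leaf 5 492 620) (node 460 (merge (leaf 7 428 428) (leaf 7 460 492))))))))) (merge (node 559 (merge (leaf 3 524 524) (node 589 (merge (leaf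 1 556 588) (node 460 (merge (leaf 7 460 492) (node 461 (merge (leaf 7 428 428) (node 429 (merge (leaf 4 429 526) (node 430 (merge (leaf 6 397 398) (leaf 6 429 462))))))))))))) (node 559 (merge (leaf 3 524 524) (node 589 (merge (leaf 1 556 588) (node 622 (merge (leaf 4 493 590) (node 621 (merge (leaf 4 525 654) (node 652 (merge (leaf 5 524 620) (node 653 (merge (leaf 6 525 526) (leaf 5 556 684))))))))))))))))) (merge (node 589 (merge (node 588 (merge (leaf 1 556 559) (node 493 (merge (leaf 5 492 620) (node 461 (merge (leaf 5 460 556) (leaf 4 461 590))))))) (merge (node 493 (merge (node 590 (merge (leaf 4 461 461) (leaf 4 493 622))) (merge (node 622 (merge (leaf 4 493 590) (node 621 (merge (leaf 4 525 654) (node 494 (merge (leaf 6 461 462) (leaf 6 493 526))))))) (merge (node 494 (merge (leaf 6 461 462) (node 621 (merge (leaf 6 493 526) (node 654 (merge (leaf 4 525 622) (node 653 (merge (leaf 4 557 686) (node 652 (merge (leaf 5 524 620) (leaf 5 556 684))))))))))) (node 494 (merge (leaf 6 461 462) (node 621 (merge (leaf 6 493 526) (node 652 (merge (leaf 5 524 620) (node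 653 (merge (leaf 5 556 684) (node 686 (merge (leaf 4 557 654) (node 685 (merge (leaf 6 557 590) (leaf 4 589 718))))))))))))))))) (merge (node 493 (merge (node 590 (merge (leaf 4 461 461) (leaf 4 493 622))) (merge (node 622 (merge (leaf 4 493 590) (node 621 (merge (leaf 4 525 654) (node 494 (merge (leaf 6 461 462) (leaf 6 493 526))))))) (merge (node 588 (merge (leaf 1 556 559) (node 461 (merge (leaf 5 460 556) (leaf 4 461 590))))) (node 494 (merge (leaf 6 461 462) (node 460 (merge (leaf 3 460 461) (leaf 7 460 492))))))))) (node 526 (merge (node 494 (merge (leaf 5 461 462) (leaf 1 493 497))) (node 588 (merge (leaf 1 556 559) (node 621 (merge (leaf 6 525 653) (node 622 (merge (leaf 4 525 654) (node 623 (merge (leaf 3 588 624) (node 620 (merge (leaf 3 587 587) (leaf 5 524 652))))))))))))))))) (node 589 (merge (node 559 (merge (leaf 3 524 524) (leaf 1 556 588))) (merge (node 524 (merge (leaf 3 524 559) (node 621 (merge (leaf 7 492 492) (node 653 (merge (leaf 6 525 526) (leaf 7 524 556))))))) (merge (node 526 (merge (node 494 (merge (leaf 5 461 462) (leaf 1 493 497)))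 (node 588 (merge (leaf 1 556 559) (node 621 (merge (leaf 6 525 653) (node 622 (merge (leaf 4 525 654) (node 623 (merge (leaf 3 588 624) (node 620 (merge (leaf 3 587 587) (leaf 5 524 652))))))))))))) (node 621 (merge (node 653 (merge (leaf 6 525 526) (node 524 (merge (leaf 7 492 492) (leaf 7 524 556))))) (merge (node 653 (merge (leaf 6 525 526) (node 684 (merge (leaf 5 556 652) (node 685 (merge (leaf 6 557 590) (leaf 5 588 716))))))) (merge (node 524 (merge (leaf 7 492 492) (node 653 (merge (leaf 7 524 556) (node 684 (merge (leaf 5 556 652) (node 685 (merge (leaf 6 557 590) (leaf 5 588 716))))))))) (node 620 (merge (leaf 5 524 652) (node 526 (merge (leaf 6 493 494) (node 524 (merge (leaf 7 492 492) (node 523 (merge (leaf 0 522 522) (node 555 (merge (leaf 1 522 554) (node 491 (merge (leaf 3 490 490) (node 588 (merge (leaf 7 491 556) (leaf 4 491 587))))))))))))))))))))))))))))))))))) (merge (node 592 (merge (node 625 (merge (leaf 4 496 593) (node 624 (merge (leaf 4 528 657) (node 623 (merge (leaf 5 495 591) (leaf 5 527 655))))))) (merge (node 593 (merge (leaf 4 496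 625) (node 591 (merge (leaf 5 495 623) (node 590 (merge (leaf 3 557 558) (node 621 (merge (leaf 1 589 622) (node 589 (merge (leaf 3 556 556) (leaf 1 588 620))))))))))) (merge (node 495 (merge (leaf 7 463 463) (node 494 (merge (node 529 (merge (leaf 0 493 493) (node 530 (merge (leaf 0 494 497) (leaf 3 495 531))))) (merge (node 493 (merge (leaf 0 493 529) (node 524 (merge (leaf 1 492 525) (node 492 (merge (leaf 1 491 523) (node 460 (merge (leaf 3 459 459) (leaf 3 460 461))))))))) (merge (node 525 (merge (node 524 (merge (leaf 1 492 493) (node 526 (merge (leaf 1 493 497) (leaf 2 491 523))))) (merge (node 526 (merge (leaf 1 493 497) (node 462 (merge (leaf 5 429 430) (node 589 (merge (leaf 5 461 558) (leaf 6 493 621))))))) (merge (node 493 (merge (leaf 1 492 524) (node 461 (merge (leaf 3 460 460) (node 462 (merge (leaf 3 461 497) (node 557 (merge (leaf 6 429 430) (leaf 6 461 589))))))))) (node 493 (merge (leaf 1 492 524) (node 589 (merge (leaf 6 461 462) (node 620 (merge (leaf 5 492 588) (node 621 (merge (leaf 6 493 526) (leaf 5 524 652))))))))))))) (node 589 (merge (node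 591 (merge (leaf 5 495 623) (node 590 (merge (leaf 3 556 556) (node 621 (merge (leaf 1 588 620) (node 593 (merge (leaf 3 557 558) (leaf 1 589 622))))))))) (merge (node 497 (merge (node 526 (merge (leaf 1 493 525) (node 462 (merge (leaf 3 461 461) (leaf 5 461 558))))) (node 529 (merge (leaf 6 496 624) (node 530 (merge (leaf 0 494 494) (leaf 3 495 531))))))) (node 591 (merge (leaf 5 495 623) (node 590 (merge (leaf 3 556 556) (node 621 (merge (leaf 1 588 620) (node 622 (merge (leaf 1 589 593) (node 525 (merge (leaf 6 493 526) (leaf 4 525 654)))))))))))))))))))) (merge (node 495 (merge (leaf 7 463 463) (node 494 (merge (node 529 (merge (leaf 0 493 493) (node 530 (merge (leaf 0 494 497) (leaf 3 495 531))))) (merge (node 493 (merge (leaf 0 493 529) (node 524 (merge (leaf 1 492 525) (node 492 (merge (leaf 1 491 523) (node 460 (merge (leaf 3 459 459) (leaf 3 460 461))))))))) (merge (node 525 (merge (node 524 (merge (leaf 1 492 493) (node 526 (merge (leaf 1 493 497) (leaf 2 491 523))))) (merge (node 526 (merge (leaf 1 493 497) (node 462 (merge (leaf 5 429 430) (node 589 (merge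 (leaf 5 461 558) (leaf 6 493 621))))))) (merge (node 493 (merge (leaf 1 492 524) (node 461 (merge (leaf 3 460 460) (node 462 (merge (leaf 3 461 497) (node 557 (merge (leaf 6 429 430) (leaf 6 461 589))))))))) (node 493 (merge (leaf 1 492 524) (node 589 (merge (leaf 6 461 462) (node 620 (merge (leaf 5 492 588) (node 621 (merge (leaf 6 493 526) (leaf 5 524 652))))))))))))) (node 623 (merge (leaf 5 495 591) (node 624 (merge (leaf 5 527 655) (node 625 (merge (leaf 4 528 657) (node 497 (merge (leaf 6 496 529) (node 526 (merge (leaf 1 493 525) (node 462 (merge (leaf 3 461 461) (node 589 (merge (leaf 5 461 558) (node 622 (merge (leaf 3 589 590) (node 653 (merge (leaf 1 621 654) (node 621 (merge (leaf 3 588 588) (leaf 1 620 652))))))))))))))))))))))))))) (merge (node 495 (merge (leaf 7 463 463) (node 494 (merge (node 529 (merge (leaf 0 493 493) (node 530 (merge (leaf 0 494 497) (leaf 3 495 531))))) (merge (node 493 (merge (leaf 0 493 529) (node 524 (merge (leaf 1 492 525) (node 492 (merge (leaf 1 491 523) (node 460 (merge (leaf 3 459 459) (leaf 3 460 461))))))))) (merge (node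 525 (merge (node 524 (merge (leaf 1 492 493) (node 526 (merge (leaf 1 493 497) (leaf 2 491 523))))) (merge (node 526 (merge (leaf 1 493 497) (node 462 (merge (leaf 5 429 430) (node 589 (merge (leaf 5 461 558) (leaf 6 493 621))))))) (merge (node 493 (merge (leaf 1 492 524) (node 461 (merge (leaf 3 460 460) (node 462 (merge (leaf 3 461 497) (node 557 (merge (leaf 6 429 430) (leaf 6 461 589))))))))) (node 493 (merge (leaf 1 492 524) (node 589 (merge (leaf 6 461 462) (node 620 (merge (leaf 5 492 588) (node 621 (merge (leaf 6 493 526) (leaf 5 524 652))))))))))))) (node 625 (merge (leaf 4 496 593) (node 624 (merge (leaf 4 528 657) (node 623 (merge (leaf 5 527 655) (node 497 (merge (leaf 6 496 529) (node 526 (merge (leaf 1 493 525) (node 462 (merge (leaf 3 461 461) (node 589 (merge (leaf 5 461 558) (node 622 (merge (leaf 3 589 590) (node 653 (merge (leaf 1 621 654) (node 621 (merge (leaf 3 588 588) (leaf 1 620 652))))))))))))))))))))))))))) (hyp 0))))))) (merge (node 463 (merge (node 431 (merge (leaf 7 431 464) (node 495 (merge (leaf 4 399 399) (leaf 7 463 592))))) (merge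 (node 592 (merge (leaf 7 463 495) (node 593 (merge (leaf 4 496 625) (node 558 (merge (leaf 0 557 559) (node 591 (merge (leaf 3 557 590) (leaf 5 495 623))))))))) (merge (node 464 (merge (leaf 7 431 431) (node 591 (merge (leaf 5 463 559) (node 592 (merge (leaf 5 495 623) (node 593 (merge (leaf 4 496 625) (node 590 (merge (leaf 3 557 558) (node 621 (merge (leaf 1 589 622) (node 589 (merge (leaf 3 556 556) (leaf 1 588 620))))))))))))))) (hyp 1))))) (merge (hyp 2) (hyp 3))))))))))) nQ_84 cQ_84 15 (by decide +kernel)

end Crest.Agent.H26Snaky
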