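import Crest.Agent.H26SnakyGame

/-!
Carrier calculus for S0047: bitmask certificates.
-/

set_option autoImplicit false

namespace Crest.Agent.H26Snaky

open Crest.CombinatoricsR.PolyominoGame

/-- decode a cell index (rows of length 32) -/
def dec (k : ℕ) : Cell := (((k % 32 : ℕ) : ℤ), ((k / 32 : ℕ) : ℤ))

theorem dec_inj {k l : ℕ} (h : dec k = dec l) : k = l := by
  rw [dec, dec, Prod.mk.injEq, Nat.cast_inj, Nat.cast_inj] at h
  omega

/-- Maker to move wins within `d` claims, needing stones `N`, and `C` free of Breaker -/
def S (N C d : ℕ) : Prop := ∀ M B : Finset Cell, Disjoint M B →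
  (∀ k, N.testBit k = true → dec k ∈ M) → (∀ k, C.testBit k = true → dec k ∉ B) → Wins d M B

/-- Breaker to move, every reply outside `I` loses within `d` further claims of Maker -/
def F (N U I d : ℕ) : Prop := ∀ M B : Finset Cell, Disjoint M B →
  (∀ k, N.testBit k = true → dec k ∈ M) → (∀ k, U.testBit k = true → dec k ∉ B) →
  ∀ b, b ∉ M → b ∉ B → (∀ k, I.testBit k = true → dec k ≠ b) → Wins d M (insert b B)

theorem Wins.succ {d : ℕ} : ∀ {M B : Finset Cell}, Wins d M B → Wins (d + 1) M B := by
  induction d with
  | zero =>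
    intro M B h
    obtain ⟨c, h1, h2⟩ := exists_free M B
    refine ⟨c, h1, h2, Or.inl (containsCopy_mono ?_ h)⟩
    exact_mod_cast Finset.subset_insert _ _
  | succ d ih =>
    intro M B h
    obtain ⟨c, h1, h2, h3⟩ := h
    refine ⟨c, h1, h2, ?_⟩
    rcases h3 with h3 | h3
    · exact Or.inl h3
    · exact Or.inr fun b hb hb' => ih (h3 b hb hb')

theorem Wins.le {d e : ℕ} (h : d ≤ e) {M B : Finset Cell} (hw : Wins d M B) : Wins e M B := by
  induction e, h using Nat.le_induction with
  | base => exact hw
  | succ e _ ih => exact ih.succ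

theorem S.toF {N C d : ℕ} (h : S N C d) : F N C C d := by
  intro M B hMB hN hC b hbM hbB hI
  refine h M (insert b B) ?_ hN ?_
  · rw [Finset.disjoint_insert_right]; exact ⟨hbM, hMB⟩
  · intro k hk
    rw [Finset.mem_insert, not_or]
    exact ⟨hI k hk, hC k hk⟩

theorem F.merge {N1 U1 I1 d1 N2 U2 I2 d2 : ℕ} (h1 : F N1 U1 I1 d1) (h2 : F N2 U2 I2 d2) :
    F (N1 ||| N2) (U1 ||| U2) (I1 &&& I2) (max d1 d2) := by
  intro M B hMB hN hU b hbM hbB hI
  by_cases hb : ∀ k, I1.testBit k = true → dec k ≠ b
  · refine (h1 M B hMB (fun k hk => hN k ?_) (fun k hk => hU k ?_) b hbM hbB hb).le (le_max_left _ _)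
    · rw [Nat.testBit_or, hk, Bool.true_or]
    · rw [Nat.testBit_or, hk, Bool.true_or]
  · push Not at hb
    obtain ⟨k1, hk1, hk1b⟩ := hb
    refine (h2 M B hMB (fun k hk => hN k ?_) (fun k hk => hU k ?_) b hbM hbB ?_).le (le_max_right _ _)
    · rw [Nat.testBit_or, hk, Bool.or_true]
    · rw [Nat.testBit_or, hk, Bool.or_true]
    · intro k hk hkb
      have : k = k1 := dec_inj (hkb.trans hk1b.symm)
      subst this
      exact hI k (by rw [Nat.testBit_and, hk1, hk, Bool.true_and]) hkb

/-- the node rule -/
theorem F.node {N U I d N' C' c : ℕ} (h : F N U I d)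
    (hI : ∀ k, I.testBit k = true → N.testBit k = true ∨ k = c)
    (hN' : ∀ k, N.testBit k = true → k ≠ c → N'.testBit k = true)
    (hC' : ∀ k, U.testBit k = true ∨ k = c → N'.testBit k = true ∨ C'.testBit k = true) :
    S N' C' (d + 1) := by
  intro M B hMB hN hC
  -- the claimed cell
  have hfree : ∀ k, U.testBit k = true ∨ k = c → dec k ∉ B := by
    intro k hk
    rcases hC' k hk with h1 | h1
    · exact Finset.disjoint_left.1 hMB (hN k h1)
    · exact hC k h1
  obtain ⟨c', hc1, hc2, hc3⟩ : ∃ c', c' ∉ M ∧ c' ∉ B ∧ dec c ∈ insert c' M := by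
    by_cases hcM : dec c ∈ M
    · obtain ⟨c', h1, h2⟩ := exists_free M B
      exact ⟨c', h1, h2, Finset.mem_insert_of_mem hcM⟩
    · exact ⟨dec c, hcM, hfree c (Or.inr rfl), Finset.mem_insert_self _ _⟩
  have hNM : ∀ k, N.testBit k = true → dec k ∈ insert c' M := by
    intro k hk
    by_cases hkc : k = c
    · rw [hkc]; exact hc3
    · exact Finset.mem_insert_of_mem (hN k (hN' k hk hkc))
  refine ⟨c', hc1, hc2, Or.inr fun b hb hbB => h (insert c' M) B ?_ hNM
    (fun k hk => hfree k (Or.inl hk)) b hb hbB ?_⟩
  · rw [Finset.disjoint_insert_left]; exact ⟨hc2, hMB⟩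
  · intro k hk hkb
    apply hb
    rw [← hkb]
    rcases hI k hk with h1 | h1
    · exact hNM k h1
    · rw [h1]; exact hc3

/-- the six offsets of the eight orientations inside the bounding box, `x + 32 y` -/
def pat (o : ℕ) : ℕ :=
  match o with
  | 0 => 2^0 + 2^1 + 2^2 + 2^3 + 2^(3+32) + 2^(4+32)
  | 1 => 2^4 + 2^3 + 2^2 + 2^1 + 2^(1+32) + 2^(0+32)
  | 2 => 2^(0+32) + 2^(1+32) + 2^(2+32) + 2^(3+32) + 2^3 + 2^4
  | 3 => 2^(4+32) + 2^(3+32) + 2^(2+32) + 2^(1+32) + 2^1 + 2^0
  | 4 => 2^0 + 2^32 + 2^64 + 2^96 + 2^(1+96) + 2^(1+128)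
  | 5 => 2^1 + 2^(1+32) + 2^(1+64) + 2^(1+96) + 2^(96) + 2^(128)
  | 6 => 2^128 + 2^96 + 2^64 + 2^32 + 2^(1+32) + 2^1
  | 7 => 2^(1+128) + 2^(1+96) + 2^(1+64) + 2^(1+32) + 2^(32) + 2^0
  | _ => 0

theorem dec_add (a x y : ℕ) (h : a % 32 + x < 32) :
    dec (x + 32 * y + a) = (((a % 32 : ℕ) : ℤ) + x, ((a / 32 : ℕ) : ℤ) + y) := by
  rw [dec, Prod.mk.injEq]
  constructor
  · rw [← Nat.cast_add, Nat.cast_inj]; omega
  · rw [← Nat.cast_add, Nat.cast_inj]; omega

theorem mem_pat {o a x y : ℕ} {X : Set Cell} (h : a % 32 + x < 32) 
    (hX : ∀ k, (pat o <<< a).testBit k = true → dec k ∈ X) (ho : (pat o).testBit (x + 32 * y) = true) :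
    ((((a % 32 : ℕ) : ℤ) + x, ((a / 32 : ℕ) : ℤ) + y) : Cell) ∈ X := by
  rw [← dec_add a x y h]
  apply hX
  rw [Nat.testBit_shiftLeft]
  simp [ho]

theorem contains_of_pat (o a : ℕ) (ho : o < 8) (ha : a % 32 < 28) (X : Set Cell)
    (hX : ∀ k, (pat o <<< a).testBit k = true → dec k ∈ X) : ContainsCopy X := by
  have key := fun x y (hx : x ≤ 4) (h : (pat o).testBit (x + 32 * y) = true) =>
    mem_pat (o := o) (a := a) (x := x) (y := y) (X := X) (by omega) hX h
  set ax : ℤ := ((a % 32 : ℕ) : ℤ) with hax
  set ay : ℤ := ((a / 32 : ℕ) : ℤ) with hay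
  interval_cases o
  · refine ⟨(ax, ay), 1, 1, Or.inl rfl, Or.inl rfl, Or.inl fun p hp => ?_⟩
    simp only [snaky, Finset.mem_insert, Finset.mem_singleton] at hp
    rcases hp with rfl | rfl | rfl | rfl | rfl | rfl
    · have h := key 0 0 (by norm_num) (by decide +kernel)
      convert h using 2 <;> (push_cast; ring)
    · have h := key 1 0 (by norm_num) (by decide +kernel)
      convert h using 2 <;> (push_cast; ring)
    · have h := key 2 0 (by norm_num) (by decide +kernel)
      convert h using 2 <;> (push_cast; ring)
    · have h := key 3 0 (by norm_num) (by decide +kernel)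
      convert h using 2 <;> (push_cast; ring)
    · have h := key 3 1 (by norm_num) (by decide +kernel)
      convert h using 2 <;> (push_cast; ring)
    · have h := key 4 1 (by norm_num) (by decide +kernel)
      convert h using 2 <;> (push_cast; ring)
  · refine ⟨(ax + 4, ay), -1, 1, Or.inr rfl, Or.inl rfl, Or.inl fun p hp => ?_⟩
    simp only [snaky, Finset.mem_insert, Finset.mem_singleton] at hp
    rcases hp with rfl | rfl | rfl | rfl | rfl | rfl
    · have h := key 4 0 (by norm_num) (by decide +kernel)
      convert h using 2 <;> (push_cast; ring)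
    · have h := key 3 0 (by norm_num) (by decide +kernel)
      convert h using 2 <;> (push_cast; ring)
    · have h := key 2 0 (by norm_num) (by decide +kernel)
      convert h using 2 <;> (push_cast; ring)
    · have h := key 1 0 (by norm_num) (by decide +kernel)
      convert h using 2 <;> (push_cast; ring)
    · have h := key 1 1 (by norm_num) (by decide +kernel)
      convert h using 2 <;> (push_cast; ring)
    · have h := key 0 1 (by norm_num) (by decide +kernel)
      convert h using 2 <;> (push_cast; ring)
  · refine ⟨(ax, ay + 1), 1, -1, Or.inl rfl, Or.inr rfl, Or.inl fun p hp => ?_⟩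
    simp only [snaky, Finset.mem_insert, Finset.mem_singleton] at hp
    rcases hp with rfl | rfl | rfl | rfl | rfl | rfl
    · have h := key 0 1 (by norm_num) (by decide +kernel)
      convert h using 2 <;> (push_cast; ring)
    · have h := key 1 1 (by norm_num) (by decide +kernel)
      convert h using 2 <;> (push_cast; ring)
    · have h := key 2 1 (by norm_num) (by decide +kernel)
      convert h using 2 <;> (push_cast; ring)
    · have h := key 3 1 (by norm_num) (by decide +kernel)
      convert h using 2 <;> (push_cast; ring)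
    · have h := key 3 0 (by norm_num) (by decide +kernel)
      convert h using 2 <;> (push_cast; ring)
    · have h := key 4 0 (by norm_num) (by decide +kernel)
      convert h using 2 <;> (push_cast; ring)
  · refine ⟨(ax + 4, ay + 1), -1, -1, Or.inr rfl, Or.inr rfl, Or.inl fun p hp => ?_⟩
    simp only [snaky, Finset.mem_insert, Finset.mem_singleton] at hp
    rcases hp with rfl | rfl | rfl | rfl | rfl | rfl
    · have h := key 4 1 (by norm_num) (by decide +kernel)
      convert h using 2 <;> (push_cast; ring)
    · have h := key 3 1 (by norm_num) (by decide +kernel)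
      convert h using 2 <;> (push_cast; ring)
    · have h := key 2 1 (by norm_num) (by decide +kernel)
      convert h using 2 <;> (push_cast; ring)
    · have h := key 1 1 (by norm_num) (by decide +kernel)
      convert h using 2 <;> (push_cast; ring)
    · have h := key 1 0 (by norm_num) (by decide +kernel)
      convert h using 2 <;> (push_cast; ring)
    · have h := key 0 0 (by norm_num) (by decide +kernel)
      convert h using 2 <;> (push_cast; ring)
  · refine ⟨(ax, ay), 1, 1, Or.inl rfl, Or.inl rfl, Or.inr fun p hp => ?_⟩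
    simp only [snaky, Finset.mem_insert, Finset.mem_singleton] at hp
    rcases hp with rfl | rfl | rfl | rfl | rfl | rfl
    · have h := key 0 0 (by norm_num) (by decide +kernel)
      convert h using 2 <;> (push_cast; ring)
    · have h := key 0 1 (by norm_num) (by decide +kernel)
      convert h using 2 <;> (push_cast; ring)
    · have h := key 0 2 (by norm_num) (by decide +kernel)
      convert h using 2 <;> (push_cast; ring)
    · have h := key 0 3 (by norm_num) (by decide +kernel)
      convert h using 2 <;> (push_cast; ring)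
    · have h := key 1 3 (by norm_num) (by decide +kernel)
      convert h using 2 <;> (push_cast; ring)
    · have h := key 1 4 (by norm_num) (by decide +kernel)
      convert h using 2 <;> (push_cast; ring)
  · refine ⟨(ax + 1, ay), -1, 1, Or.inr rfl, Or.inl rfl, Or.inr fun p hp => ?_⟩
    simp only [snaky, Finset.mem_insert, Finset.mem_singleton] at hp
    rcases hp with rfl | rfl | rfl | rfl | rfl | rfl
    · have h := key 1 0 (by norm_num) (by decide +kernel)
      convert h using 2 <;> (push_cast; ring)
    · have h := key 1 1 (by norm_num) (by decide +kernel)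
      convert h using 2 <;> (push_cast; ring)
    · have h := key 1 2 (by norm_num) (by decide +kernel)
      convert h using 2 <;> (push_cast; ring)
    · have h := key 1 3 (by norm_num) (by decide +kernel)
      convert h using 2 <;> (push_cast; ring)
    · have h := key 0 3 (by norm_num) (by decide +kernel)
      convert h using 2 <;> (push_cast; ring)
    · have h := key 0 4 (by norm_num) (by decide +kernel)
      convert h using 2 <;> (push_cast; ring)
  · refine ⟨(ax, ay + 4), 1, -1, Or.inl rfl, Or.inr rfl, Or.inr fun p hp => ?_⟩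
    simp only [snaky, Finset.mem_insert, Finset.mem_singleton] at hp
    rcases hp with rfl | rfl | rfl | rfl | rfl | rfl
    · have h := key 0 4 (by norm_num) (by decide +kernel)
      convert h using 2 <;> (push_cast; ring)
    · have h := key 0 3 (by norm_num) (by decide +kernel)
      convert h using 2 <;> (push_cast; ring)
    · have h := key 0 2 (by norm_num) (by decide +kernel)
      convert h using 2 <;> (push_cast; ring)
    · have h := key 0 1 (by norm_num) (by decide +kernel)
      convert h using 2 <;> (push_cast; ring)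
    · have h := key 1 1 (by norm_num) (by decide +kernel)
      convert h using 2 <;> (push_cast; ring)
    · have h := key 1 0 (by norm_num) (by decide +kernel)
      convert h using 2 <;> (push_cast; ring)
  · refine ⟨(ax + 1, ay + 4), -1, -1, Or.inr rfl, Or.inr rfl, Or.inr fun p hp => ?_⟩
    simp only [snaky, Finset.mem_insert, Finset.mem_singleton] at hp
    rcases hp with rfl | rfl | rfl | rfl | rfl | rfl
    · have h := key 1 4 (by norm_num) (by decide +kernel)
      convert h using 2 <;> (push_cast; ring)
    · have h := key 1 3 (by norm_num) (by decide +kernel)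
      convert h using 2 <;> (push_cast; ring)
    · have h := key 1 2 (by norm_num) (by decide +kernel)
      convert h using 2 <;> (push_cast; ring)
    · have h := key 1 1 (by norm_num) (by decide +kernel)
      convert h using 2 <;> (push_cast; ring)
    · have h := key 0 1 (by norm_num) (by decide +kernel)
      convert h using 2 <;> (push_cast; ring)
    · have h := key 0 0 (by norm_num) (by decide +kernel)
      convert h using 2 <;> (push_cast; ring)

end Crest.Agent.H26Snaky
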