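import Crest.Prelude.Def_PolyominoGame

/-!
S0047 (Snaky within 21 claims): the game, strategies from a winning predicate, and the carrier calculus.
-/

set_option autoImplicit false

namespace Crest.Agent.H26Snaky

open Crest.CombinatoricsR.PolyominoGame

abbrev Cell := ℤ × ℤ

/-- Maker, to move, can force a copy within `d` further claims. -/
def Wins : ℕ → Finset Cell → Finset Cell → Prop
  | 0, M, _ => ContainsCopy (M : Set Cell)
  | d + 1, M, B => ∃ c, c ∉ M ∧ c ∉ B ∧ (ContainsCopy ((insert c M : Finset Cell) : Set Cell) ∨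
      ∀ b, b ∉ insert c M → b ∉ B → Wins d (insert c M) (insert b B))

theorem containsCopy_mono {X Y : Set Cell} (h : X ⊆ Y) (hX : ContainsCopy X) : ContainsCopy Y := by
  obtain ⟨t, e1, e2, h1, h2, h3⟩ := hX
  refine ⟨t, e1, e2, h1, h2, ?_⟩
  rcases h3 with h3 | h3
  · exact Or.inl fun p hp => h (h3 p hp)
  · exact Or.inr fun p hp => h (h3 p hp)

theorem exists_free (M B : Finset Cell) : ∃ c, c ∉ M ∧ c ∉ B := by
  obtain ⟨c, hc⟩ := Infinite.exists_notMem_finset (M ∪ B)
  rw [Finset.mem_union, not_or] at hc
  exact ⟨c, hc⟩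

theorem exists_pick (d : ℕ) (M B : Finset Cell) : ∃ c, c ∉ M ∧ c ∉ B ∧
    (Wins (d + 1) M B → (ContainsCopy ((insert c M : Finset Cell) : Set Cell) ∨
      ∀ b, b ∉ insert c M → b ∉ B → Wins d (insert c M) (insert b B))) := by
  by_cases h : Wins (d + 1) M B
  · obtain ⟨c, h1, h2, h3⟩ := h
    exact ⟨c, h1, h2, fun _ => h3⟩
  · obtain ⟨c, h1, h2⟩ := exists_free M B
    exact ⟨c, h1, h2, fun h' => absurd h' h⟩

noncomputable def pick (d : ℕ) (M B : Finset Cell) : Cell := (exists_pick d M B).choose

theorem pick_spec (d : ℕ) (M B : Finset Cell) : pick d M B ∉ M ∧ pick d M B ∉ B ∧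
    (Wins (d + 1) M B → (ContainsCopy ((insert (pick d M B) M : Finset Cell) : Set Cell) ∨
      ∀ b, b ∉ insert (pick d M B) M → b ∉ B → Wins d (insert (pick d M B) M) (insert b B))) :=
  (exists_pick d M B).choose_spec

/-- Maker's stones after the replies `l` (most recent first), before Maker's next claim. -/
noncomputable def MR : List Cell → Finset Cell
  | [] => ∅
  | _ :: t => insert (pick (20 - t.length) (MR t) t.toFinset) (MR t)

noncomputable def sig (l : List Cell) : Cell := pick (20 - l.reverse.length) (MR l.reverse) l.reverse.toFinset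

/-- replies before time `k`, most recent first -/
def hist (b : ℕ → Cell) (k : ℕ) : List Cell := ((List.range k).map b).reverse

theorem hist_succ (b : ℕ → Cell) (k : ℕ) : hist b (k + 1) = b k :: hist b k := by
  simp [hist, List.range_succ]

theorem length_hist (b : ℕ → Cell) (k : ℕ) : (hist b k).length = k := by simp [hist]

theorem mem_hist (b : ℕ → Cell) (k : ℕ) (c : Cell) : c ∈ (hist b k).toFinset ↔ ∃ j < k, b j = c := by
  simp [hist]

theorem makerClaim_eq (b : ℕ → Cell) (k : ℕ) :
    makerClaim sig b k = pick (20 - k) (MR (hist b k)) (hist b k).toFinset := by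
  rw [makerClaim, sig]
  change pick (20 - (hist b k).length) (MR (hist b k)) (hist b k).toFinset = _
  rw [length_hist]

theorem MR_succ (b : ℕ → Cell) (k : ℕ) :
    MR (hist b (k + 1)) = insert (makerClaim sig b k) (MR (hist b k)) := by
  rw [hist_succ, MR, makerClaim_eq, length_hist]

theorem mem_MR (b : ℕ → Cell) (k : ℕ) (c : Cell) :
    c ∈ MR (hist b k) ↔ ∃ j < k, makerClaim sig b j = c := by
  induction k with
  | zero => simp [hist, MR]
  | succ k ih =>
    rw [MR_succ, Finset.mem_insert, ih]
    constructor
    · rintro (h | ⟨j, hj, h⟩)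
      · exact ⟨k, Nat.lt_succ_self k, h.symm⟩
      · exact ⟨j, hj.trans (Nat.lt_succ_self k), h⟩
    · rintro ⟨j, hj, h⟩
      rcases Nat.lt_succ_iff_lt_or_eq.1 hj with h' | h'
      · exact Or.inr ⟨j, h', h⟩
      · exact Or.inl (h' ▸ h.symm)

/-- a winning predicate at the empty position gives the policy -/
theorem policy_of_wins (hw : Wins 21 ∅ ∅) :
    ∃ σ : List (ℤ × ℤ) → ℤ × ℤ, ∀ b : ℕ → ℤ × ℤ,
      (∀ k : ℕ, k < 20 →
        (∀ j : ℕ, j ≤ k → b k ≠ makerClaim σ b j) ∧
        (∀ j : ℕ, j < k → b k ≠ b j)) →
      (∀ k : ℕ, k ≤ 20 →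
        (∀ j : ℕ, j < k → makerClaim σ b k ≠ makerClaim σ b j) ∧
        (∀ j : ℕ, j < k → makerClaim σ b k ≠ b j)) ∧
      ContainsCopy {c | ∃ j : ℕ, j ≤ 20 ∧ c = makerClaim σ b j} := by
  refine ⟨sig, fun b hb => ⟨fun k _ => ⟨fun j hj h => ?_, fun j hj h => ?_⟩, ?_⟩⟩
  · have h1 := (pick_spec (20 - k) (MR (hist b k)) (hist b k).toFinset).1
    rw [← makerClaim_eq, mem_MR] at h1
    exact h1 ⟨j, hj, h.symm⟩
  · have h1 := (pick_spec (20 - k) (MR (hist b k)) (hist b k).toFinset).2.1
    rw [← makerClaim_eq, mem_hist] at h1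
    exact h1 ⟨j, hj, h.symm⟩
  · -- the invariant
    have inv : ∀ k ≤ 20, ContainsCopy ((MR (hist b k) : Finset Cell) : Set Cell) ∨
        Wins (21 - k) (MR (hist b k)) (hist b k).toFinset := by
      intro k
      induction k with
      | zero => intro _; right; simpa [hist, MR] using hw
      | succ k ih =>
        intro hk
        rcases ih (by omega) with h | h
        · left
          refine containsCopy_mono ?_ h
          rw [MR_succ]
          exact_mod_cast Finset.subset_insert _ _
        · have e : 21 - k = (20 - k) + 1 := by omega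
          rw [e] at h
          have h2 := (pick_spec (20 - k) (MR (hist b k)) (hist b k).toFinset).2.2 h
          rw [← makerClaim_eq, ← MR_succ] at h2
          rcases h2 with h2 | h2
          · exact Or.inl h2
          · right
            have hbk := hb k (by omega)
            have h3 := h2 (b k) ?_ ?_
            · have e2 : (hist b (k + 1)).toFinset = insert (b k) (hist b k).toFinset := by
                rw [hist_succ, List.toFinset_cons]
              rw [e2]
              have e3 : 21 - (k + 1) = 20 - k := by omega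
              rw [e3]; exact h3
            · rw [mem_MR]
              rintro ⟨j, hj, h4⟩
              exact hbk.1 j (by omega) h4.symm
            · rw [mem_hist]
              rintro ⟨j, hj, h4⟩
              exact hbk.2 j hj h4.symm
    have hfin : ContainsCopy ((MR (hist b 21) : Finset Cell) : Set Cell) := by
      rcases inv 20 le_rfl with h | h
      · refine containsCopy_mono ?_ h
        rw [MR_succ]
        exact_mod_cast Finset.subset_insert _ _
      · have e : 21 - 20 = (20 - 20) + 1 := rfl
        rw [e] at h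
        have h2 := (pick_spec (20 - 20) (MR (hist b 20)) (hist b 20).toFinset).2.2 h
        rw [← makerClaim_eq, ← MR_succ] at h2
        rcases h2 with h2 | h2
        · exact h2
        · obtain ⟨c, hc1, hc2⟩ := exists_free (MR (hist b (20 + 1))) (hist b 20).toFinset
          exact h2 c hc1 hc2
    refine containsCopy_mono ?_ hfin
    intro c hc
    rw [Finset.mem_coe, mem_MR] at hc
    obtain ⟨j, hj, h⟩ := hc
    exact ⟨j, by omega, h.symm⟩

end Crest.Agent.H26Snaky
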