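import Crest.Agent.H26SnakyTree

/-!
Symmetry of the game for S0047.
-/

set_option autoImplicit false

namespace Crest.Agent.H26Snaky

open Crest.CombinatoricsR.PolyominoGame

/-- `σ` is an involution preserving copies -/
def Good (σ : Cell → Cell) : Prop :=
  (∀ c, σ (σ c) = c) ∧ ∀ X : Set Cell, ContainsCopy X → ContainsCopy {c | σ c ∈ X}

theorem Good.inj {σ : Cell → Cell} (h : Good σ) : Function.Injective σ := by
  intro a b hab
  rw [← h.1 a, hab, h.1 b]

theorem mem_image_iff {σ : Cell → Cell} (h : Good σ) (M : Finset Cell) (c : Cell) :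
    c ∈ M.image σ ↔ σ c ∈ M := by
  rw [Finset.mem_image]
  constructor
  · rintro ⟨a, ha, rfl⟩; rwa [h.1]
  · intro hc; exact ⟨σ c, hc, h.1 c⟩

theorem coe_image_eq {σ : Cell → Cell} (h : Good σ) (M : Finset Cell) :
    ((M.image σ : Finset Cell) : Set Cell) = {c | σ c ∈ (M : Set Cell)} := by
  ext c
  rw [Finset.mem_coe, mem_image_iff h]
  rfl

theorem Wins.image {σ : Cell → Cell} (h : Good σ) {d : ℕ} : ∀ {M B : Finset Cell}, Wins d M B →
    Wins d (M.image σ) (B.image σ) := by
  induction d with
  | zero =>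
    intro M B hw
    have h1 := h.2 _ hw
    rw [← coe_image_eq h] at h1
    exact h1
  | succ d ih =>
    intro M B hw
    obtain ⟨c, h1, h2, h3⟩ := hw
    have e : insert (σ c) (M.image σ) = (insert c M).image σ := by rw [Finset.image_insert]
    refine ⟨σ c, ?_, ?_, ?_⟩
    · rw [mem_image_iff h, h.1]; exact h1
    · rw [mem_image_iff h, h.1]; exact h2
    · rw [e]
      rcases h3 with h3 | h3
      · left
        have h4 := h.2 _ h3
        rw [← coe_image_eq h] at h4
        exact h4
      · right
        intro b hb hb'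
        have h4 := ih (h3 (σ b) ?_ ?_)
        · rw [Finset.image_insert (s := B), h.1] at h4
          exact h4
        · rwa [mem_image_iff h] at hb
        · rwa [mem_image_iff h] at hb'

/-- transport of a strategy -/
theorem S.transport {σ : Cell → Cell} (h : Good σ) {N C N' C' d : ℕ} (hS : S N C d)
    (hN : ∀ k, N.testBit k = true → ∃ l, N'.testBit l = true ∧ σ (dec k) = dec l)
    (hC : ∀ k, C.testBit k = true → ∃ l, C'.testBit l = true ∧ σ (dec k) = dec l) : S N' C' d := by
  intro M B hMB hM hB
  have h1 : Wins d (M.image σ) (B.image σ) := by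
    refine hS _ _ ?_ ?_ ?_
    · rw [Finset.disjoint_left]
      intro a ha hb
      rw [mem_image_iff h] at ha hb
      exact Finset.disjoint_left.1 hMB ha hb
    · intro k hk
      obtain ⟨l, hl, e⟩ := hN k hk
      rw [mem_image_iff h, e]; exact hM l hl
    · intro k hk
      obtain ⟨l, hl, e⟩ := hC k hk
      rw [mem_image_iff h, e]; exact hB l hl
  have h2 := h1.image h
  have e : ∀ X : Finset Cell, (X.image σ).image σ = X := by
    intro X; ext c; rw [mem_image_iff h, mem_image_iff h, h.1]
  rwa [e, e] at h2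

def refl : Cell → Cell := fun c => (32 - c.1, c.2)
def swp : Cell → Cell := fun c => (c.2, c.1)

theorem good_refl : Good refl := by
  refine ⟨fun c => by simp [refl], fun X hX => ?_⟩
  obtain ⟨t, e1, e2, h1, h2, h3⟩ := hX
  refine ⟨(32 - t.1, t.2), -e1, e2, ?_, h2, ?_⟩
  · rcases h1 with h1 | h1 <;> simp [h1]
  · rcases h3 with h3 | h3
    · refine Or.inl fun p hp => ?_
      have := h3 p hp
      change refl _ ∈ X
      simp only [refl]
      convert this using 2; ring
    · refine Or.inr fun p hp => ?_
      have := h3 p hp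
      change refl _ ∈ X
      simp only [refl]
      convert this using 2; ring

theorem good_swp : Good swp := by
  refine ⟨fun c => by simp [swp], fun X hX => ?_⟩
  obtain ⟨t, e1, e2, h1, h2, h3⟩ := hX
  refine ⟨(t.2, t.1), e2, e1, h2, h1, ?_⟩
  rcases h3 with h3 | h3
  · exact Or.inr fun p hp => h3 p hp
  · exact Or.inl fun p hp => h3 p hp

/-- boolean check that the mask `C'` contains the reflection of `C` (columns 1..31) -/
def chkRefl (C C' : ℕ) : ℕ → Bool
  | 0 => true
  | n + 1 => (Nat.beq ((C >>> n) % 2) 0 ||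
      (Nat.ble 1 (n % 32) && Nat.beq ((C' >>> ((32 - n % 32) + 32 * (n / 32))) % 2) 1)) && chkRefl C C' n

def chkSwp (C C' : ℕ) : ℕ → Bool
  | 0 => true
  | n + 1 => (Nat.beq ((C >>> n) % 2) 0 ||
      (Nat.ble (n / 32 + 1) 32 && Nat.beq ((C' >>> (n / 32 + 32 * (n % 32))) % 2) 1)) && chkSwp C C' n

theorem testBit_iff (C k : ℕ) : C.testBit k = true ↔ (C >>> k) % 2 = 1 := by
  rw [Nat.testBit_eq_decide_div_mod_eq, decide_eq_true_iff, Nat.shiftRight_eq_div_pow]

theorem chkRefl_sound {C C' n : ℕ} (h : chkRefl C C' n = true) (k : ℕ) (hk : k < n)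
    (hC : C.testBit k = true) : ∃ l, C'.testBit l = true ∧ refl (dec k) = dec l := by
  induction n with
  | zero => omega
  | succ n ih =>
    rw [chkRefl, Bool.and_eq_true] at h
    rcases Nat.lt_succ_iff_lt_or_eq.1 hk with hk' | rfl
    · exact ih h.2 hk'
    · have h1 := h.1
      rw [testBit_iff] at hC
      rw [Bool.or_eq_true, Bool.and_eq_true, Nat.beq_eq, Nat.ble_eq, Nat.beq_eq, hC] at h1
      rcases h1 with h1 | ⟨h1, h2⟩
      · omega
      · refine ⟨_, (testBit_iff _ _).2 h2, ?_⟩
        simp only [refl, dec, Prod.mk.injEq]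
        constructor
        · have : ((32 - k % 32) + 32 * (k / 32)) % 32 = 32 - k % 32 := by omega
          rw [this]; push_cast [Nat.cast_sub (show k % 32 ≤ 32 by omega)]; ring
        · have : ((32 - k % 32) + 32 * (k / 32)) / 32 = k / 32 := by omega
          rw [this]

theorem chkSwp_sound {C C' n : ℕ} (h : chkSwp C C' n = true) (k : ℕ) (hk : k < n)
    (hC : C.testBit k = true) : ∃ l, C'.testBit l = true ∧ swp (dec k) = dec l := by
  induction n with
  | zero => omega
  | succ n ih =>
    rw [chkSwp, Bool.and_eq_true] at h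
    rcases Nat.lt_succ_iff_lt_or_eq.1 hk with hk' | rfl
    · exact ih h.2 hk'
    · have h1 := h.1
      rw [testBit_iff] at hC
      rw [Bool.or_eq_true, Bool.and_eq_true, Nat.beq_eq, Nat.ble_eq, Nat.beq_eq, hC] at h1
      rcases h1 with h1 | ⟨h1, h2⟩
      · omega
      · refine ⟨_, (testBit_iff _ _).2 h2, ?_⟩
        simp only [swp, dec, Prod.mk.injEq]
        constructor
        · have : (k / 32 + 32 * (k % 32)) % 32 = k / 32 := by omega
          rw [this]
        · have : (k / 32 + 32 * (k % 32)) / 32 = k % 32 := by omega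
          rw [this]

def small (C : ℕ) : Bool := Nat.ble (C + 1) (2 ^ 1024)

theorem small_sound {C k : ℕ} (h : small C = true) (hk : C.testBit k = true) : k < 1024 := by
  rw [small, Nat.ble_eq] at h
  by_contra hlt
  have h1 : C < 2 ^ k := lt_of_lt_of_le h (Nat.pow_le_pow_right (by norm_num) (not_lt.1 hlt))
  rw [Nat.testBit_lt_two_pow h1] at hk
  exact Bool.noConfusion hk

/-- center mask -/
def cen : ℕ := 1 <<< 528

theorem cen_bit (k : ℕ) : cen.testBit k = true ↔ k = 528 := by
  rw [cen, testBit_one_shl, decide_eq_true_iff]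

theorem S.refl' {C C' d : ℕ} (hS : S cen C d) (h1 : small C = true) (h2 : chkRefl C C' 1024 = true) :
    S cen C' d := by
  refine hS.transport good_refl ?_ ?_
  · intro k hk
    rw [cen_bit] at hk
    subst hk
    exact ⟨528, (cen_bit _).2 rfl, by simp [refl, dec]⟩
  · intro k hk
    exact chkRefl_sound h2 k (small_sound h1 hk) hk

theorem S.swp' {C C' d : ℕ} (hS : S cen C d) (h1 : small C = true) (h2 : chkSwp C C' 1024 = true) :
    S cen C' d := by
  refine hS.transport good_swp ?_ ?_
  · intro k hk
    rw [cen_bit] at hk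
    subst hk
    exact ⟨528, (cen_bit _).2 rfl, by simp [swp, dec]⟩
  · intro k hk
    exact chkSwp_sound h2 k (small_sound h1 hk) hk

theorem wins_of_S {C : ℕ} (h : S 0 C 21) : Wins 21 ∅ ∅ := by
  refine h ∅ ∅ (Finset.disjoint_empty_left _) ?_ ?_
  · intro k hk; rw [Nat.zero_testBit] at hk; exact Bool.noConfusion hk
  · intro k _; exact Finset.notMem_empty _

end Crest.Agent.H26Snaky
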