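import Crest.Agent.H26SnakyCheck

/-!
Certificate trees for S0047 and their kernel-evaluable check.
-/

set_option autoImplicit false

namespace Crest.Agent.H26Snaky

inductive T : Type
  | leaf (o a l : ℕ) : T
  | merge (x y : T) : T
  | node (c : ℕ) (x : T) : T
  | hyp (i : ℕ) : T

structure R : Type where
  ok : Bool
  N : ℕ
  U : ℕ
  I : ℕ
  d : ℕ

def sdiff (a b : ℕ) : ℕ := a ^^^ (a &&& b)

def leafR (o a l : ℕ) : R :=
  ⟨(Nat.ble (o + 1) 8 && Nat.ble (a % 32 + 1) 28) && Nat.beq ((pat o <<< a) &&& (1 <<< l)) (1 <<< l),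
    sdiff (pat o <<< a) (1 <<< l), 1 <<< l, 1 <<< l, 1⟩

def mergeR (x y : R) : R :=
  ⟨x.ok && y.ok, x.N ||| y.N, x.U ||| y.U, x.I &&& y.I, cond (Nat.ble x.d y.d) y.d x.d⟩

def nodeR (c : ℕ) (x : R) : R :=
  ⟨x.ok && Nat.beq (x.I &&& (x.N ||| (1 <<< c))) x.I, sdiff x.N (1 <<< c),
    sdiff (x.U ||| (1 <<< c)) (sdiff x.N (1 <<< c)), sdiff (x.U ||| (1 <<< c)) (sdiff x.N (1 <<< c)), x.d + 1⟩

def hypR (env : List (ℕ × ℕ × ℕ)) (i : ℕ) : R :=
  match env[i]? with
  | some e => ⟨true, e.1, e.2.1, e.2.1, e.2.2⟩
  | none => ⟨false, 0, 0, 0, 0⟩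

def check (env : List (ℕ × ℕ × ℕ)) : T → R
  | .leaf o a l => leafR o a l
  | .merge x y => mergeR (check env x) (check env y)
  | .node c x => nodeR c (check env x)
  | .hyp i => hypR env i

def isS : T → Bool
  | .merge _ _ => false
  | _ => true

def Env : List (ℕ × ℕ × ℕ) → Prop
  | [] => True
  | e :: t => S e.1 e.2.1 e.2.2 ∧ Env t

theorem Env.get {env : List (ℕ × ℕ × ℕ)} (h : Env env) (i : ℕ) (e : ℕ × ℕ × ℕ) (he : env[i]? = some e) :
    S e.1 e.2.1 e.2.2 := by
  induction env generalizing i with
  | nil => simp at he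
  | cons a t ih =>
    cases i with
    | zero => simp at he; subst he; exact h.1
    | succ i => exact ih h.2 i (by simpa using he)

theorem testBit_sdiff (a b k : ℕ) : (sdiff a b).testBit k = (a.testBit k && !b.testBit k) := by
  rw [sdiff, Nat.testBit_xor, Nat.testBit_and]
  cases a.testBit k <;> cases b.testBit k <;> rfl

theorem testBit_one_shl (l k : ℕ) : (1 <<< l).testBit k = decide (k = l) := by
  rw [Nat.one_shiftLeft, Nat.testBit_two_pow]
  simp [eq_comm]

theorem leaf_sound (o a l : ℕ) (h : (leafR o a l).ok = true) :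
    S (leafR o a l).N (leafR o a l).U (leafR o a l).d := by
  simp only [leafR, Bool.and_eq_true, Nat.ble_eq, Nat.beq_eq] at h
  obtain ⟨⟨ho, ha⟩, hl⟩ := h
  intro M B hMB hN hC
  simp only [leafR] at hN hC ⊢
  have hlB : dec l ∉ B := hC l (by rw [testBit_one_shl]; simp)
  obtain ⟨c', hc1, hc2, hc3⟩ : ∃ c', c' ∉ M ∧ c' ∉ B ∧ dec l ∈ insert c' M := by
    by_cases hcM : dec l ∈ M
    · obtain ⟨c', h1, h2⟩ := exists_free M B
      exact ⟨c', h1, h2, Finset.mem_insert_of_mem hcM⟩
    · exact ⟨dec l, hcM, hlB, Finset.mem_insert_self _ _⟩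
  refine ⟨c', hc1, hc2, Or.inl (contains_of_pat o a (by omega) (by omega) _ fun k hk => ?_)⟩
  by_cases hkl : k = l
  · rw [hkl]; exact_mod_cast hc3
  · have : dec k ∈ M := hN k (by rw [testBit_sdiff, hk, testBit_one_shl]; simp [hkl])
    exact_mod_cast Finset.mem_insert_of_mem this

theorem check_sound (env : List (ℕ × ℕ × ℕ)) (henv : Env env) (t : T) (h : (check env t).ok = true) :
    F (check env t).N (check env t).U (check env t).I (check env t).d ∧
      (isS t = true → S (check env t).N (check env t).U (check env t).d) := by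
  induction t with
  | leaf o a l =>
    have h1 := leaf_sound o a l h
    exact ⟨h1.toF, fun _ => h1⟩
  | merge x y ihx ihy =>
    simp only [check, mergeR, Bool.and_eq_true] at h
    refine ⟨?_, fun h' => by simp [isS] at h'⟩
    have h1 := (ihx h.1).1.merge (ihy h.2).1
    simp only [check, mergeR]
    have e : cond (Nat.ble (check env x).d (check env y).d) (check env y).d (check env x).d
        = max (check env x).d (check env y).d := by
      cases h' : Nat.ble (check env x).d (check env y).d
      · have h2 : ¬ (check env x).d ≤ (check env y).d := by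
          rw [← Nat.ble_eq, h']; simp
        rw [max_eq_left (le_of_not_ge h2)]; rfl
      · have h2 : (check env x).d ≤ (check env y).d := by
          rw [← Nat.ble_eq, h']
        rw [max_eq_right h2]; rfl
    rw [e]
    exact h1
  | node c x ih =>
    simp only [check, nodeR, Bool.and_eq_true, Nat.beq_eq] at h
    have h1 := (ih h.1).1
    have h2 : S (check env (.node c x)).N (check env (.node c x)).U (check env (.node c x)).d := by
      simp only [check, nodeR]
      refine h1.node (c := c) ?_ ?_ ?_
      · intro k hk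
        rw [← h.2, Nat.testBit_and, Bool.and_eq_true, Nat.testBit_or, Bool.or_eq_true,
          testBit_one_shl, decide_eq_true_iff] at hk
        exact hk.2
      · intro k hk hkc
        rw [testBit_sdiff, testBit_one_shl, hk]
        simp [hkc]
      · intro k hk
        rw [testBit_sdiff (_ ||| _), Nat.testBit_or, testBit_one_shl]
        cases h' : (sdiff (check env x).N (1 <<< c)).testBit k
        · right
          rcases hk with hk | hk <;> simp [hk]
        · exact Or.inl rfl
    refine ⟨?_, fun _ => h2⟩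
    have h3 := h2.toF
    exact h3
  | hyp i =>
    simp only [check, hypR] at h ⊢
    cases he : env[i]? with
    | none => rw [he] at h; simp at h
    | some e =>
      simp only
      have h1 := henv.get i e he
      exact ⟨h1.toF, fun _ => h1⟩

def chk (env : List (ℕ × ℕ × ℕ)) (t : T) (N C d : ℕ) : Bool :=
  (isS t && (check env t).ok) && ((Nat.beq (check env t).N N && Nat.beq (check env t).U C) &&
    Nat.ble (check env t).d d)

theorem S_of_chk (env : List (ℕ × ℕ × ℕ)) (henv : Env env) (t : T) (N C d : ℕ)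
    (h : chk env t N C d = true) : S N C d := by
  simp only [chk, Bool.and_eq_true, Nat.beq_eq, Nat.ble_eq] at h
  obtain ⟨⟨h1, h2⟩, ⟨h3, h4⟩, h5⟩ := h
  have h6 := (check_sound env henv t h2).2 h1
  rw [h3, h4] at h6
  intro M B hMB hN hC
  exact (h6 M B hMB hN hC).le h5

end Crest.Agent.H26Snaky
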