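import Mathlib

/-!
Transport maps from atomless measures on standard Borel spaces.
-/

set_option autoImplicit false

open MeasureTheory ProbabilityTheory Set ENNReal unitInterval Filter Topology Function

namespace Crest.Agent.H27Atomless

/-- the cdf of an atomless probability measure is continuous -/
theorem continuous_cdf (μ : Measure ℝ) [IsProbabilityMeasure μ] [NullSingletonClass μ] :
    Continuous (cdf μ) := by
  rw [continuous_iff_continuousAt]
  intro x
  rw [(monotone_cdf μ).continuousAt_iff_leftLim_eq_rightLim]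
  have h1 : rightLim (cdf μ) x = cdf μ x := (cdf μ).rightLim_eq x
  have h2 : (cdf μ).measure {x} = 0 := by rw [measure_cdf]; exact measure_singleton x
  rw [StieltjesFunction.measure_singleton, ENNReal.ofReal_eq_zero] at h2
  have h3 : leftLim (cdf μ) x ≤ cdf μ x := (monotone_cdf μ).leftLim_le le_rfl
  rw [h1]; linarith

/-- the level sets of the cdf -/
theorem measure_cdf_le (μ : Measure ℝ) [IsProbabilityMeasure μ] [NullSingletonClass μ] {t : ℝ}
    (ht0 : 0 ≤ t) (ht1 : t ≤ 1) : μ {x | cdf μ x ≤ t} = ENNReal.ofReal t := by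
  have hcont := continuous_cdf μ
  rcases eq_or_lt_of_le ht1 with rfl | ht1
  · have : {x | cdf μ x ≤ 1} = univ := by
      ext x; simp [cdf_le_one μ x]
    rw [this]; simp
  · set S := {x | cdf μ x ≤ t} with hS
    have hbdd : BddAbove S := by
      have h1 := (tendsto_cdf_atTop μ).eventually (lt_mem_nhds ht1)
      obtain ⟨M, hM⟩ := h1.exists
      refine ⟨M, fun x hx => ?_⟩
      by_contra hlt
      push Not at hlt
      have := (monotone_cdf μ) hlt.le
      exact absurd (hM.trans_le (this.trans hx)) (lt_irrefl _)
    by_cases hne : S.Nonempty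
    · have hclosed : IsClosed S := isClosed_le hcont continuous_const
      have hmem : sSup S ∈ S := hclosed.csSup_mem hne hbdd
      have hSeq : S = Iic (sSup S) := by
        ext x
        constructor
        · intro hx; exact le_csSup hbdd hx
        · intro hx
          exact ((monotone_cdf μ) hx).trans hmem
      have hge : t ≤ cdf μ (sSup S) := by
        have hright : ∀ᶠ y in 𝓝[>] (sSup S), t ≤ cdf μ y := by
          refine eventually_nhdsWithin_of_forall fun y hy => ?_
          by_contra hlt
          push Not at hlt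
          exact absurd (le_csSup hbdd (show y ∈ S from hlt.le)) (not_le.2 hy)
        exact ge_of_tendsto (hcont.continuousAt.continuousWithinAt.tendsto) hright
      have heq : cdf μ (sSup S) = t := le_antisymm hmem hge
      rw [hSeq, ← ofReal_cdf, heq]
    · rw [not_nonempty_iff_eq_empty] at hne
      have ht : t = 0 := by
        refine le_antisymm ?_ ht0
        refine ge_of_tendsto (tendsto_cdf_atBot μ) (Eventually.of_forall fun x => ?_)
        by_contra hlt
        push Not at hlt
        have : x ∈ S := hlt.le
        rw [hne] at this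
        exact this
      rw [hne, ht]; simp

/-- the cdf pushes an atomless law on `ℝ` to the uniform law -/
theorem exists_map_unitInterval_real (μ : Measure ℝ) [IsProbabilityMeasure μ]
    [NullSingletonClass μ] : ∃ g : ℝ → I, Measurable g ∧ μ.map g = volume := by
  refine ⟨fun x => ⟨cdf μ x, cdf_nonneg μ x, cdf_le_one μ x⟩, ?_, ?_⟩
  · exact ((continuous_cdf μ).measurable).subtype_mk
  · have hm : Measurable (fun x => (⟨cdf μ x, cdf_nonneg μ x, cdf_le_one μ x⟩ : I)) :=
      ((continuous_cdf μ).measurable).subtype_mk
    have : IsProbabilityMeasure (μ.map (fun x => (⟨cdf μ x, cdf_nonneg μ x, cdf_le_one μ x⟩ : I))) :=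
      Measure.isProbabilityMeasure_map hm.aemeasurable
    refine Measure.ext_of_Iic _ _ fun t => ?_
    rw [Measure.map_apply hm measurableSet_Iic, unitInterval.volume_Iic]
    have : (fun x => (⟨cdf μ x, cdf_nonneg μ x, cdf_le_one μ x⟩ : I)) ⁻¹' Iic t =
        {x | cdf μ x ≤ (t : ℝ)} := by
      ext x; simp [← Subtype.coe_le_coe]
    rw [this, measure_cdf_le μ t.2.1 t.2.2]

variable {X Y : Type*} [MeasurableSpace X] [StandardBorelSpace X] [MeasurableSpace Y]
  [StandardBorelSpace Y]

theorem exists_map_eq_of_prob [Nonempty Y] (μ : Measure X) [IsProbabilityMeasure μ]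
    [NullSingletonClass μ] (ν : Measure Y) [IsProbabilityMeasure ν] :
    ∃ T : X → Y, Measurable T ∧ μ.map T = ν := by
  have he := measurableEmbedding_embeddingReal X
  have : IsProbabilityMeasure (μ.map (embeddingReal X)) :=
    Measure.isProbabilityMeasure_map he.measurable.aemeasurable
  have : NullSingletonClass (μ.map (embeddingReal X)) := by
    refine ⟨fun r => ?_⟩
    rw [Measure.map_apply he.measurable (measurableSet_singleton r)]
    exact Set.Subsingleton.measure_zero (subsingleton_singleton.preimage he.injective) μ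
  obtain ⟨g, hg, hgm⟩ := exists_map_unitInterval_real (μ.map (embeddingReal X))
  obtain ⟨f, hf, hfm⟩ := ν.exists_measurable_map_eq
  refine ⟨fun x => f (g (embeddingReal X x)), hf.comp (hg.comp he.measurable), ?_⟩
  rw [← hfm, ← hgm, Measure.map_map hg he.measurable, Measure.map_map hf (hg.comp he.measurable)]
  rfl

/-- transport map from an atomless finite measure to any finite measure of the same mass -/
theorem exists_map_eq [Nonempty Y] (μ : Measure X) [IsFiniteMeasure μ]
    [NullSingletonClass μ] (ν : Measure Y) (hmass : μ univ = ν univ) :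
    ∃ T : X → Y, Measurable T ∧ μ.map T = ν := by
  by_cases h0 : μ univ = 0
  · obtain ⟨y⟩ := ‹Nonempty Y›
    refine ⟨fun _ => y, measurable_const, ?_⟩
    have h1 : μ = 0 := Measure.measure_univ_eq_zero.1 h0
    have h2 : ν = 0 := Measure.measure_univ_eq_zero.1 (by rw [← hmass, h0])
    rw [h1, h2, Measure.map_zero]
  · have htop : μ univ ≠ ⊤ := measure_ne_top μ univ
    have : IsProbabilityMeasure ((μ univ)⁻¹ • μ) :=
      ⟨by rw [Measure.smul_apply, smul_eq_mul, ENNReal.inv_mul_cancel h0 htop]⟩
    have : IsProbabilityMeasure ((μ univ)⁻¹ • ν) :=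
      ⟨by rw [Measure.smul_apply, smul_eq_mul, ← hmass, ENNReal.inv_mul_cancel h0 htop]⟩
    have : NullSingletonClass ((μ univ)⁻¹ • μ) :=
      ⟨fun x => by rw [Measure.smul_apply, measure_singleton, smul_zero]⟩
    obtain ⟨T, hT, hTm⟩ := exists_map_eq_of_prob ((μ univ)⁻¹ • μ) ((μ univ)⁻¹ • ν)
    refine ⟨T, hT, ?_⟩
    rw [Measure.map_smul] at hTm
    have := congrArg (fun m => (μ univ) • m) hTm
    simpa only [smul_smul, ENNReal.mul_inv_cancel h0 htop, one_smul] using this

/-- two-fold splitting of an atomless measure by a map moving points by at most `δ` -/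
theorem exists_splitting {E : Type*} [NormedAddCommGroup E] [MeasurableSpace E] [BorelSpace E]
    [SecondCountableTopology E] [CompleteSpace E] (α : Measure E) [IsFiniteMeasure α]
    [NullSingletonClass α] {A : Set E} (hAm : MeasurableSet A) (hαA : α Aᶜ = 0) {δ : ℝ}
    (hδ : 0 < δ) :
    ∃ F : E → E × Bool, Measurable F ∧
      α.map F = (2 : ℝ≥0∞)⁻¹ • (α.map (fun x => (x, true)) + α.map (fun x => (x, false))) ∧
      ∀ x ∈ A, (F x).1 ∈ A ∧ dist x (F x).1 ≤ δ := by
  have mt : Measurable (fun x : E => (x, true)) := measurable_id.prodMk measurable_const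
  have mf : Measurable (fun x : E => (x, false)) := measurable_id.prodMk measurable_const
  set P : ℕ → Set E := disjointed (fun n => Metric.ball (TopologicalSpace.denseSeq E n) (δ / 2))
    with hP
  have hPm : ∀ n, MeasurableSet (P n) := fun n =>
    MeasurableSet.disjointed (fun _ => measurableSet_ball) n
  have hPd : Pairwise (Disjoint on P) := disjoint_disjointed _
  have hPU : ⋃ n, P n = univ := by
    rw [hP, iUnion_disjointed, eq_univ_iff_forall]
    intro x
    obtain ⟨n, hn⟩ := (TopologicalSpace.denseRange_denseSeq E).exists_dist_lt x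
      (by positivity : 0 < δ / 2)
    exact mem_iUnion.2 ⟨n, hn⟩
  have hPdist : ∀ n, ∀ x ∈ P n, ∀ y ∈ P n, dist x y ≤ δ := by
    intro n x hx y hy
    have h1 := disjointed_subset _ n hx
    have h2 := disjointed_subset _ n hy
    rw [Metric.mem_ball] at h1 h2
    have := dist_triangle_right x y (TopologicalSpace.denseSeq E n)
    linarith
  set Q : ℕ → Set E := fun n => A ∩ P n with hQ
  have hQm : ∀ n, MeasurableSet (Q n) := fun n => hAm.inter (hPm n)
  have hκP : ∀ n, α.restrict (P n) = α.restrict (Q n) := by
    intro n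
    refine Measure.restrict_congr_set ?_
    have : ∀ᵐ x ∂α, x ∈ A := by rw [ae_iff]; exact hαA
    filter_upwards [this] with x hx
    refine propext ⟨fun h => ⟨hx, h⟩, fun h => h.2⟩
  have hT : ∀ n, ∃ T : E → E × Bool, Measurable T ∧ (α.restrict (Q n)).map T =
      (2 : ℝ≥0∞)⁻¹ • ((α.restrict (Q n)).map (fun x => (x, true)) +
        (α.restrict (Q n)).map (fun x => (x, false))) := by
    intro n
    refine exists_map_eq (α.restrict (Q n)) _ ?_
    rw [Measure.smul_apply, Measure.add_apply, Measure.map_apply mt MeasurableSet.univ,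
      Measure.map_apply mf MeasurableSet.univ, preimage_univ, preimage_univ, smul_eq_mul,
      ← two_mul, ← mul_assoc, ENNReal.inv_mul_cancel (by norm_num) (by norm_num), one_mul]
  choose T hTm hTmap using hT
  classical
  let G : ℕ → E → E × Bool := fun n x => if x ∈ Q n ∧ (T n x).1 ∈ Q n then T n x else (x, true)
  have hGm : ∀ n, Measurable (G n) := fun n =>
    Measurable.ite ((hQm n).inter ((hTm n).fst (hQm n))) (hTm n) mt
  obtain ⟨F, hFm, hFE⟩ := exists_measurable_piecewise P hPm G hGm (by
    intro i j hij x hx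
    exact absurd hx (by
      rw [(hPd hij).inter_eq]; exact notMem_empty x))
  have hGmap : ∀ n, (α.restrict (Q n)).map (G n) =
      (2 : ℝ≥0∞)⁻¹ • ((α.restrict (Q n)).map (fun x => (x, true)) +
        (α.restrict (Q n)).map (fun x => (x, false))) := by
    intro n
    rw [← hTmap n]
    refine Measure.map_congr ?_
    have h1 : ∀ᵐ x ∂(α.restrict (Q n)), x ∈ Q n := ae_restrict_mem (hQm n)
    have h2 : ∀ᵐ x ∂(α.restrict (Q n)), (T n x).1 ∈ Q n := by
      have hms : MeasurableSet {p : E × Bool | p.1 ∉ Q n} := (hQm n).compl.preimage measurable_fst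
      have h3 : (α.restrict (Q n)).map (T n) {p : E × Bool | p.1 ∉ Q n} = 0 := by
        rw [hTmap n, Measure.smul_apply, Measure.add_apply, Measure.map_apply mt hms,
          Measure.map_apply mf hms]
        have : (α.restrict (Q n)) {x | x ∉ Q n} = 0 := by
          have := ae_restrict_mem (μ := α) (hQm n)
          rwa [ae_iff] at this
        have e1 : (fun x : E => (x, true)) ⁻¹' {p : E × Bool | p.1 ∉ Q n} = {x | x ∉ Q n} := rfl
        have e2 : (fun x : E => (x, false)) ⁻¹' {p : E × Bool | p.1 ∉ Q n} = {x | x ∉ Q n} := rfl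
        rw [e1, e2, this]; simp
      rw [Measure.map_apply (hTm n) hms] at h3
      rw [ae_iff]
      exact h3
    filter_upwards [h1, h2] with x hx1 hx2
    show (if x ∈ Q n ∧ (T n x).1 ∈ Q n then T n x else (x, true)) = T n x
    rw [if_pos ⟨hx1, hx2⟩]
  refine ⟨F, hFm, ?_, ?_⟩
  · have hsum : α = Measure.sum (fun n => α.restrict (Q n)) := by
      have := Measure.restrict_iUnion (μ := α) hPd hPm
      rw [hPU, Measure.restrict_univ] at this
      conv_lhs => rw [this]
      congr 1
      funext n
      exact hκP n
    have hFmap : ∀ n, (α.restrict (Q n)).map F =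
      (2 : ℝ≥0∞)⁻¹ • ((α.restrict (Q n)).map (fun x => (x, true)) +
        (α.restrict (Q n)).map (fun x => (x, false))) := by
      intro n
      rw [← hGmap n]
      refine Measure.map_congr ?_
      filter_upwards [ae_restrict_mem (μ := α) (hQm n)] with x hx
      exact hFE n hx.2
    refine Measure.ext fun S hS => ?_
    have hsumS : ∀ S' : Set E, MeasurableSet S' → α S' = ∑' n, (α.restrict (Q n)) S' := by
      intro S' hS'
      conv_lhs => rw [hsum]
      rw [Measure.sum_apply _ hS']
    rw [Measure.map_apply hFm hS, hsumS _ (hFm hS), Measure.smul_apply, Measure.add_apply,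
      Measure.map_apply mt hS, Measure.map_apply mf hS, hsumS _ (mt hS), hsumS _ (mf hS),
      ← ENNReal.tsum_add, smul_eq_mul, ← ENNReal.tsum_mul_left]
    refine tsum_congr fun n => ?_
    rw [← Measure.map_apply hFm hS, hFmap n, Measure.smul_apply, Measure.add_apply,
      Measure.map_apply mt hS, Measure.map_apply mf hS, smul_eq_mul]
  · intro x hx
    have hxU : x ∈ ⋃ n, P n := by rw [hPU]; trivial
    obtain ⟨n, hn⟩ := mem_iUnion.1 hxU
    have hFx : F x = if x ∈ Q n ∧ (T n x).1 ∈ Q n then T n x else (x, true) := hFE n hn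
    rw [hFx]
    split_ifs with hc
    · exact ⟨hc.2.1, hPdist n x hn _ hc.2.2⟩
    · exact ⟨hx, by simp [hδ.le]⟩

end Crest.Agent.H27Atomless
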