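import Mathlib

set_option autoImplicit false

namespace Crest.Agent.H27Markov

open Finset

section Abstract

variable {ι : Type*} [Fintype ι]

/-- iterates of the averaging operator -/
def it (P : ι → ι → ℝ) (g : ι → ℝ) : ℕ → ι → ℝ
  | 0 => g
  | (m+1) => fun i => ∑ j, P i j * it P g m j

/-- accumulated expected cost -/
def acc (P : ι → ι → ℝ) (b : ℕ → ι → ι → ℝ) : ℕ → ι → ℝ
  | 0 => fun _ => 0
  | (m+1) => fun i => ∑ j, P i j * (b m i j + acc P b m j)

structure Stoch (P : ι → ι → ℝ) : Prop where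
  nonneg : ∀ i j, 0 ≤ P i j
  sum_one : ∀ i, ∑ j, P i j = 1

theorem it_zero (P : ι → ι → ℝ) (g : ι → ℝ) (i : ι) : it P g 0 i = g i := rfl
theorem it_succ (P : ι → ι → ℝ) (g : ι → ℝ) (m : ℕ) (i : ι) :
    it P g (m+1) i = ∑ j, P i j * it P g m j := rfl
theorem acc_zero (P : ι → ι → ℝ) (b : ℕ → ι → ι → ℝ) (i : ι) : acc P b 0 i = 0 := rfl
theorem acc_succ (P : ι → ι → ℝ) (b : ℕ → ι → ι → ℝ) (m : ℕ) (i : ι) :
    acc P b (m+1) i = ∑ j, P i j * (b m i j + acc P b m j) := rfl

theorem const_avg {P : ι → ι → ℝ} (hP : Stoch P) (i : ι) (c : ℝ) : ∑ j, P i j * c = c := by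
  rw [← Finset.sum_mul, hP.sum_one, one_mul]

theorem acc_le {P : ι → ι → ℝ} (hP : Stoch P) {b b' : ℕ → ι → ι → ℝ}
    (h : ∀ m i, ∑ j, P i j * b m i j ≤ ∑ j, P i j * b' m i j) (m : ℕ) (i : ι) :
    acc P b m i ≤ acc P b' m i := by
  induction m generalizing i with
  | zero => simp [acc_zero]
  | succ m ih =>
    rw [acc_succ, acc_succ]
    simp only [mul_add, Finset.sum_add_distrib]
    have h2 : ∑ j, P i j * acc P b m j ≤ ∑ j, P i j * acc P b' m j :=
      Finset.sum_le_sum fun j _ => mul_le_mul_of_nonneg_left (ih j) (hP.nonneg i j)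
    have h1 := h m i
    linarith

theorem acc_lin (P : ι → ι → ℝ) (a c : ℝ) (b b' : ℕ → ι → ι → ℝ) (m : ℕ) (i : ι) :
    acc P (fun m i j => a * b m i j + c * b' m i j) m i = a * acc P b m i + c * acc P b' m i := by
  induction m generalizing i with
  | zero => simp [acc_zero]
  | succ m ih =>
    rw [acc_succ, acc_succ, acc_succ]
    simp only [Finset.mul_sum, ← Finset.sum_add_distrib, ih]
    exact Finset.sum_congr rfl fun j _ => by ring

theorem acc_congr {P : ι → ι → ℝ} {b b' : ℕ → ι → ι → ℝ}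
    (h : ∀ m i, ∑ j, P i j * b m i j = ∑ j, P i j * b' m i j) (m : ℕ) (i : ι) :
    acc P b m i = acc P b' m i := by
  induction m generalizing i with
  | zero => simp [acc_zero]
  | succ m ih =>
    rw [acc_succ, acc_succ]
    simp only [mul_add, Finset.sum_add_distrib, ih, h]

/-- the Cauchy-Schwarz inequality for the accumulated process, in quadratic-form shape -/
theorem quad_nonneg {P : ι → ι → ℝ} (hP : Stoch P) (b : ℕ → ι → ι → ℝ) (h : ι → ℝ) (lam : ℝ)
    (m : ℕ) (i : ι) (c : ℝ) :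
    0 ≤ lam^2 * acc P (fun m i j => b m i j ^2 + 2 * b m i j * acc P b m j) m i
      - 2 * lam * acc P (fun m i j => b m i j * it P h m j) m i + it P (fun k => h k ^2) m i
      + 2 * c * (lam * acc P b m i - it P h m i) + c^2 := by
  induction m generalizing i c with
  | zero =>
    simp only [acc_zero, it_zero]
    nlinarith [sq_nonneg (h i - c)]
  | succ m ih =>
    have hc : c^2 = ∑ j, P i j * c^2 := (const_avg hP i _).symm
    rw [hc]
    simp only [acc_succ, it_succ, Finset.mul_sum, ← Finset.sum_sub_distrib, ← Finset.sum_add_distrib]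
    refine Finset.sum_nonneg fun j _ => ?_
    have h1 := mul_nonneg (hP.nonneg i j) (ih j (c + lam * b m i j))
    refine h1.trans (le_of_eq ?_)
    ring

theorem acc_nonneg {P : ι → ι → ℝ} (hP : Stoch P) {b : ℕ → ι → ι → ℝ}
    (h : ∀ m i j, 0 ≤ b m i j) (m : ℕ) (i : ι) : 0 ≤ acc P b m i := by
  induction m generalizing i with
  | zero => simp [acc_zero]
  | succ m ih =>
    rw [acc_succ]
    exact Finset.sum_nonneg fun j _ => mul_nonneg (hP.nonneg i j) (add_nonneg (h m i j) (ih j))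

/-- stationarity -/
theorem sum_acc {P : ι → ι → ℝ} {w : ι → ℝ} (hw : ∀ j, ∑ i, w i * P i j = w j)
    (b : ℕ → ι → ι → ℝ) (T : ℕ) :
    ∑ i, w i * acc P b T i = ∑ m ∈ Finset.range T, ∑ i, w i * ∑ j, P i j * b m i j := by
  induction T with
  | zero => simp [acc_zero]
  | succ T ih =>
    rw [Finset.sum_range_succ, ← ih]
    have h1 : ∑ j, w j * acc P b T j = ∑ i, w i * ∑ j, P i j * acc P b T j := by
      simp only [Finset.mul_sum]
      rw [Finset.sum_comm]
      refine Finset.sum_congr rfl fun j _ => ?_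
      rw [← hw j, Finset.sum_mul]
      exact Finset.sum_congr rfl fun i _ => by ring
    rw [h1, ← Finset.sum_add_distrib]
    refine Finset.sum_congr rfl fun i _ => ?_
    rw [acc_succ, ← mul_add, ← Finset.sum_add_distrib]
    congr 1
    exact Finset.sum_congr rfl fun j _ => by ring

end Abstract

section Cuts

variable {ι : Type*} [Fintype ι] {K : Type*} [Fintype K]

/-- smoothstep -/
def psi (u : ℝ) : ℝ := 3 * u^2 - 2 * u^3

theorem psi_bound {f u : ℝ} (hf : f = 0 ∨ f = 1) (h0 : 0 ≤ u) (h1 : u ≤ 1) :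
    |f - psi u| ≤ 9/8 * (f * (1 - u) + (1 - f) * u) := by
  unfold psi
  rcases hf with rfl | rfl
  · rw [abs_le]; constructor
    · nlinarith [mul_nonneg h0 (sq_nonneg (u - 3/4))]
    · nlinarith [mul_nonneg h0 h0, mul_nonneg (mul_nonneg h0 h0) (sub_nonneg.2 h1)]
  · rw [abs_le]; constructor
    · nlinarith [mul_nonneg (sq_nonneg u) (sub_nonneg.2 h1), mul_nonneg (sub_nonneg.2 h1) (sq_nonneg (1-u)), mul_nonneg h0 (sub_nonneg.2 h1), sq_nonneg (1-u), mul_nonneg (sub_nonneg.2 h1) (sq_nonneg (1 - u - 3/4))]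
    · nlinarith [mul_nonneg (sub_nonneg.2 h1) (sq_nonneg (1 - u - 3/4))]

theorem psi_diff {p v : ℝ} (hp0 : 0 ≤ p) (hp1 : p ≤ 1) (hv0 : 0 ≤ v) (hv1 : v ≤ 1) :
    |psi v - psi p| ≤ 6 * (p * (1 - p)) * |v - p| + 3 * (v - p)^2 := by
  have e : psi v - psi p = 6 * (p * (1-p)) * (v - p) + (3 - 4 * p - 2 * v) * (v-p)^2 := by
    unfold psi; ring
  rw [e]
  refine (abs_add_le _ _).trans ?_
  rw [abs_mul (6 * (p * (1 - p))), abs_mul (3 - 4 * p - 2 * v), abs_of_nonneg (sq_nonneg (v - p)),
    abs_of_nonneg (by nlinarith [mul_nonneg hp0 (sub_nonneg.2 hp1)] : 0 ≤ 6 * (p * (1-p)))]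
  have : |3 - 4 * p - 2 * v| ≤ 3 := by
    rw [abs_le]; constructor <;> linarith
  have := mul_le_mul_of_nonneg_right this (sq_nonneg (v - p))
  linarith

theorem psi_mem {u : ℝ} (h0 : 0 ≤ u) (h1 : u ≤ 1) : 0 ≤ psi u ∧ psi u ≤ 1 := by
  unfold psi
  constructor
  · nlinarith [mul_nonneg (mul_nonneg h0 h0) (sub_nonneg.2 h1), mul_nonneg h0 h0]
  · nlinarith [mul_nonneg (sq_nonneg (1 - u)) h0, sq_nonneg (1-u)]

variable (P : ι → ι → ℝ) (β : K → ℝ) (f : K → ι → ℝ)

def V (m : ℕ) (i : ι) : ℝ := ∑ θ, β θ * (it P (f θ) m i * (1 - it P (f θ) m i))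
def del (m : ℕ) (i j : ι) : ℝ := ∑ θ, β θ * (it P (f θ) m j - it P (f θ) (m+1) i)^2
def H (a : ι) (m : ℕ) (i : ι) : ℝ :=
  ∑ θ, β θ * (f θ a * (1 - it P (f θ) m i) + (1 - f θ a) * it P (f θ) m i)
def D (m : ℕ) (i j : ι) : ℝ := ∑ θ, β θ * |psi (it P (f θ) m j) - psi (it P (f θ) (m+1) i)|

variable {P β f}
variable (hP : Stoch P) (hβ : ∀ θ, 0 ≤ β θ) (hf : ∀ θ i, f θ i = 0 ∨ f θ i = 1)

include hP hf in
theorem it_mem (θ : K) (m : ℕ) (i : ι) : 0 ≤ it P (f θ) m i ∧ it P (f θ) m i ≤ 1 := by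
  induction m generalizing i with
  | zero =>
    rw [it_zero]
    rcases hf θ i with h | h <;> simp [h]
  | succ m ih =>
    rw [it_succ]
    constructor
    · exact Finset.sum_nonneg fun j _ => mul_nonneg (hP.nonneg i j) (ih j).1
    · calc ∑ j, P i j * it P (f θ) m j ≤ ∑ j, P i j * 1 :=
            Finset.sum_le_sum fun j _ => mul_le_mul_of_nonneg_left (ih j).2 (hP.nonneg i j)
        _ = 1 := const_avg hP i 1

include hP in
theorem H_succ (a : ι) (m : ℕ) (i : ι) : H P β f a (m+1) i = ∑ j, P i j * H P β f a m j := by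
  unfold H
  simp only [Finset.mul_sum]
  rw [Finset.sum_comm]
  refine Finset.sum_congr rfl fun θ _ => ?_
  have e1 : ∑ j, P i j * (β θ * (f θ a * (1 - it P (f θ) m j) + (1 - f θ a) * it P (f θ) m j))
      = ∑ j, (P i j * (β θ * f θ a) + (β θ * (1 - 2 * f θ a)) * (P i j * it P (f θ) m j)) :=
    Finset.sum_congr rfl fun j _ => by ring
  rw [e1, Finset.sum_add_distrib, const_avg hP, ← Finset.mul_sum, ← it_succ]
  ring

include hP in
theorem H_eq_it (a : ι) (m : ℕ) (i : ι) : H P β f a m i = it P (H P β f a 0) m i := by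
  induction m generalizing i with
  | zero => rfl
  | succ m ih =>
    rw [H_succ hP, it_succ]
    exact Finset.sum_congr rfl fun j _ => by rw [ih]

include hP in
theorem V_succ (m : ℕ) (i : ι) :
    V P β f (m+1) i = ∑ j, P i j * (del P β f m i j + V P β f m j) := by
  unfold V del
  simp only [← Finset.sum_add_distrib, Finset.mul_sum]
  rw [Finset.sum_comm]
  refine Finset.sum_congr rfl fun θ _ => ?_
  set p := it P (f θ) (m+1) i with hp
  have e1 : ∑ j, P i j * (β θ * (it P (f θ) m j - p)^2 + β θ * (it P (f θ) m j * (1 - it P (f θ) m j)))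
      = ∑ j, (P i j * (β θ * p^2) + (β θ * (1 - 2 * p)) * (P i j * it P (f θ) m j)) :=
    Finset.sum_congr rfl fun j _ => by ring
  rw [e1, Finset.sum_add_distrib, const_avg hP, ← Finset.mul_sum, ← it_succ, ← hp]
  ring

include hf in
theorem V_zero (i : ι) : V P β f 0 i = 0 := by
  unfold V
  refine Finset.sum_eq_zero fun θ _ => ?_
  rw [it_zero]
  rcases hf θ i with h | h <;> simp [h]

include hP hf in
theorem acc_del (m : ℕ) (i : ι) : acc P (del P β f) m i = V P β f m i := by
  induction m generalizing i with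
  | zero => rw [acc_zero, V_zero hf]
  | succ m ih =>
    rw [acc_succ, V_succ hP]
    exact Finset.sum_congr rfl fun j _ => by rw [ih]

include hβ in
theorem del_nonneg (m : ℕ) (i j : ι) : 0 ≤ del P β f m i j :=
  Finset.sum_nonneg fun θ _ => mul_nonneg (hβ θ) (sq_nonneg _)

include hP hβ hf in
theorem V_nonneg (m : ℕ) (i : ι) : 0 ≤ V P β f m i :=
  Finset.sum_nonneg fun θ _ => mul_nonneg (hβ θ)
    (mul_nonneg (it_mem hP hf θ m i).1 (sub_nonneg.2 (it_mem hP hf θ m i).2))

include hP hβ hf in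
theorem H_nonneg (a : ι) (m : ℕ) (i : ι) : 0 ≤ H P β f a m i := by
  refine Finset.sum_nonneg fun θ _ => mul_nonneg (hβ θ) ?_
  obtain ⟨h0, h1⟩ := it_mem hP hf θ m i
  rcases hf θ a with h | h <;> rw [h] <;> nlinarith

include hP hβ hf in
theorem V_le_H (a : ι) (m : ℕ) (i : ι) : V P β f m i ≤ H P β f a m i := by
  refine Finset.sum_le_sum fun θ _ => mul_le_mul_of_nonneg_left ?_ (hβ θ)
  obtain ⟨h0, h1⟩ := it_mem hP hf θ m i
  rcases hf θ a with h | h <;> rw [h] <;> nlinarith

include hP hβ hf in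
theorem del_le_H (a : ι) (m : ℕ) (i j : ι) :
    del P β f m i j ≤ H P β f a m j + H P β f a (m+1) i := by
  unfold del H
  rw [← Finset.sum_add_distrib]
  refine Finset.sum_le_sum fun θ _ => ?_
  rw [← mul_add]
  refine mul_le_mul_of_nonneg_left ?_ (hβ θ)
  obtain ⟨h0, h1⟩ := it_mem hP hf θ m j
  obtain ⟨g0, g1⟩ := it_mem hP hf θ (m+1) i
  set v := it P (f θ) m j
  set p := it P (f θ) (m+1) i
  rcases hf θ a with h | h <;> rw [h] <;> nlinarith [mul_nonneg h0 g0, mul_nonneg (sub_nonneg.2 h1) (sub_nonneg.2 g1), mul_nonneg h0 (sub_nonneg.2 h1), mul_nonneg g0 (sub_nonneg.2 g1)]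

include hP hβ hf in
theorem D_le_H (a : ι) (m : ℕ) (i j : ι) :
    D P β f m i j ≤ 9/8 * (H P β f a m j + H P β f a (m+1) i) := by
  unfold D H
  rw [← Finset.sum_add_distrib, Finset.mul_sum]
  refine Finset.sum_le_sum fun θ _ => ?_
  have e : 9/8 * (β θ * (f θ a * (1 - it P (f θ) m j) + (1 - f θ a) * it P (f θ) m j) +
      β θ * (f θ a * (1 - it P (f θ) (m + 1) i) + (1 - f θ a) * it P (f θ) (m + 1) i))
      = β θ * (9/8 * (f θ a * (1 - it P (f θ) m j) + (1 - f θ a) * it P (f θ) m j) +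
      9/8 * (f θ a * (1 - it P (f θ) (m + 1) i) + (1 - f θ a) * it P (f θ) (m + 1) i)) := by ring
  rw [e]
  refine mul_le_mul_of_nonneg_left ?_ (hβ θ)
  obtain ⟨h0, h1⟩ := it_mem hP hf θ m j
  obtain ⟨g0, g1⟩ := it_mem hP hf θ (m+1) i
  have A := psi_bound (hf θ a) h0 h1
  have B := psi_bound (hf θ a) g0 g1
  calc |psi (it P (f θ) m j) - psi (it P (f θ) (m + 1) i)|
      = |(f θ a - psi (it P (f θ) (m + 1) i)) - (f θ a - psi (it P (f θ) m j))| := by congr 1; ring
    _ ≤ |f θ a - psi (it P (f θ) (m + 1) i)| + |f θ a - psi (it P (f θ) m j)| := abs_sub _ _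
    _ ≤ _ := by linarith

include hP hβ hf in
theorem D_sq_le (a : ι) (m : ℕ) (i j : ι) :
    D P β f m i j ^ 2 ≤ 9 * (V P β f (m+1) i * del P β f m i j)
      + 27/4 * (del P β f m i j * (H P β f a m j + H P β f a (m+1) i)) := by
  set S : ℝ := ∑ θ, β θ * ((it P (f θ) (m+1) i * (1 - it P (f θ) (m+1) i)) * |it P (f θ) m j - it P (f θ) (m+1) i|) with hS
  have h1 : D P β f m i j ≤ 6 * S + 3 * del P β f m i j := by
    unfold D del
    rw [hS, Finset.mul_sum, Finset.mul_sum, ← Finset.sum_add_distrib]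
    refine Finset.sum_le_sum fun θ _ => ?_
    obtain ⟨h0, h1⟩ := it_mem hP hf θ m j
    obtain ⟨g0, g1⟩ := it_mem hP hf θ (m+1) i
    have := mul_le_mul_of_nonneg_left (psi_diff g0 g1 h0 h1) (hβ θ)
    linarith
  have hD0 : 0 ≤ D P β f m i j := Finset.sum_nonneg fun θ _ => mul_nonneg (hβ θ) (abs_nonneg _)
  have hS0 : 0 ≤ S := Finset.sum_nonneg fun θ _ => mul_nonneg (hβ θ) (mul_nonneg
    (mul_nonneg (it_mem hP hf θ (m+1) i).1 (sub_nonneg.2 (it_mem hP hf θ (m+1) i).2)) (abs_nonneg _))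
  -- Cauchy-Schwarz
  have h2 : S^2 ≤ (1/4 * V P β f (m+1) i) * del P β f m i j := by
    have cs := Finset.sum_mul_sq_le_sq_mul_sq Finset.univ
      (fun θ => Real.sqrt (β θ) * (it P (f θ) (m+1) i * (1 - it P (f θ) (m+1) i)))
      (fun θ => Real.sqrt (β θ) * |it P (f θ) m j - it P (f θ) (m+1) i|)
    have e1 : S = ∑ θ, (Real.sqrt (β θ) * (it P (f θ) (m+1) i * (1 - it P (f θ) (m+1) i))) *
        (Real.sqrt (β θ) * |it P (f θ) m j - it P (f θ) (m+1) i|) := by
      rw [hS]
      refine Finset.sum_congr rfl fun θ _ => ?_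
      have := Real.mul_self_sqrt (hβ θ)
      calc _ = (Real.sqrt (β θ) * Real.sqrt (β θ)) * ((it P (f θ) (m+1) i * (1 - it P (f θ) (m+1) i)) * |it P (f θ) m j - it P (f θ) (m+1) i|) := by rw [this]
        _ = _ := by ring
    have e2 : ∑ θ, (Real.sqrt (β θ) * (it P (f θ) (m+1) i * (1 - it P (f θ) (m+1) i)))^2
        ≤ 1/4 * V P β f (m+1) i := by
      unfold V
      rw [Finset.mul_sum]
      refine Finset.sum_le_sum fun θ _ => ?_
      obtain ⟨g0, g1⟩ := it_mem hP hf θ (m+1) i
      set p := it P (f θ) (m+1) i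
      rw [mul_pow, Real.sq_sqrt (hβ θ)]
      have : (p * (1-p))^2 ≤ 1/4 * (p * (1-p)) := by
        have q0 : 0 ≤ p * (1-p) := mul_nonneg g0 (sub_nonneg.2 g1)
        have q1 : p * (1-p) ≤ 1/4 := by nlinarith [sq_nonneg (p - 1/2)]
        nlinarith
      have := mul_le_mul_of_nonneg_left this (hβ θ)
      linarith
    have e3 : ∑ θ, (Real.sqrt (β θ) * |it P (f θ) m j - it P (f θ) (m+1) i|)^2 = del P β f m i j := by
      unfold del
      refine Finset.sum_congr rfl fun θ _ => ?_
      rw [mul_pow, Real.sq_sqrt (hβ θ), sq_abs]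
    rw [← e1, e3] at cs
    exact cs.trans (mul_le_mul_of_nonneg_right e2 (del_nonneg hβ m i j))
  have h3 := D_le_H hP hβ hf a m i j
  have hd0 := del_nonneg (P := P) (f := f) hβ m i j
  -- D^2 ≤ D (6S + 3 δ) ≤ 1/2 D^2 + 18 S^2 + 3 δ D
  have h4 : D P β f m i j ^2 ≤ D P β f m i j * (6 * S + 3 * del P β f m i j) := by
    rw [sq]; exact mul_le_mul_of_nonneg_left h1 hD0
  have h5 : D P β f m i j * (6 * S) ≤ 1/2 * D P β f m i j ^2 + 18 * S^2 := by
    nlinarith [sq_nonneg (D P β f m i j - 6 * S)]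
  have h6 : del P β f m i j * D P β f m i j ≤ del P β f m i j * (9/8 * (H P β f a m j + H P β f a (m+1) i)) :=
    mul_le_mul_of_nonneg_left h3 hd0
  nlinarith

/-- `G` -/
noncomputable def G (P : ι → ι → ℝ) (β : K → ℝ) (f : K → ι → ℝ) (m : ℕ) (i : ι) : ℝ := ∑ j, P i j * del P β f m i j

include hP hβ in
theorem G_nonneg (m : ℕ) (i : ι) : 0 ≤ G P β f m i :=
  Finset.sum_nonneg fun j _ => mul_nonneg (hP.nonneg i j) (del_nonneg hβ m i j)

include hP hβ hf in
/-- predictable cross moment bound -/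
theorem chiS_le (a : ι) (m : ℕ) (i : ι) :
    acc P (fun m i j => G P β f m i * H P β f a m j) m i
      ≤ 2 * it P (fun k => H P β f a 0 k ^2) m i := by
  have q := quad_nonneg hP (fun m i _ => G P β f m i) (H P β f a 0) (1/2) m i 0
  have hV : ∀ m i, acc P (fun m i _ => G P β f m i) m i = V P β f m i := by
    intro m i
    rw [← acc_del hP hf]
    refine acc_congr (fun m i => ?_) m i
    rw [const_avg hP]; rfl
  have hH : ∀ m j, it P (H P β f a 0) m j = H P β f a m j := fun m j => (H_eq_it hP a m j).symm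
  simp only [hV, hH] at q
  have hphi : acc P (fun m i j => G P β f m i ^ 2 + 2 * G P β f m i * V P β f m j) m i
      ≤ 2 * acc P (fun m i j => G P β f m i * H P β f a m j) m i := by
    have := acc_lin P 2 0 (fun m i j => G P β f m i * H P β f a m j) (fun _ _ _ => 0) m i
    have e : 2 * acc P (fun m i j => G P β f m i * H P β f a m j) m i =
        acc P (fun m i j => 2 * (G P β f m i * H P β f a m j) + 0 * 0) m i := by
      rw [this]; ring
    rw [e]
    refine acc_le hP (fun m i => ?_) m i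
    have e1 : ∑ j, P i j * (2 * (G P β f m i * H P β f a m j) + 0 * 0) = 2 * G P β f m i * H P β f a (m+1) i := by
      rw [H_succ hP, Finset.mul_sum]
      exact Finset.sum_congr rfl fun j _ => by ring
    have e2 : ∑ j, P i j * (G P β f m i ^ 2 + 2 * G P β f m i * V P β f m j)
        = G P β f m i ^2 + 2 * G P β f m i * (V P β f (m+1) i - G P β f m i) := by
      have e3 : V P β f (m+1) i - G P β f m i = ∑ j, P i j * V P β f m j := by
        rw [V_succ hP]
        unfold G
        simp only [mul_add, Finset.sum_add_distrib]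
        ring
      rw [e3, Finset.mul_sum]
      simp only [mul_add, Finset.sum_add_distrib, const_avg hP]
      congr 1
      exact Finset.sum_congr rfl fun j _ => by ring
    rw [e1, e2]
    have g0 := G_nonneg (f := f) hP hβ m i
    have vh := V_le_H hP hβ hf a (m+1) i
    nlinarith [mul_le_mul_of_nonneg_left vh g0, mul_nonneg g0 g0]
  nlinarith

include hP hβ hf in
/-- optional cross moment bound -/
theorem chiD_le (a : ι) (m : ℕ) (i : ι) :
    acc P (fun m i j => del P β f m i j * H P β f a m j) m i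
      ≤ 18/5 * it P (fun k => H P β f a 0 k ^2) m i := by
  have q := quad_nonneg hP (del P β f) (H P β f a 0) (1/4) m i 0
  have hH : ∀ m j, it P (H P β f a 0) m j = H P β f a m j := fun m j => (H_eq_it hP a m j).symm
  simp only [acc_del hP hf, hH] at q
  have hphi : acc P (fun m i j => del P β f m i j ^ 2 + 2 * del P β f m i j * V P β f m j) m i
      ≤ 3 * acc P (fun m i j => del P β f m i j * H P β f a m j) m i
        + 1 * acc P (fun m i j => G P β f m i * H P β f a m j) m i := by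
    rw [← acc_lin]
    refine acc_le hP (fun m i => ?_) m i
    have e1 : ∑ j, P i j * (3 * (del P β f m i j * H P β f a m j) + 1 * (G P β f m i * H P β f a m j))
        = ∑ j, P i j * (3 * (del P β f m i j * H P β f a m j) + del P β f m i j * H P β f a (m+1) i) := by
      simp only [mul_add, Finset.sum_add_distrib, one_mul]
      congr 1
      have e2 : ∑ j, P i j * (G P β f m i * H P β f a m j) = G P β f m i * H P β f a (m+1) i := by
        rw [H_succ hP, Finset.mul_sum]
        exact Finset.sum_congr rfl fun j _ => by ring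
      rw [e2]
      unfold G
      rw [Finset.sum_mul]
      exact Finset.sum_congr rfl fun j _ => by ring
    rw [e1]
    refine Finset.sum_le_sum fun j _ => mul_le_mul_of_nonneg_left ?_ (hP.nonneg i j)
    have d0 := del_nonneg (P := P) (f := f) hβ m i j
    have d1 := del_le_H hP hβ hf a m i j
    have v1 := V_le_H hP hβ hf a m j
    nlinarith [mul_le_mul_of_nonneg_left d1 d0, mul_le_mul_of_nonneg_left v1 d0]
  have hS := chiS_le hP hβ hf a m i
  nlinarith

include hP hβ hf in
theorem accD_le (a : ι) (m : ℕ) (i : ι) :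
    acc P (fun m i j => D P β f m i j ^ 2) m i
      ≤ 279/5 * it P (fun k => H P β f a 0 k ^2) m i := by
  have h1 : acc P (fun m i j => D P β f m i j ^ 2) m i ≤
      63/4 * acc P (fun m i j => G P β f m i * H P β f a m j) m i
      + 27/4 * acc P (fun m i j => del P β f m i j * H P β f a m j) m i := by
    rw [← acc_lin]
    refine acc_le hP (fun m i => ?_) m i
    have e1 : ∑ j, P i j * (63/4 * (G P β f m i * H P β f a m j) + 27/4 * (del P β f m i j * H P β f a m j))
        = ∑ j, P i j * (63/4 * (del P β f m i j * H P β f a (m+1) i) + 27/4 * (del P β f m i j * H P β f a m j)) := by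
      simp only [mul_add, Finset.sum_add_distrib]
      congr 1
      have e2 : ∑ j, P i j * (63/4 * (G P β f m i * H P β f a m j)) = 63/4 * (G P β f m i * H P β f a (m+1) i) := by
        rw [H_succ hP, Finset.mul_sum, Finset.mul_sum]
        exact Finset.sum_congr rfl fun j _ => by ring
      rw [e2]
      unfold G
      rw [Finset.sum_mul, Finset.mul_sum]
      exact Finset.sum_congr rfl fun j _ => by ring
    rw [e1]
    refine Finset.sum_le_sum fun j _ => mul_le_mul_of_nonneg_left ?_ (hP.nonneg i j)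
    have d0 := del_nonneg (P := P) (f := f) hβ m i j
    have d1 := D_sq_le hP hβ hf a m i j
    have v1 := V_le_H hP hβ hf a (m+1) i
    nlinarith [mul_le_mul_of_nonneg_left v1 d0]
  have h2 := chiS_le hP hβ hf a m i
  have h3 := chiD_le hP hβ hf a m i
  linarith

end Cuts

end Crest.Agent.H27Markov
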