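import Mathlib
import Crest.Agent.H27Markov

set_option autoImplicit false

namespace Crest.Agent.H27Markov

open Finset

section Energy

variable {n : ℕ} (w : Fin n → ℝ) (d : Fin n → Fin n → ℝ)

/-- energy of a matrix -/
def En (B : Matrix (Fin n) (Fin n) ℝ) : ℝ := ∑ i, ∑ j, w i * B i j * d i j ^ 2

structure WStoch (B : Matrix (Fin n) (Fin n) ℝ) : Prop where
  nonneg : ∀ i j, 0 ≤ B i j
  sum_one : ∀ i, ∑ j, B i j = 1
  stat : ∀ j, ∑ i, w i * B i j = w j

variable {w d}

theorem WStoch.one : WStoch w (1 : Matrix (Fin n) (Fin n) ℝ) where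
  nonneg i j := by
    by_cases h : i = j
    · subst h; simp
    · simp [Matrix.one_apply_ne h]
  sum_one i := by simp [Matrix.one_apply]
  stat j := by simp [Matrix.one_apply]

theorem WStoch.mul {B C : Matrix (Fin n) (Fin n) ℝ} (hB : WStoch w B) (hC : WStoch w C) :
    WStoch w (B * C) where
  nonneg i j := by
    rw [Matrix.mul_apply]
    exact Finset.sum_nonneg fun k _ => mul_nonneg (hB.nonneg i k) (hC.nonneg k j)
  sum_one i := by
    simp only [Matrix.mul_apply]
    rw [Finset.sum_comm]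
    simp only [← Finset.mul_sum, hC.sum_one, mul_one, hB.sum_one]
  stat j := by
    simp only [Matrix.mul_apply, Finset.mul_sum]
    rw [Finset.sum_comm]
    have : ∀ k, ∑ i, w i * (B i k * C k j) = w k * C k j := by
      intro k
      rw [← hB.stat k, Finset.sum_mul]
      exact Finset.sum_congr rfl fun i _ => by ring
    simp only [this, hC.stat]

theorem WStoch.pow {B : Matrix (Fin n) (Fin n) ℝ} (hB : WStoch w B) (k : ℕ) :
    WStoch w (B ^ k) := by
  induction k with
  | zero => rw [pow_zero]; exact WStoch.one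
  | succ k ih => rw [pow_succ]; exact ih.mul hB

variable (hw : ∀ i, 0 ≤ w i)
variable (htri : ∀ i j k, d i j ^ 2 ≤ 2 * (d i k ^ 2 + d k j ^ 2)) (hsymm : ∀ i j, d i j = d j i)
variable (hd0 : ∀ i, d i i = 0)

include hw in
theorem En_nonneg {B : Matrix (Fin n) (Fin n) ℝ} (hB : WStoch w B) : 0 ≤ En w d B :=
  Finset.sum_nonneg fun i _ => Finset.sum_nonneg fun j _ =>
    mul_nonneg (mul_nonneg (hw i) (hB.nonneg i j)) (sq_nonneg _)

include hd0 in
theorem En_one : En w d 1 = 0 := by
  unfold En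
  refine Finset.sum_eq_zero fun i _ => Finset.sum_eq_zero fun j _ => ?_
  by_cases h : i = j
  · subst h; simp [hd0]
  · simp [Matrix.one_apply_ne h]

theorem En_left {B C : Matrix (Fin n) (Fin n) ℝ} (hC : WStoch w C) :
    ∑ i, ∑ j, ∑ k, w i * B i j * C j k * d i j ^ 2 = En w d B := by
  unfold En
  refine Finset.sum_congr rfl fun i _ => Finset.sum_congr rfl fun j _ => ?_
  rw [← Finset.sum_mul, ← Finset.mul_sum, hC.sum_one, mul_one]

theorem En_right {B C : Matrix (Fin n) (Fin n) ℝ} (hB : WStoch w B) :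
    ∑ i, ∑ j, ∑ k, w i * B i j * C j k * d j k ^ 2 = En w d C := by
  unfold En
  rw [Finset.sum_comm]
  refine Finset.sum_congr rfl fun j _ => ?_
  rw [Finset.sum_comm]
  refine Finset.sum_congr rfl fun k _ => ?_
  rw [← hB.stat j]
  simp only [Finset.sum_mul]

theorem En_mul {B C : Matrix (Fin n) (Fin n) ℝ} :
    ∑ i, ∑ j, ∑ k, w i * B i j * C j k * d i k ^ 2 = En w d (B * C) := by
  unfold En
  refine Finset.sum_congr rfl fun i _ => ?_
  rw [Finset.sum_comm]
  refine Finset.sum_congr rfl fun k _ => ?_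
  rw [Matrix.mul_apply, Finset.mul_sum, Finset.sum_mul]
  exact Finset.sum_congr rfl fun j _ => by ring

include hw htri in
theorem En_mul_le {B C : Matrix (Fin n) (Fin n) ℝ} (hB : WStoch w B) (hC : WStoch w C) :
    En w d (B * C) ≤ 2 * (En w d B + En w d C) := by
  rw [← En_left (B := B) hC, ← En_right (C := C) hB, ← En_mul]
  simp only [← Finset.sum_add_distrib, Finset.mul_sum]
  refine Finset.sum_le_sum fun i _ => Finset.sum_le_sum fun j _ => Finset.sum_le_sum fun k _ => ?_
  have h0 : 0 ≤ w i * B i j * C j k := mul_nonneg (mul_nonneg (hw i) (hB.nonneg i j)) (hC.nonneg j k)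
  have := mul_le_mul_of_nonneg_left (htri i k j) h0
  linarith

include hw htri hsymm in
theorem En_le_mul {B C : Matrix (Fin n) (Fin n) ℝ} (hB : WStoch w B) (hC : WStoch w C) :
    En w d B ≤ 2 * (En w d (B * C) + En w d C) := by
  rw [← En_left (B := B) hC, ← En_right (C := C) hB, ← En_mul]
  simp only [← Finset.sum_add_distrib, Finset.mul_sum]
  refine Finset.sum_le_sum fun i _ => Finset.sum_le_sum fun j _ => Finset.sum_le_sum fun k _ => ?_
  have h0 : 0 ≤ w i * B i j * C j k := mul_nonneg (mul_nonneg (hw i) (hB.nonneg i j)) (hC.nonneg j k)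
  have h1 := htri i j k
  rw [hsymm k j] at h1
  have := mul_le_mul_of_nonneg_left h1 h0
  linarith

include hw htri hsymm hd0 in
theorem En_pow_le {A : Matrix (Fin n) (Fin n) ℝ} (hA : WStoch w A) (t k : ℕ) (hk : k ≤ t) :
    (t : ℝ) * En w d (A ^ k) ≤ 6 * ∑ s ∈ Finset.Icc 1 t, En w d (A ^ s) := by
  set e : ℕ → ℝ := fun s => En w d (A ^ s) with he
  have e0 : e 0 = 0 := by simp only [he, pow_zero]; exact En_one hd0
  have enn : ∀ s, 0 ≤ e s := fun s => En_nonneg hw (hA.pow s)
  have key : ∀ s : ℕ, e k ≤ 2 * (e (s+1) + (e (k - 1 - s) + e (s + 1 - k))) := by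
    intro s
    rcases le_or_gt (s+1) k with h | h
    · have h1 : s + 1 - k = 0 := by omega
      have h2 : k = (s+1) + (k - 1 - s) := by omega
      have h3 := En_mul_le hw htri (hA.pow (s+1)) (hA.pow (k-1-s))
      rw [← pow_add, ← h2] at h3
      rw [h1, e0, add_zero]
      exact h3
    · have h1 : k - 1 - s = 0 := by omega
      have h2 : s + 1 = k + (s + 1 - k) := by omega
      have h3 := En_le_mul hw htri hsymm (hA.pow k) (hA.pow (s + 1 - k))
      rw [← pow_add, ← h2] at h3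
      rw [h1, e0, zero_add]
      exact h3
  have hsum : (t : ℝ) * e k ≤ ∑ s ∈ Finset.range t, 2 * (e (s+1) + (e (k - 1 - s) + e (s + 1 - k))) := by
    calc (t : ℝ) * e k = ∑ s ∈ Finset.range t, e k := by simp
      _ ≤ _ := Finset.sum_le_sum fun s _ => key s
  have hI : ∑ s ∈ Finset.Icc 1 t, e s = ∑ s ∈ Finset.range t, e (s+1) := by
    rw [Finset.range_eq_Ico, Finset.sum_Ico_add' (fun s => e s) 0 t 1]
    rfl
  have hR : ∑ s ∈ Finset.range (t+1), e s = ∑ s ∈ Finset.range t, e (s+1) := by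
    rw [Finset.sum_range_succ', e0, add_zero]
  obtain ⟨r, hr⟩ := Nat.exists_eq_add_of_le hk
  have h1 : ∑ s ∈ Finset.range t, e (k - 1 - s) ≤ ∑ s ∈ Finset.range t, e (s+1) := by
    rw [← hR]
    have a1 : ∑ s ∈ Finset.range t, e (k - 1 - s) = ∑ s ∈ Finset.range k, e s := by
      conv_lhs => rw [hr]
      rw [Finset.sum_range_add, Finset.sum_range_reflect e k]
      have : ∑ x ∈ Finset.range r, e (k - 1 - (k + x)) = 0 := by
        refine Finset.sum_eq_zero fun x _ => ?_
        have : k - 1 - (k + x) = 0 := by omega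
        rw [this, e0]
      rw [this, add_zero]
    rw [a1]
    exact Finset.sum_le_sum_of_subset_of_nonneg (Finset.range_mono (by omega)) fun s _ _ => enn s
  have h2 : ∑ s ∈ Finset.range t, e (s + 1 - k) ≤ ∑ s ∈ Finset.range t, e (s+1) := by
    have a1 : ∑ s ∈ Finset.range t, e (s + 1 - k) = ∑ s ∈ Finset.range r, e (s+1) := by
      conv_lhs => rw [hr]
      rw [Finset.sum_range_add]
      have : ∑ x ∈ Finset.range k, e (x + 1 - k) = 0 := by
        refine Finset.sum_eq_zero fun x hx => ?_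
        have hx' := Finset.mem_range.1 hx
        have : x + 1 - k = 0 := by omega
        rw [this, e0]
      rw [this, zero_add]
      refine Finset.sum_congr rfl fun x _ => ?_
      congr 1; omega
    rw [a1]
    exact Finset.sum_le_sum_of_subset_of_nonneg (Finset.range_mono (by omega)) fun s _ _ => enn _
  have hgoal : ∑ s ∈ Finset.Icc 1 t, En w d (A ^ s) = ∑ s ∈ Finset.range t, e (s+1) := hI
  rw [hgoal]
  have hsum2 : ∑ s ∈ Finset.range t, 2 * (e (s+1) + (e (k - 1 - s) + e (s + 1 - k)))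
      = 2 * (∑ s ∈ Finset.range t, e (s+1) + (∑ s ∈ Finset.range t, e (k-1-s) + ∑ s ∈ Finset.range t, e (s+1-k))) := by
    rw [← Finset.mul_sum, Finset.sum_add_distrib, Finset.sum_add_distrib]
  rw [hsum2] at hsum
  have : (t:ℝ) * En w d (A ^ k) = (t:ℝ) * e k := rfl
  rw [this]
  linarith

theorem En_half (B C : Matrix (Fin n) (Fin n) ℝ) :
    En w d ((1/2 : ℝ) • (B + C)) = 1/2 * (En w d B + En w d C) := by
  unfold En
  simp only [Matrix.smul_apply, Matrix.add_apply, smul_eq_mul, ← Finset.sum_add_distrib, Finset.mul_sum]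
  exact Finset.sum_congr rfl fun i _ => Finset.sum_congr rfl fun j _ => by ring

theorem En_lazy_le {A : Matrix (Fin n) (Fin n) ℝ} {t : ℕ} {B0 : ℝ}
    (hB : ∀ k ≤ t, En w d (A ^ k) ≤ B0) :
    ∀ T l : ℕ, T + l ≤ t → En w d (((1/2 : ℝ) • (1 + A)) ^ T * A ^ l) ≤ B0 := by
  intro T
  induction T with
  | zero => intro l hl; simpa using hB l (by omega)
  | succ T ih =>
    intro l hl
    have e : ((1/2 : ℝ) • (1 + A)) ^ (T+1) * A ^ l
        = (1/2 : ℝ) • (((1/2 : ℝ) • (1 + A)) ^ T * A ^ l + ((1/2 : ℝ) • (1 + A)) ^ T * A ^ (l+1)) := by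
      rw [pow_succ, mul_assoc, smul_mul_assoc, add_mul, one_mul, ← pow_succ', mul_smul_comm, mul_add]
    rw [e, En_half]
    have h1 := ih l (by omega)
    have h2 := ih (l+1) (by omega)
    linarith

end Energy

section Main

variable {n : ℕ} {K : Type*} [Fintype K]

theorem it_eq_pow (B : Matrix (Fin n) (Fin n) ℝ) (g : Fin n → ℝ) (m : ℕ) (i : Fin n) :
    it (fun i j => B i j) g m i = ∑ k, (B ^ m) i k * g k := by
  induction m generalizing i with
  | zero => simp [it_zero, Matrix.one_apply]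
  | succ m ih =>
    rw [it_succ]
    simp only [ih, pow_succ', Matrix.mul_apply, Finset.mul_sum, Finset.sum_mul]
    rw [Finset.sum_comm]
    exact Finset.sum_congr rfl fun k _ => Finset.sum_congr rfl fun j _ => by ring

theorem jensen_sq {ι : Type*} [Fintype ι] (p x : ι → ℝ) (hp : ∀ i, 0 ≤ p i) (h1 : ∑ i, p i = 1) :
    (∑ i, p i * x i)^2 ≤ ∑ i, p i * x i ^2 := by
  have h : 0 ≤ ∑ i, p i * (x i - ∑ j, p j * x j)^2 :=
    Finset.sum_nonneg fun i _ => mul_nonneg (hp i) (sq_nonneg _)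
  set μ := ∑ j, p j * x j with hμ
  have e : ∑ i, p i * (x i - μ)^2 = ∑ i, p i * x i ^2 - μ^2 := by
    have : ∀ i, p i * (x i - μ)^2 = p i * x i ^2 - 2 * μ * (p i * x i) + p i * μ^2 := fun i => by ring
    simp only [this, Finset.sum_add_distrib, Finset.sum_sub_distrib, ← Finset.mul_sum, ← Finset.sum_mul, h1, ← hμ]
    ring
  linarith

theorem fin_main (t : ℕ) (ht : 1 ≤ t)
    (w : Fin n → ℝ) (A : Matrix (Fin n) (Fin n) ℝ) (hw : ∀ i, 0 ≤ w i)
    (hA : ∀ i j, 0 ≤ A i j) (hA1 : ∀ i, ∑ j, A i j = 1) (hrev : ∀ i j, w i * A i j = w j * A j i)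
    (β : K → ℝ) (f : K → Fin n → ℝ) (hβ : ∀ θ, 0 ≤ β θ) (hf : ∀ θ i, f θ i = 0 ∨ f θ i = 1)
    (d : Fin n → Fin n → ℝ) (hd : ∀ i j, d i j = ∑ θ, β θ * |f θ i - f θ j|) :
    ∃ z : K → Fin n → ℝ,
      ∑ i, w i * (∑ θ, β θ * |f θ i - z θ i|)^2
        + t * ∑ i, ∑ j, w i * A i j * (∑ θ, β θ * |z θ i - z θ j|)^2
        ≤ 3024 * (1 / (t:ℝ) * ∑ s ∈ Finset.Icc 1 t, En w d (A ^ s)) := by
  have ht0 : (0:ℝ) < t := by exact_mod_cast ht
  -- basic facts on d
  have hsymm : ∀ i j, d i j = d j i := by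
    intro i j; rw [hd, hd]; exact Finset.sum_congr rfl fun θ _ => by rw [abs_sub_comm]
  have hd0 : ∀ i, d i i = 0 := by intro i; rw [hd]; simp
  have hdnn : ∀ i j, 0 ≤ d i j := by
    intro i j; rw [hd]; exact Finset.sum_nonneg fun θ _ => mul_nonneg (hβ θ) (abs_nonneg _)
  have htri1 : ∀ i j k, d i j ≤ d i k + d k j := by
    intro i j k
    rw [hd, hd, hd, ← Finset.sum_add_distrib]
    refine Finset.sum_le_sum fun θ _ => ?_
    rw [← mul_add]
    exact mul_le_mul_of_nonneg_left (abs_sub_le _ _ _) (hβ θ)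
  have htri : ∀ i j k, d i j ^ 2 ≤ 2 * (d i k ^ 2 + d k j ^ 2) := by
    intro i j k
    have := htri1 i j k
    nlinarith [hdnn i j, hdnn i k, hdnn k j, sq_nonneg (d i k - d k j), sq_nonneg (d i k + d k j - d i j),
      mul_self_le_mul_self (hdnn i j) this]
  -- stochasticity
  have hAs : WStoch w A := by
    refine ⟨hA, hA1, fun j => ?_⟩
    have : ∀ i, w i * A i j = w j * A j i := fun i => hrev i j
    simp only [this, ← Finset.mul_sum, hA1, mul_one]
  set B : Matrix (Fin n) (Fin n) ℝ := (1/2 : ℝ) • (1 + A) with hBdef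
  have hBapp : ∀ i j, B i j = 1/2 * ((1 : Matrix (Fin n) (Fin n) ℝ) i j + A i j) := by
    intro i j; rw [hBdef]; simp [Matrix.smul_apply, Matrix.add_apply]
  have h1s : WStoch w (1 : Matrix (Fin n) (Fin n) ℝ) := WStoch.one
  have hBs : WStoch w B := by
    refine ⟨fun i j => ?_, fun i => ?_, fun j => ?_⟩
    · rw [hBapp]; have := h1s.nonneg i j; have := hA i j; positivity
    · simp only [hBapp, ← Finset.mul_sum, Finset.sum_add_distrib, h1s.sum_one, hA1]; norm_num
    · have e : ∀ i, w i * B i j = 1/2 * (w i * (1 : Matrix (Fin n) (Fin n) ℝ) i j) + 1/2 * (w i * A i j) := by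
        intro i; rw [hBapp]; ring
      simp only [e, Finset.sum_add_distrib, ← Finset.mul_sum, h1s.stat, hAs.stat]; ring
  set P : Fin n → Fin n → ℝ := fun i j => B i j with hPdef
  have hP : Stoch P := ⟨hBs.nonneg, hBs.sum_one⟩
  -- M
  set M : ℝ := 1 / (t:ℝ) * ∑ s ∈ Finset.Icc 1 t, En w d (A ^ s) with hM
  have hM0 : 0 ≤ M := by
    rw [hM]
    exact mul_nonneg (by positivity) (Finset.sum_nonneg fun s _ => En_nonneg hw (hAs.pow s))
  have hpow : ∀ k ≤ t, En w d (A ^ k) ≤ 6 * M := by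
    intro k hk
    have h := En_pow_le hw htri hsymm hd0 hAs t k hk
    have : (t:ℝ) * En w d (A ^ k) ≤ t * (6 * M) := by
      rw [hM]
      calc _ ≤ _ := h
        _ = _ := by field_simp
    exact le_of_mul_le_mul_left this ht0
  have hlazy : ∀ T ≤ t, En w d (B ^ T) ≤ 6 * M := by
    intro T hT
    have := En_lazy_le hpow T 0 (by omega)
    rw [pow_zero, mul_one] at this
    exact this
  -- H a 0 k = d a k
  have hH0 : ∀ a k, H P β f a 0 k = d a k := by
    intro a k
    rw [hd]; unfold H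
    refine Finset.sum_congr rfl fun θ _ => ?_
    rw [it_zero]
    rcases hf θ a with h | h <;> rcases hf θ k with h' | h' <;> rw [h, h'] <;> norm_num
  have hH : ∀ a m i, H P β f a m i = ∑ k, (B ^ m) i k * d a k := by
    intro a m i
    rw [H_eq_it hP, hPdef, it_eq_pow]
    exact Finset.sum_congr rfl fun k _ => by rw [← hH0]
  -- sum bound
  have hsum : ∑ m ∈ Finset.range t, ∑ i, w i * ∑ j, P i j * D P β f m i j ^ 2 ≤ 279/5 * (6 * M) := by
    rw [← sum_acc hBs.stat (fun m i j => D P β f m i j ^ 2) t]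
    have h1 : ∑ i, w i * acc P (fun m i j => D P β f m i j ^ 2) t i ≤
        ∑ i, w i * (279/5 * it P (fun k => H P β f i 0 k ^2) t i) :=
      Finset.sum_le_sum fun i _ => mul_le_mul_of_nonneg_left (accD_le hP hβ hf i t i) (hw i)
    refine h1.trans ?_
    have h2 : ∑ i, w i * (279/5 * it P (fun k => H P β f i 0 k ^2) t i) = 279/5 * En w d (B ^ t) := by
      unfold En
      rw [Finset.mul_sum]
      refine Finset.sum_congr rfl fun i _ => ?_
      rw [hPdef, it_eq_pow, Finset.mul_sum, Finset.mul_sum, Finset.mul_sum]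
      refine Finset.sum_congr rfl fun k _ => ?_
      have := hH0 i k
      rw [hPdef] at this
      rw [this]; ring
    rw [h2]
    have := hlazy t le_rfl
    linarith
  -- pigeonhole
  obtain ⟨m, hm, hq⟩ : ∃ m ∈ Finset.range t, ∑ i, w i * ∑ j, P i j * D P β f m i j ^ 2 ≤ 279/5 * (6 * M) / t := by
    refine Finset.exists_le_of_sum_le (Finset.nonempty_range_iff.2 (by omega)) ?_
    rw [Finset.sum_const, Finset.card_range, nsmul_eq_mul]
    refine hsum.trans (le_of_eq ?_)
    field_simp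
  have hmt : m ≤ t := (Finset.mem_range.1 hm).le
  refine ⟨fun θ i => psi (it P (f θ) m i), ?_⟩
  -- (a)
  have ha : ∑ i, w i * (∑ θ, β θ * |f θ i - psi (it P (f θ) m i)|)^2 ≤ 81/64 * (6 * M) := by
    have h1 : ∀ i, (∑ θ, β θ * |f θ i - psi (it P (f θ) m i)|)^2 ≤ 81/64 * ∑ k, (B^m) i k * d i k ^2 := by
      intro i
      have b1 : ∑ θ, β θ * |f θ i - psi (it P (f θ) m i)| ≤ 9/8 * H P β f i m i := by
        unfold H
        rw [Finset.mul_sum]
        refine Finset.sum_le_sum fun θ _ => ?_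
        obtain ⟨h0, h1⟩ := it_mem hP hf θ m i
        have := mul_le_mul_of_nonneg_left (psi_bound (hf θ i) h0 h1) (hβ θ)
        linarith
      have b0 : 0 ≤ ∑ θ, β θ * |f θ i - psi (it P (f θ) m i)| :=
        Finset.sum_nonneg fun θ _ => mul_nonneg (hβ θ) (abs_nonneg _)
      have b2 : H P β f i m i ^2 ≤ ∑ k, (B^m) i k * d i k ^2 := by
        rw [hH]
        exact jensen_sq _ _ ((hBs.pow m).nonneg i) ((hBs.pow m).sum_one i)
      have b3 := pow_le_pow_left₀ b0 b1 2
      nlinarith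
    calc ∑ i, w i * (∑ θ, β θ * |f θ i - psi (it P (f θ) m i)|)^2
        ≤ ∑ i, w i * (81/64 * ∑ k, (B^m) i k * d i k ^2) :=
          Finset.sum_le_sum fun i _ => mul_le_mul_of_nonneg_left (h1 i) (hw i)
      _ = 81/64 * En w d (B^m) := by
          unfold En
          rw [Finset.mul_sum]
          refine Finset.sum_congr rfl fun i _ => ?_
          rw [Finset.mul_sum, Finset.mul_sum, Finset.mul_sum]
          exact Finset.sum_congr rfl fun k _ => by ring
      _ ≤ _ := by have := hlazy m hmt; linarith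
  -- (b)
  have hb : ∑ i, ∑ j, w i * A i j * (∑ θ, β θ * |psi (it P (f θ) m i) - psi (it P (f θ) m j)|)^2
      ≤ 4 * ∑ i, w i * ∑ j, P i j * D P β f m i j ^ 2 := by
    have e : ∀ i, ∑ j, P i j * D P β f m i j ^ 2
        = 1/2 * D P β f m i i ^2 + 1/2 * ∑ j, A i j * D P β f m i j ^2 := by
      intro i
      have : ∀ j, P i j * D P β f m i j ^ 2 = 1/2 * ((1 : Matrix (Fin n) (Fin n) ℝ) i j * D P β f m i j ^2)
          + 1/2 * (A i j * D P β f m i j ^2) := by
        intro j
        have : P i j = 1/2 * ((1 : Matrix (Fin n) (Fin n) ℝ) i j + A i j) := hBapp i j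
        rw [this]; ring
      simp only [this, Finset.sum_add_distrib, ← Finset.mul_sum]
      congr 2
      simp [Matrix.one_apply]
    rw [Finset.mul_sum]
    refine Finset.sum_le_sum fun i _ => ?_
    rw [e]
    have h1 : ∀ j, (∑ θ, β θ * |psi (it P (f θ) m i) - psi (it P (f θ) m j)|)^2
        ≤ 2 * D P β f m i i ^2 + 2 * D P β f m i j ^2 := by
      intro j
      have b1 : ∑ θ, β θ * |psi (it P (f θ) m i) - psi (it P (f θ) m j)| ≤ D P β f m i i + D P β f m i j := by
        unfold D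
        rw [← Finset.sum_add_distrib]
        refine Finset.sum_le_sum fun θ _ => ?_
        rw [← mul_add]
        refine mul_le_mul_of_nonneg_left ?_ (hβ θ)
        rw [abs_sub_comm (psi (it P (f θ) m j)) (psi (it P (f θ) (m+1) i))]
        exact abs_sub_le _ _ _
      have b0 : 0 ≤ ∑ θ, β θ * |psi (it P (f θ) m i) - psi (it P (f θ) m j)| :=
        Finset.sum_nonneg fun θ _ => mul_nonneg (hβ θ) (abs_nonneg _)
      have b3 := pow_le_pow_left₀ b0 b1 2
      nlinarith [sq_nonneg (D P β f m i i - D P β f m i j)]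
    calc ∑ j, w i * A i j * (∑ θ, β θ * |psi (it P (f θ) m i) - psi (it P (f θ) m j)|)^2
        ≤ ∑ j, w i * A i j * (2 * D P β f m i i ^2 + 2 * D P β f m i j ^2) :=
          Finset.sum_le_sum fun j _ => mul_le_mul_of_nonneg_left (h1 j) (mul_nonneg (hw i) (hA i j))
      _ = w i * ((∑ j, A i j) * (2 * D P β f m i i ^2) + 2 * ∑ j, A i j * D P β f m i j ^2) := by
          rw [Finset.sum_mul, Finset.mul_sum, ← Finset.sum_add_distrib, Finset.mul_sum]
          exact Finset.sum_congr rfl fun j _ => by ring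
      _ = _ := by rw [hA1]; ring
  have hb' : (t:ℝ) * ∑ i, ∑ j, w i * A i j * (∑ θ, β θ * |psi (it P (f θ) m i) - psi (it P (f θ) m j)|)^2
      ≤ 4 * (279/5 * (6 * M)) := by
    have h1 := mul_le_mul_of_nonneg_left (hb.trans (mul_le_mul_of_nonneg_left hq (by norm_num : (0:ℝ) ≤ 4))) ht0.le
    refine h1.trans (le_of_eq ?_)
    field_simp
  calc _ ≤ 81/64 * (6 * M) + 4 * (279/5 * (6 * M)) := add_le_add ha hb'
    _ ≤ 3024 * M := by nlinarith

end Main

end Crest.Agent.H27Markov
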