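import Mathlib
import Crest.Prelude.Def_MultiMarginal
import Crest.Agent.H27Atomless

/-!
Abstract measure-theoretic part of S0175, helper lemmas.
-/

set_option autoImplicit false

open MeasureTheory Set
open scoped ENNReal
open Crest.AnalysisR.OT

namespace Crest.Agent.H27OTAbs

section basics

variable {E : Type*} [NormedAddCommGroup E]

theorem pairCost_comm (s : ℝ) (x y : E) : pairCost s x y = pairCost s y x := by
  unfold pairCost; rw [norm_sub_rev]

theorem tc_213 (s : ℝ) (x y z : E) : tripleCost s (y, x, z) = tripleCost s (x, y, z) := by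
  unfold tripleCost; simp only; rw [pairCost_comm s y x]; ring

theorem tc_132 (s : ℝ) (x y z : E) : tripleCost s (x, z, y) = tripleCost s (x, y, z) := by
  unfold tripleCost; simp only; rw [pairCost_comm s z y]; ring

theorem tc_312 (s : ℝ) (x y z : E) : tripleCost s (z, x, y) = tripleCost s (x, y, z) := by
  rw [tc_213, tc_132]

theorem tc_231 (s : ℝ) (x y z : E) : tripleCost s (y, z, x) = tripleCost s (x, y, z) := by
  rw [tc_132, tc_213]

variable [MeasurableSpace E] [BorelSpace E] [SecondCountableTopology E]

theorem measurable_tc (s : ℝ) : Measurable (tripleCost s : E × E × E → ℝ≥0∞) := by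
  unfold tripleCost pairCost
  fun_prop

end basics

section plan

variable {E : Type*} [MeasurableSpace E]

/-- the symmetric half plan attached to `x ↦ (x, b x, c x)` -/
noncomputable def plan (α : Measure E) (b c : E → E) : Measure (E × E × E) :=
  α.map (fun x => (x, b x, c x)) + α.map (fun x => (b x, c x, x)) +
    α.map (fun x => (c x, x, b x))

variable {α : Measure E} {b c : E → E} (hb : Measurable b) (hc : Measurable c)
include hb hc

theorem plan_map_fst : (plan α b c).map (fun p => p.1) = α + α.map b + α.map c := by
  unfold plan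
  rw [Measure.map_add _ _ (by fun_prop), Measure.map_add _ _ (by fun_prop),
    Measure.map_map (by fun_prop) (by fun_prop), Measure.map_map (by fun_prop) (by fun_prop),
    Measure.map_map (by fun_prop) (by fun_prop)]
  have : ((fun p : E × E × E => p.1) ∘ fun x => (x, b x, c x)) = id := rfl
  rw [this, Measure.map_id]
  rfl

theorem plan_map_snd : (plan α b c).map (fun p => p.2.1) = α + α.map b + α.map c := by
  unfold plan
  rw [Measure.map_add _ _ (by fun_prop), Measure.map_add _ _ (by fun_prop),
    Measure.map_map (by fun_prop) (by fun_prop), Measure.map_map (by fun_prop) (by fun_prop),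
    Measure.map_map (by fun_prop) (by fun_prop)]
  have : ((fun p : E × E × E => p.2.1) ∘ fun x => (c x, x, b x)) = id := rfl
  rw [this, Measure.map_id]
  have h1 : ((fun p : E × E × E => p.2.1) ∘ fun x => (x, b x, c x)) = b := rfl
  have h2 : ((fun p : E × E × E => p.2.1) ∘ fun x => (b x, c x, x)) = c := rfl
  rw [h1, h2]
  abel

theorem plan_map_trd : (plan α b c).map (fun p => p.2.2) = α + α.map b + α.map c := by
  unfold plan
  rw [Measure.map_add _ _ (by fun_prop), Measure.map_add _ _ (by fun_prop),
    Measure.map_map (by fun_prop) (by fun_prop), Measure.map_map (by fun_prop) (by fun_prop),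
    Measure.map_map (by fun_prop) (by fun_prop)]
  have : ((fun p : E × E × E => p.2.2) ∘ fun x => (b x, c x, x)) = id := rfl
  rw [this, Measure.map_id]
  have h1 : ((fun p : E × E × E => p.2.2) ∘ fun x => (x, b x, c x)) = c := rfl
  have h2 : ((fun p : E × E × E => p.2.2) ∘ fun x => (c x, x, b x)) = b := rfl
  rw [h1, h2]
  abel

theorem lintegral_plan {g : E × E × E → ℝ≥0∞} (hg : Measurable g) :
    ∫⁻ p, g p ∂(plan α b c) = ∫⁻ x, g (x, b x, c x) ∂α + ∫⁻ x, g (b x, c x, x) ∂α +
      ∫⁻ x, g (c x, x, b x) ∂α := by
  unfold plan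
  rw [lintegral_add_measure, lintegral_add_measure, lintegral_map hg (by fun_prop),
    lintegral_map hg (by fun_prop), lintegral_map hg (by fun_prop)]

end plan

theorem half_add {M : Type*} [AddCommMonoid M] [Module ℝ≥0∞ M] (a X : M) :
    (2 : ℝ≥0∞)⁻¹ • (a + a + X) = a + (2 : ℝ≥0∞)⁻¹ • X := by
  rw [smul_add, smul_add, ← add_smul, ENNReal.inv_two_add_inv_two, one_smul]

end Crest.Agent.H27OTAbs
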