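import Crest.Agent.H27OTAbs

/-!
Abstract measure-theoretic part of S0175: optimality of the symmetric plan, non-existence of
Monge minimisers, approximation by Monge plans.
-/

set_option autoImplicit false
set_option linter.unusedSectionVars false

open MeasureTheory Set
open scoped ENNReal
open Crest.AnalysisR.OT

namespace Crest.Agent.H27OTAbs

/-- `p` is one of the six orderings of `(x, b x, c x)` for some `x ∈ A`. -/
def Contact {E : Type*} (A : Set E) (b c : E → E) (p : E × E × E) : Prop :=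
  ∃ x ∈ A, p = (x, b x, c x) ∨ p = (x, c x, b x) ∨ p = (b x, x, c x) ∨ p = (b x, c x, x) ∨
    p = (c x, x, b x) ∨ p = (c x, b x, x)

variable {E : Type*} [NormedAddCommGroup E] [MeasurableSpace E] [BorelSpace E]
  [SecondCountableTopology E]

structure Setup (s : ℝ) (α μ : Measure E) (A B C B' C' : Set E)
    (b c b' c' ib ic ib' ic' : E → E) (v : E → ℝ≥0∞) (N : ℝ≥0∞) : Prop where
  hAm : MeasurableSet A
  hBm : MeasurableSet B
  hCm : MeasurableSet C
  hB'm : MeasurableSet B'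
  hC'm : MeasurableSet C'
  hAB : Disjoint A B
  hAC : Disjoint A C
  hAB' : Disjoint A B'
  hAC' : Disjoint A C'
  hBC : Disjoint B C
  hBB' : Disjoint B B'
  hBC' : Disjoint B C'
  hCB' : Disjoint C B'
  hCC' : Disjoint C C'
  hB'C' : Disjoint B' C'
  hαA : α Aᶜ = 0
  hb : Measurable b
  hc : Measurable c
  hb' : Measurable b'
  hc' : Measurable c'
  hib : Measurable ib
  hic : Measurable ic
  hib' : Measurable ib'
  hic' : Measurable ic'
  hbB : ∀ x ∈ A, b x ∈ B ∧ ib (b x) = x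
  hcC : ∀ x ∈ A, c x ∈ C ∧ ic (c x) = x
  hb'B' : ∀ x ∈ A, b' x ∈ B' ∧ ib' (b' x) = x
  hc'C' : ∀ x ∈ A, c' x ∈ C' ∧ ic' (c' x) = x
  hμ : μ = α + (2 : ℝ≥0∞)⁻¹ • (α.map b + α.map c + α.map b' + α.map c')
  hv : Measurable v
  hN : N ≠ ⊤
  hle : ∀ x ∈ A ∪ B ∪ C ∪ B' ∪ C', ∀ y ∈ A ∪ B ∪ C ∪ B' ∪ C', ∀ z ∈ A ∪ B ∪ C ∪ B' ∪ C',
      N ≤ tripleCost s (x, y, z) + (v x + v y + v z)
  hcontact : ∀ x ∈ A ∪ B ∪ C ∪ B' ∪ C', ∀ y ∈ A ∪ B ∪ C ∪ B' ∪ C', ∀ z ∈ A ∪ B ∪ C ∪ B' ∪ C',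
      tripleCost s (x, y, z) + (v x + v y + v z) = N →
        Contact A b c (x, y, z) ∨ Contact A b' c' (x, y, z)
  heq : ∀ x ∈ A, tripleCost s (x, b x, c x) + (v x + v (b x) + v (c x)) = N
  heq' : ∀ x ∈ A, tripleCost s (x, b' x, c' x) + (v x + v (b' x) + v (c' x)) = N

variable {s : ℝ} {α μ : Measure E} {A B C B' C' : Set E}
    {b c b' c' ib ic ib' ic' : E → E} {v : E → ℝ≥0∞} {N : ℝ≥0∞}

namespace Setup

section
variable (h : Setup s α μ A B C B' C' b c b' c' ib ic ib' ic' v N)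
include h

theorem ae_A : ∀ᵐ x ∂α, x ∈ A := by rw [ae_iff]; exact h.hαA

theorem lint {f : E → ℝ≥0∞} (hf : Measurable f) : ∫⁻ x, f x ∂μ = ∫⁻ x, f x ∂α + (2 : ℝ≥0∞)⁻¹ *
    (∫⁻ x, f (b x) ∂α + ∫⁻ x, f (c x) ∂α + ∫⁻ x, f (b' x) ∂α + ∫⁻ x, f (c' x) ∂α) := by
  rw [h.hμ, lintegral_add_measure, lintegral_smul_measure, lintegral_add_measure,
    lintegral_add_measure, lintegral_add_measure, lintegral_map hf h.hb, lintegral_map hf h.hc,
    lintegral_map hf h.hb', lintegral_map hf h.hc', smul_eq_mul]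

theorem meas {S : Set E} (hS : MeasurableSet S) : μ S = α S + (2 : ℝ≥0∞)⁻¹ *
    (α (b ⁻¹' S) + α (c ⁻¹' S) + α (b' ⁻¹' S) + α (c' ⁻¹' S)) := by
  rw [h.hμ, Measure.add_apply, Measure.smul_apply, Measure.add_apply, Measure.add_apply,
    Measure.add_apply, Measure.map_apply h.hb hS, Measure.map_apply h.hc hS,
    Measure.map_apply h.hb' hS, Measure.map_apply h.hc' hS, smul_eq_mul]

theorem mass : μ univ = 3 * α univ := by
  rw [h.meas MeasurableSet.univ]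
  simp only [preimage_univ]
  have : α univ + α univ + α univ + α univ = 2 * (2 * α univ) := by ring
  rw [this, ← mul_assoc, ENNReal.inv_mul_cancel (by norm_num) (by norm_num), one_mul]
  ring

theorem hK : MeasurableSet (A ∪ B ∪ C ∪ B' ∪ C') :=
  (((h.hAm.union h.hBm).union h.hCm).union h.hB'm).union h.hC'm

theorem ae_K : ∀ᵐ x ∂μ, x ∈ A ∪ B ∪ C ∪ B' ∪ C' := by
  rw [ae_iff]
  have e : {x | ¬ x ∈ A ∪ B ∪ C ∪ B' ∪ C'} = (A ∪ B ∪ C ∪ B' ∪ C')ᶜ := rfl
  rw [e, h.meas h.hK.compl]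
  have key : ∀ f : E → E, (∀ x ∈ A, f x ∈ A ∪ B ∪ C ∪ B' ∪ C') →
      α (f ⁻¹' (A ∪ B ∪ C ∪ B' ∪ C')ᶜ) = 0 := by
    intro f hf
    refine measure_mono_null ?_ h.hαA
    intro x hx hxA
    exact hx (hf x hxA)
  have k0 := key id (fun x hx => by simp only [mem_union, id]; tauto)
  rw [preimage_id] at k0
  rw [k0, key b (fun x hx => by have := (h.hbB x hx).1; simp only [mem_union]; tauto),
    key c (fun x hx => by have := (h.hcC x hx).1; simp only [mem_union]; tauto),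
    key b' (fun x hx => by have := (h.hb'B' x hx).1; simp only [mem_union]; tauto),
    key c' (fun x hx => by have := (h.hc'C' x hx).1; simp only [mem_union]; tauto)]
  simp

theorem isCoupling : IsCoupling₃ μ ((2 : ℝ≥0∞)⁻¹ • (plan α b c + plan α b' c')) := by
  have key : (2 : ℝ≥0∞)⁻¹ • ((α + α.map b + α.map c) + (α + α.map b' + α.map c')) = μ := by
    rw [h.hμ, ← half_add]
    congr 1
    abel
  refine ⟨?_, ?_, ?_⟩
  · rw [Measure.map_smul, Measure.map_add _ _ (by fun_prop), plan_map_fst h.hb h.hc,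
      plan_map_fst h.hb' h.hc', key]
  · rw [Measure.map_smul, Measure.map_add _ _ (by fun_prop), plan_map_snd h.hb h.hc,
      plan_map_snd h.hb' h.hc', key]
  · rw [Measure.map_smul, Measure.map_add _ _ (by fun_prop), plan_map_trd h.hb h.hc,
      plan_map_trd h.hb' h.hc', key]

theorem coupling_v {π : Measure (E × E × E)} (hπ : IsCoupling₃ μ π) :
    ∫⁻ p, (v p.1 + v p.2.1 + v p.2.2) ∂π = ∫⁻ x, v x ∂μ + ∫⁻ x, v x ∂μ + ∫⁻ x, v x ∂μ := by
  have hv := h.hv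
  obtain ⟨h1, h2, h3⟩ := hπ
  rw [lintegral_add_left (by fun_prop), lintegral_add_left (by fun_prop)]
  have e1 : ∫⁻ x, v x ∂μ = ∫⁻ p, v p.1 ∂π := by
    rw [← h1, lintegral_map hv (by fun_prop)]
  have e2 : ∫⁻ x, v x ∂μ = ∫⁻ p, v p.2.1 ∂π := by
    rw [← h2, lintegral_map hv (by fun_prop)]
  have e3 : ∫⁻ x, v x ∂μ = ∫⁻ p, v p.2.2 ∂π := by
    rw [← h3, lintegral_map hv (by fun_prop)]
  rw [← e1, ← e2, ← e3]

theorem coupling_mass {π : Measure (E × E × E)} (hπ : IsCoupling₃ μ π) : π univ = μ univ := by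
  rw [← hπ.1, Measure.map_apply (by fun_prop) MeasurableSet.univ, preimage_univ]

theorem coupling_ae {π : Measure (E × E × E)} (hπ : IsCoupling₃ μ π) :
    ∀ᵐ p ∂π, p.1 ∈ A ∪ B ∪ C ∪ B' ∪ C' ∧ p.2.1 ∈ A ∪ B ∪ C ∪ B' ∪ C' ∧
      p.2.2 ∈ A ∪ B ∪ C ∪ B' ∪ C' := by
  obtain ⟨h1, h2, h3⟩ := hπ
  have hK := h.ae_K
  have a1 : ∀ᵐ p ∂π, p.1 ∈ A ∪ B ∪ C ∪ B' ∪ C' := by
    rw [← h1] at hK
    exact ae_of_ae_map (by fun_prop) hK
  have a2 : ∀ᵐ p ∂π, p.2.1 ∈ A ∪ B ∪ C ∪ B' ∪ C' := by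
    have hK := h.ae_K
    rw [← h2] at hK
    exact ae_of_ae_map (by fun_prop) hK
  have a3 : ∀ᵐ p ∂π, p.2.2 ∈ A ∪ B ∪ C ∪ B' ∪ C' := by
    have hK := h.ae_K
    rw [← h3] at hK
    exact ae_of_ae_map (by fun_prop) hK
  filter_upwards [a1, a2, a3] with p p1 p2 p3 using ⟨p1, p2, p3⟩

theorem lower {π : Measure (E × E × E)} (hπ : IsCoupling₃ μ π) :
    N * μ univ ≤ ∫⁻ p, tripleCost s p ∂π + (∫⁻ x, v x ∂μ + ∫⁻ x, v x ∂μ + ∫⁻ x, v x ∂μ) := by
  rw [← h.coupling_v hπ, ← h.coupling_mass hπ, ← lintegral_const,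
    ← lintegral_add_left (measurable_tc s)]
  refine lintegral_mono_ae ?_
  filter_upwards [h.coupling_ae hπ] with p hp
  exact h.hle p.1 hp.1 p.2.1 hp.2.1 p.2.2 hp.2.2

theorem exact_plan : ∫⁻ p, tripleCost s p ∂((2 : ℝ≥0∞)⁻¹ • (plan α b c + plan α b' c')) +
    (∫⁻ x, v x ∂μ + ∫⁻ x, v x ∂μ + ∫⁻ x, v x ∂μ) = N * μ univ := by
  have hv := h.hv
  have hb := h.hb
  have hc := h.hc
  have hb' := h.hb'
  have hc' := h.hc'
  have hg : Measurable (fun p : E × E × E => tripleCost s p + (v p.1 + v p.2.1 + v p.2.2)) :=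
    (measurable_tc s).add (by fun_prop)
  rw [← h.coupling_v h.isCoupling, ← lintegral_add_left (measurable_tc s),
    lintegral_smul_measure, lintegral_add_measure, lintegral_plan h.hb h.hc hg,
    lintegral_plan h.hb' h.hc' hg]
  have key : ∀ f : E → ℝ≥0∞, (∀ x ∈ A, f x = N) → ∫⁻ x, f x ∂α = N * α univ := by
    intro f hf
    rw [← lintegral_const]
    refine lintegral_congr_ae ?_
    filter_upwards [h.ae_A] with x hx using hf x hx
  rw [key _ (fun x hx => h.heq x hx),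
    key _ (fun x hx => by
      show tripleCost s (b x, c x, x) + (v (b x) + v (c x) + v x) = N
      rw [tc_231, ← h.heq x hx]; ring),
    key _ (fun x hx => by
      show tripleCost s (c x, x, b x) + (v (c x) + v x + v (b x)) = N
      rw [tc_312, ← h.heq x hx]; ring),
    key _ (fun x hx => h.heq' x hx),
    key _ (fun x hx => by
      show tripleCost s (b' x, c' x, x) + (v (b' x) + v (c' x) + v x) = N
      rw [tc_231, ← h.heq' x hx]; ring),
    key _ (fun x hx => by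
      show tripleCost s (c' x, x, b' x) + (v (c' x) + v x + v (b' x)) = N
      rw [tc_312, ← h.heq' x hx]; ring), h.mass]
  have : N * α univ + N * α univ + N * α univ + (N * α univ + N * α univ + N * α univ) =
      2 * (N * (3 * α univ)) := by ring
  rw [this, smul_eq_mul, ← mul_assoc, ENNReal.inv_mul_cancel (by norm_num) (by norm_num), one_mul]

end

section
variable [IsFiniteMeasure α] (h : Setup s α μ A B C B' C' b c b' c' ib ic ib' ic' v N)
include h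

theorem Nμ_ne_top : N * μ univ ≠ ⊤ := by
  rw [h.mass]
  exact ENNReal.mul_ne_top h.hN (ENNReal.mul_ne_top (by norm_num) (measure_ne_top α univ))

theorem V_ne_top : (∫⁻ x, v x ∂μ + ∫⁻ x, v x ∂μ + ∫⁻ x, v x ∂μ) ≠ ⊤ := by
  have := h.Nμ_ne_top
  rw [← h.exact_plan] at this
  exact (ENNReal.add_ne_top.1 this).2

theorem cost_ne_top :
    ∫⁻ p, tripleCost s p ∂((2 : ℝ≥0∞)⁻¹ • (plan α b c + plan α b' c')) ≠ ⊤ := by
  have := h.Nμ_ne_top
  rw [← h.exact_plan] at this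
  exact (ENNReal.add_ne_top.1 this).1

theorem optimal {π : Measure (E × E × E)} (hπ : IsCoupling₃ μ π) :
    ∫⁻ p, tripleCost s p ∂((2 : ℝ≥0∞)⁻¹ • (plan α b c + plan α b' c')) ≤
      ∫⁻ p, tripleCost s p ∂π := by
  have h1 := h.lower hπ
  rw [← h.exact_plan] at h1
  exact (ENNReal.add_le_add_iff_right h.V_ne_top).1 h1

end

end Setup

end Crest.Agent.H27OTAbs
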