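import Crest.Agent.H27OTAbsB

/-!
Abstract measure-theoretic part of S0175: no Monge minimiser.
-/

set_option autoImplicit false
set_option linter.unusedSectionVars false

open MeasureTheory Set
open scoped ENNReal
open Crest.AnalysisR.OT

namespace Crest.Agent.H27OTAbs

variable {E : Type*} [NormedAddCommGroup E] [MeasurableSpace E] [BorelSpace E]
  [SecondCountableTopology E]

variable {s : ℝ} {α μ : Measure E} {A B C B' C' : Set E}
    {b c b' c' ib ic ib' ic' : E → E} {v : E → ℝ≥0∞} {N : ℝ≥0∞}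

namespace Setup

section
variable (h : Setup s α μ A B C B' C' b c b' c' ib ic ib' ic' v N)
include h

theorem preimage_eq {f : E → E} {S S' : Set E} (hf : ∀ x ∈ A, (f x ∈ S ↔ x ∈ S')) :
    α (f ⁻¹' S) = α S' := by
  refine measure_congr ?_
  filter_upwards [h.ae_A] with x hx
  exact propext (hf x hx)

theorem measB {E0 : Set E} (hE : MeasurableSet E0) :
    μ (B ∩ ib ⁻¹' E0) = (2 : ℝ≥0∞)⁻¹ * α E0 := by
  have dAB := disjoint_left.1 h.hAB
  have dBC := disjoint_right.1 h.hBC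
  have dBB' := disjoint_right.1 h.hBB'
  have dBC' := disjoint_right.1 h.hBC'
  rw [h.meas (h.hBm.inter (h.hib hE))]
  have e0 : α (B ∩ ib ⁻¹' E0) = α ∅ :=
    h.preimage_eq (f := id) (fun x hx =>
      ⟨fun hB => absurd hB.1 (dAB hx), fun hf => hf.elim⟩)
  rw [e0, h.preimage_eq (f := b) (S' := E0) (fun x hx => by
      simp only [mem_inter_iff, mem_preimage, (h.hbB x hx).1, (h.hbB x hx).2, true_and]),
    h.preimage_eq (f := c) (S' := ∅) (fun x hx => by
      simp only [mem_inter_iff, mem_empty_iff_false, iff_false, not_and]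
      intro hB; exact absurd hB (dBC (h.hcC x hx).1)),
    h.preimage_eq (f := b') (S' := ∅) (fun x hx => by
      simp only [mem_inter_iff, mem_empty_iff_false, iff_false, not_and]
      intro hB; exact absurd hB (dBB' (h.hb'B' x hx).1)),
    h.preimage_eq (f := c') (S' := ∅) (fun x hx => by
      simp only [mem_inter_iff, mem_empty_iff_false, iff_false, not_and]
      intro hB; exact absurd hB (dBC' (h.hc'C' x hx).1))]
  simp

theorem measC {E0 : Set E} (hE : MeasurableSet E0) :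
    μ (C ∩ ic ⁻¹' E0) = (2 : ℝ≥0∞)⁻¹ * α E0 := by
  have dAC := disjoint_left.1 h.hAC
  have dBC := disjoint_left.1 h.hBC
  have dCB' := disjoint_right.1 h.hCB'
  have dCC' := disjoint_right.1 h.hCC'
  rw [h.meas (h.hCm.inter (h.hic hE))]
  have e0 : α (C ∩ ic ⁻¹' E0) = α ∅ :=
    h.preimage_eq (f := id) (fun x hx =>
      ⟨fun hB => absurd hB.1 (dAC hx), fun hf => hf.elim⟩)
  rw [e0, h.preimage_eq (f := c) (S' := E0) (fun x hx => by
      simp only [mem_inter_iff, mem_preimage, (h.hcC x hx).1, (h.hcC x hx).2, true_and]),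
    h.preimage_eq (f := b) (S' := ∅) (fun x hx => by
      simp only [mem_inter_iff, mem_empty_iff_false, iff_false, not_and]
      intro hB; exact absurd hB (dBC (h.hbB x hx).1)),
    h.preimage_eq (f := b') (S' := ∅) (fun x hx => by
      simp only [mem_inter_iff, mem_empty_iff_false, iff_false, not_and]
      intro hB; exact absurd hB (dCB' (h.hb'B' x hx).1)),
    h.preimage_eq (f := c') (S' := ∅) (fun x hx => by
      simp only [mem_inter_iff, mem_empty_iff_false, iff_false, not_and]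
      intro hB; exact absurd hB (dCC' (h.hc'C' x hx).1))]
  simp

theorem measA {S : Set E} (hS : MeasurableSet S) (hSA : S ⊆ A) : μ S = α S := by
  have dAB := disjoint_right.1 h.hAB
  have dAC := disjoint_right.1 h.hAC
  have dAB' := disjoint_right.1 h.hAB'
  have dAC' := disjoint_right.1 h.hAC'
  rw [h.meas hS,
    h.preimage_eq (f := b) (S' := ∅) (fun x hx => by
      simp only [mem_empty_iff_false, iff_false]
      intro hB; exact absurd (hSA hB) (dAB (h.hbB x hx).1)),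
    h.preimage_eq (f := c) (S' := ∅) (fun x hx => by
      simp only [mem_empty_iff_false, iff_false]
      intro hB; exact absurd (hSA hB) (dAC (h.hcC x hx).1)),
    h.preimage_eq (f := b') (S' := ∅) (fun x hx => by
      simp only [mem_empty_iff_false, iff_false]
      intro hB; exact absurd (hSA hB) (dAB' (h.hb'B' x hx).1)),
    h.preimage_eq (f := c') (S' := ∅) (fun x hx => by
      simp only [mem_empty_iff_false, iff_false]
      intro hB; exact absurd (hSA hB) (dAC' (h.hc'C' x hx).1))]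
  simp

theorem pointwise {E0 S1 : Set E} (hEA : E0 ⊆ A) {x y z : E} (hS1 : x ∈ S1 ↔ x ∈ E0 ∧ y ∈ B ∪ C)
    (hcon : Contact A b c (x, y, z) ∨ Contact A b' c' (x, y, z)) :
    (B ∩ ib ⁻¹' E0).indicator (1 : E → ℝ≥0∞) x + (B ∩ ib ⁻¹' E0).indicator (1 : E → ℝ≥0∞) y +
      (B ∩ ib ⁻¹' E0).indicator (1 : E → ℝ≥0∞) z =
    S1.indicator (1 : E → ℝ≥0∞) x + (B ∩ ib ⁻¹' E0).indicator (1 : E → ℝ≥0∞) x +
      (C ∩ ic ⁻¹' E0).indicator (1 : E → ℝ≥0∞) x := by
  classical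
  simp only [indicator, hS1, Pi.one_apply]
  have dAB := disjoint_left.1 h.hAB
  have dBA := disjoint_right.1 h.hAB
  have dAC := disjoint_left.1 h.hAC
  have dCA := disjoint_right.1 h.hAC
  have dB'A := disjoint_right.1 h.hAB'
  have dC'A := disjoint_right.1 h.hAC'
  have dBC := disjoint_left.1 h.hBC
  have dCB := disjoint_right.1 h.hBC
  have dB'B := disjoint_right.1 h.hBB'
  have dC'B := disjoint_right.1 h.hBC'
  have dB'C := disjoint_right.1 h.hCB'
  have dC'C := disjoint_right.1 h.hCC'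
  rcases hcon with ⟨a, ha, hp⟩ | ⟨a, ha, hp⟩
  · obtain ⟨hB, hiB⟩ := h.hbB a ha
    obtain ⟨hC, hiC⟩ := h.hcC a ha
    have n1 : a ∉ B := dAB ha
    have n2 : a ∉ C := dAC ha
    have n3 : b a ∉ E0 := fun hh => dBA hB (hEA hh)
    have n4 : c a ∉ E0 := fun hh => dCA hC (hEA hh)
    have n5 : b a ∉ C := dBC hB
    have n6 : c a ∉ B := dCB hC
    rcases hp with hp | hp | hp | hp | hp | hp <;>
      (simp only [Prod.mk.injEq] at hp; obtain ⟨rfl, rfl, rfl⟩ := hp) <;>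
      simp [hB, hiB, hC, hiC, n1, n2, n3, n4, n5, n6]
  · obtain ⟨hB, _⟩ := h.hb'B' a ha
    obtain ⟨hC, _⟩ := h.hc'C' a ha
    have n1 : a ∉ B := dAB ha
    have n2 : a ∉ C := dAC ha
    have n3 : b' a ∉ E0 := fun hh => dB'A hB (hEA hh)
    have n4 : c' a ∉ E0 := fun hh => dC'A hC (hEA hh)
    have n5 : b' a ∉ B := dB'B hB
    have n6 : b' a ∉ C := dB'C hB
    have n7 : c' a ∉ B := dC'B hC
    have n8 : c' a ∉ C := dC'C hC
    rcases hp with hp | hp | hp | hp | hp | hp <;>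
      (simp only [Prod.mk.injEq] at hp; obtain ⟨rfl, rfl, rfl⟩ := hp) <;>
      simp [n1, n2, n3, n4, n5, n6, n7, n8]

end

section
variable [IsFiniteMeasure α] (h : Setup s α μ A B C B' C' b c b' c' ib ic ib' ic' v N)
include h

theorem no_monge (hα : α ≠ 0) {T₂ T₃ : E → E} (hT₂ : Measurable T₂) (hT₃ : Measurable T₃)
    (hm₂ : μ.map T₂ = μ) (hm₃ : μ.map T₃ = μ) :
    ∫⁻ p, tripleCost s p ∂((2 : ℝ≥0∞)⁻¹ • (plan α b c + plan α b' c')) <
      ∫⁻ x, tripleCost s (x, T₂ x, T₃ x) ∂μ := by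
  classical
  by_contra hcon
  push Not at hcon
  have hv := h.hv
  have htc : Measurable (fun x => tripleCost s (x, T₂ x, T₃ x)) :=
    (measurable_tc s).comp (by fun_prop)
  -- total integral
  have hint : ∫⁻ x, (tripleCost s (x, T₂ x, T₃ x) + (v x + v (T₂ x) + v (T₃ x))) ∂μ ≤
      ∫⁻ _x, N ∂μ := by
    rw [lintegral_add_left htc, lintegral_add_left (by fun_prop), lintegral_add_left (by fun_prop),
      lintegral_const, ← h.exact_plan]
    have e2 : ∫⁻ x, v (T₂ x) ∂μ = ∫⁻ x, v x ∂μ := by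
      conv_rhs => rw [← hm₂, lintegral_map hv hT₂]
    have e3 : ∫⁻ x, v (T₃ x) ∂μ = ∫⁻ x, v x ∂μ := by
      conv_rhs => rw [← hm₃, lintegral_map hv hT₃]
    rw [e2, e3]
    exact add_le_add_left hcon _
  have hK := h.ae_K
  have hK₂ : ∀ᵐ x ∂μ, T₂ x ∈ A ∪ B ∪ C ∪ B' ∪ C' := by
    have hK := h.ae_K
    rw [← hm₂] at hK
    exact ae_of_ae_map hT₂.aemeasurable hK
  have hK₃ : ∀ᵐ x ∂μ, T₃ x ∈ A ∪ B ∪ C ∪ B' ∪ C' := by
    have hK := h.ae_K
    rw [← hm₃] at hK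
    exact ae_of_ae_map hT₃.aemeasurable hK
  have hae : (fun _ => N) =ᵐ[μ]
      fun x => tripleCost s (x, T₂ x, T₃ x) + (v x + v (T₂ x) + v (T₃ x)) := by
    refine ae_eq_of_ae_le_of_lintegral_le ?_ ?_ ?_ hint
    · filter_upwards [hK, hK₂, hK₃] with x h1 h2 h3 using h.hle x h1 _ h2 _ h3
    · rw [lintegral_const]; exact h.Nμ_ne_top
    · exact (htc.add (by fun_prop)).aemeasurable
  have hcont : ∀ᵐ x ∂μ, Contact A b c (x, T₂ x, T₃ x) ∨ Contact A b' c' (x, T₂ x, T₃ x) := by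
    filter_upwards [hae, hK, hK₂, hK₃] with x h0 h1 h2 h3
    exact h.hcontact x h1 _ h2 _ h3 h0.symm
  -- mass identity
  have key : ∀ E0 : Set E, MeasurableSet E0 → E0 ⊆ A →
      α (E0 ∩ T₂ ⁻¹' (B ∪ C)) = (2 : ℝ≥0∞)⁻¹ * α E0 := by
    intro E0 hE hEA
    have hbE : MeasurableSet (B ∩ ib ⁻¹' E0) := h.hBm.inter (h.hib hE)
    have hcE : MeasurableSet (C ∩ ic ⁻¹' E0) := h.hCm.inter (h.hic hE)
    have hA1 : MeasurableSet (E0 ∩ T₂ ⁻¹' (B ∪ C)) := hE.inter (hT₂ (h.hBm.union h.hCm))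
    have mb : Measurable ((B ∩ ib ⁻¹' E0).indicator (1 : E → ℝ≥0∞)) :=
      measurable_one.indicator hbE
    have ma : Measurable ((E0 ∩ T₂ ⁻¹' (B ∪ C)).indicator (1 : E → ℝ≥0∞)) :=
      measurable_one.indicator hA1
    have i1 : ∫⁻ x, (B ∩ ib ⁻¹' E0).indicator (1 : E → ℝ≥0∞) x ∂μ = μ (B ∩ ib ⁻¹' E0) :=
      lintegral_indicator_one hbE
    have i2 : ∫⁻ x, (B ∩ ib ⁻¹' E0).indicator (1 : E → ℝ≥0∞) (T₂ x) ∂μ =
        μ (B ∩ ib ⁻¹' E0) := by
      rw [← i1]
      conv_rhs => rw [← hm₂, lintegral_map mb hT₂]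
    have i3 : ∫⁻ x, (B ∩ ib ⁻¹' E0).indicator (1 : E → ℝ≥0∞) (T₃ x) ∂μ =
        μ (B ∩ ib ⁻¹' E0) := by
      rw [← i1]
      conv_rhs => rw [← hm₃, lintegral_map mb hT₃]
    have i4 : ∫⁻ x, (E0 ∩ T₂ ⁻¹' (B ∪ C)).indicator (1 : E → ℝ≥0∞) x ∂μ =
        μ (E0 ∩ T₂ ⁻¹' (B ∪ C)) := lintegral_indicator_one hA1
    have i5 : ∫⁻ x, (C ∩ ic ⁻¹' E0).indicator (1 : E → ℝ≥0∞) x ∂μ = μ (C ∩ ic ⁻¹' E0) :=
      lintegral_indicator_one hcE
    have hpt : ∫⁻ x, ((B ∩ ib ⁻¹' E0).indicator (1 : E → ℝ≥0∞) x +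
        (B ∩ ib ⁻¹' E0).indicator (1 : E → ℝ≥0∞) (T₂ x) +
        (B ∩ ib ⁻¹' E0).indicator (1 : E → ℝ≥0∞) (T₃ x)) ∂μ =
        ∫⁻ x, ((E0 ∩ T₂ ⁻¹' (B ∪ C)).indicator (1 : E → ℝ≥0∞) x +
          (B ∩ ib ⁻¹' E0).indicator (1 : E → ℝ≥0∞) x +
          (C ∩ ic ⁻¹' E0).indicator (1 : E → ℝ≥0∞) x) ∂μ := by
      refine lintegral_congr_ae ?_
      filter_upwards [hcont] with x hx
      exact h.pointwise hEA Iff.rfl hx
    have mb2 : Measurable (fun x : E => (B ∩ ib ⁻¹' E0).indicator (1 : E → ℝ≥0∞) (T₂ x)) :=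
      mb.comp hT₂
    have mb12 : Measurable (fun x : E => (B ∩ ib ⁻¹' E0).indicator (1 : E → ℝ≥0∞) x +
        (B ∩ ib ⁻¹' E0).indicator (1 : E → ℝ≥0∞) (T₂ x)) := mb.add mb2
    have mab : Measurable (fun x : E => (E0 ∩ T₂ ⁻¹' (B ∪ C)).indicator (1 : E → ℝ≥0∞) x +
        (B ∩ ib ⁻¹' E0).indicator (1 : E → ℝ≥0∞) x) := ma.add mb
    rw [lintegral_add_left mb12, lintegral_add_left mb, lintegral_add_left mab,
      lintegral_add_left ma, i1, i2, i3, i4, i5, h.measB hE, h.measC hE,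
      h.measA hA1 (inter_subset_left.trans hEA)] at hpt
    have hfin : (2 : ℝ≥0∞)⁻¹ * α E0 ≠ ⊤ :=
      ENNReal.mul_ne_top (by norm_num) (measure_ne_top α E0)
    have h1 := (ENNReal.add_left_inj hfin).1 hpt
    have h2 := (ENNReal.add_left_inj hfin).1 h1
    exact h2.symm
  have hA1m : MeasurableSet (A ∩ T₂ ⁻¹' (B ∪ C)) := h.hAm.inter (hT₂ (h.hBm.union h.hCm))
  have k1 := key A h.hAm le_rfl
  have k2 := key (A ∩ T₂ ⁻¹' (B ∪ C)) hA1m inter_subset_left
  rw [inter_assoc, inter_self] at k2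
  have half_zero : ∀ {x : ℝ≥0∞}, x ≠ ⊤ → x = 2⁻¹ * x → x = 0 := by
    intro x hx hxx
    by_contra h0
    have : 2⁻¹ * x < x := by
      rw [mul_comm, ← div_eq_mul_inv]
      exact ENNReal.half_lt_self h0 hx
    rw [← hxx] at this
    exact lt_irrefl _ this
  have k3 := half_zero (measure_ne_top α _) k2
  rw [k3] at k1
  have k4 : α A = 0 := by
    rcases mul_eq_zero.1 k1.symm with h0 | h0
    · exact absurd h0 (by norm_num)
    · exact h0
  apply hα
  rw [← Measure.measure_univ_eq_zero, ← union_compl_self A]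
  exact measure_union_null k4 h.hαA

end

end Setup

end Crest.Agent.H27OTAbs
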