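import Mathlib
import Crest.Agent.H6Defs

/-!
Module X2 of rid 56: orbit bound for invariant weights on families of slots.
-/

set_option autoImplicit false

namespace Crest.Agent.H27Orbit

open Finset Crest.Agent.H6Defs

theorem exists_perm_map {n : ℕ} (A B : Finset (Fin n)) (h : A.card = B.card) :
    ∃ σ : Equiv.Perm (Fin n), A.map σ.toEmbedding = B := by
  classical
  let e : {x // x ∈ A} ≃ {x // x ∈ B} := Finset.equivOfCardEq h
  refine ⟨e.extendSubtype, ?_⟩
  refine Finset.eq_of_subset_of_card_le ?_ (by rw [Finset.card_map, h])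
  intro x hx
  rw [Finset.mem_map] at hx
  obtain ⟨y, hy, rfl⟩ := hx
  exact e.extendSubtype_mem y hy

theorem vset_map {n : ℕ} {E : Type*} (vert : E → Finset (Fin n))
    (act : Equiv.Perm (Fin n) → Equiv.Perm E)
    (hact : ∀ σ e, vert (act σ e) = (vert e).map σ.toEmbedding) (σ : Equiv.Perm (Fin n))
    (T : Finset E) :
    vset vert (T.map (act σ).toEmbedding) = (vset vert T).map σ.toEmbedding := by
  classical
  ext x
  simp only [vset, Finset.mem_biUnion, Finset.mem_map, Equiv.coe_toEmbedding]
  constructor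
  · rintro ⟨e, ⟨e', he', rfl⟩, hx⟩
    rw [hact, Finset.mem_map] at hx
    obtain ⟨y, hy, rfl⟩ := hx
    exact ⟨y, ⟨e', he', hy⟩, rfl⟩
  · rintro ⟨y, ⟨e', he', hy⟩, rfl⟩
    refine ⟨act σ e', ⟨e', he', rfl⟩, ?_⟩
    rw [hact, Finset.mem_map]
    exact ⟨y, hy, rfl⟩

theorem mass_map {E : Type*} [Fintype E] [DecidableEq E] (ν : Finset E → ℝ) (D : ℕ)
    (τ : Equiv.Perm E) (hν : ∀ S, ν (S.map τ.toEmbedding) = ν S) (T : Finset E) :
    ∑ S ∈ Finset.univ.filter (fun S => T.map τ.toEmbedding ⊆ S ∧ S.card ≤ D), ν S =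
      ∑ S ∈ Finset.univ.filter (fun S => T ⊆ S ∧ S.card ≤ D), ν S := by
  classical
  symm
  refine Finset.sum_bij' (fun S _ => S.map τ.toEmbedding) (fun S _ => S.map τ.symm.toEmbedding)
    ?_ ?_ ?_ ?_ ?_
  · intro S hS
    rw [Finset.mem_filter] at hS ⊢
    refine ⟨Finset.mem_univ _, ?_, ?_⟩
    · exact Finset.map_subset_map.2 hS.2.1
    · rw [Finset.card_map]; exact hS.2.2
  · intro S hS
    rw [Finset.mem_filter] at hS ⊢
    refine ⟨Finset.mem_univ _, ?_, ?_⟩
    · intro x hx
      rw [Finset.mem_map]
      refine ⟨τ x, hS.2.1 ?_, by simp⟩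
      rw [Finset.mem_map]
      exact ⟨x, hx, rfl⟩
    · rw [Finset.card_map]; exact hS.2.2
  · intro S _
    ext x
    simp [Finset.mem_map]
  · intro S _
    ext x
    simp [Finset.mem_map]
  · intro S _
    exact (hν S).symm

theorem choose_mono {n k v : ℕ} (h1 : k ≤ v) (h2 : 2 * v ≤ n) : n.choose k ≤ n.choose v := by
  induction v, h1 using Nat.le_induction with
  | base => exact le_rfl
  | succ v hv ih =>
    refine (ih (by omega)).trans (Nat.choose_le_succ_of_lt_half_left ?_)
    omega

theorem orbit_bound {n r : ℕ} {E : Type*} [Fintype E] [DecidableEq E] (vert : E → Finset (Fin n))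
    (hcard : ∀ e, (vert e).card = r) (act : Equiv.Perm (Fin n) → Equiv.Perm E)
    (hact : ∀ σ e, vert (act σ e) = (vert e).map σ.toEmbedding) (ν : Finset E → ℝ)
    (hν0 : ∀ S, 0 ≤ ν S) (hν : ∀ σ S, ν (S.map (act σ).toEmbedding) = ν S) (D k : ℕ)
    (T : Finset E) (hT : T.card = k) (hk : 1 ≤ k) (hv : k ≤ (vset vert T).card)
    (hn : 2 * (r * k) ≤ n) :
    ∑ S ∈ Finset.univ.filter (fun S => T ⊆ S ∧ S.card ≤ D), ν S ≤
      (2 * r * k * D / n : ℝ) ^ k *
        ∑ S ∈ Finset.univ.filter (fun S => S.Nonempty ∧ S.card ≤ D), ν S := by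
  classical
  set M : Finset E → ℝ := fun T => ∑ S ∈ Finset.univ.filter (fun S => T ⊆ S ∧ S.card ≤ D), ν S
    with hM
  set W : ℝ := ∑ S ∈ Finset.univ.filter (fun S : Finset E => S.Nonempty ∧ S.card ≤ D), ν S with hW
  have hW0 : 0 ≤ W := Finset.sum_nonneg fun S _ => hν0 S
  set v := (vset vert T).card with hvdef
  have hvle : v ≤ r * k := by
    rw [hvdef]
    calc (vset vert T).card ≤ ∑ e ∈ T, (vert e).card := Finset.card_biUnion_le
      _ = r * k := by simp [hcard, hT, mul_comm]
  have hr : 1 ≤ r := by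
    rcases Nat.eq_zero_or_pos r with h | h
    · subst h; simp at hvle; omega
    · exact h
  have hn0 : 0 < n := by
    have : 1 ≤ r * k := Nat.mul_pos hr hk
    omega
  -- choose a permutation for each v-subset
  have hperm : ∀ V : Finset (Fin n), ∃ σ : Equiv.Perm (Fin n), V.card = v →
      (vset vert T).map σ.toEmbedding = V := by
    intro V
    by_cases h : V.card = v
    · obtain ⟨σ, hσ⟩ := exists_perm_map (vset vert T) V (by rw [h])
      exact ⟨σ, fun _ => hσ⟩
    · exact ⟨1, fun h' => absurd h' h⟩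
  choose σ hσ using hperm
  -- the orbit members
  have hMorb : ∀ V : Finset (Fin n), M (T.map (act (σ V)).toEmbedding) = M T := fun V =>
    mass_map ν D (act (σ V)) (hν (σ V)) T
  have hinj : Set.InjOn (fun V : Finset (Fin n) => T.map (act (σ V)).toEmbedding)
      (Finset.univ.powersetCard v : Finset (Finset (Fin n))) := by
    intro V hV V' hV' h
    rw [Finset.mem_coe, Finset.mem_powersetCard] at hV hV'
    have h1 := vset_map vert act hact (σ V) T
    have h2 := vset_map vert act hact (σ V') T
    simp only at h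
    rw [h, h2, hσ V hV.2, hσ V' hV'.2] at h1
    exact h1.symm
  have hsum1 : (n.choose v : ℝ) * M T ≤
      ∑ T' ∈ (Finset.univ : Finset E).powersetCard k, M T' := by
    calc (n.choose v : ℝ) * M T
        = ∑ V ∈ (Finset.univ : Finset (Fin n)).powersetCard v,
            M (T.map (act (σ V)).toEmbedding) := by
          rw [Finset.sum_congr rfl (fun V _ => hMorb V), Finset.sum_const,
            Finset.card_powersetCard, nsmul_eq_mul, Finset.card_univ, Fintype.card_fin]
      _ = ∑ T' ∈ ((Finset.univ : Finset (Fin n)).powersetCard v).image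
            (fun V => T.map (act (σ V)).toEmbedding), M T' := by
          rw [Finset.sum_image hinj]
      _ ≤ ∑ T' ∈ (Finset.univ : Finset E).powersetCard k, M T' := by
          refine Finset.sum_le_sum_of_subset_of_nonneg ?_ ?_
          · intro T' hT'
            rw [Finset.mem_image] at hT'
            obtain ⟨V, _, rfl⟩ := hT'
            rw [Finset.mem_powersetCard]
            exact ⟨Finset.subset_univ _, by rw [Finset.card_map, hT]⟩
          · intro T' _ _
            exact Finset.sum_nonneg fun S _ => hν0 S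
  have hsum2 : ∑ T' ∈ (Finset.univ : Finset E).powersetCard k, M T' ≤ (D.choose k : ℝ) * W := by
    calc ∑ T' ∈ (Finset.univ : Finset E).powersetCard k, M T'
        = ∑ T' ∈ (Finset.univ : Finset E).powersetCard k,
            ∑ S : Finset E, if T' ⊆ S ∧ S.card ≤ D then ν S else 0 := by
          refine Finset.sum_congr rfl fun T' _ => ?_
          rw [hM]
          simp only
          rw [Finset.sum_filter]
      _ = ∑ S : Finset E, ∑ T' ∈ (Finset.univ : Finset E).powersetCard k,
            if T' ⊆ S ∧ S.card ≤ D then ν S else 0 := Finset.sum_comm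
      _ ≤ ∑ S : Finset E, if S.Nonempty ∧ S.card ≤ D then (D.choose k : ℝ) * ν S else 0 := by
          refine Finset.sum_le_sum fun S _ => ?_
          by_cases hSD : S.card ≤ D
          · have h1 : (∑ T' ∈ (Finset.univ : Finset E).powersetCard k,
                if T' ⊆ S ∧ S.card ≤ D then ν S else 0) = (S.card.choose k : ℝ) * ν S := by
              rw [← Finset.sum_filter, Finset.sum_const, nsmul_eq_mul]
              congr 2
              rw [← Finset.card_powersetCard]
              congr 1
              ext T'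
              simp only [Finset.mem_filter, Finset.mem_powersetCard, Finset.subset_univ, true_and,
                hSD, and_true]
              tauto
            rw [h1]
            by_cases hS : S.Nonempty
            · rw [if_pos ⟨hS, hSD⟩]
              refine mul_le_mul_of_nonneg_right ?_ (hν0 S)
              exact_mod_cast Nat.choose_le_choose k hSD
            · rw [Finset.not_nonempty_iff_eq_empty] at hS
              subst hS
              rw [Finset.card_empty, Nat.choose_eq_zero_of_lt (by omega)]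
              simp
          · have h1 : (∑ T' ∈ (Finset.univ : Finset E).powersetCard k,
                if T' ⊆ S ∧ S.card ≤ D then ν S else 0) = 0 := by
              refine Finset.sum_eq_zero fun T' _ => ?_
              rw [if_neg]
              exact fun h => hSD h.2
            rw [h1, if_neg (fun h => hSD h.2)]
      _ = (D.choose k : ℝ) * W := by
          rw [hW, Finset.mul_sum, Finset.sum_filter]
  have hchoose : (n.choose k : ℝ) ≤ n.choose v := by
    exact_mod_cast choose_mono hv (by omega)
  have hMT0 : 0 ≤ M T := Finset.sum_nonneg fun S _ => hν0 S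
  have hmain : (n.choose k : ℝ) * M T ≤ (D.choose k : ℝ) * W :=
    (mul_le_mul_of_nonneg_right hchoose hMT0).trans (hsum1.trans hsum2)
  -- numerical comparison
  have hk2 : 2 * k ≤ n := by
    have : k ≤ r * k := Nat.le_mul_of_pos_left k hr
    omega
  have hlow : ((n / 2 : ℝ)) ^ k / (k.factorial : ℝ) ≤ n.choose k := by
    refine le_trans ?_ (Nat.pow_le_choose (α := ℝ) k n)
    have hle : (n / 2 : ℝ) ≤ ((n + 1 - k : ℕ) : ℝ) := by
      have h1 : ((n + 1 - k : ℕ) : ℝ) = n + 1 - k := by
        rw [Nat.cast_sub (by omega)]; push_cast; ring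
      rw [h1]
      have h2 : (2 * k : ℝ) ≤ n := by exact_mod_cast hk2
      linarith
    gcongr
  have hup : (D.choose k : ℝ) ≤ (D : ℝ) ^ k / (k.factorial : ℝ) := Nat.choose_le_pow_div k D
  have hfac : (0 : ℝ) < (k.factorial : ℝ) := by exact_mod_cast Nat.factorial_pos k
  have hn0' : (0 : ℝ) < n := by exact_mod_cast hn0
  have h3 : ((n / 2 : ℝ)) ^ k * M T ≤ (D : ℝ) ^ k * W := by
    have h4 : ((n / 2 : ℝ)) ^ k / (k.factorial : ℝ) * M T ≤
        (D : ℝ) ^ k / (k.factorial : ℝ) * W :=
      (mul_le_mul_of_nonneg_right hlow hMT0).trans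
        (hmain.trans (mul_le_mul_of_nonneg_right hup hW0))
    have h5 : ((n / 2 : ℝ)) ^ k / (k.factorial : ℝ) * M T * k.factorial =
        ((n / 2 : ℝ)) ^ k * M T := by field_simp
    have h6 : (D : ℝ) ^ k / (k.factorial : ℝ) * W * k.factorial = (D : ℝ) ^ k * W := by field_simp
    rw [← h5, ← h6]
    exact mul_le_mul_of_nonneg_right h4 hfac.le
  have h7 : M T ≤ (2 * D / n : ℝ) ^ k * W := by
    have h8 : (0 : ℝ) < (n / 2 : ℝ) ^ k := by positivity
    have h9 : (2 * D / n : ℝ) ^ k * W = ((D : ℝ) ^ k * W) / (n / 2 : ℝ) ^ k := by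
      rw [div_pow, div_pow, mul_pow]
      field_simp
    rw [h9, le_div_iff₀ h8]
    linarith
  refine h7.trans (mul_le_mul_of_nonneg_right ?_ hW0)
  have hrk : (1 : ℝ) ≤ r * k := by exact_mod_cast Nat.mul_pos hr hk
  have hD0 : (0 : ℝ) ≤ 2 * D / n := by positivity
  refine pow_le_pow_left₀ hD0 ?_ k
  have h10 : (2 * r * k * D / n : ℝ) = (r * k) * (2 * D / n) := by ring
  rw [h10]
  nlinarith

end Crest.Agent.H27Orbit
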