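import Mathlib

/-!
Module X5 of rid 56: the final numerics (choice of the parameters `c`, `D`).
-/

set_option autoImplicit false

namespace Crest.Agent.H27Params

open Real

theorem exp_ge_pow (x : ℝ) (hx : 0 ≤ x) (n : ℕ) : x ^ n / (n.factorial : ℝ) ≤ Real.exp x :=
  Real.pow_div_factorial_le_exp x hx n

theorem aux1 (x B : ℝ) (hx0 : 0 < x) (hB : 16 ≤ B) (h : B < x ^ 2 / 32) : 22 < x := by
  by_contra hcon
  have h1 : x ≤ 22 := not_lt.1 hcon
  have h2 : x ^ 2 ≤ 22 ^ 2 := pow_le_pow_left₀ hx0.le h1 2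
  norm_num at h2
  linarith

theorem aux2 (B : ℝ) (hB : 16 ≤ B) : 2 < Real.log B := by
  rw [Real.lt_log_iff_exp_lt (by linarith)]
  have h1 : Real.exp 2 = Real.exp 1 * Real.exp 1 := by rw [← Real.exp_add]; norm_num
  have h2 := Real.exp_one_lt_d9
  have h3 := Real.exp_pos 1
  have h4 : Real.exp 1 * Real.exp 1 ≤ 3 * 3 :=
    mul_le_mul (by linarith) (by linarith) h3.le (by norm_num)
  rw [h1]; linarith

theorem aux3 (β B : ℝ) (hB : 16 ≤ B) (h : β ^ 2 ≤ 2 * B) : β ≤ B / 2 := by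
  by_contra hcon
  have h1 : B / 2 < β := not_le.1 hcon
  have h2 : (B / 2) ^ 2 < β ^ 2 := pow_lt_pow_left₀ h1 (by linarith) (by norm_num)
  nlinarith

theorem aux4 (x : ℝ) (hx : 22 < x) : 2 * x ^ 3 ≤ Real.exp x ∧ x ^ 2 ≤ Real.exp x ∧
    2 * x ≤ Real.exp x := by
  have hx0 : 0 < x := by linarith
  have he5 : x ^ 5 / 120 ≤ Real.exp x := by
    have := exp_ge_pow x hx0.le 5
    have h2 : (Nat.factorial 5 : ℝ) = 120 := by norm_num [Nat.factorial]
    rwa [h2] at this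
  have h1 : 0 < x ^ 3 := by positivity
  have h2 : (22 : ℝ) ^ 2 < x ^ 2 := pow_lt_pow_left₀ hx (by norm_num) (by norm_num)
  have h3 : x ^ 3 * 240 ≤ x ^ 3 * x ^ 2 := mul_le_mul_of_nonneg_left (by linarith) h1.le
  have h4 : x ^ 5 = x ^ 3 * x ^ 2 := by ring
  have h5 : 2 * x ^ 3 ≤ Real.exp x := by
    refine le_trans ?_ he5
    rw [h4]; linarith
  have h6 : x ^ 2 ≤ x ^ 3 := pow_le_pow_right₀ (by linarith) (by norm_num)
  have h7 : x ^ 1 ≤ x ^ 3 := pow_le_pow_right₀ (by linarith) (by norm_num)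
  rw [pow_one] at h7
  refine ⟨h5, by linarith, by linarith⟩

theorem aux5 (x : ℝ) (hx22 : 22 < x) : 2 * x ^ 3 < Real.exp (9 / 10 * x) := by
  have hx0 : 0 < x := by linarith
  have h9 := exp_ge_pow (9 / 10 * x) (by positivity) 6
  have h10 : (Nat.factorial 6 : ℝ) = 720 := by norm_num [Nat.factorial]
  rw [h10] at h9
  refine lt_of_lt_of_le ?_ h9
  have h11 : 0 < x ^ 3 := by positivity
  have h12 : (22 : ℝ) ^ 3 < x ^ 3 := pow_lt_pow_left₀ hx22 (by norm_num) (by norm_num)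
  have h13 : (9 / 10 * x) ^ 6 / 720 = x ^ 3 * (x ^ 3 * ((9 / 10) ^ 6 / 720)) := by ring
  rw [h13]
  have h14 : 2 < x ^ 3 * ((9 / 10) ^ 6 / 720) := by
    norm_num at h12 ⊢
    linarith
  calc 2 * x ^ 3 = x ^ 3 * 2 := by ring
    _ < _ := mul_lt_mul_of_pos_left h14 h11

theorem aux6 (x : ℝ) (hx22 : 22 < x) : Real.exp (-(4 * x)) * x ^ 4 ≤ Real.exp (-x) := by
  have hx0 : 0 < x := by linarith
  have h8 : Real.exp (-(4 * x)) = Real.exp (-x) * Real.exp (-(3 * x)) := by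
    rw [← Real.exp_add]; ring_nf
  have h9 : Real.exp (-(3 * x)) * x ^ 4 ≤ 1 := by
    have h10 : x ^ 4 ≤ Real.exp (3 * x) := by
      have h11 : Real.exp (3 * x) = Real.exp x * Real.exp x * Real.exp x := by
        rw [← Real.exp_add, ← Real.exp_add]; ring_nf
      have h12 : x ^ 2 ≤ Real.exp x := (aux4 x hx22).2.1
      have h13 : 1 ≤ Real.exp x := Real.one_le_exp hx0.le
      have h14 : x ^ 2 * x ^ 2 ≤ Real.exp x * Real.exp x :=
        mul_le_mul h12 h12 (by positivity) (Real.exp_pos _).le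
      rw [h11]
      calc x ^ 4 = x ^ 2 * x ^ 2 := by ring
        _ ≤ Real.exp x * Real.exp x := h14
        _ ≤ Real.exp x * Real.exp x * Real.exp x :=
          le_mul_of_one_le_right (by positivity) h13
    rw [Real.exp_neg, inv_mul_le_iff₀ (Real.exp_pos _)]
    linarith
  rw [h8, mul_assoc]
  calc Real.exp (-x) * (Real.exp (-(3 * x)) * x ^ 4) ≤ Real.exp (-x) * 1 :=
        mul_le_mul_of_nonneg_left h9 (Real.exp_pos (-x)).le
    _ = Real.exp (-x) := mul_one _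

theorem aux7 (y : ℝ) (hy0 : 0 ≤ y) (hy : y ≤ 1 / 2) : Real.exp (-(2 * y)) ≤ 1 - y := by
  have h2 : Real.exp (-(2 * y)) ≤ 1 / (1 + 2 * y) := by
    rw [Real.exp_neg, ← one_div]
    apply one_div_le_one_div_of_le (by positivity)
    have := Real.add_one_le_exp (2 * y)
    linarith
  refine h2.trans ?_
  rw [div_le_iff₀ (by positivity)]
  nlinarith

set_option maxHeartbeats 4000000 in
theorem params (L B X : ℝ) (r : ℕ) (hL : 0 < L) (hB : 16 ≤ B) (hBX : B < 4 * X)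
    (hX : X ≤ L ^ 2 / 2 ^ 17) (hr1 : 1 ≤ r) (hr : (r : ℝ) ≤ Real.exp (L / 32)) :
    ∃ c D : ℕ, 8 ≤ c ∧ 8 * X / B ≤ (D : ℝ) ∧ (D : ℝ) ≤ 12 * X / B ∧ D ≤ c * (c / 4) ∧
      B ^ c ≤ Real.exp (L / 4) ∧ 7 * L / (32 * Real.log B) ≤ (c : ℝ) ∧
      2 * ((r : ℝ) * ((c / 4 : ℕ) : ℝ)) ≤ Real.exp L ∧
      ∑ k ∈ Finset.Icc 1 (c / 4), (Real.exp (3 * L / 4) * (2 * r * k * D / Real.exp L)) ^ k +
          2 * Real.exp (-(L / 8)) +
          (Real.exp (-(L / 32)) + B / 4 * Real.exp (-(L / 8))) * D <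
        (1 / 2) * ((4 / (c : ℝ)) * (1 - 4 / (c : ℝ)) ^ D) := by
  -- the variable x = L / 32
  obtain ⟨x, hx⟩ : ∃ x : ℝ, x = L / 32 := ⟨_, rfl⟩
  have hLx : L = 32 * x := by rw [hx]; ring
  have hx0 : 0 < x := by rw [hx]; positivity
  subst hLx
  have hX' : X ≤ x ^ 2 / 128 := by
    have : (32 * x) ^ 2 / 2 ^ 17 = x ^ 2 / 128 := by ring
    rw [this] at hX; exact hX
  have hBx : B < x ^ 2 / 32 := by linarith
  have hx22 : 22 < x := aux1 x B hx0 hB hBx
  have hB0 : 0 < B := by linarith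
  have hX0 : 0 < X := by linarith
  set β := Real.log B with hβ
  have hβ2 : 2 < β := aux2 B hB
  have hexpβ : Real.exp β = B := Real.exp_log hB0
  have hβx : β ≤ x := by
    rw [hβ, Real.log_le_iff_le_exp hB0]
    have h1 := (aux4 x hx22).2.1
    have h2 := sq_nonneg x
    linarith
  have hβB : β ^ 2 ≤ 2 * B := by
    have h1 := exp_ge_pow β (by linarith) 2
    have h2 : (Nat.factorial 2 : ℝ) = 2 := by norm_num
    rw [h2, hexpβ] at h1
    linarith
  have hβB' : β ≤ B / 2 := aux3 β B hB hβB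
  have hβ0 : 0 < β := by linarith
  -- the parameter c
  set c := ⌊32 * x / (4 * β)⌋₊ with hc
  have hy8 : 8 ≤ 32 * x / (4 * β) := by
    rw [le_div_iff₀ (by positivity)]; linarith
  have hcle : (c : ℝ) ≤ 32 * x / (4 * β) := Nat.floor_le (by positivity)
  have hclt : 32 * x / (4 * β) < c + 1 := Nat.lt_floor_add_one _
  have hc8 : 8 ≤ c := by
    rw [hc]
    exact Nat.le_floor (by exact_mod_cast hy8)
  have hc8' : (8 : ℝ) ≤ c := by exact_mod_cast hc8
  have hclow : 7 * (32 * x) / (32 * β) ≤ (c : ℝ) := by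
    have h1 : 7 * (32 * x) / (32 * β) = 7 / 8 * (32 * x / (4 * β)) := by
      field_simp
      ring
    rw [h1]; linarith
  have hcup : (c : ℝ) ≤ 4 * x := by
    refine hcle.trans ?_
    rw [div_le_iff₀ (by positivity)]
    have h1 : x * 2 ≤ x * β := mul_le_mul_of_nonneg_left hβ2.le hx0.le
    linarith
  have hcβ : (c : ℝ) * β ≤ 8 * x := by
    have h1 := mul_le_mul_of_nonneg_right hcle hβ0.le
    have h2 : 32 * x / (4 * β) * β = 8 * x := by field_simp; ring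
    linarith
  have hcβ' : 7 * x ≤ c * β := by
    have h1 := mul_le_mul_of_nonneg_right hclow hβ0.le
    have h2 : 7 * (32 * x) / (32 * β) * β = 7 * x := by field_simp
    linarith
  have hBc : B ^ c ≤ Real.exp (32 * x / 4) := by
    have h1 : B ^ c = Real.exp (c * β) := by
      rw [Real.exp_nat_mul, hexpβ]
    rw [h1]
    exact Real.exp_le_exp.2 (by linarith)
  -- the parameter D
  set D := ⌈8 * X / B⌉₊ with hD
  have hD1 : 8 * X / B ≤ (D : ℝ) := Nat.le_ceil _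
  have hXB : 1 < 4 * X / B := by rw [lt_div_iff₀ hB0]; linarith
  have hD2 : (D : ℝ) ≤ 12 * X / B := by
    have h1 : (D : ℝ) < 8 * X / B + 1 := Nat.ceil_lt_add_one (by positivity)
    have h2 : 12 * X / B = 8 * X / B + 4 * X / B := by ring
    rw [h2]; linarith
  have hD0 : (0 : ℝ) ≤ D := Nat.cast_nonneg _
  have hDB : (D : ℝ) * B ≤ 3 / 32 * x ^ 2 := by
    have h1 := mul_le_mul_of_nonneg_right hD2 hB0.le
    have h2 : 12 * X / B * B = 12 * X := by field_simp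
    linarith
  have hDx : (D : ℝ) ≤ x ^ 2 / 100 := by
    have h1 : (D : ℝ) * 16 ≤ D * B := mul_le_mul_of_nonneg_left hB hD0
    have h2 := sq_nonneg x
    linarith
  -- D ≤ c * (c / 4)
  have hdiv : (c : ℝ) - 3 ≤ 4 * ((c / 4 : ℕ) : ℝ) := by
    have h1 : c ≤ 4 * (c / 4) + 3 := by omega
    have h2 : (c : ℝ) ≤ 4 * ((c / 4 : ℕ) : ℝ) + 3 := by exact_mod_cast h1
    linarith
  have hdiv2 : ((c / 4 : ℕ) : ℝ) ≤ x := by
    have h1 : 4 * (c / 4) ≤ c := by omega
    have h2 : 4 * ((c / 4 : ℕ) : ℝ) ≤ (c : ℝ) := by exact_mod_cast h1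
    linarith
  have hDc : D ≤ c * (c / 4) := by
    have h1 : (D : ℝ) ≤ (c : ℝ) * ((c / 4 : ℕ) : ℝ) := by
      have h2 : 5 / 32 * (c : ℝ) ^ 2 ≤ (c : ℝ) * ((c / 4 : ℕ) : ℝ) := by
        have h3 : 5 / 32 * (c : ℝ) ≤ ((c / 4 : ℕ) : ℝ) := by linarith
        have h4 := mul_le_mul_of_nonneg_left h3 (by linarith : (0 : ℝ) ≤ c)
        calc 5 / 32 * (c : ℝ) ^ 2 = (c : ℝ) * (5 / 32 * (c : ℝ)) := by ring
          _ ≤ _ := h4
      refine le_trans ?_ h2
      -- D * B ≤ 3/32 x^2 , 49 x^2 ≤ c^2 β^2 ≤ c^2 * 2B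
      have h3 : (7 * x) ^ 2 ≤ (c * β) ^ 2 := pow_le_pow_left₀ (by positivity) hcβ' 2
      have h4 : (c * β) ^ 2 ≤ (c : ℝ) ^ 2 * (2 * B) := by
        rw [mul_pow]; exact mul_le_mul_of_nonneg_left hβB (by positivity)
      have h5 : (D : ℝ) * B ≤ 5 / 32 * (c : ℝ) ^ 2 * B := by
        have h6 : 0 ≤ (c : ℝ) ^ 2 * B := by positivity
        have h7 : (7 * x) ^ 2 = 49 * x ^ 2 := by ring
        rw [h7] at h3
        linarith
      exact le_of_mul_le_mul_right h5 hB0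
    exact_mod_cast h1
  have h2rc : 2 * ((r : ℝ) * ((c / 4 : ℕ) : ℝ)) ≤ Real.exp (32 * x) := by
    have hr' : (r : ℝ) ≤ Real.exp x := by
      have : 32 * x / 32 = x := by ring
      rwa [this] at hr
    have h1 : 2 * x ≤ Real.exp x := (aux4 x hx22).2.2
    have h3 : Real.exp (32 * x) = Real.exp x * Real.exp x * Real.exp (30 * x) := by
      rw [← Real.exp_add, ← Real.exp_add]; ring_nf
    have h4 : 1 ≤ Real.exp (30 * x) := Real.one_le_exp (by positivity)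
    have h5 : (r : ℝ) * ((c / 4 : ℕ) : ℝ) ≤ Real.exp x * x :=
      mul_le_mul hr' hdiv2 (Nat.cast_nonneg _) (Real.exp_pos _).le
    have h6 : 0 < Real.exp x := Real.exp_pos _
    rw [h3]
    have h7 : Real.exp x * Real.exp x ≤ Real.exp x * Real.exp x * Real.exp (30 * x) :=
      le_mul_of_one_le_right (by positivity) h4
    refine le_trans ?_ h7
    calc 2 * ((r : ℝ) * ((c / 4 : ℕ) : ℝ)) ≤ 2 * (Real.exp x * x) :=
          mul_le_mul_of_nonneg_left h5 (by norm_num)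
      _ = Real.exp x * (2 * x) := by ring
      _ ≤ Real.exp x * Real.exp x := mul_le_mul_of_nonneg_left h1 h6.le
  refine ⟨c, D, hc8, hD1, hD2, hDc, hBc, hclow, h2rc, ?_⟩
  -- the right-hand side
  have hc0 : (0 : ℝ) < c := by linarith
  have hRHS : 1 / (2 * x) * Real.exp (-(x / 10)) ≤
      (1 / 2) * ((4 / (c : ℝ)) * (1 - 4 / (c : ℝ)) ^ D) := by
    have h4c : 4 / (c : ℝ) ≤ 1 / 2 := by
      rw [div_le_iff₀ hc0]; linarith
    have h4c0 : 0 ≤ 4 / (c : ℝ) := by positivity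
    have h1 : Real.exp (-(2 * (4 / (c : ℝ)))) ≤ 1 - 4 / (c : ℝ) := aux7 _ h4c0 h4c
    have h2 : Real.exp (-(x / 10)) ≤ (1 - 4 / (c : ℝ)) ^ D := by
      have h3 : Real.exp (-(x / 10)) ≤ Real.exp (-(2 * (4 / (c : ℝ)))) ^ D := by
        rw [← Real.exp_nat_mul]
        apply Real.exp_le_exp.2
        have h4 : (D : ℝ) * -(2 * (4 / (c : ℝ))) = -(8 * D / c) := by ring
        rw [h4, neg_le_neg_iff, div_le_iff₀ hc0]
        -- 8 D ≤ x/10 * c
        -- 8 D B ≤ 3/4 x^2 ; x/10*c*B ≥ x/10 * c * 2β ≥ x/10 * 14 x = 1.4 x^2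
        have h5 : 8 * (D : ℝ) * B ≤ x / 10 * c * B := by
          have h6 : 2 * β ≤ B := by linarith
          have h7 : x / 10 * (c : ℝ) * (2 * β) ≤ x / 10 * c * B :=
            mul_le_mul_of_nonneg_left h6 (by positivity)
          have h8 : x / 5 * (7 * x) ≤ x / 5 * (c * β) :=
            mul_le_mul_of_nonneg_left hcβ' (by positivity)
          have h9 := sq_nonneg x
          have h10 : x / 5 * (7 * x) = 7 / 5 * x ^ 2 := by ring
          have h11 : x / 10 * (c : ℝ) * (2 * β) = x / 5 * (c * β) := by ring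
          rw [h11] at h7
          rw [h10] at h8
          linarith
        exact le_of_mul_le_mul_right h5 hB0
      exact h3.trans (pow_le_pow_left₀ (Real.exp_pos _).le h1 D)
    have h3 : 1 / (2 * x) ≤ (1 / 2) * (4 / (c : ℝ)) := by
      have h4 : (1 / 2) * (4 / (c : ℝ)) = 2 / c := by ring
      rw [h4, div_le_div_iff₀ (by positivity) hc0]
      linarith
    calc 1 / (2 * x) * Real.exp (-(x / 10))
        ≤ (1 / 2) * (4 / (c : ℝ)) * (1 - 4 / (c : ℝ)) ^ D :=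
          mul_le_mul h3 h2 (Real.exp_pos _).le (by positivity)
      _ = (1 / 2) * ((4 / (c : ℝ)) * (1 - 4 / (c : ℝ)) ^ D) := by ring
  refine lt_of_lt_of_le ?_ hRHS
  -- the left-hand side
  have hr' : (r : ℝ) ≤ Real.exp x := by
    have : 32 * x / 32 = x := by ring
    rwa [this] at hr
  have hr0 : (0 : ℝ) ≤ r := Nat.cast_nonneg _
  have hx3 : 2 * x ^ 3 ≤ Real.exp x := (aux4 x hx22).1
  have hbase : ∀ k ∈ Finset.Icc 1 (c / 4),
      (Real.exp (3 * (32 * x) / 4) * (2 * r * k * D / Real.exp (32 * x))) ^ k ≤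
        Real.exp (-(6 * x)) := by
    intro k hk
    rw [Finset.mem_Icc] at hk
    have hkx : (k : ℝ) ≤ x := by
      have : (k : ℝ) ≤ ((c / 4 : ℕ) : ℝ) := by exact_mod_cast hk.2
      linarith
    have hk0 : (0 : ℝ) ≤ k := Nat.cast_nonneg _
    have h1 : Real.exp (3 * (32 * x) / 4) * (2 * r * k * D / Real.exp (32 * x)) =
        2 * r * k * D * Real.exp (-(8 * x)) := by
      have h2 : Real.exp (3 * (32 * x) / 4) = Real.exp (32 * x) * Real.exp (-(8 * x)) := by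
        rw [← Real.exp_add]; ring_nf
      rw [h2]
      have h3 : Real.exp (32 * x) ≠ 0 := (Real.exp_pos _).ne'
      field_simp
    have h2 : 2 * r * k * D * Real.exp (-(8 * x)) ≤ Real.exp (-(6 * x)) := by
      have h3 : 2 * (r : ℝ) * k * D ≤ 2 * Real.exp x * x * (x ^ 2 / 100) := by
        gcongr
      have h4 : 2 * Real.exp x * x * (x ^ 2 / 100) ≤ Real.exp x * Real.exp x := by
        have h5 : 2 * x * (x ^ 2 / 100) ≤ Real.exp x := by
          have h6 : 0 < x ^ 3 := by positivity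
          have h7 : 2 * x * (x ^ 2 / 100) = x ^ 3 / 50 := by ring
          rw [h7]; linarith
        have h6 := mul_le_mul_of_nonneg_left h5 (Real.exp_pos x).le
        calc 2 * Real.exp x * x * (x ^ 2 / 100) = Real.exp x * (2 * x * (x ^ 2 / 100)) := by ring
          _ ≤ _ := h6
      have h5 : Real.exp (-(6 * x)) = Real.exp x * Real.exp x * Real.exp (-(8 * x)) := by
        rw [← Real.exp_add, ← Real.exp_add]; ring_nf
      rw [h5]
      exact mul_le_mul_of_nonneg_right (h3.trans h4) (Real.exp_pos _).le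
    have h3 : 0 ≤ 2 * r * k * D * Real.exp (-(8 * x)) := by positivity
    have h4 : Real.exp (-(6 * x)) ≤ 1 := Real.exp_le_one_iff.2 (by linarith)
    rw [h1]
    calc (2 * r * k * D * Real.exp (-(8 * x))) ^ k
        ≤ (2 * r * k * D * Real.exp (-(8 * x))) ^ 1 :=
          pow_le_pow_of_le_one h3 (h2.trans h4) hk.1
      _ ≤ Real.exp (-(6 * x)) := by rw [pow_one]; exact h2
  have hsum : ∑ k ∈ Finset.Icc 1 (c / 4),
      (Real.exp (3 * (32 * x) / 4) * (2 * r * k * D / Real.exp (32 * x))) ^ k ≤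
        x * Real.exp (-(6 * x)) := by
    refine (Finset.sum_le_sum hbase).trans ?_
    rw [Finset.sum_const, Nat.card_Icc, nsmul_eq_mul]
    have h1 : ((c / 4 + 1 - 1 : ℕ) : ℝ) = ((c / 4 : ℕ) : ℝ) := by simp
    rw [h1]
    exact mul_le_mul_of_nonneg_right hdiv2 (Real.exp_pos _).le
  have e1 : Real.exp (-(32 * x / 8)) = Real.exp (-(4 * x)) := by ring_nf
  have e2 : Real.exp (-(32 * x / 32)) = Real.exp (-x) := by ring_nf
  rw [e1, e2]
  have h6 : Real.exp (-(6 * x)) ≤ Real.exp (-(4 * x)) := Real.exp_le_exp.2 (by linarith)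
  -- e^{-4x} = e^{-x} * e^{-3x}, e^{-3x} * x^4 ≤ 1
  have h7 : Real.exp (-(4 * x)) * x ^ 4 ≤ Real.exp (-x) := aux6 x hx22
  have hE4 : 0 < Real.exp (-(4 * x)) := Real.exp_pos _
  have hE1 : 0 < Real.exp (-x) := Real.exp_pos _
  have hx4 : 1 ≤ x ^ 4 := one_le_pow₀ (by linarith)
  -- total
  have htot : x * Real.exp (-(6 * x)) + 2 * Real.exp (-(4 * x)) +
      (Real.exp (-x) + B / 4 * Real.exp (-(4 * x))) * D ≤ x ^ 2 * Real.exp (-x) := by
    have h8 : x * Real.exp (-(6 * x)) ≤ Real.exp (-(4 * x)) * x ^ 4 := by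
      have h9 : x * Real.exp (-(6 * x)) ≤ x * Real.exp (-(4 * x)) :=
        mul_le_mul_of_nonneg_left h6 hx0.le
      have h10 : x ≤ x ^ 4 := le_self_pow₀ (by linarith) (by norm_num)
      have h11 := mul_le_mul_of_nonneg_left h10 hE4.le
      linarith
    have h12 : 2 * Real.exp (-(4 * x)) ≤ 2 * (Real.exp (-(4 * x)) * x ^ 4) := by
      have h13 : Real.exp (-(4 * x)) ≤ Real.exp (-(4 * x)) * x ^ 4 :=
        le_mul_of_one_le_right hE4.le hx4
      linarith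
    have h13 : (Real.exp (-x) + B / 4 * Real.exp (-(4 * x))) * D ≤
        Real.exp (-x) * (x ^ 2 / 100) + Real.exp (-(4 * x)) * x ^ 4 := by
      have h14 : Real.exp (-x) * D ≤ Real.exp (-x) * (x ^ 2 / 100) :=
        mul_le_mul_of_nonneg_left hDx hE1.le
      have h15 : B / 4 * Real.exp (-(4 * x)) * D = Real.exp (-(4 * x)) * (D * B / 4) := by ring
      have h16 : (D : ℝ) * B / 4 ≤ x ^ 4 := by
        have h17 : x ^ 2 ≤ x ^ 4 := pow_le_pow_right₀ (by linarith) (by norm_num)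
        have h18 := sq_nonneg x
        linarith
      have h17 := mul_le_mul_of_nonneg_left h16 hE4.le
      rw [add_mul, h15]
      linarith
    have h18 : 6 ≤ x ^ 2 / 2 := by
      have : (22 : ℝ) ^ 2 < x ^ 2 := pow_lt_pow_left₀ hx22 (by norm_num) (by norm_num)
      linarith
    have h19 : 6 * Real.exp (-x) ≤ x ^ 2 / 2 * Real.exp (-x) :=
      mul_le_mul_of_nonneg_right h18 hE1.le
    have h20 : 0 ≤ x ^ 2 * Real.exp (-x) := by positivity
    linarith
  refine lt_of_le_of_lt (le_trans (add_le_add_left (add_le_add_left hsum _) _) htot) ?_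
  -- x^2 e^{-x} < (1/(2x)) e^{-x/10}
  have h8 : 2 * x ^ 3 < Real.exp (9 / 10 * x) := aux5 x hx22
  have h9 : Real.exp (-(x / 10)) = Real.exp (-x) * Real.exp (9 / 10 * x) := by
    rw [← Real.exp_add]; ring_nf
  rw [h9]
  have h10 : 1 / (2 * x) * (Real.exp (-x) * Real.exp (9 / 10 * x)) =
      Real.exp (-x) * (Real.exp (9 / 10 * x) / (2 * x)) := by ring
  rw [h10, mul_comm (x ^ 2)]
  apply mul_lt_mul_of_pos_left _ hE1
  rw [lt_div_iff₀ (by positivity)]
  linarith [h8, (by ring : x ^ 2 * (2 * x) = 2 * x ^ 3)]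

set_option maxHeartbeats 4000000 in
theorem hD_general (r : ℕ) (hr : 3 ≤ r) : ∃ κ0 : ℝ, 0 < κ0 ∧ ∀ (κ L B : ℝ), 0 < κ → κ ≤ κ0 →
    1 ≤ L → 16 ≤ B → ∀ c D : ℕ, 7 * L / (32 * Real.log B) ≤ (c : ℝ) →
    (D : ℝ) ≤ 12 * (κ * L ^ ((r : ℝ) / ((r : ℝ) - 1))) / B →
    ∀ j : ℕ, 1 ≤ j → c * j < D → 2 * Nat.choose (r * j) r ≤ c * j := by
  have hr0 : (0 : ℝ) < r := by exact_mod_cast (by omega : 0 < r)
  have hr3 : (3 : ℝ) ≤ r := by exact_mod_cast hr
  obtain ⟨s, hs⟩ : ∃ s : ℕ, r = s + 1 := ⟨r - 1, by omega⟩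
  have hs2 : 2 ≤ s := by omega
  have hden : (0 : ℝ) < 2 * (r : ℝ) ^ r * 12 ^ s := by positivity
  refine ⟨(7 / 64) ^ r / (2 * (r : ℝ) ^ r * 12 ^ s), by positivity, ?_⟩
  intro κ L B hκ hκ0 hL hB c D hc hD j hj hcj
  have hB0 : 0 < B := by linarith
  set β := Real.log B with hβ
  have hexpβ : Real.exp β = B := Real.exp_log hB0
  have hβ0 : 0 < β := Real.log_pos (by linarith)
  have hL0 : 0 < L := by linarith
  have hκ1 : κ ≤ 1 := by
    refine hκ0.trans ?_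
    rw [div_le_one hden]
    have h1 : ((7 : ℝ) / 64) ^ r ≤ 1 := pow_le_one₀ (by norm_num) (by norm_num)
    have h2 : (1 : ℝ) ≤ (r : ℝ) ^ r := one_le_pow₀ (by linarith)
    have h3 : (1 : ℝ) ≤ 12 ^ s := one_le_pow₀ (by norm_num)
    have h4 : 1 * 1 ≤ (r : ℝ) ^ r * 12 ^ s := mul_le_mul h2 h3 (by norm_num) (by positivity)
    linarith
  have hc0 : (0 : ℝ) < c := lt_of_lt_of_le (by positivity) hc
  have hD0 : (0 : ℝ) ≤ D := Nat.cast_nonneg _
  have hj0 : (0 : ℝ) < j := by exact_mod_cast hj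
  -- β ^ r ≤ 2 ^ r * B ^ s
  have hβB : β ^ r ≤ 2 ^ r * B ^ s := by
    have h1 : β ^ 2 ≤ 4 * B := by
      have h2 : 1 + β / 2 ≤ Real.exp (β / 2) := by linarith [Real.add_one_le_exp (β / 2)]
      have h3 : Real.exp (β / 2) ^ 2 = B := by
        rw [← Real.exp_nat_mul, ← hexpβ]; congr 1; push_cast; ring
      have h4 : (β / 2) ^ 2 ≤ Real.exp (β / 2) ^ 2 :=
        pow_le_pow_left₀ (by positivity) (by linarith) 2
      rw [h3] at h4
      have h5 : (β / 2) ^ 2 = β ^ 2 / 4 := by ring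
      rw [h5] at h4
      linarith
    -- (β^r)^2 ≤ (4B)^r ≤ (2^r B^s)^2
    have h5 : (β ^ r) ^ 2 ≤ (2 ^ r * B ^ s) ^ 2 := by
      have h6 : (β ^ r) ^ 2 = (β ^ 2) ^ r := by rw [← pow_mul, ← pow_mul, mul_comm]
      have h7 : (β ^ 2) ^ r ≤ (4 * B) ^ r := pow_le_pow_left₀ (by positivity) h1 r
      have h8 : (4 * B) ^ r = (2 ^ r) ^ 2 * B ^ r := by
        rw [mul_pow]; congr 1
        rw [← pow_mul, mul_comm, pow_mul]; norm_num
      have h9 : B ^ r ≤ (B ^ s) ^ 2 := by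
        rw [← pow_mul]
        exact pow_le_pow_right₀ (by linarith) (by omega)
      rw [h6, mul_pow]
      refine h7.trans ?_
      rw [h8]
      exact mul_le_mul_of_nonneg_left h9 (by positivity)
    exact le_of_sq_le_sq h5 (by positivity)
  -- D ^ s ≤ (12 κ / B) ^ s * L ^ r
  have hDs : (D : ℝ) ^ s * B ^ s ≤ 12 ^ s * κ * L ^ r := by
    have h1 : (D : ℝ) * B ≤ 12 * (κ * L ^ ((r : ℝ) / ((r : ℝ) - 1))) := by
      rwa [le_div_iff₀ hB0] at hD
    have h2 : ((D : ℝ) * B) ^ s ≤ (12 * (κ * L ^ ((r : ℝ) / ((r : ℝ) - 1)))) ^ s :=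
      pow_le_pow_left₀ (by positivity) h1 s
    have h3 : (L ^ ((r : ℝ) / ((r : ℝ) - 1))) ^ s = L ^ r := by
      rw [← Real.rpow_natCast, ← Real.rpow_mul hL0.le, ← Real.rpow_natCast]
      congr 1
      have hs' : (s : ℝ) = (r : ℝ) - 1 := by rw [hs]; push_cast; ring
      rw [hs']
      have : (r : ℝ) - 1 ≠ 0 := by linarith
      field_simp
    have h4 : κ ^ s ≤ κ := by
      calc κ ^ s ≤ κ ^ 1 := pow_le_pow_of_le_one hκ.le hκ1 (by omega)
        _ = κ := pow_one κ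
    rw [mul_pow] at h2
    refine h2.trans ?_
    rw [mul_pow, mul_pow, h3]
    have h5 : (0 : ℝ) < L ^ r := by positivity
    have h6 : κ ^ s * L ^ r ≤ κ * L ^ r := mul_le_mul_of_nonneg_right h4 h5.le
    have h7 := mul_le_mul_of_nonneg_left h6 (by positivity : (0 : ℝ) ≤ 12 ^ s)
    linarith
  -- 2 r^r D^s ≤ c^r
  have hmain : 2 * (r : ℝ) ^ r * (D : ℝ) ^ s ≤ (c : ℝ) ^ r := by
    have h1 : (7 * L / (32 * β)) ^ r ≤ (c : ℝ) ^ r := pow_le_pow_left₀ (by positivity) hc r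
    refine le_trans ?_ h1
    have h2 : (7 * L / (32 * β)) ^ r = (7 / 32) ^ r * L ^ r / β ^ r := by
      rw [div_pow, div_pow, mul_pow, mul_pow]
      field_simp
    rw [h2, le_div_iff₀ (by positivity)]
    have h3 : 2 * (r : ℝ) ^ r * (D : ℝ) ^ s * β ^ r ≤
        2 * (r : ℝ) ^ r * (D : ℝ) ^ s * (2 ^ r * B ^ s) :=
      mul_le_mul_of_nonneg_left hβB (by positivity)
    refine h3.trans ?_
    have h4 : 2 * (r : ℝ) ^ r * (D : ℝ) ^ s * (2 ^ r * B ^ s) =
        2 * (r : ℝ) ^ r * 2 ^ r * ((D : ℝ) ^ s * B ^ s) := by ring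
    rw [h4]
    have h5 : 2 * (r : ℝ) ^ r * 2 ^ r * ((D : ℝ) ^ s * B ^ s) ≤
        2 * (r : ℝ) ^ r * 2 ^ r * (12 ^ s * κ * L ^ r) :=
      mul_le_mul_of_nonneg_left hDs (by positivity)
    refine h5.trans ?_
    have h6 : κ * (2 * (r : ℝ) ^ r * 12 ^ s) ≤ (7 / 64) ^ r := by
      rwa [le_div_iff₀ hden] at hκ0
    have h7 : ((7 : ℝ) / 32) ^ r = 2 ^ r * (7 / 64) ^ r := by
      rw [← mul_pow]; norm_num
    rw [h7]
    have h8 : 2 * (r : ℝ) ^ r * 2 ^ r * (12 ^ s * κ * L ^ r) =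
        2 ^ r * (κ * (2 * (r : ℝ) ^ r * 12 ^ s)) * L ^ r := by ring
    rw [h8]
    have h9 : (2 : ℝ) ^ r * (κ * (2 * (r : ℝ) ^ r * 12 ^ s)) ≤ 2 ^ r * (7 / 64) ^ r :=
      mul_le_mul_of_nonneg_left h6 (by positivity)
    exact mul_le_mul_of_nonneg_right h9 (by positivity)
  -- conclusion
  have hcjD : (c : ℝ) * j ≤ D := by exact_mod_cast hcj.le
  have hch : (Nat.choose (r * j) r : ℝ) ≤ ((r : ℝ) * j) ^ r := by
    have := Nat.choose_le_pow (r * j) r
    exact_mod_cast this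
  have hfin : 2 * (Nat.choose (r * j) r : ℝ) ≤ c * j := by
    have h1 : 2 * ((r : ℝ) * j) ^ r ≤ c * j := by
      -- multiply by c^s
      have h2 : 2 * ((r : ℝ) * j) ^ r * (c : ℝ) ^ s ≤ c * j * (c : ℝ) ^ s := by
        have h3 : 2 * ((r : ℝ) * j) ^ r * (c : ℝ) ^ s =
            2 * (r : ℝ) ^ r * ((c : ℝ) * j) ^ s * j := by
          rw [hs]
          ring
        have h4 : ((c : ℝ) * j) ^ s ≤ (D : ℝ) ^ s := pow_le_pow_left₀ (by positivity) hcjD s
        have h5 : 2 * (r : ℝ) ^ r * ((c : ℝ) * j) ^ s * j ≤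
            2 * (r : ℝ) ^ r * (D : ℝ) ^ s * j := by
          apply mul_le_mul_of_nonneg_right _ hj0.le
          exact mul_le_mul_of_nonneg_left h4 (by positivity)
        have h6 : c * j * (c : ℝ) ^ s = (c : ℝ) ^ r * j := by
          rw [hs]; ring
        rw [h3, h6]
        exact h5.trans (mul_le_mul_of_nonneg_right hmain hj0.le)
      exact le_of_mul_le_mul_right h2 (by positivity)
    linarith
  exact_mod_cast hfin

end Crest.Agent.H27Params
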