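import Mathlib

/-!
Products of infinite product measures.
-/

set_option autoImplicit false

open MeasureTheory ProbabilityTheory Filter Topology

namespace Crest.Agent.H27Prod

variable {ι X Y : Type*} [MeasurableSpace X] [MeasurableSpace Y] (μ : ι → Measure X)
  (ν : ι → Measure Y) [∀ i, IsProbabilityMeasure (μ i)] [∀ i, IsProbabilityMeasure (ν i)]

/-- The pair of coordinates at `i`. -/
def co (i : ι) (p : (ι → X) × (ι → Y)) : X × Y := (p.1 i, p.2 i)

omit μ ν in
theorem measurable_co (i : ι) : Measurable (co (X := X) (Y := Y) i) :=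
  ((measurable_pi_apply i).comp measurable_fst).prodMk
    ((measurable_pi_apply i).comp measurable_snd)

theorem prod_box (s : Finset ι) (A : ι → Set X) (B : ι → Set Y)
    (hA : ∀ i ∈ s, MeasurableSet (A i)) (hB : ∀ i ∈ s, MeasurableSet (B i)) :
    ((Measure.infinitePi μ).prod (Measure.infinitePi ν)) (⋂ i ∈ s, co i ⁻¹' (A i ×ˢ B i)) =
      ∏ i ∈ s, (μ i (A i) * ν i (B i)) := by
  classical
  have h2 : (⋂ i ∈ s, co i ⁻¹' (A i ×ˢ B i)) =
      (Set.pi (s : Set ι) A) ×ˢ (Set.pi (s : Set ι) B) := by
    ext p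
    simp only [Set.mem_iInter, Set.mem_preimage, Set.mem_prod, Set.mem_pi, Finset.mem_coe, co]
    exact ⟨fun h => ⟨fun v hv => (h v hv).1, fun v hv => (h v hv).2⟩,
      fun h v hv => ⟨h.1 v hv, h.2 v hv⟩⟩
  have h3 : Set.pi (s : Set ι) B = Set.pi (s : Set ι)
      (fun v => if v ∈ s then B v else Set.univ) := by
    apply Set.pi_congr rfl
    intro v hv
    rw [if_pos (Finset.mem_coe.1 hv)]
  have h4 : Set.pi (s : Set ι) A = Set.pi (s : Set ι)
      (fun v => if v ∈ s then A v else Set.univ) := by
    apply Set.pi_congr rfl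
    intro v hv
    rw [if_pos (Finset.mem_coe.1 hv)]
  have h6 := Measure.infinitePi_pi (μ := μ) (s := s)
    (t := fun v => if v ∈ s then A v else Set.univ)
    (fun v hv => by rw [if_pos hv]; exact hA v hv)
  have h7 := Measure.infinitePi_pi (μ := ν) (s := s)
    (t := fun v => if v ∈ s then B v else Set.univ)
    (fun v hv => by rw [if_pos hv]; exact hB v hv)
  rw [h2, Measure.prod_prod, h3, h4, h6, h7, ← Finset.prod_mul_distrib]
  apply Finset.prod_congr rfl
  intro v hv
  rw [if_pos hv, if_pos hv]

theorem map_co (i : ι) :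
    ((Measure.infinitePi μ).prod (Measure.infinitePi ν)).map (co i) = (μ i).prod (ν i) := by
  symm
  apply Measure.prod_eq
  intro s t hs ht
  rw [Measure.map_apply (measurable_co i) (hs.prod ht)]
  have := prod_box μ ν {i} (fun _ => s) (fun _ => t) (fun _ _ => hs) (fun _ _ => ht)
  simpa using this

theorem iIndepFun_co :
    iIndepFun (fun i => co (X := X) (Y := Y) i)
      ((Measure.infinitePi μ).prod (Measure.infinitePi ν)) := by
  classical
  rw [iIndepFun_iff_iIndep]
  set π : ι → Set (Set ((ι → X) × (ι → Y))) := fun v =>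
    Set.preimage (co v) '' (Set.image2 (· ×ˢ ·) {s : Set X | MeasurableSet s}
      {t : Set Y | MeasurableSet t}) with hπ
  apply iIndepSets.iIndep (π := π)
  · intro v
    exact (measurable_co v).comap_le
  · intro v
    have := isPiSystem_prod (α := X) (β := Y)
    exact this.comap (co v)
  · intro v
    rw [hπ]
    simp only
    rw [← MeasurableSpace.comap_generateFrom, generateFrom_prod]
  · rw [iIndepSets_iff]
    intro s f hf
    have hf' : ∀ v ∈ s, ∃ A : Set X, ∃ B : Set Y, MeasurableSet A ∧ MeasurableSet B ∧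
        f v = co v ⁻¹' (A ×ˢ B) := by
      intro v hv
      obtain ⟨t, ⟨A, hA, B, hB, rfl⟩, ht⟩ := hf v hv
      exact ⟨A, B, hA, hB, ht.symm⟩
    choose! A B hAm hBm hfAB using hf'
    have h4 : (⋂ v ∈ s, f v) = ⋂ v ∈ s, co v ⁻¹' (A v ×ˢ B v) :=
      Set.iInter₂_congr (fun v hv => hfAB v hv)
    rw [h4, prod_box μ ν s A B hAm hBm]
    apply Finset.prod_congr rfl
    intro v hv
    have h5 := prod_box μ ν {v} A B
      (by intro w hw; rw [Finset.mem_singleton] at hw; rw [hw]; exact hAm v hv)
      (by intro w hw; rw [Finset.mem_singleton] at hw; rw [hw]; exact hBm v hv)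
    rw [hfAB v hv]
    simpa using h5.symm

/-- The product of two infinite product measures is an infinite product measure. -/
theorem map_prod_infinitePi :
    ((Measure.infinitePi μ).prod (Measure.infinitePi ν)).map (fun p i => (p.1 i, p.2 i)) =
      Measure.infinitePi (fun i => (μ i).prod (ν i)) := by
  have h := (iIndepFun_co μ ν).map_fun_eq_infinitePi_map (fun i => measurable_co i)
  simp only [map_co] at h
  exact h

end Crest.Agent.H27Prod
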