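import Crest.Agent.H27QChain

/-!
# rid 350: modules FDECODE, FHALF
-/

set_option autoImplicit false

namespace Crest.Agent.QG.H27Ch

open Spec H27Tab

section Decode

variable {I : Type} [Fintype I] [DecidableEq I] [Nonempty I]

/-- law of a bit which is `false` with probability `f x` -/
def Ber (f : (I → Bool) → ℝ) : (I → Bool) → Bool → ℝ := fun x b => if b then 1 - f x else f x

theorem ber_mul (hB : SampBind) (hM : SampMap) {q₁ q₂ : ℕ} {f g : (I → Bool) → ℝ}
    (h1 : Samp I q₁ Bool (Ber f)) (h2 : Samp I q₂ Bool (Ber g)) :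
    Samp I (q₁ + q₂) Bool (Ber fun x => f x * g x) := by
  have h3 := hB I Bool Bool q₁ q₂ _ (fun _ => Ber g) h1 (fun _ => h2)
  have h4 := hM I (Bool × Bool) Bool (q₁ + q₂) _ (fun p => p.1 || p.2) h3
  convert h4 using 2
  rename_i x
  funext b
  rw [Fintype.sum_prod_type]
  cases b <;> simp [Ber] <;> ring

theorem ber_one (hP : SampPure) : Samp I 0 Bool (Ber fun _ : I → Bool => (1 : ℝ)) := by
  have := hP I Bool (fun b => if b then 0 else 1) (by intro e; cases e <;> simp)
    (by simp)
  convert this using 2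
  funext b
  cases b <;> simp [Ber]

theorem ber_pow (hP : SampPure) (hB : SampBind) (hM : SampMap) {q : ℕ} {f : (I → Bool) → ℝ}
    (h : Samp I q Bool (Ber f)) (R : ℕ) : Samp I (R * q) Bool (Ber fun x => f x ^ R) := by
  induction R with
  | zero => simpa using ber_one hP
  | succ R ih =>
    have := ber_mul hB hM ih h
    convert this using 2
    · ring
    · funext x; rw [pow_succ]

theorem ber_prod (hP : SampPure) (hB : SampBind) (hM : SampMap) {q : ℕ} (r : ℕ)
    (f : Fin r → (I → Bool) → ℝ) (h : ∀ s, Samp I q Bool (Ber (f s))) :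
    Samp I (r * q) Bool (Ber fun x => ∏ s, f s x) := by
  induction r with
  | zero => simpa using ber_one hP
  | succ r ih =>
    have h1 := ih (fun s => f s.succ) (fun s => h s.succ)
    have := ber_mul hB hM (h 0) h1
    convert this using 2
    · ring
    · funext x
      rw [Fin.prod_univ_succ]

theorem samp_pi (hP : SampPure) (hB : SampBind) (hM : SampMap) {q : ℕ} (c : ℕ)
    (P : Fin c → (I → Bool) → Bool → ℝ) (h : ∀ i, Samp I q Bool (P i)) :
    Samp I (c * q) (XX c) (fun x a => ∏ i, P i x (a i)) := by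
  induction c with
  | zero =>
    have := hP I (XX 0) (fun _ => 1) (by intro e; norm_num) (by simp [XX])
    simpa using this
  | succ c ih =>
    have h1 := ih (fun i => P i.succ) (fun i => h i.succ)
    have h3 := hB I Bool (XX c) q (c * q) _ (fun _ x a => ∏ i, P (Fin.succ i) x (a i)) (h 0) (fun _ => h1)
    have h4 := hM I (Bool × XX c) (XX (c + 1)) (q + c * q) _ (fun p => Fin.cons p.1 p.2) h3
    convert h4 using 2
    · ring
    · rename_i x
      funext a
      rw [Finset.sum_eq_single (a 0, fun i => a i.succ)]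
      · rw [if_pos (by exact Fin.cons_self_tail a), Fin.prod_univ_succ]
      · rintro ⟨b, a'⟩ _ hne
        rw [if_neg]
        intro heq
        apply hne
        rw [← heq]
        simp
      · intro hh; exact absurd (Finset.mem_univ _) hh

end Decode

theorem fdecode (hC : SampChain) (hP : SampPure) (hB : SampBind) (hM : SampMap) : FDecode := by
  intro n K c r₀ Lb R₁ j
  have : Nonempty (PP n K c r₀ Lb) := ⟨Sum.inl (fun _ => false, fun _ => false)⟩
  have h := samp_pi (I := PP n K c r₀ Lb) hP hB hM c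
    (fun i => Ber fun x => ∏ s, (1 - cphi (key x j) i s) ^ R₁) (q := r₀ * (R₁ * K)) (by
      intro i
      apply ber_prod hP hB hM
      intro s
      apply ber_pow hP hB hM
      have := hC (PP n K c r₀ Lb) n K (fun l y => Sum.inr (Sum.inl (j, ⟨i, s, l, y⟩)))
      convert this using 2
      rename_i x
      funext b
      cases b <;> simp [Ber, cphi, key])
  exact h

/-! ### FHALF -/

theorem one_sub_prod_le {ι : Type} (s : Finset ι) (u : ι → ℝ) (h0 : ∀ i ∈ s, 0 ≤ u i)
    (h1 : ∀ i ∈ s, u i ≤ 1) : 1 - ∑ i ∈ s, u i ≤ ∏ i ∈ s, (1 - u i) := by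
  classical
  induction s using Finset.induction_on with
  | empty => simp
  | insert a s ha ih =>
    rw [Finset.prod_insert ha, Finset.sum_insert ha]
    have h2 := ih (fun i hi => h0 i (Finset.mem_insert_of_mem hi))
      (fun i hi => h1 i (Finset.mem_insert_of_mem hi))
    have ha0 := h0 a (Finset.mem_insert_self a s)
    have ha1 := h1 a (Finset.mem_insert_self a s)
    have hs0 : 0 ≤ ∑ i ∈ s, u i :=
      Finset.sum_nonneg fun i hi => h0 i (Finset.mem_insert_of_mem hi)
    have h3 : (1 - u a) * (1 - ∑ i ∈ s, u i) ≤ (1 - u a) * ∏ i ∈ s, (1 - u i) :=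
      mul_le_mul_of_nonneg_left h2 (by linarith)
    nlinarith

theorem fhalf : FHalf := by
  intro n K c r₀ Lb R₁ θ₁ θ₀ j x a hθ₁ hθ₁' hθ₀ h1 h2 hG
  rcases Nat.eq_zero_or_pos c with hc | hc
  · subst hc
    unfold nu
    simp
    norm_num
  have hcR : (0 : ℝ) < c := by exact_mod_cast hc
  have hφ0 : ∀ i s, 0 ≤ cphi (key x j) i s := fun i s => sq_nonneg _
  have hφ1 : ∀ i s, cphi (key x j) i s ≤ 1 := fun i s => phiLe n K _
  have h2c : (0 : ℝ) < 2 * c := by positivity
  -- lower bound for each factor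
  have hfac : ∀ i, 1 - 1 / (2 * c : ℝ) ≤
      (if a i then 1 - fail R₁ (key x j) i else fail R₁ (key x j) i) := by
    intro i
    have hGi := hG i
    by_cases ha : a i = true
    · rw [if_pos ha] at hGi ⊢
      obtain ⟨s, hs⟩ := hGi
      have hf : fail R₁ (key x j) i ≤ 1 / (2 * c : ℝ) := by
        unfold fail
        have hle : ∏ s, (1 - cphi (key x j) i s) ^ R₁ ≤ (1 - cphi (key x j) i s) ^ R₁ := by
          rw [← Finset.mul_prod_erase Finset.univ _ (Finset.mem_univ s)]
          apply mul_le_of_le_one_right (pow_nonneg (by linarith [hφ1 i s]) _)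
          apply Finset.prod_le_one
          · intro s' _
            exact pow_nonneg (by linarith [hφ1 i s']) _
          · intro s' _
            exact pow_le_one₀ (by linarith [hφ1 i s']) (by linarith [hφ0 i s'])
        refine hle.trans ?_
        have hle2 : (1 - cphi (key x j) i s) ^ R₁ ≤ (1 - θ₁) ^ R₁ :=
          pow_le_pow_left₀ (by linarith [hφ1 i s]) (by linarith) _
        refine hle2.trans ?_
        rw [le_div_iff₀ h2c]
        have hb : 1 + (R₁ : ℝ) * θ₁ ≤ (1 + θ₁) ^ R₁ := one_add_mul_le_pow (by linarith) R₁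
        have hpow : 0 ≤ (1 - θ₁) ^ R₁ := pow_nonneg (by linarith) _
        calc (1 - θ₁) ^ R₁ * (2 * c) ≤ (1 - θ₁) ^ R₁ * (1 + θ₁) ^ R₁ :=
              mul_le_mul_of_nonneg_left (by linarith) hpow
          _ = ((1 - θ₁) * (1 + θ₁)) ^ R₁ := (mul_pow _ _ _).symm
          _ ≤ 1 := pow_le_one₀ (by nlinarith) (by nlinarith)
      linarith
    · rw [if_neg ha] at hGi ⊢
      unfold fail
      have h3 : ∏ s, (1 - cphi (key x j) i s) ^ R₁ =
          ∏ p : Fin r₀ × Fin R₁, (1 - cphi (key x j) i p.1) := by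
        rw [Fintype.prod_prod_type]
        simp
      rw [h3]
      have h4 := one_sub_prod_le (Finset.univ : Finset (Fin r₀ × Fin R₁))
        (fun p => cphi (key x j) i p.1) (fun p _ => hφ0 i p.1) (fun p _ => hφ1 i p.1)
      refine le_trans ?_ h4
      have h5 : ∑ p : Fin r₀ × Fin R₁, cphi (key x j) i p.1 ≤ r₀ * R₁ * θ₀ := by
        calc ∑ p : Fin r₀ × Fin R₁, cphi (key x j) i p.1 ≤ ∑ _p : Fin r₀ × Fin R₁, θ₀ :=
              Finset.sum_le_sum fun p _ => hGi p.1
          _ = r₀ * R₁ * θ₀ := by simp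
      have h6 : r₀ * R₁ * θ₀ ≤ 1 / (2 * c : ℝ) := by
        rw [le_div_iff₀ h2c]; linarith
      linarith
  unfold nu
  have hu1 : 1 / (2 * c : ℝ) ≤ 1 := by
    rw [div_le_one h2c]
    have : (1 : ℝ) ≤ c := by exact_mod_cast hc
    linarith
  have h7 := one_sub_prod_le (Finset.univ : Finset (Fin c)) (fun _ => 1 / (2 * c : ℝ))
    (fun _ _ => by positivity) (fun _ _ => hu1)
  have h8 : (1 / 2 : ℝ) = 1 - ∑ _i : Fin c, 1 / (2 * c : ℝ) := by
    rw [Finset.sum_const, Finset.card_univ, Fintype.card_fin, nsmul_eq_mul]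
    field_simp
    norm_num
  rw [h8]
  refine h7.trans ?_
  apply Finset.prod_le_prod
  · intro i _; linarith
  · intro i _; exact hfac i

end Crest.Agent.QG.H27Ch
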