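import Crest.Agent.H27QTab
set_option autoImplicit false
namespace Crest.Agent.QG.H27Tab
open Spec
variable {n : ℕ}

theorem sum_bits (L N : ℕ) (h : N < 2 ^ L) :
    (∑ β : Fin L, if N.testBit (β : ℕ) then (2 : ℤ) ^ (β : ℕ) else 0) = N := by
  induction L generalizing N with
  | zero => simp at h; subst h; simp
  | succ L ih =>
    rw [Fin.sum_univ_succ]
    have h1 : (∑ i : Fin L, if N.testBit ((i.succ : Fin (L + 1)) : ℕ) then (2 : ℤ) ^ ((i.succ : Fin (L + 1)) : ℕ) else 0) =
        2 * ∑ i : Fin L, if (N / 2).testBit (i : ℕ) then (2 : ℤ) ^ (i : ℕ) else 0 := by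
      rw [Finset.mul_sum]
      apply Finset.sum_congr rfl
      intro i _
      rw [Fin.val_succ, Nat.testBit_succ]
      split_ifs
      · rw [pow_succ]; ring
      · ring
    rw [h1, ih (N / 2) (by rw [pow_succ] at h; omega)]
    simp only [Fin.val_zero, Nat.testBit_zero, pow_zero, decide_eq_true_eq]
    split_ifs with h2
    · omega
    · omega

theorem dec_surj (e L : ℕ) (hL : e + 2 ≤ L) (v : ℤ) (hv : |v| ≤ 2 ^ e) :
    ∃ b : Fin L → Bool, decZ (2 ^ e) b = v := by
  obtain ⟨h1, h2⟩ := abs_le.mp hv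
  obtain ⟨N, hN⟩ : ∃ N : ℕ, (N : ℤ) = v + 2 ^ e := ⟨(v + 2 ^ e).toNat, by
    rw [Int.toNat_of_nonneg]; linarith⟩
  refine ⟨fun β => N.testBit β, ?_⟩
  unfold decZ
  have h3 : N < 2 ^ L := by
    have h4 : (N : ℤ) ≤ 2 * 2 ^ e := by rw [hN]; linarith
    have h5 : (2 : ℤ) * 2 ^ e < 2 ^ (e + 2) := by
      rw [pow_add]; have : (0 : ℤ) < 2 ^ e := by positivity
      linarith
    have h6 : (2 : ℤ) ^ (e + 2) ≤ 2 ^ L := pow_le_pow_right₀ (by norm_num) hL
    have h7 : (N : ℤ) < 2 ^ L := by linarith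
    exact_mod_cast h7
  have := sum_bits L N h3
  rw [this, hN]
  ring

theorem cz_abs (x y : XX n) : |cz x y| = 1 := by
  unfold cz
  rw [Finset.abs_prod]
  simp [sgZ_abs]

theorem st_abs (f : ℕ → XX n → Bool) (l : ℕ) (y : XX n) : |st f l y| ≤ 2 ^ (n * l) := by
  induction l generalizing y with
  | zero => simp [st]
  | succ l ih =>
    have : st f (l + 1) y = ∑ x, cz x y * (sgZ (f l x) * st f l x) := rfl
    rw [this]
    calc |∑ x, cz x y * (sgZ (f l x) * st f l x)| ≤ ∑ x, |cz x y * (sgZ (f l x) * st f l x)| :=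
          Finset.abs_sum_le_sum_abs _ _
      _ ≤ ∑ x : XX n, (2 : ℤ) ^ (n * l) := by
          apply Finset.sum_le_sum
          intro x _
          rw [abs_mul, abs_mul, cz_abs, sgZ_abs, one_mul, one_mul]
          exact ih x
      _ = 2 ^ (n * (l + 1)) := by
          rw [Finset.sum_const, Finset.card_univ, nsmul_eq_mul]
          simp only [XX, Fintype.card_fun, Fintype.card_bool, Fintype.card_fin]
          push_cast
          rw [mul_add, mul_one, pow_add, mul_comm]

theorem gf_abs_le (t : ℕ) (i : Fin n) (a b : Bool) : |gf t i a b| ≤ 1 := by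
  unfold gf
  split_ifs
  · rw [sgZ_abs]
  · simp
  · simp

theorem kap_abs_le (t : ℕ) (x y : XX n) : |kap t x y| ≤ 1 := by
  unfold kap
  rw [Finset.abs_prod]
  exact Finset.prod_le_one (fun _ _ => abs_nonneg _) (fun i _ => gf_abs_le t i _ _)

theorem bf_abs (f : ℕ → XX n → Bool) (l t : ℕ) (y : XX n) :
    |bf (fun y => sgZ (f l y) * st f l y) t y| ≤ 2 ^ (n * (l + 1)) := by
  unfold bf
  calc |∑ x, kap t x y * (sgZ (f l x) * st f l x)|
      ≤ ∑ x, |kap t x y * (sgZ (f l x) * st f l x)| := Finset.abs_sum_le_sum_abs _ _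
    _ ≤ ∑ x : XX n, (2 : ℤ) ^ (n * l) := by
        apply Finset.sum_le_sum
        intro x _
        rw [abs_mul, abs_mul, sgZ_abs, one_mul]
        calc |kap t x y| * |st f l x| ≤ 1 * |st f l x| :=
              mul_le_mul_of_nonneg_right (kap_abs_le t x y) (abs_nonneg _)
          _ = |st f l x| := one_mul _
          _ ≤ _ := st_abs f l x
    _ = 2 ^ (n * (l + 1)) := by
        rw [Finset.sum_const, Finset.card_univ, nsmul_eq_mul]
        simp only [XX, Fintype.card_fun, Fintype.card_bool, Fintype.card_fin]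
        push_cast
        rw [mul_add, mul_one, pow_add, mul_comm]

theorem fcomplete : FComplete := by
  classical
  intro n k c r₀ Lb θ₁ θ₀ hLb b a z κ hG
  -- true tableau values
  let V : TIx n (k + 1) c r₀ → ℤ := fun τ =>
    bf (fun y => sgZ (fx (fun l y => κ ⟨τ.i, τ.s, l, y⟩) τ.l y) *
      st (fx (fun l y => κ ⟨τ.i, τ.s, l, y⟩)) τ.l y) τ.t τ.y
  have hV : ∀ τ, |V τ| ≤ 2 ^ (n * (k + 1)) := by
    intro τ
    refine (bf_abs _ _ _ _).trans ?_
    apply pow_le_pow_right₀ (by norm_num)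
    apply Nat.mul_le_mul_left
    have := τ.l.2
    omega
  choose enc henc using fun τ => dec_surj (n * (k + 1)) Lb hLb (V τ) (hV τ)
  refine ⟨fun s => match s with
    | SP.ptr p i => z p i
    | SP.tab τ β => enc τ β, ?_⟩
  intro x h1 h2 h3 h4
  have hcell : ∀ τ, cell x a τ = V τ := by
    intro τ
    unfold cell
    rw [← henc τ]
    congr 1
    funext β
    exact h4 (SP.tab τ β)
  have hptr : ∀ p, ptr x a p = z p := by
    intro p
    funext i
    exact h4 (SP.ptr p i)
  have hkey : key x b = κ := by funext i; exact h3 i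
  simp only [FF, decide_eq_true_eq]
  refine ⟨b, a, ?_⟩
  intro l
  cases l with
  | all ρ => exact h1 ρ
  | zero p =>
    simp only [ok, decide_eq_true_eq]
    by_cases hp : p = b
    · exact Or.inl hp
    · right; rw [hptr]; exact h2 p hp
  | tab τ =>
    simp only [ok, decide_eq_true_eq]
    obtain ⟨i, s, l, t, y⟩ := τ
    unfold tabOK
    simp only [hcell, hkey]
    by_cases ht : (t : ℕ) = 0
    · rw [dif_pos ht]
      simp only [V]
      rw [ht, bf_zero, fx_val]
      congr 1
      by_cases hl : (l : ℕ) = 0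
      · rw [dif_pos hl, hl]; rfl
      · rw [dif_neg hl]
        rw [show ((Fin.last n : Fin (n + 1)) : ℕ) = n from rfl, bf_top]
        conv_lhs => rw [show (l : ℕ) = ((l : ℕ) - 1) + 1 by omega]
        rfl
    · rw [dif_neg ht]
      simp only [V]
      have ht' : (t : ℕ) - 1 < n := by have := t.2; omega
      have := bf_step (fun y => sgZ (fx (fun l y => κ ⟨i, s, l, y⟩) l y) *
        st (fx (fun l y => κ ⟨i, s, l, y⟩)) l y) ((t : ℕ) - 1) ht' y
      rw [show (t : ℕ) - 1 + 1 = t by omega] at this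
      exact this
  | fin i =>
    simp only [ok, decide_eq_true_eq]
    have hv : ∀ s, ((cell x a ⟨i, s, Fin.last k, Fin.last n, fun _ => false⟩ : ℤ) : ℝ) ^ 2 =
        cphi κ i s * ((2 : ℝ) ^ n) ^ (k + 2) := by
      intro s
      rw [hcell]
      simp only [V]
      rw [show ((Fin.last n : Fin (n + 1)) : ℕ) = n from rfl, bf_top,
        show ((Fin.last k : Fin (k + 1)) : ℕ) = k from rfl, cphi_eq κ i s]
      rfl
    unfold finOK
    have hGi := hG i
    by_cases hai : a i = true
    · rw [if_pos hai] at hGi ⊢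
      obtain ⟨s, hs⟩ := hGi
      refine ⟨s, ?_⟩
      rw [hv]
      exact mul_le_mul_of_nonneg_right hs (by positivity)
    · rw [if_neg hai] at hGi ⊢
      intro s
      rw [hv]
      exact mul_le_mul_of_nonneg_right (hGi s) (by positivity)

end Crest.Agent.QG.H27Tab
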