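import Mathlib
import Crest.Agent.H27QSpec
set_option autoImplicit false
open Crest.MathPhysics.Query

namespace Crest.Agent.H3QTour
open QG

variable {I : Type} [Fintype I] [DecidableEq I]

/-- sequential composition, keeping only the second outcome -/
theorem bindD (hBind : Spec.SampBind) (hMap : Spec.SampMap) {E E₂ : Type} [Fintype E] [DecidableEq E]
    [Fintype E₂] [DecidableEq E₂] {q₁ q₂ : ℕ} {P : (I → Bool) → E → ℝ} {Q : E → (I → Bool) → E₂ → ℝ}
    (h1 : Samp I q₁ E P) (h2 : ∀ e, Samp I q₂ E₂ (Q e)) :
    Samp I (q₁ + q₂) E₂ (fun x e₂ => ∑ e, P x e * Q e x e₂) := by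
  have h3 := hMap I (E × E₂) E₂ (q₁ + q₂) _ Prod.snd (hBind I E E₂ q₁ q₂ P Q h1 h2)
  convert! h3 using 1
  funext x e₂
  rw [Fintype.sum_prod_type]
  apply Finset.sum_congr rfl
  intro e _
  simp

theorem pmT {E : Type} [Fintype E] [DecidableEq E] (hProb : Spec.SampProb) {q : ℕ}
    {P : (I → Bool) → E → ℝ} (h : Samp I q E P) (x : I → Bool) :
    (∀ e, 0 ≤ P x e) ∧ ∑ e, P x e = 1 := hProb I E q P h x

/-- disjunction of two tests -/
theorem orS (hProb : Spec.SampProb) (hBind : Spec.SampBind) (hMap : Spec.SampMap) {q₁ q₂ : ℕ}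
    {P₁ P₂ : (I → Bool) → Bool → ℝ} (h1 : Samp I q₁ Bool P₁) (h2 : Samp I q₂ Bool P₂) :
    ∃ P, Samp I (q₁ + q₂) Bool P ∧ (∀ x, P x false = P₁ x false * P₂ x false) ∧
      (∀ x, P x true ≤ P₁ x true + P₂ x true) := by
  have h3 := hMap I (Bool × Bool) Bool (q₁ + q₂) _ (fun p => p.1 || p.2)
    (hBind I Bool Bool q₁ q₂ P₁ (fun _ => P₂) h1 (fun _ => h2))
  refine ⟨_, h3, ?_, ?_⟩
  · intro x
    simp [Fintype.sum_prod_type]
  · intro x
    obtain ⟨p1, s1⟩ := pmT hProb h1 x
    obtain ⟨p2, s2⟩ := pmT hProb h2 x
    simp only [Fintype.sum_bool] at s1 s2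
    simp [Fintype.sum_prod_type]
    nlinarith [p1 true, p1 false, p2 true, p2 false, mul_nonneg (p1 true) (p2 true)]

/-- conjunction of two tests -/
theorem andS (hProb : Spec.SampProb) (hBind : Spec.SampBind) (hMap : Spec.SampMap) {q₁ q₂ : ℕ}
    {P₁ P₂ : (I → Bool) → Bool → ℝ} (h1 : Samp I q₁ Bool P₁) (h2 : Samp I q₂ Bool P₂) :
    ∃ P, Samp I (q₁ + q₂) Bool P ∧ (∀ x, P x true = P₁ x true * P₂ x true) ∧
      (∀ x, P x false ≤ P₁ x false + P₂ x false) := by
  have h3 := hMap I (Bool × Bool) Bool (q₁ + q₂) _ (fun p => p.1 && p.2)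
    (hBind I Bool Bool q₁ q₂ P₁ (fun _ => P₂) h1 (fun _ => h2))
  refine ⟨_, h3, ?_, ?_⟩
  · intro x
    simp [Fintype.sum_prod_type]
  · intro x
    obtain ⟨p1, s1⟩ := pmT hProb h1 x
    obtain ⟨p2, s2⟩ := pmT hProb h2 x
    simp only [Fintype.sum_bool] at s1 s2
    simp [Fintype.sum_prod_type]
    nlinarith [p1 true, p1 false, p2 true, p2 false, mul_nonneg (p1 false) (p2 false)]

/-- constant outcome -/
theorem constB [Nonempty I] (hPure : Spec.SampPure) (b : Bool) :
    Samp I 0 Bool (fun _ c => if c = b then 1 else 0) := by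
  apply hPure I Bool
  · intro e; split_ifs <;> norm_num
  · simp

section verify

variable [Nonempty I] {X A Con : Type} [Fintype X] [DecidableEq X] [Nonempty X] [Fintype A]
  [DecidableEq A] [Fintype Con] [DecidableEq Con] [Nonempty Con]

/-- uniform distribution over a type -/
theorem unifS (hPure : Spec.SampPure) (C : Type) [Fintype C] [DecidableEq C] [Nonempty C] :
    Samp I 0 C (fun _ _ => 1 / (Fintype.card C : ℝ)) := by
  apply hPure I C
  · intro e; positivity
  · have : (Fintype.card C : ℝ) ≠ 0 := by positivity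
    simp [this]

/-- V1: one search for a violated constraint: `true` = no violation found -/
theorem v1 (hProb : Spec.SampProb) (hPure : Spec.SampPure) (hBind : Spec.SampBind)
    (hMap : Spec.SampMap) (hSearch : Spec.SampSearch) {qV : ℕ}
    (okk : Con → (I → Bool) → Bool) (hok : ∀ l, Det I qV Bool (okk l)) (J' : ℕ) (hJ : 0 < J')
    (hC : Fintype.card Con ≤ J' ^ 2) :
    ∃ P : (I → Bool) → Bool → ℝ, Samp I (2 * J' * qV) Bool P ∧
      ∀ x, ((∀ l, okk l x = true) → P x false = 0) ∧ ((∃ l, okk l x = false) → P x true ≤ 3 / 4) := by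
  have h1 := hBind I Con Bool 0 qV _ _ (unifS hPure Con) hok
  obtain ⟨Q, hQ, hQ'⟩ := hSearch I (Con × Bool) (0 + qV) J' _ (fun p => !p.2) hJ h1
  rw [zero_add] at hQ
  have h2 := hMap I (Option (Con × Bool)) Bool _ _ (fun o => o.isNone) hQ
  refine ⟨_, h2, fun x => ?_⟩
  obtain ⟨w, hw0, hw, hw'⟩ := hQ' x
  obtain ⟨pQ, sQ⟩ := pmT hProb hQ x
  rw [Fintype.sum_option] at sQ
  have hsum : ∑ e : Con × Bool, Q x (some e) =
      w * ∑ e : Con × Bool, (if !e.2 then 1 / (Fintype.card Con : ℝ) * (if okk e.1 x = e.2 then 1 else 0) else 0) := by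
    rw [Finset.mul_sum]
    apply Finset.sum_congr rfl
    intro e _
    rw [hw e]
    split_ifs <;> simp
  have hM : (0 : ℝ) < Fintype.card Con := by positivity
  constructor
  · intro hall
    rw [Fintype.sum_option]
    have : ∑ e : Con × Bool, (if !e.2 then 1 / (Fintype.card Con : ℝ) * (if okk e.1 x = e.2 then 1 else 0) else 0) = (0:ℝ) := by
      apply Finset.sum_eq_zero
      rintro ⟨l, c⟩ _
      rw [hall l]
      cases c <;> simp
    rw [this, mul_zero] at hsum
    simp [hsum]
  · rintro ⟨l₀, hl₀⟩
    rw [Fintype.sum_option]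
    have hge : 1 / (Fintype.card Con : ℝ) ≤ ∑ e : Con × Bool, (if !e.2 then 1 / (Fintype.card Con : ℝ) * (if okk e.1 x = e.2 then 1 else 0) else 0) := by
      have := Finset.single_le_sum (f := fun e : Con × Bool => (if !e.2 then 1 / (Fintype.card Con : ℝ) * (if okk e.1 x = e.2 then 1 else 0) else 0))
        (fun e _ => by split_ifs <;> positivity) (Finset.mem_univ (l₀, false))
      simpa [hl₀] using this
    have h4 : (1:ℝ) ≤ (J':ℝ) ^ 2 * ∑ e : Con × Bool, (if !e.2 then 1 / (Fintype.card Con : ℝ) * (if okk e.1 x = e.2 then 1 else 0) else 0) := by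
      have h5 : (Fintype.card Con : ℝ) ≤ (J':ℝ) ^ 2 := by exact_mod_cast hC
      calc (1:ℝ) = (Fintype.card Con : ℝ) * (1 / (Fintype.card Con : ℝ)) := by field_simp
        _ ≤ _ := by gcongr
    have h6 := hw' h4
    rw [← hsum] at h6
    simp
    linarith

/-- V2: repetition -/
theorem v2 (hProb : Spec.SampProb) (hPure : Spec.SampPure) (hBind : Spec.SampBind)
    (hMap : Spec.SampMap) (hSearch : Spec.SampSearch) {qV : ℕ}
    (okk : Con → (I → Bool) → Bool) (hok : ∀ l, Det I qV Bool (okk l)) (J' : ℕ) (hJ : 0 < J')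
    (hC : Fintype.card Con ≤ J' ^ 2) (R₂ : ℕ) :
    ∃ P : (I → Bool) → Bool → ℝ, Samp I (R₂ * (2 * J' * qV)) Bool P ∧
      ∀ x, ((∀ l, okk l x = true) → P x false = 0) ∧
        ((∃ l, okk l x = false) → P x true ≤ (3 / 4) ^ R₂) := by
  induction R₂ with
  | zero =>
    refine ⟨_, by simpa using constB (I := I) hPure true, fun x => ⟨fun _ => by simp, fun _ => by simp⟩⟩
  | succ R₂ ih =>
    obtain ⟨P, hP, hP'⟩ := ih
    obtain ⟨P1, hP1, hP1'⟩ := v1 hProb hPure hBind hMap hSearch okk hok J' hJ hC
    obtain ⟨P2, hP2, h2t, h2f⟩ := andS hProb hBind hMap hP hP1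
    refine ⟨P2, by rw [add_mul, one_mul]; exact hP2, fun x => ⟨fun h => ?_, fun h => ?_⟩⟩
    · have h1 := (hP' x).1 h
      have h2 := (hP1' x).1 h
      have h3 := h2f x
      have h4 := (pmT hProb hP2 x).1 false
      linarith
    · rw [h2t x, pow_succ]
      exact mul_le_mul ((hP' x).2 h) ((hP1' x).2 h) ((pmT hProb hP1 x).1 true) (by positivity)

/-- V3: decode a column and verify -/
theorem v3 (hProb : Spec.SampProb) (hPure : Spec.SampPure) (hBind : Spec.SampBind)
    (hMap : Spec.SampMap) (hSearch : Spec.SampSearch) {qD qV : ℕ}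
    (νp : (I → Bool) → A → ℝ) (hν : Samp I qD A νp)
    (okk : A → Con → (I → Bool) → Bool) (hok : ∀ a l, Det I qV Bool (okk a l)) (J' : ℕ) (hJ : 0 < J')
    (hC : Fintype.card Con ≤ J' ^ 2) (R₂ : ℕ) :
    ∃ P : (I → Bool) → Bool → ℝ, Samp I (qD + R₂ * (2 * J' * qV)) Bool P ∧
      ∀ x, (∀ a, (∀ l, okk a l x = true) → (1 / 2 : ℝ) ≤ νp x a → P x false ≤ 1 / 2) ∧
        ((∀ a, ∃ l, okk a l x = false) → P x true ≤ (3 / 4) ^ R₂) := by
  have h1 := fun a => v2 hProb hPure hBind hMap hSearch (okk a) (hok a) J' hJ hC R₂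
  choose Pa hPa hPa' using h1
  have h2 := bindD hBind hMap hν hPa
  refine ⟨_, h2, fun x => ⟨?_, ?_⟩⟩
  · intro a ha hνa
    obtain ⟨pν, sν⟩ := pmT hProb hν x
    have h3 : ∑ e, νp x e * Pa e x false ≤ ∑ e, (νp x e - if e = a then νp x e else 0) := by
      apply Finset.sum_le_sum
      intro e _
      split_ifs with he
      · subst he
        rw [(hPa' e x).1 ha]
        simp
      · have h4 := (pmT hProb (hPa e) x)
        have h5 : Pa e x false ≤ 1 := by
          have := h4.2
          rw [Fintype.sum_bool] at this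
          linarith [h4.1 true]
        nlinarith [pν e]
    rw [Finset.sum_sub_distrib, sν, Finset.sum_ite_eq'] at h3
    simp at h3
    linarith
  · intro hall
    obtain ⟨pν, sν⟩ := pmT hProb hν x
    calc ∑ e, νp x e * Pa e x true ≤ ∑ e, νp x e * (3 / 4) ^ R₂ := by
          apply Finset.sum_le_sum
          intro e _
          exact mul_le_mul_of_nonneg_left ((hPa' e x).2 (hall e)) (pν e)
      _ = (3 / 4) ^ R₂ := by rw [← Finset.sum_mul, sν, one_mul]

/-- V4: repeated disjunction of a test -/
theorem v4 (hProb : Spec.SampProb) (hPure : Spec.SampPure) (hBind : Spec.SampBind)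
    (hMap : Spec.SampMap) {q : ℕ} {P : (I → Bool) → Bool → ℝ} (hP : Samp I q Bool P) (R : ℕ) :
    ∃ P' : (I → Bool) → Bool → ℝ, Samp I (R * q) Bool P' ∧
      ∀ x, P' x false = P x false ^ R ∧ P' x true ≤ R * P x true := by
  induction R with
  | zero =>
    refine ⟨_, by simpa using constB (I := I) hPure false, fun x => ⟨by simp, by simp⟩⟩
  | succ R ih =>
    obtain ⟨P', hP', h'⟩ := ih
    obtain ⟨P2, hP2, h2f, h2t⟩ := orS hProb hBind hMap hP' hP
    refine ⟨P2, by rw [add_mul, one_mul]; exact hP2, fun x => ⟨?_, ?_⟩⟩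
    · rw [h2f x, (h' x).1, pow_succ]
    · have := h2t x
      have := (h' x).2
      push_cast
      linarith

/-- V5: disjunction over a list of columns -/
theorem v5 (hProb : Spec.SampProb) (hPure : Spec.SampPure) (hBind : Spec.SampBind)
    (hMap : Spec.SampMap) {q : ℕ} {C : Type} (P : C → (I → Bool) → Bool → ℝ)
    (hP : ∀ p, Samp I q Bool (P p)) (L : List C) :
    ∃ P' : (I → Bool) → Bool → ℝ, Samp I (L.length * q) Bool P' ∧
      ∀ x, (∀ p ∈ L, P' x false ≤ P p x false) ∧
        ∀ δ : ℝ, (∀ p, P p x true ≤ δ) → P' x true ≤ L.length * δ := by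
  induction L with
  | nil =>
    refine ⟨_, by simpa using constB (I := I) hPure false, fun x => ⟨by simp, by simp⟩⟩
  | cons p L ih =>
    obtain ⟨P', hP', h'⟩ := ih
    obtain ⟨P2, hP2, h2f, h2t⟩ := orS hProb hBind hMap hP' (hP p)
    refine ⟨P2, by rw [List.length_cons, add_mul, one_mul]; exact hP2, fun x => ⟨?_, ?_⟩⟩
    · intro p' hp'
      obtain ⟨u1, u2⟩ := pmT hProb hP' x
      obtain ⟨v1, v2⟩ := pmT hProb (hP p) x
      rw [Fintype.sum_bool] at u2 v2
      rw [h2f x]
      rcases List.mem_cons.1 hp' with h | h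
      · subst h
        nlinarith [u1 true, u1 false, v1 false]
      · have := (h' x).1 p' h
        nlinarith [u1 true, u1 false, v1 false, v1 true]
    · intro δ hδ
      have := h2t x
      have := (h' x).2 δ hδ
      have := hδ p
      rw [List.length_cons]
      push_cast
      linarith

end verify

/-! ### rounds -/

section rounds

variable [Nonempty I] {X A : Type} [Fintype X] [DecidableEq X] [Nonempty X] [Fintype A]
  [DecidableEq A]

/-- all pivots are beaten -/
def allB (bt : X × A → X × A → (I → Bool) → Bool) (L : List (X × A)) (e : X × A) (x : I → Bool) : Bool :=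
  L.all (fun π => bt e π x)

/-- the weight of an item -/
noncomputable def mu (ν : X → (I → Bool) → A → ℝ) (x : I → Bool) (e : X × A) : ℝ :=
  1 / (Fintype.card X : ℝ) * ν e.1 x e.2

/-- weight of the set of items that beat all pivots -/
noncomputable def mL (ν : X → (I → Bool) → A → ℝ) (bt : X × A → X × A → (I → Bool) → Bool)
    (L : List (X × A)) (x : I → Bool) : ℝ :=
  ∑ e, if allB bt L e x then mu ν x e else 0

theorem testL (hPure : Spec.SampPure) (hBind : Spec.SampBind) (hMap : Spec.SampMap) {qB : ℕ}
    (t : X × A → (I → Bool) → Bool) (ht : ∀ π, Det I qB Bool (t π)) (L : List (X × A)) :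
    Det I (L.length * qB) Bool (fun x => L.all (fun π => t π x)) := by
  induction L with
  | nil =>
    have := constB (I := I) hPure true
    unfold Det
    simpa [eq_comm] using this
  | cons π L ih =>
    have h3 := hMap I (Bool × Bool) Bool _ _ (fun p => p.1 && p.2)
      (hBind I Bool Bool _ _ _ (fun _ => _) ih (fun _ => ht π))
    unfold Det
    rw [List.length_cons, add_mul, one_mul]
    convert! h3 using 1
    funext x e'
    rw [Fintype.sum_prod_type]
    simp only [Fintype.sum_bool, List.all_cons]
    rcases Bool.eq_false_or_eq_true (L.all fun π => t π x) with h1 | h1 <;>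
      rcases Bool.eq_false_or_eq_true (t π x) with h2 | h2 <;> cases e' <;> simp [h1, h2]

theorem item (hBind : Spec.SampBind) (hPure : Spec.SampPure) {qD : ℕ}
    {ν : X → (I → Bool) → A → ℝ} (hν : ∀ j, Samp I qD A (ν j)) :
    Samp I qD (X × A) (mu ν) := by
  have h1 := hBind I X A 0 qD _ _ (unifS hPure X) hν
  rw [zero_add] at h1
  exact h1

theorem round (hPure : Spec.SampPure) (hBind : Spec.SampBind)
    (hMap : Spec.SampMap) (hPad : Spec.SampPad) (hSearch : Spec.SampSearch) {qD qB : ℕ}
    {ν : X → (I → Bool) → A → ℝ} {bt : X × A → X × A → (I → Bool) → Bool}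
    (hν : ∀ j, Samp I qD A (ν j)) (hbt : ∀ e π, Det I qB Bool (bt e π))
    (T J : ℕ) (hJ : 0 < J) (L : List (X × A)) (hL : L.length ≤ T) :
    ∃ Q : (I → Bool) → Option (X × A) → ℝ, Samp I (2 * J * (qD + T * qB)) (Option (X × A)) Q ∧
      ∀ x, ∃ w : ℝ, 0 ≤ w ∧ (∀ e, Q x (some e) = if allB bt L e x then w * mu ν x e else 0) ∧
        (1 ≤ (J : ℝ) ^ 2 * mL ν bt L x → (1 / 4 : ℝ) ≤ w * mL ν bt L x) := by
  have h1 : ∀ e, Samp I (T * qB) Bool (fun x b => if allB bt L e x = b then 1 else 0) := fun e =>
    hPad I Bool _ _ _ (Nat.mul_le_mul_right _ hL) (testL hPure hBind hMap (bt e) (hbt e) L)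
  have h2 := hBind I (X × A) Bool qD (T * qB) _ _ (item hBind hPure hν) h1
  obtain ⟨Q, hQ, hQ'⟩ := hSearch I ((X × A) × Bool) _ J _ (fun p => p.2) hJ h2
  have h3 := hMap I (Option ((X × A) × Bool)) (Option (X × A)) _ _ (fun o => o.map Prod.fst) hQ
  have hmL : ∀ x, (∑ e : (X × A) × Bool, if e.2 = true then mu ν x e.1 * (if allB bt L e.1 x = e.2 then 1 else 0) else 0)
      = mL ν bt L x := by
    intro x
    rw [Fintype.sum_prod_type, mL]
    apply Finset.sum_congr rfl
    intro e _
    simp
  refine ⟨_, h3, fun x => ?_⟩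
  obtain ⟨w, hw0, hw, hw'⟩ := hQ' x
  refine ⟨w, hw0, ?_, ?_⟩
  · intro e
    rw [Fintype.sum_option]
    simp only [Option.map_none, Option.map_some, reduceCtorEq, if_false, zero_add, Option.some.injEq]
    rw [Fintype.sum_prod_type]
    simp only [Fintype.sum_bool]
    rw [Finset.sum_eq_single e]
    · simp only [if_true, hw]
      simp
    · intro b _ hb
      simp [hb]
    · simp
  · intro h
    have := hw' (by rw [hmL x]; exact h)
    rwa [hmL x] at this

theorem mL_nonneg (hProb : Spec.SampProb) {qD : ℕ}
    {ν : X → (I → Bool) → A → ℝ} {bt : X × A → X × A → (I → Bool) → Bool}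
    (hν : ∀ j, Samp I qD A (ν j)) (L : List (X × A)) (x : I → Bool) : 0 ≤ mL ν bt L x := by
  unfold mL mu
  apply Finset.sum_nonneg
  intro e _
  have := (pmT hProb (hν e.1) x).1 e.2
  split_ifs <;> positivity

/-- the antisymmetry bound -/
theorem antisym (hProb : Spec.SampProb) {qD : ℕ}
    {ν : X → (I → Bool) → A → ℝ} {bt : X × A → X × A → (I → Bool) → Bool}
    (hν : ∀ j, Samp I qD A (ν j)) (hanti : ∀ x e π, bt e π x = true → bt π e x = false)
    (L : List (X × A)) (x : I → Bool) :
    ∑ π, (if allB bt L π x then mu ν x π * mL ν bt (π :: L) x else 0) ≤ 1 / 2 * mL ν bt L x ^ 2 := by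
  set f : X × A → ℝ := fun e => if allB bt L e x then mu ν x e else 0 with hf
  have hmu : ∀ e, 0 ≤ mu ν x e := by
    intro e
    have := (pmT hProb (hν e.1) x).1 e.2
    unfold mu
    positivity
  have hf0 : ∀ e, 0 ≤ f e := by
    intro e
    simp only [hf]
    split_ifs
    · exact hmu e
    · exact le_rfl
  have h1 : ∀ π, (if allB bt L π x then mu ν x π * mL ν bt (π :: L) x else 0) =
      ∑ e, (if bt e π x then f π * f e else 0) := by
    intro π
    by_cases hπ : allB bt L π x = true
    · rw [if_pos hπ, mL, Finset.mul_sum]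
      apply Finset.sum_congr rfl
      intro e _
      have h2 : allB bt (π :: L) e x = (bt e π x && allB bt L e x) := by
        simp [allB]
      rw [h2]
      by_cases hb : bt e π x = true
      · by_cases he : allB bt L e x = true
        · simp [hb, he, hf, hπ]
        · simp only [Bool.not_eq_true] at he
          simp [hb, he, hf]
      · simp only [Bool.not_eq_true] at hb
        simp [hb]
    · simp only [Bool.not_eq_true] at hπ
      simp [hπ, hf]
  have h2 : ∑ π, (if allB bt L π x then mu ν x π * mL ν bt (π :: L) x else 0) =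
      ∑ π, ∑ e, (if bt e π x then f π * f e else 0) := Finset.sum_congr rfl (fun π _ => h1 π)
  have h3 : ∑ π, ∑ e, (if bt e π x then f π * f e else 0) = ∑ π, ∑ e, (if bt π e x then f π * f e else 0) := by
    rw [Finset.sum_comm]
    apply Finset.sum_congr rfl
    intro π _
    apply Finset.sum_congr rfl
    intro e _
    rw [mul_comm]
  have h4 : mL ν bt L x ^ 2 = ∑ π, ∑ e, f π * f e := by
    rw [sq, mL, Finset.sum_mul_sum]
  have h5 : ∑ π, ∑ e, (if bt e π x then f π * f e else 0) + ∑ π, ∑ e, (if bt π e x then f π * f e else 0)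
      ≤ ∑ π, ∑ e, f π * f e := by
    rw [← Finset.sum_add_distrib]
    apply Finset.sum_le_sum
    intro π _
    rw [← Finset.sum_add_distrib]
    apply Finset.sum_le_sum
    intro e _
    have h6 := mul_nonneg (hf0 π) (hf0 e)
    by_cases hb : bt e π x = true
    · rw [if_pos hb, hanti x e π hb]
      simp
    · rw [if_neg hb]
      split_ifs <;> linarith
  rw [h2, h4]
  linarith

end rounds

open Classical in
theorem main (hProb : Spec.SampProb) (hPure : Spec.SampPure) (_hRead : Spec.SampRead)
    (hBind : Spec.SampBind) (hMap : Spec.SampMap) (hPad : Spec.SampPad)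
    (hSearch : Spec.SampSearch) : Spec.Tour := by
  intro I _ _ _ X A Con _ _ _ _ _ _ _ _ qD qB qV ν bt ok F hν hbt hok hanti hval hF T R R₂ J J' hJ hJ'
    hXJ hCJ hT hR hR2
  -- verification
  have hv3 := fun p => v3 hProb hPure hBind hMap hSearch (ν p) (hν p) (ok p) (hok p) J' hJ' hCJ R₂
  choose P3 hP3 hP3' using hv3
  have hv4 := fun p => v4 hProb hPure hBind hMap (hP3 p) R
  choose P4 hP4 hP4' using hv4
  -- numerical facts
  have hX : (0 : ℝ) < Fintype.card X := by positivity
  have hXJ' : 2 * (Fintype.card X : ℝ) ≤ (J : ℝ) ^ 2 := by exact_mod_cast hXJ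
  have hTR : (T : ℝ) * (R * (3 / 4) ^ R₂) ≤ 1 / 10 := by
    have h1 : 10 * (T : ℝ) * R * 3 ^ R₂ ≤ 4 ^ R₂ := by exact_mod_cast hR2
    rw [div_pow]
    have h4 : (0:ℝ) < 4 ^ R₂ := by positivity
    rw [← mul_div_assoc, ← mul_div_assoc, div_le_iff₀ h4]
    linarith
  have hR' : ((1:ℝ) / 2) ^ R ≤ 1 / 20 := by
    have h1 : (20 : ℝ) ≤ 2 ^ R := by exact_mod_cast hR
    rw [div_pow, one_pow]
    exact one_div_le_one_div_of_le (by norm_num) h1
  have hT' : 2 * (Fintype.card X : ℝ) * (7 / 8) ^ T ≤ 1 / 20 := by
    have h1 : 40 * (Fintype.card X : ℝ) * 7 ^ T ≤ 8 ^ T := by exact_mod_cast hT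
    rw [div_pow]
    have h4 : (0:ℝ) < 8 ^ T := by positivity
    rw [← mul_div_assoc, div_le_iff₀ h4]
    linarith
  -- the main induction
  have key : ∀ n : ℕ, ∀ L : List (X × A), L.length + n ≤ T → ∃ P : (I → Bool) → Bool → ℝ,
      Samp I (n * (2 * J * (qD + T * qB)) + T * (R * (qD + R₂ * (2 * J' * qV)))) Bool P ∧
      ∀ x, (F x = false → P x true ≤ 1 / 10) ∧
        ∀ b a, (∀ l, ok b a l x = true) → P x false ≤ 1 / 20 +
          (if ∃ π ∈ L, π.1 = b then 0 else 2 * (Fintype.card X : ℝ) * (7 / 8) ^ n * mL ν bt L x) := by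
    intro n
    induction n with
    | zero =>
      intro L hL
      obtain ⟨P5, hP5, hP5'⟩ := v5 hProb hPure hBind hMap (fun π : X × A => P4 π.1)
        (fun π => hP4 π.1) L
      refine ⟨P5, ?_, fun x => ⟨?_, ?_⟩⟩
      · rw [zero_mul, zero_add]
        exact hPad I Bool _ _ _ (Nat.mul_le_mul_right _ (by omega)) hP5
      · intro hFx
        have hno : ∀ p a, ∃ l, ok p a l x = false := by
          intro p a
          by_contra hc
          push Not at hc
          have : F x = true := (hF x).2 ⟨p, a, fun l => by simpa using hc l⟩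
          rw [hFx] at this
          exact absurd this (by decide)
        have h1 := (hP5' x).2 (R * (3 / 4) ^ R₂) (fun π => by
          have h2 := (hP4' π.1 x).2
          have h3 := (hP3' π.1 x).2 (hno π.1)
          calc _ ≤ _ := h2
            _ ≤ _ := by gcongr)
        have h2 : (L.length : ℝ) ≤ T := by
          have : L.length ≤ T := by omega
          exact_mod_cast this
        have h3 : (0:ℝ) ≤ R * (3 / 4) ^ R₂ := by positivity
        nlinarith
      · intro b a hba
        obtain ⟨hb1, hb2⟩ := hval x b a hba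
        split_ifs with hmem
        · obtain ⟨π, hπ, hπb⟩ := hmem
          have h1 := (hP5' x).1 π hπ
          simp only [hπb] at h1
          rw [(hP4' b x).1] at h1
          have h2 := (hP3' b x).1 a hba hb2
          have h3 := (pmT hProb (hP3 b) x).1 false
          have h4 : P3 b x false ^ R ≤ (1 / 2) ^ R := pow_le_pow_left₀ h3 h2 R
          linarith
        · -- the bound is trivial
          have h0 := pmT hProb hP5 x
          rw [Fintype.sum_bool] at h0
          have h1 : P5 x false ≤ 1 := by linarith [h0.1 true, h0.2]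
          have hall : allB bt L (b, a) x = true := by
            unfold allB
            rw [List.all_eq_true]
            intro π hπ
            have hne : π.1 ≠ b := fun hc => hmem ⟨π, hπ, hc⟩
            exact hb1 π.1 π.2 hne
          have h2 : 1 / (Fintype.card X : ℝ) * (1 / 2) ≤ mL ν bt L x := by
            unfold mL
            have h3 := Finset.single_le_sum (f := fun e : X × A => if allB bt L e x then mu ν x e else 0)
              (fun e _ => by
                have := (pmT hProb (hν e.1) x).1 e.2
                unfold mu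
                split_ifs <;> positivity) (Finset.mem_univ (b, a))
            simp only [hall, if_true] at h3
            refine le_trans ?_ h3
            unfold mu
            gcongr
          have h3 : 1 ≤ 2 * (Fintype.card X : ℝ) * (7 / 8) ^ 0 * mL ν bt L x := by
            calc (1:ℝ) = 2 * (Fintype.card X : ℝ) * (7 / 8) ^ 0 * (1 / (Fintype.card X : ℝ) * (1 / 2)) := by
                  field_simp
              _ ≤ _ := by gcongr
          linarith
    | succ n ih =>
      intro L hL
      obtain ⟨Q, hQ, hQ'⟩ := round hPure hBind hMap hPad hSearch hν hbt T J hJ L (by omega)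
      -- continuation
      have hcont : ∀ o : Option (X × A), ∃ P : (I → Bool) → Bool → ℝ,
          Samp I (n * (2 * J * (qD + T * qB)) + T * (R * (qD + R₂ * (2 * J' * qV)))) Bool P ∧
          ∀ x, (F x = false → P x true ≤ 1 / 10) ∧
            ∀ b a, (∀ l, ok b a l x = true) → P x false ≤ 1 / 20 +
              (if ∃ π ∈ (o.elim L (fun π => π :: L)), π.1 = b then 0 else
                2 * (Fintype.card X : ℝ) * (7 / 8) ^ n * mL ν bt (o.elim L (fun π => π :: L)) x) := by
        intro o
        apply ih
        cases o with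
        | none => simp only [Option.elim]; omega
        | some π => simp only [Option.elim, List.length_cons]; omega
      choose Pc hPc hPc' using hcont
      have h1 := bindD hBind hMap hQ hPc
      refine ⟨_, by
        have : (n + 1) * (2 * J * (qD + T * qB)) + T * (R * (qD + R₂ * (2 * J' * qV))) =
          2 * J * (qD + T * qB) + (n * (2 * J * (qD + T * qB)) + T * (R * (qD + R₂ * (2 * J' * qV)))) := by ring
        rw [this]
        exact h1, fun x => ⟨?_, ?_⟩⟩
      · intro hFx
        obtain ⟨pQ, sQ⟩ := pmT hProb hQ x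
        calc ∑ e, Q x e * Pc e x true ≤ ∑ e, Q x e * (1 / 10) := by
              apply Finset.sum_le_sum
              intro e _
              exact mul_le_mul_of_nonneg_left ((hPc' e x).1 hFx) (pQ e)
          _ = 1 / 10 := by rw [← Finset.sum_mul, sQ, one_mul]
      · intro b a hba
        obtain ⟨hb1, hb2⟩ := hval x b a hba
        obtain ⟨pQ, sQ⟩ := pmT hProb hQ x
        split_ifs with hmem
        · calc ∑ e, Q x e * Pc e x false ≤ ∑ e, Q x e * (1 / 20) := by
                apply Finset.sum_le_sum
                intro e _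
                apply mul_le_mul_of_nonneg_left _ (pQ e)
                have h2 := (hPc' e x).2 b a hba
                rw [if_pos] at h2
                · linarith
                · obtain ⟨π, hπ, hπb⟩ := hmem
                  refine ⟨π, ?_, hπb⟩
                  cases e with
                  | none => exact hπ
                  | some π' => exact List.mem_cons_of_mem _ hπ
            _ = 1 / 20 + 0 := by rw [← Finset.sum_mul, sQ]; ring
        · have hall : allB bt L (b, a) x = true := by
            unfold allB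
            rw [List.all_eq_true]
            intro π hπ
            have hne : π.1 ≠ b := fun hc => hmem ⟨π, hπ, hc⟩
            exact hb1 π.1 π.2 hne
          have h2 : 1 / (Fintype.card X : ℝ) * (1 / 2) ≤ mL ν bt L x := by
            unfold mL
            have h3 := Finset.single_le_sum (f := fun e : X × A => if allB bt L e x then mu ν x e else 0)
              (fun e _ => by
                have := (pmT hProb (hν e.1) x).1 e.2
                unfold mu
                split_ifs <;> positivity) (Finset.mem_univ (b, a))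
            simp only [hall, if_true] at h3
            refine le_trans ?_ h3
            unfold mu
            gcongr
          obtain ⟨w, hw0, hw, hw'⟩ := hQ' x
          have hm0 : 0 < mL ν bt L x := lt_of_lt_of_le (by positivity) h2
          have h3 : (1:ℝ) ≤ (J : ℝ) ^ 2 * mL ν bt L x := by
            calc (1:ℝ) = 2 * (Fintype.card X : ℝ) * (1 / (Fintype.card X : ℝ) * (1 / 2)) := by field_simp
              _ ≤ _ := by gcongr
          have h4 := hw' h3
          set m := mL ν bt L x with hm
          set C := 2 * (Fintype.card X : ℝ) * (7 / 8) ^ n with hC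
          have hC0 : 0 ≤ C := by positivity
          rw [Fintype.sum_option] at sQ
          have hsome : ∑ e, Q x (some e) = w * m := by
            rw [hm, mL, Finset.mul_sum]
            apply Finset.sum_congr rfl
            intro e _
            rw [hw e]
            split_ifs <;> simp
          have hnone : Q x none = 1 - w * m := by rw [hsome] at sQ; linarith
          have hbnd : ∀ e, Pc e x false ≤ 1 / 20 + C * mL ν bt (e.elim L (fun π => π :: L)) x := by
            intro e
            have h5 := (hPc' e x).2 b a hba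
            have h6 := mL_nonneg (bt := bt) hProb hν (e.elim L (fun π => π :: L)) x
            split_ifs at h5
            · have := mul_nonneg hC0 h6
              linarith
            · exact h5
          rw [Fintype.sum_option]
          have h7 : Q x none * Pc none x false ≤ Q x none * (1 / 20 + C * m) :=
            mul_le_mul_of_nonneg_left (hbnd none) (pQ none)
          have h8 : ∑ e, Q x (some e) * Pc (some e) x false ≤
              ∑ e, (Q x (some e) * (1 / 20) + C * w * (if allB bt L e x then mu ν x e * mL ν bt (e :: L) x else 0)) := by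
            apply Finset.sum_le_sum
            intro e _
            refine le_trans (mul_le_mul_of_nonneg_left (hbnd (some e)) (pQ _)) (le_of_eq ?_)
            simp only [Option.elim]
            rw [hw e]
            split_ifs
            · ring
            · ring
          rw [Finset.sum_add_distrib, ← Finset.sum_mul, ← Finset.mul_sum, hsome] at h8
          have h9 := antisym hProb hν hanti L x
          have h10 : C * w * ∑ π, (if allB bt L π x then mu ν x π * mL ν bt (π :: L) x else 0) ≤
              C * w * (1 / 2 * m ^ 2) := mul_le_mul_of_nonneg_left h9 (by positivity)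
          rw [hnone] at h7 ⊢
          have h11 : 2 * (Fintype.card X : ℝ) * (7 / 8) ^ (n + 1) * m = C * m * (7 / 8) := by
            rw [hC, pow_succ]; ring
          rw [h11]
          have h12 : 0 ≤ C * m * (w * m - 1 / 4) := by
            apply mul_nonneg (by positivity); linarith
          nlinarith
  obtain ⟨P, hP, hP'⟩ := key T [] (by simp)
  refine ⟨P, hP, fun x => ?_⟩
  obtain ⟨p, s⟩ := pmT hProb hP x
  rw [Fintype.sum_bool] at s
  rcases Bool.eq_false_or_eq_true (F x) with h | h
  · rw [h]
    obtain ⟨b, a, hba⟩ := (hF x).1 h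
    have h1 := (hP' x).2 b a hba
    simp only [List.not_mem_nil, false_and, exists_false, if_false] at h1
    have h2 : mL ν bt [] x = 1 := by
      unfold mL
      have h3 := pmT hProb (item hBind hPure hν) x
      rw [← h3.2]
      apply Finset.sum_congr rfl
      intro e _
      simp [allB]
    rw [h2, mul_one] at h1
    linarith
  · rw [h]
    have := (hP' x).1 h
    linarith

end Crest.Agent.H3QTour
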