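import Crest.Agent.H27QSpec

/-!
# rid 350 (S0554): the averaged amplitude amplification bound (`Spec.AAvg`)
-/

set_option autoImplicit false

namespace Crest.Agent.H9Q

open Crest.Agent.QG

theorem aaC_formula (θ : ℝ) (hs : Real.sin θ ≠ 0) (hc : Real.cos θ ≠ 0) (j : ℕ) :
    (aaC (Real.sin θ ^ 2) j).1 = Real.sin ((2 * j + 1) * θ) / Real.sin θ ∧
    (aaC (Real.sin θ ^ 2) j).2 = Real.cos ((2 * j + 1) * θ) / Real.cos θ := by
  induction j with
  | zero => simp [aaC, hs, hc]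
  | succ j ih =>
    obtain ⟨ih1, ih2⟩ := ih
    have e1 : Real.cos θ ^ 2 = 1 - Real.sin θ ^ 2 := by
      have := Real.sin_sq_add_cos_sq θ; linarith
    have harg : (2 * ((j + 1 : ℕ) : ℝ) + 1) * θ = (2 * (j : ℝ) + 1) * θ + 2 * θ := by
      push_cast; ring
    have e2 : Real.cos (2 * θ) = 1 - 2 * Real.sin θ ^ 2 := by
      rw [Real.cos_two_mul, e1]; ring
    have e3 := Real.sin_two_mul θ
    constructor
    · simp only [aaC]
      rw [ih1, ih2, harg, Real.sin_add, e2, e3]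
      field_simp
      rw [← e1]; ring
    · simp only [aaC]
      rw [ih1, ih2, harg, Real.cos_add, e2, e3]
      field_simp
      ring

theorem sum_cos (θ : ℝ) (J : ℕ) :
    2 * Real.sin (2 * θ) * ∑ j ∈ Finset.range J, Real.cos ((4 * j + 2) * θ) =
      Real.sin (4 * J * θ) := by
  induction J with
  | zero => simp
  | succ J ih =>
    rw [Finset.sum_range_succ, mul_add, ih]
    have h1 : (4 * ((J + 1 : ℕ) : ℝ)) * θ = (4 * (J : ℝ) + 2) * θ + 2 * θ := by push_cast; ring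
    have h2 : (4 * (J : ℝ)) * θ = (4 * (J : ℝ) + 2) * θ - 2 * θ := by ring
    rw [h1, h2, Real.sin_add, Real.sin_sub]
    ring

theorem aAvg : Spec.AAvg := by
  intro p J hJ hp hp2 hpJ
  set θ := Real.arcsin (Real.sqrt p) with hθ
  have hsq : Real.sqrt p ≤ 1 := Real.sqrt_le_one.mpr (by linarith)
  have hsp : 0 < Real.sqrt p := Real.sqrt_pos.mpr hp
  have hsin : Real.sin θ = Real.sqrt p := Real.sin_arcsin (by linarith) hsq
  have hcos : Real.cos θ = Real.sqrt (1 - p) := by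
    rw [hθ, Real.cos_arcsin, Real.sq_sqrt hp.le]
  have hcp : 0 < Real.sqrt (1 - p) := Real.sqrt_pos.mpr (by linarith)
  have hs0 : Real.sin θ ≠ 0 := by rw [hsin]; exact hsp.ne'
  have hc0 : Real.cos θ ≠ 0 := by rw [hcos]; exact hcp.ne'
  have hpp : p = Real.sin θ ^ 2 := by rw [hsin, Real.sq_sqrt hp.le]
  have hterm : ∀ j : ℕ, (aaC p j).1 ^ 2 * p = 1 / 2 - Real.cos ((4 * j + 2) * θ) / 2 := by
    intro j
    have := (aaC_formula θ hs0 hc0 j).1
    rw [hpp, this, div_pow, div_mul_cancel₀ _ (pow_ne_zero 2 hs0)]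
    have h3 : (4 * (j : ℝ) + 2) * θ = 2 * ((2 * (j : ℝ) + 1) * θ) := by ring
    rw [h3, Real.cos_two_mul']
    have := Real.sin_sq_add_cos_sq ((2 * (j : ℝ) + 1) * θ)
    linarith
  have hJ' : (0 : ℝ) < J := by exact_mod_cast hJ
  have hsum : (∑ j ∈ Finset.range J, (aaC p j).1 ^ 2 * p) =
      J / 2 - (∑ j ∈ Finset.range J, Real.cos ((4 * j + 2) * θ)) / 2 := by
    rw [Finset.sum_congr rfl (fun j _ => hterm j), Finset.sum_sub_distrib, Finset.sum_div]
    simp; ring
  have hs2 : 0 < Real.sin (2 * θ) := by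
    rw [Real.sin_two_mul, hsin, hcos]; positivity
  have hJs : 1 ≤ J * Real.sin (2 * θ) := by
    have h4 : (1 : ℝ) ≤ (J * Real.sin (2 * θ)) ^ 2 := by
      rw [mul_pow, Real.sin_two_mul, mul_pow, mul_pow, hsin, hcos, Real.sq_sqrt hp.le,
        Real.sq_sqrt (by linarith)]
      nlinarith [sq_nonneg (J : ℝ), mul_nonneg (mul_nonneg (sq_nonneg (J : ℝ)) hp.le)
        (by linarith : (0 : ℝ) ≤ 1 / 2 - p)]
    by_contra hcon
    push Not at hcon
    have h5 : (J * Real.sin (2 * θ)) ^ 2 < 1 := by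
      apply pow_lt_one₀ (by positivity) hcon (by norm_num)
    linarith
  have hsc := sum_cos θ J
  have hS : (∑ j ∈ Finset.range J, Real.cos ((4 * j + 2) * θ)) ≤ J / 2 := by
    have h6 : 2 * Real.sin (2 * θ) * ∑ j ∈ Finset.range J, Real.cos ((4 * j + 2) * θ) ≤ 1 := by
      rw [hsc]; exact Real.sin_le_one _
    by_contra hcon
    push Not at hcon
    have : 2 * Real.sin (2 * θ) * (J / 2) <
        2 * Real.sin (2 * θ) * ∑ j ∈ Finset.range J, Real.cos ((4 * j + 2) * θ) :=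
      mul_lt_mul_of_pos_left hcon (by positivity)
    nlinarith
  rw [hsum, le_div_iff₀ hJ']
  linarith

end Crest.Agent.H9Q
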