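import Crest.Agent.H27QSpec

/-!
# rid 350 (S0554): search with unknown success probability (`Spec.SampSearch`)
-/

set_option autoImplicit false

namespace Crest.Agent.H9Q

open Crest.Agent.QG

theorem sampSearch (hPure : Spec.SampPure) (hBind : Spec.SampBind) (hMap : Spec.SampMap)
    (hPad : Spec.SampPad) (hAmp : Spec.SampAmp) (hProb : Spec.SampProb) (hAvg : Spec.AAvg) :
    Spec.SampSearch := by
  intro I _ _ _ E _ _ q J P G hJ hP
  -- the coin
  have hcoin : Samp I 0 Bool (fun _ _ => (1 / 2 : ℝ)) :=
    hPure I Bool (fun _ => 1 / 2) (fun _ => by norm_num) (by simp)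
  have hR : Samp I q (Bool × E) (fun x p => (1 / 2 : ℝ) * P x p.2) := by
    have := hBind I Bool E 0 q (fun _ _ => (1 / 2 : ℝ)) (fun _ => P) hcoin (fun _ => hP)
    simpa using this
  set G' : Bool × E → Bool := fun p => p.1 && G p.2 with hG'
  set pg : (I → Bool) → ℝ := fun x => ∑ e, if G e then P x e else 0 with hpg
  have hgood : ∀ x, (∑ p : Bool × E, if G' p then (1 / 2 : ℝ) * P x p.2 else 0) = pg x / 2 := by
    intro x
    rw [Fintype.sum_prod_type]
    simp only [hG', Fintype.sum_bool, Bool.true_and, Bool.false_and, hpg]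
    simp only [Bool.false_eq_true, if_false, Finset.sum_const_zero, add_zero]
    rw [Finset.sum_div]
    refine Finset.sum_congr rfl fun e _ => ?_
    split_ifs <;> ring
  -- amplified, padded and mapped
  set A : ℕ → (I → Bool) → Bool × E → ℝ := fun j x p =>
    (if G' p then (aaC (pg x / 2) j).1 ^ 2 else (aaC (pg x / 2) j).2 ^ 2) * ((1 / 2 : ℝ) * P x p.2)
    with hA
  have hAj : ∀ j, Samp I ((2 * j + 1) * q) (Bool × E) (A j) := by
    intro j
    have := hAmp I (Bool × E) q _ G' j hR
    have e : (fun x p => (if G' p then (aaC (∑ e', if G' e' then (1 / 2 : ℝ) * P x e'.2 else 0) j).1 ^ 2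
        else (aaC (∑ e', if G' e' then (1 / 2 : ℝ) * P x e'.2 else 0) j).2 ^ 2) *
          ((1 / 2 : ℝ) * P x p.2)) = A j := by
      funext x p
      rw [hgood]
    rw [← e]
    exact this
  set out : Bool × E → Option E := fun p => if G' p then some p.2 else none with hout
  set B : ℕ → (I → Bool) → Option E → ℝ := fun j x o =>
    ∑ p, if out p = o then A j x p else 0 with hB
  have hBj : ∀ j, j < J → Samp I (2 * J * q) (Option E) (B j) := by
    intro j hj
    refine hPad I (Option E) ((2 * j + 1) * q) (2 * J * q) (B j) ?_ ?_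
    · exact Nat.mul_le_mul_right _ (by omega)
    · exact hMap I (Bool × E) (Option E) _ (A j) out (hAj j)
  have hBsome : ∀ j x e, B j x (some e) =
      if G e then ((aaC (pg x / 2) j).1 ^ 2 / 2) * P x e else 0 := by
    intro j x e
    simp only [hB]
    rw [Fintype.sum_prod_type]
    simp only [Fintype.sum_bool]
    have h0 : ∀ e' : E, (if out (false, e') = some e then A j x (false, e') else 0) = 0 := by
      intro e'
      simp [hout, hG']
    rw [Finset.sum_congr rfl (fun e' _ => h0 e')]
    have h1 : ∀ e' : E, (if out (true, e') = some e then A j x (true, e') else 0) =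
        if e' = e then (if G e then ((aaC (pg x / 2) j).1 ^ 2 / 2) * P x e else 0) else 0 := by
      intro e'
      by_cases he : e' = e
      · subst he
        by_cases hg : G e' = true
        · simp [hout, hG', hA, hg]; ring
        · simp [hout, hG', hg]
      · by_cases hg : G e' = true
        · simp [hout, hG', hg, he]
        · simp [hout, hG', hg, he]
    rw [Finset.sum_congr rfl (fun e' _ => h1 e')]
    simp
  -- the uniform number of iterations
  have hJ' : (0 : ℝ) < J := by exact_mod_cast hJ
  have hunif : Samp I 0 (Fin J) (fun _ _ => (1 / J : ℝ)) :=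
    hPure I (Fin J) (fun _ => 1 / J) (fun _ => by positivity) (by
      rw [Finset.sum_const, Finset.card_univ, Fintype.card_fin, nsmul_eq_mul]
      field_simp)
  have hmix : Samp I (2 * J * q) (Fin J × Option E)
      (fun x p => (1 / J : ℝ) * B (p.1 : ℕ) x p.2) := by
    have := hBind I (Fin J) (Option E) 0 (2 * J * q) (fun _ _ => (1 / J : ℝ))
      (fun j => B (j : ℕ)) hunif (fun j => hBj j j.2)
    simpa using this
  refine ⟨_, hMap I (Fin J × Option E) (Option E) _ _ Prod.snd hmix, ?_⟩
  intro x
  refine ⟨(∑ j ∈ Finset.range J, (aaC (pg x / 2) j).1 ^ 2) / (2 * J), ?_, ?_, ?_⟩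
  · exact div_nonneg (Finset.sum_nonneg fun j _ => sq_nonneg _) (by positivity)
  · intro e
    rw [Fintype.sum_prod_type]
    have h2 : ∀ j : Fin J, (∑ o : Option E, if o = some e then (1 / J : ℝ) * B (j : ℕ) x o else 0) =
        (1 / J : ℝ) * B (j : ℕ) x (some e) := by
      intro j
      rw [Finset.sum_ite_eq' Finset.univ (some e)]
      simp
    rw [Finset.sum_congr rfl (fun j _ => h2 j)]
    by_cases hg : G e = true
    · simp only [hBsome, hg, if_true]
      rw [← Fin.sum_univ_eq_sum_range (fun j => (aaC (pg x / 2) j).1 ^ 2)]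
      have h6 : ∀ S : ℝ, S / (2 * J) * P x e = S * (1 / (2 * J) * P x e) := fun S => by ring
      rw [h6, Finset.sum_mul]
      refine Finset.sum_congr rfl fun j _ => ?_
      field_simp
    · simp [hBsome, hg]
  · intro h1
    have hp1 : pg x ≤ 1 := by
      obtain ⟨h3, h4⟩ := hProb I E q P hP x
      rw [← h4]
      refine Finset.sum_le_sum fun e _ => ?_
      split_ifs
      · exact le_rfl
      · exact h3 e
    have hp0 : 0 < pg x := by
      by_contra hcon
      push Not at hcon
      have : (J : ℝ) ^ 2 * pg x ≤ 0 := mul_nonpos_of_nonneg_of_nonpos (by positivity) hcon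
      linarith
    have h5 := hAvg (pg x / 2) J hJ (by positivity) (by linarith) (by
      have : (J : ℝ) ^ 2 * pg x = 2 * (pg x / 2) * (J : ℝ) ^ 2 := by ring
      linarith)
    rw [← Finset.sum_mul] at h5
    calc (1 / 4 : ℝ) ≤ _ := h5
      _ = _ := by simp only [hpg]; ring

end Crest.Agent.H9Q
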