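import Crest.Agent.H27QFinal
import Crest.Agent.H27QTab2
import Crest.Agent.H27QDecode
import Crest.Agent.H11QGram
import Crest.Agent.H11QPrep
import Crest.Agent.H11QAmp
import Crest.Agent.H22QSamp
import Crest.Agent.H22QDet
import Crest.Agent.H22QKeyLaw
import Crest.Agent.H9QAAvg
import Crest.Agent.H9QSearch
import Crest.Agent.H3QTour
import Crest.Agent.H17QRandLB

set_option autoImplicit false

open Crest.MathPhysics.Query

namespace Crest.Agent.QG

open Spec

theorem samp_pure : SampPure := H22QSamp.sampPure H11QPrep.prepConst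
theorem samp_read : SampRead := H22QSamp.sampRead H11QPrep.prepRead
theorem samp_bind : SampBind := H22QSamp.sampBind H11QPrep.prepIso H11QPrep.prepBind
theorem samp_map : SampMap := H22QSamp.sampMap
theorem samp_pad : SampPad := H22QSamp.sampPad H11QPrep.prepPad
theorem samp_amp : SampAmp := H22QSamp.sampAmp H11QAmp.prepAmp
theorem samp_prob : SampProb := H22QSamp.sampProb
theorem samp_search : SampSearch :=
  H9Q.sampSearch samp_pure samp_bind samp_map samp_pad samp_amp samp_prob H9Q.aAvg
theorem tour : Tour :=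
  H3QTour.main samp_prob samp_pure samp_read samp_bind samp_map samp_pad samp_search

theorem fDet : FDet := H22QDet.fDet samp_pure samp_read samp_bind samp_map samp_pad

theorem fDecode : FDecode := H27Ch.fdecode H27Ch.sampChain samp_pure samp_bind samp_map

theorem all (hS : SingleLaw) (k : ℕ) (hk : 2 ≤ k) :
    ∃ (c C b : ℝ), 0 < c ∧ 0 < C ∧ 0 < b ∧ ∃ m₀ : ℕ, ∀ m : ℕ, m₀ ≤ m → (∃ j : ℕ, m = 4 ^ j) →
      ∃ (n : ℕ) (F : (Fin n → Bool) → Bool),
        (∃ q : ℕ, (q : ℝ) ≤ C * Real.sqrt m * Real.log m ^ b ∧ QuantumComputes F q) ∧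
        (∀ r : ℕ, RandomizedComputes F r →
          c * (m : ℝ) ^ (2 - 1 / (k : ℝ)) / Real.log m ^ 2 ≤ r) :=
  final tour H22QDet.sampQC H27Tab.fsound H27Tab.fcomplete fDet fDecode H27Ch.fhalf
    (H22Q.main hS H27Ch.phiLe) H17QRandLB.main k hk

end Crest.Agent.QG
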