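import Crest.Agent.H27QTab
import Crest.Agent.H11QPrep

/-!
# rid 350: modules CHAIN, FDECODE, FHALF
-/

set_option autoImplicit false

namespace Crest.Agent.QG.H27Ch

open Spec H27Tab

variable {n : ℕ}

theorem sgZ_sum (a a' : Bool) : ∑ b : Bool, sgZ (a && b) * sgZ (a' && b) = if a = a' then 2 else 0 := by
  cases a <;> cases a' <;> simp [sgZ]

theorem cz_orth (x x' : XX n) : ∑ y, cz x y * cz x' y = if x = x' then 2 ^ n else 0 := by
  classical
  unfold cz
  simp only [← Finset.prod_mul_distrib]
  have h := Finset.prod_univ_sum (fun _ : Fin n => (Finset.univ : Finset Bool))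
    (fun i b => sgZ (x i && b) * sgZ (x' i && b))
  rw [Fintype.piFinset_univ] at h
  rw [← h]
  simp only [sgZ_sum]
  by_cases hx : x = x'
  · subst hx; simp
  · rw [if_neg hx]
    obtain ⟨i, hi⟩ := Function.ne_iff.mp hx
    apply Finset.prod_eq_zero (Finset.mem_univ i)
    simp [hi]

theorem cz_symm (x y : XX n) : cz x y = cz y x := by
  unfold cz
  apply Finset.prod_congr rfl
  intro i _
  rw [Bool.and_comm]

theorem hh_orth (x x' : XX n) : ∑ y, hh x y * hh x' y = if x = x' then 1 else 0 := by
  have h := cz_orth x x'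
  have h' : ∑ y, ((cz x y : ℤ) : ℝ) * ((cz x' y : ℤ) : ℝ) = if x = x' then (2 : ℝ) ^ n else 0 := by
    have := congrArg (fun z : ℤ => (z : ℝ)) h
    push_cast at this
    rw [this]
  unfold hh
  simp only [chi_eq]
  have h2 : ∀ y : XX n, ((cz x y : ℤ) : ℝ) / Real.sqrt (2 ^ n) * (((cz x' y : ℤ) : ℝ) / Real.sqrt (2 ^ n)) =
      (((cz x y : ℤ) : ℝ) * ((cz x' y : ℤ) : ℝ)) * (1 / 2 ^ n) := by
    intro y
    rw [div_mul_div_comm, Real.mul_self_sqrt (by positivity)]
    ring
  simp only [h2]
  rw [← Finset.sum_mul, h']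
  split_ifs
  · field_simp
  · simp

theorem hh_symm (x y : XX n) : hh x y = hh y x := by
  unfold hh; rw [chi_eq, chi_eq, cz_symm]

theorem WH_norm (w : XX n → ℝ) : ∑ y, WH w y ^ 2 = ∑ x, w x ^ 2 := by
  unfold WH
  have : ∀ y : XX n, (∑ x, hh x y * w x) ^ 2 = ∑ x, ∑ x', (hh x y * hh x' y) * (w x * w x') := by
    intro y
    rw [sq, Finset.sum_mul_sum]
    apply Finset.sum_congr rfl; intro x _
    apply Finset.sum_congr rfl; intro x' _
    ring
  simp only [this]
  rw [Finset.sum_comm]
  apply Finset.sum_congr rfl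
  intro x _
  rw [Finset.sum_comm]
  simp only [← Finset.sum_mul, hh_orth]
  simp [sq]

theorem sg_sq (b : Bool) : sg b ^ 2 = 1 := by cases b <;> simp [sg]

theorem chain_norm (K : ℕ) (w : XX n → ℝ) (f : Fin K → XX n → Bool) :
    ∑ y, chain K w (fun l x => sg (f l x)) y ^ 2 = ∑ x, w x ^ 2 := by
  induction K generalizing w with
  | zero => rfl
  | succ K ih =>
    rw [chain]
    have := ih (WH fun x => w x * sg (f 0 x)) (fun l => f l.succ)
    rw [this, WH_norm]
    apply Finset.sum_congr rfl
    intro x _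
    rw [mul_pow, sg_sq, mul_one]

theorem start_norm : ∑ _x : XX n, (1 / Real.sqrt (2 ^ n)) ^ 2 = 1 := by
  rw [Finset.sum_const, Finset.card_univ, nsmul_eq_mul, div_pow, Real.sq_sqrt (by positivity)]
  simp only [XX, Fintype.card_fun, Fintype.card_bool, Fintype.card_fin]
  push_cast
  field_simp

theorem phiLe : PhiLe := by
  intro n K f
  unfold Phi
  have h := chain_norm K (fun _ : XX n => 1 / Real.sqrt (2 ^ n)) f
  rw [start_norm] at h
  have h2 := Finset.single_le_sum (f := fun y => chain K (fun _ : XX n => 1 / Real.sqrt (2 ^ n))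
    (fun l x => sg (f l x)) y ^ 2) (fun y _ => sq_nonneg _) (Finset.mem_univ (fun _ => false))
  exact h2.trans h.le

section Prep

variable {I : Type} [Fintype I] [DecidableEq I]

theorem prepChain (K q : ℕ) (ψ : (I → Bool) → XX n → ℝ) (pos : Fin K → XX n → I)
    (h : Prep I q (XX n) (fun x e => ((ψ x e : ℝ) : ℂ))) :
    Prep I (q + K) (XX n)
      (fun x e => ((chain K (ψ x) (fun l y => sg (x (pos l y))) e : ℝ) : ℂ)) := by
  induction K generalizing q ψ with
  | zero => exact h
  | succ K ih =>
    have h1 := H11QPrep.prepPhase I (XX n) q _ (pos 0) h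
    have hV : (Matrix.of fun (y x : XX n) => ((hh x y : ℝ) : ℂ)).conjTranspose *
        (Matrix.of fun (y x : XX n) => ((hh x y : ℝ) : ℂ)) = 1 := by
      ext x x'
      rw [Matrix.mul_apply, Matrix.one_apply]
      simp only [Matrix.conjTranspose_apply, Matrix.of_apply, Complex.star_def, Complex.conj_ofReal]
      have := hh_orth x x'
      have h2 : (((∑ y, hh x y * hh x' y : ℝ)) : ℂ) = ((if x = x' then 1 else 0 : ℝ) : ℂ) := by
        rw [this]
      push_cast at h2
      rw [h2]
      split_ifs <;> simp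
    have h2 := H11QPrep.prepIso I (XX n) (XX n) (q + 1) _ _ hV h1
    have h3 := ih (q + 1) (fun x => WH fun e => ψ x e * sg (x (pos 0 e))) (fun l => pos l.succ)
      (by
        convert h2 using 2
        rename_i x
        funext y
        unfold WH
        simp only [Matrix.mulVec, dotProduct, Matrix.of_apply]
        push_cast
        apply Finset.sum_congr rfl
        intro e _
        unfold sg
        split_ifs <;> push_cast <;> ring)
    rw [show q + (K + 1) = q + 1 + K by ring]
    exact h3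

theorem prepEquiv {E E' : Type} {q : ℕ} {ψ : (I → Bool) → E → ℂ} (h : Prep I q E ψ) (e : E' ≃ E) :
    Prep I q E' (fun x i => ψ x (e i)) := by
  obtain ⟨w, U, ψ₀, emb, h1, h2, h3, h4⟩ := h
  refine ⟨w, U, ψ₀, fun i => emb (e i), h1, h2, h3.comp e.injective, ?_⟩
  intro x
  refine ⟨fun i => (h4 x).1 (e i), fun y hy => (h4 x).2 y ?_⟩
  rintro ⟨z, hz⟩
  exact hy ⟨e.symm z, by simpa using hz⟩

end Prep

theorem sampChain : SampChain := by
  intro I _ _ _ n K pos
  have h0 := H11QPrep.prepConst I (XX n) (fun _ => ((1 / Real.sqrt (2 ^ n) : ℝ) : ℂ)) (by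
    have := start_norm (n := n)
    simp only [Complex.norm_real, Real.norm_eq_abs, sq_abs]
    exact this)
  have h1 := prepChain K 0 (fun _ _ => 1 / Real.sqrt (2 ^ n)) pos h0
  rw [Nat.zero_add] at h1
  refine ⟨Fintype.card (XX n), fun i => decide ((Fintype.equivFin (XX n)).symm i = fun _ => false), _,
    prepEquiv h1 (Fintype.equivFin (XX n)).symm, ?_⟩
  intro x b
  rw [Equiv.sum_comp (Fintype.equivFin (XX n)).symm (fun y => if decide (y = fun _ => false) = b then
    ‖((chain K (fun _ => 1 / Real.sqrt (2 ^ n)) (fun l y => sg (x (pos l y))) y : ℝ) : ℂ)‖ ^ 2 else 0)]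
  simp only [Complex.norm_real, Real.norm_eq_abs, sq_abs]
  have hn := chain_norm K (fun _ : XX n => 1 / Real.sqrt (2 ^ n)) (fun l y => x (pos l y))
  rw [start_norm] at hn
  have ht : (∑ y : XX n, if decide (y = fun _ => false) = true then
      chain K (fun _ => 1 / Real.sqrt (2 ^ n)) (fun l y => sg (x (pos l y))) y ^ 2 else 0) =
      Phi (fun l y => x (pos l y)) ^ 2 := by
    simp only [decide_eq_true_eq]
    rw [Finset.sum_ite_eq' Finset.univ (fun _ => false)]
    simp [Phi]
  cases b
  · rw [if_neg (by simp), ← ht, eq_sub_iff_add_eq, ← Finset.sum_add_distrib]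
    refine Eq.trans ?_ hn
    apply Finset.sum_congr rfl
    intro y _
    by_cases hy : y = fun _ => false
    · simp [hy]
    · simp [hy]
  · rw [if_pos rfl]
    exact ht

end Crest.Agent.QG.H27Ch
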