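import Crest.Agent.H27QSpec

/-!
# rid 350 (S0554): final assembly from the module props
-/

set_option autoImplicit false

open Crest.MathPhysics.Query MeasureTheory

namespace Crest.Agent.QG

open Spec

/-! ### conversion of decision trees -/

/-- reindexing of a decision tree -/
def toGT {n : ℕ} {I : Type} (σ : I ≃ Fin n) : DTree n → GT I
  | DTree.answer b => GT.leaf b
  | DTree.read i t₀ t₁ => GT.node (σ.symm i) (toGT σ t₀) (toGT σ t₁)

theorem toGT_eval {n : ℕ} {I : Type} (σ : I ≃ Fin n) (T : DTree n) (x : I → Bool) :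
    (toGT σ T).eval x = T.eval (fun i => x (σ.symm i)) := by
  induction T with
  | answer b => rfl
  | read i t₀ t₁ h₀ h₁ => simp only [toGT, GT.eval, DTree.eval, h₀, h₁]

theorem toGT_depth {n : ℕ} {I : Type} (σ : I ≃ Fin n) (T : DTree n) :
    (toGT σ T).depth = T.depth := by
  induction T with
  | answer b => rfl
  | read i t₀ t₁ h₀ h₁ => simp only [toGT, GT.depth, DTree.depth, h₀, h₁]

/-! ### the quantum side -/

theorem card_XX (n : ℕ) : Fintype.card (XX n) = 2 ^ n := by simp [XX]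

theorem card_TIx (n K c r₀ : ℕ) :
    Fintype.card (TIx n K c r₀) = c * (r₀ * (K * ((n + 1) * 2 ^ n))) := by
  have e : TIx n K c r₀ ≃ Fin c × Fin r₀ × Fin K × Fin (n + 1) × XX n :=
    { toFun := fun τ => (τ.i, τ.s, τ.l, τ.t, τ.y)
      invFun := fun p => ⟨p.1, p.2.1, p.2.2.1, p.2.2.2.1, p.2.2.2.2⟩
      left_inv := fun τ => rfl
      right_inv := fun p => rfl }
  rw [Fintype.card_congr e]
  simp [XX]

theorem card_Con (n K c r₀ : ℕ) :
    Fintype.card (Con n K c r₀) = 2 ^ n + (2 ^ n + (c * (r₀ * (K * ((n + 1) * 2 ^ n))) + c)) := by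
  have e : Con n K c r₀ ≃ XX n ⊕ (XX n ⊕ (TIx n K c r₀ ⊕ Fin c)) :=
    { toFun := fun l => match l with
        | Con.all ρ => Sum.inl ρ
        | Con.zero p => Sum.inr (Sum.inl p)
        | Con.tab τ => Sum.inr (Sum.inr (Sum.inl τ))
        | Con.fin i => Sum.inr (Sum.inr (Sum.inr i))
      invFun := fun l => match l with
        | Sum.inl ρ => Con.all ρ
        | Sum.inr (Sum.inl p) => Con.zero p
        | Sum.inr (Sum.inr (Sum.inl τ)) => Con.tab τ
        | Sum.inr (Sum.inr (Sum.inr i)) => Con.fin i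
      left_inv := fun l => by cases l <;> rfl
      right_inv := fun l => by rcases l with l | l | l | l <;> rfl }
  rw [Fintype.card_congr e]
  simp only [Fintype.card_sum, card_XX, card_TIx, Fintype.card_fin]

/-- the query bound -/
def qBound (ρ k j : ℕ) : ℕ :=
  let n := 2 * j
  let c := 2 * n + 8
  let r₀ := ρ * c
  let qD := c * (r₀ * (r₀ * (k + 1)))
  let qB := 2 * n + 2
  let Lb := n * (k + 1) + 2
  let qV := n + 2 + (r₀ + 3) * Lb
  let T := 6 * n + 28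
  let D := 2 + c * (r₀ * ((k + 1) * (n + 1))) + c
  T * (2 * (2 * 2 ^ j) * (qD + T * qB)) + T * (5 * (qD + (150 * T) * (2 * (2 ^ j * D) * qV)))

def qC (ρ k : ℕ) : ℕ :=
  34 * (4 * (1000 * ρ ^ 2 * (k + 1) + 136)) +
    34 * (5 * (1000 * ρ ^ 2 * (k + 1) + 5100 * (2 * (12 + 200 * ρ * (k + 1)) *
      (3 + (10 * ρ + 3) * (k + 3)))))

theorem qBound_le (ρ k j : ℕ) (hj : 0 < j) :
    qBound ρ k j ≤ qC ρ k * 2 ^ j * (2 * j) ^ 7 := by
  unfold qBound
  simp only []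
  generalize hn : 2 * j = n
  have hn1 : 1 ≤ n := by omega
  have hp : 1 ≤ 2 ^ j := Nat.one_le_two_pow
  have hc : 2 * n + 8 ≤ 10 * n := by omega
  generalize 2 * n + 8 = c at hc
  have hr : ρ * c ≤ 10 * ρ * n := by nlinarith [Nat.mul_le_mul_left ρ hc]
  generalize ρ * c = r at hr
  have hT : 6 * n + 28 ≤ 34 * n := by omega
  generalize 6 * n + 28 = T at hT
  have hB : 2 * n + 2 ≤ 4 * n := by omega
  generalize 2 * n + 2 = B at hB
  have hqD : c * (r * (r * (k + 1))) ≤ 1000 * ρ ^ 2 * (k + 1) * n ^ 3 := by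
    calc c * (r * (r * (k + 1))) ≤ (10 * n) * ((10 * ρ * n) * ((10 * ρ * n) * (k + 1))) := by gcongr
      _ = _ := by ring
  generalize c * (r * (r * (k + 1))) = qD at hqD
  have hL : n * (k + 1) + 2 ≤ (k + 3) * n := by nlinarith
  generalize n * (k + 1) + 2 = L at hL
  have hV : n + 2 + (r + 3) * L ≤ (3 + (10 * ρ + 3) * (k + 3)) * n ^ 2 := by
    have h1 : r + 3 ≤ (10 * ρ + 3) * n := by nlinarith
    have h2 : n + 2 ≤ 3 * n ^ 2 := by nlinarith
    calc n + 2 + (r + 3) * L ≤ 3 * n ^ 2 + ((10 * ρ + 3) * n) * ((k + 3) * n) := by gcongr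
      _ = _ := by ring
  generalize n + 2 + (r + 3) * L = V at hV
  have hD : 2 + c * (r * ((k + 1) * (n + 1))) + c ≤ (12 + 200 * ρ * (k + 1)) * n ^ 3 := by
    have h1 : n ≤ n ^ 3 := by nlinarith [pow_le_pow_right₀ hn1 (show 1 ≤ 3 by norm_num)]
    have h2 : n + 1 ≤ 2 * n := by omega
    calc 2 + c * (r * ((k + 1) * (n + 1))) + c ≤ 2 * n ^ 3 + (10 * n) * ((10 * ρ * n) * ((k + 1) * (2 * n))) + 10 * n ^ 3 := by
          gcongr
          · nlinarith
          · nlinarith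
      _ = _ := by ring
  generalize 2 + c * (r * ((k + 1) * (n + 1))) + c = D at hD
  have hn4 : n ^ 4 ≤ n ^ 7 := Nat.pow_le_pow_right hn1 (by norm_num)
  have hn3 : n ^ 3 ≤ n ^ 6 := Nat.pow_le_pow_right hn1 (by norm_num)
  have hn2 : n ^ 2 ≤ n ^ 3 := Nat.pow_le_pow_right hn1 (by norm_num)
  calc T * (2 * (2 * 2 ^ j) * (qD + T * B)) + T * (5 * (qD + (150 * T) * (2 * (2 ^ j * D) * V)))
      ≤ (34 * n) * (2 * (2 * 2 ^ j) * (1000 * ρ ^ 2 * (k + 1) * n ^ 3 + (34 * n) * (4 * n))) +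
        (34 * n) * (5 * (1000 * ρ ^ 2 * (k + 1) * n ^ 3 + (150 * (34 * n)) *
          (2 * (2 ^ j * ((12 + 200 * ρ * (k + 1)) * n ^ 3)) * ((3 + (10 * ρ + 3) * (k + 3)) * n ^ 2)))) := by
        gcongr
    _ = 34 * (4 * 2 ^ j * (1000 * ρ ^ 2 * (k + 1) * n ^ 4 + 136 * (n * n ^ 2))) +
        34 * (5 * (1000 * ρ ^ 2 * (k + 1) * (1 * n ^ 4) + 5100 * (2 * (2 ^ j * (12 + 200 * ρ * (k + 1))) * (3 + (10 * ρ + 3) * (k + 3))) * n ^ 7)) := by
        ring
    _ ≤ 34 * (4 * 2 ^ j * (1000 * ρ ^ 2 * (k + 1) * n ^ 7 + 136 * (n * n ^ 6))) +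
        34 * (5 * (1000 * ρ ^ 2 * (k + 1) * (2 ^ j * n ^ 7) + 5100 * (2 * (2 ^ j * (12 + 200 * ρ * (k + 1))) * (3 + (10 * ρ + 3) * (k + 3))) * n ^ 7)) := by
        gcongr
        all_goals norm_num
    _ = qC ρ k * 2 ^ j * n ^ 7 := by unfold qC; ring
theorem pow_T (n : ℕ) : 40 * 2 ^ n * 7 ^ (6 * n + 28) ≤ 8 ^ (6 * n + 28) := by
  have h1 : 40 * 7 ^ 28 ≤ 8 ^ 28 := by norm_num
  have h2 : (2 * 7 ^ 6) ^ n ≤ (8 ^ 6) ^ n := Nat.pow_le_pow_left (by norm_num) n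
  calc 40 * 2 ^ n * 7 ^ (6 * n + 28) = (40 * 7 ^ 28) * (2 * 7 ^ 6) ^ n := by
        rw [mul_pow, pow_add, pow_mul]; ring
    _ ≤ 8 ^ 28 * (8 ^ 6) ^ n := Nat.mul_le_mul h1 h2
    _ = 8 ^ (6 * n + 28) := by rw [pow_add, pow_mul]; ring

theorem pow_R2 (T : ℕ) : 10 * T * 5 * 3 ^ (150 * T) ≤ 4 ^ (150 * T) := by
  have h : (1 + ((150 * T : ℕ) : ℝ) * (1 / 3)) ≤ (1 + 1 / 3 : ℝ) ^ (150 * T) :=
    one_add_mul_le_pow (by norm_num) _
  have h3 : (0 : ℝ) < 3 ^ (150 * T) := by positivity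
  have h4 : ((10 * T * 5 * 3 ^ (150 * T) : ℕ) : ℝ) ≤ ((4 ^ (150 * T) : ℕ) : ℝ) := by
    push_cast
    have h5 : (4 : ℝ) ^ (150 * T) = (1 + 1 / 3 : ℝ) ^ (150 * T) * 3 ^ (150 * T) := by
      rw [← mul_pow]; norm_num
    rw [h5]
    apply mul_le_mul_of_nonneg_right _ h3.le
    push_cast at h
    have hT : (0 : ℝ) ≤ T := Nat.cast_nonneg T
    nlinarith
  exact_mod_cast h4

theorem quant (hT : Tour) (hQC : SampQC) (hFS : FSound) (hFD : FDet) (hDec : FDecode)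
    (hHalf : FHalf) (k ρ j : ℕ) (θ : ℝ) (hθ : 0 < θ) (hθ1 : θ ≤ 1) (hρ : 400 ≤ ρ * θ)
    (N n : ℕ) (hn : n = 2 * j) (c : ℕ) (hc : c = 2 * n + 8) (r₀ : ℕ) (hr : r₀ = ρ * c)
    (θ₀ : ℝ) (hθ₀ : θ₀ = 1 / (2 * ρ ^ 2 * c ^ 3))
    (σ : PP n (k + 1) c r₀ (n * (k + 1) + 2) ≃ Fin N) :
    QuantumComputes (fun x : Fin N → Bool =>
      FF n k c r₀ (n * (k + 1) + 2) (θ / 2) θ₀
        (fun i => x (σ i))) (qBound ρ k j) := by
  classical
  have hρ0 : (0 : ℝ) < ρ := by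
    by_contra h
    push Not at h
    have : (ρ : ℝ) = 0 := le_antisymm h (Nat.cast_nonneg ρ)
    rw [this] at hρ; norm_num at hρ
  have hc0 : (0 : ℝ) < c := by rw [hc]; positivity
  have : Nonempty (PP n (k + 1) c r₀ (n * (k + 1) + 2)) := ⟨Sum.inl (fun _ => false, fun _ => false)⟩
  have : Nonempty (XX n) := ⟨fun _ => false⟩
  have : Nonempty (Con n (k + 1) c r₀) := ⟨Con.all fun _ => false⟩
  obtain ⟨hbt, hok⟩ := hFD n k c r₀ (n * (k + 1) + 2) (θ / 2) θ₀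
  obtain ⟨P, hP, hP'⟩ := hT (PP n (k + 1) c r₀ (n * (k + 1) + 2)) (XX n) (XX c)
    (Con n (k + 1) c r₀) (c * (r₀ * (r₀ * (k + 1)))) (2 * n + 2)
    (n + 2 + (r₀ + 3) * (n * (k + 1) + 2)) (nu r₀) bt (fun b a l x => ok (θ / 2) θ₀ b a l x)
    (FF n k c r₀ (n * (k + 1) + 2) (θ / 2) θ₀)
    (fun j' => hDec n (k + 1) c r₀ (n * (k + 1) + 2) r₀ j')
    hbt hok
    (by
      intro x e π h
      simp only [bt, Bool.and_eq_true, decide_eq_true_eq, Bool.not_eq_true'] at h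
      simp only [bt, Bool.and_eq_false_iff, decide_eq_false_iff_not, Bool.not_eq_false']
      right; left; exact h.2.2)
    (by
      intro x b a h
      refine ⟨?_, ?_⟩
      · intro p a' hp
        have h1 := h (Con.zero p)
        have h2 := h (Con.all (ptr x a' b))
        simp only [ok, decide_eq_true_eq] at h1 h2
        simp only [bt, Bool.and_eq_true, decide_eq_true_eq, Bool.not_eq_true']
        refine ⟨fun hh => hp hh.symm, ?_, h2⟩
        rcases h1 with h1 | h1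
        · exact absurd h1 hp
        · exact h1
      · apply hHalf n (k + 1) c r₀ (n * (k + 1) + 2) r₀ (θ / 2) θ₀ b x a (by linarith)
          (by linarith) (by rw [hθ₀]; positivity)
        · rw [hr]; push_cast; nlinarith
        · rw [hθ₀, hr]; push_cast
          rw [mul_one_div, mul_div_assoc', div_le_one (by positivity)]
          apply le_of_eq; ring
        · exact hFS n k c r₀ _ _ _ x b a h)
    (by
      intro x
      simp only [FF, decide_eq_true_eq])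
    (6 * n + 28) 5 (150 * (6 * n + 28)) (2 * 2 ^ j)
    (2 ^ j * (2 + c * (r₀ * ((k + 1) * (n + 1))) + c))
    (by positivity) (by positivity)
    (by
      rw [card_XX, hn, mul_pow, ← pow_mul, mul_comm j 2]
      have : 0 < 2 ^ (2 * j) := by positivity
      omega)
    (by
      rw [card_Con, mul_pow, ← pow_mul, mul_comm j 2, ← hn]
      set D := 2 + c * (r₀ * ((k + 1) * (n + 1))) + c with hD
      have hD1 : 1 ≤ D := by omega
      have h1 : 2 ^ n + (2 ^ n + (c * (r₀ * ((k + 1) * ((n + 1) * 2 ^ n))) + c)) ≤ 2 ^ n * D := by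
        have : 1 ≤ 2 ^ n := Nat.one_le_two_pow
        have h2 : c ≤ c * 2 ^ n := Nat.le_mul_of_pos_right c (by positivity)
        calc 2 ^ n + (2 ^ n + (c * (r₀ * ((k + 1) * ((n + 1) * 2 ^ n))) + c))
            ≤ 2 ^ n + (2 ^ n + (c * (r₀ * ((k + 1) * ((n + 1) * 2 ^ n))) + c * 2 ^ n)) := by omega
          _ = 2 ^ n * D := by rw [hD]; ring
      calc _ ≤ 2 ^ n * D := h1
        _ ≤ 2 ^ n * D ^ 2 := Nat.mul_le_mul_left _ (by nlinarith))
    (by rw [card_XX]; exact pow_T n)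
    (by norm_num)
    (pow_R2 _)
  have hq := hQC (PP n (k + 1) c r₀ (n * (k + 1) + 2)) Bool _ P id
    (FF n k c r₀ (n * (k + 1) + 2) (θ / 2) θ₀) hP
    (by
      intro x
      have := hP' x
      simp only [id, Finset.sum_ite_eq', Finset.mem_univ, if_true]
      exact this) N σ
  have hb : qBound ρ k j = (6 * n + 28) * (2 * (2 * 2 ^ j) * (c * (r₀ * (r₀ * (k + 1))) +
      (6 * n + 28) * (2 * n + 2))) + (6 * n + 28) * (5 * (c * (r₀ * (r₀ * (k + 1))) +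
      (150 * (6 * n + 28)) * (2 * (2 ^ j * (2 + c * (r₀ * ((k + 1) * (n + 1))) + c)) *
        (n + 2 + (r₀ + 3) * (n * (k + 1) + 2))))) := by
    simp only [qBound, hr, hc, hn]
  rw [hb]
  exact hq

/-! ### the final statement -/

theorem final (hT : Tour) (hQC : SampQC) (hFS : FSound) (hFC : FComplete) (hFD : FDet)
    (hDec : FDecode) (hHalf : FHalf) (hKey : KeyLaw) (hR : RandLB) (k : ℕ) (hk : 2 ≤ k) :
    ∃ (c C b : ℝ), 0 < c ∧ 0 < C ∧ 0 < b ∧ ∃ m₀ : ℕ, ∀ m : ℕ, m₀ ≤ m → (∃ j : ℕ, m = 4 ^ j) →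
      ∃ (n : ℕ) (F : (Fin n → Bool) → Bool),
        (∃ q : ℕ, (q : ℝ) ≤ C * Real.sqrt m * Real.log m ^ b ∧ QuantumComputes F q) ∧
        (∀ r : ℕ, RandomizedComputes F r →
          c * (m : ℝ) ^ (2 - 1 / (k : ℝ)) / Real.log m ^ 2 ≤ r) := by
  classical
  obtain ⟨θ, hθ, hθ1, hθk⟩ := hKey k hk
  obtain ⟨ρ, hρ⟩ : ∃ ρ : ℕ, 400 ≤ ρ * θ := by
    obtain ⟨ρ, hρ⟩ := exists_nat_ge (400 / θ)
    exact ⟨ρ, by rwa [div_le_iff₀ hθ] at hρ⟩
  obtain ⟨n₀, hn₀⟩ := hθk ρ hρ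
  refine ⟨1 / 32, (qC ρ k : ℝ) * (1 / Real.log 2) ^ 7 + 1, 7, by norm_num, by positivity,
    by norm_num, 4 ^ (n₀ + 1), ?_⟩
  rintro m hm ⟨j, rfl⟩
  have hj : n₀ + 1 ≤ j := (Nat.pow_le_pow_iff_right (by norm_num : 1 < 4)).mp hm
  have hj0 : 0 < j := by omega
  obtain ⟨n, hn⟩ : ∃ n, n = 2 * j := ⟨_, rfl⟩
  have hn1 : n₀ ≤ n := by omega
  obtain ⟨c, hc⟩ : ∃ c, c = 2 * n + 8 := ⟨_, rfl⟩
  obtain ⟨r₀, hr₀⟩ : ∃ r₀, r₀ = ρ * c := ⟨_, rfl⟩
  obtain ⟨θ₀, hθ₀⟩ : ∃ θ₀ : ℝ, θ₀ = 1 / (2 * ρ ^ 2 * c ^ 3) := ⟨_, rfl⟩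
  obtain ⟨w, w₀, hw, hws, hw0, hw0s, hW1, hW2⟩ := hn₀ n hn1 c r₀ θ₀ hc hr₀ hθ₀
  let σ : PP n (k + 1) c r₀ (n * (k + 1) + 2) ≃
      Fin (Fintype.card (PP n (k + 1) c r₀ (n * (k + 1) + 2))) := Fintype.equivFin _
  have hm4 : ((4 ^ j : ℕ) : ℝ) = (2 : ℝ) ^ n := by
    rw [hn, pow_mul]; norm_num
  refine ⟨Fintype.card (PP n (k + 1) c r₀ (n * (k + 1) + 2)), fun x =>
      FF n k c r₀ (n * (k + 1) + 2) (θ / 2) θ₀ (fun i => x (σ i)), ?_, ?_⟩
  · refine ⟨qBound ρ k j, ?_, quant hT hQC hFS hFD hDec hHalf k ρ j θ hθ hθ1 hρ _ n hn c hc r₀ hr₀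
      θ₀ hθ₀ σ⟩
    have h1 := qBound_le ρ k j hj0
    have h2 : (qBound ρ k j : ℝ) ≤ (qC ρ k : ℝ) * 2 ^ j * (2 * j) ^ 7 := by exact_mod_cast h1
    have hs : Real.sqrt ((4 ^ j : ℕ) : ℝ) = 2 ^ j := by
      rw [hm4, hn, mul_comm, pow_mul, Real.sqrt_sq (by positivity)]
    have hl : Real.log ((4 ^ j : ℕ) : ℝ) = (2 * j) * Real.log 2 := by
      rw [hm4, Real.log_pow, hn]; push_cast; ring
    have hl2 : 0 < Real.log 2 := Real.log_pos (by norm_num)
    rw [hs, hl]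
    have h7 : ((2 * j : ℝ) * Real.log 2) ^ (7 : ℝ) = ((2 * j : ℝ) * Real.log 2) ^ 7 := by
      rw [← Real.rpow_natCast]; norm_num
    rw [h7]
    calc (qBound ρ k j : ℝ) ≤ (qC ρ k : ℝ) * 2 ^ j * (2 * j) ^ 7 := h2
      _ = ((qC ρ k : ℝ) * (1 / Real.log 2) ^ 7) * 2 ^ j * ((2 * j) * Real.log 2) ^ 7 := by
        field_simp
      _ ≤ ((qC ρ k : ℝ) * (1 / Real.log 2) ^ 7 + 1) * 2 ^ j * ((2 * j) * Real.log 2) ^ 7 := by
        gcongr; linarith
  · rintro r ⟨s, p, T, hp, hps, hd, hT'⟩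
    -- the parameter `t`
    set M : ℝ := (2 : ℝ) ^ n with hM
    have hM4 : 4 ≤ M := by
      rw [hM]
      calc (4 : ℝ) = 2 ^ 2 := by norm_num
        _ ≤ 2 ^ n := pow_le_pow_right₀ (by norm_num) (by omega)
    have hk0 : (0 : ℝ) < k := by positivity
    have hk2 : (1 : ℝ) / k ≤ 1 / 2 := by
      apply one_div_le_one_div_of_le (by norm_num); exact_mod_cast hk
    set e : ℝ := 1 - 1 / (k : ℝ) with he
    have he2 : 1 / 2 ≤ e := by rw [he]; linarith
    have he1 : e ≤ 1 := by rw [he]; have : 0 < 1 / (k : ℝ) := by positivity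
                           linarith
    have hMe2 : 2 ≤ M ^ e := by
      calc (2 : ℝ) = 4 ^ (1 / 2 : ℝ) := by
            rw [show (4 : ℝ) = 2 ^ (2 : ℝ) by norm_num, ← Real.rpow_mul (by norm_num)]; norm_num
        _ ≤ M ^ (1 / 2 : ℝ) := Real.rpow_le_rpow (by norm_num) hM4 (by norm_num)
        _ ≤ M ^ e := Real.rpow_le_rpow_of_exponent_le (by linarith) he2
    have hMe1 : M ^ e ≤ M := by
      calc M ^ e ≤ M ^ (1 : ℝ) := Real.rpow_le_rpow_of_exponent_le (by linarith) he1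
        _ = M := Real.rpow_one M
    obtain ⟨t, ht⟩ : ∃ t : ℕ, t = ⌊M ^ e⌋₊ := ⟨_, rfl⟩
    have ht1 : (t : ℝ) ≤ M ^ e := by rw [ht]; exact Nat.floor_le (by positivity)
    have ht2 : M ^ e < t + 1 := by rw [ht]; exact Nat.lt_floor_add_one _
    have ht0 : 0 < t := by
      have : (0 : ℝ) < t := by linarith
      exact_mod_cast this
    have hthalf : M ^ e / 2 ≤ t := by
      have : (1 : ℝ) ≤ t := by exact_mod_cast ht0
      linarith
    have key := hR (XX n) (XX c) (KP n (k + 1) c r₀) (SP n (k + 1) c r₀ (n * (k + 1) + 2))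
      (FF n k c r₀ (n * (k + 1) + 2) (θ / 2) θ₀) (Good (θ / 2) θ₀) w w₀ t r ht0
      (by
        intro x hx
        simp only [FF, decide_eq_false_iff_not]
        rintro ⟨b, a, hba⟩
        obtain ⟨ρ', hρ'⟩ := hx b
        have := hba (Con.all ρ')
        simp only [ok, mat] at this
        rw [hρ'] at this
        exact absurd this (by simp))
      (fun b a z κ hg => hFC n k c r₀ (n * (k + 1) + 2) (θ / 2) θ₀ le_rfl b a z κ hg)
      hw hws hw0 hw0s hW1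
      (fun a T hT => hW2 a T (le_trans (by exact_mod_cast hT) ht1))
      s p (fun i => toGT σ (T i)) hp hps
      (fun i => by rw [toGT_depth]; exact hd i)
      (by
        intro x
        have := hT' (fun i => x (σ.symm i))
        simp only [Equiv.symm_apply_apply] at this
        simp only [toGT_eval]
        exact this)
    rw [card_XX, card_XX] at key
    have hcM : ((2 ^ c : ℕ) : ℝ) = 256 * M ^ 2 := by
      rw [hc, hM]; push_cast; rw [pow_add, mul_comm 2 n, pow_mul]; ring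
    rw [hcM] at key
    push_cast at key
    rw [← hM] at key
    have hr0 : (0 : ℝ) ≤ r := Nat.cast_nonneg r
    have htM : (t : ℝ) ≤ M := ht1.trans hMe1
    have htp : (0 : ℝ) < t := by exact_mod_cast ht0
    have hMp : 0 < M := by linarith
    have e1 : 2 * (r : ℝ) / (M * (M + 1)) ≤ 2 * (r / (M * t)) := by
      rw [mul_div_assoc]
      apply mul_le_mul_of_nonneg_left _ (by norm_num)
      apply div_le_div_of_nonneg_left hr0 (by positivity)
      apply mul_le_mul_of_nonneg_left _ hMp.le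
      linarith
    have e2 : (r : ℝ) / (256 * M ^ 2) ≤ r / (M * t) := by
      apply div_le_div_of_nonneg_left hr0 (by positivity)
      nlinarith
    have e3 : (1 / 4 : ℝ) ≤ 4 * (r / (M * t)) := by linarith
    have e4 : M * t / 16 ≤ r := by
      have h5 : 0 < M * t := by positivity
      have : (1 / 16 : ℝ) ≤ r / (M * t) := by linarith
      rw [le_div_iff₀ h5] at this
      linarith
    have e5 : M ^ (2 - 1 / (k : ℝ)) = M * M ^ e := by
      rw [← Real.rpow_one_add' hMp.le (by linarith)]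
      congr 1; rw [he]; ring
    rw [hm4, e5]
    have hlog : 1 ≤ Real.log M := by
      rw [Real.le_log_iff_exp_le hMp]
      have := Real.exp_one_lt_d9
      linarith
    have hlog2 : 1 ≤ Real.log M ^ 2 := by nlinarith
    calc 1 / 32 * (M * M ^ e) / Real.log M ^ 2 ≤ 1 / 32 * (M * M ^ e) := by
          apply div_le_self (by positivity) hlog2
      _ = M * (M ^ e / 2) / 16 := by ring
      _ ≤ M * t / 16 := by gcongr
      _ ≤ r := e4

end Crest.Agent.QG
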