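import Crest.Agent.H27QSpec

/-!
# rid 350: the integer Walsh transform tableau (modules FSOUND, FCOMPLETE)
-/

set_option autoImplicit false

namespace Crest.Agent.QG.H27Tab

open Spec

variable {n : ℕ}

/-- integer character -/
def cz (x y : XX n) : ℤ := ∏ i, sgZ (x i && y i)

theorem sgZ_cast (b : Bool) : ((sgZ b : ℤ) : ℝ) = sg b := by
  cases b <;> simp [sgZ, sg]

theorem sgZ_abs (b : Bool) : |sgZ b| = 1 := by cases b <;> simp [sgZ]

theorem prod_sgZ {ι : Type} (s : Finset ι) (b : ι → Bool) :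
    ∏ i ∈ s, sgZ (b i) = sgZ (decide ((s.filter fun i => b i = true).card % 2 = 1)) := by
  classical
  induction s using Finset.induction_on with
  | empty => simp [sgZ]
  | insert a s ha ih =>
    rw [Finset.prod_insert ha, ih, Finset.filter_insert]
    by_cases h : b a = true
    · rw [if_pos h, Finset.card_insert_of_notMem (by simp [ha])]
      rcases Nat.mod_two_eq_zero_or_one (s.filter fun i => b i = true).card with h' | h'
      · have : ((s.filter fun i => b i = true).card + 1) % 2 = 1 := by omega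
        simp [h, h', this, sgZ]
      · have : ((s.filter fun i => b i = true).card + 1) % 2 = 0 := by omega
        simp [h, h', this, sgZ]
    · rw [if_neg h]
      have : b a = false := by simpa using h
      simp [this, sgZ]

theorem chi_eq (x y : XX n) : chi x y = ((cz x y : ℤ) : ℝ) := by
  unfold chi cz
  rw [prod_sgZ, sgZ_cast]
  rfl

/-- integer Walsh transform -/
def WZ (w : XX n → ℤ) : XX n → ℤ := fun y => ∑ x, cz x y * w x

theorem WH_eq (s : ℝ) (w : XX n → ℤ) (y : XX n) :
    WH (fun x => s * ((w x : ℤ) : ℝ)) y = s * (1 / Real.sqrt (2 ^ n)) * ((WZ w y : ℤ) : ℝ) := by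
  unfold WH WZ hh
  push_cast
  rw [Finset.mul_sum]
  apply Finset.sum_congr rfl
  intro x _
  rw [chi_eq]
  ring

/-- states of the integer chain -/
def st (f : ℕ → XX n → Bool) : ℕ → XX n → ℤ
  | 0 => fun _ => 1
  | l + 1 => WZ (fun x => sgZ (f l x) * st f l x)

theorem chain_eq (f : ℕ → XX n → Bool) (K m : ℕ) (s : ℝ) (y : XX n) :
    chain K (fun x => s * ((st f m x : ℤ) : ℝ)) (fun (l : Fin K) x => sg (f (m + l) x)) y =
      s * (1 / Real.sqrt (2 ^ n)) ^ K * ((st f (m + K) y : ℤ) : ℝ) := by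
  induction K generalizing m s with
  | zero => simp [chain]
  | succ K ih =>
    rw [chain]
    have h1 : (WH fun x => s * ((st f m x : ℤ) : ℝ) * sg (f (m + ((0 : Fin (K + 1)) : ℕ)) x)) =
        fun x => (s * (1 / Real.sqrt (2 ^ n))) * ((st f (m + 1) x : ℤ) : ℝ) := by
      funext y'
      have := WH_eq s (fun x => sgZ (f m x) * st f m x) y'
      rw [show (st f (m + 1) y') = WZ (fun x => sgZ (f m x) * st f m x) y' from rfl, ← this]
      congr 1
      funext x
      push_cast
      rw [sgZ_cast]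
      simp only [Fin.val_zero, Nat.add_zero]
      ring
    rw [h1]
    have h2 : (fun (l : Fin K) (x : XX n) => sg (f (m + ((l.succ : Fin (K + 1)) : ℕ)) x)) =
        fun (l : Fin K) (x : XX n) => sg (f (m + 1 + (l : ℕ)) x) := by
      funext l x
      have e : m + ((l.succ : Fin (K + 1)) : ℕ) = m + 1 + (l : ℕ) := by rw [Fin.val_succ]; omega
      rw [e]
    rw [h2, ih (m + 1)]
    rw [pow_succ, show m + 1 + K = m + (K + 1) by omega]
    ring

theorem Phi_sq (f : ℕ → XX n → Bool) (K : ℕ) :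
    Phi (fun (l : Fin K) x => f l x) ^ 2 * ((2 : ℝ) ^ n) ^ (K + 1) =
      ((st f K (fun _ => false) : ℤ) : ℝ) ^ 2 := by
  unfold Phi
  have h := chain_eq f K 0 (1 / Real.sqrt (2 ^ n)) (fun _ => false)
  simp only [st, Int.cast_one, mul_one, Nat.zero_add] at h
  rw [h, ← pow_succ', mul_pow, ← pow_mul, mul_comm (K + 1) 2, pow_mul, div_pow, one_pow,
    Real.sq_sqrt (by positivity), one_div, inv_pow]
  field_simp

/-! ### butterfly -/

/-- coefficient factor -/
def gf (t : ℕ) (i : Fin n) (a b : Bool) : ℤ :=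
  if (i : ℕ) < t then sgZ (a && b) else if a = b then 1 else 0

/-- coefficient after `t` butterfly levels -/
def kap (t : ℕ) (x y : XX n) : ℤ := ∏ i, gf t i (x i) (y i)

theorem kap_zero (x y : XX n) : kap 0 x y = if x = y then 1 else 0 := by
  unfold kap gf
  by_cases h : x = y
  · subst h; simp
  · rw [if_neg h]
    obtain ⟨i, hi⟩ := Function.ne_iff.mp h
    apply Finset.prod_eq_zero (Finset.mem_univ i)
    simp [hi]

theorem kap_top (x y : XX n) : kap n x y = cz x y := by
  unfold kap gf cz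
  apply Finset.prod_congr rfl
  intro i _
  rw [if_pos i.2]

theorem kap_update (t : ℕ) (j : Fin n) (x y : XX n) (b : Bool) :
    kap t x (Function.update y j b) = gf t j (x j) b * ∏ i ∈ Finset.univ.erase j, gf t i (x i) (y i) := by
  unfold kap
  rw [← Finset.mul_prod_erase Finset.univ _ (Finset.mem_univ j)]
  congr 1
  · simp
  · apply Finset.prod_congr rfl
    intro i hi
    rw [Function.update_of_ne (Finset.ne_of_mem_erase hi)]

theorem kap_step (t : ℕ) (ht : t < n) (x y : XX n) :
    kap (t + 1) x y = kap t x (Function.update y ⟨t, ht⟩ false) +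
      sgZ (y ⟨t, ht⟩) * kap t x (Function.update y ⟨t, ht⟩ true) := by
  have h1 := kap_update (t + 1) ⟨t, ht⟩ x y (y ⟨t, ht⟩)
  rw [Function.update_eq_self] at h1
  rw [h1, kap_update, kap_update]
  have h2 : ∏ i ∈ Finset.univ.erase (⟨t, ht⟩ : Fin n), gf (t + 1) i (x i) (y i) =
      ∏ i ∈ Finset.univ.erase (⟨t, ht⟩ : Fin n), gf t i (x i) (y i) := by
    apply Finset.prod_congr rfl
    intro i hi
    have hne : (i : ℕ) ≠ t := fun h => Finset.ne_of_mem_erase hi (Fin.ext h)
    unfold gf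
    by_cases hi1 : (i : ℕ) < t
    · rw [if_pos hi1, if_pos (by omega)]
    · rw [if_neg hi1, if_neg (by omega)]
  rw [h2]
  have h3 : gf (t + 1) (⟨t, ht⟩ : Fin n) (x ⟨t, ht⟩) (y ⟨t, ht⟩) =
      gf t ⟨t, ht⟩ (x ⟨t, ht⟩) false + sgZ (y ⟨t, ht⟩) * gf t ⟨t, ht⟩ (x ⟨t, ht⟩) true := by
    unfold gf
    simp only [Nat.lt_succ_self, if_true, lt_irrefl, if_false]
    cases x ⟨t, ht⟩ <;> cases y ⟨t, ht⟩ <;> simp [sgZ]
  rw [h3]
  ring

/-- value after `t` butterfly levels -/
def bf (w : XX n → ℤ) (t : ℕ) (y : XX n) : ℤ := ∑ x, kap t x y * w x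

theorem bf_zero (w : XX n → ℤ) (y : XX n) : bf w 0 y = w y := by
  unfold bf
  simp [kap_zero]

theorem bf_top (w : XX n → ℤ) (y : XX n) : bf w n y = WZ w y := by
  unfold bf WZ
  simp [kap_top]

theorem bf_step (w : XX n → ℤ) (t : ℕ) (ht : t < n) (y : XX n) :
    bf w (t + 1) y = bf w t (Function.update y ⟨t, ht⟩ false) +
      sgZ (y ⟨t, ht⟩) * bf w t (Function.update y ⟨t, ht⟩ true) := by
  unfold bf
  rw [Finset.mul_sum, ← Finset.sum_add_distrib]
  apply Finset.sum_congr rfl
  intro x _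
  rw [kap_step t ht]
  ring

/-! ### soundness -/

theorem sound {K c r₀ Lb : ℕ} (x : PP n K c r₀ Lb → Bool) (b : XX n) (a : XX c)
    (h : ∀ τ, tabOK x b a τ) (i : Fin c) (s : Fin r₀) (f : ℕ → XX n → Bool)
    (hf : ∀ (l : Fin K) y, f l y = key x b ⟨i, s, l, y⟩) (l : ℕ) (hl : l < K) (y : XX n) :
    cell x a ⟨i, s, ⟨l, hl⟩, Fin.last n, y⟩ = st f (l + 1) y := by
  induction l generalizing y with
  | zero =>
    have base : ∀ y, cell x a ⟨i, s, ⟨0, hl⟩, 0, y⟩ = sgZ (f 0 y) * st f 0 y := by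
      intro y
      have := h ⟨i, s, ⟨0, hl⟩, 0, y⟩
      unfold tabOK at this
      simp only [Fin.val_zero, dif_pos] at this
      rw [this, hf ⟨0, hl⟩ y, st]
    have lev : ∀ t (ht : t < n + 1) y, cell x a ⟨i, s, ⟨0, hl⟩, ⟨t, ht⟩, y⟩ =
        bf (fun y => sgZ (f 0 y) * st f 0 y) t y := by
      intro t
      induction t with
      | zero => intro ht y; rw [bf_zero]; exact base y
      | succ t ih =>
        intro ht y
        have := h ⟨i, s, ⟨0, hl⟩, ⟨t + 1, ht⟩, y⟩
        unfold tabOK at this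
        rw [dif_neg (by simp)] at this
        simp only [Nat.add_sub_cancel] at this
        rw [this, bf_step _ t (by omega), ih, ih]
    rw [show (Fin.last n) = (⟨n, by omega⟩ : Fin (n + 1)) from rfl, lev, bf_top]
    rfl
  | succ l ih =>
    have base : ∀ y, cell x a ⟨i, s, ⟨l + 1, hl⟩, 0, y⟩ = sgZ (f (l + 1) y) * st f (l + 1) y := by
      intro y
      have := h ⟨i, s, ⟨l + 1, hl⟩, 0, y⟩
      unfold tabOK at this
      rw [dif_pos (by simp), dif_neg (by simp)] at this
      simp only [Nat.add_sub_cancel] at this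
      rw [this, ih (by omega) y, ← hf ⟨l + 1, hl⟩ y]
    have lev : ∀ t (ht : t < n + 1) y, cell x a ⟨i, s, ⟨l + 1, hl⟩, ⟨t, ht⟩, y⟩ =
        bf (fun y => sgZ (f (l + 1) y) * st f (l + 1) y) t y := by
      intro t
      induction t with
      | zero => intro ht y; rw [bf_zero]; exact base y
      | succ t ih =>
        intro ht y
        have := h ⟨i, s, ⟨l + 1, hl⟩, ⟨t + 1, ht⟩, y⟩
        unfold tabOK at this
        rw [dif_neg (by simp)] at this
        simp only [Nat.add_sub_cancel] at this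
        rw [this, bf_step _ t (by omega), ih, ih]
    rw [show (Fin.last n) = (⟨n, by omega⟩ : Fin (n + 1)) from rfl, lev, bf_top]
    rfl

/-- extension of a layered function to all natural indices -/
def fx {K : ℕ} (g : Fin K → XX n → Bool) : ℕ → XX n → Bool :=
  fun l y => if h : l < K then g ⟨l, h⟩ y else false

theorem fx_val {K : ℕ} (g : Fin K → XX n → Bool) (l : Fin K) (y : XX n) : fx g l y = g l y := by
  unfold fx; rw [dif_pos l.2]

theorem cphi_eq {K c r₀ : ℕ} (κ : KP n K c r₀ → Bool) (i : Fin c) (s : Fin r₀) :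
    cphi κ i s * ((2 : ℝ) ^ n) ^ (K + 1) =
      ((st (fx fun l y => κ ⟨i, s, l, y⟩) K (fun _ => false) : ℤ) : ℝ) ^ 2 := by
  rw [← Phi_sq]
  unfold cphi
  congr 3
  funext l y
  rw [fx_val]

theorem fsound : FSound := by
  intro n k c r₀ Lb θ₁ θ₀ x b a h
  have htab : ∀ τ, tabOK x b a τ := by
    intro τ
    have := h (Con.tab τ)
    simpa only [ok, decide_eq_true_eq] using this
  have hcell : ∀ (i : Fin c) (s : Fin r₀),
      ((cell x a ⟨i, s, Fin.last k, Fin.last n, fun _ => false⟩ : ℤ) : ℝ) ^ 2 =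
        cphi (key x b) i s * ((2 : ℝ) ^ n) ^ (k + 2) := by
    intro i s
    have h1 := sound x b a htab i s (fx fun l y => key x b ⟨i, s, l, y⟩)
      (fun l y => fx_val _ l y) k (by omega) (fun _ => false)
    rw [show (Fin.last k) = (⟨k, by omega⟩ : Fin (k + 1)) from rfl, h1, ← cphi_eq]
  intro i
  have hi0 := h (Con.fin i)
  have hi : finOK θ₁ θ₀ x a i := by simpa only [ok, decide_eq_true_eq] using hi0
  unfold finOK at hi
  have hpos : (0 : ℝ) < ((2 : ℝ) ^ n) ^ (k + 2) := by positivity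
  by_cases ha : a i = true
  · rw [if_pos ha] at hi ⊢
    obtain ⟨s, hs⟩ := hi
    refine ⟨s, ?_⟩
    rw [hcell] at hs
    exact le_of_mul_le_mul_right hs hpos
  · rw [if_neg ha] at hi ⊢
    intro s
    have hs := hi s
    rw [hcell] at hs
    exact le_of_mul_le_mul_right hs hpos

end Crest.Agent.QG.H27Tab
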