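import Mathlib

/-! rid 113 (S0150), module UNI: simultaneous exposed indices of two super-Gaussian sequences. -/

set_option autoImplicit false

namespace Crest.R113.H27

open Filter Topology

/-- `m` maximises `U m * exp (t m)`. -/
def IsMx (U : ℕ → ℝ) (t : ℝ) (m : ℕ) : Prop :=
  ∀ m' : ℕ, U m' * Real.exp (t * m') ≤ U m * Real.exp (t * m)

theorem tend0 (C t : ℝ) :
    Tendsto (fun m : ℕ => C * Real.exp (-5 * (m : ℝ) ^ 2) * Real.exp (t * m)) atTop (𝓝 0) := by
  have h1 : Tendsto (fun m : ℕ => (m : ℝ)) atTop atTop := tendsto_natCast_atTop_atTop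
  have h2 : Tendsto (fun m : ℕ => (m : ℝ) * (5 * (m : ℝ) + (-t))) atTop atTop := by
    apply Tendsto.atTop_mul_atTop₀ h1
    exact tendsto_atTop_add_const_right _ _ (Tendsto.const_mul_atTop (by norm_num) h1)
  have h3 : Tendsto (fun m : ℕ => -((m : ℝ) * (5 * (m : ℝ) + (-t)))) atTop atBot :=
    tendsto_neg_atTop_atBot.comp h2
  have h4 := (Real.tendsto_exp_atBot.comp h3).const_mul C
  rw [mul_zero] at h4
  refine h4.congr (fun m => ?_)
  simp only [Function.comp]
  rw [mul_assoc, ← Real.exp_add]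
  congr 2
  ring

theorem exists_mx (U : ℕ → ℝ) (C : ℝ) (hU : ∀ m, U m ≤ C * Real.exp (-5 * (m : ℝ) ^ 2))
    (hUp : ∃ m, 0 < U m) (t : ℝ) : ∃ m, IsMx U t m ∧ 0 < U m := by
  obtain ⟨m1, hm1⟩ := hUp
  have hv : 0 < U m1 * Real.exp (t * m1) := mul_pos hm1 (Real.exp_pos _)
  have hev := (tend0 C t).eventually (gt_mem_nhds hv)
  obtain ⟨N, hN⟩ := eventually_atTop.1 hev
  have hne : (insert m1 (Finset.range N)).Nonempty := ⟨m1, Finset.mem_insert_self _ _⟩
  obtain ⟨m, hm, hmax⟩ := Finset.exists_max_image (insert m1 (Finset.range N))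
    (fun m : ℕ => U m * Real.exp (t * m)) hne
  have hmm1 := hmax m1 (Finset.mem_insert_self _ _)
  refine ⟨m, ?_, ?_⟩
  · intro m'
    by_cases h : m' < N
    · exact hmax m' (Finset.mem_insert_of_mem (Finset.mem_range.2 h))
    · have h1 := hN m' (not_lt.1 h)
      have h2 : U m' * Real.exp (t * m') ≤ C * Real.exp (-5 * (m' : ℝ) ^ 2) * Real.exp (t * m') :=
        mul_le_mul_of_nonneg_right (hU m') (Real.exp_pos _).le
      exact (h2.trans h1.le).trans hmm1
  · have h3 : 0 < U m * Real.exp (t * m) := lt_of_lt_of_le hv hmm1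
    exact (mul_pos_iff_of_pos_right (Real.exp_pos _)).1 h3

theorem mx_le (U : ℕ → ℝ) (C : ℝ) (hU : ∀ m, U m ≤ C * Real.exp (-5 * (m : ℝ) ^ 2))
    (hUp : ∃ m, 0 < U m) : ∃ L : ℝ, 0 ≤ L ∧ ∀ t, 0 ≤ t → ∀ m, IsMx U t m → (m : ℝ) ≤ (t + L) / 5 := by
  obtain ⟨m1, hm1⟩ := hUp
  have hC : 0 < C := by
    have := lt_of_lt_of_le hm1 (hU m1)
    exact (mul_pos_iff_of_pos_right (Real.exp_pos _)).1 this
  refine ⟨max (Real.log C - Real.log (U m1)) 0, le_max_right _ _, fun t ht m hm => ?_⟩
  set L := max (Real.log C - Real.log (U m1)) 0 with hL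
  have hL0 : 0 ≤ L := le_max_right _ _
  rcases Nat.eq_zero_or_pos m with h0 | h0
  · subst h0
    simp only [Nat.cast_zero]
    positivity
  have h1 : U m1 ≤ U m1 * Real.exp (t * m1) := by
    have : 1 ≤ Real.exp (t * m1) := Real.one_le_exp (by positivity)
    nlinarith
  have h2 := h1.trans (hm m1)
  have h3 : U m * Real.exp (t * m) ≤ C * Real.exp (-5 * (m : ℝ) ^ 2) * Real.exp (t * m) :=
    mul_le_mul_of_nonneg_right (hU m) (Real.exp_pos _).le
  have h4 := h2.trans h3
  have h5 := Real.log_le_log hm1 h4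
  rw [Real.log_mul (by positivity) (by positivity), Real.log_mul (by positivity) (by positivity),
    Real.log_exp, Real.log_exp] at h5
  have h6 : 5 * (m : ℝ) ^ 2 ≤ t * m + L := by
    have : Real.log C - Real.log (U m1) ≤ L := le_max_left _ _
    linarith
  have hm1' : (1 : ℝ) ≤ m := by exact_mod_cast h0
  rw [le_div_iff₀ (by norm_num : (0 : ℝ) < 5)]
  have h7 : (m : ℝ) * (5 * m) ≤ m * (t + L) := by nlinarith
  have := le_of_mul_le_mul_left h7 (by linarith)
  linarith

theorem mx_mono (U : ℕ → ℝ) {t t' : ℝ} (htt : t < t') {m m' : ℕ} (hm : IsMx U t m) (hm' : IsMx U t' m')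
    (hp : 0 < U m) (hp' : 0 < U m') : m ≤ m' := by
  by_contra hcon
  have hlt : m' < m := not_le.1 hcon
  have h1 := hm m'
  have h2 := hm' m
  have h3 := mul_le_mul h1 h2 (by positivity) (by positivity)
  have e1 : U m' * Real.exp (t * m') * (U m * Real.exp (t' * m)) =
      (U m * U m') * Real.exp (t * m' + t' * m) := by
    rw [Real.exp_add]; ring
  have e2 : U m * Real.exp (t * m) * (U m' * Real.exp (t' * m')) =
      (U m * U m') * Real.exp (t * m + t' * m') := by
    rw [Real.exp_add]; ring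
  rw [e1, e2] at h3
  have h4 := le_of_mul_le_mul_left h3 (by positivity)
  have h5 := Real.exp_le_exp.1 h4
  have h6 : (m' : ℝ) < m := by exact_mod_cast hlt
  nlinarith

theorem good_of_eq (U : ℕ → ℝ) (s μ : ℝ) (m : ℕ) (h1 : IsMx U (s - μ) m) (h2 : IsMx U (s + μ) m)
    (m' : ℕ) : U m' ≤ U m * Real.exp (-s * ((m' : ℝ) - m) - μ * |(m' : ℝ) - m|) := by
  have key : ∀ t : ℝ, IsMx U t m → U m' ≤ U m * Real.exp (-t * ((m' : ℝ) - m)) := by
    intro t ht
    have h := ht m'
    have : U m' = U m' * Real.exp (t * m') * Real.exp (-(t * m')) := by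
      rw [mul_assoc, ← Real.exp_add]; simp
    rw [this]
    calc U m' * Real.exp (t * m') * Real.exp (-(t * m'))
        ≤ U m * Real.exp (t * m) * Real.exp (-(t * m')) :=
          mul_le_mul_of_nonneg_right h (Real.exp_pos _).le
      _ = U m * Real.exp (-t * ((m' : ℝ) - m)) := by
          rw [mul_assoc, ← Real.exp_add]
          congr 2
          ring
  rcases le_total (m : ℝ) m' with h | h
  · have := key _ h2
    rw [abs_of_nonneg (by linarith)]
    convert this using 3
    ring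
  · have := key _ h1
    rw [abs_of_nonpos (by linarith)]
    convert this using 3
    ring

theorem good_slope (U V : ℕ → ℝ) (C : ℝ)
    (hU : ∀ m, U m ≤ C * Real.exp (-5 * (m : ℝ) ^ 2))
    (hV : ∀ m, V m ≤ C * Real.exp (-5 * (m : ℝ) ^ 2)) (hUp : ∃ m, 0 < U m) (hVp : ∃ m, 0 < V m)
    (s0 : ℝ) : ∃ s, s0 ≤ s ∧ ∃ m j : ℕ, 0 < U m ∧ 0 < V j ∧
      (∀ m' : ℕ, U m' ≤ U m * Real.exp (-s * ((m' : ℝ) - m) - 1.1 * |(m' : ℝ) - m|)) ∧
      (∀ j' : ℕ, V j' ≤ V j * Real.exp (-s * ((j' : ℝ) - j) - 1.1 * |(j' : ℝ) - j|)) := by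
  choose mU hmU hmUp using exists_mx U C hU hUp
  choose mV hmV hmVp using exists_mx V C hV hVp
  obtain ⟨LU, hLU0, hLU⟩ := mx_le U C hU hUp
  obtain ⟨LV, hLV0, hLV⟩ := mx_le V C hV hVp
  set t0 : ℝ := max s0 0 with ht0
  have ht0n : 0 ≤ t0 := le_max_right _ _
  let t : ℕ → ℝ := fun k => t0 + 2.2 * k
  have htlt : ∀ k, t k < t (k + 1) := by
    intro k
    simp only [t]
    push_cast
    linarith
  have htn : ∀ k, 0 ≤ t k := by
    intro k
    simp only [t]
    positivity
  by_cases hex : ∃ k, mU (t k) = mU (t (k + 1)) ∧ mV (t k) = mV (t (k + 1))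
  · obtain ⟨k, hk1, hk2⟩ := hex
    refine ⟨t k + 1.1, ?_, mU (t k), mV (t k), hmUp _, hmVp _, ?_, ?_⟩
    · have : s0 ≤ t0 := le_max_left _ _
      have h2 : t0 ≤ t k := by
        simp only [t]
        have : (0 : ℝ) ≤ k := Nat.cast_nonneg k
        linarith
      linarith
    · apply good_of_eq
      · have e : t k + 1.1 - 1.1 = t k := by ring
        rw [e]
        exact hmU _
      · have e : t k + 1.1 + 1.1 = t (k + 1) := by
          simp only [t]
          push_cast
          ring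
        rw [e, hk1]
        exact hmU _
    · apply good_of_eq
      · have e : t k + 1.1 - 1.1 = t k := by ring
        rw [e]
        exact hmV _
      · have e : t k + 1.1 + 1.1 = t (k + 1) := by
          simp only [t]
          push_cast
          ring
        rw [e, hk2]
        exact hmV _
  · exfalso
    have hind : ∀ k, k ≤ mU (t k) + mV (t k) := by
      intro k
      induction k with
      | zero => exact Nat.zero_le _
      | succ k ih =>
        have h1 := mx_mono U (htlt k) (hmU _) (hmU _) (hmUp _) (hmUp _)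
        have h2 := mx_mono V (htlt k) (hmV _) (hmV _) (hmVp _) (hmVp _)
        have h3 : ¬ (mU (t k) = mU (t (k + 1)) ∧ mV (t k) = mV (t (k + 1))) :=
          fun h => hex ⟨k, h⟩
        by_contra hcon
        apply h3
        omega
    obtain ⟨K, hK⟩ := exists_nat_gt ((2 * t0 + LU + LV) / 0.6)
    have h1 := hLU (t K) (htn K) _ (hmU _)
    have h2 := hLV (t K) (htn K) _ (hmV _)
    have h3 : (K : ℝ) ≤ (mU (t K) : ℝ) + mV (t K) := by exact_mod_cast hind K
    have h4 : t K = t0 + 2.2 * K := rfl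
    rw [h4] at h1 h2
    rw [div_lt_iff₀ (by norm_num)] at hK
    rw [h4] at h3
    linarith

end Crest.R113.H27
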