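import Crest.Agent.H3RyDefs

/-!
# Module C of the Ryser counterexample (S0045, S0046): groups and patterns (Gilbert-Varshamov)
-/

set_option autoImplicit false
set_option linter.unusedSectionVars false
set_option linter.unusedSimpArgs false

namespace Crest.Agent.H3Ry
open Finset

/-- volume of the Hamming ball of radius `< N/8` -/
theorem ball_le (N : ℕ) (x : Fin N → Bool) :
    ((univ.filter (fun y : Fin N → Bool =>
      8 * (univ.filter (fun j => x j ≠ y j)).card < N)).card : ℝ) ≤ (73 / 50 : ℝ) ^ N := by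
  set t : ℝ := (4 / 5) ^ 8 with ht
  have h1 : ∑ y : Fin N → Bool, t ^ (univ.filter (fun j => x j ≠ y j)).card = (1 + t) ^ N := by
    have h2 : ∀ y : Fin N → Bool, t ^ (univ.filter (fun j => x j ≠ y j)).card
        = ∏ j, (if x j ≠ y j then t else 1) := by
      intro y
      rw [← Finset.prod_filter, Finset.prod_const]
    simp_rw [h2]
    have h3 := Finset.prod_univ_sum (fun _ : Fin N => (univ : Finset Bool))
      (fun (j : Fin N) (b : Bool) => if x j ≠ b then t else 1)
    rw [Fintype.piFinset_univ] at h3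
    rw [← h3]
    have h4 : ∀ j : Fin N, ∑ b : Bool, (if x j ≠ b then t else 1) = 1 + t := by
      intro j
      rw [Fintype.sum_bool]
      cases x j <;> simp [add_comm]
    simp_rw [h4]
    simp
  set A := univ.filter (fun y : Fin N → Bool =>
      8 * (univ.filter (fun j => x j ≠ y j)).card < N) with hA
  have h5 : (A.card : ℝ) * (4 / 5) ^ N ≤ (1 + t) ^ N := by
    rw [← h1]
    calc (A.card : ℝ) * (4 / 5) ^ N = ∑ y ∈ A, (4 / 5 : ℝ) ^ N := by
          rw [Finset.sum_const, nsmul_eq_mul]
      _ ≤ ∑ y ∈ A, t ^ (univ.filter (fun j => x j ≠ y j)).card := by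
          apply Finset.sum_le_sum
          intro y hy
          have hy' := (mem_filter.mp hy).2
          rw [ht, ← pow_mul]
          exact pow_le_pow_of_le_one (by norm_num) (by norm_num) hy'.le
      _ ≤ _ := Finset.sum_le_sum_of_subset_of_nonneg (Finset.subset_univ _)
          (fun y _ _ => by positivity)
  have h6 : (1 + t) ^ N ≤ (73 / 50 : ℝ) ^ N * (4 / 5) ^ N := by
    rw [← mul_pow]
    apply pow_le_pow_left₀ (by positivity)
    rw [ht]
    norm_num
  have h7 := h5.trans h6
  exact le_of_mul_le_mul_right h7 (by positivity)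

theorem card_bad_le (N : ℕ) (x : Fin N → Bool) :
    ((univ.filter (fun y : Fin N → Bool =>
      8 * (univ.filter (fun j => x j ≠ y j)).card < N ∨
      8 * (univ.filter (fun j => x j = y j)).card < N)).card : ℝ) ≤ 2 * (73 / 50 : ℝ) ^ N := by
  rw [Finset.filter_or]
  have h1 := ball_le N x
  have h2 := ball_le N (fun j => !x j)
  have h3 : ∀ y : Fin N → Bool, (univ.filter (fun j => (!x j) ≠ y j))
      = univ.filter (fun j => x j = y j) := by
    intro y
    ext j
    simp only [mem_filter, mem_univ, true_and]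
    cases x j <;> cases y j <;> simp
  simp_rw [h3] at h2
  have h4 := Finset.card_union_le (univ.filter (fun y : Fin N → Bool =>
      8 * (univ.filter (fun j => x j ≠ y j)).card < N)) (univ.filter (fun y : Fin N → Bool =>
      8 * (univ.filter (fun j => x j = y j)).card < N))
  have h5 : (((univ.filter (fun y : Fin N → Bool =>
      8 * (univ.filter (fun j => x j ≠ y j)).card < N)) ∪ (univ.filter (fun y : Fin N → Bool =>
      8 * (univ.filter (fun j => x j = y j)).card < N))).card : ℝ) ≤
      ((univ.filter (fun y : Fin N → Bool =>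
      8 * (univ.filter (fun j => x j ≠ y j)).card < N)).card : ℝ) + ((univ.filter (fun y : Fin N → Bool =>
      8 * (univ.filter (fun j => x j = y j)).card < N)).card : ℝ) := by exact_mod_cast h4
  linarith

theorem exists_code (N : ℕ) (hN : 0 < N) : ∀ m : ℕ,
    2 * ((m : ℝ) - 1) * (73 / 50 : ℝ) ^ N < 2 ^ N →
    ∃ S : Finset (Fin N → Bool), S.card = m ∧ ∀ x ∈ S, ∀ y ∈ S, x ≠ y →
      N ≤ 8 * (univ.filter (fun j => x j ≠ y j)).card ∧
      N ≤ 8 * (univ.filter (fun j => x j = y j)).card := by
  intro m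
  induction m with
  | zero =>
    intro _
    exact ⟨∅, rfl, by simp⟩
  | succ m ih =>
    intro h
    push_cast at h
    have h0 : 2 * (m : ℝ) * (73 / 50 : ℝ) ^ N < 2 ^ N := by
      have : (m : ℝ) + 1 - 1 = m := by ring
      rwa [this] at h
    have h1 : 2 * ((m : ℝ) - 1) * (73 / 50 : ℝ) ^ N < 2 ^ N := by
      have : (0 : ℝ) < (73 / 50 : ℝ) ^ N := by positivity
      nlinarith
    obtain ⟨S, hS, hgood⟩ := ih h1
    have h2 : ((S.biUnion (fun x => univ.filter (fun y : Fin N → Bool =>
      8 * (univ.filter (fun j => x j ≠ y j)).card < N ∨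
      8 * (univ.filter (fun j => x j = y j)).card < N))).card : ℝ) < 2 ^ N := by
      refine lt_of_le_of_lt ?_ h0
      calc ((S.biUnion (fun x => univ.filter (fun y : Fin N → Bool =>
              8 * (univ.filter (fun j => x j ≠ y j)).card < N ∨
              8 * (univ.filter (fun j => x j = y j)).card < N))).card : ℝ)
          ≤ ∑ x ∈ S, ((univ.filter (fun y : Fin N → Bool =>
              8 * (univ.filter (fun j => x j ≠ y j)).card < N ∨
              8 * (univ.filter (fun j => x j = y j)).card < N)).card : ℝ) := by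
            exact_mod_cast Finset.card_biUnion_le
        _ ≤ ∑ x ∈ S, 2 * (73 / 50 : ℝ) ^ N := Finset.sum_le_sum (fun x _ => card_bad_le N x)
        _ = 2 * (m : ℝ) * (73 / 50 : ℝ) ^ N := by
            rw [Finset.sum_const, nsmul_eq_mul, hS]
            ring
    have h3 : (S.biUnion (fun x => univ.filter (fun y : Fin N → Bool =>
      8 * (univ.filter (fun j => x j ≠ y j)).card < N ∨
      8 * (univ.filter (fun j => x j = y j)).card < N))).card <
        (univ : Finset (Fin N → Bool)).card := by
      have : ((univ : Finset (Fin N → Bool)).card : ℝ) = 2 ^ N := by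
        simp
      have h4 := h2
      rw [← this] at h4
      exact_mod_cast h4
    obtain ⟨y, -, hy⟩ := Finset.exists_mem_notMem_of_card_lt_card h3
    have hy' : ∀ x ∈ S, N ≤ 8 * (univ.filter (fun j => x j ≠ y j)).card ∧
        N ≤ 8 * (univ.filter (fun j => x j = y j)).card := by
      intro x hx
      by_contra hcon
      apply hy
      rw [mem_biUnion]
      refine ⟨x, hx, ?_⟩
      rw [mem_filter]
      refine ⟨mem_univ _, ?_⟩
      omega
    have hyS : y ∉ S := by
      intro hyS
      have := (hy' y hyS).1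
      simp at this
      omega
    refine ⟨insert y S, by rw [card_insert_of_notMem hyS, hS], ?_⟩
    intro x hx z hz hxz
    rw [mem_insert] at hx hz
    rcases hx with rfl | hx <;> rcases hz with rfl | hz
    · exact absurd rfl hxz
    · have h5 := hy' z hz
      have e1 : (univ.filter (fun j => x j ≠ z j)) = univ.filter (fun j => z j ≠ x j) := by
        ext j
        simp [eq_comm]
      have e2 : (univ.filter (fun j => x j = z j)) = univ.filter (fun j => z j = x j) := by
        ext j
        simp [eq_comm]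
      rw [e1, e2]
      exact h5
    · exact hy' x hx
    · exact hgood x hx z hz hxz

theorem code_size (q : ℕ) (_hq : 1 ≤ q) :
    2 * (((q + 1 : ℕ) : ℝ) - 1) * (73 / 50 : ℝ) ^ NN q < 2 ^ NN q := by
  have h1 : q < 2 ^ (Nat.log 2 q + 1) := Nat.lt_pow_succ_log_self (by norm_num) q
  have h2 : (q : ℝ) < 2 * 2 ^ Nat.log 2 q := by
    have : (q : ℝ) < 2 ^ (Nat.log 2 q + 1) := by exact_mod_cast h1
    rw [pow_succ] at this
    linarith
  set L := Nat.log 2 q with hL
  have h3 : NN q = 4 * L + 20 := rfl
  have e1 : (73 / 50 : ℝ) ^ NN q = ((73 / 50 : ℝ) ^ 4) ^ L * (73 / 50) ^ 20 := by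
    rw [h3, pow_add, pow_mul]
  have e2 : (2 : ℝ) ^ NN q = (2 ^ 4) ^ L * 2 ^ 20 := by
    rw [h3, pow_add, pow_mul]
  rw [e1, e2]
  push_cast
  have h4 : (2 : ℝ) ^ L * ((73 / 50 : ℝ) ^ 4) ^ L ≤ (2 ^ 4) ^ L := by
    rw [← mul_pow]
    apply pow_le_pow_left₀ (by positivity)
    norm_num
  have h5 : (0 : ℝ) < ((73 / 50 : ℝ) ^ 4) ^ L := by positivity
  have h6 : (0 : ℝ) < 2 ^ L := by positivity
  have h7 : (4 : ℝ) * (73 / 50) ^ 20 < 2 ^ 20 := by norm_num
  calc 2 * ((q : ℝ) + 1 - 1) * (((73 / 50 : ℝ) ^ 4) ^ L * (73 / 50) ^ 20)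
      = (q : ℝ) * (2 * (((73 / 50 : ℝ) ^ 4) ^ L * (73 / 50) ^ 20)) := by ring
    _ ≤ (2 * 2 ^ L) * (2 * (((73 / 50 : ℝ) ^ 4) ^ L * (73 / 50) ^ 20)) :=
        mul_le_mul_of_nonneg_right h2.le (by positivity)
    _ = (2 ^ L * ((73 / 50 : ℝ) ^ 4) ^ L) * (4 * (73 / 50) ^ 20) := by ring
    _ ≤ (2 ^ 4) ^ L * (4 * (73 / 50) ^ 20) := mul_le_mul_of_nonneg_right h4 (by positivity)
    _ < (2 ^ 4) ^ L * 2 ^ 20 := mul_lt_mul_of_pos_left h7 (by positivity)

theorem card_mod (n N : ℕ) (hN : 0 < N) (j : Fin N) :
    (univ.filter (fun k : Fin n => k.val % N = j.val)).card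
      = n / N + if j.val < n % N then 1 else 0 := by
  have h1 : (univ.filter (fun k : Fin n => k.val % N = j.val)).card
      = ((range n).filter (fun k => k % N = j.val)).card := by
    rw [← Finset.card_map Fin.valEmbedding]
    congr 1
    ext k
    simp only [mem_map, mem_filter, mem_univ, true_and, Fin.valEmbedding_apply, mem_range]
    constructor
    · rintro ⟨a, ha, rfl⟩
      exact ⟨a.isLt, ha⟩
    · rintro ⟨h, h'⟩
      exact ⟨⟨k, h⟩, h', rfl⟩
  have h2 : (range n).filter (fun k => k % N = j.val)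
      = (range n).filter (fun k => k ≡ j.val [MOD N]) := by
    ext k
    simp only [mem_filter, Nat.ModEq, Nat.mod_eq_of_lt j.isLt]
  rw [h1, h2, ← Nat.count_eq_card_filter_range, Nat.count_modEq_card _ hN]
  rw [Nat.mod_eq_of_lt j.isLt]

theorem exists_sys : ∃ q₀ : ℕ, ∀ (F : Type) [Field F] [Fintype F] [DecidableEq F],
    q₀ ≤ Fintype.card F → ∃ Y : Sys F (NN (Fintype.card F)), Y.Ok := by
  refine ⟨0, ?_⟩
  intro F _ _ _ _
  set q := Fintype.card F with hq
  have hq1 : 1 ≤ q := Fintype.card_pos
  have hN : 0 < NN q := by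
    unfold NN
    omega
  obtain ⟨S, hS, hgood⟩ := exists_code (NN q) hN (q + 1) (code_size q hq1)
  have hcard : Fintype.card (Option F) = q + 1 := by rw [Fintype.card_option]
  have e : Option F ≃ S := Fintype.equivOfCardEq (by rw [hcard, Fintype.card_coe, hS])
  have e' : Option F ≃ Fin (q + 1) := Fintype.equivFinOfCardEq hcard
  refine ⟨⟨fun d => ⟨(e' d).val % NN q, Nat.mod_lt _ hN⟩, fun d => (e d : Fin (NN q) → Bool)⟩, ?_⟩
  have hB : ∀ j, (Sys.B (⟨fun d => ⟨(e' d).val % NN q, Nat.mod_lt _ hN⟩,
      fun d => (e d : Fin (NN q) → Bool)⟩ : Sys F (NN q)) j).card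
      = (q + 1) / NN q + if j.val < (q + 1) % NN q then 1 else 0 := by
    intro j
    rw [← card_mod (q + 1) (NN q) hN j]
    refine Finset.card_bij (fun d _ => e' d) ?_ ?_ ?_
    · intro d hd
      rw [Sys.B, mem_filter] at hd
      rw [mem_filter]
      refine ⟨mem_univ _, ?_⟩
      have := hd.2
      simp only [Fin.ext_iff] at this
      exact this
    · intro a _ b _ hab
      exact e'.injective hab
    · intro k hk
      refine ⟨e'.symm k, ?_, by simp⟩
      rw [Sys.B, mem_filter]
      refine ⟨mem_univ _, ?_⟩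
      rw [mem_filter] at hk
      simp only [Fin.ext_iff, Equiv.apply_symm_apply]
      exact hk.2
  refine ⟨?_, ?_, ?_⟩
  · intro j
    rw [hB j]
    have h1 := Nat.div_add_mod (q + 1) (NN q)
    have h2 := Nat.mod_lt (q + 1) hN
    have h3 : NN q * ((q + 1) / NN q + 1)
        ≤ NN q * (((q + 1) / NN q + if j.val < (q + 1) % NN q then 1 else 0) + 1) := by
      apply Nat.mul_le_mul_left
      omega
    refine le_trans ?_ h3
    rw [Nat.mul_add, mul_one]
    omega
  · intro j
    rw [hB j]
    have h1 := Nat.div_add_mod (q + 1) (NN q)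
    have h3 : NN q * ((q + 1) / NN q + if j.val < (q + 1) % NN q then 1 else 0)
        ≤ NN q * ((q + 1) / NN q + 1) := by
      apply Nat.mul_le_mul_left
      split_ifs <;> omega
    refine le_trans h3 ?_
    rw [Nat.mul_add, mul_one]
    omega
  · intro i i' a a' hne
    by_cases hi : i = i'
    · subst hi
      have ha : a ≠ a' := fun h => hne (by rw [h])
      have h1 : NN q ≤ 8 * (univ : Finset (Fin (NN q))).card := by
        rw [Finset.card_univ, Fintype.card_fin]
        omega
      refine h1.trans (Nat.mul_le_mul_left 8 (card_le_card ?_))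
      intro j _
      rw [mem_filter]
      refine ⟨mem_univ _, ?_⟩
      show (xor a ((e i : Fin (NN q) → Bool) j)) ≠ (xor a' ((e i : Fin (NN q) → Bool) j))
      revert ha
      cases a <;> cases a' <;> cases (e i : Fin (NN q) → Bool) j <;> simp
    · have hne' : (e i : Fin (NN q) → Bool) ≠ (e i' : Fin (NN q) → Bool) := by
        intro h
        exact hi (e.injective (Subtype.ext h))
      have hg := hgood _ (e i).2 _ (e i').2 hne'
      by_cases ha : a = a'
      · subst ha
        refine hg.1.trans (Nat.mul_le_mul_left 8 (card_le_card ?_))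
        intro j hj
        have hj' := (mem_filter.mp hj).2
        rw [mem_filter]
        refine ⟨mem_univ _, ?_⟩
        show (xor a ((e i : Fin (NN q) → Bool) j)) ≠ (xor a ((e i' : Fin (NN q) → Bool) j))
        revert hj'
        cases a <;> cases (e i : Fin (NN q) → Bool) j <;>
            cases (e i' : Fin (NN q) → Bool) j <;> simp
      · refine hg.2.trans (Nat.mul_le_mul_left 8 (card_le_card ?_))
        intro j hj
        have hj' := (mem_filter.mp hj).2
        rw [mem_filter]
        refine ⟨mem_univ _, ?_⟩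
        show (xor a ((e i : Fin (NN q) → Bool) j)) ≠ (xor a' ((e i' : Fin (NN q) → Bool) j))
        revert ha hj'
        cases a <;> cases a' <;> cases (e i : Fin (NN q) → Bool) j <;>
            cases (e i' : Fin (NN q) → Bool) j <;> simp

end Crest.Agent.H3Ry
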