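import Crest.Agent.H3RyDefs2
import Crest.Agent.H3RyAsy
import Crest.Agent.H3RyCnt
import Crest.Agent.H23RyProb
import Crest.Agent.H23RyKill

/-!
# Ryser project (S0045, S0046): the event `event_LT` (few double rainbow points in `cov A ∩ cov B`)
-/

set_option autoImplicit false
set_option linter.unusedSectionVars false
set_option linter.unusedSimpArgs false

namespace Crest.Agent.H28RyLT
open Finset Crest.Agent.H3Ry Crest.Agent.H23RyProb Crest.Agent.H23RyKill Crest.Agent.H3RyDet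

section
variable {F : Type} [Field F] [Fintype F] [DecidableEq F] {N : ℕ}

/-- threshold for the number of rainbow incidences of group `j` in `T` -/
noncomputable def thr (Y : Sys F N) (T : Finset (F × F)) (j : Fin N) : ℝ :=
  (1 / 4 : ℝ) ^ 2 * (Y.B j).card * (Y.B j).card * T.card / (4 * (Fintype.card F : ℝ) ^ 2)

open Classical in
/-- the groups of `H` with few rainbow incidences in `T` -/
noncomputable def small (Y : Sys F N) (T : Finset (F × F)) (H : Finset (Fin N))
    (ω : Option F × Bool → F) : Finset (Fin N) :=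
  H.filter (fun j => (Rm T (Y.B j) (Y.B j) ω : ℝ) < thr Y T j)

theorem B_lo (Y : Sys F N) (hY : Y.Ok) (hN : 0 < N) (j : Fin N) :
    ((Fintype.card F : ℝ) + 1) / N - 1 ≤ (Y.B j).card := by
  have h := hY.lo j
  have h' : ((Fintype.card F : ℝ) + 1) ≤ N * ((Y.B j).card + 1) := by exact_mod_cast h
  have hN' : (0 : ℝ) < N := by exact_mod_cast hN
  have h2 : ((Fintype.card F : ℝ) + 1) / N ≤ (Y.B j).card + 1 := by
    rw [div_le_iff₀ hN']
    linarith
  linarith

theorem many_small (Y : Sys F N) (hY : Y.Ok) (n₄ : ℕ) (hn₄ : 0 < n₄) (hN : N = 4 * n₄)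
    (h2N : 2 * N ≤ Fintype.card F) (c : ℝ) (hc : 0 < c) (x : ℝ)
    (hx : 2 * (256 * (N : ℝ) ^ 4 / (c * Fintype.card F)) ^ (3 / 4 : ℝ) ≤ x) (hx1 : x ≤ 1)
    (T : Finset (F × F)) (hT : c * (Fintype.card F : ℝ) ^ 2 / N ≤ T.card) (H : Finset (Fin N)) :
    PP (fun ω : Option F × Bool → F =>
        (∀ P, ∀ j ∈ H, (acnt ω (Y.B j) false P : ℝ) ≤ N) ∧ n₄ ≤ (small Y T H ω).card)
      ≤ 4 ^ N * x ^ (((Fintype.card F : ℝ) - N) / 4) := by
  classical
  have hNpos : 0 < N := by omega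
  have hNR : (0 : ℝ) < N := by exact_mod_cast hNpos
  have hN1 : (1 : ℝ) ≤ N := by exact_mod_cast hNpos
  set q : ℝ := (Fintype.card F : ℝ) with hq
  have hqpos : 0 < q := by
    rw [hq]
    exact_mod_cast Fintype.card_pos
  have h2N' : 2 * (N : ℝ) ≤ q := by
    rw [hq]
    exact_mod_cast h2N
  have hTpos : (0 : ℝ) < T.card := lt_of_lt_of_le (by positivity) hT
  have hTne : T.Nonempty := by
    rw [← card_pos]
    exact_mod_cast hTpos
  have hx0 : 0 ≤ x := le_trans (by positivity) hx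
  have hx0' : 0 < x := lt_of_lt_of_le (by positivity) hx
  -- K1 for a set of groups
  have hK : ∀ K ∈ H.powerset.filter (fun K => n₄ ≤ K.card),
      PP (fun ω : Option F × Bool → F =>
        (∀ P, ∀ j ∈ K, (acnt ω (Y.B j) false P : ℝ) ≤ N) ∧
        ∀ j ∈ K, (Rm T (Y.B j) (Y.B j) ω : ℝ) < thr Y T j)
      ≤ 2 ^ N * x ^ ((q - N) / 4) := by
    intro K hK
    rw [mem_filter, mem_powerset] at hK
    have h1 := K1 Y T hTne K (fun j _ => Y.B j) (fun j _ v => Subset.refl _) (1 / 4)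
      (q / (2 * N)) N x (by norm_num) (by norm_num) hN1 (by positivity)
      (by
        rw [div_le_iff₀ (by positivity)]
        nlinarith)
      (by
        intro j _ v
        refine le_trans ?_ (B_lo Y hY hNpos j)
        rw [← hq, div_le_iff₀ (by positivity)]
        field_simp
        linarith)
      (by
        refine le_trans ?_ hx
        have h2 : (1 - 1 / 4 : ℝ) = 3 / 4 := by norm_num
        rw [h2]
        apply mul_le_mul_of_nonneg_left _ (by norm_num)
        apply Real.rpow_le_rpow (by positivity) _ (by norm_num)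
        rw [← hq, div_le_div_iff₀ (by positivity) (by positivity)]
        have h3 : c * q ^ 2 ≤ T.card * N := by
          rw [div_le_iff₀ hNR] at hT
          exact hT
        have h4 : 16 * q ^ 3 * N * (c * q) = 16 * q ^ 2 * N * (c * q ^ 2) := by ring
        rw [h4]
        have h5 : 256 * (N : ℝ) ^ 4 * (1 / 4 * (q / (2 * N)) ^ 2 * T.card)
            = 16 * q ^ 2 * N * (T.card * N) := by
          field_simp
          ring
        rw [h5]
        exact mul_le_mul_of_nonneg_left h3 (by positivity))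
      hx1
    refine le_trans (le_trans (le_of_eq ?_) h1) ?_
    · rfl
    · rw [prod_mul_distrib, prod_const, prod_pow_eq_pow_sum]
      have h2 : (2 : ℝ) ^ K.card ≤ 2 ^ N := by
        apply pow_le_pow_right₀ (by norm_num)
        have := card_le_univ K
        rwa [Fintype.card_fin] at this
      have h3 : x ^ (∑ j ∈ K, min (Y.B j).card (Y.B j).card) ≤ x ^ ((q - N) / 4) := by
        rw [← Real.rpow_natCast]
        apply Real.rpow_le_rpow_of_exponent_ge hx0' hx1
        push_cast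
        have h4 : ∑ j ∈ K, (((q + 1) / N - 1 : ℝ)) ≤ ∑ j ∈ K, min ((Y.B j).card : ℝ) ((Y.B j).card : ℝ) := by
          apply sum_le_sum
          intro j _
          rw [min_self]
          exact B_lo Y hY hNpos j
        refine le_trans ?_ h4
        rw [sum_const, nsmul_eq_mul]
        have h5 : (n₄ : ℝ) ≤ K.card := by exact_mod_cast hK.2
        have h6 : (N : ℝ) = 4 * n₄ := by
          rw [hN]
          push_cast
          ring
        have h7 : 0 ≤ (q + 1) / N - 1 := by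
          rw [sub_nonneg, le_div_iff₀ hNR]
          linarith
        calc (q - N) / 4 ≤ (n₄ : ℝ) * ((q + 1) / N - 1) := by
              have hn : (n₄ : ℝ) = N / 4 := by linarith
              rw [hn]
              have : (N : ℝ) / 4 * ((q + 1) / N - 1) = (q + 1 - N) / 4 := by
                field_simp
              rw [this]
              linarith
          _ ≤ _ := mul_le_mul_of_nonneg_right h5 h7
      exact mul_le_mul h2 h3 (by positivity) (by positivity)
  -- union over the sets of groups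
  have hsub : PP (fun ω : Option F × Bool → F =>
        (∀ P, ∀ j ∈ H, (acnt ω (Y.B j) false P : ℝ) ≤ N) ∧ n₄ ≤ (small Y T H ω).card)
      ≤ PP (fun ω : Option F × Bool → F => ∃ K ∈ H.powerset.filter (fun K => n₄ ≤ K.card),
        (∀ P, ∀ j ∈ K, (acnt ω (Y.B j) false P : ℝ) ≤ N) ∧
        ∀ j ∈ K, (Rm T (Y.B j) (Y.B j) ω : ℝ) < thr Y T j) := by
    apply PP_mono
    rintro ω ⟨h1, h2⟩
    refine ⟨small Y T H ω, ?_, ?_, ?_⟩
    · rw [mem_filter, mem_powerset]
      exact ⟨filter_subset _ _, h2⟩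
    · intro P j hj
      exact h1 P j (mem_filter.mp hj).1
    · intro j hj
      exact (mem_filter.mp hj).2
  refine hsub.trans ((PP_exists_le _ _).trans ?_)
  refine (sum_le_sum hK).trans ?_
  rw [sum_const, nsmul_eq_mul]
  have h1 : ((H.powerset.filter (fun K => n₄ ≤ K.card)).card : ℝ) ≤ 2 ^ N := by
    have h2 : (H.powerset.filter (fun K => n₄ ≤ K.card)).card ≤ 2 ^ N := by
      refine (card_filter_le _ _).trans ?_
      rw [card_powerset]
      apply Nat.pow_le_pow_right (by norm_num)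
      have := card_le_univ H
      rwa [Fintype.card_fin] at this
    exact_mod_cast h2
  have h4 : (4 : ℝ) ^ N = 2 ^ N * 2 ^ N := by
    rw [← mul_pow]
    norm_num
  rw [h4, mul_assoc]
  exact mul_le_mul_of_nonneg_right h1 (by positivity)


/-- first half of the groups -/
def Hf (N : ℕ) : Finset (Fin N) := univ.filter (fun j : Fin N => 2 * j.val < N)

/-- second half of the groups -/
def Hs (N : ℕ) : Finset (Fin N) := univ.filter (fun j : Fin N => N ≤ 2 * j.val)

theorem card_Hf (n₄ : ℕ) (hN : N = 4 * n₄) : (Hf N).card = 2 * n₄ := by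
  subst hN
  unfold Hf
  have : (univ.filter (fun j : Fin (4 * n₄) => 2 * j.val < 4 * n₄))
      = (univ.filter (fun j : Fin (4 * n₄) => j.val < 2 * n₄)) := by
    ext j
    simp only [mem_filter, mem_univ, true_and]
    omega
  rw [this, Fin.card_filter_val_lt]
  omega

theorem card_Hs (n₄ : ℕ) (hN : N = 4 * n₄) : (Hs N).card = 2 * n₄ := by
  have h1 : (Hf N).card + (Hs N).card = N := by
    unfold Hf Hs
    have h2 := Finset.card_filter_add_card_filter_not (s := (univ : Finset (Fin N)))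
      (fun j : Fin N => 2 * j.val < N)
    rw [card_univ, Fintype.card_fin] at h2
    have h3 : (univ.filter (fun j : Fin N => ¬ 2 * j.val < N))
        = (univ.filter (fun j : Fin N => N ≤ 2 * j.val)) := by
      ext j
      simp only [mem_filter, mem_univ, true_and]
      omega
    rw [h3] at h2
    exact h2
  have h4 := card_Hf (N := N) n₄ hN
  omega

/-- if few groups are small, there are many rainbow incidences -/
theorem sum_ge (Y : Sys F N) (hY : Y.Ok) (n₄ : ℕ) (hn₄ : 0 < n₄) (hN : N = 4 * n₄)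
    (h2N : 2 * N ≤ Fintype.card F) (T : Finset (F × F)) (H : Finset (Fin N))
    (hH : H.card = 2 * n₄) (ω : Option F × Bool → F) (hs : (small Y T H ω).card < n₄) :
    (T.card : ℝ) / (1024 * N) ≤
      ∑ P ∈ T, ((∑ j ∈ H, acnt ω (Y.B j) false P * acnt ω (Y.B j) true P : ℕ) : ℝ) := by
  classical
  have hNpos : 0 < N := by omega
  have hNR : (0 : ℝ) < N := by exact_mod_cast hNpos
  set q : ℝ := (Fintype.card F : ℝ) with hq
  have hqpos : 0 < q := by
    rw [hq]
    exact_mod_cast Fintype.card_pos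
  have h2N' : 2 * (N : ℝ) ≤ q := by
    rw [hq]
    exact_mod_cast h2N
  have h1 : ∑ P ∈ T, ((∑ j ∈ H, acnt ω (Y.B j) false P * acnt ω (Y.B j) true P : ℕ) : ℝ)
      = ∑ j ∈ H, (Rm T (Y.B j) (Y.B j) ω : ℝ) := by
    unfold Rm
    push_cast
    rw [sum_comm]
  rw [h1]
  set G : Finset (Fin N) := H.filter (fun j => ¬ (Rm T (Y.B j) (Y.B j) ω : ℝ) < thr Y T j) with hG
  have hGc : (n₄ : ℝ) ≤ G.card := by
    have h2 := Finset.card_filter_add_card_filter_not (s := H)
      (fun j => (Rm T (Y.B j) (Y.B j) ω : ℝ) < thr Y T j)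
    have h3 : (small Y T H ω).card
        = (H.filter (fun j => (Rm T (Y.B j) (Y.B j) ω : ℝ) < thr Y T j)).card := by
      unfold small
      congr!
    have h4 : n₄ ≤ G.card := by
      rw [hG]
      omega
    exact_mod_cast h4
  have hthr : ∀ j, (T.card : ℝ) / (256 * N ^ 2) ≤ thr Y T j := by
    intro j
    have h2 : q / (2 * N) ≤ (Y.B j).card := by
      refine le_trans ?_ (B_lo Y hY hNpos j)
      rw [← hq, div_le_iff₀ (by positivity)]
      field_simp
      linarith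
    unfold thr
    rw [← hq]
    have h3 : (T.card : ℝ) / (256 * N ^ 2)
        = (1 / 4 : ℝ) ^ 2 * (q / (2 * N)) * (q / (2 * N)) * T.card / (4 * q ^ 2) := by
      field_simp
      ring
    rw [h3]
    gcongr
  calc (T.card : ℝ) / (1024 * N) = n₄ * ((T.card : ℝ) / (256 * N ^ 2)) := by
        have hn : (n₄ : ℝ) = N / 4 := by
          rw [hN]
          push_cast
          ring
        rw [hn]
        field_simp
        ring
    _ ≤ G.card * ((T.card : ℝ) / (256 * N ^ 2)) := by gcongr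
    _ = ∑ j ∈ G, (T.card : ℝ) / (256 * N ^ 2) := by rw [sum_const, nsmul_eq_mul]
    _ ≤ ∑ j ∈ G, (Rm T (Y.B j) (Y.B j) ω : ℝ) := by
        apply sum_le_sum
        intro j hj
        exact (hthr j).trans (not_lt.mp (mem_filter.mp hj).2)
    _ ≤ ∑ j ∈ H, (Rm T (Y.B j) (Y.B j) ω : ℝ) := by
        apply sum_le_sum_of_subset_of_nonneg (filter_subset _ _)
        intro j _ _
        exact Nat.cast_nonneg _

/-- Cauchy-Schwarz -/
theorem cs (T : Finset (F × F)) (w : F × F → ℕ) :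
    (∑ P ∈ T, (w P : ℝ)) ^ 2 ≤ (T.filter (fun P => 0 < w P)).card * ∑ P ∈ T, (w P : ℝ) ^ 2 := by
  have h1 : ∑ P ∈ T, (w P : ℝ) = ∑ P ∈ T.filter (fun P => 0 < w P), (w P : ℝ) := by
    rw [sum_filter]
    apply sum_congr rfl
    intro P _
    split_ifs with h
    · rfl
    · have : w P = 0 := by omega
      simp [this]
  rw [h1]
  refine (sq_sum_le_card_mul_sum_sq).trans ?_
  apply mul_le_mul_of_nonneg_left _ (Nat.cast_nonneg _)
  apply sum_le_sum_of_subset_of_nonneg (filter_subset _ _)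
  intro P _ _
  positivity

theorem rb_iff (Y : Sys F N) (ω : Option F × Bool → F) (j : Fin N) (P : F × F) :
    0 < acnt ω (Y.B j) false P * acnt ω (Y.B j) true P ↔ Y.rb j (hs ω P) := by
  have h : ∀ v : Bool, 0 < acnt ω (Y.B j) v P ↔ ∃ d, Y.grp d = j ∧ (d, v) ∈ hs ω P := by
    intro v
    unfold acnt
    rw [card_pos]
    constructor
    · rintro ⟨d, hd⟩
      obtain ⟨h1, h2⟩ := mem_filter.mp hd
      refine ⟨d, (mem_filter.mp h1).2, ?_⟩
      unfold hs
      rw [mem_filter]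
      exact ⟨mem_univ _, h2⟩
    · rintro ⟨d, h1, h2⟩
      refine ⟨d, ?_⟩
      rw [mem_filter]
      refine ⟨?_, (mem_filter.mp h2).2⟩
      unfold Sys.B
      rw [mem_filter]
      exact ⟨mem_univ _, h1⟩
  unfold Sys.rb
  rw [← h false, ← h true]
  constructor
  · intro h1
    exact ⟨Nat.pos_of_ne_zero (fun h0 => by rw [h0] at h1; simp at h1),
      Nat.pos_of_ne_zero (fun h0 => by rw [h0] at h1; simp at h1)⟩
  · rintro ⟨h1, h2⟩
    exact Nat.mul_pos h1 h2

open Classical in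
/-- the points of `T` which are rainbow in the first half -/
noncomputable def T₁ (Y : Sys F N) (T : Finset (F × F)) (ω : Option F × Bool → F) :
    Finset (F × F) :=
  T.filter (fun P => ∃ j : Fin N, 2 * j.val < N ∧ Y.rb j (hs ω P))

open Classical in
theorem det (Y : Sys F N) (hY : Y.Ok) (n₄ : ℕ) (hn₄ : 0 < n₄) (hN : N = 4 * n₄)
    (h2N : 2 * N ≤ Fintype.card F) (τ C₀ c₃ c₂ : ℝ) (hτ : 0 < τ) (hC₀ : 0 < C₀)
    (hc₃ : c₃ = τ ^ 2 / (2 ^ 20 * C₀)) (hc₂ : c₂ = c₃ ^ 2 / (2 ^ 20 * C₀))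
    (T : Finset (F × F)) (hT : τ * (Fintype.card F : ℝ) ^ 2 ≤ T.card)
    (ω : Option F × Bool → F)
    (hM1 : ∑ P : F × F,
        ((∑ j : Fin N, acnt ω (Y.B j) false P * acnt ω (Y.B j) true P : ℕ) : ℝ) ^ 2
        ≤ C₀ * (Fintype.card F : ℝ) ^ 2 / N)
    (hM2 : ∑ P : F × F,
        (if ∃ j : Fin N, 2 * j.val < N ∧ Y.rb j (hs ω P) then
        ((∑ j ∈ univ.filter (fun j : Fin N => N ≤ 2 * j.val),
          acnt ω (Y.B j) false P * acnt ω (Y.B j) true P : ℕ) : ℝ) ^ 2 else 0)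
        ≤ C₀ * (Fintype.card F : ℝ) ^ 2 / (N : ℝ) ^ 2)
    (h1 : (small Y T (Hf N) ω).card < n₄)
    (h2 : c₃ * (Fintype.card F : ℝ) ^ 2 / N ≤ (T₁ Y T ω).card →
      (small Y (T₁ Y T ω) (Hs N) ω).card < n₄) :
    c₂ * (Fintype.card F : ℝ) ^ 2 / (N : ℝ) ^ 2 ≤
      ((T.filter (fun P => Y.s12 (hs ω P))).card : ℝ) := by
  have hNpos : 0 < N := by omega
  have hNR : (0 : ℝ) < N := by exact_mod_cast hNpos
  set q : ℝ := (Fintype.card F : ℝ) with hq
  have hqpos : 0 < q := by
    rw [hq]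
    exact_mod_cast Fintype.card_pos
  have hc₃pos : 0 < c₃ := by
    rw [hc₃]
    positivity
  -- first step
  have hstep1 : c₃ * q ^ 2 / N ≤ (T₁ Y T ω).card := by
    have a1 := sum_ge Y hY n₄ hn₄ hN h2N T (Hf N) (card_Hf n₄ hN) ω h1
    have a2 := cs T (fun P => ∑ j ∈ Hf N, acnt ω (Y.B j) false P * acnt ω (Y.B j) true P)
    have a3 : T.filter (fun P => 0 < ∑ j ∈ Hf N, acnt ω (Y.B j) false P * acnt ω (Y.B j) true P)
        = T₁ Y T ω := by
      unfold T₁
      apply filter_congr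
      intro P _
      constructor
      · intro h
        by_contra hcon
        push Not at hcon
        have : ∑ j ∈ Hf N, acnt ω (Y.B j) false P * acnt ω (Y.B j) true P = 0 := by
          apply sum_eq_zero
          intro j hj
          by_contra hne
          exact hcon j (mem_filter.mp hj).2 ((rb_iff Y ω j P).mp (Nat.pos_of_ne_zero hne))
        omega
      · rintro ⟨j, hj, hrb⟩
        have b1 := (rb_iff Y ω j P).mpr hrb
        have b2 : j ∈ Hf N := by
          unfold Hf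
          rw [mem_filter]
          exact ⟨mem_univ _, hj⟩
        exact lt_of_lt_of_le b1 (single_le_sum
          (f := fun j => acnt ω (Y.B j) false P * acnt ω (Y.B j) true P)
          (fun _ _ => Nat.zero_le _) b2)
    rw [a3] at a2
    have a4 : ∑ P ∈ T, ((∑ j ∈ Hf N, acnt ω (Y.B j) false P * acnt ω (Y.B j) true P : ℕ) : ℝ) ^ 2
        ≤ C₀ * q ^ 2 / N := by
      refine le_trans ?_ hM1
      refine le_trans (sum_le_sum_of_subset_of_nonneg (subset_univ T) (fun P _ _ => by positivity)) ?_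
      apply sum_le_sum
      intro P _
      apply pow_le_pow_left₀ (Nat.cast_nonneg _)
      exact_mod_cast sum_le_sum_of_subset (subset_univ (Hf N))
    have a5 : (T.card / (1024 * N) : ℝ) ^ 2 ≤ (T₁ Y T ω).card * (C₀ * q ^ 2 / N) := by
      calc (T.card / (1024 * N) : ℝ) ^ 2 ≤ _ := pow_le_pow_left₀ (by positivity) a1 2
        _ ≤ _ := a2
        _ ≤ _ := mul_le_mul_of_nonneg_left a4 (Nat.cast_nonneg _)
    have a6 : (τ * q ^ 2 / (1024 * N)) ^ 2 ≤ (T₁ Y T ω).card * (C₀ * q ^ 2 / N) := by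
      refine le_trans ?_ a5
      gcongr
    have a7 : (τ * q ^ 2 / (1024 * N)) ^ 2 = (c₃ * q ^ 2 / N) * (C₀ * q ^ 2 / N) := by
      rw [hc₃]
      field_simp
      norm_num
    rw [a7] at a6
    exact le_of_mul_le_mul_right a6 (by positivity)
  -- second step
  have a1 := sum_ge Y hY n₄ hn₄ hN h2N (T₁ Y T ω) (Hs N) (card_Hs n₄ hN) ω (h2 hstep1)
  have a2 := cs (T₁ Y T ω) (fun P => ∑ j ∈ Hs N, acnt ω (Y.B j) false P * acnt ω (Y.B j) true P)
  have a3 : (T₁ Y T ω).filter
      (fun P => 0 < ∑ j ∈ Hs N, acnt ω (Y.B j) false P * acnt ω (Y.B j) true P)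
      ⊆ T.filter (fun P => Y.s12 (hs ω P)) := by
    intro P hP
    rw [mem_filter] at hP
    obtain ⟨hP1, hP2⟩ := hP
    unfold T₁ at hP1
    rw [mem_filter] at hP1
    rw [mem_filter]
    refine ⟨hP1.1, hP1.2, ?_⟩
    by_contra hcon
    push Not at hcon
    have : ∑ j ∈ Hs N, acnt ω (Y.B j) false P * acnt ω (Y.B j) true P = 0 := by
      apply sum_eq_zero
      intro j hj
      by_contra hne
      exact hcon j (mem_filter.mp hj).2 ((rb_iff Y ω j P).mp (Nat.pos_of_ne_zero hne))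
    omega
  have a4 : ∑ P ∈ T₁ Y T ω,
      ((∑ j ∈ Hs N, acnt ω (Y.B j) false P * acnt ω (Y.B j) true P : ℕ) : ℝ) ^ 2
        ≤ C₀ * q ^ 2 / (N : ℝ) ^ 2 := by
    refine le_trans ?_ hM2
    rw [← sum_filter]
    apply sum_le_sum_of_subset_of_nonneg
    · intro P hP
      unfold T₁ at hP
      rw [mem_filter] at hP ⊢
      exact ⟨mem_univ _, hP.2⟩
    · intro P _ _
      positivity
  have a5 : ((T₁ Y T ω).card / (1024 * N) : ℝ) ^ 2
      ≤ (T.filter (fun P => Y.s12 (hs ω P))).card * (C₀ * q ^ 2 / (N : ℝ) ^ 2) := by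
    calc ((T₁ Y T ω).card / (1024 * N) : ℝ) ^ 2 ≤ _ := pow_le_pow_left₀ (by positivity) a1 2
      _ ≤ _ := a2
      _ ≤ (T.filter (fun P => Y.s12 (hs ω P))).card * (C₀ * q ^ 2 / (N : ℝ) ^ 2) := by
          apply mul_le_mul _ a4 (sum_nonneg (fun P _ => by positivity)) (Nat.cast_nonneg _)
          exact_mod_cast card_le_card a3
  have a6 : ((c₃ * q ^ 2 / N) / (1024 * N)) ^ 2
      ≤ (T.filter (fun P => Y.s12 (hs ω P))).card * (C₀ * q ^ 2 / (N : ℝ) ^ 2) := by
    refine le_trans ?_ a5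
    gcongr
  have a7 : ((c₃ * q ^ 2 / N) / (1024 * N)) ^ 2
      = (c₂ * q ^ 2 / (N : ℝ) ^ 2) * (C₀ * q ^ 2 / (N : ℝ) ^ 2) := by
    rw [hc₂]
    field_simp
    norm_num
  rw [a7] at a6
  exact le_of_mul_le_mul_right a6 (by positivity)


open Classical in
/-- the load and the moment conditions -/
def LM (Y : Sys F N) (C₀ : ℝ) (ω : Option F × Bool → F) : Prop :=
  (∀ P, (hs ω P).card ≤ N) ∧
    ¬ (C₀ * (Fintype.card F : ℝ) ^ 2 / N < ∑ P : F × F,
        ((∑ j : Fin N, acnt ω (Y.B j) false P * acnt ω (Y.B j) true P : ℕ) : ℝ) ^ 2 ∨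
      C₀ * (Fintype.card F : ℝ) ^ 2 / (N : ℝ) ^ 2 < ∑ P : F × F,
        (if ∃ j : Fin N, 2 * j.val < N ∧ Y.rb j (hs ω P) then
        ((∑ j ∈ univ.filter (fun j : Fin N => N ≤ 2 * j.val),
          acnt ω (Y.B j) false P * acnt ω (Y.B j) true P : ℕ) : ℝ) ^ 2 else 0))

theorem acnt_le_load (ω : Option F × Bool → F) (h : ∀ P, (hs ω P).card ≤ N)
    (I : Finset (Option F)) (P : F × F) : (acnt ω I false P : ℝ) ≤ N := by
  have h1 := acnt_le_hs ω ∅ I false (fun d _ => by simp) P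
  rw [sdiff_empty] at h1
  exact_mod_cast h1.trans (h P)

open Classical in
theorem fixed_T (Y : Sys F N) (hY : Y.Ok) (n₄ : ℕ) (hn₄ : 0 < n₄) (hN : N = 4 * n₄)
    (h2N : 2 * N ≤ Fintype.card F) (τ C₀ c₃ c₂ c x : ℝ) (hτ : 0 < τ) (hC₀ : 0 < C₀)
    (hc₃ : c₃ = τ ^ 2 / (2 ^ 20 * C₀)) (hc₂ : c₂ = c₃ ^ 2 / (2 ^ 20 * C₀))
    (hc : c = min τ c₃)
    (hx : 2 * (256 * (N : ℝ) ^ 4 / (c * Fintype.card F)) ^ (3 / 4 : ℝ) ≤ x) (hx1 : x ≤ 1)
    (T : Finset (F × F)) (hT : τ * (Fintype.card F : ℝ) ^ 2 ≤ T.card) :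
    PP (fun ω : Option F × Bool → F => LM Y C₀ ω ∧
      ((T.filter (fun P => Y.s12 (hs ω P))).card : ℝ) <
        c₂ * (Fintype.card F : ℝ) ^ 2 / (N : ℝ) ^ 2)
      ≤ 2 * (4 ^ N * x ^ (((Fintype.card F : ℝ) - N) / 4)) := by
  have hNpos : 0 < N := by omega
  have hNR : (0 : ℝ) < N := by exact_mod_cast hNpos
  have hN1 : (1 : ℝ) ≤ N := by exact_mod_cast hNpos
  set q : ℝ := (Fintype.card F : ℝ) with hq
  have hqpos : 0 < q := by
    rw [hq]
    exact_mod_cast Fintype.card_pos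
  have hc₃pos : 0 < c₃ := by
    rw [hc₃]
    positivity
  have hcpos : 0 < c := by
    rw [hc]
    exact lt_min hτ hc₃pos
  have hcτ : c ≤ τ := by
    rw [hc]
    exact min_le_left _ _
  have hcc₃ : c ≤ c₃ := by
    rw [hc]
    exact min_le_right _ _
  have hx0 : 0 ≤ x := le_trans (by positivity) hx
  set E1 : (Option F × Bool → F) → Prop := fun ω =>
    (∀ P, ∀ j ∈ Hf N, (acnt ω (Y.B j) false P : ℝ) ≤ N) ∧ n₄ ≤ (small Y T (Hf N) ω).card with hE1
  set E2 : (Option F × Bool → F) → Prop := fun ω =>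
    (∀ P, ∀ j ∈ Hs N, (acnt ω (Y.B j) false P : ℝ) ≤ N) ∧ c₃ * q ^ 2 / N ≤ (T₁ Y T ω).card ∧
      n₄ ≤ (small Y (T₁ Y T ω) (Hs N) ω).card with hE2
  have hsplit : PP (fun ω : Option F × Bool → F => LM Y C₀ ω ∧
      ((T.filter (fun P => Y.s12 (hs ω P))).card : ℝ) < c₂ * q ^ 2 / (N : ℝ) ^ 2)
      ≤ PP (fun ω => E1 ω ∨ E2 ω) := by
    apply PP_mono
    rintro ω ⟨⟨hload, hM⟩, hlt⟩
    push Not at hM
    by_contra hcon
    rw [not_or] at hcon
    obtain ⟨hc1, hc2⟩ := hcon
    have hd := det Y hY n₄ hn₄ hN h2N τ C₀ c₃ c₂ hτ hC₀ hc₃ hc₂ T hT ω hM.1 hM.2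
      (by
        by_contra hcc
        push Not at hcc
        exact hc1 ⟨fun P j _ => acnt_le_load ω hload _ P, hcc⟩)
      (by
        intro h3
        by_contra hcc
        push Not at hcc
        exact hc2 ⟨fun P j _ => acnt_le_load ω hload _ P, h3, hcc⟩)
    rw [← hq] at hd
    linarith
  have hP1 : PP E1 ≤ 4 ^ N * x ^ ((q - N) / 4) := by
    refine many_small Y hY n₄ hn₄ hN h2N c hcpos x hx hx1 T ?_ (Hf N)
    rw [← hq]
    calc c * q ^ 2 / N ≤ c * q ^ 2 / 1 := by gcongr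
      _ = c * q ^ 2 := by rw [div_one]
      _ ≤ τ * q ^ 2 := by gcongr
      _ ≤ _ := hT
  have hP2 : PP E2 ≤ 4 ^ N * x ^ ((q - N) / 4) := by
    apply PP_le_of_merge (univ.filter (fun κ : Option F × Bool => 2 * (Y.grp κ.1).val < N))
    intro a
    set s := univ.filter (fun κ : Option F × Bool => 2 * (Y.grp κ.1).val < N) with hs'
    have hm1 : ∀ b : Option F × Bool → F, ∀ κ : Option F × Bool, 2 * (Y.grp κ.1).val < N →
        merge s a b κ = a κ := by
      intro b κ hκ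
      unfold merge
      rw [if_pos]
      rw [hs', mem_filter]
      exact ⟨mem_univ _, hκ⟩
    have hm2 : ∀ b : Option F × Bool → F, ∀ κ : Option F × Bool, N ≤ 2 * (Y.grp κ.1).val →
        merge s a b κ = b κ := by
      intro b κ hκ
      unfold merge
      rw [if_neg]
      rw [hs', mem_filter]
      rintro ⟨_, h⟩
      omega
    have hmem : ∀ b : Option F × Bool → F, ∀ P, ∀ κ : Option F × Bool, 2 * (Y.grp κ.1).val < N →
        (κ ∈ hs (merge s a b) P ↔ κ ∈ hs a P) := by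
      intro b P κ hκ
      unfold hs
      rw [mem_filter, mem_filter, hm1 b κ hκ]
    have hT₁ : ∀ b, T₁ Y T (merge s a b) = T₁ Y T a := by
      intro b
      unfold T₁
      apply filter_congr
      intro P _
      apply exists_congr
      intro j
      apply and_congr_right
      intro hj
      unfold Sys.rb
      apply and_congr
      · apply exists_congr
        intro d
        apply and_congr_right
        intro hd
        exact hmem b P (d, false) (by simp only; rw [hd]; exact hj)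
      · apply exists_congr
        intro d
        apply and_congr_right
        intro hd
        exact hmem b P (d, true) (by simp only; rw [hd]; exact hj)
    have hgrp : ∀ j ∈ Hs N, ∀ d ∈ Y.B j, ∀ v : Bool, N ≤ 2 * (Y.grp ((d, v) : Option F × Bool).1).val := by
      intro j hj d hd v
      unfold Sys.B at hd
      rw [mem_filter] at hd
      simp only
      rw [hd.2]
      exact (mem_filter.mp hj).2
    have hac : ∀ b, ∀ j ∈ Hs N, ∀ P, acnt (merge s a b) (Y.B j) false P = acnt b (Y.B j) false P := by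
      intro b j hj P
      exact acnt_congr (fun d hd => hm2 b _ (hgrp j hj d hd false)) P
    have hRm : ∀ b, ∀ j ∈ Hs N, ∀ T', Rm T' (Y.B j) (Y.B j) (merge s a b) = Rm T' (Y.B j) (Y.B j) b := by
      intro b j hj T'
      exact Rm_congr (fun d hd => hm2 b _ (hgrp j hj d hd false))
        (fun d hd => hm2 b _ (hgrp j hj d hd true))
    have hsm : ∀ b T', small Y T' (Hs N) (merge s a b) = small Y T' (Hs N) b := by
      intro b T'
      unfold small
      apply filter_congr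
      intro j hj
      rw [hRm b j hj T']
    by_cases hbig : c₃ * q ^ 2 / N ≤ (T₁ Y T a).card
    · have h1 := many_small Y hY n₄ hn₄ hN h2N c hcpos x hx hx1 (T₁ Y T a) (by
        rw [← hq]
        refine le_trans ?_ hbig
        gcongr) (Hs N)
      refine le_trans ?_ h1
      apply PP_mono
      rintro b ⟨hb1, -, hb3⟩
      rw [hT₁ b, hsm b] at hb3
      refine ⟨fun P j hj => ?_, hb3⟩
      rw [← hac b j hj P]
      exact hb1 P j hj
    · have h1 : PP (fun b => E2 (merge s a b)) = 0 := by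
        rw [← PP_false (ι := Option F × Bool) (α := F)]
        apply PP_congr
        intro b
        constructor
        · rintro ⟨-, hb2, -⟩
          rw [hT₁ b] at hb2
          exact hbig hb2
        · intro h
          exact h.elim
      rw [h1]
      positivity
  have h3 := PP_or_le E1 E2
  linarith

end

theorem num (c : ℝ) (hc : 0 < c) : ∃ q₀ : ℕ, ∀ q : ℕ, q₀ ≤ q →
    2 * (256 * (NN q : ℝ) ^ 4 / (c * q)) ^ (3 / 4 : ℝ) ≤ 1 ∧ 2 * NN q ≤ q ∧
    ∀ k : ℕ, (k : ℝ) ≤ q / 50 →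
    ((((q : ℝ) + 1) * q + 1) ^ k) ^ 2 * (2 * (4 ^ (NN q) *
      (2 * (256 * (NN q : ℝ) ^ 4 / (c * q)) ^ (3 / 4 : ℝ)) ^ (((q : ℝ) - NN q) / 4))) ≤ 1 / 50 := by
  set κ : ℝ := Real.log 2 + 3 / 4 * Real.log (256 / c) with hκ
  obtain ⟨q₁, hq₁⟩ := log_NN_le (60 + 20 * |κ|)
  obtain ⟨q₂, hq₂⟩ := NN_pow_le 1 100 1 one_pos
  refine ⟨max (max q₁ q₂) 1, fun q hq => ?_⟩
  have h1 := hq₁ q (le_trans (le_trans (le_max_left _ _) (le_max_left _ _)) hq)
  have h2 := hq₂ q (le_trans (le_trans (le_max_right _ _) (le_max_left _ _)) hq)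
  rw [Real.rpow_one, pow_one] at h2
  have hq1 : 1 ≤ q := le_trans (le_max_right _ _) hq
  have hN20 : (20 : ℝ) ≤ NN q := by exact_mod_cast twenty_le_NN q
  set N : ℝ := (NN q : ℝ) with hN
  have hqR : (2000 : ℝ) ≤ q := by linarith
  have hqpos : (0 : ℝ) < q := by linarith
  have hNpos : (0 : ℝ) < N := by linarith
  set l := Real.log q with hl
  set L := Real.log N with hL
  have hL0 : 0 ≤ L := Real.log_nonneg (by linarith)
  have hκabs := le_abs_self κ
  have hκ0 := abs_nonneg κ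
  have h3 : κ + 3 * L ≤ l / 20 := by nlinarith
  have hl60 : 60 ≤ l := by nlinarith
  set x : ℝ := 2 * (256 * N ^ 4 / (c * q)) ^ (3 / 4 : ℝ) with hx
  have hxpos : 0 < x := by positivity
  have hlogx : Real.log x = κ + 3 * L - 3 / 4 * l := by
    rw [hx, Real.log_mul (by norm_num) (by positivity), Real.log_rpow (by positivity)]
    have e1 : 256 * N ^ 4 / (c * q) = 256 / c * N ^ 4 / q := by
      field_simp
    rw [e1, Real.log_div (by positivity) (by positivity),
      Real.log_mul (by positivity) (by positivity), Real.log_pow]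
    rw [hκ]
    push_cast
    ring
  have hlogx' : Real.log x ≤ -(7 / 10) * l := by
    rw [hlogx]
    linarith
  have hx1 : x ≤ 1 := by
    by_contra hcon
    push Not at hcon
    have := Real.log_pos hcon
    linarith
  refine ⟨hx1, ?_, ?_⟩
  · have : 2 * (NN q : ℝ) ≤ q := by
      rw [← hN]
      linarith
    exact_mod_cast this
  · intro k hk
    set B : ℝ := ((((q : ℝ) + 1) * q + 1) ^ k) ^ 2 * (2 * (4 ^ (NN q) * x ^ (((q : ℝ) - N) / 4)))
      with hB
    have hBpos : 0 < B := by positivity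
    have hlogn : Real.log (((q : ℝ) + 1) * q + 1) ≤ 3 * l := by
      have e1 : ((q : ℝ) + 1) * q + 1 ≤ (q : ℝ) ^ 3 := by
        nlinarith [mul_pos hqpos hqpos, mul_le_mul_of_nonneg_right hqR (sq_nonneg (q : ℝ))]
      have e2 := Real.log_le_log (by positivity) e1
      rw [Real.log_pow] at e2
      push_cast at e2
      exact e2
    have hlogn0 : 0 ≤ Real.log (((q : ℝ) + 1) * q + 1) := Real.log_nonneg (by nlinarith)
    have hlog2 : Real.log 2 < 0.6931471808 := Real.log_two_lt_d9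
    have hlog4 : Real.log 4 = 2 * Real.log 2 := by
      rw [show (4 : ℝ) = 2 ^ 2 by norm_num, Real.log_pow]
      push_cast
      ring
    have hlogB : Real.log B = 2 * (k * Real.log (((q : ℝ) + 1) * q + 1))
        + (Real.log 2 + (N * Real.log 4 + ((q : ℝ) - N) / 4 * Real.log x)) := by
      rw [hB, Real.log_mul (by positivity) (by positivity), Real.log_pow, Real.log_pow,
        Real.log_mul (by norm_num) (by positivity), Real.log_mul (by positivity) (by positivity),
        Real.log_pow, Real.log_rpow hxpos]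
      push_cast
      ring
    have e1 : (k : ℝ) * Real.log (((q : ℝ) + 1) * q + 1) ≤ (q / 50) * (3 * l) := by
      apply mul_le_mul hk hlogn hlogn0 (by positivity)
    have e2 : ((q : ℝ) - N) / 4 * Real.log x ≤ ((q : ℝ) * (99 / 400)) * (-(7 / 10) * l) := by
      have f1 : (q : ℝ) * (99 / 400) ≤ ((q : ℝ) - N) / 4 := by linarith
      have f2 : Real.log x ≤ 0 := by nlinarith
      calc ((q : ℝ) - N) / 4 * Real.log x ≤ ((q : ℝ) * (99 / 400)) * Real.log x :=
            mul_le_mul_of_nonpos_right f1 f2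
        _ ≤ _ := mul_le_mul_of_nonneg_left hlogx' (by positivity)
    have e3 : N * Real.log 4 ≤ (q / 100) * 1.4 := by
      rw [hlog4]
      apply mul_le_mul (by linarith) (by linarith) _ (by positivity)
      have := Real.log_nonneg (show (1 : ℝ) ≤ 2 by norm_num)
      linarith
    have hlogB' : Real.log B ≤ -49 := by
      rw [hlogB]
      nlinarith [mul_le_mul_of_nonneg_left hl60 hqpos.le]
    have hfin : B ≤ Real.exp (-49) := by
      rw [← Real.log_le_iff_le_exp hBpos]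
      exact hlogB'
    refine hfin.trans ?_
    rw [Real.exp_neg]
    rw [inv_eq_one_div, div_le_div_iff_of_pos_left one_pos (Real.exp_pos _) (by norm_num)]
    have := Real.add_one_le_exp (49 : ℝ)
    linarith

open Classical in
theorem event_LT (τ C₀ : ℝ) (hτ : 0 < τ) (hC₀ : 0 < C₀) : ∃ (c₂ : ℝ) (q₀ : ℕ), 0 < c₂ ∧
  ∀ (F : Type) [Field F] [Fintype F] [DecidableEq F], q₀ ≤ Fintype.card F →
  ∀ (N : ℕ), N = NN (Fintype.card F) → ∀ (Y : Sys F N), Y.Ok →
  PP (fun ω : Option F × Bool → F => (∀ P, (hs ω P).card ≤ N) ∧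
    ¬ (C₀ * (Fintype.card F : ℝ) ^ 2 / N < ∑ P : F × F,
        ((∑ j : Fin N, acnt ω (Y.B j) false P * acnt ω (Y.B j) true P : ℕ) : ℝ) ^ 2 ∨
      C₀ * (Fintype.card F : ℝ) ^ 2 / (N : ℝ) ^ 2 < ∑ P : F × F,
        (if ∃ j : Fin N, 2 * j.val < N ∧ Y.rb j (hs ω P) then
        ((∑ j ∈ univ.filter (fun j : Fin N => N ≤ 2 * j.val),
          acnt ω (Y.B j) false P * acnt ω (Y.B j) true P : ℕ) : ℝ) ^ 2 else 0)) ∧
    ∃ A B : Finset (Option F × F), (A.card : ℝ) ≤ Fintype.card F / 50 ∧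
      (B.card : ℝ) ≤ Fintype.card F / 50 ∧
      τ * (Fintype.card F : ℝ) ^ 2 ≤ (cov A ∩ cov B).card ∧
      (((cov A ∩ cov B).filter (fun P => Y.s12 (hs ω P))).card : ℝ) <
        c₂ * (Fintype.card F : ℝ) ^ 2 / (N : ℝ) ^ 2) ≤ 1 / 50 := by
  set c₃ : ℝ := τ ^ 2 / (2 ^ 20 * C₀) with hc₃
  set c₂ : ℝ := c₃ ^ 2 / (2 ^ 20 * C₀) with hc₂
  set c : ℝ := min τ c₃ with hc
  have hc₃pos : 0 < c₃ := by positivity
  have hcpos : 0 < c := lt_min hτ hc₃pos
  obtain ⟨q₀, hq₀⟩ := num c hcpos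
  refine ⟨c₂, q₀, by positivity, ?_⟩
  intro F _ _ _ hq N hN Y hY
  obtain ⟨hx1, h2N, hnum⟩ := hq₀ (Fintype.card F) hq
  rw [← hN] at hx1 h2N hnum
  set q : ℝ := (Fintype.card F : ℝ) with hqdef
  set x : ℝ := 2 * (256 * (N : ℝ) ^ 4 / (c * q)) ^ (3 / 4 : ℝ) with hx
  obtain ⟨n₄, hn₄, hN4⟩ : ∃ n₄ : ℕ, 0 < n₄ ∧ N = 4 * n₄ := by
    refine ⟨Nat.log 2 (Fintype.card F) + 5, by omega, ?_⟩
    rw [hN]
    unfold NN
    ring
  set k : ℕ := ⌊q / 50⌋₊ with hk
  set 𝒮 : Finset (Finset (Option F × F)) := univ.filter (fun E => E.card ≤ k) with h𝒮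
  set 𝒯 : Finset (Finset (Option F × F) × Finset (Option F × F)) :=
    (𝒮 ×ˢ 𝒮).filter (fun p => τ * q ^ 2 ≤ (cov p.1 ∩ cov p.2).card) with h𝒯
  have hsub : PP (fun ω : Option F × Bool → F => (∀ P, (hs ω P).card ≤ N) ∧
    ¬ (C₀ * (Fintype.card F : ℝ) ^ 2 / N < ∑ P : F × F,
        ((∑ j : Fin N, acnt ω (Y.B j) false P * acnt ω (Y.B j) true P : ℕ) : ℝ) ^ 2 ∨
      C₀ * (Fintype.card F : ℝ) ^ 2 / (N : ℝ) ^ 2 < ∑ P : F × F,
        (if ∃ j : Fin N, 2 * j.val < N ∧ Y.rb j (hs ω P) then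
        ((∑ j ∈ univ.filter (fun j : Fin N => N ≤ 2 * j.val),
          acnt ω (Y.B j) false P * acnt ω (Y.B j) true P : ℕ) : ℝ) ^ 2 else 0)) ∧
    ∃ A B : Finset (Option F × F), (A.card : ℝ) ≤ Fintype.card F / 50 ∧
      (B.card : ℝ) ≤ Fintype.card F / 50 ∧
      τ * (Fintype.card F : ℝ) ^ 2 ≤ (cov A ∩ cov B).card ∧
      (((cov A ∩ cov B).filter (fun P => Y.s12 (hs ω P))).card : ℝ) <
        c₂ * (Fintype.card F : ℝ) ^ 2 / (N : ℝ) ^ 2)
      ≤ PP (fun ω : Option F × Bool → F => ∃ p ∈ 𝒯, (LM Y C₀ ω ∧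
        (((cov p.1 ∩ cov p.2).filter (fun P => Y.s12 (hs ω P))).card : ℝ) <
        c₂ * (Fintype.card F : ℝ) ^ 2 / (N : ℝ) ^ 2)) := by
    apply PP_mono
    rintro ω ⟨h1, h2, A, B, h3, h4, h5, h6⟩
    refine ⟨(A, B), ?_, ⟨h1, h2⟩, h6⟩
    rw [h𝒯, mem_filter, mem_product, h𝒮, mem_filter, mem_filter]
    exact ⟨⟨⟨mem_univ _, Nat.le_floor h3⟩, ⟨mem_univ _, Nat.le_floor h4⟩⟩, h5⟩
  refine hsub.trans ((PP_exists_le _ _).trans ?_)
  have hterm : ∀ p ∈ 𝒯, PP (fun ω : Option F × Bool → F => (LM Y C₀ ω ∧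
        (((cov p.1 ∩ cov p.2).filter (fun P => Y.s12 (hs ω P))).card : ℝ) <
        c₂ * (Fintype.card F : ℝ) ^ 2 / (N : ℝ) ^ 2))
        ≤ 2 * (4 ^ N * x ^ ((q - N) / 4)) := by
    intro p hp
    have hp2 : τ * q ^ 2 ≤ (cov p.1 ∩ cov p.2).card := (mem_filter.mp hp).2
    exact fixed_T Y hY n₄ hn₄ hN4 h2N τ C₀ c₃ c₂ c x hτ hC₀ hc₃ hc₂ hc (le_refl _) hx1 _ hp2
  refine (sum_le_sum hterm).trans ?_
  rw [sum_const, nsmul_eq_mul]
  have hcard : (𝒯.card : ℝ) ≤ (((q + 1) * q + 1) ^ k) ^ 2 := by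
    have h1 : 𝒯.card ≤ 𝒮.card * 𝒮.card := by
      rw [← card_product]
      exact card_filter_le _ _
    have h2 : 𝒮.card ≤ (Fintype.card (Option F × F) + 1) ^ k := card_small_sets k
    have h3 : Fintype.card (Option F × F) + 1 = (Fintype.card F + 1) * Fintype.card F + 1 := by
      rw [Fintype.card_prod, Fintype.card_option]
    rw [h3] at h2
    have h4 : 𝒯.card ≤ (((Fintype.card F + 1) * Fintype.card F + 1) ^ k) ^ 2 := by
      rw [sq]
      exact h1.trans (Nat.mul_le_mul h2 h2)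
    have h5 : (𝒯.card : ℝ) ≤ (((((Fintype.card F + 1) * Fintype.card F + 1) ^ k) ^ 2 : ℕ) : ℝ) := by
      exact_mod_cast h4
    refine h5.trans (le_of_eq ?_)
    push_cast
    rw [← hqdef]
  have hfin := hnum k (Nat.floor_le (by positivity))
  refine le_trans ?_ hfin
  exact mul_le_mul_of_nonneg_right hcard (by positivity)

end Crest.Agent.H28RyLT
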