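import Crest.Agent.H3RyDefs2
import Crest.Agent.H28RyGeo

/-!
# Module R of the Ryser counterexample (S0045, S0046): reduction of both statements to Theorem A
-/

set_option autoImplicit false
set_option linter.unusedSectionVars false
set_option linter.unusedSimpArgs false

namespace Crest.Agent.H3Ry
open Finset

/-! ### Transfer of a partite hypergraph on an arbitrary finite type to `Fin N` -/

theorem transfer_hyper {V D : Type} [Fintype V] [DecidableEq V] [DecidableEq D] (q : ℕ)
    (eD : D ≃ Fin (q + 1)) (part : V → D) (E : Finset (Finset V))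
    (h1 : E.Nonempty)
    (h2 : ∀ e ∈ E, ∀ d : D, (e.filter (fun v => part v = d)).card = 1)
    (h3 : ∀ e ∈ E, ∀ f ∈ E, (e ∩ f).Nonempty)
    (h4 : ∀ d : D, (univ.filter (fun v => part v = d)).card = q + 1)
    (h5 : ∀ v, ∃ e ∈ E, v ∈ e)
    (h6 : ∀ S : Finset V, (∀ e ∈ E, (e ∩ S).Nonempty) → q + 1 ≤ S.card) :
    ∃ (N : ℕ) (part : Fin N → Fin (q + 1)) (E : Finset (Finset (Fin N))),
        E.Nonempty ∧
        (∀ e ∈ E, ∀ i : Fin (q + 1), (e.filter (fun v => part v = i)).card = 1) ∧
        (∀ e ∈ E, ∀ f ∈ E, (e ∩ f).Nonempty) ∧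
        (∀ i : Fin (q + 1), (Finset.univ.filter (fun v => part v = i)).card = q + 1) ∧
        (∀ v : Fin N, ∃ e ∈ E, v ∈ e) ∧
        (∀ S : Finset (Fin N), (∀ e ∈ E, (e ∩ S).Nonempty) → q + 1 ≤ S.card) := by
  have eV : V ≃ Fin (Fintype.card V) := Fintype.equivFin V
  refine ⟨Fintype.card V, fun v => eD (part (eV.symm v)),
    E.image (fun s => s.map eV.toEmbedding), ?_, ?_, ?_, ?_, ?_, ?_⟩
  · exact h1.image _
  · intro e he i
    obtain ⟨s, hs, rfl⟩ := mem_image.mp he
    rw [Finset.filter_map, card_map]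
    refine Eq.trans ?_ (h2 s hs (eD.symm i))
    congr 1
    ext v
    simp only [mem_filter, Function.comp, Equiv.coe_toEmbedding, Equiv.symm_apply_apply]
    rw [Equiv.eq_symm_apply]
  · intro e he f hf
    obtain ⟨s, hs, rfl⟩ := mem_image.mp he
    obtain ⟨t, ht, rfl⟩ := mem_image.mp hf
    rw [← Finset.map_inter]
    exact (h3 s hs t ht).map
  · intro i
    refine Eq.trans ?_ (h4 (eD.symm i))
    rw [← Finset.card_map eV.toEmbedding (s := univ.filter (fun v => part v = eD.symm i))]
    congr 1
    ext v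
    simp only [mem_filter, mem_univ, true_and, mem_map_equiv]
    rw [Equiv.eq_symm_apply]
  · intro v
    obtain ⟨e, he, hv⟩ := h5 (eV.symm v)
    refine ⟨e.map eV.toEmbedding, mem_image_of_mem _ he, ?_⟩
    rw [mem_map_equiv]
    exact hv
  · intro S hS
    rw [← Finset.card_map eV.symm.toEmbedding]
    apply h6
    intro e he
    obtain ⟨v, hv⟩ := hS (e.map eV.toEmbedding) (mem_image_of_mem _ he)
    rw [mem_inter, mem_map_equiv] at hv
    refine ⟨eV.symm v, ?_⟩
    rw [mem_inter, mem_map_equiv]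
    exact ⟨hv.1, by simpa using hv.2⟩

section
variable {F : Type} [Field F] [Fintype F] [DecidableEq F]

/-- graph of a function, as an edge -/
def gr (g : Option F → Option F) : Finset (Option F × Option F) := univ.image (fun d => (d, g d))

theorem mem_gr {g : Option F → Option F} {v : Option F × Option F} : v ∈ gr g ↔ v.2 = g v.1 := by
  unfold gr
  rw [mem_image]
  constructor
  · rintro ⟨d, _, rfl⟩
    rfl
  · intro h
    exact ⟨v.1, mem_univ _, Prod.ext rfl h.symm⟩

/-- a set of `< q` lines extends to a set of `q` lines with two parallel and two non parallel lines -/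
theorem exists_extension (S : Finset (Option F × F)) (hS : S.card < Fintype.card F)
    (hq : 3 ≤ Fintype.card F) :
    ∃ S' : Finset (Option F × F), S ⊆ S' ∧ S'.card = Fintype.card F ∧
      (∃ l ∈ S', ∃ l' ∈ S', l.1 ≠ l'.1) ∧ (∃ l ∈ S', ∃ l' ∈ S', l ≠ l' ∧ l.1 = l'.1) := by
  have hcard : (univ : Finset (Option F × F)).card = (Fintype.card F + 1) * Fintype.card F := by
    rw [card_univ, Fintype.card_prod, Fintype.card_option]
  obtain ⟨T, hST, -, hT⟩ := Finset.exists_subsuperset_card_eq (s := S) (t := univ)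
    (n := Fintype.card F - 1) (subset_univ _) (by omega) (by
      rw [hcard]
      exact (Nat.sub_le _ _).trans (Nat.le_mul_of_pos_left _ (by omega)))
  have hdir : ∀ d : Option F, ∃ c : F, (d, c) ∉ T := by
    intro d
    have h1 := card_missing T d
    have h2 : adir T d ≤ T.card := card_filter_le _ _
    have h3 : 0 < (univ.filter (fun c : F => (d, c) ∉ T)).card := by omega
    obtain ⟨c, hc⟩ := card_pos.mp h3
    exact ⟨c, (mem_filter.mp hc).2⟩
  have h2T : 1 < T.card := by omega
  obtain ⟨l1, hl1, l2, hl2, hne⟩ := Finset.one_lt_card.mp h2T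
  by_cases hd : ∀ l ∈ T, l.1 = l1.1
  · -- all lines of `T` are parallel
    have : ∃ d : Option F, d ≠ l1.1 := exists_ne l1.1
    obtain ⟨d, hd'⟩ := this
    obtain ⟨c, hc⟩ := hdir d
    refine ⟨insert (d, c) T, hST.trans (subset_insert _ _), ?_, ?_, ?_⟩
    · rw [card_insert_of_notMem hc, hT]
      omega
    · exact ⟨(d, c), mem_insert_self _ _, l1, mem_insert_of_mem hl1, hd'⟩
    · exact ⟨l1, mem_insert_of_mem hl1, l2, mem_insert_of_mem hl2, hne, (hd l2 hl2).symm⟩
  · push Not at hd
    obtain ⟨l3, hl3, hd3⟩ := hd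
    obtain ⟨c, hc⟩ := hdir l1.1
    refine ⟨insert (l1.1, c) T, hST.trans (subset_insert _ _), ?_, ?_, ?_⟩
    · rw [card_insert_of_notMem hc, hT]
      omega
    · exact ⟨l3, mem_insert_of_mem hl3, l1, mem_insert_of_mem hl1, hd3⟩
    · refine ⟨(l1.1, c), mem_insert_self _ _, l1, mem_insert_of_mem hl1, ?_, rfl⟩
      intro h
      apply hc
      rw [h]
      exact hl1

/-- the hypergraph: vertices `(direction, some c)` (= line) and `(direction, none)` (= infinity) -/
theorem hyper_of_ThmA (F : Type) [Field F] [Fintype F] [DecidableEq F] (h : ThmA F) :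
    ∃ (N : ℕ) (part : Fin N → Fin (Fintype.card F + 1)) (E : Finset (Finset (Fin N))),
        E.Nonempty ∧
        (∀ e ∈ E, ∀ i : Fin (Fintype.card F + 1), (e.filter (fun v => part v = i)).card = 1) ∧
        (∀ e ∈ E, ∀ f ∈ E, (e ∩ f).Nonempty) ∧
        (∀ i : Fin (Fintype.card F + 1),
          (Finset.univ.filter (fun v => part v = i)).card = Fintype.card F + 1) ∧
        (∀ v : Fin N, ∃ e ∈ E, v ∈ e) ∧
        (∀ S : Finset (Fin N), (∀ e ∈ E, (e ∩ S).Nonempty) → Fintype.card F + 1 ≤ S.card) := by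
  obtain ⟨N, Y, ω, hne, hB, hpat, hX, hcov⟩ := h
  -- there are at least five lines in a parallel class
  have hq : 3 ≤ Fintype.card F := by
    obtain ⟨j1, hj1⟩ := hpat none (some 0) false false (by simp)
    obtain ⟨j2, hj2⟩ := hpat none (some 0) true false (by simp)
    have hj : j1 ≠ j2 := by
      rintro rfl
      simp only [Sys.pat] at hj1 hj2
      revert hj1 hj2
      cases Y.sg none j1 <;> cases Y.sg (some 0) j1 <;> simp
    have hdis : Disjoint (Y.B j1) (Y.B j2) := by
      rw [Finset.disjoint_left]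
      intro d hd hd'
      exact hj ((mem_filter.mp hd).2.symm.trans (mem_filter.mp hd').2)
    have h1 := card_le_card (subset_univ (Y.B j1 ∪ Y.B j2))
    rw [card_union_of_disjoint hdis, card_univ, Fintype.card_option] at h1
    have h2 := hB j1
    have h3 := hB j2
    omega
  have eD : Option F ≃ Fin (Fintype.card F + 1) :=
    Fintype.equivFinOfCardEq (by rw [Fintype.card_option])
  set gp : F × F → Option F → Option F := fun P d => some (pos d P) with hgp
  set gw : Option F × Bool → Option F → Option F := fun p d =>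
    if d = p.1 then none else some (ω (d, Y.pat p.1 p.2 (Y.grp d))) with hgw
  refine transfer_hyper (V := Option F × Option F) (Fintype.card F) eD Prod.fst
    ((Y.X ω).image (fun P => gr (gp P)) ∪ univ.image (fun p => gr (gw p))) ?_ ?_ ?_ ?_ ?_ ?_
  · refine Finset.Nonempty.inr ?_
    exact (Finset.univ_nonempty).image _
  · intro e he d
    have : ∃ g, e = gr g := by
      rcases mem_union.mp he with he | he
      · obtain ⟨P, _, rfl⟩ := mem_image.mp he
        exact ⟨_, rfl⟩
      · obtain ⟨P, _, rfl⟩ := mem_image.mp he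
        exact ⟨_, rfl⟩
    obtain ⟨g, rfl⟩ := this
    rw [card_eq_one]
    refine ⟨(d, g d), ?_⟩
    ext v
    rw [mem_filter, mem_gr, mem_singleton]
    constructor
    · rintro ⟨h1, h2⟩
      exact Prod.ext h2 (by rw [h1, h2])
    · rintro rfl
      exact ⟨rfl, rfl⟩
  · have key : ∀ g g' : Option F → Option F, (∃ d, g d = g' d) → (gr g ∩ gr g').Nonempty := by
      rintro g g' ⟨d, hd⟩
      refine ⟨(d, g d), ?_⟩
      rw [mem_inter, mem_gr, mem_gr]
      exact ⟨rfl, hd⟩
    have hPQ : ∀ P Q : F × F, ∃ d, gp P d = gp Q d := by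
      intro P Q
      by_cases h : P = Q
      · exact ⟨none, by rw [h]⟩
      · obtain ⟨d, hd, _⟩ := exists_unique_dir h
        exact ⟨d, by simp only [hgp]; rw [hd]⟩
    have hPw : ∀ P ∈ Y.X ω, ∀ p, ∃ d, gp P d = gw p d := by
      intro P hP p
      have hP' : Y.inX (hs ω P) := by
        unfold Sys.X at hP
        simpa using hP
      obtain ⟨κ, hκ, h1, h2⟩ := hP' p.1 p.2
      refine ⟨κ.1, ?_⟩
      simp only [hgp, hgw]
      rw [if_neg h1, h2]
      unfold hs at hκ
      rw [mem_filter] at hκ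
      rw [hκ.2]
    have hww : ∀ p p' : Option F × Bool, ∃ d, gw p d = gw p' d := by
      intro p p'
      by_cases hi : p.1 = p'.1
      · exact ⟨p.1, by simp [hgw, hi]⟩
      · obtain ⟨j, hj⟩ := hpat p.1 p'.1 p.2 (!p'.2) (by
          intro h
          exact hi (Prod.ext_iff.mp h).1)
        have hj' : Y.pat p.1 p.2 j = Y.pat p'.1 p'.2 j := by
          simp only [Sys.pat] at hj ⊢
          revert hj
          cases p.2 <;> cases p'.2 <;> cases Y.sg p.1 j <;> cases Y.sg p'.1 j <;> simp
        have h3 : ∃ d ∈ Y.B j, d ≠ p.1 ∧ d ≠ p'.1 := by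
          by_contra hcon
          push Not at hcon
          have : Y.B j ⊆ {p.1, p'.1} := by
            intro d hd
            rw [mem_insert, mem_singleton]
            by_cases h : d = p.1
            · exact Or.inl h
            · exact Or.inr (hcon d hd h)
          have h4 := card_le_card this
          have h5 : ({p.1, p'.1} : Finset (Option F)).card ≤ 2 := card_le_two
          have h6 := hB j
          omega
        obtain ⟨d, hd, hd1, hd2⟩ := h3
        refine ⟨d, ?_⟩
        simp only [hgw]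
        have hdj : Y.grp d = j := (mem_filter.mp hd).2
        rw [if_neg hd1, if_neg hd2, hdj, hj']
    intro e he f hf
    rcases mem_union.mp he with he | he <;> rcases mem_union.mp hf with hf | hf
    · obtain ⟨P, hP, rfl⟩ := mem_image.mp he
      obtain ⟨Q, hQ, rfl⟩ := mem_image.mp hf
      exact key _ _ (hPQ P Q)
    · obtain ⟨P, hP, rfl⟩ := mem_image.mp he
      obtain ⟨p, _, rfl⟩ := mem_image.mp hf
      exact key _ _ (hPw P hP p)
    · obtain ⟨p, _, rfl⟩ := mem_image.mp he
      obtain ⟨P, hP, rfl⟩ := mem_image.mp hf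
      obtain ⟨d, hd⟩ := hPw P hP p
      exact key _ _ ⟨d, hd.symm⟩
    · obtain ⟨p, _, rfl⟩ := mem_image.mp he
      obtain ⟨p', _, rfl⟩ := mem_image.mp hf
      exact key _ _ (hww p p')
  · intro d
    have : (univ.filter (fun v : Option F × Option F => v.1 = d))
        = (univ : Finset (Option F)).map ⟨fun x => (d, x), fun x y h => (Prod.ext_iff.mp h).2⟩ := by
      ext v
      simp only [mem_filter, mem_univ, true_and, mem_map, Function.Embedding.coeFn_mk]
      constructor
      · rintro rfl
        exact ⟨v.2, rfl⟩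
      · rintro ⟨x, rfl⟩
        rfl
    rw [this, card_map, card_univ, Fintype.card_option]
  · rintro ⟨d, x⟩
    rcases x with _ | c
    · refine ⟨gr (gw (d, false)), ?_, ?_⟩
      · exact mem_union_right _ (mem_image_of_mem _ (mem_univ _))
      · rw [mem_gr]
        simp [hgw]
    · obtain ⟨P, hP⟩ := hX (d, c)
      rw [mem_inter, mem_pts] at hP
      refine ⟨gr (gp P), ?_, ?_⟩
      · exact mem_union_left _ (mem_image_of_mem _ hP.2)
      · rw [mem_gr]
        simp only [hgp]
        rw [hP.1]
  · intro S hS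
    by_contra hcon
    push Not at hcon
    -- the lines in `S`
    set SL : Finset (Option F × F) := univ.filter (fun l => (l.1, some l.2) ∈ S) with hSL
    have hSLcard : SL.card ≤ S.card := by
      refine Finset.card_le_card_of_injOn (fun l => (l.1, some l.2)) ?_ ?_
      · intro l hl
        exact (mem_filter.mp hl).2
      · intro l _ l' _ hll
        simp only [Prod.mk.injEq, Option.some.injEq] at hll
        exact Prod.ext hll.1 hll.2
    have hSLX : ∀ P ∈ Y.X ω, ∃ l ∈ SL, pos l.1 P = l.2 := by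
      intro P hP
      obtain ⟨v, hv⟩ := hS (gr (gp P)) (mem_union_left _ (mem_image_of_mem _ hP))
      rw [mem_inter, mem_gr] at hv
      obtain ⟨hv1, hv2⟩ := hv
      refine ⟨(v.1, pos v.1 P), ?_, rfl⟩
      rw [hSL, mem_filter]
      refine ⟨mem_univ _, ?_⟩
      simp only
      simp only [hgp] at hv1
      rw [← hv1]
      exact hv2
    have hwords : ∀ p : Option F × Bool, ∃ v ∈ S, v.2 = gw p v.1 := by
      intro p
      obtain ⟨v, hv⟩ := hS (gr (gw p)) (mem_union_right _ (mem_image_of_mem _ (mem_univ _)))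
      rw [mem_inter, mem_gr] at hv
      exact ⟨v, hv.2, hv.1⟩
    have hcovers : ∀ S' : Finset (Option F × F), SL ⊆ S' → ∀ P ∈ Y.X ω, 0 < mu S' P := by
      intro S' hS' P hP
      obtain ⟨l, hl, hl'⟩ := hSLX P hP
      rw [← mem_cov', mem_cov]
      exact ⟨l, hS' hl, hl'⟩
    have hfw : ∀ i a, ∀ l ∈ Y.fw ω i a, l.1 ≠ i ∧ l.2 = ω (l.1, Y.pat i a (Y.grp l.1)) := by
      intro i a l hl
      unfold Sys.fw at hl
      obtain ⟨d, hd, rfl⟩ := mem_image.mp hl
      exact ⟨(mem_filter.mp hd).2, rfl⟩
    rcases Nat.lt_or_ge SL.card (Fintype.card F) with hlt | hge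
    · obtain ⟨S', hSS', hcard, ⟨l1, hl1, l2, hl2, h12⟩, ⟨l3, hl3, l4, hl4, h34, h34'⟩⟩ :=
        exists_extension SL hlt hq
      rcases hcov S' hcard (hcovers S' hSS') with ⟨d, hd⟩ | ⟨i, a, hia⟩
      · exact h12 ((hd l1 hl1).trans (hd l2 hl2).symm)
      · rw [hia] at hl3 hl4
        have h3 := hfw i a l3 hl3
        have h4 := hfw i a l4 hl4
        apply h34
        refine Prod.ext h34' ?_
        rw [h3.2, h4.2, h34']
    · -- `S` consists of exactly `q` lines
      have hSLc : SL.card = Fintype.card F := by omega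
      have hSc : S.card = Fintype.card F := by omega
      have himg : SL.image (fun l => (l.1, some l.2)) = S := by
        apply Finset.eq_of_subset_of_card_le
        · intro v hv
          obtain ⟨l, hl, rfl⟩ := mem_image.mp hv
          exact (mem_filter.mp hl).2
        · rw [Finset.card_image_of_injective, hSc, hSLc]
          intro l l' hll
          simp only [Prod.mk.injEq, Option.some.injEq] at hll
          exact Prod.ext hll.1 hll.2
      have hSome : ∀ v ∈ S, ∃ l ∈ SL, v = (l.1, some l.2) := by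
        intro v hv
        rw [← himg] at hv
        obtain ⟨l, hl, rfl⟩ := mem_image.mp hv
        exact ⟨l, hl, rfl⟩
      rcases hcov SL hSLc (hcovers SL (Subset.refl _)) with ⟨d, hd⟩ | ⟨i, a, hia⟩
      · obtain ⟨v, hv, hv'⟩ := hwords (d, false)
        obtain ⟨l, hl, rfl⟩ := hSome v hv
        simp only [hgw] at hv'
        rw [if_pos (hd l hl)] at hv'
        simp at hv'
      · obtain ⟨v, hv, hv'⟩ := hwords (i, !a)
        obtain ⟨l, hl, rfl⟩ := hSome v hv
        rw [hia] at hl
        obtain ⟨h5, h6⟩ := hfw i a l hl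
        simp only [hgw] at hv'
        rw [if_neg h5] at hv'
        simp only [Option.some.injEq] at hv'
        have h7 : Y.pat i (!a) (Y.grp l.1) = !(Y.pat i a (Y.grp l.1)) := by
          simp only [Sys.pat]
          cases a <;> cases Y.sg i (Y.grp l.1) <;> simp
        rw [h7, h6] at hv'
        have h8 := hne l.1
        cases hb : Y.pat i a (Y.grp l.1) with
        | false =>
          rw [hb] at hv'
          simp only [Bool.not_false] at hv'
          exact h8 hv'
        | true =>
          rw [hb] at hv'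
          simp only [Bool.not_true] at hv'
          exact h8 hv'.symm

end

/-! ### The two statements from Theorem A for all large finite fields -/

theorem S0045_of (h : ∃ q₀ : ℕ, ∀ (F : Type) [Field F] [Fintype F] [DecidableEq F],
    q₀ ≤ Fintype.card F → ThmA F) :
    ∃ q₀ : ℕ, ∀ q : ℕ, q₀ ≤ q → q.Prime →
      ∃ (N : ℕ) (part : Fin N → Fin (q + 1)) (E : Finset (Finset (Fin N))),
        E.Nonempty ∧
        (∀ e ∈ E, ∀ i : Fin (q + 1), (e.filter (fun v => part v = i)).card = 1) ∧
        (∀ e ∈ E, ∀ f ∈ E, (e ∩ f).Nonempty) ∧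
        (∀ i : Fin (q + 1), (Finset.univ.filter (fun v => part v = i)).card = q + 1) ∧
        (∀ v : Fin N, ∃ e ∈ E, v ∈ e) ∧
        (∀ S : Finset (Fin N), (∀ e ∈ E, (e ∩ S).Nonempty) → q + 1 ≤ S.card) := by
  obtain ⟨q₀, h⟩ := h
  refine ⟨q₀, fun q hq hp => ?_⟩
  have : Fact q.Prime := ⟨hp⟩
  have h1 := hyper_of_ThmA (ZMod q) (h (ZMod q) (by rw [ZMod.card]; exact hq))
  rw [ZMod.card q] at h1
  exact h1

theorem S0046_of (h : ∃ q₀ : ℕ, ∀ (F : Type) [Field F] [Fintype F] [DecidableEq F],
    q₀ ≤ Fintype.card F → ThmA F) :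
    ∃ s₀ : ℕ, ∀ s : ℕ, s₀ ≤ s → s.Prime → s % 3 = 2 →
      ∃ n₀ : ℕ, 3 ≤ n₀ ∧ ∀ n : ℕ, n₀ ≤ n → Odd n →
        ∃ (N : ℕ) (part : Fin N → Fin (s ^ n + 1)) (E : Finset (Finset (Fin N))),
          E.Nonempty ∧
          (∀ e ∈ E, ∀ i : Fin (s ^ n + 1), (e.filter (fun v => part v = i)).card = 1) ∧
          (∀ e ∈ E, ∀ f ∈ E, (e ∩ f).Nonempty) ∧
          (∀ S : Finset (Fin N), (∀ e ∈ E, (e ∩ S).Nonempty) → s ^ n + 1 ≤ S.card) := by
  obtain ⟨q₀, h⟩ := h
  refine ⟨q₀, fun s hs hp _ => ⟨3, le_refl _, fun n hn _ => ?_⟩⟩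
  have : Fact s.Prime := ⟨hp⟩
  classical
  have : Fintype (GaloisField s n) := Fintype.ofFinite _
  have hcard : Fintype.card (GaloisField s n) = s ^ n := by
    rw [← Nat.card_eq_fintype_card]
    exact GaloisField.card s n (by omega)
  have h1 := hyper_of_ThmA (GaloisField s n) (h (GaloisField s n) (by
    rw [hcard]
    calc q₀ ≤ s := hs
      _ = s ^ 1 := (pow_one s).symm
      _ ≤ s ^ n := Nat.pow_le_pow_right hp.pos (by omega)))
  rw [hcard] at h1
  obtain ⟨N, part, E, a1, a2, a3, _, _, a6⟩ := h1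
  exact ⟨N, part, E, a1, a2, a3, a6⟩

end Crest.Agent.H3Ry
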