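import Mathlib
import Crest.Prelude.Def_ProductShift

set_option autoImplicit false

open MeasureTheory
open scoped ENNReal
open Crest.AnalysisR.ProductShift

namespace Crest.R113.H28

theorem orbit_comp (θ : ℕ → ℝ) (k m : ℤ) (x : ℕ → ℝ) :
    orbitPoint θ k (orbitPoint θ m x) = orbitPoint θ (k + m) x := by
  funext i
  simp only [orbitPoint]
  have h : Int.fract (x i + (m : ℝ) * θ i) + (k : ℝ) * θ i
      = (x i + ((k + m : ℤ) : ℝ) * θ i) - ((⌊x i + (m : ℝ) * θ i⌋ : ℤ) : ℝ) := by
    rw [Int.fract]; push_cast; ring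
  rw [h, Int.fract_sub_intCast]

theorem measurable_orbit (θ : ℕ → ℝ) (k : ℤ) : Measurable (orbitPoint θ k) := by
  refine measurable_pi_lambda _ fun i => ?_
  exact measurable_fract.comp ((measurable_pi_apply i).add_const _)

theorem measurable_dropCost (θ c : ℕ → ℝ) : Measurable (dropCost θ c) := by
  unfold dropCost
  refine Measurable.tsum fun i => ?_
  refine ENNReal.measurable_ofReal.comp ?_
  refine measurable_const.mul ?_
  refine Measurable.comp (measurable_of_countable _) ?_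
  exact Int.measurable_floor.comp ((measurable_pi_apply i).add_const _)

theorem measurable_weight (θ c : ℕ → ℝ) : Measurable (weight θ c) := by
  unfold weight
  refine Measurable.ite ?_ measurable_const ?_
  · exact (measurable_dropCost θ c) (measurableSet_singleton _)
  · exact Real.measurable_exp.comp (measurable_dropCost θ c).ennreal_toReal.neg

theorem weight_nonneg (θ c : ℕ → ℝ) (x : ℕ → ℝ) : 0 ≤ weight θ c x := by
  unfold weight; split_ifs
  · exact le_rfl
  · exact (Real.exp_pos _).le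

theorem weight_le_one (θ c : ℕ → ℝ) (x : ℕ → ℝ) : weight θ c x ≤ 1 := by
  unfold weight; split_ifs
  · exact zero_le_one
  · rw [Real.exp_le_one_iff]; simp

theorem ae_mem : ∀ᵐ x ∂cubeMeasure, ∀ i, x i ∈ Set.Ico (0 : ℝ) 1 := by
  rw [ae_all_iff]
  intro i
  have hmp : MeasurePreserving (Function.eval i) cubeMeasure unitLebesgue := by
    unfold cubeMeasure
    exact measurePreserving_eval_infinitePi _ i
  have h : ∀ᵐ t ∂unitLebesgue, t ∈ Set.Ico (0 : ℝ) 1 := by
    unfold unitLebesgue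
    exact ae_restrict_mem measurableSet_Ico
  exact hmp.quasiMeasurePreserving.ae h

theorem orbit_zero_ae (θ : ℕ → ℝ) : ∀ᵐ x ∂cubeMeasure, orbitPoint θ 0 x = x := by
  filter_upwards [ae_mem] with x hx
  funext i
  simp only [orbitPoint, Int.cast_zero, zero_mul, add_zero]
  exact Int.fract_eq_self.2 ⟨(hx i).1, (hx i).2⟩

/-- one-dimensional rotation -/
theorem rot_mp (a : ℝ) :
    MeasurePreserving (fun t : ℝ => Int.fract (t + a)) unitLebesgue unitLebesgue := by
  have hm : Measurable (fun t : ℝ => Int.fract (t + a)) :=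
    measurable_fract.comp (measurable_id.add_const a)
  refine ⟨hm, ?_⟩
  ext s hs
  rw [Measure.map_apply hm hs]
  unfold unitLebesgue
  rw [Measure.restrict_apply (hm hs), Measure.restrict_apply hs]
  have hA : MeasurableSet ((Int.fract : ℝ → ℝ) ⁻¹' s) := measurable_fract hs
  have h1 : (fun t : ℝ => Int.fract (t + a)) ⁻¹' s ∩ Set.Ico 0 1
      = (fun t : ℝ => t + a) ⁻¹' (((Int.fract : ℝ → ℝ) ⁻¹' s) ∩ Set.Ico a (a + 1)) := by
    ext t
    simp only [Set.mem_inter_iff, Set.mem_preimage, Set.mem_Ico]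
    constructor
    · rintro ⟨h, h0, h1⟩; exact ⟨h, by linarith, by linarith⟩
    · rintro ⟨h, h0, h1⟩; exact ⟨h, by linarith, by linarith⟩
  have h2 : s ∩ Set.Ico (0 : ℝ) 1 = ((Int.fract : ℝ → ℝ) ⁻¹' s) ∩ Set.Ico (0 : ℝ) (0 + 1) := by
    ext t
    simp only [Set.mem_inter_iff, Set.mem_preimage, Set.mem_Ico, zero_add]
    constructor
    · rintro ⟨h, h0, h1⟩
      refine ⟨?_, h0, h1⟩
      rw [Int.fract_eq_self.2 ⟨h0, h1⟩]; exact h
    · rintro ⟨h, h0, h1⟩
      refine ⟨?_, h0, h1⟩
      rw [Int.fract_eq_self.2 ⟨h0, h1⟩] at h; exact h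
  have h3 : ∀ c : ℝ, volume (((Int.fract : ℝ → ℝ) ⁻¹' s) ∩ Set.Ico c (c + 1))
      = volume (((Int.fract : ℝ → ℝ) ⁻¹' s) ∩ Set.Ioc c (c + 1)) := fun c =>
    measure_congr ((ae_eq_refl _).inter Ico_ae_eq_Ioc)
  rw [h1, (measurePreserving_add_right (volume : Measure ℝ) a).measure_preimage
    (hA.inter measurableSet_Ico).nullMeasurableSet, h2, h3, h3]
  refine (isAddFundamentalDomain_Ioc one_pos a).measure_set_eq
    (isAddFundamentalDomain_Ioc one_pos 0) hA ?_
  rintro ⟨g, hg⟩
  obtain ⟨n, rfl⟩ := AddSubgroup.mem_zmultiples_iff.1 hg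
  ext t
  simp only [Set.mem_preimage, AddSubgroup.mk_vadd, vadd_eq_add, zsmul_eq_mul, mul_one]
  rw [add_comm, Int.fract_add_intCast]

theorem orbit_mp (θ : ℕ → ℝ) (k : ℤ) : MeasurePreserving (orbitPoint θ k) cubeMeasure cubeMeasure := by
  refine ⟨measurable_orbit θ k, ?_⟩
  unfold cubeMeasure
  have h := Measure.infinitePi_map_pi (μ := fun _ : ℕ => unitLebesgue)
    (f := fun i t => Int.fract (t + (k : ℝ) * θ i))
    (fun i => (rot_mp ((k : ℝ) * θ i)).measurable)
  have h2 : (fun i => Measure.map (fun t => Int.fract (t + (k : ℝ) * θ i)) unitLebesgue)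
      = fun _ : ℕ => unitLebesgue := by
    funext i; exact (rot_mp ((k : ℝ) * θ i)).map_eq
  rw [h2] at h
  exact h

end Crest.R113.H28
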