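import Mathlib

/-!
rid 50 (S0069), parity fact (4): `n_R + n_{R'} = 1` for a tight 6-colouring of a great 2-sphere,
explicit grid version.  Definitions and module statements.
-/

set_option autoImplicit false

namespace Crest.B29

/-- a colour frame: colours of `y, z, z'` -/
abbrev CF := Fin 6 × Fin 6 × Fin 6

/-- exchange `z` and `z'` -/
def sw (f : CF) : CF := (f.1, f.2.2, f.2.1)

/-- indicator of a colour -/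
def i1 (a x : Fin 6) : ZMod 2 := if x = a then 1 else 0

/-- indicator: the edge `x y` has the colours `a b` -/
def i2 (a b x y : Fin 6) : ZMod 2 := if (x = a ∧ y = b) ∨ (x = b ∧ y = a) then 1 else 0

/-- indicator: the triangle `x y z` has the colours `a b c` -/
def i3 (a b c x y z : Fin 6) : ZMod 2 :=
  if (x = a ∧ y = b ∧ z = c) ∨ (x = a ∧ y = c ∧ z = b) ∨ (x = b ∧ y = a ∧ z = c) ∨
    (x = b ∧ y = c ∧ z = a) ∨ (x = c ∧ y = a ∧ z = b) ∨ (x = c ∧ y = b ∧ z = a) then 1 else 0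

/-- coboundaries -/
def d0 (s : CF → ZMod 2) (f0 f1 : CF) : ZMod 2 := s f0 + s f1
def d1 (e : CF → CF → ZMod 2) (f0 f1 f2 : CF) : ZMod 2 := e f1 f2 + e f0 f2 + e f0 f1
def d2 (e : CF → CF → CF → ZMod 2) (f0 f1 f2 f3 : CF) : ZMod 2 :=
  e f1 f2 f3 + e f0 f2 f3 + e f0 f1 f3 + e f0 f1 f2

/-- exchange in cochains -/
def sw1 (e : CF → CF → ZMod 2) (f0 f1 : CF) : ZMod 2 := e (sw f0) (sw f1)
def sw2 (e : CF → CF → CF → ZMod 2) (f0 f1 f2 : CF) : ZMod 2 := e (sw f0) (sw f1) (sw f2)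
def sw3 (e : CF → CF → CF → CF → ZMod 2) (f0 f1 f2 f3 : CF) : ZMod 2 :=
  e (sw f0) (sw f1) (sw f2) (sw f3)

/-- cell cochains `(σ1 | σ2 | σ3)`, total dimension 3 -/
def C321 (t1 t2 t3 p1 p2 q : Fin 6) (f0 f1 f2 f3 : CF) : ZMod 2 :=
  i3 t1 t2 t3 f0.1 f1.1 f2.1 * i2 p1 p2 f2.2.1 f3.2.1 * i1 q f3.2.2
def C231 (a b t1 t2 t3 q : Fin 6) (f0 f1 f2 f3 : CF) : ZMod 2 :=
  i2 a b f0.1 f1.1 * i3 t1 t2 t3 f1.2.1 f2.2.1 f3.2.1 * i1 q f3.2.2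
def C132 (r t1 t2 t3 c d : Fin 6) (f0 f1 f2 f3 : CF) : ZMod 2 :=
  i1 r f0.1 * i3 t1 t2 t3 f0.2.1 f1.2.1 f2.2.1 * i2 c d f2.2.2 f3.2.2
def C222 (a b c d e f : Fin 6) (f0 f1 f2 f3 : CF) : ZMod 2 :=
  i2 a b f0.1 f1.1 * i2 c d f1.2.1 f2.2.1 * i2 e f f2.2.2 f3.2.2
/-- total dimension 2 -/
def C221 (a b c d e : Fin 6) (f0 f1 f2 : CF) : ZMod 2 :=
  i2 a b f0.1 f1.1 * i2 c d f1.2.1 f2.2.1 * i1 e f2.2.2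
def C131 (r t1 t2 t3 c : Fin 6) (f0 f1 f2 : CF) : ZMod 2 :=
  i1 r f0.1 * i3 t1 t2 t3 f0.2.1 f1.2.1 f2.2.1 * i1 c f2.2.2

/-- `z`-part cochains for the normalisation (0 < 1 < ... < 5) -/
def om3 (f0 f1 f2 f3 : CF) : ZMod 2 :=
  i3 0 2 4 f0.2.1 f1.2.1 f2.2.1 * i2 1 3 f2.2.2 f3.2.2 +
  i3 1 3 5 f0.2.1 f1.2.1 f2.2.1 * i2 2 4 f2.2.2 f3.2.2 +
  i3 0 3 5 f0.2.1 f1.2.1 f2.2.1 * i2 2 4 f2.2.2 f3.2.2 +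
  i3 0 3 5 f0.2.1 f1.2.1 f2.2.1 * i2 1 4 f2.2.2 f3.2.2 +
  i3 0 2 5 f0.2.1 f1.2.1 f2.2.1 * i2 1 4 f2.2.2 f3.2.2 +
  i3 0 2 5 f0.2.1 f1.2.1 f2.2.1 * i2 1 3 f2.2.2 f3.2.2

/-- strict interlacing `a < c < b < d` of the edge `{a,b} = {x,y}` and `{c,d} = {u,v}` -/
def il (x y u v : Fin 6) : ZMod 2 :=
  if min x y < min u v ∧ min u v < max x y ∧ max x y < max u v then 1 else 0

/-- `b2 = AW om_2 + H(cd | xyw)` -/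
def b2 (f0 f1 f2 : CF) : ZMod 2 :=
  il f0.2.1 f1.2.1 f1.2.2 f2.2.2 +
  (i2 1 3 f0.2.1 f2.2.1 * i3 0 2 4 f0.2.2 f1.2.2 f2.2.2 +
   i2 2 4 f0.2.1 f2.2.1 * i3 1 3 5 f0.2.2 f1.2.2 f2.2.2 +
   i2 2 4 f0.2.1 f2.2.1 * i3 0 3 5 f0.2.2 f1.2.2 f2.2.2 +
   i2 1 4 f0.2.1 f2.2.1 * i3 0 3 5 f0.2.2 f1.2.2 f2.2.2 +
   i2 1 4 f0.2.1 f2.2.1 * i3 0 2 5 f0.2.2 f1.2.2 f2.2.2 +
   i2 1 3 f0.2.1 f2.2.1 * i3 0 2 5 f0.2.2 f1.2.2 f2.2.2)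

/-- `b1 = AW om_1 + H(cd | ab)` -/
def b1 (f0 f1 : CF) : ZMod 2 :=
  (if (f0.2.1 < f1.2.2 ∧ f1.2.2 < f1.2.1) ∨ (f1.2.1 < f1.2.2 ∧ f1.2.2 < f0.2.1) then 1 else 0) +
  il f0.2.2 f1.2.2 f0.2.1 f1.2.1

/-- `s = [c z > c z']` -/
def sg (f : CF) : ZMod 2 := if f.2.2 < f.2.1 then 1 else 0

/-- compatibility of two colour frames of nearby frames -/
def ok (f g : CF) : Prop :=
  f.1 ≠ g.2.1 ∧ f.1 ≠ g.2.2 ∧ f.2.1 ≠ g.2.2 ∧ g.1 ≠ f.2.1 ∧ g.1 ≠ f.2.2 ∧ g.2.1 ≠ f.2.2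

/-- compatibility of the vertices of a small 3-simplex (and no four colours on `z`, `z'`) -/
def ok4 (f0 f1 f2 f3 : CF) : Prop :=
  ok f0 f0 ∧ ok f1 f1 ∧ ok f2 f2 ∧ ok f3 f3 ∧ ok f0 f1 ∧ ok f0 f2 ∧ ok f0 f3 ∧ ok f1 f2 ∧ ok f1 f3 ∧ ok f2 f3 ∧
  ¬ (f0.2.1 ≠ f1.2.1 ∧ f0.2.1 ≠ f2.2.1 ∧ f0.2.1 ≠ f3.2.1 ∧ f1.2.1 ≠ f2.2.1 ∧ f1.2.1 ≠ f3.2.1 ∧ f2.2.1 ≠ f3.2.1) ∧
  ¬ (f0.2.2 ≠ f1.2.2 ∧ f0.2.2 ≠ f2.2.2 ∧ f0.2.2 ≠ f3.2.2 ∧ f1.2.2 ≠ f2.2.2 ∧ f1.2.2 ≠ f3.2.2 ∧ f2.2.2 ≠ f3.2.2)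

def ok3 (f0 f1 f2 : CF) : Prop :=
  ok f0 f0 ∧ ok f1 f1 ∧ ok f2 f2 ∧ ok f0 f1 ∧ ok f0 f2 ∧ ok f1 f2

/-- colour data on the grid: `g false` is the box `ψ ≥ 0`, `g true` the box `ψ ≤ 0`;
indices: `i` = θ (0..2N), `j` = φ (period 8N), `k` = |ψ| (0..N). -/
structure Grid where
  N : ℕ
  hN : 0 < N
  g : Bool → ℕ → ℕ → ℕ → CF
  Y : ℕ → ℕ → Fin 6
  hY : ∀ b i j k, (g b i j k).1 = Y i j
  h0 : ∀ i j, g true i j 0 = g false i j 0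
  hper : ∀ b i j k, g b i (j + 8 * N) k = g b i j k
  heq : ∀ j k, g false (2 * N) (j + 4 * N) k = g true (2 * N) j k
  hpole : ∀ b j k, g b 0 (j + 4 * N) k = g b 0 j k
  hsw : ∀ i j, g true i j N = sw (g false i j N)
  /-- nearby frames are compatible -/
  hok : ∀ b i j k u1 u2 u3 v1 v2 v3, u1 ≤ 1 → u2 ≤ 1 → u3 ≤ 1 → v1 ≤ 1 → v2 ≤ 1 → v3 ≤ 1 →
    ok (g b (i + u1) (j + u2) (k + u3)) (g b (i + v1) (j + v2) (k + v3))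
  /-- no four colours on the `z`'s (and `z'`'s) of nearby frames -/
  h4 : ∀ b i j k (f0 f1 f2 f3 : CF),
    (∀ f ∈ [f0, f1, f2, f3], ∃ u1 u2 u3, u1 ≤ 1 ∧ u2 ≤ 1 ∧ u3 ≤ 1 ∧ f = g b (i + u1) (j + u2) (k + u3)) →
    ok4 f0 f1 f2 f3

/-- sum of a 3-cochain over the six Kuhn simplices of a cube -/
def K3 (v : ℕ → ℕ → ℕ → CF) (e : CF → CF → CF → CF → ZMod 2) : ZMod 2 :=
  e (v 0 0 0) (v 1 0 0) (v 1 1 0) (v 1 1 1) + e (v 0 0 0) (v 1 0 0) (v 1 0 1) (v 1 1 1) +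
  e (v 0 0 0) (v 0 1 0) (v 1 1 0) (v 1 1 1) + e (v 0 0 0) (v 0 1 0) (v 0 1 1) (v 1 1 1) +
  e (v 0 0 0) (v 0 0 1) (v 1 0 1) (v 1 1 1) + e (v 0 0 0) (v 0 0 1) (v 0 1 1) (v 1 1 1)

/-- sum of a 2-cochain over the two Kuhn triangles of a square -/
def K2 (v : ℕ → ℕ → CF) (e : CF → CF → CF → ZMod 2) : ZMod 2 :=
  e (v 0 0) (v 1 0) (v 1 1) + e (v 0 0) (v 0 1) (v 1 1)

open Finset in
/-- the 3-chain `D` -/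
def S3 (G : Grid) (e : CF → CF → CF → CF → ZMod 2) : ZMod 2 :=
  ∑ b : Bool, ∑ i ∈ range (2 * G.N), ∑ j ∈ range (8 * G.N), ∑ k ∈ range G.N,
    K3 (fun u v w => G.g b (i + u) (j + v) (k + w)) e

open Finset in
/-- the 2-chain `h_2` -/
def S2 (G : Grid) (e : CF → CF → CF → ZMod 2) : ZMod 2 :=
  ∑ i ∈ range (2 * G.N), ∑ j ∈ range (8 * G.N), K2 (fun u v => G.g false (i + u) (j + v) G.N) e

open Finset in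
/-- the 1-chain `h_1` -/
def S1 (G : Grid) (e : CF → CF → ZMod 2) : ZMod 2 :=
  ∑ j ∈ range (4 * G.N), e (G.g false (2 * G.N) j G.N) (G.g false (2 * G.N) (j + 1) G.N)

open Finset in
/-- number mod 2 of triangles of colours `t1 t2 t3` on the hemisphere grid -/
def nT (G : Grid) (t1 t2 t3 : Fin 6) : ZMod 2 :=
  ∑ i ∈ range (2 * G.N), ∑ j ∈ range (8 * G.N),
    (i3 t1 t2 t3 (G.Y i j) (G.Y (i + 1) j) (G.Y (i + 1) (j + 1)) +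
     i3 t1 t2 t3 (G.Y i j) (G.Y i (j + 1)) (G.Y (i + 1) (j + 1)))

namespace Spec

/-- GS3 -/
def GS3 : Prop := ∀ (G : Grid) (e : CF → CF → CF → ZMod 2), S3 G (d2 e) = S2 G e + S2 G (sw2 e)

/-- GS2 -/
def GS2 : Prop := ∀ (G : Grid) (e : CF → CF → ZMod 2), S2 G (d1 e) = S1 G e + S1 G (sw1 e)

/-- GS1 -/
def GS1 : Prop := ∀ (G : Grid), S1 G (d0 sg) = 1

/-- CI3: colour identity, dimension 3 -/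
def CI3 : Prop := ∀ f0 f1 f2 f3 : CF, ok4 f0 f1 f2 f3 → om3 f0 f1 f2 f3 + sw3 om3 f0 f1 f2 f3 = d2 b2 f0 f1 f2 f3

/-- CI2: colour identity, dimension 2 -/
def CI2 : Prop := ∀ f0 f1 f2 : CF, ok3 f0 f1 f2 → b2 f0 f1 f2 + sw2 b2 f0 f1 f2 = d1 b1 f0 f1 f2

/-- CI1: colour identity, dimension 1 -/
def CI1 : Prop := ∀ f0 f1 : CF, ok f0 f0 → ok f1 f1 → ok f0 f1 → b1 f0 f1 + sw1 b1 f0 f1 = d0 sg f0 f1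

/-- CN1: 5-cell `(r | T | c)` -/
def CN1 : Prop := ∀ r j c t1 t2 t3 : Fin 6, [r, j, c, t1, t2, t3].Nodup → ∀ f0 f1 f2 f3 : CF, ok4 f0 f1 f2 f3 →
  d2 (C131 r t1 t2 t3 c) f0 f1 f2 f3 = C231 r j t1 t2 t3 c f0 f1 f2 f3 + C132 r t1 t2 t3 c j f0 f1 f2 f3

/-- CN2: 5-cell `(ab | cd | e)` -/
def CN2 : Prop := ∀ a b c d e f : Fin 6, [a, b, c, d, e, f].Nodup → ∀ f0 f1 f2 f3 : CF, ok4 f0 f1 f2 f3 →
  d2 (C221 a b c d e) f0 f1 f2 f3 = C321 a b f c d e f0 f1 f2 f3 + C231 a b c d f e f0 f1 f2 f3 +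
    C222 a b c d e f f0 f1 f2 f3

/-- N4: the cell number `(T | P | q)` is the number of `T`-triangles -/
def N4 : Prop := ∀ (G : Grid) (t1 t2 t3 p1 p2 q : Fin 6), [t1, t2, t3, p1, p2, q].Nodup →
  S3 G (C321 t1 t2 t3 p1 p2 q) + S3 G (sw3 (C321 t1 t2 t3 p1 p2 q)) = nT G t1 t2 t3

/-- MAIN -/
def MAIN : Prop := ∀ G : Grid, nT G 0 2 4 + nT G 1 3 5 = 1

end Spec

end Crest.B29
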