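import Mathlib
import Crest.Agent.H29BRDefs

set_option autoImplicit false

namespace Crest.B29

/-- `∑_t T_t(x y z) P_t(u v)` -/
def Q (x y z u v : Fin 6) : ZMod 2 :=
  i3 0 2 4 x y z * i2 1 3 u v +
  i3 1 3 5 x y z * i2 2 4 u v +
  i3 0 3 5 x y z * i2 2 4 u v +
  i3 0 3 5 x y z * i2 1 4 u v +
  i3 0 2 5 x y z * i2 1 4 u v +
  i3 0 2 5 x y z * i2 1 3 u v

theorem A1 : ∀ u v : Fin 6, ∀ z0 : Fin 6, z0 ≠ u → z0 ≠ v → ∀ z1 : Fin 6, z1 ≠ u → z1 ≠ v →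
    ∀ z2 : Fin 6, z2 ≠ u → z2 ≠ v →
    il z1 z2 u v + il z0 z2 u v + il z0 z1 u v = Q z0 z1 z2 u v := by
  decide +kernel

theorem A2 : ∀ x y : Fin 6, ∀ w1 : Fin 6, w1 ≠ x → w1 ≠ y → ∀ w2 : Fin 6, w2 ≠ x → w2 ≠ y →
    ∀ w3 : Fin 6, w3 ≠ x → w3 ≠ y →
    il x y w2 w3 + il x y w1 w3 + il x y w1 w2 = Q w1 w2 w3 x y := by
  decide +kernel

theorem i3_cases {a b c x y z : Fin 6} (h : i3 a b c x y z ≠ 0) :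
    ∀ s, s ≠ x → s ≠ y → s ≠ z → s ≠ a ∧ s ≠ b ∧ s ≠ c := by
  intro s h1 h2 h3
  unfold i3 at h
  split_ifs at h with hh
  · rcases hh with ⟨rfl, rfl, rfl⟩ | ⟨rfl, rfl, rfl⟩ | ⟨rfl, rfl, rfl⟩ | ⟨rfl, rfl, rfl⟩ |
      ⟨rfl, rfl, rfl⟩ | ⟨rfl, rfl, rfl⟩ <;> simp_all
  · exact absurd rfl h

theorem TP (t1 t2 t3 p1 p2 : Fin 6)
    (H : ∀ y : Fin 6, (y ≠ t1 ∧ y ≠ t2 ∧ y ≠ t3) → ∀ z0 : Fin 6, (z0 ≠ t1 ∧ z0 ≠ t2 ∧ z0 ≠ t3 ∧ y ≠ z0) →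
      ∀ z1 : Fin 6, (z1 ≠ t1 ∧ z1 ≠ t2 ∧ z1 ≠ t3 ∧ y ≠ z1) →
      ∀ z2 : Fin 6, (z2 ≠ t1 ∧ z2 ≠ t2 ∧ z2 ≠ t3 ∧ y ≠ z2) →
      i2 p1 p2 z1 z2 + i2 p1 p2 z0 z2 + i2 p1 p2 z0 z1 = 0)
    (w0 w1 w2 z0 z1 z2 y : Fin 6)
    (hy : y ≠ w0 ∧ y ≠ w1 ∧ y ≠ w2 ∧ y ≠ z0 ∧ y ≠ z1 ∧ y ≠ z2)
    (h0 : z0 ≠ w0 ∧ z0 ≠ w1 ∧ z0 ≠ w2) (h1 : z1 ≠ w0 ∧ z1 ≠ w1 ∧ z1 ≠ w2)
    (h2 : z2 ≠ w0 ∧ z2 ≠ w1 ∧ z2 ≠ w2) :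
    i3 t1 t2 t3 w0 w1 w2 * i2 p1 p2 z1 z2 + i3 t1 t2 t3 w0 w1 w2 * i2 p1 p2 z0 z2 +
      i3 t1 t2 t3 w0 w1 w2 * i2 p1 p2 z0 z1 = 0 := by
  by_cases h : i3 t1 t2 t3 w0 w1 w2 = 0
  · simp [h]
  · have hc := i3_cases h
    obtain ⟨a1, a2, a3⟩ := hc y hy.1 hy.2.1 hy.2.2.1
    obtain ⟨b1, b2, b3⟩ := hc z0 h0.1 h0.2.1 h0.2.2
    obtain ⟨c1, c2, c3⟩ := hc z1 h1.1 h1.2.1 h1.2.2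
    obtain ⟨d1, d2, d3⟩ := hc z2 h2.1 h2.2.1 h2.2.2
    rw [← mul_add, ← mul_add,
      H y ⟨a1, a2, a3⟩ z0 ⟨b1, b2, b3, hy.2.2.2.1⟩ z1 ⟨c1, c2, c3, hy.2.2.2.2.1⟩ z2
        ⟨d1, d2, d3, hy.2.2.2.2.2⟩, mul_zero]

/-- `T · dP = 0` -/
theorem A3 (w0 w1 w2 z0 z1 z2 y : Fin 6)
    (hy : y ≠ w0 ∧ y ≠ w1 ∧ y ≠ w2 ∧ y ≠ z0 ∧ y ≠ z1 ∧ y ≠ z2)
    (h0 : z0 ≠ w0 ∧ z0 ≠ w1 ∧ z0 ≠ w2) (h1 : z1 ≠ w0 ∧ z1 ≠ w1 ∧ z1 ≠ w2)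
    (h2 : z2 ≠ w0 ∧ z2 ≠ w1 ∧ z2 ≠ w2) :
    Q w0 w1 w2 z1 z2 + Q w0 w1 w2 z0 z2 + Q w0 w1 w2 z0 z1 = 0 := by
  have e1 := TP 0 2 4 1 3 (by decide +kernel) w0 w1 w2 z0 z1 z2 y hy h0 h1 h2
  have e2 := TP 1 3 5 2 4 (by decide +kernel) w0 w1 w2 z0 z1 z2 y hy h0 h1 h2
  have e3 := TP 0 3 5 2 4 (by decide +kernel) w0 w1 w2 z0 z1 z2 y hy h0 h1 h2
  have e4 := TP 0 3 5 1 4 (by decide +kernel) w0 w1 w2 z0 z1 z2 y hy h0 h1 h2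
  have e5 := TP 0 2 5 1 4 (by decide +kernel) w0 w1 w2 z0 z1 z2 y hy h0 h1 h2
  have e6 := TP 0 2 5 1 3 (by decide +kernel) w0 w1 w2 z0 z1 z2 y hy h0 h1 h2
  unfold Q
  linear_combination e1 + e2 + e3 + e4 + e5 + e6

theorem i3coc1 : ∀ w0 w1 w2 w3 : Fin 6,
    ¬ (w0 ≠ w1 ∧ w0 ≠ w2 ∧ w0 ≠ w3 ∧ w1 ≠ w2 ∧ w1 ≠ w3 ∧ w2 ≠ w3) →
    i3 0 2 4 w1 w2 w3 + i3 0 2 4 w0 w2 w3 + i3 0 2 4 w0 w1 w3 + i3 0 2 4 w0 w1 w2 = 0 ∧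
    i3 1 3 5 w1 w2 w3 + i3 1 3 5 w0 w2 w3 + i3 1 3 5 w0 w1 w3 + i3 1 3 5 w0 w1 w2 = 0 ∧
    i3 0 3 5 w1 w2 w3 + i3 0 3 5 w0 w2 w3 + i3 0 3 5 w0 w1 w3 + i3 0 3 5 w0 w1 w2 = 0 ∧
    i3 0 2 5 w1 w2 w3 + i3 0 2 5 w0 w2 w3 + i3 0 2 5 w0 w1 w3 + i3 0 2 5 w0 w1 w2 = 0 := by
  decide +kernel

theorem A4 (w0 w1 w2 w3 u v : Fin 6)
    (h : ¬ (w0 ≠ w1 ∧ w0 ≠ w2 ∧ w0 ≠ w3 ∧ w1 ≠ w2 ∧ w1 ≠ w3 ∧ w2 ≠ w3)) :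
    Q w1 w2 w3 u v + Q w0 w2 w3 u v + Q w0 w1 w3 u v + Q w0 w1 w2 u v = 0 := by
  obtain ⟨e1, e2, e3, e4⟩ := i3coc1 w0 w1 w2 w3 h
  unfold Q
  linear_combination (i2 1 3 u v) * e1 + (i2 2 4 u v) * e2 + (i2 2 4 u v + i2 1 4 u v) * e3 +
    (i2 1 4 u v + i2 1 3 u v) * e4

theorem two0 (x : ZMod 2) : x + x = 0 := CharTwo.add_self_eq_zero x


/-- the colour identities, in terms of `z`'s, `w`'s and one `y` -/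
theorem ci3' (z0 z1 z2 z3 w0 w1 w2 w3 y : Fin 6)
    (hy : y ≠ w0 ∧ y ≠ w1 ∧ y ≠ w2 ∧ y ≠ w3 ∧ y ≠ z0 ∧ y ≠ z1 ∧ y ≠ z2 ∧ y ≠ z3)
    (h0 : z0 ≠ w0 ∧ z0 ≠ w1 ∧ z0 ≠ w2 ∧ z0 ≠ w3) (h1 : z1 ≠ w0 ∧ z1 ≠ w1 ∧ z1 ≠ w2 ∧ z1 ≠ w3)
    (h2 : z2 ≠ w0 ∧ z2 ≠ w1 ∧ z2 ≠ w2 ∧ z2 ≠ w3) (h3 : z3 ≠ w0 ∧ z3 ≠ w1 ∧ z3 ≠ w2 ∧ z3 ≠ w3)
    (hw : ¬ (w0 ≠ w1 ∧ w0 ≠ w2 ∧ w0 ≠ w3 ∧ w1 ≠ w2 ∧ w1 ≠ w3 ∧ w2 ≠ w3)) :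
    Q z0 z1 z2 w2 w3 + Q w0 w1 w2 z2 z3 =
      (il z1 z2 w2 w3 + Q w1 w2 w3 z1 z3) + (il z0 z2 w2 w3 + Q w0 w2 w3 z0 z3) +
      (il z0 z1 w1 w3 + Q w0 w1 w3 z0 z3) + (il z0 z1 w1 w2 + Q w0 w1 w2 z0 z2) := by
  obtain ⟨y1, y2, y3, y4, y5, y6, y7, y8⟩ := hy
  obtain ⟨a1, a2, a3, a4⟩ := h0
  obtain ⟨b1, b2, b3, b4⟩ := h1
  obtain ⟨c1, c2, c3, c4⟩ := h2
  obtain ⟨d1, d2, d3, d4⟩ := h3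
  have e1 := A1 w2 w3 z0 a3 a4 z1 b3 b4 z2 c3 c4
  have e2 := A2 z0 z1 w1 a2.symm b2.symm w2 a3.symm b3.symm w3 a4.symm b4.symm
  have e3 := A3 w1 w2 w3 z0 z1 z3 y ⟨y2, y3, y4, y5, y6, y8⟩ ⟨a2, a3, a4⟩ ⟨b2, b3, b4⟩ ⟨d2, d3, d4⟩
  have e4 := A3 w0 w1 w2 z0 z2 z3 y ⟨y1, y2, y3, y5, y7, y8⟩ ⟨a1, a2, a3⟩ ⟨c1, c2, c3⟩ ⟨d1, d2, d3⟩
  have e5 := A4 w0 w1 w2 w3 z0 z3 hw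
  have t1 := two0 (Q w0 w1 w2 z2 z3)
  have t2 := two0 (Q w1 w2 w3 z0 z1)
  have t3 := two0 (Q w1 w2 w3 z0 z3)
  have t4 := two0 (Q w0 w1 w2 z0 z3)
  have t5 := two0 (il z0 z1 w2 w3)
  generalize Q z0 z1 z2 w2 w3 = q1 at *
  generalize Q w0 w1 w2 z2 z3 = q2 at *
  generalize Q w1 w2 w3 z1 z3 = q3 at *
  generalize Q w0 w2 w3 z0 z3 = q4 at *
  generalize Q w0 w1 w3 z0 z3 = q5 at *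
  generalize Q w0 w1 w2 z0 z2 = q6 at *
  generalize Q w1 w2 w3 z0 z1 = q7 at *
  generalize Q w1 w2 w3 z0 z3 = q8 at *
  generalize Q w0 w1 w2 z0 z3 = q9 at *
  generalize il z1 z2 w2 w3 = l1 at *
  generalize il z0 z2 w2 w3 = l2 at *
  generalize il z0 z1 w1 w3 = l3 at *
  generalize il z0 z1 w1 w2 = l4 at *
  generalize il z0 z1 w2 w3 = l5 at *
  have two : (2 : ZMod 2) = 0 := rfl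
  linear_combination -e1 - e2 - e3 - e4 + e5 + t1 + t2 + t3 + t4 + t5 - (q8 + q7 + q9 + q4 + q5) * two


theorem ci3 : Spec.CI3 := by
  rintro ⟨y0, z0, w0⟩ ⟨y1, z1, w1⟩ ⟨y2, z2, w2⟩ ⟨y3, z3, w3⟩ ⟨h00, h11, h22, h33, h01, h02, h03, h12, h13, h23, hz, hw⟩
  simp only [ok] at h00 h11 h22 h33 h01 h02 h03 h12 h13 h23 hz hw
  obtain ⟨x1, x2, a3, -, -, a6⟩ := h00
  obtain ⟨-, -, b3, -, -, b6⟩ := h11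
  obtain ⟨-, -, c3, -, -, c6⟩ := h22
  obtain ⟨-, -, d3, -, -, d6⟩ := h33
  obtain ⟨p1, p2, p3, p4, p5, p6⟩ := h01
  obtain ⟨q1, q2, q3, q4, q5, q6⟩ := h02
  obtain ⟨r1, r2, r3, r4, r5, r6⟩ := h03
  obtain ⟨s1, s2, s3, s4, s5, s6⟩ := h12
  obtain ⟨t1, t2, t3, t4, t5, t6⟩ := h13
  obtain ⟨u1, u2, u3, u4, u5, u6⟩ := h23
  have key := ci3' z0 z1 z2 z3 w0 w1 w2 w3 y0 ⟨x2, p2, q2, r2, x1, p1, q1, r1⟩ ⟨a3, p3, q3, r3⟩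
    ⟨p6, b3, s3, t3⟩ ⟨q6, s6, c3, u3⟩ ⟨r6, t6, u6, d3⟩ hw
  simp only [om3, sw3, sw, d2, b2, Q] at key ⊢
  linear_combination key

/-- `s(z0 z1; w) = [w between z0 and z1]` -/
def bt (x y w : Fin 6) : ZMod 2 := if (x < w ∧ w < y) ∨ (y < w ∧ w < x) then 1 else 0

theorem B1 : ∀ w z0 : Fin 6, z0 ≠ w → ∀ z1 : Fin 6, z1 ≠ w → ∀ z2 : Fin 6, z2 ≠ w →
    bt z1 z2 w + bt z0 z2 w + bt z0 z1 w = 0 := by decide +kernel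

theorem B2 : ∀ x y u : Fin 6, u ≠ x → u ≠ y → ∀ v : Fin 6, v ≠ x → v ≠ y →
    bt x y u + bt x y v = il x y u v + il u v x y := by decide +kernel

theorem ci2' (z0 z1 z2 w0 w1 w2 y : Fin 6)
    (hy : y ≠ w0 ∧ y ≠ w1 ∧ y ≠ w2 ∧ y ≠ z0 ∧ y ≠ z1 ∧ y ≠ z2)
    (h0 : z0 ≠ w0 ∧ z0 ≠ w1 ∧ z0 ≠ w2) (h1 : z1 ≠ w0 ∧ z1 ≠ w1 ∧ z1 ≠ w2)
    (h2 : z2 ≠ w0 ∧ z2 ≠ w1 ∧ z2 ≠ w2) :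
    (il z0 z1 w1 w2 + Q w0 w1 w2 z0 z2) + (il w0 w1 z1 z2 + Q z0 z1 z2 w0 w2) =
      (bt z1 z2 w2 + il w1 w2 z1 z2) + (bt z0 z2 w2 + il w0 w2 z0 z2) + (bt z0 z1 w1 + il w0 w1 z0 z1) := by
  obtain ⟨y1, y2, y3, y4, y5, y6⟩ := hy
  obtain ⟨a1, a2, a3⟩ := h0
  obtain ⟨b1, b2, b3⟩ := h1
  obtain ⟨c1, c2, c3⟩ := h2
  have e1 := B1 w2 z0 a3 z1 b3 z2 c3
  have e2 := B2 z0 z1 w1 a2.symm b2.symm w2 a3.symm b3.symm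
  have e3 := A3 w0 w1 w2 z0 z1 z2 y ⟨y1, y2, y3, y4, y5, y6⟩ ⟨a1, a2, a3⟩ ⟨b1, b2, b3⟩ ⟨c1, c2, c3⟩
  have e4 := A1 z1 z2 w0 b1.symm c1.symm w1 b2.symm c2.symm w2 b3.symm c3.symm
  have e6 := A1 z0 z1 w0 a1.symm b1.symm w1 a2.symm b2.symm w2 a3.symm b3.symm
  have e7 := A2 w0 w2 z0 a1 a3 z1 b1 b3 z2 c1 c3
  generalize Q w0 w1 w2 z0 z2 = q1 at *
  generalize Q z0 z1 z2 w0 w2 = q2 at *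
  generalize Q w0 w1 w2 z0 z1 = q3 at *
  generalize Q w0 w1 w2 z1 z2 = q4 at *
  generalize il z0 z1 w1 w2 = l1 at *
  generalize il w0 w1 z1 z2 = l2 at *
  generalize il w1 w2 z1 z2 = l3 at *
  generalize il w0 w2 z0 z2 = l4 at *
  generalize il w0 w1 z0 z1 = l5 at *
  generalize il w1 w2 z0 z1 = l6 at *
  generalize il w0 w2 z1 z2 = l7 at *
  generalize il w1 w2 z0 z2 = l8 at *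
  generalize il w0 w1 z0 z2 = l9 at *
  generalize il w0 w2 z0 z1 = l10 at *
  generalize bt z1 z2 w2 = m1 at *
  generalize bt z0 z2 w2 = m2 at *
  generalize bt z0 z1 w1 = m3 at *
  generalize bt z0 z1 w2 = m4 at *
  have two : (2 : ZMod 2) = 0 := rfl
  linear_combination (exp := 1) e1 - e2 + e3 + e4 + e6 - e7 + (-l3 - m1 - m2 - l5 - l6) * two


theorem ci2 : Spec.CI2 := by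
  rintro ⟨y0, z0, w0⟩ ⟨y1, z1, w1⟩ ⟨y2, z2, w2⟩ ⟨h00, h11, h22, h01, h02, h12⟩
  simp only [ok] at h00 h11 h22 h01 h02 h12
  obtain ⟨x1, x2, a3, -, -, a6⟩ := h00
  obtain ⟨-, -, b3, -, -, b6⟩ := h11
  obtain ⟨-, -, c3, -, -, c6⟩ := h22
  obtain ⟨p1, p2, p3, p4, p5, p6⟩ := h01
  obtain ⟨q1, q2, q3, q4, q5, q6⟩ := h02
  obtain ⟨s1, s2, s3, s4, s5, s6⟩ := h12
  have key := ci2' z0 z1 z2 w0 w1 w2 y0 ⟨x2, p2, q2, x1, p1, q1⟩ ⟨a3, p3, q3⟩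
    ⟨p6, b3, s3⟩ ⟨q6, s6, c3⟩
  simp only [sw2, sw, b2, Q, d1, b1, bt] at key ⊢
  linear_combination key

theorem ci1' : ∀ z0 w0 : Fin 6, z0 ≠ w0 → ∀ z1 : Fin 6, z1 ≠ w0 → ∀ w1 : Fin 6, z0 ≠ w1 → z1 ≠ w1 →
    b1 (0, z0, w0) (0, z1, w1) + sw1 b1 (0, z0, w0) (0, z1, w1) = d0 sg (0, z0, w0) (0, z1, w1) := by
  decide +kernel

theorem ci1 : Spec.CI1 := by
  rintro ⟨y0, z0, w0⟩ ⟨y1, z1, w1⟩ h00 h11 h01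
  simp only [ok] at h00 h11 h01
  obtain ⟨x1, x2, a3, -, -, a6⟩ := h00
  obtain ⟨-, -, b3, -, -, b6⟩ := h11
  obtain ⟨p1, p2, p3, p4, p5, p6⟩ := h01
  exact ci1' z0 w0 a3 z1 p6 w1 p3 b3

end Crest.B29
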