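import Crest.Agent.H29BRDefs

/-!
rid 50: geometric side of the grid proof: statements GEOG and GTOWER.
-/

set_option autoImplicit false

namespace Crest.B29

open Real

abbrev E4 := EuclideanSpace ℝ (Fin 4)

/-- polar coordinates on the unit sphere of the span of `a, b, n` (`n` = north pole), step `π/(4N)` -/
noncomputable def yv (a b n : E4) (N : ℕ) (i j : ℕ) : E4 :=
  sin (i * (π / (4 * N))) • (cos (j * (π / (4 * N))) • a + sin (j * (π / (4 * N))) • b) +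
    cos (i * (π / (4 * N))) • n

namespace Spec

/-- GEOG: a tight 6-colouring of the great sphere of `span(a,b,n)` gives colour data on the grid. -/
def GEOG : Prop := ∀ (a b n : E4), ‖a‖ = 1 → ‖b‖ = 1 → ‖n‖ = 1 → inner ℝ a b = (0:ℝ) → inner ℝ a n = (0:ℝ) →
  inner ℝ b n = (0:ℝ) → ∀ (c : E4 → Fin 6) (δ : ℝ), 0 < δ → (∀ v, c (-v) = c v) →
  (∀ u v : E4, ‖u‖ = 1 → ‖v‖ = 1 → u ∈ Submodule.span ℝ {a, b, n} → v ∈ Submodule.span ℝ {a, b, n} →
    |inner ℝ u v| < δ → c u ≠ c v) →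
  ∃ N0 : ℕ, ∀ N, N0 ≤ N → ∃ G : Grid, G.N = N ∧ ∀ i j, G.Y i j = c (yv a b n N i j)

end Spec

end Crest.B29
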