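import Mathlib

set_option autoImplicit false

namespace Crest.Agent.H29BS

open Finset Classical

variable {ι κ : Type}

/-- flip one bit -/
noncomputable def flip (x : ι → Bool) (i : ι) : ι → Bool := fun j => if j = i then !x j else x j

theorem flip_flip (x : ι → Bool) (i : ι) : flip (flip x i) i = x := by
  funext j
  by_cases h : j = i <;> simp [flip, h]

theorem flip_comm (x : ι → Bool) (i k : ι) : flip (flip x i) k = flip (flip x k) i := by
  funext j
  unfold flip
  split_ifs <;> simp_all

/-- number of neighbours of `x` satisfying `P` -/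
noncomputable def cnt [Fintype ι] (P : (ι → Bool) → Prop) (x : ι → Bool) : ℕ :=
  (univ.filter fun i => P (flip x i)).card

theorem cnt_le [Fintype ι] (P : (ι → Bool) → Prop) (x : ι → Bool) (S : Finset ι)
    (h : ∀ i, P (flip x i) → i ∈ S) : cnt P x ≤ S.card := by
  unfold cnt
  refine card_le_card ?_
  intro i hi
  simp only [mem_filter, mem_univ, true_and] at hi
  exact h i hi

/-- indicator of a block -/
noncomputable def ind (B : Finset ι) : ι → Bool := fun i => decide (i ∈ B)

/-- Hamming distance (classical) -/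
noncomputable def hd [Fintype ι] (x y : ι → Bool) : ℕ := (univ.filter fun i => x i ≠ y i).card

theorem hd_flip_le [Fintype ι] (x y : ι → Bool) (i : ι) : hd (flip x i) y ≤ hd x y + 1 := by
  unfold hd
  refine le_trans (card_le_card (t := insert i (univ.filter fun j => x j ≠ y j)) ?_) (card_insert_le _ _)
  intro j hj
  simp only [mem_filter, mem_univ, true_and, mem_insert] at hj ⊢
  by_cases h : j = i
  · exact Or.inl h
  · right
    simpa [flip, h] using hj

/-- `Ex A T c d`: there is a pair `(Z, O)` with the parameters. -/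
def Ex (A T c d : ℕ) : Prop :=
  ∃ (ι : Type) (_ : Fintype ι) (Z O : (ι → Bool) → Prop),
    (∀ x, Z x → ¬ O x) ∧ (∀ x i, Z x → ¬ O (flip x i)) ∧
    (∀ x, Z x → cnt (fun y => ¬ Z y) x ≤ A) ∧
    (∀ x, ¬ Z x → ¬ O x → cnt Z x + cnt O x ≤ T) ∧
    ∃ (J : Type) (_ : Fintype J) (B : J → Finset ι), Fintype.card J = c ∧
      (∀ j, (B j).Nonempty) ∧ (∀ i j, i ≠ j → Disjoint (B i) (B j)) ∧
      (∀ y, hd y (fun _ => false) ≤ d → Z y) ∧
      (∀ j y, hd y (ind (B j)) ≤ d → O y)

/-- `Fn a b c d`: a Boolean function with 0-sensitivity `≤ a`, 1-sensitivity `≤ b`, `c` disjoint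
blocks, at depth `d`. -/
def Fn (a b c d : ℕ) : Prop :=
  ∃ (ι : Type) (_ : Fintype ι) (F : (ι → Bool) → Prop),
    (∀ x, ¬ F x → cnt F x ≤ a) ∧ (∀ x, F x → cnt (fun y => ¬ F y) x ≤ b) ∧
    ∃ (J : Type) (_ : Fintype J) (B : J → Finset ι), Fintype.card J = c ∧
      (∀ j, (B j).Nonempty) ∧ (∀ i j, i ≠ j → Disjoint (B i) (B j)) ∧
      (∀ y, hd y (fun _ => false) ≤ d → ¬ F y) ∧
      (∀ j y, hd y (ind (B j)) ≤ d → F y)

/-- From a function at depth `d+1` to a pair at depth `d`. -/
theorem Fn.toEx {a b c d : ℕ} (h : Fn a b c (d + 1)) : Ex a (b + a) c d := by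
  obtain ⟨ι, hι, F, ha, hb, J, hJ, B, hc, hne, hdis, h0, h1⟩ := h
  refine ⟨ι, hι, fun x => ¬ F x, fun x => F x ∧ ∀ i, F (flip x i), ?_, ?_, ?_, ?_, J, hJ, B, hc, hne,
    hdis, ?_, ?_⟩
  · intro x hx hO
    exact hx hO.1
  · intro x i hx hO
    have := hO.2 i
    rw [flip_flip] at this
    exact hx this
  · intro x hx
    simpa using ha x hx
  · intro x hx hO
    have hx' : F x := not_not.mp hx
    have hk : ∃ k, ¬ F (flip x k) := by
      by_contra hcon
      push Not at hcon
      exact hO ⟨hx', hcon⟩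
    obtain ⟨k, hk⟩ := hk
    refine add_le_add (hb x hx') ?_
    refine le_trans (card_le_card ?_) (ha (flip x k) hk)
    intro i hi
    simp only [mem_filter, mem_univ, true_and] at hi ⊢
    have h2 := hi.2 k
    rwa [flip_comm] at h2
  · intro y hy
    exact h0 y (le_trans hy (Nat.le_succ d))
  · intro j y hy
    exact ⟨h1 j y (le_trans hy (Nat.le_succ d)), fun i => h1 j _
      (le_trans (hd_flip_le _ _ _) (Nat.add_le_add_right hy 1))⟩

/-- the component of a point of the big cube -/
def comp (x : κ × ι → Bool) (g : κ) : ι → Bool := fun i => x (g, i)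

theorem comp_flip_self (x : κ × ι → Bool) (g : κ) (i : ι) :
    comp (flip x (g, i)) g = flip (comp x g) i := by
  funext j
  by_cases h : j = i <;> simp [flip, comp, h]

theorem comp_flip_ne (x : κ × ι → Bool) {g h : κ} (i : ι) (hgh : h ≠ g) :
    comp (flip x (g, i)) h = comp x h := by
  funext j
  simp [flip, comp, hgh]

theorem hd_comp_le [Fintype ι] [Fintype κ] (x y : κ × ι → Bool) (g : κ) :
    hd (comp x g) (comp y g) ≤ hd x y := by
  unfold hd
  refine card_le_card_of_injOn (fun i => (g, i)) ?_ ?_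
  · intro i hi
    simpa [comp] using hi
  · intro i _ j _ h
    simpa using h

/-- the tournament composition -/
def TF (R : κ → κ → Prop) (Z O : (ι → Bool) → Prop) (x : κ × ι → Bool) : Prop :=
  ∃ g, O (comp x g) ∧ ∀ h, R g h → Z (comp x h)

theorem TF_zero [Fintype ι] [Fintype κ] {R : κ → κ → Prop} {Z O : (ι → Bool) → Prop}
    (hR : ∀ g, ¬ R g g) (hT : ∀ g h, g ≠ h → R g h ∨ R h g)
    (hZO : ∀ x, Z x → ¬ O x) (hZO' : ∀ x i, Z x → ¬ O (flip x i)) {T : ℕ}
    (hstar : ∀ x, ¬ Z x → ¬ O x → cnt Z x + cnt O x ≤ T)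
    (x : κ × ι → Bool) (hx : ¬ TF R Z O x) : cnt (TF R Z O) x ≤ T := by
  -- the property of the special group
  let Q : κ → Prop := fun k => ¬ Z (comp x k) ∧ ¬ O (comp x k) ∧
    ((∀ h, R k h → Z (comp x h)) ∨
      ∃ g, O (comp x g) ∧ R g k ∧ ∀ h, R g h → h ≠ k → Z (comp x h))
  have hQ : ∀ k i, TF R Z O (flip x (k, i)) →
      Q k ∧ (Z (flip (comp x k) i) ∨ O (flip (comp x k) i)) := by
    rintro k i ⟨g, hg, hgh⟩
    by_cases hkg : g = k
    · subst hkg
      rw [comp_flip_self] at hg
      have hout : ∀ h, R g h → Z (comp x h) := by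
        intro h hgh'
        have := hgh h hgh'
        rwa [comp_flip_ne] at this
        rintro rfl
        exact hR _ hgh'
      refine ⟨⟨fun hz => hZO' _ i hz hg, fun ho => hx ⟨g, ho, hout⟩, Or.inl hout⟩, Or.inr hg⟩
    · rw [comp_flip_ne _ _ hkg] at hg
      have hout : ∀ h, R g h → h ≠ k → Z (comp x h) := by
        intro h hgh' hhk
        have := hgh h hgh'
        rwa [comp_flip_ne _ _ hhk] at this
      have hRgk : R g k := by
        by_contra hn
        exact hx ⟨g, hg, fun h hh => hout h hh (by rintro rfl; exact hn hh)⟩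
      have hzk : Z (flip (comp x k) i) := by
        have := hgh k hRgk
        rwa [comp_flip_self] at this
      refine ⟨⟨?_, ?_, Or.inr ⟨g, hg, hRgk, hout⟩⟩, Or.inl hzk⟩
      · intro hz
        refine hx ⟨g, hg, fun h hh => ?_⟩
        by_cases hhk : h = k
        · rw [hhk]; exact hz
        · exact hout h hh hhk
      · intro ho
        have := hZO' _ i hzk
        rw [flip_flip] at this
        exact this ho
  have huniq : ∀ k k', Q k → Q k' → k = k' := by
    intro k k' hk hk'
    by_contra hne
    obtain ⟨hz, ho, h1⟩ := hk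
    obtain ⟨hz', ho', h1'⟩ := hk'
    rcases h1 with h1 | ⟨g, hg, hgk, hgo⟩ <;> rcases h1' with h1' | ⟨g', hg', hgk', hgo'⟩
    · rcases hT k k' hne with h | h
      · exact hz' (h1 _ h)
      · exact hz (h1' _ h)
    · have hkg : k ≠ g' := by rintro rfl; exact ho hg'
      rcases hT k g' hkg with h | h
      · exact hZO _ (h1 _ h) hg'
      · exact hz (hgo' _ h hne)
    · have hkg : k' ≠ g := by rintro rfl; exact ho' hg
      rcases hT k' g hkg with h | h
      · exact hZO _ (h1' _ h) hg
      · exact hz' (hgo _ h (Ne.symm hne))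
    · by_cases hgg : g = g'
      · subst hgg
        exact hz' (hgo _ hgk' (Ne.symm hne))
      · rcases hT g g' hgg with h | h
        · exact hZO _ (hgo _ h (by rintro rfl; exact ho hg')) hg'
        · exact hZO _ (hgo' _ h (by rintro rfl; exact ho' hg)) hg
  -- now count
  by_cases hemp : ∃ k i, TF R Z O (flip x (k, i))
  · obtain ⟨k, i₀, hk⟩ := hemp
    have hQk := (hQ k i₀ hk).1
    have hsub : ∀ p, TF R Z O (flip x p) → p ∈
        ((univ.filter fun i => Z (flip (comp x k) i)) ∪
          (univ.filter fun i => O (flip (comp x k) i))).image (fun i => (k, i)) := by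
      rintro ⟨k', i⟩ hp
      obtain ⟨hQ', hzo⟩ := hQ k' i hp
      have hkk : k = k' := huniq k k' hQk hQ'
      subst hkk
      simp only [mem_image, mem_union, mem_filter, mem_univ, true_and]
      exact ⟨i, hzo, rfl⟩
    calc cnt (TF R Z O) x ≤ _ := cnt_le _ _ _ hsub
      _ ≤ _ := card_image_le
      _ ≤ _ := card_union_le _ _
      _ ≤ T := hstar _ hQk.1 hQk.2.1
  · have : (univ.filter fun p : κ × ι => TF R Z O (flip x p)) = ∅ := by
      ext ⟨k, i⟩
      simp only [mem_filter, mem_univ, true_and]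
      constructor
      · intro h
        exact absurd ⟨k, i, h⟩ hemp
      · intro h
        simp at h
    unfold cnt
    rw [this]
    simp

theorem TF_one [Fintype ι] [Fintype κ] {R : κ → κ → Prop} {Z O : (ι → Bool) → Prop} {A o : ℕ}
    (hA : ∀ x, Z x → cnt (fun y => ¬ Z y) x ≤ A)
    (ho : ∀ g, (univ.filter fun h => R g h).card ≤ o)
    (x : κ × ι → Bool) (hx : TF R Z O x) :
    cnt (fun y => ¬ TF R Z O y) x ≤ Fintype.card ι + o * A := by
  obtain ⟨g, hg, hgh⟩ := hx
  have hsub : ∀ p, (¬ TF R Z O (flip x p)) → p ∈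
      (univ.image fun i => (g, i)) ∪ (univ.filter fun h => R g h).biUnion
        (fun k => (univ.filter fun i => ¬ Z (flip (comp x k) i)).image fun i => (k, i)) := by
    rintro ⟨k, i⟩ hp
    simp only [mem_union, mem_image, mem_univ, true_and, mem_biUnion, mem_filter]
    by_cases hkg : k = g
    · left
      exact ⟨i, by rw [hkg]⟩
    · right
      by_contra hcon
      apply hp
      refine ⟨g, ?_, ?_⟩
      · rw [comp_flip_ne _ _ (Ne.symm hkg)]; exact hg
      · intro h hh
        by_cases hhk : h = k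
        · subst hhk
          rw [comp_flip_self]
          by_contra hz
          exact hcon ⟨h, hh, i, hz, rfl⟩
        · rw [comp_flip_ne _ _ hhk]
          exact hgh h hh
  calc cnt (fun y => ¬ TF R Z O y) x ≤ _ := cnt_le _ _ _ hsub
    _ ≤ _ := card_union_le _ _
    _ ≤ Fintype.card ι + o * A := by
      refine add_le_add ?_ ?_
      · exact le_trans card_image_le (le_of_eq (card_univ))
      · refine le_trans card_biUnion_le ?_
        calc ∑ k ∈ univ.filter (fun h => R g h),
              ((univ.filter fun i => ¬ Z (flip (comp x k) i)).image fun i => (k, i)).card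
            ≤ ∑ k ∈ univ.filter (fun h => R g h), A := by
              refine sum_le_sum fun k hk => ?_
              simp only [mem_filter, mem_univ, true_and] at hk
              refine le_trans card_image_le (le_trans ?_ (hA _ (hgh k hk)))
              unfold cnt
              refine card_le_card fun i hi => ?_
              simpa using hi
          _ ≤ o * A := by
              rw [sum_const, smul_eq_mul]
              exact Nat.mul_le_mul_right _ (ho g)

/-- the rotational tournament on `ZMod (2o+1)` -/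
def RT (o : ℕ) (g h : ZMod (2 * o + 1)) : Prop := 1 ≤ (h - g).val ∧ (h - g).val ≤ o

theorem RT_irrefl (o : ℕ) (g : ZMod (2 * o + 1)) : ¬ RT o g g := by
  simp [RT]

theorem RT_total (o : ℕ) (g h : ZMod (2 * o + 1)) (hne : g ≠ h) : RT o g h ∨ RT o h g := by
  have h1 : h - g ≠ 0 := sub_ne_zero.mpr (Ne.symm hne)
  have h2 : (g - h).val = 2 * o + 1 - (h - g).val := by
    have : g - h = -(h - g) := by ring
    rw [this, ZMod.neg_val]
    simp [h1]
  have h3 : (h - g).val < 2 * o + 1 := ZMod.val_lt _
  have h4 : (h - g).val ≠ 0 := by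
    rw [Ne, ZMod.val_eq_zero]; exact h1
  unfold RT
  rw [h2]
  omega

theorem RT_out (o : ℕ) (g : ZMod (2 * o + 1)) :
    (univ.filter fun h => RT o g h).card ≤ o := by
  have : (univ.filter fun h => RT o g h).card ≤ (Finset.Icc 1 o).card := by
    refine card_le_card_of_injOn (fun h => (h - g).val) ?_ ?_
    · intro h hh
      simp only [coe_filter, mem_univ, true_and, Set.mem_ofPred_eq] at hh
      simp only [coe_Icc, Set.mem_Icc]
      exact hh
    · intro a _ b _ hab
      have := ZMod.val_injective _ hab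
      simpa using this
  simpa using this

/-- The composition step. -/
theorem Ex.toFn {A T c d : ℕ} (h : Ex A T c d) :
    ∃ N : ℕ, ∀ o : ℕ, Fn T (N + o * A) ((2 * o + 1) * c) d := by
  obtain ⟨ι, hι, Z, O, hZO, hZO', hA, hT, J, hJ, B, hc, hne, hdis, h0, h1⟩ := h
  refine ⟨Fintype.card ι, fun o => ?_⟩
  refine ⟨ZMod (2 * o + 1) × ι, inferInstance, TF (RT o) Z O,
    fun x hx => TF_zero (RT_irrefl o) (RT_total o) hZO hZO' hT x hx,
    fun x hx => TF_one hA (RT_out o) x hx,
    ZMod (2 * o + 1) × J, inferInstance, fun p => {p.1} ×ˢ B p.2, ?_, ?_, ?_, ?_, ?_⟩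
  · rw [Fintype.card_prod, ZMod.card, hc]
  · rintro ⟨g, j⟩
    exact (singleton_nonempty g).product (hne j)
  · rintro ⟨g, j⟩ ⟨g', j'⟩ hgj
    rw [Finset.disjoint_left]
    rintro ⟨k, i⟩ h2 h3
    simp only [mem_product, mem_singleton] at h2 h3
    obtain ⟨rfl, h2⟩ := h2
    obtain ⟨rfl, h3⟩ := h3
    have hjj : j ≠ j' := by
      rintro rfl
      exact hgj rfl
    exact (Finset.disjoint_left.mp (hdis j j' hjj)) h2 h3
  · intro y hy hF
    obtain ⟨g, hg, -⟩ := hF
    have hz : Z (comp y g) := h0 _ (le_trans (hd_comp_le y (fun _ => false) g) hy)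
    exact hZO _ hz hg
  · rintro ⟨g, j⟩ y hy
    refine ⟨g, h1 j _ ?_, fun h hh => h0 _ ?_⟩
    · refine le_trans ?_ hy
      have := hd_comp_le y (ind ({g} ×ˢ B j)) g
      have he : comp (ind ({g} ×ˢ B j)) g = ind (B j) := by
        funext i
        simp [comp, ind]
      rwa [he] at this
    · refine le_trans ?_ hy
      have := hd_comp_le y (ind ({g} ×ˢ B j)) h
      have he : comp (ind ({g} ×ˢ B j)) h = fun _ => false := by
        have hne : h ≠ g := by
          rintro rfl
          exact RT_irrefl o _ hh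
        funext i
        simp only [comp, ind, mem_product, mem_singleton, decide_eq_false_iff_not]
        exact fun hcon => hne hcon.1
      rwa [he] at this

end Crest.Agent.H29BS
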