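import Crest.Agent.H29BSA

set_option autoImplicit false

namespace Crest.Agent.H29BS

open Finset Classical

variable {ι κ : Type}

/-! ### The base pair -/

theorem hd_self_le [Fintype ι] (x y : ι → Bool) : hd x y ≤ Fintype.card ι := card_le_univ _

/-- number of ones -/
noncomputable def wt [Fintype ι] (x : ι → Bool) : ℕ := (univ.filter fun i => x i = true).card

theorem wt_le_flip [Fintype ι] (x : ι → Bool) (i : ι) : wt (flip x i) ≤ wt x + 1 := by
  unfold wt
  refine le_trans (card_le_card (t := insert i (univ.filter fun j => x j = true)) ?_)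
    (card_insert_le _ _)
  intro j hj
  simp only [mem_filter, mem_univ, true_and, mem_insert] at hj ⊢
  by_cases h : j = i
  · exact Or.inl h
  · right
    simpa [flip, h] using hj

theorem base (D : ℕ) : Ex (2 * D + 2) (2 * D + 2) 1 D := by
  refine ⟨Fin (2 * D + 2), inferInstance, fun x => wt x ≤ D, fun x => D + 2 ≤ wt x, ?_, ?_, ?_, ?_,
    Unit, inferInstance, fun _ => univ, ?_, ?_, ?_, ?_, ?_⟩
  · intro x hx; omega
  · intro x i hx
    have := wt_le_flip x i
    omega
  · intro x _
    refine le_trans (card_le_univ _) ?_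
    simp
  · intro x _ _
    have hdis : Disjoint (univ.filter fun i => wt (flip x i) ≤ D)
        (univ.filter fun i => D + 2 ≤ wt (flip x i)) := by
      rw [Finset.disjoint_left]
      intro i h1 h2
      simp only [mem_filter, mem_univ, true_and] at h1 h2
      omega
    have h1 : cnt (fun x : Fin (2 * D + 2) → Bool => wt x ≤ D) x ≤
        (univ.filter fun i => wt (flip x i) ≤ D).card :=
      cnt_le _ _ _ fun i hi => by simpa using hi
    have h2 : cnt (fun x : Fin (2 * D + 2) → Bool => D + 2 ≤ wt x) x ≤
        (univ.filter fun i => D + 2 ≤ wt (flip x i)).card :=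
      cnt_le _ _ _ fun i hi => by simpa using hi
    refine le_trans (add_le_add h1 h2) ?_
    rw [← card_union_of_disjoint hdis]
    refine le_trans (card_le_univ _) ?_
    simp
  · simp
  · intro _; exact univ_nonempty
  · intro i j h; exact absurd (Subsingleton.elim i j) h
  · intro y hy
    refine le_trans (card_le_card ?_) hy
    intro i hi
    simp only [mem_filter, mem_univ, true_and] at hi ⊢
    simp [hi]
  · intro _ y hy
    have hsum : (univ.filter fun i => y i = true).card + (univ.filter fun i => ¬ (y i = true)).card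
        = 2 * D + 2 := by
      rw [card_filter_add_card_filter_not]
      simp
    have h2 : (univ.filter fun i => ¬ (y i = true)).card ≤ D := by
      refine le_trans (card_le_card ?_) hy
      intro i hi
      simp only [mem_filter, mem_univ, true_and] at hi ⊢
      simpa [ind] using hi
    show D + 2 ≤ wt y
    unfold wt
    omega

/-- The iteration: from depth `d+1` to depth `d`, the ratio doubles. -/
theorem step {A T c d : ℕ} (h : Ex A T c (d + 1)) (hc : 1 ≤ c) (hT : 2 ≤ T)
    (hr : A * T < 2 * c * 2 ^ (d + 1)) :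
    ∃ A' T' c', Ex A' T' c' d ∧ 1 ≤ c' ∧ 2 ≤ T' ∧ A' * T' < 2 * c' * 2 ^ d := by
  obtain ⟨N, hN⟩ := h.toFn
  set o := T * T + T * N with ho
  refine ⟨T, N + o * A + T, (2 * o + 1) * c, (hN o).toEx, ?_, ?_, ?_⟩
  · exact Nat.one_le_iff_ne_zero.mpr (by positivity)
  · omega
  · have h1 : A * T + 1 ≤ 2 * c * 2 ^ (d + 1) := hr
    have h2 : o * (A * T + 1) ≤ o * (2 * c * 2 ^ (d + 1)) := Nat.mul_le_mul_left _ h1
    have h3 : 0 < 2 ^ d * c := by positivity
    have h4 : 2 * ((2 * o + 1) * c) * 2 ^ d = o * (2 * c * 2 ^ (d + 1)) + 2 * (2 ^ d * c) := by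
      ring
    have h5 : T * (N + o * A + T) = o * (A * T) + o := by
      rw [ho]; ring
    rw [h4, h5]
    have h6 : o * (A * T) + o = o * (A * T + 1) := by ring
    omega

theorem iterate (d : ℕ) : ∀ {A T c : ℕ}, Ex A T c d → 1 ≤ c → 2 ≤ T → A * T < 2 * c * 2 ^ d →
    ∃ A' T' c', Ex A' T' c' 0 ∧ 1 ≤ c' ∧ 2 ≤ T' ∧ A' * T' < 2 * c' := by
  induction d with
  | zero =>
    intro A T c h hc hT hr
    exact ⟨A, T, c, h, hc, hT, by simpa using hr⟩
  | succ d ih =>
    intro A T c h hc hT hr
    obtain ⟨A', T', c', h', hc', hT', hr'⟩ := step h hc hT hr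
    exact ih h' hc' hT' hr'

theorem exists_good_pair : ∃ A T c, Ex A T c 0 ∧ 1 ≤ c ∧ 2 ≤ T ∧ A * T < 2 * c :=
  iterate 8 (base 8) le_rfl (by norm_num) (by norm_num)

/-! ### OR of `k` copies -/

def ORF (k : ℕ) (F : (ι → Bool) → Prop) (x : Fin k × ι → Bool) : Prop :=
  ∃ a, F (comp x a)

theorem Fn.or {a b c d : ℕ} (h : Fn a b c d) (k : ℕ) : Fn (k * a) b (k * c) d := by
  obtain ⟨ι, hι, F, ha, hb, J, hJ, B, hc, hne, hdis, h0, h1⟩ := h
  refine ⟨Fin k × ι, inferInstance, ORF k F, ?_, ?_, Fin k × J, inferInstance,
    fun p => {p.1} ×ˢ B p.2, ?_, ?_, ?_, ?_, ?_⟩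
  · intro x hx
    have hx' : ∀ a, ¬ F (comp x a) := by
      intro a ha'
      exact hx ⟨a, ha'⟩
    have hsub : ∀ p, ORF k F (flip x p) → p ∈ (univ : Finset (Fin k)).biUnion
        (fun a => (univ.filter fun i => F (flip (comp x a) i)).image fun i => (a, i)) := by
      rintro ⟨a, i⟩ ⟨a', hp⟩
      by_cases haa : a' = a
      · subst haa
        rw [comp_flip_self] at hp
        simp only [mem_biUnion, mem_univ, true_and, mem_image, mem_filter]
        exact ⟨a', i, hp, rfl⟩
      · rw [comp_flip_ne _ _ haa] at hp
        exact absurd hp (hx' a')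
    calc cnt (ORF k F) x ≤ _ := cnt_le _ _ _ hsub
      _ ≤ _ := card_biUnion_le
      _ ≤ ∑ _a : Fin k, a := sum_le_sum fun i _ => le_trans card_image_le (ha _ (hx' i))
      _ = k * a := by simp
  · intro x hx
    obtain ⟨a', hp⟩ := hx
    have hsub : ∀ p, (¬ ORF k F (flip x p)) → p ∈
        (univ.filter fun i => ¬ F (flip (comp x a') i)).image fun i => (a', i) := by
      rintro ⟨a, i⟩ hq
      have haa : a' = a := by
        by_contra hne'
        apply hq
        refine ⟨a', ?_⟩
        rw [comp_flip_ne _ _ hne']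
        exact hp
      subst haa
      simp only [mem_image, mem_filter, mem_univ, true_and]
      refine ⟨i, fun hF => hq ⟨a', ?_⟩, rfl⟩
      rw [comp_flip_self]
      exact hF
    refine le_trans (cnt_le _ _ _ hsub) (le_trans card_image_le (le_trans ?_ (hb _ hp)))
    unfold cnt
    refine card_le_card fun i hi => ?_
    simpa using hi
  · rw [Fintype.card_prod, Fintype.card_fin, hc]
  · rintro ⟨g, j⟩
    exact (singleton_nonempty g).product (hne j)
  · rintro ⟨g, j⟩ ⟨g', j'⟩ hgj
    rw [Finset.disjoint_left]
    rintro ⟨k, i⟩ h2 h3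
    simp only [mem_product, mem_singleton] at h2 h3
    obtain ⟨rfl, h2⟩ := h2
    obtain ⟨rfl, h3⟩ := h3
    have hjj : j ≠ j' := by
      rintro rfl
      exact hgj rfl
    exact (Finset.disjoint_left.mp (hdis j j' hjj)) h2 h3
  · intro y hy hF
    obtain ⟨g, hg⟩ := hF
    exact h0 _ (le_trans (hd_comp_le y (fun _ => false) g) hy) hg
  · rintro ⟨g, j⟩ y hy
    refine ⟨g, h1 j _ ?_⟩
    refine le_trans ?_ hy
    have := hd_comp_le y (ind ({g} ×ˢ B j)) g
    have he : comp (ind ({g} ×ˢ B j)) g = ind (B j) := by
      funext i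
      simp [comp, ind]
    rwa [he] at this

/-! ### Functions with small sensitivity -/

/-- `Good s c`: a function with sensitivity `≤ s`, value 0 at 0, and `c` disjoint blocks at 0. -/
def Good (s c : ℕ) : Prop :=
  ∃ (ι : Type) (_ : Fintype ι) (F : (ι → Bool) → Prop),
    (∀ x, cnt (fun y => ¬ (F y ↔ F x)) x ≤ s) ∧ (¬ F fun _ => false) ∧
    ∃ (J : Type) (_ : Fintype J) (B : J → Finset ι), Fintype.card J = c ∧
      (∀ j, (B j).Nonempty) ∧ (∀ i j, i ≠ j → Disjoint (B i) (B j)) ∧
      (∀ j, F (ind (B j)))

theorem Fn.good {a b c d s : ℕ} (h : Fn a b c d) (ha : a ≤ s) (hb : b ≤ s) : Good s c := by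
  obtain ⟨ι, hι, F, ha', hb', J, hJ, B, hc, hne, hdis, h0, h1⟩ := h
  refine ⟨ι, hι, F, ?_, h0 _ ?_, J, hJ, B, hc, hne, hdis, fun j => h1 j _ ?_⟩
  · intro x
    by_cases hx : F x
    · refine le_trans (cnt_le _ _ (univ.filter fun i => ¬ F (flip x i)) ?_) (le_trans ?_ (hb' x hx |>.trans hb))
      · intro i hi
        simp only [mem_filter, mem_univ, true_and]
        intro hF
        exact hi (iff_of_true hF hx)
      · unfold cnt
        refine card_le_card fun i hi => ?_
        simpa using hi
    · refine le_trans (cnt_le _ _ (univ.filter fun i => F (flip x i)) ?_) ((ha' x hx).trans ha)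
      intro i hi
      simp only [mem_filter, mem_univ, true_and]
      by_contra hF
      exact hi (iff_of_false hF hx)
  · simp [hd]
  · simp [hd]

theorem exists_good : ∃ s c, Good s c ∧ 2 ≤ s ∧ s ^ 2 < c := by
  obtain ⟨A, T, c, h, hc, hT, hr⟩ := exists_good_pair
  obtain ⟨N, hN⟩ := h.toFn
  set t := (N + 1) * T with ht
  set k := A * t + N + 1 with hk
  have hF := (hN (T * t)).or k
  have hle : N + T * t * A ≤ k * T := by
    have h1 : k * T = T * t * A + (N + 1) * T := by rw [hk]; ring
    have h2 : N ≤ (N + 1) * T := by nlinarith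
    omega
  refine ⟨k * T, _, hF.good le_rfl hle, ?_, ?_⟩
  · have : 1 ≤ k := by omega
    nlinarith
  · have hk1 : 1 ≤ k := by omega
    have key : k * T ^ 2 < (2 * (T * t) + 1) * c := by
      have h1 : A * T + 1 ≤ 2 * c := hr
      have h2 : (T * t) * (A * T + 1) ≤ (T * t) * (2 * c) := Nat.mul_le_mul_left _ h1
      have h3 : k * T ^ 2 = (T * t) * (A * T) + T * t := by
        rw [hk, ht]; ring
      have h4 : (2 * (T * t) + 1) * c = (T * t) * (2 * c) + c := by ring
      have h5 : (T * t) * (A * T) + T * t = (T * t) * (A * T + 1) := by ring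
      omega
    calc (k * T) ^ 2 = k * (k * T ^ 2) := by ring
      _ < k * ((2 * (T * t) + 1) * c) := Nat.mul_lt_mul_of_pos_left key (by omega)

/-! ### Composition -/

theorem Good.mul {s c s' c' : ℕ} (h : Good s c) (h' : Good s' c') : Good (s * s') (c * c') := by
  obtain ⟨ι, hι, F, hs, h0, J, hJ, B, hc, hne, hdis, h1⟩ := h
  obtain ⟨ι', hι', F', hs', h0', J', hJ', B', hc', hne', hdis', h1'⟩ := h'
  let y : (ι × ι' → Bool) → ι → Bool := fun x i => decide (F' (comp x i))
  refine ⟨ι × ι', inferInstance, fun x => F (y x), ?_, ?_, J × J', inferInstance,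
    fun p => B p.1 ×ˢ B' p.2, ?_, ?_, ?_, ?_⟩
  · intro x
    have hsub : ∀ p, (¬ (F (y (flip x p)) ↔ F (y x))) → p ∈
        (univ.filter fun i => ¬ (F (flip (y x) i) ↔ F (y x))).biUnion
          (fun i => (univ.filter fun u => ¬ (F' (flip (comp x i) u) ↔ F' (comp x i))).image
            fun u => (i, u)) := by
      rintro ⟨i, u⟩ hp
      have hcases : ∀ j, y (flip x (i, u)) j = if j = i then decide (F' (flip (comp x i) u)) else y x j := by
        intro j
        by_cases hj : j = i
        · subst hj
          simp only [if_true, y]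
          rw [comp_flip_self]
        · simp only [hj, if_false, y]
          rw [comp_flip_ne _ _ hj]
      by_cases hu : (F' (flip (comp x i) u) ↔ F' (comp x i))
      · exfalso
        apply hp
        have : y (flip x (i, u)) = y x := by
          funext j
          rw [hcases]
          by_cases hj : j = i
          · subst hj
            simp [y, hu]
          · simp [hj]
        rw [this]
      · have hy : y (flip x (i, u)) = flip (y x) i := by
          funext j
          rw [hcases]
          by_cases hj : j = i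
          · subst hj
            by_cases h2 : F' (comp x j) <;> simp_all [y, flip]
          · simp [hj, flip]
        rw [hy] at hp
        simp only [mem_biUnion, mem_filter, mem_univ, true_and, mem_image]
        exact ⟨i, hp, u, hu, rfl⟩
    refine le_trans (cnt_le _ _ _ hsub) (le_trans card_biUnion_le ?_)
    calc ∑ i ∈ univ.filter (fun i => ¬ (F (flip (y x) i) ↔ F (y x))),
          ((univ.filter fun u => ¬ (F' (flip (comp x i) u) ↔ F' (comp x i))).image
            fun u => (i, u)).card
        ≤ ∑ i ∈ univ.filter (fun i => ¬ (F (flip (y x) i) ↔ F (y x))), s' := by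
          refine sum_le_sum fun i _ => le_trans card_image_le (le_trans ?_ (hs' (comp x i)))
          unfold cnt
          refine card_le_card fun i hi => ?_
          simpa using hi
      _ ≤ s * s' := by
          rw [sum_const, smul_eq_mul]
          refine Nat.mul_le_mul_right _ (le_trans ?_ (hs (y x)))
          unfold cnt
          refine card_le_card fun i hi => ?_
          simpa using hi
  · have : y (fun _ => false) = fun _ => false := by
      funext i
      simp only [y, decide_eq_false_iff_not]
      exact h0'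
    show ¬ F (y fun _ => false)
    rw [this]
    exact h0
  · rw [Fintype.card_prod, hc, hc']
  · rintro ⟨j, j'⟩
    exact (hne j).product (hne' j')
  · rintro ⟨j, j'⟩ ⟨l, l'⟩ hjl
    rw [Finset.disjoint_left]
    rintro ⟨k, i⟩ h2 h3
    simp only [mem_product] at h2 h3
    by_cases hj : j = l
    · subst hj
      have hjj : j' ≠ l' := by
        rintro rfl
        exact hjl rfl
      exact (Finset.disjoint_left.mp (hdis' j' l' hjj)) h2.2 h3.2
    · exact (Finset.disjoint_left.mp (hdis j l hj)) h2.1 h3.1
  · rintro ⟨j, j'⟩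
    have : y (ind (B j ×ˢ B' j')) = ind (B j) := by
      funext i
      by_cases hi : i ∈ B j
      · have he : comp (ind (B j ×ˢ B' j')) i = ind (B' j') := by
          funext u
          simp [comp, ind, hi]
        simp only [y, he, ind, hi, decide_true, decide_eq_true_eq]
        exact h1' j'
      · have he : comp (ind (B j ×ˢ B' j')) i = fun _ => false := by
          funext u
          simp [comp, ind, hi]
        simp only [y, he, ind, hi, decide_false, decide_eq_false_iff_not]
        exact h0'
    show F (y (ind (B j ×ˢ B' j')))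
    rw [this]
    exact h1 j

theorem Good.one : Good 1 1 := by
  refine ⟨Unit, inferInstance, fun x => x () = true, ?_, by simp, Unit, inferInstance,
    fun _ => univ, by simp, fun _ => univ_nonempty, fun i j h => absurd (Subsingleton.elim i j) h, ?_⟩
  · intro x
    refine le_trans (card_le_univ _) ?_
    simp
  · intro j
    simp [ind]

theorem Good.pow {s c : ℕ} (h : Good s c) (k : ℕ) : Good (s ^ k) (c ^ k) := by
  induction k with
  | zero => simpa using Good.one
  | succ k ih =>
    rw [pow_succ, pow_succ]
    exact ih.mul h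

end Crest.Agent.H29BS
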