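import Crest.Prelude.Def_Sensitivity
import Crest.Agent.H29BSB

set_option autoImplicit false

namespace Crest.Agent.H29BS

open Finset Classical Crest.BoolCube

theorem blockAt_ge {n m : ℕ} (f : (Fin n → Bool) → Bool) (x : Fin n → Bool)
    (B : Fin m → Finset (Fin n)) (hB : IsSensitiveBlockFamily f x B) :
    m ≤ blockSensitivityAt f x := by
  unfold blockSensitivityAt
  refine le_csSup ?_ ⟨B, hB⟩
  refine ⟨n, ?_⟩
  rintro m' ⟨B', hne, hdis, -⟩
  choose g hg using hne
  have hinj : Function.Injective g := by
    intro i j hij
    by_contra hne'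
    exact (Finset.disjoint_left.mp (hdis i j hne')) (hg i) (hij ▸ hg j)
  simpa using Fintype.card_le_of_injective g hinj

theorem transfer {s c : ℕ} (h : Good s c) : ∃ (n : ℕ) (f : (Fin n → Bool) → Bool),
    sensitivity f ≤ s ∧ c ≤ blockSensitivity f ∧ (1 ≤ c → ∃ x y, f x ≠ f y) := by
  obtain ⟨ι, hι, F, hs, h0, J, hJ, B, hc, hne, hdis, h1⟩ := h
  let e : ι ≃ Fin (Fintype.card ι) := Fintype.equivFin ι
  let f : (Fin (Fintype.card ι) → Bool) → Bool := fun x => decide (F fun i => x (e i))
  have hflip : ∀ (x : Fin (Fintype.card ι) → Bool) (S : Finset ι),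
      (fun i => flipCoords x (S.map e.toEmbedding) (e i)) = fun i => if i ∈ S then !x (e i) else x (e i) := by
    intro x S
    funext i
    simp [flipCoords]
  have hblock : ∀ j : J, f (flipCoords (fun _ => false) ((B j).map e.toEmbedding)) = true := by
    intro j
    simp only [f, decide_eq_true_eq]
    rw [hflip]
    have : (fun i => if i ∈ B j then !false else false) = ind (B j) := by
      funext i
      by_cases hi : i ∈ B j <;> simp [ind, hi]
    rw [this]
    exact h1 j
  have hzero : f (fun _ => false) = false := by
    simp only [f, decide_eq_false_iff_not]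
    exact h0
  refine ⟨Fintype.card ι, f, ?_, ?_, ?_⟩
  · unfold sensitivity
    refine Finset.sup_le fun x _ => ?_
    refine le_trans ?_ (hs fun i => x (e i))
    unfold sensitivityAt cnt
    refine card_le_card_of_injOn e.symm ?_ (e.symm.injective.injOn)
    intro a ha
    simp only [coe_filter, mem_univ, true_and, Set.mem_ofPred_eq] at ha ⊢
    intro hiff
    apply ha
    simp only [f]
    have hfl : (fun i => flipCoords x {a} (e i)) = H29BS.flip (fun i => x (e i)) (e.symm a) := by
      funext i
      by_cases hi : i = e.symm a
      · subst hi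
        simp [flipCoords, H29BS.flip]
      · have : e i ≠ a := by
          rintro rfl
          simp at hi
        simp [flipCoords, H29BS.flip, hi, this]
    rw [hfl]
    exact decide_eq_decide.mpr hiff
  · unfold blockSensitivity
    refine le_trans ?_ (Finset.le_sup (f := blockSensitivityAt f) (mem_univ (fun _ => false)))
    let eJ : Fin c ≃ J := (finCongr hc.symm).trans (Fintype.equivFin J).symm
    refine blockAt_ge f _ (fun m => (B (eJ m)).map e.toEmbedding) ⟨?_, ?_, ?_⟩
    · intro m
      exact (hne _).map
    · intro i j hij
      rw [Finset.disjoint_map]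
      exact hdis _ _ (fun h => hij (eJ.injective h))
    · intro m
      rw [hblock, hzero]
      simp
  · intro hc1
    have : Nonempty J := Fintype.card_pos_iff.mp (by omega)
    obtain ⟨j⟩ := this
    refine ⟨flipCoords (fun _ => false) ((B j).map e.toEmbedding), fun _ => false, ?_⟩
    rw [hblock, hzero]
    simp

end Crest.Agent.H29BS
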