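import Mathlib

/-! The determinant lemma `PT` (rid 341). -/

set_option autoImplicit false

namespace Crest.Agent.H29

open Matrix
open scoped ComplexOrder

/-- the determinant inequality -/
def PTn (n : Type) [Fintype n] [DecidableEq n] : Prop :=
  ∀ (R V : Matrix n n ℂ) (ω : n → ℝ), R.PosDef → (∀ v, 0 ≤ ω v) →
    (∀ v, (V - Matrix.single v v (ω v : ℂ)).PosSemidef) →
    R.det.re * ∏ v, (1 + ω v / (R v v).re) ≤ (R + V).det.re

theorem single_posSemidef {n : Type*} [Fintype n] [DecidableEq n] (v : n) {w : ℝ} (hw : 0 ≤ w) :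
    (Matrix.single v v (w : ℂ)).PosSemidef := by
  rw [← Matrix.diagonal_single]
  apply PosSemidef.diagonal
  intro i
  by_cases h : i = v
  · subst h; simp [hw]
  · simp [h]

theorem pt_step {m : Type} [Fintype m] [DecidableEq m] (ih : PTn m) : PTn (Unit ⊕ m) := by
  intro R V ω hR hω hV
  obtain ⟨A, B, C, D, rfl⟩ : ∃ A B C D, R = fromBlocks A B C D :=
    ⟨_, _, _, _, (fromBlocks_toBlocks R).symm⟩
  obtain ⟨A', B', C', D', rfl⟩ : ∃ A' B' C' D', V = fromBlocks A' B' C' D' :=
    ⟨_, _, _, _, (fromBlocks_toBlocks V).symm⟩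
  have hVps : (fromBlocks A' B' C' D').PosSemidef := by
    have := (hV (Sum.inl ())).add (single_posSemidef (Sum.inl ()) (hω (Sum.inl ())))
    simpa using this
  obtain ⟨hA1, hC, -, hD1⟩ := isHermitian_fromBlocks_iff.1 hR.1
  obtain ⟨hA1', hC', -, hD1'⟩ := isHermitian_fromBlocks_iff.1 hVps.1
  subst hC
  subst hC'
  have hA : A.PosDef := by
    have := hR.submatrix (e := (Sum.inl : Unit → Unit ⊕ m)) Sum.inl_injective
    have e : (fromBlocks A B Bᴴ D).submatrix Sum.inl Sum.inl = A := by ext i j; rfl
    rwa [e] at this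
  have hA'ps : A'.PosSemidef := by
    have := hVps.submatrix (Sum.inl : Unit → Unit ⊕ m)
    have e : (fromBlocks A' B' B'ᴴ D').submatrix Sum.inl Sum.inl = A' := by ext i j; rfl
    rwa [e] at this
  have hAA : (A + A').PosDef := hA.add_posSemidef hA'ps
  have := hA.isUnit.invertible
  have := hAA.isUnit.invertible
  -- entries
  have ha : 0 < (A () ()).re ∧ (A () ()).im = 0 := by
    have := hA.diag_pos (i := ())
    rw [Complex.lt_def] at this
    exact ⟨by simpa using this.1, by simpa using this.2.symm⟩
  have ha' : ω (Sum.inl ()) ≤ (A' () ()).re ∧ (A' () ()).im = 0 := by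
    have := (hV (Sum.inl ())).diag_nonneg (i := Sum.inl ())
    rw [Complex.le_def] at this
    simp at this
    exact ⟨by linarith [this.1], this.2.symm⟩
  set R'' := D - Bᴴ * A⁻¹ * B with hR''
  set S := (D + D') - (B + B')ᴴ * (A + A')⁻¹ * (B + B') with hS
  have hdetR : (fromBlocks A B Bᴴ D).det = A () () * R''.det := by
    rw [det_fromBlocks₁₁, det_unique, invOf_eq_nonsing_inv]
  have hdetRV : (fromBlocks A B Bᴴ D + fromBlocks A' B' B'ᴴ D').det
      = (A () () + A' () ()) * S.det := by
    rw [fromBlocks_add, ← conjTranspose_add, det_fromBlocks₁₁, det_unique, invOf_eq_nonsing_inv]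
    rfl
  have hR''ps : R''.PosSemidef := (PosDef.fromBlocks₁₁ B D hA).1 hR.posSemidef
  have hR''pd : R''.PosDef := by
    rw [hR''ps.posDef_iff_det_ne_zero]
    intro h0
    have := hR.det_pos
    rw [hdetR, h0, mul_zero] at this
    exact lt_irrefl _ this
  have hW : ∀ v : m, ((S - R'') - Matrix.single v v (ω (Sum.inr v) : ℂ)).PosSemidef := by
    intro v
    have h1 : (fromBlocks A B Bᴴ (Bᴴ * A⁻¹ * B)).PosSemidef := by
      rw [PosDef.fromBlocks₁₁ B _ hA, sub_self]
      exact PosSemidef.zero
    have h2 := h1.add (hV (Sum.inr v))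
    have e : Matrix.single (Sum.inr v) (Sum.inr v) (ω (Sum.inr v) : ℂ)
        = fromBlocks (0 : Matrix Unit Unit ℂ) 0 0 (Matrix.single v v (ω (Sum.inr v) : ℂ)) := by
      ext i j
      rcases i with i | i <;> rcases j with j | j <;> simp [Matrix.single_apply]
    rw [e, sub_eq_add_neg, fromBlocks_neg, fromBlocks_add, fromBlocks_add] at h2
    simp only [neg_zero, add_zero] at h2
    rw [← sub_eq_add_neg] at h2
    rw [← conjTranspose_add, PosDef.fromBlocks₁₁ _ _ hAA] at h2
    have e2 : (S - R'') - Matrix.single v v (ω (Sum.inr v) : ℂ)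
        = Bᴴ * A⁻¹ * B + (D' - Matrix.single v v (ω (Sum.inr v) : ℂ))
          - (B + B')ᴴ * (A + A')⁻¹ * (B + B') := by
      rw [hS, hR'']; abel
    rw [e2]
    exact h2
  have key := ih R'' (S - R'') (fun v => ω (Sum.inr v)) hR''pd (fun v => hω _) hW
  rw [add_sub_cancel] at key
  -- diagonal comparison
  have hdiag : ∀ v : m, 0 < (R'' v v).re ∧ (R'' v v).re ≤ (D v v).re := by
    intro v
    have h1 := hR''pd.diag_pos (i := v)
    rw [Complex.lt_def] at h1
    refine ⟨by simpa using h1.1, ?_⟩
    have h2 : (Bᴴ * A⁻¹ * B).PosSemidef := hA.inv.posSemidef.conjTranspose_mul_mul_same B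
    have h3 := h2.diag_nonneg (i := v)
    rw [Complex.le_def] at h3
    have h4 : (R'' v v).re = (D v v).re - ((Bᴴ * A⁻¹ * B) v v).re := by
      rw [hR'', Matrix.sub_apply, Complex.sub_re]
    rw [h4]
    have := h3.1
    simp only [Complex.zero_re] at this
    linarith
  have hprod : ∏ v : m, (1 + ω (Sum.inr v) / (D v v).re)
      ≤ ∏ v : m, (1 + ω (Sum.inr v) / (R'' v v).re) := by
    refine Finset.prod_le_prod (fun v _ => ?_) fun v _ => ?_
    · have := hω (Sum.inr v)
      have := (hdiag v).1
      have := (hdiag v).2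
      have : 0 < (D v v).re := by linarith
      positivity
    · have h1 := hω (Sum.inr v)
      have h2 := (hdiag v).1
      have h3 := (hdiag v).2
      have := div_le_div_of_nonneg_left h1 h2 h3
      linarith
  have hdetpos : 0 < R''.det.re := by
    have := hR''pd.det_pos
    rw [Complex.lt_def] at this
    simpa using this.1
  have hmulre : ∀ (x z : ℂ), x.im = 0 → (x * z).re = x.re * z.re := by
    intro x z hx
    rw [Complex.mul_re, hx, zero_mul, sub_zero]
  rw [hdetR, hdetRV, hmulre _ _ ha.2, hmulre _ _ (by rw [Complex.add_im, ha.2, ha'.2, add_zero])]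
  rw [Fintype.prod_sum_type]
  simp only [Finset.univ_unique, PUnit.default_eq_unit, Finset.prod_singleton, fromBlocks_apply₁₁,
    fromBlocks_apply₂₂, Complex.add_re]
  calc (A () ()).re * R''.det.re *
        ((1 + ω (Sum.inl ()) / (A () ()).re) * ∏ v : m, (1 + ω (Sum.inr v) / (D v v).re))
      = ((A () ()).re + ω (Sum.inl ())) * (R''.det.re * ∏ v : m, (1 + ω (Sum.inr v) / (D v v).re)) := by
        have := ha.1
        field_simp
    _ ≤ ((A () ()).re + (A' () ()).re) * S.det.re := by
        have h0 := hω (Sum.inl ())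
        have h1 : R''.det.re * ∏ v : m, (1 + ω (Sum.inr v) / (D v v).re) ≤ S.det.re :=
          le_trans (mul_le_mul_of_nonneg_left hprod hdetpos.le) key
        have h2 : 0 ≤ R''.det.re * ∏ v : m, (1 + ω (Sum.inr v) / (D v v).re) := by
          apply mul_nonneg hdetpos.le
          refine Finset.prod_nonneg fun v _ => ?_
          have := hω (Sum.inr v)
          have := (hdiag v).1
          have := (hdiag v).2
          have : 0 < (D v v).re := by linarith
          positivity
        apply mul_le_mul (by linarith [ha'.1]) h1 h2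
        linarith [ha'.1, ha.1]

theorem pt_equiv {n n' : Type} [Fintype n] [DecidableEq n] [Fintype n'] [DecidableEq n']
    (f : n ≃ n') (h : PTn n) : PTn n' := by
  intro R V ω hR hω hV
  have := h (R.submatrix f f) (V.submatrix f f) (fun v => ω (f v))
    (hR.submatrix f.injective) (fun v => hω _) (by
      intro v
      have h1 := (hV (f v)).submatrix f
      have e : (V - Matrix.single (f v) (f v) (ω (f v) : ℂ)).submatrix f f
          = V.submatrix f f - Matrix.single v v (ω (f v) : ℂ) := by
        ext i j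
        simp [Matrix.single_apply]
      rwa [e] at h1)
  have e2 : R.submatrix f f + V.submatrix f f = (R + V).submatrix f f := rfl
  rw [e2, det_submatrix_equiv_self, det_submatrix_equiv_self] at this
  refine le_trans (le_of_eq ?_) this
  congr 1
  rw [← Equiv.prod_comp f]
  rfl

theorem pt (n : Type) [hf : Fintype n] [hd : DecidableEq n] : PTn n := by
  have main : ∀ (α : Type) [Finite α], ∀ [Fintype α] [DecidableEq α], PTn α := by
    intro α _
    apply Finite.induction_empty_option (P := fun α => ∀ [Fintype α] [DecidableEq α], PTn α)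
    · intro α β f h _ _
      classical
      have : Fintype α := Fintype.ofEquiv β f.symm
      exact pt_equiv f h
    · intro _ _ R V ω hR hω hV
      simp
    · intro α _ h _ _
      classical
      have h1 : PTn (Unit ⊕ α) := pt_step h
      exact pt_equiv ((Equiv.sumComm _ _).trans (Equiv.optionEquivSumPUnit α).symm) h1
  exact main n

end Crest.Agent.H29
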