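import Mathlib
import Crest.Prelude.Def_QState
import Crest.Prelude.Def_QChannel
import Crest.Prelude.Def_AmpDamp

/-!
# Project rid 341 (S0534 + S0535): additivity for the generalized amplitude damping channel

Owner: helper29.  This file only contains definitions and the *statements* (as `Prop`s) of the
modules.  Everything follows from

* `Key`   : the operator entropy inequality `(*)`
            `S((Φ⊗id)M) ≥ F(p) + (1-p) S(A) + p S(D)`  (helper29 proves it),
* `FConv` : convexity of `F` on `[0,1]`,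
* basic facts on `vnEntropy` (Peierls/Jensen, tensor products, subadditivity).
-/

set_option autoImplicit false

namespace Crest.Agent.H29

open Crest.Quantum Crest.MathPhysics.AmpDamp Matrix
open scoped ComplexOrder

/-- `F(p)`: output entropy of the pure phase-covariant input with excitation `p`. -/
noncomputable def FF (γ ν p : ℝ) : ℝ :=
  Real.binEntropy ((1 + Real.sqrt (1 - 4 * (γ * ν * (1 - ν) + γ * (1 - γ) * (p - ν) ^ 2))) / 2)

/-- `(Φ ⊗ id) M` for `Φ = gadMap γ ν`, on `Bool × e`. -/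
noncomputable def gadT {e : Type*} (γ ν : ℝ) (M : Matrix (Bool × e) (Bool × e) ℂ) :
    Matrix (Bool × e) (Bool × e) ℂ :=
  Matrix.of fun x y => gadMap γ ν (Matrix.of fun s t => M (s, x.2) (t, y.2)) x.1 y.1

/-- excitation probability of the qubit of a matrix on `Bool × e`. -/
noncomputable def pex {e : Type*} [Fintype e] (M : Matrix (Bool × e) (Bool × e) ℂ) : ℝ :=
  (block M true true).trace.re

/-- **Key inequality** `(*)` (unnormalised blocks: `A = block M false false` has trace `1-p`,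
`D = block M true true` has trace `p`). -/
def Key : Prop :=
  ∀ (γ ν : ℝ), γ ∈ Set.Icc (0 : ℝ) 1 → ν ∈ Set.Icc (0 : ℝ) 1 →
  ∀ (e : Type) [Fintype e] [DecidableEq e] (M : Matrix (Bool × e) (Bool × e) ℂ), IsDensity M →
    FF γ ν (pex M) + (vnEntropy (block M false false) - Real.negMulLog (1 - pex M))
      + (vnEntropy (block M true true) - Real.negMulLog (pex M)) ≤ vnEntropy (gadT γ ν M)

/-- Convexity of `F` on `[0,1]`. -/
def FConv : Prop :=
  ∀ (γ ν : ℝ), γ ∈ Set.Icc (0 : ℝ) 1 → ν ∈ Set.Icc (0 : ℝ) 1 →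
    ConvexOn ℝ (Set.Icc (0 : ℝ) 1) (FF γ ν)

/-! ### basic facts on `vnEntropy` (all for arbitrary finite index types in `Type`) -/

/-- Peierls: diagonal entropy dominates. -/
def Peierls : Prop :=
  ∀ (d : Type) [Fintype d] [DecidableEq d] (ρ : Matrix d d ℂ), ρ.PosSemidef →
    vnEntropy ρ ≤ ∑ i, Real.negMulLog (ρ i i).re

/-- unitary invariance. -/
def UnitaryInv : Prop :=
  ∀ (d : Type) [Fintype d] [DecidableEq d] (ρ : Matrix d d ℂ) (U : Matrix d d ℂ),
    ρ.PosSemidef → U * Uᴴ = 1 → vnEntropy (U * ρ * Uᴴ) = vnEntropy ρ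

/-- invariance under relabelling. -/
def ReindexInv : Prop :=
  ∀ (d d' : Type) [Fintype d] [DecidableEq d] [Fintype d'] [DecidableEq d'] (f : d' ≃ d)
    (ρ : Matrix d d ℂ), ρ.PosSemidef → vnEntropy (ρ.submatrix f f) = vnEntropy ρ

/-- scaling. -/
def SmulEnt : Prop :=
  ∀ (d : Type) [Fintype d] [DecidableEq d] (ρ : Matrix d d ℂ) (c : ℝ), ρ.PosSemidef → 0 ≤ c →
    vnEntropy ((c : ℂ) • ρ) = c * vnEntropy ρ + Real.negMulLog c * ρ.trace.re

/-- concavity, in homogeneous form. -/
def SuperAdd : Prop :=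
  ∀ (d : Type) [Fintype d] [DecidableEq d] (ρ σ : Matrix d d ℂ), ρ.PosSemidef → σ.PosSemidef →
    vnEntropy ρ + vnEntropy σ - Real.negMulLog ρ.trace.re - Real.negMulLog σ.trace.re
      + Real.negMulLog (ρ.trace.re + σ.trace.re) ≤ vnEntropy (ρ + σ)

/-- additivity on product states (index set `Bool × e`; more generally `d × e`). -/
def ProdEnt : Prop :=
  ∀ (d e : Type) [Fintype d] [DecidableEq d] [Fintype e] [DecidableEq e]
    (ρ : Matrix d d ℂ) (σ : Matrix e e ℂ), IsDensity ρ → IsDensity σ →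
    vnEntropy (Matrix.of fun (x y : d × e) => ρ x.1 y.1 * σ x.2 y.2) = vnEntropy ρ + vnEntropy σ

/-- subadditivity on `d × e`. -/
def SubAdd : Prop :=
  ∀ (d e : Type) [Fintype d] [DecidableEq d] [Fintype e] [DecidableEq e]
    (ρ : Matrix (d × e) (d × e) ℂ), IsDensity ρ →
    vnEntropy ρ ≤ vnEntropy (Matrix.of fun s t => ∑ i, ρ (s, i) (t, i))
      + vnEntropy (Matrix.of fun i j => ∑ s, ρ (s, i) (s, j))

end Crest.Agent.H29
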