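import Mathlib
import Crest.Agent.H29Spec

/-! Basic facts on `vnEntropy`. -/

set_option autoImplicit false

namespace Crest.Agent.H29

open Crest.Quantum Crest.MathPhysics.AmpDamp Matrix Real
open scoped ComplexOrder

section
variable {d : Type*} [Fintype d] [DecidableEq d]

theorem vn_eq_sum {ρ : Matrix d d ℂ} (h : ρ.IsHermitian) :
    vnEntropy ρ = ∑ i, negMulLog (h.eigenvalues i) := by
  unfold vnEntropy
  rw [dif_pos h, ← Finset.sum_neg_distrib]
  exact Finset.sum_congr rfl fun i _ => by simp [negMulLog]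

theorem vn_eq_roots {ρ : Matrix d d ℂ} (h : ρ.IsHermitian) :
    vnEntropy ρ = (ρ.charpoly.roots.map (fun z : ℂ => negMulLog z.re)).sum := by
  rw [vn_eq_sum h, h.roots_charpoly_eq_eigenvalues, Multiset.map_map]
  rfl

theorem vn_congr {d' : Type*} [Fintype d'] [DecidableEq d'] {ρ : Matrix d d ℂ}
    {σ : Matrix d' d' ℂ} (h : ρ.IsHermitian) (h' : σ.IsHermitian)
    (hc : ρ.charpoly = σ.charpoly) : vnEntropy ρ = vnEntropy σ := by
  rw [vn_eq_roots h, vn_eq_roots h', hc]

theorem vn_unitary {ρ U : Matrix d d ℂ} (h : ρ.IsHermitian) (hU : U * Uᴴ = 1) :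
    vnEntropy (U * ρ * Uᴴ) = vnEntropy ρ := by
  apply vn_congr _ h
  · rw [charpoly_mul_comm, ← mul_assoc, mul_eq_one_comm.mp hU, one_mul]
  · exact isHermitian_mul_mul_conjTranspose _ h

theorem vn_reindex {d' : Type*} [Fintype d'] [DecidableEq d'] {ρ : Matrix d d ℂ}
    (h : ρ.IsHermitian) (f : d' ≃ d) : vnEntropy (ρ.submatrix f f) = vnEntropy ρ := by
  apply vn_congr (h.submatrix f) h
  have := charpoly_reindex f.symm ρ
  simpa [reindex_apply] using this

theorem vn_diagonal (x : d → ℝ) :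
    vnEntropy (diagonal (fun i => (x i : ℂ))) = ∑ i, negMulLog (x i) := by
  have h : (diagonal (fun i => (x i : ℂ))).IsHermitian := by
    apply isHermitian_diagonal_of_self_adjoint
    ext i; simp
  rw [vn_eq_roots h, charpoly_diagonal, Polynomial.roots_prod]
  · simp
  · simp [Finset.prod_ne_zero_iff, Polynomial.X_sub_C_ne_zero]

/-- spectral decomposition in a convenient form -/
theorem exists_unitary {ρ : Matrix d d ℂ} (h : ρ.IsHermitian) :
    ∃ U : Matrix d d ℂ, U * Uᴴ = 1 ∧ Uᴴ * U = 1 ∧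
      ρ = U * diagonal (fun i => (h.eigenvalues i : ℂ)) * Uᴴ := by
  refine ⟨h.eigenvectorUnitary, ?_, ?_, ?_⟩
  · have := (Matrix.mem_unitaryGroup_iff).1 h.eigenvectorUnitary.2
    simpa [star_eq_conjTranspose] using this
  · have := (Matrix.mem_unitaryGroup_iff').1 h.eigenvectorUnitary.2
    simpa [star_eq_conjTranspose] using this
  · have := h.spectral_theorem
    rw [Unitary.conjStarAlgAut_apply] at this
    conv_lhs => rw [this]
    rfl

theorem vn_smul {ρ : Matrix d d ℂ} (h : ρ.IsHermitian) (c : ℝ) :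
    vnEntropy ((c : ℂ) • ρ) = c * vnEntropy ρ + negMulLog c * ρ.trace.re := by
  obtain ⟨U, hU, hU', hρ⟩ := exists_unitary h
  have h1 : (c : ℂ) • ρ = U * diagonal (fun i => ((c * h.eigenvalues i : ℝ) : ℂ)) * Uᴴ := by
    conv_lhs => rw [hρ]
    have : diagonal (fun i => ((c * h.eigenvalues i : ℝ) : ℂ))
        = (c : ℂ) • diagonal (fun i => (h.eigenvalues i : ℂ)) := by
      rw [← diagonal_smul]; congr 1; ext i; simp
    rw [this]; simp
  have hd : (diagonal (fun i => ((c * h.eigenvalues i : ℝ) : ℂ))).IsHermitian := by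
    apply isHermitian_diagonal_of_self_adjoint
    ext i; simp
  rw [h1, vn_unitary hd hU, vn_diagonal, vn_eq_sum h]
  have ht : ρ.trace.re = ∑ i, h.eigenvalues i := by
    rw [h.trace_eq_sum_eigenvalues]; simp
  rw [ht, Finset.mul_sum, Finset.mul_sum, ← Finset.sum_add_distrib]
  refine Finset.sum_congr rfl fun i _ => ?_
  rw [negMulLog_mul]; ring

theorem row_sum_one {U : Matrix d d ℂ} (hU : U * Uᴴ = 1) (i : d) :
    ∑ j, ‖U i j‖ ^ 2 = 1 := by
  have := congrFun (congrFun hU i) i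
  simp only [mul_apply, conjTranspose_apply, one_apply_eq, RCLike.star_def] at this
  have h2 : ∀ j, U i j * (starRingEnd ℂ) (U i j) = ((‖U i j‖ ^ 2 : ℝ) : ℂ) := by
    intro j; rw [Complex.mul_conj, Complex.normSq_eq_norm_sq]
  simp only [h2] at this
  exact_mod_cast this

theorem diag_conj {U : Matrix d d ℂ} (x : d → ℝ) (i : d) :
    ((U * diagonal (fun j => (x j : ℂ)) * Uᴴ) i i) = ((∑ j, ‖U i j‖ ^ 2 * x j : ℝ) : ℂ) := by
  rw [mul_apply]
  simp only [mul_diagonal, conjTranspose_apply, RCLike.star_def]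
  push_cast
  refine Finset.sum_congr rfl fun j _ => ?_
  have h2 : U i j * (starRingEnd ℂ) (U i j) = ((‖U i j‖ ^ 2 : ℝ) : ℂ) := by
    rw [Complex.mul_conj, Complex.normSq_eq_norm_sq]
  rw [mul_right_comm, h2]; push_cast; ring

theorem peierls {ρ : Matrix d d ℂ} (hρ : ρ.PosSemidef) :
    vnEntropy ρ ≤ ∑ i, negMulLog (ρ i i).re := by
  obtain ⟨U, hU, hU', h⟩ := exists_unitary hρ.1
  have hx : ∀ i, (ρ i i).re = ∑ j, ‖U i j‖ ^ 2 * hρ.1.eigenvalues j := by
    intro i
    conv_lhs => rw [h]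
    rw [diag_conj, Complex.ofReal_re]
  have hcol : ∀ j, ∑ i, ‖U i j‖ ^ 2 = 1 := by
    intro j
    have := row_sum_one (U := Uᴴ) (by simpa using hU') j
    simpa using this
  rw [vn_eq_sum hρ.1]
  calc ∑ j, negMulLog (hρ.1.eigenvalues j)
      = ∑ i, ∑ j, ‖U i j‖ ^ 2 * negMulLog (hρ.1.eigenvalues j) := by
        rw [Finset.sum_comm]
        refine Finset.sum_congr rfl fun j _ => ?_
        rw [← Finset.sum_mul, hcol, one_mul]
    _ ≤ ∑ i, negMulLog (ρ i i).re := by
        refine Finset.sum_le_sum fun i _ => ?_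
        rw [hx i]
        have := concaveOn_negMulLog.le_map_sum (t := Finset.univ) (w := fun j => ‖U i j‖ ^ 2)
          (p := fun j => hρ.1.eigenvalues j) (fun j _ => by positivity) (row_sum_one hU i)
          (fun j _ => hρ.eigenvalues_nonneg j)
        simpa using this

theorem vn_nonneg {ρ : Matrix d d ℂ} (hρ : IsDensity ρ) : 0 ≤ vnEntropy ρ := by
  rw [vn_eq_sum hρ.1.1]
  refine Finset.sum_nonneg fun i _ => ?_
  have hn := fun i => hρ.1.eigenvalues_nonneg i
  have ht : ∑ i, hρ.1.1.eigenvalues i = 1 := by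
    have h1 := hρ.1.1.trace_eq_sum_eigenvalues
    have h2 := hρ.2
    rw [h1] at h2
    have h3 := congrArg Complex.re h2
    simpa using h3
  refine negMulLog_nonneg (hn i) ?_
  rw [← ht]
  exact Finset.single_le_sum (f := fun i => hρ.1.1.eigenvalues i) (fun j _ => hn j) (Finset.mem_univ i)

/-- the two-point log-sum inequality -/
theorem negMulLog_add_eq {x y : ℝ} (hx : 0 ≤ x) (hy : 0 ≤ y) :
    negMulLog x + negMulLog y - negMulLog (x + y) = (x + y) * binEntropy (x / (x + y)) := by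
  rcases eq_or_lt_of_le (add_nonneg hx hy) with h | h
  · have hx0 : x = 0 := by linarith
    have hy0 : y = 0 := by linarith
    simp [hx0, hy0]
  · have h1 : 1 - x / (x + y) = y / (x + y) := by field_simp; ring
    rw [binEntropy_eq_negMulLog_add_negMulLog_one_sub, h1]
    have e1 : negMulLog x = x / (x+y) * negMulLog (x + y) + (x + y) * negMulLog (x / (x + y)) := by
      rw [← negMulLog_mul]; congr 1; field_simp
    have e2 : negMulLog y = y / (x+y) * negMulLog (x + y) + (x + y) * negMulLog (y / (x + y)) := by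
      rw [← negMulLog_mul]; congr 1; field_simp
    have e3 : x / (x+y) + y/(x+y) = 1 := by field_simp
    rw [e1, e2]
    linear_combination (negMulLog (x+y)) * e3

theorem logsum {ι : Type*} (s : Finset ι) (x y : ι → ℝ) (hx : ∀ i ∈ s, 0 ≤ x i)
    (hy : ∀ i ∈ s, 0 ≤ y i) :
    ∑ i ∈ s, (negMulLog (x i) + negMulLog (y i) - negMulLog (x i + y i))
      ≤ negMulLog (∑ i ∈ s, x i) + negMulLog (∑ i ∈ s, y i)
        - negMulLog (∑ i ∈ s, x i + ∑ i ∈ s, y i) := by
  have hX : 0 ≤ ∑ i ∈ s, x i := Finset.sum_nonneg hx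
  have hY : 0 ≤ ∑ i ∈ s, y i := Finset.sum_nonneg hy
  rw [negMulLog_add_eq hX hY]
  have h1 : ∑ i ∈ s, (negMulLog (x i) + negMulLog (y i) - negMulLog (x i + y i))
      = ∑ i ∈ s, (x i + y i) * binEntropy (x i / (x i + y i)) :=
    Finset.sum_congr rfl fun i hi => negMulLog_add_eq (hx i hi) (hy i hi)
  rw [h1]
  set X := ∑ i ∈ s, x i with hXdef
  set Y := ∑ i ∈ s, y i with hYdef
  rcases eq_or_lt_of_le (add_nonneg hX hY) with h | h
  · have hall : ∀ i ∈ s, x i + y i = 0 := by
      have hs : ∑ i ∈ s, (x i + y i) = 0 := by rw [Finset.sum_add_distrib]; exact h.symm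
      exact (Finset.sum_eq_zero_iff_of_nonneg (fun i hi => add_nonneg (hx i hi) (hy i hi))).1 hs
    rw [← h, zero_mul]
    apply le_of_eq
    exact Finset.sum_eq_zero fun i hi => by rw [hall i hi, zero_mul]
  · have hw : ∑ i ∈ s, (x i + y i) / (X + Y) = 1 := by
      rw [← Finset.sum_div, Finset.sum_add_distrib]; exact div_self h.ne'
    have := strictConcave_binEntropy.concaveOn.le_map_sum (t := s)
      (w := fun i => (x i + y i) / (X + Y)) (p := fun i => x i / (x i + y i))
      (fun i hi => div_nonneg (add_nonneg (hx i hi) (hy i hi)) h.le) hw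
      (fun i hi => ⟨div_nonneg (hx i hi) (add_nonneg (hx i hi) (hy i hi)),
        div_le_one_of_le₀ (by linarith [hy i hi]) (add_nonneg (hx i hi) (hy i hi))⟩)
    have e : ∑ i ∈ s, ((x i + y i) / (X + Y)) • (x i / (x i + y i)) = X / (X + Y) := by
      rw [hXdef, Finset.sum_div]
      refine Finset.sum_congr rfl fun i hi => ?_
      rcases eq_or_lt_of_le (add_nonneg (hx i hi) (hy i hi)) with h0 | h0
      · have hx0 : x i = 0 := by linarith [hx i hi, hy i hi]
        simp [hx0]
      · simp only [smul_eq_mul]; field_simp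
    rw [e] at this
    have h2 := mul_le_mul_of_nonneg_left this h.le
    refine le_trans (le_of_eq ?_) h2
    rw [Finset.mul_sum]
    refine Finset.sum_congr rfl fun i _ => ?_
    simp only [smul_eq_mul]; field_simp

theorem superadd {ρ σ : Matrix d d ℂ} (hρ : ρ.PosSemidef) (hσ : σ.PosSemidef) :
    vnEntropy ρ + vnEntropy σ - negMulLog ρ.trace.re - negMulLog σ.trace.re
      + negMulLog (ρ.trace.re + σ.trace.re) ≤ vnEntropy (ρ + σ) := by
  have hN := hρ.add hσ
  obtain ⟨U, hU, hU', h⟩ := exists_unitary hN.1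
  set V := Uᴴ with hV
  have hVV : V * Vᴴ = 1 := by simpa [hV] using hU'
  have hρ' : (V * ρ * Vᴴ).PosSemidef := hρ.mul_mul_conjTranspose_same V
  have hσ' : (V * σ * Vᴴ).PosSemidef := hσ.mul_mul_conjTranspose_same V
  have e1 : vnEntropy ρ = vnEntropy (V * ρ * Vᴴ) := (vn_unitary hρ.1 hVV).symm
  have e2 : vnEntropy σ = vnEntropy (V * σ * Vᴴ) := (vn_unitary hσ.1 hVV).symm
  have p1 := peierls hρ'
  have p2 := peierls hσ'
  have hdiag : V * (ρ + σ) * Vᴴ = diagonal (fun i => (hN.1.eigenvalues i : ℂ)) := by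
    conv_lhs => rw [h]
    simp only [hV, conjTranspose_conjTranspose]
    calc Uᴴ * (U * diagonal (fun i => (hN.1.eigenvalues i : ℂ)) * Uᴴ) * U
        = (Uᴴ * U) * diagonal (fun i => (hN.1.eigenvalues i : ℂ)) * (Uᴴ * U) := by
          simp only [mul_assoc]
      _ = _ := by rw [hU']; simp
  have e3 : vnEntropy (ρ + σ)
      = ∑ i, negMulLog (((V * ρ * Vᴴ) i i).re + ((V * σ * Vᴴ) i i).re) := by
    rw [vn_eq_sum hN.1]
    refine Finset.sum_congr rfl fun i _ => ?_
    have := congrFun (congrFun hdiag i) i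
    rw [mul_add, add_mul, Matrix.add_apply, diagonal_apply_eq] at this
    have h3 := congrArg Complex.re this
    rw [Complex.add_re, Complex.ofReal_re] at h3
    rw [h3]
  have t1 : ∑ i, ((V * ρ * Vᴴ) i i).re = ρ.trace.re := by
    have : (V * ρ * Vᴴ).trace = ρ.trace := by
      rw [trace_mul_comm, ← mul_assoc, mul_eq_one_comm.mp hVV, one_mul]
    rw [← this, trace, Complex.re_sum]; rfl
  have t2 : ∑ i, ((V * σ * Vᴴ) i i).re = σ.trace.re := by
    have : (V * σ * Vᴴ).trace = σ.trace := by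
      rw [trace_mul_comm, ← mul_assoc, mul_eq_one_comm.mp hVV, one_mul]
    rw [← this, trace, Complex.re_sum]; rfl
  have nn1 : ∀ i, 0 ≤ ((V * ρ * Vᴴ) i i).re := fun i => (Complex.le_def.1 (hρ'.diag_nonneg (i := i))).1
  have nn2 : ∀ i, 0 ≤ ((V * σ * Vᴴ) i i).re := fun i => (Complex.le_def.1 (hσ'.diag_nonneg (i := i))).1
  have ls := logsum Finset.univ (fun i => ((V * ρ * Vᴴ) i i).re)
    (fun i => ((V * σ * Vᴴ) i i).re) (fun i _ => nn1 i) (fun i _ => nn2 i)
  rw [t1, t2, Finset.sum_sub_distrib, Finset.sum_add_distrib] at ls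
  rw [e1, e2, e3]
  linarith

/-- `det (t + ρ) = ∏ (t + λ)` -/
theorem det_shift {ρ : Matrix d d ℂ} (h : ρ.IsHermitian) (t : ℝ) :
    ((t : ℂ) • (1 : Matrix d d ℂ) + ρ).det = ((∏ i, (t + h.eigenvalues i) : ℝ) : ℂ) := by
  obtain ⟨U, hU, hU', hd⟩ := exists_unitary h
  have : (t : ℂ) • (1 : Matrix d d ℂ) + ρ
      = U * diagonal (fun i => ((t + h.eigenvalues i : ℝ) : ℂ)) * Uᴴ := by
    have e : diagonal (fun i => ((t + h.eigenvalues i : ℝ) : ℂ))
        = (t : ℂ) • (1 : Matrix d d ℂ) + diagonal (fun i => (h.eigenvalues i : ℂ)) := by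
      ext i j
      by_cases hij : i = j
      · subst hij; simp
      · simp [hij]
    rw [e, mul_add, add_mul, ← hd]
    simp [hU]
  rw [this, det_mul, det_mul, det_diagonal]
  have h2 : U.det * Uᴴ.det = 1 := by rw [← det_mul, hU, det_one]
  calc U.det * (∏ i, ((t + h.eigenvalues i : ℝ) : ℂ)) * Uᴴ.det
      = (U.det * Uᴴ.det) * ∏ i, ((t + h.eigenvalues i : ℝ) : ℂ) := by ring
    _ = _ := by rw [h2, one_mul]; push_cast; rfl

theorem log_det_shift {ρ : Matrix d d ℂ} (h : ρ.PosSemidef) {t : ℝ} (ht : 0 < t) :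
    Real.log ((t : ℂ) • (1 : Matrix d d ℂ) + ρ).det.re
      = ∑ i, Real.log (t + h.1.eigenvalues i) := by
  rw [det_shift h.1, Complex.ofReal_re, Real.log_prod]
  intro i _
  have := h.eigenvalues_nonneg i
  positivity

end

theorem peierls_spec : Peierls := fun _ _ _ _ h => peierls h
theorem unitaryInv_spec : UnitaryInv := fun _ _ _ _ _ h hU => vn_unitary h.1 hU
theorem reindexInv_spec : ReindexInv := fun _ _ _ _ _ _ f _ h => vn_reindex h.1 f
theorem smulEnt_spec : SmulEnt := fun _ _ _ _ c h _ => vn_smul h.1 c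
theorem superAdd_spec : SuperAdd := fun _ _ _ _ _ h h' => superadd h h'

end Crest.Agent.H29
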