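import Mathlib

/-! The mono lemma and the scalar function `f3` (rid 341). -/

set_option autoImplicit false

namespace Crest.Agent.H29

open Real Filter Topology

theorem mono_lemma {ι : Type*} [Fintype ι] (c x : ι → ℝ) (hx : ∀ i, 0 ≤ x i)
    (h0 : ∑ i, c i = 0) (h1 : ∑ i, c i * x i = 0)
    (h : ∀ t : ℝ, 0 < t → 0 ≤ ∑ i, c i * log (t + x i)) :
    0 ≤ ∑ i, c i * negMulLog (x i) := by
  set H : ℝ → ℝ := fun T => ∑ i, c i * negMulLog (T + x i) with hH
  have hcont : Continuous H := by
    refine continuous_finsetSum _ fun i _ => ?_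
    exact continuous_const.mul (continuous_negMulLog.comp (continuous_id.add continuous_const))
  have hderiv : ∀ T > 0, HasDerivAt H (∑ i, c i * (- log (T + x i) - 1)) T := by
    intro T hT
    refine HasDerivAt.fun_sum fun i _ => ?_
    apply HasDerivAt.const_mul
    have h2 : T + x i ≠ 0 := by have := hx i; positivity
    have := (hasDerivAt_negMulLog h2).comp T ((hasDerivAt_id T).add_const (x i))
    simpa [Function.comp_def] using this
  have hanti : AntitoneOn H (Set.Ici 0) := by
    apply antitoneOn_of_deriv_nonpos (convex_Ici 0) hcont.continuousOn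
    · intro T hT
      rw [interior_Ici] at hT
      exact (hderiv T hT).differentiableAt.differentiableWithinAt
    · intro T hT
      rw [interior_Ici] at hT
      rw [(hderiv T hT).deriv]
      have : ∑ i, c i * (- log (T + x i) - 1)
          = - ∑ i, c i * log (T + x i) - ∑ i, c i := by
        rw [← Finset.sum_neg_distrib, ← Finset.sum_sub_distrib]
        exact Finset.sum_congr rfl fun i _ => by ring
      rw [this, h0]
      have := h T hT
      linarith
  have hlim : Tendsto H atTop (𝓝 0) := by
    have e1 : ∀ᶠ T in atTop, H T = ∑ i, (- c i) * ((T * log (1 + x i / T)) + x i * log (1 + x i / T)) := by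
      filter_upwards [eventually_gt_atTop 0] with T hT
      have e2 : H T = ∑ i, ((- c i) * ((T * log (1 + x i / T)) + x i * log (1 + x i / T))
          + (- (T * log T)) * c i + (- log T) * (c i * x i)) := by
        refine Finset.sum_congr rfl fun i _ => ?_
        have hxi := hx i
        have e3 : T + x i = T * (1 + x i / T) := by field_simp
        have e4 : log (T + x i) = log T + log (1 + x i / T) := by
          rw [e3, log_mul hT.ne' (by positivity)]
        rw [negMulLog, e4]; ring
      rw [e2, Finset.sum_add_distrib, Finset.sum_add_distrib, ← Finset.mul_sum, ← Finset.mul_sum,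
        h0, h1]
      ring
    have e5 : Tendsto (fun T => ∑ i, (- c i) * ((T * log (1 + x i / T)) + x i * log (1 + x i / T)))
        atTop (𝓝 (∑ i, (- c i) * (x i + x i * log (1 + 0)))) := by
      refine tendsto_finsetSum _ fun i _ => ?_
      apply Tendsto.const_mul
      apply Tendsto.add (tendsto_mul_log_one_add_div_atTop (x i))
      apply Tendsto.const_mul
      have e6 : Tendsto (fun T : ℝ => 1 + x i / T) atTop (𝓝 (1 + 0)) :=
        tendsto_const_nhds.add (tendsto_const_nhds.div_atTop tendsto_id)
      exact e6.log (by norm_num)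
    have e7 : ∑ i, (- c i) * (x i + x i * log (1 + 0)) = 0 := by
      have e8 : ∑ i, (- c i) * (x i + x i * log (1 + 0)) = - ∑ i, c i * x i := by
        rw [← Finset.sum_neg_distrib]
        refine Finset.sum_congr rfl fun i _ => ?_
        rw [add_zero, log_one]; ring
      rw [e8, h1, neg_zero]
    rw [e7] at e5
    exact e5.congr' (e1.mono fun T hT => hT.symm)
  have hge : 0 ≤ H 0 := by
    refine le_of_tendsto hlim ?_
    filter_upwards [eventually_ge_atTop 0] with T hT
    exact hanti (Set.mem_Ici.2 le_rfl) (Set.mem_Ici.2 hT) hT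
  simpa [hH] using hge

/-- two-family version -/
theorem mono2 {ι κ : Type*} [Fintype ι] [Fintype κ] (x : ι → ℝ) (y : κ → ℝ)
    (hx : ∀ i, 0 ≤ x i) (hy : ∀ i, 0 ≤ y i) (hcard : Fintype.card ι = Fintype.card κ)
    (hsum : ∑ i, x i = ∑ i, y i)
    (h : ∀ t : ℝ, 0 < t → ∑ i, log (t + y i) ≤ ∑ i, log (t + x i)) :
    ∑ i, negMulLog (y i) ≤ ∑ i, negMulLog (x i) := by
  have := mono_lemma (ι := ι ⊕ κ) (Sum.elim (fun _ => 1) (fun _ => -1)) (Sum.elim x y)
    (by rintro (i | i) <;> simp [hx, hy]) (by simp [hcard])
    (by simp [hsum]) (by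
      intro t ht
      have := h t ht
      simpa using this)
  simpa using this

noncomputable def lamP (a b c : ℝ) : ℝ := ((a + b + c) + √((a + b + c) ^ 2 - 4 * b * c)) / 2
noncomputable def lamM (a b c : ℝ) : ℝ := ((a + b + c) - √((a + b + c) ^ 2 - 4 * b * c)) / 2

/-- the scalar entropy defect -/
noncomputable def f3 (a b c : ℝ) : ℝ :=
  negMulLog a + negMulLog b + negMulLog c - negMulLog (lamP a b c) - negMulLog (lamM a b c)

theorem disc_nonneg {a b c : ℝ} (ha : 0 ≤ a) (hb : 0 ≤ b) (hc : 0 ≤ c) :
    0 ≤ (a + b + c) ^ 2 - 4 * b * c := by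
  have : (a + b + c) ^ 2 - 4 * b * c = (a + b - c) ^ 2 + 4 * a * c := by ring
  rw [this]; positivity

theorem lam_add (a b c : ℝ) : lamP a b c + lamM a b c = a + b + c := by
  unfold lamP lamM; ring

theorem lam_mul {a b c : ℝ} (ha : 0 ≤ a) (hb : 0 ≤ b) (hc : 0 ≤ c) :
    lamP a b c * lamM a b c = b * c := by
  unfold lamP lamM
  have := Real.sq_sqrt (disc_nonneg ha hb hc)
  linear_combination (-1/4) * this

theorem lamP_nonneg {a b c : ℝ} (ha : 0 ≤ a) (hb : 0 ≤ b) (hc : 0 ≤ c) : 0 ≤ lamP a b c := by
  unfold lamP; positivity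

theorem lamM_nonneg {a b c : ℝ} (ha : 0 ≤ a) (hb : 0 ≤ b) (hc : 0 ≤ c) : 0 ≤ lamM a b c := by
  unfold lamM
  have : √((a + b + c) ^ 2 - 4 * b * c) ≤ a + b + c := by
    rw [Real.sqrt_le_left (by positivity)]
    have : 0 ≤ b * c := by positivity
    nlinarith
  linarith

theorem lam_shift {a b c : ℝ} (ha : 0 ≤ a) (hb : 0 ≤ b) (hc : 0 ≤ c) (t : ℝ) :
    (t + lamP a b c) * (t + lamM a b c) = (t + b) * (t + c) + t * a := by
  linear_combination t * lam_add a b c + lam_mul ha hb hc

theorem lamP_smul {k : ℝ} (hk : 0 ≤ k) (a b c : ℝ) :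
    lamP (k * a) (k * b) (k * c) = k * lamP a b c := by
  unfold lamP
  have : (k * a + k * b + k * c) ^ 2 - 4 * (k * b) * (k * c)
      = k ^ 2 * ((a + b + c) ^ 2 - 4 * b * c) := by ring
  rw [this, Real.sqrt_mul (by positivity), Real.sqrt_sq hk]; ring

theorem lamM_smul {k : ℝ} (hk : 0 ≤ k) (a b c : ℝ) :
    lamM (k * a) (k * b) (k * c) = k * lamM a b c := by
  unfold lamM
  have : (k * a + k * b + k * c) ^ 2 - 4 * (k * b) * (k * c)
      = k ^ 2 * ((a + b + c) ^ 2 - 4 * b * c) := by ring
  rw [this, Real.sqrt_mul (by positivity), Real.sqrt_sq hk]; ring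

theorem f3_smul {k : ℝ} (hk : 0 ≤ k) (a b c : ℝ) :
    f3 (k * a) (k * b) (k * c) = k * f3 a b c := by
  unfold f3
  rw [lamP_smul hk, lamM_smul hk]
  simp only [negMulLog_mul]
  have := lam_add a b c
  linear_combination (- negMulLog k) * this

theorem f3_zero {b c : ℝ} : f3 0 b c = 0 := by
  unfold f3
  have e : (0 + b + c) ^ 2 - 4 * b * c = (b - c) ^ 2 := by ring
  have h : √((0 + b + c) ^ 2 - 4 * b * c) = |b - c| := by rw [e, Real.sqrt_sq_eq_abs]
  rcases le_total c b with hbc | hbc
  · have e1 : lamP 0 b c = b := by unfold lamP; rw [h, abs_of_nonneg (by linarith)]; ring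
    have e2 : lamM 0 b c = c := by unfold lamM; rw [h, abs_of_nonneg (by linarith)]; ring
    rw [e1, e2]; simp
  · have e1 : lamP 0 b c = c := by unfold lamP; rw [h, abs_of_nonpos (by linarith)]; ring
    have e2 : lamM 0 b c = b := by unfold lamM; rw [h, abs_of_nonpos (by linarith)]; ring
    rw [e1, e2]; simp

/-- tangent inequality for `φ(x,y) = log (1 + t a/((t+x)(t+y)))` -/
theorem tangent {a b c x y t : ℝ} (ha : 0 < a) (hb : 0 ≤ b) (hc : 0 ≤ c) (hx : 0 ≤ x)
    (hy : 0 ≤ y) (ht : 0 < t) :
    log (1 + t * a / ((t + b) * (t + c)))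
      - (t * a / ((t + b) * (t + c) + t * a)) * ((x - b) / (t + b) + (y - c) / (t + c))
      ≤ log (1 + t * a / ((t + x) * (t + y))) := by
  set s0 := t * a / ((t + b) * (t + c)) with hs0
  set s := t * a / ((t + x) * (t + y)) with hs
  have hs0p : 0 < s0 := by positivity
  have hsp : 0 < s := by positivity
  set K := s0 / (1 + s0) with hK
  have hKe : t * a / ((t + b) * (t + c) + t * a) = K := by
    rw [hK, hs0]; field_simp
  have hK0 : 0 ≤ K := by positivity
  have hK1 : K ≤ 1 := by rw [hK, div_le_one (by positivity)]; linarith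
  -- concavity of log
  have hlog : (1 - K) * log 1 + K * log (s / s0) ≤ log ((1 - K) * 1 + K * (s / s0)) :=
    strictConcaveOn_log_Ioi.concaveOn.2 (Set.mem_Ioi.2 one_pos)
      (Set.mem_Ioi.2 (by positivity)) (by linarith) hK0 (by ring)
  have e1 : (1 - K) * 1 + K * (s / s0) = (1 + s) / (1 + s0) := by
    rw [hK]; field_simp; ring
  have e1' : log ((1 + s) / (1 + s0)) = log (1 + s) - log (1 + s0) :=
    log_div (by positivity) (by positivity)
  rw [e1, log_one, mul_zero, zero_add, e1'] at hlog
  have e2 : s / s0 = ((t + b) / (t + x)) * ((t + c) / (t + y)) := by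
    rw [hs, hs0]; field_simp
  have e3 : log (s / s0) = - log ((t + x) / (t + b)) - log ((t + y) / (t + c)) := by
    have d1 : t + b ≠ 0 := by positivity
    have d2 : t + c ≠ 0 := by positivity
    have d3 : t + x ≠ 0 := by positivity
    have d4 : t + y ≠ 0 := by positivity
    rw [e2, log_mul (by positivity) (by positivity), log_div d1 d3, log_div d2 d4, log_div d3 d1,
      log_div d4 d2]
    ring
  have l1 : log ((t + x) / (t + b)) ≤ (x - b) / (t + b) := by
    have := log_le_sub_one_of_pos (show 0 < (t + x) / (t + b) by positivity)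
    have e : (t + x) / (t + b) - 1 = (x - b) / (t + b) := by field_simp; ring
    linarith
  have l2 : log ((t + y) / (t + c)) ≤ (y - c) / (t + c) := by
    have := log_le_sub_one_of_pos (show 0 < (t + y) / (t + c) by positivity)
    have e : (t + y) / (t + c) - 1 = (y - c) / (t + c) := by field_simp; ring
    linarith
  rw [hKe]
  have h5 : K * log (s / s0) ≥ - (K * ((x - b) / (t + b) + (y - c) / (t + c))) := by
    rw [e3]
    have := mul_le_mul_of_nonneg_left (add_le_add l1 l2) hK0
    linarith
  linarith

/-- superadditivity and monotonicity of `f3`. -/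
theorem f3_sum_le {ι : Type*} [Fintype ι] (a b c : ι → ℝ) (ha : ∀ i, 0 ≤ a i)
    (hb : ∀ i, 0 ≤ b i) (hc : ∀ i, 0 ≤ c i) {C : ℝ} (hC : ∑ i, c i ≤ C) :
    ∑ i, f3 (a i) (b i) (c i) ≤ f3 (∑ i, a i) (∑ i, b i) C := by
  set A := ∑ i, a i with hA
  set B := ∑ i, b i with hB
  have hA0 : 0 ≤ A := Finset.sum_nonneg fun i _ => ha i
  have hB0 : 0 ≤ B := Finset.sum_nonneg fun i _ => hb i
  have hC0 : 0 ≤ C := le_trans (Finset.sum_nonneg fun i _ => hc i) hC
  rcases eq_or_lt_of_le hA0 with hz | hpos
  · have hall : ∀ i, a i = 0 := by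
      intro i
      exact (Finset.sum_eq_zero_iff_of_nonneg (fun i _ => ha i)).1 (hA ▸ hz.symm) i (Finset.mem_univ i)
    rw [← hz, f3_zero]
    apply le_of_eq
    exact Finset.sum_eq_zero fun i _ => by rw [hall i, f3_zero]
  · set w : ι → ℝ := fun i => a i / A with hw
    set x : ι → ℝ := fun i => b i / w i with hx
    set y : ι → ℝ := fun i => c i / w i with hy
    have hw0 : ∀ i, 0 ≤ w i := fun i => div_nonneg (ha i) hA0
    have hx0 : ∀ i, 0 ≤ x i := fun i => div_nonneg (hb i) (hw0 i)
    have hy0 : ∀ i, 0 ≤ y i := fun i => div_nonneg (hc i) (hw0 i)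
    have hw1 : ∑ i, w i = 1 := by rw [hw, ← Finset.sum_div, ← hA]; exact div_self hpos.ne'
    have hterm : ∀ i, f3 (a i) (b i) (c i) = w i * f3 A (x i) (y i) := by
      intro i
      by_cases hwi : w i = 0
      · have hai : a i = 0 := by
          have : a i / A = 0 := hwi
          rcases div_eq_zero_iff.1 this with h | h
          · exact h
          · exact absurd h hpos.ne'
        rw [hwi, hai, f3_zero, zero_mul]
      · rw [← f3_smul (hw0 i)]
        congr 1
        · simp only [hw]; field_simp
        · simp only [hx]; field_simp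
        · simp only [hy]; field_simp
    have hwx : ∑ i, w i * x i ≤ B := by
      refine Finset.sum_le_sum fun i _ => ?_
      by_cases hwi : w i = 0
      · rw [hwi, zero_mul]; exact hb i
      · simp only [hx]; rw [mul_div_cancel₀ _ hwi]
    have hwy : ∑ i, w i * y i ≤ C := by
      refine le_trans (Finset.sum_le_sum fun i _ => ?_) hC
      by_cases hwi : w i = 0
      · rw [hwi, zero_mul]; exact hc i
      · simp only [hy]; rw [mul_div_cancel₀ _ hwi]
    -- mono lemma on the big family
    have key := mono_lemma (ι := Fin 4 ⊕ (Fin 4 × ι))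
      (Sum.elim ![1, 1, -1, -1] (fun p => ![-1, -1, 1, 1] p.1 * w p.2))
      (Sum.elim ![B, C, lamP A B C, lamM A B C]
        (fun p => ![x p.2, y p.2, lamP A (x p.2) (y p.2), lamM A (x p.2) (y p.2)] p.1))
      (by
        have h1 := lamP_nonneg hA0 hB0 hC0
        have h2 := lamM_nonneg hA0 hB0 hC0
        have h3 := fun i => lamP_nonneg hA0 (hx0 i) (hy0 i)
        have h4 := fun i => lamM_nonneg hA0 (hx0 i) (hy0 i)
        rintro (i | ⟨i, j⟩)
        · fin_cases i <;> simp [hB0, hC0, h1, h2]
        · fin_cases i <;> simp [hx0, hy0, h3, h4])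
      (by
        simp [Fin.sum_univ_four, Fintype.sum_prod_type])
      (by
        simp only [Fintype.sum_sum_type, Sum.elim_inl, Sum.elim_inr, Fintype.sum_prod_type,
          Fin.sum_univ_four]
        simp only [Matrix.cons_val]
        have e : ∀ i, w i * lamP A (x i) (y i) + w i * lamM A (x i) (y i)
            = A * w i + w i * x i + w i * y i := by
          intro i
          have := lam_add A (x i) (y i)
          linear_combination (w i) * this
        have e' : ∑ i, w i * lamP A (x i) (y i) + ∑ i, w i * lamM A (x i) (y i)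
            = A + ∑ i, w i * x i + ∑ i, w i * y i := by
          rw [← Finset.sum_add_distrib, Finset.sum_congr rfl fun i _ => e i,
            Finset.sum_add_distrib, Finset.sum_add_distrib, ← Finset.mul_sum, hw1, mul_one]
        have := lam_add A B C
        simp only [neg_mul, one_mul, Finset.sum_neg_distrib]
        linear_combination e' - this)
      (by
        intro t ht
        simp only [Fintype.sum_sum_type, Sum.elim_inl, Sum.elim_inr, Fintype.sum_prod_type,
          Fin.sum_univ_four]
        simp only [Matrix.cons_val]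
        simp only [neg_mul, one_mul, Finset.sum_neg_distrib]
        have q1 : ∀ (b' c' : ℝ), 0 ≤ b' → 0 ≤ c' →
            log (t + lamP A b' c') + log (t + lamM A b' c') - log (t + b') - log (t + c')
              = log (1 + t * A / ((t + b') * (t + c'))) := by
          intro b' c' hb' hc'
          have h1 := lamP_nonneg hA0 hb' hc'
          have h2 := lamM_nonneg hA0 hb' hc'
          rw [← log_mul (by positivity) (by positivity), lam_shift hA0 hb' hc']
          have e : 1 + t * A / ((t + b') * (t + c'))
              = ((t + b') * (t + c') + t * A) / ((t + b') * (t + c')) := by field_simp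
          rw [e, log_div (by positivity) (by positivity), log_mul (by positivity) (by positivity)]
          ring
        have q2 := q1 B C hB0 hC0
        have q3 : ∑ i, w i * log (t + lamP A (x i) (y i)) + ∑ i, w i * log (t + lamM A (x i) (y i))
            - ∑ i, w i * log (t + x i) - ∑ i, w i * log (t + y i)
            = ∑ i, w i * log (1 + t * A / ((t + x i) * (t + y i))) := by
          rw [← Finset.sum_add_distrib, ← Finset.sum_sub_distrib, ← Finset.sum_sub_distrib]
          refine Finset.sum_congr rfl fun i _ => ?_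
          rw [← q1 (x i) (y i) (hx0 i) (hy0 i)]; ring
        have q4 : ∑ i, w i * (log (1 + t * A / ((t + B) * (t + C)))
            - (t * A / ((t + B) * (t + C) + t * A)) * ((x i - B) / (t + B) + (y i - C) / (t + C)))
            ≤ ∑ i, w i * log (1 + t * A / ((t + x i) * (t + y i))) := by
          refine Finset.sum_le_sum fun i _ => ?_
          exact mul_le_mul_of_nonneg_left (tangent hpos hB0 hC0 (hx0 i) (hy0 i) ht) (hw0 i)
        have q5 : ∑ i, w i * (log (1 + t * A / ((t + B) * (t + C)))
            - (t * A / ((t + B) * (t + C) + t * A)) * ((x i - B) / (t + B) + (y i - C) / (t + C)))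
            = log (1 + t * A / ((t + B) * (t + C)))
              - (t * A / ((t + B) * (t + C) + t * A)) * ((∑ i, w i * x i - B) / (t + B)
                + (∑ i, w i * y i - C) / (t + C)) := by
          set L := log (1 + t * A / ((t + B) * (t + C)))
          set K := (t * A / ((t + B) * (t + C) + t * A))
          have e : ∀ i, w i * (L - K * ((x i - B) / (t + B) + (y i - C) / (t + C)))
              = (L + K * (B / (t + B) + C / (t + C))) * w i
                - K / (t + B) * (w i * x i) - K / (t + C) * (w i * y i) := by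
            intro i; ring
          rw [Finset.sum_congr rfl fun i _ => e i, Finset.sum_sub_distrib, Finset.sum_sub_distrib,
            ← Finset.mul_sum, ← Finset.mul_sum, ← Finset.mul_sum, hw1]
          ring
        have q6 : (t * A / ((t + B) * (t + C) + t * A)) * ((∑ i, w i * x i - B) / (t + B)
                + (∑ i, w i * y i - C) / (t + C)) ≤ 0 := by
          apply mul_nonpos_of_nonneg_of_nonpos (by positivity)
          apply add_nonpos
          · exact div_nonpos_of_nonpos_of_nonneg (by linarith) (by positivity)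
          · exact div_nonpos_of_nonpos_of_nonneg (by linarith) (by positivity)
        linarith)
    simp only [Fintype.sum_sum_type, Sum.elim_inl, Sum.elim_inr, Fintype.sum_prod_type,
      Fin.sum_univ_four] at key
    simp only [Matrix.cons_val] at key
    simp only [neg_mul, one_mul, Finset.sum_neg_distrib] at key
    have e : ∑ i, f3 (a i) (b i) (c i) = negMulLog A + ∑ i, w i * negMulLog (x i)
        + ∑ i, w i * negMulLog (y i) - ∑ i, w i * negMulLog (lamP A (x i) (y i))
        - ∑ i, w i * negMulLog (lamM A (x i) (y i)) := by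
      have e1 : negMulLog A = ∑ i, w i * negMulLog A := by rw [← Finset.sum_mul, hw1, one_mul]
      rw [e1, ← Finset.sum_add_distrib, ← Finset.sum_add_distrib, ← Finset.sum_sub_distrib,
        ← Finset.sum_sub_distrib]
      refine Finset.sum_congr rfl fun i _ => ?_
      rw [hterm i]; unfold f3; ring
    rw [e]
    unfold f3
    linarith

end Crest.Agent.H29
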