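import Mathlib
import Crest.Agent.H29Ent
import Crest.Agent.H29Mono
import Crest.Agent.H29Det

/-! The path-3 inequality `P3` (rid 341). -/

set_option autoImplicit false
set_option linter.unusedSectionVars false

namespace Crest.Agent.H29

open Crest.Quantum Matrix Real
open scoped ComplexOrder

theorem scal {a c t Y U S X : ℝ} (ha : 0 < a) (hc : 0 ≤ c) (ht : 0 < t) (hY : 0 ≤ Y)
    (_hU : 0 ≤ U) (hS : 0 ≤ S) (hX : 0 ≤ X) (h1 : a * X ≤ U + S) (h2 : S ^ 2 ≤ c * a * Y) :
    t * a / (t + c) * X ^ 2 ≤ U ^ 2 / a + t * Y := by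
  have key : t * (U + S) ^ 2 ≤ (t + c) * U ^ 2 + (t + c) * a * t * Y := by
    rcases eq_or_lt_of_le hc with h | h
    · subst h
      have : S = 0 := by nlinarith
      subst this
      have : 0 ≤ a * t * Y := by positivity
      nlinarith
    · have h3 : 2 * t * U * S ≤ c * U ^ 2 + t ^ 2 * a * Y := by
        have h4 : c * (2 * t * U * S) ≤ c * (c * U ^ 2 + t ^ 2 * a * Y) := by
          nlinarith [sq_nonneg (c * U - t * S), mul_le_mul_of_nonneg_left h2 (sq_nonneg t)]
        exact le_of_mul_le_mul_left h4 h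
      nlinarith [mul_le_mul_of_nonneg_left h2 ht.le]
  have h5 : (a * X) ^ 2 ≤ (U + S) ^ 2 := by
    apply pow_le_pow_left₀ (by positivity) h1
  have h6 : t * a / (t + c) * X ^ 2 = t * (a * X) ^ 2 / (a * (t + c)) := by
    field_simp
  have h7 : U ^ 2 / a + t * Y = ((t + c) * U ^ 2 + (t + c) * a * t * Y) / (a * (t + c)) := by
    field_simp
  rw [h6, h7]
  apply div_le_div_of_nonneg_right _ (by positivity)
  nlinarith [mul_le_mul_of_nonneg_left h5 ht.le]

theorem cs_sum {n : Type*} [Fintype n] (f g : n → ℂ) :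
    ‖∑ k, f k * g k‖ ^ 2 ≤ (∑ k, ‖f k‖ ^ 2) * ∑ k, ‖g k‖ ^ 2 := by
  have h1 : ‖∑ k, f k * g k‖ ≤ ∑ k, ‖f k‖ * ‖g k‖ := by
    refine (norm_sum_le _ _).trans (le_of_eq ?_)
    exact Finset.sum_congr rfl fun k _ => norm_mul _ _
  calc ‖∑ k, f k * g k‖ ^ 2 ≤ (∑ k, ‖f k‖ * ‖g k‖) ^ 2 := pow_le_pow_left₀ (norm_nonneg _) h1 2
    _ ≤ _ := Finset.sum_mul_sq_le_sq_mul_sq _ _ _

theorem star_mul_self_norm (z : ℂ) : star z * z = ((‖z‖ ^ 2 : ℝ) : ℂ) := by
  rw [RCLike.star_def, mul_comm, Complex.mul_conj, Complex.normSq_eq_norm_sq]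

theorem exists_sqrt {n : Type*} [Fintype n] [DecidableEq n] {M : Matrix n n ℂ}
    (hM : M.PosSemidef) : ∃ K : Matrix n n ℂ, M = Kᴴ * K := by
  obtain ⟨U, hU, hU', h⟩ := exists_unitary hM.1
  refine ⟨diagonal (fun i => ((√(hM.1.eigenvalues i) : ℝ) : ℂ)) * Uᴴ, ?_⟩
  have e : diagonal (fun i => (hM.1.eigenvalues i : ℂ))
      = (diagonal (fun i => ((√(hM.1.eigenvalues i) : ℝ) : ℂ)))ᴴ
        * diagonal (fun i => ((√(hM.1.eigenvalues i) : ℝ) : ℂ)) := by
    rw [diagonal_conjTranspose, diagonal_mul_diagonal]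
    congr 1
    ext i
    simp only [Pi.star_apply, RCLike.star_def, Complex.conj_ofReal]
    rw [← Complex.ofReal_mul, Real.mul_self_sqrt (hM.eigenvalues_nonneg i)]
  rw [conjTranspose_mul, conjTranspose_conjTranspose]
  conv_lhs => rw [h, e]
  simp only [Matrix.mul_assoc]

theorem psd_cs {n : Type*} [Fintype n] [DecidableEq n] {M : Matrix n n ℂ} (hM : M.PosSemidef)
    (v : n) (z : n → ℂ) :
    ‖(M *ᵥ z) v‖ ^ 2 ≤ (M v v).re * (star z ⬝ᵥ M *ᵥ z).re := by
  obtain ⟨K, rfl⟩ := exists_sqrt hM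
  have e1 : ((Kᴴ * K) *ᵥ z) v = ∑ k, star (K k v) * (K *ᵥ z) k := by
    rw [← mulVec_mulVec]; rfl
  have e2 : ((Kᴴ * K) v v).re = ∑ k, ‖star (K k v)‖ ^ 2 := by
    rw [mul_apply]
    simp only [conjTranspose_apply, star_mul_self_norm, norm_star]
    rw [← Complex.ofReal_sum, Complex.ofReal_re]
  have e3 : (star z ⬝ᵥ (Kᴴ * K) *ᵥ z).re = ∑ k, ‖(K *ᵥ z) k‖ ^ 2 := by
    rw [← mulVec_mulVec, dotProduct_mulVec, vecMul_conjTranspose, star_star]
    simp only [dotProduct, Pi.star_apply, star_mul_self_norm]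
    rw [← Complex.ofReal_sum, Complex.ofReal_re]
  rw [e1, e2, e3]
  exact cs_sum _ _

section
variable {e : Type} [Fintype e] [DecidableEq e]

/-- `c_v` -/
noncomputable def cvec (a : e → ℝ) (Z : Matrix e e ℂ) (v : e) : ℝ := (∑ j, ‖Z v j‖ ^ 2) / a v

theorem diag_re_nonneg {n : Type*} {M : Matrix n n ℂ} (hM : M.PosSemidef) (v : n) :
    0 ≤ (M v v).re := by
  have := hM.diag_nonneg (i := v)
  rw [Complex.le_def] at this
  simpa using this.1

theorem a_nonneg {a : e → ℝ} {Z D : Matrix e e ℂ}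
    (hM : (fromBlocks (diagonal fun v => (a v : ℂ)) Z Zᴴ D).PosSemidef) (v : e) : 0 ≤ a v := by
  have := diag_re_nonneg hM (Sum.inl v)
  simpa using this

theorem D_psd {A B C D : Matrix e e ℂ} (hM : (fromBlocks A B C D).PosSemidef) : D.PosSemidef := by
  have := hM.submatrix (Sum.inr : e → e ⊕ e)
  have h : (fromBlocks A B C D).submatrix Sum.inr Sum.inr = D := by ext i j; rfl
  rwa [h] at this

theorem A_psd {A B C D : Matrix e e ℂ} (hM : (fromBlocks A B C D).PosSemidef) : A.PosSemidef := by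
  have := hM.submatrix (Sum.inl : e → e ⊕ e)
  have h : (fromBlocks A B C D).submatrix Sum.inl Sum.inl = A := by ext i j; rfl
  rwa [h] at this

theorem cvec_nonneg {a : e → ℝ} {Z : Matrix e e ℂ} (ha : ∀ v, 0 ≤ a v) (v : e) :
    0 ≤ cvec a Z v :=
  div_nonneg (Finset.sum_nonneg fun _ _ => by positivity) (ha v)

/-- `∑ c_v ≤ tr D` -/
theorem sum_cvec_le {a : e → ℝ} {Z D : Matrix e e ℂ}
    (hM : (fromBlocks (diagonal fun v => (a v : ℂ)) Z Zᴴ D).PosSemidef) :
    ∑ v, cvec a Z v ≤ D.trace.re := by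
  have h1 : ∀ j, ∑ v, ‖Z v j‖ ^ 2 / a v ≤ (D j j).re := by
    intro j
    set x : e → ℂ := fun v => - (Z v j / (a v : ℂ)) with hx
    have h := hM.dotProduct_mulVec_nonneg (Sum.elim x (Pi.single j 1))
    rw [fromBlocks_mulVec] at h
    simp only [Sum.elim_comp_inl, Sum.elim_comp_inr] at h
    have e0 : star (Sum.elim x (Pi.single j 1 : e → ℂ))
        = Sum.elim (star x) (star (Pi.single j 1 : e → ℂ)) := by
      ext i; rcases i with i | i <;> rfl
    rw [e0, sumElim_dotProduct_sumElim] at h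
    have e1 : star x ⬝ᵥ ((diagonal fun v => (a v : ℂ)) *ᵥ x + Z *ᵥ Pi.single j 1) = 0 := by
      apply Finset.sum_eq_zero
      intro v _
      simp only [Pi.star_apply, Pi.add_apply, mulVec_diagonal, mulVec_single_one, col_apply, hx]
      by_cases hav : a v = 0
      · simp [hav]
      · have : (a v : ℂ) ≠ 0 := by exact_mod_cast hav
        have e2 : (a v : ℂ) * -(Z v j / (a v : ℂ)) + Z v j = 0 := by field_simp; ring
        rw [e2, mul_zero]
    have e3 : star (Pi.single j 1 : e → ℂ) ⬝ᵥ (Zᴴ *ᵥ x + D *ᵥ Pi.single j 1)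
        = ((- ∑ v, ‖Z v j‖ ^ 2 / a v : ℝ) : ℂ) + D j j := by
      have : star (Pi.single j 1 : e → ℂ) = Pi.single j 1 := by
        ext i; by_cases hij : i = j
        · subst hij; simp
        · simp [hij]
      rw [this, single_one_dotProduct, Pi.add_apply, mulVec_single_one, col_apply]
      congr 1
      simp only [mulVec, dotProduct, conjTranspose_apply, hx]
      push_cast
      rw [← Finset.sum_neg_distrib]
      refine Finset.sum_congr rfl fun v _ => ?_
      have := star_mul_self_norm (Z v j)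
      push_cast at this
      rw [mul_neg, ← this, mul_div_assoc]
    rw [e1, e3, zero_add, Complex.le_def] at h
    have := h.1
    rw [Complex.add_re, Complex.ofReal_re, Complex.zero_re] at this
    linarith
  calc ∑ v, cvec a Z v = ∑ v, ∑ j, ‖Z v j‖ ^ 2 / a v := by
        refine Finset.sum_congr rfl fun v _ => ?_
        rw [cvec, Finset.sum_div]
    _ = ∑ j, ∑ v, ‖Z v j‖ ^ 2 / a v := Finset.sum_comm
    _ ≤ ∑ j, (D j j).re := Finset.sum_le_sum fun j _ => h1 j
    _ = D.trace.re := by rw [trace, Complex.re_sum]; rfl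

theorem posDef_shift {B : Matrix e e ℂ} (hB : B.PosSemidef) {t : ℝ} (ht : 0 < t) :
    ((t : ℂ) • (1 : Matrix e e ℂ) + B).PosDef := by
  refine PosDef.add_posSemidef ?_ hB
  rw [smul_one_eq_diagonal]
  apply PosDef.diagonal
  intro _
  exact_mod_cast ht

/-- the Schur complement is bounded below along every coordinate. -/
theorem schur_lower {a : e → ℝ} {Z D : Matrix e e ℂ}
    (hM : (fromBlocks (diagonal fun v => (a v : ℂ)) Z Zᴴ D).PosSemidef) {t : ℝ} (ht : 0 < t)
    (v : e) :
    (diagonal (fun v => (a v : ℂ)) - Z * ((t : ℂ) • (1 : Matrix e e ℂ) + D)⁻¹ * Zᴴ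
      - Matrix.single v v ((t * a v / (t + cvec a Z v) : ℝ) : ℂ)).PosSemidef := by
  have ha := a_nonneg hM
  have hc := cvec_nonneg (Z := Z) ha
  set ω := t * a v / (t + cvec a Z v) with hω
  set Dt := (t : ℂ) • (1 : Matrix e e ℂ) + D with hDt
  have hDtp : Dt.PosDef := posDef_shift (D_psd hM) ht
  have : Invertible Dt := hDtp.isUnit.invertible
  have e1 : diagonal (fun v => (a v : ℂ)) - Z * Dt⁻¹ * Zᴴ - Matrix.single v v (ω : ℂ)
      = (diagonal (fun v => (a v : ℂ)) - Matrix.single v v (ω : ℂ)) - Z * Dt⁻¹ * Zᴴ := by abel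
  rw [e1, ← PosDef.fromBlocks₂₂ _ _ hDtp]
  set p : e ⊕ e → ℝ := Sum.elim (fun u => if u = v then -ω else 0) (fun _ => t) with hp
  have e2 : fromBlocks (diagonal (fun v => (a v : ℂ)) - Matrix.single v v (ω : ℂ)) Z Zᴴ Dt
      = fromBlocks (diagonal (fun v => (a v : ℂ))) Z Zᴴ D + diagonal (fun i => (p i : ℂ)) := by
    ext i j
    rcases i with i | i <;> rcases j with j | j
    · by_cases hij : i = j
      · subst hij
        by_cases hiv : i = v
        · subst hiv
          simp [hp, sub_eq_add_neg]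
        · have : ¬ (v = i) := fun h => hiv h.symm
          simp [hp, hiv, this]
      · have : ¬ (v = i ∧ v = j) := fun h => hij (h.1.symm.trans h.2)
        simp [hij, this]
    · simp
    · simp
    · by_cases hij : i = j
      · subst hij; simp [hDt, hp, add_comm]
      · simp [hDt, hij]
  rw [e2]
  have hpd : (diagonal (fun i => (p i : ℂ))).IsHermitian := by
    apply isHermitian_diagonal_of_self_adjoint
    ext i; simp
  refine PosSemidef.of_dotProduct_mulVec_nonneg (hM.1.add hpd) fun z => ?_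
  have hq := hM.dotProduct_mulVec_nonneg z
  rw [Complex.le_def] at hq
  have e3 : star z ⬝ᵥ (diagonal (fun i => (p i : ℂ))) *ᵥ z
      = ((- ω * ‖z (Sum.inl v)‖ ^ 2 + t * ∑ j, ‖z (Sum.inr j)‖ ^ 2 : ℝ) : ℂ) := by
    have : ∀ i, star (z i) * ((p i : ℂ) * z i) = ((p i * ‖z i‖ ^ 2 : ℝ) : ℂ) := by
      intro i
      have := star_mul_self_norm (z i)
      push_cast at this ⊢
      rw [← this]; ring
    simp only [dotProduct, Pi.star_apply, mulVec_diagonal, this]
    rw [← Complex.ofReal_sum, Fintype.sum_sum_type]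
    congr 2
    · simp [hp]
    · simp [hp, Finset.mul_sum]
  rw [add_mulVec, dotProduct_add, e3, Complex.le_def]
  constructor
  · rw [Complex.zero_re, Complex.add_re, Complex.ofReal_re]
    have hq0 := hq.1
    rw [Complex.zero_re] at hq0
    set q := (star z ⬝ᵥ fromBlocks (diagonal (fun v => (a v : ℂ))) Z Zᴴ D *ᵥ z).re with hqdef
    rcases eq_or_lt_of_le (ha v) with hav | hav
    · have hω0 : ω = 0 := by rw [hω, ← hav]; simp
      rw [hω0]
      have : 0 ≤ t * ∑ j, ‖z (Sum.inr j)‖ ^ 2 := by positivity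
      linarith
    · have hcs := psd_cs hM (Sum.inl v) z
      rw [← hqdef, fromBlocks_mulVec] at hcs
      simp only [Sum.elim_inl, Pi.add_apply, mulVec_diagonal, Function.comp_apply,
        fromBlocks_apply₁₁, diagonal_apply_eq, Complex.ofReal_re] at hcs
      set s := (Z *ᵥ (z ∘ Sum.inr)) v with hs
      have hs2 : ‖s‖ ^ 2 ≤ cvec a Z v * a v * ∑ j, ‖z (Sum.inr j)‖ ^ 2 := by
        have e4 : cvec a Z v * a v = ∑ j, ‖Z v j‖ ^ 2 := by
          rw [cvec, div_mul_cancel₀ _ hav.ne']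
        rw [e4]
        exact cs_sum _ _
      have h1 : a v * ‖z (Sum.inl v)‖ ≤ ‖(a v : ℂ) * z (Sum.inl v) + s‖ + ‖s‖ := by
        have h2 : ‖(a v : ℂ) * z (Sum.inl v)‖ = a v * ‖z (Sum.inl v)‖ := by
          rw [norm_mul, Complex.norm_real, Real.norm_of_nonneg hav.le]
        rw [← h2]
        have h3 : (a v : ℂ) * z (Sum.inl v) = ((a v : ℂ) * z (Sum.inl v) + s) - s := by ring
        calc ‖(a v : ℂ) * z (Sum.inl v)‖ = ‖((a v : ℂ) * z (Sum.inl v) + s) - s‖ := by
              rw [← h3]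
          _ ≤ _ := norm_sub_le _ _
      have h5 := scal hav (hc v) ht (Y := ∑ j, ‖z (Sum.inr j)‖ ^ 2) (by positivity)
        (norm_nonneg _) (norm_nonneg s) (norm_nonneg (z (Sum.inl v))) h1 hs2
      have h6 : ‖(a v : ℂ) * z (Sum.inl v) + s‖ ^ 2 / a v ≤ q := by
        rw [div_le_iff₀ hav]; linarith
      linarith
  · rw [Complex.zero_im, Complex.add_im, Complex.ofReal_im, ← hq.2, Complex.zero_im, add_zero]

/-- the pointwise `log det` inequality. -/
theorem path3_log {a : e → ℝ} {Z D B : Matrix e e ℂ}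
    (hM : (fromBlocks (diagonal fun v => (a v : ℂ)) Z Zᴴ D).PosSemidef) (hB : B.PosSemidef)
    (hN : (fromBlocks (diagonal (fun v => (a v : ℂ)) + B) Z Zᴴ D).PosSemidef)
    (hD : D.PosSemidef) {t : ℝ} (ht : 0 < t) :
    ∑ i, log (t + hD.1.eigenvalues i) + ∑ i, log (t + hB.1.eigenvalues i)
      + ∑ v, log ((t + (B v v).re) * (t + cvec a Z v) + t * a v)
    ≤ ∑ i, log (t + hN.1.eigenvalues i) + ∑ v, log (t + (B v v).re)
      + ∑ v, log (t + cvec a Z v) := by
  have ha := a_nonneg hM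
  have hc := cvec_nonneg (Z := Z) ha
  have hb := diag_re_nonneg hB
  rw [← log_det_shift hD ht, ← log_det_shift hB ht, ← log_det_shift hN ht]
  set Dt := (t : ℂ) • (1 : Matrix e e ℂ) + D with hDt
  set R := (t : ℂ) • (1 : Matrix e e ℂ) + B with hR
  have hDtp : Dt.PosDef := posDef_shift hD ht
  have hRp : R.PosDef := posDef_shift hB ht
  have : Invertible Dt := hDtp.isUnit.invertible
  set V := diagonal (fun v => (a v : ℂ)) - Z * Dt⁻¹ * Zᴴ with hV
  have e1 : (t : ℂ) • (1 : Matrix (e ⊕ e) (e ⊕ e) ℂ)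
      + fromBlocks (diagonal (fun v => (a v : ℂ)) + B) Z Zᴴ D
      = fromBlocks (R + diagonal (fun v => (a v : ℂ))) Z Zᴴ Dt := by
    rw [← fromBlocks_one, fromBlocks_smul, fromBlocks_add]
    simp only [smul_zero, zero_add]
    congr 1
    rw [hR]; abel
  have e2 : (fromBlocks (R + diagonal (fun v => (a v : ℂ))) Z Zᴴ Dt).det = Dt.det * (R + V).det := by
    rw [det_fromBlocks₂₂, invOf_eq_nonsing_inv]
    congr 2
    rw [hV]; abel
  have hdD : 0 < Dt.det.re ∧ Dt.det.im = 0 := by
    have := hDtp.det_pos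
    rw [Complex.lt_def] at this
    exact ⟨by simpa using this.1, by simpa using this.2.symm⟩
  have hdR : 0 < R.det.re := by
    have := hRp.det_pos
    rw [Complex.lt_def] at this
    simpa using this.1
  have hpt := pt e R V (fun v => t * a v / (t + cvec a Z v)) hRp
    (fun v => by have := ha v; have := hc v; positivity)
    (fun v => schur_lower hM ht v)
  have hRvv : ∀ v, (R v v).re = t + (B v v).re := by
    intro v; simp [hR]
  have e3 : ∀ v, 1 + t * a v / (t + cvec a Z v) / (R v v).re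
      = ((t + (B v v).re) * (t + cvec a Z v) + t * a v)
        / ((t + (B v v).re) * (t + cvec a Z v)) := by
    intro v
    have h1 : 0 < t + (B v v).re := by have := hb v; linarith
    have h2 : 0 < t + cvec a Z v := by have := hc v; linarith
    rw [hRvv]; field_simp
  simp only [e3] at hpt
  rw [e1, e2, Complex.mul_re, hdD.2, zero_mul, sub_zero]
  have hprod : 0 < ∏ v, ((t + (B v v).re) * (t + cvec a Z v) + t * a v)
        / ((t + (B v v).re) * (t + cvec a Z v)) := by
    refine Finset.prod_pos fun v _ => ?_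
    have h1 : 0 < t + (B v v).re := by have := hb v; linarith
    have h2 : 0 < t + cvec a Z v := by have := hc v; linarith
    have := ha v
    positivity
  have hRV : 0 < (R + V).det.re := lt_of_lt_of_le (mul_pos hdR hprod) hpt
  rw [log_mul hdD.1.ne' hRV.ne']
  have h4 := log_le_log (mul_pos hdR hprod) hpt
  rw [log_mul hdR.ne' hprod.ne', log_prod] at h4
  · have e4 : ∑ v, log (((t + (B v v).re) * (t + cvec a Z v) + t * a v)
        / ((t + (B v v).re) * (t + cvec a Z v)))
        = ∑ v, log ((t + (B v v).re) * (t + cvec a Z v) + t * a v)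
          - ∑ v, log (t + (B v v).re) - ∑ v, log (t + cvec a Z v) := by
      rw [← Finset.sum_sub_distrib, ← Finset.sum_sub_distrib]
      refine Finset.sum_congr rfl fun v _ => ?_
      have h1 : 0 < t + (B v v).re := by have := hb v; linarith
      have h2 : 0 < t + cvec a Z v := by have := hc v; linarith
      have := ha v
      rw [log_div (by positivity) (by positivity), log_mul h1.ne' h2.ne']
      ring
    rw [e4] at h4
    linarith
  · intro v _
    have h1 : 0 < t + (B v v).re := by have := hb v; linarith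
    have h2 : 0 < t + cvec a Z v := by have := hc v; linarith
    have := ha v
    positivity

theorem tr_fromBlocks {m n : Type*} [Fintype m] [Fintype n] (A : Matrix m m ℂ)
    (B : Matrix m n ℂ) (C : Matrix n m ℂ) (D : Matrix n n ℂ) :
    (fromBlocks A B C D).trace = A.trace + D.trace := by
  simp only [trace, Fintype.sum_sum_type]; rfl

theorem trace_re_eq_sum_eig {n : Type*} [Fintype n] [DecidableEq n] {ρ : Matrix n n ℂ}
    (h : ρ.IsHermitian) : ρ.trace.re = ∑ i, h.eigenvalues i := by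
  rw [h.trace_eq_sum_eigenvalues]; simp

/-- `P3` with diagonal `A`. -/
theorem P3diag {a : e → ℝ} {Z D B : Matrix e e ℂ}
    (hM : (fromBlocks (diagonal fun v => (a v : ℂ)) Z Zᴴ D).PosSemidef) (hB : B.PosSemidef) :
    ∑ v, negMulLog (a v) + vnEntropy B + vnEntropy D - f3 (∑ v, a v) B.trace.re D.trace.re
      ≤ vnEntropy (fromBlocks (diagonal (fun v => (a v : ℂ)) + B) Z Zᴴ D) := by
  have ha := a_nonneg hM
  have hc := cvec_nonneg (Z := Z) ha
  have hb := diag_re_nonneg hB
  have hD : D.PosSemidef := D_psd hM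
  have hN : (fromBlocks (diagonal (fun v => (a v : ℂ)) + B) Z Zᴴ D).PosSemidef := by
    have e0 : fromBlocks (diagonal (fun v => (a v : ℂ)) + B) Z Zᴴ D
        = fromBlocks (diagonal (fun v => (a v : ℂ))) Z Zᴴ D + fromBlocks B 0 0 0 := by
      rw [fromBlocks_add]; simp
    rw [e0]
    refine hM.add ?_
    obtain ⟨K, hK⟩ := exists_sqrt hB
    have e1 : fromBlocks B 0 0 (0 : Matrix e e ℂ)
        = (fromBlocks K 0 0 (0 : Matrix e e ℂ))ᴴ * fromBlocks K 0 0 (0 : Matrix e e ℂ) := by
      rw [fromBlocks_conjTranspose, fromBlocks_multiply]; simp [hK]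
    rw [e1]
    exact posSemidef_conjTranspose_mul_self _
  have hB1 : B.trace.re = ∑ v, (B v v).re := by rw [trace, Complex.re_sum]; rfl
  have hf := f3_sum_le a (fun v => (B v v).re) (cvec a Z) ha hb hc (sum_cvec_le hM)
  rw [← hB1] at hf
  have key := mono2 (ι := (e ⊕ e) ⊕ (e ⊕ e)) (κ := (e ⊕ e) ⊕ (e ⊕ e))
    (Sum.elim hN.1.eigenvalues (Sum.elim (fun v => (B v v).re) (cvec a Z)))
    (Sum.elim (Sum.elim hD.1.eigenvalues hB.1.eigenvalues)
      (Sum.elim (fun v => lamP (a v) (B v v).re (cvec a Z v))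
        (fun v => lamM (a v) (B v v).re (cvec a Z v))))
    (by
      rintro (i | (i | i))
      · exact hN.eigenvalues_nonneg i
      · exact hb i
      · exact hc i)
    (by
      rintro ((i | i) | (i | i))
      · exact hD.eigenvalues_nonneg i
      · exact hB.eigenvalues_nonneg i
      · exact lamP_nonneg (ha i) (hb i) (hc i)
      · exact lamM_nonneg (ha i) (hb i) (hc i))
    rfl
    (by
      have h1 := trace_re_eq_sum_eig hN.1
      have h2 := trace_re_eq_sum_eig hD.1
      have h3 := trace_re_eq_sum_eig hB.1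
      have h4 : (fromBlocks (diagonal (fun v => (a v : ℂ)) + B) Z Zᴴ D).trace.re
          = ∑ v, a v + B.trace.re + D.trace.re := by
        rw [tr_fromBlocks, trace_add, trace_diagonal, Complex.add_re, Complex.add_re,
          ← Complex.ofReal_sum, Complex.ofReal_re]
      have h5 : ∑ v, lamP (a v) (B v v).re (cvec a Z v) + ∑ v, lamM (a v) (B v v).re (cvec a Z v)
          = ∑ v, a v + ∑ v, (B v v).re + ∑ v, cvec a Z v := by
        rw [← Finset.sum_add_distrib, ← Finset.sum_add_distrib, ← Finset.sum_add_distrib]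
        exact Finset.sum_congr rfl fun v _ => lam_add _ _ _
      rw [h4] at h1
      simp only [Fintype.sum_sum_type, Sum.elim_inl, Sum.elim_inr] at h1 ⊢
      linarith)
    (by
      intro t ht
      have h1 := path3_log hM hB hN hD ht
      have h2 : ∑ v, log ((t + (B v v).re) * (t + cvec a Z v) + t * a v)
          = ∑ v, log (t + lamP (a v) (B v v).re (cvec a Z v))
            + ∑ v, log (t + lamM (a v) (B v v).re (cvec a Z v)) := by
        rw [← Finset.sum_add_distrib]
        refine Finset.sum_congr rfl fun v _ => ?_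
        have h3 := lamP_nonneg (ha v) (hb v) (hc v)
        have h4 := lamM_nonneg (ha v) (hb v) (hc v)
        rw [← lam_shift (ha v) (hb v) (hc v), log_mul (by positivity) (by positivity)]
      rw [h2] at h1
      simp only [Fintype.sum_sum_type, Sum.elim_inl, Sum.elim_inr] at h1 ⊢
      linarith)
  have e1 := vn_eq_sum hN.1
  have e2 := vn_eq_sum hD.1
  have e3 := vn_eq_sum hB.1
  have e4 : ∑ v, f3 (a v) (B v v).re (cvec a Z v)
      = ∑ v, negMulLog (a v) + ∑ v, negMulLog (B v v).re + ∑ v, negMulLog (cvec a Z v)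
        - ∑ v, negMulLog (lamP (a v) (B v v).re (cvec a Z v))
        - ∑ v, negMulLog (lamM (a v) (B v v).re (cvec a Z v)) := by
    rw [← Finset.sum_add_distrib, ← Finset.sum_add_distrib, ← Finset.sum_sub_distrib,
      ← Finset.sum_sub_distrib]
    rfl
  rw [e4] at hf
  rw [e1, e2, e3]
  simp only [Fintype.sum_sum_type, Sum.elim_inl, Sum.elim_inr] at key ⊢
  linarith

theorem fromBlocks_conj (U A Z D : Matrix e e ℂ) :
    fromBlocks U 0 0 1 * fromBlocks A Z Zᴴ D * (fromBlocks U 0 0 1)ᴴ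
      = fromBlocks (U * A * Uᴴ) (U * Z) (U * Z)ᴴ D := by
  rw [fromBlocks_conjTranspose, fromBlocks_multiply, fromBlocks_multiply]
  simp [conjTranspose_mul]

/-- **P3** -/
theorem P3 {A Z D B : Matrix e e ℂ} (hM : (fromBlocks A Z Zᴴ D).PosSemidef)
    (hB : B.PosSemidef) :
    vnEntropy A + vnEntropy B + vnEntropy D - f3 A.trace.re B.trace.re D.trace.re
      ≤ vnEntropy (fromBlocks (A + B) Z Zᴴ D) := by
  have hA := A_psd hM
  obtain ⟨U, hU, hU', h⟩ := exists_unitary hA.1
  set a := hA.1.eigenvalues with ha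
  have hUAU : Uᴴ * A * U = diagonal (fun v => (a v : ℂ)) := by
    conv_lhs => rw [h]
    calc Uᴴ * (U * diagonal (fun v => (a v : ℂ)) * Uᴴ) * U
        = (Uᴴ * U) * diagonal (fun v => (a v : ℂ)) * (Uᴴ * U) := by simp only [Matrix.mul_assoc]
      _ = _ := by rw [hU', Matrix.one_mul, Matrix.mul_one]
  have hc1 := fromBlocks_conj Uᴴ A Z D
  have hc2 := fromBlocks_conj Uᴴ (A + B) Z D
  rw [conjTranspose_conjTranspose] at hc1 hc2
  rw [hUAU] at hc1
  have hM' : (fromBlocks (diagonal (fun v => (a v : ℂ))) (Uᴴ * Z) (Uᴴ * Z)ᴴ D).PosSemidef := by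
    rw [← hc1]; exact hM.mul_mul_conjTranspose_same _
  have hB' : (Uᴴ * B * U).PosSemidef := by
    have := hB.mul_mul_conjTranspose_same Uᴴ
    rwa [conjTranspose_conjTranspose] at this
  have key := P3diag hM' hB'
  have hW : fromBlocks Uᴴ 0 0 (1 : Matrix e e ℂ) * (fromBlocks Uᴴ 0 0 (1 : Matrix e e ℂ))ᴴ = 1 := by
    rw [fromBlocks_conjTranspose, fromBlocks_multiply]
    simp [hU', fromBlocks_one]
  have hN : (fromBlocks (A + B) Z Zᴴ D).IsHermitian := by
    rw [isHermitian_fromBlocks_iff]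
    exact ⟨hA.1.add hB.1, rfl, by simp, (D_psd hM).1⟩
  have e1 : vnEntropy (fromBlocks (diagonal (fun v => (a v : ℂ)) + Uᴴ * B * U) (Uᴴ * Z)
      (Uᴴ * Z)ᴴ D) = vnEntropy (fromBlocks (A + B) Z Zᴴ D) := by
    rw [← vn_unitary hN hW, hc2, Matrix.mul_add, Matrix.add_mul, hUAU]
  have e2 : vnEntropy (Uᴴ * B * U) = vnEntropy B := by
    have := vn_unitary (U := Uᴴ) hB.1 (by rwa [conjTranspose_conjTranspose])
    rwa [conjTranspose_conjTranspose] at this
  have e3 : (Uᴴ * B * U).trace = B.trace := by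
    rw [trace_mul_comm, ← Matrix.mul_assoc, hU, Matrix.one_mul]
  have e4 : vnEntropy A = ∑ v, negMulLog (a v) := vn_eq_sum hA.1
  have e5 : A.trace.re = ∑ v, a v := trace_re_eq_sum_eig hA.1
  rw [e1, e2, e3, ← e4, ← e5] at key
  exact key

end

end Crest.Agent.H29
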