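import Mathlib
import Crest.Agent.H29Spec
import Crest.Agent.H29P3

/-! The key inequality for the generalized amplitude damping channel (rid 341). -/

set_option autoImplicit false
set_option linter.unusedSectionVars false

namespace Crest.Agent.H29

open Crest.Quantum Crest.MathPhysics.AmpDamp Matrix Real
open scoped ComplexOrder

/-- entropy of a `2 × 2` PSD matrix with trace `τ`, determinant `δ`. -/
noncomputable def E2 (τ δ : ℝ) : ℝ :=
  negMulLog ((τ + √(τ ^ 2 - 4 * δ)) / 2) + negMulLog ((τ - √(τ ^ 2 - 4 * δ)) / 2)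

theorem f3_eq (a b c : ℝ) :
    f3 a b c = negMulLog a + negMulLog b + negMulLog c - E2 (a + b + c) (b * c) := by
  unfold f3 E2 lamP lamM
  rw [mul_assoc 4 b c]; ring

theorem E2_smul {k : ℝ} (hk : 0 ≤ k) (τ δ : ℝ) :
    E2 (k * τ) (k ^ 2 * δ) = k * E2 τ δ + negMulLog k * τ := by
  unfold E2
  have h : √((k * τ) ^ 2 - 4 * (k ^ 2 * δ)) = k * √(τ ^ 2 - 4 * δ) := by
    have : (k * τ) ^ 2 - 4 * (k ^ 2 * δ) = k ^ 2 * (τ ^ 2 - 4 * δ) := by ring
    rw [this, Real.sqrt_mul (by positivity), Real.sqrt_sq hk]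
  rw [h]
  have e1 : (k * τ + k * √(τ ^ 2 - 4 * δ)) / 2 = k * ((τ + √(τ ^ 2 - 4 * δ)) / 2) := by ring
  have e2 : (k * τ - k * √(τ ^ 2 - 4 * δ)) / 2 = k * ((τ - √(τ ^ 2 - 4 * δ)) / 2) := by ring
  rw [e1, e2, negMulLog_mul, negMulLog_mul]; ring

theorem E2_one (δ : ℝ) : E2 1 δ = binEntropy ((1 + √(1 - 4 * δ)) / 2) := by
  unfold E2
  rw [binEntropy_eq_negMulLog_add_negMulLog_one_sub, one_pow]
  congr 2; ring

section
variable {e : Type} [Fintype e] [DecidableEq e]

/-- centred entropy -/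
noncomputable def cent (A : Matrix e e ℂ) : ℝ := vnEntropy A - negMulLog A.trace.re

theorem vn_smul_cent {A : Matrix e e ℂ} (hA : A.IsHermitian) (c : ℝ) :
    vnEntropy ((c : ℂ) • A) = c * cent A + negMulLog (c * A.trace.re) := by
  rw [vn_smul hA, cent, negMulLog_mul]; ring

theorem trace_smul_re (c : ℝ) (A : Matrix e e ℂ) : ((c : ℂ) • A).trace.re = c * A.trace.re := by
  rw [trace_smul, smul_eq_mul, Complex.re_ofReal_mul]

theorem smul_psd {A : Matrix e e ℂ} (hA : A.PosSemidef) {c : ℝ} (hc : 0 ≤ c) :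
    ((c : ℂ) • A).PosSemidef := by
  apply hA.smul
  exact_mod_cast hc

theorem scale_psd {A Z D : Matrix e e ℂ} (hM : (fromBlocks A Z Zᴴ D).PosSemidef) {α δ : ℝ}
    (hα : 0 ≤ α) (hδ : 0 ≤ δ) :
    (fromBlocks ((α : ℂ) • A) ((√(α * δ) : ℂ) • Z) ((√(α * δ) : ℂ) • Z)ᴴ
      ((δ : ℂ) • D)).PosSemidef := by
  have h := hM.mul_mul_conjTranspose_same
    (fromBlocks ((√α : ℂ) • (1 : Matrix e e ℂ)) 0 0 ((√δ : ℂ) • (1 : Matrix e e ℂ)))
  have e1 : (√α : ℂ) * (√α : ℂ) = (α : ℂ) := by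
    rw [← Complex.ofReal_mul, Real.mul_self_sqrt hα]
  have e2 : (√δ : ℂ) * (√δ : ℂ) = (δ : ℂ) := by
    rw [← Complex.ofReal_mul, Real.mul_self_sqrt hδ]
  have e3 : (√(α * δ) : ℂ) = (√α : ℂ) * (√δ : ℂ) := by
    rw [Real.sqrt_mul hα]; push_cast; rfl
  convert h using 1
  rw [fromBlocks_conjTranspose, fromBlocks_multiply, fromBlocks_multiply]
  simp only [conjTranspose_smul, conjTranspose_one, conjTranspose_zero, RCLike.star_def,
    Complex.conj_ofReal, Matrix.zero_mul, Matrix.mul_zero, add_zero, zero_add, Matrix.smul_mul,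
    Matrix.one_mul, Matrix.mul_smul, Matrix.mul_one, smul_smul, e1, e2, e3, map_mul]
  rw [mul_comm (√δ : ℂ) (√α : ℂ)]

/-- P3, scaled. -/
theorem P3s {A Z D : Matrix e e ℂ} (hM : (fromBlocks A Z Zᴴ D).PosSemidef) {α δ μ : ℝ}
    (hα : 0 ≤ α) (hδ : 0 ≤ δ) (hμ : 0 ≤ μ) :
    α * cent A + (μ + δ) * cent D
      + E2 (α * A.trace.re + (μ + δ) * D.trace.re) (μ * δ * D.trace.re ^ 2)
    ≤ vnEntropy (fromBlocks ((α : ℂ) • A + (μ : ℂ) • D) ((√(α * δ) : ℂ) • Z)
        ((√(α * δ) : ℂ) • Z)ᴴ ((δ : ℂ) • D)) := by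
  have hA := A_psd hM
  have hD := D_psd hM
  have h := P3 (scale_psd hM hα hδ) (smul_psd hD hμ)
  rw [vn_smul_cent hA.1, vn_smul_cent hD.1, vn_smul_cent hD.1, f3_eq, trace_smul_re,
    trace_smul_re, trace_smul_re] at h
  have e1 : α * A.trace.re + μ * D.trace.re + δ * D.trace.re
      = α * A.trace.re + (μ + δ) * D.trace.re := by ring
  have e2 : μ * D.trace.re * (δ * D.trace.re) = μ * δ * D.trace.re ^ 2 := by ring
  rw [e1, e2] at h
  refine le_trans (le_of_eq ?_) h
  ring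

theorem swap_psd {A Z D : Matrix e e ℂ} (hM : (fromBlocks A Z Zᴴ D).PosSemidef) :
    (fromBlocks D Zᴴ Zᴴᴴ A).PosSemidef := by
  have h := hM.submatrix (Sum.swap : e ⊕ e → e ⊕ e)
  rw [fromBlocks_submatrix_sum_swap_sum_swap] at h
  rwa [conjTranspose_conjTranspose]

/-- P3, scaled and mirrored. -/
theorem P3m {A Z D : Matrix e e ℂ} (hM : (fromBlocks A Z Zᴴ D).PosSemidef) {α δ μ : ℝ}
    (hα : 0 ≤ α) (hδ : 0 ≤ δ) (hμ : 0 ≤ μ) :
    (α + μ) * cent A + δ * cent D
      + E2 ((α + μ) * A.trace.re + δ * D.trace.re) (μ * α * A.trace.re ^ 2)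
    ≤ vnEntropy (fromBlocks ((α : ℂ) • A) ((√(α * δ) : ℂ) • Z)
        ((√(α * δ) : ℂ) • Z)ᴴ ((μ : ℂ) • A + (δ : ℂ) • D)) := by
  have h := P3s (swap_psd hM) hδ hα hμ
  have hA := A_psd hM
  have hD := D_psd hM
  have hN : (fromBlocks ((α : ℂ) • A) ((√(α * δ) : ℂ) • Z)
        ((√(α * δ) : ℂ) • Z)ᴴ ((μ : ℂ) • A + (δ : ℂ) • D)).IsHermitian := by
    rw [isHermitian_fromBlocks_iff]
    exact ⟨(smul_psd hA hα).1, rfl, by simp, ((smul_psd hA hμ).add (smul_psd hD hδ)).1⟩
  have e1 := vn_reindex hN (Equiv.sumComm e e)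
  have e2 : (fromBlocks ((α : ℂ) • A) ((√(α * δ) : ℂ) • Z)
        ((√(α * δ) : ℂ) • Z)ᴴ ((μ : ℂ) • A + (δ : ℂ) • D)).submatrix (Equiv.sumComm e e)
          (Equiv.sumComm e e)
      = fromBlocks ((δ : ℂ) • D + (μ : ℂ) • A) ((√(δ * α) : ℂ) • Zᴴ)
        ((√(δ * α) : ℂ) • Zᴴ)ᴴ ((α : ℂ) • A) := by
    rw [Equiv.sumComm_apply, fromBlocks_submatrix_sum_swap_sum_swap, add_comm, mul_comm δ α]
    simp [conjTranspose_smul]
  rw [← e1, e2]
  refine le_trans (le_of_eq ?_) h
  have e3 : (α + μ) * A.trace.re + δ * D.trace.re = δ * D.trace.re + (μ + α) * A.trace.re := by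
    ring
  rw [e3]; ring

/-- The key inequality in block form. -/
theorem key_blocks {A Z D : Matrix e e ℂ} (hM : (fromBlocks A Z Zᴴ D).PosSemidef)
    (ht : A.trace.re + D.trace.re = 1) {μ0 μ1 : ℝ} (h0 : 0 ≤ μ0) (h1 : 0 ≤ μ1)
    (h01 : μ0 + μ1 ≤ 1) :
    cent A + cent D + E2 1 (((1 - μ1) * A.trace.re + μ0 * D.trace.re)
        * (μ1 * A.trace.re + (1 - μ0) * D.trace.re)
        - (1 - μ0 - μ1) * A.trace.re * D.trace.re)
    ≤ vnEntropy (fromBlocks (((1 - μ1 : ℝ) : ℂ) • A + (μ0 : ℂ) • D)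
        ((√(1 - μ0 - μ1) : ℂ) • Z) ((√(1 - μ0 - μ1) : ℂ) • Z)ᴴ
        ((μ1 : ℂ) • A + ((1 - μ0 : ℝ) : ℂ) • D)) := by
  have hA := A_psd hM
  have hD := D_psd hM
  set a := A.trace.re with ha
  set d := D.trace.re with hd
  have ha0 : 0 ≤ a := by
    have := hA.trace_nonneg
    rw [Complex.le_def] at this
    simpa using this.1
  have hd0 : 0 ≤ d := by
    have := hD.trace_nonneg
    rw [Complex.le_def] at this
    simpa using this.1
  rcases eq_or_lt_of_le h1 with h1' | h1'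
  · -- μ1 = 0
    subst h1'
    have h := P3s hM (α := 1) (δ := 1 - μ0) (μ := μ0) zero_le_one (by linarith) h0
    rw [← ha, ← hd] at h
    have e1 : 1 * a + (μ0 + (1 - μ0)) * d = 1 := by linear_combination ht
    have e2 : ((1 - 0) * a + μ0 * d) * (0 * a + (1 - μ0) * d) - (1 - μ0 - 0) * a * d
        = μ0 * (1 - μ0) * d ^ 2 := by ring
    rw [e1] at h
    rw [e2]
    simp only [one_mul, add_sub_cancel, sub_zero, Complex.ofReal_one, Complex.ofReal_zero,
      zero_smul, zero_add] at h ⊢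
    linarith
  rcases eq_or_lt_of_le h0 with h0' | h0'
  · -- μ0 = 0
    subst h0'
    have h := P3m hM (α := 1 - μ1) (δ := 1) (μ := μ1) (by linarith) zero_le_one h1
    rw [← ha, ← hd] at h
    have e1 : (1 - μ1 + μ1) * a + 1 * d = 1 := by linear_combination ht
    have e2 : ((1 - μ1) * a + 0 * d) * (μ1 * a + (1 - 0) * d) - (1 - 0 - μ1) * a * d
        = μ1 * (1 - μ1) * a ^ 2 := by ring
    rw [e1] at h
    rw [e2]
    simp only [one_mul, mul_one, sub_add_cancel, sub_zero, Complex.ofReal_one,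
      Complex.ofReal_zero, zero_smul, add_zero] at h ⊢
    linarith
  -- general case
  set n00 := (1 - μ1) * a + μ0 * d with hn00
  set n11 := μ1 * a + (1 - μ0) * d with hn11
  set s := 1 - μ0 - μ1 with hs
  set Δ := n00 * n11 - s * a * d with hΔ
  have hs0 : 0 ≤ s := by rw [hs]; linarith
  have hΔe : Δ = μ0 * d * n11 + μ1 * a * n00 := by rw [hΔ, hn00, hn11, hs]; ring
  have hn00p : 0 ≤ n00 := by
    have : 0 ≤ 1 - μ1 := by linarith
    positivity
  have hn11p : 0 ≤ n11 := by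
    have : 0 ≤ 1 - μ0 := by linarith
    positivity
  have hΔp : 0 < Δ := by
    have k1 : 0 < 1 - μ0 := by linarith
    have k2 : 0 < 1 - μ1 := by linarith
    have e : Δ = μ1 * (1 - μ1) * a ^ 2 + 2 * μ0 * μ1 * a * d + μ0 * (1 - μ0) * d ^ 2 := by
      rw [hΔe, hn00, hn11]; ring
    rw [e]
    rcases eq_or_lt_of_le ha0 with haz | hap
    · have : 0 < d := by linarith
      rw [← haz]
      positivity
    · positivity
  set w := μ0 * d * n11 / Δ with hw
  set w' := μ1 * a * n00 / Δ with hw'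
  have hw0 : 0 ≤ w := by positivity
  have hw0' : 0 ≤ w' := by positivity
  have hww : w + w' = 1 := by rw [hw, hw', ← add_div, ← hΔe, div_self hΔp.ne']
  set α1 := μ0 * s * d ^ 2 / Δ with hα1
  set δ1 := μ0 * n11 ^ 2 / Δ with hδ1
  set α2 := μ1 * n00 ^ 2 / Δ with hα2
  set δ2 := μ1 * s * a ^ 2 / Δ with hδ2
  have hα1p : 0 ≤ α1 := by positivity
  have hδ1p : 0 ≤ δ1 := by positivity
  have hα2p : 0 ≤ α2 := by positivity
  have hδ2p : 0 ≤ δ2 := by positivity
  have hαs : α1 + α2 = 1 - μ1 := by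
    rw [hα1, hα2, ← add_div, div_eq_iff hΔp.ne', hΔ, hn00, hn11, hs]; ring
  have hδs : δ1 + δ2 = 1 - μ0 := by
    rw [hδ1, hδ2, ← add_div, div_eq_iff hΔp.ne', hΔ, hn00, hn11, hs]; ring
  have hs1 : √(α1 * δ1) = √s * w := by
    have : α1 * δ1 = s * w ^ 2 := by rw [hα1, hδ1, hw]; field_simp
    rw [this, Real.sqrt_mul hs0, Real.sqrt_sq hw0]
  have hs2 : √(α2 * δ2) = √s * w' := by
    have : α2 * δ2 = s * w' ^ 2 := by rw [hα2, hδ2, hw']; field_simp
    rw [this, Real.sqrt_mul hs0, Real.sqrt_sq hw0']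
  have hP1 := P3s hM hα1p hδ1p h0
  have hP2 := P3m hM hα2p hδ2p h1
  rw [← ha, ← hd] at hP1 hP2
  have t1 : α1 * a + (μ0 + δ1) * d = w * 1 := by
    have hone : n00 + n11 = 1 := by rw [hn00, hn11]; linear_combination ht
    rw [← hone, hα1, hδ1, hw]
    field_simp
    rw [hΔ]; ring
  have t2 : (α2 + μ1) * a + δ2 * d = w' * 1 := by
    have hone : n00 + n11 = 1 := by rw [hn00, hn11]; linear_combination ht
    rw [← hone, hα2, hδ2, hw']
    field_simp
    rw [hΔ]; ring
  have q1 : μ0 * δ1 * d ^ 2 = w ^ 2 * Δ := by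
    rw [hδ1, hw]; field_simp
  have q2 : μ1 * α2 * a ^ 2 = w' ^ 2 * Δ := by
    rw [hα2, hw']; field_simp
  rw [t1, q1, E2_smul hw0] at hP1
  rw [t2, q2, E2_smul hw0'] at hP2
  -- decomposition
  set N1 := fromBlocks ((α1 : ℂ) • A + (μ0 : ℂ) • D) ((√(α1 * δ1) : ℂ) • Z)
        ((√(α1 * δ1) : ℂ) • Z)ᴴ ((δ1 : ℂ) • D) with hN1
  set N2 := fromBlocks ((α2 : ℂ) • A) ((√(α2 * δ2) : ℂ) • Z)
        ((√(α2 * δ2) : ℂ) • Z)ᴴ ((μ1 : ℂ) • A + (δ2 : ℂ) • D) with hN2
  have hdec : fromBlocks (((1 - μ1 : ℝ) : ℂ) • A + (μ0 : ℂ) • D)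
        ((√s : ℂ) • Z) ((√s : ℂ) • Z)ᴴ
        ((μ1 : ℂ) • A + ((1 - μ0 : ℝ) : ℂ) • D) = N1 + N2 := by
    rw [hN1, hN2, fromBlocks_add, hs1, hs2, ← hαs, ← hδs]
    have e1 : (√s : ℂ) • Z = ((√s * w : ℝ) : ℂ) • Z + ((√s * w' : ℝ) : ℂ) • Z := by
      rw [← add_smul, ← Complex.ofReal_add, ← mul_add, hww, mul_one]
    congr 1
    · push_cast; rw [add_smul]; abel
    · rw [← conjTranspose_add, ← e1]
    · push_cast; rw [add_smul]; abel
  have hN1p : N1.PosSemidef := by
    have := scale_psd hM hα1p hδ1p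
    have h2 : (fromBlocks ((μ0 : ℂ) • D) 0 0 (0 : Matrix e e ℂ)).PosSemidef := by
      obtain ⟨K, hK⟩ := exists_sqrt (smul_psd hD h0)
      have e1 : fromBlocks ((μ0 : ℂ) • D) 0 0 (0 : Matrix e e ℂ)
          = (fromBlocks K 0 0 (0 : Matrix e e ℂ))ᴴ * fromBlocks K 0 0 (0 : Matrix e e ℂ) := by
        rw [fromBlocks_conjTranspose, fromBlocks_multiply]; simp [hK]
      rw [e1]
      exact posSemidef_conjTranspose_mul_self _
    have := this.add h2
    rw [fromBlocks_add, add_zero, add_zero, add_zero] at this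
    exact this
  have hN2p : N2.PosSemidef := by
    have := scale_psd hM hα2p hδ2p
    have h2 : (fromBlocks (0 : Matrix e e ℂ) 0 0 ((μ1 : ℂ) • A)).PosSemidef := by
      obtain ⟨K, hK⟩ := exists_sqrt (smul_psd hA h1)
      have e1 : fromBlocks (0 : Matrix e e ℂ) 0 0 ((μ1 : ℂ) • A)
          = (fromBlocks 0 0 0 K)ᴴ * fromBlocks 0 0 (0 : Matrix e e ℂ) K := by
        rw [fromBlocks_conjTranspose, fromBlocks_multiply]; simp [hK]
      rw [e1]
      exact posSemidef_conjTranspose_mul_self _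
    have := this.add h2
    rw [fromBlocks_add, add_zero, add_zero, add_zero, add_comm ((δ2 : ℂ) • D)] at this
    exact this
  have hsup := superadd hN1p hN2p
  have tr1 : N1.trace.re = w * 1 := by
    rw [hN1, tr_fromBlocks, trace_add, Complex.add_re, Complex.add_re, trace_smul_re,
      trace_smul_re, trace_smul_re, ← ha, ← hd, ← t1]; ring
  have tr2 : N2.trace.re = w' * 1 := by
    rw [hN2, tr_fromBlocks, trace_add, Complex.add_re, Complex.add_re, trace_smul_re,
      trace_smul_re, trace_smul_re, ← ha, ← hd, ← t2]; ring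
  rw [tr1, tr2, mul_one, mul_one, hww, negMulLog_one, add_zero] at hsup
  rw [hdec]
  have c1 : α1 * cent A + (α2 + μ1) * cent A = cent A := by
    have : α1 + (α2 + μ1) = 1 := by linarith
    rw [← add_mul, this, one_mul]
  have c2 : (μ0 + δ1) * cent D + δ2 * cent D = cent D := by
    have : (μ0 + δ1) + δ2 = 1 := by linarith
    rw [← add_mul, this, one_mul]
  have c3 : w * E2 1 Δ + w' * E2 1 Δ = E2 1 Δ := by rw [← add_mul, hww, one_mul]
  linarith

/-- the equivalence `e ⊕ e ≃ Bool × e` -/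
def sumBool (e : Type) : e ⊕ e ≃ Bool × e := (Equiv.boolProdEquivSum e).symm

theorem submatrix_blocks (M : Matrix (Bool × e) (Bool × e) ℂ) :
    M.submatrix (sumBool e) (sumBool e)
      = fromBlocks (block M false false) (block M false true) (block M true false)
        (block M true true) := by
  ext i j
  rcases i with i | i <;> rcases j with j | j <;> rfl

theorem block_herm {M : Matrix (Bool × e) (Bool × e) ℂ} (hM : M.IsHermitian) :
    block M true false = (block M false true)ᴴ := by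
  ext i j
  simp only [block, of_apply, conjTranspose_apply]
  exact (hM.apply _ _).symm

theorem gadT_blocks {γ ν : ℝ} {M : Matrix (Bool × e) (Bool × e) ℂ} (hM : M.IsHermitian) :
    (gadT γ ν M).submatrix (sumBool e) (sumBool e)
      = fromBlocks (((1 - γ * ν : ℝ) : ℂ) • block M false false
          + ((γ * (1 - ν) : ℝ) : ℂ) • block M true true)
        ((√(1 - γ * (1 - ν) - γ * ν) : ℂ) • block M false true)
        ((√(1 - γ * (1 - ν) - γ * ν) : ℂ) • block M false true)ᴴ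
        (((γ * ν : ℝ) : ℂ) • block M false false
          + ((1 - γ * (1 - ν) : ℝ) : ℂ) • block M true true) := by
  have e1 : 1 - γ * (1 - ν) - γ * ν = 1 - γ := by ring
  have e2 : 1 - γ * (1 - ν) = 1 - γ + γ * ν := by ring
  rw [submatrix_blocks, e1, e2, conjTranspose_smul, ← block_herm hM]
  congr 1 <;> (ext i j; simp [block, gadT, gadMap])

theorem key : Key := by
  intro γ ν hγ hν e _ _ M hM
  have hb := submatrix_blocks M
  rw [block_herm hM.1.1] at hb
  have hMb : (fromBlocks (block M false false) (block M false true) (block M false true)ᴴ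
      (block M true true)).PosSemidef := by
    rw [← hb]; exact hM.1.submatrix _
  have htr : M.trace = (block M false false).trace + (block M true true).trace := by
    rw [← tr_fromBlocks _ (block M false true) (block M false true)ᴴ, ← hb, trace, trace,
      ← Equiv.sum_comp (sumBool e)]
    rfl
  have ht : (block M false false).trace.re + (block M true true).trace.re = 1 := by
    have := hM.2
    rw [htr] at this
    have h2 := congrArg Complex.re this
    simpa using h2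
  have h0 : 0 ≤ γ * (1 - ν) := mul_nonneg hγ.1 (by linarith [hν.2])
  have h1 : 0 ≤ γ * ν := mul_nonneg hγ.1 hν.1
  have h01 : γ * (1 - ν) + γ * ν ≤ 1 := by
    have : γ * (1 - ν) + γ * ν = γ := by ring
    rw [this]; exact hγ.2
  have hk := key_blocks hMb ht h0 h1 h01
  rw [← gadT_blocks hM.1.1] at hk
  have hherm : (gadT γ ν M).IsHermitian := by
    have h3 : ((gadT γ ν M).submatrix (sumBool e) (sumBool e)).IsHermitian := by
      rw [gadT_blocks hM.1.1, isHermitian_fromBlocks_iff]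
      have hA := A_psd hMb
      have hD := D_psd hMb
      refine ⟨?_, rfl, by simp, ?_⟩
      · exact ((smul_psd hA (by linarith)).add (smul_psd hD h0)).1
      · exact ((smul_psd hA h1).add (smul_psd hD (by linarith))).1
    have := h3.submatrix (sumBool e).symm
    rw [submatrix_submatrix] at this
    simpa using this
  rw [vn_reindex hherm] at hk
  refine le_trans (le_of_eq ?_) hk
  have hp : pex M = (block M true true).trace.re := rfl
  have ha : (block M false false).trace.re = 1 - pex M := by rw [hp]; linarith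
  unfold FF cent
  rw [ha, ← hp, E2_one]
  have e3 : γ * ν * (1 - ν) + γ * (1 - γ) * (pex M - ν) ^ 2
      = ((1 - γ * ν) * (1 - pex M) + γ * (1 - ν) * pex M)
        * (γ * ν * (1 - pex M) + (1 - γ * (1 - ν)) * pex M)
        - (1 - γ * (1 - ν) - γ * ν) * (1 - pex M) * pex M := by ring
  rw [e3]; ring

end

end Crest.Agent.H29
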