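import Mathlib

/-! rid 254 (S0392): rigidity of near maximal pairs, and almost orthonormal families. -/

set_option autoImplicit false

namespace Crest.H29LP

open scoped RealInnerProductSpace

/-- RIGID (midpoint rigidity): `a, b, c` are the images of `p, q, x` where `|q-p| = 2L` and
`|x-p|² , |x-q|² ≤ R2`; the squared ratio of `(p,q)` is at least `S` and those of `(p,x)`, `(x,q)`
are at most `S'`. Then `c` is close to the hyperplane through the midpoint orthogonal to `b - a`. -/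
theorem rigid {E : Type*} [NormedAddCommGroup E] [InnerProductSpace ℝ E] (a b c : E) (L S M : ℝ)
    (hab : S * (2 * L) ^ 2 ≤ ‖b - a‖ ^ 2) (h1 : ‖c - a‖ ^ 2 ≤ M) (h2 : ‖c - b‖ ^ 2 ≤ M) :
    |⟪c - (1 / 2 : ℝ) • (a + b), b - a⟫| ≤ M - S * L ^ 2 := by
  have e1 : ‖c - a‖ ^ 2 - ‖c - b‖ ^ 2 = 2 * ⟪c - (1 / 2 : ℝ) • (a + b), b - a⟫ := by
    rw [← real_inner_self_eq_norm_sq, ← real_inner_self_eq_norm_sq]
    simp only [inner_sub_left, inner_sub_right, inner_add_left, inner_smul_left, real_inner_comm c a,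
      real_inner_comm c b, real_inner_comm a b]
    simp
    ring
  have e2 : ‖c - a‖ ^ 2 + ‖c - b‖ ^ 2 = 2 * ‖c - (1 / 2 : ℝ) • (a + b)‖ ^ 2 + ‖b - a‖ ^ 2 / 2 := by
    rw [← real_inner_self_eq_norm_sq, ← real_inner_self_eq_norm_sq, ← real_inner_self_eq_norm_sq,
      ← real_inner_self_eq_norm_sq]
    simp only [inner_sub_left, inner_sub_right, inner_add_left, inner_add_right, inner_smul_left,
      inner_smul_right, real_inner_comm c a, real_inner_comm c b, real_inner_comm a b]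
    simp
    ring
  have e3 : 0 ≤ ‖c - (1 / 2 : ℝ) • (a + b)‖ ^ 2 := by positivity
  rw [abs_le]
  constructor <;> nlinarith

/-- almost orthogonal unit vectors are linearly independent: there are at most `n` of them in `ℝⁿ` -/
theorem gram {E : Type*} [NormedAddCommGroup E] [InnerProductSpace ℝ E] (n : ℕ)
    (v : Fin (n + 1) → E) (h1 : ∀ i, ‖v i‖ = 1)
    (h2 : ∀ i j, i ≠ j → |⟪v i, v j⟫| ≤ 1 / (2 * (n + 1))) : LinearIndependent ℝ v := by
  rw [Fintype.linearIndependent_iff]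
  intro g hg
  by_contra hne
  push_neg at hne
  obtain ⟨i0, hi0⟩ := hne
  obtain ⟨i, -, hi⟩ := Finset.exists_max_image Finset.univ (fun i => |g i|) ⟨i0, Finset.mem_univ _⟩
  have hpos : 0 < |g i| := lt_of_lt_of_le (abs_pos.mpr hi0) (hi i0 (Finset.mem_univ _))
  have h3 : ⟪v i, ∑ j, g j • v j⟫ = 0 := by rw [hg]; simp
  rw [inner_sum, ← Finset.add_sum_erase _ _ (Finset.mem_univ i)] at h3
  have h4 : ⟪v i, g i • v i⟫ = g i := by
    rw [inner_smul_right, real_inner_self_eq_norm_sq, h1]; simp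
  rw [h4] at h3
  have h5 : |∑ j ∈ Finset.univ.erase i, ⟪v i, g j • v j⟫| ≤ ∑ j ∈ Finset.univ.erase i, |g i| * (1 / (2 * (n + 1))) := by
    refine (Finset.abs_sum_le_sum_abs _ _).trans (Finset.sum_le_sum fun j hj => ?_)
    rw [inner_smul_right, abs_mul]
    have hne : i ≠ j := (Finset.ne_of_mem_erase hj).symm
    exact mul_le_mul (hi j (Finset.mem_univ _)) (h2 i j hne) (abs_nonneg _) (abs_nonneg _)
  rw [Finset.sum_const, Finset.card_erase_of_mem (Finset.mem_univ _)] at h5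
  simp only [Finset.card_univ, Fintype.card_fin, Nat.add_sub_cancel, nsmul_eq_mul] at h5
  have h6 : g i = -∑ j ∈ Finset.univ.erase i, ⟪v i, g j • v j⟫ := by linarith
  rw [← abs_neg, ← h6] at h5
  have h7 : (n : ℝ) * (|g i| * (1 / (2 * (n + 1)))) ≤ |g i| / 2 := by
    rw [show (n : ℝ) * (|g i| * (1 / (2 * (n + 1)))) = |g i| * (n / (n + 1)) / 2 by field_simp]
    have : (n : ℝ) / (n + 1) ≤ 1 := by rw [div_le_one (by positivity)]; linarith
    nlinarith
  linarith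

/-- there are no `n+1` almost orthonormal vectors in `ℝⁿ` -/
theorem gram_false (n : ℕ) (v : Fin (n + 1) → EuclideanSpace ℝ (Fin n)) (h1 : ∀ i, ‖v i‖ = 1)
    (h2 : ∀ i j, i ≠ j → |⟪v i, v j⟫| ≤ 1 / (2 * (n + 1))) : False := by
  have h := (gram n v h1 h2).fintype_card_le_finrank
  simp at h

/-- non normalised version -/
theorem gram_false' (n : ℕ) (v : Fin (n + 1) → EuclideanSpace ℝ (Fin n)) (h1 : ∀ i, v i ≠ 0)
    (h2 : ∀ i j, i < j → |⟪v i, v j⟫| ≤ ‖v i‖ * ‖v j‖ / (2 * (n + 1))) : False := by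
  refine gram_false n (fun i => (‖v i‖)⁻¹ • v i) (fun i => ?_) (fun i j hij => ?_)
  · have : ‖v i‖ ≠ 0 := norm_ne_zero_iff.mpr (h1 i)
    rw [norm_smul, norm_inv, norm_norm, inv_mul_cancel₀ this]
  · have hi : 0 < ‖v i‖ := norm_pos_iff.mpr (h1 i)
    have hj : 0 < ‖v j‖ := norm_pos_iff.mpr (h1 j)
    have key : |⟪v i, v j⟫| ≤ ‖v i‖ * ‖v j‖ / (2 * (n + 1)) := by
      rcases lt_or_gt_of_ne hij with h | h
      · exact h2 i j h
      · rw [real_inner_comm, mul_comm ‖v i‖]; exact h2 j i h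
    rw [real_inner_smul_left, real_inner_smul_right, abs_mul, abs_mul, abs_inv, abs_inv, abs_norm, abs_norm]
    calc ‖v i‖⁻¹ * (‖v j‖⁻¹ * |⟪v i, v j⟫|) ≤ ‖v i‖⁻¹ * (‖v j‖⁻¹ * (‖v i‖ * ‖v j‖ / (2 * (n + 1)))) := by gcongr
      _ = 1 / (2 * (n + 1)) := by field_simp

end Crest.H29LP
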