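import Crest.Prelude.Def_TwoAdicShift

/-! rid 113 (S0148): `fibreSpace` is isometric to every separable infinite-dimensional Hilbert space. -/

set_option autoImplicit false

open MeasureTheory TopologicalSpace Crest.AnalysisR.TwoAdic
open scoped ENNReal

attribute [local instance] Crest.AnalysisR.TwoAdic.borelTwoAdic
  Crest.AnalysisR.TwoAdic.borelSpace_twoAdic

namespace Crest.R113.H29

/-- orthonormal families in separable spaces are countable -/
theorem countable_of_orthonormal {H : Type*} [NormedAddCommGroup H] [InnerProductSpace ℂ H]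
    [SeparableSpace H] {ι : Type*} {v : ι → H} (hv : Orthonormal ℂ v) : Countable ι := by
  have hd : ∀ i j : ι, i ≠ j → 1 ≤ dist (v i) (v j) := by
    intro i j hij
    have h0 : inner ℂ (v i) (v j) = 0 := hv.2 hij
    have h1 : ‖v i - v j‖ ^ 2 = 2 := by
      rw [@norm_sub_sq ℂ, h0, hv.1 i, hv.1 j]
      norm_num
    rw [dist_eq_norm]
    by_contra hlt
    push Not at hlt
    nlinarith [norm_nonneg (v i - v j)]
  -- balls of radius 1/2 are disjoint open nonempty
  have hdisj : Pairwise (Function.onFun Disjoint fun i : ι => Metric.ball (v i) (1 / 2)) := by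
    intro i j hij
    rw [Function.onFun, Set.disjoint_left]
    intro x hx hy
    have := hd i j hij
    rw [Metric.mem_ball] at hx hy
    have h2 := dist_triangle_left (v i) (v j) x
    linarith
  exact hdisj.countable_of_isOpen_disjoint (fun i => Metric.isOpen_ball)
    (fun i => ⟨v i, Metric.mem_ball_self (by norm_num)⟩)

/-- every separable infinite-dimensional Hilbert space is `ℓ²(ℕ)` -/
theorem iso_l2 (H : Type*) [NormedAddCommGroup H] [InnerProductSpace ℂ H] [CompleteSpace H]
    [SeparableSpace H] (hH : ¬ FiniteDimensional ℂ H) :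
    Nonempty (H ≃ₗᵢ[ℂ] lp (fun _ : ℕ => ℂ) 2) := by
  obtain ⟨w, b, hb⟩ := exists_hilbertBasis ℂ H
  have hc : Countable w := countable_of_orthonormal b.orthonormal
  have hi : Infinite w := by
    by_contra hfin
    rw [not_infinite_iff_finite] at hfin
    apply hH
    have : Fintype w := Fintype.ofFinite w
    exact Module.Finite.of_basis b.toOrthonormalBasis.toBasis
  obtain ⟨e⟩ := nonempty_equiv_of_countable (α := ℕ) (β := w)
  have ho : Orthonormal ℂ (b ∘ e) := b.orthonormal.comp e e.injective
  have hs : ⊤ ≤ (Submodule.span ℂ (Set.range (b ∘ e))).topologicalClosure := by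
    rw [Set.range_comp, e.surjective.range_eq, Set.image_univ]
    exact b.dense_span.ge
  exact ⟨(HilbertBasis.mk ho hs).repr⟩

instance instSepSeq : SeparableSpace seqHilbert := by
  have hsep : IsSeparable (Set.univ : Set seqHilbert) := by
    have h1 : IsSeparable (Set.range fun j : ℤ => basisVec j) := (Set.countable_range _).isSeparable
    have h2 : IsSeparable ((Submodule.span ℂ (Set.range fun j : ℤ => basisVec j) :
        Submodule ℂ seqHilbert) : Set seqHilbert) := h1.span
    have h3 := h2.closure
    refine h3.mono ?_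
    intro f _
    have hs : HasSum (fun i => lp.single 2 i (f i : ℂ)) f := lp.hasSum_single (by norm_num) f
    refine mem_closure_of_tendsto hs (Filter.Eventually.of_forall fun s => ?_)
    refine Submodule.sum_mem _ fun i _ => ?_
    have h4 : (lp.single 2 i (f i : ℂ) : seqHilbert) = (f i : ℂ) • basisVec i := by
      rw [basisVec, ← lp.single_smul, smul_eq_mul, mul_one]
    rw [h4]
    exact Submodule.smul_mem _ _ (Submodule.subset_span ⟨i, rfl⟩)
  exact isSeparable_univ_iff.1 hsep

instance instFin : IsFiniteMeasure haarTwoAdic := by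
  unfold haarTwoAdic
  infer_instance

instance instNeZero : NeZero haarTwoAdic := by
  unfold haarTwoAdic
  infer_instance

instance instCG : MeasurableSpace.CountablyGenerated ℤ_[2] := by
  have : SecondCountableTopology ℤ_[2] := inferInstance
  infer_instance

instance instSepFib : SeparableSpace fibreSpace := by
  haveI : Fact ((2 : ℝ≥0∞) ≠ ∞) := ⟨by norm_num⟩
  infer_instance

theorem orthonormal_basisVec : Orthonormal ℂ (basisVec : ℤ → seqHilbert) := by
  constructor
  · intro i
    rw [basisVec, lp.norm_single (by norm_num)]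
    simp
  · intro i j hij
    show inner ℂ (basisVec i) (basisVec j) = 0
    rw [basisVec, lp.inner_single_left]
    simp [basisVec, hij]

theorem not_fd_seq : ¬ FiniteDimensional ℂ seqHilbert := by
  intro h
  have hf : Finite ℤ := orthonormal_basisVec.linearIndependent.finite
  exact not_finite ℤ

theorem not_fd_fibre : ¬ FiniteDimensional ℂ fibreSpace := by
  intro h
  apply not_fd_seq
  refine FiniteDimensional.of_injective (Lp.constₗ (2 : ℝ≥0∞) haarTwoAdic ℂ : seqHilbert →ₗ[ℂ] fibreSpace) ?_
  intro f g hfg
  have h1 : Lp.const (2 : ℝ≥0∞) haarTwoAdic (f - g) = 0 := by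
    have : Lp.const (2 : ℝ≥0∞) haarTwoAdic f = Lp.const (2 : ℝ≥0∞) haarTwoAdic g := hfg
    rw [map_sub, this, sub_self]
  have h2 := Lp.norm_const (p := (2 : ℝ≥0∞)) (μ := haarTwoAdic) (c := f - g) (by norm_num)
  rw [h1, norm_zero] at h2
  have h3 : 0 < haarTwoAdic.real Set.univ ^ (1 / (2 : ℝ≥0∞).toReal) := by
    apply Real.rpow_pos_of_pos
    rw [measureReal_def]
    exact ENNReal.toReal_pos (NeZero.ne _ |> fun h => by simpa using h) (measure_ne_top _ _)
  have h4 : ‖f - g‖ = 0 := by
    rcases mul_eq_zero.1 h2.symm with h | h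
    · exact h
    · exact absurd h h3.ne'
  exact sub_eq_zero.1 (norm_eq_zero.1 h4)

theorem iso (H : Type*) [NormedAddCommGroup H] [InnerProductSpace ℂ H] [CompleteSpace H]
    [SeparableSpace H] (hH : ¬ FiniteDimensional ℂ H) :
    Nonempty (fibreSpace ≃ₗᵢ[ℂ] H) := by
  obtain ⟨e1⟩ := iso_l2 fibreSpace not_fd_fibre
  obtain ⟨e2⟩ := iso_l2 H hH
  exact ⟨e1.trans e2.symm⟩

end Crest.R113.H29
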