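import Crest.Agent.H2ESpec

/-!
# Rid 210 (S0323): module ASYM
-/

set_option autoImplicit false

namespace Crest.Agent.ED

theorem asym_pow_ge (j : ℕ) (hj : 15 ≤ j) : 120 * j ≤ 4 ^ j := by
  induction j, hj using Nat.le_induction with
  | base => norm_num
  | succ j hj ih =>
      rw [pow_succ]
      omega

theorem asym_calc (j : ℕ) (hj : 15 ≤ j) (x : ℝ) (hx1 : 1 ≤ Real.log x)
    (hx2 : Real.log x ≤ 15 * (j + 1) * 4 ^ (j + 1) * Real.log 2) (D : ℝ)
    (hD : (2 : ℝ) ^ (j * 2 ^ (j - 1)) ≤ D) :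
    Real.exp (1 / 100 * Real.sqrt (Real.log x * Real.log (Real.log x))) ≤ D := by
  have hl2 : Real.log 2 ≤ 1 := by
    have := Real.log_two_lt_d9
    linarith
  have hl2' : (0.69 : ℝ) ≤ Real.log 2 := by
    have := Real.log_two_gt_d9
    linarith
  have hj' : (15 : ℝ) ≤ j := by exact_mod_cast hj
  have h4 : (0 : ℝ) < 4 ^ j := by positivity
  -- `log x ≤ 120 j 4^j`
  have h1 : Real.log x ≤ 120 * j * 4 ^ j := by
    calc Real.log x ≤ 15 * (j + 1) * 4 ^ (j + 1) * Real.log 2 := hx2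
      _ ≤ 15 * (j + 1) * 4 ^ (j + 1) * 1 := by
          refine mul_le_mul_of_nonneg_left hl2 (by positivity)
      _ = 60 * (j + 1) * 4 ^ j := by ring
      _ ≤ 60 * (2 * j) * 4 ^ j := by
          refine mul_le_mul_of_nonneg_right ?_ h4.le
          nlinarith
      _ = 120 * j * 4 ^ j := by ring
  -- `log log x ≤ 4 j`
  have h2 : Real.log (Real.log x) ≤ 4 * j := by
    have h3 : (120 * j : ℝ) ≤ 4 ^ j := by exact_mod_cast asym_pow_ge j hj
    have h5 : Real.log x ≤ 16 ^ j := by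
      calc Real.log x ≤ 120 * j * 4 ^ j := h1
        _ ≤ 4 ^ j * 4 ^ j := mul_le_mul_of_nonneg_right h3 h4.le
        _ = 16 ^ j := by rw [← mul_pow]; norm_num
    calc Real.log (Real.log x) ≤ Real.log (16 ^ j) :=
          Real.log_le_log (by linarith) h5
      _ = j * Real.log 16 := by rw [Real.log_pow]
      _ = j * (4 * Real.log 2) := by
          rw [show (16 : ℝ) = 2 ^ 4 by norm_num, Real.log_pow]
          norm_num
      _ ≤ j * (4 * 1) := by
          refine mul_le_mul_of_nonneg_left ?_ (by positivity)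
          linarith
      _ = 4 * j := by ring
  have h6 : Real.log x * Real.log (Real.log x) ≤ (22 * j * 2 ^ j) ^ 2 := by
    calc Real.log x * Real.log (Real.log x) ≤ (120 * j * 4 ^ j) * (4 * j) := by
          refine mul_le_mul h1 h2 (Real.log_nonneg hx1) (by positivity)
      _ = 480 * (j * j * 4 ^ j) := by ring
      _ ≤ 484 * (j * j * 4 ^ j) := by
          refine mul_le_mul_of_nonneg_right (by norm_num) (by positivity)
      _ = (22 * j * 2 ^ j) ^ 2 := by
          rw [show (4 : ℝ) ^ j = 2 ^ j * 2 ^ j by rw [← mul_pow]; norm_num]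
          ring
  have h7 : Real.sqrt (Real.log x * Real.log (Real.log x)) ≤ 22 * j * 2 ^ j :=
    Real.sqrt_le_iff.mpr ⟨by positivity, h6⟩
  have h8 : 1 / 100 * Real.sqrt (Real.log x * Real.log (Real.log x)) ≤
      Real.log 2 * ((j * 2 ^ (j - 1) : ℕ) : ℝ) := by
    have h9 : (2 : ℝ) ^ j = 2 * 2 ^ (j - 1) := by
      rw [← pow_succ']
      congr 1
      omega
    have h10 : (0 : ℝ) < 2 ^ (j - 1) := by positivity
    calc 1 / 100 * Real.sqrt (Real.log x * Real.log (Real.log x))
        ≤ 1 / 100 * (22 * j * 2 ^ j) := by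
          refine mul_le_mul_of_nonneg_left h7 (by norm_num)
      _ = 0.44 * (j * 2 ^ (j - 1)) := by rw [h9]; ring
      _ ≤ Real.log 2 * (j * 2 ^ (j - 1)) := by
          refine mul_le_mul_of_nonneg_right (by linarith) (by positivity)
      _ = Real.log 2 * ((j * 2 ^ (j - 1) : ℕ) : ℝ) := by push_cast; ring
  calc Real.exp (1 / 100 * Real.sqrt (Real.log x * Real.log (Real.log x)))
      ≤ Real.exp (Real.log 2 * ((j * 2 ^ (j - 1) : ℕ) : ℝ)) := Real.exp_le_exp.mpr h8
    _ = (2 : ℝ) ^ (j * 2 ^ (j - 1)) := by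
        rw [Real.exp_mul, Real.exp_log (by norm_num : (0 : ℝ) < 2), Real.rpow_natCast]
    _ ≤ D := hD

theorem asym (h : Level) : Final := by
  obtain ⟨g, hg⟩ : ∃ g : ℕ → ℕ, ∀ j, g j = 2 ^ (15 * j * 4 ^ j) :=
    ⟨fun j => 2 ^ (15 * j * 4 ^ j), fun _ => rfl⟩
  refine ⟨1 / 100, by norm_num, max 16 (g 15), fun d hd => ?_⟩
  have hd16 : 16 ≤ d := (le_max_left _ _).trans hd
  have hdg : g 15 ≤ d := (le_max_right _ _).trans hd
  have hex : ∃ j, 15 ≤ j ∧ d < g (j + 1) := by
    refine ⟨d + 15, by omega, ?_⟩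
    rw [hg]
    calc d < 2 ^ d := Nat.lt_two_pow_self
      _ ≤ 2 ^ (15 * (d + 15 + 1) * 4 ^ (d + 15 + 1)) := by
          refine Nat.pow_le_pow_right (by norm_num) ?_
          have : 1 ≤ 4 ^ (d + 15 + 1) := Nat.one_le_pow _ _ (by norm_num)
          nlinarith
  classical
  have hj := Nat.find_spec hex
  set j := Nat.find hex with hjdef
  have hgj : g j ≤ d := by
    rcases Nat.eq_or_lt_of_le hj.1 with h15 | h15
    · rw [← h15]; exact hdg
    · have hnot := Nat.find_min hex (m := j - 1) (by omega)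
      rw [not_and, not_lt] at hnot
      have := hnot (by omega)
      rwa [show j - 1 + 1 = j by omega] at this
  obtain ⟨n, hn, H⟩ := h j hj.1
  refine ⟨n, hn.trans ((hg j) ▸ hgj), fun f s D hs hE => ?_⟩
  have hD := H f s D hs hE
  refine asym_calc j hj.1 d ?_ ?_ D hD
  · rw [Real.le_log_iff_exp_le (by exact_mod_cast (by omega : 0 < d))]
    have : Real.exp 1 < 2.7182818286 := Real.exp_one_lt_d9
    have h16 : (16 : ℝ) ≤ d := by exact_mod_cast hd16
    linarith
  · have h1 : (d : ℝ) ≤ (2 : ℝ) ^ (15 * (j + 1) * 4 ^ (j + 1)) := by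
      have := hj.2
      rw [hg] at this
      exact_mod_cast this.le
    have h0 : (0 : ℝ) < d := by exact_mod_cast (by omega : 0 < d)
    calc Real.log d ≤ Real.log ((2 : ℝ) ^ (15 * (j + 1) * 4 ^ (j + 1))) :=
          Real.log_le_log h0 h1
      _ = 15 * (j + 1) * 4 ^ (j + 1) * Real.log 2 := by
          rw [Real.log_pow]
          push_cast
          ring

end Crest.Agent.ED
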