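import Crest.Agent.H2ESpec

/-! # Rid 210, module BASE -/

set_option autoImplicit false

namespace Crest.Agent.ED

open Complex in
theorem sum_norm_one_sub_sq {A : Type} [AddCommGroup A] [Fintype A] (χ : AddChar A ℂ)
    (hχ : χ ≠ 1) : ∑ v, ‖1 - χ v‖ ^ 2 = 2 * (Fintype.card A : ℝ) := by
  have h0 : ∑ v, χ v = 0 := (AddChar.sum_eq_zero_iff_ne_zero).mpr hχ
  have h1 : ∀ v, ‖1 - χ v‖ ^ 2 = 2 - 2 * (χ v).re := by
    intro v
    have hn : ‖χ v‖ = 1 := AddChar.norm_apply χ v
    have h2 : ‖1 - χ v‖ ^ 2 = (1 - (χ v).re) ^ 2 + (χ v).im ^ 2 := by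
      rw [← Complex.normSq_eq_norm_sq, Complex.normSq_apply]
      simp
      ring
    have h3 : ‖χ v‖ ^ 2 = (χ v).re ^ 2 + (χ v).im ^ 2 := by
      rw [← Complex.normSq_eq_norm_sq, Complex.normSq_apply]
      ring
    rw [hn] at h3
    rw [h2]
    linarith
  simp_rw [h1]
  rw [Finset.sum_sub_distrib, ← Finset.mul_sum, ← Complex.re_sum, h0]
  simp [mul_comm]

theorem dm_singleton_ne {α : Type*} {a b : α} (h : a ≠ b) : 2 ≤ dm [a] [b] := by
  have h1 := dm_spec [a] [b]
  generalize dm [a] [b] = c at h1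
  by_contra hcon
  push Not at hcon
  obtain ⟨c₁, c₂, hc, h2, h3⟩ := Mt.filter (fun x => open Classical in decide (x = a)) h1
  have h4 := h2.length_le.1
  have h5 := h3.length_le.2
  simp [List.filter_cons, h, Ne.symm h] at h4 h5
  omega

theorem base : Base := by
  intro N M hN hNM
  haveI : NeZero N := ⟨hN.ne'⟩
  refine ⟨ZMod N, ZMod N, inferInstance, inferInstance, inferInstance, 1,
    fun x => [[x.val]], id, fun _ => 1 / (N : ℝ), ?_⟩
  have hNr : (0 : ℝ) < N := by exact_mod_cast hN
  constructor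
  · simp
  · simp
  · intro x a ha
    simp only [List.mem_singleton] at ha
    subst ha
    refine ⟨rfl, ?_⟩
    intro i hi
    simp only [List.mem_singleton] at hi
    subst hi
    exact (ZMod.val_lt x).trans_le hNM
  · intro j; positivity
  · have h1 : ∀ j : ZMod N, 1 / (N : ℝ) * ∑ x : ZMod N,
        (dm [[x.val]] [[(x + id j).val]] : ℝ) ≤ 2 := by
      intro j
      have h2 : ∑ x : ZMod N, (dm [[x.val]] [[(x + id j).val]] : ℝ) ≤ ∑ _x : ZMod N, (2 : ℝ) := by
        apply Finset.sum_le_sum
        intro x _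
        have := dm_le_total [[x.val]] [[(x + id j).val]]
        simp only [List.length_singleton] at this
        exact_mod_cast this
      simp only [Finset.sum_const, Finset.card_univ, ZMod.card, nsmul_eq_mul] at h2
      calc 1 / (N : ℝ) * ∑ x : ZMod N, (dm [[x.val]] [[(x + id j).val]] : ℝ)
          ≤ 1 / (N : ℝ) * (N * 2) := by gcongr
        _ = 2 := by field_simp
    calc _ ≤ ∑ _j : ZMod N, (2 : ℝ) := Finset.sum_le_sum fun j _ => h1 j
      _ = _ := by simp [mul_comm]
  · intro χ hχ
    have hχ1 : χ ≠ 1 := by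
      intro h
      apply hχ
      rw [h]
      simp
    rw [← Finset.mul_sum]
    simp only [id]
    rw [sum_norm_one_sub_sq χ hχ1, ZMod.card]
    field_simp
    norm_num
  · intro x s hs
    have h1 : x ≠ x + s • (1 : ZMod N) := by
      intro h
      apply hs
      have h2 : s • (1 : ZMod N) = 0 := by
        have := h.symm
        rwa [add_eq_left] at this
      rw [zsmul_one] at h2
      exact (ZMod.intCast_zmod_eq_zero_iff_dvd s N).mp h2
    have h2 : [x.val] ≠ [(x + s • (1 : ZMod N)).val] := by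
      intro h
      apply h1
      simp only [List.cons.injEq, and_true] at h
      exact ZMod.val_injective N h
    have h3 := dm_singleton_ne h2
    have : (2 : ℝ) ≤ (dm [[x.val]] [[(x + s • (1 : ZMod N)).val]] : ℝ) := by exact_mod_cast h3
    simpa using this

end Crest.Agent.ED
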