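import Crest.Agent.H2ESpec

/-!
# Rid 210 (S0323): module BIN
-/

set_option autoImplicit false

namespace Crest.Agent.ED

open Crest.GeometryTopology.EditDistance

theorem bits_cons (d : Bool) (x : List Bool) : bits (d :: x) = d :: false :: bits x := by
  simp [bits]

theorem bits_length (x : List Bool) : (bits x).length = 2 * x.length := by
  induction x with
  | nil => simp [bits]
  | cons d x ih => rw [bits_cons]; simp only [List.length_cons, ih]; ring

theorem bits_inj : ∀ x y : List Bool, bits x = bits y → x = y := by
  intro x
  induction x with
  | nil =>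
      intro y h
      cases y with
      | nil => rfl
      | cons e y => rw [bits_cons] at h; simp [bits] at h
  | cons d x ih =>
      intro y h
      cases y with
      | nil => rw [bits_cons] at h; simp [bits] at h
      | cons e y =>
          rw [bits_cons, bits_cons] at h
          simp only [List.cons.injEq, true_and] at h
          rw [h.1, ih y h.2]

theorem natBits_length (h m : ℕ) : (natBits h m).length = h := by simp [natBits]

theorem natBits_inj (h m m' : ℕ) (hm : m < 2 ^ h) (hm' : m' < 2 ^ h)
    (he : natBits h m = natBits h m') : m = m' := by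
  apply Nat.eq_of_testBit_eq
  intro i
  by_cases hi : i < h
  · have h1 : (natBits h m)[i]? = (natBits h m')[i]? := by rw [he]
    simpa [natBits, hi] using h1
  · have h2 : 2 ^ h ≤ 2 ^ i := Nat.pow_le_pow_right (by norm_num) (by omega)
    rw [Nat.testBit_lt_two_pow (lt_of_lt_of_le hm h2),
      Nat.testBit_lt_two_pow (lt_of_lt_of_le hm' h2)]

theorem flatBits_length (h : ℕ) (a : List ℕ) : (a.flatMap (natBits h)).length = a.length * h := by
  induction a with
  | nil => simp
  | cons m a ih =>
      simp only [List.flatMap_cons, List.length_append, natBits_length, ih, List.length_cons]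
      ring

theorem flatBits_inj (h : ℕ) : ∀ a a' : List ℕ, a.length = a'.length →
    (∀ i ∈ a, i < 2 ^ h) → (∀ i ∈ a', i < 2 ^ h) →
    a.flatMap (natBits h) = a'.flatMap (natBits h) → a = a' := by
  intro a
  induction a with
  | nil =>
      intro a' hl _ _ _
      cases a' with
      | nil => rfl
      | cons m a' => simp at hl
  | cons m a ih =>
      intro a' hl ha ha' he
      cases a' with
      | nil => simp at hl
      | cons m' a' =>
          simp only [List.flatMap_cons] at he
          have h1 := List.append_inj he (by rw [natBits_length, natBits_length])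
          have h2 : m = m' := natBits_inj h m m' (ha m (by simp)) (ha' m' (by simp)) h1.1
          have h3 : a = a' := ih a' (by simpa using hl) (fun i hi => ha i (by simp [hi]))
            (fun i hi => ha' i (by simp [hi])) h1.2
          rw [h2, h3]

theorem blk_length (h : ℕ) (a : List ℕ) : (blk h a).length = 4 + 2 * a.length * h := by
  unfold blk
  rw [List.length_append, bits_length, flatBits_length]
  simp only [List.length_cons, List.length_nil]
  ring

theorem blk_inj (h : ℕ) (a a' : List ℕ) (hl : a.length = a'.length)
    (ha : ∀ i ∈ a, i < 2 ^ h) (ha' : ∀ i ∈ a', i < 2 ^ h) (he : blk h a = blk h a') : a = a' := by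
  unfold blk at he
  exact flatBits_inj h a a' hl ha ha' (bits_inj _ _ (List.append_cancel_left he))

theorem enc_cons (h : ℕ) (a : List ℕ) (u : List (List ℕ)) :
    enc h (a :: u) = blk h a ++ enc h u := by
  simp [enc]

theorem enc_append (h : ℕ) (u v : List (List ℕ)) : enc h (u ++ v) = enc h u ++ enc h v := by
  simp [enc]

theorem Valid.tail {l h : ℕ} {a : List ℕ} {u : List (List ℕ)} (hv : Valid l h (a :: u)) :
    Valid l h u := fun b hb => hv b (by simp [hb])

theorem Valid.right {l h : ℕ} {u v : List (List ℕ)} (hv : Valid l h (u ++ v)) :
    Valid l h v := fun b hb => hv b (by simp [hb])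

theorem enc_length (l h : ℕ) (u : List (List ℕ)) (hu : Valid l h u) :
    (enc h u).length = (4 + 2 * l * h) * u.length := by
  induction u with
  | nil => simp [enc]
  | cons a u ih =>
      rw [enc_cons, List.length_append, blk_length, (hu a (by simp)).1, ih hu.tail,
        List.length_cons]
      ring

theorem Mt.enc {l h : ℕ} {u v : List (List ℕ)} {c : ℕ} (hm : Mt u v c) :
    Valid l h u → Valid l h v →
    Mt (Crest.Agent.ED.enc h u) (Crest.Agent.ED.enc h v) ((4 + 2 * l * h) * c) := by
  induction hm with
  | nil => intro _ _; simpa [ED.enc] using Mt.nil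
  | cons a _ ih =>
      intro hu hv
      rw [enc_cons, enc_cons]
      simpa using (Mt.refl (blk h a)).append (ih hu.tail hv.tail)
  | left a _ ih =>
      intro hu hv
      rw [enc_cons]
      have h1 := (Mt.del (blk h a)).append (ih hu.tail hv)
      rw [blk_length, (hu a (by simp)).1] at h1
      rw [mul_add, mul_one, add_comm ((4 + 2 * l * h) * _)]
      simpa using h1
  | right a _ ih =>
      intro hu hv
      rw [enc_cons]
      have h1 := (Mt.ins (blk h a)).append (ih hu hv.tail)
      rw [blk_length, (hv a (by simp)).1] at h1
      rw [mul_add, mul_one, add_comm ((4 + 2 * l * h) * _)]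
      simpa using h1

/-- no suffix of `bits x` starts with two `true`s -/
theorem bits_suffix (x : List Bool) : ∀ (P Q : List Bool), P ++ Q = bits x → Q ≠ [] →
    ∀ R T : List Bool, Q ++ R ≠ true :: true :: T := by
  induction x with
  | nil =>
      intro P Q h hQ
      simp only [bits, List.flatMap_nil, List.append_eq_nil_iff] at h
      exact absurd h.2 hQ
  | cons d x ih =>
      intro P Q h hQ R T
      rw [bits_cons] at h
      cases P with
      | nil =>
          rw [List.nil_append] at h
          rw [h]
          simp
      | cons p P =>
          cases P with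
          | nil =>
              simp only [List.cons_append, List.nil_append, List.cons.injEq] at h
              rw [h.2]
              simp
          | cons p' P =>
              simp only [List.cons_append, List.cons.injEq] at h
              exact ih P Q h.2.2 hQ R T

/-- no proper nonempty suffix of a block starts with three `true`s -/
theorem blk_suffix (h : ℕ) (a : List ℕ) (P Q : List Bool) (hPQ : P ++ Q = blk h a)
    (hP : P ≠ []) (hQ : Q ≠ []) (R T : List Bool) : Q ++ R ≠ true :: true :: true :: T := by
  have hb : blk h a = true :: true :: true :: false :: bits (a.flatMap (natBits h)) := rfl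
  rw [hb] at hPQ
  rcases P with _ | ⟨p0, _ | ⟨p1, _ | ⟨p2, _ | ⟨p3, P⟩⟩⟩⟩
  · exact absurd rfl hP
  · simp only [List.cons_append, List.nil_append, List.cons.injEq] at hPQ
    rw [hPQ.2]; simp
  · simp only [List.cons_append, List.nil_append, List.cons.injEq] at hPQ
    rw [hPQ.2.2]; simp
  · simp only [List.cons_append, List.nil_append, List.cons.injEq] at hPQ
    rw [hPQ.2.2.2]; simp
  · simp only [List.cons_append, List.cons.injEq] at hPQ
    exact bits_suffix _ P Q hPQ.2.2.2.2 hQ R (true :: T)

/-- comma-freeness -/
theorem enc_comma (h : ℕ) (v : List (List ℕ)) : ∀ (P W T : List Bool), P ++ W = enc h v →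
    W = true :: true :: true :: T → ∃ v₁ v₂ : List (List ℕ), v = v₁ ++ v₂ ∧ W = enc h v₂ := by
  induction v with
  | nil =>
      intro P W T hPW hW
      simp only [enc, List.flatMap_nil, List.append_eq_nil_iff] at hPW
      rw [hPW.2] at hW
      simp at hW
  | cons b v ih =>
      intro P W T hPW hW
      by_cases hP : P = []
      · subst hP
        exact ⟨[], b :: v, rfl, by simpa using hPW⟩
      rw [enc_cons] at hPW
      rcases List.append_eq_append_iff.mp hPW with ⟨a', hB, hW'⟩ | ⟨c', hP', hC⟩
      · by_cases ha' : a' = []
        · subst ha'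
          obtain ⟨v₁, v₂, hv, hv2⟩ := ih [] W T (by simpa using hW') hW
          exact ⟨b :: v₁, v₂, by rw [hv]; rfl, hv2⟩
        · exact absurd (hW'.symm.trans hW) (blk_suffix h b P a' hB.symm hP ha' _ T)
      · obtain ⟨v₁, v₂, hv, hv2⟩ := ih c' W T hC.symm hW
        exact ⟨b :: v₁, v₂, by rw [hv]; rfl, hv2⟩

theorem bin_claim (l h : ℕ) : ∀ (u : List (List ℕ)), Valid l h u →
    ∀ (v : List (List ℕ)), Valid l h v → ∀ (P W : List Bool) (c : ℕ), P ++ W = enc h v →
    Mt (enc h u) W c → dm u v + u.length ≤ v.length + 2 * c := by
  intro u
  induction u with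
  | nil =>
      intro _ v _ P W c _ _
      have := dm_le (Mt.ins v)
      simp only [List.length_nil]
      omega
  | cons a u ih =>
      intro hu v hv P W c hPW hm
      rw [enc_cons] at hm
      obtain ⟨W₁, W₂, c₁, c₂, hW, hc, h₁, h₂⟩ := hm.split _ _ rfl
      by_cases hc1 : c₁ = 0
      · have hW1 := h₁.eq_of_zero hc1
        have hWt : W = true :: true :: true :: (false :: bits (a.flatMap (natBits h)) ++ W₂) := by
          rw [hW, ← hW1]; rfl
        obtain ⟨v₁, v₂, hvv, hWe⟩ := enc_comma h v P W _ hPW hWt
        cases v₂ with
        | nil => rw [hWe] at hWt; simp [enc] at hWt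
        | cons a' v₃ =>
            have hv' : Valid l h (a' :: v₃) := by rw [hvv] at hv; exact hv.right
            have he : blk h a' ++ enc h v₃ = blk h a ++ W₂ := by
              rw [← enc_cons, ← hWe, hW, hW1]
            have hla := hu a (by simp)
            have hla' := hv' a' (by simp)
            have h3 := List.append_inj he (by rw [blk_length, blk_length, hla.1, hla'.1])
            have h4 : a' = a := blk_inj h a' a (by rw [hla.1, hla'.1]) hla'.2 hla.2 h3.1
            have h5 := ih hu.tail v₃ hv'.tail [] W₂ c₂ (by rw [List.nil_append]; exact h3.2.symm) h₂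
            have h6 : dm (a :: u) v ≤ v₁.length + dm u v₃ := by
              rw [hvv, h4]
              have := (Mt.ins v₁).append (Mt.cons a (dm_spec u v₃))
              simpa using dm_le this
            rw [hvv]
            rw [hvv] at h6
            simp only [List.length_cons, List.length_append]
            omega
      · have h5 := ih hu.tail v hv (P ++ W₁) W₂ c₂ (by rw [List.append_assoc, ← hW, hPW]) h₂
        have h6 : dm (a :: u) v ≤ dm u v + 1 := dm_le (Mt.left a (dm_spec u v))
        simp only [List.length_cons]
        omega

theorem bin (hl : EdLink) : Bin := by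
  refine ⟨fun l h u hu => enc_length l h u hu, ?_, ?_⟩
  · intro l h u v hu hv
    exact hl.1 _ _ _ ((dm_spec u v).enc hu hv)
  · intro l h u v hu hv huv
    have h1 := bin_claim l h u hu v hv [] (enc h v) (dm (enc h u) (enc h v)) (by simp)
      (dm_spec _ _)
    have h2 := hl.2 (enc h u) (enc h v)
    omega

end Crest.Agent.ED
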