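import Crest.Agent.H2ESpec

/-!
# Rid 210 (S0323), module CHARCOMP: spectral inequality for the composed gadget
-/

set_option autoImplicit false

namespace Crest.Agent.ED

open Finset

theorem addChar_finset_sum {A : Type*} [AddCommGroup A] (χ : AddChar A ℂ) {κ : Type*}
    (s : Finset κ) (f : κ → A) : χ (∑ i ∈ s, f i) = ∏ i ∈ s, χ (f i) := by
  classical
  induction s using Finset.induction_on with
  | empty => simp
  | insert a s ha ih =>
      rw [Finset.sum_insert ha, Finset.prod_insert ha, AddChar.map_add_eq_mul, ih]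

theorem compSpec (h : CharKey) : CompSpec := by
  classical
  intro b n N Q Dn T q c A ι _ _ _ u m ω hN hT hq hNq hqq hc hu hω hspec hn χ hχ
  -- the local characters
  set χi : ∀ i, AddChar (A i) ℂ := fun i =>
    χ.compAddMonoidHom (AddMonoidHom.single A i) with hχi
  have hχi_apply : ∀ i (a : A i), χi i a = χ (Pi.single i a) := by
    intro i a
    rfl
  set z : Fin b → ℂ := fun i => χi i (u i) with hz
  have hprod : ∀ x : (∀ i, A i), χ x = ∏ i, χi i (x i) := by
    intro x
    conv_lhs => rw [← Finset.univ_sum_single x]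
    rw [addChar_finset_sum]
    rfl
  have hzpow : ∀ i, z i ^ (N * q i) = 1 := by
    intro i
    rw [hz]
    simp only
    rw [← AddChar.map_nsmul_eq_pow, hu i, AddChar.map_zero_eq_one]
  have hzc : ∏ i, z i ^ c i ≠ 1 := by
    intro h1
    apply hχ
    rw [hprod, ← h1]
    refine Finset.prod_congr rfl fun i _ => ?_
    rw [AddChar.map_nsmul_eq_pow]
  have hχu : χ u = ∏ i, z i := hprod u
  -- the composed sum
  have hsum : ∑ j, compω n ω j * ‖1 - χ (compM u m j)‖ ^ 2 =
      (∑ i, (∑ j, ω i j * ‖1 - χi i (m i j)‖ ^ 2) / 2) + (n : ℝ) / 2 * ‖1 - ∏ i, z i‖ ^ 2 := by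
    rw [Fintype.sum_sum_type, Fintype.sum_sigma]
    congr 1
    · refine Finset.sum_congr rfl fun i _ => ?_
      rw [Finset.sum_div]
      refine Finset.sum_congr rfl fun j _ => ?_
      simp only [compω, compM, Sum.elim_inl, hχi_apply]
      ring
    · simp only [compω, compM, Sum.elim_inr, Finset.univ_unique, Finset.sum_const,
        Finset.card_singleton, one_smul, hχu]
  rw [hsum]
  have hnn : ∀ i, 0 ≤ (∑ j, ω i j * ‖1 - χi i (m i j)‖ ^ 2) / 2 := by
    intro i
    refine div_nonneg (Finset.sum_nonneg fun j _ => mul_nonneg (hω i j) (by positivity)) (by norm_num)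
  by_cases hcard : {i | z i ≠ 1}.ncard ≤ Dn
  · -- few nontrivial coordinates
    have hk := h b N Q Dn q c z hN hq hNq hqq hc hzpow hcard hzc
    have h0 : (0 : ℝ) ≤ ∑ i, (∑ j, ω i j * ‖1 - χi i (m i j)‖ ^ 2) / 2 :=
      Finset.sum_nonneg fun i _ => hnn i
    have h1 : (Dn * T : ℝ) * 2 ≤ (n : ℝ) * ‖1 - ∏ i, z i‖ ^ 2 := by
      calc (Dn * T : ℝ) * 2 ≤ (Dn * T : ℝ) *
            (((N * Q ^ Dn : ℕ) : ℝ) ^ 2 * ‖1 - ∏ i, z i‖ ^ 2) := by
              refine mul_le_mul_of_nonneg_left hk (by positivity)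
        _ = (((N * Q ^ Dn : ℕ) : ℝ) ^ 2 * (Dn * T)) * ‖1 - ∏ i, z i‖ ^ 2 := by ring
        _ ≤ (n : ℝ) * ‖1 - ∏ i, z i‖ ^ 2 := by
              refine mul_le_mul_of_nonneg_right hn (by positivity)
    linarith
  · push Not at hcard
    have h0 : 0 ≤ (n : ℝ) / 2 * ‖1 - ∏ i, z i‖ ^ 2 := by positivity
    have h1 : (Dn : ℝ) * T ≤ ∑ i, (∑ j, ω i j * ‖1 - χi i (m i j)‖ ^ 2) / 2 := by
      have hset : {i | z i ≠ 1}.ncard = (Finset.univ.filter fun i => z i ≠ 1).card := by
        rw [← Set.ncard_coe_finset]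
        congr 1
        ext i
        simp
      calc (Dn : ℝ) * T ≤ ((Finset.univ.filter fun i => z i ≠ 1).card : ℝ) * T := by
              refine mul_le_mul_of_nonneg_right ?_ hT.le
              rw [← hset]
              exact_mod_cast hcard.le
        _ = ∑ i ∈ Finset.univ.filter fun i => z i ≠ 1, T := by
              rw [Finset.sum_const, nsmul_eq_mul]
        _ ≤ ∑ i ∈ Finset.univ.filter fun i => z i ≠ 1,
              (∑ j, ω i j * ‖1 - χi i (m i j)‖ ^ 2) / 2 := by
              refine Finset.sum_le_sum fun i hi => ?_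
              rw [Finset.mem_filter] at hi
              have := hspec i (χi i) hi.2
              linarith
        _ ≤ ∑ i, (∑ j, ω i j * ‖1 - χi i (m i j)‖ ^ 2) / 2 := by
              refine Finset.sum_le_sum_of_subset_of_nonneg (Finset.filter_subset _ _) ?_
              intro i _ _
              exact hnn i
    linarith

end Crest.Agent.ED
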