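import Crest.Agent.H2ESpec

/-!
# Rid 210 (S0323): module CHARKEY
-/

set_option autoImplicit false

namespace Crest.Agent.ED

theorem ck_norm_one_sub_pow_le (w : ℂ) (hw : ‖w‖ = 1) (r : ℕ) :
    ‖1 - w ^ r‖ ≤ r * ‖1 - w‖ := by
  induction r with
  | zero => simp
  | succ r ih =>
      have h : 1 - w ^ (r + 1) = (1 - w ^ r) + w ^ r * (1 - w) := by ring
      rw [h]
      calc ‖(1 - w ^ r) + w ^ r * (1 - w)‖ ≤ ‖1 - w ^ r‖ + ‖w ^ r * (1 - w)‖ := norm_add_le _ _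
        _ = ‖1 - w ^ r‖ + ‖1 - w‖ := by rw [norm_mul, norm_pow, hw, one_pow, one_mul]
        _ ≤ r * ‖1 - w‖ + ‖1 - w‖ := by linarith
        _ = ((r + 1 : ℕ) : ℝ) * ‖1 - w‖ := by push_cast; ring

theorem ck_norm_sq (w : ℂ) (hw : ‖w‖ = 1) : ‖1 - w‖ ^ 2 = 2 - 2 * w.re := by
  have h1 : ‖w‖ ^ 2 = w.re * w.re + w.im * w.im := by
    rw [← Complex.normSq_eq_norm_sq, Complex.normSq_apply]
  have h2 : ‖1 - w‖ ^ 2 = (1 - w.re) * (1 - w.re) + w.im * w.im := by
    rw [← Complex.normSq_eq_norm_sq, Complex.normSq_apply]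
    simp
  rw [hw] at h1
  rw [h2]
  nlinarith

theorem ck_sum (N : ℕ) (ζ : ℂ) (h1 : ζ ^ N = 1) (hN : 0 < N) (h2 : ζ ≠ 1) :
    ∑ t ∈ Finset.range N, ‖1 - ζ ^ t‖ ^ 2 = 2 * N := by
  have hζ : ‖ζ‖ = 1 := Complex.norm_eq_one_of_pow_eq_one h1 hN.ne'
  have h3 : ∀ t ∈ Finset.range N, ‖1 - ζ ^ t‖ ^ 2 = 2 - 2 * (ζ ^ t).re := by
    intro t _
    exact ck_norm_sq _ (by rw [norm_pow, hζ, one_pow])
  rw [Finset.sum_congr rfl h3, Finset.sum_sub_distrib, ← Finset.mul_sum, ← Complex.re_sum]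
  have h4 : ∑ t ∈ Finset.range N, ζ ^ t = 0 := by
    have := mul_geom_sum ζ N
    rw [h1, sub_self] at this
    rcases mul_eq_zero.mp this with h | h
    · exact absurd (sub_eq_zero.mp h) h2
    · exact h
  rw [h4]
  simp
  ring

theorem ck_pow_eq_pow (z : ℂ) (M r s : ℕ) (h : z ^ M = 1) (hrs : r ≡ s [MOD M]) :
    z ^ r = z ^ s := by
  have h1 : ∀ n : ℕ, z ^ n = z ^ (n % M) := by
    intro n
    conv_lhs => rw [← Nat.div_add_mod n M, pow_add, pow_mul, h, one_pow, one_mul]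
  rw [h1 r, h1 s]
  rw [show r % M = s % M from hrs]

theorem charKey : CharKey := by
  intro b N Q Dn q c z hN hq hNq hqq hc hz hsupp hne
  classical
  set S : Finset (Fin b) := Finset.univ.filter (fun i => z i ≠ 1) with hS
  have hScard : S.card ≤ Dn := by
    rw [Set.ncard_eq_toFinset_card'] at hsupp
    convert hsupp using 2
    ext i
    simp [hS]
  -- `Q ≥ 1`
  have hQ : 1 ≤ Q := by
    rcases Nat.eq_zero_or_pos b with hb | hb
    · subst hb
      simp at hne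
    · have := hq ⟨0, hb⟩
      omega
  set P : ℕ := ∏ i ∈ S, q i with hP
  have hPle : P ≤ Q ^ Dn := by
    calc P ≤ ∏ _i ∈ S, Q := Finset.prod_le_prod' fun i _ => (hq i).2
      _ = Q ^ S.card := by simp
      _ ≤ Q ^ Dn := Nat.pow_le_pow_right hQ hScard
  have hNP : Nat.Coprime N P := Nat.Coprime.prod_right fun i _ => hNq i
  have hPpos : 0 < P := Finset.prod_pos fun i _ => by have := (hq i).1; omega
  set ζ : ℂ := ∏ i, z i ^ c i with hζ
  have hzn : ∀ i, ‖z i‖ = 1 := by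
    intro i
    refine Complex.norm_eq_one_of_pow_eq_one (hz i) ?_
    have := (hq i).1
    exact (Nat.mul_pos hN (by omega)).ne'
  have hζN : ζ ^ N = 1 := by
    rw [hζ, ← Finset.prod_pow]
    refine Finset.prod_eq_one fun i _ => ?_
    obtain ⟨k, hk⟩ := (hc i).2
    rw [← pow_mul, hk, show q i * k * N = N * q i * k by ring, pow_mul, hz i, one_pow]
  have hwn : ‖∏ i, z i‖ = 1 := by
    rw [norm_prod]
    exact Finset.prod_eq_one fun i _ => hzn i
  have key : ∀ t : ℕ, ‖1 - ζ ^ t‖ ≤ ((N * Q ^ Dn : ℕ) : ℝ) * ‖1 - ∏ i, z i‖ := by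
    intro t
    obtain ⟨r, hr1, hr2⟩ := Nat.chineseRemainder hNP t 0
    -- choose `r < N * P`
    set r' : ℕ := r % (N * P) with hr'
    have hr'lt : r' < N * P := Nat.mod_lt _ (Nat.mul_pos hN hPpos)
    have hr'1 : r' ≡ t [MOD N] :=
      ((Nat.mod_modEq r (N * P)).of_mul_right P).trans hr1
    have hr'2 : r' ≡ 0 [MOD P] :=
      ((Nat.mod_modEq r (N * P)).of_mul_left N).trans hr2
    have hpow : ζ ^ t = (∏ i, z i) ^ r' := by
      rw [hζ, ← Finset.prod_pow, ← Finset.prod_pow]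
      refine Finset.prod_congr rfl fun i _ => ?_
      by_cases hi : z i = 1
      · rw [hi]; simp
      · have hiS : i ∈ S := by simp [hS, hi]
        rw [← pow_mul]
        refine ck_pow_eq_pow (z i) (N * q i) _ _ (hz i) ?_
        refine (Nat.modEq_and_modEq_iff_modEq_mul (hNq i)).mp ⟨?_, ?_⟩
        · calc c i * t ≡ 1 * t [MOD N] := (hc i).1.mul_right t
            _ = t := one_mul t
            _ ≡ r' [MOD N] := hr'1.symm
        · have h1 : c i * t ≡ 0 [MOD q i] :=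
            (Nat.modEq_zero_iff_dvd).mpr (dvd_mul_of_dvd_left (hc i).2 t)
          have h2 : q i ∣ P := Finset.dvd_prod_of_mem q hiS
          have h3 : r' ≡ 0 [MOD q i] := hr'2.of_dvd h2
          exact h1.trans h3.symm
    rw [hpow]
    refine (ck_norm_one_sub_pow_le _ hwn r').trans ?_
    refine mul_le_mul_of_nonneg_right ?_ (norm_nonneg _)
    have : r' ≤ N * Q ^ Dn := hr'lt.le.trans (Nat.mul_le_mul_left N hPle)
    exact_mod_cast this
  have hsum := ck_sum N ζ hζN hN hne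
  have hle : ∑ t ∈ Finset.range N, ‖1 - ζ ^ t‖ ^ 2 ≤
      ∑ _t ∈ Finset.range N, (((N * Q ^ Dn : ℕ) : ℝ) * ‖1 - ∏ i, z i‖) ^ 2 := by
    refine Finset.sum_le_sum fun t _ => ?_
    exact pow_le_pow_left₀ (norm_nonneg _) (key t) 2
  rw [hsum, Finset.sum_const, Finset.card_range, nsmul_eq_mul, mul_pow] at hle
  have hN' : (0 : ℝ) < N := by exact_mod_cast hN
  have h5 : (N : ℝ) * 2 ≤ N * (((N * Q ^ Dn : ℕ) : ℝ) ^ 2 * ‖1 - ∏ i, z i‖ ^ 2) := by
    linarith
  exact le_of_mul_le_mul_left h5 hN'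

end Crest.Agent.ED
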