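import Crest.Agent.H2ESpec

/-! # Rid 210, module COMPOSE -/

set_option autoImplicit false

namespace Crest.Agent.ED

theorem compose_rowW_length {b L : ℕ} {A : Fin b → Type} [∀ i, AddCommGroup (A i)]
    (u : ∀ i, A i) (E : ∀ i, A i → List (List ℕ)) (hlen : ∀ i x, (E i x).length = L)
    (x : ∀ i, A i) (t : ℕ) : (rowW u E x t).length = b * L := by
  unfold rowW
  rw [List.length_flatMap]
  simp [hlen]

theorem compose (h1 : CompCost) (h2 : CompSpec) (h3 : CompFar) : Compose := by
  intro b n N l M L Q Dn T δ q hL hb hδ0 hδ2 hN hT hbM hn hq hcop hqq hbig hgad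
  choose A ι iA iF iι u E m ω hG using hgad
  have hc : ∀ i, ∃ c : ℕ, c ≡ 1 [MOD N] ∧ q i ∣ c := by
    intro i
    obtain ⟨c, hc1, hc2⟩ := Nat.chineseRemainder (hcop i) 1 0
    exact ⟨c, hc1, (Nat.modEq_zero_iff_dvd).mp hc2⟩
  choose c hc using hc
  refine ⟨∀ i, A i, (Σ i, ι i) ⊕ Unit, inferInstance, inferInstance, inferInstance,
    fun i => c i • u i, compE n u E, compM u m, compω n ω, ?_⟩
  constructor
  · -- torsion
    funext i
    have h4 : N * q i ∣ N * c i := Nat.mul_dvd_mul_left N (hc i).2
    obtain ⟨d, hd⟩ := h4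
    simp only [Pi.smul_apply, Pi.zero_apply]
    rw [smul_smul, hd, mul_comm, mul_smul, (hG i).tors, smul_zero]
  · -- length
    intro x
    unfold compE
    rw [List.length_flatMap]
    have : (List.map (fun a => (rowW u E x a).length) (List.range n)) =
        List.map (fun _ => b * L) (List.range n) := by
      apply List.map_congr_left
      intro t _
      exact compose_rowW_length u E (fun i x => (hG i).len x) x t
    rw [this]
    simp [mul_assoc]
  · -- symbols
    intro x a ha
    unfold compE rowW at ha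
    simp only [List.mem_flatMap, List.mem_map] at ha
    obtain ⟨t, _, i, _, s, hs, rfl⟩ := ha
    obtain ⟨hs1, hs2⟩ := (hG i).sym _ s hs
    refine ⟨by simp [hs1], ?_⟩
    intro j hj
    rcases List.mem_cons.mp hj with h | h
    · rw [h]; exact i.2.trans_le hbM
    · exact hs2 j h
  · -- nonneg
    intro j
    rcases j with p | _
    · exact div_nonneg ((hG p.1).nonneg p.2) (by norm_num)
    · show (0 : ℝ) ≤ (n : ℝ) / 2
      positivity
  · exact h1 b n L A ι u E m ω (fun i x => (hG i).len x) (fun i j => (hG i).nonneg j)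
      (fun i => (hG i).cost)
  · exact h2 b n N Q Dn T q c A ι u m ω hN hT hq hcop hqq hc (fun i => (hG i).tors)
      (fun i j => (hG i).nonneg j) (fun i => (hG i).spec) hbig
  · exact h3 b n N L δ q c A u E hL hb hδ0 hδ2 hN hn (fun i => (hq i).1) hcop hqq hc
      (fun i x => (hG i).len x) (fun i => (hG i).far)

end Crest.Agent.ED
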