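import Crest.Agent.H2ESpec

/-!
# Rid 210 (S0323), module COSTA: cost of the single-coordinate moves
-/

set_option autoImplicit false

namespace Crest.Agent.ED

open Finset

theorem costSingle : CostSingle := by
  classical
  intro b n A _ _ u E i a
  set g : A i → ℕ := fun y => dm (E i y) (E i (y + a)) with hg
  -- pointwise bound
  have hpt : ∀ x : (∀ i, A i), dm (compE n u E x) (compE n u E (x + Pi.single i a)) ≤
      ∑ t ∈ Finset.range n, g (x i + t • u i) := by
    intro x
    have h1 : dm (compE n u E x) (compE n u E (x + Pi.single i a)) ≤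
        ((List.range n).map fun t =>
          dm (rowW u E x t) (rowW u E (x + Pi.single i a) t)).sum := dm_flatMap_le _ _ _
    refine h1.trans ?_
    have h2 : ∀ t, dm (rowW u E x t) (rowW u E (x + Pi.single i a) t) ≤ g (x i + t • u i) := by
      intro t
      have h3 : dm (rowW u E x t) (rowW u E (x + Pi.single i a) t) ≤
          ((List.finRange b).map fun j =>
            dm ((E j (x j + t • u j)).map (List.cons (j : ℕ)))
              ((E j ((x + Pi.single i a) j + t • u j)).map (List.cons (j : ℕ)))).sum :=
        dm_flatMap_le _ _ _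
      refine h3.trans ?_
      have h4 : ((List.finRange b).map fun j =>
            dm ((E j (x j + t • u j)).map (List.cons (j : ℕ)))
              ((E j ((x + Pi.single i a) j + t • u j)).map (List.cons (j : ℕ)))).sum =
          ∑ j : Fin b, dm ((E j (x j + t • u j)).map (List.cons (j : ℕ)))
              ((E j ((x + Pi.single i a) j + t • u j)).map (List.cons (j : ℕ))) := by
        rw [← List.sum_ofFn, List.ofFn_eq_map]
      rw [h4, Finset.sum_eq_single i]
      · rw [dm_map (List.cons_injective)]
        simp only [Pi.add_apply, Pi.single_eq_same, hg]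
        rw [add_right_comm]
      · intro j _ hj
        simp only [Pi.add_apply, Pi.single_eq_of_ne hj, add_zero, dm_self]
      · intro hi
        exact absurd (Finset.mem_univ i) hi
    have h5 : ((List.range n).map fun t =>
          dm (rowW u E x t) (rowW u E (x + Pi.single i a) t)).sum ≤
        ((List.range n).map fun t => g (x i + t • u i)).sum :=
      List.sum_le_sum fun t _ => h2 t
    refine h5.trans (le_of_eq ?_)
    rw [← List.sum_toFinset _ List.nodup_range]
    congr 1
    ext t
    simp
  -- averaging
  have havg : ∀ c : A i, (∑ x : (∀ i, A i), g (x i + c)) * Fintype.card (A i) =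
      Fintype.card (∀ i, A i) * ∑ y, g y := by
    intro c
    have h1 : ∀ z : A i, ∑ x : (∀ i, A i), g (x i + c) =
        ∑ x : (∀ i, A i), g (x i + z + c) := by
      intro z
      refine (Fintype.sum_equiv (Equiv.addRight (Pi.single i z : ∀ i, A i)) _ _ ?_).symm
      intro x
      simp
    calc (∑ x : (∀ i, A i), g (x i + c)) * Fintype.card (A i)
        = ∑ z : A i, ∑ x : (∀ i, A i), g (x i + c) := by
          rw [Finset.sum_const, Finset.card_univ, smul_eq_mul, mul_comm]
      _ = ∑ z : A i, ∑ x : (∀ i, A i), g (x i + z + c) :=
          Finset.sum_congr rfl fun z _ => h1 z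
      _ = ∑ x : (∀ i, A i), ∑ z : A i, g (x i + z + c) := Finset.sum_comm
      _ = ∑ x : (∀ i, A i), ∑ y : A i, g y := by
          refine Finset.sum_congr rfl fun x _ => ?_
          refine Fintype.sum_equiv (Equiv.addLeft (x i + c)) _ _ ?_
          intro z
          simp only [Equiv.coe_addLeft]
          congr 1
          abel
      _ = Fintype.card (∀ i, A i) * ∑ y, g y := by
          rw [Finset.sum_const, Finset.card_univ, smul_eq_mul]
  calc (∑ x : (∀ i, A i), dm (compE n u E x) (compE n u E (x + Pi.single i a))) *
        Fintype.card (A i)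
      ≤ (∑ x : (∀ i, A i), ∑ t ∈ Finset.range n, g (x i + t • u i)) * Fintype.card (A i) :=
        Nat.mul_le_mul_right _ (Finset.sum_le_sum fun x _ => hpt x)
    _ = ∑ t ∈ Finset.range n, (∑ x : (∀ i, A i), g (x i + t • u i)) * Fintype.card (A i) := by
        rw [Finset.sum_comm, Finset.sum_mul]
    _ = ∑ t ∈ Finset.range n, Fintype.card (∀ i, A i) * ∑ y, g y :=
        Finset.sum_congr rfl fun t _ => havg _
    _ = n * Fintype.card (∀ i, A i) * ∑ y, g y := by
        rw [Finset.sum_const, Finset.card_range, smul_eq_mul, mul_assoc]
    _ ≤ n * Fintype.card (∀ i, A i) * ∑ y : A i, dm (E i y) (E i (y + a)) := le_rfl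

end Crest.Agent.ED
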