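import Crest.Agent.H2ESpec

/-!
# Rid 210 (S0323), module COSTB: cost of the global shift
-/

set_option autoImplicit false

namespace Crest.Agent.ED

theorem rowW_add {b : ℕ} {A : Fin b → Type} [∀ i, AddCommGroup (A i)]
    (u : ∀ i, A i) (E : ∀ i, A i → List (List ℕ)) (x : ∀ i, A i) (t : ℕ) :
    rowW u E (x + u) t = rowW u E x (t + 1) := by
  unfold rowW
  congr 1
  funext i
  congr 2
  simp only [Pi.add_apply, succ_nsmul]
  abel

theorem rowW_length {b L : ℕ} {A : Fin b → Type} [∀ i, AddCommGroup (A i)]
    (u : ∀ i, A i) (E : ∀ i, A i → List (List ℕ)) (hE : ∀ i x, (E i x).length = L)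
    (x : ∀ i, A i) (t : ℕ) : (rowW u E x t).length = b * L := by
  unfold rowW
  rw [List.length_flatMap]
  simp [hE]

theorem costShift : CostShift := by
  intro b n L A _ u E hE x
  rcases Nat.eq_zero_or_pos n with hn | hn
  · subst hn
    simp [compE, dm_self]
  obtain ⟨m, rfl⟩ : ∃ m, n = m + 1 := ⟨n - 1, by omega⟩
  have h1 : compE (m + 1) u E x =
      rowW u E x 0 ++ (List.range m).flatMap fun t => rowW u E x (t + 1) := by
    unfold compE
    rw [List.range_succ_eq_map, List.flatMap_cons, List.flatMap_map]
  have h2 : compE (m + 1) u E (x + u) =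
      ((List.range m).flatMap fun t => rowW u E x (t + 1)) ++ rowW u E x (m + 1) := by
    unfold compE
    have h : rowW u E (x + u) = fun t => rowW u E x (t + 1) := by
      funext t
      exact rowW_add u E x t
    rw [List.range_succ, List.flatMap_append, h]
    simp only [List.flatMap_cons, List.flatMap_nil, List.append_nil]
  have h3 : dm (compE (m + 1) u E x) (compE (m + 1) u E (x + u)) ≤ b * L + b * L := by
    rw [h1, h2]
    refine dm_le ?_
    have := ((Mt.del (rowW u E x 0)).append
      (Mt.refl ((List.range m).flatMap fun t => rowW u E x (t + 1)))).append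
      (Mt.ins (rowW u E x (m + 1)))
    simpa [rowW_length u E hE] using this
  calc dm (compE (m + 1) u E x) (compE (m + 1) u E (x + u)) ≤ b * L + b * L := h3
    _ = 2 * b * L := by ring

end Crest.Agent.ED
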