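import Crest.Agent.H2ESpec

/-!
# Rid 210 (S0323), module COSTC: total cost of the composed moves
-/

set_option autoImplicit false

namespace Crest.Agent.ED

open Finset

theorem compCost (h1 : CostSingle) (h2 : CostShift) : CompCost := by
  classical
  intro b n L A ι _ _ _ u E m ω hE hω hc
  rw [Fintype.sum_sum_type, Fintype.sum_sigma]
  set K : ℝ := ((Fintype.card (∀ i, A i) : ℕ) : ℝ) with hK
  have hK0 : 0 ≤ K := Nat.cast_nonneg _
  -- coordinate moves
  have hA : ∀ i : Fin b, ∑ j : ι i, compω n ω (Sum.inl ⟨i, j⟩) *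
      ∑ x : (∀ i, A i), (dm (compE n u E x) (compE n u E (x + compM u m (Sum.inl ⟨i, j⟩))) : ℝ) ≤
      n * L * K := by
    intro i
    have hcardi : (0 : ℝ) < Fintype.card (A i) := by
      have : 0 < Fintype.card (A i) := Fintype.card_pos_iff.mpr ⟨0⟩
      exact_mod_cast this
    have hj : ∀ j : ι i, (∑ x : (∀ i, A i),
        (dm (compE n u E x) (compE n u E (x + compM u m (Sum.inl ⟨i, j⟩))) : ℝ)) *
          Fintype.card (A i) ≤ n * K * ∑ y, (dm (E i y) (E i (y + m i j)) : ℝ) := by
      intro j
      have := h1 b n A u E i (m i j)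
      rw [hK]
      exact_mod_cast this
    have hsum : (∑ j : ι i, compω n ω (Sum.inl ⟨i, j⟩) *
      ∑ x : (∀ i, A i), (dm (compE n u E x) (compE n u E (x + compM u m (Sum.inl ⟨i, j⟩))) : ℝ)) *
        Fintype.card (A i) ≤ (n * L * K) * Fintype.card (A i) := by
      calc (∑ j : ι i, compω n ω (Sum.inl ⟨i, j⟩) *
            ∑ x : (∀ i, A i),
              (dm (compE n u E x) (compE n u E (x + compM u m (Sum.inl ⟨i, j⟩))) : ℝ)) *
              Fintype.card (A i)
          = ∑ j : ι i, (ω i j / 2) * ((∑ x : (∀ i, A i),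
              (dm (compE n u E x) (compE n u E (x + compM u m (Sum.inl ⟨i, j⟩))) : ℝ)) *
              Fintype.card (A i)) := by
            rw [Finset.sum_mul]
            refine Finset.sum_congr rfl fun j _ => ?_
            simp only [compω, Sum.elim_inl]
            ring
        _ ≤ ∑ j : ι i, (ω i j / 2) * (n * K * ∑ y, (dm (E i y) (E i (y + m i j)) : ℝ)) := by
            refine Finset.sum_le_sum fun j _ => ?_
            exact mul_le_mul_of_nonneg_left (hj j) (by have := hω i j; linarith)
        _ = (n * K / 2) * ∑ j : ι i, ω i j * ∑ y, (dm (E i y) (E i (y + m i j)) : ℝ) := by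
            rw [Finset.mul_sum]
            refine Finset.sum_congr rfl fun j _ => ?_
            ring
        _ ≤ (n * K / 2) * (2 * L * Fintype.card (A i)) := by
            refine mul_le_mul_of_nonneg_left (hc i) (by positivity)
        _ = (n * L * K) * Fintype.card (A i) := by ring
    exact le_of_mul_le_mul_right hsum hcardi
  -- global shift
  have hB : ∑ j : Unit, compω n ω (Sum.inr j) *
      ∑ x : (∀ i, A i), (dm (compE n u E x) (compE n u E (x + compM u m (Sum.inr j))) : ℝ) ≤
      n * b * L * K := by
    simp only [compω, compM, Sum.elim_inr, Finset.univ_unique, Finset.sum_singleton]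
    calc (n : ℝ) / 2 * ∑ x : (∀ i, A i), (dm (compE n u E x) (compE n u E (x + u)) : ℝ)
        ≤ (n : ℝ) / 2 * ∑ x : (∀ i, A i), (2 * b * L : ℝ) := by
          refine mul_le_mul_of_nonneg_left (Finset.sum_le_sum fun x _ => ?_) (by positivity)
          have := h2 b n L A u E hE x
          exact_mod_cast this
      _ = n * b * L * K := by
          rw [Finset.sum_const, Finset.card_univ, nsmul_eq_mul, hK]
          ring
  calc _ ≤ ∑ i : Fin b, (n * L * K : ℝ) + n * b * L * K :=
        add_le_add (Finset.sum_le_sum fun i _ => hA i) hB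
    _ = 2 * ((n * b * L : ℕ) : ℝ) * K := by
        rw [Finset.sum_const, Finset.card_univ, Fintype.card_fin, nsmul_eq_mul]
        push_cast
        ring

end Crest.Agent.ED
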