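import Crest.Agent.H2ESpec

/-!
# Rid 210 (S0323): module CUT
-/

set_option autoImplicit false

namespace Crest.Agent.ED

open MeasureTheory

theorem cut_ind (a b t : ℝ) :
    |(if t < a then (1 : ℝ) else 0) - (if t < b then (1 : ℝ) else 0)| =
      (Set.Ico (min a b) (max a b)).indicator (fun _ => (1 : ℝ)) t := by
  by_cases h1 : t < a <;> by_cases h2 : t < b
  · have : t ∉ Set.Ico (min a b) (max a b) := by
      intro h
      exact absurd h.1 (not_le.mpr (lt_min h1 h2))
    simp [h1, h2]
  · have : t ∈ Set.Ico (min a b) (max a b) :=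
      ⟨(min_le_right _ _).trans (not_lt.mp h2), lt_of_lt_of_le h1 (le_max_left _ _)⟩
    rw [Set.indicator_of_mem this]
    simp [h1, h2]
  · have : t ∈ Set.Ico (min a b) (max a b) :=
      ⟨(min_le_left _ _).trans (not_lt.mp h1), lt_of_lt_of_le h2 (le_max_right _ _)⟩
    rw [Set.indicator_of_mem this]
    simp [h1, h2]
  · have : t ∉ Set.Ico (min a b) (max a b) := by
      intro h
      exact absurd h.2 (not_lt.mpr (max_le (not_lt.mp h1) (not_lt.mp h2)))
    rw [Set.indicator_of_notMem this]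
    simp [h1, h2]

theorem cut_integrable (a b : ℝ) :
    Integrable (fun t : ℝ => |(if t < a then (1 : ℝ) else 0) - (if t < b then (1 : ℝ) else 0)|) := by
  have h : (fun t : ℝ => |(if t < a then (1 : ℝ) else 0) - (if t < b then (1 : ℝ) else 0)|) =
      (Set.Ico (min a b) (max a b)).indicator (fun _ => (1 : ℝ)) := by
    funext t
    exact cut_ind a b t
  rw [h, integrable_indicator_iff measurableSet_Ico]
  refine integrableOn_const ?_
  rw [Real.volume_Ico]
  exact ENNReal.ofReal_ne_top

theorem cut_integral (a b : ℝ) :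
    ∫ t : ℝ, |(if t < a then (1 : ℝ) else 0) - (if t < b then (1 : ℝ) else 0)| = |a - b| := by
  have h : (fun t : ℝ => |(if t < a then (1 : ℝ) else 0) - (if t < b then (1 : ℝ) else 0)|) =
      (Set.Ico (min a b) (max a b)).indicator (fun _ => (1 : ℝ)) := by
    funext t
    exact cut_ind a b t
  rw [h, integral_indicator measurableSet_Ico, setIntegral_const]
  rw [Real.volume_real_Ico_of_le min_le_max]
  rw [smul_eq_mul, mul_one]
  rcases le_total a b with hab | hab
  · rw [max_eq_right hab, min_eq_left hab, abs_sub_comm, abs_of_nonneg (sub_nonneg.mpr hab)]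
  · rw [max_eq_left hab, min_eq_right hab, abs_of_nonneg (sub_nonneg.mpr hab)]

theorem cut_real (A P : Type) [Fintype A] [Fintype P] (e₁ e₂ : P → A) (a : P → ℝ)
    (H : ∀ f : A → ℝ, (∀ x, f x = 0 ∨ f x = 1) → 0 ≤ ∑ p, a p * |f (e₁ p) - f (e₂ p)|)
    (g : A → ℝ) : 0 ≤ ∑ p, a p * |g (e₁ p) - g (e₂ p)| := by
  have h1 : ∑ p, a p * |g (e₁ p) - g (e₂ p)| =
      ∫ t : ℝ, ∑ p, a p * |(if t < g (e₁ p) then (1 : ℝ) else 0) -
        (if t < g (e₂ p) then (1 : ℝ) else 0)| := by
    rw [integral_finsetSum]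
    · refine Finset.sum_congr rfl fun p _ => ?_
      rw [integral_const_mul, cut_integral]
    · intro p _
      exact (cut_integrable _ _).const_mul _
  rw [h1]
  refine integral_nonneg fun t => ?_
  refine H (fun x => if t < g x then 1 else 0) fun x => ?_
  by_cases h : t < g x
  · right; simp [h]
  · left; simp [h]

theorem cutL1 : CutL1 := by
  intro A P _ _ e₁ e₂ a H F
  have h1 : ∀ f : lp (fun _ : ℕ => ℝ) 1, ‖f‖ = ∑' n, |f n| := by
    intro f
    rw [lp.norm_eq_tsum_rpow (by simp)]
    simp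
  have h2 : ∀ f : lp (fun _ : ℕ => ℝ) 1, Summable fun n => |f n| := by
    intro f
    have := (lp.memℓp f).summable (by simp)
    simpa using this
  have h3 : ∑ p, a p * ‖F (e₁ p) - F (e₂ p)‖ =
      ∑' n, ∑ p, a p * |(F (e₁ p) : ℕ → ℝ) n - (F (e₂ p) : ℕ → ℝ) n| := by
    rw [Summable.tsum_finsetSum]
    · refine Finset.sum_congr rfl fun p _ => ?_
      rw [tsum_mul_left, h1]
      rfl
    · intro p _
      exact (h2 (F (e₁ p) - F (e₂ p))).mul_left _
  rw [h3]
  exact tsum_nonneg fun n => cut_real A P e₁ e₂ a H fun x => (F x : ℕ → ℝ) n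

end Crest.Agent.ED
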