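import Mathlib
import Crest.Prelude.Def_EditDistance

/-!
# Rid 210 (S0323): definitions and the calculus of the indel distance

`Mt u v c`: the word `v` is obtained from `u` by a left-to-right alignment with exactly `c`
insertions/deletions.  `dm u v` is the least such `c`.
-/

set_option autoImplicit false

namespace Crest.Agent.ED

open Crest.GeometryTopology.EditDistance

/-- alignments with exactly `c` insertions/deletions -/
inductive Mt {α : Type*} : List α → List α → ℕ → Prop
  | nil : Mt [] [] 0
  | cons (a : α) {u v : List α} {c : ℕ} : Mt u v c → Mt (a :: u) (a :: v) c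
  | left (a : α) {u v : List α} {c : ℕ} : Mt u v c → Mt (a :: u) v (c + 1)
  | right (a : α) {u v : List α} {c : ℕ} : Mt u v c → Mt u (a :: v) (c + 1)

/-- the indel distance -/
noncomputable def dm {α : Type*} (u v : List α) : ℕ := sInf {c | Mt u v c}

variable {α β : Type*}

theorem Mt.refl (u : List α) : Mt u u 0 := by
  induction u with
  | nil => exact Mt.nil
  | cons a u ih => exact Mt.cons a ih

theorem Mt.symm {u v : List α} {c : ℕ} (h : Mt u v c) : Mt v u c := by
  induction h with
  | nil => exact Mt.nil
  | cons a _ ih => exact Mt.cons a ih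
  | left a _ ih => exact Mt.right a ih
  | right a _ ih => exact Mt.left a ih

theorem Mt.del (u : List α) : Mt u [] u.length := by
  induction u with
  | nil => exact Mt.nil
  | cons a u ih => exact Mt.left a ih

theorem Mt.ins (v : List α) : Mt [] v v.length := (Mt.del v).symm

theorem Mt.append {u₁ v₁ u₂ v₂ : List α} {a b : ℕ} (h₁ : Mt u₁ v₁ a) (h₂ : Mt u₂ v₂ b) :
    Mt (u₁ ++ u₂) (v₁ ++ v₂) (a + b) := by
  induction h₁ with
  | nil => simpa using h₂
  | cons x _ ih => exact Mt.cons x ih
  | left x _ ih =>
      rw [Nat.add_right_comm]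
      exact Mt.left x ih
  | right x _ ih =>
      rw [Nat.add_right_comm]
      exact Mt.right x ih

theorem Mt.total (u v : List α) : Mt u v (u.length + v.length) := by
  simpa using (Mt.del u).append (Mt.ins v)

/-- splitting an alignment along a decomposition of the left word -/
theorem Mt.split {u v : List α} {c : ℕ} (h : Mt u v c) :
    ∀ u₁ u₂ : List α, u = u₁ ++ u₂ → ∃ v₁ v₂ : List α, ∃ c₁ c₂ : ℕ,
      v = v₁ ++ v₂ ∧ c = c₁ + c₂ ∧ Mt u₁ v₁ c₁ ∧ Mt u₂ v₂ c₂ := by
  induction h with
  | nil =>
      intro u₁ u₂ hu
      have h1 : u₁ = [] ∧ u₂ = [] := by simpa using hu.symm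
      rw [h1.1, h1.2]
      exact ⟨[], [], 0, 0, rfl, rfl, Mt.nil, Mt.nil⟩
  | cons a h ih =>
      rename_i u v c
      intro u₁ u₂ hu
      cases u₁ with
      | nil =>
          simp only [List.nil_append] at hu
          subst hu
          exact ⟨[], a :: v, 0, c, rfl, by omega, Mt.nil, Mt.cons a h⟩
      | cons b u₁ =>
          simp only [List.cons_append, List.cons.injEq] at hu
          obtain ⟨v₁, v₂, c₁, c₂, hv, hc, h₁, h₂⟩ := ih u₁ u₂ hu.2
          refine ⟨a :: v₁, v₂, c₁, c₂, by rw [hv]; rfl, hc, ?_, h₂⟩
          rw [← hu.1]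
          exact Mt.cons a h₁
  | left a h ih =>
      rename_i u v c
      intro u₁ u₂ hu
      cases u₁ with
      | nil =>
          simp only [List.nil_append] at hu
          subst hu
          exact ⟨[], v, 0, c + 1, rfl, by omega, Mt.nil, Mt.left a h⟩
      | cons b u₁ =>
          simp only [List.cons_append, List.cons.injEq] at hu
          obtain ⟨v₁, v₂, c₁, c₂, hv, hc, h₁, h₂⟩ := ih u₁ u₂ hu.2
          refine ⟨v₁, v₂, c₁ + 1, c₂, hv, by omega, ?_, h₂⟩
          rw [← hu.1]
          exact Mt.left a h₁
  | right a h ih =>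
      rename_i u v c
      intro u₁ u₂ hu
      obtain ⟨v₁, v₂, c₁, c₂, hv, hc, h₁, h₂⟩ := ih u₁ u₂ hu
      exact ⟨a :: v₁, v₂, c₁ + 1, c₂, by rw [hv]; rfl, by omega, Mt.right a h₁, h₂⟩

/-- cancel a head symbol on the left of an alignment -/
theorem Mt.trans {u v : List α} {a : ℕ} (h : Mt u v a) :
    ∀ {w : List α} {b : ℕ}, Mt v w b → ∃ c ≤ a + b, Mt u w c := by
  induction h with
  | nil =>
      intro w b h2
      exact ⟨b, by omega, h2⟩
  | cons x h ih =>
      rename_i u v c
      intro w b h2
      generalize hv' : x :: v = v' at h2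
      induction h2 with
      | nil => simp at hv'
      | cons y h2 _ =>
          simp only [List.cons.injEq] at hv'
          obtain ⟨rfl, rfl⟩ := hv'
          obtain ⟨d, hd, h3⟩ := ih h2
          exact ⟨d, hd, Mt.cons _ h3⟩
      | left y h2 _ =>
          simp only [List.cons.injEq] at hv'
          obtain ⟨rfl, rfl⟩ := hv'
          obtain ⟨d, hd, h3⟩ := ih h2
          exact ⟨d + 1, by omega, Mt.left _ h3⟩
      | right y h2 ih2 =>
          obtain ⟨d, hd, h3⟩ := ih2 hv'
          exact ⟨d + 1, by omega, Mt.right _ h3⟩
  | left x h ih =>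
      intro w b h2
      obtain ⟨d, hd, h3⟩ := ih h2
      exact ⟨d + 1, by omega, Mt.left _ h3⟩
  | right x h ih =>
      rename_i u v c
      intro w b h2
      generalize hv' : x :: v = v' at h2
      induction h2 with
      | nil => simp at hv'
      | cons y h2 _ =>
          simp only [List.cons.injEq] at hv'
          obtain ⟨rfl, rfl⟩ := hv'
          obtain ⟨d, hd, h3⟩ := ih h2
          exact ⟨d + 1, by omega, Mt.right _ h3⟩
      | left y h2 _ =>
          simp only [List.cons.injEq] at hv'
          obtain ⟨rfl, rfl⟩ := hv'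
          obtain ⟨d, hd, h3⟩ := ih h2
          exact ⟨d, by omega, h3⟩
      | right y h2 ih2 =>
          obtain ⟨d, hd, h3⟩ := ih2 hv'
          exact ⟨d + 1, by omega, Mt.right _ h3⟩

theorem Mt.length_le {u v : List α} {c : ℕ} (h : Mt u v c) :
    u.length ≤ v.length + c ∧ v.length ≤ u.length + c := by
  induction h with
  | nil => simp
  | cons a _ ih => simp only [List.length_cons]; omega
  | left a _ ih => simp only [List.length_cons]; omega
  | right a _ ih => simp only [List.length_cons]; omega

theorem Mt.eq_of_zero {u v : List α} {c : ℕ} (h : Mt u v c) (hc : c = 0) : u = v := by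
  induction h with
  | nil => rfl
  | cons a _ ih => rw [ih hc]
  | left a _ ih => omega
  | right a _ ih => omega

theorem Mt.map (g : α → β) {u v : List α} {c : ℕ} (h : Mt u v c) : Mt (u.map g) (v.map g) c := by
  induction h with
  | nil => exact Mt.nil
  | cons a _ ih => exact Mt.cons _ ih
  | left a _ ih => exact Mt.left _ ih
  | right a _ ih => exact Mt.right _ ih

theorem Mt.of_map {g : α → β} (hg : Function.Injective g) {u' v' : List β} {c : ℕ}
    (h : Mt u' v' c) : ∀ u v : List α, u' = u.map g → v' = v.map g → Mt u v c := by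
  induction h with
  | nil =>
      intro u v hu hv
      have h1 : u = [] := by simpa using hu.symm
      have h2 : v = [] := by simpa using hv.symm
      rw [h1, h2]; exact Mt.nil
  | cons a _ ih =>
      intro u v hu hv
      cases u with
      | nil => simp at hu
      | cons x u =>
          cases v with
          | nil => simp at hv
          | cons y v =>
              simp only [List.map_cons, List.cons.injEq] at hu hv
              have : x = y := hg (hu.1.symm.trans hv.1)
              subst this
              exact Mt.cons _ (ih u v hu.2 hv.2)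
  | left a _ ih =>
      intro u v hu hv
      cases u with
      | nil => simp at hu
      | cons x u =>
          simp only [List.map_cons, List.cons.injEq] at hu
          exact Mt.left _ (ih u v hu.2 hv)
  | right a _ ih =>
      intro u v hu hv
      cases v with
      | nil => simp at hv
      | cons x v =>
          simp only [List.map_cons, List.cons.injEq] at hv
          exact Mt.right _ (ih u v hu hv.2)

/-- an alignment restricts to the symbols satisfying `p` and to the others -/
theorem Mt.filter (p : α → Bool) {u v : List α} {c : ℕ} (h : Mt u v c) :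
    ∃ c₁ c₂ : ℕ, c = c₁ + c₂ ∧ Mt (u.filter p) (v.filter p) c₁ ∧
      Mt (u.filter fun a => !p a) (v.filter fun a => !p a) c₂ := by
  induction h with
  | nil => exact ⟨0, 0, rfl, Mt.nil, Mt.nil⟩
  | cons a _ ih =>
      obtain ⟨c₁, c₂, hc, h₁, h₂⟩ := ih
      by_cases ha : p a = true
      · refine ⟨c₁, c₂, hc, ?_, ?_⟩
        · simpa [List.filter_cons, ha] using Mt.cons a h₁
        · simpa [List.filter_cons, ha] using h₂
      · refine ⟨c₁, c₂, hc, ?_, ?_⟩
        · simpa [List.filter_cons, ha] using h₁
        · simpa [List.filter_cons, ha] using Mt.cons a h₂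
  | left a _ ih =>
      obtain ⟨c₁, c₂, hc, h₁, h₂⟩ := ih
      by_cases ha : p a = true
      · refine ⟨c₁ + 1, c₂, by omega, ?_, ?_⟩
        · simpa [List.filter_cons, ha] using Mt.left a h₁
        · simpa [List.filter_cons, ha] using h₂
      · refine ⟨c₁, c₂ + 1, by omega, ?_, ?_⟩
        · simpa [List.filter_cons, ha] using h₁
        · simpa [List.filter_cons, ha] using Mt.left a h₂
  | right a _ ih =>
      obtain ⟨c₁, c₂, hc, h₁, h₂⟩ := ih
      by_cases ha : p a = true
      · refine ⟨c₁ + 1, c₂, by omega, ?_, ?_⟩
        · simpa [List.filter_cons, ha] using Mt.right a h₁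
        · simpa [List.filter_cons, ha] using h₂
      · refine ⟨c₁, c₂ + 1, by omega, ?_, ?_⟩
        · simpa [List.filter_cons, ha] using h₁
        · simpa [List.filter_cons, ha] using Mt.right a h₂

theorem dm_spec (u v : List α) : Mt u v (dm u v) :=
  Nat.sInf_mem (s := {c | Mt u v c}) ⟨_, Mt.total u v⟩

theorem dm_le {u v : List α} {c : ℕ} (h : Mt u v c) : dm u v ≤ c := Nat.sInf_le h

theorem dm_self (u : List α) : dm u u = 0 := Nat.le_zero.mp (dm_le (Mt.refl u))

theorem dm_comm (u v : List α) : dm u v = dm v u :=
  le_antisymm (dm_le (dm_spec v u).symm) (dm_le (dm_spec u v).symm)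

theorem dm_triangle (u v w : List α) : dm u w ≤ dm u v + dm v w := by
  obtain ⟨c, hc, h⟩ := (dm_spec u v).trans (dm_spec v w)
  exact (dm_le h).trans hc

theorem dm_append_le (u₁ v₁ u₂ v₂ : List α) :
    dm (u₁ ++ u₂) (v₁ ++ v₂) ≤ dm u₁ v₁ + dm u₂ v₂ :=
  dm_le ((dm_spec u₁ v₁).append (dm_spec u₂ v₂))

theorem dm_le_total (u v : List α) : dm u v ≤ u.length + v.length := dm_le (Mt.total u v)

theorem length_le_add_dm (u v : List α) : u.length ≤ v.length + dm u v :=
  (dm_spec u v).length_le.1

theorem eq_of_dm_eq_zero {u v : List α} (h : dm u v = 0) : u = v :=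
  (dm_spec u v).eq_of_zero h

theorem dm_map {g : α → β} (hg : Function.Injective g) (u v : List α) :
    dm (u.map g) (v.map g) = dm u v :=
  le_antisymm (dm_le ((dm_spec u v).map g))
    (dm_le ((dm_spec (u.map g) (v.map g)).of_map hg u v rfl rfl))

/-- concatenations over a list of indices -/
theorem dm_flatMap_le {κ : Type*} (l : List κ) (f g : κ → List α) :
    dm (l.flatMap f) (l.flatMap g) ≤ (l.map fun k => dm (f k) (g k)).sum := by
  induction l with
  | nil => simp [dm_self]
  | cons k l ih =>
      simp only [List.flatMap_cons, List.map_cons, List.sum_cons]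
      exact (dm_append_le _ _ _ _).trans (by omega)

/-- an alignment of a (nonempty) concatenation with `v` splits `v` accordingly -/
theorem Mt.split_range (f : ℕ → List α) :
    ∀ (k : ℕ) (v : List α) (c : ℕ), Mt ((List.range (k + 1)).flatMap f) v c →
      ∃ (V : ℕ → List α) (e : ℕ → ℕ), v = (List.range (k + 1)).flatMap V ∧
        c = ∑ i ∈ Finset.range (k + 1), e i ∧ ∀ i < k + 1, Mt (f i) (V i) (e i) := by
  intro k
  induction k with
  | zero =>
      intro v c h
      refine ⟨fun _ => v, fun _ => c, by simp, by simp, ?_⟩
      intro i hi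
      have : i = 0 := by omega
      subst this
      simpa using h
  | succ k ih =>
      intro v c h
      rw [List.range_succ, List.flatMap_append] at h
      obtain ⟨v₁, v₂, c₁, c₂, hv, hc, h₁, h₂⟩ := h.split _ _ rfl
      obtain ⟨V, e, hV, he, hVe⟩ := ih v₁ c₁ h₁
      refine ⟨fun i => if i = k + 1 then v₂ else V i, fun i => if i = k + 1 then c₂ else e i,
        ?_, ?_, ?_⟩
      · rw [List.range_succ, List.flatMap_append, hv, hV]
        congr 1
        · apply List.flatMap_congr
          intro i hi
          rw [List.mem_range] at hi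
          rw [if_neg (by omega)]
        · simp
      · rw [Finset.sum_range_succ, if_pos rfl, hc, he]
        congr 1
        apply Finset.sum_congr rfl
        intro i hi
        rw [Finset.mem_range] at hi
        rw [if_neg (by omega)]
      · intro i hi
        by_cases h' : i = k + 1
        · subst h'
          simpa using h₂
        · simp only [if_neg h']
          exact hVe i (by omega)

end Crest.Agent.ED
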