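import Crest.Agent.H2ESpec

/-!
# Rid 210 (S0323): module EDL
-/

set_option autoImplicit false

namespace Crest.Agent.ED

open Crest.GeometryTopology.EditDistance

variable {α : Type*}

theorem adj_ins (w u : List α) (a : α) : (editGraph α).Adj (w ++ u) (w ++ a :: u) := by
  rw [editGraph, SimpleGraph.fromRel_adj]
  refine ⟨?_, Or.inl (Or.inl ⟨w, u, a, rfl, rfl⟩)⟩
  intro h
  have := congrArg List.length h
  simp at this

theorem walk_of_mt {u v : List α} {c : ℕ} (h : Mt u v c) :
    ∀ w : List α, ∃ p : (editGraph α).Walk (w ++ u) (w ++ v), p.length ≤ c := by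
  induction h with
  | nil => intro w; exact ⟨SimpleGraph.Walk.nil, by simp⟩
  | cons a _ ih =>
      rename_i u v c _
      intro w
      obtain ⟨p, hp⟩ := ih (w ++ [a])
      have h1 : w ++ [a] ++ u = w ++ a :: u := by simp
      have h2 : w ++ [a] ++ v = w ++ a :: v := by simp
      exact ⟨p.copy h1 h2, by simpa using hp⟩
  | left a _ ih =>
      intro w
      obtain ⟨p, hp⟩ := ih w
      exact ⟨SimpleGraph.Walk.cons (adj_ins w _ a).symm p, by simpa using hp⟩
  | right a _ ih =>
      intro w
      obtain ⟨p, hp⟩ := ih w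
      refine ⟨p.concat (adj_ins w _ a), ?_⟩
      rw [SimpleGraph.Walk.length_concat]
      omega

theorem dm_of_adj {u v : List α} (h : (editGraph α).Adj u v) : dm u v ≤ 2 := by
  rw [editGraph, SimpleGraph.fromRel_adj] at h
  have key : ∀ u v : List α, (IsInsertion u v ∨ IsSubstitution u v) → dm u v ≤ 2 := by
    intro u v h
    rcases h with ⟨l, r, a, rfl, rfl⟩ | ⟨l, r, a, b, _, rfl, rfl⟩
    · have h1 := dm_le ((Mt.refl l).append (Mt.right a (Mt.refl r)))
      omega
    · have h1 := dm_le ((Mt.refl l).append (Mt.left a (Mt.right b (Mt.refl r))))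
      omega
  rcases h.2 with h | h
  · exact key u v h
  · rw [dm_comm]; exact key v u h

theorem dm_of_walk {u v : List α} (p : (editGraph α).Walk u v) : dm u v ≤ 2 * p.length := by
  induction p with
  | nil => simp [dm_self]
  | cons h p ih =>
      rename_i u v w
      have h1 := dm_triangle u v w
      have h2 := dm_of_adj h
      rw [SimpleGraph.Walk.length_cons]
      omega

theorem edLink : EdLink := by
  constructor
  · intro u v c h
    obtain ⟨p, hp⟩ := walk_of_mt h []
    exact (SimpleGraph.dist_le p).trans hp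
  · intro u v
    obtain ⟨p, _⟩ := walk_of_mt (dm_spec u v) []
    have hr : (editGraph Bool).Reachable u v := ⟨p⟩
    obtain ⟨q, hq⟩ := hr.exists_walk_length_eq_dist
    have := dm_of_walk q
    rw [hq] at this
    exact this

end Crest.Agent.ED
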