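import Crest.Agent.H2ESpec

/-!
# Rid 210 (S0323): module FAR
-/

set_option autoImplicit false

namespace Crest.Agent.ED

open Crest.GeometryTopology.EditDistance

section

variable {b : ℕ} {A : Fin b → Type} [∀ i, AddCommGroup (A i)]

/-- the blocks of row `t`, indexed by natural numbers -/
def farB (u : ∀ i, A i) (E : ∀ i, A i → List (List ℕ)) (x : ∀ i, A i) (t i : ℕ) :
    List (List ℕ) :=
  if h : i < b then (E ⟨i, h⟩ (x ⟨i, h⟩ + t • u ⟨i, h⟩)).map (List.cons i) else []

theorem far_row (u : ∀ i, A i) (E : ∀ i, A i → List (List ℕ)) (x : ∀ i, A i) (t : ℕ) :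
    rowW u E x t = (List.range b).flatMap (farB u E x t) := by
  unfold rowW
  rw [← List.map_coe_finRange_eq_range, List.flatMap_map]
  apply List.flatMap_congr
  intro i _
  simp [farB]

theorem far_comp (n : ℕ) (u : ∀ i, A i) (E : ∀ i, A i → List (List ℕ)) (x : ∀ i, A i) :
    compE n u E x = (List.range n).flatMap (fun t => (List.range b).flatMap (farB u E x t)) := by
  unfold compE
  apply List.flatMap_congr
  intro t _
  exact far_row u E x t

end

theorem far_infix {α : Type*} (V : ℕ → List α) (n t : ℕ) (ht : t < n) :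
    ∃ P S : List α, P ++ V t ++ S = (List.range n).flatMap V := by
  induction n with
  | zero => omega
  | succ n ih =>
      rw [List.range_succ, List.flatMap_append]
      by_cases h : t = n
      · subst h
        exact ⟨(List.range t).flatMap V, [], by simp⟩
      · obtain ⟨P, S, hPS⟩ := ih (by omega)
        refine ⟨P, S ++ V n, ?_⟩
        rw [← hPS]
        simp

/-- arithmetic: the number of coordinates with a close block is at most `b / 2` -/
theorem far_count (b n N : ℕ) (q c : Fin b → ℕ) (hnb : n ^ 2 ≤ 2 ^ b)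
    (hq : ∀ i, 2 ≤ q i) (hqq : ∀ i j, i ≠ j → Nat.Coprime (q i) (q j))
    (hc : ∀ i, c i ≡ 1 [MOD N] ∧ q i ∣ c i) (s : ℤ) (hs : ¬ (N : ℤ) ∣ s)
    (t t' : ℕ) (ht : t < n) (ht' : t' < n) (I : Finset (Fin b))
    (hI : ∀ i ∈ I, ((N * q i : ℕ) : ℤ) ∣ ((t' : ℤ) - t + s * c i)) :
    2 * I.card ≤ b := by
  rcases I.eq_empty_or_nonempty with h0 | ⟨i0, hi0⟩
  · subst h0; simp
  have hqd : ∀ i ∈ I, (q i : ℤ) ∣ ((t' : ℤ) - t) := by
    intro i hi
    have h1 : (q i : ℤ) ∣ ((t' : ℤ) - t + s * c i) :=
      dvd_trans (by push_cast; exact Dvd.intro_left _ rfl) (hI i hi)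
    have h2 : (q i : ℤ) ∣ s * c i := Dvd.dvd.mul_left (by exact_mod_cast (hc i).2) s
    have h3 := dvd_sub h1 h2
    simpa using h3
  have hN : (N : ℤ) ∣ ((t' : ℤ) - t + s) := by
    have h1 : (N : ℤ) ∣ ((t' : ℤ) - t + s * c i0) :=
      dvd_trans (by push_cast; exact Dvd.intro _ rfl) (hI i0 hi0)
    have h2 : (N : ℤ) ∣ ((c i0 : ℤ) - 1) := by
      have := (Nat.modEq_iff_dvd.mp (hc i0).1.symm)
      simpa using this
    have h3 : (N : ℤ) ∣ s * ((c i0 : ℤ) - 1) := Dvd.dvd.mul_left h2 s
    have h4 := dvd_sub h1 h3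
    have h5 : ((t' : ℤ) - t + s * c i0) - s * ((c i0 : ℤ) - 1) = (t' : ℤ) - t + s := by ring
    rwa [h5] at h4
  have hne : (t' : ℤ) - t ≠ 0 := by
    intro h
    rw [h, zero_add] at hN
    exact hs hN
  have hprod : (∏ i ∈ I, (q i : ℤ)) ∣ ((t' : ℤ) - t) := by
    apply Finset.prod_dvd_of_coprime
    · intro i _ j _ hij
      exact Nat.isCoprime_iff_coprime.mpr (hqq i j hij)
    · exact hqd
  have hle : (∏ i ∈ I, (q i : ℤ)) ≤ |(t' : ℤ) - t| :=
    Int.le_of_dvd (abs_pos.mpr hne) ((dvd_abs _ _).mpr hprod)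
  have hpow : (2 : ℤ) ^ I.card ≤ ∏ i ∈ I, (q i : ℤ) := by
    rw [← Finset.prod_const]
    apply Finset.prod_le_prod
    · intro i _; norm_num
    · intro i _; exact_mod_cast hq i
  have habs : |(t' : ℤ) - t| < n := by
    rw [abs_lt]; constructor <;> omega
  have h2n : (2 : ℤ) ^ I.card < n := lt_of_le_of_lt (hpow.trans hle) habs
  have h2n' : 2 ^ I.card < n := by exact_mod_cast h2n
  have h3 : (2 ^ I.card) ^ 2 < 2 ^ b := lt_of_lt_of_le (Nat.pow_lt_pow_left h2n' (by norm_num)) hnb
  rw [← pow_mul] at h3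
  have h4 := (Nat.pow_lt_pow_iff_right (by norm_num : 1 < 2)).mp h3
  omega

theorem compFar (hrow : RowClaim) : CompFar := by
  intro b n N L δ q c A _ u E hL hb hδ hδ2 hN hnb hq hqN hqq hc hlen hfar x s hs
  set y : ∀ i, A i := x + s • (fun i => c i • u i : ∀ i, A i) with hy
  rcases Nat.eq_zero_or_pos n with hn0 | hn0
  · subst hn0; simp
  obtain ⟨k, rfl⟩ : ∃ k, n = k + 1 := ⟨n - 1, by omega⟩
  have hspec := dm_spec (compE (k + 1) u E x) (compE (k + 1) u E y)
  rw [far_comp (k + 1) u E x] at hspec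
  obtain ⟨V, e, hV, he, hVe⟩ := Mt.split_range _ k _ _ hspec
  have key : ∀ t < k + 1, δ * b * L / 4 ≤ (e t : ℝ) := by
    intro t ht
    obtain ⟨P, S, hPS⟩ := far_infix V (k + 1) t ht
    refine hrow b (k + 1) L δ (farB u E x t) (farB u E y) P (V t) S (e t) hL hb hδ hδ2
      ?_ ?_ ?_ ?_ ?_ (hVe t ht) ?_
    · intro i hi
      simp [farB, hi, hlen]
    · intro i hi a ha
      simp only [farB, hi, dif_pos, List.mem_map] at ha
      obtain ⟨a', _, rfl⟩ := ha
      rfl
    · intro t' _ i hi
      simp [farB, hi, hlen]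
    · intro t' _ i hi a ha
      simp only [farB, hi, dif_pos, List.mem_map] at ha
      obtain ⟨a', _, rfl⟩ := ha
      rfl
    · rw [hPS, ← hV, far_comp (k + 1) u E y]
    · intro t' ht'
      classical
      set I : Finset (Fin b) := Finset.univ.filter fun i =>
        (dm (E i (x i + t • u i)) (E i (y i + t' • u i)) : ℝ) < δ * L with hI
      have hsub : {i | i < b ∧ (dm (farB u E x t i) (farB u E y t' i) : ℝ) < δ * L} ⊆
          ((I.image Fin.val : Finset ℕ) : Set ℕ) := by
        rintro i ⟨hi, hlt⟩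
        simp only [Finset.coe_image, Set.mem_image, Finset.mem_coe]
        refine ⟨⟨i, hi⟩, ?_, rfl⟩
        simp only [farB, hi, dif_pos] at hlt
        rw [dm_map List.cons_injective] at hlt
        simp only [hI, Finset.mem_filter, Finset.mem_univ, true_and]
        exact hlt
      have hcard : {i | i < b ∧ (dm (farB u E x t i) (farB u E y t' i) : ℝ) < δ * L}.ncard ≤
          I.card := by
        refine (Set.ncard_le_ncard hsub (Finset.finite_toSet _)).trans ?_
        rw [Set.ncard_coe_finset]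
        exact Finset.card_image_le
      have hIc : 2 * I.card ≤ b := by
        refine far_count b (k + 1) N q c hnb hq hqq hc s hs t t' ht ht' I ?_
        intro i hi
        by_contra hnd
        simp only [hI, Finset.mem_filter, Finset.mem_univ, true_and] at hi
        have h1 := hfar i (x i + t • u i) ((t' : ℤ) - t + s * c i) hnd
        have h2 : x i + t • u i + ((t' : ℤ) - t + s * c i) • u i = y i + t' • u i := by
          rw [hy]
          simp only [Pi.add_apply, Pi.smul_apply]
          rw [add_smul, sub_smul, mul_smul]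
          simp only [natCast_zsmul]
          abel
        rw [h2] at h1
        exact absurd hi (not_lt.mpr h1)
      omega
  have hsum : ((dm (compE (k + 1) u E x) (compE (k + 1) u E y) : ℕ) : ℝ) =
      ∑ t ∈ Finset.range (k + 1), (e t : ℝ) := by
    rw [far_comp (k + 1) u E x, he]; push_cast; rfl
  rw [hsum]
  have hlow : ((k + 1 : ℕ) : ℝ) * (δ * b * L / 4) ≤ ∑ t ∈ Finset.range (k + 1), (e t : ℝ) := by
    have := Finset.card_nsmul_le_sum (Finset.range (k + 1)) (fun t => (e t : ℝ)) (δ * b * L / 4)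
      (fun t ht => key t (Finset.mem_range.mp ht))
    rw [Finset.card_range, nsmul_eq_mul] at this
    exact this
  refine le_trans (le_of_eq ?_) hlow
  push_cast
  ring

end Crest.Agent.ED
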