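import Crest.Agent.H2ESpec

/-!
# Rid 210 (S0323), module ITER
-/

set_option autoImplicit false

namespace Crest.Agent.ED

/-- module ITER (from BASE, COMPOSE) -/
theorem iter (h1 : Base) (h2 : Compose) : Iter := by
  intro k b n h Q p hk hb hp hinj hbh hQh hn2 hn
  have hQ : 2 ≤ Q := by
    have := hp 0 (by omega) 0 (by omega)
    exact this.1.two_le.trans this.2.2
  have hnpos : 0 < n := by
    refine lt_of_lt_of_le ?_ hn
    positivity
  have hkR : (1 : ℝ) ≤ k := by exact_mod_cast hk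
  have key : ∀ j ≤ k, ∀ N : ℕ, 0 < N → N ≤ 2 * Q ^ (k - j) →
      (∀ l < j, ∀ i < b, Nat.Coprime N (p l i)) →
      HasGadget N (j + 1) (2 ^ h) ((n * b) ^ j) (((k : ℝ) / 2) ^ j) (2 / 4 ^ j) := by
    intro j
    induction j with
    | zero =>
      intro _ N hN hNQ _
      have := h1 N (2 ^ h) hN (hNQ.trans (by simpa using hQh))
      simpa using this
    | succ j ih =>
      intro hj N hN hNQ hcop
      have hjk : j < k := hj
      have hL : 0 < (n * b) ^ j := by positivity
      have hT : (0 : ℝ) < ((k : ℝ) / 2) ^ j := by positivity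
      have hδ0 : (0 : ℝ) ≤ 2 / 4 ^ j := by positivity
      have hδ2 : (2 : ℝ) / 4 ^ j ≤ 2 := by
        have : (1 : ℝ) ≤ 4 ^ j := one_le_pow₀ (by norm_num)
        rw [div_le_iff₀ (by positivity)]
        linarith
      have hcost : ((N * Q ^ k : ℕ) : ℝ) ^ 2 * (k * ((k : ℝ) / 2) ^ j) ≤ n := by
        have e1 : N * Q ^ k ≤ 2 * Q ^ (2 * k) := by
          have a1 : Q ^ (k - (j + 1)) ≤ Q ^ k := Nat.pow_le_pow_right (by omega) (by omega)
          calc N * Q ^ k ≤ (2 * Q ^ (k - (j + 1))) * Q ^ k := Nat.mul_le_mul_right _ hNQ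
            _ ≤ (2 * Q ^ k) * Q ^ k := by gcongr
            _ = 2 * Q ^ (2 * k) := by ring
        have e2 : ((N * Q ^ k : ℕ) : ℝ) ≤ 2 * (Q : ℝ) ^ (2 * k) := by exact_mod_cast e1
        have e3 : ((k : ℝ) / 2) ^ j ≤ (k : ℝ) ^ k := by
          calc ((k : ℝ) / 2) ^ j ≤ (k : ℝ) ^ j := by
                apply pow_le_pow_left₀ (by positivity); linarith
            _ ≤ (k : ℝ) ^ k := pow_le_pow_right₀ hkR hjk.le
        have e4 : ((4 * Q ^ (4 * k) * k * k ^ k : ℕ) : ℝ) ≤ n := by exact_mod_cast hn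
        calc ((N * Q ^ k : ℕ) : ℝ) ^ 2 * (k * ((k : ℝ) / 2) ^ j)
            ≤ (2 * (Q : ℝ) ^ (2 * k)) ^ 2 * (k * (k : ℝ) ^ k) := by gcongr
          _ = ((4 * Q ^ (4 * k) * k * k ^ k : ℕ) : ℝ) := by push_cast; ring
          _ ≤ n := e4
      have hG : ∀ i : Fin b, HasGadget (N * p j i) (j + 1) (2 ^ h) ((n * b) ^ j)
          (((k : ℝ) / 2) ^ j) (2 / 4 ^ j) := by
        intro i
        have hpi := hp j hjk i i.2
        apply ih hjk.le
        · exact Nat.mul_pos hN hpi.1.pos
        · have : k - j = (k - (j + 1)) + 1 := by omega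
          rw [this, pow_succ, ← mul_assoc]
          exact Nat.mul_le_mul hNQ hpi.2.2
        · intro l hl i' hi'
          refine Nat.Coprime.mul_left (hcop l (by omega) i' hi') ?_
          have hpl := hp l (by omega) i' hi'
          refine (Nat.coprime_primes hpi.1 hpl.1).2 ?_
          intro he
          have := hinj j hjk i i.2 l (by omega) i' hi' he
          omega
      have := h2 b n N (j + 1) (2 ^ h) ((n * b) ^ j) Q k (((k : ℝ) / 2) ^ j) (2 / 4 ^ j)
        (fun i => p j i) hL hb hδ0 hδ2 hN hT hbh hn2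
        (fun i => ⟨(hp j hjk i i.2).1.two_le, (hp j hjk i i.2).2.2⟩)
        (fun i => hcop j (by omega) i i.2)
        (fun i i' hne => (Nat.coprime_primes (hp j hjk i i.2).1 (hp j hjk i' i'.2).1).2 (by
          intro he
          have := (hinj j hjk i i.2 j hjk i' i'.2 he).2
          exact hne (Fin.ext this)))
        hcost hG
      have ee1 : n * b * (n * b) ^ j = (n * b) ^ (j + 1) := by ring
      have ee2 : (k : ℝ) * ((k : ℝ) / 2) ^ j / 2 = ((k : ℝ) / 2) ^ (j + 1) := by ring
      have ee3 : (2 : ℝ) / 4 ^ j / 4 = 2 / 4 ^ (j + 1) := by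
        rw [div_div, pow_succ]
      rw [ee1, ee2, ee3] at this
      exact this
  refine key k le_rfl 2 (by norm_num) (by simp) ?_
  intro l hl i hi
  have := hp l hl i hi
  exact (Nat.coprime_primes Nat.prime_two this.1).2 this.2.1.symm

end Crest.Agent.ED
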