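import Crest.Agent.H2ESpec

/-!
# Rid 210 (S0323), module LEVEL
-/

set_option autoImplicit false

namespace Crest.Agent.ED

theorem level_ineq (j : ℕ) (hj : 15 ≤ j) : 32 * j ≤ 2 ^ j := by
  induction j, hj using Nat.le_induction with
  | base => norm_num
  | succ k hk ih =>
    rw [pow_succ]; omega

theorem level_exp (j : ℕ) (hj : 15 ≤ j) :
    j * 2 ^ (j - 1) + (3 * j + 4) ≤ (j - 3) * 2 ^ j + 1 := by
  obtain ⟨i, rfl⟩ : ∃ i, j = i + 15 := ⟨j - 15, by omega⟩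
  have e1 : i + 15 - 1 = i + 14 := by omega
  have e2 : i + 15 - 3 = i + 12 := by omega
  rw [e1, e2]
  have e3 : 2 ^ (i + 15) = 2 * 2 ^ (i + 14) := by ring
  rw [e3]
  have e4 : 2 ^ 14 ≤ 2 ^ (i + 14) := Nat.pow_le_pow_right (by norm_num) (by omega)
  have e5 : 16384 ≤ 2 ^ (i + 14) := by simpa using e4
  clear e1 e2 e3 e4 hj
  generalize 2 ^ (i + 14) = a at e5 ⊢
  have e6 : i * 3 ≤ i * a := Nat.mul_le_mul_left _ (by omega)
  have e7 : (i + 12) * (2 * a) = 2 * (i * a) + 24 * a := by ring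
  have e8 : (i + 15) * a = i * a + 15 * a := by ring
  rw [e7, e8]
  omega

theorem level_exp2 (j : ℕ) (h : 32768 ≤ 2 ^ j) :
    3 * j + (14 * j * 2 ^ j + 2 * j) * 2 ^ j ≤ 15 * j * 4 ^ j := by
  have e4 : 4 ^ j = 2 ^ j * 2 ^ j := by
    rw [← mul_pow]
    norm_num
  rw [e4]
  generalize 2 ^ j = a at h ⊢
  have e1 : 3 + 2 * a ≤ a * a := by nlinarith
  have e2 : j * (3 + 2 * a) ≤ j * (a * a) := Nat.mul_le_mul_left _ e1
  have e3 : (14 * j * a + 2 * j) * a = 14 * (j * (a * a)) + 2 * (j * a) := by ring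
  have e5 : 15 * j * (a * a) = 15 * (j * (a * a)) := by ring
  have e6 : j * (3 + 2 * a) = 3 * j + 2 * (j * a) := by ring
  rw [e3, e5]
  omega

/-- module LEVEL (from ITER, LOWER, PRIMES) -/
theorem level (h1 : Iter) (h2 : Lower) (h3 : Primes) : Level := by
  intro j hj
  obtain ⟨p, hp, hinj⟩ := h3 j hj
  have hj32 := level_ineq j hj
  have h2j : 2 ^ 15 ≤ 2 ^ j := Nat.pow_le_pow_right (by norm_num) hj
  have h2j' : 32768 ≤ 2 ^ j := by simpa using h2j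
  -- the gadget
  have hG : HasGadget 2 (2 ^ j + 1) (2 ^ (3 * j * 2 ^ j + 1))
      ((2 ^ (14 * j * 2 ^ j) * (28 * j * 2 ^ j)) ^ 2 ^ j)
      ((((2 ^ j : ℕ) : ℝ) / 2) ^ 2 ^ j) (2 / 4 ^ 2 ^ j) := by
    refine h1 (2 ^ j) (28 * j * 2 ^ j) (2 ^ (14 * j * 2 ^ j)) (3 * j * 2 ^ j + 1) (2 ^ (3 * j)) p
      (by omega) (by nlinarith) hp hinj ?_ ?_ ?_ ?_
    · calc 28 * j * 2 ^ j ≤ 2 ^ j * 2 ^ j := Nat.mul_le_mul_right _ (by omega)
        _ = 2 ^ (2 * j) := by rw [← pow_add]; congr 1; ring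
        _ ≤ 2 ^ (3 * j * 2 ^ j + 1) := Nat.pow_le_pow_right (by norm_num) (by nlinarith)
    · rw [← pow_mul, pow_succ, mul_comm]
    · rw [← pow_mul]
      exact le_of_eq (by congr 1; ring)
    · calc 4 * (2 ^ (3 * j)) ^ (4 * 2 ^ j) * 2 ^ j * (2 ^ j) ^ 2 ^ j
          = 2 ^ 2 * 2 ^ (3 * j * (4 * 2 ^ j)) * 2 ^ j * 2 ^ (j * 2 ^ j) := by
            rw [← pow_mul, ← pow_mul]
            norm_num
        _ = 2 ^ (2 + 3 * j * (4 * 2 ^ j) + j + j * 2 ^ j) := by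
            rw [← pow_add, ← pow_add, ← pow_add]
        _ ≤ 2 ^ (14 * j * 2 ^ j) := Nat.pow_le_pow_right (by norm_num) (by nlinarith)
  -- the block length
  have hlam : 4 + 2 * (2 ^ j + 1) * (3 * j * 2 ^ j + 1) ≤ 2 ^ (3 * j) := by
    calc 4 + 2 * (2 ^ j + 1) * (3 * j * 2 ^ j + 1) ≤ 2 ^ j * (2 ^ j * (32 * j)) := by
          generalize 2 ^ j = a at *
          have e1 : 2 * (a + 1) ≤ 4 * a := by omega
          have e2 : 3 * j * a + 1 ≤ 4 * j * a := by nlinarith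
          have e3 : 2 * (a + 1) * (3 * j * a + 1) ≤ (4 * a) * (4 * j * a) :=
            Nat.mul_le_mul e1 e2
          have e4 : (4 * a) * (4 * j * a) = 16 * (a * (a * j)) := by ring
          have e5 : a * (a * (32 * j)) = 32 * (a * (a * j)) := by ring
          have e6 : 1 ≤ a * (a * j) := by
            have : 0 < a * (a * j) := by positivity
            exact this
          omega
      _ ≤ 2 ^ j * (2 ^ j * 2 ^ j) := by gcongr
      _ = 2 ^ (3 * j) := by rw [← pow_add, ← pow_add]; congr 1; ring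
  refine ⟨(4 + 2 * (2 ^ j + 1) * (3 * j * 2 ^ j + 1)) *
    (2 ^ (14 * j * 2 ^ j) * (28 * j * 2 ^ j)) ^ 2 ^ j, ?_, ?_⟩
  · calc (4 + 2 * (2 ^ j + 1) * (3 * j * 2 ^ j + 1)) *
        (2 ^ (14 * j * 2 ^ j) * (28 * j * 2 ^ j)) ^ 2 ^ j
        ≤ 2 ^ (3 * j) * (2 ^ (14 * j * 2 ^ j) * 2 ^ (2 * j)) ^ 2 ^ j := by
          refine Nat.mul_le_mul hlam (Nat.pow_le_pow_left (Nat.mul_le_mul_left _ ?_) _)
          calc 28 * j * 2 ^ j ≤ 2 ^ j * 2 ^ j := Nat.mul_le_mul_right _ (by omega)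
            _ = 2 ^ (2 * j) := by rw [← pow_add]; congr 1; ring
      _ = 2 ^ (3 * j + (14 * j * 2 ^ j + 2 * j) * 2 ^ j) := by
          rw [← pow_add, ← pow_mul, ← pow_add]
      _ ≤ 2 ^ (15 * j * 4 ^ j) := by
          apply Nat.pow_le_pow_right (by norm_num)
          exact level_exp2 j h2j'
  · intro f s D hs hemb
    have hkey := h2 (2 ^ j + 1) (3 * j * 2 ^ j + 1)
      ((2 ^ (14 * j * 2 ^ j) * (28 * j * 2 ^ j)) ^ 2 ^ j)
      ((((2 ^ j : ℕ) : ℝ) / 2) ^ 2 ^ j) (2 / 4 ^ 2 ^ j) (by positivity) (by positivity)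
      (by positivity) hG f s D hs hemb
    refine le_trans ?_ hkey
    have hlamR : (16 * (4 + 2 * ((2 ^ j + 1 : ℕ) : ℝ) * ((3 * j * 2 ^ j + 1 : ℕ) : ℝ))) ≤
        2 ^ (3 * j + 4) := by
      have : ((4 + 2 * (2 ^ j + 1) * (3 * j * 2 ^ j + 1) : ℕ) : ℝ) ≤ ((2 ^ (3 * j) : ℕ) : ℝ) :=
        by exact_mod_cast hlam
      push_cast at this
      push_cast
      rw [pow_add]
      linarith
    have hpos : (0 : ℝ) <
        16 * (4 + 2 * ((2 ^ j + 1 : ℕ) : ℝ) * ((3 * j * 2 ^ j + 1 : ℕ) : ℝ)) := by positivity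
    rw [le_div_iff₀ hpos]
    have hexp := level_exp j hj
    have hval : ((((2 ^ j : ℕ) : ℝ) / 2) ^ 2 ^ j) * (2 / 4 ^ 2 ^ j) =
        2 ^ ((j - 3) * 2 ^ j + 1) := by
      obtain ⟨i, rfl⟩ : ∃ i, j = i + 3 := ⟨j - 3, by omega⟩
      have e2 : i + 3 - 3 = i := by omega
      rw [e2]
      have e1 : (((2 ^ (i + 3) : ℕ) : ℝ) / 2) = 2 ^ i * 4 := by
        push_cast
        rw [pow_add]; ring
      rw [e1]
      generalize 2 ^ (i + 3) = m
      have : (4 : ℝ) ^ m ≠ 0 := by positivity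
      rw [mul_pow, ← pow_mul, pow_add, pow_one]
      field_simp
    calc (2 : ℝ) ^ (j * 2 ^ (j - 1)) *
          (16 * (4 + 2 * ((2 ^ j + 1 : ℕ) : ℝ) * ((3 * j * 2 ^ j + 1 : ℕ) : ℝ)))
        ≤ 2 ^ (j * 2 ^ (j - 1)) * 2 ^ (3 * j + 4) := by gcongr
      _ = 2 ^ (j * 2 ^ (j - 1) + (3 * j + 4)) := by rw [← pow_add]
      _ ≤ 2 ^ ((j - 3) * 2 ^ j + 1) := pow_le_pow_right₀ (by norm_num) hexp
      _ = _ := hval.symm

end Crest.Agent.ED
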