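import Crest.Agent.H2ESpec

/-! # Rid 210, module LOWER -/

set_option autoImplicit false

namespace Crest.Agent.ED

open Crest.GeometryTopology.EditDistance

theorem lower (h1 : Poincare) (h2 : Bin) : Lower := by
  intro l h L T δ hT hδ hL hgad f s D hs hemb
  obtain ⟨A, ι, iA, iF, iι, u, E, m, ω, hG⟩ := hgad
  obtain ⟨hlen, hup, hlow⟩ := h2
  have hV : ∀ x, Valid l h (E x) := fun x => hG.sym x
  have hword : ∀ x, (enc h (E x)).length = (4 + 2 * l * h) * L := by
    intro x
    rw [hlen l h _ (hV x), hG.len]
  have hP := h1 T A ι u m ω hG.tors hG.nonneg hG.spec (fun x => f (enc h (E x)))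
  have hLr : (0 : ℝ) < L := by exact_mod_cast hL
  set lam : ℝ := 4 + 2 * l * h with hlam
  have hlampos : 0 < lam := by positivity
  have hself : ∀ w : List Bool, editDist w w = 0 := fun w => SimpleGraph.dist_self
  -- lower bound
  have hlo : ∀ x, s * (δ * L / 4) ≤ ‖f (enc h (E x)) - f (enc h (E (x + u)))‖ ∧
      enc h (E x) ≠ enc h (E (x + u)) := by
    intro x
    have h3 : δ * L ≤ dm (E x) (E (x + u)) := by
      have := hG.far x 1 (by decide)
      simpa using this
    have h4 := hlow l h _ _ (hV x) (hV (x + u)) (by rw [hG.len, hG.len])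
    have h5 : (dm (E x) (E (x + u)) : ℝ) ≤ 4 * editDist (enc h (E x)) (enc h (E (x + u))) := by
      exact_mod_cast h4
    have h6 : 0 < δ * L := mul_pos hδ hLr
    have hne : enc h (E x) ≠ enc h (E (x + u)) := by
      intro heq
      rw [heq, hself] at h5
      norm_num at h5
      rw [h5] at h3
      norm_num at h3
      linarith
    refine ⟨?_, hne⟩
    refine le_trans ?_ (hemb _ _ (hword x) (hword (x + u)) hne).1
    apply mul_le_mul_of_nonneg_left _ hs.le
    linarith
  have hD : 0 < D := by
    obtain ⟨h3, hne⟩ := hlo 0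
    have h4 := (hemb _ _ (hword 0) (hword (0 + u)) hne).2
    have h5 : 0 < s * (δ * L / 4) := by positivity
    have h6 : 0 < D * s * (editDist (enc h (E 0)) (enc h (E (0 + u))) : ℝ) :=
      h5.trans_le (h3.trans h4)
    by_contra hcon
    push Not at hcon
    have h7 : D * s * (editDist (enc h (E 0)) (enc h (E (0 + u))) : ℝ) ≤ 0 :=
      mul_nonpos_of_nonpos_of_nonneg (mul_nonpos_of_nonpos_of_nonneg hcon hs.le)
        (Nat.cast_nonneg _)
    linarith
  -- upper bound
  have hhi : ∀ x y, ‖f (enc h (E x)) - f (enc h (E y))‖ ≤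
      D * s * lam * dm (E x) (E y) := by
    intro x y
    by_cases heq : enc h (E x) = enc h (E y)
    · rw [heq, sub_self, norm_zero]
      positivity
    · refine (hemb _ _ (hword x) (hword y) heq).2.trans ?_
      have h3 := hup l h _ _ (hV x) (hV y)
      have h4 : (editDist (enc h (E x)) (enc h (E y)) : ℝ) ≤ lam * dm (E x) (E y) := by
        rw [hlam]; exact_mod_cast h3
      calc D * s * (editDist (enc h (E x)) (enc h (E y)) : ℝ)
          ≤ D * s * (lam * dm (E x) (E y)) :=
            mul_le_mul_of_nonneg_left h4 (by positivity)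
        _ = _ := by ring
  have hcardpos : (0 : ℝ) < Fintype.card A := by
    exact_mod_cast Fintype.card_pos_iff.mpr ⟨0⟩
  have hleft : T * (Fintype.card A * (s * (δ * L / 4))) ≤
      T * ∑ x, ‖f (enc h (E x)) - f (enc h (E (x + u)))‖ := by
    apply mul_le_mul_of_nonneg_left _ hT.le
    rw [← nsmul_eq_mul, ← Finset.card_univ]
    exact Finset.card_nsmul_le_sum _ _ _ fun x _ => (hlo x).1
  have hright : 2 * ∑ j, ω j * ∑ x, ‖f (enc h (E x)) - f (enc h (E (x + m j)))‖ ≤
      2 * (D * s * lam * (2 * L * Fintype.card A)) := by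
    apply mul_le_mul_of_nonneg_left _ (by norm_num)
    calc ∑ j, ω j * ∑ x, ‖f (enc h (E x)) - f (enc h (E (x + m j)))‖
        ≤ ∑ j, ω j * ∑ x, D * s * lam * dm (E x) (E (x + m j)) := by
          apply Finset.sum_le_sum
          intro j _
          apply mul_le_mul_of_nonneg_left _ (hG.nonneg j)
          exact Finset.sum_le_sum fun x _ => hhi x _
      _ = D * s * lam * ∑ j, ω j * ∑ x, (dm (E x) (E (x + m j)) : ℝ) := by
          rw [Finset.mul_sum]
          apply Finset.sum_congr rfl
          intro j _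
          rw [← Finset.mul_sum]
          ring
      _ ≤ _ := mul_le_mul_of_nonneg_left hG.cost (by positivity)
  have hfin := hleft.trans (hP.trans hright)
  rw [div_le_iff₀ (by positivity)]
  have hpos : 0 < Fintype.card A * (s * L) := by positivity
  have h8 : T * δ * (Fintype.card A * (s * L)) ≤ D * (16 * lam) * (Fintype.card A * (s * L)) := by
    nlinarith [hfin]
  exact le_of_mul_le_mul_right h8 hpos

end Crest.Agent.ED
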