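import Crest.Agent.H2ESpec

/-!
# Rid 210 (S0323), module POINCARE: the Poincaré inequality for `ℓ¹`-valued maps
-/

set_option autoImplicit false

namespace Crest.Agent.ED

open Finset

theorem poincare (h1 : SpectralId) (h2 : CutL1) : Poincare := by
  classical
  intro T A ι _ _ _ u m ω hu hω hspec F
  -- the inequality for characters
  have hchar : ∀ χ : AddChar A ℂ,
      T * ‖1 - χ u‖ ^ 2 ≤ 2 * ∑ j, ω j * ‖1 - χ (m j)‖ ^ 2 := by
    intro χ
    by_cases hχ : χ u = 1
    · rw [hχ]
      simp only [sub_self, norm_zero, ne_eq, OfNat.ofNat_ne_zero, not_false_eq_true, zero_pow,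
        mul_zero]
      exact mul_nonneg (by norm_num)
        (Finset.sum_nonneg fun j _ => mul_nonneg (hω j) (by positivity))
    · have h3 : χ u ^ 2 = 1 := by
        rw [← AddChar.map_nsmul_eq_pow, hu, AddChar.map_zero_eq_one]
      have h4 : χ u = -1 := by
        rcases sq_eq_one_iff.mp h3 with h | h
        · exact absurd h hχ
        · exact h
      have h5 : ‖1 - χ u‖ ^ 2 = 4 := by
        rw [h4]
        norm_num
      rw [h5]
      have := hspec χ hχ
      linarith
  -- the cut inequality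
  have hcut : ∀ f : A → ℝ, (∀ x, f x = 0 ∨ f x = 1) →
      0 ≤ ∑ p : A ⊕ (ι × A), (Sum.elim (fun _ => -T) (fun q => 2 * ω q.1) p) *
        |f (Sum.elim (fun x => x) (fun q => q.2) p) -
          f (Sum.elim (fun x => x + u) (fun q => q.2 + m q.1) p)| := by
    intro f hf
    have habs : ∀ x y, |f x - f y| = (f x - f y) ^ 2 := by
      intro x y
      rcases hf x with h | h <;> rcases hf y with h' | h' <;> rw [h, h'] <;> norm_num
    obtain ⟨w, hw, hwv⟩ := h1 A f
    rw [Fintype.sum_sum_type, Fintype.sum_prod_type]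
    simp only [Sum.elim_inl, Sum.elim_inr, habs]
    have e1 : ∑ x, -T * (f x - f (x + u)) ^ 2 = -∑ χ, w χ * (T * ‖1 - χ u‖ ^ 2) := by
      rw [← Finset.mul_sum, hwv u, neg_mul, Finset.mul_sum]
      congr 1
      exact Finset.sum_congr rfl fun χ _ => by ring
    have e2 : ∑ j, ∑ x, 2 * ω j * (f x - f (x + m j)) ^ 2 =
        ∑ χ, w χ * (2 * ∑ j, ω j * ‖1 - χ (m j)‖ ^ 2) := by
      have : ∀ j, ∑ x, 2 * ω j * (f x - f (x + m j)) ^ 2 =
          ∑ χ, 2 * ω j * (w χ * ‖1 - χ (m j)‖ ^ 2) := by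
        intro j
        rw [← Finset.mul_sum, hwv (m j), Finset.mul_sum]
      rw [Finset.sum_congr rfl fun j _ => this j, Finset.sum_comm]
      refine Finset.sum_congr rfl fun χ _ => ?_
      rw [Finset.mul_sum, Finset.mul_sum]
      exact Finset.sum_congr rfl fun j _ => by ring
    rw [e1, e2, neg_add_eq_sub, ← Finset.sum_sub_distrib]
    refine Finset.sum_nonneg fun χ _ => ?_
    rw [← mul_sub]
    exact mul_nonneg (hw χ) (sub_nonneg.mpr (hchar χ))
  have hfin := h2 A (A ⊕ (ι × A)) (Sum.elim (fun x => x) (fun q => q.2))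
    (Sum.elim (fun x => x + u) (fun q => q.2 + m q.1))
    (Sum.elim (fun _ => -T) (fun q => 2 * ω q.1)) hcut F
  rw [Fintype.sum_sum_type, Fintype.sum_prod_type] at hfin
  simp only [Sum.elim_inl, Sum.elim_inr] at hfin
  rw [← Finset.mul_sum] at hfin
  have e3 : ∑ j, ∑ x, 2 * ω j * ‖F x - F (x + m j)‖ =
      2 * ∑ j, ω j * ∑ x, ‖F x - F (x + m j)‖ := by
    rw [Finset.mul_sum]
    refine Finset.sum_congr rfl fun j _ => ?_
    rw [← Finset.mul_sum]
    ring
  rw [e3] at hfin
  linarith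

end Crest.Agent.ED
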