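import Crest.Agent.H2ESpec
import Mathlib.NumberTheory.Chebyshev

/-!
# Rid 210 (S0323), module PRIMES
-/

set_option autoImplicit false

namespace Crest.Agent.ED

theorem primes_pow_ineq (j : ℕ) (hj : 15 ≤ j) : 84 * j ^ 2 + 10 ≤ 2 ^ j := by
  induction j, hj using Nat.le_induction with
  | base => norm_num
  | succ k hk ih =>
    have : 84 * (k + 1) ^ 2 + 10 ≤ 2 * (84 * k ^ 2 + 10) := by nlinarith
    calc 84 * (k + 1) ^ 2 + 10 ≤ 2 * (84 * k ^ 2 + 10) := this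
      _ ≤ 2 * 2 ^ k := by omega
      _ = 2 ^ (k + 1) := by ring

theorem primes_count (j : ℕ) (hj : 15 ≤ j) :
    28 * j * 4 ^ j + 1 < Nat.primeCounting (2 ^ (3 * j)) := by
  have h := Chebyshev.pi_ge (2 ^ (3 * j))
  have hl2 : 0 < Real.log 2 := Real.log_pos (by norm_num)
  have hj0 : (0 : ℝ) < j := by exact_mod_cast (by omega : 0 < j)
  have hlog : Real.log ((2 ^ (3 * j) : ℕ) : ℝ) = 3 * j * Real.log 2 := by
    push_cast
    rw [Real.log_pow]; push_cast; ring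
  have hlog1 : Real.log (((2 ^ (3 * j) : ℕ) : ℝ) + 1) ≤ (3 * j + 1) * Real.log 2 := by
    have h1 : (((2 ^ (3 * j) : ℕ) : ℝ) + 1) ≤ (2 : ℝ) ^ (3 * j + 1) := by
      push_cast
      have : (1 : ℝ) ≤ 2 ^ (3 * j) := one_le_pow₀ (by norm_num)
      rw [pow_succ]; linarith
    calc Real.log (((2 ^ (3 * j) : ℕ) : ℝ) + 1) ≤ Real.log ((2 : ℝ) ^ (3 * j + 1)) :=
          Real.log_le_log (by positivity) h1
      _ = (3 * j + 1) * Real.log 2 := by rw [Real.log_pow]; push_cast; ring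
  have hden : 0 < 3 * (j : ℝ) * Real.log 2 := by positivity
  rw [hlog, div_le_iff₀ hden] at h
  have h2 : ((2 ^ (3 * j) : ℕ) : ℝ) * Real.log 2 - (3 * j + 1) * Real.log 2 ≤
      (Nat.primeCounting (2 ^ (3 * j)) : ℝ) * (3 * j * Real.log 2) := by linarith
  have h3 : ((2 ^ (3 * j) : ℕ) : ℝ) - (3 * j + 1) ≤
      (Nat.primeCounting (2 ^ (3 * j)) : ℝ) * (3 * j) := by
    have : (((2 ^ (3 * j) : ℕ) : ℝ) - (3 * j + 1)) * Real.log 2 ≤
      ((Nat.primeCounting (2 ^ (3 * j)) : ℝ) * (3 * j)) * Real.log 2 := by linarith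
    exact le_of_mul_le_mul_right this hl2
  have h4 : (2 ^ (3 * j) : ℕ) ≤ Nat.primeCounting (2 ^ (3 * j)) * (3 * j) + (3 * j + 1) := by
    have : ((2 ^ (3 * j) : ℕ) : ℝ) ≤
      ((Nat.primeCounting (2 ^ (3 * j)) * (3 * j) + (3 * j + 1) : ℕ) : ℝ) := by
      push_cast
      push_cast at h3
      linarith
    exact_mod_cast this
  by_contra hcon
  push Not at hcon
  have h5 : (2 ^ (3 * j) : ℕ) = 4 ^ j * 2 ^ j := by
    rw [show (4 : ℕ) = 2 ^ 2 by norm_num, ← pow_mul, ← pow_add]; congr 1; ring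
  have h6 := primes_pow_ineq j hj
  have h7 : Nat.primeCounting (2 ^ (3 * j)) * (3 * j) ≤ (28 * j * 4 ^ j + 1) * (3 * j) :=
    Nat.mul_le_mul_right _ hcon
  have h8 : 4 ^ j * (84 * j ^ 2 + 10) ≤ 4 ^ j * 2 ^ j := Nat.mul_le_mul_left _ h6
  have h9 : j + 1 ≤ 4 ^ j := by
    have := Nat.lt_pow_self (n := j) (show 1 < 4 by norm_num)
    omega
  nlinarith

/-- module PRIMES -/
theorem primes : Primes := by
  intro j hj
  refine ⟨fun l i => Nat.nth Nat.Prime (l * (28 * j * 2 ^ j) + i + 1), ?_, ?_⟩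
  · intro l hl i hi
    have hidx : l * (28 * j * 2 ^ j) + i + 1 < Nat.count Nat.Prime (2 ^ (3 * j) + 1) := by
      have h1 := primes_count j hj
      rw [Nat.primeCounting, Nat.primeCounting'] at h1
      refine lt_of_le_of_lt ?_ h1
      have h2 : (l + 1) * (28 * j * 2 ^ j) ≤ 2 ^ j * (28 * j * 2 ^ j) :=
        Nat.mul_le_mul_right _ hl
      have h3 : 2 ^ j * (28 * j * 2 ^ j) = 28 * j * 4 ^ j := by
        rw [show (4 : ℕ) = 2 * 2 by norm_num, mul_pow]; ring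
      have h4 : (l + 1) * (28 * j * 2 ^ j) = l * (28 * j * 2 ^ j) + 28 * j * 2 ^ j := by ring
      omega
    have hp := Nat.prime_nth_prime (l * (28 * j * 2 ^ j) + i + 1)
    refine ⟨hp, ?_, ?_⟩
    · have h0 : Nat.nth Nat.Prime 0 < Nat.nth Nat.Prime (l * (28 * j * 2 ^ j) + i + 1) :=
        Nat.nth_strictMono Nat.infinite_setOfPred_prime (by omega)
      have h2 := (Nat.prime_nth_prime 0).two_le
      exact (lt_of_le_of_lt h2 h0).ne'
    · exact Nat.lt_succ_iff.mp (Nat.nth_lt_of_lt_count hidx)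
  · intro l hl i hi l' hl' i' hi' h
    have h1 : l * (28 * j * 2 ^ j) + i + 1 = l' * (28 * j * 2 ^ j) + i' + 1 :=
      Nat.nth_injective Nat.infinite_setOfPred_prime h
    have h2 : l * (28 * j * 2 ^ j) + i = l' * (28 * j * 2 ^ j) + i' := by omega
    have hpos : 0 < 28 * j * 2 ^ j := by omega
    have hi1 : (l * (28 * j * 2 ^ j) + i) % (28 * j * 2 ^ j) = i := by
      rw [Nat.mul_add_mod_self_right]; exact Nat.mod_eq_of_lt hi
    have hi2 : (l' * (28 * j * 2 ^ j) + i') % (28 * j * 2 ^ j) = i' := by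
      rw [Nat.mul_add_mod_self_right]; exact Nat.mod_eq_of_lt hi'
    have hii : i = i' := by rw [← hi1, ← hi2, h2]
    subst hii
    have : l * (28 * j * 2 ^ j) = l' * (28 * j * 2 ^ j) := by omega
    exact ⟨Nat.eq_of_mul_eq_mul_right hpos this, rfl⟩

end Crest.Agent.ED
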