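import Crest.Agent.H2ESpec

/-! # Rid 210, module ROW -/

set_option autoImplicit false

namespace Crest.Agent.ED

/-- the part of `Y` at positions `a ≤ p < a'` -/
def slice {α : Type*} (Y : List α) (a a' : ℕ) : List α := (Y.drop a).take (a' - a)

section

variable {α : Type*}

theorem slice_append (Y : List α) {a x a' : ℕ} (h1 : a ≤ x) (h2 : x ≤ a') :
    slice Y a a' = slice Y a x ++ slice Y x a' := by
  unfold slice
  have h : a' - a = (x - a) + (a' - x) := by omega
  rw [h, List.take_add, List.drop_drop]
  congr 3
  omega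

theorem slice_length (Y : List α) {a a' : ℕ} (h1 : a ≤ a') (h2 : a' ≤ Y.length) :
    (slice Y a a').length = a' - a := by
  unfold slice
  rw [List.length_take, List.length_drop]
  omega

theorem slice_of_append (A B C : List α) :
    slice (A ++ B ++ C) A.length (A.length + B.length) = B := by
  unfold slice
  rw [List.append_assoc, List.drop_left' rfl]
  rw [Nat.add_sub_cancel_left, List.take_left' rfl]

theorem exists_of_mem_slice {Y : List α} {a a' : ℕ} {s : α} (h : s ∈ slice Y a a') :
    ∃ p, ∃ hp : p < Y.length, a ≤ p ∧ p < a' ∧ Y[p] = s := by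
  unfold slice at h
  rw [List.mem_iff_getElem] at h
  obtain ⟨i, hi, hs⟩ := h
  rw [List.length_take, List.length_drop] at hi
  refine ⟨a + i, by omega, by omega, by omega, ?_⟩
  rw [← hs]
  simp

theorem infix_slice (Y : List α) {a x y a' : ℕ} (h1 : a ≤ x) (h2 : x ≤ y) (h3 : y ≤ a') :
    slice Y x y <:+: slice Y a a' := by
  rw [slice_append Y h1 (h2.trans h3), slice_append Y h2 h3]
  exact ⟨slice Y a x, slice Y y a', by simp⟩

/-- blocks of a concatenation -/
theorem length_flatMap_blocks (G : ℕ → List α) (L : ℕ) :
    ∀ K : ℕ, (∀ m < K, (G m).length = L) → ((List.range K).flatMap G).length = K * L := by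
  intro K
  induction K with
  | zero => simp
  | succ K ih =>
      intro h
      rw [List.range_succ, List.flatMap_append, List.length_append, ih (fun m hm => h m (by omega))]
      simp [h K (by omega), Nat.succ_mul]

theorem range_split {m K : ℕ} (hm : m < K) :
    List.range K = List.range m ++ ([m] ++ (List.range (K - m - 1)).map (m + 1 + ·)) := by
  obtain ⟨r, rfl⟩ : ∃ r, K = m + 1 + r := ⟨K - m - 1, by omega⟩
  rw [List.range_add, List.range_succ]
  have : m + 1 + r - m - 1 = r := by omega
  rw [this]
  simp

theorem slice_block (G : ℕ → List α) (L K : ℕ) (h : ∀ m < K, (G m).length = L) {m : ℕ}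
    (hm : m < K) : slice ((List.range K).flatMap G) (m * L) ((m + 1) * L) = G m := by
  have h1 : ((List.range m).flatMap G).length = m * L :=
    length_flatMap_blocks G L m fun j hj => h j (by omega)
  have h2 : (m + 1) * L = m * L + (G m).length := by rw [h m hm]; ring
  have h3 : (List.range K).flatMap G = (List.range m).flatMap G ++ G m ++
      ((List.range (K - m - 1)).map (m + 1 + ·)).flatMap G := by
    conv_lhs => rw [range_split hm]
    simp
  rw [h2, ← h1, h3]
  exact slice_of_append _ _ _

theorem getElem_mem_block (G : ℕ → List α) (L K : ℕ) (hL : 0 < L)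
    (h : ∀ m < K, (G m).length = L) {p : ℕ} (hp : p < ((List.range K).flatMap G).length) :
    p / L < K ∧ ((List.range K).flatMap G)[p] ∈ G (p / L) := by
  have hlen := length_flatMap_blocks G L K h
  have hK : p / L < K := by
    rw [Nat.div_lt_iff_lt_mul hL]; rw [hlen] at hp; exact hp
  refine ⟨hK, ?_⟩
  rw [← slice_block G L K h hK]
  have h1 : p / L * L ≤ p := Nat.div_mul_le_self p L
  have h2 : p < (p / L + 1) * L := by
    rw [Nat.add_mul, one_mul]; exact Nat.lt_div_mul_add hL
  rw [List.mem_iff_getElem]
  refine ⟨p - p / L * L, ?_, ?_⟩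
  · rw [slice_length _ (by nlinarith) (by rw [hlen]; exact Nat.mul_le_mul_right L hK)]
    omega
  · unfold slice
    simp only [List.getElem_take, List.getElem_drop]
    congr 1
    omega

end

/-- Claim 1: a cheap block -/
theorem row_claim1 (b K L : ℕ) (hL : 0 < L) (hb : 2 ≤ b) (G : ℕ → List (List ℕ))
    (hG : ∀ m < K, (G m).length = L) (hGt : ∀ m < K, ∀ s ∈ G m, s.head? = some (m % b))
    (a a' : ℕ) (haa : a ≤ a') (ha' : a' ≤ K * L) (i : ℕ) (X : List (List ℕ)) (hX : X.length = L)
    (hXt : ∀ s ∈ X, s.head? = some i) (e : ℕ) (he : e < L)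
    (hM : Mt X (slice ((List.range K).flatMap G) a a') e) :
    ∃ m < K, m % b = i ∧ L + max a (m * L) ≤ min a' ((m + 1) * L) + e ∧ dm X (G m) ≤ 2 * e := by
  set Y := (List.range K).flatMap G with hY
  have hYlen : Y.length = K * L := length_flatMap_blocks G L K hG
  set p : List ℕ → Bool := fun s => decide (s.head? = some i) with hp
  obtain ⟨c₁, c₂, hc, h1, h2⟩ := hM.filter p
  have hXf : X.filter p = X := by
    rw [List.filter_eq_self]
    intro s hs
    simp [hp, hXt s hs]
  have hXf' : (X.filter fun s => !p s) = [] := by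
    rw [List.filter_eq_nil_iff]
    intro s hs
    simp [hp, hXt s hs]
  rw [hXf] at h1
  rw [hXf'] at h2
  have hforeign : ((slice Y a a').filter fun s => !p s).length ≤ c₂ := by
    have := h2.length_le.2
    simpa using this
  -- a symbol with tag `i`
  have hne : (slice Y a a').filter p ≠ [] := by
    intro h0
    rw [h0] at h1
    have := h1.length_le.1
    simp only [List.length_nil, hX] at this
    omega
  obtain ⟨s, hs⟩ := List.exists_mem_of_ne_nil _ hne
  rw [List.mem_filter] at hs
  obtain ⟨q, hq, haq, hqa, hqs⟩ := exists_of_mem_slice hs.1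
  obtain ⟨hmK, hmem⟩ := getElem_mem_block G L K hL hG hq
  have hlo : q / L * L ≤ q := Nat.div_mul_le_self q L
  have hhi : q < (q / L + 1) * L := by
    rw [Nat.add_mul, one_mul]; exact Nat.lt_div_mul_add hL
  generalize q / L = m at hmK hmem hlo hhi
  have hmi : m % b = i := by
    have h3 := hGt m hmK _ hmem
    have h4 : s.head? = some i := by simpa [hp] using hs.2
    rw [← hqs] at h4
    rw [h3] at h4
    exact Option.some.inj h4
  -- foreign blocks
  have hfor : ∀ k < K, k % b ≠ i → a ≤ k * L → (k + 1) * L ≤ a' → False := by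
    intro k hk hki hak hka
    have h3 : G k <:+: slice Y a a' := by
      rw [← slice_block G L K hG hk]
      exact infix_slice Y hak (by nlinarith) hka
    have h4 : ((G k).filter fun s => !p s).length ≤ ((slice Y a a').filter fun s => !p s).length :=
      (h3.sublist.filter _).length_le
    have h5 : ((G k).filter fun s => !p s) = G k := by
      rw [List.filter_eq_self]
      intro s hs
      have := hGt k hk s hs
      simp only [hp, this]
      simpa using hki
    rw [h5, hG k hk] at h4
    omega
  refine ⟨m, hmK, hmi, ?_⟩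
  set lo := m * L with hlo'
  set hi := (m + 1) * L with hhi'
  have hhilo : hi = lo + L := by rw [hhi', hlo']; ring
  have hx1 : a ≤ max a lo := le_max_left _ _
  have hx2 : max a lo ≤ min a' hi := by
    rw [max_le_iff, le_min_iff, le_min_iff]
    omega
  have hx3 : min a' hi ≤ a' := min_le_left _ _
  have hdec : slice Y a a' = slice Y a (max a lo) ++ (slice Y (max a lo) (min a' hi) ++
      slice Y (min a' hi) a') := by
    rw [slice_append Y hx1 (hx2.trans hx3), slice_append Y hx2 hx3]
  have hf1 : (slice Y a (max a lo)).filter p = [] := by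
    rw [List.filter_eq_nil_iff]
    intro s' hs'
    obtain ⟨q', hq', haq', hqa', hqs'⟩ := exists_of_mem_slice hs'
    intro hps
    obtain ⟨hmK', hmem'⟩ := getElem_mem_block G L K hL hG hq'
    have hmi' : q' / L % b = i := by
      have h3 := hGt _ hmK' _ hmem'
      have h4 : s'.head? = some i := by simpa [hp] using hps
      rw [← hqs'] at h4
      rw [h3] at h4
      exact Option.some.inj h4
    have hlt : q' < lo := by
      rcases le_or_gt lo a with h | h
      · rw [max_eq_left h] at hqa'; omega
      · rw [max_eq_right h.le] at hqa'; exact hqa'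
    have hmm : q' / L < m := by
      rw [Nat.div_lt_iff_lt_mul hL]; exact hlt
    have hq'2 : q' < (q' / L + 1) * L := by
      rw [Nat.add_mul, one_mul]; exact Nat.lt_div_mul_add hL
    generalize q' / L = m' at hmK' hmem' hmi' hmm hq'2
    -- `m' + b ≤ m`
    have h5 : m' + b ≤ m := by
      have e1 := Nat.div_add_mod m b
      have e2 := Nat.div_add_mod m' b
      rw [hmi] at e1
      rw [hmi'] at e2
      have : m' / b < m / b := by
        by_contra hcon
        push Not at hcon
        have := Nat.mul_le_mul_left b hcon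
        omega
      have := Nat.mul_le_mul_left b (Nat.succ_le_of_lt this)
      rw [Nat.mul_succ] at this
      omega
    refine hfor (m - 1) (by omega) ?_ ?_ ?_
    · intro h6
      have e1 := Nat.div_add_mod m b
      have e2 := Nat.div_add_mod (m - 1) b
      rw [hmi] at e1
      rw [h6] at e2
      have h7 : b * (m / b) = b * ((m - 1) / b) + 1 := by omega
      have h8 : b ∣ 1 := by
        have h9 : b ∣ b * ((m - 1) / b) + 1 := by rw [← h7]; exact Dvd.intro _ rfl
        exact (Nat.dvd_add_right (Dvd.intro _ rfl)).mp h9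
      have := Nat.le_of_dvd one_pos h8
      omega
    · have : (m' + 1) * L ≤ (m - 1) * L := Nat.mul_le_mul_right L (by omega)
      omega
    · have : m - 1 + 1 = m := by omega
      rw [this]
      omega
  have hf3 : (slice Y (min a' hi) a').filter p = [] := by
    rw [List.filter_eq_nil_iff]
    intro s' hs'
    obtain ⟨q', hq', haq', hqa', hqs'⟩ := exists_of_mem_slice hs'
    intro hps
    obtain ⟨hmK', hmem'⟩ := getElem_mem_block G L K hL hG hq'
    have hmi' : q' / L % b = i := by
      have h3 := hGt _ hmK' _ hmem'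
      have h4 : s'.head? = some i := by simpa [hp] using hps
      rw [← hqs'] at h4
      rw [h3] at h4
      exact Option.some.inj h4
    have hlt : hi ≤ q' := by
      rcases le_or_gt a' hi with h | h
      · rw [min_eq_left h] at haq'; omega
      · rw [min_eq_right h.le] at haq'; exact haq'
    have hmm : m + 1 ≤ q' / L := by
      rw [Nat.le_div_iff_mul_le hL]; exact hlt
    have hq'2 : q' / L * L ≤ q' := Nat.div_mul_le_self q' L
    generalize q' / L = m' at hmK' hmem' hmi' hmm hq'2
    have h5 : m + b ≤ m' := by
      have e1 := Nat.div_add_mod m b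
      have e2 := Nat.div_add_mod m' b
      rw [hmi] at e1
      rw [hmi'] at e2
      have : m / b < m' / b := by
        by_contra hcon
        push Not at hcon
        have := Nat.mul_le_mul_left b hcon
        omega
      have := Nat.mul_le_mul_left b (Nat.succ_le_of_lt this)
      rw [Nat.mul_succ] at this
      omega
    refine hfor (m + 1) (by omega) ?_ ?_ ?_
    · intro h6
      have e1 := Nat.div_add_mod m b
      have e2 := Nat.div_add_mod (m + 1) b
      rw [hmi] at e1
      rw [h6] at e2
      have h7 : b * ((m + 1) / b) = b * (m / b) + 1 := by omega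
      have h8 : b ∣ 1 := by
        have h9 : b ∣ b * (m / b) + 1 := by rw [← h7]; exact Dvd.intro _ rfl
        exact (Nat.dvd_add_right (Dvd.intro _ rfl)).mp h9
      have := Nat.le_of_dvd one_pos h8
      omega
    · omega
    · have : (m + 1 + 1) * L ≤ m' * L := Nat.mul_le_mul_right L (by omega)
      omega
  have hinf : slice Y (max a lo) (min a' hi) <:+: G m := by
    rw [← slice_block G L K hG hmK]
    exact infix_slice Y (le_max_right _ _) hx2 (min_le_right _ _)
  have hf2 : (slice Y (max a lo) (min a' hi)).filter p = slice Y (max a lo) (min a' hi) := by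
    rw [List.filter_eq_self]
    intro s' hs'
    have h3 := hGt m hmK s' (hinf.subset hs')
    simp [hp, h3, hmi]
  have hfilt : (slice Y a a').filter p = slice Y (max a lo) (min a' hi) := by
    rw [hdec, List.filter_append, List.filter_append, hf1, hf2, hf3]
    simp
  rw [hfilt] at h1
  have hlen2 : (slice Y (max a lo) (min a' hi)).length = min a' hi - max a lo :=
    slice_length Y hx2 (by rw [hYlen]; exact hx3.trans ha')
  have hle := h1.length_le.1
  rw [hX, hlen2] at hle
  refine ⟨by omega, ?_⟩
  -- distance to the whole block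
  have hGm : G m = slice Y lo (max a lo) ++ slice Y (max a lo) (min a' hi) ++
      slice Y (min a' hi) hi := by
    rw [← slice_block G L K hG hmK, List.append_assoc,
      ← slice_append Y hx2 (min_le_right _ _),
      ← slice_append Y (le_max_right _ _) (hx2.trans (min_le_right _ _))]
  have hhiK : hi ≤ Y.length := by
    rw [hYlen]; exact Nat.mul_le_mul_right L hmK
  have hd : dm (slice Y (max a lo) (min a' hi)) (G m) ≤ c₁ := by
    have h6 : dm (slice Y (max a lo) (min a' hi)) (G m) ≤
        (slice Y lo (max a lo)).length + 0 + (slice Y (min a' hi) hi).length := by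
      apply dm_le
      rw [hGm]
      have := ((Mt.ins (slice Y lo (max a lo))).append
        (Mt.refl (slice Y (max a lo) (min a' hi)))).append (Mt.ins (slice Y (min a' hi) hi))
      simpa using this
    have h7 : (slice Y lo (max a lo)).length = max a lo - lo :=
      slice_length Y (le_max_right _ _) (hx2.trans ((min_le_right _ _).trans hhiK))
    have h8 : (slice Y (min a' hi) hi).length = hi - min a' hi :=
      slice_length Y (min_le_right _ _) hhiK
    rw [h7, h8] at h6
    have h9 : lo ≤ max a lo := le_max_right _ _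
    have h10 : min a' hi ≤ hi := min_le_right _ _
    omega
  calc dm X (G m) ≤ dm X (slice Y (max a lo) (min a' hi)) +
        dm (slice Y (max a lo) (min a' hi)) (G m) := dm_triangle _ _ _
    _ ≤ c₁ + c₁ := Nat.add_le_add (dm_le h1) hd
    _ ≤ 2 * e := by omega


/-- reindexing the blocks by a single index -/
theorem flatMap_two (n b : ℕ) (Yb : ℕ → ℕ → List (List ℕ)) (hb : 0 < b) :
    (List.range n).flatMap (fun t => (List.range b).flatMap (Yb t)) =
      (List.range (n * b)).flatMap (fun m => Yb (m / b) (m % b)) := by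
  induction n with
  | zero => simp
  | succ n ih =>
      rw [List.range_succ, List.flatMap_append, ih, Nat.succ_mul, List.range_add,
        List.flatMap_append]
      congr 1
      rw [List.flatMap_map]
      simp only [List.flatMap_cons, List.flatMap_nil, List.append_nil]
      apply List.flatMap_congr
      intro i hi
      rw [List.mem_range] at hi
      rw [Nat.mul_comm n b, Nat.mul_add_div hb, Nat.div_eq_of_lt hi, Nat.mul_add_mod,
        Nat.mod_eq_of_lt hi, Nat.add_zero]

theorem rowClaim : RowClaim := by
  classical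
  intro b n L δ X Yb P V S c hL hb hδ0 hδ2 hXlen hXt hYlen hYt hPVS hM hcard
  by_contra hcon
  push Not at hcon
  have hLr : (0 : ℝ) < L := by exact_mod_cast hL
  have hbr : (0 : ℝ) < b := by exact_mod_cast (by omega : 0 < b)
  set G : ℕ → List (List ℕ) := fun m => Yb (m / b) (m % b) with hG
  have hb0 : 0 < b := by omega
  rw [flatMap_two n b Yb hb0] at hPVS
  have hGlen : ∀ m < n * b, (G m).length = L := by
    intro m hm
    exact hYlen _ ((Nat.div_lt_iff_lt_mul hb0).mpr hm) _ (Nat.mod_lt _ hb0)
  have hGt : ∀ m < n * b, ∀ s ∈ G m, s.head? = some (m % b) := by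
    intro m hm
    exact hYt _ ((Nat.div_lt_iff_lt_mul hb0).mpr hm) _ (Nat.mod_lt _ hb0)
  obtain ⟨k, rfl⟩ : ∃ k, b = k + 1 := ⟨b - 1, by omega⟩
  obtain ⟨W, e, hVW, hce, hMe⟩ := Mt.split_range X k V c hM
  set Y := (List.range (n * (k + 1))).flatMap G with hY
  have hYl : Y.length = n * (k + 1) * L := length_flatMap_blocks G L _ hGlen
  -- positions
  set a : ℕ → ℕ := fun i => P.length + ((List.range i).flatMap W).length with ha
  have hasucc : ∀ i, a (i + 1) = a i + (W i).length := by
    intro i
    simp only [ha, List.range_succ, List.flatMap_append, List.length_append]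
    simp [Nat.add_assoc]
  have hamono : Monotone a := monotone_nat_of_le_succ fun i => by rw [hasucc]; omega
  have hslice : ∀ i < k + 1, slice Y (a i) (a (i + 1)) = W i := by
    intro i hi
    have h1 : Y = (P ++ (List.range i).flatMap W) ++ W i ++
        (((List.range (k + 1 - i - 1)).map (i + 1 + ·)).flatMap W ++ S) := by
      rw [← hPVS, hVW]
      conv_lhs => rw [range_split hi]
      simp
    rw [hasucc, h1]
    have h2 : a i = (P ++ (List.range i).flatMap W).length := by
      simp only [ha, List.length_append]
    rw [h2]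
    exact slice_of_append _ _ _
  have haK : ∀ i ≤ k + 1, a i ≤ n * (k + 1) * L := by
    intro i hi
    have h1 : a (k + 1) ≤ n * (k + 1) * L := by
      rw [← hYl, ← hPVS, hVW]
      simp only [ha, List.length_append]
      omega
    exact (hamono hi).trans h1
  -- cheap indices
  have hclaim : ∀ i < k + 1, e i < L → ∃ m < n * (k + 1), m % (k + 1) = i ∧
      L + max (a i) (m * L) ≤ min (a (i + 1)) ((m + 1) * L) + e i ∧
      dm (X i) (G m) ≤ 2 * e i := by
    intro i hi hei
    refine row_claim1 (k + 1) (n * (k + 1)) L hL hb G hGlen hGt (a i) (a (i + 1))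
      (hamono (Nat.le_succ i)) (haK _ (by omega)) i (X i) (hXlen i hi) (hXt i hi) (e i) hei ?_
    rw [← hY, hslice i hi]
    exact hMe i hi
  have hex : ∀ i : ℕ, ∃ m : ℕ, i < k + 1 → e i < L → m < n * (k + 1) ∧ m % (k + 1) = i ∧
      L + max (a i) (m * L) ≤ min (a (i + 1)) ((m + 1) * L) + e i ∧
      dm (X i) (G m) ≤ 2 * e i := by
    intro i
    by_cases h : i < k + 1 ∧ e i < L
    · obtain ⟨m, h1, h2, h3, h4⟩ := hclaim i h.1 h.2
      exact ⟨m, fun _ _ => ⟨h1, h2, h3, h4⟩⟩
    · exact ⟨0, fun h1 h2 => absurd ⟨h1, h2⟩ h⟩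
  choose μ hμ using hex
  set C := (Finset.range (k + 1)).filter fun i => (e i : ℝ) < δ * L / 2 with hC
  have hCL : ∀ i ∈ C, i < k + 1 ∧ e i < L ∧ (e i : ℝ) < δ * L / 2 := by
    intro i hi
    rw [hC, Finset.mem_filter, Finset.mem_range] at hi
    refine ⟨hi.1, ?_, hi.2⟩
    have : (e i : ℝ) < L := by
      refine hi.2.trans_le ?_
      nlinarith
    exact_mod_cast this
  -- more than half of the indices are cheap
  have hCcard : k + 1 < 2 * C.card := by
    have h1 : ∑ i ∈ (Finset.range (k + 1)).filter (fun i => ¬ (e i : ℝ) < δ * L / 2), (e i : ℝ) ≤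
        c := by
      rw [hce, Nat.cast_sum]
      exact Finset.sum_le_sum_of_subset_of_nonneg (Finset.filter_subset _ _)
        fun i _ _ => Nat.cast_nonneg _
    have h2 : (((Finset.range (k + 1)).filter (fun i => ¬ (e i : ℝ) < δ * L / 2)).card : ℝ) *
        (δ * L / 2) ≤ c := by
      refine le_trans ?_ h1
      rw [← nsmul_eq_mul]
      apply Finset.card_nsmul_le_sum
      intro i hi
      rw [Finset.mem_filter] at hi
      exact not_lt.mp hi.2
    have h3 : C.card + ((Finset.range (k + 1)).filter
        (fun i => ¬ (e i : ℝ) < δ * L / 2)).card = k + 1 := by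
      rw [hC, Finset.card_filter_add_card_filter_not, Finset.card_range]
    have h4 : (0 : ℝ) < δ := by
      rcases hδ0.lt_or_eq with h | h
      · exact h
      · exfalso
        rw [← h] at hcon
        have : (0 : ℝ) ≤ c := Nat.cast_nonneg _
        simp at hcon
        linarith
    set R := ((Finset.range (k + 1)).filter (fun i => ¬ (e i : ℝ) < δ * L / 2)).card with hR
    have h5 : (R : ℝ) * (δ * L / 2) < (k + 1 : ℕ) / 2 * (δ * L / 2) := by
      calc (R : ℝ) * (δ * L / 2) ≤ c := h2
        _ < δ * (k + 1 : ℕ) * L / 4 := hcon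
        _ = (k + 1 : ℕ) / 2 * (δ * L / 2) := by ring
    have h6 : (R : ℝ) < (k + 1 : ℕ) / 2 := lt_of_mul_lt_mul_right h5 (by positivity)
    have h7 : 2 * R < k + 1 := by
      have : (2 * R : ℝ) < (k + 1 : ℕ) := by linarith
      exact_mod_cast this
    omega
  obtain ⟨i₀, hi₀⟩ : C.Nonempty := by
    rw [← Finset.card_pos]; omega
  by_cases hall : ∀ i ∈ C, μ i / (k + 1) = μ i₀ / (k + 1)
  · -- all cheap blocks are matched in the same row
    have h1 := hμ i₀ (hCL i₀ hi₀).1 (hCL i₀ hi₀).2.1
    have ht : μ i₀ / (k + 1) < n := (Nat.div_lt_iff_lt_mul hb0).mpr h1.1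
    have h2 := hcard _ ht
    have h3 : (C : Set ℕ) ⊆ {i | i < k + 1 ∧
        (dm (X i) (Yb (μ i₀ / (k + 1)) i) : ℝ) < δ * L} := by
      intro i hi
      have hiC : i ∈ C := hi
      obtain ⟨h4, h5, h6⟩ := hCL i hiC
      obtain ⟨h7, h8, h9, h10⟩ := hμ i h4 h5
      refine ⟨h4, ?_⟩
      have h11 : G (μ i) = Yb (μ i₀ / (k + 1)) i := by
        simp only [hG]
        rw [hall i hiC, h8]
      rw [← h11]
      have h12 : (dm (X i) (G (μ i)) : ℝ) ≤ 2 * e i := by exact_mod_cast h10
      linarith
    have h4 : C.card ≤ {i | i < k + 1 ∧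
        (dm (X i) (Yb (μ i₀ / (k + 1)) i) : ℝ) < δ * L}.ncard := by
      rw [← Set.ncard_coe_finset]
      exact Set.ncard_le_ncard h3 ((Set.finite_Iio (k + 1)).subset fun i hi => hi.1)
    omega
  · push Not at hall
    obtain ⟨i₁, hi₁, hne⟩ := hall
    -- two cheap indices in different rows
    obtain ⟨x, y, hx, hy, hxy, hrow⟩ : ∃ x y, x ∈ C ∧ y ∈ C ∧ x < y ∧
        μ x / (k + 1) ≠ μ y / (k + 1) := by
      rcases lt_trichotomy i₁ i₀ with h | h | h
      · exact ⟨i₁, i₀, hi₁, hi₀, h, hne⟩
      · subst h; exact absurd rfl hne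
      · exact ⟨i₀, i₁, hi₀, hi₁, h, fun h' => hne h'.symm⟩
    obtain ⟨hx1, hx2, hx3⟩ := hCL x hx
    obtain ⟨hy1, hy2, hy3⟩ := hCL y hy
    obtain ⟨hx4, hx5, hx6, -⟩ := hμ x hx1 hx2
    obtain ⟨hy4, hy5, hy6, -⟩ := hμ y hy1 hy2
    have e1 := Nat.div_add_mod (μ x) (k + 1)
    have e2 := Nat.div_add_mod (μ y) (k + 1)
    rw [hx5] at e1
    rw [hy5] at e2
    generalize hX' : μ x / (k + 1) = tx at *
    generalize hY' : μ y / (k + 1) = ty at *
    generalize μ x = mx at *
    generalize μ y = my at *
    -- inequalities between positions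
    have g1 : L + a x ≤ (mx + 1) * L + e x := by
      have := le_max_left (a x) (mx * L)
      have := min_le_right (a (x + 1)) ((mx + 1) * L)
      omega
    have g2 : L + mx * L ≤ a (x + 1) + e x := by
      have := le_max_right (a x) (mx * L)
      have := min_le_left (a (x + 1)) ((mx + 1) * L)
      omega
    have g3 : L + a y ≤ (my + 1) * L + e y := by
      have := le_max_left (a y) (my * L)
      have := min_le_right (a (y + 1)) ((my + 1) * L)
      omega
    have g4 : L + my * L ≤ a (y + 1) + e y := by
      have := le_max_right (a y) (my * L)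
      have := min_le_left (a (y + 1)) ((my + 1) * L)
      omega
    have g5 : a (x + 1) ≤ a y := hamono hxy
    have g6 : mx * L < (my + 1) * L := by omega
    have g7 : mx ≤ my := by
      have := Nat.lt_of_mul_lt_mul_right g6
      omega
    have g8 : tx ≤ ty := by
      by_contra hcon'
      push Not at hcon'
      have : (k + 1) * (ty + 1) ≤ (k + 1) * tx := Nat.mul_le_mul_left _ hcon'
      rw [Nat.mul_succ] at this
      omega
    have g9 : tx + 1 ≤ ty := by omega
    have g10 : (k + 1) * (tx + 1) ≤ (k + 1) * ty := Nat.mul_le_mul_left _ g9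
    rw [Nat.mul_succ] at g10
    have g11 : mx + (k + 1) + (y - x) ≤ my := by omega
    have g12 : (mx + (k + 1) + (y - x)) * L ≤ my * L := Nat.mul_le_mul_right L g11
    have g13 : a (y + 1) + e y + e x ≥ a x + (k + 1) * L + (y - x) * L + L := by
      have h1 : (mx + (k + 1) + (y - x)) * L = mx * L + (k + 1) * L + (y - x) * L := by ring
      have h2 : (mx + 1) * L = mx * L + L := by ring
      omega
    -- growth of the positions
    have g14 : ∀ r, x + r ≤ k + 1 → a (x + r) ≤ a x + r * L + ∑ j ∈ Finset.Ico x (x + r), e j := by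
      intro r
      induction r with
      | zero => simp
      | succ r ih =>
          intro hr
          have h1 := ih (by omega)
          have h2 := (hMe (x + r) (by omega)).length_le.2
          rw [hXlen (x + r) (by omega)] at h2
          rw [← Nat.add_assoc, hasucc, Finset.sum_Ico_succ_top (by omega)]
          have h3 : (r + 1) * L = r * L + L := by ring
          omega
    have g15 := g14 (y + 1 - x) (by omega)
    have g16 : x + (y + 1 - x) = y + 1 := by omega
    rw [g16] at g15
    have g17 : (y + 1 - x) * L = (y - x) * L + L := by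
      have : y + 1 - x = (y - x) + 1 := by omega
      rw [this]; ring
    have g18 : ∑ j ∈ Finset.Ico x (y + 1), e j ≤ c := by
      rw [hce]
      apply Finset.sum_le_sum_of_subset
      intro j hj
      rw [Finset.mem_Ico] at hj
      rw [Finset.mem_range]
      omega
    have g19 : e x + e y ≤ c := by
      rw [hce]
      have h1 : e x + e y = ∑ j ∈ ({x, y} : Finset ℕ), e j := by
        rw [Finset.sum_pair hxy.ne]
      rw [h1]
      apply Finset.sum_le_sum_of_subset
      intro j hj
      rw [Finset.mem_insert, Finset.mem_singleton] at hj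
      rw [Finset.mem_range]
      omega
    have g20 : (k + 1) * L ≤ 2 * c := by omega
    have g21 : ((k + 1 : ℕ) : ℝ) * L ≤ 2 * c := by exact_mod_cast g20
    have g22 : 0 ≤ (2 - δ) * (((k + 1 : ℕ) : ℝ) * L) :=
      mul_nonneg (by linarith) (mul_pos hbr hLr).le
    have g23 : (2 - δ) * (((k + 1 : ℕ) : ℝ) * L) =
        2 * (((k + 1 : ℕ) : ℝ) * L) - δ * ((k + 1 : ℕ) : ℝ) * L := by ring
    rw [g23] at g22
    clear_value G Y a C
    clear hcard hXt hYt hGt hμ hclaim g14
    linarith

end Crest.Agent.ED
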