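import Crest.Agent.H2EDefs

/-!
# Rid 210 (S0323): specification of the modules

Paper proof: `team-sql "SELECT body FROM ed210_doc"`.
-/

set_option autoImplicit false

namespace Crest.Agent.ED

open Crest.GeometryTopology.EditDistance

/-! ## Gadgets -/

/-- A gadget of order `N`: a finite abelian group `A` with an element `u` of order dividing `N`,
words `E x` of length `L` over symbols (= lists of `l` naturals `< M`), moves `m j` with weights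
`ω j`. -/
structure IsGadget (N l M L : ℕ) (T δ : ℝ) (A ι : Type) [AddCommGroup A] [Fintype A] [Fintype ι]
    (u : A) (E : A → List (List ℕ)) (m : ι → A) (ω : ι → ℝ) : Prop where
  tors : N • u = 0
  len : ∀ x, (E x).length = L
  sym : ∀ x, ∀ a ∈ E x, a.length = l ∧ ∀ i ∈ a, i < M
  nonneg : ∀ j, 0 ≤ ω j
  cost : ∑ j, ω j * ∑ x, (dm (E x) (E (x + m j)) : ℝ) ≤ 2 * L * Fintype.card A
  spec : ∀ χ : AddChar A ℂ, χ u ≠ 1 → 2 * T ≤ ∑ j, ω j * ‖1 - χ (m j)‖ ^ 2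
  far : ∀ x, ∀ s : ℤ, ¬ (N : ℤ) ∣ s → δ * L ≤ dm (E x) (E (x + s • u))

def HasGadget (N l M L : ℕ) (T δ : ℝ) : Prop :=
  ∃ (A ι : Type) (_ : AddCommGroup A) (_ : Fintype A) (_ : Fintype ι) (u : A)
    (E : A → List (List ℕ)) (m : ι → A) (ω : ι → ℝ), IsGadget N l M L T δ A ι u E m ω

/-! ## The base gadget: `A = ZMod N`, `E x = [[x.val]]`, moves = all elements, weight `1/N` -/

/-- module BASE -/
def Base : Prop := ∀ N M : ℕ, 0 < N → N ≤ M → HasGadget N 1 M 1 1 2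

/-! ## Composition -/

section Comp

variable {b : ℕ} {A ι : Fin b → Type} [∀ i, AddCommGroup (A i)]

/-- row `t` of the composed word -/
def rowW (u : ∀ i, A i) (E : ∀ i, A i → List (List ℕ)) (x : ∀ i, A i) (t : ℕ) :
    List (List ℕ) :=
  (List.finRange b).flatMap fun i => (E i (x i + t • u i)).map (List.cons (i : ℕ))

/-- the composed word -/
def compE (n : ℕ) (u : ∀ i, A i) (E : ∀ i, A i → List (List ℕ)) (x : ∀ i, A i) :
    List (List ℕ) :=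
  (List.range n).flatMap (rowW u E x)

/-- the composed moves -/
def compM (u : ∀ i, A i) (m : ∀ i, ι i → A i) : ((Σ i, ι i) ⊕ Unit) → (∀ i, A i) :=
  Sum.elim (fun p => Pi.single p.1 (m p.1 p.2)) (fun _ => u)

/-- the composed weights -/
noncomputable def compω (n : ℕ) (ω : ∀ i, ι i → ℝ) : ((Σ i, ι i) ⊕ Unit) → ℝ :=
  Sum.elim (fun p => ω p.1 p.2 / 2) (fun _ => (n : ℝ) / 2)

end Comp

/-- module COSTA: single-coordinate moves -/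
def CostSingle : Prop :=
  ∀ (b n : ℕ) (A : Fin b → Type) [∀ i, AddCommGroup (A i)] [∀ i, Fintype (A i)]
    (u : ∀ i, A i) (E : ∀ i, A i → List (List ℕ)) (i : Fin b) (a : A i),
    (∑ x : (∀ i, A i), dm (compE n u E x) (compE n u E (x + Pi.single i a))) *
        Fintype.card (A i) ≤
      n * Fintype.card (∀ i, A i) * ∑ y : A i, dm (E i y) (E i (y + a))

/-- module COSTB: the global shift -/
def CostShift : Prop :=
  ∀ (b n L : ℕ) (A : Fin b → Type) [∀ i, AddCommGroup (A i)]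
    (u : ∀ i, A i) (E : ∀ i, A i → List (List ℕ)),
    (∀ i x, (E i x).length = L) → ∀ x : (∀ i, A i),
    dm (compE n u E x) (compE n u E (x + u)) ≤ 2 * b * L

/-- module COSTC (from COSTA and COSTB) -/
def CompCost : Prop :=
  ∀ (b n L : ℕ) (A ι : Fin b → Type) [∀ i, AddCommGroup (A i)] [∀ i, Fintype (A i)]
    [∀ i, Fintype (ι i)]
    (u : ∀ i, A i) (E : ∀ i, A i → List (List ℕ)) (m : ∀ i, ι i → A i) (ω : ∀ i, ι i → ℝ),
    (∀ i x, (E i x).length = L) → (∀ i j, 0 ≤ ω i j) →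
    (∀ i, ∑ j, ω i j * ∑ x, (dm (E i x) (E i (x + m i j)) : ℝ) ≤ 2 * L * Fintype.card (A i)) →
    ∑ j, compω n ω j *
        ∑ x : (∀ i, A i), (dm (compE n u E x) (compE n u E (x + compM u m j)) : ℝ) ≤
      2 * ((n * b * L : ℕ) : ℝ) * Fintype.card (∀ i, A i)

/-- module CHARKEY: the arithmetic heart of the spectral inequality -/
def CharKey : Prop :=
  ∀ (b N Q Dn : ℕ) (q c : Fin b → ℕ) (z : Fin b → ℂ), 0 < N →
    (∀ i, 2 ≤ q i ∧ q i ≤ Q) → (∀ i, Nat.Coprime N (q i)) →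
    (∀ i j, i ≠ j → Nat.Coprime (q i) (q j)) →
    (∀ i, c i ≡ 1 [MOD N] ∧ q i ∣ c i) →
    (∀ i, z i ^ (N * q i) = 1) →
    {i | z i ≠ 1}.ncard ≤ Dn →
    ∏ i, z i ^ c i ≠ 1 →
    2 ≤ ((N * Q ^ Dn : ℕ) : ℝ) ^ 2 * ‖1 - ∏ i, z i‖ ^ 2

/-- module CHARCOMP (from CHARKEY) -/
def CompSpec : Prop :=
  ∀ (b n N Q Dn : ℕ) (T : ℝ) (q c : Fin b → ℕ) (A ι : Fin b → Type) [∀ i, AddCommGroup (A i)]
    [∀ i, Fintype (A i)] [∀ i, Fintype (ι i)]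
    (u : ∀ i, A i) (m : ∀ i, ι i → A i) (ω : ∀ i, ι i → ℝ), 0 < N → 0 < T →
    (∀ i, 2 ≤ q i ∧ q i ≤ Q) → (∀ i, Nat.Coprime N (q i)) →
    (∀ i j, i ≠ j → Nat.Coprime (q i) (q j)) →
    (∀ i, c i ≡ 1 [MOD N] ∧ q i ∣ c i) →
    (∀ i, (N * q i) • u i = 0) → (∀ i j, 0 ≤ ω i j) →
    (∀ i, ∀ χ : AddChar (A i) ℂ, χ (u i) ≠ 1 → 2 * T ≤ ∑ j, ω i j * ‖1 - χ (m i j)‖ ^ 2) →
    ((N * Q ^ Dn : ℕ) : ℝ) ^ 2 * (Dn * T) ≤ n →
    ∀ χ : AddChar (∀ i, A i) ℂ, χ (fun i => c i • u i) ≠ 1 →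
      2 * (Dn * T / 2) ≤ ∑ j, compω n ω j * ‖1 - χ (compM u m j)‖ ^ 2

/-- module ROW: abstract row claim.  Blocks `Yb t i` (`t < n`, `i < b`), each of length `L` and
all of whose symbols have head `i`; a row `X 0 ++ ... ++ X (b-1)` of such blocks; `V` an infix of
the concatenation of all the `Yb t i`. -/
def RowClaim : Prop :=
  ∀ (b n L : ℕ) (δ : ℝ) (X : ℕ → List (List ℕ)) (Yb : ℕ → ℕ → List (List ℕ))
    (P V S : List (List ℕ)) (c : ℕ),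
    0 < L → 2 ≤ b → 0 ≤ δ → δ ≤ 2 →
    (∀ i < b, (X i).length = L) → (∀ i < b, ∀ a ∈ X i, a.head? = some i) →
    (∀ t < n, ∀ i < b, (Yb t i).length = L) →
    (∀ t < n, ∀ i < b, ∀ a ∈ Yb t i, a.head? = some i) →
    P ++ V ++ S = (List.range n).flatMap (fun t => (List.range b).flatMap (Yb t)) →
    Mt ((List.range b).flatMap X) V c →
    (∀ t < n, 2 * {i | i < b ∧ (dm (X i) (Yb t i) : ℝ) < δ * L}.ncard ≤ b) →
    δ * b * L / 4 ≤ c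

/-- module FAR (from ROW) -/
def CompFar : Prop :=
  ∀ (b n N L : ℕ) (δ : ℝ) (q c : Fin b → ℕ) (A : Fin b → Type) [∀ i, AddCommGroup (A i)]
    (u : ∀ i, A i) (E : ∀ i, A i → List (List ℕ)),
    0 < L → 2 ≤ b → 0 ≤ δ → δ ≤ 2 → 0 < N → n ^ 2 ≤ 2 ^ b →
    (∀ i, 2 ≤ q i) → (∀ i, Nat.Coprime N (q i)) →
    (∀ i j, i ≠ j → Nat.Coprime (q i) (q j)) →
    (∀ i, c i ≡ 1 [MOD N] ∧ q i ∣ c i) →
    (∀ i x, (E i x).length = L) →
    (∀ i x, ∀ s : ℤ, ¬ ((N * q i : ℕ) : ℤ) ∣ s → δ * L ≤ dm (E i x) (E i (x + s • u i))) →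
    ∀ (x : ∀ i, A i) (s : ℤ), ¬ (N : ℤ) ∣ s →
      δ / 4 * ((n * b * L : ℕ) : ℝ) ≤
        dm (compE n u E x) (compE n u E (x + s • (fun i => c i • u i : ∀ i, A i)))

/-- module COMPOSE (from COSTC, CHARCOMP, FAR) -/
def Compose : Prop :=
  ∀ (b n N l M L Q Dn : ℕ) (T δ : ℝ) (q : Fin b → ℕ),
    0 < L → 2 ≤ b → 0 ≤ δ → δ ≤ 2 → 0 < N → 0 < T → b ≤ M → n ^ 2 ≤ 2 ^ b →
    (∀ i, 2 ≤ q i ∧ q i ≤ Q) → (∀ i, Nat.Coprime N (q i)) →
    (∀ i j, i ≠ j → Nat.Coprime (q i) (q j)) →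
    ((N * Q ^ Dn : ℕ) : ℝ) ^ 2 * (Dn * T) ≤ n →
    (∀ i, HasGadget (N * q i) l M L T δ) →
    HasGadget N (l + 1) M (n * b * L) (Dn * T / 2) (δ / 4)

/-- module ITER (from BASE, COMPOSE) -/
def Iter : Prop :=
  ∀ (k b n h Q : ℕ) (p : ℕ → ℕ → ℕ), 1 ≤ k → 2 ≤ b →
    (∀ l < k, ∀ i < b, (p l i).Prime ∧ p l i ≠ 2 ∧ p l i ≤ Q) →
    (∀ l < k, ∀ i < b, ∀ l' < k, ∀ i' < b, p l i = p l' i' → l = l' ∧ i = i') →
    b ≤ 2 ^ h → 2 * Q ^ k ≤ 2 ^ h → n ^ 2 ≤ 2 ^ b → 4 * Q ^ (4 * k) * k * k ^ k ≤ n →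
    HasGadget 2 (k + 1) (2 ^ h) ((n * b) ^ k) (((k : ℝ) / 2) ^ k) (2 / 4 ^ k)

/-! ## Poincaré inequality in `ℓ¹` -/

/-- module SPECTRAL -/
def SpectralId : Prop :=
  ∀ (A : Type) [AddCommGroup A] [Fintype A] (f : A → ℝ),
    ∃ w : AddChar A ℂ → ℝ, (∀ χ, 0 ≤ w χ) ∧
      ∀ v : A, ∑ x, (f x - f (x + v)) ^ 2 = ∑ χ, w χ * ‖1 - χ v‖ ^ 2

/-- module CUT: a linear inequality between distances that holds for `{0,1}`-valued maps holds for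
`ℓ¹`-valued maps -/
def CutL1 : Prop :=
  ∀ (A P : Type) [Fintype A] [Fintype P] (e₁ e₂ : P → A) (a : P → ℝ),
    (∀ f : A → ℝ, (∀ x, f x = 0 ∨ f x = 1) → 0 ≤ ∑ p, a p * |f (e₁ p) - f (e₂ p)|) →
    ∀ F : A → lp (fun _ : ℕ => ℝ) 1, 0 ≤ ∑ p, a p * ‖F (e₁ p) - F (e₂ p)‖

/-- module POINCARE (from SPECTRAL, CUT) -/
def Poincare : Prop :=
  ∀ (T : ℝ) (A ι : Type) [AddCommGroup A] [Fintype A] [Fintype ι] (u : A) (m : ι → A)
    (ω : ι → ℝ), 2 • u = 0 → (∀ j, 0 ≤ ω j) →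
    (∀ χ : AddChar A ℂ, χ u ≠ 1 → 2 * T ≤ ∑ j, ω j * ‖1 - χ (m j)‖ ^ 2) →
    ∀ F : A → lp (fun _ : ℕ => ℝ) 1,
      T * ∑ x, ‖F x - F (x + u)‖ ≤ 2 * ∑ j, ω j * ∑ x, ‖F x - F (x + m j)‖

/-! ## Binary encoding -/

/-- each bit `d` is written as `d0` -/
def bits (x : List Bool) : List Bool := x.flatMap fun d => [d, false]

/-- the `h` low bits of `m` -/
def natBits (h m : ℕ) : List Bool := (List.range h).map fun i => m.testBit i

/-- block of a symbol -/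
def blk (h : ℕ) (a : List ℕ) : List Bool :=
  [true, true, true, false] ++ bits (a.flatMap (natBits h))

/-- binary encoding of words over symbols -/
def enc (h : ℕ) (u : List (List ℕ)) : List Bool := u.flatMap (blk h)

/-- words whose symbols have length `l` and entries `< 2 ^ h` -/
def Valid (l h : ℕ) (u : List (List ℕ)) : Prop := ∀ a ∈ u, a.length = l ∧ ∀ i ∈ a, i < 2 ^ h

/-- module EDL: edit distance versus indel distance -/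
def EdLink : Prop :=
  (∀ (u v : List Bool) (c : ℕ), Mt u v c → editDist u v ≤ c) ∧
  (∀ u v : List Bool, dm u v ≤ 2 * editDist u v)

/-- module BIN (from EDL) -/
def Bin : Prop :=
  (∀ (l h : ℕ) (u : List (List ℕ)), Valid l h u → (enc h u).length = (4 + 2 * l * h) * u.length) ∧
  (∀ (l h : ℕ) (u v : List (List ℕ)), Valid l h u → Valid l h v →
    editDist (enc h u) (enc h v) ≤ (4 + 2 * l * h) * dm u v) ∧
  (∀ (l h : ℕ) (u v : List (List ℕ)), Valid l h u → Valid l h v → u.length = v.length →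
    dm u v ≤ 4 * editDist (enc h u) (enc h v))

/-! ## The lower bound -/

/-- `f` embeds the words of length `n` with scale `s` and distortion `D` -/
def Emb (n : ℕ) (f : List Bool → lp (fun _ : ℕ => ℝ) 1) (s D : ℝ) : Prop :=
  ∀ x y : List Bool, x.length = n → y.length = n → x ≠ y →
    s * (editDist x y : ℝ) ≤ ‖f x - f y‖ ∧ ‖f x - f y‖ ≤ D * s * (editDist x y : ℝ)

/-- module LOWER (from POINCARE, BIN) -/
def Lower : Prop :=
  ∀ (l h L : ℕ) (T δ : ℝ), 0 < T → 0 < δ → 0 < L → HasGadget 2 l (2 ^ h) L T δ →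
    ∀ (f : List Bool → lp (fun _ : ℕ => ℝ) 1) (s D : ℝ), 0 < s →
      Emb ((4 + 2 * l * h) * L) f s D → T * δ / (16 * (4 + 2 * l * h)) ≤ D

/-- module PRIMES -/
def Primes : Prop :=
  ∀ j : ℕ, 15 ≤ j → ∃ p : ℕ → ℕ → ℕ,
    (∀ l < 2 ^ j, ∀ i < 28 * j * 2 ^ j, (p l i).Prime ∧ p l i ≠ 2 ∧ p l i ≤ 2 ^ (3 * j)) ∧
    (∀ l < 2 ^ j, ∀ i < 28 * j * 2 ^ j, ∀ l' < 2 ^ j, ∀ i' < 28 * j * 2 ^ j,
      p l i = p l' i' → l = l' ∧ i = i')

/-- module LEVEL (from ITER, LOWER, PRIMES) -/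
def Level : Prop :=
  ∀ j : ℕ, 15 ≤ j → ∃ n : ℕ, n ≤ 2 ^ (15 * j * 4 ^ j) ∧
    ∀ (f : List Bool → lp (fun _ : ℕ => ℝ) 1) (s D : ℝ), 0 < s → Emb n f s D →
      (2 : ℝ) ^ (j * 2 ^ (j - 1)) ≤ D

/-- module ASYM (from LEVEL): the final statement -/
def Final : Prop :=
  ∃ c : ℝ, 0 < c ∧ ∃ d₀ : ℕ, ∀ d : ℕ, d₀ ≤ d → ∃ n : ℕ, n ≤ d ∧
    ∀ (f : List Bool → lp (fun _ : ℕ => ℝ) 1) (s D : ℝ), 0 < s → Emb n f s D →
      Real.exp (c * Real.sqrt (Real.log d * Real.log (Real.log d))) ≤ D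

end Crest.Agent.ED
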