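import Crest.Agent.H2ESpec

/-! # Rid 210, module SPECTRAL -/

set_option autoImplicit false

namespace Crest.Agent.ED

open Complex in
theorem spectral_parseval {A : Type} [AddCommGroup A] [Fintype A] (g : A → ℝ) :
    ∑ χ : AddChar A ℂ, ‖∑ x, (g x : ℂ) * χ x‖ ^ 2 = Fintype.card A * ∑ x, g x ^ 2 := by
  classical
  have h : (∑ χ : AddChar A ℂ, ((‖∑ x, (g x : ℂ) * χ x‖ ^ 2 : ℝ) : ℂ)) =
      ((Fintype.card A * ∑ x, g x ^ 2 : ℝ) : ℂ) := by
    have h1 : ∀ χ : AddChar A ℂ, ((‖∑ x, (g x : ℂ) * χ x‖ ^ 2 : ℝ) : ℂ) =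
        ∑ x, ∑ y, (g x : ℂ) * g y * χ (x - y) := by
      intro χ
      rw [← Complex.normSq_eq_norm_sq, ← Complex.mul_conj, map_sum, Finset.sum_mul_sum]
      apply Finset.sum_congr rfl
      intro x _
      apply Finset.sum_congr rfl
      intro y _
      rw [map_mul, Complex.conj_ofReal, sub_eq_add_neg, AddChar.map_add_eq_mul,
        AddChar.map_neg_eq_conj]
      ring
    simp_rw [h1]
    rw [Finset.sum_comm]
    have h2 : ∀ x : A, ∑ χ : AddChar A ℂ, ∑ y, (g x : ℂ) * g y * χ (x - y) =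
        Fintype.card A * (g x : ℂ) ^ 2 := by
      intro x
      rw [Finset.sum_comm]
      have h3 : ∀ y : A, ∑ χ : AddChar A ℂ, (g x : ℂ) * g y * χ (x - y) =
          if y = x then Fintype.card A * (g x : ℂ) ^ 2 else 0 := by
        intro y
        rw [← Finset.mul_sum, AddChar.sum_apply_eq_ite]
        by_cases hxy : y = x
        · subst hxy
          simp
          ring
        · rw [if_neg (by rw [sub_eq_zero]; exact fun h => hxy h.symm), if_neg hxy, mul_zero]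
      simp_rw [h3]
      simp
    simp_rw [h2]
    push_cast
    rw [← Finset.mul_sum]
  rw [← Complex.ofReal_sum] at h
  exact_mod_cast h

theorem spectralId : SpectralId := by
  intro A _ _ f
  have hA : (0 : ℝ) < Fintype.card A := by exact_mod_cast Fintype.card_pos_iff.mpr ⟨0⟩
  refine ⟨fun χ => ‖∑ x, (f x : ℂ) * χ x‖ ^ 2 / Fintype.card A, fun χ => by positivity, ?_⟩
  intro v
  have h1 := spectral_parseval (fun x => f x - f (x + v))
  have h2 : ∀ χ : AddChar A ℂ, ‖∑ x, ((f x - f (x + v) : ℝ) : ℂ) * χ x‖ ^ 2 =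
      ‖∑ x, (f x : ℂ) * χ x‖ ^ 2 * ‖1 - χ v‖ ^ 2 := by
    intro χ
    have h3 : ∑ x, ((f (x + v) : ℝ) : ℂ) * χ x = (∑ x, (f x : ℂ) * χ x) * χ (-v) := by
      rw [← Equiv.sum_comp (Equiv.addRight v) (fun x => (f x : ℂ) * χ x), Finset.sum_mul]
      apply Finset.sum_congr rfl
      intro x _
      simp only [Equiv.coe_addRight]
      rw [mul_assoc, ← AddChar.map_add_eq_mul, add_neg_cancel_right]
    have h4 : ∑ x, ((f x - f (x + v) : ℝ) : ℂ) * χ x =
        (∑ x, (f x : ℂ) * χ x) * (1 - χ (-v)) := by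
      rw [mul_sub, mul_one, ← h3, ← Finset.sum_sub_distrib]
      apply Finset.sum_congr rfl
      intro x _
      push_cast
      ring
    have h5 : ‖1 - χ (-v)‖ = ‖1 - χ v‖ := by
      rw [AddChar.map_neg_eq_conj, ← Complex.norm_conj]
      simp
    rw [h4, norm_mul, mul_pow, h5]
  simp_rw [h2] at h1
  have h6 : ∑ χ : AddChar A ℂ, ‖∑ x, (f x : ℂ) * χ x‖ ^ 2 / Fintype.card A * ‖1 - χ v‖ ^ 2 =
      (∑ χ : AddChar A ℂ, ‖∑ x, (f x : ℂ) * χ x‖ ^ 2 * ‖1 - χ v‖ ^ 2) / Fintype.card A := by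
    rw [Finset.sum_div]
    apply Finset.sum_congr rfl
    intro χ _
    ring
  rw [h6, h1]
  field_simp

end Crest.Agent.ED
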