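import Mathlib

set_option autoImplicit false

namespace Crest.Agent.H2Egypt

open Finset

/-- subset product -/
def U {ι : Type*} (r : ι → ℕ) (I : Finset ι) : ℕ := ∏ i ∈ I, r i

/-- number of pairs of subsets of `S` whose products agree modulo `q`. -/
def coll {ι : Type*} (q : ℕ) (r : ι → ℕ) (S : Finset ι) : ℕ :=
  ((S.powerset ×ˢ S.powerset).filter (fun p => U r p.1 ≡ U r p.2 [MOD q])).card

section fourier

variable {a : ℕ} [NeZero a] {n : ℕ}

/-- the exponential sum -/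
noncomputable def SS (r : Fin n → ℕ) (h : ZMod a) : ℂ :=
  ∑ I : Finset (Fin n), ∑ J : Finset (Fin n),
    ZMod.stdAddChar (h * ((U r I : ℕ) : ZMod a) * ((U r J : ℕ) : ZMod a))

lemma mul_cast_eq_iff (h : ZMod a) (x y : ℕ) :
    h * (x : ZMod a) = h * (y : ZMod a) ↔ x ≡ y [MOD addOrderOf h] := by
  have h1 : ∀ x : ℕ, h * (x : ZMod a) = x • h := fun x => by
    rw [nsmul_eq_mul, mul_comm]
  rw [h1, h1]
  exact nsmul_eq_nsmul_iff_modEq

/-- sum of the character over multiples of `h` -/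
lemma sum_zmultiples (h z : ZMod a) :
    ∑ y : AddSubgroup.zmultiples h, ZMod.stdAddChar ((y : ZMod a) * z)
      = if h * z = 0 then ((addOrderOf h : ℕ) : ℂ) else 0 := by
  classical
  let ψ : AddChar (AddSubgroup.zmultiples h) ℂ :=
    (AddChar.mulShift (ZMod.stdAddChar (N := a)) z).compAddMonoidHom
      (AddSubgroup.zmultiples h).subtype
  have hψ : ∀ y : AddSubgroup.zmultiples h, ψ y = ZMod.stdAddChar ((y : ZMod a) * z) := by
    intro y
    simp [ψ, AddChar.mulShift_apply, mul_comm]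
  have h0 : ψ = 0 ↔ h * z = 0 := by
    constructor
    · intro hh
      have h1 := hψ ⟨h, AddSubgroup.mem_zmultiples h⟩
      rw [hh] at h1
      have h2 : ZMod.stdAddChar (h * z) = ZMod.stdAddChar (0 : ZMod a) := by
        rw [AddChar.map_zero_eq_one]
        exact h1.symm
      exact ZMod.injective_stdAddChar h2
    · intro hh
      ext y
      rw [hψ]
      obtain ⟨y, hy⟩ := y
      rw [AddSubgroup.mem_zmultiples_iff] at hy
      obtain ⟨k, rfl⟩ := hy
      have : (k • h : ZMod a) * z = 0 := by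
        rw [smul_mul_assoc, hh, smul_zero]
      change ZMod.stdAddChar ((k • h : ZMod a) * z) = _
      rw [this]
      simp
  have h2 := AddChar.sum_eq_ite ψ
  simp only [hψ] at h2
  rw [h2]
  have h3 : Fintype.card (AddSubgroup.zmultiples h) = addOrderOf h := by
    rw [← Nat.card_eq_fintype_card, Nat.card_zmultiples]
  by_cases h4 : h * z = 0
  · rw [if_pos h4, if_pos (h0.2 h4), h3]
  · rw [if_neg h4, if_neg (fun h5 => h4 (h0.1 h5))]

/-- Weyl / Cauchy-Schwarz bound. -/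
lemma norm_SS_sq_le (r : Fin n → ℕ) (h : ZMod a) :
    ‖SS r h‖ ^ 2 ≤ (addOrderOf h : ℝ) * (coll (addOrderOf h) r univ : ℝ) ^ 2 := by
  classical
  set q := addOrderOf h with hq
  let M := AddSubgroup.zmultiples h
  let φ : Finset (Fin n) → M := fun I => ⟨h * ((U r I : ℕ) : ZMod a), by
    rw [mul_comm, ← nsmul_eq_mul]
    exact AddSubgroup.nsmul_mem _ (AddSubgroup.mem_zmultiples h) _⟩
  let f : M → ℂ := fun y => ∑ J : Finset (Fin n), ZMod.stdAddChar ((y : ZMod a) * ((U r J : ℕ) : ZMod a))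
  let ν : M → ℕ := fun y => (univ.filter (fun I => φ I = y)).card
  have hC : (univ.powerset ×ˢ univ.powerset : Finset (Finset (Fin n) × Finset (Fin n))) = univ := by
    ext p; simp
  -- rewriting of the sum
  have h1 : SS r h = ∑ y : M, (ν y : ℂ) * f y := by
    have : SS r h = ∑ I : Finset (Fin n), f (φ I) := rfl
    rw [this, ← Finset.sum_fiberwise univ φ (fun I => f (φ I))]
    refine Finset.sum_congr rfl fun y _ => ?_
    rw [Finset.sum_congr rfl (g := fun _ => f y)]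
    · simp [ν]
    · intro I hI
      rw [(Finset.mem_filter.1 hI).2]
  -- sum of squares of ν
  have h2 : ∑ y : M, ((ν y : ℝ)) ^ 2 = (coll q r univ : ℝ) := by
    have h3 : coll q r univ = (univ.filter (fun p : Finset (Fin n) × Finset (Fin n) => φ p.1 = φ p.2)).card := by
      unfold coll
      rw [hC]
      congr 1
      ext p
      simp only [Finset.mem_filter, Finset.mem_univ, true_and]
      rw [Subtype.ext_iff]
      exact (mul_cast_eq_iff h _ _).symm
    rw [h3, Finset.card_eq_sum_card_fiberwise (f := fun p : Finset (Fin n) × Finset (Fin n) => φ p.1)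
      (t := (univ : Finset M)) (by intro x _; simp)]
    push_cast
    refine Finset.sum_congr rfl fun y _ => ?_
    have : (univ.filter (fun p : Finset (Fin n) × Finset (Fin n) => φ p.1 = φ p.2)).filter
        (fun p => φ p.1 = y) = (univ.filter (fun I => φ I = y)) ×ˢ (univ.filter (fun I => φ I = y)) := by
      ext p
      simp only [Finset.mem_filter, Finset.mem_univ, true_and, Finset.mem_product]
      constructor
      · rintro ⟨h1, h2⟩
        exact ⟨h2, h1 ▸ h2⟩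
      · rintro ⟨h1, h2⟩
        exact ⟨h1.trans h2.symm, h1⟩
    rw [this, Finset.card_product]
    push_cast
    ring
  -- sum of squares of f
  have h4 : ∑ y : M, ‖f y‖ ^ 2 = (q : ℝ) * (coll q r univ : ℝ) := by
    have h5 : ((∑ y : M, ‖f y‖ ^ 2 : ℝ) : ℂ) = (q : ℂ) * (coll q r univ : ℂ) := by
      push_cast
      have h6 : ∀ y : M, ((‖f y‖ : ℂ)) ^ 2 = ∑ J : Finset (Fin n), ∑ J' : Finset (Fin n),
          ZMod.stdAddChar ((y : ZMod a) * (((U r J : ℕ) : ZMod a) - ((U r J' : ℕ) : ZMod a))) := by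
        intro y
        rw [← Complex.mul_conj']
        simp only [f, map_sum]
        rw [Finset.sum_mul_sum]
        refine Finset.sum_congr rfl fun J _ => Finset.sum_congr rfl fun J' _ => ?_
        rw [← AddChar.map_neg_eq_conj, ← AddChar.map_add_eq_mul]
        congr 1
        ring
      simp only [h6]
      rw [Finset.sum_comm]
      have h8 : ∀ J : Finset (Fin n), ∑ y : M, ∑ J' : Finset (Fin n),
          ZMod.stdAddChar ((y : ZMod a) * (((U r J : ℕ) : ZMod a) - ((U r J' : ℕ) : ZMod a)))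
          = ∑ J' : Finset (Fin n), if h * (((U r J : ℕ) : ZMod a) - ((U r J' : ℕ) : ZMod a)) = 0
            then ((addOrderOf h : ℕ) : ℂ) else 0 := by
        intro J
        rw [Finset.sum_comm]
        refine Finset.sum_congr rfl fun J' _ => ?_
        exact sum_zmultiples h _
      simp only [h8]
      rw [← Finset.sum_product' (univ : Finset (Finset (Fin n))) (univ : Finset (Finset (Fin n)))
        (fun J J' => if h * (((U r J : ℕ) : ZMod a) - ((U r J' : ℕ) : ZMod a)) = 0 then ((addOrderOf h : ℕ) : ℂ) else 0)]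
      rw [Finset.sum_ite, Finset.sum_const_zero, add_zero, Finset.sum_const, nsmul_eq_mul, mul_comm]
      congr 2
      unfold coll
      rw [hC]
      congr 1
      ext p
      simp only [Finset.mem_filter, Finset.mem_univ, true_and, Finset.mem_product]
      rw [mul_sub, sub_eq_zero]
      exact mul_cast_eq_iff h _ _
    exact_mod_cast h5
  have h7 : ‖SS r h‖ ≤ ∑ y : M, (ν y : ℝ) * ‖f y‖ := by
    rw [h1]
    refine (norm_sum_le _ _).trans (le_of_eq ?_)
    refine Finset.sum_congr rfl fun y _ => ?_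
    rw [norm_mul, Complex.norm_natCast]
  calc ‖SS r h‖ ^ 2 ≤ (∑ y : M, (ν y : ℝ) * ‖f y‖) ^ 2 := by
        gcongr
    _ ≤ (∑ y : M, (ν y : ℝ) ^ 2) * ∑ y : M, ‖f y‖ ^ 2 := Finset.sum_mul_sq_le_sq_mul_sq _ _ _
    _ = _ := by rw [h2, h4]; ring

lemma SS_eq_pairs (r : Fin n → ℕ) (h : ZMod a) :
    SS r h = ∑ p : Finset (Fin n) × Finset (Fin n),
      ZMod.stdAddChar (h * ((U r p.1 * U r p.2 : ℕ) : ZMod a)) := by
  unfold SS
  rw [Fintype.sum_prod_type]
  refine Finset.sum_congr rfl fun I _ => Finset.sum_congr rfl fun J _ => ?_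
  push_cast
  rw [mul_assoc]

lemma addChar_sum {κ : Type*} (s : Finset κ) (f : κ → ZMod a) :
    (ZMod.stdAddChar (∑ j ∈ s, f j) : ℂ) = ∏ j ∈ s, ZMod.stdAddChar (f j) := by
  classical
  induction s using Finset.induction_on with
  | empty => simp
  | insert i s hi ih =>
    rw [Finset.sum_insert hi, Finset.prod_insert hi, AddChar.map_add_eq_mul, ih]

lemma SS_pow (r : Fin n → ℕ) (h : ZMod a) :
    (SS r h) ^ 16 = ∑ t : Fin 16 → Finset (Fin n) × Finset (Fin n),
      ZMod.stdAddChar (h * ∑ j, ((U r (t j).1 * U r (t j).2 : ℕ) : ZMod a)) := by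
  rw [SS_eq_pairs, Fintype.sum_pow]
  refine Finset.sum_congr rfl fun t _ => ?_
  rw [Finset.mul_sum, addChar_sum]

lemma count_identity (r : Fin n → ℕ) (x : ZMod a) :
    ∑ h : ZMod a, ZMod.stdAddChar (-(h * x)) * (SS r h) ^ 16
      = (a : ℂ) * ((univ.filter (fun t : Fin 16 → Finset (Fin n) × Finset (Fin n) =>
          ∑ j, ((U r (t j).1 * U r (t j).2 : ℕ) : ZMod a) = x)).card : ℂ) := by
  classical
  have h1 : ∀ h : ZMod a, ZMod.stdAddChar (-(h * x)) * (SS r h) ^ 16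
      = ∑ t : Fin 16 → Finset (Fin n) × Finset (Fin n),
        ZMod.stdAddChar (h * (∑ j, ((U r (t j).1 * U r (t j).2 : ℕ) : ZMod a) - x)) := by
    intro h
    rw [SS_pow, Finset.mul_sum]
    refine Finset.sum_congr rfl fun t _ => ?_
    rw [← AddChar.map_add_eq_mul]
    congr 1
    ring
  simp only [h1]
  rw [Finset.sum_comm]
  have h2 : ∀ t : Fin 16 → Finset (Fin n) × Finset (Fin n),
      ∑ h : ZMod a, ZMod.stdAddChar (h * (∑ j, ((U r (t j).1 * U r (t j).2 : ℕ) : ZMod a) - x))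
      = if ∑ j, ((U r (t j).1 * U r (t j).2 : ℕ) : ZMod a) = x then (a : ℂ) else 0 := by
    intro t
    rw [AddChar.sum_mulShift _ (ZMod.isPrimitive_stdAddChar a)]
    simp only [sub_eq_zero, ZMod.card]
    split_ifs <;> simp
  simp only [h2]
  rw [Finset.sum_ite, Finset.sum_const_zero, add_zero, Finset.sum_const, nsmul_eq_mul, mul_comm]

lemma SS_zero (r : Fin n → ℕ) : SS r (0 : ZMod a) = (4 : ℂ) ^ n := by
  unfold SS
  simp
  rw [← mul_pow]
  norm_num

lemma norm_SS_pow_le (r : Fin n → ℕ) (h : ZMod a)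
    (H : (addOrderOf h) ^ 3 * (coll (addOrderOf h) r univ) ^ 4 ≤ 2 ^ 24 * (4 ^ n) ^ 4) :
    ‖SS r h‖ ^ 16 ≤ 2 ^ 96 * (4 ^ n : ℝ) ^ 16 / (addOrderOf h : ℝ) ^ 4 := by
  set q := addOrderOf h with hq
  have hq0 : (0 : ℝ) < q := by
    have : 0 < addOrderOf h := addOrderOf_pos h
    exact_mod_cast this
  have h1 := norm_SS_sq_le r h
  rw [← hq] at h1
  have h2 : ‖SS r h‖ ^ 4 ≤ (q : ℝ) ^ 2 * (coll q r univ : ℝ) ^ 4 := by
    calc ‖SS r h‖ ^ 4 = (‖SS r h‖ ^ 2) ^ 2 := by ring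
      _ ≤ ((q : ℝ) * (coll q r univ : ℝ) ^ 2) ^ 2 := by gcongr
      _ = _ := by ring
  have h3 : (q : ℝ) ^ 3 * (coll q r univ : ℝ) ^ 4 ≤ 2 ^ 24 * (4 ^ n : ℝ) ^ 4 := by
    exact_mod_cast H
  have h4 : ‖SS r h‖ ^ 4 ≤ 2 ^ 24 * (4 ^ n : ℝ) ^ 4 / q := by
    rw [le_div_iff₀ hq0]
    calc ‖SS r h‖ ^ 4 * q ≤ ((q : ℝ) ^ 2 * (coll q r univ : ℝ) ^ 4) * q := by gcongr
      _ = (q : ℝ) ^ 3 * (coll q r univ : ℝ) ^ 4 := by ring
      _ ≤ _ := h3
  calc ‖SS r h‖ ^ 16 = (‖SS r h‖ ^ 4) ^ 4 := by ring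
    _ ≤ (2 ^ 24 * (4 ^ n : ℝ) ^ 4 / q) ^ 4 := by gcongr
    _ = _ := by
      rw [div_pow]
      congr 1
      ring

/-- sum over non zero frequencies -/
lemma sum_inv_order (hq : ∀ q, q ∣ a → 1 < q → 2 ^ 96 < q) :
    ∑ h ∈ (univ : Finset (ZMod a)).filter (fun h => h ≠ 0), 1 / (addOrderOf h : ℝ) ^ 4
      < 1 / 2 ^ 96 := by
  classical
  set M : ℕ := 2 ^ 96 with hM
  have hmaps : Set.MapsTo (fun h : ZMod a => addOrderOf h)
      ((univ : Finset (ZMod a)).filter (fun h => h ≠ 0)) (Finset.Ioc M (a + M)) := by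
    intro h hh
    simp only [Finset.coe_filter, Finset.mem_univ, true_and, Set.mem_ofPred_eq] at hh
    simp only [Finset.coe_Ioc, Set.mem_Ioc]
    have h1 : addOrderOf h ∣ a := by
      have := addOrderOf_dvd_card (x := h)
      rwa [ZMod.card] at this
    have h2 : 1 < addOrderOf h := by
      have h3 : 0 < addOrderOf h := addOrderOf_pos h
      have h4 : addOrderOf h ≠ 1 := fun h5 => hh (AddMonoid.addOrderOf_eq_one_iff.1 h5)
      omega
    refine ⟨hq _ h1 h2, ?_⟩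
    have := Nat.le_of_dvd (Nat.pos_of_ne_zero (NeZero.ne a)) h1
    omega
  rw [← Finset.sum_fiberwise_of_maps_to hmaps]
  have h1 : ∀ q ∈ Finset.Ioc M (a + M), ∑ h ∈ ((univ : Finset (ZMod a)).filter (fun h => h ≠ 0)).filter
      (fun h => addOrderOf h = q), 1 / (addOrderOf h : ℝ) ^ 4 ≤ (1 / (M : ℝ)) * ((q : ℝ) ^ 2)⁻¹ := by
    intro q hq'
    rw [Finset.mem_Ioc] at hq'
    have hq0 : 0 < q := by omega
    have hq0' : (0 : ℝ) < q := by exact_mod_cast hq0
    have hM0 : (0 : ℝ) < M := by rw [hM]; positivity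
    rw [Finset.sum_congr rfl (g := fun _ => 1 / (q : ℝ) ^ 4)]
    · rw [Finset.sum_const, nsmul_eq_mul]
      have hcard : (((univ : Finset (ZMod a)).filter (fun h => h ≠ 0)).filter
          (fun h => addOrderOf h = q)).card ≤ q := by
        refine le_trans (Finset.card_le_card ?_) (IsAddCyclic.card_nsmul_eq_zero_le (α := ZMod a) hq0)
        intro h hh
        simp only [Finset.mem_filter, Finset.mem_univ, true_and] at hh ⊢
        rw [← hh.2]
        exact addOrderOf_nsmul_eq_zero h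
      have hcard' : ((((univ : Finset (ZMod a)).filter (fun h => h ≠ 0)).filter
          (fun h => addOrderOf h = q)).card : ℝ) ≤ q := by exact_mod_cast hcard
      calc _ ≤ (q : ℝ) * (1 / (q : ℝ) ^ 4) := by gcongr
        _ = (1 / (q : ℝ)) * ((q : ℝ) ^ 2)⁻¹ := by field_simp
        _ ≤ _ := by
          gcongr
          exact_mod_cast hq'.1.le
    · intro h hh
      rw [(Finset.mem_filter.1 hh).2]
  refine lt_of_le_of_lt (Finset.sum_le_sum h1) ?_
  rw [← Finset.mul_sum]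
  have h2 : ∑ q ∈ Finset.Ioc M (a + M), ((q : ℝ) ^ 2)⁻¹ ≤ (M : ℝ)⁻¹ - ((a + M : ℕ) : ℝ)⁻¹ :=
    sum_Ioc_inv_sq_le_sub (by rw [hM]; positivity) (by omega)
  have h3 : (0 : ℝ) ≤ ((a + M : ℕ) : ℝ)⁻¹ := by positivity
  have hM1 : (M : ℝ) = 2 ^ 96 := by rw [hM]; norm_num
  rw [hM1] at h2 ⊢
  calc (1 / 2 ^ 96 : ℝ) * ∑ q ∈ Finset.Ioc M (a + M), ((q : ℝ) ^ 2)⁻¹ ≤ (1 / 2 ^ 96) * (2 ^ 96)⁻¹ := by
        gcongr
        linarith
    _ < 1 / 2 ^ 96 := by norm_num

/-- every residue class is a sum of 16 products. -/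
theorem cover (r : Fin n → ℕ)
    (H : ∀ q, q ∣ a → 1 < q → 2 ^ 96 < q ∧ q ^ 3 * (coll q r univ) ^ 4 ≤ 2 ^ 24 * (4 ^ n) ^ 4)
    (x : ZMod a) :
    ∃ t : Fin 16 → Finset (Fin n) × Finset (Fin n),
      ∑ j, ((U r (t j).1 * U r (t j).2 : ℕ) : ZMod a) = x := by
  classical
  by_contra hcon
  push Not at hcon
  have h1 := count_identity r x
  have h2 : (univ.filter (fun t : Fin 16 → Finset (Fin n) × Finset (Fin n) =>
          ∑ j, ((U r (t j).1 * U r (t j).2 : ℕ) : ZMod a) = x)) = ∅ := by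
    rw [Finset.filter_eq_empty_iff]
    intro t _
    exact hcon t
  rw [h2] at h1
  simp only [Finset.card_empty, Nat.cast_zero, mul_zero] at h1
  rw [← Finset.sum_filter_add_sum_filter_not univ (fun h : ZMod a => h ≠ 0)] at h1
  have h3 : (univ : Finset (ZMod a)).filter (fun h => ¬ h ≠ 0) = {0} := by
    ext h; simp
  rw [h3, Finset.sum_singleton, SS_zero] at h1
  simp only [zero_mul, neg_zero, AddChar.map_zero_eq_one, one_mul] at h1
  have h4 : (4 : ℂ) ^ n ^ 1 = (4 : ℂ) ^ n := by simp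
  have h5 : ‖((4 : ℂ) ^ n) ^ 16‖ = (4 ^ n : ℝ) ^ 16 := by
    rw [norm_pow, norm_pow]; norm_num
  have h6 : ((4 : ℂ) ^ n) ^ 16 = - ∑ h ∈ univ.filter (fun h : ZMod a => h ≠ 0),
      ZMod.stdAddChar (-(h * x)) * (SS r h) ^ 16 := by
    linear_combination h1
  have h7 : (4 ^ n : ℝ) ^ 16 ≤ ∑ h ∈ univ.filter (fun h : ZMod a => h ≠ 0),
      2 ^ 96 * (4 ^ n : ℝ) ^ 16 * (1 / (addOrderOf h : ℝ) ^ 4) := by
    have h12 : (4 ^ n : ℝ) ^ 16 = ‖∑ h ∈ univ.filter (fun h : ZMod a => h ≠ 0),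
      ZMod.stdAddChar (-(h * x)) * (SS r h) ^ 16‖ := by
      rw [← h5, h6, norm_neg]
    refine h12.le.trans ?_
    refine (norm_sum_le _ _).trans (Finset.sum_le_sum fun h hh => ?_)
    rw [norm_mul, norm_pow]
    have hn : ‖(ZMod.stdAddChar (-(h * x)) : ℂ)‖ = 1 := AddChar.norm_apply _ _
    rw [hn, one_mul]
    rw [Finset.mem_filter] at hh
    have h8 : addOrderOf h ∣ a := by
      have := addOrderOf_dvd_card (x := h)
      rwa [ZMod.card] at this
    have h9 : 1 < addOrderOf h := by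
      have h3 : 0 < addOrderOf h := addOrderOf_pos h
      have h4 : addOrderOf h ≠ 1 := fun h5 => hh.2 (AddMonoid.addOrderOf_eq_one_iff.1 h5)
      omega
    refine (norm_SS_pow_le r h (H _ h8 h9).2).trans (le_of_eq ?_)
    ring
  rw [← Finset.mul_sum] at h7
  have h8 := sum_inv_order (a := a) (fun q hq h1 => (H q hq h1).1)
  have h9 : (0 : ℝ) < 2 ^ 96 * (4 ^ n : ℝ) ^ 16 := by positivity
  have h10 := mul_lt_mul_of_pos_left h8 h9
  have h11 : 2 ^ 96 * (4 ^ n : ℝ) ^ 16 * (1 / 2 ^ 96) = (4 ^ n : ℝ) ^ 16 := by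
    field_simp
  linarith

end fourier

end Crest.Agent.H2Egypt
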