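import Mathlib
import Crest.Agent.H2EgyptFourier

set_option autoImplicit false

namespace Crest.Agent.H2Egypt

open Finset

variable {ι : Type*} [DecidableEq ι]

lemma coll_eq_sum (q : ℕ) (r : ι → ℕ) (S : Finset ι) :
    coll q r S = ∑ I ∈ S.powerset, ∑ I' ∈ S.powerset,
      if ((U r I : ℕ) : ZMod q) = ((U r I' : ℕ) : ZMod q) then 1 else 0 := by
  unfold coll
  rw [Finset.card_filter, Finset.sum_product]
  refine Finset.sum_congr rfl fun I _ => Finset.sum_congr rfl fun I' _ => ?_
  simp only [ZMod.natCast_eq_natCast_iff]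

lemma sum_sum_ite {α β γ : Type*} [DecidableEq γ] [Fintype γ] (A : Finset α) (B : Finset β)
    (f : α → γ) (g : β → γ) :
    ∑ x ∈ A, ∑ y ∈ B, (if f x = g y then 1 else 0)
      = ∑ z : γ, (A.filter (fun x => f x = z)).card * (B.filter (fun y => g y = z)).card := by
  have h1 : ∀ x ∈ A, ∑ y ∈ B, (if f x = g y then 1 else 0)
      = ∑ z : γ, (if f x = z then 1 else 0) * (B.filter (fun y => g y = z)).card := by
    intro x _
    rw [Finset.sum_eq_single (f x)]
    · rw [if_pos rfl, one_mul, Finset.card_filter]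
      exact Finset.sum_congr rfl fun y _ => by simp [eq_comm]
    · intro z _ hz
      rw [if_neg (fun h => hz h.symm), zero_mul]
    · intro h; exact absurd (Finset.mem_univ _) h
  rw [Finset.sum_congr rfl h1, Finset.sum_comm]
  refine Finset.sum_congr rfl fun z _ => ?_
  rw [← Finset.sum_mul, ← Finset.card_filter]

/-- one step. -/
lemma coll_insert (q : ℕ) [NeZero q] (r : ι → ℕ) (S : Finset ι) (i : ι) (hi : i ∉ S)
    (hc : Nat.Coprime (r i) q) : coll q r (insert i S) ≤ 4 * coll q r S := by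
  classical
  have hU : ∀ I ∈ S.powerset, U r (insert i I) = r i * U r I := by
    intro I hI
    rw [Finset.mem_powerset] at hI
    exact Finset.prod_insert (fun h => hi (hI h))
  set u : (ZMod q)ˣ := ZMod.unitOfCoprime (r i) hc with hu
  have hu' : (u : ZMod q) = ((r i : ℕ) : ZMod q) := ZMod.coe_unitOfCoprime _ _
  set ν : ZMod q → ℕ := fun z => (S.powerset.filter (fun I => ((U r I : ℕ) : ZMod q) = z)).card with hν
  have hA : coll q r S = ∑ z, ν z * ν z := by
    rw [coll_eq_sum, sum_sum_ite]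
  have hB : ∑ I ∈ S.powerset, ∑ I' ∈ S.powerset,
      (if ((U r (insert i I) : ℕ) : ZMod q) = ((U r I' : ℕ) : ZMod q) then 1 else 0) ≤ coll q r S := by
    rw [sum_sum_ite, hA]
    have h1 : ∀ z : ZMod q, (S.powerset.filter (fun I => ((U r (insert i I) : ℕ) : ZMod q) = z)).card
        = ν (((u⁻¹ : (ZMod q)ˣ) : ZMod q) * z) := by
      intro z
      simp only [hν]
      congr 1
      refine Finset.filter_congr fun I hI => ?_
      rw [hU I hI, Nat.cast_mul, ← hu']
      constructor
      · rintro rfl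
        rw [← mul_assoc, Units.inv_mul, one_mul]
      · intro h
        rw [h, ← mul_assoc, Units.mul_inv, one_mul]
    have h2 : ∑ z : ZMod q, ν (((u⁻¹ : (ZMod q)ˣ) : ZMod q) * z) * ν (((u⁻¹ : (ZMod q)ˣ) : ZMod q) * z)
        = ∑ z : ZMod q, ν z * ν z :=
      Equiv.sum_comp (Units.mulLeft u⁻¹) (fun z => ν z * ν z)
    have h3 : 2 * ∑ z : ZMod q, ν (((u⁻¹ : (ZMod q)ˣ) : ZMod q) * z) * ν z
        ≤ 2 * ∑ z : ZMod q, ν z * ν z := by
      calc 2 * ∑ z : ZMod q, ν (((u⁻¹ : (ZMod q)ˣ) : ZMod q) * z) * ν z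
          = ∑ z : ZMod q, 2 * (ν (((u⁻¹ : (ZMod q)ˣ) : ZMod q) * z) * ν z) := by rw [Finset.mul_sum]
        _ ≤ ∑ z : ZMod q, (ν (((u⁻¹ : (ZMod q)ˣ) : ZMod q) * z) * ν (((u⁻¹ : (ZMod q)ˣ) : ZMod q) * z)
              + ν z * ν z) := by
            refine Finset.sum_le_sum fun z _ => ?_
            have := two_mul_le_add_sq (ν (((u⁻¹ : (ZMod q)ˣ) : ZMod q) * z)) (ν z)
            nlinarith [this]
        _ = 2 * ∑ z : ZMod q, ν z * ν z := by
            rw [Finset.sum_add_distrib, h2]; ring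
    simp only [h1]
    have h4 : ∑ z : ZMod q, ν (((u⁻¹ : (ZMod q)ˣ) : ZMod q) * z) * ν z ≤ ∑ z : ZMod q, ν z * ν z := by
      omega
    exact h4
  have hB' : ∑ I ∈ S.powerset, ∑ I' ∈ S.powerset,
      (if ((U r I : ℕ) : ZMod q) = ((U r (insert i I') : ℕ) : ZMod q) then 1 else 0) ≤ coll q r S := by
    rw [Finset.sum_comm]
    refine le_trans (le_of_eq ?_) hB
    refine Finset.sum_congr rfl fun I _ => Finset.sum_congr rfl fun I' _ => ?_
    simp only [eq_comm]
  have hC : ∑ I ∈ S.powerset, ∑ I' ∈ S.powerset,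
      (if ((U r (insert i I) : ℕ) : ZMod q) = ((U r (insert i I') : ℕ) : ZMod q) then 1 else 0)
        = coll q r S := by
    rw [coll_eq_sum]
    refine Finset.sum_congr rfl fun I hI => Finset.sum_congr rfl fun I' hI' => ?_
    rw [hU I hI, hU I' hI', Nat.cast_mul, Nat.cast_mul, ← hu']
    simp only [Units.mul_right_inj]
  rw [coll_eq_sum q r (insert i S), Finset.sum_powerset_insert hi]
  simp only [Finset.sum_powerset_insert hi, Finset.sum_add_distrib]
  rw [← coll_eq_sum]
  omega

lemma coll_mono (q : ℕ) [NeZero q] (r : ι → ℕ) (S T : Finset ι) (hST : S ⊆ T)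
    (hc : ∀ i ∈ T, Nat.Coprime (r i) q) : coll q r T ≤ 4 ^ (T.card - S.card) * coll q r S := by
  classical
  obtain ⟨R, hR⟩ : ∃ R : Finset ι, R = T \ S := ⟨_, rfl⟩
  have hT : T = R ∪ S := by rw [hR]; exact (Finset.sdiff_union_of_subset hST).symm
  have hd : Disjoint R S := by rw [hR]; exact Finset.sdiff_disjoint
  subst hT
  have hcard : (R ∪ S).card - S.card = R.card := by
    rw [Finset.card_union_of_disjoint hd]; omega
  rw [hcard]
  clear hR hcard hST
  induction R using Finset.induction_on with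
  | empty => simp
  | insert i R hi ih =>
    rw [Finset.card_insert_of_notMem hi, Finset.insert_union]
    have hd' : Disjoint R S := Finset.disjoint_of_subset_left (Finset.subset_insert _ _) hd
    have hiS : i ∉ S := Finset.disjoint_left.1 hd (Finset.mem_insert_self _ _)
    have hi' : i ∉ R ∪ S := by
      rw [Finset.mem_union]; tauto
    calc coll q r (insert i (R ∪ S)) ≤ 4 * coll q r (R ∪ S) := by
          apply coll_insert q r _ i hi'
          apply hc
          rw [Finset.insert_union]; exact Finset.mem_insert_self _ _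
      _ ≤ 4 * (4 ^ R.card * coll q r S) := by
          gcongr
          refine ih hd' ?_
          intro j hj
          apply hc
          rw [Finset.insert_union]; exact Finset.mem_insert_of_mem hj
      _ = _ := by ring

/-- transfer along an injection -/
lemma coll_map {κ : Type*} [DecidableEq κ] (q : ℕ) (r : ι → ℕ) (e : κ ↪ ι) (S : Finset κ) :
    coll q r (S.map e) = coll q (r ∘ e) S := by
  classical
  have hU : ∀ I : Finset κ, U r (I.map e) = U (r ∘ e) I := by
    intro I
    unfold U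
    rw [Finset.prod_map]
    rfl
  unfold coll
  symm
  refine Finset.card_bij (fun p _ => (p.1.map e, p.2.map e)) ?_ ?_ ?_
  · rintro ⟨I, I'⟩ h
    simp only [Finset.mem_filter, Finset.mem_product, Finset.mem_powerset] at h ⊢
    rw [hU, hU]
    exact ⟨⟨Finset.map_subset_map.2 h.1.1, Finset.map_subset_map.2 h.1.2⟩, h.2⟩
  · rintro ⟨I, I'⟩ _ ⟨J, J'⟩ _ h
    simp only [Prod.mk.injEq, Finset.map_inj] at h
    exact Prod.ext h.1 h.2
  · rintro ⟨J, J'⟩ h
    simp only [Finset.mem_filter, Finset.mem_product, Finset.mem_powerset] at h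
    obtain ⟨⟨h1, h2⟩, h3⟩ := h
    rw [Finset.subset_map_iff] at h1 h2
    obtain ⟨I, hI, rfl⟩ := h1
    obtain ⟨I', hI', rfl⟩ := h2
    rw [hU, hU] at h3
    refine ⟨(I, I'), ?_, rfl⟩
    simp only [Finset.mem_filter, Finset.mem_product, Finset.mem_powerset]
    exact ⟨⟨hI, hI'⟩, h3⟩

end Crest.Agent.H2Egypt
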