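import Mathlib
import Crest.Agent.H2EgyptColl

set_option autoImplicit false
set_option linter.unusedSectionVars false

namespace Crest.Agent.H2Egypt

open Finset

lemma card_prod_eq {κ : Type*} [Fintype κ] [DecidableEq κ] (P : Finset ℕ)
    (hP : ∀ p ∈ P, p.Prime) (N : ℕ) :
    ((Fintype.piFinset (fun _ : κ => P)).filter (fun f => ∏ i, f i = N)).card
      ≤ (Fintype.card κ) ^ (Fintype.card κ) := by
  classical
  rcases Finset.eq_empty_or_nonempty
    ((Fintype.piFinset (fun _ : κ => P)).filter (fun f => ∏ i, f i = N)) with h | ⟨f0, hf0⟩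
  · rw [h]; simp
  · rw [Finset.mem_filter, Fintype.mem_piFinset] at hf0
    obtain ⟨hf0, hN⟩ := hf0
    have h1 : N.primeFactors ⊆ Finset.univ.image f0 := by
      intro p hp
      have hp1 := Nat.prime_of_mem_primeFactors hp
      have hp2 := Nat.dvd_of_mem_primeFactors hp
      rw [← hN, Prime.dvd_finsetProd_iff (Nat.Prime.prime hp1)] at hp2
      obtain ⟨i, _, hi⟩ := hp2
      rw [Finset.mem_image]
      exact ⟨i, Finset.mem_univ _, ((Nat.prime_dvd_prime_iff_eq hp1 (hP _ (hf0 i))).1 hi).symm⟩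
    have h2 : N.primeFactors.card ≤ Fintype.card κ := by
      refine (Finset.card_le_card h1).trans ?_
      exact Finset.card_image_le
    have hN0 : N ≠ 0 := by
      rw [← hN]
      exact Finset.prod_ne_zero_iff.2 fun i _ => (hP _ (hf0 i)).ne_zero
    have h3 : (Fintype.piFinset (fun _ : κ => P)).filter (fun f => ∏ i, f i = N)
        ⊆ Fintype.piFinset (fun _ : κ => N.primeFactors) := by
      intro f hf
      rw [Finset.mem_filter, Fintype.mem_piFinset] at hf
      rw [Fintype.mem_piFinset]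
      intro i
      rw [Nat.mem_primeFactors]
      refine ⟨hP _ (hf.1 i), ?_, hN0⟩
      rw [← hf.2]
      exact Finset.dvd_prod_of_mem f (Finset.mem_univ i)
    refine (Finset.card_le_card h3).trans ?_
    rw [Fintype.card_piFinset, Finset.prod_const, Finset.card_univ]
    exact Nat.pow_le_pow_left h2 _

lemma card_mod_le (X q c : ℕ) :
    ((Finset.range (X + 1)).filter (fun N => N % q = c % q)).card ≤ X / q + 1 := by
  classical
  refine le_trans (Finset.card_le_card_of_injOn (t := Finset.range (X / q + 1)) (fun N => N / q) ?_ ?_)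
    (by simp)
  · intro N hN
    simp only [Finset.coe_filter, Finset.mem_range] at hN
    simp only [Finset.coe_range]
    have := Nat.div_le_div_right (c := q) (Nat.lt_succ_iff.1 hN.1)
    exact Nat.lt_succ_of_le this
  · intro N hN M hM h
    simp only [Finset.coe_filter, Finset.mem_range] at hN hM
    have h1 := Nat.div_add_mod N q
    have h2 := Nat.div_add_mod M q
    have h3 := hN.2
    have h4 := hM.2
    simp only at h
    rw [← h1, ← h2, h, h3, h4]

lemma card_prod_modEq {κ : Type*} [Fintype κ] [DecidableEq κ] (P : Finset ℕ)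
    (hP : ∀ p ∈ P, p.Prime) (Z : ℕ) (hZ : ∀ p ∈ P, p ≤ Z) (q c : ℕ) :
    ((Fintype.piFinset (fun _ : κ => P)).filter (fun f => (∏ i, f i) ≡ c [MOD q])).card
      ≤ (Z ^ (Fintype.card κ) / q + 1) * (Fintype.card κ) ^ (Fintype.card κ) := by
  classical
  set s := (Fintype.piFinset (fun _ : κ => P)).filter (fun f => (∏ i, f i) ≡ c [MOD q]) with hs
  have h1 := Finset.card_le_mul_card_image (f := fun f : κ → ℕ => ∏ i, f i) s
    ((Fintype.card κ) ^ (Fintype.card κ)) (by
      intro N _
      refine le_trans (Finset.card_le_card ?_) (card_prod_eq (κ := κ) P hP N)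
      intro f hf
      rw [Finset.mem_filter] at hf ⊢
      rw [hs, Finset.mem_filter] at hf
      exact ⟨hf.1.1, hf.2⟩)
  have h2 : (s.image (fun f : κ → ℕ => ∏ i, f i)).card ≤ Z ^ (Fintype.card κ) / q + 1 := by
    refine le_trans (Finset.card_le_card ?_) (card_mod_le (Z ^ (Fintype.card κ)) q c)
    intro N hN
    rw [Finset.mem_image] at hN
    obtain ⟨f, hf, rfl⟩ := hN
    rw [hs, Finset.mem_filter, Fintype.mem_piFinset] at hf
    rw [Finset.mem_filter, Finset.mem_range]
    refine ⟨?_, hf.2⟩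
    have : ∏ i, f i ≤ ∏ _i : κ, Z := Finset.prod_le_prod' fun i _ => hZ _ (hf.1 i)
    rw [Finset.prod_const, Finset.card_univ] at this
    omega
  calc s.card ≤ _ := h1
    _ ≤ (Fintype.card κ) ^ (Fintype.card κ) * (Z ^ (Fintype.card κ) / q + 1) := by gcongr
    _ = _ := by ring

/-- set of sequences with entries in `P`, all units modulo `q`. -/
def Om {ι : Type*} [Fintype ι] [DecidableEq ι] (P : Finset ℕ) (q : ℕ) : Finset (ι → ℕ) :=
  (Fintype.piFinset (fun _ : ι => P)).filter (fun r => ∀ i, Nat.Coprime (r i) q)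

lemma mem_Om {ι : Type*} [Fintype ι] [DecidableEq ι] (P : Finset ℕ) (q : ℕ) (r : ι → ℕ) :
    r ∈ Om (ι := ι) P q ↔ (∀ i, r i ∈ P) ∧ ∀ i, Nat.Coprime (r i) q := by
  rw [Om, Finset.mem_filter, Fintype.mem_piFinset]

lemma card_Om_le {ι : Type*} [Fintype ι] [DecidableEq ι] (P : Finset ℕ) (q : ℕ) :
    (Om (ι := ι) P q).card ≤ P.card ^ Fintype.card ι := by
  refine (Finset.card_le_card (Finset.filter_subset _ _)).trans (le_of_eq ?_)
  rw [Fintype.card_piFinset, Finset.prod_const, Finset.card_univ]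

lemma pair_count {ι : Type*} [Fintype ι] [DecidableEq ι] (P : Finset ℕ)
    (hP : ∀ p ∈ P, p.Prime) (Z : ℕ) (hZ : ∀ p ∈ P, p ≤ Z) (q : ℕ) (I I' T : Finset ι)
    (hT : T ⊆ I \ I') :
    ((Om (ι := ι) P q).filter (fun r => U r I ≡ U r I' [MOD q])).card
      ≤ P.card ^ (Fintype.card ι - T.card) * ((Z ^ T.card / q + 1) * T.card ^ T.card) := by
  classical
  set s := (Om (ι := ι) P q).filter (fun r => U r I ≡ U r I' [MOD q]) with hs
  let ρ : (ι → ℕ) → ({i : ι // i ∉ T} → ℕ) := fun r i => r i
  have hTI : T ⊆ I := hT.trans Finset.sdiff_subset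
  have hTI' : Disjoint I' T := by
    rw [Finset.disjoint_right]
    intro i hi
    exact (Finset.mem_sdiff.1 (hT hi)).2
  have hfib : ∀ g ∈ s.image ρ, (s.filter (fun r => ρ r = g)).card
      ≤ (Z ^ T.card / q + 1) * T.card ^ T.card := by
    intro g hg
    rw [Finset.mem_image] at hg
    obtain ⟨r0, hr0, hg0⟩ := hg
    have hcardT : Fintype.card {i : ι // i ∈ T} = T.card := Fintype.card_coe T
    have h1 := card_prod_modEq (κ := {i : ι // i ∈ T}) P hP Z hZ q (∏ i : {i : ι // i ∈ T}, r0 i)
    rw [hcardT] at h1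
    refine le_trans (Finset.card_le_card_of_injOn (fun r (i : {i : ι // i ∈ T}) => r i) ?_ ?_) h1
    · intro r hr
      rw [Finset.mem_coe, Finset.mem_filter] at hr
      rw [hs, Finset.mem_filter, Om, Finset.mem_filter, Fintype.mem_piFinset] at hr hr0
      obtain ⟨⟨⟨hrP, hrc⟩, hre⟩, hrg⟩ := hr
      obtain ⟨⟨hrP0, hrc0⟩, hre0⟩ := hr0
      rw [Finset.mem_coe, Finset.mem_filter, Fintype.mem_piFinset]
      refine ⟨fun i => hrP i, ?_⟩
      have hoff : ∀ i, i ∉ T → r i = r0 i := by
        intro i hi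
        have := congrFun (hrg.trans hg0.symm) ⟨i, hi⟩
        exact this
      have h2 : U r I' = U r0 I' := by
        refine Finset.prod_congr rfl fun i hi => hoff i ?_
        exact Finset.disjoint_left.1 hTI' hi
      have h3 : ∏ i ∈ I \ T, r i = ∏ i ∈ I \ T, r0 i := by
        refine Finset.prod_congr rfl fun i hi => hoff i ?_
        exact (Finset.mem_sdiff.1 hi).2
      have h4 : ∀ r : ι → ℕ, U r I = (∏ i : {i : ι // i ∈ T}, r i) * ∏ i ∈ I \ T, r i := by
        intro r
        unfold U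
        rw [← Finset.prod_sdiff hTI, mul_comm]
        congr 1
        exact (Finset.prod_coe_sort T r).symm
      rw [h4 r, h3, h2] at hre
      rw [h4 r0] at hre0
      have h5 := hre.trans hre0.symm
      have hcop : Nat.Coprime q (∏ i ∈ I \ T, r0 i) :=
        (Nat.Coprime.prod_left fun i _ => hrc0 i).symm
      exact Nat.ModEq.cancel_right_of_coprime hcop h5
    · intro r hr r' hr' h
      rw [Finset.mem_coe, Finset.mem_filter] at hr hr'
      funext i
      by_cases hi : i ∈ T
      · exact congrFun h ⟨i, hi⟩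
      · exact congrFun (hr.2.trans hr'.2.symm) ⟨i, hi⟩
  have h1 := Finset.card_le_mul_card_image (f := ρ) s _ hfib
  have h2 : (s.image ρ).card ≤ P.card ^ (Fintype.card ι - T.card) := by
    have h3 : s.image ρ ⊆ Fintype.piFinset (fun _ : {i : ι // i ∉ T} => P) := by
      intro g hg
      rw [Finset.mem_image] at hg
      obtain ⟨r, hr, rfl⟩ := hg
      rw [hs, Finset.mem_filter, Om, Finset.mem_filter, Fintype.mem_piFinset] at hr
      rw [Fintype.mem_piFinset]
      exact fun i => hr.1.1 i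
    refine (Finset.card_le_card h3).trans (le_of_eq ?_)
    rw [Fintype.card_piFinset, Finset.prod_const, Finset.card_univ]
    congr 1
    rw [Fintype.card_subtype_compl, Fintype.card_coe]
  calc s.card ≤ _ := h1
    _ ≤ _ * P.card ^ (Fintype.card ι - T.card) := by gcongr
    _ = _ := by ring

/-- number of pairs with few elements in the difference. -/
lemma small_pairs (ℓ m : ℕ) :
    ((univ.filter (fun p : Finset (Fin ℓ) × Finset (Fin ℓ) => (p.1 \ p.2).card < m)).card : ℝ)
      ≤ 2 ^ m * (7 / 2) ^ ℓ := by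
  classical
  have h1 : ∑ p : Finset (Fin ℓ) × Finset (Fin ℓ), (1 / 2 : ℝ) ^ (p.1 \ p.2).card = (7 / 2) ^ ℓ := by
    rw [Fintype.sum_prod_type_right]
    have h2 : ∀ I' : Finset (Fin ℓ), ∑ I : Finset (Fin ℓ), (1 / 2 : ℝ) ^ (I \ I').card
        = 2 ^ I'.card * (3 / 2) ^ (ℓ - I'.card) := by
      intro I'
      have h3 : ∀ I : Finset (Fin ℓ), (1 / 2 : ℝ) ^ (I \ I').card
          = ∏ i ∈ I, (if i ∈ I' then (1 : ℝ) else 1 / 2) := by
        intro I
        rw [Finset.prod_ite]
        simp only [Finset.prod_const_one, one_mul, Finset.prod_const]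
        congr 2
        ext i; simp
      simp only [h3]
      have h4 := Finset.prod_one_add (f := fun i : Fin ℓ => (if i ∈ I' then (1 : ℝ) else 1 / 2)) univ
      rw [Finset.powerset_univ] at h4
      rw [← h4]
      have h5 : ∀ i : Fin ℓ, (1 + if i ∈ I' then (1 : ℝ) else 1 / 2) = if i ∈ I' then 2 else 3 / 2 := by
        intro i; split_ifs <;> norm_num
      simp only [h5]
      rw [Finset.prod_ite]
      simp only [Finset.prod_const]
      congr 2
      · congr 1; ext i; simp
      · have : (univ.filter (fun i : Fin ℓ => i ∉ I')) = I'ᶜ := by ext i; simp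
        rw [this, Finset.card_compl, Fintype.card_fin]
    simp only [h2]
    have h6 := Finset.sum_pow_mul_eq_add_pow (2 : ℝ) (3 / 2) (univ : Finset (Fin ℓ))
    rw [Finset.powerset_univ, Finset.card_univ, Fintype.card_fin] at h6
    rw [h6]; norm_num
  have h2 : ((univ.filter (fun p : Finset (Fin ℓ) × Finset (Fin ℓ) => (p.1 \ p.2).card < m)).card : ℝ)
      * (1 / 2) ^ m ≤ (7 / 2) ^ ℓ := by
    rw [← h1]
    calc _ = ∑ p ∈ univ.filter (fun p : Finset (Fin ℓ) × Finset (Fin ℓ) => (p.1 \ p.2).card < m),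
            (1 / 2 : ℝ) ^ m := by rw [Finset.sum_const, nsmul_eq_mul]
      _ ≤ ∑ p ∈ univ.filter (fun p : Finset (Fin ℓ) × Finset (Fin ℓ) => (p.1 \ p.2).card < m),
            (1 / 2 : ℝ) ^ (p.1 \ p.2).card := by
          refine Finset.sum_le_sum fun p hp => ?_
          rw [Finset.mem_filter] at hp
          exact pow_le_pow_of_le_one (by norm_num) (by norm_num) hp.2.le
      _ ≤ _ := Finset.sum_le_univ_sum_of_nonneg fun p => by positivity
  have h3 : (0 : ℝ) < (1 / 2) ^ m := by positivity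
  have h4 : (2 : ℝ) ^ m * (1 / 2) ^ m = 1 := by rw [← mul_pow]; norm_num
  calc _ = (((univ.filter (fun p : Finset (Fin ℓ) × Finset (Fin ℓ) => (p.1 \ p.2).card < m)).card : ℝ)
      * (1 / 2) ^ m) * 2 ^ m := by rw [mul_assoc, mul_comm _ ((2 : ℝ) ^ m), h4, mul_one]
    _ ≤ (7 / 2) ^ ℓ * 2 ^ m := by gcongr
    _ = _ := by ring

end Crest.Agent.H2Egypt
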