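import Mathlib

set_option autoImplicit false
set_option linter.unusedSectionVars false

namespace Crest.Agent.H2Egypt

open Finset

/-- sum of the reciprocals -/
def rsum (s : Multiset ℕ) : ℚ := (s.map (fun n : ℕ => (1 : ℚ) / n)).sum

lemma rsum_zero : rsum 0 = 0 := by simp [rsum]

lemma rsum_cons (n : ℕ) (s : Multiset ℕ) : rsum (n ::ₘ s) = 1 / n + rsum s := by simp [rsum]

lemma rsum_add (s t : Multiset ℕ) : rsum (s + t) = rsum s + rsum t := by simp [rsum]

lemma rsum_nonneg (s : Multiset ℕ) : 0 ≤ rsum s := by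
  induction s using Multiset.induction with
  | empty => rw [rsum_zero]
  | cons n s ih => rw [rsum_cons]; positivity

/-- `x` is the sum of at most `k` unit fractions (repetitions allowed). -/
def Rep (k : ℕ) (x : ℚ) : Prop :=
  ∃ s : Multiset ℕ, (∀ n ∈ s, 0 < n) ∧ s.card ≤ k ∧ rsum s = x

lemma Rep.zero (k : ℕ) : Rep k 0 := ⟨0, by simp, by simp, rsum_zero⟩

lemma Rep.unit {n : ℕ} (hn : 0 < n) : Rep 1 (1 / (n : ℚ)) :=
  ⟨{n}, by simpa using hn, by simp, by simp [rsum]⟩

lemma Rep.mono {k l : ℕ} {x : ℚ} (h : Rep k x) (hkl : k ≤ l) : Rep l x := by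
  obtain ⟨s, h1, h2, h3⟩ := h
  exact ⟨s, h1, h2.trans hkl, h3⟩

lemma Rep.add {k l : ℕ} {x y : ℚ} (hx : Rep k x) (hy : Rep l y) : Rep (k + l) (x + y) := by
  obtain ⟨s, h1, h2, h3⟩ := hx
  obtain ⟨t, h4, h5, h6⟩ := hy
  refine ⟨s + t, ?_, ?_, ?_⟩
  · intro n hn
    rw [Multiset.mem_add] at hn
    rcases hn with hn | hn
    · exact h1 n hn
    · exact h4 n hn
  · rw [Multiset.card_add]; omega
  · rw [rsum_add, h3, h6]

lemma rsum_le_of_min (s : Multiset ℕ) (m : ℕ) (hm : 0 < m) (h : ∀ n ∈ s, m ≤ n) :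
    rsum s ≤ s.card / (m : ℚ) := by
  induction s using Multiset.induction with
  | empty => simp [rsum_zero]
  | cons n s ih =>
    rw [rsum_cons, Multiset.card_cons]
    have h1 := ih (fun k hk => h k (Multiset.mem_cons_of_mem hk))
    have h2 : m ≤ n := h n (Multiset.mem_cons_self _ _)
    have h3 : (1 : ℚ) / n ≤ 1 / m := by
      apply one_div_le_one_div_of_le
      · exact_mod_cast hm
      · exact_mod_cast h2
    push_cast
    rw [add_div]
    linarith

lemma finite_reps (t : ℕ) : ∀ x : ℚ,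
    {s : Multiset ℕ | s.card = t ∧ (∀ n ∈ s, 0 < n) ∧ rsum s = x}.Finite := by
  induction t with
  | zero =>
    intro x
    refine Set.Finite.subset (Set.finite_singleton 0) ?_
    rintro s ⟨h, _⟩
    simpa using h
  | succ t ih =>
    intro x
    have hsub : {s : Multiset ℕ | s.card = t + 1 ∧ (∀ n ∈ s, 0 < n) ∧ rsum s = x} ⊆
        ⋃ n ∈ Finset.range (⌈((t : ℚ) + 1) / x⌉₊ + 1), (fun s' => n ::ₘ s') ''
          {s : Multiset ℕ | s.card = t ∧ (∀ n ∈ s, 0 < n) ∧ rsum s = x - 1 / n} := by
      rintro s ⟨hc, hpos, hs⟩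
      have hne : s.toFinset.Nonempty := by
        rw [Multiset.toFinset_nonempty]
        rintro rfl
        simp at hc
      obtain ⟨n, hn, hmin⟩ := Finset.exists_min_image s.toFinset id hne
      rw [Multiset.mem_toFinset] at hn
      have hn0 := hpos n hn
      obtain ⟨s', rfl⟩ := Multiset.exists_cons_of_mem hn
      have h1 := rsum_le_of_min (n ::ₘ s') n hn0 (fun k hk => hmin k (by
        rwa [Multiset.mem_toFinset]))
      have hx : 0 < x := by
        rw [← hs, rsum_cons]
        have := rsum_nonneg s'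
        have h2 : (0 : ℚ) < 1 / n := by positivity
        linarith
      rw [hs, hc] at h1
      have hn0' : (0 : ℚ) < n := by exact_mod_cast hn0
      rw [le_div_iff₀ hn0'] at h1
      simp only [Set.mem_iUnion]
      refine ⟨n, ?_, s', ⟨?_, ?_, ?_⟩, rfl⟩
      · rw [Finset.mem_range]
        have h2 : (n : ℚ) ≤ ((t : ℚ) + 1) / x := by
          rw [le_div_iff₀ hx]
          push_cast at h1
          linarith
        have h3 : (n : ℚ) ≤ (⌈((t : ℚ) + 1) / x⌉₊ : ℕ) := h2.trans (Nat.le_ceil _)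
        have h4 : n ≤ ⌈((t : ℚ) + 1) / x⌉₊ := by exact_mod_cast h3
        omega
      · rw [Multiset.card_cons] at hc; omega
      · exact fun k hk => hpos k (Multiset.mem_cons_of_mem hk)
      · rw [rsum_cons] at hs; linarith
    refine Set.Finite.subset ?_ hsub
    refine Set.Finite.biUnion (Finset.finite_toSet _) fun n _ => ?_
    exact (ih _).image _

/-- sum of the squares of the reciprocals -/
def rsq (s : Multiset ℕ) : ℚ := (s.map (fun n : ℕ => (1 : ℚ) / n ^ 2)).sum

lemma rsq_cons (n : ℕ) (s : Multiset ℕ) : rsq (n ::ₘ s) = 1 / n ^ 2 + rsq s := by simp [rsq]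

/-- Takenouchi: a number in `(0,1)` which is a sum of `k` unit fractions is a sum of at most `k`
distinct unit fractions. -/
theorem Rep.distinct {k : ℕ} {x : ℚ} (h : Rep k x) (hx1 : x < 1) :
    ∃ S : Finset ℕ, (∀ n ∈ S, 2 ≤ n) ∧ S.card ≤ k ∧ ∑ n ∈ S, (1 : ℚ) / (n : ℚ) = x := by
  classical
  -- minimal number of summands
  have hex : ∃ t, ∃ s : Multiset ℕ, s.card = t ∧ (∀ n ∈ s, 0 < n) ∧ rsum s = x := by
    obtain ⟨s, h1, h2, h3⟩ := h
    exact ⟨_, s, rfl, h1, h3⟩
  obtain ⟨t, ht⟩ : ∃ t, t = Nat.find hex := ⟨_, rfl⟩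
  have hspec := Nat.find_spec hex
  have hmin : ∀ s : Multiset ℕ, (∀ n ∈ s, 0 < n) → rsum s = x → t ≤ s.card := by
    intro s h1 h2
    rw [ht]
    exact Nat.find_min' hex ⟨s, rfl, h1, h2⟩
  rw [← ht] at hspec
  obtain ⟨s, hs, hmax⟩ := Set.exists_max_image
    {s : Multiset ℕ | s.card = t ∧ (∀ n ∈ s, 0 < n) ∧ rsum s = x} rsq (finite_reps t x)
    (by obtain ⟨s, hs⟩ := hspec; exact ⟨s, hs⟩)
  obtain ⟨hc, hpos, hsx⟩ := hs
  have hnodup : s.Nodup := by
    rw [Multiset.nodup_iff_le]
    intro n hn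
    obtain ⟨s', rfl⟩ := Multiset.le_iff_exists_add.1 hn
    have e1 : n ::ₘ n ::ₘ 0 + s' = n ::ₘ n ::ₘ s' := by
      rw [Multiset.cons_add, Multiset.cons_add, zero_add]
    rw [e1] at hc hpos hsx hmax
    have hn0 : 0 < n := hpos n (Multiset.mem_cons_self _ _)
    have hn0' : (0 : ℚ) < n := by exact_mod_cast hn0
    rw [rsum_cons, rsum_cons] at hsx
    rw [Multiset.card_cons, Multiset.card_cons] at hc
    have hs'pos : ∀ k ∈ s', 0 < k := fun k hk =>
      hpos k (Multiset.mem_cons_of_mem (Multiset.mem_cons_of_mem hk))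
    have hs'0 := rsum_nonneg s'
    rcases Nat.even_or_odd n with he | ho
    · obtain ⟨m, hm⟩ := he
      have hm0 : 0 < m := by omega
      have hm0' : (0 : ℚ) < m := by exact_mod_cast hm0
      have h1 := hmin (m ::ₘ s') (by
        intro k hk
        rw [Multiset.mem_cons] at hk
        rcases hk with rfl | hk
        · exact hm0
        · exact hs'pos k hk) (by
          rw [rsum_cons, ← hsx, hm]
          push_cast
          field_simp
          ring)
      rw [Multiset.card_cons] at h1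
      omega
    · obtain ⟨m, hm⟩ := ho
      rcases Nat.eq_zero_or_pos m with rfl | hm0
      · rw [mul_zero, zero_add] at hm
        rw [hm] at hsx
        push_cast at hsx
        linarith
      · -- n = 2m+1, replace by m+1 and n(m+1)
        have hm0' : (0 : ℚ) < m := by exact_mod_cast hm0
        have h1 := hmax ((m + 1) ::ₘ (n * (m + 1)) ::ₘ s') (by
          refine ⟨?_, ?_, ?_⟩
          · rw [Multiset.card_cons, Multiset.card_cons]; exact hc
          · intro k hk
            rw [Multiset.mem_cons, Multiset.mem_cons] at hk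
            rcases hk with rfl | rfl | hk
            · omega
            · positivity
            · exact hs'pos k hk
          · rw [rsum_cons, rsum_cons, ← hsx, hm]
            push_cast
            field_simp
            ring)
        rw [rsq_cons, rsq_cons, rsq_cons, rsq_cons, hm] at h1
        push_cast at h1
        have h2 : (1 : ℚ) / (2 * m + 1) ^ 2 + 1 / (2 * m + 1) ^ 2
            < 1 / (m + 1) ^ 2 + 1 / ((2 * m + 1) * (m + 1)) ^ 2 := by
          rw [← sub_pos]
          have : (1 : ℚ) / (m + 1) ^ 2 + 1 / ((2 * m + 1) * (m + 1)) ^ 2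
            - (1 / (2 * m + 1) ^ 2 + 1 / (2 * m + 1) ^ 2) = (2 * m ^ 2) / ((2 * m + 1) ^ 2 * (m + 1) ^ 2) := by
            field_simp
            ring
          rw [this]
          positivity
        linarith
  have htk : t ≤ k := by
    obtain ⟨s0, h1, h2, h3⟩ := h
    exact (hmin s0 h1 h3).trans h2
  refine ⟨s.toFinset, ?_, ?_, ?_⟩
  · intro n hn
    rw [Multiset.mem_toFinset] at hn
    have hn0 := hpos n hn
    obtain ⟨s', rfl⟩ := Multiset.exists_cons_of_mem hn
    by_contra hlt
    have : n = 1 := by omega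
    rw [this, rsum_cons] at hsx
    have := rsum_nonneg s'
    push_cast at hsx
    linarith
  · rw [Multiset.toFinset_card_of_nodup hnodup]; omega
  · rw [← hsx, rsum, Finset.sum_multiset_map_count]
    refine Finset.sum_congr rfl fun n hn => ?_
    rw [Multiset.mem_toFinset] at hn
    rw [Multiset.count_eq_one_of_mem hnodup hn, one_smul]

end Crest.Agent.H2Egypt
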