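import Mathlib
import Crest.Agent.H2EgyptRep

set_option autoImplicit false
set_option linter.unusedSectionVars false

namespace Crest.Agent.H2Egypt

open Finset

/-- if `a ∣ L + ∑ d` with all `d ∣ L` then `a / L` is a sum of few unit fractions. -/
lemma kill (a L : ℕ) (ha : 0 < a) (hL : 0 < L) (t : Multiset ℕ) (ht : ∀ d ∈ t, d ∣ L)
    (hdvd : a ∣ L + t.sum) : Rep (t.card + 1) ((a : ℚ) / L) := by
  obtain ⟨m, hm⟩ := hdvd
  have hm0 : 0 < m := by
    rcases Nat.eq_zero_or_pos m with h | h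
    · rw [h, mul_zero] at hm; omega
    · exact h
  have hmQ : (0 : ℚ) < m := by exact_mod_cast hm0
  have hLQ : (0 : ℚ) < L := by exact_mod_cast hL
  have haQ : (0 : ℚ) < a := by exact_mod_cast ha
  refine ⟨m ::ₘ t.map (fun d => L / d * m), ?_, ?_, ?_⟩
  · intro n hn
    rw [Multiset.mem_cons, Multiset.mem_map] at hn
    rcases hn with rfl | ⟨d, hd, rfl⟩
    · exact hm0
    · exact Nat.mul_pos (Nat.div_pos (Nat.le_of_dvd hL (ht d hd))
        (Nat.pos_of_dvd_of_pos (ht d hd) hL)) hm0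
  · rw [Multiset.card_cons, Multiset.card_map]
  · rw [rsum_cons]
    have h1 : ∀ s : Multiset ℕ, (∀ d ∈ s, d ∣ L) →
        rsum (s.map (fun d => L / d * m)) = (s.sum : ℚ) / (L * m) := by
      intro s
      induction s using Multiset.induction with
      | empty => intro _; simp [rsum_zero]
      | cons d s ih =>
        intro hs
        rw [Multiset.map_cons, rsum_cons, ih (fun e he => hs e (Multiset.mem_cons_of_mem he)),
          Multiset.sum_cons]
        have hd : d ∣ L := hs d (Multiset.mem_cons_self _ _)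
        have hd0 : 0 < d := Nat.pos_of_dvd_of_pos hd hL
        have hdQ : (0 : ℚ) < d := by exact_mod_cast hd0
        push_cast
        rw [Nat.cast_div hd hdQ.ne']
        field_simp
    rw [h1 t ht]
    have h2 : (L : ℚ) + (t.sum : ℕ) = a * m := by exact_mod_cast hm
    field_simp
    linarith

/-- pigeonhole -/
lemma pigeon (n : ℕ) (r : Fin n → ℕ) (f : ℕ → ℕ)
    (h : ∀ i, ∀ s ≤ n, ∀ t ≤ n, r i ∣ f s → r i ∣ f t → s = t) :
    ∃ t ≤ n, ∀ i, ¬ r i ∣ f t := by
  by_contra hcon
  push Not at hcon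
  choose g hg using hcon
  have hinj : Function.Injective (fun t : Fin (n + 1) => g t.1 (by omega)) := by
    intro s t hst
    simp only at hst
    apply Fin.ext
    refine h (g s.1 (by omega)) s.1 (by omega) t.1 (by omega) (hg _ _) ?_
    rw [hst]
    exact hg _ _
  have := Fintype.card_le_of_injective _ hinj
  rw [Fintype.card_fin, Fintype.card_fin] at this
  omega

lemma avoid_one (n : ℕ) (r : Fin n → ℕ) (hr : ∀ i, (r i).Prime) (hrn : ∀ i, n < r i) (F : ℕ)
    (hF : ∀ i, ¬ r i ∣ F) (Q : ℕ) (hQ : n ≤ Q) :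
    ∃ t ≤ n, ∀ i, (r i).Coprime (1 + F * (Q - t)) := by
  have key : ∀ i, ∀ s ≤ n, ∀ t ≤ n, s < t → r i ∣ 1 + F * (Q - s) → r i ∣ 1 + F * (Q - t) → False := by
    intro i s hs t ht hst h1 h2
    have h3 : r i ∣ (1 + F * (Q - s)) - (1 + F * (Q - t)) := Nat.dvd_sub h1 h2
    have h4 : (1 + F * (Q - s)) - (1 + F * (Q - t)) = F * (t - s) := by
      rw [Nat.add_sub_add_left, ← Nat.mul_sub]
      congr 1
      omega
    rw [h4] at h3
    rcases (Nat.Prime.dvd_mul (hr i)).1 h3 with h5 | h5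
    · exact hF i h5
    · have := Nat.le_of_dvd (by omega) h5
      have := hrn i
      omega
  obtain ⟨t, ht, h⟩ := pigeon n r (fun t => 1 + F * (Q - t)) (by
    intro i s hs t ht h1 h2
    rcases Nat.lt_trichotomy s t with h | h | h
    · exact (key i s hs t ht h h1 h2).elim
    · exact h
    · exact (key i t ht s hs h h2 h1).elim)
  exact ⟨t, ht, fun i => (Nat.Prime.coprime_iff_not_dvd (hr i)).2 (h i)⟩

lemma avoid_two (n : ℕ) (r : Fin n → ℕ) (hr : ∀ i, (r i).Prime) (hrn : ∀ i, n < r i)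
    (c : ℕ) (hc : n + 2 ≤ c) :
    ∃ t ≤ n, ∀ i, (r i).Coprime (c - (t + 1)) := by
  have key : ∀ i, ∀ s ≤ n, ∀ t ≤ n, s < t → r i ∣ c - (s + 1) → r i ∣ c - (t + 1) → False := by
    intro i s hs t ht hst h1 h2
    have h3 : r i ∣ (c - (s + 1)) - (c - (t + 1)) := Nat.dvd_sub h1 h2
    have h4 : (c - (s + 1)) - (c - (t + 1)) = t - s := by omega
    rw [h4] at h3
    have := Nat.le_of_dvd (by omega) h3
    have := hrn i
    omega
  obtain ⟨t, ht, h⟩ := pigeon n r (fun t => c - (t + 1)) (by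
    intro i s hs t ht h1 h2
    rcases Nat.lt_trichotomy s t with h | h | h
    · exact (key i s hs t ht h h1 h2).elim
    · exact h
    · exact (key i t ht s hs h h2 h1).elim)
  exact ⟨t, ht, fun i => (Nat.Prime.coprime_iff_not_dvd (hr i)).2 (h i)⟩

lemma split_smooth (F : ℕ) : ∀ E c, 1 ≤ c → c < 2 ^ E →
    ∃ f g, c = f * g ∧ g.Coprime F ∧ f ∣ F ^ E := by
  intro E
  induction E with
  | zero => intro c h1 h2; simp at h2; omega
  | succ E ih =>
    intro c h1 h2
    by_cases h : c.Coprime F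
    · exact ⟨1, c, by simp, h, one_dvd _⟩
    · obtain ⟨d, hd⟩ : ∃ d, d = Nat.gcd c F := ⟨_, rfl⟩
      have hd1 : d ≠ 1 := by
        intro h3; exact h (by rw [Nat.coprime_iff_gcd_eq_one, ← hd, h3])
      have hd0 : 0 < d := by rw [hd]; exact Nat.gcd_pos_of_pos_left _ (by omega)
      obtain ⟨c', hc'⟩ : d ∣ c := hd ▸ Nat.gcd_dvd_left _ _
      have hdF : d ∣ F := hd ▸ Nat.gcd_dvd_right _ _
      have hc'0 : 1 ≤ c' := by
        rcases Nat.eq_zero_or_pos c' with h3 | h3
        · rw [h3, mul_zero] at hc'; omega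
        · exact h3
      have h3 : 2 * c' ≤ c := by rw [hc']; exact Nat.mul_le_mul_right _ (by omega)
      rw [pow_succ] at h2
      obtain ⟨f, g, h4, h5, h6⟩ := ih c' hc'0 (by omega)
      refine ⟨d * f, g, ?_, h5, ?_⟩
      · rw [hc', h4]; ring
      · rw [pow_succ, mul_comm]; exact mul_dvd_mul h6 hdF

/-- the killing property -/
def Killer (w F M : ℕ) {n : ℕ} (r : Fin n → ℕ) : Prop :=
  ∀ a L : ℕ, 1 ≤ a → a ≤ 2 ^ w → a.Coprime F → (∀ i, (r i).Coprime a) → 0 < L → M ∣ L →
    Rep 17 ((a : ℚ) / L)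

lemma base_one {w F M n : ℕ} {r : Fin n → ℕ} (hK : Killer w F M r) (E c L : ℕ) (hc1 : 1 ≤ c)
    (hcE : c < 2 ^ E) (hcw : c ≤ 2 ^ w) (hcr : ∀ i, (r i).Coprime c) (hL : 0 < L)
    (hML : M * F ^ E ∣ L) : Rep 17 ((c : ℚ) / L) := by
  obtain ⟨f, g, h1, h2, h3⟩ := split_smooth F E c hc1 hcE
  have hf0 : 0 < f := by
    rcases Nat.eq_zero_or_pos f with h | h
    · rw [h, zero_mul] at h1; omega
    · exact h
  have hg0 : 0 < g := by
    rcases Nat.eq_zero_or_pos g with h | h
    · rw [h, mul_zero] at h1; omega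
    · exact h
  have h4 : M * f ∣ L := (mul_dvd_mul_left _ h3).trans hML
  obtain ⟨L', hL'⟩ : f ∣ L := (dvd_mul_left _ _).trans h4
  have hL'0 : 0 < L' := by
    rcases Nat.eq_zero_or_pos L' with h | h
    · rw [h, mul_zero] at hL'; omega
    · exact h
  have h5 : M ∣ L' := by
    rw [hL', mul_comm] at h4
    exact Nat.dvd_of_mul_dvd_mul_left hf0 h4
  have h6 : g ≤ c := by rw [h1]; exact Nat.le_mul_of_pos_left _ hf0
  have h7 := hK g L' hg0 (h6.trans hcw) h2 (fun i => Nat.Coprime.coprime_dvd_right ⟨f, by rw [h1]; ring⟩ (hcr i))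
    hL'0 h5
  have hfQ : (0 : ℚ) < f := by exact_mod_cast hf0
  have hLQ : (0 : ℚ) < L' := by exact_mod_cast hL'0
  have h8 : (c : ℚ) / L = g / L' := by
    rw [hL', h1]; push_cast
    field_simp
  rw [h8]; exact h7

lemma base {w F M n : ℕ} {r : Fin n → ℕ} (hK : Killer w F M r) (hr : ∀ i, (r i).Prime)
    (hrn : ∀ i, n + 1 < r i) (E c L : ℕ)
    (hcE : c < 2 ^ E) (hcw : c ≤ 2 ^ w) (hL : 0 < L)
    (hML : M * F ^ E ∣ L) : Rep 34 ((c : ℚ) / L) := by
  have hsmall : ∀ d, 1 ≤ d → d ≤ n + 1 → ∀ i, (r i).Coprime d := by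
    intro d h1 h2 i
    rw [Nat.Prime.coprime_iff_not_dvd (hr i)]
    intro h3
    have := Nat.le_of_dvd (by omega) h3
    have := hrn i
    omega
  rcases Nat.eq_zero_or_pos c with h0 | h0
  · rw [h0]; simpa using Rep.zero 34
  rcases Nat.lt_or_ge c (n + 2) with h1 | h1
  · exact (base_one hK E c L h0 hcE hcw (hsmall c h0 (by omega)) hL hML).mono (by norm_num)
  · obtain ⟨t, ht, h⟩ := avoid_two n r hr (fun i => by have := hrn i; omega) c h1
    have h2 := base_one hK E (t + 1) L (by omega) (by omega) (by omega)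
      (hsmall (t + 1) (by omega) (by omega)) hL hML
    have h3 := base_one hK E (c - (t + 1)) L (by omega) (by omega) (by omega) h hL hML
    have h4 : (c : ℚ) / L = ((t + 1 : ℕ) : ℚ) / L + ((c - (t + 1) : ℕ) : ℚ) / L := by
      rw [← add_div, ← Nat.cast_add]
      congr 2
      omega
    rw [h4]
    exact (h2.add h3).mono (by norm_num)

/-- the digits lemma. -/
lemma digits {w F M n : ℕ} {r : Fin n → ℕ} (hK : Killer w F M r) (hr : ∀ i, (r i).Prime)
    (hrn : ∀ i, n + 1 < r i) (hrF : ∀ i, ¬ r i ∣ F) (hF : 0 < F) (E w' : ℕ)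
    (hE : F * (n + 2) ≤ 2 ^ E) (hw : F * (n + 2) * 2 ^ w' ≤ 2 ^ w) :
    ∀ J c L : ℕ, c < F * (n + 2) * 2 ^ (w' * J) → 0 < L → M * F ^ E * 2 ^ (w' * J) ∣ L →
      Rep (17 * J + 34) ((c : ℚ) / L) := by
  intro J
  induction J with
  | zero =>
    intro c L hc hL hML
    rw [mul_zero, pow_zero, mul_one] at hc hML
    have h1 : F * (n + 2) ≤ 2 ^ w := (Nat.le_mul_of_pos_right _ (by positivity)).trans hw
    exact (base hK hr hrn E c L (by omega) (by omega) hL hML).mono (by norm_num)
  | succ J ih =>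
    intro c L hc hL hML
    obtain ⟨B, hB⟩ : ∃ B, B = 2 ^ (w' * J) := ⟨_, rfl⟩
    have hB0 : 0 < B := by rw [hB]; positivity
    have hB2 : 2 ^ (w' * (J + 1)) = B * 2 ^ w' := by rw [hB, ← pow_add]; congr 1
    rw [hB2] at hc hML
    rw [← hB] at ih
    have hML' : M * F ^ E * B ∣ L := by
      refine (Dvd.intro (2 ^ w') ?_).trans hML
      ring
    rcases Nat.lt_or_ge c (F * (n + 2) * B) with h1 | h1
    · exact (ih c L h1 hL hML').mono (by omega)
    · -- q = c / B
      obtain ⟨q, hq⟩ : ∃ q, q = c / B := ⟨_, rfl⟩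
      have hq1 : F * (n + 2) ≤ q := by
        rw [hq, Nat.le_div_iff_mul_le hB0]; exact h1
      have hq2 : q < F * (n + 2) * 2 ^ w' := by
        rw [hq, Nat.div_lt_iff_lt_mul hB0]
        calc c < F * (n + 2) * (B * 2 ^ w') := hc
          _ = _ := by ring
      have hcq : c = B * q + c % B := by rw [hq]; exact (Nat.div_add_mod c B).symm
      have hcm : c % B < B := Nat.mod_lt _ hB0
      obtain ⟨Q, hQ⟩ : ∃ Q, Q = (q - 1) / F := ⟨_, rfl⟩
      have hFn : F * (n + 2) = F * n + 2 * F := by ring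
      have hQ1 : n ≤ Q := by
        rw [hQ, Nat.le_div_iff_mul_le hF, mul_comm]
        omega
      have hq3 : q - 1 = F * Q + (q - 1) % F := by rw [hQ]; exact (Nat.div_add_mod _ _).symm
      have hqm : (q - 1) % F < F := Nat.mod_lt _ hF
      obtain ⟨t, ht, hav⟩ := avoid_one n r hr (fun i => by have := hrn i; omega) F hrF Q hQ1
      obtain ⟨a, ha⟩ : ∃ a, a = 1 + F * (Q - t) := ⟨_, rfl⟩
      rw [← ha] at hav
      have hFQ : F * (Q - t) + F * t = F * Q := by rw [← mul_add]; congr 1; omega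
      have hFt : F * t ≤ F * n := Nat.mul_le_mul_left _ ht
      have haq : a ≤ q := by omega
      obtain ⟨e, he⟩ : ∃ e, e = q - a := ⟨_, rfl⟩
      have heq : q = a + e := by omega
      have he2 : e + 1 ≤ F * (n + 1) := by
        have : F * (n + 1) = F * n + F := by ring
        omega
      -- remainder
      obtain ⟨c', hc'⟩ : ∃ c', c' = B * e + c % B := ⟨_, rfl⟩
      have hcc : c = a * B + c' := by
        rw [hc']
        have : B * q = a * B + B * e := by rw [heq]; ring
        omega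
      have hc'lt : c' < F * (n + 2) * B := by
        have h2 : B * (e + 1) ≤ B * (F * (n + 1)) := Nat.mul_le_mul_left _ he2
        have h3 : B * (e + 1) = B * e + B := by ring
        have h4 : F * (n + 2) * B = B * (F * (n + 1)) + F * B := by ring
        omega
      have hrec := ih c' L hc'lt hL hML'
      -- kill
      obtain ⟨L', hL'⟩ : B ∣ L := (dvd_mul_left _ _).trans hML'
      have hL'0 : 0 < L' := by
        rcases Nat.eq_zero_or_pos L' with h | h
        · rw [h, mul_zero] at hL'; omega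
        · exact h
      have hM' : M ∣ L' := by
        have h2 : B * (M * F ^ E) ∣ B * L' := by
          rw [← hL', mul_comm]; exact hML'
        exact (dvd_mul_right _ _).trans (Nat.dvd_of_mul_dvd_mul_left hB0 h2)
      have haF : a.Coprime F := by
        rw [ha]
        exact (Nat.coprime_add_mul_left_left 1 F (Q - t)).2 (Nat.coprime_one_left F)
      have hkill := hK a L' (by omega) (by omega) haF hav hL'0 hM'
      have hBQ : (0 : ℚ) < B := by exact_mod_cast hB0
      have hLQ : (0 : ℚ) < L' := by exact_mod_cast hL'0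
      have h8 : (c : ℚ) / L = (a : ℚ) / L' + (c' : ℚ) / L := by
        rw [hL', hcc]; push_cast
        field_simp
      rw [h8]
      exact (hkill.add hrec).mono (by omega)

/-- greedy steps. -/
lemma greedy (T : ℕ) (s : ℕ) : ∀ (a b P y : ℕ), 0 < b → 1 ≤ y → y * a < b → P ≤ y →
    P ≤ T ^ 2 → T ≤ y ^ (2 ^ s) →
    ∃ a' Q R, 0 < Q ∧ T * a' ≤ b * Q ∧ P * Q ≤ T ^ 2 ∧ Rep s R ∧
      (a : ℚ) / b = R + (a' : ℚ) / (b * Q) := by
  induction s with
  | zero =>
    intro a b P y hb hy hya hPy hPT hTy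
    rw [pow_zero, pow_one] at hTy
    refine ⟨a, 1, 0, one_pos, ?_, by simpa using hPT, Rep.zero 0, by simp⟩
    rw [mul_one]
    exact (Nat.mul_le_mul_right _ hTy).trans hya.le
  | succ s ih =>
    intro a b P y hb hy hya hPy hPT hTy
    rcases Nat.lt_or_ge b (T * a) with h | h
    · have ha : 0 < a := by
        rcases Nat.eq_zero_or_pos a with h0 | h0
        · rw [h0, mul_zero] at h; omega
        · exact h0
      -- m = ⌈b / a⌉ = (b - 1)/a + 1
      obtain ⟨m1, hm1⟩ : ∃ m1, m1 = (b - 1) / a := ⟨_, rfl⟩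
      have h1 : a * m1 < b := by
        have : a * m1 ≤ b - 1 := by rw [hm1]; exact Nat.mul_div_le _ _
        omega
      have h2 : b ≤ a * (m1 + 1) := by
        have := Nat.lt_mul_div_succ (b - 1) ha
        rw [← hm1] at this
        omega
      have h3 : y ≤ m1 := by
        rw [hm1, Nat.le_div_iff_mul_le ha]; omega
      have h4 : m1 + 1 ≤ T := by
        have h5 : a * m1 < a * T := by
          calc a * m1 < b := h1
            _ < T * a := h
            _ = a * T := mul_comm _ _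
        exact Nat.lt_of_mul_lt_mul_left h5
      have hstep : (m1 * (m1 + 1)) * (a * (m1 + 1) - b) < b * (m1 + 1) := by
        have h6 : m1 * (a * (m1 + 1) - b) < b := by
          rw [Nat.mul_sub]
          have h7 : m1 * (a * (m1 + 1)) = (a * m1) * (m1 + 1) := by ring
          have h8 : (a * m1) * (m1 + 1) < b * (m1 + 1) := Nat.mul_lt_mul_of_pos_right h1 (by omega)
          have h9 : b * (m1 + 1) = m1 * b + b := by ring
          omega
        calc (m1 * (m1 + 1)) * (a * (m1 + 1) - b) = (m1 * (a * (m1 + 1) - b)) * (m1 + 1) := by ring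
          _ < b * (m1 + 1) := Nat.mul_lt_mul_of_pos_right h6 (by omega)
      have hP1 : P * (m1 + 1) ≤ m1 * (m1 + 1) := Nat.mul_le_mul_right _ (by omega)
      have hP2 : P * (m1 + 1) ≤ T ^ 2 := by
        calc P * (m1 + 1) ≤ m1 * (m1 + 1) := hP1
          _ ≤ T * T := Nat.mul_le_mul (by omega) h4
          _ = T ^ 2 := by ring
      have hy2 : T ≤ (m1 * (m1 + 1)) ^ (2 ^ s) := by
        calc T ≤ y ^ (2 ^ (s + 1)) := hTy
          _ = (y * y) ^ (2 ^ s) := by rw [← sq, ← pow_mul]; congr 1; ring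
          _ ≤ (m1 * (m1 + 1)) ^ (2 ^ s) :=
            Nat.pow_le_pow_left (Nat.mul_le_mul h3 (by omega)) _
      obtain ⟨a', Q, R, hQ, h5, h6, h7, h8⟩ := ih (a * (m1 + 1) - b) (b * (m1 + 1)) (P * (m1 + 1))
        (m1 * (m1 + 1)) (by positivity) (Nat.mul_pos (by omega) (by omega)) hstep hP1 hP2 hy2
      refine ⟨a', (m1 + 1) * Q, 1 / ((m1 + 1 : ℕ) : ℚ) + R, by positivity, ?_, ?_, ?_, ?_⟩
      · calc T * a' ≤ b * (m1 + 1) * Q := h5
          _ = _ := by ring
      · calc P * ((m1 + 1) * Q) = P * (m1 + 1) * Q := by ring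
          _ ≤ _ := h6
      · exact ((Rep.unit (by omega : 0 < m1 + 1)).add h7).mono (by omega)
      · rw [Nat.cast_sub h2] at h8
        have hbQ : (0 : ℚ) < b := by exact_mod_cast hb
        have hmQ : (0 : ℚ) < (m1 : ℚ) + 1 := by positivity
        have h9 : (a : ℚ) / b = 1 / ((m1 + 1 : ℕ) : ℚ)
          + (((a * (m1 + 1) : ℕ) : ℚ) - b) / ((b * (m1 + 1) : ℕ) : ℚ) := by
          push_cast
          field_simp
          ring
        rw [h9, h8]
        push_cast
        ring
    · exact ⟨a, 1, 0, one_pos, by omega, by simpa using hPT, Rep.zero _, by simp⟩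

end Crest.Agent.H2Egypt
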