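import Mathlib
import Crest.Agent.H2EgyptCount

set_option autoImplicit false
set_option linter.unusedSectionVars false

namespace Crest.Agent.H2Egypt

open Finset

lemma coll_univ_eq_sum {ι : Type*} [Fintype ι] [DecidableEq ι] (q : ℕ) (r : ι → ℕ) :
    coll q r univ = ∑ p : Finset ι × Finset ι, if U r p.1 ≡ U r p.2 [MOD q] then 1 else 0 := by
  classical
  unfold coll
  have hC : (univ.powerset ×ˢ univ.powerset : Finset (Finset ι × Finset ι)) = univ := by
    ext p; simp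
  rw [hC, Finset.card_filter]

/-- expected number of collisions -/
lemma expect (ℓ m : ℕ) (P : Finset ℕ) (hP : ∀ p ∈ P, p.Prime) (Z : ℕ) (hZ : ∀ p ∈ P, p ≤ Z)
    (q : ℕ) :
    ((∑ r ∈ Om (ι := Fin ℓ) P q, coll q r univ : ℕ) : ℝ)
      ≤ 2 ^ m * (7 / 2) ^ ℓ * (P.card : ℝ) ^ ℓ
        + 4 ^ ℓ * ((P.card : ℝ) ^ (ℓ - m) * (((Z : ℝ) ^ m / q + 1) * (m : ℝ) ^ m)) := by
  classical
  have h1 : ∑ r ∈ Om (ι := Fin ℓ) P q, coll q r univ
      = ∑ p : Finset (Fin ℓ) × Finset (Fin ℓ),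
        ((Om (ι := Fin ℓ) P q).filter (fun r => U r p.1 ≡ U r p.2 [MOD q])).card := by
    simp only [coll_univ_eq_sum]
    rw [Finset.sum_comm]
    refine Finset.sum_congr rfl fun p _ => ?_
    rw [Finset.card_filter]
  rw [h1]
  push_cast
  rw [← Finset.sum_filter_add_sum_filter_not univ
    (fun p : Finset (Fin ℓ) × Finset (Fin ℓ) => (p.1 \ p.2).card < m)]
  refine add_le_add ?_ ?_
  · calc _ ≤ ∑ p ∈ univ.filter (fun p : Finset (Fin ℓ) × Finset (Fin ℓ) => (p.1 \ p.2).card < m),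
          (P.card : ℝ) ^ ℓ := by
          refine Finset.sum_le_sum fun p _ => ?_
          have h2 : ((Om (ι := Fin ℓ) P q).filter (fun r => U r p.1 ≡ U r p.2 [MOD q])).card
              ≤ P.card ^ ℓ := by
            refine (Finset.card_le_card (Finset.filter_subset _ _)).trans ?_
            have := card_Om_le (ι := Fin ℓ) P q
            rwa [Fintype.card_fin] at this
          exact_mod_cast h2
      _ ≤ _ := by
          rw [Finset.sum_const, nsmul_eq_mul]
          gcongr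
          exact small_pairs ℓ m
  · calc _ ≤ ∑ p ∈ univ.filter (fun p : Finset (Fin ℓ) × Finset (Fin ℓ) => ¬ (p.1 \ p.2).card < m),
          ((P.card : ℝ) ^ (ℓ - m) * (((Z : ℝ) ^ m / q + 1) * (m : ℝ) ^ m)) := by
          refine Finset.sum_le_sum fun p hp => ?_
          rw [Finset.mem_filter] at hp
          obtain ⟨T, hT, hTc⟩ := Finset.exists_subset_card_eq (not_lt.1 hp.2)
          have h2 := pair_count P hP Z hZ q p.1 p.2 T hT
          rw [hTc, Fintype.card_fin] at h2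
          have h3 : (((Om (ι := Fin ℓ) P q).filter (fun r => U r p.1 ≡ U r p.2 [MOD q])).card : ℝ)
            ≤ (P.card : ℝ) ^ (ℓ - m) * ((((Z ^ m / q : ℕ) : ℝ) + 1) * (m : ℝ) ^ m) := by
            exact_mod_cast h2
          refine h3.trans ?_
          gcongr
          have := @Nat.cast_div_le ℝ _ _ _ (Z ^ m) q
          push_cast at this
          exact this
      _ ≤ _ := by
          rw [Finset.sum_const, nsmul_eq_mul]
          gcongr
          have h4 : (univ.filter (fun p : Finset (Fin ℓ) × Finset (Fin ℓ) => ¬ (p.1 \ p.2).card < m)).card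
              ≤ 4 ^ ℓ := by
            refine (Finset.card_le_univ _).trans (le_of_eq ?_)
            rw [Fintype.card_prod, Fintype.card_finset, Fintype.card_fin, ← mul_pow]
            norm_num
          exact_mod_cast h4

/-- bad sequences. -/
def Bad (n : ℕ) (P : Finset ℕ) (q u : ℕ) : Finset (Fin n → ℕ) :=
  (Om (ι := Fin n) P q).filter (fun r => 4 ^ n < coll q r univ * 2 ^ (6 * u))

lemma markov (ℓ : ℕ) (P : Finset ℕ) (q u : ℕ)
    (h : ((∑ r ∈ Om (ι := Fin ℓ) P q, coll q r univ : ℕ) : ℝ) * 2 ^ (7 * u) ≤ (P.card : ℝ) ^ ℓ * 4 ^ ℓ) :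
    (Bad ℓ P q u).card * 2 ^ u ≤ P.card ^ ℓ := by
  classical
  have h1 : ((Bad ℓ P q u).card : ℝ) * 4 ^ ℓ
      ≤ ((∑ r ∈ Om (ι := Fin ℓ) P q, coll q r univ : ℕ) : ℝ) * 2 ^ (6 * u) := by
    have h2 : (Bad ℓ P q u).card * 4 ^ ℓ ≤ (∑ r ∈ Om (ι := Fin ℓ) P q, coll q r univ) * 2 ^ (6 * u) := by
      calc (Bad ℓ P q u).card * 4 ^ ℓ = ∑ r ∈ Bad ℓ P q u, 4 ^ ℓ := by
            rw [Finset.sum_const, smul_eq_mul]
        _ ≤ ∑ r ∈ Bad ℓ P q u, coll q r univ * 2 ^ (6 * u) := by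
            refine Finset.sum_le_sum fun r hr => ?_
            rw [Bad, Finset.mem_filter] at hr
            exact hr.2.le
        _ ≤ ∑ r ∈ Om (ι := Fin ℓ) P q, coll q r univ * 2 ^ (6 * u) :=
            Finset.sum_le_sum_of_subset (Finset.filter_subset _ _)
        _ = _ := by rw [Finset.sum_mul]
    exact_mod_cast h2
  have h3 : ((Bad ℓ P q u).card : ℝ) * 2 ^ u * 4 ^ ℓ ≤ (P.card : ℝ) ^ ℓ * 4 ^ ℓ := by
    calc ((Bad ℓ P q u).card : ℝ) * 2 ^ u * 4 ^ ℓ = (((Bad ℓ P q u).card : ℝ) * 4 ^ ℓ) * 2 ^ u := by ring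
      _ ≤ (((∑ r ∈ Om (ι := Fin ℓ) P q, coll q r univ : ℕ) : ℝ) * 2 ^ (6 * u)) * 2 ^ u := by gcongr
      _ = ((∑ r ∈ Om (ι := Fin ℓ) P q, coll q r univ : ℕ) : ℝ) * 2 ^ (7 * u) := by ring
      _ ≤ _ := h
  have h4 := le_of_mul_le_mul_right h3 (by positivity)
  exact_mod_cast h4

/-- block embedding -/
def blk (n k ℓ : ℕ) (h : k * ℓ ≤ n) (j : Fin k) : Fin ℓ ↪ Fin n where
  toFun i := ⟨i.1 + ℓ * j.1, by
    have h1 := i.2
    have h2 : j.1 + 1 ≤ k := j.2
    have h3 : ℓ * (j.1 + 1) ≤ ℓ * k := Nat.mul_le_mul_left _ h2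
    have h4 : ℓ * k = k * ℓ := mul_comm _ _
    have h5 : ℓ * (j.1 + 1) = ℓ * j.1 + ℓ := by ring
    omega⟩
  inj' := by
    intro a b hab
    simp only [Fin.mk.injEq] at hab
    exact Fin.ext (by omega)

lemma blocks (n k ℓ : ℕ) (hk : k * ℓ ≤ n) (P : Finset ℕ) (q : ℕ) [NeZero q] (u : ℕ)
    (h : (Bad ℓ P q u).card * 2 ^ u ≤ P.card ^ ℓ) :
    (Bad n P q u).card * 2 ^ (u * k) ≤ P.card ^ n := by
  classical
  -- each block of a bad sequence is bad
  have hbad : ∀ r ∈ Bad n P q u, ∀ j : Fin k, (r ∘ blk n k ℓ hk j) ∈ Bad ℓ P q u := by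
    intro r hr j
    rw [Bad, Finset.mem_filter, mem_Om] at hr ⊢
    obtain ⟨⟨h1, h2⟩, h3⟩ := hr
    refine ⟨⟨fun i => h1 _, fun i => h2 _⟩, ?_⟩
    have h4 := coll_mono q r (univ.map (blk n k ℓ hk j)) univ (Finset.subset_univ _)
      (fun i _ => h2 i)
    rw [coll_map, Finset.card_univ, Fintype.card_fin, Finset.card_map, Finset.card_univ,
      Fintype.card_fin] at h4
    have hln : ℓ ≤ n := by
      have : 1 ≤ k := by have := j.2; omega
      calc ℓ = 1 * ℓ := (one_mul _).symm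
        _ ≤ k * ℓ := Nat.mul_le_mul_right _ this
        _ ≤ n := hk
    have h5 : 4 ^ (n - ℓ) * 4 ^ ℓ = 4 ^ n := by rw [← pow_add]; congr 1; omega
    have h6 : 4 ^ (n - ℓ) * 4 ^ ℓ < 4 ^ (n - ℓ) * (coll q (r ∘ blk n k ℓ hk j) univ * 2 ^ (6 * u)) := by
      rw [h5]
      calc 4 ^ n < coll q r univ * 2 ^ (6 * u) := h3
        _ ≤ (4 ^ (n - ℓ) * coll q (r ∘ blk n k ℓ hk j) univ) * 2 ^ (6 * u) := by gcongr
        _ = _ := by ring
    exact lt_of_mul_lt_mul_left h6 (Nat.zero_le _)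
  -- injection
  let Ψ : (Fin n → ℕ) → (Fin k → (Fin ℓ → ℕ)) × (Fin (n - k * ℓ) → ℕ) := fun r =>
    (fun j => r ∘ blk n k ℓ hk j, fun t => r ⟨t.1 + k * ℓ, by have := t.2; omega⟩)
  have hcard : (Bad n P q u).card ≤ (Bad ℓ P q u).card ^ k * P.card ^ (n - k * ℓ) := by
    have h1 : (Bad n P q u).card ≤ ((Fintype.piFinset (fun _ : Fin k => Bad ℓ P q u)) ×ˢ
        (Fintype.piFinset (fun _ : Fin (n - k * ℓ) => P))).card := by
      refine Finset.card_le_card_of_injOn Ψ ?_ ?_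
      · intro r hr
        rw [Finset.mem_coe] at hr
        rw [Finset.mem_coe, Finset.mem_product, Fintype.mem_piFinset, Fintype.mem_piFinset]
        refine ⟨fun j => hbad r hr j, fun t => ?_⟩
        rw [Bad, Finset.mem_filter, mem_Om] at hr
        exact hr.1.1 _
      · intro r _ r' _ hrr
        simp only [Ψ, Prod.mk.injEq] at hrr
        obtain ⟨h1, h2⟩ := hrr
        funext x
        by_cases hx : x.1 < k * ℓ
        · have hℓ : 0 < ℓ := by
            rcases Nat.eq_zero_or_pos ℓ with h0 | h0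
            · rw [h0] at hx; simp at hx
            · exact h0
          have hj : x.1 / ℓ < k := (Nat.div_lt_iff_lt_mul hℓ).2 hx
          have hi : x.1 % ℓ < ℓ := Nat.mod_lt _ hℓ
          have h3 := congrFun (congrFun h1 ⟨x.1 / ℓ, hj⟩) ⟨x.1 % ℓ, hi⟩
          have h4 : blk n k ℓ hk ⟨x.1 / ℓ, hj⟩ ⟨x.1 % ℓ, hi⟩ = x := by
            apply Fin.ext
            exact Nat.mod_add_div _ _
          simp only [Function.comp] at h3
          rw [h4] at h3
          exact h3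
        · have hx2 := x.2
          have h3 := congrFun h2 ⟨x.1 - k * ℓ, by omega⟩
          have h4 : (⟨x.1 - k * ℓ + k * ℓ, by omega⟩ : Fin n) = x := by
            apply Fin.ext
            simp only
            omega
          simp only [h4] at h3
          exact h3
    refine h1.trans (le_of_eq ?_)
    rw [Finset.card_product, Fintype.card_piFinset, Fintype.card_piFinset, Finset.prod_const,
      Finset.prod_const, Finset.card_univ, Finset.card_univ, Fintype.card_fin, Fintype.card_fin]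
  calc (Bad n P q u).card * 2 ^ (u * k)
      ≤ ((Bad ℓ P q u).card ^ k * P.card ^ (n - k * ℓ)) * 2 ^ (u * k) := by gcongr
    _ = ((Bad ℓ P q u).card * 2 ^ u) ^ k * P.card ^ (n - k * ℓ) := by
        rw [mul_pow, ← pow_mul]; ring
    _ ≤ (P.card ^ ℓ) ^ k * P.card ^ (n - k * ℓ) := by gcongr
    _ = P.card ^ n := by
        rw [← pow_mul, ← pow_add]; congr 1
        rw [mul_comm ℓ k]; omega

end Crest.Agent.H2Egypt
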