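import Mathlib
import Crest.Agent.H2EgyptRandom

set_option autoImplicit false
set_option linter.unusedSectionVars false

namespace Crest.Agent.H2Egypt

open Finset

/-- the pool of primes. -/
def pool (k : ℕ) : Finset ℕ :=
  (Finset.Ioc (2 ^ (32 * k + 10)) (2 ^ (1024 * k))).filter Nat.Prime

lemma k_lt_two_pow (k : ℕ) : k < 2 ^ k := Nat.lt_two_pow_self

lemma pool_card (k : ℕ) (hk : 1 ≤ k) : 2 ^ (1024 * k) ≤ 2048 * k * (pool k).card := by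
  classical
  set Z : ℕ := 2 ^ (1024 * k) with hZ
  set B : ℕ := 2 ^ (32 * k + 10) with hB
  have h1 := Chebyshev.pi_ge Z
  have hlog : Real.log (Z : ℝ) = (1024 * k) * Real.log 2 := by
    rw [hZ]; push_cast; rw [Real.log_pow]; push_cast; ring
  have hlog2 : 0 < Real.log 2 := Real.log_pos (by norm_num)
  have hk' : (1 : ℝ) ≤ k := by exact_mod_cast hk
  have hZ1 : 1 ≤ Z := Nat.one_le_two_pow
  have hZ1' : (1 : ℝ) ≤ (Z : ℝ) := by exact_mod_cast hZ1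
  have hlog3 : Real.log ((Z : ℝ) + 1) ≤ (1024 * k + 1) * Real.log 2 := by
    have : (Z : ℝ) + 1 ≤ 2 * Z := by linarith
    calc Real.log ((Z : ℝ) + 1) ≤ Real.log (2 * Z) := Real.log_le_log (by positivity) this
      _ = _ := by
        rw [Real.log_mul (by norm_num) (by positivity), hlog]; ring
  -- card
  have h2 : Z.primeCounting ≤ (pool k).card + (B + 1) := by
    rw [← Nat.primesLE_card_eq_primeCounting]
    have : Nat.primesLE Z ⊆ pool k ∪ Finset.range (B + 1) := by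
      intro p hp
      rw [Finset.mem_union]
      have hp1 := Nat.prime_of_mem_primesLE hp
      have hp2 := Nat.le_of_mem_primesLE hp
      by_cases h : p < B + 1
      · right; exact Finset.mem_range.2 h
      · left
        rw [pool, Finset.mem_filter, Finset.mem_Ioc]
        exact ⟨⟨by omega, hp2⟩, hp1⟩
    refine (Finset.card_le_card this).trans ((Finset.card_union_le _ _).trans ?_)
    rw [Finset.card_range]
  have h3 : ((Z : ℝ) * Real.log 2 - (1024 * k + 1) * Real.log 2) / ((1024 * k) * Real.log 2)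
      ≤ (pool k).card + (B + 1) := by
    calc _ ≤ ((Z : ℝ) * Real.log 2 - Real.log ((Z : ℝ) + 1)) / Real.log Z := by
          rw [hlog]
          gcongr
      _ ≤ (Z.primeCounting : ℝ) := h1
      _ ≤ _ := by exact_mod_cast h2
  have h4 : ((Z : ℝ) * Real.log 2 - (1024 * k + 1) * Real.log 2) / ((1024 * k) * Real.log 2)
      = ((Z : ℝ) - (1024 * k + 1)) / (1024 * k) := by
    field_simp
  rw [h4, div_le_iff₀ (by positivity)] at h3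
  -- 2048 k (B+3) ≤ Z
  have h5 : 2048 * k * (B + 3) ≤ Z := by
    have h6 : B + 3 ≤ 2 ^ (32 * k + 11) := by
      have : 3 ≤ B := by
        rw [hB]
        calc 3 ≤ 2 ^ 10 := by norm_num
          _ ≤ 2 ^ (32 * k + 10) := Nat.pow_le_pow_right (by norm_num) (by omega)
      rw [show 32 * k + 11 = (32 * k + 10) + 1 by ring, pow_succ, ← hB]
      omega
    have h7 := (k_lt_two_pow k).le
    calc 2048 * k * (B + 3) ≤ 2048 * 2 ^ k * 2 ^ (32 * k + 11) := by gcongr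
      _ = 2 ^ (33 * k + 22) := by
        rw [show (2048 : ℕ) = 2 ^ 11 by norm_num, ← pow_add, ← pow_add]; congr 1; ring
      _ ≤ Z := by
        rw [hZ]; exact Nat.pow_le_pow_right (by norm_num) (by omega)
  have h5' : 2048 * (k : ℝ) * (B + 3) ≤ Z := by exact_mod_cast h5
  have h8 : (Z : ℝ) ≤ 2048 * k * (pool k).card := by nlinarith
  exact_mod_cast h8

lemma pool_prime (k : ℕ) : ∀ p ∈ pool k, p.Prime := fun p hp => (Finset.mem_filter.1 hp).2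

lemma pool_le (k : ℕ) : ∀ p ∈ pool k, p ≤ 2 ^ (1024 * k) := fun p hp =>
  (Finset.mem_Ioc.1 (Finset.mem_filter.1 hp).1).2

lemma pool_gt (k : ℕ) : ∀ p ∈ pool k, 2 ^ (32 * k + 10) < p := fun p hp =>
  (Finset.mem_Ioc.1 (Finset.mem_filter.1 hp).1).1

lemma pow_aux (k : ℕ) (hk : 18 ≤ k) : 8192 * k ≤ 2 ^ k := by
  induction k, hk using Nat.le_induction with
  | base => norm_num
  | succ k hk ih => rw [pow_succ]; omega

lemma term1 (u m : ℕ) (hm : m ≤ 8 * u + 8) (p : ℝ) (hp : 0 ≤ p) (ℓ : ℕ) (hℓ : ℓ = 88 * (u + 1)) :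
    (2 : ℝ) ^ m * (7 / 2) ^ ℓ * p ^ ℓ * 2 ^ (7 * u) ≤ (1 / 2) * (p ^ ℓ * 4 ^ ℓ) := by
  have h1 : (2 : ℝ) ^ m * (7 / 2) ^ ℓ * 2 ^ (7 * u) * 2 ≤ 4 ^ ℓ := by
    have h2 : (7 / 2 : ℝ) ^ ℓ * 2 ^ (16 * (u + 1)) ≤ 4 ^ ℓ := by
      have h3 : (7 / 2 : ℝ) ^ 88 * 2 ^ 16 ≤ 4 ^ 88 := by norm_num
      have h4 : ((7 / 2 : ℝ) ^ 88 * 2 ^ 16) ^ (u + 1) ≤ (4 ^ 88) ^ (u + 1) :=
        pow_le_pow_left₀ (by norm_num) h3 _
      rw [mul_pow, ← pow_mul, ← pow_mul, ← pow_mul, ← hℓ] at h4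
      exact h4
    have h5 : (2 : ℝ) ^ (m + 7 * u + 1) ≤ 2 ^ (16 * (u + 1)) :=
      pow_le_pow_right₀ (by norm_num) (by omega)
    have h6 : (0 : ℝ) ≤ (7 / 2) ^ ℓ := pow_nonneg (by norm_num) _
    calc (2 : ℝ) ^ m * (7 / 2) ^ ℓ * 2 ^ (7 * u) * 2 = (7 / 2) ^ ℓ * 2 ^ (m + 7 * u + 1) := by
          rw [pow_add, pow_add, pow_one]; ring
      _ ≤ (7 / 2) ^ ℓ * 2 ^ (16 * (u + 1)) := mul_le_mul_of_nonneg_left h5 h6
      _ ≤ _ := h2
  have h7 : (0 : ℝ) ≤ p ^ ℓ := pow_nonneg hp _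
  calc (2 : ℝ) ^ m * (7 / 2) ^ ℓ * p ^ ℓ * 2 ^ (7 * u)
      = (1 / 2) * (p ^ ℓ * ((2 : ℝ) ^ m * (7 / 2) ^ ℓ * 2 ^ (7 * u) * 2)) := by ring
    _ ≤ _ := mul_le_mul_of_nonneg_left (mul_le_mul_of_nonneg_left h1 h7) (by norm_num)

lemma term2 (u m ℓ : ℕ) (hm : m ≤ ℓ) (R p Z q : ℝ) (hp : 0 < p) (hR : 0 ≤ R) (hZ0 : 0 ≤ Z)
    (hZ : Z ≤ R * p) (hq : 2 ^ (8 * u) ≤ q) (hqZ : q ≤ Z ^ m)
    (hkey : 4 * (R * m) ^ m ≤ 2 ^ u) :
    4 ^ ℓ * (p ^ (ℓ - m) * ((Z ^ m / q + 1) * (m : ℝ) ^ m)) * 2 ^ (7 * u)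
      ≤ (1 / 2) * (p ^ ℓ * 4 ^ ℓ) := by
  have hq0 : 0 < q := lt_of_lt_of_le (by positivity) hq
  have h1 : (Z ^ m / q + 1) ≤ 2 * (Z ^ m / q) := by
    have : (1 : ℝ) ≤ (Z : ℝ) ^ m / q := by
      rw [le_div_iff₀ hq0, one_mul]; exact hqZ
    linarith
  have h3 : Z ^ m ≤ (R * p) ^ m := pow_le_pow_left₀ hZ0 hZ m
  have h3' : Z ^ m / q ≤ (R * p) ^ m / q := div_le_div_of_nonneg_right h3 hq0.le
  have hm0 : (0 : ℝ) ≤ (m : ℝ) ^ m := by positivity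
  have h7u : (0 : ℝ) < 2 ^ (7 * u) := by positivity
  have h2 : (Z ^ m / q + 1) * (m : ℝ) ^ m * 2 ^ (7 * u) * 2 ≤ p ^ m := by
    have h4 : (Z ^ m / q + 1) ≤ 2 * ((R * p) ^ m / q) := by linarith
    have h5 : (Z ^ m / q + 1) * (m : ℝ) ^ m * 2 ^ (7 * u) * 2
        ≤ (2 * ((R * p) ^ m / q)) * (m : ℝ) ^ m * 2 ^ (7 * u) * 2 := by
      refine mul_le_mul_of_nonneg_right ?_ (by norm_num)
      refine mul_le_mul_of_nonneg_right ?_ h7u.le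
      exact mul_le_mul_of_nonneg_right h4 hm0
    have h6 : (2 * ((R * p) ^ m / q)) * (m : ℝ) ^ m * 2 ^ (7 * u) * 2
        = (4 * (R * m) ^ m) * (2 ^ (7 * u) / q * p ^ m) := by
      rw [mul_pow, mul_pow]; ring
    have h8 : 0 ≤ (2 : ℝ) ^ (7 * u) / q * p ^ m := by positivity
    have h9 : (4 * (R * m) ^ m) * (2 ^ (7 * u) / q * p ^ m) ≤ 2 ^ u * (2 ^ (7 * u) / q * p ^ m) :=
      mul_le_mul_of_nonneg_right hkey h8
    have h10 : (2 : ℝ) ^ u * (2 ^ (7 * u) / q * p ^ m) = 2 ^ (8 * u) / q * p ^ m := by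
      rw [show 8 * u = u + 7 * u by ring, pow_add]; ring
    have h11 : (2 : ℝ) ^ (8 * u) / q ≤ 1 := by rw [div_le_one hq0]; exact hq
    have h12 : (2 : ℝ) ^ (8 * u) / q * p ^ m ≤ 1 * p ^ m :=
      mul_le_mul_of_nonneg_right h11 (by positivity)
    rw [one_mul] at h12
    linarith
  have h13 : p ^ ℓ = p ^ (ℓ - m) * p ^ m := by
    rw [← pow_add]; congr 1; omega
  rw [h13]
  have h14 : (0 : ℝ) ≤ p ^ (ℓ - m) := by positivity
  have h15 : (0 : ℝ) ≤ 4 ^ ℓ := by positivity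
  calc 4 ^ ℓ * (p ^ (ℓ - m) * ((Z ^ m / q + 1) * (m : ℝ) ^ m)) * 2 ^ (7 * u)
      = (1 / 2) * ((p ^ (ℓ - m) * ((Z ^ m / q + 1) * (m : ℝ) ^ m * 2 ^ (7 * u) * 2)) * 4 ^ ℓ) := by
        ring
    _ ≤ _ := mul_le_mul_of_nonneg_left (mul_le_mul_of_nonneg_right
        (mul_le_mul_of_nonneg_left h2 h14) h15) (by norm_num)

lemma key_bound (k u m : ℕ) (hk : 18 ≤ k) (hu : k ≤ u) (hm1 : 1 ≤ m)
    (h2 : 1024 * k * (m - 1) < 8 * u + 8) (hu2 : 8 * u ≤ 2 ^ (32 * k)) :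
    4 * (2048 * k * m) ^ m ≤ 2 ^ u := by
  rcases Nat.lt_or_ge m 2 with h1 | h1
  · have : m = 1 := by omega
    rw [this, pow_one, mul_one]
    calc 4 * (2048 * k) = 8192 * k := by ring
      _ ≤ 2 ^ k := pow_aux k hk
      _ ≤ 2 ^ u := Nat.pow_le_pow_right (by norm_num) hu
  · have h3 : 64 * k * m ≤ u := by
      have h4 : m ≤ 2 * (m - 1) := by omega
      have h5 : 512 * k * m ≤ 1024 * k * (m - 1) := by
        calc 512 * k * m ≤ 512 * k * (2 * (m - 1)) := Nat.mul_le_mul_left _ h4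
          _ = _ := by ring
      have h6 : 512 * k * m = 8 * (64 * k * m) := by ring
      omega
    have h4 : m ≤ 2 ^ (32 * k) := by
      have h5 : m ≤ 64 * k * m := Nat.le_mul_of_pos_left _ (by omega)
      omega
    have h5 : 4 * (2048 * k * m) ≤ 2 ^ (64 * k) := by
      calc 4 * (2048 * k * m) = (8192 * k) * m := by ring
        _ ≤ 2 ^ k * 2 ^ (32 * k) := Nat.mul_le_mul (pow_aux k hk) h4
        _ = 2 ^ (33 * k) := by rw [← pow_add]; congr 1; ring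
        _ ≤ 2 ^ (64 * k) := Nat.pow_le_pow_right (by norm_num) (by omega)
    have h6 : 4 ≤ 4 ^ m := by
      calc 4 = 4 ^ 1 := by norm_num
        _ ≤ 4 ^ m := Nat.pow_le_pow_right (by norm_num) hm1
    calc 4 * (2048 * k * m) ^ m ≤ 4 ^ m * (2048 * k * m) ^ m := Nat.mul_le_mul_right _ h6
      _ = (4 * (2048 * k * m)) ^ m := (mul_pow _ _ _).symm
      _ ≤ (2 ^ (64 * k)) ^ m := Nat.pow_le_pow_left h5 _
      _ = 2 ^ (64 * k * m) := (pow_mul _ _ _).symm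
      _ ≤ 2 ^ u := Nat.pow_le_pow_right (by norm_num) h3

lemma choose_m (Z q : ℕ) (hZ : 2 ≤ Z) (hq : 2 ≤ q) :
    ∃ m, 1 ≤ m ∧ Z ^ (m - 1) < q ∧ q ≤ Z ^ m := by
  have hex : ∃ m, q ≤ Z ^ m := ⟨q, (Nat.lt_pow_self (by omega)).le⟩
  have h1 := Nat.find_spec hex
  have h2 := @Nat.find_min _ _ hex
  have h3 : 1 ≤ Nat.find hex := by
    rcases Nat.eq_zero_or_pos (Nat.find hex) with h0 | h0
    · rw [h0, pow_zero] at h1
      omega
    · exact h0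
  exact ⟨Nat.find hex, h3, not_le.1 (h2 (by omega)), h1⟩

/-- the basic estimate for one block -/
lemma block_estimate (k u q : ℕ) (hk : 18 ≤ k) (hu : k ≤ u) (hq1 : 2 ^ (8 * u) ≤ q)
    (hq2 : q < 2 ^ (8 * u + 8)) (hu2 : 8 * u ≤ 2 ^ (32 * k)) :
    (Bad (88 * (u + 1)) (pool k) q u).card * 2 ^ u ≤ (pool k).card ^ (88 * (u + 1)) := by
  classical
  obtain ⟨ℓ, hℓ⟩ : ∃ ℓ, ℓ = 88 * (u + 1) := ⟨_, rfl⟩
  rw [← hℓ]
  obtain ⟨Z, hZ⟩ : ∃ Z : ℕ, Z = 2 ^ (1024 * k) := ⟨_, rfl⟩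
  have hZ2 : 2 ≤ Z := by
    rw [hZ]
    calc 2 = 2 ^ 1 := by norm_num
      _ ≤ 2 ^ (1024 * k) := Nat.pow_le_pow_right (by norm_num) (by omega)
  have hq0 : 2 ≤ q := by
    calc 2 = 2 ^ 1 := by norm_num
      _ ≤ 2 ^ (8 * u) := Nat.pow_le_pow_right (by norm_num) (by omega)
      _ ≤ q := hq1
  obtain ⟨m, hm1, hm2, hm3⟩ := choose_m Z q hZ2 hq0
  have hmu : m ≤ 8 * u + 8 := by
    have h1 : 2 ^ (m - 1) < 2 ^ (8 * u + 8) := by
      calc 2 ^ (m - 1) ≤ Z ^ (m - 1) := Nat.pow_le_pow_left hZ2 _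
        _ < q := hm2
        _ < _ := hq2
    have := (Nat.pow_lt_pow_iff_right (by norm_num : 1 < 2)).1 h1
    omega
  have hmℓ : m ≤ ℓ := by omega
  have h2 : 1024 * k * (m - 1) < 8 * u + 8 := by
    have h3 : 2 ^ (1024 * k * (m - 1)) < 2 ^ (8 * u + 8) := by
      rw [pow_mul, ← hZ]; exact lt_trans hm2 hq2
    exact (Nat.pow_lt_pow_iff_right (by norm_num : 1 < 2)).1 h3
  have hkey := key_bound k u m hk hu hm1 h2 hu2
  have hR : Z ≤ 2048 * k * (pool k).card := hZ ▸ pool_card k (by omega)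
  obtain ⟨π, hπ⟩ : ∃ π : ℕ, π = (pool k).card := ⟨_, rfl⟩
  rw [← hπ] at hR
  have hπ0 : 0 < π := by
    rcases Nat.eq_zero_or_pos π with h0 | h0
    · rw [h0] at hR; omega
    · exact h0
  rw [← hπ]
  have hex := expect ℓ m (pool k) (pool_prime k) Z (hZ ▸ pool_le k) q
  rw [← hπ] at hex
  have ht1 := term1 u m hmu (π : ℝ) (by positivity) ℓ hℓ
  have ht2 := term2 u m ℓ hmℓ (2048 * k : ℝ) (π : ℝ) (Z : ℝ) (q : ℝ) (by exact_mod_cast hπ0)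
    (by positivity) (by positivity) (by exact_mod_cast hR) (by exact_mod_cast hq1)
    (by exact_mod_cast hm3) (by exact_mod_cast hkey)
  rw [hπ]
  apply markov
  rw [← hπ]
  calc ((∑ r ∈ Om (ι := Fin ℓ) (pool k) q, coll q r univ : ℕ) : ℝ) * 2 ^ (7 * u)
      ≤ (2 ^ m * (7 / 2) ^ ℓ * (π : ℝ) ^ ℓ
        + 4 ^ ℓ * ((π : ℝ) ^ (ℓ - m) * (((Z : ℝ) ^ m / q + 1) * (m : ℝ) ^ m))) * 2 ^ (7 * u) :=
        mul_le_mul_of_nonneg_right hex (by positivity)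
    _ ≤ (1 / 2) * ((π : ℝ) ^ ℓ * 4 ^ ℓ) + (1 / 2) * ((π : ℝ) ^ ℓ * 4 ^ ℓ) := by
        rw [add_mul]; exact add_le_add ht1 ht2
    _ = _ := by ring

end Crest.Agent.H2Egypt
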