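import Mathlib
import Crest.Agent.H2EgyptExists

set_option autoImplicit false
set_option linter.unusedSectionVars false

namespace Crest.Agent.H2Egypt

open Finset

/-- parameter attached to a modulus -/
def uu (q : ℕ) : ℕ := Nat.log 2 q / 8

lemma bad_bound (k q : ℕ) (hk : 18 ≤ k) (hq1 : 2 ^ (8 * k) ≤ q) (hq2 : q ≤ 2 ^ (2 ^ (32 * k))) :
    (Bad (2 ^ (32 * k + 8)) (pool k) q (uu q)).card * 2 ^ (2 * 2 ^ (32 * k))
      ≤ (pool k).card ^ (2 ^ (32 * k + 8)) := by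
  have hq0 : q ≠ 0 := by
    have : 0 < 2 ^ (8 * k) := by positivity
    omega
  have : NeZero q := ⟨hq0⟩
  obtain ⟨u, hu⟩ : ∃ u, u = uu q := ⟨_, rfl⟩
  obtain ⟨w, hw⟩ : ∃ w, w = 2 ^ (32 * k) := ⟨_, rfl⟩
  have hlog1 : 8 * k ≤ Nat.log 2 q := Nat.le_log_of_pow_le (by norm_num) hq1
  have hlog2 : Nat.log 2 q ≤ w := by
    have h1 : 2 ^ Nat.log 2 q ≤ q := Nat.pow_log_le_self 2 hq0
    rw [hw]
    exact (Nat.pow_le_pow_iff_right (by norm_num : 1 < 2)).1 (h1.trans hq2)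
  have hu1 : 8 * u ≤ Nat.log 2 q := by rw [hu, uu]; omega
  have hu2 : Nat.log 2 q < 8 * u + 8 := by rw [hu, uu]; omega
  have hku : k ≤ u := by omega
  have hq3 : 2 ^ (8 * u) ≤ q :=
    (Nat.pow_le_pow_right (by norm_num) hu1).trans (Nat.pow_log_le_self 2 hq0)
  have hq4 : q < 2 ^ (8 * u + 8) := by
    refine lt_of_lt_of_le (Nat.lt_pow_succ_log_self (by norm_num : 1 < 2) q) ?_
    exact Nat.pow_le_pow_right (by norm_num) (by omega)
  have hb := block_estimate k u q hk hku hq3 hq4 (by omega)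
  have hwn : 2 ^ (32 * k + 8) = 256 * w := by rw [pow_add, ← hw]; ring
  rw [← hu, ← hw, hwn]
  have hw2 : 2 ≤ w := by
    rw [hw]
    calc 2 = 2 ^ 1 := by norm_num
      _ ≤ _ := Nat.pow_le_pow_right (by norm_num) (by omega)
  obtain ⟨t, ht⟩ : ∃ t, t = 2 * w / u := ⟨_, rfl⟩
  have ht1 : t * u ≤ 2 * w := by rw [ht]; exact Nat.div_mul_le_self _ _
  have hu0 : 0 < u := by omega
  have ht2 : 2 * w < (t + 1) * u := by
    have := Nat.lt_mul_div_succ (2 * w) hu0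
    rw [← ht] at this
    calc 2 * w < u * (t + 1) := this
      _ = _ := by ring
  have ht3 : 18 * t ≤ 2 * w := by
    calc 18 * t ≤ u * t := Nat.mul_le_mul_right _ (by omega)
      _ = t * u := by ring
      _ ≤ _ := ht1
  have hfit : (t + 1) * (88 * (u + 1)) ≤ 256 * w := by
    have : (t + 1) * (88 * (u + 1)) = 88 * (t * u) + 88 * t + 88 * u + 88 := by ring
    omega
  have hbl := blocks (256 * w) (t + 1) (88 * (u + 1)) hfit (pool k) q u hb
  refine le_trans ?_ hbl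
  refine Nat.mul_le_mul_left _ (Nat.pow_le_pow_right (by norm_num) ?_)
  calc 2 * w ≤ (t + 1) * u := ht2.le
    _ = _ := by ring

lemma union_aux (A w : ℕ) (hA : 0 < A) (hw : 0 < w) (h : A * 2 ^ (2 * w) ≤ 2 ^ w * A) : False := by
  have h4 : 2 ^ (2 * w) ≤ 2 ^ w := by
    rw [mul_comm] at h
    exact Nat.le_of_mul_le_mul_right h hA
  have h5 := (Nat.pow_le_pow_iff_right (by norm_num : 1 < 2)).1 h4
  omega

lemma final_aux (q c u X : ℕ) (hq : q ≤ 2 ^ (8 * u + 8)) (hc : c * 2 ^ (6 * u) ≤ X) :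
    q ^ 3 * c ^ 4 ≤ 2 ^ 24 * X ^ 4 := by
  have hq5 : q ^ 3 ≤ 2 ^ 24 * (2 ^ (6 * u)) ^ 4 := by
    calc q ^ 3 ≤ (2 ^ (8 * u + 8)) ^ 3 := Nat.pow_le_pow_left hq 3
      _ = 2 ^ 24 * (2 ^ (6 * u)) ^ 4 := by
        rw [← pow_mul, ← pow_mul, ← pow_add]; congr 1; ring
  have hc4 := Nat.pow_le_pow_left hc 4
  rw [mul_pow] at hc4
  calc q ^ 3 * c ^ 4 ≤ (2 ^ 24 * (2 ^ (6 * u)) ^ 4) * c ^ 4 :=
        Nat.mul_le_mul_right _ hq5
    _ = 2 ^ 24 * (c ^ 4 * (2 ^ (6 * u)) ^ 4) := by ring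
    _ ≤ _ := Nat.mul_le_mul_left _ hc4

lemma exists_not_bad (k : ℕ) (hk : 18 ≤ k) :
    ∃ r : Fin (2 ^ (32 * k + 8)) → ℕ, (∀ i, r i ∈ pool k) ∧
      ∀ q, 2 ^ (8 * k) ≤ q → q ≤ 2 ^ (2 ^ (32 * k)) → r ∉ Bad (2 ^ (32 * k + 8)) (pool k) q (uu q) := by
  classical
  obtain ⟨w, hw⟩ : ∃ w, w = 2 ^ (32 * k) := ⟨_, rfl⟩
  obtain ⟨n, hn⟩ : ∃ n, n = 2 ^ (32 * k + 8) := ⟨_, rfl⟩
  have hB : ∀ q, 2 ^ (8 * k) ≤ q → q ≤ 2 ^ w →
      (Bad n (pool k) q (uu q)).card * 2 ^ (2 * w) ≤ (pool k).card ^ n := by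
    intro q h1 h2
    rw [hn, hw]
    exact bad_bound k q hk h1 (hw ▸ h2)
  rw [← hn, ← hw]
  by_contra hcon
  push Not at hcon
  have hpos : 0 < (pool k).card := by
    have := pool_card k (by omega)
    have h0 : 0 < 2 ^ (1024 * k) := by positivity
    rcases Nat.eq_zero_or_pos (pool k).card with h | h
    · rw [h] at this; omega
    · exact h
  have hsub : (Fintype.piFinset (fun _ : Fin n => pool k)) ⊆
      (Finset.Icc 1 (2 ^ w)).biUnion
        (fun q => if 2 ^ (8 * k) ≤ q then Bad n (pool k) q (uu q) else ∅) := by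
    intro r hr
    rw [Fintype.mem_piFinset] at hr
    obtain ⟨q, hq1, hq2, hq3⟩ := hcon r hr
    rw [Finset.mem_biUnion]
    refine ⟨q, Finset.mem_Icc.2 ⟨?_, hq2⟩, ?_⟩
    · exact le_trans Nat.one_le_two_pow hq1
    · rw [if_pos hq1]; exact hq3
  have hcard := (Finset.card_le_card hsub).trans Finset.card_biUnion_le
  rw [Fintype.card_piFinset, Finset.prod_const, Finset.card_univ, Fintype.card_fin] at hcard
  have h1 : (∑ q ∈ Finset.Icc 1 (2 ^ w),
      (if 2 ^ (8 * k) ≤ q then Bad n (pool k) q (uu q) else ∅).card) * 2 ^ (2 * w)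
      ≤ 2 ^ w * (pool k).card ^ n := by
    rw [Finset.sum_mul]
    calc ∑ q ∈ Finset.Icc 1 (2 ^ w),
          (if 2 ^ (8 * k) ≤ q then Bad n (pool k) q (uu q) else ∅).card * 2 ^ (2 * w)
        ≤ ∑ q ∈ Finset.Icc 1 (2 ^ w), (pool k).card ^ n := by
          refine Finset.sum_le_sum fun q hq => ?_
          rw [Finset.mem_Icc] at hq
          split_ifs with h
          · exact hB q h hq.2
          · simp
      _ = _ := by
          rw [Finset.sum_const, Nat.card_Icc, smul_eq_mul]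
          simp
  have h2 : (pool k).card ^ n * 2 ^ (2 * w) ≤ 2 ^ w * (pool k).card ^ n :=
    (Nat.mul_le_mul_right _ hcard).trans h1
  have h3 : 0 < (pool k).card ^ n := Nat.pow_pos hpos
  have h6 : 0 < w := by rw [hw]; positivity
  exact union_aux _ w h3 h6 h2

theorem exists_good (k : ℕ) (hk : 18 ≤ k) :
    ∃ r : Fin (2 ^ (32 * k + 8)) → ℕ, (∀ i, (r i).Prime) ∧ (∀ i, 2 ^ (32 * k + 10) < r i) ∧
      (∀ i, r i ≤ 2 ^ (1024 * k)) ∧
      ∀ a, 1 ≤ a → a ≤ 2 ^ (2 ^ (32 * k)) → a.Coprime (2 ^ (8 * k)).factorial →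
        (∀ i, (r i).Coprime a) → ∀ L : ℕ,
        ∃ t : Multiset ℕ, t.card ≤ 16 ∧ (∀ d ∈ t, d ∣ (∏ i, r i) ^ 2) ∧ a ∣ L + t.sum := by
  classical
  obtain ⟨r, hr, hbad⟩ := exists_not_bad k hk
  refine ⟨r, fun i => pool_prime k _ (hr i), fun i => pool_gt k _ (hr i),
    fun i => pool_le k _ (hr i), ?_⟩
  intro a ha1 ha2 haF har L
  have : NeZero a := ⟨by omega⟩
  have H : ∀ q, q ∣ a → 1 < q → 2 ^ 96 < q ∧
      q ^ 3 * (coll q r univ) ^ 4 ≤ 2 ^ 24 * (4 ^ (2 ^ (32 * k + 8))) ^ 4 := by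
    intro q hqa hq1
    have hq2 : 2 ^ (8 * k) < q := by
      by_contra hle
      have h1 : q ∣ (2 ^ (8 * k)).factorial := Nat.dvd_factorial (by omega) (not_lt.1 hle)
      have h2 : q ∣ 1 := by
        have := Nat.dvd_gcd hqa h1
        rwa [Nat.coprime_iff_gcd_eq_one.1 haF] at this
      have := Nat.le_of_dvd one_pos h2
      omega
    refine ⟨lt_of_le_of_lt (Nat.pow_le_pow_right (by norm_num) (by omega)) hq2, ?_⟩
    have hqa' : q ≤ a := Nat.le_of_dvd (by omega) hqa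
    have hq0 : q ≠ 0 := by omega
    have hnb := hbad q hq2.le (hqa'.trans ha2)
    rw [Bad, Finset.mem_filter, not_and] at hnb
    have hOm : r ∈ Om (ι := Fin (2 ^ (32 * k + 8))) (pool k) q := by
      rw [mem_Om]
      exact ⟨hr, fun i => Nat.Coprime.coprime_dvd_right hqa (har i)⟩
    have hc := not_lt.1 (hnb hOm)
    refine final_aux q _ (uu q) _ ?_ hc
    refine (Nat.lt_pow_succ_log_self (by norm_num : 1 < 2) q).le.trans ?_
    refine Nat.pow_le_pow_right (by norm_num) ?_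
    rw [uu]; omega
  obtain ⟨t, ht⟩ := cover r H (-(L : ZMod a))
  refine ⟨Multiset.map (fun j => U r (t j).1 * U r (t j).2) univ.val, ?_, ?_, ?_⟩
  · rw [Multiset.card_map]; simp
  · intro d hd
    rw [Multiset.mem_map] at hd
    obtain ⟨j, _, rfl⟩ := hd
    rw [sq]
    exact mul_dvd_mul (Finset.prod_dvd_prod_of_subset _ _ _ (Finset.subset_univ _))
      (Finset.prod_dvd_prod_of_subset _ _ _ (Finset.subset_univ _))
  · have h1 : (Multiset.map (fun j => U r (t j).1 * U r (t j).2) univ.val).sum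
        = ∑ j, U r (t j).1 * U r (t j).2 := rfl
    rw [h1, ← ZMod.natCast_eq_zero_iff]
    push_cast at ht ⊢
    rw [ht]; ring

end Crest.Agent.H2Egypt
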