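import Mathlib
import Crest.Agent.H2EgyptGood
import Crest.Agent.H2EgyptDigits

set_option autoImplicit false
set_option linter.unusedSectionVars false

namespace Crest.Agent.H2Egypt

open Finset

/-- the abstract assembly. -/
lemma assemble {w F M n : ℕ} {r : Fin n → ℕ} (hK : Killer w F M r) (hr : ∀ i, (r i).Prime)
    (hrn : ∀ i, n + 1 < r i) (hrF : ∀ i, ¬ r i ∣ F) (hF : 0 < F) (hM : 0 < M) (E w' : ℕ)
    (hE : F * (n + 2) ≤ 2 ^ E) (hw : F * (n + 2) * 2 ^ w' ≤ 2 ^ w) (s J : ℕ)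
    (hs : M * F ^ E ≤ 2 ^ (2 ^ s)) (a b : ℕ) (hab : a < b)
    (hJ : b * (M * F ^ E) ^ 2 ≤ 2 ^ (w' * J)) (hT2 : 2 ≤ M * F ^ E) :
    Rep (s + 34 * J + 69) ((a : ℚ) / b) := by
  obtain ⟨T, hT⟩ : ∃ T, T = M * F ^ E := ⟨_, rfl⟩
  rw [← hT] at hs hJ hT2
  have hT4 : 2 ≤ T ^ 2 := by nlinarith
  -- greedy
  have hgr : ∃ a' b₁ R, 0 < b₁ ∧ T * a' ≤ b₁ ∧ b₁ ≤ b * T ^ 2 ∧ Rep (s + 1) R ∧
      (a : ℚ) / b = R + (a' : ℚ) / b₁ := by
    rcases Nat.lt_or_ge (2 * a) b with h | h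
    · obtain ⟨a', Q, R, h1, h2, h3, h4, h5⟩ := greedy T s a b 1 2 (by omega) (by norm_num) h
        (by norm_num) (by omega) hs
      refine ⟨a', b * Q, R, Nat.mul_pos (by omega) h1, h2, ?_, h4.mono (by omega), ?_⟩
      · exact Nat.mul_le_mul_left _ (by omega)
      · rw [h5]; push_cast; ring
    · obtain ⟨a', Q, R, h1, h2, h3, h4, h5⟩ := greedy T s (2 * a - b) (2 * b) 2 2 (by omega)
        (by norm_num) (by omega) (by norm_num) hT4 hs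
      refine ⟨a', (2 * b) * Q, 1 / ((2 : ℕ) : ℚ) + R, Nat.mul_pos (by omega) h1, h2, ?_,
        ((Rep.unit (by norm_num : 0 < 2)).add h4).mono (by omega), ?_⟩
      · calc 2 * b * Q = b * (2 * Q) := by ring
          _ ≤ _ := Nat.mul_le_mul_left _ h3
      · rw [Nat.cast_sub h] at h5
        have hb0 : (0 : ℚ) < b := by
          have : 0 < b := by omega
          exact_mod_cast this
        have h6 : (a : ℚ) / b = 1 / ((2 : ℕ) : ℚ) + (((2 * a : ℕ) : ℚ) - b) / ((2 * b : ℕ) : ℚ) := by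
          push_cast
          field_simp
          ring
        rw [h6, h5]
        push_cast
        ring
  obtain ⟨a', b₁, R, hb1, hTa, hbT, hR, hx⟩ := hgr
  obtain ⟨D, hD⟩ : ∃ D, D = 2 ^ (w' * J) := ⟨_, rfl⟩
  have hD0 : 0 < D := by rw [hD]; positivity
  rw [← hD] at hJ
  obtain ⟨N, hN⟩ : ∃ N, N = T * D := ⟨_, rfl⟩
  have hN0 : 0 < N := by rw [hN]; exact Nat.mul_pos (by omega) hD0
  have hG : 2 ≤ F * (n + 2) := by
    calc 2 = 1 * 2 := by norm_num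
      _ ≤ F * (n + 2) := Nat.mul_le_mul hF (by omega)
  have hdig : ∀ c L : ℕ, c ≤ D → 0 < L → N ∣ L → Rep (17 * J + 34) ((c : ℚ) / L) := by
    intro c L hc hL hNL
    refine digits hK hr hrn hrF hF E w' hE hw J c L ?_ hL ?_
    · rw [← hD]
      calc c ≤ D := hc
        _ < 2 * D := by omega
        _ ≤ _ := Nat.mul_le_mul_right _ hG
    · rw [← hT, ← hD, ← hN]; exact hNL
  have hu : a' * N / b₁ ≤ D := by
    rw [Nat.div_le_iff_le_mul_add_pred hb1]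
    have : a' * N ≤ b₁ * D := by
      calc a' * N = (T * a') * D := by rw [hN]; ring
        _ ≤ b₁ * D := Nat.mul_le_mul_right _ hTa
    omega
  have hv : a' * N % b₁ ≤ D := by
    have := Nat.mod_lt (a' * N) hb1
    omega
  have h1 := hdig (a' * N / b₁) N hu hN0 dvd_rfl
  have h2 := hdig (a' * N % b₁) (b₁ * N) hv (Nat.mul_pos hb1 hN0) (dvd_mul_left _ _)
  have h3 : (a' : ℚ) / b₁ = ((a' * N / b₁ : ℕ) : ℚ) / N + ((a' * N % b₁ : ℕ) : ℚ) / ((b₁ * N : ℕ) : ℚ) := by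
    have h4 : ((b₁ * (a' * N / b₁) + a' * N % b₁ : ℕ) : ℚ) = ((a' * N : ℕ) : ℚ) := by
      rw [Nat.div_add_mod]
    push_cast at h4 ⊢
    have hNQ : (0 : ℚ) < N := by exact_mod_cast hN0
    have hbQ : (0 : ℚ) < b₁ := by exact_mod_cast hb1
    obtain ⟨U, hU⟩ : ∃ U : ℚ, U = ((a' * N / b₁ : ℕ) : ℚ) := ⟨_, rfl⟩
    obtain ⟨V, hV⟩ : ∃ V : ℚ, V = ((a' * N % b₁ : ℕ) : ℚ) := ⟨_, rfl⟩
    rw [← hU, ← hV] at h4 ⊢
    field_simp
    linarith
  rw [hx, h3]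
  exact (hR.add (h1.add h2)).mono (by omega)

lemma killer_of_good {w F n : ℕ} {r : Fin n → ℕ}
    (h : ∀ a, 1 ≤ a → a ≤ 2 ^ w → a.Coprime F → (∀ i, (r i).Coprime a) → ∀ L : ℕ,
        ∃ t : Multiset ℕ, t.card ≤ 16 ∧ (∀ d ∈ t, d ∣ (∏ i, r i) ^ 2) ∧ a ∣ L + t.sum) :
    Killer w F ((∏ i, r i) ^ 2) r := by
  intro a L h1 h2 h3 h4 hL hML
  obtain ⟨t, ht1, ht2, ht3⟩ := h a h1 h2 h3 h4 L
  exact (kill a L h1 hL t (fun d hd => (ht2 d hd).trans hML) ht3).mono (by omega)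

lemma core (k : ℕ) (hk : 18 ≤ k) (a b : ℕ) (hab : a < b) (hb : b ≤ 2 ^ (2 ^ k)) :
    Rep (2 ^ 30 * k) ((a : ℚ) / b) := by
  obtain ⟨r, hrp, hrgt, hrle, hgood⟩ := exists_good k hk
  have hK := killer_of_good hgood
  obtain ⟨F, hF⟩ : ∃ F, F = (2 ^ (8 * k)).factorial := ⟨_, rfl⟩
  obtain ⟨n, hn⟩ : ∃ n, n = 2 ^ (32 * k + 8) := ⟨_, rfl⟩
  obtain ⟨w, hw⟩ : ∃ w, w = 2 ^ (32 * k) := ⟨_, rfl⟩
  obtain ⟨A, hA⟩ : ∃ A, A = 8 * k * 2 ^ (8 * k) := ⟨_, rfl⟩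
  obtain ⟨E, hE⟩ : ∃ E, E = A + (32 * k + 9) := ⟨_, rfl⟩
  obtain ⟨w', hw'⟩ : ∃ w', w' = 2 ^ (32 * k - 1) := ⟨_, rfl⟩
  obtain ⟨J, hJ⟩ : ∃ J, J = 2 ^ 23 * k := ⟨_, rfl⟩
  obtain ⟨M, hM⟩ : ∃ M, M = (∏ i, r i) ^ 2 := ⟨_, rfl⟩
  have hww' : w = 2 * w' := by
    rw [hw, hw', ← pow_succ']; congr 1; omega
  have hnw : n = 256 * w := by rw [hn, hw, pow_add]; ring
  have hF0 : 0 < F := by rw [hF]; exact Nat.factorial_pos _
  have hFA : F ≤ 2 ^ A := by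
    rw [hF]
    refine (Nat.factorial_le_pow _).trans ?_
    rw [← pow_mul, hA]
  have hkk := pow_aux k hk
  have hA2 : A ≤ 2 ^ (9 * k) := by
    rw [hA]
    calc 8 * k * 2 ^ (8 * k) ≤ 2 ^ k * 2 ^ (8 * k) := Nat.mul_le_mul_right _ (by omega)
      _ = 2 ^ (9 * k) := by rw [← pow_add]; congr 1; ring
  have hE2 : E ≤ 2 ^ (9 * k + 1) := by
    have h1 : 2 ^ k ≤ 2 ^ (9 * k) := Nat.pow_le_pow_right (by norm_num) (by omega)
    rw [pow_succ, hE]; omega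
  have hG : F * (n + 2) ≤ 2 ^ E := by
    have h1 : n + 2 ≤ 2 ^ (32 * k + 9) := by
      have : 2 ^ 1 ≤ 2 ^ (32 * k + 8) := Nat.pow_le_pow_right (by norm_num) (by omega)
      rw [show 32 * k + 9 = (32 * k + 8) + 1 by ring, pow_succ, ← hn]
      omega
    rw [hE, pow_add]
    exact Nat.mul_le_mul hFA h1
  have hEw' : E ≤ w' := by
    rw [hw']
    exact hE2.trans (Nat.pow_le_pow_right (by norm_num) (by omega))
  have hGw : F * (n + 2) * 2 ^ w' ≤ 2 ^ w := by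
    calc F * (n + 2) * 2 ^ w' ≤ 2 ^ w' * 2 ^ w' :=
          Nat.mul_le_mul_right _ (hG.trans (Nat.pow_le_pow_right (by norm_num) hEw'))
      _ = 2 ^ w := by rw [← pow_add, hww']; congr 1; ring
  have hprod : (∏ i, r i) ≤ 2 ^ (1024 * k * n) := by
    calc (∏ i, r i) ≤ ∏ _i : Fin (2 ^ (32 * k + 8)), 2 ^ (1024 * k) :=
          Finset.prod_le_prod' (fun i _ => hrle i)
      _ = 2 ^ (1024 * k * n) := by
          rw [Finset.prod_const, Finset.card_univ, Fintype.card_fin, ← pow_mul, hn]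
  have hMle : M ≤ 2 ^ (2 ^ 19 * k * w) := by
    rw [hM]
    calc (∏ i, r i) ^ 2 ≤ (2 ^ (1024 * k * n)) ^ 2 := Nat.pow_le_pow_left hprod 2
      _ = 2 ^ (2 ^ 19 * k * w) := by
        rw [← pow_mul, hnw]; congr 1; ring
  have hFE : F ^ E ≤ 2 ^ (k * w) := by
    calc F ^ E ≤ (2 ^ A) ^ E := Nat.pow_le_pow_left hFA E
      _ = 2 ^ (A * E) := (pow_mul _ _ _).symm
      _ ≤ 2 ^ (k * w) := by
        refine Nat.pow_le_pow_right (by norm_num) ?_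
        calc A * E ≤ 2 ^ (9 * k) * 2 ^ (9 * k + 1) := Nat.mul_le_mul hA2 hE2
          _ = 2 ^ (18 * k + 1) := by rw [← pow_add]; congr 1; ring
          _ ≤ w := by rw [hw]; exact Nat.pow_le_pow_right (by norm_num) (by omega)
          _ ≤ k * w := Nat.le_mul_of_pos_left _ (by omega)
  obtain ⟨X, hX⟩ : ∃ X, X = k * w := ⟨_, rfl⟩
  have hT : M * F ^ E ≤ 2 ^ ((2 ^ 19 + 1) * X) := by
    calc M * F ^ E ≤ 2 ^ (2 ^ 19 * k * w) * 2 ^ (k * w) := Nat.mul_le_mul hMle hFE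
      _ = _ := by rw [← pow_add, hX]; congr 1; ring
  have hs : M * F ^ E ≤ 2 ^ (2 ^ (33 * k + 20)) := by
    refine hT.trans (Nat.pow_le_pow_right (by norm_num) ?_)
    calc (2 ^ 19 + 1) * X ≤ 2 ^ 20 * X := Nat.mul_le_mul_right _ (by norm_num)
      _ ≤ 2 ^ 20 * (2 ^ k * 2 ^ (32 * k)) := by
        rw [hX, hw]
        exact Nat.mul_le_mul_left _ (Nat.mul_le_mul_right _ (k_lt_two_pow k).le)
      _ = 2 ^ (33 * k + 20) := by rw [← pow_add, ← pow_add]; congr 1; ring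
  have hbT : b * (M * F ^ E) ^ 2 ≤ 2 ^ (w' * J) := by
    have h1 : 2 ^ k ≤ X := by
      rw [hX, hw]
      calc 2 ^ k ≤ 2 ^ (32 * k) := Nat.pow_le_pow_right (by norm_num) (by omega)
        _ ≤ _ := Nat.le_mul_of_pos_left _ (by omega)
    calc b * (M * F ^ E) ^ 2 ≤ 2 ^ X * (2 ^ ((2 ^ 19 + 1) * X)) ^ 2 := by
          refine Nat.mul_le_mul ?_ (Nat.pow_le_pow_left hT 2)
          exact hb.trans (Nat.pow_le_pow_right (by norm_num) h1)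
      _ = 2 ^ (X + (2 ^ 19 + 1) * X * 2) := by rw [← pow_mul, ← pow_add]
      _ ≤ 2 ^ (w' * J) := by
        refine Nat.pow_le_pow_right (by norm_num) ?_
        have h2 : w' * J = 2 ^ 22 * X := by rw [hX, hww', hJ]; ring
        rw [h2]
        omega
  have hn0 : 0 < 2 ^ (32 * k + 8) := by positivity
  have hM2 : 2 ≤ M := by
    rw [hM]
    have h1 : 1 < r ⟨0, hn0⟩ := (hrp _).one_lt
    have h2 : r ⟨0, hn0⟩ ≤ ∏ i, r i :=
      Nat.le_of_dvd (Finset.prod_pos fun i _ => (hrp i).pos) (Finset.dvd_prod_of_mem _ (Finset.mem_univ _))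
    nlinarith
  have hT2 : 2 ≤ M * F ^ E := by
    calc 2 = 2 * 1 := by norm_num
      _ ≤ M * F ^ E := Nat.mul_le_mul hM2 (Nat.pow_pos hF0)
  have hrn : ∀ i, 2 ^ (32 * k + 8) + 1 < r i := by
    intro i
    have h1 := hrgt i
    have h2 : 2 ^ (32 * k + 10) = 4 * 2 ^ (32 * k + 8) := by rw [pow_add, pow_add]; ring
    omega
  have hrF : ∀ i, ¬ r i ∣ F := by
    intro i h1
    rw [hF, Nat.Prime.dvd_factorial (hrp i)] at h1
    have h2 := hrgt i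
    have h3 : 2 ^ (8 * k) ≤ 2 ^ (32 * k + 10) := Nat.pow_le_pow_right (by norm_num) (by omega)
    omega
  rw [← hM, ← hF, ← hw] at hK
  have hG' : F * (2 ^ (32 * k + 8) + 2) ≤ 2 ^ E := hn ▸ hG
  have hGw' : F * (2 ^ (32 * k + 8) + 2) * 2 ^ w' ≤ 2 ^ w := hn ▸ hGw
  have hfin := assemble hK hrp hrn hrF hF0 (by omega) E w' hG' hGw' (33 * k + 20) J hs a b hab hbT hT2
  refine hfin.mono ?_
  rw [hJ]
  omega

end Crest.Agent.H2Egypt
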