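import Mathlib

/-!
# rid 50 (S0069), lemma GA: the sign function `s` on the two-sphere
-/

namespace Crest.H22Geo

noncomputable section

open Classical in
/-- sign of the first nonzero coordinate (1 for negative) -/
def lsgn (x : EuclideanSpace ℝ (Fin 3)) : ZMod 2 :=
  if x 0 < 0 ∨ (x 0 = 0 ∧ (x 1 < 0 ∨ (x 1 = 0 ∧ x 2 < 0))) then 1 else 0

theorem lsgn_neg (x : EuclideanSpace ℝ (Fin 3)) (hx : x ≠ 0) : lsgn (-x) = lsgn x + 1 := by
  unfold lsgn
  have h0 : (-x) 0 = - x 0 := rfl
  have h1 : (-x) 1 = - x 1 := rfl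
  have h2 : (-x) 2 = - x 2 := rfl
  rw [h0, h1, h2]
  have h11 : (1 : ZMod 2) + 1 = 0 := by decide
  rcases lt_trichotomy (x 0) 0 with a | a | a
  · have : ¬ (-x 0 < 0) := by linarith
    have h' : ¬ (-x 0 = 0) := by linarith
    simp [a, this, h', h11, not_lt.mpr a.le, a.ne]
  · rcases lt_trichotomy (x 1) 0 with b | b | b
    · simp [a, b, h11, b.ne, not_lt.mpr b.le]
    · rcases lt_trichotomy (x 2) 0 with c | c | c
      · simp [a, b, c, h11, not_lt.mpr c.le]
      · exfalso
        apply hx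
        ext i
        fin_cases i
        · exact a
        · exact b
        · exact c
      · simp [a, b, c, not_lt.mpr c.le]
    · simp [a, b, b.ne', not_lt.mpr b.le]
  · simp [a, a.ne', not_lt.mpr a.le]

open Classical in
def sgn (x y : EuclideanSpace ℝ (Fin 3)) : ZMod 2 :=
  if inner ℝ x y = 0 then lsgn x + lsgn y else if inner ℝ x y < 0 then 1 else 0

theorem exists_s : ∃ s : Metric.sphere (0 : EuclideanSpace ℝ (Fin 3)) 1 →
      Metric.sphere (0 : EuclideanSpace ℝ (Fin 3)) 1 → ZMod 2,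
    (∀ x y, s x y = s y x) ∧ (∀ x y, s (-x) y = s x y + 1) ∧ (∀ x, s x x = 0) ∧
    (∀ x y z, s x y ≠ s x z →
      |inner ℝ (x : EuclideanSpace ℝ (Fin 3)) (y : EuclideanSpace ℝ (Fin 3))| ≤ dist y z) := by
  have h11 : (1 : ZMod 2) + 1 = 0 := by decide
  refine ⟨fun x y => sgn x y, ?_, ?_, ?_, ?_⟩
  · intro x y
    show sgn _ _ = sgn _ _
    unfold sgn
    rw [real_inner_comm, add_comm]
  · intro x y
    show sgn _ _ = sgn _ _ + 1
    have hx : (x : EuclideanSpace ℝ (Fin 3)) ≠ 0 := by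
      intro h
      have := x.2
      rw [mem_sphere_zero_iff_norm, h, norm_zero] at this
      exact zero_ne_one this
    have hn : ((-x : Metric.sphere (0 : EuclideanSpace ℝ (Fin 3)) 1) : EuclideanSpace ℝ (Fin 3))
        = -(x : EuclideanSpace ℝ (Fin 3)) := rfl
    unfold sgn
    rw [hn, inner_neg_left, lsgn_neg _ hx]
    rcases lt_trichotomy (inner ℝ (x : EuclideanSpace ℝ (Fin 3))
      (y : EuclideanSpace ℝ (Fin 3))) 0 with a | a | a
    · have h1 : ¬ (-(inner ℝ (x : EuclideanSpace ℝ (Fin 3))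
        (y : EuclideanSpace ℝ (Fin 3))) < 0) := by linarith
      simp [a, h1, h11, a.ne]
    · simp [a]
      ring
    · simp [a, a.ne', not_lt.mpr a.le]
  · intro x
    show sgn _ _ = 0
    unfold sgn
    have h := x.2
    rw [mem_sphere_zero_iff_norm] at h
    rw [real_inner_self_eq_norm_sq, h]
    norm_num
  · intro x y z hne
    by_contra hlt
    push Not at hlt
    apply hne
    have hx := x.2
    rw [mem_sphere_zero_iff_norm] at hx
    have hd : |inner ℝ (x : EuclideanSpace ℝ (Fin 3)) ((y : EuclideanSpace ℝ (Fin 3)) - z)|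
        ≤ dist y z := by
      calc _ ≤ ‖(x : EuclideanSpace ℝ (Fin 3))‖ * ‖(y : EuclideanSpace ℝ (Fin 3)) - z‖ :=
            abs_real_inner_le_norm _ _
        _ = dist y z := by rw [hx, one_mul, Subtype.dist_eq, dist_eq_norm]
    rw [inner_sub_right] at hd
    show sgn _ _ = sgn _ _
    unfold sgn
    have hd0 : (0 : ℝ) ≤ dist y z := dist_nonneg
    rcases lt_trichotomy (inner ℝ (x : EuclideanSpace ℝ (Fin 3))
      (y : EuclideanSpace ℝ (Fin 3))) 0 with a | a | a
    · rw [abs_of_neg a] at hlt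
      have h2 := (abs_le.mp hd).1
      have h3 : inner ℝ (x : EuclideanSpace ℝ (Fin 3)) (z : EuclideanSpace ℝ (Fin 3)) < 0 := by
        linarith
      simp [a, a.ne, h3, h3.ne]
    · rw [a, abs_zero] at hlt
      linarith
    · rw [abs_of_pos a] at hlt
      have h2 := (abs_le.mp hd).2
      have h3 : 0 < inner ℝ (x : EuclideanSpace ℝ (Fin 3)) (z : EuclideanSpace ℝ (Fin 3)) := by
        linarith
      simp [a.ne', h3.ne', not_lt.mpr a.le, not_lt.mpr h3.le]

end

end Crest.H22Geo
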