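import Mathlib

/-!
# Ryser counterexample (S0045, S0046): shared definitions

`F` a finite field with `q` elements.  Directions `Option F` (`some m` = slope `m`, `none` = vertical),
points `F × F`, lines `Option F × F` : the line `(d,c)` is `{P | pos d P = c}`.
Coordinates of the random configuration: `Co F = Option F × Bool`; `ω : Co F → F`;
the special line number `κ` is `sl ω κ = (κ.1, ω κ)`.
-/

set_option autoImplicit false

namespace Crest.Agent.H3Ry

open Finset

/-! ## Probability on finite products -/
section Prob

variable {ι α : Type*} [Fintype ι] [DecidableEq ι] [Fintype α]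

/-- expectation with respect to the uniform measure on `ι → α` -/
noncomputable def EE (f : (ι → α) → ℝ) : ℝ := (∑ ω, f ω) / (Fintype.card (ι → α) : ℝ)

open Classical in
/-- probability with respect to the uniform measure on `ι → α` -/
noncomputable def PP (p : (ι → α) → Prop) : ℝ := EE (fun ω => if p ω then (1 : ℝ) else 0)

/-- coordinates in `s` are taken from `a`, the other ones from `b` -/
def merge (s : Finset ι) (a b : ι → α) : ι → α := fun i => if i ∈ s then a i else b i

/-- `f` depends only on the coordinates in `s` -/
def DepOn {β : Type*} (f : (ι → α) → β) (s : Finset ι) : Prop :=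
  ∀ ω ω' : ι → α, (∀ i ∈ s, ω i = ω' i) → f ω = f ω'

end Prob

/-! ## Geometry of the affine plane -/
section Geo

variable {F : Type*} [Field F] [Fintype F] [DecidableEq F]

/-- position of the point `P` in the parallel class `d` -/
def pos : Option F → F × F → F
  | some m, P => P.2 - m * P.1
  | none, P => P.1

/-- the points of a line -/
def pts (l : Option F × F) : Finset (F × F) := univ.filter (fun P => pos l.1 P = l.2)

/-- number of lines of `S` through `P` -/
def mu (S : Finset (Option F × F)) (P : F × F) : ℕ := (S.filter (fun l => pos l.1 P = l.2)).card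

/-- points covered by `S` -/
def cov (S : Finset (Option F × F)) : Finset (F × F) := univ.filter (fun P => 0 < mu S P)

/-- points not covered by `S` -/
def unc (S : Finset (Option F × F)) : Finset (F × F) := univ.filter (fun P => mu S P = 0)

/-- special line number `κ` of the configuration `ω` -/
def sl (ω : Option F × Bool → F) (κ : Option F × Bool) : Option F × F := (κ.1, ω κ)

/-- the (indices of) special lines through `P` -/
def hs (ω : Option F × Bool → F) (P : F × F) : Finset (Option F × Bool) :=
  univ.filter (fun κ => ω κ = pos κ.1 P)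

/-- zero set of a configuration; the law of `hs ω P` is that of `zs ω`, for every `P` -/
def zs (ω : Option F × Bool → F) : Finset (Option F × Bool) := univ.filter (fun κ => ω κ = 0)

end Geo

/-! ## Groups, patterns, statuses -/

/-- a partition of the directions into `N` groups, and a sign pattern for every direction -/
structure Sys (F : Type*) (N : ℕ) where
  grp : Option F → Fin N
  sg : Option F → Fin N → Bool

namespace Sys

variable {F : Type*} [Field F] [Fintype F] [DecidableEq F] {N : ℕ}

/-- the pattern of the word `(i,a)` -/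
def pat (Y : Sys F N) (i : Option F) (a : Bool) (j : Fin N) : Bool := xor a (Y.sg i j)

/-- the directions of group `j` -/
def B (Y : Sys F N) (j : Fin N) : Finset (Option F) := univ.filter (fun d => Y.grp d = j)

/-- groups have almost equal sizes, and different patterns are far apart -/
structure Ok (Y : Sys F N) : Prop where
  lo : ∀ j, Fintype.card F + 1 ≤ N * ((Y.B j).card + 1)
  hi : ∀ j, N * (Y.B j).card ≤ Fintype.card F + 1 + N
  code : ∀ i i' a a', (i, a) ≠ (i', a') →
    N ≤ 8 * (univ.filter (fun j => Y.pat i a j ≠ Y.pat i' a' j)).card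

/-- the word `(i,a)` is hit by the hit set `H` -/
def hit (Y : Sys F N) (H : Finset (Option F × Bool)) (i : Option F) (a : Bool) : Prop :=
  ∃ κ ∈ H, κ.1 ≠ i ∧ Y.pat i a (Y.grp κ.1) = κ.2

/-- status of the points of `X` -/
def inX (Y : Sys F N) (H : Finset (Option F × Bool)) : Prop := ∀ i a, Y.hit H i a

open Classical in
/-- the point set `X` -/
noncomputable def X (Y : Sys F N) (ω : Option F × Bool → F) : Finset (F × F) :=
  univ.filter (fun P => Y.inX (hs ω P))

/-- the (affine part of the) word `(i,a)` : a set of `q` lines, one for each direction `≠ i` -/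
def fw (Y : Sys F N) (ω : Option F × Bool → F) (i : Option F) (a : Bool) :
    Finset (Option F × F) :=
  (univ.filter (fun d : Option F => d ≠ i)).image
    (fun d => sl ω (d, Y.pat i a (Y.grp d)))

/-- coordinate of the line of direction `t` in the word with pattern `ρ` -/
def wl (Y : Sys F N) (ρ : Fin N → Bool) (t : Option F) : Option F × Bool := (t, ρ (Y.grp t))

/-- the opposite coordinate -/
def wl' (Y : Sys F N) (ρ : Fin N → Bool) (t : Option F) : Option F × Bool := (t, !ρ (Y.grp t))

/-- rainbow in group `j` -/
def rb (Y : Sys F N) (j : Fin N) (H : Finset (Option F × Bool)) : Prop :=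
  (∃ d, Y.grp d = j ∧ (d, false) ∈ H) ∧ (∃ d, Y.grp d = j ∧ (d, true) ∈ H)

/-- rainbow in the first half and in the second half of the groups -/
def s12 (Y : Sys F N) (H : Finset (Option F × Bool)) : Prop :=
  (∃ j : Fin N, 2 * j.val < N ∧ Y.rb j H) ∧ (∃ j : Fin N, N ≤ 2 * j.val ∧ Y.rb j H)

/-- double rainbow (possibly twice in the same group, with four different lines) -/
def DR (Y : Sys F N) (H : Finset (Option F × Bool)) : Prop :=
  ∃ d₁ d₂ e₁ e₂ : Option F, d₁ ≠ d₂ ∧ e₁ ≠ e₂ ∧ (d₁, false) ∈ H ∧ (d₂, false) ∈ H ∧
    (e₁, true) ∈ H ∧ (e₂, true) ∈ H ∧ Y.grp d₁ = Y.grp e₁ ∧ Y.grp d₂ = Y.grp e₂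

/-- `P` (with hit set `H`) is on the line of direction `t` of the word with pattern `ρ`, on no other
line of this word, is in `X` (even if the other special line of direction `t` is ignored), and it is
rainbow in the group of `t`. -/
def Good (Y : Sys F N) (ρ : Fin N → Bool) (t : Option F) (H : Finset (Option F × Bool)) : Prop :=
  Y.wl ρ t ∈ H ∧ (∀ t', t' ≠ t → Y.wl ρ t' ∉ H) ∧
    Y.inX (H.filter (fun κ => κ.1 ≠ t ∨ κ = Y.wl ρ t)) ∧
    ∃ d, d ≠ t ∧ Y.grp d = Y.grp t ∧ (d, !ρ (Y.grp t)) ∈ H

/-- the pattern of index `t` having the same value as `ρ` in the group of `t` -/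
def pt (Y : Sys F N) (ρ : Fin N → Bool) (t : Option F) (j : Fin N) : Bool :=
  Y.pat t (xor (ρ (Y.grp t)) (Y.sg t (Y.grp t))) j

/-- Hamming distance of `ρ` to the pattern `pt ρ t` -/
def dd (Y : Sys F N) (ρ : Fin N → Bool) (t : Option F) : ℕ :=
  (univ.filter (fun j => Y.pt ρ t j ≠ ρ j)).card

/-- probability that a given point of the special line `wl ρ t` is good -/
noncomputable def gp (Y : Sys F N) (ρ : Fin N → Bool) (t : Option F) : ℝ :=
  PP (fun ω : Option F × Bool → F =>
    Y.Good ρ t (insert (Y.wl ρ t) ((zs ω).filter (fun κ => κ.1 ≠ t))))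

/-- density of the points which are rainbow in both halves -/
noncomputable def p12 (Y : Sys F N) : ℝ := PP (fun ω : Option F × Bool → F => Y.s12 (zs ω))

/-- available directions of the cell `(j,v)` when the special lines in `J` are excluded -/
def av (Y : Sys F N) (J : Finset (Option F × Bool)) (j : Fin N) (v : Bool) : Finset (Option F) :=
  (Y.B j).filter (fun d => (d, v) ∉ J)

end Sys

section Cnt
variable {F : Type*} [Field F] [Fintype F] [DecidableEq F]

/-- number of special lines `(d,v)`, `d ∈ I`, through `P` -/
def acnt (ω : Option F × Bool → F) (I : Finset (Option F)) (v : Bool) (P : F × F) : ℕ :=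
  (I.filter (fun d => ω (d, v) = pos d P)).card

/-- number of rainbow incidences in `T` -/
def Rm (T : Finset (F × F)) (I₀ I₁ : Finset (Option F)) (ω : Option F × Bool → F) : ℕ :=
  ∑ P ∈ T, acnt ω I₀ false P * acnt ω I₁ true P

end Cnt

/-- number of groups -/
def NN (q : ℕ) : ℕ := 4 * Nat.log 2 q + 20

end Crest.Agent.H3Ry
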