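import Crest.Agent.H3RyDefs2
import Crest.Agent.H23RyProb
import Crest.Agent.H28RyGeo
import Crest.Agent.H3RyAsy

/-! # Deterministic part of the Ryser counterexample: basic facts, regime S -/

set_option autoImplicit false
set_option linter.unusedSectionVars false

namespace Crest.Agent.H3RyDet
open Finset Crest.Agent.H3Ry Crest.Agent.H23RyProb

section Basic
variable {F : Type} [Field F] [Fintype F] [DecidableEq F] {N : ℕ}

theorem mem_hs {ω : Option F × Bool → F} {P : F × F} {κ : Option F × Bool} :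
    κ ∈ hs ω P ↔ ω κ = pos κ.1 P := by simp [hs]

theorem mem_pts {l : Option F × F} {P : F × F} : P ∈ pts l ↔ pos l.1 P = l.2 := by simp [pts]

theorem mem_pts_sl {ω : Option F × Bool → F} {P : F × F} {κ : Option F × Bool} :
    P ∈ pts (sl ω κ) ↔ κ ∈ hs ω P := by
  rw [mem_pts, mem_hs]; simp only [sl]; exact eq_comm

theorem mu_pos_iff {S : Finset (Option F × F)} {P : F × F} :
    0 < mu S P ↔ ∃ l ∈ S, P ∈ pts l := by
  rw [mu, card_pos]
  constructor
  · rintro ⟨l, hl⟩
    rw [mem_filter] at hl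
    exact ⟨l, hl.1, mem_pts.2 hl.2⟩
  · rintro ⟨l, hl, hP⟩
    exact ⟨l, mem_filter.2 ⟨hl, mem_pts.1 hP⟩⟩

theorem mem_cov {S : Finset (Option F × F)} {P : F × F} :
    P ∈ cov S ↔ ∃ l ∈ S, P ∈ pts l := by
  rw [cov, mem_filter]; simp [mu_pos_iff]

theorem eq_of_two_points {l l' : Option F × F} {P Q : F × F} (h : P ≠ Q)
    (h1 : P ∈ pts l) (h2 : Q ∈ pts l) (h3 : P ∈ pts l') (h4 : Q ∈ pts l') : l = l' := by
  rw [mem_pts] at h1 h2 h3 h4
  have hu := exists_unique_dir h
  have hd : l.1 = l'.1 := hu.unique (by rw [h1, h2]) (by rw [h3, h4])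
  ext
  · rw [hd]
  · rw [← h1, hd, h3]

theorem good_unique {Y : Sys F N} {ρ : Fin N → Bool} {t t' : Option F}
    {H : Finset (Option F × Bool)} (h : Y.Good ρ t H) (h' : Y.Good ρ t' H) : t = t' := by
  by_contra hne
  exact h.2.1 t' (Ne.symm hne) h'.1

theorem inX_mono {Y : Sys F N} {H H' : Finset (Option F × Bool)} (h : H ⊆ H') (hX : Y.inX H) :
    Y.inX H' := by
  intro i a
  obtain ⟨κ, hκ, h1, h2⟩ := hX i a
  exact ⟨κ, h hκ, h1, h2⟩

theorem good_inX {Y : Sys F N} {ρ : Fin N → Bool} {t : Option F}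
    {H : Finset (Option F × Bool)} (h : Y.Good ρ t H) : Y.inX H :=
  inX_mono (filter_subset _ _) h.2.2.1

theorem good_rb {Y : Sys F N} {ρ : Fin N → Bool} {t : Option F}
    {H : Finset (Option F × Bool)} (h : Y.Good ρ t H) : Y.rb (Y.grp t) H := by
  obtain ⟨h1, -, -, d, hd, hg, hd2⟩ := h
  have h1' : (t, ρ (Y.grp t)) ∈ H := h1
  cases hρ : ρ (Y.grp t) with
  | false =>
    rw [hρ] at h1' hd2
    exact ⟨⟨t, rfl, h1'⟩, ⟨d, hg, hd2⟩⟩
  | true =>
    rw [hρ] at h1' hd2
    exact ⟨⟨d, hg, hd2⟩, ⟨t, rfl, h1'⟩⟩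

theorem inX_of_DR {Y : Sys F N} {H : Finset (Option F × Bool)} (h : Y.DR H) : Y.inX H := by
  obtain ⟨d₁, d₂, e₁, e₂, hd, he, hd1, hd2, he1, he2, hg1, hg2⟩ := h
  intro i a
  -- first pair
  by_cases h1 : ∃ κ ∈ ({(d₁, false), (e₁, true)} : Finset (Option F × Bool)),
      κ.1 ≠ i ∧ Y.pat i a (Y.grp κ.1) = κ.2
  · obtain ⟨κ, hκ, h2, h3⟩ := h1
    simp only [mem_insert, mem_singleton] at hκ
    rcases hκ with rfl | rfl
    · exact ⟨_, hd1, h2, h3⟩
    · exact ⟨_, he1, h2, h3⟩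
  · by_cases h2 : ∃ κ ∈ ({(d₂, false), (e₂, true)} : Finset (Option F × Bool)),
      κ.1 ≠ i ∧ Y.pat i a (Y.grp κ.1) = κ.2
    · obtain ⟨κ, hκ, h2, h3⟩ := h2
      simp only [mem_insert, mem_singleton] at hκ
      rcases hκ with rfl | rfl
      · exact ⟨_, hd2, h2, h3⟩
      · exact ⟨_, he2, h2, h3⟩
    · exfalso
      push Not at h1 h2
      have a1 := h1 (d₁, false) (by simp)
      have a2 := h1 (e₁, true) (by simp)
      have b1 := h2 (d₂, false) (by simp)
      have b2 := h2 (e₂, true) (by simp)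
      simp only at a1 a2 b1 b2
      rw [← hg1] at a2
      rw [← hg2] at b2
      have key : ∀ d e : Option F, (d ≠ i → Y.pat i a (Y.grp d) ≠ false) →
          (e ≠ i → Y.pat i a (Y.grp d) ≠ true) →
          (Y.pat i a (Y.grp d) = false ∧ d = i) ∨ (Y.pat i a (Y.grp d) = true ∧ e = i) := by
        intro d e h1 h2
        cases hp : Y.pat i a (Y.grp d) with
        | false =>
          left
          refine ⟨rfl, ?_⟩
          by_contra hne
          exact h1 hne hp
        | true =>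
          right
          refine ⟨rfl, ?_⟩
          by_contra hne
          exact h2 hne hp
      rcases key d₁ e₁ a1 a2 with ⟨p1, q1⟩ | ⟨p1, q1⟩ <;>
      rcases key d₂ e₂ b1 b2 with ⟨p2, q2⟩ | ⟨p2, q2⟩
      · exact hd (q1.trans q2.symm)
      · subst q1
        have : Y.grp d₁ = Y.grp d₂ := by rw [hg2, q2]
        rw [this] at p1
        rw [p1] at p2
        exact Bool.noConfusion p2
      · subst q2
        have : Y.grp d₁ = Y.grp d₂ := by rw [hg1, q1]
        rw [this] at p1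
        rw [p1] at p2
        exact Bool.noConfusion p2
      · exact he (q1.trans q2.symm)

theorem inX_of_s12 {Y : Sys F N} {H : Finset (Option F × Bool)} (h : Y.s12 H) : Y.inX H := by
  obtain ⟨⟨j, hj, ⟨d₁, hd1, hd1'⟩, ⟨e₁, he1, he1'⟩⟩, ⟨k, hk, ⟨d₂, hd2, hd2'⟩, ⟨e₂, he2, he2'⟩⟩⟩ := h
  have hjk : j ≠ k := by
    rintro rfl; omega
  apply inX_of_DR
  refine ⟨d₁, d₂, e₁, e₂, ?_, ?_, hd1', hd2', he1', he2', ?_, ?_⟩
  · rintro rfl
    exact hjk (hd1.symm.trans hd2)
  · rintro rfl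
    exact hjk (he1.symm.trans he2)
  · rw [hd1, he1]
  · rw [hd2, he2]

/-- the lines of `S` which are not in the word with pattern `ρ` -/
def Eset (Y : Sys F N) (ω : Option F × Bool → F) (ρ : Fin N → Bool) (S : Finset (Option F × F)) :
    Finset (Option F × F) := S.filter (fun l => sl ω (Y.wl ρ l.1) ≠ l)

/-- the missing directions -/
def Mset (Y : Sys F N) (ω : Option F × Bool → F) (ρ : Fin N → Bool) (S : Finset (Option F × F)) :
    Finset (Option F) := univ.filter (fun t => sl ω (Y.wl ρ t) ∉ S)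

/-- directions of the lines of `S` in the complementary word -/
def Yset (Y : Sys F N) (ω : Option F × Bool → F) (ρ : Fin N → Bool) (S : Finset (Option F × F)) :
    Finset (Option F) := univ.filter (fun t => sl ω (Y.wl' ρ t) ∈ S)

theorem card_dir : Fintype.card (Option F) = Fintype.card F + 1 := Fintype.card_option

theorem sl_fst (ω : Option F × Bool → F) (κ : Option F × Bool) : (sl ω κ).1 = κ.1 := rfl

theorem card_Eset_add {Y : Sys F N} {ω : Option F × Bool → F} {ρ : Fin N → Bool}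
    {S : Finset (Option F × F)} (hS : S.card = Fintype.card F) :
    (Eset Y ω ρ S).card + 1 = (Mset Y ω ρ S).card := by
  classical
  have h1 : (S.filter (fun l => sl ω (Y.wl ρ l.1) = l)).card
      = (univ.filter (fun t : Option F => sl ω (Y.wl ρ t) ∈ S)).card := by
    apply card_bij' (fun l _ => l.1) (fun t _ => sl ω (Y.wl ρ t))
    · intro l hl
      rw [mem_filter] at hl ⊢
      exact ⟨mem_univ _, by rw [hl.2]; exact hl.1⟩
    · intro t ht
      rw [mem_filter] at ht ⊢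
      exact ⟨ht.2, rfl⟩
    · intro l hl
      rw [mem_filter] at hl
      exact hl.2
    · intro t ht
      rfl
  have h2 := card_filter_add_card_filter_not (s := S) (fun l => sl ω (Y.wl ρ l.1) = l)
  have h3 := card_filter_add_card_filter_not (s := (univ : Finset (Option F)))
    (fun t => sl ω (Y.wl ρ t) ∈ S)
  rw [card_univ, card_dir] at h3
  unfold Eset Mset
  simp only [ne_eq]
  omega

/-- a point which is good for a missing direction is covered by a line of `Eset` -/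
theorem exists_cover {Y : Sys F N} {ω : Option F × Bool → F} {ρ : Fin N → Bool}
    {S : Finset (Option F × F)} (hcov : ∀ P ∈ Y.X ω, 0 < mu S P) {t : Option F} {P : F × F}
    (hP : Y.Good ρ t (hs ω P)) (ht : t ∈ Mset Y ω ρ S) :
    ∃ l ∈ Eset Y ω ρ S, P ∈ pts l := by
  have hX : P ∈ Y.X ω := by
    classical
    rw [Sys.X, mem_filter]; exact ⟨mem_univ _, good_inX hP⟩
  obtain ⟨l, hl, hPl⟩ := mu_pos_iff.1 (hcov P hX)
  refine ⟨l, ?_, hPl⟩
  rw [Eset, mem_filter]
  refine ⟨hl, fun h => ?_⟩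
  rw [← h] at hPl
  rw [mem_pts_sl] at hPl
  by_cases hlt : l.1 = t
  · rw [hlt] at h
    rw [Mset, mem_filter] at ht
    rw [h] at ht
    exact ht.2 hl
  · exact hP.2.1 l.1 hlt hPl

open Classical in
/-- number of good points on the line of direction `t` -/
noncomputable def Q (Y : Sys F N) (ω : Option F × Bool → F) (ρ : Fin N → Bool) (t : Option F) :
    Finset (F × F) := (pts (sl ω (Y.wl ρ t))).filter (fun P => Y.Good ρ t (hs ω P))

theorem card_Q_le {Y : Sys F N} {ω : Option F × Bool → F} {ρ : Fin N → Bool}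
    {S : Finset (Option F × F)} (hcov : ∀ P ∈ Y.X ω, 0 < mu S P) {t : Option F}
    (ht : t ∈ Mset Y ω ρ S) : (Q Y ω ρ t).card ≤ (Eset Y ω ρ S).card := by
  classical
  have h : ∀ P ∈ Q Y ω ρ t, ∃ l ∈ Eset Y ω ρ S, P ∈ pts l := by
    intro P hP
    rw [Q, mem_filter] at hP
    exact exists_cover hcov hP.2 ht
  choose! f hf1 hf2 using h
  refine card_le_card_of_injOn f hf1 ?_
  intro P hP P' hP' hPP
  by_contra hne
  have hP2 := hf2 P hP
  have hP2' := hf2 P' hP'
  rw [← hPP] at hP2'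
  rw [mem_coe, Q, mem_filter] at hP hP'
  have := eq_of_two_points hne hP.1 hP'.1 hP2 hP2'
  have h1 := hf1 P (by rw [Q, mem_filter]; exact hP)
  rw [← this, Eset, mem_filter] at h1
  exact h1.2 rfl

theorem card_Mset_pos {Y : Sys F N} {ω : Option F × Bool → F} {ρ : Fin N → Bool}
    {S : Finset (Option F × F)} (hS : S.card = Fintype.card F) : 0 < (Mset Y ω ρ S).card := by
  have := card_Eset_add (Y := Y) (ω := ω) (ρ := ρ) hS
  omega

/-- two different directions: the distances to their patterns are not both small -/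
theorem dd_add {Y : Sys F N} (hY : Y.Ok) (ρ : Fin N → Bool) {t t' : Option F} (h : t ≠ t') :
    N ≤ 8 * (Y.dd ρ t + Y.dd ρ t') := by
  classical
  have hc := hY.code t t' (xor (ρ (Y.grp t)) (Y.sg t (Y.grp t)))
    (xor (ρ (Y.grp t')) (Y.sg t' (Y.grp t'))) (by
      intro h'
      exact h (congrArg Prod.fst h'))
  have hsub : (univ.filter (fun j => Y.pat t (xor (ρ (Y.grp t)) (Y.sg t (Y.grp t))) j ≠
      Y.pat t' (xor (ρ (Y.grp t')) (Y.sg t' (Y.grp t'))) j)) ⊆
      (univ.filter (fun j => Y.pt ρ t j ≠ ρ j)) ∪ (univ.filter (fun j => Y.pt ρ t' j ≠ ρ j)) := by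
    intro j hj
    rw [mem_filter] at hj
    rw [mem_union, mem_filter, mem_filter]
    by_contra hcon
    simp only [mem_univ, true_and, ne_eq, not_or, not_not] at hcon
    apply hj.2
    have h1 := hcon.1
    have h2 := hcon.2
    unfold Sys.pt at h1 h2
    rw [h1, h2]
  have h3 := (card_le_card hsub).trans (card_union_le _ _)
  unfold Sys.dd
  omega

theorem eq_fw {Y : Sys F N} {ω : Option F × Bool → F} {ρ : Fin N → Bool}
    {S : Finset (Option F × F)} (hS : S.card = Fintype.card F) {t : Option F}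
    (hM : Mset Y ω ρ S = {t}) (hd : Y.dd ρ t = 0) :
    S = Y.fw ω t (xor (ρ (Y.grp t)) (Y.sg t (Y.grp t))) := by
  classical
  have hE : Eset Y ω ρ S = ∅ := by
    have := card_Eset_add (Y := Y) (ω := ω) (ρ := ρ) hS
    rw [hM, card_singleton] at this
    rw [← card_eq_zero]; omega
  have hpt : ∀ j, Y.pat t (xor (ρ (Y.grp t)) (Y.sg t (Y.grp t))) j = ρ j := by
    intro j
    unfold Sys.dd at hd
    rw [card_eq_zero, filter_eq_empty_iff] at hd
    have := hd (mem_univ j)
    unfold Sys.pt at this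
    simpa using this
  ext l
  unfold Sys.fw
  rw [mem_image]
  constructor
  · intro hl
    have h1 : sl ω (Y.wl ρ l.1) = l := by
      by_contra hne
      have : l ∈ Eset Y ω ρ S := by rw [Eset, mem_filter]; exact ⟨hl, hne⟩
      rw [hE] at this
      simp at this
    refine ⟨l.1, ?_, ?_⟩
    · rw [mem_filter]
      refine ⟨mem_univ _, ?_⟩
      rintro rfl
      have h2 : l.1 ∈ Mset Y ω ρ S := by rw [hM]; simp
      rw [Mset, mem_filter] at h2
      rw [h1] at h2
      exact h2.2 hl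
    · rw [hpt]
      exact h1
  · rintro ⟨d, hd1, hd2⟩
    rw [mem_filter] at hd1
    rw [hpt] at hd2
    by_contra hl
    have h2 : d ∈ Mset Y ω ρ S := by
      rw [Mset, mem_filter]
      refine ⟨mem_univ _, ?_⟩
      unfold Sys.wl
      rw [hd2]
      exact hl
    rw [hM, mem_singleton] at h2
    exact hd1.2 h2

end Basic

/-- regime S : few missing lines -/
theorem regimeS {F : Type} [Field F] [Fintype F] [DecidableEq F] {N : ℕ} {Y : Sys F N}
    (hY : Y.Ok) {ω : Option F × Bool → F}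
    (hgood : ∀ ρ t, Fintype.card F * Y.gp ρ t - (Fintype.card F : ℝ) ^ (3 / 4 : ℝ)
      ≤ ((Q Y ω ρ t).card : ℝ)) {c : ℝ} (hc : 0 < c)
    (hgp : ∀ ρ t, (N ≤ 16 * Y.dd ρ t → c / N ≤ Y.gp ρ t) ∧
      (0 < Y.dd ρ t → c / (N : ℝ) ^ 2 ≤ Y.gp ρ t))
    (hN : 0 < N)
    (hq : 2 * (N : ℝ) ^ 2 * (Fintype.card F : ℝ) ^ (3 / 4 : ℝ) ≤ c * Fintype.card F)
    {ρ : Fin N → Bool} {S : Finset (Option F × F)}
    (hS : S.card = Fintype.card F) (hcov : ∀ P ∈ Y.X ω, 0 < mu S P)
    (hm : ((Mset Y ω ρ S).card : ℝ) ≤ c / 2 * Fintype.card F / N) :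
    ∃ i a, S = Y.fw ω i a := by
  have hN' : (1 : ℝ) ≤ N := by exact_mod_cast hN
  have hq0 : (0 : ℝ) < Fintype.card F := by exact_mod_cast Fintype.card_pos
  have hq34 : (0 : ℝ) < (Fintype.card F : ℝ) ^ (3 / 4 : ℝ) := by positivity
  have hE := card_Eset_add (Y := Y) (ω := ω) (ρ := ρ) hS
  have hE' : ((Eset Y ω ρ S).card : ℝ) + 1 = (Mset Y ω ρ S).card := by exact_mod_cast hE
  have hsmall : ∀ t ∈ Mset Y ω ρ S, 16 * Y.dd ρ t < N := by
    intro t ht
    by_contra hcon
    push Not at hcon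
    have h1 := (hgp ρ t).1 hcon
    have h2 := hgood ρ t
    have h3 : ((Q Y ω ρ t).card : ℝ) ≤ (Eset Y ω ρ S).card := by
      exact_mod_cast card_Q_le hcov ht
    have h4 : (Fintype.card F : ℝ) * (c / N) ≤ Fintype.card F * Y.gp ρ t := by gcongr
    have h5 : (Fintype.card F : ℝ) ^ (3 / 4 : ℝ) ≤ c / 2 * Fintype.card F / N := by
      rw [le_div_iff₀ (by positivity)]
      have h7 : (N : ℝ) ≤ (N : ℝ) ^ 2 := by nlinarith
      have h8 : (Fintype.card F : ℝ) ^ (3 / 4 : ℝ) * N ≤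
        (Fintype.card F : ℝ) ^ (3 / 4 : ℝ) * (N : ℝ) ^ 2 := by gcongr
      linarith
    have h6 : (Fintype.card F : ℝ) * (c / N) = 2 * (c / 2 * Fintype.card F / N) := by
      field_simp
    linarith
  obtain ⟨t, ht⟩ := card_pos.1 (card_Mset_pos (Y := Y) (ω := ω) (ρ := ρ) hS)
  have hM : Mset Y ω ρ S = {t} := by
    apply eq_singleton_iff_unique_mem.2 ⟨ht, ?_⟩
    intro t' ht'
    by_contra hne
    have h1 := hsmall t ht
    have h2 := hsmall t' ht'
    have h3 := dd_add hY ρ hne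
    omega
  refine ⟨t, _, eq_fw hS hM ?_⟩
  by_contra hd
  have h1 := (hgp ρ t).2 (Nat.pos_of_ne_zero hd)
  have h2 := hgood ρ t
  have h3 : (Q Y ω ρ t).card ≤ (Eset Y ω ρ S).card := card_Q_le hcov ht
  rw [hM, card_singleton] at hE
  have h4 : (Q Y ω ρ t).card = 0 := by omega
  have h4' : ((Q Y ω ρ t).card : ℝ) = 0 := by exact_mod_cast h4
  have h5 : (Fintype.card F : ℝ) * (c / (N : ℝ) ^ 2) ≤ Fintype.card F * Y.gp ρ t := by gcongr
  have h6 : 2 * (Fintype.card F : ℝ) ^ (3 / 4 : ℝ) ≤ (Fintype.card F : ℝ) * (c / (N : ℝ) ^ 2) := by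
    rw [← mul_div_assoc, le_div_iff₀ (by positivity)]
    nlinarith
  linarith

end Crest.Agent.H3RyDet
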