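import Crest.Agent.H3RyDet
import Crest.Agent.H3RyCnt
import Crest.Agent.H23RyKill

/-! # The event of near pencils (regime Ib) -/

set_option autoImplicit false
set_option linter.unusedSectionVars false

namespace Crest.Agent.H3RyDet
open Finset Crest.Agent.H3Ry Crest.Agent.H23RyProb Crest.Agent.H23RyKill

section
variable {F : Type} [Field F] [Fintype F] [DecidableEq F] {N : ℕ}

theorem av_empty (Y : Sys F N) (j : Fin N) (v : Bool) : Y.av ∅ j v = Y.B j := by
  simp [Sys.av]

theorem sum_card_B (Y : Sys F N) : ∑ j, (Y.B j).card = Fintype.card F + 1 := by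
  have h := card_eq_sum_card_fiberwise (f := Y.grp) (s := (univ : Finset (Option F)))
    (t := (univ : Finset (Fin N))) (fun d _ => mem_coe.2 (mem_univ _))
  rw [card_univ, card_dir] at h
  rw [h]
  rfl

theorem B_lo {Y : Sys F N} (hY : Y.Ok) (j : Fin N) (hN : 0 < N) :
    ((Fintype.card F : ℝ) + 1) / N - 1 ≤ (Y.B j).card := by
  have h := hY.lo j
  have h' : ((Fintype.card F : ℝ) + 1) ≤ N * ((Y.B j).card + 1) := by exact_mod_cast h
  have hN' : (0 : ℝ) < N := by exact_mod_cast hN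
  have h2 : ((Fintype.card F : ℝ) + 1) / N ≤ (Y.B j).card + 1 := by
    rw [div_le_iff₀ hN']
    linarith
  linarith

theorem B_hi {Y : Sys F N} (hY : Y.Ok) (j : Fin N) (hN : 0 < N) :
    ((Y.B j).card : ℝ) ≤ ((Fintype.card F : ℝ) + 1) / N + 1 := by
  have h := hY.hi j
  have h' : (N : ℝ) * (Y.B j).card ≤ (Fintype.card F : ℝ) + 1 + N := by exact_mod_cast h
  have hN' : (0 : ℝ) < N := by exact_mod_cast hN
  rw [← sub_le_iff_le_add, le_div_iff₀ hN']
  linarith

end

theorem exp_le_fiftieth {x : ℝ} (hx : x ≤ -49) : Real.exp x ≤ 1 / 50 := by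
  have h1 : (50 : ℝ) ≤ Real.exp (-x) := by
    have := Real.add_one_le_exp (-x)
    linarith
  have h2 : Real.exp x = (Real.exp (-x))⁻¹ := by rw [Real.exp_neg, inv_inv]
  rw [h2, one_div]
  exact inv_anti₀ (by norm_num) h1

theorem Ib_num {q l N lN C s e : ℝ} (hq : 100 ≤ q) (hlN : 0 ≤ lN)
    (hC : 0 ≤ C) (hN : 1 ≤ N) (hs : s ≤ q / 50 + 1) (he : e ≤ q / 125)
    (hK : 10 * (142 + 2 * C) * (1 + lN) ≤ l) :
    (s + e) * (3 * l) + 200 * q * Real.log 2 + (-(1 - 1 / 10) * (q + 1) * (l / 2 - Real.log 4)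
      + C * ((q + 1) * lN + q / N)) ≤ -49 := by
  have hl4 : Real.log 4 ≤ 1.3863 := by
    have h1 : (4 : ℝ) = 2 ^ 2 := by norm_num
    have h2 : Real.log 2 < 0.6931471808 := Real.log_two_lt_d9
    rw [h1, Real.log_pow]
    push_cast
    linarith
  have hl2 : Real.log 2 < 0.6931471808 := Real.log_two_lt_d9
  have hl1 : 1000 ≤ l := by nlinarith
  have h1 : (s + e) * (3 * l) ≤ (q / 50 + 1 + q / 125) * (3 * l) := by
    apply mul_le_mul_of_nonneg_right _ (by linarith)
    linarith
  have h2 : q / N ≤ q := div_le_self (by linarith) hN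
  have h3 : C * ((q + 1) * lN + q / N) ≤ C * (2 * q * lN + q) := by
    apply mul_le_mul_of_nonneg_left _ hC
    have : (q + 1) * lN ≤ 2 * q * lN := by
      apply mul_le_mul_of_nonneg_right _ hlN
      linarith
    linarith
  have h4 : (142 + 2 * C) * (1 + lN) * q ≤ l / 10 * q := by
    apply mul_le_mul_of_nonneg_right _ (by linarith)
    linarith
  have h5 : C * (2 * q * lN + q) + 142 * q ≤ (142 + 2 * C) * (1 + lN) * q := by
    have : 0 ≤ q * lN := by positivity
    have : 0 ≤ C * q := by positivity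
    nlinarith
  have h6 : 200 * q * Real.log 2 ≤ 139 * q := by nlinarith
  have h7 : (-(1 - 1 / 10) * (q + 1) * (l / 2 - Real.log 4)) ≤
      -(45 / 100) * q * l + 1.3 * (q + 1) := by
    nlinarith
  nlinarith

theorem event_Ib : ∃ q₀ : ℕ,
    ∀ (F : Type) [Field F] [Fintype F] [DecidableEq F], q₀ ≤ Fintype.card F →
    ∀ (N : ℕ), N = NN (Fintype.card F) → ∀ (Y : Sys F N), Y.Ok →
    PP (fun ω : Option F × Bool → F => (∀ P, (hs ω P).card ≤ N) ∧
      (∀ d, ω (d, false) ≠ ω (d, true)) ∧ ∃ S : Finset (Option F × F), S.card = Fintype.card F ∧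
        (Fintype.card F : ℝ) * Real.sqrt (Fintype.card F) / 4 ≤ (unc S).card ∧
        ((unc S).card : ℝ) ≤ 1 / 100000 * (Fintype.card F : ℝ) ^ 2 ∧
        ∀ P ∈ unc S, ¬ Y.DR (hs ω P)) ≤ 1 / 50 := by
  obtain ⟨C, q₁, hC, hK2⟩ := K2 (1 / 10) (by norm_num) (by norm_num)
  obtain ⟨q₂, hq₂⟩ := log_NN_le (10 * (142 + 2 * C))
  obtain ⟨q₃, hq₃⟩ := NN_pow_le 0 4 (1 / 10) (by norm_num)
  obtain ⟨q₄, hq₄⟩ := NN_pow_le 1 4 (1 / 2) (by norm_num)
  refine ⟨max (max q₁ q₂) (max (max q₃ q₄) 100), ?_⟩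
  intro F _ _ _ hq N hN Y hY
  classical
  have hqq₁ : q₁ ≤ Fintype.card F := le_trans (by simp) hq
  have hqq₂ := hq₂ (Fintype.card F) (le_trans (by simp) hq)
  have hqq₃ := hq₃ (Fintype.card F) (le_trans (by simp) hq)
  have hqq₄ := hq₄ (Fintype.card F) (le_trans (by simp) hq)
  have hq100 : 100 ≤ Fintype.card F := le_trans (by simp) hq
  rw [← hN] at hqq₂ hqq₃ hqq₄
  have hN20 : 20 ≤ N := by rw [hN]; exact twenty_le_NN _
  have hNpos : 0 < N := by omega
  set q : ℝ := (Fintype.card F : ℝ) with hqdef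
  have hq100' : (100 : ℝ) ≤ q := by rw [hqdef]; exact_mod_cast hq100
  have hN20' : (20 : ℝ) ≤ N := by exact_mod_cast hN20
  have hlq : 0 < Real.log q := Real.log_pos (by linarith)
  have hlN : 0 ≤ Real.log N := Real.log_nonneg (by linarith)
  have hsq : Real.sqrt q = q ^ (1 / 2 : ℝ) := Real.sqrt_eq_rpow q
  have hsq0 : 0 < Real.sqrt q := Real.sqrt_pos.2 (by linarith)
  -- bound for one set
  set bd : ℝ := Real.exp (-(1 - 1 / 10) * (q + 1) * (Real.log q / 2 - Real.log 4)
      + C * ((q + 1) * Real.log N + q / N)) with hbd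
  have hone : ∀ S ∈ univ.filter (fun S : Finset (Option F × F) => S.card = Fintype.card F ∧
      q * Real.sqrt q / 4 ≤ (unc S).card ∧ ((unc S).card : ℝ) ≤ 1 / 100000 * q ^ 2),
      PP (fun ω : Option F × Bool → F => (∀ P, (hs ω P).card ≤ N) ∧
      (∀ d, ω (d, false) ≠ ω (d, true)) ∧ ∀ P ∈ unc S, ¬ Y.DR (hs ω P)) ≤ bd := by
    intro S hS
    rw [mem_filter] at hS
    have hT1 := hS.2.2.1
    have hTpos : 0 < ((unc S).card : ℝ) := lt_of_lt_of_le (by positivity) hT1
    have hbig : q ^ (1.4 : ℝ) ≤ (unc S).card := by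
      refine le_trans ?_ hT1
      rw [le_div_iff₀ (by norm_num), hsq]
      have e1 : q ^ (1.4 : ℝ) * 4 ≤ q ^ (1.4 : ℝ) * q ^ (1 / 10 : ℝ) := by
        gcongr
        simpa using hqq₃
      have e2 : q ^ (1.4 : ℝ) * q ^ (1 / 10 : ℝ) = q ^ (1.5 : ℝ) := by
        rw [← Real.rpow_add (by linarith)]
        norm_num
      have e3 : q * q ^ (1 / 2 : ℝ) = q ^ (1.5 : ℝ) := by
        nth_rewrite 1 [← Real.rpow_one q]
        rw [← Real.rpow_add (by linarith)]
        norm_num
      linarith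
    have h := hK2 F hqq₁ N hN Y hY (unc S) hbig ∅ univ (Fintype.card F + 1) ?_ ?_
    · have h2 : PP (fun ω : Option F × Bool → F => (∀ P, (hs ω P).card ≤ N) ∧
        (∀ d, ω (d, false) ≠ ω (d, true)) ∧ ∀ P ∈ unc S, ¬ Y.DR (hs ω P)) ≤
        PP (fun ω : Option F × Bool → F => (∀ P, (hs ω P \ ∅).card ≤ N) ∧
        ∀ P ∈ unc S, ¬ Y.DR (hs ω P \ ∅)) := by
        simp only [sdiff_empty]
        exact PP_mono (fun ω h => ⟨h.1, h.2.2⟩)
      refine h2.trans (h.trans ?_)
      rw [hbd]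
      apply Real.exp_le_exp.2
      have h3 : Real.log q / 2 - Real.log 4 ≤ Real.log ((unc S).card / q) := by
        have h4 : Real.log q / 2 - Real.log 4 = Real.log (Real.sqrt q / 4) := by
          rw [Real.log_div (by positivity) (by norm_num), Real.log_sqrt (by linarith)]
        rw [h4]
        apply Real.log_le_log (by positivity)
        rw [div_le_div_iff₀ (by norm_num) (by linarith)]
        rw [div_le_iff₀ (by norm_num)] at hT1
        linarith
      have h5 : ((Fintype.card F + 1 : ℕ) : ℝ) = q + 1 := by push_cast; rfl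
      rw [h5]
      have h6 : (q + 1) * (Real.log q / 2 - Real.log 4) ≤
        (q + 1) * Real.log ((unc S).card / q) := by gcongr
      linarith
    · intro j _ v
      rw [av_empty]
      refine le_trans ?_ (B_lo hY j hNpos)
      have h1 : q / (N : ℝ) ^ 3 ≤ q / (2 * N) := by
        apply div_le_div_of_nonneg_left (by linarith) (by positivity)
        have e1 : (400 : ℝ) ≤ (N : ℝ) ^ 2 := by nlinarith
        have e2 : (N : ℝ) ^ 3 = (N : ℝ) ^ 2 * N := by ring
        have e3 : (400 : ℝ) * N ≤ (N : ℝ) ^ 2 * N := by gcongr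
        rw [e2]
        linarith
      have h2 : q / (2 * N) = q / N - q / (2 * N) := by
        field_simp
        ring
      have h3 : 1 ≤ q / (2 * N) := by
        rw [le_div_iff₀ (by positivity)]
        have : q ^ (1 / 2 : ℝ) ≤ q := by
          have := Real.rpow_le_rpow_of_exponent_le (x := q) (by linarith)
            (by norm_num : (1 / 2 : ℝ) ≤ 1)
          rwa [Real.rpow_one] at this
        rw [pow_one] at hqq₄
        linarith
      have h4 : q / N ≤ (q + 1) / N := by gcongr; linarith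
      linarith
    · simp only [av_empty, min_self]
      exact (sum_card_B Y).symm
  -- union bound
  have hunion : PP (fun ω : Option F × Bool → F => (∀ P, (hs ω P).card ≤ N) ∧
      (∀ d, ω (d, false) ≠ ω (d, true)) ∧ ∃ S : Finset (Option F × F), S.card = Fintype.card F ∧
        q * Real.sqrt q / 4 ≤ (unc S).card ∧
        ((unc S).card : ℝ) ≤ 1 / 100000 * q ^ 2 ∧
        ∀ P ∈ unc S, ¬ Y.DR (hs ω P)) ≤
      ((univ.filter (fun S : Finset (Option F × F) => S.card = Fintype.card F ∧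
      q * Real.sqrt q / 4 ≤ (unc S).card ∧ ((unc S).card : ℝ) ≤ 1 / 100000 * q ^ 2)).card : ℝ)
      * bd := by
    refine le_trans ?_ ((PP_exists_le _ (fun (S : Finset (Option F × F))
      (ω : Option F × Bool → F) => (∀ P, (hs ω P).card ≤ N) ∧
      (∀ d, ω (d, false) ≠ ω (d, true)) ∧ ∀ P ∈ unc S, ¬ Y.DR (hs ω P))).trans
      ((sum_le_card_nsmul _ _ _ hone).trans_eq (nsmul_eq_mul _ _)))
    apply PP_mono
    rintro ω ⟨h1, h2, S, h3, h4, h5, h6⟩
    exact ⟨S, by rw [mem_filter]; exact ⟨mem_univ _, h3, h4, h5⟩, h1, h2, h6⟩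
  refine hunion.trans ?_
  -- counting
  set s₀ : ℕ := Fintype.card F / 50 + 1 with hs₀
  set e₀ : ℕ := Fintype.card F / 125 with he₀
  have hs₀lo : q / 50 ≤ (s₀ : ℝ) := by
    have h1 : Fintype.card F ≤ 50 * s₀ := by omega
    have h2 : q ≤ 50 * (s₀ : ℝ) := by rw [hqdef]; exact_mod_cast h1
    linarith
  have hs₀hi : (s₀ : ℝ) ≤ q / 50 + 1 := by
    have h1 : 50 * s₀ ≤ Fintype.card F + 50 := by omega
    have h2 : 50 * (s₀ : ℝ) ≤ q + 50 := by rw [hqdef]; exact_mod_cast h1
    linarith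
  have he₀hi : (e₀ : ℝ) ≤ q / 125 := by
    have h1 : 125 * e₀ ≤ Fintype.card F := by omega
    have h2 : 125 * (e₀ : ℝ) ≤ q := by rw [hqdef]; exact_mod_cast h1
    linarith
  have he₀lo : q / 125 < (e₀ : ℝ) + 1 := by
    have h1 : Fintype.card F < 125 * (e₀ + 1) := by omega
    have h2 : q < 125 * ((e₀ : ℝ) + 1) := by rw [hqdef]; exact_mod_cast h1
    linarith
  have hcnt := card_few_unc (F := F) s₀ e₀ (200 * Fintype.card F) (by omega) (by omega)
    (1 / 100000 * q ^ 2) (by
      have h1 : q / 125 * (q / 50) < ((e₀ : ℝ) + 1) * s₀ := by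
        apply mul_lt_mul he₀lo hs₀lo (by positivity) (by positivity)
      have h2 : q / 125 * (q / 50) = 16 * (1 / 100000 * q ^ 2) := by ring
      linarith) (by
      have h1 : Fintype.card F ≤ 50 * s₀ := by omega
      have h2 : 0 < s₀ := by omega
      nlinarith)
  have hsub : (univ.filter (fun S : Finset (Option F × F) => S.card = Fintype.card F ∧
      q * Real.sqrt q / 4 ≤ (unc S).card ∧ ((unc S).card : ℝ) ≤ 1 / 100000 * q ^ 2)).card ≤
      (univ.filter (fun S : Finset (Option F × F) => S.card = Fintype.card F ∧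
      ((unc S).card : ℝ) ≤ 1 / 100000 * q ^ 2)).card := by
    apply card_le_card
    intro S hS
    rw [mem_filter] at hS ⊢
    exact ⟨hS.1, hS.2.1, hS.2.2.2⟩
  have hn : ((Fintype.card (Option F × F) + 1 : ℕ) : ℝ) ≤ q ^ 3 := by
    rw [Fintype.card_prod, card_dir]
    push_cast
    rw [← hqdef]
    nlinarith [pow_pos (by linarith : (0 : ℝ) < q) 2]
  have hn0 : (0 : ℝ) < ((Fintype.card (Option F × F) + 1 : ℕ) : ℝ) := by positivity
  have hcnt2 : ((univ.filter (fun S : Finset (Option F × F) => S.card = Fintype.card F ∧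
      q * Real.sqrt q / 4 ≤ (unc S).card ∧ ((unc S).card : ℝ) ≤ 1 / 100000 * q ^ 2)).card : ℝ) ≤
      Real.exp (((s₀ : ℝ) + e₀) * (3 * Real.log q) + 200 * q * Real.log 2) := by
    calc ((univ.filter (fun S : Finset (Option F × F) => S.card = Fintype.card F ∧
      q * Real.sqrt q / 4 ≤ (unc S).card ∧ ((unc S).card : ℝ) ≤ 1 / 100000 * q ^ 2)).card : ℝ)
        ≤ (((Fintype.card (Option F × F) + 1) ^ s₀ * (2 ^ (200 * Fintype.card F) *
          (Fintype.card (Option F × F) + 1) ^ e₀) : ℕ) : ℝ) := by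
          exact_mod_cast hsub.trans hcnt
      _ = ((Fintype.card (Option F × F) + 1 : ℕ) : ℝ) ^ s₀ * (2 ^ (200 * Fintype.card F) *
          ((Fintype.card (Option F × F) + 1 : ℕ) : ℝ) ^ e₀) := by push_cast; ring
      _ ≤ (q ^ 3) ^ s₀ * (2 ^ (200 * Fintype.card F) * (q ^ 3) ^ e₀) := by gcongr
      _ = Real.exp (((s₀ : ℝ) + e₀) * (3 * Real.log q) + 200 * q * Real.log 2) := by
          have e1 : (q ^ 3) ^ s₀ = Real.exp ((s₀ : ℝ) * (3 * Real.log q)) := by
            rw [Real.exp_nat_mul]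
            congr 1
            have : 3 * Real.log q = Real.log (q ^ 3) := by rw [Real.log_pow]; norm_num
            rw [this, Real.exp_log (by positivity)]
          have e2 : (q ^ 3) ^ e₀ = Real.exp ((e₀ : ℝ) * (3 * Real.log q)) := by
            rw [Real.exp_nat_mul]
            congr 1
            have : 3 * Real.log q = Real.log (q ^ 3) := by rw [Real.log_pow]; norm_num
            rw [this, Real.exp_log (by positivity)]
          have e3 : (2 : ℝ) ^ (200 * Fintype.card F) = Real.exp (200 * q * Real.log 2) := by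
            have : 200 * q * Real.log 2 = ((200 * Fintype.card F : ℕ) : ℝ) * Real.log 2 := by
              push_cast; rfl
            rw [this, Real.exp_nat_mul, Real.exp_log (by norm_num)]
          rw [e1, e2, e3, ← Real.exp_add, ← Real.exp_add]
          congr 1
          ring
  calc _ ≤ Real.exp (((s₀ : ℝ) + e₀) * (3 * Real.log q) + 200 * q * Real.log 2) * bd := by
        apply mul_le_mul_of_nonneg_right hcnt2 (Real.exp_pos _).le
    _ ≤ 1 / 50 := by
        rw [hbd, ← Real.exp_add]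
        apply exp_le_fiftieth
        exact Ib_num hq100' hlN hC.le (by linarith) hs₀hi he₀hi hqq₂

end Crest.Agent.H3RyDet
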