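import Crest.Agent.H3RyDefs
import Crest.Agent.H3RyAsy
import Crest.Agent.H23RyProb

/-!
# Module Q2 of the Ryser project (S0045, S0046): status probabilities and second moments
`distinct_prob`, `gp_lo`, `p12_lo`, `moments_event`.
-/

set_option autoImplicit false
set_option linter.unusedSectionVars false
set_option linter.unusedVariables false

namespace Crest.Agent.H5RyQ2
open Finset Crest.Agent.H3Ry Crest.Agent.H23RyProb

section Basic
variable {F : Type*} [Field F] [Fintype F] [DecidableEq F]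

theorem qpos : (0 : ℝ) < (Fintype.card F : ℝ) := by
  have : 0 < Fintype.card F := Fintype.card_pos
  exact_mod_cast this

theorem PP_eq_val (κ : Option F × Bool) (x : F) :
    PP (fun ω : Option F × Bool → F => ω κ = x) = 1 / (Fintype.card F : ℝ) := by
  have h := PP_coord (ι := Option F × Bool) (α := F) κ {x}
  simpa using h

theorem PP_ne_zero (κ : Option F × Bool) :
    PP (fun ω : Option F × Bool → F => ω κ ≠ 0) = 1 - 1 / (Fintype.card F : ℝ) := by
  have h := PP_not (fun ω : Option F × Bool → F => ω κ = 0)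
  rw [PP_eq_val] at h
  exact h

theorem PP_forall_ne (S : Finset (Option F × Bool)) :
    PP (fun ω : Option F × Bool → F => ∀ κ ∈ S, ω κ ≠ 0)
      = (1 - 1 / (Fintype.card F : ℝ)) ^ S.card := by
  have h := PP_forall_of_dep (ι := Option F × Bool) (α := F) S
    (fun κ ω => ω κ ≠ 0) (fun κ => {κ}) ?_ ?_
  · rw [h]
    simp only [PP_ne_zero]
    simp
  · intro κ _ ω ω' hω
    have := hω κ (by simp)
    simp only [this]
  · intro a _ b _ hab
    simpa [Function.onFun] using hab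

theorem PP_exists_eq (S : Finset (Option F × Bool)) :
    PP (fun ω : Option F × Bool → F => ∃ κ ∈ S, ω κ = 0)
      = 1 - (1 - 1 / (Fintype.card F : ℝ)) ^ S.card := by
  rw [← PP_forall_ne, ← PP_not]
  refine PP_congr (fun ω => ?_)
  push Not
  rfl

/-- elementary: `1 - (1-x)^n ≥ y/(1+y)` if `y ≤ n x` -/
theorem one_sub_pow_ge (x y : ℝ) (n : ℕ) (hx0 : 0 ≤ x) (hx1 : x ≤ 1) (hy : 0 ≤ y)
    (h : y ≤ n * x) : y / (1 + y) ≤ 1 - (1 - x) ^ n := by
  have h1 : 1 + (n : ℝ) * x ≤ (1 + x) ^ n := one_add_mul_le_pow (by linarith) n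
  have h2 : (1 - x) ^ n * (1 + x) ^ n ≤ 1 := by
    rw [← mul_pow]
    apply pow_le_one₀
    · nlinarith
    · nlinarith
  have h3 : 0 ≤ (1 - x) ^ n := by apply pow_nonneg; linarith
  have h4 : (1 - x) ^ n * (1 + y) ≤ 1 := by
    refine le_trans ?_ h2
    apply mul_le_mul_of_nonneg_left _ h3
    linarith
  rw [div_le_iff₀ (by linarith)]
  nlinarith

theorem PP_exists_ge (S : Finset (Option F × Bool)) (y : ℝ) (hy : 0 ≤ y)
    (h : y * (Fintype.card F : ℝ) ≤ S.card) :
    y / (1 + y) ≤ PP (fun ω : Option F × Bool → F => ∃ κ ∈ S, ω κ = 0) := by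
  rw [PP_exists_eq]
  have hq := qpos (F := F)
  have hq1 : (1 : ℝ) ≤ (Fintype.card F : ℝ) := by
    have : 1 ≤ Fintype.card F := Fintype.card_pos
    exact_mod_cast this
  apply one_sub_pow_ge
  · positivity
  · rw [div_le_one hq]; exact hq1
  · exact hy
  · rw [mul_one_div, le_div_iff₀ hq]; exact h

/-- `(1-1/q)^(q+1) ≥ 1/4` for `q ≥ 7` -/
theorem quarter_le (q : ℕ) (hq : 7 ≤ q) : (1 : ℝ) / 4 ≤ (1 - 1 / (q : ℝ)) ^ (q + 1) := by
  have hq' : (7 : ℝ) ≤ q := by exact_mod_cast hq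
  have hx : 0 < 1 - 1 / (q : ℝ) := by
    rw [sub_pos, div_lt_one (by linarith)]; linarith
  have h1 := Real.one_sub_inv_le_log_of_pos hx
  have h2 : 1 - (1 - 1 / (q : ℝ))⁻¹ = - (1 / ((q : ℝ) - 1)) := by
    have : (q : ℝ) - 1 ≠ 0 := by linarith
    have : (q : ℝ) ≠ 0 := by linarith
    field_simp
    ring
  rw [h2] at h1
  have h3 : Real.log (1 / 4) ≤ Real.log ((1 - 1 / (q : ℝ)) ^ (q + 1)) := by
    rw [Real.log_pow]
    have h4 : Real.log (1 / 4) = - (2 * Real.log 2) := by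
      rw [Real.log_div (by norm_num) (by norm_num), Real.log_one,
        show (4 : ℝ) = 2 ^ 2 by norm_num, Real.log_pow]
      push_cast; ring
    rw [h4]
    have h5 := Real.log_two_gt_d9
    have h6 : ((q + 1 : ℕ) : ℝ) * (-(1 / ((q : ℝ) - 1))) ≤
        ((q + 1 : ℕ) : ℝ) * Real.log (1 - 1 / (q : ℝ)) :=
      mul_le_mul_of_nonneg_left h1 (Nat.cast_nonneg _)
    have h7 : -(1.38 : ℝ) ≤ ((q + 1 : ℕ) : ℝ) * (-(1 / ((q : ℝ) - 1))) := by
      push_cast
      rw [mul_neg, mul_one_div]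
      apply neg_le_neg
      rw [div_le_iff₀ (by linarith)]
      nlinarith
    linarith
  exact (Real.log_le_log_iff (by norm_num) (by positivity)).1 h3

theorem PP_forall_ge (hq : 7 ≤ Fintype.card F) (S : Finset (Option F × Bool))
    (hS : S.card ≤ (Fintype.card F + 1) + (Fintype.card F + 1)) :
    1 / 16 ≤ PP (fun ω : Option F × Bool → F => ∀ κ ∈ S, ω κ ≠ 0) := by
  rw [PP_forall_ne]
  have h := quarter_le _ hq
  have hq' : (7 : ℝ) ≤ (Fintype.card F : ℝ) := by exact_mod_cast hq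
  have hx : 0 < 1 - 1 / (Fintype.card F : ℝ) := by
    rw [sub_pos, div_lt_one (by linarith)]; linarith
  have hx1 : 1 - 1 / (Fintype.card F : ℝ) ≤ 1 := by
    have : 0 < 1 / (Fintype.card F : ℝ) := by positivity
    linarith
  calc (1 : ℝ) / 16 = (1 / 4) * (1 / 4) := by norm_num
    _ ≤ (1 - 1 / (Fintype.card F : ℝ)) ^ (Fintype.card F + 1)
        * (1 - 1 / (Fintype.card F : ℝ)) ^ (Fintype.card F + 1) := by
      apply mul_le_mul h h (by norm_num) (by positivity)
    _ = (1 - 1 / (Fintype.card F : ℝ)) ^ ((Fintype.card F + 1) + (Fintype.card F + 1)) :=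
      (pow_add _ _ _).symm
    _ ≤ _ := pow_le_pow_of_le_one hx.le hx1 hS

theorem PP_ne_pair (d : Option F) :
    PP (fun ω : Option F × Bool → F => ω (d, false) ≠ ω (d, true))
      = 1 - 1 / (Fintype.card F : ℝ) := by
  have h := PP_not (fun ω : Option F × Bool → F => ω (d, false) = ω (d, true))
  have h2 : PP (fun ω : Option F × Bool → F => ω (d, false) = ω (d, true))
      = 1 / (Fintype.card F : ℝ) := by
    rw [← PP_merge {(d, true)}]
    have : ∀ a : Option F × Bool → F, PP (fun b : Option F × Bool → F =>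
        merge {(d, true)} a b (d, false) = merge {(d, true)} a b (d, true))
        = 1 / (Fintype.card F : ℝ) := by
      intro a
      rw [← PP_eq_val (d, false) (a (d, true))]
      refine PP_congr (fun b => ?_)
      simp [merge]
    simp only [this]
    exact EE_const _
  rw [h2] at h
  exact h

end Basic

theorem distinct_prob : ∃ q₀ : ℕ,
    ∀ (F : Type) [Field F] [Fintype F] [DecidableEq F], q₀ ≤ Fintype.card F →
    1 / 4 ≤ PP (fun ω : Option F × Bool → F => ∀ d, ω (d, false) ≠ ω (d, true)) := by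
  refine ⟨7, fun F _ _ _ hq => ?_⟩
  have h := PP_forall_of_dep (ι := Option F × Bool) (α := F) (univ : Finset (Option F))
    (fun d ω => ω (d, false) ≠ ω (d, true)) (fun d => {(d, false), (d, true)}) ?_ ?_
  · have h2 : PP (fun ω : Option F × Bool → F => ∀ d, ω (d, false) ≠ ω (d, true))
        = (1 - 1 / (Fintype.card F : ℝ)) ^ (Fintype.card F + 1) := by
      rw [show (PP (fun ω : Option F × Bool → F => ∀ d, ω (d, false) ≠ ω (d, true)))
        = PP (fun ω : Option F × Bool → F => ∀ d ∈ (univ : Finset (Option F)),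
          ω (d, false) ≠ ω (d, true)) from PP_congr (fun ω => by simp), h]
      simp only [PP_ne_pair]
      simp [Finset.card_univ, Fintype.card_option]
    rw [h2]
    exact quarter_le _ hq
  · intro κ _ ω ω' hω
    have h1 := hω (κ, false) (by simp)
    have h2 := hω (κ, true) (by simp)
    simp only [h1, h2]
  · intro a _ b _ hab
    simp only [Function.onFun]
    rw [Finset.disjoint_left]
    intro x hx hx'
    simp only [mem_insert, mem_singleton] at hx hx'
    rcases hx with rfl | rfl <;> rcases hx' with h | h <;> simp_all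


section Groups
variable {F : Type*} [Field F] [Fintype F] [DecidableEq F] {N : ℕ}

theorem mem_B {Y : Sys F N} {j : Fin N} {d : Option F} : d ∈ Y.B j ↔ Y.grp d = j := by
  simp [Sys.B]

theorem B_lo {Y : Sys F N} (hY : Y.Ok) (hN : 1 ≤ N) (hq : 3 * N ≤ Fintype.card F) (j : Fin N) :
    2 / (3 * (N : ℝ)) * (Fintype.card F : ℝ) ≤ (Y.B j).card := by
  have h := hY.lo j
  have h' : (Fintype.card F : ℝ) + 1 ≤ N * ((Y.B j).card + 1) := by exact_mod_cast h
  have hq' : 3 * (N : ℝ) ≤ Fintype.card F := by exact_mod_cast hq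
  have hN' : (1 : ℝ) ≤ N := by exact_mod_cast hN
  rw [div_mul_eq_mul_div, div_le_iff₀ (by positivity)]
  nlinarith

theorem B_hi {Y : Sys F N} (hY : Y.Ok) (hN : 1 ≤ N) (hq : N + 1 ≤ Fintype.card F) (j : Fin N) :
    ((Y.B j).card : ℝ) ≤ 2 / (N : ℝ) * (Fintype.card F : ℝ) := by
  have h := hY.hi j
  have h' : (N : ℝ) * (Y.B j).card ≤ Fintype.card F + 1 + N := by exact_mod_cast h
  have hq' : (N : ℝ) + 1 ≤ Fintype.card F := by exact_mod_cast hq
  have hN' : (1 : ℝ) ≤ N := by exact_mod_cast hN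
  rw [div_mul_eq_mul_div, le_div_iff₀ (by positivity)]
  nlinarith

theorem mem_zs {ω : Option F × Bool → F} {κ : Option F × Bool} : κ ∈ zs ω ↔ ω κ = 0 := by
  simp [zs]

/-- probability of a rainbow in group `j` -/
theorem PP_rb_ge {Y : Sys F N} (hY : Y.Ok) (hN : 2 ≤ N) (hq : 3 * N ≤ Fintype.card F)
    (j : Fin N) :
    1 / (4 * (N : ℝ) ^ 2) ≤ PP (fun ω : Option F × Bool → F => Y.rb j (zs ω)) := by
  have hcell : ∀ v : Bool, 1 / (2 * (N : ℝ)) ≤
      PP (fun ω : Option F × Bool → F => ∃ κ ∈ (Y.B j).image (fun d => (d, v)), ω κ = 0) := by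
    intro v
    have hN' : (2 : ℝ) ≤ N := by exact_mod_cast hN
    have hc : ((Y.B j).image (fun d => (d, v))).card = (Y.B j).card :=
      Finset.card_image_of_injective _ (fun a b h => by simpa using h)
    have h := PP_exists_ge ((Y.B j).image (fun d => (d, v))) (2 / (3 * (N : ℝ))) (by positivity)
      (by rw [hc]; exact B_lo hY (by omega) hq j)
    refine le_trans ?_ h
    rw [div_le_div_iff₀ (by positivity) (by positivity)]
    have : 2 / (3 * (N : ℝ)) * (3 * N) = 2 := by field_simp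
    nlinarith
  have h := PP_and_of_dep (ι := Option F × Bool) (α := F)
    (p := fun ω => ∃ κ ∈ (Y.B j).image (fun d => (d, false)), ω κ = 0)
    (r := fun ω => ∃ κ ∈ (Y.B j).image (fun d => (d, true)), ω κ = 0)
    (s := (Y.B j).image (fun d => (d, false))) (t := (Y.B j).image (fun d => (d, true)))
    (fun ω ω' hω => by
      apply propext
      constructor
      · rintro ⟨κ, hκ, h⟩
        exact ⟨κ, hκ, by rw [← hω κ hκ]; exact h⟩
      · rintro ⟨κ, hκ, h⟩
        exact ⟨κ, hκ, by rw [hω κ hκ]; exact h⟩)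
    (fun ω ω' hω => by
      apply propext
      constructor
      · rintro ⟨κ, hκ, h⟩
        exact ⟨κ, hκ, by rw [← hω κ hκ]; exact h⟩
      · rintro ⟨κ, hκ, h⟩
        exact ⟨κ, hκ, by rw [hω κ hκ]; exact h⟩)
    (by
      rw [Finset.disjoint_left]
      intro x hx hx'
      simp only [mem_image] at hx hx'
      obtain ⟨a, _, rfl⟩ := hx
      obtain ⟨b, _, hb⟩ := hx'
      simp at hb)
  calc 1 / (4 * (N : ℝ) ^ 2) = (1 / (2 * (N : ℝ))) * (1 / (2 * (N : ℝ))) := by
        field_simp; norm_num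
    _ ≤ _ := mul_le_mul (hcell false) (hcell true) (by positivity) (PP_nonneg _)
    _ = _ := h.symm
    _ ≤ _ := by
      refine PP_mono (fun ω hω => ?_)
      obtain ⟨⟨κ, hκ, h1⟩, ⟨κ', hκ', h2⟩⟩ := hω
      simp only [mem_image] at hκ hκ'
      obtain ⟨a, ha, rfl⟩ := hκ
      obtain ⟨b, hb, rfl⟩ := hκ'
      exact ⟨⟨a, mem_B.1 ha, mem_zs.2 h1⟩, ⟨b, mem_B.1 hb, mem_zs.2 h2⟩⟩

/-- coordinates of the groups in `K` -/
def co (Y : Sys F N) (K : Finset (Fin N)) : Finset (Option F × Bool) :=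
  univ.filter (fun κ => Y.grp κ.1 ∈ K)

theorem depOn_rb (Y : Sys F N) (j : Fin N) :
    DepOn (fun ω : Option F × Bool → F => Y.rb j (zs ω)) (co Y {j}) := by
  intro ω ω' hω
  have h : ∀ d v, Y.grp d = j → ω (d, v) = ω' (d, v) := by
    intro d v hd
    exact hω (d, v) (by simp [co, hd])
  simp only [Sys.rb, mem_zs]
  apply propext
  constructor
  · rintro ⟨⟨d, hd, h1⟩, ⟨e, he, h2⟩⟩
    exact ⟨⟨d, hd, by rw [← h d false hd]; exact h1⟩, ⟨e, he, by rw [← h e true he]; exact h2⟩⟩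
  · rintro ⟨⟨d, hd, h1⟩, ⟨e, he, h2⟩⟩
    exact ⟨⟨d, hd, by rw [h d false hd]; exact h1⟩, ⟨e, he, by rw [h e true he]; exact h2⟩⟩

theorem disj_co (Y : Sys F N) {K K' : Finset (Fin N)} (h : Disjoint K K') :
    Disjoint (co Y K) (co Y K') := by
  rw [Finset.disjoint_left] at h ⊢
  intro x hx hx'
  simp only [co, mem_filter, mem_univ, true_and] at hx hx'
  exact h hx hx'

/-- many groups: probability of a rainbow in one of them -/
theorem PP_exists_rb_ge {Y : Sys F N} (hY : Y.Ok) (hN : 2 ≤ N) (hq : 3 * N ≤ Fintype.card F)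
    (K : Finset (Fin N)) (hK : N ≤ 3 * K.card) :
    1 / (13 * (N : ℝ)) ≤ PP (fun ω : Option F × Bool → F => ∃ j ∈ K, Y.rb j (zs ω)) := by
  have hN' : (2 : ℝ) ≤ N := by exact_mod_cast hN
  have hK' : (N : ℝ) ≤ 3 * K.card := by exact_mod_cast hK
  have h1 := PP_forall_of_dep (ι := Option F × Bool) (α := F) K
    (fun j ω => ¬ Y.rb j (zs ω)) (fun j => co Y {j})
    (fun j _ ω ω' hω => by
      have := depOn_rb Y j ω ω' hω
      simp only at this
      simp only [this])
    (fun a _ b _ hab => disj_co Y (by simpa using hab))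
  have h2 : PP (fun ω : Option F × Bool → F => ∀ j ∈ K, ¬ Y.rb j (zs ω))
      ≤ (1 - 1 / (4 * (N : ℝ) ^ 2)) ^ K.card := by
    rw [h1, ← Finset.prod_const]
    refine Finset.prod_le_prod (fun j _ => PP_nonneg _) (fun j _ => ?_)
    rw [PP_not]
    have := PP_rb_ge hY hN hq j
    linarith
  have h3 : PP (fun ω : Option F × Bool → F => ∃ j ∈ K, Y.rb j (zs ω))
      = 1 - PP (fun ω : Option F × Bool → F => ∀ j ∈ K, ¬ Y.rb j (zs ω)) := by
    rw [← PP_not]
    refine PP_congr (fun ω => ?_)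
    push Not
    rfl
  rw [h3]
  have h4 := one_sub_pow_ge (1 / (4 * (N : ℝ) ^ 2)) (1 / (12 * (N : ℝ))) K.card (by positivity)
    (by rw [div_le_one (by positivity)]; nlinarith) (by positivity)
    (by
      rw [mul_one_div, div_le_div_iff₀ (by positivity) (by positivity)]
      nlinarith)
  have h5 : 1 / (13 * (N : ℝ)) ≤ 1 / (12 * (N : ℝ)) / (1 + 1 / (12 * (N : ℝ))) := by
    rw [div_div, mul_add, mul_one, div_le_div_iff₀ (by positivity) (by positivity)]
    have : 12 * (N : ℝ) * (1 / (12 * (N : ℝ))) = 1 := by field_simp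
    rw [this]
    linarith
  linarith

theorem PP_s12_ge {Y : Sys F N} (hY : Y.Ok) (hN : 20 ≤ N) (hq : 3 * N ≤ Fintype.card F) :
    1 / (500 * (N : ℝ) ^ 2) ≤ PP (fun ω : Option F × Bool → F => Y.s12 (zs ω)) := by
  have hN' : (20 : ℝ) ≤ N := by exact_mod_cast hN
  set K₁ : Finset (Fin N) := univ.filter (fun j => 2 * j.val < N) with hK₁
  set K₂ : Finset (Fin N) := univ.filter (fun j => N ≤ 2 * j.val) with hK₂
  have hc : K₁.card + K₂.card = N := by
    have h : K₂ = univ.filter (fun j : Fin N => ¬ 2 * j.val < N) := by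
      rw [hK₂]; congr 1; ext j; simp
    rw [h, hK₁, Finset.card_filter_add_card_filter_not]
    simp
  have hc1 : K₁.card ≤ (N + 1) / 2 := by
    have : K₁.card ≤ (Finset.range ((N + 1) / 2)).card := by
      refine Finset.card_le_card_of_injOn (fun j => j.val) (fun j hj => ?_)
        (fun a _ b _ h => Fin.ext h)
      simp only [hK₁, coe_filter, mem_univ, true_and, Set.mem_ofPred_eq] at hj
      simp only [coe_range, Set.mem_Iio]
      omega
    simpa using this
  have hc2 : K₂.card ≤ (N + 1) / 2 := by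
    have : K₂.card ≤ (Finset.range ((N + 1) / 2)).card := by
      refine Finset.card_le_card_of_injOn (fun j => N - 1 - j.val) (fun j hj => ?_)
        (fun a _ b _ h => ?_)
      · simp only [hK₂, coe_filter, mem_univ, true_and, Set.mem_ofPred_eq] at hj
        simp only [coe_range, Set.mem_Iio]
        omega
      · simp only at h
        have := a.isLt
        have := b.isLt
        ext
        omega
    simpa using this
  have h := PP_and_of_dep (ι := Option F × Bool) (α := F)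
    (p := fun ω => ∃ j ∈ K₁, Y.rb j (zs ω))
    (r := fun ω => ∃ j ∈ K₂, Y.rb j (zs ω))
    (s := co Y K₁) (t := co Y K₂)
    (fun ω ω' hω => by
      have : ∀ j ∈ K₁, Y.rb j (zs ω) = Y.rb j (zs ω') := fun j hj =>
        depOn_rb Y j ω ω' (fun i hi => hω i (by
          simp only [co, mem_filter, mem_univ, true_and, mem_singleton] at hi ⊢
          rw [hi]; exact hj))
      apply propext
      constructor
      · rintro ⟨j, hj, h⟩
        exact ⟨j, hj, by rw [← this j hj]; exact h⟩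
      · rintro ⟨j, hj, h⟩
        exact ⟨j, hj, by rw [this j hj]; exact h⟩)
    (fun ω ω' hω => by
      have : ∀ j ∈ K₂, Y.rb j (zs ω) = Y.rb j (zs ω') := fun j hj =>
        depOn_rb Y j ω ω' (fun i hi => hω i (by
          simp only [co, mem_filter, mem_univ, true_and, mem_singleton] at hi ⊢
          rw [hi]; exact hj))
      apply propext
      constructor
      · rintro ⟨j, hj, h⟩
        exact ⟨j, hj, by rw [← this j hj]; exact h⟩
      · rintro ⟨j, hj, h⟩
        exact ⟨j, hj, by rw [this j hj]; exact h⟩)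
    (disj_co Y (by
      rw [Finset.disjoint_left]
      intro j hj hj'
      simp only [hK₁, hK₂, mem_filter, mem_univ, true_and] at hj hj'
      omega))
  have h1 := PP_exists_rb_ge hY (by omega) hq K₁ (by omega)
  have h2 := PP_exists_rb_ge hY (by omega) hq K₂ (by omega)
  calc 1 / (500 * (N : ℝ) ^ 2) ≤ (1 / (13 * (N : ℝ))) * (1 / (13 * (N : ℝ))) := by
        rw [div_mul_div_comm, div_le_div_iff₀ (by positivity) (by positivity)]
        nlinarith
    _ ≤ _ := mul_le_mul h1 h2 (by positivity) (PP_nonneg _)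
    _ = _ := h.symm
    _ ≤ _ := by
      refine PP_mono (fun ω hω => ?_)
      obtain ⟨⟨j, hj, h1⟩, ⟨k, hk, h2⟩⟩ := hω
      simp only [hK₁, hK₂, mem_filter, mem_univ, true_and] at hj hk
      exact ⟨⟨j, hj, h1⟩, ⟨k, hk, h2⟩⟩

end Groups

theorem three_NN_le : ∃ q₀ : ℕ, ∀ q : ℕ, q₀ ≤ q → 100 * NN q ≤ q := by
  obtain ⟨q₀, h⟩ := NN_pow_le 1 100 1 (by norm_num)
  refine ⟨q₀, fun q hq => ?_⟩
  have := h q hq
  rw [pow_one, Real.rpow_one] at this
  exact_mod_cast this

theorem p12_lo : ∃ q₀ : ℕ,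
    ∀ (F : Type) [Field F] [Fintype F] [DecidableEq F], q₀ ≤ Fintype.card F →
    ∀ (N : ℕ), N = NN (Fintype.card F) → ∀ (Y : Sys F N), Y.Ok →
      1 / (500 * (N : ℝ) ^ 2) ≤ Y.p12 := by
  obtain ⟨q₀, h⟩ := three_NN_le
  refine ⟨q₀, fun F _ _ _ hq N hN Y hY => ?_⟩
  have h1 := h _ hq
  have h2 := twenty_le_NN (Fintype.card F)
  rw [← hN] at h1 h2
  exact PP_s12_ge hY h2 (by omega)


section GP
variable {F : Type*} [Field F] [Fintype F] [DecidableEq F] {N : ℕ}

/-- the pattern of index `e` having the value `!ρ` in the group of `e` -/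
def pe (Y : Sys F N) (ρ : Fin N → Bool) (e : Option F) (j : Fin N) : Bool :=
  Y.pat e (xor (!ρ (Y.grp e)) (Y.sg e (Y.grp e))) j

theorem good_of (Y : Sys F N) (ρ : Fin N → Bool) (t e : Option F) (he : e ≠ t)
    (heg : Y.grp e = Y.grp t) (H : Finset (Option F × Bool))
    (h1 : ∀ t', t' ≠ t → Y.wl ρ t' ∉ H) (h2 : Y.wl ρ t ∈ H)
    (h2' : ∀ κ ∈ H, κ.1 = t → κ = Y.wl ρ t) (h3 : Y.wl' ρ e ∈ H)
    (h4 : ∃ d, d ≠ t ∧ Y.pt ρ t (Y.grp d) ≠ ρ (Y.grp d) ∧ Y.wl' ρ d ∈ H)
    (h5 : ∃ d, d ≠ e ∧ pe Y ρ e (Y.grp d) ≠ ρ (Y.grp d) ∧ Y.wl' ρ d ∈ H) :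
    Y.Good ρ t H := by
  have hH : H.filter (fun κ => κ.1 ≠ t ∨ κ = Y.wl ρ t) = H := by
    apply Finset.filter_true_of_mem
    intro κ hκ
    by_cases h : κ.1 = t
    · exact Or.inr (h2' κ hκ h)
    · exact Or.inl h
  refine ⟨h2, h1, ?_, ⟨e, he, heg, ?_⟩⟩
  · rw [hH]
    intro i a
    by_cases hp : Y.pat i a (Y.grp t) = ρ (Y.grp t)
    · by_cases hi : i = t
      · subst hi
        obtain ⟨d, hd, h6, h7⟩ := h4
        have ha : a = xor (ρ (Y.grp i)) (Y.sg i (Y.grp i)) := by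
          rw [← hp]
          simp only [Sys.pat]
          cases a <;> cases (Y.sg i (Y.grp i)) <;> rfl
        refine ⟨_, h7, hd, ?_⟩
        show Y.pat i a (Y.grp d) = !ρ (Y.grp d)
        have h8 : Y.pat i a (Y.grp d) ≠ ρ (Y.grp d) := by
          rw [ha]; exact h6
        revert h8
        cases Y.pat i a (Y.grp d) <;> cases ρ (Y.grp d) <;> simp
      · refine ⟨_, h2, fun h => hi h.symm, ?_⟩
        exact hp
    · have hp' : Y.pat i a (Y.grp t) = !ρ (Y.grp t) := by
        revert hp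
        cases Y.pat i a (Y.grp t) <;> cases ρ (Y.grp t) <;> simp
      by_cases hi : i = e
      · subst hi
        obtain ⟨d, hd, h6, h7⟩ := h5
        have ha : a = xor (!ρ (Y.grp i)) (Y.sg i (Y.grp i)) := by
          rw [← heg] at hp'
          rw [← hp']
          simp only [Sys.pat]
          cases a <;> cases (Y.sg i (Y.grp i)) <;> rfl
        refine ⟨_, h7, hd, ?_⟩
        show Y.pat i a (Y.grp d) = !ρ (Y.grp d)
        have h8 : Y.pat i a (Y.grp d) ≠ ρ (Y.grp d) := by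
          rw [ha]; exact h6
        revert h8
        cases Y.pat i a (Y.grp d) <;> cases ρ (Y.grp d) <;> simp
      · refine ⟨_, h3, fun h => hi h.symm, ?_⟩
        show Y.pat i a (Y.grp e) = !ρ (Y.grp e)
        rw [heg]
        exact hp'
  · have : Y.wl' ρ e = (e, !ρ (Y.grp t)) := by
      simp [Sys.wl', heg]
    rw [← this]
    exact h3

/-- coordinates `wl' ρ d` with `d` in a group of `A` -/
def cw (Y : Sys F N) (ρ : Fin N → Bool) (A : Finset (Fin N)) : Finset (Option F × Bool) :=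
  (univ.filter (fun d => Y.grp d ∈ A)).image (Y.wl' ρ)

theorem wl'_inj (Y : Sys F N) (ρ : Fin N → Bool) : Function.Injective (Y.wl' ρ) := by
  intro a b h
  exact congrArg Prod.fst h

theorem wl_inj (Y : Sys F N) (ρ : Fin N → Bool) : Function.Injective (Y.wl ρ) := by
  intro a b h
  exact congrArg Prod.fst h

theorem wl_ne_wl' (Y : Sys F N) (ρ : Fin N → Bool) (a b : Option F) : Y.wl ρ a ≠ Y.wl' ρ b := by
  intro h
  have h1 : a = b := congrArg Prod.fst h
  subst h1
  have h2 : ρ (Y.grp a) = !ρ (Y.grp a) := congrArg Prod.snd h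
  revert h2
  cases ρ (Y.grp a) <;> simp

theorem card_cw {Y : Sys F N} (hY : Y.Ok) (hN : 1 ≤ N) (hq : 3 * N ≤ Fintype.card F)
    (ρ : Fin N → Bool) (A : Finset (Fin N)) :
    (A.card : ℝ) * (2 / (3 * (N : ℝ))) * (Fintype.card F : ℝ) ≤ (cw Y ρ A).card := by
  have h1 : (cw Y ρ A).card = ∑ j ∈ A, (Y.B j).card := by
    rw [cw, Finset.card_image_of_injective _ (wl'_inj Y ρ)]
    rw [Finset.card_eq_sum_card_fiberwise (f := Y.grp) (t := A) (by
      intro d hd
      simpa using hd)]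
    refine Finset.sum_congr rfl (fun j hj => ?_)
    congr 1
    ext d
    simp only [mem_filter, mem_univ, true_and, Sys.B]
    constructor
    · rintro ⟨_, h⟩; exact h
    · intro h; exact ⟨by rw [h]; exact hj, h⟩
  rw [h1]
  push_cast
  rw [mul_assoc, ← nsmul_eq_mul, ← Finset.sum_const]
  exact Finset.sum_le_sum (fun j _ => B_lo hY hN hq j)

/-- coordinates which must not be hit -/
def cn (Y : Sys F N) (ρ : Fin N → Bool) (t e : Option F) : Finset (Option F × Bool) :=
  (univ.erase t).image (Y.wl ρ) ∪ (((Y.B (Y.grp t)).erase t).erase e).image (Y.wl' ρ)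

theorem card_cn (Y : Sys F N) (ρ : Fin N → Bool) (t e : Option F) :
    (cn Y ρ t e).card ≤ (Fintype.card F + 1) + (Fintype.card F + 1) := by
  refine (Finset.card_union_le _ _).trans ?_
  have h : ∀ (A : Finset (Option F)) (f : Option F → Option F × Bool),
      (A.image f).card ≤ Fintype.card F + 1 := by
    intro A f
    refine Finset.card_image_le.trans ?_
    rw [← Fintype.card_option]
    exact Finset.card_le_univ A
  exact Nat.add_le_add (h _ _) (h _ _)

/-- the event `E_e` -/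
def Ev (Y : Sys F N) (ρ : Fin N → Bool) (t e : Option F) (A₂ A₃ : Finset (Fin N))
    (ω : Option F × Bool → F) : Prop :=
  ((∀ κ ∈ cn Y ρ t e, ω κ ≠ 0) ∧ ω (Y.wl' ρ e) = 0) ∧
    ((∃ κ ∈ cw Y ρ A₂, ω κ = 0) ∧ (∃ κ ∈ cw Y ρ A₃, ω κ = 0))

theorem depOn_forall_ne (S : Finset (Option F × Bool)) :
    DepOn (fun ω : Option F × Bool → F => ∀ κ ∈ S, ω κ ≠ 0) S := by
  intro ω ω' hω
  apply propext
  constructor
  · intro h κ hκ
    rw [← hω κ hκ]; exact h κ hκ
  · intro h κ hκ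
    rw [hω κ hκ]; exact h κ hκ

theorem depOn_exists_eq (S : Finset (Option F × Bool)) :
    DepOn (fun ω : Option F × Bool → F => ∃ κ ∈ S, ω κ = 0) S := by
  intro ω ω' hω
  apply propext
  constructor
  · rintro ⟨κ, hκ, h⟩
    exact ⟨κ, hκ, by rw [← hω κ hκ]; exact h⟩
  · rintro ⟨κ, hκ, h⟩
    exact ⟨κ, hκ, by rw [hω κ hκ]; exact h⟩

theorem depOn_and {p r : (Option F × Bool → F) → Prop} {s t : Finset (Option F × Bool)}
    (hp : DepOn p s) (hr : DepOn r t) : DepOn (fun ω => p ω ∧ r ω) (s ∪ t) := by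
  intro ω ω' hω
  have h1 := hp ω ω' (fun i hi => hω i (mem_union_left _ hi))
  have h2 := hr ω ω' (fun i hi => hω i (mem_union_right _ hi))
  simp only [h1, h2]

theorem PP_Ev_ge {Y : Sys F N} (hY : Y.Ok) (hN : 80 ≤ N) (hq : 3 * N ≤ Fintype.card F)
    (ρ : Fin N → Bool) (t e : Option F) (he : e ≠ t) (heg : Y.grp e = Y.grp t)
    (A₂ A₃ : Finset (Fin N))
    (h2 : Y.grp t ∉ A₂) (h3 : Y.grp t ∉ A₃) (h23 : Disjoint A₂ A₃)
    (h3c : (N : ℝ) / 40 ≤ A₃.card) :
    1 / 16 * (1 / (Fintype.card F : ℝ)) * ((A₂.card : ℝ) / (3 * N) * (1 / 61))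
      ≤ PP (fun ω : Option F × Bool → F => Ev Y ρ t e A₂ A₃ ω) := by
  have hN' : (80 : ℝ) ≤ N := by exact_mod_cast hN
  have hq' : 3 * (N : ℝ) ≤ Fintype.card F := by exact_mod_cast hq
  have hdis : Disjoint (cn Y ρ t e) {Y.wl' ρ e} := by
    rw [Finset.disjoint_singleton_right, cn, mem_union, not_or]
    constructor
    · intro h
      obtain ⟨a, _, ha⟩ := mem_image.1 h
      exact wl_ne_wl' Y ρ a e ha
    · intro h
      obtain ⟨a, ha, ha'⟩ := mem_image.1 h
      have := wl'_inj Y ρ ha'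
      subst this
      simp at ha
  have hmemcw : ∀ {A : Finset (Fin N)} {κ : Option F × Bool}, κ ∈ cw Y ρ A →
      Y.grp κ.1 ∈ A ∧ κ = Y.wl' ρ κ.1 := by
    intro A κ hκ
    obtain ⟨a, ha, rfl⟩ := mem_image.1 hκ
    simp only [mem_filter, mem_univ, true_and] at ha
    exact ⟨ha, rfl⟩
  have hdisA : Disjoint (cw Y ρ A₂) (cw Y ρ A₃) := by
    rw [Finset.disjoint_left] at h23 ⊢
    intro κ hκ hκ'
    exact h23 (hmemcw hκ).1 (hmemcw hκ').1
  have hdis2 : Disjoint (cn Y ρ t e ∪ {Y.wl' ρ e}) (cw Y ρ A₂ ∪ cw Y ρ A₃) := by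
    rw [Finset.disjoint_left]
    intro κ hκ hκ'
    have h4 : Y.grp κ.1 ≠ Y.grp t ∧ κ = Y.wl' ρ κ.1 := by
      rcases mem_union.1 hκ' with h | h
      · exact ⟨fun h' => h2 (h' ▸ (hmemcw h).1), (hmemcw h).2⟩
      · exact ⟨fun h' => h3 (h' ▸ (hmemcw h).1), (hmemcw h).2⟩
    rcases mem_union.1 hκ with h | h
    · rcases mem_union.1 h with h | h
      · obtain ⟨a, _, ha⟩ := mem_image.1 h
        rw [h4.2] at ha
        exact wl_ne_wl' Y ρ _ _ ha
      · obtain ⟨a, ha, ha'⟩ := mem_image.1 h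
        rw [mem_erase, mem_erase, mem_B] at ha
        apply h4.1
        rw [← ha']
        exact ha.2.2
    · rw [mem_singleton] at h
      apply h4.1
      rw [h]
      exact heg
  have e1 := PP_and_of_dep (ι := Option F × Bool) (α := F) (depOn_forall_ne (cn Y ρ t e))
    (r := fun ω => ω (Y.wl' ρ e) = 0) (t := {Y.wl' ρ e})
    (fun ω ω' hω => by
      have := hω (Y.wl' ρ e) (by simp)
      simp only [this]) hdis
  have e2 := PP_and_of_dep (ι := Option F × Bool) (α := F) (depOn_exists_eq (cw Y ρ A₂))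
    (depOn_exists_eq (cw Y ρ A₃)) hdisA
  have e3 := PP_and_of_dep (ι := Option F × Bool) (α := F)
    (depOn_and (depOn_forall_ne (cn Y ρ t e)) (r := fun ω => ω (Y.wl' ρ e) = 0)
      (t := {Y.wl' ρ e}) (fun ω ω' hω => by
      have := hω (Y.wl' ρ e) (by simp)
      simp only [this]))
    (depOn_and (depOn_exists_eq (cw Y ρ A₂)) (depOn_exists_eq (cw Y ρ A₃))) hdis2
  have hA2N : (A₂.card : ℝ) ≤ N := by
    have : A₂.card ≤ N := by simpa using Finset.card_le_univ A₂
    exact_mod_cast this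
  have p2 : (A₂.card : ℝ) / (3 * N) ≤ PP (fun ω : Option F × Bool → F =>
      ∃ κ ∈ cw Y ρ A₂, ω κ = 0) := by
    refine le_trans ?_ (PP_exists_ge (cw Y ρ A₂) (A₂.card * (2 / (3 * (N : ℝ)))) (by positivity)
      (card_cw hY (by omega) hq ρ A₂))
    have hz : (A₂.card : ℝ) * (2 / (3 * (N : ℝ))) ≤ 2 / 3 := by
      rw [mul_div_assoc', div_le_div_iff₀ (by positivity) (by norm_num)]
      nlinarith
    rw [le_div_iff₀ (by positivity)]
    have hnn : (0 : ℝ) ≤ (A₂.card : ℝ) / (3 * N) := by positivity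
    calc (A₂.card : ℝ) / (3 * N) * (1 + A₂.card * (2 / (3 * (N : ℝ))))
        ≤ (A₂.card : ℝ) / (3 * N) * (1 + 2 / 3) := by
          apply mul_le_mul_of_nonneg_left _ hnn
          linarith
      _ ≤ (A₂.card : ℝ) / (3 * N) * 2 := by
          apply mul_le_mul_of_nonneg_left _ hnn
          norm_num
      _ = _ := by ring
  have p3 : (1 : ℝ) / 61 ≤ PP (fun ω : Option F × Bool → F => ∃ κ ∈ cw Y ρ A₃, ω κ = 0) := by
    refine le_trans ?_ (PP_exists_ge (cw Y ρ A₃) (1 / 60) (by positivity) ?_)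
    · norm_num
    · refine le_trans ?_ (card_cw hY (by omega) hq ρ A₃)
      apply mul_le_mul_of_nonneg_right _ (by positivity)
      rw [mul_div_assoc', div_le_div_iff₀ (by norm_num) (by positivity)]
      nlinarith
  have p0 := PP_forall_ge (F := F) (by omega) (cn Y ρ t e) (card_cn Y ρ t e)
  have p1 := PP_eq_val (Y.wl' ρ e) (0 : F)
  calc _ ≤ PP (fun ω : Option F × Bool → F => (∀ κ ∈ cn Y ρ t e, ω κ ≠ 0)) *
          PP (fun ω : Option F × Bool → F => ω (Y.wl' ρ e) = 0) *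
          (PP (fun ω : Option F × Bool → F => ∃ κ ∈ cw Y ρ A₂, ω κ = 0) *
            PP (fun ω : Option F × Bool → F => ∃ κ ∈ cw Y ρ A₃, ω κ = 0)) := by
        rw [p1]
        gcongr
        exact PP_nonneg _
    _ = _ := by rw [← e1, ← e2, ← e3]; rfl

theorem Ev_good {Y : Sys F N} (ρ : Fin N → Bool) (t e : Option F) (he : e ≠ t)
    (heg : Y.grp e = Y.grp t)
    (A₂ A₃ : Finset (Fin N)) (h2 : ∀ j ∈ A₂, Y.pt ρ t j ≠ ρ j) (h2t : Y.grp t ∉ A₂)
    (h3t : Y.grp t ∉ A₃)
    (h3 : ∀ j ∈ A₃, pe Y ρ e j ≠ ρ j)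
    (ω : Option F × Bool → F) (h : Ev Y ρ t e A₂ A₃ ω) :
    Y.Good ρ t (insert (Y.wl ρ t) ((zs ω).filter (fun κ => κ.1 ≠ t))) := by
  obtain ⟨⟨hn, h0⟩, ⟨⟨κ₂, hκ₂, h₂⟩, ⟨κ₃, hκ₃, h₃⟩⟩⟩ := h
  obtain ⟨a, ha, rfl⟩ := mem_image.1 hκ₂
  obtain ⟨b, hb, rfl⟩ := mem_image.1 hκ₃
  simp only [mem_filter, mem_univ, true_and] at ha hb
  have hat : a ≠ t := by rintro rfl; exact h2t ha
  have hbt : b ≠ t := by rintro rfl; exact h3t hb
  have hbe : b ≠ e := by rintro rfl; exact h3t (heg ▸ hb)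
  have hmem : ∀ d, d ≠ t → ω (Y.wl' ρ d) = 0 →
      Y.wl' ρ d ∈ insert (Y.wl ρ t) ((zs ω).filter (fun κ => κ.1 ≠ t)) := by
    intro d hd h
    apply mem_insert_of_mem
    simp only [mem_filter, mem_zs]
    exact ⟨h, hd⟩
  refine good_of Y ρ t e he heg _ ?_ (mem_insert_self _ _) ?_ (hmem e he h0)
    ⟨a, hat, h2 _ ha, hmem a hat h₂⟩ ⟨b, hbe, h3 _ hb, hmem b hbt h₃⟩
  · intro t' ht' hmem'
    rcases mem_insert.1 hmem' with h | h
    · exact ht' (wl_inj Y ρ h)
    · simp only [mem_filter, mem_zs] at h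
      refine hn (Y.wl ρ t') ?_ h.1
      apply mem_union_left
      exact mem_image_of_mem _ (by simp [ht'])
  · intro κ hκ hκt
    rcases mem_insert.1 hκ with h | h
    · exact h
    · simp only [mem_filter] at h
      exact absurd hκt h.2

theorem sum_PP_le {ι α : Type*} [Fintype ι] [DecidableEq ι] [Fintype α] [Nonempty α]
    {κ : Type*} (K : Finset κ) (p : κ → (ι → α) → Prop) (r : (ι → α) → Prop)
    (h : ∀ k ∈ K, ∀ ω, p k ω → r ω)
    (hd : ∀ k ∈ K, ∀ k' ∈ K, k ≠ k' → ∀ ω, p k ω → ¬ p k' ω) :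
    ∑ k ∈ K, PP (p k) ≤ PP r := by
  classical
  simp only [PP_eq]
  rw [← EE_sum]
  refine EE_mono (fun ω => ?_)
  by_cases hex : ∃ k ∈ K, p k ω
  · obtain ⟨k, hk, hp⟩ := hex
    rw [Finset.sum_eq_single k]
    · rw [if_pos hp, if_pos (h k hk ω hp)]
    · intro k' hk' hne
      rw [if_neg (hd k hk k' hk' (Ne.symm hne) ω hp)]
    · intro h'; exact absurd hk h'
  · push Not at hex
    rw [Finset.sum_eq_zero (fun k hk => if_neg (hex k hk))]
    split_ifs <;> norm_num

/-- all but at most one index `e` has its pattern far from `ρ` -/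
theorem card_bad {Y : Sys F N} (hY : Y.Ok) (ρ : Fin N → Bool) (S : Finset (Option F)) :
    (S.filter (fun e => 16 * (univ.filter (fun j => pe Y ρ e j ≠ ρ j)).card < N)).card ≤ 1 := by
  rw [Finset.card_le_one]
  intro a ha b hb
  simp only [mem_filter] at ha hb
  by_contra hab
  have h := hY.code a b (xor (!ρ (Y.grp a)) (Y.sg a (Y.grp a)))
    (xor (!ρ (Y.grp b)) (Y.sg b (Y.grp b))) (fun h => hab (congrArg Prod.fst h))
  have h2 : (univ.filter (fun j => Y.pat a (xor (!ρ (Y.grp a)) (Y.sg a (Y.grp a))) j ≠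
      Y.pat b (xor (!ρ (Y.grp b)) (Y.sg b (Y.grp b))) j)) ⊆
      (univ.filter (fun j => pe Y ρ a j ≠ ρ j)) ∪ (univ.filter (fun j => pe Y ρ b j ≠ ρ j)) := by
    intro j hj
    have hj' := (mem_filter.1 hj).2
    by_cases h4 : pe Y ρ a j = ρ j
    · refine mem_union_right _ (mem_filter.2 ⟨mem_univ _, fun h5 => ?_⟩)
      exact hj' (h4.trans h5.symm)
    · exact mem_union_left _ (mem_filter.2 ⟨mem_univ _, h4⟩)
  have h3 := (Finset.card_le_card h2).trans (Finset.card_union_le _ _)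
  omega

theorem gp_ge {Y : Sys F N} (hY : Y.Ok) (hN : 80 ≤ N) (hq : 100 * N ≤ Fintype.card F)
    (ρ : Fin N → Bool) (t : Option F) (A₂ : Finset (Fin N)) (h2 : ∀ j ∈ A₂, Y.pt ρ t j ≠ ρ j)
    (hA : 40 * A₂.card ≤ N) :
    1 / 6000 * ((A₂.card : ℝ) / (N : ℝ) ^ 2) ≤ Y.gp ρ t := by
  classical
  have hN' : (80 : ℝ) ≤ N := by exact_mod_cast hN
  have hq' : 100 * (N : ℝ) ≤ Fintype.card F := by exact_mod_cast hq
  have h2t : Y.grp t ∉ A₂ := by
    intro h
    apply h2 _ h
    simp only [Sys.pt, Sys.pat]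
    cases (ρ (Y.grp t)) <;> cases (Y.sg t (Y.grp t)) <;> rfl
  set A₃ : Option F → Finset (Fin N) := fun e =>
    ((univ.filter (fun j => pe Y ρ e j ≠ ρ j)).erase (Y.grp t)) \ A₂ with hA₃
  set E : Finset (Option F) := ((Y.B (Y.grp t)).erase t).filter
    (fun e => ¬ 16 * (univ.filter (fun j => pe Y ρ e j ≠ ρ j)).card < N) with hE
  have hA3c : ∀ e ∈ E, (N : ℝ) / 40 ≤ (A₃ e).card := by
    intro e he
    rw [hE, mem_filter] at he
    have h3 := he.2
    rw [not_lt] at h3
    have h4 : (univ.filter (fun j => pe Y ρ e j ≠ ρ j)).card - 1 - A₂.card ≤ (A₃ e).card := by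
      rw [hA₃]
      refine le_trans ?_ (Finset.le_card_sdiff _ _)
      have := Finset.pred_card_le_card_erase (s := univ.filter (fun j => pe Y ρ e j ≠ ρ j))
        (a := Y.grp t)
      omega
    have h5 : N ≤ 40 * (A₃ e).card := by omega
    have h6 : (N : ℝ) ≤ 40 * (A₃ e).card := by exact_mod_cast h5
    rw [div_le_iff₀ (by norm_num)]
    linarith
  have hEc : (Fintype.card F : ℝ) / (2 * N) ≤ E.card := by
    have h3 : (Y.B (Y.grp t)).card ≤ E.card + 2 := by
      have h4 := Finset.card_filter_add_card_filter_not (s := (Y.B (Y.grp t)).erase t)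
        (fun e => 16 * (univ.filter (fun j => pe Y ρ e j ≠ ρ j)).card < N)
      have h5 := card_bad hY ρ ((Y.B (Y.grp t)).erase t)
      have h6 := Finset.pred_card_le_card_erase (s := Y.B (Y.grp t)) (a := t)
      have h7 : E.card = (((Y.B (Y.grp t)).erase t).filter
        (fun e => ¬ 16 * (univ.filter (fun j => pe Y ρ e j ≠ ρ j)).card < N)).card := rfl
      omega
    have h3' : ((Y.B (Y.grp t)).card : ℝ) ≤ E.card + 2 := by exact_mod_cast h3
    have h4 := B_lo hY (by omega) (by omega) (Y.grp t)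
    have h5 : (Fintype.card F : ℝ) / (2 * N) + 2 ≤ 2 / (3 * (N : ℝ)) * (Fintype.card F : ℝ) := by
      have h6 : 2 / (3 * (N : ℝ)) * (Fintype.card F : ℝ)
          = (Fintype.card F : ℝ) / (2 * N) + (Fintype.card F : ℝ) / (6 * N) := by
        field_simp; ring
      rw [h6]
      have h7 : (2 : ℝ) ≤ (Fintype.card F : ℝ) / (6 * N) := by
        rw [le_div_iff₀ (by positivity)]; linarith
      linarith
    linarith
  have hsum := sum_PP_le (ι := Option F × Bool) (α := F) E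
    (fun e ω => Ev Y ρ t e A₂ (A₃ e) ω)
    (fun ω => Y.Good ρ t (insert (Y.wl ρ t) ((zs ω).filter (fun κ => κ.1 ≠ t))))
    (by
      intro e he ω hω
      rw [hE, mem_filter, mem_erase, mem_B] at he
      refine Ev_good ρ t e he.1.1 he.1.2 A₂ (A₃ e) h2 h2t ?_ ?_ ω hω
      · simp [hA₃]
      · intro j hj
        simp only [hA₃, mem_sdiff, mem_erase, mem_filter, mem_univ, true_and] at hj
        exact hj.1.2)
    (by
      intro e he e' he' hne ω hω hω'
      rw [hE, mem_filter, mem_erase, mem_B] at he he'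
      refine hω.1.1 (Y.wl' ρ e') ?_ hω'.1.2
      apply mem_union_right
      apply mem_image_of_mem
      rw [mem_erase, mem_erase, mem_B]
      exact ⟨Ne.symm hne, he'.1.1, he'.1.2⟩)
  have hlow : ∀ e ∈ E, 1 / 16 * (1 / (Fintype.card F : ℝ)) * ((A₂.card : ℝ) / (3 * N) * (1 / 61))
      ≤ PP (fun ω : Option F × Bool → F => Ev Y ρ t e A₂ (A₃ e) ω) := by
    intro e he
    have he' := he
    rw [hE, mem_filter, mem_erase, mem_B] at he'
    refine PP_Ev_ge hY hN (by omega) ρ t e he'.1.1 he'.1.2 A₂ (A₃ e) h2t ?_ ?_ (hA3c e he)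
    · simp [hA₃]
    · rw [hA₃]
      exact Finset.disjoint_sdiff
  have hfin : (E.card : ℝ) * (1 / 16 * (1 / (Fintype.card F : ℝ)) *
      ((A₂.card : ℝ) / (3 * N) * (1 / 61))) ≤ Y.gp ρ t := by
    refine le_trans ?_ hsum
    rw [← nsmul_eq_mul, ← Finset.sum_const]
    exact Finset.sum_le_sum hlow
  refine le_trans ?_ hfin
  calc 1 / 6000 * ((A₂.card : ℝ) / (N : ℝ) ^ 2)
      ≤ (Fintype.card F : ℝ) / (2 * N) * (1 / 16 * (1 / (Fintype.card F : ℝ)) *
      ((A₂.card : ℝ) / (3 * N) * (1 / 61))) := by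
        have hq0 : (0 : ℝ) < Fintype.card F := qpos
        have h8 : (Fintype.card F : ℝ) / (2 * N) * (1 / 16 * (1 / (Fintype.card F : ℝ)) *
          ((A₂.card : ℝ) / (3 * N) * (1 / 61))) = 1 / 5856 * ((A₂.card : ℝ) / (N : ℝ) ^ 2) := by
          field_simp; ring
        rw [h8]
        gcongr
        norm_num
    _ ≤ _ := by gcongr

end GP

/-- lower bounds for the probability of good points -/
theorem gp_lo : ∃ (c : ℝ) (q₀ : ℕ), 0 < c ∧
    ∀ (F : Type) [Field F] [Fintype F] [DecidableEq F], q₀ ≤ Fintype.card F →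
    ∀ (N : ℕ), N = NN (Fintype.card F) → ∀ (Y : Sys F N), Y.Ok → ∀ ρ t,
      (N ≤ 16 * Y.dd ρ t → c / N ≤ Y.gp ρ t) ∧ (0 < Y.dd ρ t → c / (N : ℝ) ^ 2 ≤ Y.gp ρ t) := by
  obtain ⟨q₀, h⟩ := three_NN_le
  obtain ⟨q₁, h1⟩ := le_NN 80
  refine ⟨1 / 480000, max q₀ q₁, by norm_num, fun F _ _ _ hq N hN Y hY ρ t => ?_⟩
  have hq0 := h _ (le_trans (le_max_left _ _) hq)
  have hN80 : 80 ≤ NN (Fintype.card F) := by exact_mod_cast h1 _ (le_trans (le_max_right _ _) hq)
  rw [← hN] at hq0 hN80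
  have hN' : (80 : ℝ) ≤ N := by exact_mod_cast hN80
  constructor
  · intro hd
    have h2 : N / 40 ≤ (univ.filter (fun j => Y.pt ρ t j ≠ ρ j)).card := by
      have : Y.dd ρ t = (univ.filter (fun j => Y.pt ρ t j ≠ ρ j)).card := rfl
      omega
    obtain ⟨A₂, hA₂, hc⟩ := Finset.exists_subset_card_eq h2
    have h3 := gp_ge hY hN80 hq0 ρ t A₂ (fun j hj => by simpa using hA₂ hj) (by omega)
    refine le_trans ?_ h3
    have h4 : (N : ℝ) ≤ 80 * A₂.card := by
      have : N ≤ 80 * A₂.card := by omega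
      exact_mod_cast this
    rw [div_le_iff₀ (by positivity)]
    have h5 : 1 / 6000 * ((A₂.card : ℝ) / (N : ℝ) ^ 2) * N = 1 / 6000 * ((A₂.card : ℝ) / N) := by
      field_simp
    rw [h5]
    have h6 : (1 : ℝ) / 80 ≤ (A₂.card : ℝ) / N := by
      rw [div_le_div_iff₀ (by norm_num) (by positivity)]; linarith
    linarith
  · intro hd
    have h2 : 1 ≤ (univ.filter (fun j => Y.pt ρ t j ≠ ρ j)).card := hd
    obtain ⟨A₂, hA₂, hc⟩ := Finset.exists_subset_card_eq h2
    have h3 := gp_ge hY hN80 hq0 ρ t A₂ (fun j hj => by simpa using hA₂ hj) (by omega)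
    refine le_trans ?_ h3
    rw [hc]
    rw [div_le_iff₀ (by positivity)]
    have h5 : 1 / 6000 * (((1 : ℕ) : ℝ) / (N : ℝ) ^ 2) * (N : ℝ) ^ 2 = 1 / 6000 := by
      field_simp
      norm_num
    rw [h5]
    norm_num


end Crest.Agent.H5RyQ2
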