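import Crest.Agent.H3RyWs
import Crest.Agent.H3RyIb
import Crest.Agent.H17RyMom
import Crest.Agent.H5RyQ2
import Crest.Agent.H20RyConc
import Crest.Agent.H28RyCode
import Crest.Agent.H28RyLT
import Crest.Agent.H20RyEvY

/-! # Final assembly of Theorem A -/

set_option autoImplicit false
set_option linter.unusedSectionVars false

namespace Crest.Agent.H3RyDet
open Finset Crest.Agent.H3Ry Crest.Agent.H23RyProb

/-- majority pattern -/
theorem exists_majority {F : Type} [Field F] [Fintype F] [DecidableEq F] {N : ℕ} (Y : Sys F N)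
    (ω : Option F × Bool → F) (S : Finset (Option F × F)) : ∃ ρ : Fin N → Bool, ∀ j,
      (univ.filter (fun t => Y.grp t = j ∧ sl ω (Y.wl' ρ t) ∈ S)).card ≤
      (univ.filter (fun t => Y.grp t = j ∧ sl ω (Y.wl ρ t) ∈ S)).card := by
  classical
  let a : Bool → Fin N → ℕ := fun v j =>
    (univ.filter (fun t => Y.grp t = j ∧ sl ω (t, v) ∈ S)).card
  let ρ : Fin N → Bool := fun j => decide (a false j < a true j)
  have hρ : ∀ j, a (!ρ j) j ≤ a (ρ j) j := by
    intro j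
    by_cases h : a false j < a true j
    · have : ρ j = true := by simp only [ρ]; exact decide_eq_true h
      rw [this]
      exact h.le
    · have : ρ j = false := by simp only [ρ]; exact decide_eq_false h
      rw [this]
      exact not_lt.1 h
  refine ⟨ρ, fun j => ?_⟩
  have h1 : (univ.filter (fun t => Y.grp t = j ∧ sl ω (Y.wl' ρ t) ∈ S)).card = a (!ρ j) j := by
    simp only [a]
    congr 1
    ext t
    rw [mem_filter, mem_filter]
    unfold Sys.wl'
    constructor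
    · rintro ⟨_, h1, h2⟩
      rw [h1] at h2
      exact ⟨mem_univ _, h1, h2⟩
    · rintro ⟨_, h1, h2⟩
      rw [← h1] at h2
      exact ⟨mem_univ _, h1, h2⟩
  have h2 : (univ.filter (fun t => Y.grp t = j ∧ sl ω (Y.wl ρ t) ∈ S)).card = a (ρ j) j := by
    simp only [a]
    congr 1
    ext t
    rw [mem_filter, mem_filter]
    unfold Sys.wl
    constructor
    · rintro ⟨_, h1, h2⟩
      rw [h1] at h2
      exact ⟨mem_univ _, h1, h2⟩
    · rintro ⟨_, h1, h2⟩
      rw [← h1] at h2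
      exact ⟨mem_univ _, h1, h2⟩
  rw [h1, h2]
  exact hρ j

/-- the number of special lines of `S` -/
theorem card_special {F : Type} [Field F] [Fintype F] [DecidableEq F] {N : ℕ} (Y : Sys F N)
    (ω : Option F × Bool → F) (ρ : Fin N → Bool) (S : Finset (Option F × F)) :
    (univ.filter (fun κ => sl ω κ ∈ S)).card + (Mset Y ω ρ S).card =
      Fintype.card F + 1 + (Yset Y ω ρ S).card := by
  classical
  have h1 : (univ.filter (fun κ => sl ω κ ∈ S)).card =
      (univ.filter (fun t => sl ω (Y.wl ρ t) ∈ S)).card + (Yset Y ω ρ S).card := by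
    have h2 : univ.filter (fun κ => sl ω κ ∈ S) =
        ((univ.filter (fun t => sl ω (Y.wl ρ t) ∈ S)).image (Y.wl ρ)) ∪
        ((Yset Y ω ρ S).image (Y.wl' ρ)) := by
      ext κ
      rw [mem_union, mem_image, mem_image, mem_filter]
      constructor
      · rintro ⟨-, h⟩
        by_cases hκ : κ.2 = ρ (Y.grp κ.1)
        · left
          have h3 : Y.wl ρ κ.1 = κ := by
            unfold Sys.wl; rw [← hκ]
          exact ⟨κ.1, by rw [mem_filter, h3]; exact ⟨mem_univ _, h⟩, h3⟩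
        · right
          have h3 : Y.wl' ρ κ.1 = κ := by
            unfold Sys.wl'
            have h4 : (!ρ (Y.grp κ.1)) = κ.2 := by
              cases h5 : κ.2 <;> cases h6 : ρ (Y.grp κ.1) <;> simp_all
            rw [h4]
          exact ⟨κ.1, by rw [Yset, mem_filter, h3]; exact ⟨mem_univ _, h⟩, h3⟩
      · rintro (⟨t, ht, rfl⟩ | ⟨t, ht, rfl⟩)
        · rw [mem_filter] at ht
          exact ⟨mem_univ _, ht.2⟩
        · rw [Yset, mem_filter] at ht
          exact ⟨mem_univ _, ht.2⟩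
    rw [h2, card_union_of_disjoint]
    · rw [card_image_of_injective, card_image_of_injective]
      · intro t t' h
        exact congrArg Prod.fst h
      · intro t t' h
        exact congrArg Prod.fst h
    · rw [disjoint_left]
      rintro κ hκ hκ'
      rw [mem_image] at hκ hκ'
      obtain ⟨t, -, rfl⟩ := hκ
      obtain ⟨t', -, h⟩ := hκ'
      have h3 : t' = t := congrArg Prod.fst h
      subst h3
      have h4 : (!ρ (Y.grp t')) = ρ (Y.grp t') := congrArg Prod.snd h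
      cases h5 : ρ (Y.grp t') <;> rw [h5] at h4 <;> simp at h4
  have h3 := card_filter_add_card_filter_not (s := (univ : Finset (Option F)))
    (fun t => sl ω (Y.wl ρ t) ∈ S)
  rw [card_univ, card_dir] at h3
  unfold Mset
  omega

theorem det_final {F : Type} [Field F] [Fintype F] [DecidableEq F] {N : ℕ} {Y : Sys F N}
    (hY : Y.Ok) {ω : Option F × Bool → F}
    (hdist : ∀ d, ω (d, false) ≠ ω (d, true)) {c ε' η c₂ c₁ τ : ℝ} (hc : 0 < c) (hc1 : c ≤ 1)
    (hε' : 0 < ε') (hε'1 : ε' ≤ 1) (hη : η = ε' * c / 200) (hC : Conc Y η ω)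
    (hgp : ∀ ρ t, (N ≤ 16 * Y.dd ρ t → c / N ≤ Y.gp ρ t) ∧
      (0 < Y.dd ρ t → c / (N : ℝ) ^ 2 ≤ Y.gp ρ t))
    (hN : 0 < N) (hc₁ : c₁ = 1 / 100000) (hτ : τ = c₁ ^ 2 / 20000)
    (hLT : ∀ A B : Finset (Option F × F), (A.card : ℝ) ≤ Fintype.card F / 50 →
      (B.card : ℝ) ≤ Fintype.card F / 50 →
      τ * (Fintype.card F : ℝ) ^ 2 ≤ (cov A ∩ cov B).card →
      c₂ * (Fintype.card F : ℝ) ^ 2 / (N : ℝ) ^ 2 ≤ ((cov A ∩ cov B) ∩ X12 Y ω).card)
    (hEY : ∀ (ρ : Fin N → Bool) (S : Finset (Option F × F)), S.card = Fintype.card F →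
      (∀ P ∈ unc S, ¬ Y.DR (hs ω P)) →
      (∀ j, (univ.filter (fun t => Y.grp t = j ∧ sl ω (Y.wl' ρ t) ∈ S)).card ≤
            (univ.filter (fun t => Y.grp t = j ∧ sl ω (Y.wl ρ t) ∈ S)).card) →
      c / 2 * Fintype.card F / N ≤ ((Mset Y ω ρ S).card : ℝ) →
      ((Yset Y ω ρ S).card : ℝ) < ε' * c / 200 * ((Mset Y ω ρ S).card : ℝ))
    (hIb : ∀ S : Finset (Option F × F), S.card = Fintype.card F →
        (Fintype.card F : ℝ) * Real.sqrt (Fintype.card F) / 4 ≤ (unc S).card →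
        ((unc S).card : ℝ) ≤ c₁ * (Fintype.card F : ℝ) ^ 2 →
        ¬ ∀ P ∈ unc S, ¬ Y.DR (hs ω P))
    (n1 : 2 * (N : ℝ) ^ 2 * (Fintype.card F : ℝ) ^ (3 / 4 : ℝ) ≤ c * Fintype.card F)
    (n2 : 12 * N * (Fintype.card F : ℝ) ^ (3 / 4 : ℝ) ≤ ε' * c / 100 * Fintype.card F)
    (n3 : 4 ≤ ε' * Fintype.card F)
    (n4 : 2 * (Fintype.card F : ℝ) ^ 2 * Real.exp (-((Fintype.card F : ℝ) / 20000)) <
      τ * (Fintype.card F : ℝ) ^ 2)
    (n5 : 4 * (Fintype.card F : ℝ) ^ (3 / 4 : ℝ) * Fintype.card F + 2 * Fintype.card F +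
      100 * ε' * (Fintype.card F : ℝ) ^ 2 / (N : ℝ) ^ 2 <
      c₂ * (Fintype.card F : ℝ) ^ 2 / (N : ℝ) ^ 2)
    (n6 : Real.sqrt (Fintype.card F) + 1 ≤ (Fintype.card F : ℝ) / (1000 * (N : ℝ) ^ 2))
    (n7 : 100 ≤ Fintype.card F)
    (S : Finset (Option F × F)) (hS : S.card = Fintype.card F)
    (hcov : ∀ P ∈ Y.X ω, 0 < mu S P) :
    (∃ d, ∀ l ∈ S, l.1 = d) ∨ ∃ i a, S = Y.fw ω i a := by
  classical
  obtain ⟨ρ, hρ⟩ := exists_majority Y ω S
  have hDR : ∀ P ∈ unc S, ¬ Y.DR (hs ω P) := by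
    intro P hP h
    rw [unc, mem_filter] at hP
    have h1 := hcov P (by rw [Sys.X, mem_filter]; exact ⟨mem_univ _, inX_of_DR h⟩)
    omega
  rcases le_or_gt ((Mset Y ω ρ S).card : ℝ) (c / 2 * Fintype.card F / N) with hm | hm
  · right
    exact regimeS hY (fun ρ t => hC.good_lo ρ t) hc hgp hN n1 hS hcov hm
  · left
    have hy := hEY ρ S hS hDR hρ hm.le
    have hM := regimeM hY hdist hc hc1 hε' hε'1 hη hC ρ hS (fun t => (hgp ρ t).1) hN hcov n2
      hm.le hy.le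
    have hMc : ((Mset Y ω ρ S).card : ℝ) ≤ Fintype.card F + 1 := by
      have h1 : (Mset Y ω ρ S).card ≤ Fintype.card (Option F) := by
        rw [← card_univ]; exact card_le_card (subset_univ _)
      rw [card_dir] at h1
      exact_mod_cast h1
    have hspec : ((univ.filter (fun κ => sl ω κ ∈ S)).card : ℝ) ≤ ε' * Fintype.card F := by
      have h1 : ((univ.filter (fun κ => sl ω κ ∈ S)).card : ℝ) + (Mset Y ω ρ S).card =
        Fintype.card F + 1 + (Yset Y ω ρ S).card := by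
        exact_mod_cast card_special Y ω ρ S
      have h2 : ε' * c / 200 * ((Mset Y ω ρ S).card : ℝ) ≤ ε' / 200 * (Fintype.card F + 1) := by
        have h3 : ε' * c / 200 ≤ ε' / 200 := by nlinarith
        exact mul_le_mul h3 hMc (by positivity) (by positivity)
      have h4 : (100 : ℝ) ≤ Fintype.card F := by exact_mod_cast n7
      nlinarith
    rcases le_or_gt (c₁ * (Fintype.card F : ℝ) ^ 2) ((unc S).card : ℝ) with hu | hu
    · exact (regimeWs hC (by omega) hN hS hcov hτ (by rw [hc₁]; norm_num) hLT hspec hu n4 n5).elim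
    · have hx₀ : ∀ l, Nat.sqrt (Fintype.card F) + 1 ≤ (pts l ∩ Y.X ω).card := by
        intro l
        have h1 := hC.s12_lo l
        have h2 : ((pts l).filter (fun P => Y.s12 (hs ω P))).card ≤ (pts l ∩ Y.X ω).card := by
          apply card_le_card
          intro P hP
          rw [mem_filter] at hP
          rw [mem_inter, Sys.X, mem_filter]
          exact ⟨hP.1, mem_univ _, inX_of_s12 hP.2⟩
        have h3 : (Nat.sqrt (Fintype.card F) : ℝ) ≤ Real.sqrt (Fintype.card F) :=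
          Real.nat_sqrt_le_real_sqrt
        have h4 : ((Nat.sqrt (Fintype.card F) + 1 : ℕ) : ℝ) ≤
            (((pts l).filter (fun P => Y.s12 (hs ω P))).card : ℝ) := by
          push_cast
          linarith
        exact (by exact_mod_cast h4 : Nat.sqrt (Fintype.card F) + 1 ≤ _).trans h2
      have hsq1 : Fintype.card F ≤ (Nat.sqrt (Fintype.card F) + 1) ^ 2 :=
        (Nat.lt_succ_sqrt' _).le
      have hsq2 : 2 * (Nat.sqrt (Fintype.card F) + 1) ≤ Fintype.card F := by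
        have h1 : Nat.sqrt (Fintype.card F) * Nat.sqrt (Fintype.card F) ≤ Fintype.card F :=
          Nat.sqrt_le _
        have h2 : 10 ≤ Nat.sqrt (Fintype.card F) := Nat.le_sqrt.2 (by omega)
        nlinarith
      rcases parallel_or_unc S (Y.X ω) _ n7 hS hcov hx₀ hsq1 hsq2 with h | h
      · exact h
      · exact (hIb S hS h hu.le hDR).elim

theorem rpow_three_quarters {q : ℝ} (hq : 0 < q) : q ^ (1 / 4 : ℝ) * q ^ (3 / 4 : ℝ) = q := by
  rw [← Real.rpow_add hq]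
  norm_num

theorem num_quarter {q C x a : ℝ} (hq : 0 < q) (ha : 0 < a) (h : C / a * x ≤ q ^ (1 / 4 : ℝ)) :
    C * x * q ^ (3 / 4 : ℝ) ≤ a * q := by
  have h1 : C * x ≤ a * q ^ (1 / 4 : ℝ) := by
    have h2 : C / a * x = (C * x) / a := by ring
    rw [h2, div_le_iff₀ ha] at h
    linarith
  calc C * x * q ^ (3 / 4 : ℝ) ≤ a * q ^ (1 / 4 : ℝ) * q ^ (3 / 4 : ℝ) := by gcongr
    _ = a * q := by rw [mul_assoc, rpow_three_quarters hq]

theorem n4_num {q τ : ℝ} (hq : 0 < q) (hτ0 : 0 < τ) (m4 : 40000 / τ ≤ q) :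
    2 * q ^ 2 * Real.exp (-(q / 20000)) < τ * q ^ 2 := by
  have h1 : 2 / τ < Real.exp (q / 20000) := by
    have h2 := Real.add_one_le_exp (q / 20000)
    have h3 : 40000 / τ = 20000 * (2 / τ) := by ring
    rw [h3] at m4
    have h4 : 2 / τ ≤ q / 20000 := by
      rw [le_div_iff₀ (by norm_num)]; linarith
    linarith
  have h2 : Real.exp (-(q / 20000)) < τ / 2 := by
    rw [Real.exp_neg, inv_lt_comm₀ (Real.exp_pos _) (by positivity), inv_div]
    exact h1
  have h3 : 0 < q ^ 2 := by positivity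
  calc 2 * q ^ 2 * Real.exp (-(q / 20000)) < 2 * q ^ 2 * (τ / 2) :=
        mul_lt_mul_of_pos_left h2 (by positivity)
    _ = τ * q ^ 2 := by ring

theorem n5_num {q r n c₂ ε' : ℝ} (hq : 0 < q) (hn : 0 < n) (hc₂ : 0 < c₂)
    (h1 : 12 * n ^ 2 * r ≤ c₂ * q) (h2 : 1 ≤ r) (hε'2 : ε' ≤ c₂ / 400) :
    4 * r * q + 2 * q + 100 * ε' * q ^ 2 / n ^ 2 < c₂ * q ^ 2 / n ^ 2 := by
  have h3 : 4 * r * q + 2 * q ≤ 6 * r * q := by
    have : q ≤ r * q := le_mul_of_one_le_left hq.le h2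
    linarith
  have h4 : 6 * r * q ≤ c₂ / 2 * (q ^ 2 / n ^ 2) := by
    have h5 : 6 * r ≤ c₂ / 2 * (q / n ^ 2) := by
      rw [← mul_div_assoc, le_div_iff₀ (by positivity)]
      linarith
    calc 6 * r * q ≤ c₂ / 2 * (q / n ^ 2) * q := mul_le_mul_of_nonneg_right h5 hq.le
      _ = c₂ / 2 * (q ^ 2 / n ^ 2) := by ring
  have h6 : 0 < q ^ 2 / n ^ 2 := by positivity
  have h7 : 100 * ε' * q ^ 2 / n ^ 2 ≤ c₂ / 4 * (q ^ 2 / n ^ 2) := by
    rw [mul_div_assoc]
    apply mul_le_mul_of_nonneg_right _ h6.le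
    linarith
  have h8 : c₂ * q ^ 2 / n ^ 2 = c₂ * (q ^ 2 / n ^ 2) := by ring
  have h9 : 0 < c₂ * (q ^ 2 / n ^ 2) := by positivity
  rw [h8]
  linarith

theorem n6_num {q n : ℝ} (hq : 1 ≤ q) (hn : 0 < n) (m6 : 2000 * n ^ 2 ≤ Real.sqrt q) :
    Real.sqrt q + 1 ≤ q / (1000 * n ^ 2) := by
  rw [le_div_iff₀ (by positivity)]
  have h1 : 1 ≤ Real.sqrt q := Real.one_le_sqrt.2 hq
  have h2 : Real.sqrt q * Real.sqrt q = q := Real.mul_self_sqrt (by linarith)
  have h3 : (Real.sqrt q + 1) * (1000 * n ^ 2) ≤ (2 * Real.sqrt q) * (1000 * n ^ 2) := by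
    apply mul_le_mul_of_nonneg_right _ (by positivity)
    linarith
  have h4 : Real.sqrt q * (2000 * n ^ 2) ≤ Real.sqrt q * Real.sqrt q :=
    mul_le_mul_of_nonneg_left m6 (Real.sqrt_nonneg _)
  linarith

theorem thmA_large : ∃ q₀ : ℕ, ∀ (F : Type) [Field F] [Fintype F] [DecidableEq F],
    q₀ ≤ Fintype.card F → ThmA F := by
  obtain ⟨c₀, qa, hc₀, hgp⟩ := H5RyQ2.gp_lo
  obtain ⟨C₀, qb, hC₀, hmom⟩ := H17Ry.moments_event
  obtain ⟨c₁, hc₁⟩ : ∃ c₁ : ℝ, c₁ = 1 / 100000 := ⟨_, rfl⟩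
  obtain ⟨τ, hτ⟩ : ∃ τ : ℝ, τ = c₁ ^ 2 / 20000 := ⟨_, rfl⟩
  have hτ0 : 0 < τ := by rw [hτ, hc₁]; norm_num
  obtain ⟨c₂, qc, hc₂, hLT⟩ := H28RyLT.event_LT τ C₀ hτ0 hC₀
  obtain ⟨c, hcdef⟩ : ∃ c : ℝ, c = min 1 c₀ := ⟨_, rfl⟩
  have hc : 0 < c := by rw [hcdef]; exact lt_min one_pos hc₀
  have hc1 : c ≤ 1 := by rw [hcdef]; exact min_le_left _ _
  have hcc₀ : c ≤ c₀ := by rw [hcdef]; exact min_le_right _ _
  obtain ⟨ε', hε'def⟩ : ∃ ε' : ℝ, ε' = min 1 (c₂ / 400) := ⟨_, rfl⟩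
  have hε' : 0 < ε' := by rw [hε'def]; exact lt_min one_pos (by positivity)
  have hε'1 : ε' ≤ 1 := by rw [hε'def]; exact min_le_left _ _
  have hε'2 : ε' ≤ c₂ / 400 := by rw [hε'def]; exact min_le_right _ _
  obtain ⟨η, hη⟩ : ∃ η : ℝ, η = ε' * c / 200 := ⟨_, rfl⟩
  have hη0 : 0 < η := by rw [hη]; positivity
  obtain ⟨qd, hconc⟩ := H20Ry.conc_event η hη0
  have hec : ε' * c ≤ 1 := by nlinarith
  obtain ⟨qe, hEY⟩ := H20Ry.event_Y (ε' * c / 200) (c / 2) (by positivity) (by linarith) (by positivity)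
  obtain ⟨qf, hIb⟩ := event_Ib
  obtain ⟨qg, hdist⟩ := H17Ry.distinct_prob
  obtain ⟨qh, hsys⟩ := exists_sys
  obtain ⟨q1, hq1⟩ := NN_pow_le 2 (2 / c) (1 / 4) (by norm_num)
  obtain ⟨q2, hq2⟩ := NN_pow_le 1 (12 / (ε' * c / 100)) (1 / 4) (by norm_num)
  obtain ⟨q3, hq3⟩ := le_q (4 / ε')
  obtain ⟨q4, hq4⟩ := le_q (40000 / τ)
  obtain ⟨q5, hq5⟩ := NN_pow_le 2 (12 / c₂) (1 / 4) (by norm_num)
  obtain ⟨q6, hq6⟩ := NN_pow_le 2 2000 (1 / 2) (by norm_num)
  obtain ⟨q8, hq8⟩ := NN_pow_le 1 4 1 (by norm_num)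
  refine ⟨qa + qb + qc + qd + qe + qf + qg + qh + q1 + q2 + q3 + q4 + q5 + q6 + q8 + 100, ?_⟩
  intro F _ _ _ hF
  classical
  suffices key : ∀ N, N = NN (Fintype.card F) → ∀ Y : Sys F N, Y.Ok → ThmA F by
    obtain ⟨Y, hY⟩ := hsys F (by omega)
    exact key _ rfl Y hY
  intro N hN Y hY
  have hN20 : 20 ≤ N := by rw [hN]; exact twenty_le_NN _
  have hNpos : 0 < N := by omega
  have hN' : (20 : ℝ) ≤ N := by exact_mod_cast hN20
  have hq100 : 100 ≤ Fintype.card F := by omega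
  have hgp' := hgp F (by omega) N hN Y hY
  have hmom' := hmom F (by omega) N hN Y hY
  have hLT' := hLT F (by omega) N hN Y hY
  have hconc' := hconc F (by omega) N hN Y hY
  have hEY' := hEY F (by omega) N hN Y hY
  have hIb' := hIb F (by omega) N hN Y hY
  have hdist' := hdist F (by omega)
  have m1 := hq1 (Fintype.card F) (by omega)
  have m2 := hq2 (Fintype.card F) (by omega)
  have m3 := hq3 (Fintype.card F) (by omega)
  have m4 := hq4 (Fintype.card F) (by omega)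
  have m5 := hq5 (Fintype.card F) (by omega)
  have m6 := hq6 (Fintype.card F) (by omega)
  have m8 := hq8 (Fintype.card F) (by omega)
  rw [← hN] at m1 m2 m5 m6 m8
  have hq100' : (100 : ℝ) ≤ (Fintype.card F : ℝ) := by exact_mod_cast hq100
  have hq0 : (0 : ℝ) < (Fintype.card F : ℝ) := by linarith
  -- choice of ω
  have hbad := (PP_or_le (ι := Option F × Bool) (α := F) _ _).trans
    (add_le_add ((PP_or_le _ _).trans (add_le_add ((PP_or_le _ _).trans (add_le_add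
      ((PP_or_le _ _).trans (add_le_add hmom' hLT')) hconc')) hEY')) hIb')
  obtain ⟨ω, hω, hnb⟩ := exists_of_PP_lt (lt_of_le_of_lt hbad
    (lt_of_lt_of_le (by norm_num : (1 / 50 + 1 / 50 + 1 / 50 + 1 / 50 + 1 / 50 : ℝ) < 1 / 4) hdist'))
  simp only [not_or] at hnb
  obtain ⟨⟨⟨⟨b1, b2⟩, b3⟩, b4⟩, b5⟩ := hnb
  have hC : Conc Y η ω := by
    by_contra h
    exact b3 ⟨hω, h⟩
  have n1 : 2 * (N : ℝ) ^ 2 * (Fintype.card F : ℝ) ^ (3 / 4 : ℝ) ≤ c * Fintype.card F :=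
    num_quarter hq0 hc m1
  have n2 : 12 * N * (Fintype.card F : ℝ) ^ (3 / 4 : ℝ) ≤ ε' * c / 100 * Fintype.card F := by
    apply num_quarter hq0 (by positivity)
    simpa using m2
  have n3 : 4 ≤ ε' * Fintype.card F := by
    rw [div_le_iff₀ hε'] at m3
    linarith
  have n4 := n4_num hq0 hτ0 m4
  have hN0' : (0 : ℝ) < N := by linarith
  have hq1' : (1 : ℝ) ≤ (Fintype.card F : ℝ) := by linarith
  have hr1 : (1 : ℝ) ≤ (Fintype.card F : ℝ) ^ (3 / 4 : ℝ) := Real.one_le_rpow hq1' (by norm_num)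
  have n5 := n5_num hq0 hN0' hc₂ (num_quarter hq0 hc₂ m5) hr1 hε'2
  have n6 : Real.sqrt (Fintype.card F) + 1 ≤ (Fintype.card F : ℝ) / (1000 * (N : ℝ) ^ 2) := by
    rw [← Real.sqrt_eq_rpow] at m6
    exact n6_num hq1' hN0' m6
  have n8 : 4 * (N : ℝ) ≤ Fintype.card F := by simpa using m8
  refine ⟨N, Y, ω, hω, ?_, ?_, ?_, ?_⟩
  · intro j
    have h1 := B_lo hY j hNpos
    have h2 : (4 : ℝ) ≤ ((Fintype.card F : ℝ) + 1) / N := by
      rw [le_div_iff₀ hN0']
      exact n8.trans (le_add_of_nonneg_right zero_le_one)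
    have h3 : (3 : ℝ) ≤ (Y.B j).card := by linarith only [h1, h2]
    exact_mod_cast h3
  · intro i i' a a' h
    have h1 := hY.code i i' a a' h
    have h2 : 0 < (univ.filter (fun j => Y.pat i a j ≠ Y.pat i' a' j)).card := by omega
    obtain ⟨j, hj⟩ := card_pos.1 h2
    exact ⟨j, (mem_filter.1 hj).2⟩
  · intro l
    have h1 := hC.s12_lo l
    have h2 : 0 < (Fintype.card F : ℝ) / (1000 * (N : ℝ) ^ 2) := by positivity
    have h3 : 0 < ((pts l).filter (fun P => Y.s12 (hs ω P))).card := by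
      have : (0 : ℝ) < ((pts l).filter (fun P => Y.s12 (hs ω P))).card := lt_of_lt_of_le h2 h1
      exact_mod_cast this
    obtain ⟨P, hP⟩ := card_pos.1 h3
    rw [mem_filter] at hP
    exact ⟨P, by rw [mem_inter, Sys.X, mem_filter]; exact ⟨hP.1, mem_univ _, inX_of_s12 hP.2⟩⟩
  · intro S hS hcov
    refine det_final hY hω hc hc1 hε' hε'1 hη hC ?_ hNpos hc₁ hτ ?_ ?_ ?_ n1 n2 n3 n4 n5 n6 hq100
      S hS hcov
    · intro ρ t
      refine ⟨fun h => le_trans ?_ ((hgp' ρ t).1 h), fun h => le_trans ?_ ((hgp' ρ t).2 h)⟩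
      · gcongr
      · gcongr
    · intro A B hA hB hAB
      by_contra hcon
      push Not at hcon
      apply b2
      refine ⟨hC.load, b1, A, B, hA, hB, hAB, ?_⟩
      refine lt_of_le_of_lt ?_ hcon
      have : (cov A ∩ cov B).filter (fun P => Y.s12 (hs ω P)) = (cov A ∩ cov B) ∩ X12 Y ω := by
        ext P
        rw [mem_filter, mem_inter (s₁ := cov A ∩ cov B), X12, mem_filter]
        simp
      rw [this]
    · intro ρ S hS hDR hmaj hm
      by_contra hcon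
      push Not at hcon
      apply b4
      exact ⟨hC.load, hω, ρ, S, hS, hDR, hmaj, hm, hcon⟩
    · intro S hS h1 h2 hDR
      apply b5
      rw [hc₁] at h2
      exact ⟨hC.load, hω, S, hS, h1, h2, hDR⟩

end Crest.Agent.H3RyDet
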