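import Crest.Agent.H3RyDet

/-! # Regime M : many missing lines, few complementary special lines -/

set_option autoImplicit false
set_option linter.unusedSectionVars false

namespace Crest.Agent.H3RyDet
open Finset Crest.Agent.H3Ry Crest.Agent.H23RyProb

theorem chunk {α : Type*} [DecidableEq α] (n : ℕ) (hn : 0 < n) (φ : Finset α → ℝ)
    (hsub : ∀ A B, φ (A ∪ B) ≤ φ A + φ B) (b : ℝ) (hb0 : 0 ≤ b) (G : Finset α)
    (hb : ∀ A ⊆ G, A.card ≤ n → φ A ≤ b) : φ G ≤ ((G.card : ℝ) / n + 1) * b := by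
  induction hk : G.card using Nat.strong_induction_on generalizing G with
  | _ k ih =>
    by_cases hle : G.card ≤ n
    · have h1 := hb G (Subset.refl _) hle
      have h2 : 0 ≤ (k : ℝ) / n := by positivity
      nlinarith
    · push Not at hle
      obtain ⟨A, hA, hAc⟩ := exists_subset_card_eq hle.le
      have h1 := hb A hA hAc.le
      have hc : (G \ A).card = k - n := by
        rw [card_sdiff_of_subset hA, hk, hAc]
      have h2 := ih (k - n) (by omega) (G \ A)
        (fun B hB hBc => hb B (hB.trans sdiff_subset) hBc) hc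
      have h3 : φ G ≤ φ A + φ (G \ A) := by
        have := hsub A (G \ A)
        rwa [union_sdiff_of_subset hA] at this
      have h4 : ((k - n : ℕ) : ℝ) = k - n := by
        rw [Nat.cast_sub (by omega)]
      rw [h4] at h2
      have hn' : (n : ℝ) ≠ 0 := by positivity
      have h5 : (((k : ℝ) - n) / n + 1) * b + b = ((k : ℝ) / n + 1) * b := by
        field_simp
        ring
      linarith

section
variable {F : Type} [Field F] [Fintype F] [DecidableEq F] {N : ℕ}

open Classical in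
theorem sum_good_le (Y : Sys F N) (ω : Option F × Bool → F) (ρ : Fin N → Bool)
    (M : Finset (Option F)) (U : Finset (F × F)) :
    ∑ t ∈ M, (U.filter (fun P => Y.Good ρ t (hs ω P))).card ≤ U.card := by
  rw [← card_biUnion]
  · apply card_le_card
    intro P hP
    rw [mem_biUnion] at hP
    obtain ⟨t, -, hP⟩ := hP
    exact (mem_filter.1 hP).1
  · intro t _ t' _ hne
    simp only [Function.onFun]
    rw [disjoint_left]
    intro P hP hP'
    rw [mem_filter] at hP hP'
    exact hne (good_unique hP.2 hP'.2)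

theorem cov_union (A B : Finset (Option F × F)) : cov (A ∪ B) = cov A ∪ cov B := by
  ext P
  simp only [mem_cov, mem_union]
  constructor
  · rintro ⟨l, hl | hl, hP⟩
    · exact Or.inl ⟨l, hl, hP⟩
    · exact Or.inr ⟨l, hl, hP⟩
  · rintro (⟨l, hl, hP⟩ | ⟨l, hl, hP⟩)
    · exact ⟨l, Or.inl hl, hP⟩
    · exact ⟨l, Or.inr hl, hP⟩

open Classical in
/-- the generic lines of `S` -/
noncomputable def Gset (ω : Option F × Bool → F) (S : Finset (Option F × F)) :
    Finset (Option F × F) := S.filter (fun l => ∀ κ, sl ω κ ≠ l)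

theorem Gset_subset_Eset (Y : Sys F N) (ω : Option F × Bool → F) (ρ : Fin N → Bool)
    (S : Finset (Option F × F)) : Gset ω S ⊆ Eset Y ω ρ S := by
  intro l hl
  unfold Gset at hl
  rw [mem_filter] at hl
  rw [Eset, mem_filter]
  exact ⟨hl.1, hl.2 _⟩

/-- a line of `Eset` is generic or the complementary special line of its direction -/
theorem mem_Eset_cases {Y : Sys F N} {ω : Option F × Bool → F} {ρ : Fin N → Bool}
    {S : Finset (Option F × F)} {l : Option F × F} (hl : l ∈ Eset Y ω ρ S) :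
    l ∈ Gset ω S ∨ (l.1 ∈ Yset Y ω ρ S ∧ sl ω (Y.wl' ρ l.1) = l) := by
  classical
  rw [Eset, mem_filter] at hl
  by_cases h : ∀ κ, sl ω κ ≠ l
  · left
    unfold Gset
    rw [mem_filter]
    exact ⟨hl.1, h⟩
  · right
    push Not at h
    obtain ⟨κ, hκ⟩ := h
    have h1 : κ.1 = l.1 := by rw [← hκ]; rfl
    have h2 : κ = Y.wl' ρ l.1 := by
      have h3 : κ ≠ Y.wl ρ l.1 := by
        rintro rfl
        exact hl.2 hκ
      unfold Sys.wl at h3
      unfold Sys.wl'
      ext1
      · exact h1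
      · by_contra hne
        apply h3
        ext1
        · exact h1
        · simp only at hne ⊢
          cases hh : κ.2 <;> cases hh' : ρ (Y.grp l.1) <;> simp_all
    rw [h2] at hκ
    refine ⟨?_, hκ⟩
    rw [Yset, mem_filter]
    exact ⟨mem_univ _, by rw [hκ]; exact hl.1⟩

theorem card_Eset_eq {Y : Sys F N} {ω : Option F × Bool → F} {ρ : Fin N → Bool}
    (hdist : ∀ d, ω (d, false) ≠ ω (d, true))
    {S : Finset (Option F × F)} :
    (Eset Y ω ρ S).card = (Gset ω S).card + (Yset Y ω ρ S).card := by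
  classical
  have h1 : ((Eset Y ω ρ S).filter (fun l => ¬ ∀ κ, sl ω κ ≠ l)).card = (Yset Y ω ρ S).card := by
    apply card_bij' (fun l _ => l.1) (fun t _ => sl ω (Y.wl' ρ t))
    · intro l hl
      rw [mem_filter] at hl
      rcases mem_Eset_cases hl.1 with h | h
      · unfold Gset at h
        rw [mem_filter] at h
        exact absurd h.2 hl.2
      · exact h.1
    · intro t ht
      rw [Yset, mem_filter] at ht
      rw [mem_filter, Eset, mem_filter]
      refine ⟨⟨ht.2, ?_⟩, ?_⟩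
      · intro h
        have h2 : ω (t, ρ (Y.grp t)) = ω (t, !ρ (Y.grp t)) := congrArg Prod.snd h
        cases hρ : ρ (Y.grp t) with
        | false => rw [hρ] at h2; exact hdist t h2
        | true => rw [hρ] at h2; exact hdist t h2.symm
      · push Not
        exact ⟨_, rfl⟩
    · intro l hl
      rw [mem_filter] at hl
      rcases mem_Eset_cases hl.1 with h | h
      · unfold Gset at h
        rw [mem_filter] at h
        exact absurd h.2 hl.2
      · exact h.2
    · intro t ht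
      rfl
  have h2 : (Eset Y ω ρ S).filter (fun l => ∀ κ, sl ω κ ≠ l) = Gset ω S := by
    ext l
    unfold Gset
    rw [mem_filter, mem_filter, Eset, mem_filter]
    constructor
    · rintro ⟨⟨a, b⟩, d⟩
      exact ⟨a, d⟩
    · rintro ⟨a, b⟩
      exact ⟨⟨a, b _⟩, b⟩
  have h3 := card_filter_add_card_filter_not (s := Eset Y ω ρ S) (fun l => ∀ κ, sl ω κ ≠ l)
  rw [h2, h1] at h3
  exact h3.symm

theorem sum_gp_lo {Y : Sys F N} (hY : Y.Ok) (ρ : Fin N → Bool) {c : ℝ}
    (hgp : ∀ t, N ≤ 16 * Y.dd ρ t → c / N ≤ Y.gp ρ t) (hc : 0 ≤ c) (M : Finset (Option F)) :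
    ((M.card : ℝ) - 1) * (c / N) ≤ ∑ t ∈ M, Y.gp ρ t := by
  classical
  have h0 : ∀ t, 0 ≤ Y.gp ρ t := fun t => PP_nonneg _
  have h1 : (M.filter (fun t => ¬ N ≤ 16 * Y.dd ρ t)).card ≤ 1 := by
    rw [card_le_one]
    intro t ht t' ht'
    rw [mem_filter] at ht ht'
    by_contra hne
    have := dd_add hY ρ hne
    omega
  have h2 := card_filter_add_card_filter_not (s := M) (fun t => N ≤ 16 * Y.dd ρ t)
  have h3 : ((M.card : ℝ) - 1) ≤ ((M.filter (fun t => N ≤ 16 * Y.dd ρ t)).card : ℝ) := by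
    have : M.card ≤ (M.filter (fun t => N ≤ 16 * Y.dd ρ t)).card + 1 := by omega
    have : (M.card : ℝ) ≤ (M.filter (fun t => N ≤ 16 * Y.dd ρ t)).card + 1 := by
      exact_mod_cast this
    linarith
  have hcN : 0 ≤ c / N := by positivity
  calc ((M.card : ℝ) - 1) * (c / N)
      ≤ ((M.filter (fun t => N ≤ 16 * Y.dd ρ t)).card : ℝ) * (c / N) := by gcongr
    _ = ∑ t ∈ M.filter (fun t => N ≤ 16 * Y.dd ρ t), c / N := by
        rw [sum_const, nsmul_eq_mul]
    _ ≤ ∑ t ∈ M.filter (fun t => N ≤ 16 * Y.dd ρ t), Y.gp ρ t := by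
        apply sum_le_sum
        intro t ht
        exact hgp t (mem_filter.1 ht).2
    _ ≤ ∑ t ∈ M, Y.gp ρ t :=
        sum_le_sum_of_subset_of_nonneg (filter_subset _ _) (fun t _ _ => h0 t)

/-- the main inequality of regime M -/
theorem regimeM_ineq {Y : Sys F N} {ω : Option F × Bool → F} {η : ℝ} (hη : 0 ≤ η)
    (hC : Conc Y η ω) (ρ : Fin N → Bool) {S : Finset (Option F × F)}
    (hS : S.card = Fintype.card F)
    (hN : 0 < N) (hcov : ∀ P ∈ Y.X ω, 0 < mu S P) :
    Fintype.card F * (∑ t ∈ Mset Y ω ρ S, Y.gp ρ t)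
      - (Mset Y ω ρ S).card * (Fintype.card F : ℝ) ^ (3 / 4 : ℝ) ≤
    ((Gset ω S).card + 3 * (Fintype.card F : ℝ) ^ (3 / 4 : ℝ)) *
      ((∑ t ∈ Mset Y ω ρ S, Y.gp ρ t) + 3 * η * Fintype.card F / N)
      + (Yset Y ω ρ S).card * (10 * Fintype.card F / N) := by
  classical
  set q : ℝ := (Fintype.card F : ℝ) with hq
  set r : ℝ := q ^ (3 / 4 : ℝ) with hr
  set M := Mset Y ω ρ S with hM
  have hN' : (0 : ℝ) < N := by exact_mod_cast hN
  have hq1 : 1 ≤ q := by
    rw [hq]; exact_mod_cast Fintype.card_pos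
  have hr1 : 1 ≤ r := Real.one_le_rpow hq1 (by norm_num)
  have h0 : ∀ t, 0 ≤ Y.gp ρ t := fun t => PP_nonneg _
  have hGM0 : 0 ≤ ∑ t ∈ M, Y.gp ρ t := sum_nonneg (fun t _ => h0 t)
  -- lower bound for the good points
  have hlow : q * (∑ t ∈ M, Y.gp ρ t) - M.card * r ≤ ∑ t ∈ M, ((Q Y ω ρ t).card : ℝ) := by
    rw [mul_sum, ← nsmul_eq_mul, ← sum_const, ← sum_sub_distrib]
    apply sum_le_sum
    intro t _
    exact hC.good_lo ρ t
  -- upper bound
  let U : Finset (F × F) := (Yset Y ω ρ S).biUnion (fun s =>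
    (pts (sl ω (Y.wl' ρ s))).filter (fun P => ∃ j, Y.rb j (hs ω P)))
  let φ : Finset (Option F × F) → ℝ := fun A =>
    ∑ t ∈ M, (((cov A).filter (fun P => Y.Good ρ t (hs ω P))).card : ℝ)
  have hQsub : ∀ t ∈ M, (Q Y ω ρ t).card ≤
      ((cov (Gset ω S)).filter (fun P => Y.Good ρ t (hs ω P))).card +
      (U.filter (fun P => Y.Good ρ t (hs ω P))).card := by
    intro t ht
    refine (card_le_card ?_).trans (card_union_le _ _)
    intro P hP
    rw [Q, mem_filter] at hP
    rw [mem_union, mem_filter, mem_filter]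
    obtain ⟨l, hl, hPl⟩ := exists_cover hcov hP.2 ht
    rcases mem_Eset_cases hl with h | h
    · left
      exact ⟨mem_cov.2 ⟨l, h, hPl⟩, hP.2⟩
    · right
      refine ⟨?_, hP.2⟩
      rw [mem_biUnion]
      refine ⟨l.1, h.1, ?_⟩
      rw [mem_filter, h.2]
      exact ⟨hPl, _, good_rb hP.2⟩
  have hU : (U.card : ℝ) ≤ (Yset Y ω ρ S).card * (10 * q / N) := by
    calc (U.card : ℝ) ≤ ((∑ s ∈ Yset Y ω ρ S,
        ((pts (sl ω (Y.wl' ρ s))).filter (fun P => ∃ j, Y.rb j (hs ω P))).card : ℕ) : ℝ) := by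
          exact_mod_cast card_biUnion_le
      _ = ∑ s ∈ Yset Y ω ρ S,
        (((pts (sl ω (Y.wl' ρ s))).filter (fun P => ∃ j, Y.rb j (hs ω P))).card : ℝ) := by
          push_cast; rfl
      _ ≤ ∑ s ∈ Yset Y ω ρ S, (10 * q / N) := by
          apply sum_le_sum
          intro s _
          exact hC.rbc _
      _ = _ := by rw [sum_const, nsmul_eq_mul]
  have hup : ∑ t ∈ M, ((Q Y ω ρ t).card : ℝ) ≤ φ (Gset ω S) +
      (Yset Y ω ρ S).card * (10 * q / N) := by
    have h1 : ∑ t ∈ M, (Q Y ω ρ t).card ≤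
        ∑ t ∈ M, ((cov (Gset ω S)).filter (fun P => Y.Good ρ t (hs ω P))).card + U.card := by
      refine (sum_le_sum hQsub).trans ?_
      rw [sum_add_distrib]
      gcongr
      exact sum_good_le Y ω ρ M U
    have h2 : ∑ t ∈ M, ((Q Y ω ρ t).card : ℝ) ≤ φ (Gset ω S) + U.card := by
      simp only [φ]
      exact_mod_cast h1
    linarith
  -- chunks
  have hsub : ∀ A B, φ (A ∪ B) ≤ φ A + φ B := by
    intro A B
    simp only [φ]
    rw [← sum_add_distrib]
    apply sum_le_sum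
    intro t _
    rw [cov_union, filter_union]
    exact_mod_cast card_union_le _ _
  have hMc : (M.card : ℝ) ≤ q + 1 := by
    have h1 : M.card ≤ Fintype.card (Option F) := by
      rw [← card_univ]; exact card_le_card (subset_univ _)
    rw [card_dir] at h1
    have h2 : (M.card : ℝ) ≤ (Fintype.card F + 1 : ℕ) := by exact_mod_cast h1
    rw [hq]; push_cast at h2; exact h2
  have hbound : ∀ A ⊆ Gset ω S, A.card ≤ ⌊r⌋₊ →
      φ A ≤ r * (∑ t ∈ M, Y.gp ρ t) + 3 * η * q * r / N := by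
    intro A hA hAc
    have hAc' : (A.card : ℝ) ≤ r := by
      refine le_trans ?_ (Nat.floor_le (by linarith))
      exact_mod_cast hAc
    have hgen : ∀ κ, sl ω κ ∉ A := by
      intro κ hκ
      have := hA hκ
      unfold Gset at this
      rw [mem_filter] at this
      exact this.2 κ rfl
    have h1 := hC.gd ρ A hAc' hgen
    have h2 : ∑ t ∈ M, ((((cov A).filter (fun P => Y.Good ρ t (hs ω P))).card : ℝ)
        - r * Y.gp ρ t - η * r / N) ≤ η * q * r / N := by
      refine le_trans ?_ h1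
      refine le_trans (sum_le_sum (fun t _ => le_max_left _ 0)) ?_
      exact sum_le_sum_of_subset_of_nonneg (subset_univ _) (fun t _ _ => le_max_right _ _)
    rw [sum_sub_distrib, sum_sub_distrib, ← mul_sum, sum_const, nsmul_eq_mul] at h2
    have h3 : (M.card : ℝ) * (η * r / N) ≤ 2 * (η * q * r / N) := by
      have h4 : (M.card : ℝ) ≤ 2 * q := by linarith
      calc (M.card : ℝ) * (η * r / N) ≤ (2 * q) * (η * r / N) := by gcongr
        _ = 2 * (η * q * r / N) := by ring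
    have h5 : 3 * η * q * r / N = 3 * (η * q * r / N) := by ring
    rw [h5]
    simp only [φ]
    linarith
  have hfl : 0 < ⌊r⌋₊ := Nat.floor_pos.2 hr1
  have hchunk := chunk ⌊r⌋₊ hfl φ hsub (r * (∑ t ∈ M, Y.gp ρ t) + 3 * η * q * r / N)
    (by positivity) (Gset ω S) hbound
  -- numeric: (|G|/n + 1) r ≤ |G| + 3 r
  have hGc : ((Gset ω S).card : ℝ) ≤ q := by
    have h1 : (Gset ω S).card ≤ S.card := by
      unfold Gset; exact card_le_card (filter_subset _ _)
    rw [hS] at h1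
    rw [hq]; exact_mod_cast h1
  have hnum : (((Gset ω S).card : ℝ) / ⌊r⌋₊ + 1) * r ≤ (Gset ω S).card + 3 * r := by
    set g : ℝ := ((Gset ω S).card : ℝ) with hg
    have hg0 : 0 ≤ g := by positivity
    set n : ℝ := (⌊r⌋₊ : ℝ) with hn
    have hn1 : 1 ≤ n := by rw [hn]; exact_mod_cast hfl
    have hrn : r ≤ n + 1 := (Nat.lt_floor_add_one r).le
    have h1 : g / n * r ≤ g / n * (n + 1) := by gcongr
    have h2 : g / n * (n + 1) = g + g / n := by field_simp
    have h3 : q ≤ r * r := by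
      rw [hr, ← Real.rpow_add (by linarith)]
      have : q ^ (1 : ℝ) ≤ q ^ (3 / 4 + 3 / 4 : ℝ) :=
        Real.rpow_le_rpow_of_exponent_le hq1 (by norm_num)
      rwa [Real.rpow_one] at this
    have h4 : g / n ≤ 2 * r := by
      rw [div_le_iff₀ (by linarith)]
      nlinarith
    nlinarith
  have hfinal : φ (Gset ω S) ≤ ((Gset ω S).card + 3 * r) *
      ((∑ t ∈ M, Y.gp ρ t) + 3 * η * q / N) := by
    refine hchunk.trans ?_
    have h1 : (((Gset ω S).card : ℝ) / ⌊r⌋₊ + 1) *
        (r * (∑ t ∈ M, Y.gp ρ t) + 3 * η * q * r / N) =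
        ((((Gset ω S).card : ℝ) / ⌊r⌋₊ + 1) * r) *
        ((∑ t ∈ M, Y.gp ρ t) + 3 * η * q / N) := by ring
    rw [h1]
    apply mul_le_mul_of_nonneg_right hnum
    positivity
  linarith

theorem regimeM_num {c ε' η q r m g y A n : ℝ} (hc : 0 < c) (hc1 : c ≤ 1)
    (hε' : 0 < ε') (hε'1 : ε' ≤ 1) (hη : η = ε' * c / 200) (hn : 1 ≤ n) (hq1 : 1 ≤ q)
    (hr1 : 1 ≤ r) (h5 : g + y + 1 = m) (_hg0 : 0 ≤ g) (hy0 : 0 ≤ y) (hA0 : 0 ≤ A)
    (h1 : q * A - m * r ≤ (g + 3 * r) * (A + 3 * η * q / n) + y * (10 * q / n))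
    (h2 : (m - 1) * (c / n) ≤ A)
    (hq : 12 * n * r ≤ ε' * c / 100 * q) (hm : c / 2 * q / n ≤ m)
    (hy : y ≤ ε' * c / 200 * m) : (1 - ε' / 2) * q ≤ m := by
  by_contra hcon
  push Not at hcon
  have hn0 : 0 < n := by linarith
  have hec : ε' * c ≤ 1 := by nlinarith
  have hec0 : 0 < ε' * c := by positivity
  -- 3 r ≤ (ε'/4) q
  have hNr : r ≤ n * r := by nlinarith
  have hec1 : ε' * c ≤ ε' := by nlinarith
  have hec2 : ε' * c ≤ c := by nlinarith
  have h6 : 3 * r ≤ ε' / 4 * q := by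
    have : ε' * c / 100 * q ≤ ε' / 100 * q := by
      apply mul_le_mul_of_nonneg_right _ (by linarith)
      linarith
    have h' : 0 ≤ ε' * q := by positivity
    linarith
  -- 6 r ≤ m
  have h7 : 6 * r ≤ m := by
    refine le_trans ?_ hm
    rw [le_div_iff₀ hn0]
    have : ε' * c / 100 * q ≤ c / 100 * q := by
      apply mul_le_mul_of_nonneg_right _ (by linarith)
      linarith
    have h' : 0 ≤ c * q := by positivity
    linarith
  have hm1 : m / 2 ≤ m - 1 := by linarith
  have hcn : 0 ≤ c / n := by positivity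
  have hm0 : 0 ≤ m := by linarith
  have h8 : ε' / 4 * q * (m / 2 * (c / n)) ≤ (q - m - 3 * r) * A := by
    have h9 : m / 2 * (c / n) ≤ A := le_trans (mul_le_mul_of_nonneg_right hm1 hcn) h2
    have h10 : ε' / 4 * q ≤ q - m - 3 * r := by linarith
    have h11 : 0 ≤ m / 2 * (c / n) := by positivity
    have h12 : 0 ≤ ε' / 4 * q := by positivity
    exact mul_le_mul h10 h9 h11 (by linarith)
  have h14 : 0 ≤ 3 * η * q / n := by rw [hη]; positivity
  have h15 : (g + 3 * r) * A ≤ (m + 3 * r) * A :=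
    mul_le_mul_of_nonneg_right (by linarith) hA0
  have h16 : (g + 3 * r) * (3 * η * q / n) ≤ 2 * m * (3 * η * q / n) :=
    mul_le_mul_of_nonneg_right (by linarith) h14
  have h10q : 0 ≤ 10 * q / n := by positivity
  have h17 : y * (10 * q / n) ≤ ε' * c / 200 * m * (10 * q / n) :=
    mul_le_mul_of_nonneg_right hy h10q
  have h18 : m * r ≤ m * (ε' * c / 1200 * q / n) := by
    apply mul_le_mul_of_nonneg_left _ hm0
    rw [le_div_iff₀ hn0]
    linarith
  have h19 : (q - m - 3 * r) * A ≤ m * (ε' * c / 1200 * q / n) + 2 * m * (3 * η * q / n)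
      + ε' * c / 200 * m * (10 * q / n) := by
    have : (g + 3 * r) * (A + 3 * η * q / n) = (g + 3 * r) * A + (g + 3 * r) * (3 * η * q / n) := by
      ring
    linarith
  have h20 : 0 < m * q / n := by
    have : 0 < m := by linarith
    positivity
  have h21 : ε' / 4 * q * (m / 2 * (c / n)) = (ε' * c / 8) * (m * q / n) := by ring
  have h22 : m * (ε' * c / 1200 * q / n) + 2 * m * (3 * η * q / n)
      + ε' * c / 200 * m * (10 * q / n) = (ε' * c) * (1 / 1200 + 6 / 200 + 10 / 200) *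
        (m * q / n) := by rw [hη]; ring
  rw [h21] at h8
  rw [h22] at h19
  have h23 := h8.trans h19
  have h24 : (ε' * c) * (m * q / n) > 0 := by positivity
  have h25 : (ε' * c / 8) * (m * q / n) = (1 / 8) * ((ε' * c) * (m * q / n)) := by ring
  have h26 : (ε' * c) * (1 / 1200 + 6 / 200 + 10 / 200) * (m * q / n) =
    (1 / 1200 + 6 / 200 + 10 / 200) * ((ε' * c) * (m * q / n)) := by ring
  rw [h25, h26] at h23
  linarith

/-- regime M -/
theorem regimeM {Y : Sys F N} (hY : Y.Ok) {ω : Option F × Bool → F}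
    (hdist : ∀ d, ω (d, false) ≠ ω (d, true)) {c ε' η : ℝ} (hc : 0 < c) (hc1 : c ≤ 1)
    (hε' : 0 < ε') (hε'1 : ε' ≤ 1) (hη : η = ε' * c / 200)
    (hC : Conc Y η ω) (ρ : Fin N → Bool) {S : Finset (Option F × F)}
    (hS : S.card = Fintype.card F)
    (hgp : ∀ t, N ≤ 16 * Y.dd ρ t → c / N ≤ Y.gp ρ t)
    (hN : 0 < N) (hcov : ∀ P ∈ Y.X ω, 0 < mu S P)
    (hq : 12 * N * (Fintype.card F : ℝ) ^ (3 / 4 : ℝ) ≤ ε' * c / 100 * Fintype.card F)
    (hm : c / 2 * Fintype.card F / N ≤ (Mset Y ω ρ S).card)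
    (hy : ((Yset Y ω ρ S).card : ℝ) ≤ ε' * c / 200 * (Mset Y ω ρ S).card) :
    (1 - ε' / 2) * Fintype.card F ≤ (Mset Y ω ρ S).card := by
  have h1 := regimeM_ineq (by rw [hη]; positivity) hC ρ hS hN hcov
  have h2 := sum_gp_lo hY ρ hgp hc.le (Mset Y ω ρ S)
  have h3 := card_Eset_eq (Y := Y) (ρ := ρ) (S := S) hdist
  have h4 := card_Eset_add (Y := Y) (ω := ω) (ρ := ρ) hS
  have hN' : (1 : ℝ) ≤ N := by exact_mod_cast hN
  have hq1 : (1 : ℝ) ≤ Fintype.card F := by
    exact_mod_cast Fintype.card_pos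
  have hr1 : (1 : ℝ) ≤ (Fintype.card F : ℝ) ^ (3 / 4 : ℝ) :=
    Real.one_le_rpow hq1 (by norm_num)
  have h5 : ((Gset ω S).card : ℝ) + (Yset Y ω ρ S).card + 1 = (Mset Y ω ρ S).card := by
    rw [← h4, h3]; push_cast; ring
  exact regimeM_num hc hc1 hε' hε'1 hη hN' hq1 hr1 h5 (Nat.cast_nonneg _) (Nat.cast_nonneg _)
    (sum_nonneg (fun t _ => PP_nonneg _)) h1 h2 hq hm hy

end

end Crest.Agent.H3RyDet
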