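import Crest.Agent.H3RyMx

/-! # Regime W : many uncovered points, few special lines -/

set_option autoImplicit false
set_option linter.unusedSectionVars false

namespace Crest.Agent.H3RyDet
open Finset Crest.Agent.H3Ry Crest.Agent.H23RyProb

section
variable {F : Type} [Field F] [Fintype F] [DecidableEq F] {N : ℕ}

/-- many points covered at least twice -/
theorem card_two_le (S : Finset (Option F × F)) (hS : S.card = Fintype.card F) (c : ℝ)
    (hc : 0 ≤ c) (h : c * (Fintype.card F : ℝ) ^ 2 ≤ (unc S).card) :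
    c ^ 2 * (Fintype.card F : ℝ) ^ 2 ≤
      ((univ.filter (fun P : F × F => 2 ≤ mu S P)).card : ℝ) := by
  set q : ℝ := (Fintype.card F : ℝ) with hq
  have hq1 : 1 ≤ q := by
    rw [hq]; exact_mod_cast Fintype.card_pos
  set D := univ.filter (fun P : F × F => 2 ≤ mu S P) with hD
  have h1 := sum_mu_sub_one S hS
  have h2 : ∑ P ∈ D, ((mu S P : ℝ) - 1) = ∑ P ∈ cov S, ((mu S P : ℝ) - 1) := by
    apply sum_subset
    · intro P hP
      rw [hD, mem_filter] at hP
      rw [cov, mem_filter]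
      exact ⟨mem_univ _, by omega⟩
    · intro P hP hP'
      rw [cov, mem_filter] at hP
      have h3 : ¬ 2 ≤ mu S P := by
        intro h4
        exact hP' (by rw [hD, mem_filter]; exact ⟨mem_univ _, h4⟩)
      have h4 : mu S P = 1 := by omega
      rw [h4]; simp
  have h3 : (∑ P ∈ D, ((mu S P : ℝ) - 1)) ^ 2 ≤ D.card * ∑ P ∈ D, ((mu S P : ℝ) - 1) ^ 2 :=
    sq_sum_le_card_mul_sum_sq
  have h4 : ∑ P ∈ D, ((mu S P : ℝ) - 1) ^ 2 ≤ q ^ 2 := by
    calc ∑ P ∈ D, ((mu S P : ℝ) - 1) ^ 2 ≤ ∑ P ∈ D, (mu S P : ℝ) * (mu S P - 1) := by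
          apply sum_le_sum
          intro P hP
          rw [hD, mem_filter] at hP
          have : (2 : ℝ) ≤ mu S P := by exact_mod_cast hP.2
          nlinarith
      _ ≤ ∑ P : F × F, (mu S P : ℝ) * (mu S P - 1) := by
          apply sum_le_sum_of_subset_of_nonneg (subset_univ _)
          intro P _ _
          rcases Nat.eq_zero_or_pos (mu S P) with h5 | h5
          · rw [h5]; simp
          · have : (1 : ℝ) ≤ mu S P := by exact_mod_cast h5
            nlinarith
      _ ≤ (S.card : ℝ) ^ 2 := sum_mu_mul S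
      _ = q ^ 2 := by rw [hS]
  rw [h2, ← h1] at h3
  have h5 : (c * q ^ 2) ^ 2 ≤ ((unc S).card : ℝ) ^ 2 := by gcongr
  have h6 : (D.card : ℝ) * ∑ P ∈ D, ((mu S P : ℝ) - 1) ^ 2 ≤ D.card * q ^ 2 := by gcongr
  have h7 : c ^ 2 * q ^ 2 * q ^ 2 ≤ D.card * q ^ 2 := by
    calc c ^ 2 * q ^ 2 * q ^ 2 = (c * q ^ 2) ^ 2 := by ring
      _ ≤ _ := h5.trans (h3.trans h6)
  exact le_of_mul_le_mul_right h7 (by positivity)

/-- lines of `S` with label `a` -/
def lab (S : Finset (Option F × F)) (a : Fin 100) (σ : S → Fin 100) : Finset (Option F × F) :=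
  (univ.filter (fun l : S => σ l = a)).map (Function.Embedding.subtype _)

theorem mem_lab {S : Finset (Option F × F)} {a : Fin 100} {σ : S → Fin 100}
    {l : Option F × F} : l ∈ lab S a σ ↔ ∃ h : l ∈ S, σ ⟨l, h⟩ = a := by
  unfold lab
  rw [mem_map]
  constructor
  · rintro ⟨l', hl', rfl⟩
    rw [mem_filter] at hl'
    exact ⟨l'.2, hl'.2⟩
  · rintro ⟨h, h'⟩
    exact ⟨⟨l, h⟩, by rw [mem_filter]; exact ⟨mem_univ _, h'⟩, rfl⟩

theorem card_lab (S : Finset (Option F × F)) (a : Fin 100) (σ : S → Fin 100) :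
    ((lab S a σ).card : ℝ) = ∑ l : S, (if σ l = a then (1 : ℝ) else 0) := by
  unfold lab
  rw [card_map, card_filter]
  push_cast
  rfl

theorem EE_card_lab (S : Finset (Option F × F)) (a : Fin 100) :
    EE (fun σ : S → Fin 100 => ((lab S a σ).card : ℝ)) = S.card / 100 := by
  classical
  have h1 : (fun σ : S → Fin 100 => ((lab S a σ).card : ℝ)) =
      fun σ : S → Fin 100 => ∑ l ∈ (univ : Finset S), (if σ l = a then (1 : ℝ) else 0) := by
    funext σ
    exact card_lab S a σ
  rw [h1, EE_sum]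
  have h2 : ∀ l : S, EE (fun σ : S → Fin 100 => if σ l = a then (1 : ℝ) else 0) = 1 / 100 := by
    intro l
    have h3 := PP_coord (ι := S) (α := Fin 100) l {a}
    rw [PP_eq] at h3
    simp only [mem_singleton] at h3
    rw [card_singleton, Fintype.card_fin] at h3
    convert h3 using 2
    all_goals norm_num
  rw [sum_congr rfl (fun l _ => h2 l), sum_const, card_univ, Fintype.card_coe, nsmul_eq_mul]
  ring

theorem lab_tail (S : Finset (Option F × F)) (hS : S.card = Fintype.card F) (a : Fin 100) :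
    PP (fun σ : S → Fin 100 => (Fintype.card F : ℝ) / 50 ≤ ((lab S a σ).card : ℝ)) ≤
      Real.exp (-((Fintype.card F : ℝ) / 20000)) := by
  classical
  set q : ℝ := (Fintype.card F : ℝ) with hq
  have hq1 : 1 ≤ q := by
    rw [hq]; exact_mod_cast Fintype.card_pos
  have h := mcdiarmid_upper (fun σ : S → Fin 100 => ((lab S a σ).card : ℝ)) 1 one_pos ?_
    (q / 100) (by positivity) q (by rw [Fintype.card_coe, hS]) (by linarith)
  · rw [EE_card_lab, hS, ← hq] at h
    have h1 : q / 100 + q / 100 = q / 50 := by ring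
    rw [h1] at h
    have h2 : (q / 100) ^ 2 / (2 * q * 1 ^ 2) = q / 20000 := by
      field_simp
      norm_num
    rw [h2] at h
    exact h
  · intro σ i x
    rw [card_lab, card_lab, ← sum_sub_distrib]
    rw [sum_eq_single i]
    · split_ifs <;> norm_num
    · intro b _ hb
      rw [Function.update_of_ne hb]
      simp
    · intro hi
      exact absurd (mem_univ i) hi

theorem exists_pair (S : Finset (Option F × F)) (hS : S.card = Fintype.card F)
    (T : Finset (F × F)) (hT : ∀ P ∈ T, 2 ≤ mu S P)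
    (hlarge : 2 * (Fintype.card F : ℝ) ^ 2 * Real.exp (-((Fintype.card F : ℝ) / 20000)) <
      (T.card : ℝ) / 20000) :
    ∃ A B : Finset (Option F × F), A ⊆ S ∧ B ⊆ S ∧ Disjoint A B ∧
      (A.card : ℝ) ≤ Fintype.card F / 50 ∧ (B.card : ℝ) ≤ Fintype.card F / 50 ∧
      (T.card : ℝ) / 20000 ≤ (cov A ∩ cov B).card := by
  classical
  set q : ℝ := (Fintype.card F : ℝ) with hq
  have hq1 : 1 ≤ q := by
    rw [hq]; exact_mod_cast Fintype.card_pos
  -- one point
  have hpt : ∀ P ∈ T, 1 / 10000 ≤ PP (fun σ : S → Fin 100 => P ∈ cov (lab S 0 σ) ∩ cov (lab S 1 σ)) := by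
    intro P hP
    have h1 := hT P hP
    unfold mu at h1
    obtain ⟨l, hl, l', hl', hne⟩ := one_lt_card.1 (lt_of_lt_of_le one_lt_two h1)
    rw [mem_filter] at hl hl'
    have h2 : PP (fun σ : S → Fin 100 => σ ⟨l, hl.1⟩ ∈ ({0} : Finset (Fin 100)) ∧
        σ ⟨l', hl'.1⟩ ∈ ({1} : Finset (Fin 100))) = 1 / 100 * (1 / 100) := by
      rw [PP_and_of_dep (s := {⟨l, hl.1⟩}) (t := {⟨l', hl'.1⟩})]
      · rw [PP_coord, PP_coord]
        simp
      · intro ω ω' h
        beta_reduce
        rw [h ⟨l, hl.1⟩ (mem_singleton_self _)]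
      · intro ω ω' h
        beta_reduce
        rw [h ⟨l', hl'.1⟩ (mem_singleton_self _)]
      · rw [disjoint_singleton]
        intro h
        exact hne (congrArg Subtype.val h)
    calc (1 : ℝ) / 10000 = 1 / 100 * (1 / 100) := by norm_num
      _ = _ := h2.symm
      _ ≤ _ := by
        apply PP_mono
        rintro σ ⟨h3, h4⟩
        rw [mem_singleton] at h3 h4
        rw [mem_inter, mem_cov, mem_cov]
        exact ⟨⟨l, mem_lab.2 ⟨hl.1, h3⟩, mem_pts.2 hl.2⟩, ⟨l', mem_lab.2 ⟨hl'.1, h4⟩, mem_pts.2 hl'.2⟩⟩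
  -- expectation
  let Z : (S → Fin 100) → ℝ := fun σ => ((T ∩ (cov (lab S 0 σ) ∩ cov (lab S 1 σ))).card : ℝ)
    - q ^ 2 * (if q / 50 ≤ ((lab S 0 σ).card : ℝ) then (1 : ℝ) else 0)
    - q ^ 2 * (if q / 50 ≤ ((lab S 1 σ).card : ℝ) then (1 : ℝ) else 0)
  have hZ : (T.card : ℝ) / 20000 < EE Z := by
    have h1 : EE (fun σ : S → Fin 100 => ((T ∩ (cov (lab S 0 σ) ∩ cov (lab S 1 σ))).card : ℝ))
        = ∑ P ∈ T, PP (fun σ : S → Fin 100 => P ∈ cov (lab S 0 σ) ∩ cov (lab S 1 σ)) := by
      have h2 : (fun σ : S → Fin 100 => ((T ∩ (cov (lab S 0 σ) ∩ cov (lab S 1 σ))).card : ℝ)) =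
        fun σ => ∑ P ∈ T, (if P ∈ cov (lab S 0 σ) ∩ cov (lab S 1 σ) then (1 : ℝ) else 0) := by
        funext σ
        rw [← filter_mem_eq_inter, card_filter]
        push_cast
        rfl
      rw [h2, EE_sum]
      apply sum_congr rfl
      intro P _
      rw [PP_eq]
      congr 1
      funext σ
      congr
    have h2 : EE Z = EE (fun σ : S → Fin 100 => ((T ∩ (cov (lab S 0 σ) ∩ cov (lab S 1 σ))).card : ℝ))
        - q ^ 2 * PP (fun σ : S → Fin 100 => q / 50 ≤ ((lab S 0 σ).card : ℝ))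
        - q ^ 2 * PP (fun σ : S → Fin 100 => q / 50 ≤ ((lab S 1 σ).card : ℝ)) := by
      simp only [Z]
      rw [EE_sub, EE_sub, EE_const_mul, EE_const_mul, PP_eq, PP_eq]
    rw [h2, h1]
    have h3 : (T.card : ℝ) / 10000 ≤
        ∑ P ∈ T, PP (fun σ : S → Fin 100 => P ∈ cov (lab S 0 σ) ∩ cov (lab S 1 σ)) := by
      calc (T.card : ℝ) / 10000 = ∑ P ∈ T, (1 : ℝ) / 10000 := by
            rw [sum_const, nsmul_eq_mul]; ring
        _ ≤ _ := sum_le_sum hpt
    have h4 := lab_tail S hS 0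
    have h5 := lab_tail S hS 1
    rw [← hq] at h4 h5
    have h6 : q ^ 2 * PP (fun σ : S → Fin 100 => q / 50 ≤ ((lab S 0 σ).card : ℝ)) ≤
      q ^ 2 * Real.exp (-(q / 20000)) := by gcongr
    have h7 : q ^ 2 * PP (fun σ : S → Fin 100 => q / 50 ≤ ((lab S 1 σ).card : ℝ)) ≤
      q ^ 2 * Real.exp (-(q / 20000)) := by gcongr
    linarith
  obtain ⟨σ, hσ⟩ : ∃ σ, (T.card : ℝ) / 20000 < Z σ := by
    by_contra hcon
    push Not at hcon
    have h1 : EE Z ≤ EE (fun _ : S → Fin 100 => (T.card : ℝ) / 20000) := EE_mono hcon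
    rw [EE_const] at h1
    linarith
  have hT0 : (0 : ℝ) ≤ (T.card : ℝ) / 20000 := by positivity
  have hcard : ((T ∩ (cov (lab S 0 σ) ∩ cov (lab S 1 σ))).card : ℝ) ≤ q ^ 2 := by
    have h1 : (T ∩ (cov (lab S 0 σ) ∩ cov (lab S 1 σ))).card ≤ Fintype.card (F × F) := by
      rw [← card_univ]; exact card_le_card (subset_univ _)
    rw [Fintype.card_prod] at h1
    have h2 : ((T ∩ (cov (lab S 0 σ) ∩ cov (lab S 1 σ))).card : ℝ) ≤
      ((Fintype.card F * Fintype.card F : ℕ) : ℝ) := by exact_mod_cast h1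
    rw [hq]; push_cast at h2; nlinarith
  have hq2 : 0 ≤ q ^ 2 := by positivity
  have hA : ¬ q / 50 ≤ ((lab S 0 σ).card : ℝ) := by
    intro h
    simp only [Z, if_pos h] at hσ
    split_ifs at hσ <;> nlinarith
  have hB : ¬ q / 50 ≤ ((lab S 1 σ).card : ℝ) := by
    intro h
    simp only [Z, if_pos h] at hσ
    split_ifs at hσ <;> nlinarith
  simp only [Z, if_neg hA, if_neg hB] at hσ
  refine ⟨lab S 0 σ, lab S 1 σ, ?_, ?_, ?_, ?_, ?_, ?_⟩
  · intro l hl
    exact (mem_lab.1 hl).1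
  · intro l hl
    exact (mem_lab.1 hl).1
  · rw [disjoint_left]
    intro l hl hl'
    obtain ⟨h1, h2⟩ := mem_lab.1 hl
    obtain ⟨h3, h4⟩ := mem_lab.1 hl'
    rw [h2] at h4
    exact absurd h4 (by decide)
  · linarith
  · linarith
  · have h1 : ((T ∩ (cov (lab S 0 σ) ∩ cov (lab S 1 σ))).card : ℝ) ≤
        (cov (lab S 0 σ) ∩ cov (lab S 1 σ)).card := by
      exact_mod_cast card_le_card inter_subset_right
    linarith

/-- double counting -/
theorem sum_mu_eq (S : Finset (Option F × F)) (U : Finset (F × F)) :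
    ∑ P ∈ U, mu S P = ∑ l ∈ S, (U.filter (fun P => pos l.1 P = l.2)).card := by
  unfold mu
  simp only [card_filter]
  exact sum_comm

open Classical in
/-- the points which are rainbow in both halves -/
noncomputable def X12 (Y : Sys F N) (ω : Option F × Bool → F) : Finset (F × F) :=
  univ.filter (fun P => Y.s12 (hs ω P))

theorem X12_filter (Y : Sys F N) (ω : Option F × Bool → F) (l : Option F × F) :
    (X12 Y ω).filter (fun P => pos l.1 P = l.2) =
      open Classical in (pts l).filter (fun P => Y.s12 (hs ω P)) := by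
  ext P
  simp only [X12, pts, mem_filter, mem_univ, true_and]
  tauto

theorem X12_lower {Y : Sys F N} {ω : Option F × Bool → F} {η : ℝ} (hC : Conc Y η ω)
    (hq2 : 2 ≤ Fintype.card F) :
    (Fintype.card F : ℝ) ^ 2 * Y.p12 - 2 * (Fintype.card F : ℝ) ^ (3 / 4 : ℝ) * Fintype.card F
      - 2 * Fintype.card F ≤ (X12 Y ω).card := by
  classical
  set q : ℝ := (Fintype.card F : ℝ) with hq
  set r : ℝ := q ^ (3 / 4 : ℝ) with hr
  have hq2' : (2 : ℝ) ≤ q := by rw [hq]; exact_mod_cast hq2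
  have hr0 : 0 ≤ r := by positivity
  have h1 : (X12 Y ω).card = ∑ c : F, ((X12 Y ω).filter (fun P => pos none P = c)).card :=
    card_eq_sum_card_fiberwise (fun P _ => mem_coe.2 (mem_univ _))
  let G : Finset F := univ.filter (fun c => c ≠ ω (none, false) ∧ c ≠ ω (none, true))
  have hG : (q : ℝ) - 2 ≤ G.card := by
    have h2 : (univ : Finset F) ⊆ G ∪ {ω (none, false), ω (none, true)} := by
      intro c _
      rw [mem_union, mem_filter, mem_insert, mem_singleton]
      by_cases ha : c = ω (none, false)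
      · right; left; exact ha
      · by_cases hb : c = ω (none, true)
        · right; right; exact hb
        · left; exact ⟨mem_univ _, ha, hb⟩
    have h3 := card_le_card h2
    have h4 := card_union_le G {ω (none, false), ω (none, true)}
    have h5 : ({ω (none, false), ω (none, true)} : Finset F).card ≤ 2 := card_le_two
    rw [card_univ] at h3
    have h6 : Fintype.card F ≤ G.card + 2 := by omega
    have h7 : q ≤ G.card + 2 := by rw [hq]; exact_mod_cast h6
    linarith
  have hG' : (G.card : ℝ) ≤ q := by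
    rw [hq]; exact_mod_cast (card_le_card (subset_univ G)).trans_eq card_univ
  have h2 : (G.card : ℝ) * (q * Y.p12 - 2 * r) ≤ (X12 Y ω).card := by
    rw [h1]
    push_cast
    calc (G.card : ℝ) * (q * Y.p12 - 2 * r) = ∑ c ∈ G, (q * Y.p12 - 2 * r) := by
          rw [sum_const, nsmul_eq_mul]
      _ ≤ ∑ c ∈ G, (((X12 Y ω).filter (fun P => pos none P = c)).card : ℝ) := by
          apply sum_le_sum
          intro c hc
          rw [mem_filter] at hc
          have h3 := hC.s12_gen (none, c) (by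
            rintro ⟨d, v⟩ h
            have h4 : d = none := congrArg Prod.fst h
            have h5 : ω (d, v) = c := congrArg Prod.snd h
            subst h4
            cases v
            · exact hc.2.1 h5.symm
            · exact hc.2.2 h5.symm)
          have h4 := X12_filter Y ω (none, c)
          simp only at h4
          rw [h4]
          have h5 := (abs_le.1 h3).1
          rw [← hq, ← hr] at h5
          linarith
      _ ≤ ∑ c : F, (((X12 Y ω).filter (fun P => pos none P = c)).card : ℝ) := by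
          apply sum_le_sum_of_subset_of_nonneg (subset_univ _)
          intro c _ _
          positivity
  have hp0 : 0 ≤ Y.p12 := PP_nonneg _
  have hp1 : Y.p12 ≤ 1 := PP_le_one _
  have hX0 : (0 : ℝ) ≤ (X12 Y ω).card := by positivity
  rcases le_or_gt 0 (q * Y.p12 - 2 * r) with h3 | h3
  · have h4 : (q - 2) * (q * Y.p12 - 2 * r) ≤ G.card * (q * Y.p12 - 2 * r) :=
      mul_le_mul_of_nonneg_right hG h3
    have h5 : 2 * q * Y.p12 ≤ 2 * q := by nlinarith
    nlinarith
  · nlinarith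

theorem sum_X12_le {Y : Sys F N} {ω : Option F × Bool → F} {η : ℝ} (hC : Conc Y η ω)
    (hq2 : 2 ≤ Fintype.card F) (hN : 0 < N) {S : Finset (Option F × F)}
    (hS : S.card = Fintype.card F)
    {ε' : ℝ} (hspec : ((univ.filter (fun κ => sl ω κ ∈ S)).card : ℝ) ≤ ε' * Fintype.card F) :
    ∑ P ∈ X12 Y ω, ((mu S P : ℝ) - 1) ≤
      4 * (Fintype.card F : ℝ) ^ (3 / 4 : ℝ) * Fintype.card F + 2 * Fintype.card F +
      100 * ε' * (Fintype.card F : ℝ) ^ 2 / (N : ℝ) ^ 2 := by
  classical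
  have hlow := X12_lower hC hq2
  set q : ℝ := (Fintype.card F : ℝ) with hq
  set r : ℝ := q ^ (3 / 4 : ℝ) with hr
  have hq2' : (2 : ℝ) ≤ q := by rw [hq]; exact_mod_cast hq2
  have hr0 : 0 ≤ r := by positivity
  have hp0 : 0 ≤ Y.p12 := PP_nonneg _
  have hN' : (0 : ℝ) < N := by exact_mod_cast hN
  rw [sum_sub_distrib, sum_const, nsmul_eq_mul, mul_one]
  have h1 : ∑ P ∈ X12 Y ω, (mu S P : ℝ) =
      ∑ l ∈ S, (((X12 Y ω).filter (fun P => pos l.1 P = l.2)).card : ℝ) := by
    have := sum_mu_eq S (X12 Y ω)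
    exact_mod_cast this
  have h2 : ∑ l ∈ S, (((X12 Y ω).filter (fun P => pos l.1 P = l.2)).card : ℝ) ≤
      q * (q * Y.p12 + 2 * r) + ε' * q * (100 * q / (N : ℝ) ^ 2) := by
    rw [← sum_filter_add_sum_filter_not S (fun l => ∀ κ, sl ω κ ≠ l)]
    apply add_le_add
    · calc ∑ l ∈ S.filter (fun l => ∀ κ, sl ω κ ≠ l),
            (((X12 Y ω).filter (fun P => pos l.1 P = l.2)).card : ℝ)
          ≤ ∑ l ∈ S.filter (fun l => ∀ κ, sl ω κ ≠ l), (q * Y.p12 + 2 * r) := by
            apply sum_le_sum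
            intro l hl
            rw [mem_filter] at hl
            rw [X12_filter]
            have h5 := (abs_le.1 (hC.s12_gen l hl.2)).2
            rw [← hq, ← hr] at h5
            linarith
        _ = ((S.filter (fun l => ∀ κ, sl ω κ ≠ l)).card : ℝ) * (q * Y.p12 + 2 * r) := by
            rw [sum_const, nsmul_eq_mul]
        _ ≤ q * (q * Y.p12 + 2 * r) := by
            apply mul_le_mul_of_nonneg_right _ (by positivity)
            rw [hq, ← hS]
            exact_mod_cast card_le_card (filter_subset _ _)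
    · calc ∑ l ∈ S.filter (fun l => ¬ ∀ κ, sl ω κ ≠ l),
            (((X12 Y ω).filter (fun P => pos l.1 P = l.2)).card : ℝ)
          ≤ ∑ l ∈ S.filter (fun l => ¬ ∀ κ, sl ω κ ≠ l), (100 * q / (N : ℝ) ^ 2) := by
            apply sum_le_sum
            intro l hl
            rw [X12_filter]
            exact hC.s12_hi l
        _ = ((S.filter (fun l => ¬ ∀ κ, sl ω κ ≠ l)).card : ℝ) * (100 * q / (N : ℝ) ^ 2) := by
            rw [sum_const, nsmul_eq_mul]
        _ ≤ ε' * q * (100 * q / (N : ℝ) ^ 2) := by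
            apply mul_le_mul_of_nonneg_right _ (by positivity)
            refine le_trans ?_ hspec
            have h3 : S.filter (fun l => ¬ ∀ κ, sl ω κ ≠ l) ⊆
                (univ.filter (fun κ => sl ω κ ∈ S)).image (sl ω) := by
              intro l hl
              rw [mem_filter] at hl
              obtain ⟨hl1, hl2⟩ := hl
              push Not at hl2
              obtain ⟨κ, hκ⟩ := hl2
              rw [mem_image]
              exact ⟨κ, by rw [mem_filter, hκ]; exact ⟨mem_univ _, hl1⟩, hκ⟩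
            exact_mod_cast (card_le_card h3).trans card_image_le
  rw [h1]
  have h3 : q * (q * Y.p12 + 2 * r) + ε' * q * (100 * q / (N : ℝ) ^ 2) =
    q ^ 2 * Y.p12 + 2 * r * q + 100 * ε' * q ^ 2 / (N : ℝ) ^ 2 := by ring
  linarith

/-- regime W -/
theorem regimeWs {Y : Sys F N} {ω : Option F × Bool → F} {η : ℝ} (hC : Conc Y η ω)
    (hq2 : 2 ≤ Fintype.card F) (hN : 0 < N) {S : Finset (Option F × F)}
    (hS : S.card = Fintype.card F) (hcov : ∀ P ∈ Y.X ω, 0 < mu S P)
    {ε' c₁ c₂ τ : ℝ} (hτ : τ = c₁ ^ 2 / 20000) (hc₁ : 0 ≤ c₁)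
    (hLT : ∀ A B : Finset (Option F × F), (A.card : ℝ) ≤ Fintype.card F / 50 →
      (B.card : ℝ) ≤ Fintype.card F / 50 →
      τ * (Fintype.card F : ℝ) ^ 2 ≤ (cov A ∩ cov B).card →
      c₂ * (Fintype.card F : ℝ) ^ 2 / (N : ℝ) ^ 2 ≤ ((cov A ∩ cov B) ∩ X12 Y ω).card)
    (hspec : ((univ.filter (fun κ => sl ω κ ∈ S)).card : ℝ) ≤ ε' * Fintype.card F)
    (hunc : c₁ * (Fintype.card F : ℝ) ^ 2 ≤ (unc S).card)
    (hnum1 : 2 * (Fintype.card F : ℝ) ^ 2 * Real.exp (-((Fintype.card F : ℝ) / 20000)) <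
      τ * (Fintype.card F : ℝ) ^ 2)
    (hnum2 : 4 * (Fintype.card F : ℝ) ^ (3 / 4 : ℝ) * Fintype.card F + 2 * Fintype.card F +
      100 * ε' * (Fintype.card F : ℝ) ^ 2 / (N : ℝ) ^ 2 <
      c₂ * (Fintype.card F : ℝ) ^ 2 / (N : ℝ) ^ 2) : False := by
  classical
  have h1 := card_two_le S hS c₁ hc₁ hunc
  set q : ℝ := (Fintype.card F : ℝ) with hq
  set T := univ.filter (fun P : F × F => 2 ≤ mu S P) with hT
  have h2 : τ * q ^ 2 ≤ (T.card : ℝ) / 20000 := by
    rw [hτ]; linarith
  obtain ⟨A, B, hA, hB, hAB, hAc, hBc, hcard⟩ := exists_pair S hS T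
    (fun P hP => by rw [hT, mem_filter] at hP; exact hP.2) (by rw [← hq]; linarith)
  have h3 := hLT A B hAc hBc (h2.trans hcard)
  have h4 := sum_X12_le hC hq2 hN hS hspec
  have h5 : (((cov A ∩ cov B) ∩ X12 Y ω).card : ℝ) ≤ ∑ P ∈ X12 Y ω, ((mu S P : ℝ) - 1) := by
    calc (((cov A ∩ cov B) ∩ X12 Y ω).card : ℝ)
        = ∑ P ∈ (cov A ∩ cov B) ∩ X12 Y ω, (1 : ℝ) := by simp
      _ ≤ ∑ P ∈ (cov A ∩ cov B) ∩ X12 Y ω, ((mu S P : ℝ) - 1) := by
          apply sum_le_sum
          intro P hP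
          rw [mem_inter, mem_inter, mem_cov, mem_cov] at hP
          obtain ⟨⟨⟨l, hl, hPl⟩, ⟨l', hl', hPl'⟩⟩, hPX⟩ := hP
          have h6 : 1 < mu S P := by
            unfold mu
            rw [one_lt_card]
            refine ⟨l, mem_filter.2 ⟨hA hl, mem_pts.1 hPl⟩, l',
              mem_filter.2 ⟨hB hl', mem_pts.1 hPl'⟩, ?_⟩
            rintro rfl
            exact disjoint_left.1 hAB hl hl'
          have h7 : (2 : ℝ) ≤ mu S P := by exact_mod_cast h6
          linarith
      _ ≤ ∑ P ∈ X12 Y ω, ((mu S P : ℝ) - 1) := by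
          apply sum_le_sum_of_subset_of_nonneg inter_subset_right
          intro P hP _
          have hPX : P ∈ Y.X ω := by
            unfold X12 at hP
            rw [mem_filter] at hP
            rw [Sys.X, mem_filter]
            exact ⟨mem_univ _, inX_of_s12 hP.2⟩
          have h7 : (1 : ℝ) ≤ mu S P := by exact_mod_cast hcov P hPX
          linarith
  linarith

end

end Crest.Agent.H3RyDet
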