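import Mathlib
import Crest.Agent.LPCore
import Crest.Agent.LP_CAT
/-! rid 254 (S0392): helper lemmas for HSTEP. -/
set_option autoImplicit false
set_option linter.unusedSectionVars false
open Set Filter Topology

namespace Crest.LP

section
variable {G F : Type*} [NormedAddCommGroup G] [InnerProductSpace ℝ G]
  [NormedAddCommGroup F] [InnerProductSpace ℝ F]

theorem h4_dev_nonneg (f : PT G → F) (V : F) (γ : ℕ → G) (p q : ℕ) : 0 ≤ dev f V γ p q :=
  Finset.sum_nonneg fun _ _ => sq_nonneg _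

theorem h4_KE_nonneg (γ : ℕ → G) (p q : ℕ) : 0 ≤ KE γ p q :=
  Finset.sum_nonneg fun _ _ => sq_nonneg _

theorem h4_dev_mono (f : PT G → F) (V : F) (γ : ℕ → G) {p q s t : ℕ} (h1 : p ≤ s) (h2 : t ≤ q) :
    dev f V γ s t ≤ dev f V γ p q :=
  Finset.sum_le_sum_of_subset_of_nonneg (Finset.Ico_subset_Ico h1 h2)
    fun _ _ _ => sq_nonneg _

theorem h4_tele (f : PT G → F) (V : F) (γ : ℕ → G) {s t : ℕ} (h : s ≤ t) :
    f (pt (t : ℝ) (γ t)) - f (pt (s : ℝ) (γ s)) - ((t : ℝ) - s) • V =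
      ∑ j ∈ Finset.Ico s t, (f (pt ((j : ℝ) + 1) (γ (j + 1))) - f (pt (j : ℝ) (γ j)) - V) := by
  induction t, h using Nat.le_induction with
  | base => simp
  | succ t ht ih =>
    rw [Finset.sum_Ico_succ_top ht, ← ih]
    push_cast
    module

theorem h4_drift (f : PT G → F) (V : F) (γ : ℕ → G) {p q s t : ℕ} (hps : p ≤ s) (hst : s ≤ t)
    (htq : t ≤ q) {X : ℝ} (hX : dev f V γ p q ≤ X) :
    ‖f (pt (t : ℝ) (γ t)) - f (pt (s : ℝ) (γ s)) - ((t : ℝ) - s) • V‖ ≤ √(((t : ℝ) - s) * X) := by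
  apply Real.le_sqrt_of_sq_le
  rw [h4_tele f V γ hst]
  have h1 : ‖∑ j ∈ Finset.Ico s t,
      (f (pt ((j : ℝ) + 1) (γ (j + 1))) - f (pt (j : ℝ) (γ j)) - V)‖ ^ 2 ≤
      (∑ j ∈ Finset.Ico s t,
        ‖f (pt ((j : ℝ) + 1) (γ (j + 1))) - f (pt (j : ℝ) (γ j)) - V‖) ^ 2 :=
    pow_le_pow_left₀ (norm_nonneg _) (norm_sum_le _ _) 2
  refine h1.trans ?_
  have h2 := sq_sum_le_card_mul_sum_sq (s := Finset.Ico s t)
    (f := fun j : ℕ => ‖f (pt ((j : ℝ) + 1) (γ (j + 1))) - f (pt (j : ℝ) (γ j)) - V‖)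
  refine h2.trans ?_
  have h3 : ((Finset.Ico s t).card : ℝ) = (t : ℝ) - s := by
    rw [Nat.card_Ico, Nat.cast_sub hst]
  rw [h3]
  have h4 : (0 : ℝ) ≤ (t : ℝ) - s := sub_nonneg.2 (by exact_mod_cast hst)
  exact mul_le_mul_of_nonneg_left ((h4_dev_mono f V γ hps htq).trans hX) h4

theorem h4_rest {K : ℕ} {T : Set G} (hT : T.Finite) (hP : Pk 10 K T) {N : ℕ} (hN : 1 ≤ N) :
    Movie K T N (restE T N) := by
  have key : ∀ j z w, (j, z, w) ∈ restE T N → j < N ∧ z ∈ T ∧ w = z := by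
    rintro j z w ⟨j', x, hj, hx, he⟩
    simp only [Prod.mk.injEq] at he
    obtain ⟨rfl, rfl, rfl⟩ := he
    exact ⟨hj, hx, rfl⟩
  constructor
  · exact hN
  · refine ((Set.finite_lt_nat N).prod hT |>.image
      (fun p : ℕ × G => (p.1, p.2, p.2))).subset ?_
    rintro e ⟨j, x, hj, hx, rfl⟩
    exact ⟨(j, x), ⟨hj, hx⟩, rfl⟩
  · intro j z w h
    exact (key j z w h).1
  · intro x hx j hj
    exact ⟨j, x, hj, hx, rfl⟩
  · intro z w h
    exact (key _ z w h).2.1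
  · intro j z w h _
    obtain ⟨_, h2, h3⟩ := key j z w h
    rw [h3]; exact h2
  · intro j z w h
    obtain ⟨h1, h2, h3⟩ := key _ z w h
    exact ⟨z, j, z, by omega, h2, rfl⟩
  · intro j z w h hj
    obtain ⟨h1, h2, h3⟩ := key _ z w h
    subst h3
    exact ⟨w, j + 1, w, hj, h2, rfl⟩
  · intro j z w h
    obtain ⟨_, _, h3⟩ := key j z w h
    rw [h3, sub_self, norm_zero]; norm_num
  · intro j z w z' w' h h' hz hw s hs
    obtain ⟨_, _, h3⟩ := key j z w h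
    obtain ⟨_, _, h3'⟩ := key j z' w' h'
    subst h3; subst h3'
    simpa using hz
  · intro j z w₁ w₂ w₃ a b c
    left
    rw [(key _ _ _ a).2.2, (key _ _ _ b).2.2]
  · intro j z₁ z₂ z₃ w a b c
    left
    rw [← (key _ _ _ a).2.2, ← (key _ _ _ b).2.2]
  · intro j s hs
    refine cat_pk_mono hP ?_
    rintro x ⟨z, w, he, rfl⟩
    obtain ⟨_, h2, h3⟩ := key _ _ _ he
    subst h3
    simpa using h2

theorem h4_shiftE_mono {σ : ℕ} {E E' : Edges G} (h : E ⊆ E') : shiftE σ E ⊆ shiftE σ E' := by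
  rintro e ⟨j, z, w, he, rfl⟩
  exact ⟨j, z, w, h he, rfl⟩

theorem h4_shiftE_zero (E : Edges G) : shiftE 0 E = E := by
  ext ⟨j, z, w⟩
  constructor
  · rintro ⟨j', z', w', he, h⟩
    simp only [Prod.mk.injEq, add_zero] at h
    obtain ⟨rfl, rfl, rfl⟩ := h
    exact he
  · intro h
    exact ⟨j, z, w, h, rfl⟩

theorem h4_shiftE_shiftE (σ σ' : ℕ) (E : Edges G) :
    shiftE σ (shiftE σ' E) = shiftE (σ' + σ) E := by
  ext ⟨j, z, w⟩
  constructor
  · rintro ⟨j', z', w', ⟨j'', z'', w'', he, h'⟩, h⟩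
    simp only [Prod.mk.injEq] at h h'
    obtain ⟨rfl, rfl, rfl⟩ := h
    obtain ⟨rfl, rfl, rfl⟩ := h'
    exact ⟨j'', _, _, he, by simp [add_assoc]⟩
  · rintro ⟨j', z', w', he, h⟩
    simp only [Prod.mk.injEq] at h
    obtain ⟨rfl, rfl, rfl⟩ := h
    exact ⟨j' + σ', _, _, ⟨j', _, _, he, rfl⟩, by simp [add_assoc]⟩

/-- finite concatenation -/
theorem h4_multi (hcat : CAT) {G : Type} [NormedAddCommGroup G] [InnerProductSpace ℝ G]
    {K : ℕ} {T : Set G} {ι : Type*} (I : Finset ι) (hI : I.Nonempty) (N : ι → ℕ)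
    (E : ι → Edges G) (h : ∀ i ∈ I, Movie K T (N i) (E i)) :
    ∃ M Ed, Movie K T M Ed ∧ ∀ i ∈ I, ∃ n, n + N i ≤ M ∧ shiftE n (E i) ⊆ Ed := by
  classical
  induction hI using Finset.Nonempty.cons_induction with
  | singleton a =>
    refine ⟨N a, E a, h a (by simp), ?_⟩
    intro i hi
    rw [Finset.mem_singleton] at hi
    subst hi
    exact ⟨0, by simp, by rw [h4_shiftE_zero]⟩
  | cons a s ha hs ih =>
    obtain ⟨M, Ed, hM, hsub⟩ := ih fun i hi => h i (Finset.mem_cons_of_mem hi)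
    refine ⟨M + N a, Ed ∪ shiftE M (E a),
      hcat G K T M (N a) Ed (E a) hM (h a (Finset.mem_cons_self a s)), ?_⟩
    intro i hi
    rw [Finset.mem_cons] at hi
    rcases hi with rfl | hi
    · exact ⟨M, le_rfl, subset_union_right⟩
    · obtain ⟨n, hn, hs'⟩ := hsub i hi
      exact ⟨n, by omega, hs'.trans subset_union_left⟩

end

end Crest.LP
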