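import Mathlib
import Crest.Agent.H4HAux
/-! rid 254 (S0392): path extension for HSTEP. -/
set_option autoImplicit false
set_option linter.unusedSectionVars false
open Set Filter Topology

namespace Crest.LP

section
variable {G : Type*} [NormedAddCommGroup G] [InnerProductSpace ℝ G]

theorem h4_restpath {K : ℕ} {T : Set G} {x₀ x : G} {m N : ℕ} {Ed : Edges G}
    (hEd : Movie K (insert x T) N Ed) {z : G} (hz : z ∈ T) :
    IsPath (birthE T x₀ x m ∪ shiftE m Ed ∪ shiftE (m + N) (deathE T x₀ x m)) (m + N + m)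
      (fun _ => z) := by
  intro j hj
  rcases lt_or_ge j m with h | h
  · exact Or.inl (Or.inl (Or.inl ⟨j, z, h, hz, rfl⟩))
  rcases lt_or_ge j (m + N) with h' | h'
  · refine Or.inl (Or.inr ⟨j - m, z, z, hEd.rest z (mem_insert_of_mem _ hz) _ (by omega), ?_⟩)
    rw [Nat.sub_add_cancel h]
  · refine Or.inr ⟨j - (m + N), z, z, Or.inl ⟨j - (m + N), z, by omega, hz, rfl⟩, ?_⟩
    rw [Nat.sub_add_cancel h']

theorem h4_extend {K : ℕ} {T : Set G} {x₀ x : G} {m N : ℕ} {Ed : Edges G} (hm : 1 ≤ m)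
    (hEd : Movie K (insert x T) N Ed) {n Ni : ℕ} {Ei : Edges G} (hn : n + Ni ≤ N)
    (hsub : shiftE n Ei ⊆ Ed) {γ : ℕ → G} (hγ : IsPath Ei Ni γ) (h0 : γ 0 ∈ insert x T)
    (h1 : γ Ni ∈ insert x T) :
    ∃ γ' : ℕ → G,
      IsPath (birthE T x₀ x m ∪ shiftE m Ed ∪ shiftE (m + N) (deathE T x₀ x m)) (m + N + m) γ' ∧
      (∀ j ≤ Ni, γ' (m + n + j) = γ j) ∧ (γ 0 = x → γ' 0 = x₀) ∧ (γ 0 ≠ x → γ' 0 = γ 0) ∧
      (∀ j, m ≤ j → j ≤ m + n → γ' j = γ 0) ∧
      KE γ' 0 (m + N + m) ≤ KE γ 0 Ni + 2 * (dist x x₀ ^ 2 / m) := by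
  classical
  have hm0 : (m : ℝ) ≠ 0 := by
    have : 0 < m := hm
    exact_mod_cast this.ne'
  have hmpos : (0 : ℝ) < m := by exact_mod_cast hm
  let pre : ℕ → G := fun j => if γ 0 = x then x₀ + ((j : ℝ) / m) • (x - x₀) else γ 0
  let post : ℕ → G := fun j => if γ Ni = x then x + ((j : ℝ) / m) • (x₀ - x) else γ Ni
  have pre_m : pre m = γ 0 := by
    simp only [pre]
    split_ifs with h
    · rw [div_self hm0, one_smul, h]; abel
    · rfl
  have post_0 : post 0 = γ Ni := by
    simp only [post]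
    split_ifs with h
    · simp [h]
    · rfl
  let γ' : ℕ → G := fun j =>
    if j ≤ m then pre j else if j ≤ m + n then γ 0 else
    if j ≤ m + n + Ni then γ (j - (m + n)) else if j ≤ m + N then γ Ni else post (j - (m + N))
  have g1 : ∀ j ≤ m, γ' j = pre j := fun j hj => if_pos hj
  have g2 : ∀ j, m ≤ j → j ≤ m + n → γ' j = γ 0 := by
    intro j hj hj'
    rcases Nat.eq_or_lt_of_le hj with h | h
    · subst h; rw [g1 _ le_rfl, pre_m]
    · simp only [γ']
      rw [if_neg (by omega), if_pos hj']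
  have g3 : ∀ j ≤ Ni, γ' (m + n + j) = γ j := by
    intro j hj
    rcases Nat.eq_zero_or_pos j with h | h
    · subst h; rw [add_zero, g2 _ (by omega) le_rfl]
    · simp only [γ']
      rw [if_neg (by omega), if_neg (by omega), if_pos (by omega)]
      congr 1; omega
  have g4 : ∀ j, m + n + Ni ≤ j → j ≤ m + N → γ' j = γ Ni := by
    intro j hj hj'
    rcases Nat.eq_or_lt_of_le hj with h | h
    · subst h; exact g3 _ le_rfl
    · simp only [γ']
      rw [if_neg (by omega), if_neg (by omega), if_neg (by omega), if_pos hj']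
  have g5 : ∀ j, γ' (m + N + j) = post j := by
    intro j
    rcases Nat.eq_zero_or_pos j with h | h
    · subst h; rw [add_zero, g4 _ (by omega) le_rfl, post_0]
    · simp only [γ']
      rw [if_neg (by omega), if_neg (by omega), if_neg (by omega), if_neg (by omega)]
      congr 1; omega
  have pre_edge : ∀ j < m, (j, pre j, pre (j + 1)) ∈ birthE T x₀ x m := by
    intro j hj
    by_cases h : γ 0 = x
    · refine Or.inr ⟨j, hj, ?_⟩
      simp only [pre, if_pos h]
      push_cast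
      rfl
    · refine Or.inl ⟨j, γ 0, hj, ?_, ?_⟩
      · rcases h0 with h' | h'
        · exact absurd h' h
        · exact h'
      · simp only [pre, if_neg h]
  have post_edge : ∀ j < m, (j, post j, post (j + 1)) ∈ deathE T x₀ x m := by
    intro j hj
    by_cases h : γ Ni = x
    · refine Or.inr ⟨j, hj, ?_⟩
      simp only [post, if_pos h]
      push_cast
      rfl
    · refine Or.inl ⟨j, γ Ni, hj, ?_, ?_⟩
      · rcases h1 with h' | h'
        · exact absurd h' h
        · exact h'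
      · simp only [post, if_neg h]
  refine ⟨γ', ?_, g3, ?_, ?_, g2, ?_⟩
  · intro j hj
    rcases lt_or_ge j m with a1 | a1
    · rw [g1 j a1.le, g1 (j + 1) a1]
      exact Or.inl (Or.inl (pre_edge j a1))
    rcases lt_or_ge j (m + n) with a2 | a2
    · rw [g2 j a1 a2.le, g2 (j + 1) (by omega) a2]
      refine Or.inl (Or.inr ⟨j - m, γ 0, γ 0, hEd.rest _ h0 _ (by omega), ?_⟩)
      rw [Nat.sub_add_cancel a1]
    rcases lt_or_ge j (m + n + Ni) with a3 | a3
    · obtain ⟨k, rfl⟩ := Nat.exists_eq_add_of_le a2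
      rw [g3 k (by omega), add_assoc (m + n) k 1, g3 (k + 1) (by omega)]
      have := hsub ⟨k, _, _, hγ k (by omega), rfl⟩
      refine Or.inl (Or.inr ⟨k + n, _, _, this, ?_⟩)
      rw [show m + n + k = k + n + m by omega]
    rcases lt_or_ge j (m + N) with a4 | a4
    · rw [g4 j a3 a4.le, g4 (j + 1) (by omega) a4]
      refine Or.inl (Or.inr ⟨j - m, γ Ni, γ Ni, hEd.rest _ h1 _ (by omega), ?_⟩)
      rw [Nat.sub_add_cancel a1]
    · obtain ⟨k, rfl⟩ := Nat.exists_eq_add_of_le a4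
      rw [g5 k, add_assoc (m + N) k 1, g5 (k + 1)]
      refine Or.inr ⟨k, _, _, post_edge k (by omega), ?_⟩
      rw [show m + N + k = k + (m + N) by omega]
  · intro h
    rw [g1 0 (by omega)]
    simp [pre, h]
  · intro h
    rw [g1 0 (by omega)]
    simp [pre, h]
  · have hdist : ∀ a b : G, ‖(1 / (m : ℝ)) • (a - b)‖ ^ 2 = dist a b ^ 2 / (m : ℝ) ^ 2 := by
      intro a b
      rw [norm_smul, mul_pow, Real.norm_eq_abs, sq_abs, dist_eq_norm]
      field_simp
    have b1 : ∑ j ∈ Finset.Ico 0 m, ‖γ' (j + 1) - γ' j‖ ^ 2 ≤ dist x x₀ ^ 2 / m := by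
      have : ∀ j ∈ Finset.Ico 0 m, ‖γ' (j + 1) - γ' j‖ ^ 2 ≤ dist x x₀ ^ 2 / (m : ℝ) ^ 2 := by
        intro j hj
        rw [Finset.mem_Ico] at hj
        rw [g1 j hj.2.le, g1 (j + 1) hj.2]
        simp only [pre]
        split_ifs with h
        · have e : x₀ + (((j + 1 : ℕ) : ℝ) / m) • (x - x₀) - (x₀ + ((j : ℝ) / m) • (x - x₀)) =
              (1 / (m : ℝ)) • (x - x₀) := by
            push_cast
            rw [add_div]
            module
          rw [e, hdist]
        · have h0' : (0 : ℝ) ≤ dist x x₀ ^ 2 / (m : ℝ) ^ 2 := by positivity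
          rw [sub_self, norm_zero]
          calc (0 : ℝ) ^ 2 = 0 := by norm_num
            _ ≤ _ := h0'
      refine (Finset.sum_le_card_nsmul _ _ _ this).trans ?_
      rw [Nat.card_Ico, nsmul_eq_mul, Nat.sub_zero]
      apply le_of_eq
      field_simp
    have b2 : ∑ j ∈ Finset.Ico m (m + n), ‖γ' (j + 1) - γ' j‖ ^ 2 = 0 := by
      apply Finset.sum_eq_zero
      intro j hj
      rw [Finset.mem_Ico] at hj
      rw [g2 j hj.1 hj.2.le, g2 (j + 1) (by omega) hj.2]
      simp
    have b3 : ∑ j ∈ Finset.Ico (m + n) (m + n + Ni), ‖γ' (j + 1) - γ' j‖ ^ 2 =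
        KE γ 0 Ni := by
      unfold KE
      rw [Finset.sum_Ico_eq_sum_range, Finset.sum_Ico_eq_sum_range]
      simp only [Nat.add_sub_cancel_left, Nat.sub_zero]
      apply Finset.sum_congr rfl
      intro k hk
      rw [Finset.mem_range] at hk
      rw [add_assoc (m + n) k 1, g3 k hk.le, g3 (k + 1) hk, Nat.zero_add]
    have b4 : ∑ j ∈ Finset.Ico (m + n + Ni) (m + N), ‖γ' (j + 1) - γ' j‖ ^ 2 = 0 := by
      apply Finset.sum_eq_zero
      intro j hj
      rw [Finset.mem_Ico] at hj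
      rw [g4 j hj.1 hj.2.le, g4 (j + 1) (by omega) hj.2]
      simp
    have b5 : ∑ j ∈ Finset.Ico (m + N) (m + N + m), ‖γ' (j + 1) - γ' j‖ ^ 2 ≤
        dist x x₀ ^ 2 / m := by
      rw [Finset.sum_Ico_eq_sum_range, Nat.add_sub_cancel_left]
      have : ∀ k ∈ Finset.range m, ‖γ' (m + N + k + 1) - γ' (m + N + k)‖ ^ 2 ≤
          dist x x₀ ^ 2 / (m : ℝ) ^ 2 := by
        intro k hk
        rw [add_assoc (m + N) k 1, g5 k, g5 (k + 1)]
        simp only [post]
        split_ifs with h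
        · have e : x + (((k + 1 : ℕ) : ℝ) / m) • (x₀ - x) - (x + ((k : ℝ) / m) • (x₀ - x)) =
              (1 / (m : ℝ)) • (x₀ - x) := by
            push_cast
            rw [add_div]
            module
          rw [e, hdist, dist_comm]
        · have h0' : (0 : ℝ) ≤ dist x x₀ ^ 2 / (m : ℝ) ^ 2 := by positivity
          rw [sub_self, norm_zero]
          calc (0 : ℝ) ^ 2 = 0 := by norm_num
            _ ≤ _ := h0'
      refine (Finset.sum_le_card_nsmul _ _ _ this).trans ?_
      rw [Finset.card_range, nsmul_eq_mul]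
      apply le_of_eq
      field_simp
    have tot : KE γ' 0 (m + N + m) =
        ∑ j ∈ Finset.Ico 0 m, ‖γ' (j + 1) - γ' j‖ ^ 2 +
        ∑ j ∈ Finset.Ico m (m + n), ‖γ' (j + 1) - γ' j‖ ^ 2 +
        ∑ j ∈ Finset.Ico (m + n) (m + n + Ni), ‖γ' (j + 1) - γ' j‖ ^ 2 +
        ∑ j ∈ Finset.Ico (m + n + Ni) (m + N), ‖γ' (j + 1) - γ' j‖ ^ 2 +
        ∑ j ∈ Finset.Ico (m + N) (m + N + m), ‖γ' (j + 1) - γ' j‖ ^ 2 := by
      unfold KE
      rw [Finset.sum_Ico_consecutive _ (by omega) (by omega),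
        Finset.sum_Ico_consecutive _ (by omega) (by omega),
        Finset.sum_Ico_consecutive _ (by omega) (by omega),
        Finset.sum_Ico_consecutive _ (by omega) (by omega)]
    rw [tot, b2, b3, b4]
    linarith

end

end Crest.LP
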