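import Mathlib

set_option autoImplicit false

namespace Crest.Agent.H4Pietsch
open Finset

theorem comb (k : ℕ) : ∀ (I V : Fin k → Type) [∀ l, Fintype (I l)] [∀ l, Fintype (V l)]
    (Occ : ∀ l, I l → V l → Prop) (g : Fin k → ℕ) (N : ℕ),
    (∀ l, ∀ S : Finset (I l), g l < S.card → ∀ Z : Finset (V l), (∀ v ∈ Z, ∀ i ∈ S, ¬ Occ l i v) →
      N * Z.card ≤ Fintype.card (V l)) →
    ∀ A : (∀ l, V l) → Prop,
      (∀ Z : Finset (∀ l, V l), (∀ W ∈ Z, ¬ A W) → N * Z.card ≤ k * Fintype.card (∀ l, V l)) ∨
      ∃ B : ∀ l : Fin k, Finset (I l),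
        (∀ l : Fin k, (B l).card ≤ (∏ l', if l' < l then Fintype.card (I l') else 1) * g l) ∧
        ∀ κ : ∀ l : Fin k, I l, (∀ l, κ l ∉ B l) → ∃ W : ∀ l, V l, (∀ l, Occ l (κ l) (W l)) ∧ ¬ A W := by
  classical
  induction k with
  | zero =>
    intro I V _ _ Occ g N hN A
    by_cases hA : ∀ W, A W
    · left
      intro Z hZ
      rw [Finset.eq_empty_of_forall_notMem (fun W hW => hZ W hW (hA W))]
      simp
    · right
      push Not at hA
      obtain ⟨W, hW⟩ := hA
      exact ⟨fun l => l.elim0, fun l => l.elim0, fun κ _ => ⟨W, fun l => l.elim0, hW⟩⟩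
  | succ k ih =>
    intro I V _ _ Occ g N hN A
    let Ω' := ∀ l : Fin k, V l.succ
    -- the fibre sets
    let A' : I 0 → Ω' → Prop := fun i W' => ∀ v : V 0, Occ 0 i v → A (Fin.cons v W')
    have hIH := fun i : I 0 => ih (fun l => I l.succ) (fun l => V l.succ) (fun l => Occ l.succ)
      (fun l => g l.succ) N (fun l => hN l.succ) (A' i)
    let S : Finset (I 0) := univ.filter (fun i => ∀ Z : Finset Ω', (∀ W ∈ Z, ¬ A' i W) → N * Z.card ≤ k * Fintype.card Ω')
    have hcardΩ : Fintype.card (∀ l, V l) = Fintype.card (V 0) * Fintype.card Ω' := by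
      rw [← Fintype.card_prod]
      exact Fintype.card_congr (Fin.consEquiv V).symm
    by_cases hS : g 0 < S.card
    · left
      intro Z hZ
      set M := Fintype.card Ω' with hM
      have h1 : Z.card = ∑ v : V 0, (Z.filter (fun W => W 0 = v)).card :=
        Finset.card_eq_sum_card_fiberwise (fun W _ => Finset.mem_univ _)
      have hinj : ∀ v : V 0, Set.InjOn (fun W : (∀ l, V l) => (Fin.tail W : Ω')) ((Z.filter (fun W => W 0 = v)) : Set (∀ l, V l)) := by
        intro v W hW W' hW' h
        have hW := (Finset.mem_filter.1 (Finset.mem_coe.1 hW)).2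
        have hW' := (Finset.mem_filter.1 (Finset.mem_coe.1 hW')).2
        rw [← Fin.cons_self_tail W, ← Fin.cons_self_tail W']
        have h' : Fin.tail W = Fin.tail W' := h
        rw [h', hW, hW']
      have h2 : ∀ v : V 0, ∀ i ∈ S, Occ 0 i v → N * (Z.filter (fun W => W 0 = v)).card ≤ k * M := by
        intro v i hiS hi
        rw [← Finset.card_image_of_injOn (hinj v)]
        refine (Finset.mem_filter.1 hiS).2 _ ?_
        intro W' hW'
        obtain ⟨W, hW, rfl⟩ := Finset.mem_image.1 hW'
        have hW' := Finset.mem_filter.1 hW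
        have hWA := hZ W hW'.1
        intro hc
        have := hc v hi
        rw [← hW'.2, Fin.cons_self_tail] at this
        exact hWA this
      have h3 : ∀ v : V 0, (Z.filter (fun W => W 0 = v)).card ≤ M := by
        intro v
        rw [← Finset.card_image_of_injOn (hinj v)]
        exact Finset.card_le_univ _
      have h4 : N * Z.card ≤ ∑ v : V 0, (k * M + if ∀ i ∈ S, ¬ Occ 0 i v then N * M else 0) := by
        rw [h1, Finset.mul_sum]
        refine Finset.sum_le_sum (fun v _ => ?_)
        by_cases hv : ∀ i ∈ S, ¬ Occ 0 i v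
        · rw [if_pos hv]
          exact (Nat.mul_le_mul_left _ (h3 v)).trans (Nat.le_add_left _ _)
        · rw [if_neg hv]
          push Not at hv
          obtain ⟨i, hiS, hi⟩ := hv
          exact h2 v i hiS hi
      refine h4.trans ?_
      rw [Finset.sum_add_distrib, Finset.sum_const, ← Finset.sum_filter, Finset.sum_const, hcardΩ]
      have h5 := hN 0 S hS (univ.filter (fun v : V 0 => ∀ i ∈ S, ¬ Occ 0 i v)) (fun v hv => (Finset.mem_filter.1 hv).2)
      rw [smul_eq_mul, smul_eq_mul, Finset.card_univ]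
      calc Fintype.card (V 0) * (k * M) + (univ.filter (fun v : V 0 => ∀ i ∈ S, ¬ Occ 0 i v)).card * (N * M)
          = Fintype.card (V 0) * (k * M) + (N * (univ.filter (fun v : V 0 => ∀ i ∈ S, ¬ Occ 0 i v)).card) * M := by ring
        _ ≤ Fintype.card (V 0) * (k * M) + Fintype.card (V 0) * M := by gcongr
        _ = (k + 1) * (Fintype.card (V 0) * M) := by ring
    · right
      have hex : ∀ i : I 0, ∃ B : ∀ l : Fin k, Finset (I l.succ),
        (∀ l : Fin k, (B l).card ≤ (∏ l' : Fin k, if l' < l then Fintype.card (I l'.succ) else 1) * g l.succ) ∧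
        (i ∉ S → ∀ κ : ∀ l : Fin k, I l.succ, (∀ l, κ l ∉ B l) →
          ∃ W : Ω', (∀ l, Occ l.succ (κ l) (W l)) ∧ ¬ A' i W) := by
        intro i
        by_cases hi : i ∈ S
        · exact ⟨fun _ => ∅, fun l => by simp, fun h => absurd hi h⟩
        · rcases hIH i with h | ⟨B, hB, hB'⟩
          · exact absurd (Finset.mem_filter.2 ⟨Finset.mem_univ i, h⟩) hi
          · exact ⟨B, hB, fun _ => hB'⟩
      choose Bf hBf1 hBf2 using hex
      refine ⟨Fin.cons S (fun l => univ.biUnion (fun i => Bf i l)), ?_, ?_⟩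
      · intro l
        refine Fin.cases ?_ (fun l => ?_) l
        · rw [Fin.cons_zero]
          simpa using hS
        · rw [Fin.cons_succ]
          refine Finset.card_biUnion_le.trans ?_
          refine (Finset.sum_le_sum (fun i _ => hBf1 i l)).trans ?_
          rw [Finset.sum_const, Fin.prod_univ_succ]
          simp only [card_univ, smul_eq_mul, Fin.succ_pos, if_true, Fin.succ_lt_succ_iff]
          apply le_of_eq; ring
      · intro κ hκ
        have h0 : κ 0 ∉ S := by
          have := hκ 0
          rwa [Fin.cons_zero] at this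
        have h1 : ∀ l : Fin k, κ l.succ ∉ Bf (κ 0) l := by
          intro l hl
          have := hκ l.succ
          rw [Fin.cons_succ] at this
          exact this (Finset.mem_biUnion.2 ⟨κ 0, Finset.mem_univ _, hl⟩)
        obtain ⟨W', hW'1, hW'2⟩ := hBf2 (κ 0) h0 (fun l => κ l.succ) h1
        have : ∃ v : V 0, Occ 0 (κ 0) v ∧ ¬ A (Fin.cons v W') := by
          by_contra hcon
          push Not at hcon
          exact hW'2 hcon
        obtain ⟨v, hv1, hv2⟩ := this
        refine ⟨_, ?_, hv2⟩
        intro l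
        refine Fin.cases ?_ (fun l => ?_) l
        · exact hv1
        · exact hW'1 l

end Crest.Agent.H4Pietsch
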