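import Mathlib
import Crest.Prelude.Def_Polar

set_option autoImplicit false
open Pointwise Crest.AnalysisR

namespace Crest.Agent.H4Pietsch

/-- the polar of the cube is contained in the `ℓ₁` ball -/
theorem sum_abs_le_of_polar {n : ℕ} (y : EuclideanSpace ℝ (Fin n))
    (hy : y ∈ polarSet {x : EuclideanSpace ℝ (Fin n) | ∀ i, |x i| ≤ 1}) :
    ∑ i, |y i| ≤ 1 := by
  have h := hy (WithLp.toLp 2 (fun i => (SignType.sign (y i) : ℝ))) (by
    intro i
    show |((SignType.sign (y i) : SignType) : ℝ)| ≤ 1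
    rcases lt_trichotomy (y i) 0 with h | h | h
    · simp [sign_neg h]
    · simp [h]
    · simp [sign_pos h])
  rw [PiLp.inner_apply] at h
  refine le_trans (le_of_eq ?_) h
  refine Finset.sum_congr rfl (fun i _ => ?_)
  show |y i| = inner ℝ (((SignType.sign (y i) : SignType) : ℝ)) (y i)
  rcases lt_trichotomy (y i) 0 with h | h | h
  · simp [sign_neg h, abs_of_neg h]
  · simp [h]
  · simp [sign_pos h, abs_of_pos h]

theorem norm_le_sum_abs {n : ℕ} (y : EuclideanSpace ℝ (Fin n)) : ‖y‖ ≤ ∑ i, |y i| := by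
  rw [EuclideanSpace.norm_eq]
  have h0 : 0 ≤ ∑ i, |y i| := Finset.sum_nonneg (fun i _ => abs_nonneg _)
  rw [Real.sqrt_le_left h0]
  have : ∑ i, ‖y i‖ ^ 2 ≤ (∑ i, |y i|) * (∑ i, |y i|) := by
    rw [Finset.sum_mul]
    refine Finset.sum_le_sum (fun i _ => ?_)
    rw [Real.norm_eq_abs, sq]
    exact mul_le_mul_of_nonneg_left
      (Finset.single_le_sum (f := fun i => |y i|) (fun j _ => abs_nonneg (y j)) (Finset.mem_univ i)) (abs_nonneg _)
  nlinarith

theorem reduction {n : ℕ} {X 𝒟 : Type} [Fintype X] [Fintype 𝒟] [Nonempty 𝒟]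
    (φ : X → Fin n → ℝ) (a b : ℝ) (ha : 1 ≤ a) (hb : 1 ≤ b) (F : ℕ)
    (hF : ∀ (x : X) (s : Finset X), (∀ x' ∈ s, ∀ i, |φ x i - φ x' i| ≤ 1) → s.card ≤ F)
    (dat : (Fin n → ℝ) → 𝒟)
    (hdat : ∀ z z' : Fin n → ℝ, ∑ i, |z i| ≤ 1 → ∑ i, |z' i| ≤ 1 → dat z = dat z' →
      ∀ x, |∑ i, φ x i * (z i - z' i)| ≤ 1 / (4 * a))
    (hlt : ∀ N : ℕ, Fintype.card X ≤ F * N → b * Real.log (Fintype.card 𝒟) < Real.log N) :
    ∃ K : Set (EuclideanSpace ℝ (Fin n)),
      Convex ℝ K ∧ IsCompact K ∧ (interior K).Nonempty ∧ (∀ x ∈ K, -x ∈ K) ∧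
      ∃ t₁ : Finset (EuclideanSpace ℝ (Fin n)),
        polarSet {x : EuclideanSpace ℝ (Fin n) | ∀ i, |x i| ≤ 1} ⊆ ⋃ y ∈ t₁, (y +ᵥ a⁻¹ • polarSet K) ∧
        ∀ t₂ : Finset (EuclideanSpace ℝ (Fin n)),
          K ⊆ ⋃ x ∈ t₂, (x +ᵥ {z : EuclideanSpace ℝ (Fin n) | ∀ i, |z i| ≤ 1}) →
          b * Real.log t₁.card < Real.log t₂.card := by
  classical
  have ha0 : 0 < a := by linarith
  set P : X → EuclideanSpace ℝ (Fin n) := fun x => WithLp.toLp 2 (fun i => 2 * φ x i) with hP
  set S : Set (EuclideanSpace ℝ (Fin n)) := insert 0 (Set.range P ∪ Set.range (fun x => -P x)) with hS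
  have hSfin : S.Finite := ((Set.finite_range _).union (Set.finite_range _)).insert 0
  have hSneg : -S = S := by
    ext z
    simp only [hS, Set.mem_neg, Set.mem_insert_iff, Set.mem_union, Set.mem_range, neg_eq_zero]
    constructor
    · rintro (h | ⟨x, h⟩ | ⟨x, h⟩)
      · exact Or.inl h
      · exact Or.inr (Or.inr ⟨x, by rw [h, neg_neg]⟩)
      · exact Or.inr (Or.inl ⟨x, neg_injective h⟩)
    · rintro (h | ⟨x, h⟩ | ⟨x, h⟩)
      · exact Or.inl h
      · exact Or.inr (Or.inr ⟨x, by rw [h]⟩)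
      · exact Or.inr (Or.inl ⟨x, by rw [← h, neg_neg]⟩)
  set C := convexHull ℝ S with hC
  set ρ : ℝ := 1 / (4 * a) with hρ
  have hρ0 : 0 < ρ := by rw [hρ]; positivity
  have h0S : (0 : EuclideanSpace ℝ (Fin n)) ∈ S := Set.mem_insert _ _
  have h0C : (0 : EuclideanSpace ℝ (Fin n)) ∈ C := subset_convexHull ℝ S h0S
  refine ⟨C + Metric.closedBall 0 ρ, ?_, ?_, ?_, ?_, ?_⟩
  · exact (convex_convexHull ℝ S).add (convex_closedBall _ _)
  · exact (hSfin.isCompact_convexHull ℝ).add (isCompact_closedBall _ _)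
  · refine ⟨0, ?_⟩
    rw [mem_interior_iff_mem_nhds]
    refine Filter.mem_of_superset (Metric.closedBall_mem_nhds (0 : EuclideanSpace ℝ (Fin n)) hρ0) ?_
    intro u hu
    exact ⟨0, h0C, u, hu, by simp⟩
  · rintro x ⟨c, hc, u, hu, rfl⟩
    refine ⟨-c, ?_, -u, ?_, by simp [add_comm]⟩
    · have : -c ∈ -C := by simpa using hc
      rw [hC, ← convexHull_neg (𝕜 := ℝ), hSneg] at this
      exact this
    · simpa using hu
  · -- the covering of the polar of the cube
    have hrep : ∃ rep : 𝒟 → EuclideanSpace ℝ (Fin n), ∀ d, ∀ z : EuclideanSpace ℝ (Fin n),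
        ∑ i, |z i| ≤ 1 → dat z = d → ∑ i, |(rep d) i| ≤ 1 ∧ dat (rep d) = d := by
      refine ⟨fun d => if h : ∃ z : EuclideanSpace ℝ (Fin n), ∑ i, |z i| ≤ 1 ∧ dat z = d then h.choose else 0, ?_⟩
      intro d z hz hzd
      have h : ∃ z : EuclideanSpace ℝ (Fin n), ∑ i, |z i| ≤ 1 ∧ dat z = d := ⟨z, hz, hzd⟩
      have e : (if h : ∃ z : EuclideanSpace ℝ (Fin n), ∑ i, |z i| ≤ 1 ∧ dat z = d then h.choose else 0) = h.choose :=
        dif_pos h
      show ∑ i, |(if h : ∃ z : EuclideanSpace ℝ (Fin n), ∑ i, |z i| ≤ 1 ∧ dat z = d then h.choose else 0 : EuclideanSpace ℝ (Fin n)) i| ≤ 1 ∧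
        dat (if h : ∃ z : EuclideanSpace ℝ (Fin n), ∑ i, |z i| ≤ 1 ∧ dat z = d then h.choose else 0 : EuclideanSpace ℝ (Fin n)) = d
      rw [e]
      exact h.choose_spec
    obtain ⟨rep, hrep⟩ := hrep
    refine ⟨Finset.univ.image rep, ?_, ?_⟩
    · intro z hz
      have hz1 := sum_abs_le_of_polar z hz
      obtain ⟨hr1, hr2⟩ := hrep (dat z) z hz1 rfl
      rw [Set.mem_iUnion₂]
      refine ⟨rep (dat z), Finset.mem_image_of_mem _ (Finset.mem_univ _), ?_⟩
      rw [Set.mem_vadd_set_iff_neg_vadd_mem, Set.mem_inv_smul_set_iff₀ ha0.ne']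
      set y := rep (dat z) with hy
      rintro x ⟨c, hc, u, hu, rfl⟩
      have hw : (-y +ᵥ z : EuclideanSpace ℝ (Fin n)) = z - y := by
        simp [vadd_eq_add]; abel
      rw [hw]
      have h1 : C ⊆ {c : EuclideanSpace ℝ (Fin n) | inner ℝ c (a • (z - y)) ≤ 1/2} := by
        refine convexHull_min ?_ (convex_halfSpace_le ⟨fun x y => inner_add_left _ _ _, fun c x => ?_⟩ _)
        · have key : ∀ x, |inner ℝ (P x) (a • (z - y))| ≤ 1/2 := by
            intro x
            have h2 := hdat z y hz1 hr1 hr2.symm x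
            have h3 : inner ℝ (P x) (a • (z - y)) = 2 * a * ∑ i, φ x i * (z i - y i) := by
              rw [PiLp.inner_apply, Finset.mul_sum]
              refine Finset.sum_congr rfl (fun i _ => ?_)
              show inner ℝ (2 * φ x i) (a * (z i - y i)) = _
              simp only [RCLike.inner_apply, conj_trivial]; ring
            rw [h3, abs_mul, abs_of_pos (by positivity : (0:ℝ) < 2 * a)]
            calc 2 * a * |∑ i, φ x i * (z i - y i)| ≤ 2 * a * (1 / (4 * a)) :=
                  mul_le_mul_of_nonneg_left h2 (by positivity)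
              _ = 1 / 2 := by field_simp; norm_num
          rintro c (h | ⟨x, h⟩ | ⟨x, h⟩)
          · subst h; simp
          · rw [← h]; exact (le_abs_self _).trans (key x)
          · rw [← h]
            show inner ℝ (-P x) _ ≤ 1/2
            rw [inner_neg_left]; exact (neg_le_abs _).trans (key x)
        · simp [real_inner_smul_left]
      have h4 : inner ℝ c (a • (z - y)) ≤ 1/2 := h1 hc
      have h5 : inner ℝ u (a • (z - y)) ≤ 1/2 := by
        refine (real_inner_le_norm _ _).trans ?_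
        rw [norm_smul, Real.norm_eq_abs, abs_of_pos ha0]
        have hu' : ‖u‖ ≤ ρ := by simpa using hu
        have h6 : ‖z - y‖ ≤ 2 := by
          refine (norm_sub_le _ _).trans ?_
          have := norm_le_sum_abs z
          have := norm_le_sum_abs y
          linarith
        calc ‖u‖ * (a * ‖z - y‖) ≤ ρ * (a * 2) :=
              mul_le_mul hu' (mul_le_mul_of_nonneg_left h6 ha0.le) (by positivity) hρ0.le
          _ = 1/2 := by rw [hρ]; field_simp; norm_num
      show inner ℝ (c + u) (a • (z - y)) ≤ 1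
      rw [inner_add_left]
      linarith
    · intro t₂ ht₂
      have hcard : Fintype.card X ≤ F * t₂.card := by
        have hmem : ∀ x : X, ∃ c ∈ t₂, ∀ i, |2 * φ x i - c i| ≤ 1 := by
          intro x
          have hx : P x ∈ C + Metric.closedBall (0 : EuclideanSpace ℝ (Fin n)) ρ :=
            ⟨P x, subset_convexHull ℝ S (Or.inr (Or.inl ⟨x, rfl⟩)), 0, by simp [hρ0.le], by simp⟩
          have := ht₂ hx
          rw [Set.mem_iUnion₂] at this
          obtain ⟨c, hc, hc2⟩ := this
          refine ⟨c, hc, fun i => ?_⟩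
          rw [Set.mem_vadd_set_iff_neg_vadd_mem] at hc2
          have := hc2 i
          have h7 : (-c +ᵥ P x : EuclideanSpace ℝ (Fin n)) i = 2 * φ x i - c i := by
            simp [vadd_eq_add, hP]; ring
          rw [h7] at this
          exact this
        choose f hf1 hf2 using hmem
        have : (Finset.univ : Finset X).card ≤ F * t₂.card := by
          refine Finset.card_le_mul_card_image_of_maps_to (f := f) (fun x _ => hf1 x) F ?_
          intro c hc
          rcases (Finset.univ.filter (fun x => f x = c)).eq_empty_or_nonempty with h | ⟨x, hx⟩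
          · rw [h]; simp
          · refine hF x _ (fun x' hx' i => ?_)
            have hx := (Finset.mem_filter.1 hx).2
            have hx' := (Finset.mem_filter.1 hx').2
            have h8 := hf2 x i
            have h9 := hf2 x' i
            rw [hx] at h8
            rw [hx'] at h9
            rw [abs_le] at h8 h9 ⊢
            constructor <;> linarith [h8.1, h8.2, h9.1, h9.2]
        simpa using this
      refine lt_of_le_of_lt ?_ (hlt _ hcard)
      refine mul_le_mul_of_nonneg_left ?_ (by linarith)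
      have h10 : 1 ≤ (Finset.univ.image rep).card := by
        rw [Nat.one_le_iff_ne_zero, ← Nat.pos_iff_ne_zero, Finset.card_pos]
        exact Finset.univ_nonempty.image _
      refine Real.log_le_log (by exact_mod_cast h10) ?_
      exact_mod_cast Finset.card_image_le.trans (by simp)

end Crest.Agent.H4Pietsch
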