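import Mathlib
import Crest.Agent.H4PietschComb

set_option autoImplicit false

namespace Crest.Agent.H4Pietsch
open Finset

section
variable {k : ℕ} {I V : Fin k → Type} {Y : Type}

/-- `near j`: `x` and `y` agree on the set of all `W` containing some key of length `j` avoiding `B`. -/
def near (Occ : ∀ l, I l → V l → Prop) (j : ℕ) (x : (∀ l, V l) → Y) (B : ∀ l, Finset (I l))
    (y : (∀ l, V l) → Y) : Prop :=
  ∃ κ : ∀ l, I l, (∀ l : Fin k, (l : ℕ) < j → κ l ∉ B l) ∧
    ∀ W : ∀ l, V l, (∀ l : Fin k, (l : ℕ) < j → Occ l (κ l) (W l)) → x W = y W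

/-- admissible families of forbidden sets -/
def Adm (I : Fin k → Type) (β : Fin k → ℕ) : Type := {B : ∀ l, Finset (I l) // ∀ l, (B l).card ≤ β l}

/-- columns -/
def Col (I V : Fin k → Type) (β : Fin k → ℕ) (Y : Type) : Type := Adm I β × ((∀ l, V l) → Y)

instance [∀ l, Finite (I l)] (β : Fin k → ℕ) : Finite (Adm I β) := by
  unfold Adm; infer_instance

instance [∀ l, Finite (I l)] [∀ l, Finite (V l)] [Finite Y] (β : Fin k → ℕ) : Finite (Col I V β Y) := by
  unfold Col; infer_instance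

noncomputable instance [∀ l, Finite (I l)] (β : Fin k → ℕ) : Fintype (Adm I β) := Fintype.ofFinite _

noncomputable instance [∀ l, Finite (I l)] [∀ l, Finite (V l)] [Finite Y] (β : Fin k → ℕ) :
    Fintype (Col I V β Y) := Fintype.ofFinite _

instance (β : Fin k → ℕ) : Nonempty (Adm I β) := ⟨⟨fun _ => ∅, fun _ => by simp⟩⟩

instance (β : Fin k → ℕ) [Nonempty Y] : Nonempty (Col I V β Y) :=
  ⟨(Classical.arbitrary _, fun _ => Classical.arbitrary _)⟩

open Classical in
/-- indicator of a proposition, real valued -/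
noncomputable def ind (p : Prop) : ℝ := if p then 1 else 0

theorem ind_nonneg (p : Prop) : 0 ≤ ind p := by unfold ind; split_ifs <;> norm_num
theorem ind_le_one (p : Prop) : ind p ≤ 1 := by unfold ind; split_ifs <;> norm_num
theorem ind_true {p : Prop} (h : p) : ind p = 1 := by unfold ind; rw [if_pos h]
theorem ind_false {p : Prop} (h : ¬ p) : ind p = 0 := by unfold ind; rw [if_neg h]
theorem ind_mono {p q : Prop} (h : p → q) : ind p ≤ ind q := by
  by_cases hp : p
  · rw [ind_true hp, ind_true (h hp)]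
  · rw [ind_false hp]; exact ind_nonneg q

/-- the number of `j ≤ k` at which the row `x` is near the column `c` -/
noncomputable def SS (Occ : ∀ l, I l → V l → Prop) {β : Fin k → ℕ} (x : (∀ l, V l) → Y) (c : Col I V β Y) : ℝ :=
  ∑ j ∈ range (k+1), ind (near Occ j x c.1.1 c.2)

/-- the rows -/
noncomputable def phi (Occ : ∀ l, I l → V l → Prop) {β : Fin k → ℕ} (x : (∀ l, V l) → Y) (c : Col I V β Y) : ℝ :=
  2 * SS Occ x c / (k+1) - 1

theorem exists_good_key [∀ l, Fintype (I l)] {β : Fin k → ℕ} (hβ : ∀ l, β l < Fintype.card (I l)) (B : Adm I β) :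
    ∃ κ : ∀ l, I l, ∀ l, κ l ∉ B.1 l := by
  have : ∀ l, ∃ i : I l, i ∉ B.1 l := by
    intro l
    by_contra h
    push Not at h
    have h1 : B.1 l = univ := Finset.eq_univ_iff_forall.2 h
    have h2 := B.2 l
    rw [h1, Finset.card_univ] at h2
    exact absurd (hβ l) (not_lt.2 h2)
  choose κ hκ using this
  exact ⟨κ, hκ⟩

theorem near_mono [∀ l, Fintype (I l)] {β : Fin k → ℕ} (hβ : ∀ l, β l < Fintype.card (I l))
    (Occ : ∀ l, I l → V l → Prop) {j j' : ℕ} (hj : j ≤ j') (x : (∀ l, V l) → Y) (c : Col I V β Y)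
    (h : near Occ j x c.1.1 c.2) : near Occ j' x c.1.1 c.2 := by
  obtain ⟨κ, h1, h2⟩ := h
  obtain ⟨κ₀, h0⟩ := exists_good_key hβ c.1
  refine ⟨fun l => if (l : ℕ) < j then κ l else κ₀ l, ?_, ?_⟩
  · intro l _
    by_cases hl : (l : ℕ) < j
    · simp only [hl, if_true]; exact h1 l hl
    · simp only [hl, if_false]; exact h0 l
  · intro W hW
    refine h2 W (fun l hl => ?_)
    have := hW l (lt_of_lt_of_le hl hj)
    simpa only [hl, if_true] using this

theorem near_self [∀ l, Fintype (I l)] {β : Fin k → ℕ} (hβ : ∀ l, β l < Fintype.card (I l))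
    (Occ : ∀ l, I l → V l → Prop) (j : ℕ) (x : (∀ l, V l) → Y) (B : Adm I β) :
    near Occ j x B.1 x := by
  obtain ⟨κ₀, h0⟩ := exists_good_key hβ B
  exact ⟨κ₀, fun l _ => h0 l, fun _ _ => rfl⟩

theorem SS_nonneg (Occ : ∀ l, I l → V l → Prop) {β : Fin k → ℕ} (x : (∀ l, V l) → Y) (c : Col I V β Y) :
    0 ≤ SS Occ x c := Finset.sum_nonneg (fun j _ => ind_nonneg _)

/-- rows which are close at all columns -/
theorem near_of_close [∀ l, Fintype (I l)] {β : Fin k → ℕ} (hβ : ∀ l, β l < Fintype.card (I l))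
    (Occ : ∀ l, I l → V l → Prop) (x x' : (∀ l, V l) → Y)
    (h : ∀ c : Col I V β Y, |phi Occ x c - phi Occ x' c| ≤ 1) (B : Adm I β) :
    near Occ k x' B.1 x := by
  by_contra hcon
  set c : Col I V β Y := (B, x) with hc
  have h1 : SS Occ x c = k + 1 := by
    unfold SS
    rw [Finset.sum_congr rfl (fun _ _ => ind_true (near_self hβ Occ _ x B))]
    simp
  have h2 : SS Occ x' c = 0 := by
    unfold SS
    refine Finset.sum_eq_zero (fun j hj => ind_false (fun hn => hcon ?_))
    exact near_mono hβ Occ (Nat.lt_succ_iff.1 (Finset.mem_range.1 hj)) x' c hn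
  have h3 := h c
  unfold phi at h3
  rw [h1, h2] at h3
  have h4 : (0:ℝ) < k + 1 := by positivity
  have h5 : 2 * ((k:ℝ) + 1) / (k + 1) - 1 - (2 * 0 / (k + 1) - 1) = 2 := by field_simp; ring
  rw [h5] at h3
  norm_num at h3

/-- close rows agree at more than half of the positions -/
theorem agree_of_close [∀ l, Fintype (I l)] [∀ l, Fintype (V l)] {β g : Fin k → ℕ} (hβ : ∀ l, β l < Fintype.card (I l))
    (Occ : ∀ l, I l → V l → Prop) (N : ℕ)
    (hN : ∀ l, ∀ S : Finset (I l), g l < S.card → ∀ Z : Finset (V l), (∀ v ∈ Z, ∀ i ∈ S, ¬ Occ l i v) →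
      N * Z.card ≤ Fintype.card (V l))
    (hg : ∀ l : Fin k, (∏ l', if l' < l then Fintype.card (I l') else 1) * g l ≤ β l)
    (x x' : (∀ l, V l) → Y)
    (h : ∀ c : Col I V β Y, |phi Occ x c - phi Occ x' c| ≤ 1) (Z : Finset (∀ l, V l))
    (hZ : ∀ W ∈ Z, x' W ≠ x W) : N * Z.card ≤ k * Fintype.card (∀ l, V l) := by
  rcases comb k I V Occ g N hN (fun W => x' W = x W) with h1 | ⟨B, hB, h2⟩
  · exact h1 Z hZ
  · exfalso
    obtain ⟨κ, h3, h4⟩ := near_of_close hβ Occ x x' h ⟨B, fun l => (hB l).trans (hg l)⟩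
    obtain ⟨W, hW1, hW2⟩ := h2 κ (fun l => h3 l l.2)
    exact hW2 (h4 W (fun l _ => hW1 l))

/-- counting functions that agree with `x` on at least half of the positions -/
theorem card_half_agree {Ω : Type} [Fintype Ω] (m : ℕ) (hm : 0 < m) (x : Ω → Fin m)
    (s : Finset (Ω → Fin m))
    (h : ∀ x' ∈ s, ∀ Z : Finset Ω, (∀ W ∈ Z, x' W ≠ x W) → 2 * Z.card ≤ Fintype.card Ω) :
    s.card ≤ 2 ^ Fintype.card Ω * m ^ (Fintype.card Ω / 2) := by
  classical
  let T : Finset (Finset Ω) := univ.filter (fun Z => 2 * Z.card ≤ Fintype.card Ω)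
  let P : Finset Ω → Finset (Ω → Fin m) := fun Z =>
    Fintype.piFinset (fun W => if W ∈ Z then univ else {x W})
  have hsub : s ⊆ T.biUnion P := by
    intro x' hx'
    rw [Finset.mem_biUnion]
    refine ⟨univ.filter (fun W => x' W ≠ x W), ?_, ?_⟩
    · exact Finset.mem_filter.2 ⟨Finset.mem_univ _, h x' hx' _ (fun W hW => (Finset.mem_filter.1 hW).2)⟩
    · rw [Fintype.mem_piFinset]
      intro W
      by_cases hW : x' W = x W
      · simp [hW]
      · simp [hW]
  have hP : ∀ Z ∈ T, (P Z).card ≤ m ^ (Fintype.card Ω / 2) := by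
    intro Z hZ
    have hZ' := (Finset.mem_filter.1 hZ).2
    have : (P Z).card = m ^ Z.card := by
      simp only [P, Fintype.card_piFinset]
      rw [Finset.prod_congr rfl (fun W _ => apply_ite Finset.card (W ∈ Z) univ {x W})]
      simp only [Finset.card_singleton]
      rw [Finset.prod_ite_mem]
      simp
    rw [this]
    exact Nat.pow_le_pow_right hm (by omega)
  calc s.card ≤ (T.biUnion P).card := Finset.card_le_card hsub
    _ ≤ T.card * m ^ (Fintype.card Ω / 2) := Finset.card_biUnion_le_card_mul _ _ _ hP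
    _ ≤ 2 ^ Fintype.card Ω * m ^ (Fintype.card Ω / 2) := by
        gcongr
        refine (Finset.card_le_univ _).trans ?_
        simp

end

end Crest.Agent.H4Pietsch
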