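import Mathlib
import Crest.Agent.H4PietschLow

set_option autoImplicit false

namespace Crest.Agent.H4Pietsch
open Finset

section
variable {k : ℕ} {I V : Fin k → Type} {Y : Type} {β D : Fin k → ℕ} {Occ : ∀ l, I l → V l → Prop}

/-- families of lists -/
abbrev Lst (Occ : ∀ l, I l → V l → Prop) (D : Fin k → ℕ) (Y : Type) (istar : ∀ j, I j) : Type :=
  ∀ j : Fin k, {W : ∀ l, V l // Occ j (istar j) (W j)} → Fin (D j) → Y

open Classical in
/-- index in the list of the symbol `σ` -/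
noncomputable def idx {istar : ∀ j, I j} (L : Lst Occ D Y istar) (j : Fin k) (W : ∀ l, V l) (σ : Y) :
    Option (Fin (D j)) :=
  if h : ∃ h1 : Occ j (istar j) (W j), ∃ t, L j ⟨W, h1⟩ t = σ then some h.choose_spec.choose else none

theorem idx_some {istar : ∀ j, I j} (L : Lst Occ D Y istar) (j : Fin k) (W : ∀ l, V l) (σ : Y) (t : Fin (D j))
    (h : idx L j W σ = some t) : ∃ h1 : Occ j (istar j) (W j), L j ⟨W, h1⟩ t = σ := by
  unfold idx at h
  split_ifs at h with h'
  refine ⟨h'.choose, ?_⟩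
  have := h'.choose_spec.choose_spec
  rw [Option.some_inj.1 h] at this
  exact this

theorem idx_inj {istar : ∀ j, I j} (L : Lst Occ D Y istar) (j : Fin k) (W : ∀ l, V l) (σ σ' : Y)
    (h : idx L j W σ = idx L j W σ') (h' : idx L j W σ' ≠ none) : σ = σ' := by
  obtain ⟨t, ht⟩ := Option.ne_none_iff_exists'.1 h'
  obtain ⟨_, h1⟩ := idx_some L j W σ' t ht
  rw [ht] at h
  obtain ⟨_, h2⟩ := idx_some L j W σ t h
  rw [← h1, ← h2]

theorem idx_none {istar : ∀ j, I j} (L : Lst Occ D Y istar) (j : Fin k) (W : ∀ l, V l) (σ : Y)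
    (h : idx L j W σ = none) (h1 : Occ j (istar j) (W j)) (t : Fin (D j)) : L j ⟨W, h1⟩ t ≠ σ := by
  intro ht
  unfold idx at h
  rw [dif_pos ⟨h1, t, ht⟩] at h
  exact absurd h (by simp)

/-- types of columns -/
def Typ (I V : Fin k → Type) (β D : Fin k → ℕ) : Type := Adm I β × (∀ j : Fin k, (∀ l, V l) → Option (Fin (D j)))

instance [∀ l, Finite (I l)] [∀ l, Finite (V l)] : Finite (Typ I V β D) := by
  unfold Typ; infer_instance

noncomputable instance [∀ l, Finite (I l)] [∀ l, Finite (V l)] : Fintype (Typ I V β D) := Fintype.ofFinite _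

/-- the type of a column -/
noncomputable def ty {istar : ∀ j, I j} (L : Lst Occ D Y istar) (c : Col I V β Y) : Typ I V β D :=
  (c.1, fun j W => idx L j W (c.2 W))

/-- approximate nearness, depends only on the type of the column -/
def nearT {istar : ∀ j, I j} (L : Lst Occ D Y istar) (j : Fin k) (x : (∀ l, V l) → Y) (τ : Typ I V β D) : Prop :=
  ∃ κ : ∀ l, I l, (∀ l : Fin k, (l : ℕ) < j → κ l ∉ τ.1.1 l) ∧
    ∀ W : ∀ l, V l, (∀ l : Fin k, (l : ℕ) < j → Occ l (κ l) (W l)) → Occ j (istar j) (W j) →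
      idx L j W (x W) = τ.2 j W ∧ τ.2 j W ≠ none

theorem nearT_sound {istar : ∀ j, I j} (L : Lst Occ D Y istar) (j : Fin k) (x : (∀ l, V l) → Y)
    (c : Col I V β Y) (h : nearT L j x (ty L c)) (hj : istar j ∉ c.1.1 j) :
    near Occ ((j : ℕ) + 1) x c.1.1 c.2 := by
  classical
  obtain ⟨κ, h1, h2⟩ := h
  refine ⟨fun l => if l = j then istar l else κ l, ?_, ?_⟩
  · intro l hl
    by_cases hlj : l = j
    · subst hlj; simpa using hj
    · simp only [hlj, if_false]
      refine h1 l ?_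
      have : (l : ℕ) ≠ j := fun h => hlj (Fin.ext h)
      omega
  · intro W hW
    have h3 : Occ j (istar j) (W j) := by
      have := hW j (Nat.lt_succ_self _)
      simpa using this
    obtain ⟨h4, h5⟩ := h2 W (fun l hl => by
      have hlj : l ≠ j := fun h => by subst h; exact lt_irrefl _ hl
      have := hW l (Nat.lt_succ_of_lt hl)
      simpa only [hlj, if_false] using this) h3
    exact idx_inj L j W _ _ h4 h5

theorem sum_ind_mem {α : Type} [Fintype α] (S : Finset α) : ∑ i, ind (i ∈ S) = (S.card : ℝ) := by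
  classical
  have h : ∀ i, ind (i ∈ S) = if i ∈ S then (1:ℝ) else 0 := by
    intro i
    by_cases h : i ∈ S
    · rw [ind_true h, if_pos h]
    · rw [ind_false h, if_neg h]
  rw [Finset.sum_congr rfl (fun i _ => h i)]
  simp

variable [∀ l, Fintype (I l)] [∀ l, Fintype (V l)] [Fintype Y]

theorem exists_istar (z : Col I V β Y → ℝ) (hz : ∑ c, |z c| ≤ 1) (j : Fin k) [Nonempty (I j)]
    (hβ : k * β j ≤ Fintype.card (I j)) : ∃ i : I j, k * ∑ c, ind (i ∈ c.1.1 j) * |z c| ≤ 1 := by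
  classical
  by_contra hcon
  push Not at hcon
  have h1 : ∑ i : I j, (1:ℝ) < ∑ i : I j, k * ∑ c, ind (i ∈ c.1.1 j) * |z c| :=
    Finset.sum_lt_sum_of_nonempty Finset.univ_nonempty (fun i _ => hcon i)
  rw [← Finset.mul_sum, Finset.sum_comm] at h1
  have h2 : ∀ c : Col I V β Y, ∑ i : I j, ind (i ∈ c.1.1 j) * |z c| ≤ β j * |z c| := by
    intro c
    rw [← Finset.sum_mul]
    refine mul_le_mul_of_nonneg_right ?_ (abs_nonneg _)
    rw [sum_ind_mem]
    exact_mod_cast c.1.2 j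
  have h3 : ∑ c : Col I V β Y, ∑ i : I j, ind (i ∈ c.1.1 j) * |z c| ≤ β j := by
    refine (Finset.sum_le_sum (fun c _ => h2 c)).trans ?_
    rw [← Finset.mul_sum]
    calc (β j : ℝ) * ∑ c, |z c| ≤ β j * 1 := mul_le_mul_of_nonneg_left hz (by positivity)
      _ = β j := mul_one _
  have h4 : (k:ℝ) * ∑ c : Col I V β Y, ∑ i : I j, ind (i ∈ c.1.1 j) * |z c| ≤ k * β j :=
    mul_le_mul_of_nonneg_left h3 (by positivity)
  have h5 : ((k:ℝ) * β j) ≤ Fintype.card (I j) := by exact_mod_cast hβ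
  simp only [Finset.sum_const, Finset.card_univ, nsmul_eq_mul, mul_one] at h1
  linarith

theorem exists_list [Nonempty Y] (z : Col I V β Y → ℝ) (hz : ∑ c, |z c| ≤ 1) (d : ℕ) (W : ∀ l, V l) :
    ∃ L : Fin d → Y, ∀ σ, (∀ t, L t ≠ σ) → d * ∑ c : Col I V β Y, ind (c.2 W = σ) * |z c| ≤ 1 := by
  classical
  let H : Finset Y := univ.filter (fun σ => 1 < d * ∑ c : Col I V β Y, ind (c.2 W = σ) * |z c|)
  have hH : H.card ≤ d := by
    have h1 : (H.card : ℝ) ≤ ∑ σ ∈ H, d * ∑ c : Col I V β Y, ind (c.2 W = σ) * |z c| := by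
      rw [Finset.card_eq_sum_ones, Nat.cast_sum]
      refine Finset.sum_le_sum (fun σ hσ => ?_)
      have := (Finset.mem_filter.1 hσ).2
      simpa using this.le
    have h2 : ∑ σ ∈ H, d * ∑ c : Col I V β Y, ind (c.2 W = σ) * |z c| ≤
        ∑ σ : Y, d * ∑ c : Col I V β Y, ind (c.2 W = σ) * |z c| := by
      refine Finset.sum_le_sum_of_subset_of_nonneg (Finset.subset_univ _) (fun σ _ _ => ?_)
      exact mul_nonneg (by positivity) (Finset.sum_nonneg (fun c _ => mul_nonneg (ind_nonneg _) (abs_nonneg _)))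
    have h3 : ∑ σ : Y, d * ∑ c : Col I V β Y, ind (c.2 W = σ) * |z c| = d * ∑ c : Col I V β Y, |z c| := by
      rw [← Finset.mul_sum, Finset.sum_comm]
      congr 1
      refine Finset.sum_congr rfl (fun c _ => ?_)
      rw [← Finset.sum_mul]
      have : ∑ σ : Y, ind (c.2 W = σ) = 1 := by
        unfold ind
        simp
      rw [this, one_mul]
    have h4 : (H.card : ℝ) ≤ d := by
      rw [h3] at h2
      have : (d:ℝ) * ∑ c : Col I V β Y, |z c| ≤ d * 1 := mul_le_mul_of_nonneg_left hz (by positivity)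
      linarith
    exact_mod_cast h4
  obtain ⟨f⟩ : Nonempty (H ↪ Fin d) := Function.Embedding.nonempty_of_card_le (by simpa using hH)
  refine ⟨Function.extend f Subtype.val (fun _ => Classical.arbitrary Y), fun σ hσ => ?_⟩
  by_contra hcon
  push Not at hcon
  have hσH : σ ∈ H := Finset.mem_filter.2 ⟨Finset.mem_univ _, hcon⟩
  apply hσ (f ⟨σ, hσH⟩)
  rw [f.injective.extend_apply]

theorem err_mass [∀ l, Nonempty (I l)] {istar : ∀ j, I j} (L : Lst Occ D Y istar) (j : Fin k)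
    (x : (∀ l, V l) → Y) (z : Col I V β Y → ℝ)
    (hL : ∀ (W : ∀ l, V l) (h1 : Occ j (istar j) (W j)) (σ : Y), (∀ t, L j ⟨W, h1⟩ t ≠ σ) →
      D j * ∑ c : Col I V β Y, ind (c.2 W = σ) * |z c| ≤ 1) :
    D j * ∑ c : Col I V β Y, ind (near Occ j x c.1.1 c.2 ∧ ¬ nearT L j x (ty L c)) * |z c| ≤
      ((∏ l : Fin k, if l < j then Fintype.card (I l) else 1 : ℕ) : ℝ) := by
  classical
  let Key : Finset (∀ l, I l) := Fintype.piFinset (fun l => if l < j then univ else {Classical.arbitrary (I l)})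
  have hKey : Key.card = ∏ l : Fin k, if l < j then Fintype.card (I l) else 1 := by
    simp only [Key, Fintype.card_piFinset]
    refine Finset.prod_congr rfl (fun l _ => ?_)
    split_ifs <;> simp
  let Q : (∀ l, I l) → (∀ l, V l) → Prop := fun κ W => (∀ l : Fin k, (l : ℕ) < j → Occ l (κ l) (W l)) ∧
    ∃ h1 : Occ j (istar j) (W j), ∀ t, L j ⟨W, h1⟩ t ≠ x W
  let R : (∀ l, I l) → Col I V β Y → Prop := fun κ c =>
    (∀ W : ∀ l, V l, (∀ l : Fin k, (l : ℕ) < j → Occ l (κ l) (W l)) → x W = c.2 W) ∧ ∃ W, Q κ W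
  have h1 : ∀ c : Col I V β Y, ind (near Occ j x c.1.1 c.2 ∧ ¬ nearT L j x (ty L c)) ≤ ∑ κ ∈ Key, ind (R κ c) := by
    intro c
    by_cases hc : near Occ j x c.1.1 c.2 ∧ ¬ nearT L j x (ty L c)
    · rw [ind_true hc]
      obtain ⟨⟨κ, h1, h2⟩, h3⟩ := hc
      set κ' : ∀ l, I l := fun l => if l < j then κ l else Classical.arbitrary (I l) with hκ'
      have hκ1 : ∀ l : Fin k, (l : ℕ) < j → κ' l = κ l := fun l hl => if_pos (Fin.lt_def.2 hl)
      have hmem : κ' ∈ Key := by
        rw [Fintype.mem_piFinset]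
        intro l
        by_cases hl : l < j
        · simp [hl]
        · simp [hl, hκ']
      have hR : R κ' c := by
        refine ⟨fun W hW => h2 W (fun l hl => by rw [← hκ1 l hl]; exact hW l hl), ?_⟩
        by_contra hcon
        apply h3
        refine ⟨κ, h1, fun W hW1 hW2 => ?_⟩
        have hxc : x W = c.2 W := h2 W hW1
        have h4 : (ty L c).2 j W = idx L j W (x W) := by
          show idx L j W (c.2 W) = _
          rw [hxc]
        rw [h4]
        refine ⟨rfl, fun hnone => hcon ⟨W, fun l hl => ?_, hW2, fun t => idx_none L j W (x W) hnone hW2 t⟩⟩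
        rw [hκ1 l hl]; exact hW1 l hl
      calc (1:ℝ) = ind (R κ' c) := (ind_true hR).symm
        _ ≤ ∑ κ ∈ Key, ind (R κ c) :=
          Finset.single_le_sum (f := fun κ => ind (R κ c)) (fun κ _ => ind_nonneg _) hmem
    · rw [ind_false hc]
      exact Finset.sum_nonneg (fun κ _ => ind_nonneg _)
  have h2 : ∀ κ, D j * ∑ c : Col I V β Y, ind (R κ c) * |z c| ≤ 1 := by
    intro κ
    by_cases hW : ∃ W, Q κ W
    · obtain ⟨W, hW1, hW2, hW3⟩ := hW
      refine le_trans ?_ (hL W hW2 (x W) hW3)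
      refine mul_le_mul_of_nonneg_left ?_ (by positivity)
      refine Finset.sum_le_sum (fun c _ => mul_le_mul_of_nonneg_right (ind_mono ?_) (abs_nonneg _))
      rintro ⟨h, _⟩
      exact (h W hW1).symm
    · have : ∀ c : Col I V β Y, ind (R κ c) = 0 := fun c => ind_false (fun h => hW h.2)
      simp [this]
  calc D j * ∑ c : Col I V β Y, ind (near Occ j x c.1.1 c.2 ∧ ¬ nearT L j x (ty L c)) * |z c|
      ≤ D j * ∑ c : Col I V β Y, ∑ κ ∈ Key, ind (R κ c) * |z c| := by
        refine mul_le_mul_of_nonneg_left (Finset.sum_le_sum (fun c _ => ?_)) (by positivity)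
        rw [← Finset.sum_mul]
        exact mul_le_mul_of_nonneg_right (h1 c) (abs_nonneg _)
    _ = ∑ κ ∈ Key, D j * ∑ c : Col I V β Y, ind (R κ c) * |z c| := by
        rw [Finset.sum_comm, Finset.mul_sum]
    _ ≤ ∑ κ ∈ Key, (1:ℝ) := Finset.sum_le_sum (fun κ _ => h2 κ)
    _ = ((∏ l : Fin k, if l < j then Fintype.card (I l) else 1 : ℕ) : ℝ) := by
        rw [Finset.sum_const, hKey]; simp

/-- approximate row -/
noncomputable def phiT {istar : ∀ j, I j} (L : Lst Occ D Y istar) (x : (∀ l, V l) → Y) (τ : Typ I V β D) : ℝ :=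
  2 * (∑ j : Fin k, ind (nearT L j x τ)) / (k+1) - 1

omit [∀ l, Fintype (I l)] [∀ l, Fintype (V l)] [Fintype Y] in
theorem abs_phiT_le {istar : ∀ j, I j} (L : Lst Occ D Y istar) (x : (∀ l, V l) → Y) (τ : Typ I V β D) :
    |phiT L x τ| ≤ 1 := by
  unfold phiT
  have h1 : 0 ≤ ∑ j : Fin k, ind (nearT L j x τ) := Finset.sum_nonneg (fun j _ => ind_nonneg _)
  have h2 : ∑ j : Fin k, ind (nearT L j x τ) ≤ k := by
    calc ∑ j : Fin k, ind (nearT L j x τ) ≤ ∑ j : Fin k, (1:ℝ) := Finset.sum_le_sum (fun j _ => ind_le_one _)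
      _ = k := by simp
  have h3 : (0:ℝ) < k + 1 := by positivity
  rw [abs_le]
  constructor
  · have : 0 ≤ 2 * (∑ j : Fin k, ind (nearT L j x τ)) / (k+1) := by positivity
    linarith
  · have : 2 * (∑ j : Fin k, ind (nearT L j x τ)) / (k+1) ≤ 2 := by
      rw [div_le_iff₀ h3]; linarith
    linarith

omit [∀ l, Fintype (I l)] [∀ l, Fintype (V l)] [Fintype Y] in
theorem abs_SS_sub_le {istar : ∀ j, I j} (L : Lst Occ D Y istar) (x : (∀ l, V l) → Y) (c : Col I V β Y) :
    |SS Occ x c - ∑ j : Fin k, ind (nearT L j x (ty L c))| ≤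
      1 + ∑ j : Fin k, (ind (istar j ∈ c.1.1 j) + ind (near Occ j x c.1.1 c.2 ∧ ¬ nearT L j x (ty L c))) := by
  set n : ℕ → ℝ := fun j => ind (near Occ j x c.1.1 c.2) with hn
  set t : Fin k → ℝ := fun j => ind (nearT L j x (ty L c)) with ht
  set e : Fin k → ℝ := fun j => ind (istar j ∈ c.1.1 j) with he
  set f : Fin k → ℝ := fun j => ind (near Occ j x c.1.1 c.2 ∧ ¬ nearT L j x (ty L c)) with hf
  have h1 : SS Occ x c = ∑ j : Fin k, n j + n k := by
    unfold SS
    rw [Finset.sum_range_succ, Finset.sum_range]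
  have h2 : SS Occ x c = ∑ j : Fin k, n (j+1) + n 0 := by
    unfold SS
    rw [Finset.sum_range_succ', Finset.sum_range]
  have h3 : ∀ j, t j ≤ n (j+1) + e j := by
    intro j
    by_cases hj : istar j ∈ c.1.1 j
    · have : e j = 1 := ind_true hj
      have h4 : t j ≤ 1 := ind_le_one _
      have h5 : 0 ≤ n (j+1) := ind_nonneg _
      linarith
    · have h4 : t j ≤ n (j+1) := ind_mono (fun h => nearT_sound L j x c h hj)
      have h5 : 0 ≤ e j := ind_nonneg _
      linarith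
  have h4 : ∀ j : Fin k, n j ≤ t j + f j := by
    intro j
    by_cases hj : nearT L j x (ty L c)
    · have : t j = 1 := ind_true hj
      have h4 : n j ≤ 1 := ind_le_one _
      have h5 : 0 ≤ f j := ind_nonneg _
      linarith
    · have h4 : n j ≤ f j := ind_mono (fun h => ⟨h, hj⟩)
      have h5 : 0 ≤ t j := ind_nonneg _
      linarith
  have h5 : ∑ j, t j ≤ ∑ j : Fin k, n (j+1) + ∑ j, e j := by
    rw [← Finset.sum_add_distrib]; exact Finset.sum_le_sum (fun j _ => h3 j)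
  have h6 : ∑ j : Fin k, n j ≤ ∑ j, t j + ∑ j, f j := by
    rw [← Finset.sum_add_distrib]; exact Finset.sum_le_sum (fun j _ => h4 j)
  have h7 : 0 ≤ n 0 := ind_nonneg _
  have h8 : n k ≤ 1 := ind_le_one _
  have h9 : 0 ≤ ∑ j, e j := Finset.sum_nonneg (fun j _ => ind_nonneg _)
  have h10 : 0 ≤ ∑ j, f j := Finset.sum_nonneg (fun j _ => ind_nonneg _)
  rw [Finset.sum_add_distrib, abs_le]
  constructor <;> linarith

theorem phi_approx {istar : ∀ j, I j} (L : Lst Occ D Y istar) (x : (∀ l, V l) → Y) (z : Col I V β Y → ℝ)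
    (hk : 0 < k) (hz : ∑ c, |z c| ≤ 1)
    (h1 : ∀ j, k * ∑ c : Col I V β Y, ind (istar j ∈ c.1.1 j) * |z c| ≤ 1)
    (h2 : ∀ j : Fin k, k * ∑ c : Col I V β Y, ind (near Occ j x c.1.1 c.2 ∧ ¬ nearT L j x (ty L c)) * |z c| ≤ 1) :
    |∑ c : Col I V β Y, (phi Occ x c - phiT L x (ty L c)) * z c| ≤ 6 / (k + 1) := by
  have hk' : (0:ℝ) < k + 1 := by positivity
  have hk0 : (0:ℝ) < k := by exact_mod_cast hk
  have h3 : ∀ c : Col I V β Y, |(phi Occ x c - phiT L x (ty L c)) * z c| ≤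
      2 / (k+1) * (|z c| + ∑ j : Fin k, (ind (istar j ∈ c.1.1 j) * |z c| +
        ind (near Occ j x c.1.1 c.2 ∧ ¬ nearT L j x (ty L c)) * |z c|)) := by
    intro c
    have h4 : phi Occ x c - phiT L x (ty L c) =
        2 / (k+1) * (SS Occ x c - ∑ j : Fin k, ind (nearT L j x (ty L c))) := by
      unfold phi phiT; ring
    rw [abs_mul, h4, abs_mul, abs_of_pos (by positivity : (0:ℝ) < 2 / (k+1)), mul_assoc]
    refine mul_le_mul_of_nonneg_left ?_ (by positivity)
    have h5 := mul_le_mul_of_nonneg_right (abs_SS_sub_le L x c) (abs_nonneg (z c))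
    refine h5.trans (le_of_eq ?_)
    rw [add_mul, one_mul, Finset.sum_mul]
    simp only [add_mul]
  refine (Finset.abs_sum_le_sum_abs _ _).trans ?_
  refine (Finset.sum_le_sum (fun c _ => h3 c)).trans ?_
  rw [← Finset.mul_sum, Finset.sum_add_distrib, Finset.sum_comm]
  have h6 : ∑ j : Fin k, ∑ c : Col I V β Y, (ind (istar j ∈ c.1.1 j) * |z c| +
        ind (near Occ j x c.1.1 c.2 ∧ ¬ nearT L j x (ty L c)) * |z c|) ≤ ∑ j : Fin k, (2 / k : ℝ) := by
    refine Finset.sum_le_sum (fun j _ => ?_)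
    rw [Finset.sum_add_distrib, le_div_iff₀ hk0]
    linarith [h1 j, h2 j]
  have h7 : ∑ j : Fin k, (2 / k : ℝ) = 2 := by
    simp; field_simp
  rw [h7] at h6
  calc 2 / ((k:ℝ)+1) * _ ≤ 2 / (k+1) * (1 + 2) :=
        mul_le_mul_of_nonneg_left (add_le_add hz h6) (by positivity)
    _ = 6 / (k+1) := by ring

/-- the data attached to a vector -/
abbrev Dat (Occ : ∀ l, I l → V l → Prop) (β D : Fin k → ℕ) (Y : Type) (Q : ℕ) : Type :=
  Σ istar : (∀ j, I j), Lst Occ D Y istar × (Typ I V β D → ↥(Finset.Icc (-(Q:ℤ)) Q))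

open Classical in
/-- `d` describes `z` -/
structure Good (Q : ℕ) (z : Col I V β Y → ℝ) (d : Dat Occ β D Y Q) : Prop where
  h1 : ∀ j, k * ∑ c : Col I V β Y, ind (d.1 j ∈ c.1.1 j) * |z c| ≤ 1
  h2 : ∀ (j : Fin k) (W : ∀ l, V l) (h : Occ j (d.1 j) (W j)) (σ : Y), (∀ t, d.2.1 j ⟨W, h⟩ t ≠ σ) →
      D j * ∑ c : Col I V β Y, ind (c.2 W = σ) * |z c| ≤ 1
  h3 : ∀ τ : Typ I V β D, ⌊(Q:ℝ) * ∑ c : Col I V β Y, if ty d.2.1 c = τ then z c else 0⌋ = (d.2.2 τ : ℤ)

theorem exists_good [Nonempty Y] [∀ l, Nonempty (I l)] (Q : ℕ) (z : Col I V β Y → ℝ) (hz : ∑ c, |z c| ≤ 1)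
    (hβ : ∀ j, k * β j ≤ Fintype.card (I j)) : ∃ d : Dat Occ β D Y Q, Good Q z d := by
  classical
  choose istar h1 using fun j => exists_istar z hz j (hβ j)
  choose Lf hL using fun (j : Fin k) (W : ∀ l, V l) => exists_list z hz (D j) W
  set L : Lst Occ D Y istar := fun j W => Lf j W.1 with hLdef
  have hfl : ∀ τ : Typ I V β D, ⌊(Q:ℝ) * ∑ c : Col I V β Y, if ty L c = τ then z c else 0⌋ ∈ Finset.Icc (-(Q:ℤ)) Q := by
    intro τ
    have hb : |∑ c : Col I V β Y, if ty L c = τ then z c else 0| ≤ 1 := by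
      refine (Finset.abs_sum_le_sum_abs _ _).trans (le_trans (Finset.sum_le_sum (fun c _ => ?_)) hz)
      split_ifs
      · exact le_rfl
      · simp
    rw [abs_le] at hb
    have hQ : (0:ℝ) ≤ Q := by positivity
    rw [Finset.mem_Icc]
    constructor
    · rw [Int.le_floor]
      push_cast
      nlinarith [hb.1]
    · have : (Q:ℝ) * (∑ c : Col I V β Y, if ty L c = τ then z c else 0) ≤ ((Q:ℤ):ℝ) := by
        push_cast
        nlinarith [hb.2]
      calc ⌊(Q:ℝ) * ∑ c : Col I V β Y, if ty L c = τ then z c else 0⌋ ≤ ⌊((Q:ℤ):ℝ)⌋ := Int.floor_le_floor this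
        _ = Q := Int.floor_intCast _
  exact ⟨⟨istar, L, fun τ => ⟨_, hfl τ⟩⟩, h1, fun j W h σ hσ => hL j W σ hσ, fun τ => rfl⟩

theorem good_close [∀ l, Nonempty (I l)] (Q : ℕ) (z z' : Col I V β Y → ℝ) (hz : ∑ c, |z c| ≤ 1)
    (hz' : ∑ c, |z' c| ≤ 1) (hk : 0 < k)
    (hD : ∀ j : Fin k, k * (∏ l : Fin k, if l < j then Fintype.card (I l) else 1) ≤ D j)
    (hQ : Fintype.card (Typ I V β D) * (k + 1) ≤ Q) (hQ0 : 0 < Q)
    (d : Dat Occ β D Y Q) (hd : Good Q z d) (hd' : Good Q z' d) (x : (∀ l, V l) → Y) :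
    |∑ c : Col I V β Y, phi Occ x c * (z c - z' c)| ≤ 13 / (k + 1) := by
  classical
  obtain ⟨istar, L, q⟩ := d
  have hk' : (0:ℝ) < k + 1 := by positivity
  have hkey : ∀ w : Col I V β Y → ℝ, Good Q w (⟨istar, L, q⟩ : Dat Occ β D Y Q) → ∑ c, |w c| ≤ 1 →
      |∑ c : Col I V β Y, (phi Occ x c - phiT L x (ty L c)) * w c| ≤ 6 / (k + 1) := by
    intro w hw hw1
    refine phi_approx L x w hk hw1 hw.h1 (fun j => ?_)
    have h4 := err_mass L j x w (hw.h2 j)
    have h5 : ((k * (∏ l : Fin k, if l < j then Fintype.card (I l) else 1) : ℕ) : ℝ) ≤ D j := by exact_mod_cast hD j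
    rw [Nat.cast_mul] at h5
    have hpos : 0 < ∏ l : Fin k, if l < j then Fintype.card (I l) else 1 := by
      refine Finset.prod_pos (fun l _ => ?_)
      split_ifs
      · exact Fintype.card_pos
      · norm_num
    have hDpos : (0:ℝ) < D j := by
      refine lt_of_lt_of_le ?_ h5
      have : (0:ℝ) < k := by exact_mod_cast hk
      have : (0:ℝ) < ((∏ l : Fin k, if l < j then Fintype.card (I l) else 1 : ℕ) : ℝ) := by exact_mod_cast hpos
      positivity
    set s := ∑ c : Col I V β Y, ind (near Occ j x c.1.1 c.2 ∧ ¬ nearT L j x (ty L c)) * |w c| with hs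
    have h6 : (D j : ℝ) * (k * s) ≤ D j * 1 := by
      calc (D j : ℝ) * (k * s) = k * (D j * s) := by ring
        _ ≤ k * ((∏ l : Fin k, if l < j then Fintype.card (I l) else 1 : ℕ) : ℝ) :=
            mul_le_mul_of_nonneg_left h4 (by positivity)
        _ ≤ D j * 1 := by rw [mul_one]; exact h5
    exact le_of_mul_le_mul_left h6 hDpos
  have hA := hkey z hd hz
  have hB := hkey z' hd' hz'
  have hC : |∑ c : Col I V β Y, phiT L x (ty L c) * (z c - z' c)| ≤ 1 / (k + 1) := by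
    have h1 : ∑ c : Col I V β Y, phiT L x (ty L c) * (z c - z' c) =
        ∑ τ : Typ I V β D, phiT L x τ * ((∑ c : Col I V β Y, if ty L c = τ then z c else 0) -
          ∑ c : Col I V β Y, if ty L c = τ then z' c else 0) := by
      have h2 : ∀ τ : Typ I V β D, phiT L x τ * ((∑ c : Col I V β Y, if ty L c = τ then z c else 0) -
          ∑ c : Col I V β Y, if ty L c = τ then z' c else 0) =
          ∑ c : Col I V β Y, if ty L c = τ then phiT L x τ * (z c - z' c) else 0 := by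
        intro τ
        rw [← Finset.sum_sub_distrib, Finset.mul_sum]
        refine Finset.sum_congr rfl (fun c _ => ?_)
        split_ifs <;> simp
      rw [Finset.sum_congr rfl (fun τ _ => h2 τ), Finset.sum_comm]
      refine Finset.sum_congr rfl (fun c _ => ?_)
      rw [Finset.sum_ite_eq]
      simp
    rw [h1]
    have hQ' : (0:ℝ) < Q := by exact_mod_cast hQ0
    have h3 : ∀ τ : Typ I V β D, |phiT L x τ * ((∑ c : Col I V β Y, if ty L c = τ then z c else 0) -
          ∑ c : Col I V β Y, if ty L c = τ then z' c else 0)| ≤ 1 / Q := by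
      intro τ
      rw [abs_mul]
      have h4 : ⌊(Q:ℝ) * ∑ c : Col I V β Y, if ty L c = τ then z c else 0⌋ =
          ⌊(Q:ℝ) * ∑ c : Col I V β Y, if ty L c = τ then z' c else 0⌋ := (hd.h3 τ).trans (hd'.h3 τ).symm
      have h5 := (Int.abs_sub_lt_one_of_floor_eq_floor h4).le
      rw [← mul_sub, abs_mul, abs_of_pos hQ'] at h5
      have h6 : |(∑ c : Col I V β Y, if ty L c = τ then z c else 0) -
          ∑ c : Col I V β Y, if ty L c = τ then z' c else 0| ≤ 1 / Q := by
        rw [le_div_iff₀ hQ', mul_comm]; exact h5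
      calc _ ≤ 1 * (1 / (Q:ℝ)) := mul_le_mul (abs_phiT_le L x τ) h6 (abs_nonneg _) (by norm_num)
        _ = 1 / Q := one_mul _
    refine (Finset.abs_sum_le_sum_abs _ _).trans ?_
    refine (Finset.sum_le_sum (fun τ _ => h3 τ)).trans ?_
    rw [Finset.sum_const, Finset.card_univ, nsmul_eq_mul, mul_one_div, div_le_div_iff₀ hQ' hk', one_mul]
    exact_mod_cast hQ
  have hsum : ∑ c : Col I V β Y, phi Occ x c * (z c - z' c) =
      ∑ c : Col I V β Y, (phi Occ x c - phiT L x (ty L c)) * z c -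
      ∑ c : Col I V β Y, (phi Occ x c - phiT L x (ty L c)) * z' c +
      ∑ c : Col I V β Y, phiT L x (ty L c) * (z c - z' c) := by
    rw [← Finset.sum_sub_distrib, ← Finset.sum_add_distrib]
    exact Finset.sum_congr rfl (fun c _ => by ring)
  rw [hsum]
  rw [abs_le] at hA hB hC ⊢
  have h13 : (13:ℝ) / (k+1) = 6/(k+1) + 6/(k+1) + 1/(k+1) := by ring
  rw [h13]
  constructor <;> linarith [hA.1, hA.2, hB.1, hB.2, hC.1, hC.2]

end

end Crest.Agent.H4Pietsch
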