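import Mathlib
import Crest.Agent.H4PietschUp
import Crest.Agent.H4PietschConv

set_option autoImplicit false
open Pointwise Crest.AnalysisR

namespace Crest.Agent.H4Pietsch
open Finset

theorem card_lst_le {k : ℕ} {I V : Fin k → Type} [∀ l, Fintype (I l)] [∀ l, Fintype (V l)]
    (Occ : ∀ l, I l → V l → Prop) (D : Fin k → ℕ) (m T : ℕ) (hm : 0 < m) (hk : 0 < k) (hT : 0 < T)
    (h6 : ∀ (j : Fin k) (i : I j) (Z : Finset (∀ l, V l)), (∀ W ∈ Z, Occ j i (W j)) →
      k * T * D j * Z.card ≤ Fintype.card (∀ l, V l)) (istar : ∀ j, I j) :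
    Nat.card (Lst Occ D (Fin m) istar) ≤ m ^ (Fintype.card (∀ l, V l) / T) := by
  classical
  set v := Fintype.card (∀ l, V l) with hv
  set w : Fin k → ℕ := fun j => Nat.card {W : ∀ l, V l // Occ j (istar j) (W j)} with hw
  have h1 : Nat.card (Lst Occ D (Fin m) istar) = m ^ (∑ j, D j * w j) := by
    unfold Lst
    rw [Nat.card_pi, ← Finset.prod_pow_eq_pow_sum]
    refine Finset.prod_congr rfl (fun j _ => ?_)
    rw [Nat.card_fun, Nat.card_fun, Nat.card_eq_fintype_card (α := Fin m), Nat.card_eq_fintype_card (α := Fin (D j)),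
      Fintype.card_fin, Fintype.card_fin, ← pow_mul]
  rw [h1]
  refine Nat.pow_le_pow_right hm ?_
  rw [Nat.le_div_iff_mul_le hT]
  have h2 : ∀ j, k * T * D j * w j ≤ v := by
    intro j
    have := h6 j (istar j) (univ.filter (fun W => Occ j (istar j) (W j))) (fun W hW => (Finset.mem_filter.1 hW).2)
    have h3 : w j = (univ.filter (fun W : (∀ l, V l) => Occ j (istar j) (W j))).card := by
      rw [hw]
      simp only
      rw [Nat.card_eq_fintype_card, Fintype.card_subtype]
    rw [h3]; exact this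
  have h4 : k * ((∑ j, D j * w j) * T) ≤ k * v := by
    calc k * ((∑ j, D j * w j) * T) = ∑ j, k * T * D j * w j := by
          rw [Finset.sum_mul, Finset.mul_sum]
          exact Finset.sum_congr rfl (fun j _ => by ring)
      _ ≤ ∑ j : Fin k, v := Finset.sum_le_sum (fun j _ => h2 j)
      _ = k * v := by simp
  exact Nat.le_of_mul_le_mul_left h4 hk

theorem card_dat_le {k : ℕ} {I V : Fin k → Type} [∀ l, Fintype (I l)] [∀ l, Fintype (V l)]
    (Occ : ∀ l, I l → V l → Prop) (β D : Fin k → ℕ) (m T Q : ℕ) (hm : 0 < m) (hk : 0 < k) (hT : 0 < T)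
    (h6 : ∀ (j : Fin k) (i : I j) (Z : Finset (∀ l, V l)), (∀ W ∈ Z, Occ j i (W j)) →
      k * T * D j * Z.card ≤ Fintype.card (∀ l, V l)) :
    Nat.card (Dat Occ β D (Fin m) Q) ≤
      (Fintype.card (∀ l, I l) * Nat.card (Typ I V β D → ↥(Finset.Icc (-(Q:ℤ)) Q))) * m ^ (Fintype.card (∀ l, V l) / T) := by
  classical
  unfold Dat
  rw [Nat.card_sigma]
  calc ∑ istar : (∀ j, I j), Nat.card (Lst Occ D (Fin m) istar × (Typ I V β D → ↥(Finset.Icc (-(Q:ℤ)) Q)))
      ≤ ∑ istar : (∀ j, I j), m ^ (Fintype.card (∀ l, V l) / T) * Nat.card (Typ I V β D → ↥(Finset.Icc (-(Q:ℤ)) Q)) := by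
        refine Finset.sum_le_sum (fun istar _ => ?_)
        rw [Nat.card_prod]
        exact Nat.mul_le_mul_right _ (card_lst_le Occ D m T hm hk hT h6 istar)
    _ = _ := by
        rw [Finset.sum_const, Finset.card_univ, smul_eq_mul]; ring

theorem main (a b : ℝ) (ha : 1 ≤ a) (hb : 1 ≤ b) {k : ℕ} (hk : 0 < k) {I V : Fin k → Type}
    [∀ l, Fintype (I l)] [∀ l, Fintype (V l)] [∀ l, Nonempty (I l)] [∀ l, Nonempty (V l)]
    (Occ : ∀ l, I l → V l → Prop) (β g D : Fin k → ℕ) (N T : ℕ)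
    (hka : 52 * a ≤ k + 1) (hTb : 4 * b ≤ T) (hN2 : 2 * k ≤ N)
    (hN : ∀ l, ∀ S : Finset (I l), g l < S.card → ∀ Z : Finset (V l), (∀ v ∈ Z, ∀ i ∈ S, ¬ Occ l i v) →
      N * Z.card ≤ Fintype.card (V l))
    (hβ : ∀ l, β l < Fintype.card (I l)) (hkβ : ∀ j, k * β j ≤ Fintype.card (I j))
    (hg : ∀ l : Fin k, (∏ l', if l' < l then Fintype.card (I l') else 1) * g l ≤ β l)
    (hD : ∀ j : Fin k, k * (∏ l : Fin k, if l < j then Fintype.card (I l) else 1) ≤ D j)
    (h6 : ∀ (j : Fin k) (i : I j) (Z : Finset (∀ l, V l)), (∀ W ∈ Z, Occ j i (W j)) →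
      k * T * D j * Z.card ≤ Fintype.card (∀ l, V l)) :
    ∃ n : ℕ, 0 < n ∧ ∃ K : Set (EuclideanSpace ℝ (Fin n)),
      Convex ℝ K ∧ IsCompact K ∧ (interior K).Nonempty ∧ (∀ x ∈ K, -x ∈ K) ∧
      ∃ t₁ : Finset (EuclideanSpace ℝ (Fin n)),
        polarSet {x : EuclideanSpace ℝ (Fin n) | ∀ i, |x i| ≤ 1} ⊆ ⋃ y ∈ t₁, (y +ᵥ a⁻¹ • polarSet K) ∧
        ∀ t₂ : Finset (EuclideanSpace ℝ (Fin n)),
          K ⊆ ⋃ x ∈ t₂, (x +ᵥ {z : EuclideanSpace ℝ (Fin n) | ∀ i, |z i| ≤ 1}) →
          b * Real.log t₁.card < Real.log t₂.card := by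
  classical
  set v := Fintype.card (∀ l, V l) with hv
  have hv1 : 1 ≤ v := Fintype.card_pos
  set Q := Fintype.card (Typ I V β D) * (k + 1) + 1 with hQ
  set C₀ := Fintype.card (∀ l, I l) * Nat.card (Typ I V β D → ↥(Finset.Icc (-(Q:ℤ)) Q)) with hC₀
  have hT0 : 0 < T := by
    have : (0:ℝ) < T := by linarith
    exact_mod_cast this
  -- choice of the alphabet size
  obtain ⟨m, hm⟩ := exists_nat_gt (Real.exp (4 * (b * Real.log C₀ + v * Real.log 2)))
  have hm0 : (0:ℝ) < m := (Real.exp_pos _).trans hm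
  have hmpos : 0 < m := by exact_mod_cast hm0
  have hm1 : 1 ≤ m := hmpos
  have hLm : 4 * (b * Real.log C₀ + v * Real.log 2) < Real.log m := by
    rw [Real.lt_log_iff_exp_lt hm0]; exact hm
  have : NeZero m := ⟨hmpos.ne'⟩
  set n := Fintype.card (Col I V β (Fin m)) with hn
  have hnpos : 0 < n := Fintype.card_pos
  let e : Col I V β (Fin m) ≃ Fin n := Fintype.equivFin _
  refine ⟨n, hnpos, ?_⟩
  -- the data
  have hsum : ∀ z : Fin n → ℝ, ∑ c, |z (e c)| = ∑ i, |z i| := fun z => Equiv.sum_comp e (fun i => |z i|)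
  have hne : Nonempty (Dat Occ β D (Fin m) Q) := by
    obtain ⟨d, _⟩ := exists_good (Occ := Occ) (β := β) (D := D) (Y := Fin m) Q (fun _ => 0) (by simp) hkβ
    exact ⟨d⟩
  have : Finite (Dat Occ β D (Fin m) Q) := by
    unfold Dat Lst; infer_instance
  let _ : Fintype (Dat Occ β D (Fin m) Q) := Fintype.ofFinite _
  have hdat : ∃ dat : (Fin n → ℝ) → Dat Occ β D (Fin m) Q, ∀ z, ∑ i, |z i| ≤ 1 → Good Q (fun c => z (e c)) (dat z) := by
    refine ⟨fun z => if h : ∃ d : Dat Occ β D (Fin m) Q, Good Q (fun c => z (e c)) d then h.choose else Classical.arbitrary _, ?_⟩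
    intro z hz
    have h : ∃ d : Dat Occ β D (Fin m) Q, Good Q (fun c => z (e c)) d :=
      exists_good Q (fun c => z (e c)) (by rw [hsum]; exact hz) hkβ
    simp only [dif_pos h]
    exact h.choose_spec
  obtain ⟨dat, hdat⟩ := hdat
  refine reduction (X := (∀ l, V l) → Fin m) (𝒟 := Dat Occ β D (Fin m) Q)
    (fun x i => phi Occ x (e.symm i)) a b ha hb (2 ^ v * m ^ (v / 2)) ?_ dat ?_ ?_
  · intro x s hs
    refine card_half_agree m hmpos x s (fun x' hx' Z hZ => ?_)
    have h1 := agree_of_close hβ Occ N hN hg x x' (fun c => by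
      have := hs x' hx' (e c)
      simpa using this) Z hZ
    have h2 : k * (2 * Z.card) ≤ k * v := by
      calc k * (2 * Z.card) = (2 * k) * Z.card := by ring
        _ ≤ N * Z.card := Nat.mul_le_mul_right _ hN2
        _ ≤ k * v := h1
    exact Nat.le_of_mul_le_mul_left h2 hk
  · intro z z' hz hz' hzz x
    have h1 := good_close Q (fun c => z (e c)) (fun c => z' (e c)) (by rw [hsum]; exact hz)
      (by rw [hsum]; exact hz') hk hD (by omega) (by omega) (dat z) (hdat z hz) (by rw [hzz]; exact hdat z' hz') x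
    have h2 : ∑ i, phi Occ x (e.symm i) * (z i - z' i) = ∑ c, phi Occ x c * (z (e c) - z' (e c)) := by
      rw [← Equiv.sum_comp e]
      simp
    rw [h2]
    refine h1.trans ?_
    have hk' : (0:ℝ) < k + 1 := by positivity
    rw [div_le_div_iff₀ hk' (by positivity)]
    linarith
  · intro N' hN'
    have hX : Fintype.card ((∀ l, V l) → Fin m) = m ^ v := by
      rw [Fintype.card_fun, Fintype.card_fin]
    rw [hX] at hN'
    have hN'pos : 0 < N' := by
      rcases Nat.eq_zero_or_pos N' with h | h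
      · rw [h, mul_zero] at hN'
        exact absurd hN' (not_le.2 (by positivity))
      · exact h
    have hN'0 : (0:ℝ) < N' := by exact_mod_cast hN'pos
    have hlm : 0 ≤ Real.log m := Real.log_nonneg (by exact_mod_cast hm1)
    have h1 : (v:ℝ) * Real.log m ≤ v * Real.log 2 + ((v/2 : ℕ):ℝ) * Real.log m + Real.log N' := by
      have h2 : Real.log ((m:ℝ) ^ v) ≤ Real.log ((2:ℝ) ^ v * (m:ℝ) ^ (v/2) * N') := by
        refine Real.log_le_log (by positivity) ?_
        exact_mod_cast hN'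
      rw [Real.log_pow, Real.log_mul (by positivity) (by positivity), Real.log_mul (by positivity) (by positivity),
        Real.log_pow, Real.log_pow] at h2
      exact h2
    have h2 : ((v/2 : ℕ):ℝ) ≤ v / 2 := by
      have := @Nat.cast_div_le ℝ _ _ _ v 2
      simpa using this
    have h3 : ((v/2 : ℕ):ℝ) * Real.log m ≤ v / 2 * Real.log m := mul_le_mul_of_nonneg_right h2 hlm
    -- the number of data
    have hcard : (Fintype.card (Dat Occ β D (Fin m) Q) : ℝ) ≤ C₀ * (m:ℝ) ^ (v / T) := by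
      have := card_dat_le Occ β D m T Q hmpos hk hT0 h6
      rw [Nat.card_eq_fintype_card] at this
      exact_mod_cast this
    have hcpos : (0:ℝ) < Fintype.card (Dat Occ β D (Fin m) Q) := by exact_mod_cast Fintype.card_pos
    have hC₀pos : (0:ℝ) < C₀ := by
      by_contra hcon
      have : (C₀:ℝ) * (m:ℝ) ^ (v / T) ≤ 0 := mul_nonpos_of_nonpos_of_nonneg (not_lt.1 hcon) (by positivity)
      linarith
    have h4 : Real.log (Fintype.card (Dat Occ β D (Fin m) Q)) ≤ Real.log C₀ + ((v/T : ℕ):ℝ) * Real.log m := by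
      have := Real.log_le_log hcpos hcard
      rwa [Real.log_mul hC₀pos.ne' (by positivity), Real.log_pow] at this
    have h5 : ((v/T : ℕ):ℝ) ≤ v / T := by exact_mod_cast @Nat.cast_div_le ℝ _ _ _ v T
    have hT0' : (0:ℝ) < T := by exact_mod_cast hT0
    have hv0 : (0:ℝ) ≤ v := by positivity
    have h6 : b * ((v/T : ℕ):ℝ) ≤ v / 4 := by
      calc b * ((v/T : ℕ):ℝ) ≤ b * (v / T) := mul_le_mul_of_nonneg_left h5 (by linarith)
        _ = (b * v) / T := by ring
        _ ≤ v / 4 := by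
          rw [div_le_div_iff₀ hT0' (by norm_num)]
          nlinarith
    have h7 : b * Real.log (Fintype.card (Dat Occ β D (Fin m) Q)) ≤ b * Real.log C₀ + v / 4 * Real.log m := by
      calc b * Real.log (Fintype.card (Dat Occ β D (Fin m) Q)) ≤ b * (Real.log C₀ + ((v/T : ℕ):ℝ) * Real.log m) :=
            mul_le_mul_of_nonneg_left h4 (by linarith)
        _ = b * Real.log C₀ + (b * ((v/T : ℕ):ℝ)) * Real.log m := by ring
        _ ≤ b * Real.log C₀ + v / 4 * Real.log m := by
            have := mul_le_mul_of_nonneg_right h6 hlm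
            linarith
    have hv1' : (1:ℝ) ≤ v := by exact_mod_cast hv1
    have h8 : Real.log m ≤ v * Real.log m := le_mul_of_one_le_left hlm hv1'
    linarith

end Crest.Agent.H4Pietsch
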