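import Mathlib
import Crest.Agent.H4PietschMain

set_option autoImplicit false
open Pointwise Crest.AnalysisR

namespace Crest.Agent.H4Pietsch
open Finset

/-- number of keys -/
def PP (k T : ℕ) : ℕ → ℕ
  | 0 => 1
  | l + 1 => PP k T l * (k * PP k T l * (k * k * T * PP k T l * (k + 1)))

def gg (k T l : ℕ) : ℕ := k * k * T * PP k T l * (k + 1)
def GG (k T l : ℕ) : ℕ := k * PP k T l * gg k T l
def rr (k T l : ℕ) : ℕ := k * PP k T l * (k + 1)

theorem PP_eq_prod (k T l : ℕ) : PP k T l = ∏ i ∈ range l, GG k T i := by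
  induction l with
  | zero => rfl
  | succ l ih =>
    rw [Finset.prod_range_succ, ← ih]
    rfl

theorem PP_pos (k T : ℕ) (hk : 0 < k) (hT : 0 < T) (l : ℕ) : 0 < PP k T l := by
  induction l with
  | zero => exact Nat.one_pos
  | succ l ih =>
    show 0 < PP k T l * (k * PP k T l * (k * k * T * PP k T l * (k + 1)))
    positivity

theorem prod_ite_eq {k : ℕ} (G : ℕ → ℕ) (l : Fin k) :
    (∏ l' : Fin k, if l' < l then G l' else 1) = ∏ i ∈ range l, G i := by
  have h1 : (∏ l' : Fin k, if l' < l then G l' else 1) = ∏ l' : Fin k, (fun i : ℕ => if i < (l:ℕ) then G i else 1) l' := by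
    refine Finset.prod_congr rfl (fun l' _ => ?_)
    simp only [Fin.lt_def]
  rw [h1, Fin.prod_univ_eq_prod_range (fun i : ℕ => if i < (l:ℕ) then G i else 1) k, ← Finset.prod_filter]
  congr 1
  ext i
  simp only [mem_filter, mem_range]
  have := l.2
  omega

theorem two_mul_pow_le (E : ℕ) (hE : 1 ≤ E) : 2 * (E - 1) ^ E ≤ E ^ E := by
  obtain ⟨n, rfl⟩ : ∃ n, E = n + 1 := ⟨E - 1, by omega⟩
  rw [Nat.add_sub_cancel]
  rcases Nat.eq_zero_or_pos n with h | h
  · subst h; simp
  · have h1 : (0:ℝ) < n := by exact_mod_cast h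
    have h2 : (1:ℝ) + ((n+1 : ℕ):ℝ) * (1 / n) ≤ (1 + 1 / n) ^ (n+1) :=
      one_add_mul_le_pow (by have : (0:ℝ) < 1 / n := by positivity
                             linarith) (n+1)
    have h3 : (2:ℝ) ≤ (1 + 1 / n) ^ (n+1) := by
      refine le_trans ?_ h2
      push_cast
      have : ((n:ℝ) + 1) * (1 / n) = 1 + 1 / n := by field_simp
      rw [this]
      have : (0:ℝ) < 1 / n := by positivity
      linarith
    have h4 : (2:ℝ) * (n:ℝ) ^ (n+1) ≤ ((n:ℝ)+1) ^ (n+1) := by
      calc (2:ℝ) * (n:ℝ) ^ (n+1) ≤ (1 + 1 / n) ^ (n+1) * (n:ℝ) ^ (n+1) :=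
            mul_le_mul_of_nonneg_right h3 (by positivity)
        _ = ((n:ℝ)+1) ^ (n+1) := by
            rw [← mul_pow]
            congr 1
            field_simp
    exact_mod_cast h4

theorem pow_bound (E g s : ℕ) (hE : 1 ≤ E) : 2 ^ s * (E * g - g) ^ (E * s) ≤ (E * g) ^ (E * s) := by
  have h1 : E * g - g = (E - 1) * g := by rw [Nat.sub_mul, one_mul]
  rw [h1, mul_pow, mul_pow, ← mul_assoc]
  refine Nat.mul_le_mul_right _ ?_
  rw [pow_mul, pow_mul, ← mul_pow]
  exact Nat.pow_le_pow_left (two_mul_pow_le E hE) s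

theorem hN_concrete (G r g E s : ℕ) (hG : G = E * g) (hr : r = E * s) (hE : 1 ≤ E) (S : Finset (Fin G)) (hS : g < S.card)
    (Z : Finset (Fin r → Fin G)) (hZ : ∀ v ∈ Z, ∀ i ∈ S, ¬ ∃ t, v t = i) : 2 ^ s * Z.card ≤ Fintype.card (Fin r → Fin G) := by
  classical
  have h1 : Z ⊆ Fintype.piFinset (fun _ : Fin r => Sᶜ) := by
    intro v hv
    rw [Fintype.mem_piFinset]
    intro t
    rw [Finset.mem_compl]
    intro h
    exact hZ v hv _ h ⟨t, rfl⟩
  have h2 : Z.card ≤ (G - g) ^ r := by
    refine (Finset.card_le_card h1).trans ?_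
    rw [Fintype.card_piFinset]
    simp only [Finset.prod_const, Finset.card_univ, Fintype.card_fin, Finset.card_compl]
    exact Nat.pow_le_pow_left (by omega) r
  calc 2 ^ s * Z.card ≤ 2 ^ s * (G - g) ^ r := Nat.mul_le_mul_left _ h2
    _ ≤ G ^ r := by
      rw [hG, hr]
      exact pow_bound E g s hE
    _ = Fintype.card (Fin r → Fin G) := by simp

/-- few words contain a given block at the level `j` -/
theorem occ_bound {k : ℕ} (G r : ℕ → ℕ) (j : Fin k) (i : Fin (G j))
    (Z : Finset (∀ l : Fin k, Fin (r l) → Fin (G l))) (hZ : ∀ W ∈ Z, ∃ t, W j t = i) :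
    Z.card * G j ≤ r j * Fintype.card (∀ l : Fin k, Fin (r l) → Fin (G l)) := by
  classical
  let Zt : Fin (r j) → Finset (∀ l : Fin k, Fin (r l) → Fin (G l)) := fun t => univ.filter (fun W => W j t = i)
  have h1 : ∀ t, (Zt t).card * G j ≤ Fintype.card (∀ l : Fin k, Fin (r l) → Fin (G l)) := by
    intro t
    have h2 : ((Zt t) ×ˢ (univ : Finset (Fin (G j)))).card ≤ (univ : Finset (∀ l : Fin k, Fin (r l) → Fin (G l))).card := by
      refine Finset.card_le_card_of_injOn (fun p => Function.update p.1 j (Function.update (p.1 j) t p.2)) (fun _ _ => by simp) ?_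
      rintro ⟨W, u⟩ hW ⟨W', u'⟩ hW' h
      have hW := (Finset.mem_filter.1 (Finset.mem_product.1 (Finset.mem_coe.1 hW)).1).2
      have hW' := (Finset.mem_filter.1 (Finset.mem_product.1 (Finset.mem_coe.1 hW')).1).2
      simp only at h hW hW'
      have hu : u = u' := by
        have := congrFun (congrFun h j) t
        simpa using this
      have hWW : W = W' := by
        funext l
        by_cases hl : l = j
        · subst hl
          funext t'
          by_cases ht : t' = t
          · subst ht; rw [hW, hW']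
          · have := congrFun (congrFun h l) t'
            simpa [ht] using this
        · have := congrFun h l
          simpa [hl] using this
      rw [hu, hWW]
    rw [Finset.card_product, Finset.card_univ, Finset.card_univ, Fintype.card_fin] at h2
    exact h2
  have h3 : Z ⊆ univ.biUnion Zt := by
    intro W hW
    obtain ⟨t, ht⟩ := hZ W hW
    exact Finset.mem_biUnion.2 ⟨t, Finset.mem_univ _, Finset.mem_filter.2 ⟨Finset.mem_univ _, ht⟩⟩
  calc Z.card * G j ≤ (∑ t, (Zt t).card) * G j :=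
        Nat.mul_le_mul_right _ ((Finset.card_le_card h3).trans Finset.card_biUnion_le)
    _ = ∑ t, (Zt t).card * G j := by rw [Finset.sum_mul]
    _ ≤ ∑ t : Fin (r j), Fintype.card (∀ l : Fin k, Fin (r l) → Fin (G l)) := Finset.sum_le_sum (fun t _ => h1 t)
    _ = _ := by simp

theorem final (a b : ℝ) (ha : 1 ≤ a) (hb : 1 ≤ b) :
    ∃ n : ℕ, 0 < n ∧ ∃ K : Set (EuclideanSpace ℝ (Fin n)),
      Convex ℝ K ∧ IsCompact K ∧ (interior K).Nonempty ∧ (∀ x ∈ K, -x ∈ K) ∧
      ∃ t₁ : Finset (EuclideanSpace ℝ (Fin n)),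
        polarSet {x : EuclideanSpace ℝ (Fin n) | ∀ i, |x i| ≤ 1} ⊆ ⋃ y ∈ t₁, (y +ᵥ a⁻¹ • polarSet K) ∧
        ∀ t₂ : Finset (EuclideanSpace ℝ (Fin n)),
          K ⊆ ⋃ x ∈ t₂, (x +ᵥ {z : EuclideanSpace ℝ (Fin n) | ∀ i, |z i| ≤ 1}) →
          b * Real.log t₁.card < Real.log t₂.card := by
  set A := ⌈a⌉₊ with hA
  have hA1 : a ≤ A := Nat.le_ceil a
  have hApos : 1 ≤ A := by
    have : (0:ℝ) < A := by linarith
    exact_mod_cast this
  set B := ⌈b⌉₊ with hB
  have hB1 : b ≤ B := Nat.le_ceil b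
  have hBpos : 1 ≤ B := by
    have : (0:ℝ) < B := by linarith
    exact_mod_cast this
  set k := 52 * A with hk
  set T := 4 * B with hT
  have hk2 : 2 ≤ k := by omega
  have hk0 : 0 < k := by omega
  have hT0 : 0 < T := by omega
  have hP := PP_pos k T hk0 hT0
  have hgpos : ∀ l, 0 < gg k T l := by
    intro l
    have := hP l
    unfold gg; positivity
  have hGpos : ∀ l, 0 < GG k T l := by
    intro l
    have := hP l
    have := hgpos l
    unfold GG; positivity
  have hprod : ∀ l : Fin k, (∏ l' : Fin k, if l' < l then Fintype.card (Fin (GG k T l')) else 1) = PP k T l := by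
    intro l
    simp only [Fintype.card_fin]
    rw [prod_ite_eq, PP_eq_prod]
  have : ∀ l : Fin k, Nonempty (Fin (GG k T l)) := fun l => ⟨⟨0, hGpos l⟩⟩
  refine main a b ha hb (k := k) hk0 (I := fun l => Fin (GG k T l)) (V := fun l => Fin (rr k T l) → Fin (GG k T l))
    (fun l i v => ∃ t, v t = i) (fun l => PP k T l * gg k T l) (fun l => gg k T l) (fun l => k * PP k T l)
    (2 ^ (k + 1)) T ?_ ?_ ?_ ?_ ?_ ?_ ?_ ?_ ?_
  · rw [hk]; push_cast; linarith
  · rw [hT]; push_cast; linarith
  · have := (Nat.lt_two_pow_self (n := k)).le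
    rw [pow_succ]; omega
  · intro l S hS Z hZ
    have := hP l
    exact hN_concrete (GG k T l) (rr k T l) (gg k T l) (k * PP k T l) (k + 1) rfl rfl (by
      have : 0 < k * PP k T l := by positivity
      omega) S hS Z hZ
  · intro l
    rw [Fintype.card_fin]
    have h1 := hP l
    have h2 := hgpos l
    show PP k T l * gg k T l < k * PP k T l * gg k T l
    have h3 : 0 < PP k T l * gg k T l := by positivity
    calc PP k T l * gg k T l < 2 * (PP k T l * gg k T l) := by omega
      _ ≤ k * (PP k T l * gg k T l) := Nat.mul_le_mul_right _ hk2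
      _ = k * PP k T l * gg k T l := by ring
  · intro l
    rw [Fintype.card_fin]
    show k * (PP k T l * gg k T l) ≤ k * PP k T l * gg k T l
    exact (mul_assoc k (PP k T l) (gg k T l)).ge
  · intro l
    rw [hprod]
  · intro l
    rw [hprod]
  · intro j i Z hZ
    have h1 := occ_bound (GG k T) (rr k T) j i Z hZ
    refine Nat.le_of_mul_le_mul_right ?_ (hGpos j)
    calc k * T * (k * PP k T j) * Z.card * GG k T j = k * T * (k * PP k T j) * (Z.card * GG k T j) := by ring
      _ ≤ k * T * (k * PP k T j) * (rr k T j * Fintype.card (∀ l : Fin k, Fin (rr k T l) → Fin (GG k T l))) :=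
          Nat.mul_le_mul_left _ h1
      _ = Fintype.card (∀ l : Fin k, Fin (rr k T l) → Fin (GG k T l)) * GG k T j := by
          have : GG k T j = k * T * (k * PP k T j) * rr k T j := by
            unfold GG gg rr; ring
          rw [this]; ring

end Crest.Agent.H4Pietsch
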