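import Crest.Agent.H19SLSpec
import Mathlib

set_option autoImplicit false
set_option maxHeartbeats 400000

open MeasureTheory ProbabilityTheory Crest.StreamLearn Crest.Agent.H19SL
open scoped ENNReal NNReal Topology

namespace Crest.Agent.H4SlLemA

variable {d k m : ℕ}

local instance instProbGk : IsProbabilityMeasure (gk d k) := by
  unfold gk; infer_instance

lemma continuous_meas : Continuous fun p : (Fin k → E d) × E d => meas p.1 p.2 := by
  unfold meas
  fun_prop

/-- the box relation -/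
def box (h : ℝ) (y z : Fin k → ℝ) : Prop := ∀ j, |y j - z j| ≤ h / 2

lemma vol_box (h : ℝ) (z : Fin k → ℝ) :
    volume {y : Fin k → ℝ | box h y z} = ENNReal.ofReal h ^ k := by
  have : {y : Fin k → ℝ | box h y z} = Set.Icc (fun j => z j - h / 2) (fun j => z j + h / 2) := by
    ext y
    simp only [box, Set.mem_ofPred_eq, Set.mem_Icc, Pi.le_def, abs_le]
    constructor
    · intro hy
      exact ⟨fun j => by linarith [(hy j).1], fun j => by linarith [(hy j).2]⟩
    · intro hy j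
      exact ⟨by linarith [hy.1 j], by linarith [hy.2 j]⟩
  rw [this, Real.volume_Icc_pi]
  simp

lemma measSet_box {α : Type*} [MeasurableSpace α] {f g : α → Fin k → ℝ}
    (hf : Measurable f) (hg : Measurable g) (h : ℝ) : MeasurableSet {a | box h (f a) (g a)} := by
  have : {a | box h (f a) (g a)} = ⋂ j, {a | |f a j - g a j| ≤ h / 2} := by
    ext a; simp [box]
  rw [this]
  refine MeasurableSet.iInter fun j => ?_
  refine measurableSet_le ?_ measurable_const
  have h1 : Measurable fun a => f a j := (measurable_pi_apply j).comp hf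
  have h2 : Measurable fun a => g a j := (measurable_pi_apply j).comp hg
  exact (h1.sub h2).norm

/-- the mollified density -/
noncomputable def fh (ν : Measure (E d)) (h : ℝ) (p : (Fin k → E d) × (Fin k → ℝ)) : ℝ≥0∞ :=
  (ENNReal.ofReal h)⁻¹ ^ k * ν {x | box h p.2 (meas p.1 x)}

lemma measurable_fh (ν : Measure (E d)) [IsFiniteMeasure ν] (h : ℝ) :
    Measurable (fh (k := k) ν h) := by
  unfold fh
  refine Measurable.const_mul ?_ _
  have hs : MeasurableSet {q : ((Fin k → E d) × (Fin k → ℝ)) × E d |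
      box h q.1.2 (meas q.1.1 q.2)} := by
    refine measSet_box (measurable_snd.comp measurable_fst) ?_ h
    exact continuous_meas.measurable.comp
      ((measurable_fst.comp measurable_fst).prodMk measurable_snd)
  exact measurable_measure_prodMk_left hs


lemma gk_slab (h : ℝ) (xs : Fin (m + 1) → E d) :
    gk d k {a | ∀ j, ∀ i, |(inner ℝ (a j) (xs i - xs 0) : ℝ)| ≤ h}
      = (stdGaussian (E d) {g | ∀ i, |(inner ℝ g (xs i - xs 0) : ℝ)| ≤ h}) ^ k := by
  have : {a : Fin k → E d | ∀ j, ∀ i, |(inner ℝ (a j) (xs i - xs 0) : ℝ)| ≤ h}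
      = Set.univ.pi fun _ : Fin k => {g : E d | ∀ i, |(inner ℝ g (xs i - xs 0) : ℝ)| ≤ h} := by
    ext a; simp [Set.mem_pi]
  rw [this, gk, Measure.pi_pi]
  simp

lemma box_slab (h : ℝ) (xs : Fin (m + 1) → E d) (a : Fin k → E d) :
    volume {y : Fin k → ℝ | ∀ i, box h y (meas a (xs i))}
      ≤ Set.indicator {a : Fin k → E d | ∀ j, ∀ i, |(inner ℝ (a j) (xs i - xs 0) : ℝ)| ≤ h}
        (fun _ => ENNReal.ofReal h ^ k) a := by
  by_cases ha : ∀ j, ∀ i, |(inner ℝ (a j) (xs i - xs 0) : ℝ)| ≤ h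
  · rw [Set.indicator_of_mem (by exact ha)]
    calc volume {y : Fin k → ℝ | ∀ i, box h y (meas a (xs i))}
        ≤ volume {y : Fin k → ℝ | box h y (meas a (xs 0))} := measure_mono fun y hy => hy 0
      _ = _ := vol_box h _
  · have : {y : Fin k → ℝ | ∀ i, box h y (meas a (xs i))} = ∅ := by
      rw [Set.eq_empty_iff_forall_notMem]
      intro y hy
      apply ha
      intro j i
      have h1 := hy i j
      have h2 := hy 0 j
      simp only [meas] at h1 h2
      rw [inner_sub_right]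
      rw [abs_le] at *
      constructor <;> linarith [h1.1, h1.2, h2.1, h2.2]
    rw [this]; simp

lemma lintegral_fh_pow (hE : Energy) {s : ℕ} {β : ℝ≥0∞} {τ : ℝ} {z : E d} {ν : Measure (E d)}
    [IsFiniteMeasure ν] (hτ : 0 < τ) (hs : k + m ≤ s) (hν : ν (Metric.ball z τ)ᶜ = 0)
    (hF : Frost s β ν) {h : ℝ} (hh : 0 < h) :
    ∫⁻ p, fh (k := k) ν h p ^ (m + 1) ∂((gk d k).prod volume) ≤ Th s k β τ ^ m * ν Set.univ := by
  have hc0 : ENNReal.ofReal h ≠ 0 := by simpa using hh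
  have hct : ENNReal.ofReal h ≠ ⊤ := ENNReal.ofReal_ne_top
  have key : ∀ p : (Fin k → E d) × (Fin k → ℝ), fh (k := k) ν h p ^ (m + 1)
      = ((ENNReal.ofReal h)⁻¹ ^ k) ^ (m + 1) *
        (Measure.pi fun _ : Fin (m + 1) => ν) {xs | ∀ i, box h p.2 (meas p.1 (xs i))} := by
    intro p
    have : {xs : Fin (m + 1) → E d | ∀ i, box h p.2 (meas p.1 (xs i))}
        = Set.univ.pi fun _ : Fin (m + 1) => {x | box h p.2 (meas p.1 x)} := by
      ext xs; simp [Set.mem_pi]
    rw [this, Measure.pi_pi, fh, mul_pow]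
    simp
  simp_rw [key]
  have hmeas : MeasurableSet {q : ((Fin k → E d) × (Fin k → ℝ)) × (Fin (m + 1) → E d) |
      ∀ i, box h q.1.2 (meas q.1.1 (q.2 i))} := by
    have : {q : ((Fin k → E d) × (Fin k → ℝ)) × (Fin (m + 1) → E d) |
      ∀ i, box h q.1.2 (meas q.1.1 (q.2 i))} = ⋂ i, {q | box h q.1.2 (meas q.1.1 (q.2 i))} := by
      ext q; simp
    rw [this]
    refine MeasurableSet.iInter fun i => ?_
    refine measSet_box (measurable_snd.comp measurable_fst) ?_ h
    exact continuous_meas.measurable.comp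
      ((measurable_fst.comp measurable_fst).prodMk ((measurable_pi_apply i).comp measurable_snd))
  rw [lintegral_const_mul' _ _ (ENNReal.pow_ne_top (ENNReal.pow_ne_top (ENNReal.inv_ne_top.2 hc0)))]
  have h1 : ∫⁻ p, (Measure.pi fun _ : Fin (m + 1) => ν)
        {xs | ∀ i, box h p.2 (meas p.1 (xs i))} ∂((gk d k).prod volume)
      = (((gk d k).prod volume).prod (Measure.pi fun _ : Fin (m + 1) => ν))
        {q | ∀ i, box h q.1.2 (meas q.1.1 (q.2 i))} := by
    rw [Measure.prod_apply hmeas]; rfl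
  rw [h1, Measure.prod_apply_symm hmeas]
  have h2 : ∀ xs : Fin (m + 1) → E d,
      ((gk d k).prod volume) ((fun p => (p, xs)) ⁻¹'
        {q : ((Fin k → E d) × (Fin k → ℝ)) × (Fin (m + 1) → E d) |
          ∀ i, box h q.1.2 (meas q.1.1 (q.2 i))})
      ≤ ENNReal.ofReal h ^ k *
        (stdGaussian (E d) {g | ∀ i, |(inner ℝ g (xs i - xs 0) : ℝ)| ≤ h}) ^ k := by
    intro xs
    rw [Measure.prod_apply (measurable_prodMk_right hmeas)]
    calc _ ≤ ∫⁻ a, Set.indicator {a : Fin k → E d | ∀ j, ∀ i,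
          |(inner ℝ (a j) (xs i - xs 0) : ℝ)| ≤ h} (fun _ => ENNReal.ofReal h ^ k) a
          ∂(gk d k) := lintegral_mono fun a => box_slab h xs a
      _ = _ := by
        rw [lintegral_indicator_const, gk_slab]
        have : {a : Fin k → E d | ∀ j, ∀ i, |(inner ℝ (a j) (xs i - xs 0) : ℝ)| ≤ h}
          = ⋂ j, ⋂ i, {a | |(inner ℝ (a j) (xs i - xs 0) : ℝ)| ≤ h} := by ext a; simp
        rw [this]
        refine MeasurableSet.iInter fun j => MeasurableSet.iInter fun i => ?_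
        refine measurableSet_le ?_ measurable_const
        have hcont : Continuous fun a : Fin k → E d => |(inner ℝ (a j) (xs i - xs 0) : ℝ)| := by
          fun_prop
        exact hcont.measurable
  calc ((ENNReal.ofReal h)⁻¹ ^ k) ^ (m + 1) * ∫⁻ xs, ((gk d k).prod volume)
        ((fun p => (p, xs)) ⁻¹'
        {q : ((Fin k → E d) × (Fin k → ℝ)) × (Fin (m + 1) → E d) |
          ∀ i, box h q.1.2 (meas q.1.1 (q.2 i))}) ∂(Measure.pi fun _ : Fin (m + 1) => ν)
      ≤ ((ENNReal.ofReal h)⁻¹ ^ k) ^ (m + 1) * ∫⁻ xs, ENNReal.ofReal h ^ k *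
        (stdGaussian (E d) {g | ∀ i, |(inner ℝ g (xs i - xs 0) : ℝ)| ≤ h}) ^ k
          ∂(Measure.pi fun _ : Fin (m + 1) => ν) := by
        gcongr with xs
        exact h2 xs
    _ = ((ENNReal.ofReal h)⁻¹ ^ k) ^ (m + 1) * (ENNReal.ofReal h ^ k * ∫⁻ xs,
        (stdGaussian (E d) {g | ∀ i, |(inner ℝ g (xs i - xs 0) : ℝ)| ≤ h}) ^ k
          ∂(Measure.pi fun _ : Fin (m + 1) => ν)) := by
        rw [lintegral_const_mul']
        exact ENNReal.pow_ne_top hct
    _ ≤ ((ENNReal.ofReal h)⁻¹ ^ k) ^ (m + 1) * (ENNReal.ofReal h ^ k *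
        ((ENNReal.ofReal h ^ k * Th s k β τ) ^ m * ν Set.univ)) := by
        gcongr
        exact hE d s k m β τ h z ν hτ hh hs hν hF
    _ = Th s k β τ ^ m * ν Set.univ := by
        have h3 : ((ENNReal.ofReal h)⁻¹ ^ k) ^ (m + 1) * (ENNReal.ofReal h ^ k *
          ((ENNReal.ofReal h ^ k * Th s k β τ) ^ m * ν Set.univ))
          = (((ENNReal.ofReal h)⁻¹ ^ k) * (ENNReal.ofReal h ^ k)) ^ (m + 1) *
            (Th s k β τ ^ m * ν Set.univ) := by
          rw [mul_pow, mul_pow]; ring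
        rw [h3, ← mul_pow, ENNReal.inv_mul_cancel hc0 hct]
        simp


lemma holder_pow {α : Type*} [MeasurableSpace α] (μ : Measure α) {R : Set α}
    (hR : MeasurableSet R) {f : α → ℝ≥0∞} (hf : Measurable f) (m : ℕ) :
    (∫⁻ x in R, f x ∂μ) ^ (m + 1) ≤ μ R ^ m * ∫⁻ x, f x ^ (m + 1) ∂μ := by
  rcases Nat.eq_zero_or_pos m with rfl | hm
  · simpa using setLIntegral_le_lintegral R f
  have hm' : (0 : ℝ) < m := by exact_mod_cast hm
  have hpq : (((m : ℝ) + 1) / m).HolderConjugate ((m : ℝ) + 1) := by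
    rw [Real.holderConjugate_iff]
    constructor
    · rw [lt_div_iff₀ hm']; linarith
    · field_simp
  have h1 := ENNReal.lintegral_mul_le_Lp_mul_Lq μ hpq
    (f := R.indicator 1) (g := f) (measurable_one.indicator hR).aemeasurable hf.aemeasurable
  have h2 : ∫⁻ a, ((R.indicator 1 : α → ℝ≥0∞) * f) a ∂μ = ∫⁻ x in R, f x ∂μ := by
    rw [← lintegral_indicator hR]
    refine lintegral_congr fun a => ?_
    by_cases ha : a ∈ R <;> simp [ha]
  have h3 : ∫⁻ a, (R.indicator 1 : α → ℝ≥0∞) a ^ (((m : ℝ) + 1) / m) ∂μ = μ R := by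
    rw [← lintegral_indicator_one hR]
    refine lintegral_congr fun a => ?_
    by_cases ha : a ∈ R
    · simp [ha]
    · simp only [ha, not_false_eq_true, Set.indicator_of_notMem]
      rw [ENNReal.zero_rpow_of_pos]; positivity
  rw [h2, h3] at h1
  have h4 : ∫⁻ a, f a ^ ((m : ℝ) + 1) ∂μ = ∫⁻ x, f x ^ (m + 1) ∂μ := by
    refine lintegral_congr fun a => ?_
    rw [← ENNReal.rpow_natCast]; norm_cast
  rw [h4] at h1
  calc (∫⁻ x in R, f x ∂μ) ^ (m + 1)
      ≤ (μ R ^ (1 / (((m : ℝ) + 1) / m)) *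
          (∫⁻ x, f x ^ (m + 1) ∂μ) ^ (1 / ((m : ℝ) + 1))) ^ (m + 1) := by gcongr
    _ = μ R ^ m * ∫⁻ x, f x ^ (m + 1) ∂μ := by
      rw [mul_pow]
      congr 1
      · rw [← ENNReal.rpow_natCast, ← ENNReal.rpow_mul, ← ENNReal.rpow_natCast]
        congr 1
        push_cast
        field_simp
      · rw [← ENNReal.rpow_natCast, ← ENNReal.rpow_mul]
        push_cast
        rw [one_div, inv_mul_cancel₀ (by positivity), ENNReal.rpow_one]

lemma lintegral_G (ν : Measure (E d)) [IsFiniteMeasure ν] (h : ℝ)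
    {R : Set ((Fin k → E d) × (Fin k → ℝ))} (hR : MeasurableSet R) :
    ∫⁻ p, (ENNReal.ofReal h)⁻¹ ^ k * volume {y | (p.1, y) ∈ R ∧ box h y (meas p.1 p.2)}
      ∂((gk d k).prod ν) = ∫⁻ q in R, fh ν h q ∂((gk d k).prod volume) := by
  have hS : MeasurableSet {t : ((Fin k → E d) × E d) × (Fin k → ℝ) |
      (t.1.1, t.2) ∈ R ∧ box h t.2 (meas t.1.1 t.1.2)} := by
    refine MeasurableSet.inter ?_ ?_
    · exact ((measurable_fst.comp measurable_fst).prodMk measurable_snd) hR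
    · refine measSet_box measurable_snd ?_ h
      exact continuous_meas.measurable.comp measurable_fst
  have hm1 : Measurable fun p : (Fin k → E d) × E d =>
      (ENNReal.ofReal h)⁻¹ ^ k * volume {y | (p.1, y) ∈ R ∧ box h y (meas p.1 p.2)} :=
    (measurable_measure_prodMk_left hS).const_mul _
  rw [lintegral_prod _ hm1.aemeasurable, ← lintegral_indicator hR,
    lintegral_prod _ ((measurable_fh ν h).indicator hR).aemeasurable]
  refine lintegral_congr fun a => ?_
  have hSa : MeasurableSet {t : E d × (Fin k → ℝ) | (a, t.2) ∈ R ∧ box h t.2 (meas a t.1)} := by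
    have : Measurable fun t : E d × (Fin k → ℝ) => (((a, t.1), t.2) :
      ((Fin k → E d) × E d) × (Fin k → ℝ)) :=
      (measurable_const.prodMk measurable_fst).prodMk measurable_snd
    exact this hS
  have e1 : ∫⁻ x, (ENNReal.ofReal h)⁻¹ ^ k * volume {y | (a, y) ∈ R ∧ box h y (meas a x)} ∂ν
      = (ENNReal.ofReal h)⁻¹ ^ k * (ν.prod volume)
        {t : E d × (Fin k → ℝ) | (a, t.2) ∈ R ∧ box h t.2 (meas a t.1)} := by
    rw [Measure.prod_apply hSa]
    exact lintegral_const_mul _ (measurable_measure_prodMk_left hSa)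
  have e2 : ∫⁻ y, R.indicator (fh ν h) (a, y)
      = (ENNReal.ofReal h)⁻¹ ^ k * (ν.prod volume)
        {t : E d × (Fin k → ℝ) | (a, t.2) ∈ R ∧ box h t.2 (meas a t.1)} := by
    rw [Measure.prod_apply_symm hSa, ← lintegral_const_mul _ (measurable_measure_prodMk_right hSa)]
    refine lintegral_congr fun y => ?_
    by_cases hy : (a, y) ∈ R
    · rw [Set.indicator_of_mem hy, fh]
      congr 2
      ext x; simp [hy]
    · rw [Set.indicator_of_notMem hy]
      have : ((fun x => (x, y)) ⁻¹'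
        {t : E d × (Fin k → ℝ) | (a, t.2) ∈ R ∧ box h t.2 (meas a t.1)}) = ∅ := by
        ext x; simp [hy]
      rw [this]; simp
  exact e1.trans e2.symm

lemma indicator_le_liminf {R : Set ((Fin k → E d) × (Fin k → ℝ))} (hR : IsOpen R)
    (p : (Fin k → E d) × E d) :
    Set.indicator {p : (Fin k → E d) × E d | (p.1, meas p.1 p.2) ∈ R} (fun _ => (1 : ℝ≥0∞)) p
      ≤ Filter.liminf (fun n : ℕ => (ENNReal.ofReal (1 / ((n : ℝ) + 1)))⁻¹ ^ k *
        volume {y | (p.1, y) ∈ R ∧ box (1 / ((n : ℝ) + 1)) y (meas p.1 p.2)}) Filter.atTop := by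
  by_cases hp : (p.1, meas p.1 p.2) ∈ R
  swap
  · rw [Set.indicator_of_notMem (by exact hp)]; exact zero_le
  rw [Set.indicator_of_mem (by exact hp)]
  refine Filter.le_liminf_of_le (by isBoundedDefault) ?_
  have hopen : IsOpen {y : Fin k → ℝ | (p.1, y) ∈ R} :=
    hR.preimage (by fun_prop : Continuous fun y : Fin k → ℝ => (p.1, y))
  obtain ⟨δ, hδ, hball⟩ := Metric.isOpen_iff.1 hopen _ hp
  obtain ⟨n₀, hn₀⟩ := exists_nat_gt (1 / δ)
  filter_upwards [Filter.eventually_ge_atTop n₀] with n hn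
  have hn1 : (0 : ℝ) < (n : ℝ) + 1 := by positivity
  have hlt : 1 / ((n : ℝ) + 1) < δ := by
    rw [div_lt_iff₀ hn1]
    have : (n₀ : ℝ) ≤ n := by exact_mod_cast hn
    rw [div_lt_iff₀ hδ] at hn₀
    nlinarith
  have hset : {y | (p.1, y) ∈ R ∧ box (1 / ((n : ℝ) + 1)) y (meas p.1 p.2)}
      = {y | box (1 / ((n : ℝ) + 1)) y (meas p.1 p.2)} := by
    ext y
    simp only [Set.mem_ofPred_eq, and_iff_right_iff_imp]
    intro hy
    apply hball
    rw [Metric.mem_ball]
    refine lt_of_le_of_lt ?_ hlt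
    rw [dist_pi_le_iff (by positivity)]
    intro j
    rw [Real.dist_eq]
    refine (hy j).trans ?_
    have : 0 < 1 / ((n : ℝ) + 1) := by positivity
    linarith
  rw [hset, vol_box, ← mul_pow, ENNReal.inv_mul_cancel]
  · simp
  · simp only [ne_eq, ENNReal.ofReal_eq_zero, not_le]; positivity
  · exact ENNReal.ofReal_ne_top


/-- the image mass -/
noncomputable def Qm (ν : Measure (E d)) (R : Set ((Fin k → E d) × (Fin k → ℝ))) : ℝ≥0∞ :=
  ((gk d k).prod ν) {p | (p.1, meas p.1 p.2) ∈ R}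

lemma measSet_pre {R : Set ((Fin k → E d) × (Fin k → ℝ))} (hR : MeasurableSet R) :
    MeasurableSet {p : (Fin k → E d) × E d | (p.1, meas p.1 p.2) ∈ R} :=
  (measurable_fst.prodMk continuous_meas.measurable) hR

lemma measurable_Gn (ν : Measure (E d)) [IsFiniteMeasure ν] (h : ℝ)
    {R : Set ((Fin k → E d) × (Fin k → ℝ))} (hR : MeasurableSet R) :
    Measurable fun p : (Fin k → E d) × E d =>
      (ENNReal.ofReal h)⁻¹ ^ k * volume {y | (p.1, y) ∈ R ∧ box h y (meas p.1 p.2)} := by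
  have hS : MeasurableSet {t : ((Fin k → E d) × E d) × (Fin k → ℝ) |
      (t.1.1, t.2) ∈ R ∧ box h t.2 (meas t.1.1 t.1.2)} := by
    refine MeasurableSet.inter ?_ ?_
    · exact ((measurable_fst.comp measurable_fst).prodMk measurable_snd) hR
    · refine measSet_box measurable_snd ?_ h
      exact continuous_meas.measurable.comp measurable_fst
  exact (measurable_measure_prodMk_left hS).const_mul _

lemma open_case (hE : Energy) {s : ℕ} {β : ℝ≥0∞} {τ : ℝ} {z : E d} {ν : Measure (E d)}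
    [IsFiniteMeasure ν] (hτ : 0 < τ) (hs : k + m ≤ s) (hν : ν (Metric.ball z τ)ᶜ = 0)
    (hF : Frost s β ν) {R : Set ((Fin k → E d) × (Fin k → ℝ))} (hR : IsOpen R) :
    Qm ν R ^ (m + 1) ≤ (Th s k β τ ^ m * ν Set.univ) * (((gk d k).prod volume) R) ^ m := by
  set B : ℝ≥0∞ := (Th s k β τ ^ m * ν Set.univ) * (((gk d k).prod volume) R) ^ m with hB
  have hm0 : ((m : ℝ) + 1) ≠ 0 := by positivity
  have hX : ∀ n : ℕ, ∫⁻ p, (ENNReal.ofReal (1 / ((n : ℝ) + 1)))⁻¹ ^ k *
        volume {y | (p.1, y) ∈ R ∧ box (1 / ((n : ℝ) + 1)) y (meas p.1 p.2)}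
        ∂((gk d k).prod ν) ≤ B ^ (1 / ((m : ℝ) + 1)) := by
    intro n
    rw [lintegral_G ν _ hR.measurableSet]
    have h1 := holder_pow ((gk d k).prod volume) hR.measurableSet
      (measurable_fh (k := k) ν (1 / ((n : ℝ) + 1))) m
    have h2 := lintegral_fh_pow (k := k) (m := m) hE hτ hs hν hF
      (h := 1 / ((n : ℝ) + 1)) (by positivity)
    have h3 : (∫⁻ q in R, fh ν (1 / ((n : ℝ) + 1)) q ∂((gk d k).prod volume)) ^ (m + 1) ≤ B := by
      refine h1.trans ?_
      rw [hB, mul_comm]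
      gcongr
    calc ∫⁻ q in R, fh ν (1 / ((n : ℝ) + 1)) q ∂((gk d k).prod volume)
        = ((∫⁻ q in R, fh ν (1 / ((n : ℝ) + 1)) q ∂((gk d k).prod volume)) ^ (m + 1))
            ^ (1 / ((m : ℝ) + 1)) := by
          rw [← ENNReal.rpow_natCast, ← ENNReal.rpow_mul]
          push_cast
          rw [mul_one_div, div_self hm0, ENNReal.rpow_one]
      _ ≤ B ^ (1 / ((m : ℝ) + 1)) := by gcongr
  have hQ : Qm ν R ≤ B ^ (1 / ((m : ℝ) + 1)) := by
    calc Qm ν R = ∫⁻ p, Set.indicator {p : (Fin k → E d) × E d | (p.1, meas p.1 p.2) ∈ R}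
          (fun _ => (1 : ℝ≥0∞)) p ∂((gk d k).prod ν) := by
          rw [Qm, lintegral_indicator_const (measSet_pre hR.measurableSet), one_mul]
      _ ≤ ∫⁻ p, Filter.liminf (fun n : ℕ => (ENNReal.ofReal (1 / ((n : ℝ) + 1)))⁻¹ ^ k *
        volume {y | (p.1, y) ∈ R ∧ box (1 / ((n : ℝ) + 1)) y (meas p.1 p.2)}) Filter.atTop
          ∂((gk d k).prod ν) := lintegral_mono fun p => indicator_le_liminf hR p
      _ ≤ Filter.liminf (fun n : ℕ => ∫⁻ p, (ENNReal.ofReal (1 / ((n : ℝ) + 1)))⁻¹ ^ k *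
        volume {y | (p.1, y) ∈ R ∧ box (1 / ((n : ℝ) + 1)) y (meas p.1 p.2)}
          ∂((gk d k).prod ν)) Filter.atTop :=
          lintegral_liminf_le fun n => measurable_Gn ν _ hR.measurableSet
      _ ≤ Filter.liminf (fun _ : ℕ => B ^ (1 / ((m : ℝ) + 1))) Filter.atTop :=
          Filter.liminf_le_liminf (Filter.Eventually.of_forall hX)
      _ = _ := by simp
  calc Qm ν R ^ (m + 1) ≤ (B ^ (1 / ((m : ℝ) + 1))) ^ (m + 1) := by gcongr
    _ = B := by
      rw [← ENNReal.rpow_natCast, ← ENNReal.rpow_mul]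
      push_cast
      rw [one_div, inv_mul_cancel₀ hm0, ENNReal.rpow_one]


lemma general_case (hE : Energy) {s : ℕ} {β : ℝ≥0∞} {τ : ℝ} {z : E d} {ν : Measure (E d)}
    [IsFiniteMeasure ν] (hτ : 0 < τ) (hs : k + m ≤ s) (hν : ν (Metric.ball z τ)ᶜ = 0)
    (hF : Frost s β ν) (hβ : β ≠ ⊤) (R : Set ((Fin k → E d) × (Fin k → ℝ))) :
    Qm ν R ^ (m + 1) ≤ (Th s k β τ ^ m * ν Set.univ) * (((gk d k).prod volume) R) ^ m := by
  have hTh : Th s k β τ ≠ ⊤ := by
    unfold Th
    refine ENNReal.mul_ne_top (ENNReal.mul_ne_top ?_ hβ) (ENNReal.pow_ne_top ENNReal.ofReal_ne_top)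
    exact ENNReal.mul_ne_top (by simp) (ENNReal.pow_ne_top (by simp))
  set C : ℝ≥0∞ := Th s k β τ ^ m * ν Set.univ with hC
  have hCt : C ≠ ⊤ := ENNReal.mul_ne_top (ENNReal.pow_ne_top hTh) (measure_ne_top _ _)
  have hstep : ∀ n : ℕ, Qm ν R ^ (m + 1)
      ≤ C * (((gk d k).prod volume) R + ((n : ℝ≥0∞) + 1)⁻¹) ^ m := by
    intro n
    obtain ⟨U, hRU, hU, hUm⟩ := R.exists_isOpen_le_add ((gk d k).prod volume)
      (ε := ((n : ℝ≥0∞) + 1)⁻¹) (by simp)
    calc Qm ν R ^ (m + 1) ≤ Qm ν U ^ (m + 1) := by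
          gcongr
          exact measure_mono fun p hp => hRU hp
      _ ≤ C * (((gk d k).prod volume) U) ^ m := open_case hE hτ hs hν hF hU
      _ ≤ _ := by gcongr
  have hlim : Filter.Tendsto (fun n : ℕ => C * (((gk d k).prod volume) R +
      ((n : ℝ≥0∞) + 1)⁻¹) ^ m) Filter.atTop (𝓝 (C * (((gk d k).prod volume) R + 0) ^ m)) := by
    refine ENNReal.Tendsto.const_mul ?_ (Or.inr hCt)
    refine ENNReal.Tendsto.pow ?_
    refine Filter.Tendsto.add tendsto_const_nhds ?_
    have h1 : Filter.Tendsto (fun n : ℕ => ((n : ℝ≥0∞))⁻¹) Filter.atTop (𝓝 0) :=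
      ENNReal.tendsto_inv_nat_nhds_zero
    have h2 := h1.comp (Filter.tendsto_add_atTop_nat 1)
    refine h2.congr fun n => ?_
    simp
  rw [add_zero] at hlim
  exact ge_of_tendsto hlim (Filter.Eventually.of_forall hstep)


theorem main (hE : Energy) : LemA := by
  intro d s k m β τ z ν _ hτ hs hν hF hβ R _
  exact general_case hE hτ hs hν hF hβ R

end Crest.Agent.H4SlLemA
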