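import Crest.Agent.H19SLSpec
import Crest.Agent.H19SLCommon
import Mathlib

set_option autoImplicit false
set_option maxHeartbeats 400000

open MeasureTheory ProbabilityTheory Crest.StreamLearn Crest.Agent.H19SL
open scoped ENNReal NNReal Topology Pointwise

namespace Crest.Agent.H4SlRefl

variable {d : ℕ}

/-- action of an isometry on the sphere -/
noncomputable def act (ρ : E d ≃ₗᵢ[ℝ] E d) (s : Sphere d) : Sphere d :=
  ⟨ρ (s : E d), by
    have := s.2
    rw [mem_sphere_zero_iff_norm] at this ⊢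
    rw [LinearIsometryEquiv.norm_map]; exact this⟩

lemma continuous_act (ρ : E d ≃ₗᵢ[ℝ] E d) : Continuous (act ρ) := by
  unfold act
  exact Continuous.subtype_mk (ρ.continuous.comp continuous_subtype_val) _

lemma measure_act (ρ : E d ≃ₗᵢ[ℝ] E d) {G : Set (Sphere d)} (hG : MeasurableSet G) :
    sphereUniform d (act ρ ⁻¹' G) = sphereUniform d G := by
  unfold sphereUniform
  rw [Measure.smul_apply, Measure.smul_apply]
  congr 1
  rw [Measure.toSphere_apply' _ ((continuous_act ρ).measurable hG), Measure.toSphere_apply' _ hG]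
  congr 1
  have h1 : (Set.Ioo (0 : ℝ) 1 • ((↑) '' (act ρ ⁻¹' G)) : Set (E d))
      = ρ ⁻¹' (Set.Ioo (0 : ℝ) 1 • ((↑) '' G)) := by
    ext x
    simp only [Set.mem_smul, Set.mem_preimage, Set.mem_image]
    constructor
    · rintro ⟨t, ht, y, ⟨s, hs, rfl⟩, rfl⟩
      exact ⟨t, ht, ρ s, ⟨act ρ s, hs, rfl⟩, by simp⟩
    · rintro ⟨t, ht, y, ⟨s, hs, rfl⟩, hx⟩
      refine ⟨t, ht, ρ.symm s, ⟨act ρ.symm s, ?_, rfl⟩, ?_⟩
      · show act ρ (act ρ.symm s) ∈ G
        have : act ρ (act ρ.symm s) = s := by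
          apply Subtype.ext; simp [act]
        rw [this]; exact hs
      · apply ρ.injective
        rw [map_smul, ρ.apply_symm_apply, hx]
  rw [h1]
  exact ρ.measurePreserving.measure_preimage_emb ρ.toHomeomorph.measurableEmbedding _

lemma measurePreserving_act (ρ : E d ≃ₗᵢ[ℝ] E d) :
    MeasurePreserving (act ρ) (sphereUniform d) (sphereUniform d) := by
  refine ⟨(continuous_act ρ).measurable, ?_⟩
  ext G hG
  rw [Measure.map_apply (continuous_act ρ).measurable hG, measure_act ρ hG]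

/-- second moment -/
noncomputable def sm (e : E d) : ℝ≥0∞ :=
  ∫⁻ s : Sphere d, ENNReal.ofReal ((inner ℝ e (s : E d)) ^ 2) ∂(sphereUniform d)

lemma sm_act (ρ : E d ≃ₗᵢ[ℝ] E d) (e : E d) : sm (ρ e) = sm e := by
  unfold sm
  rw [← (measurePreserving_act ρ).lintegral_comp (f := fun s : Sphere d =>
    ENNReal.ofReal ((inner ℝ (ρ e) (s : E d)) ^ 2)) (by fun_prop)]
  refine lintegral_congr fun s => ?_
  simp [act, ρ.inner_map_map]

lemma sm_eq {e e' : E d} (he : ‖e‖ = ‖e'‖) : sm e = sm e' := by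
  have h := Submodule.reflection_sub he
  rw [← h, sm_act]

lemma sum_sm {ι : Type*} [Fintype ι] (hd : 1 ≤ d) (b : OrthonormalBasis ι ℝ (E d)) :
    ∑ i, sm (b i) = 1 := by
  unfold sm
  rw [← lintegral_finsetSum _ (by intro i _; fun_prop)]
  have : ∀ s : Sphere d, ∑ i, ENNReal.ofReal ((inner ℝ (b i) (s : E d)) ^ 2) = 1 := by
    intro s
    rw [← ENNReal.ofReal_sum_of_nonneg (fun i _ => by positivity)]
    have h1 := b.sum_sq_norm_inner_right (s : E d)
    simp only [Real.norm_eq_abs, sq_abs] at h1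
    rw [h1]
    have := s.2
    rw [mem_sphere_zero_iff_norm] at this
    rw [this]; simp
  simp_rw [this]
  have := sphereUniform_prob d hd
  simp

lemma sm_unit (hd : 1 ≤ d) {e : E d} (he : ‖e‖ = 1) : sm e = (d : ℝ≥0∞)⁻¹ := by
  have h := sum_sm hd (EuclideanSpace.basisFun (Fin d) ℝ)
  have h2 : ∀ i : Fin d, sm (EuclideanSpace.basisFun (Fin d) ℝ i) = sm e := by
    intro i
    apply sm_eq
    rw [he, (EuclideanSpace.basisFun (Fin d) ℝ).norm_eq_one]
  simp only [h2, Finset.sum_const, Finset.card_univ, Fintype.card_fin, nsmul_eq_mul] at h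
  rw [ENNReal.eq_inv_of_mul_eq_one_left (a := sm e) (b := (d : ℝ≥0∞)) (by rw [mul_comm]; exact h)]


lemma proj_sm (hd : 1 ≤ d) (H : Submodule ℝ (E d)) :
    ∫⁻ s : Sphere d, ENNReal.ofReal (‖H.orthogonalProjectionOnto (s : E d)‖ ^ 2)
      ∂(sphereUniform d) = (Module.finrank ℝ H : ℝ≥0∞) * (d : ℝ≥0∞)⁻¹ := by
  have h1 : ∀ s : Sphere d, ENNReal.ofReal (‖H.orthogonalProjectionOnto (s : E d)‖ ^ 2)
      = ∑ i, ENNReal.ofReal ((inner ℝ ((stdOrthonormalBasis ℝ H i : H) : E d) (s : E d)) ^ 2) := by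
    intro s
    rw [← ENNReal.ofReal_sum_of_nonneg (fun i _ => by positivity)]
    congr 1
    rw [← (stdOrthonormalBasis ℝ H).sum_sq_norm_inner_right]
    refine Finset.sum_congr rfl fun i _ => ?_
    rw [Submodule.inner_orthogonalProjectionOnto_eq_of_mem_left]
    simp
  simp_rw [h1]
  rw [lintegral_finsetSum _ (by intro i _; fun_prop)]
  have h2 : ∀ i, ∫⁻ s : Sphere d, ENNReal.ofReal
      ((inner ℝ ((stdOrthonormalBasis ℝ H i : H) : E d) (s : E d)) ^ 2) ∂(sphereUniform d)
      = (d : ℝ≥0∞)⁻¹ := by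
    intro i
    have hu : ‖((stdOrthonormalBasis ℝ H i : H) : E d)‖ = 1 := by
      exact (stdOrthonormalBasis ℝ H).norm_eq_one i
    exact sm_unit hd hu
  simp_rw [h2]
  simp

lemma bad_set (hd : 1 ≤ d) (H : Submodule ℝ (E d)) (hH : 8 * Module.finrank ℝ H ≤ d) :
    sphereUniform d {s : Sphere d | 3 / 4 ≤ ‖H.orthogonalProjectionOnto (s : E d)‖ ^ 2}
      ≤ ENNReal.ofReal (1 / 6) := by
  have h1 := mul_meas_ge_le_lintegral₀ (μ := sphereUniform d)
    (f := fun s : Sphere d => ENNReal.ofReal (‖H.orthogonalProjectionOnto (s : E d)‖ ^ 2))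
    (by fun_prop) (ENNReal.ofReal (3 / 4))
  rw [proj_sm hd H] at h1
  have h2 : {s : Sphere d | ENNReal.ofReal (3 / 4) ≤
      ENNReal.ofReal (‖H.orthogonalProjectionOnto (s : E d)‖ ^ 2)}
      = {s : Sphere d | 3 / 4 ≤ ‖H.orthogonalProjectionOnto (s : E d)‖ ^ 2} := by
    ext s
    simp only [Set.mem_ofPred_eq]
    rw [ENNReal.ofReal_le_ofReal_iff (by positivity)]
  rw [h2] at h1
  have hd' : (0 : ℝ) < d := by exact_mod_cast hd
  have h3 : (Module.finrank ℝ H : ℝ≥0∞) * (d : ℝ≥0∞)⁻¹ ≤ ENNReal.ofReal (1 / 8) := by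
    rw [← ENNReal.ofReal_natCast, ← ENNReal.ofReal_natCast, ← ENNReal.ofReal_inv_of_pos hd',
      ← ENNReal.ofReal_mul (by positivity)]
    apply ENNReal.ofReal_le_ofReal
    rw [← div_eq_mul_inv, div_le_div_iff₀ hd' (by norm_num)]
    have : (8 * Module.finrank ℝ H : ℝ) ≤ d := by exact_mod_cast hH
    linarith
  have h4 := h1.trans h3
  have h5 : ENNReal.ofReal (1 / 6) = (ENNReal.ofReal (3 / 4))⁻¹ * ENNReal.ofReal (1 / 8) := by
    rw [← ENNReal.ofReal_inv_of_pos (by norm_num), ← ENNReal.ofReal_mul (by norm_num)]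
    norm_num
  rw [h5, mul_comm, ← div_eq_mul_inv]
  rw [ENNReal.le_div_iff_mul_le (Or.inl (by simp)) (Or.inl ENNReal.ofReal_ne_top), mul_comm]
  exact h4

lemma inner_ge {ε : ℝ} (hε : ε ≤ 1 / 10) {u s : E d} (hu : ‖u‖ = 1) (hs : ‖s‖ = 1)
    (h : Real.arccos (inner ℝ u s) ≤ ε) : ‖u - s‖ ≤ 1 / 10 := by
  have h1 : |(inner ℝ u s : ℝ)| ≤ 1 := by
    have := abs_real_inner_le_norm u s
    rw [hu, hs] at this; simpa using this
  rw [abs_le] at h1
  have h2 : Real.cos (1 / 10) ≤ inner ℝ u s := by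
    rw [← Real.cos_arccos h1.1 h1.2]
    apply Real.cos_le_cos_of_nonneg_of_le_pi (Real.arccos_nonneg _) _ (h.trans hε)
    linarith [Real.pi_gt_three]
  have h3 := Real.one_sub_sq_div_two_le_cos (x := 1 / 10)
  have h4 : ‖u - s‖ ^ 2 = 2 - 2 * inner ℝ u s := by
    rw [@norm_sub_sq_real, hu, hs]; ring
  have h5 : ‖u - s‖ ^ 2 ≤ (1 / 10) ^ 2 := by
    rw [h4]; linarith
  exact abs_le_of_sq_le_sq' h5 (by norm_num) |>.2

lemma geom {ε : ℝ} (hε : ε ≤ 1 / 10) {u s : E d} (hu : ‖u‖ = 1) (hs : ‖s‖ = 1)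
    (H : Submodule ℝ (E d)) (h1 : Real.arccos (inner ℝ u s) ≤ ε)
    (h2 : Real.arccos (inner ℝ u (H.reflection s)) ≤ ε) :
    3 / 4 ≤ ‖H.orthogonalProjectionOnto s‖ ^ 2 := by
  have h3 := inner_ge hε hu hs h1
  have h4 := inner_ge hε hu (by rw [LinearIsometryEquiv.norm_map]; exact hs) h2
  have h5 : ‖s - H.reflection s‖ ≤ 1 / 5 := by
    have : s - H.reflection s = (u - H.reflection s) - (u - s) := by abel
    rw [this]
    refine (norm_sub_le _ _).trans ?_
    linarith
  have h6 : s - H.reflection s = (2 : ℝ) • (s - H.starProjection s) := by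
    rw [Submodule.reflection_apply]; module
  rw [h6, norm_smul] at h5
  simp only [Real.norm_ofNat] at h5
  have h7 : ‖s‖ ^ 2 = ‖H.starProjection s‖ ^ 2 + ‖s - H.starProjection s‖ ^ 2 := by
    have := H.norm_sq_eq_add_norm_sq_projection s
    rw [this]
    congr 2
    rw [Submodule.coe_norm]
    congr 1
    simp
  have h8 : ‖H.starProjection s‖ = ‖H.orthogonalProjectionOnto s‖ := rfl
  rw [hs, h8] at h7
  nlinarith [norm_nonneg (s - H.starProjection s)]


lemma run_refl {T M : ℕ} (L : RLearner d T M) (ω : L.Ω) (s : E d) (xs : Fin T → E d)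
    (ρ : E d ≃ₗᵢ[ℝ] E d) (hρ : ∀ t, ρ (xs t) = xs t) :
    L.output ω (ρ s) xs = L.output ω s xs := by
  have h : ∀ t, (inner ℝ (xs t) (ρ s) : ℝ) = inner ℝ (xs t) s := by
    intro t
    conv_lhs => rw [← hρ t]
    exact ρ.inner_map_map _ _
  have hr : L.run ω (ρ s) xs = L.run ω s xs := by
    unfold RLearner.run
    simp only [h]
  unfold RLearner.output
  rw [hr]

theorem main (hM : MeasOut) : Refl := by
  intro d T M ε L hd hT hε
  let : MeasurableSpace L.Ω := L.mΩ
  have := L.prob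
  have := sphereUniform_prob d hd
  have hmeas := hM d T M L
  have hS : MeasurableSet {p : Sphere d × (L.Ω × (Fin T → E d)) |
      Real.arccos (inner ℝ (L.output p.2.1 p.1 p.2.2) (p.1 : E d)) ≤ ε} := by
    refine measurableSet_le ?_ measurable_const
    refine Real.continuous_arccos.measurable.comp ?_
    exact hmeas.inner (measurable_subtype_coe.comp measurable_fst)
  have key : ∀ y : L.Ω × (Fin T → E d),
      sphereUniform d {s : Sphere d | Real.arccos (inner ℝ (L.output y.1 s y.2) (s : E d)) ≤ ε}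
        ≤ ENNReal.ofReal (7 / 12) := by
    rintro ⟨ω, xs⟩
    set H : Submodule ℝ (E d) := Submodule.span ℝ (Set.range xs) with hH
    have hfr : 8 * Module.finrank ℝ H ≤ d := by
      have h1 : Module.finrank ℝ H ≤ T := by
        have h0 := finrank_range_le_card (R := ℝ) xs
        rw [Fintype.card_fin] at h0
        exact h0
      omega
    set G : Set (Sphere d) :=
      {s : Sphere d | Real.arccos (inner ℝ (L.output ω s xs) (s : E d)) ≤ ε} with hG
    have hGm : MeasurableSet G := by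
      have : Measurable fun s : Sphere d => ((s, (ω, xs)) : Sphere d × (L.Ω × (Fin T → E d))) :=
        measurable_id.prodMk measurable_const
      exact this hS
    have hinter : G ∩ act H.reflection ⁻¹' G ⊆
        {s : Sphere d | 3 / 4 ≤ ‖H.orthogonalProjectionOnto (s : E d)‖ ^ 2} := by
      rintro s ⟨h1, h2⟩
      have hs : ‖(s : E d)‖ = 1 := by
        have := s.2
        rwa [mem_sphere_zero_iff_norm] at this
      have hout : L.output ω (H.reflection (s : E d)) xs = L.output ω s xs := by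
        apply run_refl
        intro t
        exact Submodule.reflection_mem_subspace_eq_self (Submodule.subset_span ⟨t, rfl⟩)
      refine geom (u := L.output ω s xs) hε (L.out_unit _ _ _) hs H h1 ?_
      have h3 : Real.arccos (inner ℝ (L.output ω (H.reflection (s : E d)) xs)
        (H.reflection (s : E d))) ≤ ε := h2
      rwa [hout] at h3
    have hsum : sphereUniform d G + sphereUniform d G ≤ 1 + ENNReal.ofReal (1 / 6) := by
      calc sphereUniform d G + sphereUniform d G
          = sphereUniform d G + sphereUniform d (act H.reflection ⁻¹' G) := by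
            rw [measure_act _ hGm]
        _ = sphereUniform d (G ∪ act H.reflection ⁻¹' G)
            + sphereUniform d (G ∩ act H.reflection ⁻¹' G) := by
            rw [measure_union_add_inter _ ((continuous_act _).measurable hGm)]
        _ ≤ 1 + ENNReal.ofReal (1 / 6) := by
            refine add_le_add prob_le_one ?_
            exact (measure_mono hinter).trans (bad_set hd H hfr)
    have h7 : (1 : ℝ≥0∞) + ENNReal.ofReal (1 / 6) = 2 * ENNReal.ofReal (7 / 12) := by
      rw [← ENNReal.ofReal_one, ← ENNReal.ofReal_add (by norm_num) (by norm_num)]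
      rw [show (2 : ℝ≥0∞) = ENNReal.ofReal 2 by simp, ← ENNReal.ofReal_mul (by norm_num)]
      norm_num
    rw [h7, ← two_mul] at hsum
    exact (ENNReal.mul_le_mul_iff_right (by simp) (by simp)).1 hsum
  have hfin : ((sphereUniform d).prod (L.ρ.prod
      (Measure.pi fun _ : Fin T => ProbabilityTheory.stdGaussian (E d))))
    {p : Sphere d × (L.Ω × (Fin T → E d)) |
      Real.arccos (inner ℝ (L.output p.2.1 p.1 p.2.2) (p.1 : E d)) ≤ ε}
      ≤ ENNReal.ofReal (7 / 12) := by
    rw [Measure.prod_apply_symm hS]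
    calc _ ≤ ∫⁻ _, ENNReal.ofReal (7 / 12) ∂(L.ρ.prod
      (Measure.pi fun _ : Fin T => ProbabilityTheory.stdGaussian (E d))) :=
          lintegral_mono fun y => key y
      _ = _ := by simp
  unfold RLearner.successProb
  rw [Measure.real]
  exact ENNReal.toReal_le_of_le_ofReal (by norm_num) hfin

end Crest.Agent.H4SlRefl
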