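import Crest.Agent.H19SLSpec

set_option autoImplicit false

open MeasureTheory ProbabilityTheory Crest.StreamLearn Crest.Agent.H19SL
open scoped ENNReal NNReal

namespace Crest.Agent.H5SlVol

open InnerProductSpace in
/-- orthonormal basis adapted to the rows -/
lemma exists_basis {d k : ℕ} (hk : k ≤ d) (a : Fin k → E d) :
    ∃ e : OrthonormalBasis (Fin d) ℝ (E d), ∀ (i : Fin k) (j : Fin d), i.1 < j.1 →
      inner ℝ (e j) (a i) = (0 : ℝ) := by
  let f : Fin d → E d := fun i => if h : i.1 < k then a ⟨i.1, h⟩ else 0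
  have h : Module.finrank ℝ (E d) = Fintype.card (Fin d) := by simp
  refine ⟨gramSchmidtOrthonormalBasis h f, fun i j hij => ?_⟩
  have hlt : (Fin.castLE hk i) < j := by
    simp only [Fin.lt_def, Fin.val_castLE]; exact hij
  have := gramSchmidtOrthonormalBasis_inv_triangular h f hlt
  have hf : f (Fin.castLE hk i) = a i := by
    simp [f]
  rwa [hf] at this

/-- The volume of the image of a ball under `k ≤ d` rows. -/
lemma volume_image_le {d k : ℕ} (hk : k ≤ d) (a : Fin k → E d) (z : E d) (τ : ℝ) :
    volume ((meas a) '' (Metric.closedBall z τ)) ≤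
      (∏ i, ENNReal.ofReal ‖a i‖) *
        volume (Metric.closedBall (0 : EuclideanSpace ℝ (Fin k)) τ) := by
  obtain ⟨e, he⟩ := exists_basis hk a
  let M : Matrix (Fin k) (Fin k) ℝ := fun i j => inner ℝ (a i) (e (Fin.castLE hk j))
  let P : E d → (Fin k → ℝ) := fun x j => inner ℝ (e (Fin.castLE hk j)) x
  have hmeas : ∀ x, meas a x = Matrix.toLin' M (P x) := by
    intro x
    ext i
    simp only [meas, Matrix.toLin'_apply, Matrix.mulVec, dotProduct]
    rw [← e.sum_inner_mul_inner (a i) x]
    symm
    apply Fintype.sum_of_injective (Fin.castLE hk) (Fin.castLE_injective hk)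
    · intro j hj
      have : i.1 < j.1 := by
        by_contra hcon
        apply hj
        have : j.1 < k := by have := i.2; omega
        exact ⟨⟨j.1, this⟩, by ext; simp⟩
      have h0 := he i j this
      rw [real_inner_comm] at h0
      rw [h0, zero_mul]
    · intro j
      rfl
  let S : Set (Fin k → ℝ) := (WithLp.toLp 2) ⁻¹' Metric.closedBall (WithLp.toLp 2 (P z)) τ
  have hsub : (meas a) '' (Metric.closedBall z τ) ⊆ (Matrix.toLin' M) '' S := by
    rintro _ ⟨x, hx, rfl⟩
    refine ⟨P x, ?_, (hmeas x).symm⟩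
    simp only [S, Set.mem_preimage, Metric.mem_closedBall]
    rw [Metric.mem_closedBall, dist_eq_norm] at hx
    rw [dist_eq_norm, EuclideanSpace.norm_eq]
    refine le_trans ?_ hx
    apply Real.sqrt_le_iff.2 ⟨norm_nonneg _, ?_⟩
    have hon : Orthonormal ℝ (fun j : Fin k => e (Fin.castLE hk j)) :=
      e.orthonormal.comp _ (Fin.castLE_injective hk)
    have := hon.sum_inner_products_le (x - z) (s := Finset.univ)
    refine le_trans (le_of_eq ?_) this
    apply Finset.sum_congr rfl
    intro j _
    simp [P, inner_sub_right]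
  refine le_trans (measure_mono hsub) ?_
  rw [Measure.addHaar_image_linearMap]
  have hS : volume S = volume (Metric.closedBall (0 : EuclideanSpace ℝ (Fin k)) τ) := by
    rw [(PiLp.volume_preserving_toLp (Fin k)).measure_preimage
      measurableSet_closedBall.nullMeasurableSet]
    exact Measure.addHaar_closedBall_center _ _ _
  rw [hS]
  gcongr
  rw [LinearMap.det_toLin', Matrix.det_of_isLowerTriangular]
  · rw [Finset.abs_prod, ENNReal.ofReal_prod_of_nonneg (fun i _ => abs_nonneg _)]
    apply Finset.prod_le_prod'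
    intro i _
    apply ENNReal.ofReal_le_ofReal
    have := abs_real_inner_le_norm (a i) (e (Fin.castLE hk i))
    simpa using this
  · intro i j hij
    have : i < j := by simpa using hij
    show inner ℝ (a i) (e (Fin.castLE hk j)) = (0:ℝ)
    rw [real_inner_comm]
    exact he i _ (by simpa using this)

/-- first absolute moment of the norm of a standard Gaussian -/
lemma lintegral_norm_le {d : ℕ} (hd : 1 ≤ d) :
    ∫⁻ g, ENNReal.ofReal ‖g‖ ∂(stdGaussian (E d)) ≤ ENNReal.ofReal (Real.sqrt d) := by
  have hsd : 0 < Real.sqrt d := Real.sqrt_pos.2 (by exact_mod_cast hd)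
  have hint : ∀ i : Fin d, Integrable (fun g : E d => (g i)^2) (stdGaussian (E d)) := by
    intro i
    have h := (IsGaussian.memLp_dual (stdGaussian (E d)) (EuclideanSpace.proj (𝕜 := ℝ) i) 2
      (by norm_num))
    exact h.integrable_sq
  have hval : ∀ i : Fin d, ∫ g : E d, (g i)^2 ∂(stdGaussian (E d)) = 1 := by
    intro i
    have h := variance_dual_stdGaussian (E := E d) (EuclideanSpace.proj (𝕜 := ℝ) i)
    rw [variance_of_integral_eq_zero] at h
    · refine Eq.trans h ?_
      rw [(EuclideanSpace.basisFun (Fin d) ℝ).norm_dual]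
      simp [EuclideanSpace.basisFun_apply]
    · fun_prop
    · exact integral_strongDual_stdGaussian _
  have hnorm : ∀ g : E d, ‖g‖^2 = ∑ i, (g i)^2 := fun g => EuclideanSpace.real_norm_sq_eq g
  calc ∫⁻ g, ENNReal.ofReal ‖g‖ ∂(stdGaussian (E d))
      ≤ ∫⁻ g, ENNReal.ofReal (((∑ i, (g i)^2) / Real.sqrt d + Real.sqrt d) / 2)
          ∂(stdGaussian (E d)) := by
        apply lintegral_mono
        intro g
        apply ENNReal.ofReal_le_ofReal
        rw [← hnorm]
        rw [le_div_iff₀ (by norm_num), div_add' _ _ _ hsd.ne', le_div_iff₀ hsd]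
        nlinarith [sq_nonneg (‖g‖ - Real.sqrt d)]
    _ = ENNReal.ofReal (∫ g : E d, (((∑ i, (g i)^2) / Real.sqrt d + Real.sqrt d) / 2)
          ∂(stdGaussian (E d))) := by
        rw [ofReal_integral_eq_lintegral_ofReal]
        · apply Integrable.div_const
          apply Integrable.add
          · exact (integrable_finsetSum _ fun i _ => hint i).div_const _
          · exact integrable_const _
        · exact Filter.Eventually.of_forall fun g => by
            show (0:ℝ) ≤ _
            positivity
    _ = ENNReal.ofReal (Real.sqrt d) := by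
        congr 1
        rw [integral_div, integral_add, integral_div, integral_finsetSum _ fun i _ => hint i]
        · simp only [hval, integral_const, Finset.sum_const, Finset.card_univ, Fintype.card_fin,
            nsmul_eq_mul, mul_one, smul_eq_mul, probReal_univ, one_mul]
          have h2 : (d:ℝ) / Real.sqrt d = Real.sqrt d := Real.div_sqrt
          rw [h2]; ring
        · exact (integrable_finsetSum _ fun i _ => hint i).div_const _
        · exact integrable_const _

lemma lintegral_prod_norm {d k : ℕ} (hd : 1 ≤ d) :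
    ∫⁻ a : Fin k → E d, ∏ i, ENNReal.ofReal ‖a i‖ ∂(gk d k) ≤ ENNReal.ofReal (Real.sqrt d) ^ k := by
  have hind : iIndepFun (fun (i : Fin k) (ω : Fin k → E d) => ENNReal.ofReal ‖ω i‖)
      (Measure.pi fun _ : Fin k => stdGaussian (E d)) :=
    iIndepFun_pi (X := fun (_ : Fin k) (x : E d) => ENNReal.ofReal ‖x‖)
      (fun i => by fun_prop)
  have := lintegral_prod_eq_prod_lintegral_of_indepFun Finset.univ _ hind
    (fun i => by fun_prop)
  unfold gk
  rw [this]
  calc ∏ i : Fin k, ∫⁻ ω : Fin k → E d, ENNReal.ofReal ‖ω i‖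
        ∂(Measure.pi fun _ : Fin k => stdGaussian (E d))
      ≤ ∏ i : Fin k, ENNReal.ofReal (Real.sqrt d) := by
        apply Finset.prod_le_prod'
        intro i _
        have h1 := (measurePreserving_eval (fun _ : Fin k => stdGaussian (E d)) i).lintegral_comp
          (f := fun x : E d => ENNReal.ofReal ‖x‖) (by fun_prop)
        rw [h1]
        exact lintegral_norm_le hd
    _ = _ := by simp

theorem main : Crest.Agent.H19SL.Vol := by
  refine ⟨300, by norm_num, ?_⟩
  intro d κ hκ h16 h32 z τ hτ
  have hkd : 2 * κ ≤ d := by omega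
  have hd : 1 ≤ d := by omega
  have hne : Nonempty (Fin (2 * κ)) := ⟨⟨0, by omega⟩⟩
  have hV : volume (Metric.closedBall (0 : EuclideanSpace ℝ (Fin (2 * κ))) τ) =
      ENNReal.ofReal τ ^ (2 * κ) * ENNReal.ofReal (Real.pi ^ κ / (κ.factorial : ℕ)) := by
    have := InnerProductSpace.volume_closedBall_of_dim_even
      (E := EuclideanSpace ℝ (Fin (2 * κ))) (k := κ) (by simp) 0 τ
    simpa using this
  calc ∫⁻ a, volume ((meas a) '' (Metric.closedBall z τ)) ∂(gk d (2 * κ))
      ≤ ∫⁻ a, (∏ i, ENNReal.ofReal ‖a i‖) *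
        volume (Metric.closedBall (0 : EuclideanSpace ℝ (Fin (2 * κ))) τ) ∂(gk d (2 * κ)) :=
        lintegral_mono fun a => volume_image_le hkd a z τ
    _ = (∫⁻ a : Fin (2 * κ) → E d, (∏ i, ENNReal.ofReal ‖a i‖) ∂(gk d (2 * κ))) *
        volume (Metric.closedBall (0 : EuclideanSpace ℝ (Fin (2 * κ))) τ) := by
        rw [lintegral_mul_const]
        fun_prop
    _ ≤ ENNReal.ofReal (Real.sqrt d) ^ (2 * κ) *
        (ENNReal.ofReal τ ^ (2 * κ) * ENNReal.ofReal (Real.pi ^ κ / (κ.factorial : ℕ))) := by
        rw [hV]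
        gcongr
        exact lintegral_prod_norm hd
    _ = ENNReal.ofReal ((d * Real.pi) ^ κ / (κ.factorial : ℕ)) * ENNReal.ofReal τ ^ (2 * κ) := by
        rw [← ENNReal.ofReal_pow (Real.sqrt_nonneg _), pow_mul, Real.sq_sqrt (by positivity),
          mul_left_comm, ← ENNReal.ofReal_mul (by positivity), mul_comm, mul_pow, mul_div_assoc]
    _ ≤ ((300 : ℕ) : ℝ≥0∞) ^ d * ENNReal.ofReal τ ^ (2 * κ) := by
        gcongr
        have h1 : ((d * Real.pi) ^ κ / (κ.factorial : ℕ) : ℝ) ≤ 300 ^ κ := by
          have hd32 : (d : ℝ) ≤ 32 * κ := by exact_mod_cast h32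
          have h2 : (d * Real.pi : ℝ) ^ κ ≤ (32 * Real.pi) ^ κ * (κ : ℝ) ^ κ := by
            rw [← mul_pow]
            apply pow_le_pow_left₀ (by positivity)
            nlinarith [Real.pi_pos]
          have h3 : (κ : ℝ) ^ κ / (κ.factorial : ℕ) ≤ Real.exp κ :=
            Real.pow_div_factorial_le_exp (κ : ℝ) (by positivity) κ
          calc ((d * Real.pi) ^ κ / (κ.factorial : ℕ) : ℝ)
              ≤ ((32 * Real.pi) ^ κ * (κ : ℝ) ^ κ) / (κ.factorial : ℕ) := by gcongr
            _ = (32 * Real.pi) ^ κ * ((κ : ℝ) ^ κ / (κ.factorial : ℕ)) := by ring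
            _ ≤ (32 * Real.pi) ^ κ * Real.exp κ := by gcongr
            _ = (32 * Real.pi * Real.exp 1) ^ κ := by
                rw [mul_pow (32 * Real.pi), ← Real.exp_nat_mul, mul_one]
            _ ≤ 300 ^ κ := by
                gcongr
                have hp := Real.pi_lt_d2
                have he := Real.exp_one_lt_d9
                nlinarith [Real.pi_pos, Real.exp_pos 1]
        calc ENNReal.ofReal ((d * Real.pi) ^ κ / (κ.factorial : ℕ)) ≤ ENNReal.ofReal (300 ^ κ) :=
              ENNReal.ofReal_le_ofReal h1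
          _ = ((300 : ℕ) : ℝ≥0∞) ^ κ := by
              rw [ENNReal.ofReal_pow (by norm_num)]; norm_num
          _ ≤ ((300 : ℕ) : ℝ≥0∞) ^ d := by
              apply pow_le_pow_right₀
              · norm_num
              · omega

end Crest.Agent.H5SlVol
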