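import Mathlib
import Crest.Agent.H25Fan

/-! rid 50 (S0069): derived facts about a hypothetical 10-cover of the projective 3-space. -/

set_option autoImplicit false

namespace Crest.H6BR

abbrev E4 := EuclideanSpace ℝ (Fin 4)

/-- a hypothetical cover of the unit sphere by ten closed symmetric sets without orthogonal pairs -/
structure Cov where
  A : Fin 10 → Set E4
  closed : ∀ c, IsClosed (A c)
  cover : ∀ x : E4, ‖x‖ = 1 → ∃ c, x ∈ A c
  symm : ∀ c, ∀ x, x ∈ A c → -x ∈ A c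
  noorth : ∀ c x y, x ∈ A c → y ∈ A c → ‖x‖ = 1 → ‖y‖ = 1 → inner ℝ x y ≠ 0

namespace Cov

variable (C : Cov)

/-- some line has all the colours of `G` -/
def occ (G : Finset (Fin 10)) : Prop := ∃ z : E4, ‖z‖ = 1 ∧ ∀ i ∈ G, z ∈ C.A i

lemma occ_mono {G H : Finset (Fin 10)} (h : C.occ G) (hH : H ⊆ G) : C.occ H := by
  obtain ⟨z, hz, h'⟩ := h
  exact ⟨z, hz, fun i hi => h' i (hH hi)⟩

lemma symm_iff (c : Fin 10) (x : E4) : -x ∈ C.A c ↔ x ∈ C.A c :=
  ⟨fun h => by simpa using C.symm c _ h, C.symm c x⟩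

open Classical in
/-- an auxiliary choice -/
noncomputable def pick (s : Set (Fin 10)) : Fin 10 := if h : s.Nonempty then h.some else 0

lemma pick_mem {s : Set (Fin 10)} (h : s.Nonempty) : pick s ∈ s := by
  unfold pick; rw [dif_pos h]; exact h.some_mem

/-- colour of a vector -/
noncomputable def col (v : E4) : Fin 10 := pick {c | v ∈ C.A c}

lemma col_neg (v : E4) : C.col (-v) = C.col v := by
  unfold col; congr 1; ext c; exact C.symm_iff c v

lemma col_mem {v : E4} (hv : ‖v‖ = 1) : v ∈ C.A (C.col v) := by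
  obtain ⟨c, hc⟩ := C.cover v hv
  exact pick_mem (s := {c | v ∈ C.A c}) ⟨c, hc⟩

/-- compact sets: the colour classes on the sphere -/
def B (i : Fin 10) : Set E4 := C.A i ∩ Metric.sphere 0 1

lemma B_compact (i : Fin 10) : IsCompact (C.B i) :=
  (isCompact_sphere (0 : E4) 1).inter_left (C.closed i)

lemma mem_B {i : Fin 10} {x : E4} : x ∈ C.B i ↔ x ∈ C.A i ∧ ‖x‖ = 1 := by
  simp [B]

lemma exists_eps : ∃ ε > 0, ∀ (i : Fin 10) (u v : E4), u ∈ C.A i → v ∈ C.A i → ‖u‖ = 1 →
    ‖v‖ = 1 → ε ≤ |inner ℝ u v| := by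
  have hK : IsCompact (⋃ i, (C.B i ×ˢ C.B i)) :=
    isCompact_iUnion fun i => (C.B_compact i).prod (C.B_compact i)
  obtain ⟨ε, hε, h⟩ := hK.exists_forall_le' (f := fun p : E4 × E4 => |inner ℝ p.1 p.2|) (a := 0)
    (by fun_prop) (by
      rintro ⟨u, v⟩ hp
      simp only [Set.mem_iUnion, Set.mem_prod, mem_B] at hp
      obtain ⟨i, ⟨h1, h2⟩, h3, h4⟩ := hp
      exact abs_pos.2 (C.noorth i u v h1 h3 h2 h4))
  refine ⟨ε, hε, fun i u v hu hv hu1 hv1 => h (u, v) ?_⟩
  simp only [Set.mem_iUnion, Set.mem_prod, mem_B]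
  exact ⟨i, ⟨hu, hu1⟩, hv, hv1⟩

lemma exists_delta : ∃ δ > 0, ∀ (G : Finset (Fin 10)) (p : E4), ‖p‖ = 1 →
    (∀ i ∈ G, ∃ q, ‖q‖ = 1 ∧ q ∈ C.A i ∧ dist p q ≤ δ) → C.occ G := by
  classical
  apply Crest.H25Fan.fin_unif (fun (G : Finset (Fin 10)) δ => ∀ (p : E4), ‖p‖ = 1 →
    (∀ i ∈ G, ∃ q, ‖q‖ = 1 ∧ q ∈ C.A i ∧ dist p q ≤ δ) → C.occ G)
  · intro G
    by_cases hG : C.occ G
    · exact ⟨1, one_pos, fun _ _ _ => hG⟩
    by_cases hne : ∀ i ∈ G, (C.B i).Nonempty
    · obtain ⟨m, hm, h⟩ := (isCompact_sphere (0 : E4) 1).exists_forall_le'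
        (f := fun z => ∑ i ∈ G, Metric.infDist z (C.B i)) (a := 0)
        (by
          apply Continuous.continuousOn
          exact continuous_finsetSum _ fun i _ => Metric.continuous_infDist_pt _) (by
          intro z hz
          rcases (Finset.sum_nonneg fun i _ => (Metric.infDist_nonneg :
            0 ≤ Metric.infDist z (C.B i))).lt_or_eq with h0 | h0
          · exact h0
          · exfalso
            apply hG
            refine ⟨z, by simpa using hz, fun i hi => ?_⟩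
            have h1 := (Finset.sum_eq_zero_iff_of_nonneg
              (fun i _ => (Metric.infDist_nonneg : 0 ≤ Metric.infDist z (C.B i)))).1 h0.symm i hi
            have h2 := ((C.B_compact i).isClosed.mem_iff_infDist_zero (hne i hi)).2 h1
            exact ((C.mem_B).1 h2).1)
      refine ⟨m / 11, by positivity, fun p hp hq => ?_⟩
      exfalso
      have h1 := h p (by simpa using hp)
      have h2 : ∑ i ∈ G, Metric.infDist p (C.B i) ≤ ∑ i ∈ G, m / 11 := by
        apply Finset.sum_le_sum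
        intro i hi
        obtain ⟨q, hq1, hq2, hq3⟩ := hq i hi
        exact (Metric.infDist_le_dist_of_mem (C.mem_B.2 ⟨hq2, hq1⟩)).trans hq3
      have h3 : G.card ≤ 10 := by simpa using Finset.card_le_univ G
      have h4 : (G.card : ℝ) ≤ 10 := by exact_mod_cast h3
      rw [Finset.sum_const, nsmul_eq_mul] at h2
      nlinarith
    · push Not at hne
      obtain ⟨i, hi, hi2⟩ := hne
      refine ⟨1, one_pos, fun p _ hq => ?_⟩
      obtain ⟨q, hq1, hq2, _⟩ := hq i hi
      exfalso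
      have : q ∈ C.B i := C.mem_B.2 ⟨hq2, hq1⟩
      rw [hi2] at this
      exact this
  · intro G δ δ' hδ h p hp hq
    refine h p hp fun i hi => ?_
    obtain ⟨q, h1, h2, h3⟩ := hq i hi
    exact ⟨q, h1, h2, h3.trans hδ⟩

/-- orthogonal complements of few vectors -/
lemma exists_orth (s : Finset E4) (k : ℕ) (hs : s.card + k ≤ 4) :
    ∃ b : Fin k → E4, Orthonormal ℝ b ∧ ∀ j, ∀ z ∈ s, inner ℝ z (b j) = 0 := by
  classical
  set W := (Submodule.span ℝ (s : Set E4))ᗮ with hW
  have h1 : Module.finrank ℝ (Submodule.span ℝ (s : Set E4)) ≤ s.card :=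
    finrank_span_finset_le_card s
  have h2 := Submodule.finrank_add_finrank_orthogonal (Submodule.span ℝ (s : Set E4))
  have h3 : Module.finrank ℝ E4 = 4 := by simp
  have h4 : k ≤ Module.finrank ℝ W := by rw [hW]; omega
  let b0 := stdOrthonormalBasis ℝ W
  refine ⟨fun j => (b0 (Fin.castLE h4 j) : E4), ?_, ?_⟩
  · have h5 := b0.orthonormal
    have h6 : Orthonormal ℝ (fun j => (b0 j : E4)) := by
      have := h5.comp_linearIsometry W.subtypeₗᵢ
      simpa [Function.comp_def] using this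
    exact h6.comp _ (Fin.castLE_injective h4)
  · intro j z hz
    have h7 : (b0 (Fin.castLE h4 j) : E4) ∈ W := (b0 _).2
    exact (Submodule.mem_orthogonal _ _).1 h7 z (Submodule.subset_span hz)

/-- three faces do not cover all colours -/
lemma occ_three {G1 G2 G3 : Finset (Fin 10)} (h1 : C.occ G1) (h2 : C.occ G2) (h3 : C.occ G3) :
    G1 ∪ G2 ∪ G3 ≠ Finset.univ := by
  classical
  intro hcov
  obtain ⟨z1, hz1, k1⟩ := h1
  obtain ⟨z2, hz2, k2⟩ := h2
  obtain ⟨z3, hz3, k3⟩ := h3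
  obtain ⟨b, hb, ho⟩ := exists_orth ({z1, z2, z3} : Finset E4) 1
    (by have := Finset.card_le_three (a := z1) (b := z2) (c := z3); omega)
  have hb0 : ‖b 0‖ = 1 := hb.norm_eq_one 0
  have hc := C.col_mem hb0
  have hm : C.col (b 0) ∈ G1 ∪ G2 ∪ G3 := by rw [hcov]; exact Finset.mem_univ _
  rcases Finset.mem_union.1 hm with hm | hm
  · rcases Finset.mem_union.1 hm with hm | hm
    · exact C.noorth _ _ _ (k1 _ hm) hc hz1 hb0 (ho 0 z1 (by simp))
    · exact C.noorth _ _ _ (k2 _ hm) hc hz2 hb0 (ho 0 z2 (by simp))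
  · exact C.noorth _ _ _ (k3 _ hm) hc hz3 hb0 (ho 0 z3 (by simp))

/-- two faces have at most seven colours together -/
lemma occ_two {G H : Finset (Fin 10)} (hG : C.occ G) (hH : C.occ H) : (G ∪ H).card ≤ 7 := by
  classical
  by_contra hcard
  push Not at hcard
  have hc2 : (G ∪ H)ᶜ.card ≤ 2 := by
    rw [Finset.card_compl]; simp only [Fintype.card_fin]; omega
  obtain ⟨p, q, hpq⟩ : ∃ p q, (G ∪ H)ᶜ ⊆ {p, q} := by
    rcases Nat.lt_or_ge (G ∪ H)ᶜ.card 1 with h | h
    · refine ⟨0, 0, ?_⟩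
      rw [Finset.card_eq_zero.1 (show (G ∪ H)ᶜ.card = 0 by omega)]; simp
    rcases Nat.lt_or_ge (G ∪ H)ᶜ.card 2 with h' | h'
    · obtain ⟨a, ha⟩ := Finset.card_eq_one.1 (show (G ∪ H)ᶜ.card = 1 by omega)
      exact ⟨a, a, by rw [ha]; simp⟩
    · obtain ⟨a, b, _, hab⟩ := Finset.card_eq_two.1 (show (G ∪ H)ᶜ.card = 2 by omega)
      exact ⟨a, b, by rw [hab]⟩
  obtain ⟨x, hx, kx⟩ := hG
  obtain ⟨y, hy, ky⟩ := hH
  obtain ⟨b, hb, ho⟩ := exists_orth ({x, y} : Finset E4) 2
    (by have := Finset.card_le_two (a := x) (b := y); omega)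
  set g : ℝ → E4 := fun t => Real.cos t • b 0 + Real.sin t • b 1 with hg
  have hb0 : ‖b 0‖ = 1 := hb.norm_eq_one 0
  have hb1 : ‖b 1‖ = 1 := hb.norm_eq_one 1
  have hb01 : inner ℝ (b 0) (b 1) = 0 := hb.inner_eq_zero (by decide)
  have hb10 : inner ℝ (b 1) (b 0) = 0 := hb.inner_eq_zero (by decide)
  have hgi : ∀ t s, inner ℝ (g t) (g s) = Real.cos t * Real.cos s + Real.sin t * Real.sin s := by
    intro t s
    simp only [hg, inner_add_left, inner_add_right, inner_smul_left, inner_smul_right, hb01, hb10,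
      real_inner_self_eq_norm_sq, hb0, hb1]
    simp
    ring
  have hgn : ∀ t, ‖g t‖ = 1 := by
    intro t
    have h1 : ‖g t‖ ^ 2 = 1 := by
      rw [← real_inner_self_eq_norm_sq, hgi]
      nlinarith [Real.sin_sq_add_cos_sq t]
    have h2 : 0 ≤ ‖g t‖ := norm_nonneg _
    nlinarith
  have hgo : ∀ t, inner ℝ (g t) (g (t + Real.pi / 2)) = 0 := by
    intro t
    rw [hgi, Real.cos_add_pi_div_two, Real.sin_add_pi_div_two]; ring
  have hgx : ∀ t, ∀ z, z ∈ ({x, y} : Finset E4) → inner ℝ z (g t) = 0 := by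
    intro t z hz
    simp only [hg, inner_add_right, inner_smul_right, ho 0 z hz, ho 1 z hz]
    simp
  have hnot : ∀ t, ∀ i ∈ G ∪ H, g t ∉ C.A i := by
    intro t i hi hmem
    rcases Finset.mem_union.1 hi with hi | hi
    · exact C.noorth i x (g t) (kx i hi) hmem hx (hgn t) (hgx t x (by simp))
    · exact C.noorth i y (g t) (ky i hi) hmem hy (hgn t) (hgx t y (by simp))
  have hcolt : ∀ t, g t ∈ C.A p ∨ g t ∈ C.A q := by
    intro t
    obtain ⟨i, hi⟩ := C.cover _ (hgn t)
    have h1 : i ∈ (G ∪ H)ᶜ := by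
      rw [Finset.mem_compl]; exact fun h => hnot t i h hi
    have h2 := hpq h1
    simp only [Finset.mem_insert, Finset.mem_singleton] at h2
    rcases h2 with h2 | h2
    · exact Or.inl (h2 ▸ hi)
    · exact Or.inr (h2 ▸ hi)
  have hsh : ∀ (i : Fin 10) (t : ℝ), g t ∈ C.A i → g (t + Real.pi / 2) ∉ C.A i := by
    intro i t h1 h2
    exact C.noorth i _ _ h1 h2 (hgn _) (hgn _) (hgo t)
  have hcont : Continuous g := by fun_prop
  have hTp : IsClosed {t | g t ∈ C.A p} := (C.closed p).preimage hcont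
  have hTq : IsClosed {t | g t ∈ C.A q} := (C.closed q).preimage hcont
  have hcompl : {t | g t ∈ C.A p}ᶜ = {t | g t ∈ C.A q} := by
    ext t
    simp only [Set.mem_compl_iff, Set.mem_ofPred_eq]
    constructor
    · intro h
      rcases hcolt t with h1 | h1
      · exact absurd h1 h
      · exact h1
    · intro h1 h2
      rcases hcolt (t + Real.pi / 2) with h3 | h3
      · exact hsh p t h2 h3
      · exact hsh q t h1 h3
  have hclopen : IsClopen {t | g t ∈ C.A p} := ⟨hTp, by rw [← isClosed_compl_iff, hcompl]; exact hTq⟩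
  rcases isClopen_iff.1 hclopen with h | h
  · have h1 : ∀ t, g t ∈ C.A q := by
      intro t
      rcases hcolt t with h2 | h2
      · exact absurd (show t ∈ {t | g t ∈ C.A p} from h2) (by rw [h]; simp)
      · exact h2
    exact hsh q 0 (h1 0) (h1 _)
  · have h1 : ∀ t, g t ∈ C.A p := by
      intro t
      have : t ∈ {t | g t ∈ C.A p} := by rw [h]; trivial
      exact this
    exact hsh p 0 (h1 0) (h1 _)

/-- four colours meet somewhere -/
lemma exists_occ4 : ∃ S : Finset (Fin 10), S.card = 4 ∧ C.occ S := by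
  classical
  -- base points
  let z : Fin 10 → E4 := fun i => if h : (C.B i).Nonempty then h.some else 0
  have hz : ∀ i x, x ∈ C.A i → ‖x‖ = 1 → z i ∈ C.A i ∧ ‖z i‖ = 1 := by
    intro i x hx hx1
    have h : (C.B i).Nonempty := ⟨x, C.mem_B.2 ⟨hx, hx1⟩⟩
    have h2 : z i ∈ C.B i := by
      simp only [z, dif_pos h]; exact h.some_mem
    exact C.mem_B.1 h2
  obtain ⟨ι, y, hι, hy, h⟩ := Crest.H25Fan.fan (n := 3) (m := 10)
    (fun i => {x | x ∈ C.A i ∧ 0 ≤ inner ℝ (z i) x})
    (fun i => (C.closed i).inter (isClosed_le (continuous_const (y := (0 : ℝ)))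
      (continuous_const.inner continuous_id : Continuous fun x : E4 => inner ℝ (z i) x)))
    (by
      rintro i x hx ⟨h1, h2⟩ ⟨h3, h4⟩
      obtain ⟨k1, k2⟩ := hz i x h1 hx
      apply C.noorth i _ _ k1 h1 k2 hx
      simp only [inner_neg_right] at h4
      linarith)
    (by
      intro x hx
      obtain ⟨i, hi⟩ := C.cover x hx
      refine ⟨i, ?_⟩
      rcases le_total 0 (inner ℝ (z i) x) with h1 | h1
      · exact Or.inl ⟨hi, h1⟩
      · exact Or.inr ⟨C.symm i x hi, by simpa using h1⟩)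
  refine ⟨Finset.univ.map ⟨ι, hι.injective⟩, by simp, y, hy, ?_⟩
  intro i hi
  simp only [Finset.mem_map, Finset.mem_univ, true_and, Function.Embedding.coeFn_mk] at hi
  obtain ⟨j, rfl⟩ := hi
  have := h j
  split_ifs at this with hp
  · exact this.1
  · exact (C.symm_iff _ _).1 this.1

end Cov

end Crest.H6BR
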