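import Mathlib
import Crest.Agent.H6BRFace

/-! rid 50 (S0069): the facts about `x^⊥` deduced from a tower of small simplices and the parity
statement. -/

set_option autoImplicit false

namespace Crest.H6BR

/-! ### finite combinatorics of colours -/

lemma aux_edges (a b c p q : Fin 10) (h : p ≠ q) :
    (if ({b, c} : Finset (Fin 10)) = {p, q} then (1 : ZMod 2) else 0)
      + (if ({a, c} : Finset (Fin 10)) = {p, q} then (1 : ZMod 2) else 0)
      + (if ({a, b} : Finset (Fin 10)) = {p, q} then (1 : ZMod 2) else 0)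
      = if ({p, q} : Finset (Fin 10)) ⊆ {a, b, c} ∧ ({a, b, c} : Finset (Fin 10)).card = 3
          then 1 else 0 := by
  have h2 : (1 : ZMod 2) + 1 = 0 := by decide
  have key : ∀ x y : Fin 10, (({x, y} : Finset (Fin 10)) = {p, q}) ↔
      ((x = p ∧ y = q) ∨ (x = q ∧ y = p)) := fun x y => by
    rw [← Finset.coe_inj]; push_cast; exact Set.pair_eq_pair_iff
  have hc : ({a, b, c} : Finset (Fin 10)).card = 3 ↔ (a ≠ b ∧ a ≠ c ∧ b ≠ c) := by
    constructor
    · intro hh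
      refine ⟨?_, ?_, ?_⟩ <;> rintro rfl
      · have := Finset.card_le_two (a := a) (b := c)
        simp at hh; omega
      · have := Finset.card_le_two (a := a) (b := b)
        have e : ({a, b, a} : Finset (Fin 10)) = {a, b} := by ext; simp; tauto
        rw [e] at hh; omega
      · have := Finset.card_le_two (a := a) (b := b)
        simp at hh; omega
    · rintro ⟨h1, h2, h3⟩
      exact Finset.card_eq_three.2 ⟨a, b, c, h1, h2, h3, rfl⟩
  have hs : ({p, q} : Finset (Fin 10)) ⊆ {a, b, c} ↔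
      ((p = a ∨ p = b ∨ p = c) ∧ (q = a ∨ q = b ∨ q = c)) := by
    simp [Finset.insert_subset_iff]
  simp only [key, hc, hs]
  by_cases h1 : a = p
  · subst h1
    by_cases h3 : b = q
    · subst h3
      by_cases h5 : c = a
      · subst h5; simp [h, h.symm, h2]
      · by_cases h6 : c = b
        · subst h6; simp [h, h.symm, h2]
        · simp [h, h.symm, h5, h6, Ne.symm h5, Ne.symm h6]
    · by_cases h4 : b = a
      · subst h4
        by_cases h5 : c = q
        · subst h5; simp [h, h.symm, h2]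
        · simp [h, h.symm, h5, Ne.symm h5]
      · by_cases h5 : c = q
        · subst h5; simp [h, h.symm, h3, h4, Ne.symm h3, Ne.symm h4]
        · by_cases h6 : c = a
          · subst h6; simp [h, h.symm, h3, h4, h5, Ne.symm h3, Ne.symm h4, Ne.symm h5]
          · simp [h, h.symm, h3, h4, h5, h6, Ne.symm h3, Ne.symm h4, Ne.symm h5, Ne.symm h6]
  · by_cases h1' : a = q
    · subst h1'
      by_cases h3 : b = p
      · subst h3
        by_cases h5 : c = a
        · subst h5; simp [h, h.symm, h2]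
        · by_cases h6 : c = b
          · subst h6; simp [h, h.symm, h2]
          · simp [h, h.symm, h5, h6, Ne.symm h5, Ne.symm h6]
      · by_cases h4 : b = a
        · subst h4
          by_cases h5 : c = p
          · subst h5; simp [h, h.symm, h2]
          · simp [h, h.symm, h5, Ne.symm h5]
        · by_cases h5 : c = p
          · subst h5; simp [h, h.symm, h3, h4, Ne.symm h3, Ne.symm h4]
          · by_cases h6 : c = a
            · subst h6; simp [h, h.symm, h3, h4, h5, Ne.symm h3, Ne.symm h4, Ne.symm h5]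
            · simp [h, h.symm, h3, h4, h5, h6, Ne.symm h3, Ne.symm h4, Ne.symm h5, Ne.symm h6]
    · have e1 : ¬ ((p = a ∨ p = b ∨ p = c) ∧ (q = a ∨ q = b ∨ q = c)) ∨
          ((b = p ∧ c = q) ∨ (b = q ∧ c = p)) := by
        have := Ne.symm h1; have := Ne.symm h1'
        by_cases g1 : p = b <;> by_cases g2 : p = c <;> by_cases g3 : q = b <;>
          by_cases g4 : q = c <;> simp_all
      rcases e1 with e1 | e1
      · have e2 : ¬ ((b = p ∧ c = q) ∨ (b = q ∧ c = p)) := by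
          rintro (⟨rfl, rfl⟩ | ⟨rfl, rfl⟩) <;> simp at e1
        simp [h1, h1', e1, e2]
      · rcases e1 with ⟨rfl, rfl⟩ | ⟨rfl, rfl⟩
        · simp [h1, h1', h, h.symm]
        · simp [h1, h1', h, h.symm]

lemma not_three {x y : Fin 10} {R : Finset (Fin 10)} (hR : R.card = 3) :
    ({x, y} : Finset (Fin 10)) ≠ R := by
  intro h
  have := Finset.card_le_two (a := x) (b := y)
  rw [h] at this; omega

lemma aux_faces (a b c d : Fin 10) (R : Finset (Fin 10)) (hR : R.card = 3)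
    (ha : a ∈ R) (hb : b ∈ R) (hc : c ∈ R) (hd : d ∈ R) :
    (if ({b, c, d} : Finset (Fin 10)) = R then (1 : ZMod 2) else 0)
      + (if ({a, c, d} : Finset (Fin 10)) = R then (1 : ZMod 2) else 0)
      + (if ({a, b, d} : Finset (Fin 10)) = R then (1 : ZMod 2) else 0)
      + (if ({a, b, c} : Finset (Fin 10)) = R then (1 : ZMod 2) else 0) = 0 := by
  have h2 : ∀ z : ZMod 2, z + z = 0 := by decide
  have hpig : a = b ∨ a = c ∨ a = d ∨ b = c ∨ b = d ∨ c = d := by
    by_contra hcon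
    push Not at hcon
    obtain ⟨h1, h2, h3, h4, h5, h6⟩ := hcon
    have : ({a, b, c, d} : Finset (Fin 10)).card = 4 := by
      rw [Finset.card_insert_of_notMem, Finset.card_insert_of_notMem,
        Finset.card_insert_of_notMem, Finset.card_singleton]
      · simpa using h6
      · simp [h4, h5]
      · simp [h1, h2, h3]
    have hsub : ({a, b, c, d} : Finset (Fin 10)) ⊆ R := by
      intro x hx
      simp only [Finset.mem_insert, Finset.mem_singleton] at hx
      rcases hx with rfl | rfl | rfl | rfl <;> assumption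
    have := Finset.card_le_card hsub
    omega
  have n3 : ∀ x y : Fin 10, ({x, y} : Finset (Fin 10)) ≠ R := fun x y => not_three hR
  rcases hpig with rfl | rfl | rfl | rfl | rfl | rfl
  · have e1 : ({a, a, d} : Finset (Fin 10)) = {a, d} := by ext; simp
    have e2 : ({a, a, c} : Finset (Fin 10)) = {a, c} := by ext; simp
    rw [e1, e2, if_neg (n3 a d), if_neg (n3 a c), h2]; simp
  · have e1 : ({a, a, d} : Finset (Fin 10)) = {a, d} := by ext; simp
    have e2 : ({a, b, a} : Finset (Fin 10)) = {a, b} := by ext; simp; tauto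
    have e3 : ({b, a, d} : Finset (Fin 10)) = {a, b, d} := by ext; simp; tauto
    rw [e1, e2, e3, if_neg (n3 a d), if_neg (n3 a b), add_zero, add_zero, h2]
  · have e1 : ({a, c, a} : Finset (Fin 10)) = {a, c} := by ext; simp; tauto
    have e2 : ({a, b, a} : Finset (Fin 10)) = {a, b} := by ext; simp; tauto
    have e3 : ({b, c, a} : Finset (Fin 10)) = {a, b, c} := by ext; simp; tauto
    rw [e1, e2, e3, if_neg (n3 a c), if_neg (n3 a b), add_zero, add_zero, h2]
  · have e1 : ({b, b, d} : Finset (Fin 10)) = {b, d} := by ext; simp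
    have e2 : ({a, b, b} : Finset (Fin 10)) = {a, b} := by ext; simp
    rw [e1, e2, if_neg (n3 b d), if_neg (n3 a b), add_zero, zero_add, h2]
  · have e1 : ({b, c, b} : Finset (Fin 10)) = {b, c} := by ext; simp; tauto
    have e2 : ({a, b, b} : Finset (Fin 10)) = {a, b} := by ext; simp
    have e3 : ({a, c, b} : Finset (Fin 10)) = {a, b, c} := by ext; simp; tauto
    rw [e1, e2, e3, if_neg (n3 b c), if_neg (n3 a b), add_zero, zero_add, h2]
  · have e1 : ({b, c, c} : Finset (Fin 10)) = {b, c} := by ext; simp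
    have e2 : ({a, c, c} : Finset (Fin 10)) = {a, c} := by ext; simp
    rw [e1, e2, if_neg (n3 b c), if_neg (n3 a c), zero_add, zero_add, h2]

namespace Cov

variable (C : Cov)

/-- the number mod 2 of triangles with colour set `R` -/
noncomputable def num (L2 : List (E4 × E4 × E4)) (R : Finset (Fin 10)) : ZMod 2 :=
  (L2.map fun t =>
    if ({C.col t.1, C.col t.2.1, C.col t.2.2} : Finset (Fin 10)) = R then 1 else 0).sum

/-- local data at a point `x` having the colours `S` -/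
structure Loc (S : Finset (Fin 10)) (x : E4) (δ : ℝ) where
  L1 : List (E4 × E4)
  L2 : List (E4 × E4 × E4)
  L3 : List (E4 × E4 × E4 × E4)
  n2 : ∀ t ∈ L2, ‖t.1‖ = 1 ∧ ‖t.2.1‖ = 1 ∧ ‖t.2.2‖ = 1
  x2 : ∀ t ∈ L2, inner ℝ x t.1 = 0 ∧ inner ℝ x t.2.1 = 0 ∧ inner ℝ x t.2.2 = 0
  d2 : ∀ t ∈ L2, dist t.1 t.2.1 ≤ δ ∧ dist t.1 t.2.2 ≤ δ ∧ dist t.2.1 t.2.2 ≤ δ
  n3 : ∀ t ∈ L3, ‖t.1‖ = 1 ∧ ‖t.2.1‖ = 1 ∧ ‖t.2.2.1‖ = 1 ∧ ‖t.2.2.2‖ = 1
  d3 : ∀ t ∈ L3, dist t.1 t.2.1 ≤ δ ∧ dist t.1 t.2.2.1 ≤ δ ∧ dist t.1 t.2.2.2 ≤ δ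
  h2 : ∀ f : E4 → E4 → ZMod 2,
    (L2.map fun t => f t.2.1 t.2.2 + f t.1 t.2.2 + f t.1 t.2.1).sum
      = (L1.map fun p => f p.1 p.2 + f (-p.1) (-p.2)).sum
  h3 : ∀ f : E4 → E4 → E4 → ZMod 2,
    (L3.map fun t => f t.2.1 t.2.2.1 t.2.2.2 + f t.1 t.2.2.1 t.2.2.2 + f t.1 t.2.1 t.2.2.2
      + f t.1 t.2.1 t.2.2.1).sum
      = (L2.map fun t => f t.1 t.2.1 t.2.2 + f (-t.1) (-t.2.1) (-t.2.2)).sum
  par : ∀ R ⊆ Sᶜ, R.card = 3 → C.num L2 R + C.num L2 (Sᶜ \ R) = 1


lemma exists_of_sum_ne {α : Type*} (l : List α) (f : α → ZMod 2) (h : (l.map f).sum ≠ 0) :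
    ∃ t ∈ l, f t ≠ 0 := by
  by_contra hcon
  push Not at hcon
  apply h
  apply List.sum_eq_zero
  intro y hy
  obtain ⟨t, ht, rfl⟩ := List.mem_map.1 hy
  exact hcon t ht

lemma sum_swap {α : Type*} (l : List α) (D : Finset (Fin 10)) (g : Fin 10 → α → ZMod 2) :
    ∑ d ∈ D, (l.map (g d)).sum = (l.map fun t => ∑ d ∈ D, g d t).sum := by
  induction l with
  | nil => simp
  | cons a l ih => simp [Finset.sum_add_distrib, ih]

variable {C}
variable {S : Finset (Fin 10)} {x : E4} {ε δ : ℝ}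

lemma col_notMem (hx : ‖x‖ = 1) (hxS : ∀ i ∈ S, x ∈ C.A i) {v : E4} (hv : ‖v‖ = 1)
    (h : inner ℝ x v = 0) : C.col v ∈ Sᶜ := by
  rw [Finset.mem_compl]
  exact fun h' => C.noorth (C.col v) x v (hxS _ h') (C.col_mem hv) hx hv h

lemma occ_of_num (hδ : ∀ (G : Finset (Fin 10)) (p : E4), ‖p‖ = 1 →
      (∀ i ∈ G, ∃ q, ‖q‖ = 1 ∧ q ∈ C.A i ∧ dist p q ≤ δ) → C.occ G)
    (L : C.Loc S x δ) (hδ0 : 0 ≤ δ) {R : Finset (Fin 10)} (h : C.num L.L2 R ≠ 0) :
    C.occ R := by
  obtain ⟨t, ht, h1⟩ := exists_of_sum_ne _ _ h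
  have h2 : ({C.col t.1, C.col t.2.1, C.col t.2.2} : Finset (Fin 10)) = R := by
    by_contra hne; rw [if_neg hne] at h1; exact h1 rfl
  obtain ⟨k1, k2, k3⟩ := L.n2 t ht
  obtain ⟨e1, e2, _⟩ := L.d2 t ht
  apply hδ R t.1 k1
  intro i hi
  rw [← h2] at hi
  simp only [Finset.mem_insert, Finset.mem_singleton] at hi
  rcases hi with rfl | rfl | rfl
  · exact ⟨t.1, k1, C.col_mem k1, by simpa using hδ0⟩
  · exact ⟨t.2.1, k2, C.col_mem k2, e1⟩
  · exact ⟨t.2.2, k3, C.col_mem k3, e2⟩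

lemma sum_insert_eq {P U D : Finset (Fin 10)} (hP : P.card = 2) (hU : U \ P ⊆ D)
    (hD : Disjoint D P) :
    (∑ d ∈ D, if U = insert d P then (1 : ZMod 2) else 0)
      = if P ⊆ U ∧ U.card = 3 then 1 else 0 := by
  by_cases h : P ⊆ U ∧ U.card = 3
  · rw [if_pos h]
    obtain ⟨h1, h2⟩ := h
    have h3 : (U \ P).card = 1 := by
      rw [Finset.card_sdiff_of_subset h1]; omega
    obtain ⟨d0, hd0⟩ := Finset.card_eq_one.1 h3
    have hUe : U = insert d0 P := by
      rw [← Finset.sdiff_union_of_subset h1, hd0]; rfl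
    have hd0' : d0 ∈ U \ P := by rw [hd0]; simp
    have hd0D : d0 ∈ D := hU hd0'
    rw [Finset.sum_eq_single_of_mem d0 hd0D]
    · rw [if_pos hUe]
    · intro d hd hne
      rw [if_neg]
      intro hUd
      have : d ∈ insert d0 P := by rw [← hUe, hUd]; simp
      rcases Finset.mem_insert.1 this with h4 | h4
      · exact hne h4
      · exact Finset.disjoint_left.1 hD hd h4
  · rw [if_neg h]
    apply Finset.sum_eq_zero
    intro d hd
    rw [if_neg]
    intro hUd
    apply h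
    refine ⟨by rw [hUd]; exact Finset.subset_insert _ _, ?_⟩
    rw [hUd, Finset.card_insert_of_notMem (Finset.disjoint_left.1 hD hd), hP]

lemma num_even (hx : ‖x‖ = 1) (hxS : ∀ i ∈ S, x ∈ C.A i) (L : C.Loc S x δ)
    {P : Finset (Fin 10)} (hPS : P ⊆ Sᶜ) (hP : P.card = 2) :
    ∑ d ∈ Sᶜ \ P, C.num L.L2 (insert d P) = 0 := by
  obtain ⟨p, q, hpq, rfl⟩ := Finset.card_eq_two.1 hP
  unfold num
  rw [sum_swap]
  have h1 := L.h2 (fun a b => if ({C.col a, C.col b} : Finset (Fin 10)) = {p, q} then 1 else 0)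
  have h2 : (L.L1.map fun t : E4 × E4 =>
      (if ({C.col t.1, C.col t.2} : Finset (Fin 10)) = {p, q} then (1 : ZMod 2) else 0)
      + (if ({C.col (-t.1), C.col (-t.2)} : Finset (Fin 10)) = {p, q} then 1 else 0)).sum = 0 := by
    apply List.sum_eq_zero
    intro y hy
    obtain ⟨t, ht, rfl⟩ := List.mem_map.1 hy
    rw [C.col_neg, C.col_neg]
    have : ∀ z : ZMod 2, z + z = 0 := by decide
    exact this _
  rw [h2] at h1
  refine Eq.trans ?_ h1
  congr 1
  apply List.map_congr_left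
  intro t ht
  obtain ⟨k1, k2, k3⟩ := L.n2 t ht
  obtain ⟨o1, o2, o3⟩ := L.x2 t ht
  rw [aux_edges _ _ _ _ _ hpq]
  apply sum_insert_eq hP
  · intro d hd
    rw [Finset.mem_sdiff] at hd ⊢
    refine ⟨?_, hd.2⟩
    have := hd.1
    simp only [Finset.mem_insert, Finset.mem_singleton] at this
    rcases this with rfl | rfl | rfl
    · exact col_notMem hx hxS k1 o1
    · exact col_notMem hx hxS k2 o2
    · exact col_notMem hx hxS k3 o3
  · exact Finset.sdiff_disjoint

lemma zmod2_cases (z : ZMod 2) : z = 0 ∨ z = 1 := by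
  revert z; decide

/-- the facts about a point `x` with the four colours `S` -/
lemma num_iff (hS : S.card = 4) (hx : ‖x‖ = 1) (hxS : ∀ i ∈ S, x ∈ C.A i)
    (hδ : ∀ (G : Finset (Fin 10)) (p : E4), ‖p‖ = 1 →
      (∀ i ∈ G, ∃ q, ‖q‖ = 1 ∧ q ∈ C.A i ∧ dist p q ≤ δ) → C.occ G)
    (L : C.Loc S x δ) (hδ0 : 0 ≤ δ) {R : Finset (Fin 10)} (hR : R ⊆ Sᶜ) (hR3 : R.card = 3) :
    (C.occ R ↔ C.num L.L2 R = 1) ∧ (C.occ R ↔ ¬ C.occ (Sᶜ \ R)) := by
  have hSc : Sᶜ.card = 6 := by rw [Finset.card_compl]; simp [hS]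
  have hR' : (Sᶜ \ R).card = 3 := by rw [Finset.card_sdiff_of_subset hR]; omega
  have hpar := L.par R hR hR3
  have hnot : ¬ (C.occ R ∧ C.occ (Sᶜ \ R)) := by
    rintro ⟨h1, h2⟩
    apply C.occ_three (show C.occ S from ⟨x, hx, hxS⟩) h1 h2
    rw [Finset.union_assoc, Finset.union_sdiff_of_subset hR, Finset.union_compl]
  have hor : C.occ R ∨ C.occ (Sᶜ \ R) := by
    rcases zmod2_cases (C.num L.L2 R) with h | h
    · rw [h, zero_add] at hpar
      exact Or.inr (occ_of_num hδ L hδ0 (by rw [hpar]; exact one_ne_zero))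
    · exact Or.inl (occ_of_num hδ L hδ0 (by rw [h]; exact one_ne_zero))
  refine ⟨⟨fun h => ?_, fun h => occ_of_num hδ L hδ0 (by rw [h]; exact one_ne_zero)⟩, ?_⟩
  · rcases zmod2_cases (C.num L.L2 R) with h' | h'
    · rw [h', zero_add] at hpar
      exact absurd ⟨h, occ_of_num hδ L hδ0 (by rw [hpar]; exact one_ne_zero)⟩ hnot
    · exact h'
  · constructor
    · intro h h'; exact hnot ⟨h, h'⟩
    · intro h
      rcases hor with h' | h'
      · exact h'
      · exact absurd h' h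

open Classical in
lemma even_occ (hS : S.card = 4) (hx : ‖x‖ = 1) (hxS : ∀ i ∈ S, x ∈ C.A i)
    (hδ : ∀ (G : Finset (Fin 10)) (p : E4), ‖p‖ = 1 →
      (∀ i ∈ G, ∃ q, ‖q‖ = 1 ∧ q ∈ C.A i ∧ dist p q ≤ δ) → C.occ G)
    (L : C.Loc S x δ) (hδ0 : 0 ≤ δ) {P : Finset (Fin 10)} (hPS : P ⊆ Sᶜ) (hP : P.card = 2) :
    Even ((Sᶜ \ P).filter fun d => C.occ (insert d P)).card := by
  have h1 := num_even hx hxS L hPS hP
  have h2 : ∑ d ∈ Sᶜ \ P, C.num L.L2 (insert d P)
      = ∑ d ∈ Sᶜ \ P, if C.occ (insert d P) then (1 : ZMod 2) else 0 := by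
    apply Finset.sum_congr rfl
    intro d hd
    rw [Finset.mem_sdiff] at hd
    have hsub : insert d P ⊆ Sᶜ := Finset.insert_subset hd.1 hPS
    have hc : (insert d P).card = 3 := by rw [Finset.card_insert_of_notMem hd.2, hP]
    have h3 := (num_iff hS hx hxS hδ L hδ0 hsub hc).1
    by_cases h4 : C.occ (insert d P)
    · rw [if_pos h4]; exact h3.1 h4
    · rw [if_neg h4]
      rcases zmod2_cases (C.num L.L2 (insert d P)) with h5 | h5
      · exact h5
      · exact absurd (h3.2 h5) h4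
  rw [h2, Finset.sum_boole] at h1
  exact (ZMod.natCast_eq_zero_iff_even).1 h1

open Classical in
/-- the extension fact -/
lemma extend (hS : S.card = 4) (hx : ‖x‖ = 1) (hxS : ∀ i ∈ S, x ∈ C.A i)
    (hε : ∀ (i : Fin 10) (u v : E4), u ∈ C.A i → v ∈ C.A i → ‖u‖ = 1 → ‖v‖ = 1 →
      ε ≤ |inner ℝ u v|)
    (hδ : ∀ (G : Finset (Fin 10)) (p : E4), ‖p‖ = 1 →
      (∀ i ∈ G, ∃ q, ‖q‖ = 1 ∧ q ∈ C.A i ∧ dist p q ≤ δ) → C.occ G)
    (hδε : δ < ε)
    (L : C.Loc S x δ) (hδ0 : 0 ≤ δ) {R : Finset (Fin 10)} (hR : R ⊆ Sᶜ) (hR3 : R.card = 3)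
    (hocc : C.occ R) : ∃ d ∈ S, C.occ (insert d R) := by
  have hnum := (num_iff hS hx hxS hδ L hδ0 hR hR3).1.1 hocc
  obtain ⟨z, hz, hzR⟩ := hocc
  set f : E4 → E4 → E4 → ZMod 2 := fun a b c =>
    if (({C.col a, C.col b, C.col c} : Finset (Fin 10)) = R ∧ 0 < inner ℝ z a) then 1 else 0
    with hf
  have h3 := L.h3 f
  have hsum : (L.L2.map fun t => f t.1 t.2.1 t.2.2 + f (-t.1) (-t.2.1) (-t.2.2)).sum
      = C.num L.L2 R := by
    unfold num
    congr 1
    apply List.map_congr_left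
    intro t ht
    obtain ⟨k1, k2, k3⟩ := L.n2 t ht
    simp only [hf, C.col_neg]
    by_cases hcs : ({C.col t.1, C.col t.2.1, C.col t.2.2} : Finset (Fin 10)) = R
    · have hmem : C.col t.1 ∈ R := by rw [← hcs]; simp
      have hne : inner ℝ z t.1 ≠ 0 := C.noorth _ _ _ (hzR _ hmem) (C.col_mem k1) hz k1
      rcases lt_or_gt_of_ne hne with hlt | hlt
      · have h4 : ¬ (0 < inner ℝ z t.1) := by linarith
        have h5 : 0 < inner ℝ z (-t.1) := by rw [inner_neg_right]; linarith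
        rw [if_neg (fun h => h4 h.2), if_pos ⟨hcs, h5⟩, if_pos hcs, zero_add]
      · have h5 : ¬ (0 < inner ℝ z (-t.1)) := by rw [inner_neg_right]; linarith
        rw [if_pos ⟨hcs, hlt⟩, if_neg (fun h => h5 h.2), if_pos hcs, add_zero]
    · simp [hcs]
  rw [hsum, hnum] at h3
  obtain ⟨t, ht, hne⟩ := exists_of_sum_ne _ _ (by rw [h3]; exact one_ne_zero)
  obtain ⟨n1, n2, n3, n4⟩ := L.n3 t ht
  obtain ⟨d1, d2, d3⟩ := L.d3 t ht
  obtain ⟨a, b, c, d⟩ := t
  simp only at hne n1 n2 n3 n4 d1 d2 d3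
  -- all signs agree
  have hsign : ∀ u v : E4, ‖u‖ = 1 → ‖v‖ = 1 → dist u v ≤ 2 * δ → C.col u ∈ R → C.col v ∈ R →
      0 < inner ℝ z u → 0 < inner ℝ z v := by
    intro u v hu hv huv hcu hcv h
    have e1 := hε _ z u (hzR _ hcu) (C.col_mem hu) hz hu
    have e2 := hε _ z v (hzR _ hcv) (C.col_mem hv) hz hv
    by_contra hcon
    push Not at hcon
    rw [abs_of_pos h] at e1
    rw [abs_of_nonpos hcon] at e2
    have e3 : inner ℝ z u - inner ℝ z v ≤ 2 * δ := by
      rw [← inner_sub_right]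
      have := real_inner_le_norm z (u - v)
      rw [hz, one_mul, ← dist_eq_norm] at this
      linarith
    linarith
  have dab : dist a b ≤ 2 * δ := by linarith
  have dac : dist a c ≤ 2 * δ := by linarith
  have dad : dist a d ≤ 2 * δ := by linarith
  have dbc : dist b c ≤ 2 * δ := by
    have := dist_triangle_left b c a; linarith
  have dbd : dist b d ≤ 2 * δ := by
    have := dist_triangle_left b d a; linarith
  have dcd : dist c d ≤ 2 * δ := by
    have := dist_triangle_left c d a; linarith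
  -- some face has colour set `R`
  have hface : ({C.col b, C.col c, C.col d} : Finset (Fin 10)) = R ∨
      ({C.col a, C.col c, C.col d} : Finset (Fin 10)) = R ∨
      ({C.col a, C.col b, C.col d} : Finset (Fin 10)) = R ∨
      ({C.col a, C.col b, C.col c} : Finset (Fin 10)) = R := by
    by_contra hcon
    push Not at hcon
    obtain ⟨c1, c2, c3, c4⟩ := hcon
    apply hne
    simp [hf, c1, c2, c3, c4]
  have hsubU : R ⊆ {C.col a, C.col b, C.col c, C.col d} := by
    rcases hface with h | h | h | h <;> rw [← h] <;> intro i hi <;>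
      simp only [Finset.mem_insert, Finset.mem_singleton] at hi ⊢ <;> tauto
  -- not all colours are in `R`
  have hnotall : ¬ (C.col a ∈ R ∧ C.col b ∈ R ∧ C.col c ∈ R ∧ C.col d ∈ R) := by
    rintro ⟨ra, rb, rc, rd⟩
    apply hne
    have hab : (0 < inner ℝ z b) ↔ (0 < inner ℝ z a) :=
      ⟨hsign b a n2 n1 (by rw [dist_comm]; exact dab) rb ra, hsign a b n1 n2 dab ra rb⟩
    simp only [hf, hab]
    by_cases hs : 0 < inner ℝ z a
    · simp only [hs, and_true]
      exact aux_faces _ _ _ _ R hR3 ra rb rc rd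
    · simp [hs]
  obtain ⟨w, hwn, hwU, hwR, hwd⟩ : ∃ w : E4, ‖w‖ = 1 ∧
      C.col w ∈ ({C.col a, C.col b, C.col c, C.col d} : Finset (Fin 10)) ∧ C.col w ∉ R ∧
      dist a w ≤ δ := by
    by_contra hcon
    push Not at hcon
    apply hnotall
    refine ⟨?_, ?_, ?_, ?_⟩
    · by_contra h; have := hcon a n1 (by simp) h; rw [dist_self] at this; linarith
    · by_contra h; have := hcon b n2 (by simp) h; linarith
    · by_contra h; have := hcon c n3 (by simp) h; linarith
    · by_contra h; have := hcon d n4 (by simp) h; linarith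
  have hocc' : C.occ (insert (C.col w) R) := by
    apply hδ _ a n1
    intro i hi
    rcases Finset.mem_insert.1 hi with rfl | hi
    · exact ⟨w, hwn, C.col_mem hwn, hwd⟩
    · have hi' := hsubU hi
      simp only [Finset.mem_insert, Finset.mem_singleton] at hi'
      rcases hi' with rfl | rfl | rfl | rfl
      · exact ⟨a, n1, C.col_mem n1, by simpa using hδ0⟩
      · exact ⟨b, n2, C.col_mem n2, d1⟩
      · exact ⟨c, n3, C.col_mem n3, d2⟩
      · exact ⟨d, n4, C.col_mem n4, d3⟩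
  refine ⟨C.col w, ?_, hocc'⟩
  by_contra hwS
  have h7 := C.occ_two (show C.occ S from ⟨x, hx, hxS⟩) hocc'
  have hdisj : Disjoint S (insert (C.col w) R) := by
    rw [Finset.disjoint_left]
    intro i hi hi2
    rcases Finset.mem_insert.1 hi2 with rfl | h
    · exact hwS hi
    · exact (Finset.mem_compl.1 (hR h)) hi
  rw [Finset.card_union_of_disjoint hdisj, hS, Finset.card_insert_of_notMem hwR, hR3] at h7
  omega

open Classical in
/-- everything needed by the finite part -/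
theorem facts (C : Cov)
    (HL : ∀ (S : Finset (Fin 10)) (x : E4), S.card = 4 → ‖x‖ = 1 → (∀ i ∈ S, x ∈ C.A i) →
      ∀ δ₁ > 0, ∃ δ > 0, δ ≤ δ₁ ∧ Nonempty (C.Loc S x δ)) :
    (∃ S : Finset (Fin 10), S.card = 4 ∧ C.occ S) ∧
    (∀ S Q : Finset (Fin 10), C.occ S → Q ⊆ S → C.occ Q) ∧
    (∀ S R R' : Finset (Fin 10), S.card = 4 → C.occ S → R.card = 3 → R'.card = 3 →
      Disjoint S R → Disjoint S R' → Disjoint R R' → (C.occ R ↔ ¬ C.occ R')) ∧
    (∀ S P : Finset (Fin 10), S.card = 4 → C.occ S → P.card = 2 → Disjoint S P →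
      Even (((S ∪ P)ᶜ.filter fun d => C.occ (insert d P)).card)) ∧
    (∀ S R : Finset (Fin 10), S.card = 4 → C.occ S → R.card = 3 → C.occ R → Disjoint S R →
      ∃ d ∈ S, C.occ (insert d R)) ∧
    (∀ S S2 : Finset (Fin 10), S.card = 4 → S2.card = 4 → C.occ S → C.occ S2 →
      ¬ Disjoint S S2) := by
  obtain ⟨ε, hε0, hε⟩ := C.exists_eps
  obtain ⟨δ₀, hδ₀, hδ⟩ := C.exists_delta
  have hd : ∀ δ ≤ δ₀, ∀ (G : Finset (Fin 10)) (p : E4), ‖p‖ = 1 →
      (∀ i ∈ G, ∃ q, ‖q‖ = 1 ∧ q ∈ C.A i ∧ dist p q ≤ δ) → C.occ G := by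
    intro δ hδδ G p hp h
    apply hδ G p hp
    intro i hi
    obtain ⟨q, h1, h2, h3⟩ := h i hi
    exact ⟨q, h1, h2, h3.trans hδδ⟩
  have hloc : ∀ (S : Finset (Fin 10)) (x : E4), S.card = 4 → ‖x‖ = 1 → (∀ i ∈ S, x ∈ C.A i) →
      ∃ δ > 0, δ ≤ δ₀ ∧ δ < ε ∧ Nonempty (C.Loc S x δ) := by
    intro S x h1 h2 h3
    obtain ⟨δ, g1, g2, g3⟩ := HL S x h1 h2 h3 (min δ₀ (ε / 2)) (lt_min hδ₀ (by linarith))
    exact ⟨δ, g1, g2.trans (min_le_left _ _), lt_of_le_of_lt (g2.trans (min_le_right _ _))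
      (by linarith), g3⟩
  have hsub : ∀ {S R : Finset (Fin 10)}, Disjoint S R → R ⊆ Sᶜ := by
    intro S R h i hi
    rw [Finset.mem_compl]
    exact fun h' => Finset.disjoint_left.1 h h' hi
  refine ⟨C.exists_occ4, fun S Q h1 h2 => C.occ_mono h1 h2, ?_, ?_, ?_, ?_⟩
  · rintro S R R' hS ⟨x, hx, hxS⟩ hR hR' d1 d2 d3
    obtain ⟨δ, g1, g2, _, ⟨L⟩⟩ := hloc S x hS hx hxS
    have h := (num_iff hS hx hxS (hd δ g2) L g1.le (hsub d1) hR).2
    have e : Sᶜ \ R = R' := by
      symm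
      apply Finset.eq_of_subset_of_card_le
      · intro i hi
        rw [Finset.mem_sdiff]
        exact ⟨hsub d2 hi, fun h' => Finset.disjoint_left.1 d3 h' hi⟩
      · rw [Finset.card_sdiff_of_subset (hsub d1), Finset.card_compl, hS, hR, hR']
        simp
    rwa [e] at h
  · rintro S P hS ⟨x, hx, hxS⟩ hP d1
    obtain ⟨δ, g1, g2, _, ⟨L⟩⟩ := hloc S x hS hx hxS
    have h := even_occ hS hx hxS (hd δ g2) L g1.le (hsub d1) hP
    have e : Sᶜ \ P = (S ∪ P)ᶜ := by ext i; simp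
    rwa [e] at h
  · rintro S R hS ⟨x, hx, hxS⟩ hR hocc d1
    obtain ⟨δ, g1, g2, g3, ⟨L⟩⟩ := hloc S x hS hx hxS
    exact extend hS hx hxS hε (hd δ g2) g3 L g1.le (hsub d1) hR hocc
  · intro S S2 h1 h2 h3 h4 hdis
    have := C.occ_two h3 h4
    rw [Finset.card_union_of_disjoint hdis, h1, h2] at this
    omega

end Cov

end Crest.H6BR
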