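import Mathlib
import Crest.Agent.H6BRLoc
import Crest.Agent.BRSpec
import Crest.Agent.BRMain
import Crest.Agent.H25BRTow
import Crest.Agent.H20BRGeo

/-! rid 50 (S0069): everything from the parity statement `Par` and the finite system. -/

set_option autoImplicit false

namespace Crest.H6BR

open Crest.BR

/-- the finite system (helper24's form) -/
def Fin2 : Prop :=
  ∀ (N : Finset (Fin 10) → Prop), (∃ S, S.card = 4 ∧ N S) → (∀ S Q, N S → Q ⊆ S → N Q) →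
    (∀ S R R', S.card = 4 → N S → R.card = 3 → R'.card = 3 → Disjoint S R → Disjoint S R' →
      Disjoint R R' → (N R ↔ ¬ N R')) →
    (∀ S P, S.card = 4 → N S → P.card = 2 → Disjoint S P →
      ∀ (D : Finset (Fin 10)), (∀ d, d ∈ D ↔ d ∉ S ∧ d ∉ P ∧ N (insert d P)) → Even D.card) →
    (∀ S R, S.card = 4 → N S → R.card = 3 → N R → Disjoint S R → ∃ d ∈ S, N (insert d R)) →
    (∀ S S2, S.card = 4 → S2.card = 4 → N S → N S2 → ¬ Disjoint S S2) →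
    False

theorem loc_of_par (hP : Par) (C : Cov) (S : Finset (Fin 10)) (x : E4) (hS : S.card = 4)
    (hx : ‖x‖ = 1) (hxS : ∀ i ∈ S, x ∈ C.A i) (δ₁ : ℝ) (hδ₁ : δ₁ > 0) :
    ∃ δ > 0, δ ≤ δ₁ ∧ Nonempty (C.Loc S x δ) := by
  obtain ⟨ε, hε0, hε⟩ := C.exists_eps
  have hcol : Col C.col ε :=
    ⟨hε0, C.col_neg, fun u v hu hv h => hε (C.col u) u v (C.col_mem hu)
      (by rw [h]; exact C.col_mem hv) hu hv⟩
  obtain ⟨δ₀, hδ₀, hpar⟩ := hP C.col ε hcol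
  obtain ⟨e, he, he3⟩ := exists_frame x hx
  have hδ : 0 < min δ₀ δ₁ := lt_min hδ₀ hδ₁
  obtain ⟨L1, L2, L3, T⟩ := towerEx e he (min δ₀ δ₁) hδ
  refine ⟨min δ₀ δ₁, hδ, min_le_right _ _, ⟨⟨L1, L2, L3, ?_, ?_, ?_, ?_, ?_, T.tower.h2,
    T.tower.h3, ?_⟩⟩⟩
  · intro t ht
    obtain ⟨⟨a1, -⟩, ⟨a2, -⟩, ⟨a3, -⟩⟩ := T.all2 t ht
    exact ⟨a1, a2, a3⟩
  · intro t ht
    obtain ⟨⟨-, a1⟩, ⟨-, a2⟩, ⟨-, a3⟩⟩ := T.all2 t ht
    rw [he3] at a1 a2 a3
    exact ⟨a1, a2, a3⟩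
  · intro t ht
    obtain ⟨a1, a2, a3⟩ := T.near2 t ht
    simp only [dist_eq_norm]
    exact ⟨a1, a2, a3⟩
  · intro t ht
    exact T.all3 t ht
  · intro t ht
    obtain ⟨a1, a2, a3, -⟩ := T.near3 t ht
    simp only [dist_eq_norm]
    exact ⟨a1, a2, a3⟩
  · intro R hR hR3
    have hSc : Sᶜ.card = 6 := by rw [Finset.card_compl]; simp [hS]
    refine hpar e _ L1 L2 L3 he (min_le_left _ _) T S hS ?_ R (Sᶜ \ R) hR3 ?_ ?_ ?_ ?_
    · intro v hv h0
      rw [he3] at h0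
      exact Finset.mem_compl.1 (Cov.col_notMem hx hxS hv h0)
    · rw [Finset.card_sdiff_of_subset hR]; omega
    · exact Finset.disjoint_left.2 fun i hi h => Finset.mem_compl.1 (hR h) hi
    · exact Finset.disjoint_left.2 fun i hi h => by
        rw [Finset.mem_sdiff] at h; exact Finset.mem_compl.1 h.1 hi
    · exact Finset.disjoint_sdiff

theorem noCover10 (hP : Par) (hF : Fin2) : NoCover10 := by
  classical
  rintro ⟨A, h1, h2, h3, h4⟩
  let C : Cov := ⟨A, h1, h2, h3, h4⟩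
  obtain ⟨g0, g1, g2, g3, g4, g5⟩ := C.facts (fun S x a b c d e => loc_of_par hP C S x a b c d e)
  refine hF C.occ g0 g1 g2 ?_ g4 g5
  intro S P hS hN hP2 hd D hD
  have e : D = (S ∪ P)ᶜ.filter fun d => C.occ (insert d P) := by
    ext d
    rw [hD, Finset.mem_filter, Finset.mem_compl, Finset.mem_union]
    tauto
  rw [e]
  exact g3 S P hS hN hP2 hd

end Crest.H6BR
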