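import Mathlib
import Crest.Prelude.Def_FinProb
import Crest.Agent.H6Defs

/-!
p-biased Fourier analysis: expansion, orthonormality, Parseval, mixing two independent points.
-/

set_option autoImplicit false
set_option linter.unusedSectionVars false

namespace Crest.Agent.H6Cube

open Finset Crest.FinProb Crest.Agent.H6Defs

variable {E : Type*} [Fintype E] [DecidableEq E]

/-! ### Linearity and positivity of `EE` -/

lemma weight_nonneg {p : ℝ} (hp : 0 < p) (hp1 : p < 1) (x : E → Bool) :
    0 ≤ bernoulliWeight p x := by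
  unfold bernoulliWeight
  refine Finset.prod_nonneg fun i _ => ?_
  split_ifs <;> linarith

lemma EE_mono {p : ℝ} (hp : 0 < p) (hp1 : p < 1) {F G : (E → Bool) → ℝ} (h : ∀ x, F x ≤ G x) :
    EE p F ≤ EE p G := by
  unfold EE
  exact Finset.sum_le_sum fun x _ => mul_le_mul_of_nonneg_left (h x) (weight_nonneg hp hp1 x)

lemma EE_nonneg {p : ℝ} (hp : 0 < p) (hp1 : p < 1) {F : (E → Bool) → ℝ} (h : ∀ x, 0 ≤ F x) :
    0 ≤ EE p F := by
  unfold EE
  exact Finset.sum_nonneg fun x _ => mul_nonneg (weight_nonneg hp hp1 x) (h x)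

lemma EE_add (p : ℝ) (F G : (E → Bool) → ℝ) : EE p (fun x => F x + G x) = EE p F + EE p G := by
  simp [EE, mul_add, Finset.sum_add_distrib]

lemma EE_sub (p : ℝ) (F G : (E → Bool) → ℝ) : EE p (fun x => F x - G x) = EE p F - EE p G := by
  simp [EE, mul_sub, Finset.sum_sub_distrib]

lemma EE_const_mul (p a : ℝ) (F : (E → Bool) → ℝ) : EE p (fun x => a * F x) = a * EE p F := by
  simp only [EE, Finset.mul_sum]
  exact Finset.sum_congr rfl fun x _ => by ring

lemma EE_mul_const (p a : ℝ) (F : (E → Bool) → ℝ) : EE p (fun x => F x * a) = EE p F * a := by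
  simp only [EE, Finset.sum_mul]
  exact Finset.sum_congr rfl fun x _ => by ring

lemma EE_sum {ι : Type*} (p : ℝ) (s : Finset ι) (F : ι → (E → Bool) → ℝ) :
    EE p (fun x => ∑ i ∈ s, F i x) = ∑ i ∈ s, EE p (F i) := by
  simp only [EE, Finset.mul_sum]
  exact Finset.sum_comm

lemma EE_congr {p : ℝ} {F G : (E → Bool) → ℝ} (h : ∀ x, F x = G x) : EE p F = EE p G := by
  simp [EE, h]

/-- Expectation of a product over the coordinates. -/
lemma EE_prod (p : ℝ) (g : E → Bool → ℝ) :
    EE p (fun x => ∏ e, g e (x e)) = ∏ e, (p * g e true + (1 - p) * g e false) := by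
  have h1 : ∀ e, (p * g e true + (1 - p) * g e false)
      = ∑ b ∈ (Finset.univ : Finset Bool), (if b then p else 1 - p) * g e b := by
    intro e; simp
  simp only [h1]
  rw [Finset.prod_univ_sum, Fintype.piFinset_univ]
  unfold EE bernoulliWeight
  refine Finset.sum_congr rfl fun x _ => ?_
  rw [← Finset.prod_mul_distrib]

lemma EE_one (p : ℝ) : EE p (fun _ : E → Bool => (1 : ℝ)) = 1 := by
  have := EE_prod (E := E) p (fun _ _ => 1)
  simpa using this

lemma EE_const (p a : ℝ) : EE p (fun _ : E → Bool => a) = a := by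
  have := EE_const_mul (E := E) p a (fun _ => 1)
  rw [EE_one] at this
  simpa using this

/-! ### The normalised coin -/

section phi
variable {p : ℝ}

lemma phi_true_mul_false (hp : 0 < p) (hp1 : p < 1) : phi p true * phi p false = -1 := by
  have h1 : (0:ℝ) < 1 - p := by linarith
  simp only [phi, if_true, Bool.false_eq_true, if_false]
  rw [mul_neg, ← Real.sqrt_mul (by positivity)]
  have : (1 - p) / p * (p / (1 - p)) = 1 := by field_simp
  rw [this]; simp

lemma phi_true_sq (hp : 0 < p) (hp1 : p < 1) : phi p true ^ 2 = (1 - p) / p := by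
  have h1 : (0:ℝ) < 1 - p := by linarith
  simp only [phi, if_true]
  rw [Real.sq_sqrt (by positivity)]

lemma phi_false_sq (hp : 0 < p) (hp1 : p < 1) : phi p false ^ 2 = p / (1 - p) := by
  have h1 : (0:ℝ) < 1 - p := by linarith
  simp only [phi, Bool.false_eq_true, if_false]
  rw [neg_sq, Real.sq_sqrt (by positivity)]

lemma p_phi_true (hp : 0 < p) (hp1 : p < 1) : p * phi p true = √(p * (1 - p)) := by
  have h1 : (0:ℝ) < 1 - p := by linarith
  simp only [phi, if_true]
  rw [eq_comm, Real.sqrt_eq_iff_mul_self_eq (by positivity) (by positivity)]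
  have : √((1 - p) / p) * √((1 - p) / p) = (1 - p) / p := Real.mul_self_sqrt (by positivity)
  symm
  calc p * √((1 - p) / p) * (p * √((1 - p) / p)) = p * p * (√((1 - p) / p) * √((1 - p) / p)) := by
        ring
    _ = p * (1 - p) := by rw [this]; field_simp

lemma q_phi_false (hp : 0 < p) (hp1 : p < 1) : (1 - p) * phi p false = -√(p * (1 - p)) := by
  have h1 : (0:ℝ) < 1 - p := by linarith
  simp only [phi, Bool.false_eq_true, if_false]
  rw [mul_neg, neg_inj, eq_comm, Real.sqrt_eq_iff_mul_self_eq (by positivity) (by positivity)]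
  have : √(p / (1 - p)) * √(p / (1 - p)) = p / (1 - p) := Real.mul_self_sqrt (by positivity)
  symm
  calc (1 - p) * √(p / (1 - p)) * ((1 - p) * √(p / (1 - p)))
        = (1 - p) * (1 - p) * (√(p / (1 - p)) * √(p / (1 - p))) := by ring
    _ = p * (1 - p) := by rw [this]; field_simp

lemma phi_mean (hp : 0 < p) (hp1 : p < 1) : p * phi p true + (1 - p) * phi p false = 0 := by
  rw [p_phi_true hp hp1, q_phi_false hp hp1]; ring

lemma phi_var (hp : 0 < p) (hp1 : p < 1) :
    p * (phi p true * phi p true) + (1 - p) * (phi p false * phi p false) = 1 := by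
  have h1 : (0:ℝ) < 1 - p := by linarith
  have h2 := phi_true_sq hp hp1
  have h3 := phi_false_sq hp hp1
  rw [← sq, ← sq, h2, h3]
  field_simp
  ring

/-- The jump of the normalised coin. -/
lemma phi_jump (hp : 0 < p) (hp1 : p < 1) :
    √(p * (1 - p)) * (phi p true - phi p false) = 1 := by
  have h1 : (0:ℝ) < 1 - p := by linarith
  have h2 := p_phi_true hp hp1
  have h3 := q_phi_false hp hp1
  have h4 := phi_var hp hp1
  have h5 := phi_true_mul_false hp hp1
  calc √(p * (1 - p)) * (phi p true - phi p false)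
      = p * phi p true * phi p true + (1 - p) * phi p false * phi p false := by
        rw [h2, h3]; ring
    _ = p * (phi p true * phi p true) + (1 - p) * (phi p false * phi p false) := by ring
    _ = 1 := h4

end phi

/-! ### Orthonormality and completeness -/

lemma chi_mul_chi (p : ℝ) (S T : Finset E) (x : E → Bool) :
    chi p S x * chi p T x
      = ∏ e, ((if e ∈ S then phi p (x e) else 1) * (if e ∈ T then phi p (x e) else 1)) := by
  unfold chi
  rw [Finset.prod_mul_distrib, Finset.prod_ite_mem, Finset.prod_ite_mem]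
  simp

lemma EE_chi_mul_chi {p : ℝ} (hp : 0 < p) (hp1 : p < 1) (S T : Finset E) :
    EE p (fun x => chi p S x * chi p T x) = if S = T then 1 else 0 := by
  have h : EE p (fun x => chi p S x * chi p T x)
      = EE p (fun x : E → Bool => ∏ e,
        ((if e ∈ S then phi p (x e) else 1) * (if e ∈ T then phi p (x e) else 1))) :=
    EE_congr fun x => chi_mul_chi p S T x
  have h' := EE_prod p (fun (e : E) (b : Bool) =>
        ((if e ∈ S then phi p b else 1) * (if e ∈ T then phi p b else 1)))
  refine (h.trans h').trans ?_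
  split_ifs with hST
  · subst hST
    refine Finset.prod_eq_one fun e _ => ?_
    by_cases he : e ∈ S
    · simp only [he, if_true]; exact phi_var hp hp1
    · simp [he]
  · obtain ⟨e, he⟩ : ∃ e, ¬ (e ∈ S ↔ e ∈ T) := by
      by_contra hcon
      push Not at hcon
      exact hST (Finset.ext hcon)
    refine Finset.prod_eq_zero (Finset.mem_univ e) ?_
    by_cases h1 : e ∈ S <;> by_cases h2 : e ∈ T
    · exact absurd ⟨fun _ => h2, fun _ => h1⟩ he
    · simp only [h1, h2, if_true, if_false, mul_one]; exact phi_mean hp hp1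
    · simp only [h1, h2, if_true, if_false, one_mul]; exact phi_mean hp hp1
    · exact absurd ⟨fun h => absurd h h1, fun h => absurd h h2⟩ he

/-- The reproducing kernel. -/
lemma kernel {p : ℝ} (hp : 0 < p) (hp1 : p < 1) (x y : E → Bool) :
    bernoulliWeight p y * ∑ S : Finset E, chi p S x * chi p S y = if x = y then 1 else 0 := by
  have h1 : ∑ S : Finset E, chi p S x * chi p S y = ∏ e, (1 + phi p (x e) * phi p (y e)) := by
    rw [Finset.prod_one_add]
    rw [Finset.powerset_univ]
    refine Finset.sum_congr rfl fun S _ => ?_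
    unfold chi
    rw [Finset.prod_mul_distrib]
  rw [h1]
  unfold bernoulliWeight
  rw [← Finset.prod_mul_distrib]
  have h2 : ∀ e, ((if y e = true then p else 1 - p) * (1 + phi p (x e) * phi p (y e)))
      = if x e = y e then 1 else 0 := by
    intro e
    have hq : (0:ℝ) < 1 - p := by linarith
    have ha := phi_true_mul_false hp hp1
    have hb := phi_true_sq hp hp1
    have hc := phi_false_sq hp hp1
    cases hx : x e <;> cases hy : y e
    · simp only [Bool.false_eq_true, if_false, if_true]
      rw [← sq, hc]; field_simp; ring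
    · simp only [if_true, Bool.false_eq_true, if_false]
      rw [mul_comm (phi p false), ha]; simp
    · simp only [Bool.false_eq_true, if_false]
      rw [ha]; simp
    · simp only [if_true]
      rw [← sq, hb]; field_simp; ring
  rw [Finset.prod_congr rfl fun e _ => h2 e]
  split_ifs with hxy
  · subst hxy; simp
  · obtain ⟨e, he⟩ : ∃ e, x e ≠ y e := by
      by_contra hcon
      push Not at hcon
      exact hxy (funext hcon)
    exact Finset.prod_eq_zero (Finset.mem_univ e) (by simp [he])

/-- Fourier expansion. -/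
lemma expand {p : ℝ} (hp : 0 < p) (hp1 : p < 1) (F : (E → Bool) → ℝ) (x : E → Bool) :
    F x = ∑ S : Finset E, coef p F S * chi p S x := by
  have h1 : ∑ S : Finset E, coef p F S * chi p S x
      = ∑ y, F y * (bernoulliWeight p y * ∑ S : Finset E, chi p S x * chi p S y) := by
    unfold coef EE
    simp only [Finset.sum_mul, Finset.mul_sum]
    rw [Finset.sum_comm]
    refine Finset.sum_congr rfl fun y _ => Finset.sum_congr rfl fun S _ => ?_
    ring
  rw [h1]
  simp only [kernel hp hp1]
  simp

/-- Parseval. -/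
lemma parseval {p : ℝ} (hp : 0 < p) (hp1 : p < 1) (F G : (E → Bool) → ℝ) :
    EE p (fun x => F x * G x) = ∑ S : Finset E, coef p F S * coef p G S := by
  have h1 : ∀ x, F x * G x = ∑ S : Finset E, coef p F S * (G x * chi p S x) := by
    intro x
    conv_lhs => rw [expand hp hp1 F x]
    rw [Finset.sum_mul]
    exact Finset.sum_congr rfl fun S _ => by ring
  rw [EE_congr h1, EE_sum]
  refine Finset.sum_congr rfl fun S _ => ?_
  rw [EE_const_mul]
  rfl

/-- Inner product of two polynomials. -/
lemma EE_poly_mul_poly {p : ℝ} (hp : 0 < p) (hp1 : p < 1) (𝒮 𝒯 : Finset (Finset E))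
    (c d : Finset E → ℝ) :
    EE p (fun x => poly p 𝒮 c x * poly p 𝒯 d x) = ∑ S ∈ 𝒮 ∩ 𝒯, c S * d S := by
  have h1 : ∀ x, poly p 𝒮 c x * poly p 𝒯 d x
      = ∑ S ∈ 𝒮, ∑ T ∈ 𝒯, (c S * d T) * (chi p S x * chi p T x) := by
    intro x
    unfold poly
    rw [Finset.sum_mul_sum]
    exact Finset.sum_congr rfl fun S _ => Finset.sum_congr rfl fun T _ => by ring
  rw [EE_congr h1, EE_sum]
  have h2 : ∀ S ∈ 𝒮, EE p (fun x => ∑ T ∈ 𝒯, (c S * d T) * (chi p S x * chi p T x))
      = if S ∈ 𝒯 then c S * d S else 0 := by
    intro S _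
    rw [EE_sum]
    simp only [EE_const_mul, EE_chi_mul_chi hp hp1]
    simp
  rw [Finset.sum_congr rfl h2, ← Finset.sum_filter]
  rfl

lemma EE_poly_sq {p : ℝ} (hp : 0 < p) (hp1 : p < 1) (𝒮 : Finset (Finset E))
    (c : Finset E → ℝ) :
    EE p (fun x => poly p 𝒮 c x ^ 2) = ∑ S ∈ 𝒮, c S ^ 2 := by
  have h := EE_poly_mul_poly hp hp1 𝒮 𝒮 c c
  rw [Finset.inter_self] at h
  calc EE p (fun x => poly p 𝒮 c x ^ 2) = EE p (fun x => poly p 𝒮 c x * poly p 𝒮 c x) :=
        EE_congr fun x => sq _
    _ = _ := by rw [h]; exact Finset.sum_congr rfl fun S _ => (sq _).symm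

/-! ### Mixing two points -/

/-- Use `x` on `J` and `z` off `J`. -/
def mix (J : Finset E) (x z : E → Bool) : E → Bool := fun e => if e ∈ J then x e else z e

lemma mix_mix (J : Finset E) (x z : E → Bool) : mix J (mix J x z) (mix J z x) = x := by
  funext e; unfold mix; by_cases h : e ∈ J <;> simp [h]

lemma mix_mix' (J : Finset E) (x z : E → Bool) : mix J (mix J z x) (mix J x z) = z := by
  funext e; unfold mix; by_cases h : e ∈ J <;> simp [h]

lemma weight_mix (p : ℝ) (J : Finset E) (x z : E → Bool) :
    bernoulliWeight p (mix J x z) * bernoulliWeight p (mix J z x)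
      = bernoulliWeight p x * bernoulliWeight p z := by
  unfold bernoulliWeight
  rw [← Finset.prod_mul_distrib, ← Finset.prod_mul_distrib]
  refine Finset.prod_congr rfl fun e _ => ?_
  unfold mix
  by_cases h : e ∈ J
  · simp [h]
  · simp only [h, if_false]; ring

/-- Mixing two independent points gives a point with the same law. -/
lemma EE_mix (p : ℝ) (J : Finset E) (G : (E → Bool) → ℝ) :
    EE p (fun z => EE p (fun x => G (mix J x z))) = EE p G := by
  have h1 : EE p (fun z => EE p (fun x => G (mix J x z)))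
      = ∑ q : (E → Bool) × (E → Bool),
        bernoulliWeight p q.1 * bernoulliWeight p q.2 * G (mix J q.1 q.2) := by
    unfold EE
    rw [Fintype.sum_prod_type]
    rw [Finset.sum_comm]
    refine Finset.sum_congr rfl fun z _ => ?_
    rw [Finset.mul_sum]
    exact Finset.sum_congr rfl fun x _ => by ring
  have h2 : ∑ q : (E → Bool) × (E → Bool),
        bernoulliWeight p q.1 * bernoulliWeight p q.2 * G (mix J q.1 q.2)
      = ∑ q : (E → Bool) × (E → Bool),
        bernoulliWeight p q.1 * bernoulliWeight p q.2 * G q.1 := by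
    let e : (E → Bool) × (E → Bool) ≃ (E → Bool) × (E → Bool) :=
      { toFun := fun q => (mix J q.1 q.2, mix J q.2 q.1)
        invFun := fun q => (mix J q.1 q.2, mix J q.2 q.1)
        left_inv := fun q => Prod.ext (mix_mix J q.1 q.2) (mix_mix' J q.1 q.2)
        right_inv := fun q => Prod.ext (mix_mix J q.1 q.2) (mix_mix' J q.1 q.2) }
    rw [← e.sum_comp (fun q : (E → Bool) × (E → Bool) =>
      bernoulliWeight p q.1 * bernoulliWeight p q.2 * G q.1)]
    refine Finset.sum_congr rfl fun q _ => ?_
    change _ = bernoulliWeight p (mix J q.1 q.2) * bernoulliWeight p (mix J q.2 q.1)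
      * G (mix J q.1 q.2)
    rw [weight_mix]
  rw [h1, h2, Fintype.sum_prod_type]
  unfold EE
  refine Finset.sum_congr rfl fun x _ => ?_
  have h3 := EE_one (E := E) p
  unfold EE at h3
  simp only [mul_one] at h3
  calc ∑ y, bernoulliWeight p (x, y).1 * bernoulliWeight p (x, y).2 * G (x, y).1
      = (bernoulliWeight p x * G x) * ∑ y, bernoulliWeight p y := by
        rw [Finset.mul_sum]; exact Finset.sum_congr rfl fun y _ => by ring
    _ = _ := by rw [h3]; ring

lemma chi_mix (p : ℝ) (J S : Finset E) (x z : E → Bool) :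
    chi p S (mix J x z) = chi p (S ∩ J) x * chi p (S \ J) z := by
  unfold chi
  rw [← Finset.prod_inter_mul_prod_sdiff S J]
  congr 1
  · refine Finset.prod_congr rfl fun e he => ?_
    have : e ∈ J := (Finset.mem_inter.mp he).2
    simp [mix, this]
  · refine Finset.prod_congr rfl fun e he => ?_
    have : e ∉ J := (Finset.mem_sdiff.mp he).2
    simp [mix, this]

end Crest.Agent.H6Cube
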