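import Mathlib
import Crest.Prelude.Def_FinProb
import Crest.Agent.H6Defs
import Crest.Agent.H6Cube

/-!
The key estimate: for every set `J` of slots, the Fourier weight of the sets caught by `J` is tiny.
-/

set_option autoImplicit false
set_option linter.unusedSectionVars false

namespace Crest.Agent.H6Key

open Finset Crest.FinProb Crest.Agent.H6Defs Crest.Agent.H6Cube

variable {E : Type*} [Fintype E] [DecidableEq E]

/-- The hypercontractive estimate, as a hypothesis. -/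
def Bonami (E : Type*) [Fintype E] [DecidableEq E] (p : ℝ) : Prop :=
  ∀ (𝒮 : Finset (Finset E)) (c : Finset E → ℝ) (m : ℕ), (∀ S ∈ 𝒮, S.card ≤ m) →
    EE p (fun x => (poly p 𝒮 c x) ^ 4)
      ≤ (4 / (p * (1 - p))) ^ m * (EE p (fun x => (poly p 𝒮 c x) ^ 2)) ^ 2

/-! ### Cauchy–Schwarz -/

lemma cauchy {p : ℝ} (hp : 0 < p) (hp1 : p < 1) (F G : (E → Bool) → ℝ) :
    (EE p (fun x => F x * G x)) ^ 2 ≤ EE p (fun x => F x ^ 2) * EE p (fun x => G x ^ 2) := by
  have h := Finset.sum_mul_sq_le_sq_mul_sq (Finset.univ : Finset (E → Bool))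
    (fun x => √(bernoulliWeight p x) * F x) (fun x => √(bernoulliWeight p x) * G x)
  have hw : ∀ x : E → Bool, √(bernoulliWeight p x) * √(bernoulliWeight p x) = bernoulliWeight p x :=
    fun x => Real.mul_self_sqrt (weight_nonneg hp hp1 x)
  unfold EE
  calc (∑ x, bernoulliWeight p x * (F x * G x)) ^ 2
      = (∑ x, √(bernoulliWeight p x) * F x * (√(bernoulliWeight p x) * G x)) ^ 2 := by
        congr 1
        refine Finset.sum_congr rfl fun x _ => ?_
        rw [← hw x]; rw [hw x]; nth_rewrite 1 [← hw x]; ring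
    _ ≤ _ := h
    _ = _ := by
        congr 1
        · refine Finset.sum_congr rfl fun x _ => ?_
          show (√(bernoulliWeight p x) * F x) ^ 2 = bernoulliWeight p x * F x ^ 2
          rw [mul_pow, sq (√(bernoulliWeight p x)), hw x]
        · refine Finset.sum_congr rfl fun x _ => ?_
          show (√(bernoulliWeight p x) * G x) ^ 2 = bernoulliWeight p x * G x ^ 2
          rw [mul_pow, sq (√(bernoulliWeight p x)), hw x]

/-! ### Splitting a sum over sets along `J` -/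

/-- The sets disjoint from `J`. -/
def off (J : Finset E) : Finset (Finset E) := Finset.univ.filter (fun R => Disjoint R J)

lemma mem_off {J R : Finset E} : R ∈ off J ↔ Disjoint R J := by simp [off]

lemma sum_split (J : Finset E) (g : Finset E → Finset E → ℝ) :
    ∑ S : Finset E, g (S ∩ J) (S \ J) = ∑ T ∈ J.powerset, ∑ R ∈ off J, g T R := by
  rw [← Finset.sum_product']
  refine Finset.sum_nbij' (fun S => (S ∩ J, S \ J)) (fun q => q.1 ∪ q.2) ?_ ?_ ?_ ?_ ?_
  · intro S _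
    simp only [Finset.mem_product, Finset.mem_powerset, mem_off]
    exact ⟨Finset.inter_subset_right, Finset.sdiff_disjoint⟩
  · intro q _; exact Finset.mem_univ _
  · intro S _
    ext e; simp only [Finset.mem_union, Finset.mem_inter, Finset.mem_sdiff]; tauto
  · intro q hq
    simp only [Finset.mem_product, Finset.mem_powerset, mem_off] at hq
    obtain ⟨h1, h2⟩ := hq
    refine Prod.ext ?_ ?_
    · ext e
      simp only [Finset.mem_union, Finset.mem_inter]
      constructor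
      · rintro ⟨h | h, hJ⟩
        · exact h
        · exact absurd hJ (Finset.disjoint_left.mp h2 h)
      · intro h; exact ⟨Or.inl h, h1 h⟩
    · ext e
      simp only [Finset.mem_union, Finset.mem_sdiff]
      constructor
      · rintro ⟨h | h, hJ⟩
        · exact absurd (h1 h) hJ
        · exact h
      · intro h; exact ⟨Or.inr h, Finset.disjoint_left.mp h2 h⟩
  · intro S _; rfl

lemma sum_split' (J : Finset E) (g : Finset E → ℝ) :
    ∑ S : Finset E, g S = ∑ T ∈ J.powerset, ∑ R ∈ off J, g (T ∪ R) := by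
  have h := sum_split J (fun T R => g (T ∪ R))
  rw [← h]
  refine Finset.sum_congr rfl fun S _ => ?_
  congr 1
  ext e; simp only [Finset.mem_union, Finset.mem_inter, Finset.mem_sdiff]; tauto

/-! ### Restricted functions -/

/-- The coefficient at `T ⊆ J` of the restriction of `F` to `J` with outside values `z`. -/
noncomputable def hc (p : ℝ) (F : (E → Bool) → ℝ) (J T : Finset E) (z : E → Bool) : ℝ :=
  poly p (off J) (fun R => coef p F (T ∪ R)) z

lemma mix_expand {p : ℝ} (hp : 0 < p) (hp1 : p < 1) (F : (E → Bool) → ℝ) (J : Finset E)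
    (x z : E → Bool) :
    F (mix J x z) = poly p J.powerset (fun T => hc p F J T z) x := by
  rw [expand hp hp1 F (mix J x z)]
  have h1 : ∀ S : Finset E, coef p F S * chi p S (mix J x z)
      = coef p F ((S ∩ J) ∪ (S \ J)) * (chi p (S ∩ J) x * chi p (S \ J) z) := by
    intro S
    rw [chi_mix]
    congr 2
    ext e; simp only [Finset.mem_union, Finset.mem_inter, Finset.mem_sdiff]; tauto
  rw [Finset.sum_congr rfl fun S _ => h1 S]
  rw [sum_split J (fun T R => coef p F (T ∪ R) * (chi p T x * chi p R z))]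
  unfold hc poly
  refine Finset.sum_congr rfl fun T _ => ?_
  rw [Finset.sum_mul]
  exact Finset.sum_congr rfl fun R _ => by ring

lemma hc_sq_sum {p : ℝ} (hp : 0 < p) (hp1 : p < 1) (F : (E → Bool) → ℝ) (J : Finset E)
    (z : E → Bool) :
    ∑ T ∈ J.powerset, hc p F J T z ^ 2 = EE p (fun x => F (mix J x z) ^ 2) := by
  rw [← EE_poly_sq hp hp1]
  exact EE_congr fun x => by rw [mix_expand hp hp1 F J x z]

lemma EE_hc_sq {p : ℝ} (hp : 0 < p) (hp1 : p < 1) (F : (E → Bool) → ℝ) (J T : Finset E) :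
    EE p (fun z => hc p F J T z ^ 2) = ∑ R ∈ off J, coef p F (T ∪ R) ^ 2 := by
  unfold hc
  rw [EE_poly_sq hp hp1]

/-! ### Derivatives of polynomials -/

lemma chi_update_mem (p : ℝ) {U : Finset E} {i : E} (hi : i ∉ U) (x : E → Bool) (b : Bool) :
    chi p (insert i U) (Function.update x i b) = phi p b * chi p U x := by
  unfold chi
  rw [Finset.prod_insert hi]
  congr 1
  · simp
  · refine Finset.prod_congr rfl fun e he => ?_
    have : e ≠ i := fun h => hi (h ▸ he)
    simp [this]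

lemma chi_update_not_mem (p : ℝ) {U : Finset E} {i : E} (hi : i ∉ U) (x : E → Bool) (b : Bool) :
    chi p U (Function.update x i b) = chi p U x := by
  unfold chi
  refine Finset.prod_congr rfl fun e he => ?_
  have : e ≠ i := fun h => hi (h ▸ he)
  simp [this]

lemma poly_deriv {p : ℝ} (hp : 0 < p) (hp1 : p < 1) (J : Finset E) (c : Finset E → ℝ) {i : E}
    (hi : i ∈ J) (x : E → Bool) :
    √(p * (1 - p)) * (poly p J.powerset c (Function.update x i true)
        - poly p J.powerset c (Function.update x i false))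
      = poly p (J.erase i).powerset (fun U => c (insert i U)) x := by
  have hJ : insert i (J.erase i) = J := Finset.insert_erase hi
  have hni : i ∉ J.erase i := Finset.notMem_erase i J
  have h1 : ∀ b, poly p J.powerset c (Function.update x i b)
      = ∑ U ∈ (J.erase i).powerset, c U * chi p U x
        + phi p b * ∑ U ∈ (J.erase i).powerset, c (insert i U) * chi p U x := by
    intro b
    unfold poly
    conv_lhs => rw [← hJ]
    rw [Finset.sum_powerset_insert hni]
    congr 1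
    · refine Finset.sum_congr rfl fun U hU => ?_
      have : i ∉ U := fun h => hni (Finset.mem_powerset.mp hU h)
      rw [chi_update_not_mem p this]
    · rw [Finset.mul_sum]
      refine Finset.sum_congr rfl fun U hU => ?_
      have : i ∉ U := fun h => hni (Finset.mem_powerset.mp hU h)
      rw [chi_update_mem p this]
      ring
  rw [h1 true, h1 false]
  have hj := phi_jump hp hp1
  unfold poly
  calc _ = (√(p * (1 - p)) * (phi p true - phi p false))
        * ∑ U ∈ (J.erase i).powerset, c (insert i U) * chi p U x := by ring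
    _ = _ := by rw [hj, one_mul]

/-! ### Boolean functions -/

/-- The 0-1 value of a Boolean function. -/
def bf (f : (E → Bool) → Bool) (x : E → Bool) : ℝ := if f x = true then 1 else 0

/-- The indicator of a proposition. -/
noncomputable def ind (P : Prop) : ℝ := by
  classical exact if P then 1 else 0

lemma ind_true {P : Prop} (h : P) : ind P = 1 := by simp [ind, h]
lemma ind_false {P : Prop} (h : ¬ P) : ind P = 0 := by simp [ind, h]
lemma ind_nonneg (P : Prop) : 0 ≤ ind P := by unfold ind; split_ifs <;> norm_num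
lemma ind_le_one (P : Prop) : ind P ≤ 1 := by unfold ind; split_ifs <;> norm_num
lemma ind_sq (P : Prop) : ind P ^ 2 = ind P := by unfold ind; split_ifs <;> norm_num
lemma ind_mul_self (P : Prop) : ind P * ind P = ind P := by unfold ind; split_ifs <;> norm_num
lemma ind_mono {P Q : Prop} (h : P → Q) : ind P ≤ ind Q := by
  by_cases hP : P
  · rw [ind_true hP, ind_true (h hP)]
  · rw [ind_false hP]; exact ind_nonneg Q
lemma ind_not (P : Prop) : ind (¬ P) = 1 - ind P := by
  by_cases hP : P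
  · rw [ind_true hP, ind_false (not_not.mpr hP)]; ring
  · rw [ind_false hP, ind_true hP]; ring

lemma prob_eq_EE (p : ℝ) (A : Set (E → Bool)) :
    bernoulliProb p A = EE p (fun x => ind (x ∈ A)) := by
  classical
  unfold bernoulliProb EE ind
  rw [Finset.sum_filter]
  refine Finset.sum_congr rfl fun x _ => ?_
  by_cases h : x ∈ A <;> simp [h]

/-- The pivotal probability of `i` for the restriction. -/
noncomputable def pz (p : ℝ) (f : (E → Bool) → Bool) (J : Finset E) (i : E) (z : E → Bool) : ℝ :=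
  EE p (fun x => ind (f (mix J (Function.update x i true) z)
    ≠ f (mix J (Function.update x i false) z)))

lemma pz_nonneg {p : ℝ} (hp : 0 < p) (hp1 : p < 1) (f : (E → Bool) → Bool) (J : Finset E) (i : E)
    (z : E → Bool) : 0 ≤ pz p f J i z := EE_nonneg hp hp1 fun _ => ind_nonneg _

lemma mix_update (J : Finset E) {i : E} (hi : i ∈ J) (x z : E → Bool) (b : Bool) :
    mix J (Function.update x i b) z = Function.update (mix J x z) i b := by
  funext e
  unfold mix
  by_cases he : e = i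
  · subst he; simp [hi]
  · simp [he]

lemma EE_pz (p : ℝ) (f : (E → Bool) → Bool) (J : Finset E) {i : E} (hi : i ∈ J) :
    EE p (fun z => pz p f J i z) = piv p f i := by
  unfold piv
  rw [prob_eq_EE]
  rw [← EE_mix p J (fun x : E → Bool => ind (x ∈ {x : E → Bool |
    f (Function.update x i true) ≠ f (Function.update x i false)}))]
  refine EE_congr fun z => ?_
  unfold pz
  refine EE_congr fun x => ?_
  simp only [mix_update J hi]
  rfl

lemma bf_sub_sq (f : (E → Bool) → Bool) (a b : E → Bool) :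
    (bf f a - bf f b) ^ 2 = ind (f a ≠ f b) := by
  unfold bf
  cases ha : f a <;> cases hb : f b
  · rw [ind_false (by simp)]; simp
  · rw [ind_true (by simp)]; norm_num
  · rw [ind_true (by simp)]; norm_num
  · rw [ind_false (by simp)]; simp

/-- The derivative of the restriction, as a polynomial. -/
noncomputable def Dg (p : ℝ) (f : (E → Bool) → Bool) (J : Finset E) (i : E) (z x : E → Bool) : ℝ :=
  poly p (J.erase i).powerset (fun U => hc p (bf f) J (insert i U) z) x

lemma Dg_eq {p : ℝ} (hp : 0 < p) (hp1 : p < 1) (f : (E → Bool) → Bool) (J : Finset E) {i : E}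
    (hi : i ∈ J) (z x : E → Bool) :
    Dg p f J i z x = √(p * (1 - p)) * (bf f (mix J (Function.update x i true) z)
      - bf f (mix J (Function.update x i false) z)) := by
  rw [mix_expand hp hp1 (bf f) J _ z, mix_expand hp hp1 (bf f) J _ z]
  rw [poly_deriv hp hp1 J _ hi x]
  rfl

lemma Dg_sq {p : ℝ} (hp : 0 < p) (hp1 : p < 1) (f : (E → Bool) → Bool) (J : Finset E) {i : E}
    (hi : i ∈ J) (z x : E → Bool) :
    Dg p f J i z x ^ 2 = (p * (1 - p)) * ind (f (mix J (Function.update x i true) z)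
      ≠ f (mix J (Function.update x i false) z)) := by
  have h1 : (0:ℝ) < 1 - p := by linarith
  rw [Dg_eq hp hp1 f J hi, mul_pow, Real.sq_sqrt (by positivity), bf_sub_sq]

lemma Dg_mul_ind {p : ℝ} (hp : 0 < p) (hp1 : p < 1) (f : (E → Bool) → Bool) (J : Finset E) {i : E}
    (hi : i ∈ J) (z x : E → Bool) :
    Dg p f J i z x = Dg p f J i z x * ind (f (mix J (Function.update x i true) z)
      ≠ f (mix J (Function.update x i false) z)) := by
  by_cases h : f (mix J (Function.update x i true) z) ≠ f (mix J (Function.update x i false) z)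
  · rw [ind_true h, mul_one]
  · rw [ind_false h, mul_zero, Dg_eq hp hp1 f J hi]
    have h' : f (mix J (Function.update x i true) z) = f (mix J (Function.update x i false) z) := by
      by_contra hc; exact h hc
    unfold bf
    rw [h', sub_self, mul_zero]

lemma EE_Dg_sq {p : ℝ} (hp : 0 < p) (hp1 : p < 1) (f : (E → Bool) → Bool) (J : Finset E) {i : E}
    (hi : i ∈ J) (z : E → Bool) :
    EE p (fun x => Dg p f J i z x ^ 2) = (p * (1 - p)) * pz p f J i z := by
  rw [EE_congr fun x => Dg_sq hp hp1 f J hi z x, EE_const_mul]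
  rfl

/-! ### The KKL-type estimate inside the restriction -/

lemma kkl_one {p : ℝ} (hp : 0 < p) (hp1 : p < 1) (hb : Bonami E p) (f : (E → Bool) → Bool)
    (J : Finset E) {i : E} (hi : i ∈ J) (z : E → Bool) (k0 : ℕ) (τ θ : ℝ) (_hτ : 0 ≤ τ)
    (hθ : 0 ≤ θ) (hB : (4 / (p * (1 - p))) ^ k0 * τ ≤ θ ^ 2) (hpz : pz p f J i z ≤ τ) :
    ∑ U ∈ (J.erase i).powerset.filter (fun U => U.card ≤ k0), hc p (bf f) J (insert i U) z ^ 2
      ≤ θ * ((p * (1 - p)) * pz p f J i z) := by
  have h1 : (0:ℝ) < 1 - p := by linarith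
  set 𝒮 := (J.erase i).powerset.filter (fun U => U.card ≤ k0) with h𝒮
  set c : Finset E → ℝ := fun U => hc p (bf f) J (insert i U) z with hcdef
  set I : (E → Bool) → ℝ := fun x => ind (f (mix J (Function.update x i true) z)
      ≠ f (mix J (Function.update x i false) z)) with hI
  set a : ℝ := ∑ U ∈ 𝒮, c U ^ 2 with ha
  have ha0 : 0 ≤ a := Finset.sum_nonneg fun _ _ => sq_nonneg _
  have hpz0 := pz_nonneg hp hp1 f J i z
  -- inner product
  have e1 : EE p (fun x => (poly p 𝒮 c x * I x) * Dg p f J i z x) = a := by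
    have : EE p (fun x => (poly p 𝒮 c x * I x) * Dg p f J i z x)
        = EE p (fun x => poly p 𝒮 c x * poly p (J.erase i).powerset c x) := by
      refine EE_congr fun x => ?_
      have := Dg_mul_ind hp hp1 f J hi z x
      calc (poly p 𝒮 c x * I x) * Dg p f J i z x
          = poly p 𝒮 c x * (Dg p f J i z x * I x) := by ring
        _ = poly p 𝒮 c x * Dg p f J i z x := by rw [← this]
        _ = _ := rfl
    rw [this, EE_poly_mul_poly hp hp1]
    have h𝒮sub : 𝒮 ∩ (J.erase i).powerset = 𝒮 :=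
      Finset.inter_eq_left.mpr (Finset.filter_subset _ _)
    rw [h𝒮sub]
    exact Finset.sum_congr rfl fun U _ => (sq _).symm
  have e2 : a ^ 2 ≤ EE p (fun x => (poly p 𝒮 c x * I x) ^ 2) * ((p * (1 - p)) * pz p f J i z) := by
    have := cauchy hp hp1 (fun x => poly p 𝒮 c x * I x) (fun x => Dg p f J i z x)
    rw [e1, EE_Dg_sq hp hp1 f J hi z] at this
    exact this
  have e3 : (EE p (fun x => (poly p 𝒮 c x * I x) ^ 2)) ^ 2
      ≤ EE p (fun x => (poly p 𝒮 c x) ^ 4) * pz p f J i z := by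
    have := cauchy hp hp1 (fun x => (poly p 𝒮 c x) ^ 2) (fun x => I x)
    have h2 : EE p (fun x => I x ^ 2) = pz p f J i z := by
      unfold pz; exact EE_congr fun x => ind_sq _
    have h3 : EE p (fun x => (poly p 𝒮 c x * I x) ^ 2) = EE p (fun x => (poly p 𝒮 c x) ^ 2 * I x) := by
      refine EE_congr fun x => ?_
      rw [mul_pow]; congr 1; exact ind_sq _
    have h4 : EE p (fun x => ((poly p 𝒮 c x) ^ 2) ^ 2) = EE p (fun x => (poly p 𝒮 c x) ^ 4) :=
      EE_congr fun x => by ring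
    rw [h3]; rw [h2, h4] at this; exact this
  have e4 : EE p (fun x => (poly p 𝒮 c x) ^ 4) ≤ (4 / (p * (1 - p))) ^ k0 * a ^ 2 := by
    have := hb 𝒮 c k0 (fun S hS => (Finset.mem_filter.mp hS).2)
    rw [EE_poly_sq hp hp1] at this
    exact this
  set b : ℝ := EE p (fun x => (poly p 𝒮 c x * I x) ^ 2) with hbdef
  have hb0 : 0 ≤ b := EE_nonneg hp hp1 fun _ => sq_nonneg _
  have e5 : b ^ 2 ≤ (θ * a) ^ 2 := by
    calc b ^ 2 ≤ EE p (fun x => (poly p 𝒮 c x) ^ 4) * pz p f J i z := e3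
      _ ≤ ((4 / (p * (1 - p))) ^ k0 * a ^ 2) * τ :=
          mul_le_mul e4 hpz hpz0 (by positivity)
      _ = ((4 / (p * (1 - p))) ^ k0 * τ) * a ^ 2 := by ring
      _ ≤ θ ^ 2 * a ^ 2 := mul_le_mul_of_nonneg_right hB (sq_nonneg _)
      _ = (θ * a) ^ 2 := by ring
  have e6 : b ≤ θ * a := abs_le_of_sq_le_sq' e5 (mul_nonneg hθ ha0) |>.2
  set m : ℝ := (p * (1 - p)) * pz p f J i z with hm
  have hm0 : 0 ≤ m := by positivity
  have e7 : a ^ 2 ≤ (θ * a) * m := e2.trans (mul_le_mul_of_nonneg_right e6 hm0)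
  rcases ha0.eq_or_lt with h | h
  · rw [← h]; positivity
  · have : a * a ≤ (θ * m) * a := by nlinarith
    exact le_of_mul_le_mul_right this h

/-! ### The estimate for a single trace `T` -/

/-- The outside parts `R` of sets `T ∪ R` of size at most `min (c |T|) D`. -/
def offc (J T : Finset E) (c D : ℕ) : Finset (Finset E) :=
  (off J).filter (fun R => (T ∪ R).card ≤ c * T.card ∧ (T ∪ R).card ≤ D)

/-- The Fourier weight of the sets with trace `T` caught by `J`. -/
noncomputable def wT (p : ℝ) (F : (E → Bool) → ℝ) (J T : Finset E) (c D : ℕ) : ℝ :=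
  ∑ R ∈ offc J T c D, coef p F (T ∪ R) ^ 2

/-- The Fourier weight of the sets with trace `T`. -/
noncomputable def vT (p : ℝ) (F : (E → Bool) → ℝ) (J T : Finset E) : ℝ :=
  ∑ R ∈ off J, coef p F (T ∪ R) ^ 2

lemma wT_nonneg (p : ℝ) (F : (E → Bool) → ℝ) (J T : Finset E) (c D : ℕ) :
    0 ≤ wT p F J T c D := Finset.sum_nonneg fun _ _ => sq_nonneg _

lemma vT_nonneg (p : ℝ) (F : (E → Bool) → ℝ) (J T : Finset E) :
    0 ≤ vT p F J T := Finset.sum_nonneg fun _ _ => sq_nonneg _

lemma per_T {p : ℝ} (hp : 0 < p) (hp1 : p < 1) (hb : Bonami E p) (F : (E → Bool) → ℝ)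
    (J T : Finset E) (c D : ℕ) (Q : (E → Bool) → Prop) (η : ℝ) (hη : 0 ≤ η)
    (hq : (4 / (p * (1 - p))) ^ (c * T.card) * EE p (fun z => ind (Q z)) ≤ η ^ 2) :
    wT p F J T c D ≤ 2 * η * vT p F J T + 2 * EE p (fun z => hc p F J T z ^ 2 * ind (¬ Q z)) := by
  have h1 : (0:ℝ) < 1 - p := by linarith
  set w := wT p F J T c D with hw
  set v := vT p F J T with hv
  set q := EE p (fun z => ind (Q z)) with hqdef
  set e := EE p (fun z => hc p F J T z ^ 2 * ind (¬ Q z)) with he
  have hw0 : 0 ≤ w := wT_nonneg _ _ _ _ _ _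
  have hv0 : 0 ≤ v := vT_nonneg _ _ _ _
  have hq0 : 0 ≤ q := EE_nonneg hp hp1 fun _ => ind_nonneg _
  have he0 : 0 ≤ e := EE_nonneg hp hp1 fun _ => mul_nonneg (sq_nonneg _) (ind_nonneg _)
  set 𝒮 := offc J T c D with h𝒮
  set cf : Finset E → ℝ := fun R => coef p F (T ∪ R) with hcf
  set A := EE p (fun z => (poly p 𝒮 cf z * ind (Q z)) * hc p F J T z) with hA
  set C := EE p (fun z => poly p 𝒮 cf z * (hc p F J T z * ind (¬ Q z))) with hC
  have hAC : w = A + C := by
    rw [hA, hC, ← EE_add]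
    have : w = EE p (fun z => poly p 𝒮 cf z * poly p (off J) cf z) := by
      have hsub : 𝒮 ∩ off J = 𝒮 := Finset.inter_eq_left.mpr (Finset.filter_subset _ _)
      rw [EE_poly_mul_poly hp hp1, hsub]
      rw [hw]; unfold wT
      exact Finset.sum_congr rfl fun U _ => (sq _)
    rw [this]
    refine EE_congr fun z => ?_
    have hz : hc p F J T z = poly p (off J) cf z := rfl
    rw [hz, ind_not]; ring
  have hwsq : EE p (fun z => (poly p 𝒮 cf z) ^ 2) = w := EE_poly_sq hp hp1 _ _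
  have hvsq : EE p (fun z => (hc p F J T z) ^ 2) = v := EE_hc_sq hp hp1 F J T
  -- the first part
  set b := EE p (fun z => (poly p 𝒮 cf z * ind (Q z)) ^ 2) with hbdef
  have hb0 : 0 ≤ b := EE_nonneg hp hp1 fun _ => sq_nonneg _
  have a1 : A ^ 2 ≤ b * v := by
    have := cauchy hp hp1 (fun z => poly p 𝒮 cf z * ind (Q z)) (fun z => hc p F J T z)
    rw [hvsq] at this
    exact this
  have a2 : b ^ 2 ≤ EE p (fun z => (poly p 𝒮 cf z) ^ 4) * q := by
    have := cauchy hp hp1 (fun z => (poly p 𝒮 cf z) ^ 2) (fun z => ind (Q z))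
    have h2 : EE p (fun z => ind (Q z) ^ 2) = q := EE_congr fun x => ind_sq _
    have h3 : b = EE p (fun z => (poly p 𝒮 cf z) ^ 2 * ind (Q z)) := by
      rw [hbdef]
      refine EE_congr fun x => ?_
      rw [mul_pow]; congr 1; exact ind_sq _
    have h4 : EE p (fun z => ((poly p 𝒮 cf z) ^ 2) ^ 2) = EE p (fun z => (poly p 𝒮 cf z) ^ 4) :=
      EE_congr fun x => by ring
    rw [h3]; rw [h2, h4] at this; exact this
  have a3 : EE p (fun z => (poly p 𝒮 cf z) ^ 4) ≤ (4 / (p * (1 - p))) ^ (c * T.card) * w ^ 2 := by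
    have := hb 𝒮 cf (c * T.card) (fun R hR => by
      have h2 := (Finset.mem_filter.mp hR).2.1
      exact (Finset.card_le_card Finset.subset_union_right).trans h2)
    rw [hwsq] at this
    exact this
  have a4 : b ^ 2 ≤ (η * w) ^ 2 := by
    calc b ^ 2 ≤ EE p (fun z => (poly p 𝒮 cf z) ^ 4) * q := a2
      _ ≤ ((4 / (p * (1 - p))) ^ (c * T.card) * w ^ 2) * q := mul_le_mul_of_nonneg_right a3 hq0
      _ = ((4 / (p * (1 - p))) ^ (c * T.card) * q) * w ^ 2 := by ring
      _ ≤ η ^ 2 * w ^ 2 := mul_le_mul_of_nonneg_right hq (sq_nonneg _)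
      _ = (η * w) ^ 2 := by ring
  have a5 : b ≤ η * w := abs_le_of_sq_le_sq' a4 (mul_nonneg hη hw0) |>.2
  have a6 : A ^ 2 ≤ η * w * v := a1.trans (mul_le_mul_of_nonneg_right a5 hv0)
  -- the second part
  have c1 : C ^ 2 ≤ w * e := by
    have := cauchy hp hp1 (fun z => poly p 𝒮 cf z) (fun z => hc p F J T z * ind (¬ Q z))
    rw [hwsq] at this
    have h3 : EE p (fun z => (hc p F J T z * ind (¬ Q z)) ^ 2) = e := by
      rw [he]
      refine EE_congr fun x => ?_
      rw [mul_pow]; congr 1; exact ind_sq _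
    rw [h3] at this
    exact this
  have d1 : w ^ 2 ≤ 2 * (η * w * v) + 2 * (w * e) := by
    have : w ^ 2 ≤ 2 * A ^ 2 + 2 * C ^ 2 := by rw [hAC]; nlinarith [sq_nonneg (A - C)]
    linarith
  rcases hw0.eq_or_lt with h | h
  · rw [← h]; positivity
  · have : w * w ≤ (2 * η * v + 2 * e) * w := by nlinarith
    exact le_of_mul_le_mul_right this h

/-! ### The key estimate -/

/-- The coordinates of `J` with restricted pivotal probability at least `τ`. -/
noncomputable def J0 (p : ℝ) (f : (E → Bool) → Bool) (J : Finset E) (τ : ℝ) (z : E → Bool) :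
    Finset E := by
  classical exact J.filter (fun i => τ ≤ pz p f J i z)

lemma mem_J0 {p : ℝ} {f : (E → Bool) → Bool} {J : Finset E} {τ : ℝ} {z : E → Bool} {i : E} :
    i ∈ J0 p f J τ z ↔ i ∈ J ∧ τ ≤ pz p f J i z := by
  classical
  simp [J0]

/-- The good event for the trace `T`. -/
def QT (p : ℝ) (f : (E → Bool) → Bool) (J : Finset E) (τ M : ℝ) (T : Finset E) (z : E → Bool) :
    Prop :=
  T ⊆ J0 p f J τ z ∧ ((J0 p f J τ z).card : ℝ) ≤ M

lemma bf_sq (f : (E → Bool) → Bool) (x : E → Bool) : bf f x ^ 2 = bf f x := by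
  unfold bf; split_ifs <;> norm_num

lemma bf_le_one (f : (E → Bool) → Bool) (x : E → Bool) : bf f x ≤ 1 := by
  unfold bf; split_ifs <;> norm_num

lemma bf_nonneg (f : (E → Bool) → Bool) (x : E → Bool) : 0 ≤ bf f x := by
  unfold bf; split_ifs <;> norm_num

lemma hc_sum_le_one {p : ℝ} (hp : 0 < p) (hp1 : p < 1) (f : (E → Bool) → Bool) (J : Finset E)
    (z : E → Bool) : ∑ T ∈ J.powerset, hc p (bf f) J T z ^ 2 ≤ 1 := by
  rw [hc_sq_sum hp hp1]
  calc EE p (fun x => bf f (mix J x z) ^ 2) ≤ EE p (fun _ => (1:ℝ)) :=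
        EE_mono hp hp1 fun x => by rw [bf_sq]; exact bf_le_one _ _
    _ = 1 := EE_one p

lemma err_pointwise {p : ℝ} (hp : 0 < p) (hp1 : p < 1) (hb : Bonami E p) (f : (E → Bool) → Bool)
    (J : Finset E) (𝒢 : Finset (Finset E)) (k0 : ℕ) (h𝒢 : ∀ T ∈ 𝒢, T ⊆ J ∧ 1 ≤ T.card ∧ T.card ≤ k0)
    (τ θ M : ℝ) (hτ : 0 < τ) (hθ : 0 ≤ θ) (hM : 0 < M)
    (hB : (4 / (p * (1 - p))) ^ k0 * τ ≤ θ ^ 2) (z : E → Bool) :
    ∑ T ∈ 𝒢, hc p (bf f) J T z ^ 2 * ind (¬ QT p f J τ M T z)
      ≤ (θ * (p * (1 - p)) + 1 / (τ * M)) * ∑ i ∈ J, pz p f J i z := by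
  classical
  have h1 : (0:ℝ) < 1 - p := by linarith
  have hpz : ∀ i, 0 ≤ pz p f J i z := fun i => pz_nonneg hp hp1 f J i z
  -- split the event
  have s1 : ∀ T ∈ 𝒢, hc p (bf f) J T z ^ 2 * ind (¬ QT p f J τ M T z)
      ≤ (∑ i ∈ T.filter (fun i => i ∉ J0 p f J τ z), hc p (bf f) J T z ^ 2)
        + hc p (bf f) J T z ^ 2 * ind (M < ((J0 p f J τ z).card : ℝ)) := by
    intro T hT
    by_cases hQ : QT p f J τ M T z
    · rw [ind_false (not_not.mpr hQ), mul_zero]
      exact add_nonneg (Finset.sum_nonneg fun _ _ => sq_nonneg _)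
        (mul_nonneg (sq_nonneg _) (ind_nonneg _))
    · rw [ind_true hQ, mul_one]
      unfold QT at hQ
      by_cases hs : T ⊆ J0 p f J τ z
      · have : M < ((J0 p f J τ z).card : ℝ) := by
          by_contra hcon
          exact hQ ⟨hs, not_lt.mp hcon⟩
        rw [ind_true this, mul_one]
        have : 0 ≤ ∑ i ∈ T.filter (fun i => i ∉ J0 p f J τ z), hc p (bf f) J T z ^ 2 :=
          Finset.sum_nonneg fun _ _ => sq_nonneg _
        linarith
      · obtain ⟨i, hi, hi'⟩ := Finset.not_subset.mp hs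
        have hmem : i ∈ T.filter (fun i => i ∉ J0 p f J τ z) := Finset.mem_filter.mpr ⟨hi, hi'⟩
        have := Finset.single_le_sum (f := fun _ : E => hc p (bf f) J T z ^ 2)
          (fun _ _ => sq_nonneg _) hmem
        have h3 : 0 ≤ hc p (bf f) J T z ^ 2 * ind (M < ((J0 p f J τ z).card : ℝ)) :=
          mul_nonneg (sq_nonneg _) (ind_nonneg _)
        linarith
  have s2 : ∑ T ∈ 𝒢, ∑ i ∈ T.filter (fun i => i ∉ J0 p f J τ z), hc p (bf f) J T z ^ 2
      ≤ ∑ i ∈ J.filter (fun i => i ∉ J0 p f J τ z), θ * ((p * (1 - p)) * pz p f J i z) := by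
    have e1 : ∑ T ∈ 𝒢, ∑ i ∈ T.filter (fun i => i ∉ J0 p f J τ z), hc p (bf f) J T z ^ 2
        = ∑ i ∈ J.filter (fun i => i ∉ J0 p f J τ z), ∑ T ∈ 𝒢.filter (fun T => i ∈ T),
            hc p (bf f) J T z ^ 2 := by
      refine Finset.sum_comm' ?_
      intro T i
      simp only [Finset.mem_filter]
      constructor
      · rintro ⟨hT, hiT, hi⟩
        exact ⟨⟨hT, hiT⟩, (h𝒢 T hT).1 hiT, hi⟩
      · rintro ⟨⟨hT, hiT⟩, _, hi⟩
        exact ⟨hT, hiT, hi⟩
    rw [e1]
    refine Finset.sum_le_sum fun i hi => ?_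
    obtain ⟨hiJ, hi0⟩ := Finset.mem_filter.mp hi
    have hlt : pz p f J i z ≤ τ := by
      by_contra hcon
      exact hi0 (mem_J0.mpr ⟨hiJ, (not_le.mp hcon).le⟩)
    refine le_trans ?_ (kkl_one hp hp1 hb f J hiJ z k0 τ θ hτ.le hθ hB hlt)
    -- reindex T = insert i U
    have e2 : ∑ T ∈ 𝒢.filter (fun T => i ∈ T), hc p (bf f) J T z ^ 2
        = ∑ U ∈ (𝒢.filter (fun T => i ∈ T)).image (fun T => T.erase i),
            hc p (bf f) J (insert i U) z ^ 2 := by
      rw [Finset.sum_image]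
      · refine Finset.sum_congr rfl fun T hT => ?_
        rw [Finset.insert_erase (Finset.mem_filter.mp hT).2]
      · intro T hT T' hT' h
        have hT := (Finset.mem_filter.mp hT).2
        have hT' := (Finset.mem_filter.mp hT').2
        have h' : T.erase i = T'.erase i := h
        rw [← Finset.insert_erase hT, ← Finset.insert_erase hT', h']
    rw [e2]
    refine Finset.sum_le_sum_of_subset_of_nonneg ?_ fun _ _ _ => sq_nonneg _
    intro U hU
    obtain ⟨T, hT, rfl⟩ := Finset.mem_image.mp hU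
    obtain ⟨hT𝒢, hiT⟩ := Finset.mem_filter.mp hT
    obtain ⟨hTJ, _, hTk⟩ := h𝒢 T hT𝒢
    refine Finset.mem_filter.mpr ⟨Finset.mem_powerset.mpr (Finset.erase_subset_erase _ hTJ), ?_⟩
    exact (Finset.card_le_card (Finset.erase_subset _ _)).trans hTk
  have s3 : ∑ i ∈ J.filter (fun i => i ∉ J0 p f J τ z), θ * ((p * (1 - p)) * pz p f J i z)
      ≤ θ * (p * (1 - p)) * ∑ i ∈ J, pz p f J i z := by
    rw [Finset.mul_sum]
    refine (Finset.sum_le_sum_of_subset_of_nonneg (Finset.filter_subset _ _) ?_).trans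
      (le_of_eq (Finset.sum_congr rfl fun i _ => by ring))
    intro i _ _
    have := hpz i
    positivity
  have s4 : ind (M < ((J0 p f J τ z).card : ℝ)) ≤ 1 / (τ * M) * ∑ i ∈ J, pz p f J i z := by
    have hcard : ((J0 p f J τ z).card : ℝ) * τ ≤ ∑ i ∈ J, pz p f J i z := by
      have hsub : J0 p f J τ z ⊆ J := fun i hi => (mem_J0.mp hi).1
      calc ((J0 p f J τ z).card : ℝ) * τ = ∑ i ∈ J0 p f J τ z, τ := by simp
        _ ≤ ∑ i ∈ J0 p f J τ z, pz p f J i z := Finset.sum_le_sum fun i hi => (mem_J0.mp hi).2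
        _ ≤ _ := Finset.sum_le_sum_of_subset_of_nonneg hsub fun i _ _ => hpz i
    have hsum0 : 0 ≤ ∑ i ∈ J, pz p f J i z := Finset.sum_nonneg fun i _ => hpz i
    by_cases h : M < ((J0 p f J τ z).card : ℝ)
    · rw [ind_true h]
      have h5 : M * τ ≤ ∑ i ∈ J, pz p f J i z :=
        (mul_le_mul_of_nonneg_right h.le hτ.le).trans hcard
      have h6 : 0 < τ * M := by positivity
      rw [one_div, inv_mul_eq_div, le_div_iff₀ h6]
      linarith
    · rw [ind_false h]; positivity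
  have s5 : ∑ T ∈ 𝒢, hc p (bf f) J T z ^ 2 * ind (M < ((J0 p f J τ z).card : ℝ))
      ≤ 1 / (τ * M) * ∑ i ∈ J, pz p f J i z := by
    rw [← Finset.sum_mul]
    have h7 : ∑ T ∈ 𝒢, hc p (bf f) J T z ^ 2 ≤ 1 := by
      refine le_trans ?_ (hc_sum_le_one hp hp1 f J z)
      exact Finset.sum_le_sum_of_subset_of_nonneg
        (fun T hT => Finset.mem_powerset.mpr (h𝒢 T hT).1) fun _ _ _ => sq_nonneg _
    calc (∑ T ∈ 𝒢, hc p (bf f) J T z ^ 2) * ind (M < ((J0 p f J τ z).card : ℝ))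
        ≤ 1 * ind (M < ((J0 p f J τ z).card : ℝ)) :=
          mul_le_mul_of_nonneg_right h7 (ind_nonneg _)
      _ ≤ _ := by rw [one_mul]; exact s4
  calc ∑ T ∈ 𝒢, hc p (bf f) J T z ^ 2 * ind (¬ QT p f J τ M T z)
      ≤ ∑ T ∈ 𝒢, ((∑ i ∈ T.filter (fun i => i ∉ J0 p f J τ z), hc p (bf f) J T z ^ 2)
        + hc p (bf f) J T z ^ 2 * ind (M < ((J0 p f J τ z).card : ℝ))) := Finset.sum_le_sum s1
    _ = (∑ T ∈ 𝒢, ∑ i ∈ T.filter (fun i => i ∉ J0 p f J τ z), hc p (bf f) J T z ^ 2)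
        + ∑ T ∈ 𝒢, hc p (bf f) J T z ^ 2 * ind (M < ((J0 p f J τ z).card : ℝ)) :=
        Finset.sum_add_distrib
    _ ≤ θ * (p * (1 - p)) * ∑ i ∈ J, pz p f J i z + 1 / (τ * M) * ∑ i ∈ J, pz p f J i z :=
        add_le_add (s2.trans s3) s5
    _ = _ := by ring

lemma piv_nonneg {p : ℝ} (hp : 0 < p) (hp1 : p < 1) (f : (E → Bool) → Bool) (e : E) :
    0 ≤ piv p f e := by
  unfold piv
  rw [prob_eq_EE]
  exact EE_nonneg hp hp1 fun _ => ind_nonneg _

lemma err_bound {p : ℝ} (hp : 0 < p) (hp1 : p < 1) (hb : Bonami E p) (f : (E → Bool) → Bool)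
    (J : Finset E) (𝒢 : Finset (Finset E)) (k0 : ℕ) (h𝒢 : ∀ T ∈ 𝒢, T ⊆ J ∧ 1 ≤ T.card ∧ T.card ≤ k0)
    (τ θ M : ℝ) (hτ : 0 < τ) (hθ : 0 ≤ θ) (hM : 0 < M)
    (hB : (4 / (p * (1 - p))) ^ k0 * τ ≤ θ ^ 2) :
    ∑ T ∈ 𝒢, EE p (fun z => hc p (bf f) J T z ^ 2 * ind (¬ QT p f J τ M T z))
      ≤ (θ * (p * (1 - p)) + 1 / (τ * M)) * PI p f := by
  have h1 : (0:ℝ) < 1 - p := by linarith
  rw [← EE_sum p 𝒢 (fun T z => hc p (bf f) J T z ^ 2 * ind (¬ QT p f J τ M T z))]
  calc EE p (fun z => ∑ T ∈ 𝒢, hc p (bf f) J T z ^ 2 * ind (¬ QT p f J τ M T z))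
      ≤ EE p (fun z => (θ * (p * (1 - p)) + 1 / (τ * M)) * ∑ i ∈ J, pz p f J i z) :=
        EE_mono hp hp1 fun z => err_pointwise hp hp1 hb f J 𝒢 k0 h𝒢 τ θ M hτ hθ hM hB z
    _ = (θ * (p * (1 - p)) + 1 / (τ * M)) * ∑ i ∈ J, piv p f i := by
        rw [EE_const_mul, EE_sum p J (fun i z => pz p f J i z)]
        congr 1
        exact Finset.sum_congr rfl fun i hi => EE_pz p f J hi
    _ ≤ _ := by
        refine mul_le_mul_of_nonneg_left ?_ (by positivity)
        exact Finset.sum_le_sum_of_subset_of_nonneg (Finset.subset_univ _)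
          fun i _ _ => piv_nonneg hp hp1 f i

/-- The number of traces `T` of size `k` whose good event has probability above `ϑ ^ k`. -/
lemma count_star {p : ℝ} (hp : 0 < p) (hp1 : p < 1) (f : (E → Bool) → Bool)
    (J : Finset E) (τ M ϑ : ℝ) (hM : 0 < M) (hϑ : 0 < ϑ) (k : ℕ) (𝒯 : Finset (Finset E))
    (h𝒯 : ∀ T ∈ 𝒯, T.card = k ∧ ϑ ^ k < EE p (fun z => ind (QT p f J τ M T z))) :
    (𝒯.card : ℝ) ≤ (M / ϑ) ^ k := by
  classical
  have h2 : ∀ z, ∑ T ∈ 𝒯, ind (QT p f J τ M T z) ≤ M ^ k := by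
    intro z
    by_cases hz : ((J0 p f J τ z).card : ℝ) ≤ M
    · have : ∑ T ∈ 𝒯, ind (QT p f J τ M T z)
          ≤ ∑ T ∈ (J0 p f J τ z).powersetCard k, (1:ℝ) := by
        calc ∑ T ∈ 𝒯, ind (QT p f J τ M T z)
            ≤ ∑ T ∈ 𝒯.filter (fun T => T ∈ (J0 p f J τ z).powersetCard k), (1:ℝ) := by
              rw [Finset.sum_filter]
              refine Finset.sum_le_sum fun T hT => ?_
              split_ifs with h
              · exact ind_le_one _
              · rw [ind_false]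
                intro hQ
                exact h (Finset.mem_powersetCard.mpr ⟨hQ.1, (h𝒯 T hT).1⟩)
          _ ≤ _ := Finset.sum_le_sum_of_subset_of_nonneg
              (fun T hT => (Finset.mem_filter.mp hT).2) fun _ _ _ => zero_le_one
      refine this.trans ?_
      rw [Finset.sum_const, Finset.card_powersetCard, nsmul_eq_mul, mul_one]
      have h3 : ((J0 p f J τ z).card.choose k : ℝ) ≤ ((J0 p f J τ z).card : ℝ) ^ k := by
        exact_mod_cast Nat.choose_le_pow _ _
      exact h3.trans (pow_le_pow_left₀ (Nat.cast_nonneg _) hz k)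
    · have : ∑ T ∈ 𝒯, ind (QT p f J τ M T z) = 0 :=
        Finset.sum_eq_zero fun T _ => ind_false fun hQ => hz hQ.2
      rw [this]; positivity
  have h3 : (𝒯.card : ℝ) * ϑ ^ k ≤ M ^ k := by
    calc (𝒯.card : ℝ) * ϑ ^ k = ∑ T ∈ 𝒯, ϑ ^ k := by simp
      _ ≤ ∑ T ∈ 𝒯, EE p (fun z => ind (QT p f J τ M T z)) :=
          Finset.sum_le_sum fun T hT => (h𝒯 T hT).2.le
      _ = EE p (fun z => ∑ T ∈ 𝒯, ind (QT p f J τ M T z)) :=
          (EE_sum p 𝒯 (fun T z => ind (QT p f J τ M T z))).symm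
      _ ≤ EE p (fun _ => M ^ k) := EE_mono hp hp1 h2
      _ = M ^ k := EE_const p _
  rw [div_pow, le_div_iff₀ (by positivity)]
  exact h3

/-- The total Fourier weight of the nonempty sets. -/
noncomputable def VV (p : ℝ) (F : (E → Bool) → ℝ) : ℝ :=
  ∑ S ∈ Finset.univ.filter (fun S : Finset E => S.Nonempty), coef p F S ^ 2

lemma VV_nonneg (p : ℝ) (F : (E → Bool) → ℝ) : 0 ≤ VV p F :=
  Finset.sum_nonneg fun _ _ => sq_nonneg _

lemma sum_vT_le (p : ℝ) (F : (E → Bool) → ℝ) (J : Finset E) (𝒢 : Finset (Finset E))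
    (h𝒢 : ∀ T ∈ 𝒢, T ⊆ J ∧ 1 ≤ T.card) :
    ∑ T ∈ 𝒢, vT p F J T ≤ VV p F := by
  classical
  have h1 : VV p F = ∑ T ∈ J.powerset, ∑ R ∈ off J,
      (if (T ∪ R).Nonempty then coef p F (T ∪ R) ^ 2 else 0) := by
    unfold VV
    rw [Finset.sum_filter]
    exact sum_split' J (fun S => if S.Nonempty then coef p F S ^ 2 else 0)
  rw [h1]
  calc ∑ T ∈ 𝒢, vT p F J T
      = ∑ T ∈ 𝒢, ∑ R ∈ off J, (if (T ∪ R).Nonempty then coef p F (T ∪ R) ^ 2 else 0) := by
        refine Finset.sum_congr rfl fun T hT => ?_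
        refine Finset.sum_congr rfl fun R _ => ?_
        have : (T ∪ R).Nonempty := (Finset.card_pos.mp (h𝒢 T hT).2).mono Finset.subset_union_left
        rw [if_pos this]
    _ ≤ _ := by
        refine Finset.sum_le_sum_of_subset_of_nonneg
          (fun T hT => Finset.mem_powerset.mpr (h𝒢 T hT).1) fun T _ _ => ?_
        refine Finset.sum_nonneg fun R _ => ?_
        split_ifs
        · exact sq_nonneg _
        · exact le_rfl

/-- The key estimate. -/
theorem key {p : ℝ} (hp : 0 < p) (hp1 : p < 1) (hb : Bonami E p) (f : (E → Bool) → Bool)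
    (J : Finset E) (𝒢 : Finset (Finset E)) (k0 c D : ℕ)
    (h𝒢 : ∀ T ∈ 𝒢, T ⊆ J ∧ 1 ≤ T.card ∧ T.card ≤ k0)
    (τ θ M ϑ η : ℝ) (hτ : 0 < τ) (hθ : 0 ≤ θ) (hM : 0 < M) (hϑ : 0 < ϑ) (hη : 0 ≤ η) (hη1 : η ≤ 1)
    (hB : (4 / (p * (1 - p))) ^ k0 * τ ≤ θ ^ 2)
    (hBc : (4 / (p * (1 - p))) ^ c * ϑ ≤ η ^ 2)
    (μ : ℕ → ℝ) (hμ : ∀ T ∈ 𝒢, wT p (bf f) J T c D ≤ μ T.card) (hμ0 : ∀ k, 0 ≤ μ k) :
    ∑ T ∈ 𝒢, wT p (bf f) J T c D
      ≤ ∑ k ∈ Finset.Icc 1 k0, (M / ϑ) ^ k * μ k + 2 * η * VV p (bf f)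
        + 2 * ((θ * (p * (1 - p)) + 1 / (τ * M)) * PI p f) := by
  classical
  have h1 : (0:ℝ) < 1 - p := by linarith
  set q : Finset E → ℝ := fun T => EE p (fun z => ind (QT p f J τ M T z)) with hq
  set 𝒮 := 𝒢.filter (fun T => ϑ ^ T.card < q T) with h𝒮
  set 𝒩 := 𝒢.filter (fun T => ¬ ϑ ^ T.card < q T) with h𝒩
  have hsplit : ∑ T ∈ 𝒢, wT p (bf f) J T c D
      = ∑ T ∈ 𝒮, wT p (bf f) J T c D + ∑ T ∈ 𝒩, wT p (bf f) J T c D :=
    (Finset.sum_filter_add_sum_filter_not _ _ _).symm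
  have hS : ∑ T ∈ 𝒮, wT p (bf f) J T c D ≤ ∑ k ∈ Finset.Icc 1 k0, (M / ϑ) ^ k * μ k := by
    have e1 : ∑ T ∈ 𝒮, wT p (bf f) J T c D
        = ∑ k ∈ Finset.Icc 1 k0, ∑ T ∈ 𝒮.filter (fun T => T.card = k), wT p (bf f) J T c D := by
      refine (Finset.sum_fiberwise_of_maps_to (fun T hT => ?_) _).symm
      have := h𝒢 T (Finset.mem_filter.mp hT).1
      exact Finset.mem_Icc.mpr ⟨this.2.1, this.2.2⟩
    rw [e1]
    refine Finset.sum_le_sum fun k hk => ?_
    calc ∑ T ∈ 𝒮.filter (fun T => T.card = k), wT p (bf f) J T c D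
        ≤ ∑ T ∈ 𝒮.filter (fun T => T.card = k), μ k := by
          refine Finset.sum_le_sum fun T hT => ?_
          obtain ⟨hT1, hT2⟩ := Finset.mem_filter.mp hT
          have := hμ T (Finset.mem_filter.mp hT1).1
          rwa [hT2] at this
      _ = ((𝒮.filter (fun T => T.card = k)).card : ℝ) * μ k := by simp
      _ ≤ (M / ϑ) ^ k * μ k := by
          refine mul_le_mul_of_nonneg_right ?_ (hμ0 k)
          refine count_star hp hp1 f J τ M ϑ hM hϑ k _ fun T hT => ?_
          obtain ⟨hT1, hT2⟩ := Finset.mem_filter.mp hT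
          refine ⟨hT2, ?_⟩
          have := (Finset.mem_filter.mp hT1).2
          rwa [hT2] at this
  have hN : ∑ T ∈ 𝒩, wT p (bf f) J T c D
      ≤ 2 * η * VV p (bf f) + 2 * ((θ * (p * (1 - p)) + 1 / (τ * M)) * PI p f) := by
    have e1 : ∀ T ∈ 𝒩, wT p (bf f) J T c D ≤ 2 * η * vT p (bf f) J T
        + 2 * EE p (fun z => hc p (bf f) J T z ^ 2 * ind (¬ QT p f J τ M T z)) := by
      intro T hT
      obtain ⟨hT1, hT2⟩ := Finset.mem_filter.mp hT
      have hT3 : q T ≤ ϑ ^ T.card := not_lt.mp hT2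
      obtain ⟨_, hT4, _⟩ := h𝒢 T hT1
      refine per_T hp hp1 hb (bf f) J T c D (QT p f J τ M T) η hη ?_
      calc (4 / (p * (1 - p))) ^ (c * T.card) * q T
          ≤ (4 / (p * (1 - p))) ^ (c * T.card) * ϑ ^ T.card :=
            mul_le_mul_of_nonneg_left hT3 (by positivity)
        _ = ((4 / (p * (1 - p))) ^ c * ϑ) ^ T.card := by rw [pow_mul, mul_pow]
        _ ≤ (η ^ 2) ^ T.card := pow_le_pow_left₀ (by positivity) hBc _
        _ ≤ (η ^ 2) ^ 1 := by
            refine pow_le_pow_of_le_one (by positivity) ?_ hT4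
            nlinarith
        _ = η ^ 2 := pow_one _
    have h𝒩sub : 𝒩 ⊆ 𝒢 := Finset.filter_subset _ _
    calc ∑ T ∈ 𝒩, wT p (bf f) J T c D
        ≤ ∑ T ∈ 𝒩, (2 * η * vT p (bf f) J T
          + 2 * EE p (fun z => hc p (bf f) J T z ^ 2 * ind (¬ QT p f J τ M T z))) :=
          Finset.sum_le_sum e1
      _ = 2 * η * ∑ T ∈ 𝒩, vT p (bf f) J T
          + 2 * ∑ T ∈ 𝒩, EE p (fun z => hc p (bf f) J T z ^ 2 * ind (¬ QT p f J τ M T z)) := by
          rw [Finset.sum_add_distrib, Finset.mul_sum, Finset.mul_sum]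
      _ ≤ _ := by
          refine add_le_add ?_ ?_
          · refine mul_le_mul_of_nonneg_left ?_ (by positivity)
            exact sum_vT_le p (bf f) J 𝒩 fun T hT => ⟨(h𝒢 T (h𝒩sub hT)).1, (h𝒢 T (h𝒩sub hT)).2.1⟩
          · refine mul_le_mul_of_nonneg_left ?_ (by norm_num)
            exact err_bound hp hp1 hb f J 𝒩 k0 (fun T hT => h𝒢 T (h𝒩sub hT)) τ θ M hτ hθ hM hB
  rw [hsplit]
  linarith

end Crest.Agent.H6Key
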