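import Mathlib
import Crest.Prelude.Def_FinProb
import Crest.Agent.H6Defs
import Crest.Agent.H6Cube
import Crest.Agent.H6Key
import Crest.Agent.H27Orbit

/-!
Fourier identities for Boolean functions (variance, total influence, Poincaré), invariance of the
coefficients, and the averaging over the random set `J`.
-/

set_option autoImplicit false
set_option linter.unusedSectionVars false

namespace Crest.Agent.H6Fourier

open Finset Crest.FinProb Crest.Agent.H6Defs Crest.Agent.H6Cube Crest.Agent.H6Key

variable {E : Type*} [Fintype E] [DecidableEq E]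

lemma PT_eq (p : ℝ) (f : (E → Bool) → Bool) : PT p f = EE p (bf f) := by
  unfold PT
  rw [prob_eq_EE]
  refine EE_congr fun x => ?_
  unfold bf
  by_cases h : f x = true
  · rw [ind_true (by simpa using h), if_pos h]
  · rw [ind_false (by simpa using h), if_neg h]

lemma coef_empty (p : ℝ) (f : (E → Bool) → Bool) : coef p (bf f) ∅ = PT p f := by
  rw [PT_eq]
  unfold coef
  exact EE_congr fun x => by simp [chi]

lemma sum_split_empty (g : Finset E → ℝ) :
    ∑ S : Finset E, g S = g ∅ + ∑ S ∈ Finset.univ.filter (fun S : Finset E => S.Nonempty), g S := by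
  classical
  rw [← Finset.sum_filter_add_sum_filter_not Finset.univ (fun S : Finset E => S.Nonempty) g,
    add_comm]
  congr 1
  have : Finset.univ.filter (fun S : Finset E => ¬ S.Nonempty) = {∅} := by
    ext S; simp [Finset.not_nonempty_iff_eq_empty]
  rw [this, Finset.sum_singleton]

/-- The variance is the Fourier weight of the nonempty sets. -/
lemma VV_eq {p : ℝ} (hp : 0 < p) (hp1 : p < 1) (f : (E → Bool) → Bool) :
    VV p (bf f) = PT p f * (1 - PT p f) := by
  have h1 : EE p (fun x => bf f x * bf f x) = PT p f := by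
    rw [PT_eq]
    exact EE_congr fun x => by rw [← sq, bf_sq]
  rw [parseval hp hp1, sum_split_empty, coef_empty] at h1
  have h2 : VV p (bf f)
      = ∑ S ∈ Finset.univ.filter (fun S : Finset E => S.Nonempty), coef p (bf f) S * coef p (bf f) S := by
    unfold VV
    exact Finset.sum_congr rfl fun S _ => sq _
  rw [← h2] at h1
  linarith

/-- The influence of one coordinate. -/
lemma piv_eq {p : ℝ} (hp : 0 < p) (hp1 : p < 1) (f : (E → Bool) → Bool) (i : E) :
    (p * (1 - p)) * piv p f i
      = ∑ S ∈ Finset.univ.filter (fun S : Finset E => i ∈ S), coef p (bf f) S ^ 2 := by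
  have hi : i ∈ (Finset.univ : Finset E) := Finset.mem_univ i
  set z : E → Bool := fun _ => false
  have h1 := EE_Dg_sq hp hp1 f Finset.univ hi z
  have hpz : pz p f Finset.univ i z = piv p f i := by
    unfold piv pz
    rw [prob_eq_EE]
    refine EE_congr fun x => ?_
    have hm : ∀ y : E → Bool, mix Finset.univ y z = y := fun y => by
      funext e; simp [mix]
    simp only [hm]
    rfl
  rw [hpz] at h1
  rw [← h1]
  have h2 : EE p (fun x => Dg p f Finset.univ i z x ^ 2)
      = ∑ U ∈ (Finset.univ.erase i).powerset, hc p (bf f) Finset.univ (insert i U) z ^ 2 := by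
    unfold Dg
    exact EE_poly_sq hp hp1 _ _
  rw [h2]
  have hoff : off (Finset.univ : Finset E) = {∅} := by
    ext R
    rw [mem_off, Finset.mem_singleton]
    constructor
    · intro h
      exact Finset.eq_empty_of_forall_notMem fun e he =>
        (Finset.disjoint_left.mp h he) (Finset.mem_univ e)
    · rintro rfl
      exact Finset.disjoint_empty_left _
  have hhc : ∀ T : Finset E, hc p (bf f) Finset.univ T z = coef p (bf f) T := by
    intro T
    unfold hc poly
    rw [hoff, Finset.sum_singleton]
    simp [chi]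
  simp only [hhc]
  refine Finset.sum_nbij' (fun U => insert i U) (fun S => S.erase i) ?_ ?_ ?_ ?_ ?_
  · intro U _; simp
  · intro S _
    simp only [Finset.mem_powerset]
    exact Finset.erase_subset_erase _ (Finset.subset_univ _)
  · intro U hU
    have : i ∉ U := fun h => Finset.notMem_erase i _ (Finset.mem_powerset.mp hU h)
    exact Finset.erase_insert this
  · intro S hS
    exact Finset.insert_erase (Finset.mem_filter.mp hS).2
  · intro U _; rfl

/-- The total influence identity. -/
lemma PI_eq {p : ℝ} (hp : 0 < p) (hp1 : p < 1) (f : (E → Bool) → Bool) :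
    (p * (1 - p)) * PI p f = ∑ S : Finset E, (S.card : ℝ) * coef p (bf f) S ^ 2 := by
  unfold PI
  rw [Finset.mul_sum]
  simp only [piv_eq hp hp1, Finset.sum_filter]
  rw [Finset.sum_comm]
  refine Finset.sum_congr rfl fun S _ => ?_
  rw [← Finset.sum_filter, Finset.sum_const, nsmul_eq_mul]
  congr 2
  congr 1
  ext e; simp

lemma PI_nonneg {p : ℝ} (hp : 0 < p) (hp1 : p < 1) (f : (E → Bool) → Bool) : 0 ≤ PI p f :=
  Finset.sum_nonneg fun i _ => piv_nonneg hp hp1 f i

/-- Poincaré. -/
lemma poincare {p : ℝ} (hp : 0 < p) (hp1 : p < 1) (f : (E → Bool) → Bool) :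
    VV p (bf f) ≤ (p * (1 - p)) * PI p f := by
  rw [PI_eq hp hp1]
  unfold VV
  calc ∑ S ∈ Finset.univ.filter (fun S : Finset E => S.Nonempty), coef p (bf f) S ^ 2
      ≤ ∑ S ∈ Finset.univ.filter (fun S : Finset E => S.Nonempty),
          (S.card : ℝ) * coef p (bf f) S ^ 2 := by
        refine Finset.sum_le_sum fun S hS => ?_
        have h1 : (1:ℝ) ≤ S.card := by
          exact_mod_cast Finset.card_pos.mpr (Finset.mem_filter.mp hS).2
        nlinarith [sq_nonneg (coef p (bf f) S)]
    _ ≤ _ := Finset.sum_le_sum_of_subset_of_nonneg (Finset.filter_subset _ _)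
        fun S _ _ => by positivity

/-- The weight of the nonempty sets of size at most `D`. -/
noncomputable def VD (p : ℝ) (F : (E → Bool) → ℝ) (D : ℕ) : ℝ :=
  ∑ S ∈ Finset.univ.filter (fun S : Finset E => S.Nonempty ∧ S.card ≤ D), coef p F S ^ 2

lemma VD_nonneg (p : ℝ) (F : (E → Bool) → ℝ) (D : ℕ) : 0 ≤ VD p F D :=
  Finset.sum_nonneg fun _ _ => sq_nonneg _

lemma VD_le_VV (p : ℝ) (F : (E → Bool) → ℝ) (D : ℕ) : VD p F D ≤ VV p F := by
  unfold VD VV
  refine Finset.sum_le_sum_of_subset_of_nonneg ?_ fun _ _ _ => sq_nonneg _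
  intro S hS
  exact Finset.mem_filter.mpr ⟨Finset.mem_univ _, (Finset.mem_filter.mp hS).2.1⟩

/-- The tail bound. -/
lemma tail {p : ℝ} (hp : 0 < p) (hp1 : p < 1) (f : (E → Bool) → Bool) (D : ℕ) :
    (D : ℝ) * (VV p (bf f) - VD p (bf f) D) ≤ (p * (1 - p)) * PI p f := by
  classical
  rw [PI_eq hp hp1]
  have h1 : VV p (bf f) = VD p (bf f) D
      + ∑ S ∈ Finset.univ.filter (fun S : Finset E => S.Nonempty ∧ ¬ S.card ≤ D),
        coef p (bf f) S ^ 2 := by
    unfold VV VD
    rw [← Finset.sum_filter_add_sum_filter_not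
      (Finset.univ.filter (fun S : Finset E => S.Nonempty)) (fun S => S.card ≤ D),
      Finset.filter_filter, Finset.filter_filter]
  rw [h1, add_sub_cancel_left, Finset.mul_sum]
  calc ∑ S ∈ Finset.univ.filter (fun S : Finset E => S.Nonempty ∧ ¬ S.card ≤ D),
        (D : ℝ) * coef p (bf f) S ^ 2
      ≤ ∑ S ∈ Finset.univ.filter (fun S : Finset E => S.Nonempty ∧ ¬ S.card ≤ D),
        (S.card : ℝ) * coef p (bf f) S ^ 2 := by
        refine Finset.sum_le_sum fun S hS => ?_
        have h2 : (D:ℝ) ≤ S.card := by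
          exact_mod_cast (not_le.mp (Finset.mem_filter.mp hS).2.2).le
        exact mul_le_mul_of_nonneg_right h2 (sq_nonneg _)
    _ ≤ _ := Finset.sum_le_sum_of_subset_of_nonneg (Finset.filter_subset _ _)
        fun S _ _ => by positivity

/-! ### Invariance -/

lemma weight_perm (p : ℝ) (a : Equiv.Perm E) (x : E → Bool) :
    bernoulliWeight p (fun e => x (a e)) = bernoulliWeight p x := by
  unfold bernoulliWeight
  exact Equiv.prod_comp a (fun i => if x i = true then p else 1 - p)

lemma coef_map (p : ℝ) (f : (E → Bool) → Bool) (a : Equiv.Perm E)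
    (hf : ∀ x : E → Bool, f (fun e => x (a e)) = f x) (S : Finset E) :
    coef p (bf f) (S.map a.toEmbedding) = coef p (bf f) S := by
  unfold coef EE
  have hbij : Function.Bijective (fun (x : E → Bool) => fun e => x (a e)) := by
    constructor
    · intro x y h
      funext e
      have := congrFun h (a.symm e)
      simpa using this
    · intro y
      exact ⟨fun e => y (a.symm e), by funext e; simp⟩
  refine Fintype.sum_bijective _ hbij _ _ fun x => ?_
  rw [weight_perm]
  congr 1
  have h1 : bf f (fun e => x (a e)) = bf f x := by unfold bf; rw [hf]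
  show bf f x * chi p (S.map a.toEmbedding) x = bf f (fun e => x (a e)) * chi p S (fun e => x (a e))
  rw [h1]
  congr 1
  unfold chi
  rw [Finset.prod_map]
  rfl

/-! ### Averaging over `J` -/

/-- The weight of the sets of size at most `D` caught by `J`. -/
noncomputable def WJ {n : ℕ} (vert : E → Finset (Fin n)) (c k0 D : ℕ) (p : ℝ)
    (F : (E → Bool) → ℝ) (J : Finset E) : ℝ :=
  ∑ S : Finset E, ind (S.card ≤ D ∧ caught vert c k0 J S) * coef p F S ^ 2

/-- The traces considered inside `J`. -/
noncomputable def GJ {n : ℕ} (vert : E → Finset (Fin n)) (k0 : ℕ) (J : Finset E) :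
    Finset (Finset E) :=
  J.powerset.filter (fun T => 1 ≤ T.card ∧ T.card ≤ k0 ∧ T.card ≤ (vset vert T).card)

lemma WJ_eq {n : ℕ} (vert : E → Finset (Fin n)) (c k0 D : ℕ) (p : ℝ)
    (F : (E → Bool) → ℝ) (J : Finset E) :
    WJ vert c k0 D p F J = ∑ T ∈ GJ vert k0 J, wT p F J T c D := by
  classical
  unfold WJ GJ
  rw [Finset.sum_filter]
  rw [sum_split' J (fun S => ind (S.card ≤ D ∧ caught vert c k0 J S) * coef p F S ^ 2)]
  refine Finset.sum_congr rfl fun T hT => ?_
  have hTJ := Finset.mem_powerset.mp hT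
  have hinter : ∀ R ∈ off J, (T ∪ R) ∩ J = T := by
    intro R hR
    have hR := mem_off.mp hR
    ext e
    simp only [Finset.mem_inter, Finset.mem_union]
    constructor
    · rintro ⟨h | h, hJ⟩
      · exact h
      · exact absurd hJ (Finset.disjoint_left.mp hR h)
    · intro h; exact ⟨Or.inl h, hTJ h⟩
  split_ifs with h
  · unfold wT offc
    rw [Finset.sum_filter]
    refine Finset.sum_congr rfl fun R hR => ?_
    have : ((T ∪ R).card ≤ D ∧ caught vert c k0 J (T ∪ R))
        ↔ ((T ∪ R).card ≤ c * T.card ∧ (T ∪ R).card ≤ D) := by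
      unfold caught
      rw [hinter R hR]
      tauto
    by_cases h2 : (T ∪ R).card ≤ c * T.card ∧ (T ∪ R).card ≤ D
    · rw [if_pos h2, ind_true (this.mpr h2), one_mul]
    · rw [if_neg h2, ind_false (fun h3 => h2 (this.mp h3)), zero_mul]
  · refine Finset.sum_eq_zero fun R hR => ?_
    rw [ind_false, zero_mul]
    rintro ⟨_, h3⟩
    unfold caught at h3
    rw [hinter R hR] at h3
    tauto

/-- Averaging: if every set `A` of size between `1` and `D` is caught with probability at least
`P0`, and every `WJ` is at most `K`, then `P0 * VD ≤ K`. -/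
lemma averaging {n : ℕ} (vert : E → Finset (Fin n)) (c k0 D : ℕ) (p : ℝ)
    (F : (E → Bool) → ℝ) (δ P0 K : ℝ) (hδ : 0 ≤ δ) (hδ1 : δ ≤ 1)
    (hcatch : ∀ A : Finset E, A.Nonempty → A.card ≤ D →
      P0 ≤ ∑ J : Finset E, ind (caught vert c k0 J A) *
        (δ ^ J.card * (1 - δ) ^ (Fintype.card E - J.card)))
    (hK : ∀ J, WJ vert c k0 D p F J ≤ K) : P0 * VD p F D ≤ K := by
  classical
  have h1δ : 0 ≤ 1 - δ := by linarith
  have hsum : ∑ J : Finset E, δ ^ J.card * (1 - δ) ^ (Fintype.card E - J.card) = 1 := by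
    rw [Fintype.sum_pow_mul_eq_add_pow]; simp
  have hw0 : ∀ J : Finset E, 0 ≤ δ ^ J.card * (1 - δ) ^ (Fintype.card E - J.card) :=
    fun J => by positivity
  calc P0 * VD p F D
      = ∑ S ∈ Finset.univ.filter (fun S : Finset E => S.Nonempty ∧ S.card ≤ D),
          P0 * coef p F S ^ 2 := by unfold VD; rw [Finset.mul_sum]
    _ ≤ ∑ S ∈ Finset.univ.filter (fun S : Finset E => S.Nonempty ∧ S.card ≤ D),
          ∑ J : Finset E, (δ ^ J.card * (1 - δ) ^ (Fintype.card E - J.card)) *
            (ind (caught vert c k0 J S) * coef p F S ^ 2) := by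
        refine Finset.sum_le_sum fun S hS => ?_
        obtain ⟨_, hS1, hS2⟩ := Finset.mem_filter.mp hS
        calc P0 * coef p F S ^ 2
            ≤ (∑ J : Finset E, ind (caught vert c k0 J S) *
              (δ ^ J.card * (1 - δ) ^ (Fintype.card E - J.card))) * coef p F S ^ 2 :=
              mul_le_mul_of_nonneg_right (hcatch S hS1 hS2) (sq_nonneg _)
          _ = _ := by
              rw [Finset.sum_mul]
              exact Finset.sum_congr rfl fun J _ => by ring
    _ = ∑ J : Finset E, (δ ^ J.card * (1 - δ) ^ (Fintype.card E - J.card)) *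
          ∑ S ∈ Finset.univ.filter (fun S : Finset E => S.Nonempty ∧ S.card ≤ D),
            (ind (caught vert c k0 J S) * coef p F S ^ 2) := by
        rw [Finset.sum_comm]
        exact Finset.sum_congr rfl fun J _ => by rw [Finset.mul_sum]
    _ ≤ ∑ J : Finset E, (δ ^ J.card * (1 - δ) ^ (Fintype.card E - J.card)) * K := by
        refine Finset.sum_le_sum fun J _ => mul_le_mul_of_nonneg_left ?_ (hw0 J)
        refine le_trans ?_ (hK J)
        unfold WJ
        rw [Finset.sum_filter]
        refine Finset.sum_le_sum fun S _ => ?_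
        split_ifs with hS
        · refine mul_le_mul_of_nonneg_right (ind_mono fun hc => ⟨hS.2, hc⟩) (sq_nonneg _)
        · exact mul_nonneg (ind_nonneg _) (sq_nonneg _)
    _ = K := by rw [← Finset.sum_mul, hsum, one_mul]

end Crest.Agent.H6Fourier
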