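import Mathlib
import Crest.Prelude.Def_FinProb
import Crest.Agent.H6Defs
import Crest.Agent.H6Cube
import Crest.Agent.H6Key
import Crest.Agent.H6Fourier
import Crest.Agent.H21Bonami
import Crest.Agent.H27Orbit

/-!
The assembly: a lower bound for the total influence of a symmetric function.
-/

set_option autoImplicit false
set_option linter.unusedSectionVars false

namespace Crest.Agent.H6Final

open Finset Crest.FinProb Crest.Agent.H6Defs Crest.Agent.H6Cube Crest.Agent.H6Key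
  Crest.Agent.H6Fourier

variable {E : Type*} [Fintype E] [DecidableEq E]

lemma wT_le_sup (p : ℝ) (F : (E → Bool) → ℝ) {J T : Finset E} (hTJ : T ⊆ J) (c D : ℕ) :
    wT p F J T c D
      ≤ ∑ S ∈ Finset.univ.filter (fun S : Finset E => T ⊆ S ∧ S.card ≤ D), coef p F S ^ 2 := by
  classical
  have h1 : wT p F J T c D = ∑ S ∈ (offc J T c D).image (fun R => T ∪ R), coef p F S ^ 2 := by
    unfold wT
    rw [Finset.sum_image]
    intro R hR R' hR' h
    have h1 := mem_off.mp (Finset.mem_filter.mp hR).1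
    have h2 := mem_off.mp (Finset.mem_filter.mp hR').1
    have h : T ∪ R = T ∪ R' := h
    have e1 : ∀ R : Finset E, Disjoint R J → (T ∪ R) \ T = R := by
      intro R hR
      rw [Finset.union_sdiff_left]
      exact Finset.sdiff_eq_self_of_disjoint (hR.mono_right hTJ)
    rw [← e1 R h1, ← e1 R' h2, h]
  rw [h1]
  refine Finset.sum_le_sum_of_subset_of_nonneg ?_ fun _ _ _ => sq_nonneg _
  intro S hS
  obtain ⟨R, hR, rfl⟩ := Finset.mem_image.mp hS
  exact Finset.mem_filter.mpr ⟨Finset.mem_univ _, Finset.subset_union_left,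
    (Finset.mem_filter.mp hR).2.2⟩

theorem main {n r : ℕ} (vert : E → Finset (Fin n)) (hcard : ∀ e, (vert e).card = r)
    (act : Equiv.Perm (Fin n) → Equiv.Perm E)
    (hact : ∀ σ e, vert (act σ e) = (vert e).map σ.toEmbedding)
    (f : (E → Bool) → Bool) (hf : ∀ σ (x : E → Bool), f (fun e => x (act σ e)) = f x)
    {p : ℝ} (hp : 0 < p) (hp1 : p < 1) (hn : 1 ≤ n) (X : ℝ) (hX : 0 < X) (c D : ℕ) (hc8 : 8 ≤ c)
    (hD1 : 8 * X / (4 / (p * (1 - p))) ≤ (D : ℝ))
    (hBc : (4 / (p * (1 - p))) ^ c ≤ Real.exp (Real.log n / 4))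
    (hrn : 2 * ((r : ℝ) * ((c / 4 : ℕ) : ℝ)) ≤ Real.exp (Real.log n))
    (hfin : ∑ k ∈ Finset.Icc 1 (c / 4),
        (Real.exp (3 * Real.log n / 4) * (2 * r * k * D / Real.exp (Real.log n))) ^ k
        + 2 * Real.exp (-(Real.log n / 8))
        + (Real.exp (-(Real.log n / 32)) + (4 / (p * (1 - p))) / 4 * Real.exp (-(Real.log n / 8))) * D
        < (1 / 2) * ((4 / (c : ℝ)) * (1 - 4 / (c : ℝ)) ^ D))
    (hcatch : ∀ A : Finset E, A.Nonempty → A.card ≤ D →
      (4 / (c : ℝ)) * (1 - 4 / (c : ℝ)) ^ D ≤ ∑ J : Finset E, ind (caught vert c (c / 4) J A) *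
        ((4 / (c : ℝ)) ^ J.card * (1 - 4 / (c : ℝ)) ^ (Fintype.card E - J.card))) :
    X * (PT p f * (1 - PT p f)) ≤ PI p f := by
  classical
  set L := Real.log n with hL
  have hnpos : (0:ℝ) < n := by exact_mod_cast hn
  have hexpL : Real.exp L = n := Real.exp_log hnpos
  have h1 : (0:ℝ) < 1 - p := by linarith
  set lam := p * (1 - p) with hlam
  have hlam0 : 0 < lam := by positivity
  set B := 4 / lam with hB
  have hB0 : 0 < B := by positivity
  rw [← VV_eq hp hp1]
  by_contra hcon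
  have hcon : PI p f < X * VV p (bf f) := not_le.mp hcon
  set V := VV p (bf f) with hV
  have hPI0 : 0 ≤ PI p f := PI_nonneg hp hp1 f
  have hVpos : 0 < V := by
    by_contra h
    have h := not_lt.mp h
    nlinarith
  have hDpos : (0:ℝ) < D := lt_of_lt_of_le (by positivity) hD1
  -- the low-degree part
  have hlow : V / 2 < VD p (bf f) D := by
    have ht := tail hp hp1 f D
    have e1 : lam * PI p f < lam * (X * V) := mul_lt_mul_of_pos_left hcon hlam0
    have e2 : lam * X = (8 * X / B) / 2 := by rw [hB]; field_simp; norm_num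
    have e3 : lam * (X * V) ≤ D / 2 * V := by
      rw [← mul_assoc, e2]
      exact mul_le_mul_of_nonneg_right (by linarith) hVpos.le
    have e4 : (D:ℝ) * (V - VD p (bf f) D) < D * (V / 2) := by
      calc (D:ℝ) * (V - VD p (bf f) D) ≤ lam * PI p f := ht
        _ < lam * (X * V) := e1
        _ ≤ D / 2 * V := e3
        _ = D * (V / 2) := by ring
    have e5 := lt_of_mul_lt_mul_left e4 hDpos.le
    linarith
  -- parameters
  set τ := Real.exp (-(L / 8)) with hτ
  set M := Real.exp (L / 4) with hM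
  set ϑ := Real.exp (-(L / 2)) with hϑ
  set θ := Real.exp (-(L / 32)) with hθ
  set k0 := c / 4 with hk0
  have hL0 : 0 ≤ L := Real.log_nonneg (by exact_mod_cast hn)
  have hτ1 : τ ≤ 1 := by rw [hτ]; exact Real.exp_le_one_iff.mpr (by linarith)
  have hB1 : 1 ≤ B := by
    rw [hB, le_div_iff₀ hlam0, hlam]; nlinarith [sq_nonneg (p - 1/2)]
  have hBk : B ^ k0 * τ ≤ θ ^ 2 := by
    have e1 : (B ^ k0) ^ 4 ≤ (Real.exp (L / 16)) ^ 4 := by
      rw [← pow_mul, ← Real.exp_nat_mul]
      calc B ^ (k0 * 4) ≤ B ^ c := pow_le_pow_right₀ hB1 (Nat.div_mul_le_self c 4)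
        _ ≤ Real.exp (L / 4) := hBc
        _ = Real.exp (((4:ℕ):ℝ) * (L / 16)) := by congr 1; push_cast; ring
    have e2 : B ^ k0 ≤ Real.exp (L / 16) :=
      le_of_pow_le_pow_left₀ (by norm_num) (Real.exp_pos _).le e1
    calc B ^ k0 * τ ≤ Real.exp (L / 16) * τ := mul_le_mul_of_nonneg_right e2 (Real.exp_pos _).le
      _ = θ ^ 2 := by
        rw [hτ, hθ, ← Real.exp_add, ← Real.exp_nat_mul]; congr 1; push_cast; ring
  have hBc' : B ^ c * ϑ ≤ τ ^ 2 := by
    calc B ^ c * ϑ ≤ Real.exp (L / 4) * ϑ := mul_le_mul_of_nonneg_right hBc (Real.exp_pos _).le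
      _ = τ ^ 2 := by
        rw [hτ, hϑ, ← Real.exp_add, ← Real.exp_nat_mul]; congr 1; push_cast; ring
  set μ : ℕ → ℝ := fun k => (2 * r * k * D / n) ^ k * V with hμ
  set K : ℝ := ∑ k ∈ Finset.Icc 1 k0, (M / ϑ) ^ k * μ k + 2 * τ * V
        + 2 * ((θ * lam + 1 / (τ * M)) * PI p f) with hK
  have hbon : Bonami E p := fun 𝒮 cf m hm => H21Bonami.bonami p hp hp1 𝒮 cf m hm
  have hcoef : ∀ σ S, coef p (bf f) (S.map (act σ).toEmbedding) ^ 2 = coef p (bf f) S ^ 2 :=
    fun σ S => by rw [coef_map p f (act σ) (hf σ) S]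
  have hkey : ∀ J, WJ vert c k0 D p (bf f) J ≤ K := by
    intro J
    rw [WJ_eq]
    refine key hp hp1 hbon f J (GJ vert k0 J) k0 c D ?_ τ θ M ϑ τ (Real.exp_pos _)
      (Real.exp_pos _).le (Real.exp_pos _) (Real.exp_pos _) (Real.exp_pos _).le hτ1 hBk hBc' μ ?_ ?_
    · intro T hT
      unfold GJ at hT
      obtain ⟨h1, h2, h3, _⟩ := Finset.mem_filter.mp hT
      exact ⟨Finset.mem_powerset.mp h1, h2, h3⟩
    · intro T hT
      unfold GJ at hT
      obtain ⟨h1, h2, h3, h4⟩ := Finset.mem_filter.mp hT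
      refine (wT_le_sup p (bf f) (Finset.mem_powerset.mp h1) c D).trans ?_
      have hn2 : 2 * (r * T.card) ≤ n := by
        have e1 : 2 * (r * T.card) ≤ 2 * (r * k0) :=
          Nat.mul_le_mul_left _ (Nat.mul_le_mul_left _ h3)
        refine e1.trans ?_
        rw [hexpL] at hrn
        exact_mod_cast hrn
      have := H27Orbit.orbit_bound vert hcard act hact (fun S => coef p (bf f) S ^ 2)
        (fun _ => sq_nonneg _) hcoef D T.card T rfl h2 h4 hn2
      refine this.trans ?_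
      refine mul_le_mul_of_nonneg_left ?_ (by positivity)
      exact VD_le_VV p (bf f) D
    · intro k
      have := hVpos.le
      positivity
  have hδ : 0 ≤ 4 / (c:ℝ) := by positivity
  have hc8' : (8:ℝ) ≤ c := by exact_mod_cast hc8
  have hδ1 : 4 / (c:ℝ) ≤ 1 := by rw [div_le_one (by linarith)]; linarith
  have havg := averaging vert c k0 D p (bf f) (4 / (c:ℝ)) ((4 / (c : ℝ)) * (1 - 4 / (c : ℝ)) ^ D) K
    hδ hδ1 hcatch hkey
  set P0 := (4 / (c : ℝ)) * (1 - 4 / (c : ℝ)) ^ D with hP0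
  -- bounding K
  have hMϑ : M / ϑ = Real.exp (3 * L / 4) := by
    rw [hM, hϑ, ← Real.exp_sub]; congr 1; ring
  have hτM : 1 / (τ * M) = τ := by
    rw [hM, hτ, ← Real.exp_add, one_div, ← Real.exp_neg]; congr 1; ring
  have hKle : K ≤ V * (∑ k ∈ Finset.Icc 1 k0,
        (Real.exp (3 * L / 4) * (2 * r * k * D / Real.exp L)) ^ k
        + 2 * τ + (θ + B / 4 * τ) * D) := by
    have e1 : ∑ k ∈ Finset.Icc 1 k0, (M / ϑ) ^ k * μ k
        = V * ∑ k ∈ Finset.Icc 1 k0, (Real.exp (3 * L / 4) * (2 * r * k * D / Real.exp L)) ^ k := by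
      rw [Finset.mul_sum]
      refine Finset.sum_congr rfl fun k _ => ?_
      rw [hMϑ, hμ, hexpL, mul_pow]; ring
    have hθ0 : 0 ≤ θ := (Real.exp_pos _).le
    have hτ0 : 0 ≤ τ := (Real.exp_pos _).le
    have e2 : 2 * ((θ * lam + 1 / (τ * M)) * PI p f) ≤ V * ((θ + B / 4 * τ) * D) := by
      rw [hτM]
      have e3 : 2 * ((θ * lam + τ) * PI p f) ≤ 2 * ((θ * lam + τ) * (X * V)) :=
        mul_le_mul_of_nonneg_left (mul_le_mul_of_nonneg_left hcon.le (by positivity)) (by norm_num)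
      refine e3.trans ?_
      have e4 : 2 * ((θ * lam + τ) * (X * V)) = V * ((θ + B / 4 * τ) * (8 * X / B)) := by
        rw [hB]; field_simp; ring
      rw [e4]
      refine mul_le_mul_of_nonneg_left (mul_le_mul_of_nonneg_left hD1 (by positivity)) hVpos.le
    rw [hK, e1]
    linarith
  have hfin' : V * (∑ k ∈ Finset.Icc 1 k0,
        (Real.exp (3 * L / 4) * (2 * r * k * D / Real.exp L)) ^ k
        + 2 * τ + (θ + B / 4 * τ) * D) < V * ((1 / 2) * P0) := mul_lt_mul_of_pos_left hfin hVpos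
  have hP0nn : 0 ≤ P0 := by
    have : 0 ≤ 1 - 4 / (c:ℝ) := by linarith
    positivity
  have hlast : V * ((1 / 2) * P0) ≤ P0 * VD p (bf f) D := by
    calc V * ((1 / 2) * P0) = P0 * (V / 2) := by ring
      _ ≤ P0 * VD p (bf f) D := mul_le_mul_of_nonneg_left hlow.le hP0nn
  linarith

end Crest.Agent.H6Final
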