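import Mathlib
import Crest.Prelude.Def_FinProb
import Crest.Agent.H6Defs
import Crest.Agent.H6Cube
import Crest.Agent.H6Key
import Crest.Agent.H6Fourier
import Crest.Agent.H6Final
import Crest.Agent.H12Catch
import Crest.Agent.H27Params

/-!
The influence inequality for a general exponent, from the numerics.
-/

set_option autoImplicit false

namespace Crest.Agent.H6Glue

open Finset Crest.FinProb Crest.Agent.H6Defs Crest.Agent.H6Cube Crest.Agent.H6Key
  Crest.Agent.H6Fourier

theorem influence {n r : ℕ} {E : Type*} [Fintype E] [DecidableEq E]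
    (vert : E → Finset (Fin n)) (hcard : ∀ e, (vert e).card = r)
    (hinj : Function.Injective vert) (hr : 1 ≤ r)
    (act : Equiv.Perm (Fin n) → Equiv.Perm E)
    (hact : ∀ σ e, vert (act σ e) = (vert e).map σ.toEmbedding)
    (f : (E → Bool) → Bool) (hf : ∀ σ (x : E → Bool), f (fun e => x (act σ e)) = f x)
    (hn : 2 ≤ n) {p : ℝ} (hp : 0 < p) (hp1 : p < 1) (X : ℝ) (hX : 0 < X)
    (hX2 : X ≤ Real.log n ^ 2 / 2 ^ 17)
    (hrL : 16 < 4 * X → (r : ℝ) ≤ Real.exp (Real.log n / 32))
    (hj : ∀ B : ℝ, 16 ≤ B → ∀ c D : ℕ, 7 * Real.log n / (32 * Real.log B) ≤ (c : ℝ) →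
      (D : ℝ) ≤ 12 * X / B → D ≤ c * (c / 4) →
      ∀ j : ℕ, 1 ≤ j → c * j < D → 2 * Nat.choose (r * j) r ≤ c * j) :
    X * (PT p f * (1 - PT p f)) ≤ PI p f := by
  classical
  have h1 : (0:ℝ) < 1 - p := by linarith
  have hlam : 0 < p * (1 - p) := by positivity
  have hL : 0 < Real.log n := Real.log_pos (by exact_mod_cast (by omega : 1 < n))
  have hB16 : 16 ≤ 4 / (p * (1 - p)) := by
    rw [le_div_iff₀ hlam]; nlinarith [sq_nonneg (p - 1/2)]
  rcases le_or_gt (4 * X) (4 / (p * (1 - p))) with hcase | hcase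
  · -- Poincaré
    have hpo := poincare hp hp1 f
    rw [← VV_eq hp hp1]
    have hX' : X * (p * (1 - p)) ≤ 1 := by
      rw [le_div_iff₀ hlam] at hcase
      linarith
    have hPI := PI_nonneg hp hp1 f
    calc X * VV p (bf f) ≤ X * ((p * (1 - p)) * PI p f) := mul_le_mul_of_nonneg_left hpo hX.le
      _ = (X * (p * (1 - p))) * PI p f := by ring
      _ ≤ 1 * PI p f := mul_le_mul_of_nonneg_right hX' hPI
      _ = PI p f := one_mul _
  · obtain ⟨c, D, hc8, hD1, hD2, hD3, hBc, hc7, hrn, hfin⟩ :=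
      H27Params.params (Real.log n) (4 / (p * (1 - p))) X r hL hB16 hcase hX2 hr
        (hrL (by linarith))
    refine H6Final.main vert hcard act hact f hf hp hp1 (by omega) X hX c D hc8 hD1 hBc hrn hfin ?_
    intro A hA hAD
    have hcp := H12Catch.catch_prob vert hcard hinj hr c D (c / 4) hc8 hD3
      (hj _ hB16 c D hc7 hD2 hD3) A hA hAD
    refine hcp.trans (le_of_eq ?_)
    rw [Finset.sum_filter]
    refine Finset.sum_congr rfl fun J _ => ?_
    split_ifs with h
    · rw [ind_true h, one_mul]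
    · rw [ind_false h, zero_mul]

end Crest.Agent.H6Glue
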