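import Mathlib

set_option autoImplicit false

namespace Crest.Agent.H6HD

theorem hD_general (r : ℕ) (hr : 3 ≤ r) : ∃ κ0 : ℝ, 0 < κ0 ∧ ∀ (κ L B : ℝ), 0 < κ → κ ≤ κ0 →
    1 ≤ L → 16 ≤ B → ∀ c D : ℕ, 7 * L / (32 * Real.log B) ≤ (c : ℝ) →
    (D : ℝ) ≤ 12 * (κ * L ^ ((r : ℝ) / ((r : ℝ) - 1))) / B →
    ∀ j : ℕ, 1 ≤ j → c * j < D → 2 * Nat.choose (r * j) r ≤ c * j := by
  -- a = 1 / (2 r^r)
  have hr0 : (0:ℝ) < r := by exact_mod_cast (by omega : 0 < r)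
  set a : ℝ := 1 / (2 * (r:ℝ) ^ r) with ha
  have ha0 : 0 < a := by positivity
  refine ⟨min 1 (a * (7 / 64) ^ r / 12 ^ (r - 1)), lt_min one_pos (by positivity), ?_⟩
  intro κ L B hκ hκ0 hL hB c D hc hD j hj hcj
  have hκ1 : κ ≤ 1 := hκ0.trans (min_le_left _ _)
  have hκ2 : κ ≤ a * (7 / 64) ^ r / 12 ^ (r - 1) := hκ0.trans (min_le_right _ _)
  have hB0 : 0 < B := by linarith
  set β := Real.log B with hβ
  have hβ0 : 0 < β := Real.log_pos (by linarith)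
  have hL0 : 0 < L := by linarith
  -- r - 1 as a natural number
  obtain ⟨s, hs⟩ : ∃ s, r = s + 1 := ⟨r - 1, by omega⟩
  have hs2 : 2 ≤ s := by omega
  have hrs : r - 1 = s := by omega
  rw [hrs] at hκ2
  have hsr : (r:ℝ) - 1 = s := by rw [hs]; push_cast; ring
  have hs0 : (0:ℝ) < s := by exact_mod_cast (by omega : 0 < s)
  -- L^α to the power s is L^r
  have hLα : (L ^ ((r : ℝ) / ((r : ℝ) - 1))) ^ s = L ^ r := by
    rw [hsr, ← Real.rpow_natCast, ← Real.rpow_mul hL0.le, div_mul_cancel₀ _ hs0.ne',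
      Real.rpow_natCast]
  -- β^r ≤ 2^r B^s
  have hβr : β ^ r ≤ 2 ^ r * B ^ s := by
    have h1 : β / 2 ≤ Real.exp (β / 2) := by
      have := Real.add_one_le_exp (β / 2); linarith
    have h2 : (β / 2) ^ r ≤ (Real.exp (β / 2)) ^ r := pow_le_pow_left₀ (by positivity) h1 r
    have h3 : (Real.exp (β / 2)) ^ r ≤ B ^ s := by
      have hBe : B = Real.exp β := (Real.exp_log hB0).symm
      rw [hBe, ← Real.exp_nat_mul, ← Real.exp_nat_mul]
      apply Real.exp_le_exp.mpr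
      have h4 : (r:ℝ) = s + 1 := by linarith
      have h5 : (2:ℝ) ≤ s := by exact_mod_cast hs2
      rw [h4]
      nlinarith
    have h5 := h2.trans h3
    rw [div_pow, div_le_iff₀ (by positivity)] at h5
    linarith
  -- κ^s ≤ κ
  have hκs : κ ^ s ≤ κ := by
    calc κ ^ s ≤ κ ^ 1 := pow_le_pow_of_le_one hκ.le hκ1 (by omega)
      _ = κ := pow_one _
  -- main: D^s ≤ a c^r
  have hD0 : (0:ℝ) ≤ D := Nat.cast_nonneg _
  have hc0 : (0:ℝ) ≤ c := Nat.cast_nonneg _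
  have hcpos : (0:ℝ) < c := lt_of_lt_of_le (by positivity) hc
  have hmain : (D:ℝ) ^ s ≤ a * (c:ℝ) ^ r := by
    have h1 : (D:ℝ) ^ s ≤ (12 * (κ * L ^ ((r : ℝ) / ((r : ℝ) - 1))) / B) ^ s :=
      pow_le_pow_left₀ hD0 hD s
    have h2 : (12 * (κ * L ^ ((r : ℝ) / ((r : ℝ) - 1))) / B) ^ s
        = 12 ^ s * κ ^ s * L ^ r / B ^ s := by
      rw [div_pow, mul_pow, mul_pow, hLα]; ring
    have h3 : 12 ^ s * κ ^ s * L ^ r / B ^ s ≤ a * (7 * L / (32 * β)) ^ r := by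
      rw [div_le_iff₀ (by positivity)]
      have h4 : 12 ^ s * κ ^ s ≤ a * (7 / 64) ^ r := by
        calc (12:ℝ) ^ s * κ ^ s ≤ 12 ^ s * κ := mul_le_mul_of_nonneg_left hκs (by positivity)
          _ ≤ 12 ^ s * (a * (7 / 64) ^ r / 12 ^ s) :=
            mul_le_mul_of_nonneg_left hκ2 (by positivity)
          _ = a * (7 / 64) ^ r := by field_simp
      have h5 : (7 * L / (32 * β)) ^ r = (7 / 32) ^ r * L ^ r / β ^ r := by
        rw [← mul_pow, ← div_pow]; congr 1; field_simp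
      rw [h5]
      have h6 : (1:ℝ) ≤ 2 ^ r * B ^ s / β ^ r := by
        rw [le_div_iff₀ (by positivity)]; linarith
      have h7 : ((7:ℝ) / 32) ^ r = (7 / 64) ^ r * 2 ^ r := by
        rw [← mul_pow]; norm_num
      calc 12 ^ s * κ ^ s * L ^ r ≤ a * (7 / 64) ^ r * L ^ r :=
            mul_le_mul_of_nonneg_right h4 (by positivity)
        _ = (a * (7 / 64) ^ r * L ^ r) * 1 := (mul_one _).symm
        _ ≤ (a * (7 / 64) ^ r * L ^ r) * (2 ^ r * B ^ s / β ^ r) :=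
            mul_le_mul_of_nonneg_left h6 (by positivity)
        _ = a * ((7 / 32) ^ r * L ^ r / β ^ r) * B ^ s := by rw [h7]; ring
    have h8 : a * (7 * L / (32 * β)) ^ r ≤ a * (c:ℝ) ^ r :=
      mul_le_mul_of_nonneg_left (pow_le_pow_left₀ (by positivity) hc r) ha0.le
    linarith
  -- j^s ≤ a c
  have hjD : (c:ℝ) * j ≤ D := by exact_mod_cast hcj.le
  have hjs : (j:ℝ) ^ s ≤ a * c := by
    have h1 : ((c:ℝ) * j) ^ s ≤ a * (c:ℝ) ^ r := (pow_le_pow_left₀ (by positivity) hjD s).trans hmain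
    have h2 : (c:ℝ) ^ s * (j:ℝ) ^ s ≤ (c:ℝ) ^ s * (a * c) := by
      rw [← mul_pow]
      refine h1.trans (le_of_eq ?_)
      rw [hs, pow_succ]; ring
    exact le_of_mul_le_mul_left h2 (by positivity)
  -- the binomial
  have hch : (Nat.choose (r * j) r : ℝ) ≤ ((r * j : ℕ) : ℝ) ^ r := by
    exact_mod_cast Nat.choose_le_pow _ _
  have hfin : (2:ℝ) * (Nat.choose (r * j) r : ℝ) ≤ c * j := by
    calc (2:ℝ) * (Nat.choose (r * j) r : ℝ) ≤ 2 * ((r * j : ℕ) : ℝ) ^ r := by linarith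
      _ = 2 * (r:ℝ) ^ r * (j:ℝ) ^ s * j := by
          have hjr : (j:ℝ) ^ r = (j:ℝ) ^ s * j := by rw [hs, pow_succ]
          push_cast; rw [mul_pow, hjr]; ring
      _ ≤ 2 * (r:ℝ) ^ r * (a * c) * j := by
          refine mul_le_mul_of_nonneg_right ?_ (Nat.cast_nonneg _)
          exact mul_le_mul_of_nonneg_left hjs (by positivity)
      _ = c * j := by rw [ha]; field_simp
  exact_mod_cast hfin

end Crest.Agent.H6HD
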