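import Mathlib
import Crest.Prelude.Def_NonlocalGame
import Crest.Agent.PRDefs
import Crest.Agent.H6PRFront

/-!
# Final assembly for rows S0536, S0537 from the one-coordinate system (rid 342)
-/

set_option autoImplicit false

namespace Crest.H6PR

open Crest.MathPhysics.NonlocalGame Finset

/-- the assembly statement (module ASM) -/
def ASM : Prop :=
  ∀ (G : Game) (k dA dB : ℕ) (S : Strategy G k dA dB) (C : Finset (Fin k)),
    1 ≤ k → 0 < Crest.PR.PW S C → C.card < k → ∀ η : ℝ, 0 < η →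
    ∃ E : Fin k → ℝ, (∀ i ∉ C, 0 ≤ E i ∧
        Crest.PR.OneCoord G (Crest.PR.PW S C) (E i) (Crest.PR.PW S (insert i C))) ∧
      ∑ i ∈ univ \ C, E i ≤ Crest.PR.PW S C * (3 * Real.log (Crest.PR.qAcc G ^ C.card /
        Crest.PR.PW S C) + C.card * Real.log ((G.nA * G.nB : ℕ) : ℝ)) + η

/-- the one-coordinate rounding statement (module S37) -/
def S37 : Prop :=
  ∀ (G : Game) (v κ : ℝ), Crest.PR.ValLe G v → Crest.PR.KappaHyp G κ → 0 < G.nA → 0 < G.nB →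
    ∀ P E W : ℝ, 0 ≤ P → 0 ≤ E → Crest.PR.OneCoord G P E W →
      W ≤ v * P + 3 * √(2 * κ + 1) * √(P * E)

/-- the one-coordinate rounding statement (module S36) -/
def S36 : Prop :=
  ∃ c : ℝ, 0 ≤ c ∧ ∀ (G : Game) (v : ℝ), Crest.PR.ValLe G v → 0 < G.nA → 0 < G.nB →
    ∀ P E W : ℝ, 0 ≤ P → 0 ≤ E → Crest.PR.OneCoord G P E W →
      W ≤ v * P + c * (√P * √(√(P * E)))

lemma PS_eq_PW {G : Game} {k dA dB : ℕ} (S : Strategy G k dA dB) (C : Finset (Fin k)) :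
    PS S C = Crest.PR.PW S C := rfl

lemma qG_eq_qAcc (G : Game) : qG G = Crest.PR.qAcc G := by
  unfold qG Crest.PR.qAcc
  refine sum_congr rfl fun x _ => sum_congr rfl fun y _ => ?_
  congr

theorem final537 (h37 : S37) (hA : ASM) (G : Game) (v : ℝ)
    (hv : ∀ (dA dB : ℕ) (S : Strategy G 1 dA dB), S.probWinsAtLeast 1 ≤ v) (κ : ℝ)
    (hκ : ∀ z : Fin G.nX × Fin G.nY, 0 < G.prob z.1 z.2 → ∀ w ∈ G.supportComponent z,
      8 * ((G.supportComponent z).card - 1 : ℝ) * (∑ u ∈ G.supportComponent z, G.prob u.1 u.2)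
        ≤ κ * G.prob w.1 w.2)
    (δ : ℝ) (hδ : 0 < δ) (hδv : δ < 1 - v) (k dA dB : ℕ) (S : Strategy G k dA dB) (hk : 1 ≤ k) :
    S.probWinsAtLeast ((v + δ) * k) ≤
      Real.exp (-(δ ^ 3 / (16384 * (1 + κ) * (1 + Real.log ((G.nA * G.nB : ℕ) : ℝ))) * k)) := by
  have hκ0 : 0 ≤ κ := kappa_nonneg G κ hκ
  have hnA := nA_pos S hk
  have hnB := nB_pos S hk
  refine front537_sys G v hv κ (3 * √(2 * κ + 1)) hκ0 (by positivity) ?_ δ hδ hδv k dA dB S hk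
    (qG G) le_rfl (qG_le' hv hnA hnB) ?_
  · rw [mul_pow, Real.sq_sqrt (by positivity)]
    nlinarith
  · intro C hC hCk η hη
    obtain ⟨E, hE1, hE2⟩ := hA G k dA dB S C hk hC hCk η hη
    refine ⟨E, fun i hi => (hE1 i hi).1, fun i hi => ?_, ?_⟩
    · exact h37 G v κ hv hκ hnA hnB _ _ _ (PS_nonneg S C) (hE1 i hi).1 (hE1 i hi).2
    · rw [qG_eq_qAcc]
      exact hE2

theorem final536 (h36 : S36) (hA : ASM) :
    ∃ κ₀ : ℝ, 0 < κ₀ ∧ ∀ (G : Game) (v : ℝ),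
      (∀ (dA dB : ℕ) (S : Strategy G 1 dA dB), S.probWinsAtLeast 1 ≤ v) →
      ∀ δ : ℝ, 0 < δ → δ < 1 - v → ∀ (k dA dB : ℕ) (S : Strategy G k dA dB), 1 ≤ k →
        S.probWinsAtLeast ((v + δ) * k) ≤
          Real.exp (-(κ₀ * δ ^ 5 / (1 + Real.log ((G.nA * G.nB : ℕ) : ℝ)) * k)) := by
  obtain ⟨c, hc, h36⟩ := h36
  refine ⟨1 / (4 * max 64 (256 * c ^ 4)), by positivity, ?_⟩
  intro G v hv δ hδ hδv k dA dB S hk
  have hnA := nA_pos S hk
  have hnB := nB_pos S hk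
  refine front536_sys G v hv c (max 64 (256 * c ^ 4)) hc (le_max_left _ _) (le_max_right _ _)
    δ hδ hδv k dA dB S hk (qG G) le_rfl (qG_le' hv hnA hnB) ?_
  intro C hC hCk η hη
  obtain ⟨E, hE1, hE2⟩ := hA G k dA dB S C hk hC hCk η hη
  refine ⟨E, fun i hi => (hE1 i hi).1, fun i hi => ?_, ?_⟩
  · exact h36 G v hv hnA hnB _ _ _ (PS_nonneg S C) (hE1 i hi).1 (hE1 i hi).2
  · rw [qG_eq_qAcc]
    exact hE2

/-! ### the facts on `PR.PW` and `PR.qAcc` in the notation of `PRDefs` -/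

lemma PW_le_pow {G : Game} {k dA dB : ℕ} (S : Strategy G k dA dB) (C : Finset (Fin k)) :
    Crest.PR.PW S C ≤ Crest.PR.qAcc G ^ C.card := by
  rw [← qG_eq_qAcc]
  exact PS_le_pow S C

lemma qAcc_le {G : Game} {v : ℝ} (hv : Crest.PR.ValLe G v) (hA : 0 < G.nA) (hB : 0 < G.nB) :
    Crest.PR.qAcc G ≤ v * ((G.nA * G.nB : ℕ) : ℝ) := by
  rw [← qG_eq_qAcc]
  exact qG_le' hv hA hB

end Crest.H6PR
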