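import Mathlib
import Crest.Agent.H6PRFinal
import Crest.Agent.H20PRComp

/-!
# S37 (rounding for S0537) from helper20's component theorem
-/

set_option autoImplicit false

namespace Crest.H6PR

open Crest.MathPhysics.NonlocalGame Finset

theorem s37 : S37 := by
  intro G v κ hv hκ hnA hnB P E W hP hE hO
  obtain ⟨α, β, _, _, _, _, Φ, ΦX, ΦY, QA, QB, h1, h2, h3, h4, h5, h6, h7⟩ := hO
  rw [← h7]
  exact Crest.H20PRComp.component' hv hnA hnB hκ (kappa_nonneg G κ hκ) Φ ΦX ΦY QA QB h1 h2 h3 h4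
    P E hP h5.le h6

end Crest.H6PR
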