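import Mathlib

/-! rid 155, SECT part B: the series bound. -/

namespace Crest.Agent.ThpSectB
open Finset

/-- `b p = ∏_{i=1}^{p} (6 i + 1)` -/
def b : ℕ → ℝ
  | 0 => 1
  | p + 1 => (6 * ((p : ℝ) + 1) + 1) * b p

lemma b_pos (p : ℕ) : 0 < b p := by
  induction p with
  | zero => norm_num [b]
  | succ p ih => rw [b]; positivity

/-- `c (2p) = b p ^ 2`, `c (2p+1) = b p * b (p+1)` -/
def c (m : ℕ) : ℝ := b (m / 2) * b ((m + 1) / 2)

lemma c_pos (m : ℕ) : 0 < c m := mul_pos (b_pos _) (b_pos _)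

lemma c_succ (m : ℕ) : c (m + 1) = (6 * ((m / 2 : ℕ) : ℝ) + 7) * c m := by
  unfold c
  have h1 : (m + 1 + 1) / 2 = m / 2 + 1 := by omega
  rw [h1, b]
  ring

section
variable {E : Type} [NormedAddCommGroup E] [InnerProductSpace ℝ E] [FiniteDimensional ℝ E]
  (A : E →L[ℝ] E) (hA : ∀ x y, inner ℝ (A x) y = inner ℝ x (A y))
  (Vs : ℕ → Set E) (hV : ∀ i v, v ∈ Vs i → A v ∈ Vs (i + 1))
  (hn : ∀ i, 1 ≤ i → ∀ v ∈ Vs i, ‖A v‖ ≤ (6 * (i : ℝ) + 1) * ‖v‖)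

include hA in
lemma pow_symm (m : ℕ) (x y : E) : inner ℝ ((A ^ m) x) y = inner ℝ x ((A ^ m) y) := by
  induction m generalizing x y with
  | zero => simp
  | succ m ih =>
    rw [pow_succ]
    change inner ℝ ((A ^ m) (A x)) y = _
    rw [ih, hA]
    congr 1
    change A ((A ^ m) y) = (A ^ m) (A y)
    have : A * A ^ m = A ^ m * A := (Commute.self_pow A m).eq
    exact congrArg (fun T : E →L[ℝ] E => T y) this

include hV hn in
lemma pow_norm (w : E) (hw : w ∈ Vs 1) (p : ℕ) :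
    (A ^ p) w ∈ Vs (p + 1) ∧ ‖(A ^ p) w‖ ≤ b p * ‖w‖ := by
  induction p with
  | zero => exact ⟨by simpa using hw, by simp [b]⟩
  | succ p ih =>
    have h1 : (A ^ (p + 1)) w = A ((A ^ p) w) := by
      rw [pow_succ']; rfl
    rw [h1]
    refine ⟨hV _ _ ih.1, ?_⟩
    have h2 := hn (p + 1) (by omega) _ ih.1
    rw [Nat.cast_add, Nat.cast_one] at h2
    calc ‖A ((A ^ p) w)‖ ≤ (6 * ((p : ℝ) + 1) + 1) * ‖(A ^ p) w‖ := h2
      _ ≤ (6 * ((p : ℝ) + 1) + 1) * (b p * ‖w‖) := by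
        gcongr
        exact ih.2
      _ = b (p + 1) * ‖w‖ := by rw [b]; ring

include hA hV hn in
lemma inner_pow_le (w : E) (hw : w ∈ Vs 1) (m : ℕ) :
    inner ℝ w ((A ^ m) w) ≤ c m * ‖w‖ ^ 2 := by
  have h1 : (A ^ m) w = (A ^ (m / 2)) ((A ^ ((m + 1) / 2)) w) := by
    have : A ^ m = A ^ (m / 2) * A ^ ((m + 1) / 2) := by
      rw [← pow_add]; congr 1; omega
    rw [this]; rfl
  rw [h1, ← pow_symm A hA]
  calc _ ≤ ‖(A ^ (m / 2)) w‖ * ‖(A ^ ((m + 1) / 2)) w‖ := real_inner_le_norm _ _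
    _ ≤ (b (m / 2) * ‖w‖) * (b ((m + 1) / 2) * ‖w‖) := by
      refine mul_le_mul (pow_norm A Vs hV hn w hw _).2 (pow_norm A Vs hV hn w hw _).2
        (norm_nonneg _) (mul_nonneg (b_pos _).le (norm_nonneg _))
    _ = c m * ‖w‖ ^ 2 := by rw [c]; ring

end

/-- the coefficient at `t = 1/4` -/
noncomputable def a (m : ℕ) : ℝ := (1 / 4) ^ (m + 2) / ((m + 2).factorial : ℝ) * c m

lemma a_pos (m : ℕ) : 0 < a m := by
  unfold a
  have := c_pos m
  positivity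

lemma a_succ (m : ℕ) : a (m + 1) = (6 * ((m / 2 : ℕ) : ℝ) + 7) / (4 * ((m : ℝ) + 3)) * a m := by
  unfold a
  rw [c_succ]
  have h1 : ((m + 1 + 2).factorial : ℝ) = ((m : ℝ) + 3) * ((m + 2).factorial : ℝ) := by
    have : (m + 1 + 2).factorial = (m + 3) * (m + 2).factorial := by
      rw [show m + 1 + 2 = (m + 2) + 1 by ring, Nat.factorial_succ]
    rw [this]; push_cast; ring
  rw [h1]
  have h2 : ((m + 2).factorial : ℝ) ≠ 0 := by positivity
  have h3 : (m : ℝ) + 3 ≠ 0 := by positivity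
  field_simp
  ring

lemma a_ratio (m : ℕ) : a (m + 1) ≤ 3 / 4 * a m := by
  rw [a_succ]
  refine mul_le_mul_of_nonneg_right ?_ (a_pos m).le
  rw [div_le_iff₀ (by positivity)]
  have h1 : ((m / 2 : ℕ) : ℝ) ≤ (m : ℝ) / 2 := Nat.cast_div_le
  nlinarith

lemma a_geom (m : ℕ) : a (6 + m) ≤ a 6 * (3 / 4) ^ m := by
  induction m with
  | zero => simp
  | succ m ih =>
    calc a (6 + (m + 1)) ≤ 3 / 4 * a (6 + m) := a_ratio (6 + m)
      _ ≤ 3 / 4 * (a 6 * (3 / 4) ^ m) := by gcongr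
      _ = a 6 * (3 / 4) ^ (m + 1) := by ring

lemma a_vals : a 0 + a 1 + a 2 + a 3 + a 4 + a 5 + a 6 * 4 ≤ 9 / 125 := by
  norm_num [a, c, b, Nat.factorial]

lemma a_summable : Summable a := by
  refine summable_of_ratio_norm_eventually_le (r := 3 / 4) (by norm_num) ?_
  refine Filter.Eventually.of_forall fun m => ?_
  rw [Real.norm_of_nonneg (a_pos _).le, Real.norm_of_nonneg (a_pos _).le]
  exact a_ratio m

lemma a_tsum_le : ∑' m, a m ≤ 9 / 125 := by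
  rw [← a_summable.sum_add_tsum_nat_add 6]
  have h1 : ∑' m, a (m + 6) ≤ ∑' m : ℕ, a 6 * (3 / 4) ^ m := by
    refine Summable.tsum_le_tsum (fun m => ?_) ((summable_nat_add_iff 6).mpr a_summable) ?_
    · rw [add_comm]; exact a_geom m
    · exact (summable_geometric_of_lt_one (by norm_num) (by norm_num)).mul_left _
  have h2 : ∑' m : ℕ, a 6 * (3 / 4 : ℝ) ^ m = a 6 * 4 := by
    rw [tsum_mul_left, tsum_geometric_of_lt_one (by norm_num) (by norm_num)]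
    norm_num
  have h3 := a_vals
  have h4 : ∑ i ∈ range 6, a i = a 0 + a 1 + a 2 + a 3 + a 4 + a 5 := by
    simp [Finset.sum_range_succ]
  rw [h4]
  linarith

/-- the series bound -/
theorem series {E : Type} [NormedAddCommGroup E] [InnerProductSpace ℝ E] [FiniteDimensional ℝ E]
    (A : E →L[ℝ] E) (hA : ∀ x y, inner ℝ (A x) y = inner ℝ x (A y))
    (Vs : ℕ → Set E) (hV : ∀ i v, v ∈ Vs i → A v ∈ Vs (i + 1))
    (hn : ∀ i, 1 ≤ i → ∀ v ∈ Vs i, ‖A v‖ ≤ (6 * (i : ℝ) + 1) * ‖v‖)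
    (G : E) (hG0 : inner ℝ G (A G) = 0) (hG1 : A G ∈ Vs 1) (t : ℝ) (ht0 : 0 ≤ t) (ht : t ≤ 1 / 4) :
    inner ℝ G ((NormedSpace.exp (t • A)) G) ≤ ‖G‖ ^ 2 + (9 / 125) * ‖A G‖ ^ 2 := by
  have hs : HasSum (fun n : ℕ => ((n.factorial : ℝ)⁻¹ * t ^ n) * inner ℝ G ((A ^ n) G))
      (inner ℝ G ((NormedSpace.exp (t • A)) G)) := by
    have h1 := NormedSpace.exp_series_hasSum_exp' (𝕂 := ℝ) (t • A)
    have h2 := h1.mapL ((innerSL ℝ G).comp (ContinuousLinearMap.apply ℝ E G))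
    have hfun : (fun n : ℕ => ((n.factorial : ℝ)⁻¹ * t ^ n) * inner ℝ G ((A ^ n) G)) =
        (fun n : ℕ => ((innerSL ℝ G).comp (ContinuousLinearMap.apply ℝ E G))
          ((n.factorial : ℝ)⁻¹ • (t • A) ^ n)) := by
      funext n
      simp only [ContinuousLinearMap.comp_apply, ContinuousLinearMap.apply_apply,
        innerSL_apply_apply, smul_pow, ContinuousLinearMap.smul_apply, inner_smul_right]
      ring
    rw [hfun]
    exact h2
  have hterm : ∀ m : ℕ, (((m + 2).factorial : ℝ)⁻¹ * t ^ (m + 2)) * inner ℝ G ((A ^ (m + 2)) G) ≤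
      a m * ‖A G‖ ^ 2 := by
    intro m
    have h1 : inner ℝ G ((A ^ (m + 2)) G) = inner ℝ (A G) ((A ^ m) (A G)) := by
      rw [show A ^ (m + 2) = A * (A ^ m * A) by
        rw [← pow_succ, ← pow_succ']]
      change inner ℝ G (A ((A ^ m) (A G))) = _
      rw [← hA]
    rw [h1]
    have h2 := inner_pow_le A hA Vs hV hn (A G) hG1 m
    have h3 : t ^ (m + 2) ≤ (1 / 4) ^ (m + 2) := pow_le_pow_left₀ ht0 ht _
    calc _ ≤ (((m + 2).factorial : ℝ)⁻¹ * t ^ (m + 2)) * (c m * ‖A G‖ ^ 2) := by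
          gcongr
      _ ≤ (((m + 2).factorial : ℝ)⁻¹ * (1 / 4) ^ (m + 2)) * (c m * ‖A G‖ ^ 2) := by
          have := (c_pos m).le
          gcongr
      _ = a m * ‖A G‖ ^ 2 := by rw [a]; ring
  have hs2 := (hasSum_nat_add_iff' 2).mpr hs
  have hle := hasSum_le hterm hs2 ((a_summable.hasSum).mul_right (‖A G‖ ^ 2))
  have h5 : ∑ i ∈ range 2, ((i.factorial : ℝ)⁻¹ * t ^ i) * inner ℝ G ((A ^ i) G) = ‖G‖ ^ 2 := by
    simp [Finset.sum_range_succ, hG0]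
  rw [h5] at hle
  have h6 : (∑' m, a m) * ‖A G‖ ^ 2 ≤ (9 / 125) * ‖A G‖ ^ 2 := by
    gcongr
    exact a_tsum_le
  linarith

end Crest.Agent.ThpSectB
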