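import Crest.Agent.ThpSpec
import Crest.Agent.ThpSectB

/-! Module SECT (Spec.Sect) of rid 155, by helper6. -/

set_option autoImplicit false
set_option linter.all false

namespace Crest.Agent.H6ThpSect
open Finset Crest.Agent.Thp
open scoped InnerProductSpace

section alg
variable {P : Type} [Fintype P] [DecidableEq P] {E : Type} [NormedAddCommGroup E]
  [InnerProductSpace ℝ E] (ρ : Equiv.Perm (P × Bool) →* (E ≃ₗᵢ[ℝ] E))

/-- the operator of a transposition -/
noncomputable def T (z z' : P × Bool) : E →ₗ[ℝ] E :=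
  (ρ (Equiv.swap z z')).toLinearEquiv.toLinearMap

omit [Fintype P] in
theorem T_apply (z z' : P × Bool) (v : E) : T ρ z z' v = ρ (Equiv.swap z z') v := rfl

omit [Fintype P] in
theorem T_self (z : P × Bool) (v : E) : T ρ z z v = v := by
  rw [T_apply, Equiv.swap_self, ← Equiv.Perm.one_def, map_one]; rfl

omit [Fintype P] in
theorem T_comm (z z' : P × Bool) (v : E) : T ρ z z' v = T ρ z' z v := by
  rw [T_apply, T_apply, Equiv.swap_comm]

omit [Fintype P] in
theorem T_T (z z' : P × Bool) (v : E) : T ρ z z' (T ρ z z' v) = v := by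
  rw [T_apply, T_apply]
  have : ρ (Equiv.swap z z') (ρ (Equiv.swap z z') v) = (ρ (Equiv.swap z z' * Equiv.swap z z')) v := by
    rw [map_mul]; rfl
  rw [this, Equiv.swap_mul_self, map_one]; rfl

omit [Fintype P] in
theorem T_norm (z z' : P × Bool) (v : E) : ‖T ρ z z' v‖ = ‖v‖ := (ρ (Equiv.swap z z')).norm_map v

omit [Fintype P] in
theorem T_inner' (z z' : P × Bool) (v w : E) : ⟪T ρ z z' v, T ρ z z' w⟫_ℝ = ⟪v, w⟫_ℝ :=
  (ρ (Equiv.swap z z')).inner_map_map v w

omit [Fintype P] in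
theorem T_inner (z z' : P × Bool) (v w : E) : ⟪T ρ z z' v, w⟫_ℝ = ⟪v, T ρ z z' w⟫_ℝ := by
  rw [← T_inner' ρ z z' v (T ρ z z' w), T_T]

omit [Fintype P] in
/-- conjugation -/
theorem T_conj (a b z z' : P × Bool) (v : E) : T ρ a b (T ρ z z' v) =
    T ρ (Equiv.swap a b z) (Equiv.swap a b z') (T ρ a b v) := by
  simp only [T_apply]
  have h1 : ∀ (g h : Equiv.Perm (P × Bool)) (v : E), ρ g (ρ h v) = ρ (g * h) v := by
    intro g h v; rw [map_mul]; rfl
  rw [h1, h1, Equiv.mul_swap_eq_swap_mul]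

/-- the switch at `p` -/
noncomputable def S (p : P) : E →ₗ[ℝ] E := T ρ (p, false) (p, true)

/-- the difference operator -/
noncomputable def Dl (p q : P) : E →ₗ[ℝ] E :=
  T ρ (p, false) (q, false) + T ρ (p, true) (q, true) - T ρ (p, false) (q, true)
    - T ρ (p, true) (q, false)

omit [Fintype P] in
theorem Dl_apply (p q : P) (v : E) : Dl ρ p q v =
    T ρ (p, false) (q, false) v + T ρ (p, true) (q, true) v - T ρ (p, false) (q, true) v
    - T ρ (p, true) (q, false) v := rfl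

omit [Fintype P] in
theorem Dl_inner (p q : P) (v w : E) : ⟪Dl ρ p q v, w⟫_ℝ = ⟪v, Dl ρ p q w⟫_ℝ := by
  simp only [Dl_apply, inner_sub_left, inner_add_left, inner_sub_right, inner_add_right, T_inner]

/-- sign -/
def sg (r p : P) : ℝ := if r = p then -1 else 1

omit [Fintype P] in
theorem S_Dl (r p q : P) (v : E) : S ρ r (Dl ρ p q v) = (sg r p * sg r q) • Dl ρ p q (S ρ r v) := by
  unfold S sg
  rw [Dl_apply, map_sub, map_sub, map_add, T_conj, T_conj ρ _ _ (p, true), T_conj ρ _ _ (p, false) (q, true),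
    T_conj ρ _ _ (p, true) (q, false), Dl_apply]
  by_cases h1 : r = p
  · subst h1
    by_cases h2 : r = q
    · subst h2
      simp only [Equiv.swap_apply_left, Equiv.swap_apply_right, if_true]
      norm_num
      rw [T_comm ρ (r, true) (r, false)]
      rw [T_self, T_self]
    · have e1 : Equiv.swap (r, false) (r, true) (q, false) = (q, false) := by
        apply Equiv.swap_apply_of_ne_of_ne <;> simp [Ne.symm h2]
      have e2 : Equiv.swap (r, false) (r, true) (q, true) = (q, true) := by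
        apply Equiv.swap_apply_of_ne_of_ne <;> simp [Ne.symm h2]
      rw [Equiv.swap_apply_left, Equiv.swap_apply_right, e1, e2, if_pos rfl, if_neg h2]
      module
  · have e1 : Equiv.swap (r, false) (r, true) (p, false) = (p, false) := by
      apply Equiv.swap_apply_of_ne_of_ne <;> simp [Ne.symm h1]
    have e2 : Equiv.swap (r, false) (r, true) (p, true) = (p, true) := by
      apply Equiv.swap_apply_of_ne_of_ne <;> simp [Ne.symm h1]
    by_cases h2 : r = q
    · subst h2
      rw [Equiv.swap_apply_left, Equiv.swap_apply_right, e1, e2, if_pos rfl, if_neg h1]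
      module
    · have e3 : Equiv.swap (r, false) (r, true) (q, false) = (q, false) := by
        apply Equiv.swap_apply_of_ne_of_ne <;> simp [Ne.symm h2]
      have e4 : Equiv.swap (r, false) (r, true) (q, true) = (q, true) := by
        apply Equiv.swap_apply_of_ne_of_ne <;> simp [Ne.symm h2]
      rw [e1, e2, e3, e4, if_neg h1, if_neg h2]
      module

omit [Fintype P] in
/-- the diagonal -/
theorem Dl_self (p : P) (v : E) : Dl ρ p p v = (2 : ℝ) • v - (2 : ℝ) • S ρ p v := by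
  rw [Dl_apply, T_self, T_self, T_comm ρ (p, true) (p, false)]
  unfold S
  module

omit [Fintype P] in
/-- norm of `Dl` on eigenvectors -/
theorem Dl_norm (p q : P) (hpq : p ≠ q) (v : E) (α β : ℝ) (hα : α ^ 2 = 1)
    (hp : S ρ p v = α • v) (hq : S ρ q v = β • v) :
    ‖Dl ρ p q v‖ ^ 2 = 4 * ‖v‖ ^ 2 + 4 * ⟪T ρ (p, false) (q, false) v, T ρ (p, true) (q, true) v⟫_ℝ
      - 2 * (α + β) * (⟪v, T ρ (p, false) (q, false) v⟫_ℝ + ⟪v, T ρ (p, true) (q, true) v⟫_ℝ) := by
  have n1 : ‖Dl ρ p q v‖ ^ 2 = ⟪Dl ρ p q v, Dl ρ p q v⟫_ℝ := (real_inner_self_eq_norm_sq _).symm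
  obtain ⟨x1, h1⟩ : ∃ x, x = T ρ (p, false) (q, false) v := ⟨_, rfl⟩
  obtain ⟨x2, h2⟩ : ∃ x, x = T ρ (p, true) (q, true) v := ⟨_, rfl⟩
  obtain ⟨x3, h3⟩ : ∃ x, x = T ρ (p, false) (q, true) v := ⟨_, rfl⟩
  obtain ⟨x4, h4⟩ : ∃ x, x = T ρ (p, true) (q, false) v := ⟨_, rfl⟩
  have k11 : ⟪x1, x1⟫_ℝ = ‖v‖ ^ 2 := by rw [real_inner_self_eq_norm_sq, h1, T_norm]
  have k22 : ⟪x2, x2⟫_ℝ = ‖v‖ ^ 2 := by rw [real_inner_self_eq_norm_sq, h2, T_norm]
  have k33 : ⟪x3, x3⟫_ℝ = ‖v‖ ^ 2 := by rw [real_inner_self_eq_norm_sq, h3, T_norm]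
  have k44 : ⟪x4, x4⟫_ℝ = ‖v‖ ^ 2 := by rw [real_inner_self_eq_norm_sq, h4, T_norm]
  have ne1 : (q, true) ≠ (p, false) := by simp
  have k13 : ⟪x1, x3⟫_ℝ = β * ⟪v, x1⟫_ℝ := by
    rw [h1, T_inner, h3, T_conj, Equiv.swap_apply_left,
      Equiv.swap_apply_of_ne_of_ne (by simp) (by simp), ← h1]
    have : ⟪v, T ρ (q, false) (q, true) x1⟫_ℝ = ⟪S ρ q v, x1⟫_ℝ := (T_inner ρ _ _ _ _).symm
    rw [this, hq, real_inner_smul_left]
  have k14 : ⟪x1, x4⟫_ℝ = α * ⟪v, x1⟫_ℝ := by
    rw [h1, T_inner, h4, T_conj, Equiv.swap_apply_right,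
      Equiv.swap_apply_of_ne_of_ne (by simp) (by simp [hpq]), ← h1, T_comm]
    have : ⟪v, T ρ (p, false) (p, true) x1⟫_ℝ = ⟪S ρ p v, x1⟫_ℝ := (T_inner ρ _ _ _ _).symm
    rw [this, hp, real_inner_smul_left]
  have k23 : ⟪x2, x3⟫_ℝ = α * ⟪v, x2⟫_ℝ := by
    rw [h2, T_inner, h3, T_conj, Equiv.swap_apply_right,
      Equiv.swap_apply_of_ne_of_ne (by simp) (by simp [hpq]), ← h2]
    have : ⟪v, T ρ (p, false) (p, true) x2⟫_ℝ = ⟪S ρ p v, x2⟫_ℝ := (T_inner ρ _ _ _ _).symm
    rw [this, hp, real_inner_smul_left]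
  have k24 : ⟪x2, x4⟫_ℝ = β * ⟪v, x2⟫_ℝ := by
    rw [h2, T_inner, h4, T_conj, Equiv.swap_apply_left,
      Equiv.swap_apply_of_ne_of_ne (by simp) (by simp), ← h2, T_comm]
    have : ⟪v, T ρ (q, false) (q, true) x2⟫_ℝ = ⟪S ρ q v, x2⟫_ℝ := (T_inner ρ _ _ _ _).symm
    rw [this, hq, real_inner_smul_left]
  have s13 : S ρ p x3 = α • x2 := by
    rw [h3]; unfold S; rw [T_conj, Equiv.swap_apply_left,
      Equiv.swap_apply_of_ne_of_ne (by simp [Ne.symm hpq]) (by simp [Ne.symm hpq])]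
    change T ρ (p, true) (q, true) (S ρ p v) = _
    rw [hp, map_smul, ← h2]
  have s14 : S ρ p x4 = α • x1 := by
    rw [h4]; unfold S; rw [T_conj, Equiv.swap_apply_right,
      Equiv.swap_apply_of_ne_of_ne (by simp [Ne.symm hpq]) (by simp [Ne.symm hpq])]
    change T ρ (p, false) (q, false) (S ρ p v) = _
    rw [hp, map_smul, ← h1]
  have k34 : ⟪x3, x4⟫_ℝ = ⟪x1, x2⟫_ℝ := by
    have : ⟪x3, x4⟫_ℝ = ⟪S ρ p x3, S ρ p x4⟫_ℝ := (T_inner' ρ _ _ _ _).symm
    rw [this, s13, s14, real_inner_smul_left, real_inner_smul_right, ← mul_assoc, ← pow_two, hα,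
      one_mul, real_inner_comm]
  rw [n1, Dl_apply, ← h1, ← h2, ← h3, ← h4]
  simp only [inner_sub_left, inner_add_left, inner_sub_right, inner_add_right]
  rw [real_inner_comm x1 x2, real_inner_comm x1 x3, real_inner_comm x1 x4, real_inner_comm x2 x3,
    real_inner_comm x2 x4, real_inner_comm x3 x4, k11, k22, k33, k44, k13, k14, k23, k24, k34]
  ring

omit [Fintype P] in
/-- both symmetric -/
theorem Dl_norm_sym (p q : P) (hpq : p ≠ q) (v : E) (hp : S ρ p v = v) (hq : S ρ q v = v) :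
    ‖Dl ρ p q v‖ ^ 2 ≤ 2 * ∑ h : Bool, ∑ h' : Bool, (‖v‖ ^ 2 - ⟪v, T ρ (p, h) (q, h') v⟫_ℝ) := by
  have hn := Dl_norm ρ p q hpq v 1 1 (by norm_num) (by rw [hp, one_smul]) (by rw [hq, one_smul])
  have c : ⟪T ρ (p, false) (q, false) v, T ρ (p, true) (q, true) v⟫_ℝ ≤ ‖v‖ ^ 2 := by
    refine (real_inner_le_norm _ _).trans ?_
    rw [T_norm, T_norm, pow_two]
  have e13 : ⟪v, T ρ (p, false) (q, true) v⟫_ℝ = ⟪v, T ρ (p, false) (q, false) v⟫_ℝ := by
    have h : S ρ q (T ρ (p, false) (q, false) v) = T ρ (p, false) (q, true) v := by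
      unfold S; rw [T_conj, Equiv.swap_apply_left,
        Equiv.swap_apply_of_ne_of_ne (by simp [hpq]) (by simp [hpq])]
      change T ρ (p, false) (q, true) (S ρ q v) = _
      rw [hq]
    rw [← h]
    have : ⟪v, S ρ q (T ρ (p, false) (q, false) v)⟫_ℝ = ⟪S ρ q v, T ρ (p, false) (q, false) v⟫_ℝ :=
      (T_inner ρ _ _ _ _).symm
    rw [this, hq]
  have e14 : ⟪v, T ρ (p, true) (q, false) v⟫_ℝ = ⟪v, T ρ (p, false) (q, false) v⟫_ℝ := by
    have h : S ρ p (T ρ (p, false) (q, false) v) = T ρ (p, true) (q, false) v := by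
      unfold S; rw [T_conj, Equiv.swap_apply_left,
        Equiv.swap_apply_of_ne_of_ne (by simp [Ne.symm hpq]) (by simp [Ne.symm hpq])]
      change T ρ (p, true) (q, false) (S ρ p v) = _
      rw [hp]
    rw [← h]
    have : ⟪v, S ρ p (T ρ (p, false) (q, false) v)⟫_ℝ = ⟪S ρ p v, T ρ (p, false) (q, false) v⟫_ℝ :=
      (T_inner ρ _ _ _ _).symm
    rw [this, hp]
  have e12 : ⟪v, T ρ (p, true) (q, true) v⟫_ℝ = ⟪v, T ρ (p, false) (q, true) v⟫_ℝ := by
    have h : S ρ p (T ρ (p, false) (q, true) v) = T ρ (p, true) (q, true) v := by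
      unfold S; rw [T_conj, Equiv.swap_apply_left,
        Equiv.swap_apply_of_ne_of_ne (by simp [Ne.symm hpq]) (by simp [Ne.symm hpq])]
      change T ρ (p, true) (q, true) (S ρ p v) = _
      rw [hp]
    rw [← h]
    have : ⟪v, S ρ p (T ρ (p, false) (q, true) v)⟫_ℝ = ⟪S ρ p v, T ρ (p, false) (q, true) v⟫_ℝ :=
      (T_inner ρ _ _ _ _).symm
    rw [this, hp]
  rw [hn]
  simp only [Fintype.sum_bool]
  rw [e14, e12, e13]
  linarith

omit [Fintype P] in
/-- one symmetric, one antisymmetric -/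
theorem Dl_norm_skew (p q : P) (hpq : p ≠ q) (v : E) (α : ℝ) (hα : α ^ 2 = 1)
    (hp : S ρ p v = α • v) (hq : S ρ q v = (-α) • v) : ‖Dl ρ p q v‖ = 2 * ‖v‖ := by
  have hn := Dl_norm ρ p q hpq v α (-α) hα hp hq
  have h0 : ⟪T ρ (p, false) (q, false) v, T ρ (p, true) (q, true) v⟫_ℝ = 0 := by
    rw [T_inner]
    set y := T ρ (p, false) (q, false) (T ρ (p, true) (q, true) v) with hy
    have hS : S ρ p y = (-α) • y := by
      have e1 : S ρ p y = T ρ (p, false) (q, false) (T ρ (p, true) (q, true) (S ρ q v)) := by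
        rw [T_conj ρ (p, true) (q, true) _ _ v |> fun h => (by
          unfold S
          exact congrArg _ h : T ρ (p, false) (q, false) (T ρ (p, true) (q, true) (S ρ q v)) = _)]
        rw [Equiv.swap_apply_right, Equiv.swap_apply_of_ne_of_ne (by simp [Ne.symm hpq]) (by simp),
          T_conj, Equiv.swap_apply_right, Equiv.swap_apply_of_ne_of_ne (by simp) (by simp [hpq])]
        rfl
      rw [e1, hq, map_smul, map_smul]
    have h1 : ⟪v, y⟫_ℝ = ⟪S ρ p v, S ρ p y⟫_ℝ := (T_inner' ρ _ _ _ _).symm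
    rw [hp, hS, real_inner_smul_left, real_inner_smul_right] at h1
    have : ⟪v, y⟫_ℝ = -(α ^ 2) * ⟪v, y⟫_ℝ := by linarith
    rw [hα] at this
    linarith
  rw [h0] at hn
  have h2 : ‖Dl ρ p q v‖ ^ 2 = (2 * ‖v‖) ^ 2 := by rw [hn]; ring
  exact (pow_left_inj₀ (norm_nonneg _) (by positivity) two_ne_zero).1 h2

/-- toggle two elements -/
def tg (p q : P) (J : Finset P) : Finset P := symmDiff (symmDiff J {p}) {q}

omit [Fintype P] in
theorem tg_tg (p q : P) (J : Finset P) : tg p q (tg p q J) = J := by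
  unfold tg
  rw [symmDiff_right_comm (symmDiff J {p}) {q} {p}, symmDiff_symmDiff_cancel_right,
    symmDiff_symmDiff_cancel_right]

omit [Fintype P] in
theorem mem_tg (p q r : P) (J : Finset P) :
    r ∈ tg p q J ↔ ((r ∈ J) ↔ ((r = p) ↔ (r = q))) := by
  unfold tg
  simp only [mem_symmDiff, mem_singleton]
  tauto

/-- sign of an element in a set -/
noncomputable def es (r : P) (J : Finset P) : ℝ := if r ∈ J then -1 else 1

omit [Fintype P] in
theorem es_tg (p q r : P) (J : Finset P) : es r (tg p q J) = sg r p * sg r q * es r J := by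
  unfold es sg
  have := mem_tg p q r J
  by_cases h1 : r = p <;> by_cases h2 : r = q <;> by_cases h3 : r ∈ J <;>
    simp [h1, h2, h3] at this ⊢ <;> simp_all

/-! ### sections -/

/-- sections of the sector decomposition -/
def Sec (f : Finset P → E) : Prop := ∀ J r, S ρ r (f J) = es r J • f J

/-- weighted difference operator on sections -/
noncomputable def Op (w : Finset P → P → P → ℝ) (f : Finset P → E) (K : Finset P) : E :=
  (1 / (4 * (Fintype.card P : ℝ))) • ∑ p, ∑ q, w K p q • Dl ρ p q (f (tg p q K))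

theorem sec_Op (w : Finset P → P → P → ℝ) (f : Finset P → E) (hf : Sec ρ f) :
    Sec ρ (Op ρ w f) := by
  intro J r
  unfold Op
  have key : S ρ r (∑ p, ∑ q, w J p q • Dl ρ p q (f (tg p q J)))
      = es r J • ∑ p, ∑ q, w J p q • Dl ρ p q (f (tg p q J)) := ?_
  · rw [map_smul, key, smul_comm]
  rw [map_sum, Finset.smul_sum]
  apply Finset.sum_congr rfl
  intro p _
  rw [map_sum, Finset.smul_sum]
  apply Finset.sum_congr rfl
  intro q _
  rw [map_smul, S_Dl, hf, es_tg, map_smul]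
  have h1 : sg r p * sg r p = 1 := by unfold sg; split_ifs <;> norm_num
  have h2 : sg r q * sg r q = 1 := by unfold sg; split_ifs <;> norm_num
  have e : sg r p * sg r q * (sg r p * sg r q * es r J) = es r J := by
    calc sg r p * sg r q * (sg r p * sg r q * es r J)
        = (sg r p * sg r p) * (sg r q * sg r q) * es r J := by ring
      _ = es r J := by rw [h1, h2]; ring
  simp only [smul_smul]
  congr 1
  linear_combination (w J p q) * e

/-- total of a section -/
noncomputable def tot (f : Finset P → E) : E := ∑ J, f J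

/-- square norm of a section -/
noncomputable def nsq (f : Finset P → E) : ℝ := ∑ J, ‖f J‖ ^ 2

theorem nsq_nonneg (f : Finset P → E) : 0 ≤ nsq f := Finset.sum_nonneg fun _ _ => sq_nonneg _

omit [Fintype P] in
theorem sec_orth (f g : Finset P → E) (hf : Sec ρ f) (hg : Sec ρ g) (J K : Finset P) (h : J ≠ K) :
    ⟪f J, g K⟫_ℝ = 0 := by
  have : ∃ r, es r J * es r K = -1 := by
    by_contra hcon
    push Not at hcon
    apply h
    ext r
    have := hcon r
    unfold es at this
    by_cases h1 : r ∈ J <;> by_cases h2 : r ∈ K <;> simp_all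
  obtain ⟨r, hr⟩ := this
  have h1 : ⟪f J, g K⟫_ℝ = ⟪S ρ r (f J), S ρ r (g K)⟫_ℝ := (T_inner' ρ _ _ _ _).symm
  rw [hf, hg, real_inner_smul_left, real_inner_smul_right, ← mul_assoc, hr] at h1
  linarith

theorem tot_inner (f g : Finset P → E) (hf : Sec ρ f) (hg : Sec ρ g) :
    ⟪tot f, tot g⟫_ℝ = ∑ J, ⟪f J, g J⟫_ℝ := by
  unfold tot
  rw [sum_inner]
  apply Finset.sum_congr rfl
  intro J _
  rw [inner_sum, Finset.sum_eq_single J]
  · intro K _ hK
    exact sec_orth ρ f g hf hg J K (Ne.symm hK)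
  · intro h; exact absurd (Finset.mem_univ J) h

theorem tot_norm (f : Finset P → E) (hf : Sec ρ f) : ‖tot f‖ ^ 2 = nsq f := by
  rw [← real_inner_self_eq_norm_sq, tot_inner ρ f f hf hf]
  unfold nsq
  apply Finset.sum_congr rfl
  intro J _
  rw [real_inner_self_eq_norm_sq]

/-- reindexing -/
theorem reindex (F : Finset P → Finset P → P → P → ℝ) :
    ∑ K : Finset P, ∑ p, ∑ q, F K (tg p q K) p q = ∑ K : Finset P, ∑ p, ∑ q, F (tg p q K) K p q := by
  rw [Finset.sum_comm, Finset.sum_comm (s := (univ : Finset (Finset P)))]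
  apply Finset.sum_congr rfl
  intro p _
  rw [Finset.sum_comm, Finset.sum_comm (s := (univ : Finset (Finset P)))]
  apply Finset.sum_congr rfl
  intro q _
  have hinv : Function.Involutive (tg p q : Finset P → Finset P) := tg_tg p q
  rw [← Equiv.sum_comp hinv.toPerm]
  apply Finset.sum_congr rfl
  intro K _
  change F (tg p q K) (tg p q (tg p q K)) p q = _
  rw [tg_tg]

/-- duality -/
theorem Op_dual (w w' : Finset P → P → P → ℝ) (hw : ∀ K p q, w (tg p q K) p q = w' K p q)
    (f g : Finset P → E) : ∑ K, ⟪Op ρ w f K, g K⟫_ℝ = ∑ K, ⟪f K, Op ρ w' g K⟫_ℝ := by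
  have e1 : ∀ K, ⟪Op ρ w f K, g K⟫_ℝ = ∑ p, ∑ q, (1 / (4 * (Fintype.card P : ℝ))) * (w K p q *
      ⟪f (tg p q K), Dl ρ p q (g K)⟫_ℝ) := by
    intro K
    unfold Op
    rw [real_inner_smul_left, sum_inner, Finset.mul_sum]
    apply Finset.sum_congr rfl
    intro p _
    rw [sum_inner, Finset.mul_sum]
    apply Finset.sum_congr rfl
    intro q _
    rw [real_inner_smul_left, Dl_inner]
  have e2 : ∀ K, ⟪f K, Op ρ w' g K⟫_ℝ = ∑ p, ∑ q, (1 / (4 * (Fintype.card P : ℝ))) * (w' K p q *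
      ⟪f K, Dl ρ p q (g (tg p q K))⟫_ℝ) := by
    intro K
    unfold Op
    rw [real_inner_smul_right, inner_sum, Finset.mul_sum]
    apply Finset.sum_congr rfl
    intro p _
    rw [inner_sum, Finset.mul_sum]
    apply Finset.sum_congr rfl
    intro q _
    rw [real_inner_smul_right]
  simp only [e1, e2]
  rw [reindex (fun K L p q => (1 / (4 * (Fintype.card P : ℝ))) * (w K p q *
      ⟪f L, Dl ρ p q (g K)⟫_ℝ))]
  simp only [hw]

omit [Fintype P] [DecidableEq P] in
/-- Cauchy-Schwarz with weights -/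
theorem cs {ι : Type} (s : Finset ι) (x : ι → E) (a b : ι → ℝ) (ha : ∀ i ∈ s, 0 ≤ a i)
    (hb : ∀ i ∈ s, 0 ≤ b i) (h : ∀ i ∈ s, ‖x i‖ ^ 2 ≤ a i * b i) :
    ‖∑ i ∈ s, x i‖ ^ 2 ≤ (∑ i ∈ s, a i) * ∑ i ∈ s, b i := by
  have h1 : ‖∑ i ∈ s, x i‖ ≤ ∑ i ∈ s, √(a i * b i) := by
    refine (norm_sum_le _ _).trans ?_
    apply Finset.sum_le_sum
    intro i hi
    exact Real.le_sqrt_of_sq_le (h i hi)
  refine (pow_le_pow_left₀ (norm_nonneg _) h1 2).trans ?_
  apply Finset.sum_sq_le_sum_mul_sum_of_sq_eq_mul s ha hb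
  intro i hi
  exact Real.sq_sqrt (mul_nonneg (ha i hi) (hb i hi))

/-- weighted Cauchy-Schwarz for `Op` -/
theorem nsq_Op_le (w a b : Finset P → P → P → ℝ) (f : Finset P → E) (ha : ∀ K p q, 0 ≤ a K p q)
    (hb : ∀ K p q, 0 ≤ b K p q)
    (h : ∀ K p q, ‖w K p q • Dl ρ p q (f (tg p q K))‖ ^ 2 ≤ a K p q * b K p q) :
    nsq (Op ρ w f) ≤ (1 / (4 * (Fintype.card P : ℝ))) ^ 2 *
      ∑ K : Finset P, (∑ p, ∑ q, a K p q) * ∑ p, ∑ q, b K p q := by
  unfold nsq Op
  rw [Finset.mul_sum]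
  apply Finset.sum_le_sum
  intro K _
  rw [norm_smul, mul_pow, Real.norm_of_nonneg (by positivity)]
  apply mul_le_mul_of_nonneg_left _ (by positivity)
  rw [← Fintype.sum_prod_type', ← Fintype.sum_prod_type', ← Fintype.sum_prod_type']
  exact cs _ _ _ _ (fun i _ => ha _ _ _) (fun i _ => hb _ _ _) (fun i _ => h _ _ _)

omit [Fintype P] in
theorem card_in (p : P) (K : Finset P) (h : p ∈ K) : (symmDiff K {p}).card + 1 = K.card := by
  have : symmDiff K {p} = K.erase p := by
    ext r; simp only [mem_symmDiff, mem_singleton, mem_erase]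
    by_cases h1 : r = p
    · subst h1; tauto
    · tauto
  rw [this]
  exact Finset.card_erase_add_one h

omit [Fintype P] in
theorem card_out (p : P) (K : Finset P) (h : p ∉ K) : (symmDiff K {p}).card = K.card + 1 := by
  have : symmDiff K {p} = insert p K := by
    ext r; simp only [mem_symmDiff, mem_singleton, mem_insert]
    by_cases h1 : r = p
    · subst h1; tauto
    · tauto
  rw [this]
  exact Finset.card_insert_of_notMem h

omit [Fintype P] in
theorem mem_sd (p q : P) (K : Finset P) (h : p ≠ q) : q ∈ symmDiff K {p} ↔ q ∈ K := by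
  simp only [mem_symmDiff, mem_singleton]
  have := Ne.symm h
  tauto

omit [Fintype P] in
theorem card_tg_in (p q : P) (K : Finset P) (h : p ≠ q) (hp : p ∈ K) (hq : q ∈ K) :
    (tg p q K).card + 2 = K.card := by
  have h1 := card_in p K hp
  have h2 := card_in q (symmDiff K {p}) ((mem_sd p q K h).2 hq)
  unfold tg; omega

omit [Fintype P] in
theorem card_tg_io (p q : P) (K : Finset P) (hp : p ∈ K) (hq : q ∉ K) :
    (tg p q K).card = K.card := by
  have h : p ≠ q := by rintro rfl; exact hq hp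
  have h1 := card_in p K hp
  have h2 := card_out q (symmDiff K {p}) (fun h' => hq ((mem_sd p q K h).1 h'))
  unfold tg; omega

omit [Fintype P] in
theorem card_tg_oi (p q : P) (K : Finset P) (hp : p ∉ K) (hq : q ∈ K) :
    (tg p q K).card = K.card := by
  have h : p ≠ q := by rintro rfl; exact hp hq
  have h1 := card_out p K hp
  have h2 := card_in q (symmDiff K {p}) ((mem_sd p q K h).2 hq)
  unfold tg; omega

omit [Fintype P] in
theorem tg_self (p : P) (K : Finset P) : tg p p K = K := by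
  unfold tg; exact symmDiff_symmDiff_cancel_right _ _

/-! ### the three weights -/

/-- both in -/
noncomputable def wp (K : Finset P) (p q : P) : ℝ := if p ≠ q ∧ p ∈ K ∧ q ∈ K then 1 else 0
/-- both out -/
noncomputable def wm (K : Finset P) (p q : P) : ℝ := if p ≠ q ∧ p ∉ K ∧ q ∉ K then 1 else 0
/-- the rest -/
noncomputable def w0 (K : Finset P) (p q : P) : ℝ := 1 - wp K p q - wm K p q
/-- norm weight of the rest -/
noncomputable def wc (K : Finset P) (p q : P) : ℝ :=
  (if p = q ∧ p ∈ K then 4 else 0) + ((if p ∈ K ∧ q ∉ K then 2 else 0)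
    + (if p ∉ K ∧ q ∈ K then 2 else 0))

omit [Fintype P] in
theorem wc_nonneg (K : Finset P) (p q : P) : 0 ≤ wc K p q := by
  unfold wc; positivity

omit [Fintype P] in
theorem mem_tg_left (p q : P) (K : Finset P) (h : p ≠ q) : p ∈ tg p q K ↔ p ∉ K := by
  rw [mem_tg]; simp [h]

omit [Fintype P] in
theorem mem_tg_right (p q : P) (K : Finset P) (h : p ≠ q) : q ∈ tg p q K ↔ q ∉ K := by
  rw [mem_tg]; simp [h.symm]

omit [Fintype P] in
theorem wp_tg (K : Finset P) (p q : P) : wp (tg p q K) p q = wm K p q := by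
  unfold wp wm
  by_cases h : p = q
  · simp [h]
  · simp only [mem_tg_left p q K h, mem_tg_right p q K h]

omit [Fintype P] in
theorem wm_tg (K : Finset P) (p q : P) : wm (tg p q K) p q = wp K p q := by
  have := wp_tg (tg p q K) p q
  rw [tg_tg] at this
  exact this.symm

omit [Fintype P] in
theorem wc_tg (K : Finset P) (p q : P) : wc (tg p q K) p q = wc K p q := by
  by_cases h : p = q
  · subst h; rw [tg_self]
  · unfold wc
    simp only [mem_tg_left p q K h, mem_tg_right p q K h, h, false_and, not_not, if_false]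
    ring

omit [Fintype P] in
/-- term bound for the diagonal part -/
theorem w0_bound (f : Finset P → E) (hf : Sec ρ f) (K : Finset P) (p q : P) :
    ‖w0 K p q • Dl ρ p q (f (tg p q K))‖ ^ 2 ≤ wc K p q * (wc K p q * ‖f (tg p q K)‖ ^ 2) := by
  by_cases h : p = q
  · subst h
    rw [tg_self, Dl_self, hf]
    unfold w0 wp wm wc es
    by_cases h1 : p ∈ K
    · simp only [h1, ne_eq, not_true_eq_false, false_and, if_false, and_true, if_true, not_false_eq_true,
        and_false, true_and]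
      have e : (1 - 0 - 0 : ℝ) • ((2 : ℝ) • f K - (2 : ℝ) • ((-1 : ℝ) • f K)) = (4 : ℝ) • f K := by
        module
      rw [e, norm_smul, mul_pow, Real.norm_of_nonneg (by norm_num)]
      apply le_of_eq; ring
    · simp only [h1, ne_eq, not_true_eq_false, false_and, if_false, and_true, and_false, true_and,
        not_false_eq_true]
      have e : (1 - 0 - 0 : ℝ) • ((2 : ℝ) • f K - (2 : ℝ) • ((1 : ℝ) • f K)) = 0 := by
        module
      rw [e]; simp
  · by_cases h1 : p ∈ K <;> by_cases h2 : q ∈ K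
    · have e : w0 K p q = 0 := by unfold w0 wp wm; simp [h, h1, h2]
      rw [e]; simp
      exact mul_nonneg (wc_nonneg _ _ _) (mul_nonneg (wc_nonneg _ _ _) (by positivity))
    · have hn : ‖Dl ρ p q (f (tg p q K))‖ = 2 * ‖f (tg p q K)‖ := by
        apply Dl_norm_skew ρ p q h _ 1 (by norm_num)
        · rw [hf]; simp [es, mem_tg_left p q K h, h1]
        · rw [hf]; simp [es, mem_tg_right p q K h, h2]
      have e : w0 K p q = 1 := by unfold w0 wp wm; simp [h, h1, h2]
      have e2 : wc K p q = 2 := by unfold wc; simp [h, h1, h2]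
      rw [e, e2, one_smul, hn]
      apply le_of_eq; ring
    · have hn : ‖Dl ρ p q (f (tg p q K))‖ = 2 * ‖f (tg p q K)‖ := by
        apply Dl_norm_skew ρ p q h _ (-1) (by norm_num)
        · rw [hf]; simp [es, mem_tg_left p q K h, h1]
        · rw [hf]; simp [es, mem_tg_right p q K h, h2]
      have e : w0 K p q = 1 := by unfold w0 wp wm; simp [h, h1, h2]
      have e2 : wc K p q = 2 := by unfold wc; simp [h, h1, h2]
      rw [e, e2, one_smul, hn]
      apply le_of_eq; ring
    · have e : w0 K p q = 0 := by unfold w0 wp wm; simp [h, h1, h2]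
      rw [e]; simp
      exact mul_nonneg (wc_nonneg _ _ _) (mul_nonneg (wc_nonneg _ _ _) (by positivity))

/-- sum of the weights -/
theorem wc_sum (K : Finset P) :
    ∑ p, ∑ q, wc K p q ≤ 4 * (Fintype.card P : ℝ) * K.card := by
  have h1 : ∑ p : P, ∑ q : P, wc K p q = 4 * (K.card : ℝ) + 4 * K.card * (Kᶜ.card : ℝ) := by
    unfold wc
    simp only [Finset.sum_add_distrib]
    have a1 : ∑ p : P, ∑ q : P, (if p = q ∧ p ∈ K then (4 : ℝ) else 0) = 4 * (K.card : ℝ) := by
      have : ∀ p : P, ∑ q : P, (if p = q ∧ p ∈ K then (4 : ℝ) else 0) = if p ∈ K then 4 else 0 := by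
        intro p
        rw [Finset.sum_eq_single p]
        · simp
        · intro q _ hq; simp [Ne.symm hq]
        · intro h; exact absurd (Finset.mem_univ p) h
      simp only [this]
      rw [← Finset.sum_filter, Finset.sum_const, nsmul_eq_mul]
      simp [mul_comm]
    have a2 : ∑ p : P, ∑ q : P, (if p ∈ K ∧ q ∉ K then (2 : ℝ) else 0)
        = 2 * (K.card : ℝ) * (Kᶜ.card : ℝ) := by
      have : ∀ p : P, ∑ q : P, (if p ∈ K ∧ q ∉ K then (2 : ℝ) else 0)
          = if p ∈ K then 2 * (Kᶜ.card : ℝ) else 0 := by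
        intro p
        by_cases hp : p ∈ K
        · simp only [hp, true_and, if_true]
          rw [← Finset.sum_filter, Finset.sum_const, nsmul_eq_mul, mul_comm]
          congr 3
          ext q; simp
        · simp [hp]
      simp only [this]
      rw [← Finset.sum_filter, Finset.sum_const, nsmul_eq_mul]
      simp
      ring
    have a3 : ∑ p : P, ∑ q : P, (if p ∉ K ∧ q ∈ K then (2 : ℝ) else 0)
        = 2 * (K.card : ℝ) * (Kᶜ.card : ℝ) := by
      rw [Finset.sum_comm, ← a2]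
      apply Finset.sum_congr rfl; intro p _
      apply Finset.sum_congr rfl; intro q _
      simp only [and_comm]
    rw [a1, a2, a3]; ring
  rw [h1]
  have h2 : (K.card : ℝ) + (Kᶜ.card : ℝ) = Fintype.card P := by
    exact_mod_cast Finset.card_add_card_compl K
  rcases Nat.eq_zero_or_pos K.card with h0 | h0
  · rw [h0]; simp
  · have h3 : (1 : ℝ) ≤ K.card := by exact_mod_cast h0
    have h4 : (0 : ℝ) ≤ Kᶜ.card := by positivity
    rw [← h2]
    nlinarith

/-- the diagonal part -/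
theorem nsq_A [Nonempty P] (f : Finset P → E) (hf : Sec ρ f) (k : ℕ)
    (hk : ∀ J, k < J.card → f J = 0) :
    nsq (Op ρ w0 f) ≤ (k : ℝ) ^ 2 * nsq f := by
  have hm : (0 : ℝ) < Fintype.card P := by exact_mod_cast Fintype.card_pos
  refine (nsq_Op_le ρ w0 wc (fun K p q => wc K p q * ‖f (tg p q K)‖ ^ 2) f
    (fun K p q => wc_nonneg K p q) (fun K p q => mul_nonneg (wc_nonneg _ _ _) (sq_nonneg _))
    (w0_bound ρ f hf)).trans ?_
  have h1 : ∑ K : Finset P, (∑ p, ∑ q, wc K p q) * ∑ p, ∑ q, wc K p q * ‖f (tg p q K)‖ ^ 2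
      ≤ ∑ K : Finset P, ∑ p, ∑ q, wc K p q *
          (4 * (Fintype.card P : ℝ) * (tg p q K).card * ‖f (tg p q K)‖ ^ 2) := by
    apply Finset.sum_le_sum
    intro K _
    have hs := wc_sum K
    have h0 : 0 ≤ ∑ p, ∑ q, wc K p q * ‖f (tg p q K)‖ ^ 2 :=
      Finset.sum_nonneg fun p _ => Finset.sum_nonneg fun q _ =>
        mul_nonneg (wc_nonneg _ _ _) (sq_nonneg _)
    refine (mul_le_mul_of_nonneg_right hs h0).trans (le_of_eq ?_)
    rw [Finset.mul_sum]
    apply Finset.sum_congr rfl; intro p _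
    rw [Finset.mul_sum]
    apply Finset.sum_congr rfl; intro q _
    by_cases h : p = q
    · subst h; rw [tg_self]; ring
    · by_cases h1 : p ∈ K <;> by_cases h2 : q ∈ K
      · have : wc K p q = 0 := by unfold wc; simp [h, h1, h2]
        rw [this]; ring
      · rw [card_tg_io p q K h1 h2]; ring
      · rw [card_tg_oi p q K h1 h2]; ring
      · have : wc K p q = 0 := by unfold wc; simp [h, h1, h2]
        rw [this]; ring
  have h2 := reindex (fun K L p q => wc K p q * (4 * (Fintype.card P : ℝ) * L.card * ‖f L‖ ^ 2))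
  rw [h2] at h1
  simp only [wc_tg] at h1
  have h3 : ∑ K : Finset P, ∑ p, ∑ q, wc K p q * (4 * (Fintype.card P : ℝ) * K.card * ‖f K‖ ^ 2)
      ≤ ∑ K : Finset P, (4 * (Fintype.card P : ℝ)) ^ 2 * ((k : ℝ) ^ 2 * ‖f K‖ ^ 2) := by
    apply Finset.sum_le_sum
    intro K _
    have e : ∑ p, ∑ q, wc K p q * (4 * (Fintype.card P : ℝ) * K.card * ‖f K‖ ^ 2)
        = (∑ p, ∑ q, wc K p q) * (4 * (Fintype.card P : ℝ) * K.card * ‖f K‖ ^ 2) := by
      rw [Finset.sum_mul]
      apply Finset.sum_congr rfl; intro p _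
      rw [Finset.sum_mul]
    rw [e]
    refine (mul_le_mul_of_nonneg_right (wc_sum K) (by positivity)).trans ?_
    by_cases hK : k < K.card
    · rw [hk K hK]; simp
    · have hK' : (K.card : ℝ) ≤ k := by exact_mod_cast Nat.le_of_not_lt hK
      have h5 : (K.card : ℝ) ^ 2 ≤ (k : ℝ) ^ 2 := pow_le_pow_left₀ (by positivity) hK' 2
      have h6 : 4 * (Fintype.card P : ℝ) * K.card * (4 * (Fintype.card P : ℝ) * K.card * ‖f K‖ ^ 2)
          = (4 * (Fintype.card P : ℝ)) ^ 2 * ((K.card : ℝ) ^ 2 * ‖f K‖ ^ 2) := by ring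
      rw [h6]
      apply mul_le_mul_of_nonneg_left _ (by positivity)
      exact mul_le_mul_of_nonneg_right h5 (sq_nonneg _)
  have h4 := h1.trans h3
  rw [← Finset.mul_sum, ← Finset.mul_sum] at h4
  have h5 : (1 / (4 * (Fintype.card P : ℝ))) ^ 2 * ((4 * (Fintype.card P : ℝ)) ^ 2 *
      ((k : ℝ) ^ 2 * nsq f)) = (k : ℝ) ^ 2 * nsq f := by
    field_simp
  rw [← h5]
  exact mul_le_mul_of_nonneg_left h4 (by positivity)

/-- the quadratic form of `L` -/
noncomputable def Xf (p q : P) (v : E) : ℝ :=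
  ∑ h : Bool, ∑ h' : Bool, (‖v‖ ^ 2 - ⟪v, T ρ (p, h) (q, h') v⟫_ℝ)

omit [Fintype P] in
theorem Xf_nonneg (p q : P) (v : E) : 0 ≤ Xf ρ p q v := by
  unfold Xf
  apply Finset.sum_nonneg; intro h _
  apply Finset.sum_nonneg; intro h' _
  rw [sub_nonneg]
  refine (real_inner_le_norm _ _).trans ?_
  rw [T_norm, pow_two]

omit [Fintype P] in
theorem Xf_le (p q : P) (v : E) : Xf ρ p q v ≤ 8 * ‖v‖ ^ 2 := by
  unfold Xf
  have h1 : ∀ h h' : Bool, ‖v‖ ^ 2 - ⟪v, T ρ (p, h) (q, h') v⟫_ℝ ≤ 2 * ‖v‖ ^ 2 := by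
    intro h h'
    have := neg_le_of_abs_le (abs_real_inner_le_norm v (T ρ (p, h) (q, h') v))
    rw [T_norm, ← pow_two] at this
    linarith
  refine (Finset.sum_le_sum fun h _ => Finset.sum_le_sum fun h' _ => h1 h h').trans (le_of_eq ?_)
  simp; ring

/-- sum of the weights -/
theorem wp_sum (K : Finset P) :
    ∑ p, ∑ q, wp K p q = (K.card : ℝ) * ((K.card : ℝ) - 1) := by
  have h1 : ∀ p q : P, wp K p q = (if p ∈ K ∧ q ∈ K then (1 : ℝ) else 0)
      - (if p = q ∧ p ∈ K then 1 else 0) := by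
    intro p q
    unfold wp
    by_cases h : p = q
    · subst h; by_cases h1 : p ∈ K <;> simp [h1]
    · simp [h]
  simp only [h1, Finset.sum_sub_distrib]
  have a1 : ∑ p : P, ∑ q : P, (if p = q ∧ p ∈ K then (1 : ℝ) else 0) = (K.card : ℝ) := by
    have : ∀ p : P, ∑ q : P, (if p = q ∧ p ∈ K then (1 : ℝ) else 0) = if p ∈ K then 1 else 0 := by
      intro p
      rw [Finset.sum_eq_single p]
      · simp
      · intro q _ hq; simp [Ne.symm hq]
      · intro h; exact absurd (Finset.mem_univ p) h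
    simp only [this]
    rw [← Finset.sum_filter, Finset.sum_const, nsmul_eq_mul]
    simp
  have a2 : ∑ p : P, ∑ q : P, (if p ∈ K ∧ q ∈ K then (1 : ℝ) else 0)
      = (K.card : ℝ) * (K.card : ℝ) := by
    have : ∀ p : P, ∑ q : P, (if p ∈ K ∧ q ∈ K then (1 : ℝ) else 0)
        = if p ∈ K then (K.card : ℝ) else 0 := by
      intro p
      by_cases hp : p ∈ K
      · simp only [hp, true_and, if_true]
        rw [← Finset.sum_filter, Finset.sum_const, nsmul_eq_mul, mul_one]
        congr 2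
        ext q; simp
      · simp [hp]
    simp only [this]
    rw [← Finset.sum_filter, Finset.sum_const, nsmul_eq_mul]
    simp
  rw [a1, a2]; ring

omit [Fintype P] in
theorem wp_nonneg (K : Finset P) (p q : P) : 0 ≤ wp K p q := by unfold wp; positivity

omit [Fintype P] in
theorem wm_nonneg (K : Finset P) (p q : P) : 0 ≤ wm K p q := by unfold wm; positivity

/-- the creation part -/
theorem nsq_B (f : Finset P → E) (hf : Sec ρ f) :
    nsq (Op ρ wp f) ≤ (1 / (4 * (Fintype.card P : ℝ))) ^ 2 *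
      ∑ K : Finset P, ((K.card : ℝ) + 2) * (K.card + 1) * (2 * ∑ p, ∑ q, Xf ρ p q (f K)) := by
  refine (nsq_Op_le ρ wp wp (fun K p q => wp K p q * ‖Dl ρ p q (f (tg p q K))‖ ^ 2) f
    (fun K p q => wp_nonneg K p q) (fun K p q => mul_nonneg (wp_nonneg _ _ _) (sq_nonneg _))
    (fun K p q => ?_)).trans ?_
  · rw [norm_smul, mul_pow, Real.norm_of_nonneg (wp_nonneg _ _ _)]
    apply le_of_eq; ring
  apply mul_le_mul_of_nonneg_left _ (by positivity)
  have h1 : ∑ K : Finset P, (∑ p, ∑ q, wp K p q) * ∑ p, ∑ q, wp K p q *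
        ‖Dl ρ p q (f (tg p q K))‖ ^ 2
      = ∑ K : Finset P, ∑ p, ∑ q, wp K p q * ((((tg p q K).card : ℝ) + 2) *
          ((tg p q K).card + 1) * ‖Dl ρ p q (f (tg p q K))‖ ^ 2) := by
    apply Finset.sum_congr rfl
    intro K _
    rw [wp_sum, Finset.mul_sum]
    apply Finset.sum_congr rfl; intro p _
    rw [Finset.mul_sum]
    apply Finset.sum_congr rfl; intro q _
    by_cases h : p ≠ q ∧ p ∈ K ∧ q ∈ K
    · have := card_tg_in p q K h.1 h.2.1 h.2.2
      have h2 : (K.card : ℝ) = (tg p q K).card + 2 := by exact_mod_cast this.symm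
      rw [h2]; ring
    · have : wp K p q = 0 := by unfold wp; rw [if_neg h]
      rw [this]; ring
  rw [h1]
  have h2 := reindex (fun K L p q => wp K p q * (((L.card : ℝ) + 2) * (L.card + 1) *
    ‖Dl ρ p q (f L)‖ ^ 2))
  rw [h2]
  simp only [wp_tg]
  apply Finset.sum_le_sum
  intro K _
  rw [mul_left_comm, Finset.mul_sum, Finset.mul_sum]
  apply Finset.sum_le_sum; intro p _
  rw [Finset.mul_sum, Finset.mul_sum]
  apply Finset.sum_le_sum; intro q _
  unfold wm
  by_cases h : p ≠ q ∧ p ∉ K ∧ q ∉ K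
  · rw [if_pos h, one_mul]
    have hb := Dl_norm_sym ρ p q h.1 (f K) (by rw [hf]; simp [es, h.2.1])
      (by rw [hf]; simp [es, h.2.2])
    change _ ≤ 2 * Xf ρ p q (f K) at hb
    have := mul_le_mul_of_nonneg_left hb
      (show (0 : ℝ) ≤ ((K.card : ℝ) + 2) * (K.card + 1) by positivity)
    linarith
  · rw [if_neg h, zero_mul]
    have := Xf_nonneg ρ p q (f K)
    positivity

/-- the creation part, crude bound -/
theorem nsq_B' [Nonempty P] (f : Finset P → E) (hf : Sec ρ f) :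
    nsq (Op ρ wp f) ≤ ∑ K : Finset P, ((K.card : ℝ) + 2) * (K.card + 1) * ‖f K‖ ^ 2 := by
  have hm : (0 : ℝ) < Fintype.card P := by exact_mod_cast Fintype.card_pos
  refine (nsq_B ρ f hf).trans ?_
  rw [Finset.mul_sum]
  apply Finset.sum_le_sum
  intro K _
  have h1 : ∑ p : P, ∑ q : P, Xf ρ p q (f K) ≤ (Fintype.card P : ℝ) ^ 2 * (8 * ‖f K‖ ^ 2) := by
    refine (Finset.sum_le_sum fun p _ => Finset.sum_le_sum fun q _ => Xf_le ρ p q (f K)).trans
      (le_of_eq ?_)
    simp; ring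
  have h2 : (1 / (4 * (Fintype.card P : ℝ))) ^ 2 * (((K.card : ℝ) + 2) * (K.card + 1) *
      (2 * ((Fintype.card P : ℝ) ^ 2 * (8 * ‖f K‖ ^ 2))))
      = ((K.card : ℝ) + 2) * (K.card + 1) * ‖f K‖ ^ 2 := by
    field_simp
    ring
  rw [← h2]
  apply mul_le_mul_of_nonneg_left _ (by positivity)
  apply mul_le_mul_of_nonneg_left _ (by positivity)
  linarith

/-- the annihilation part lives on small sets -/
theorem C_supp (f : Finset P → E) (k : ℕ) (hk : ∀ J, k < J.card → f J = 0) (K : Finset P)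
    (hK : k < K.card + 2) : Op ρ wm f K = 0 := by
  unfold Op
  rw [Finset.sum_eq_zero, smul_zero]
  intro p _
  rw [Finset.sum_eq_zero]
  intro q _
  by_cases h : p ≠ q ∧ p ∉ K ∧ q ∉ K
  · have h1 : (tg p q (tg p q K)).card + 2 = (tg p q K).card := by
      apply card_tg_in p q _ h.1
      · rw [mem_tg_left p q K h.1]; exact h.2.1
      · rw [mem_tg_right p q K h.1]; exact h.2.2
    rw [tg_tg] at h1
    rw [hk (tg p q K) (by omega), map_zero, smul_zero]
  · have : wm K p q = 0 := by unfold wm; rw [if_neg h]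
    rw [this, zero_smul]

/-- the annihilation part -/
theorem nsq_C [Nonempty P] (f : Finset P → E) (hf : Sec ρ f) (k : ℕ)
    (hk : ∀ J, k < J.card → f J = 0) :
    nsq (Op ρ wm f) ≤ (k : ℝ) * (k - 1) * nsq f := by
  set g := Op ρ wm f with hg
  have hgs : Sec ρ g := sec_Op ρ _ f hf
  have h1 : nsq g = ∑ K, ⟪f K, Op ρ wp g K⟫_ℝ := by
    rw [← Op_dual ρ wm wp wm_tg f g]
    unfold nsq
    apply Finset.sum_congr rfl; intro K _
    rw [← hg, real_inner_self_eq_norm_sq]
  have h2 : nsq (Op ρ wp g) ≤ (k : ℝ) * (k - 1) * nsq g := by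
    refine (nsq_B' ρ g hgs).trans ?_
    unfold nsq
    rw [Finset.mul_sum]
    apply Finset.sum_le_sum
    intro K _
    by_cases hK : k < K.card + 2
    · rw [hg, C_supp ρ f k hk K hK]; simp
    · apply mul_le_mul_of_nonneg_right _ (sq_nonneg _)
      have h3 : (K.card : ℝ) + 2 ≤ k := by exact_mod_cast Nat.le_of_not_lt hK
      apply mul_le_mul h3 (by linarith) (by positivity) (by positivity)
  have h3 : nsq g ≤ √(nsq f) * √(nsq (Op ρ wp g)) := by
    rw [h1]
    refine (Finset.sum_le_sum fun K _ => real_inner_le_norm (f K) (Op ρ wp g K)).trans ?_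
    exact Real.sum_mul_le_sqrt_mul_sqrt _ _ _
  have n1 := nsq_nonneg f
  have n2 := nsq_nonneg g
  have n3 := nsq_nonneg (Op ρ wp g)
  have h4 : nsq g ^ 2 ≤ nsq f * nsq (Op ρ wp g) := by
    have := pow_le_pow_left₀ n2 h3 2
    rw [mul_pow, Real.sq_sqrt n1, Real.sq_sqrt n3] at this
    exact this
  rcases n2.lt_or_eq with h5 | h5
  · have h6 : nsq g * nsq g ≤ ((k : ℝ) * (k - 1) * nsq f) * nsq g := by
      have := mul_le_mul_of_nonneg_left h2 n1
      nlinarith
    exact le_of_mul_le_mul_right h6 h5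
  · rw [← h5]
    have : (0 : ℝ) ≤ (k : ℝ) * (k - 1) := by
      rcases Nat.eq_zero_or_pos k with h0 | h0
      · rw [h0]; simp
      · have : (1 : ℝ) ≤ k := by exact_mod_cast h0
        apply mul_nonneg <;> linarith
    exact mul_nonneg this n1

/-- the full operator splits into three parts -/
theorem Op_split (f : Finset P → E) :
    tot (Op ρ (fun _ _ _ => 1) f) = tot (Op ρ w0 f) + tot (Op ρ wp f) + tot (Op ρ wm f) := by
  unfold tot
  rw [← Finset.sum_add_distrib, ← Finset.sum_add_distrib]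
  apply Finset.sum_congr rfl; intro K _
  unfold Op
  rw [← smul_add, ← smul_add, ← Finset.sum_add_distrib, ← Finset.sum_add_distrib]
  congr 1
  apply Finset.sum_congr rfl; intro p _
  rw [← Finset.sum_add_distrib, ← Finset.sum_add_distrib]
  apply Finset.sum_congr rfl; intro q _
  unfold w0
  module

/-- support grows by two -/
theorem Op_supp (f : Finset P → E) (k : ℕ) (hk : ∀ J, k < J.card → f J = 0) (w : Finset P → P → P → ℝ)
    (K : Finset P) (hK : k + 2 < K.card) : Op ρ w f K = 0 := by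
  unfold Op
  rw [Finset.sum_eq_zero, smul_zero]
  intro p _
  rw [Finset.sum_eq_zero]
  intro q _
  rw [hk (tg p q K), map_zero, smul_zero]
  unfold tg
  by_cases h1 : p ∈ K
  · have e1 := card_in p K h1
    by_cases h2 : q ∈ symmDiff K {p}
    · have e2 := card_in q _ h2; omega
    · have e2 := card_out q _ h2; omega
  · have e1 := card_out p K h1
    by_cases h2 : q ∈ symmDiff K {p}
    · have e2 := card_in q _ h2; omega
    · have e2 := card_out q _ h2; omega

/-- norm of the full operator on small sectors -/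
theorem norm_step [Nonempty P] (f : Finset P → E) (hf : Sec ρ f) (i : ℕ) (hi : 1 ≤ i)
    (hk : ∀ J, 2 * i < J.card → f J = 0) :
    ‖tot (Op ρ (fun _ _ _ => 1) f)‖ ≤ (6 * (i : ℝ) + 1) * ‖tot f‖ := by
  have hi' : (1 : ℝ) ≤ i := by exact_mod_cast hi
  have n0 : 0 ≤ ‖tot f‖ := norm_nonneg _
  have hn : ‖tot f‖ ^ 2 = nsq f := tot_norm ρ f hf
  have hA : ‖tot (Op ρ w0 f)‖ ≤ (2 * (i : ℝ)) * ‖tot f‖ := by
    apply le_of_sq_le_sq _ (by positivity)
    rw [tot_norm ρ _ (sec_Op ρ _ f hf), mul_pow, hn]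
    have := nsq_A ρ f hf (2 * i) hk
    push_cast at this
    exact this
  have hB : ‖tot (Op ρ wp f)‖ ≤ (2 * (i : ℝ) + 3 / 2) * ‖tot f‖ := by
    apply le_of_sq_le_sq _ (by positivity)
    rw [tot_norm ρ _ (sec_Op ρ _ f hf), mul_pow, hn]
    refine (nsq_B' ρ f hf).trans ?_
    unfold nsq
    rw [Finset.mul_sum]
    apply Finset.sum_le_sum; intro K _
    by_cases hK : 2 * i < K.card
    · rw [hk K hK]; simp
    · apply mul_le_mul_of_nonneg_right _ (sq_nonneg _)
      have h3 : (K.card : ℝ) ≤ 2 * i := by exact_mod_cast Nat.le_of_not_lt hK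
      have h4 : (0 : ℝ) ≤ K.card := by positivity
      nlinarith
  have hC : ‖tot (Op ρ wm f)‖ ≤ (2 * (i : ℝ) - 1 / 2) * ‖tot f‖ := by
    apply le_of_sq_le_sq _ (mul_nonneg (by linarith) n0)
    rw [tot_norm ρ _ (sec_Op ρ _ f hf), mul_pow, hn]
    refine (nsq_C ρ f hf (2 * i) hk).trans ?_
    apply mul_le_mul_of_nonneg_right _ (nsq_nonneg f)
    push_cast
    nlinarith
  rw [Op_split]
  have h1 := norm_add_le (tot (Op ρ w0 f) + tot (Op ρ wp f)) (tot (Op ρ wm f))
  have h2 := norm_add_le (tot (Op ρ w0 f)) (tot (Op ρ wp f))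
  linarith

/-- the full operator commutes with `tot` -/
theorem tot_Op (f : Finset P → E) :
    tot (Op ρ (fun _ _ _ => 1) f)
      = (1 / (4 * (Fintype.card P : ℝ))) • ∑ p, ∑ q, Dl ρ p q (tot f) := by
  unfold tot Op
  rw [← Finset.smul_sum]
  congr 1
  rw [Finset.sum_comm]
  apply Finset.sum_congr rfl; intro p _
  rw [Finset.sum_comm]
  apply Finset.sum_congr rfl; intro q _
  simp only [one_smul]
  rw [map_sum]
  have hinv : Function.Involutive (tg p q : Finset P → Finset P) := tg_tg p q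
  exact Equiv.sum_comp hinv.toPerm (fun K => Dl ρ p q (f K))

theorem Lop_apply (v : E) : (Spec.Lop ρ) v = (1 / (4 * (Fintype.card P : ℝ))) •
    ∑ p : P, ∑ q : P, ∑ h : Bool, ∑ h' : Bool, (v - T ρ (p, h) (q, h') v) := by
  unfold Spec.Lop
  rw [ContinuousLinearMap.smul_apply, ContinuousLinearMap.sum_apply]
  congr 1
  · rw [Fintype.card_prod]; simp; ring
  · rw [Fintype.sum_prod_type]
    apply Finset.sum_congr rfl; intro p _
    rw [Finset.sum_comm (s := (univ : Finset P))]
    apply Finset.sum_congr rfl; intro h _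
    rw [ContinuousLinearMap.sum_apply, Fintype.sum_prod_type]
    rfl

theorem LH_apply (v : E) : (Spec.LH ρ) v = (1 / (2 * (Fintype.card P : ℝ))) •
    ∑ h : Bool, ∑ p : P, ∑ q : P, (v - T ρ (p, h) (q, h) v) := by
  unfold Spec.LH
  rw [ContinuousLinearMap.smul_apply, ContinuousLinearMap.sum_apply]
  congr 1
  apply Finset.sum_congr rfl; intro h _
  rw [ContinuousLinearMap.sum_apply]
  apply Finset.sum_congr rfl; intro p _
  rw [ContinuousLinearMap.sum_apply]
  rfl

/-- `L - L_H` -/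
theorem D_apply (v : E) : (Spec.Lop ρ - Spec.LH ρ) v
    = (1 / (4 * (Fintype.card P : ℝ))) • ∑ p, ∑ q, Dl ρ p q v := by
  rw [ContinuousLinearMap.sub_apply, Lop_apply, LH_apply]
  have e : (1 / (2 * (Fintype.card P : ℝ))) = (1 / (4 * (Fintype.card P : ℝ))) * 2 := by
    rw [show (4 : ℝ) * (Fintype.card P : ℝ) = 2 * (2 * (Fintype.card P : ℝ)) by ring]
    rw [one_div, one_div, mul_inv 2]
    ring
  rw [e, mul_smul, ← smul_sub]
  congr 1
  rw [Fintype.sum_bool, ← Finset.sum_add_distrib, Finset.smul_sum, ← Finset.sum_sub_distrib]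
  apply Finset.sum_congr rfl; intro p _
  rw [← Finset.sum_add_distrib, Finset.smul_sum, ← Finset.sum_sub_distrib]
  apply Finset.sum_congr rfl; intro q _
  simp only [Fintype.sum_bool]
  rw [Dl_apply]
  module

theorem Lop_form (v : E) : ⟪v, (Spec.Lop ρ) v⟫_ℝ = (1 / (4 * (Fintype.card P : ℝ))) *
    ∑ p : P, ∑ q : P, Xf ρ p q v := by
  rw [Lop_apply, real_inner_smul_right, inner_sum]
  congr 1
  apply Finset.sum_congr rfl; intro p _
  rw [inner_sum]
  apply Finset.sum_congr rfl; intro q _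
  unfold Xf
  rw [inner_sum]
  apply Finset.sum_congr rfl; intro h _
  rw [inner_sum]
  apply Finset.sum_congr rfl; intro h' _
  rw [inner_sub_right, real_inner_self_eq_norm_sq]

/-- the section of an invariant vector -/
noncomputable def sG (G : E) : Finset P → E := fun J => if J = ∅ then G else 0

omit [Fintype P] in
theorem sG_sec (G : E) (hG : ∀ p, S ρ p G = G) : Sec ρ (sG G) := by
  intro J r
  unfold sG
  by_cases h : J = ∅
  · subst h; simp [hG, es]
  · simp [h]

theorem sG_tot (G : E) : tot (sG (P := P) G) = G := by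
  unfold tot sG; simp

omit [Fintype P] in
theorem sG_supp (G : E) (J : Finset P) (h : 0 < J.card) : sG G J = 0 := by
  unfold sG
  rw [if_neg]
  rintro rfl; simp at h

theorem norm_DG [Nonempty P] (G : E) (hG : ∀ p, S ρ p G = G) :
    ‖(Spec.Lop ρ - Spec.LH ρ) G‖ ^ 2 ≤ 1 / (Fintype.card P : ℝ) * ⟪G, (Spec.Lop ρ) G⟫_ℝ := by
  have hm : (0 : ℝ) < Fintype.card P := by exact_mod_cast Fintype.card_pos
  have hs := sG_sec ρ G hG
  have e1 : (Spec.Lop ρ - Spec.LH ρ) G = tot (Op ρ (fun _ _ _ => 1) (sG G)) := by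
    rw [D_apply, tot_Op, sG_tot]
  have hA : tot (Op ρ w0 (sG (P := P) G)) = 0 := by
    have := nsq_A ρ (sG G) hs 0 (sG_supp G)
    rw [← tot_norm ρ _ (sec_Op ρ _ _ hs)] at this
    have h2 : ‖tot (Op ρ w0 (sG (P := P) G))‖ ^ 2 ≤ 0 := by simpa using this
    have h3 : ‖tot (Op ρ w0 (sG (P := P) G))‖ = 0 := by
      have := le_antisymm h2 (sq_nonneg _)
      exact pow_eq_zero_iff (two_ne_zero) |>.1 this
    exact norm_eq_zero.1 h3
  have hC : tot (Op ρ wm (sG (P := P) G)) = 0 := by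
    have := nsq_C ρ (sG G) hs 0 (sG_supp G)
    rw [← tot_norm ρ _ (sec_Op ρ _ _ hs)] at this
    have h2 : ‖tot (Op ρ wm (sG (P := P) G))‖ ^ 2 ≤ 0 := by simpa using this
    have h3 : ‖tot (Op ρ wm (sG (P := P) G))‖ = 0 := by
      have := le_antisymm h2 (sq_nonneg _)
      exact pow_eq_zero_iff (two_ne_zero) |>.1 this
    exact norm_eq_zero.1 h3
  rw [e1, Op_split, hA, hC, zero_add, add_zero, tot_norm ρ _ (sec_Op ρ _ _ hs)]
  refine (nsq_B ρ _ hs).trans (le_of_eq ?_)
  rw [Finset.sum_eq_single ∅, Lop_form]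
  · have : sG (P := P) G ∅ = G := by unfold sG; simp
    rw [this]
    simp
    field_simp
    ring
  · intro J _ hJ
    have : sG (P := P) G J = 0 := by unfold sG; rw [if_neg hJ]
    rw [this]
    have : ∀ p q : P, Xf ρ p q (0 : E) = 0 := by intro p q; unfold Xf; simp
    simp [this]
  · intro h; exact absurd (Finset.mem_univ _) h

end alg

/-- the sector estimate -/
theorem main : Spec.Sect := by
  intro P _ _ _ E _ _ _ ρ G hG t ht0 ht
  have hG' : ∀ p, S ρ p G = G := hG
  have hs := sG_sec ρ G hG'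
  have hsym : ∀ x y : E, inner ℝ ((Spec.Lop ρ - Spec.LH ρ) x) y
      = inner ℝ x ((Spec.Lop ρ - Spec.LH ρ) y) := by
    intro x y
    rw [D_apply, D_apply, real_inner_smul_left, real_inner_smul_right, sum_inner, inner_sum]
    congr 1
    apply Finset.sum_congr rfl; intro p _
    rw [sum_inner, inner_sum]
    apply Finset.sum_congr rfl; intro q _
    exact Dl_inner ρ p q x y
  have h := ThpSectB.series (Spec.Lop ρ - Spec.LH ρ) hsym
    (fun i => {v | ∃ f : Finset P → E, Sec ρ f ∧ (∀ J, 2 * i < J.card → f J = 0) ∧ tot f = v})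
    (by
      rintro i v ⟨f, h1, h2, h3⟩
      refine ⟨Op ρ (fun _ _ _ => 1) f, sec_Op ρ _ f h1, ?_, ?_⟩
      · intro J hJ
        exact Op_supp ρ f (2 * i) h2 _ J (by omega)
      · rw [tot_Op, h3, D_apply])
    (by
      rintro i hi v ⟨f, h1, h2, h3⟩
      have := norm_step ρ f h1 i hi h2
      rw [tot_Op, h3, ← D_apply] at this
      exact this)
    G
    (by
      rw [D_apply, real_inner_smul_right, inner_sum, Finset.sum_eq_zero, mul_zero]
      intro p _
      rw [inner_sum, Finset.sum_eq_zero]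
      intro q _
      by_cases h : p = q
      · subst h
        rw [Dl_self, hG', sub_self, inner_zero_right]
      · have h1 : inner ℝ G (Dl ρ p q G) = inner ℝ (S ρ p G) (S ρ p (Dl ρ p q G)) :=
          (T_inner' ρ _ _ _ _).symm
        rw [S_Dl, hG', real_inner_smul_right] at h1
        unfold sg at h1
        rw [if_pos rfl, if_neg h] at h1
        linarith)
    (by
      refine ⟨Op ρ (fun _ _ _ => 1) (sG G), sec_Op ρ _ _ hs, ?_, ?_⟩
      · intro J hJ
        exact Op_supp ρ _ 0 (sG_supp G) _ J (by omega)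
      · rw [tot_Op, sG_tot, D_apply])
    t ht0 ht
  refine h.trans ?_
  have h2 := norm_DG ρ G hG'
  have h3 := mul_le_mul_of_nonneg_left h2 (show (0 : ℝ) ≤ 9 / 125 by norm_num)
  have e : (9 / 125 : ℝ) / (Fintype.card P : ℝ) * inner ℝ G (Spec.Lop ρ G)
      = 9 / 125 * (1 / (Fintype.card P : ℝ) * inner ℝ G (Spec.Lop ρ G)) := by ring
  rw [e]
  linarith

end Crest.Agent.H6ThpSect
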