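import Crest.Agent.H29BRDefs

/-!
rid 50: the colour identities CN1, CN2 of the grid proof.
-/

set_option autoImplicit false

namespace Crest.B29

theorem i1_cases (a x : Fin 6) : i1 a x = 0 ∨ (i1 a x = 1 ∧ x = a) := by
  unfold i1
  by_cases h : x = a
  · right; simp [h]
  · left; simp [h]

theorem i2_cases (a b x y : Fin 6) :
    i2 a b x y = 0 ∨ (i2 a b x y = 1 ∧ ((x = a ∧ y = b) ∨ (x = b ∧ y = a))) := by
  unfold i2
  by_cases h : (x = a ∧ y = b) ∨ (x = b ∧ y = a)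
  · right; rw [if_pos h]; exact ⟨rfl, h⟩
  · left; rw [if_neg h]

theorem i3_cases (a b c x y z : Fin 6) :
    i3 a b c x y z = 0 ∨ (i3 a b c x y z = 1 ∧
      ((x = a ∧ y = b ∧ z = c) ∨ (x = a ∧ y = c ∧ z = b) ∨ (x = b ∧ y = a ∧ z = c) ∨
    (x = b ∧ y = c ∧ z = a) ∨ (x = c ∧ y = a ∧ z = b) ∨ (x = c ∧ y = b ∧ z = a))) := by
  unfold i3
  by_cases h : ((x = a ∧ y = b ∧ z = c) ∨ (x = a ∧ y = c ∧ z = b) ∨ (x = b ∧ y = a ∧ z = c) ∨
    (x = b ∧ y = c ∧ z = a) ∨ (x = c ∧ y = a ∧ z = b) ∨ (x = c ∧ y = b ∧ z = a))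
  · right; rw [if_pos h]; exact ⟨rfl, h⟩
  · left; rw [if_neg h]

theorem mem_six {a b c d e f : Fin 6} (h : [a, b, c, d, e, f].Nodup) (y : Fin 6) :
    y = a ∨ y = b ∨ y = c ∨ y = d ∨ y = e ∨ y = f := by
  have h1 : [a, b, c, d, e, f].toFinset.card = 6 := by
    rw [List.toFinset_card_of_nodup h]; rfl
  have h2 : [a, b, c, d, e, f].toFinset = Finset.univ := by
    apply Finset.eq_univ_of_card
    rw [h1]; rfl
  have h3 : y ∈ [a, b, c, d, e, f].toFinset := by rw [h2]; exact Finset.mem_univ _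
  simpa using h3

/-- edges of a triangle -/
theorem edge3 {a b f : Fin 6} (hab : a ≠ b) (haf : a ≠ f) (hbf : b ≠ f) {x y z : Fin 6}
    (hx : x = a ∨ x = b ∨ x = f) (hy : y = a ∨ y = b ∨ y = f) (hz : z = a ∨ z = b ∨ z = f) :
    i2 a b y z + i2 a b x z + i2 a b x y = i3 a b f x y z := by
  have hab' := hab.symm
  have haf' := haf.symm
  have hbf' := hbf.symm
  rcases hx with rfl | rfl | rfl <;> rcases hy with rfl | rfl | rfl <;>
    rcases hz with rfl | rfl | rfl <;> simp [i2, i3, *] <;> rfl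

theorem edge2 {e f : Fin 6} (hef : e ≠ f) {x y : Fin 6}
    (hx : x = e ∨ x = f) (hy : y = e ∨ y = f) :
    i1 e y + i1 e x = i2 e f x y := by
  have hef' := hef.symm
  rcases hx with rfl | rfl <;> rcases hy with rfl | rfl <;> simp [i1, i2, *] <;> rfl

theorem i3_xxz {a b c : Fin 6} (h12 : a ≠ b) (h13 : a ≠ c) (h23 : b ≠ c) (x z : Fin 6) :
    i3 a b c x x z = 0 := by
  unfold i3
  rw [if_neg]
  rintro (⟨h1, h2, h3⟩ | ⟨h1, h2, h3⟩ | ⟨h1, h2, h3⟩ | ⟨h1, h2, h3⟩ | ⟨h1, h2, h3⟩ | ⟨h1, h2, h3⟩) <;>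
    (subst h1; first | exact h12 h2 | exact h13 h2 | exact h23 h2 | exact h12 h2.symm |
      exact h13 h2.symm | exact h23 h2.symm)

theorem i3_swap12 (a b c x y z : Fin 6) : i3 a b c x y z = i3 a b c y x z := by
  unfold i3
  congr 1
  apply propext
  tauto

theorem i3_swap23 (a b c x y z : Fin 6) : i3 a b c x y z = i3 a b c x z y := by
  unfold i3
  congr 1
  apply propext
  tauto

theorem i3_xzx {a b c : Fin 6} (h12 : a ≠ b) (h13 : a ≠ c) (h23 : b ≠ c) (x z : Fin 6) :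
    i3 a b c x z x = 0 := by
  rw [i3_swap23, i3_xxz h12 h13 h23]

theorem i3_zxx {a b c : Fin 6} (h12 : a ≠ b) (h13 : a ≠ c) (h23 : b ≠ c) (x z : Fin 6) :
    i3 a b c z x x = 0 := by
  rw [i3_swap12, i3_xzx h12 h13 h23]

theorem z2 (x : ZMod 2) : x + x = 0 := CharTwo.add_self_eq_zero x

/-- no four colours -/
theorem tri4 {a b c : Fin 6} (h12 : a ≠ b) (h13 : a ≠ c) (h23 : b ≠ c) {x y z w : Fin 6}
    (h4 : ¬ (x ≠ y ∧ x ≠ z ∧ x ≠ w ∧ y ≠ z ∧ y ≠ w ∧ z ≠ w)) :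
    i3 a b c y z w + i3 a b c x z w + i3 a b c x y w + i3 a b c x y z = 0 := by
  by_cases h1 : x = y
  · subst h1
    rw [i3_xxz h12 h13 h23, i3_xxz h12 h13 h23, z2]; simp
  by_cases h2 : x = z
  · subst h2
    rw [i3_xxz h12 h13 h23, i3_xzx h12 h13 h23, i3_swap12 a b c y x w]; simp [z2]
  by_cases h3 : x = w
  · subst h3
    rw [i3_xzx h12 h13 h23, i3_xzx h12 h13 h23, i3_swap23 a b c y z x, i3_swap12 a b c y x z]
    simp [z2]
  by_cases h5 : y = z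
  · subst h5
    rw [i3_xxz h12 h13 h23, i3_zxx h12 h13 h23]
    simp [z2]
  by_cases h6 : y = w
  · subst h6
    rw [i3_xzx h12 h13 h23, i3_zxx h12 h13 h23, i3_swap23 a b c x z y]
    simp [z2]
  by_cases h7 : z = w
  · subst h7
    rw [i3_zxx h12 h13 h23, i3_zxx h12 h13 h23]
    simp [z2]
  exact absurd ⟨h1, h2, h3, h5, h6, h7⟩ h4

theorem ne3 {a b c x y z v : Fin 6} (h' : ((x = a ∧ y = b ∧ z = c) ∨ (x = a ∧ y = c ∧ z = b) ∨
    (x = b ∧ y = a ∧ z = c) ∨ (x = b ∧ y = c ∧ z = a) ∨ (x = c ∧ y = a ∧ z = b) ∨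
    (x = c ∧ y = b ∧ z = a))) (h1 : v ≠ x) (h2 : v ≠ y) (h3 : v ≠ z) : v ≠ a ∧ v ≠ b ∧ v ≠ c := by
  rcases h' with ⟨rfl, rfl, rfl⟩ | ⟨rfl, rfl, rfl⟩ | ⟨rfl, rfl, rfl⟩ | ⟨rfl, rfl, rfl⟩ |
        ⟨rfl, rfl, rfl⟩ | ⟨rfl, rfl, rfl⟩
  · exact ⟨h1, h2, h3⟩
  · exact ⟨h1, h3, h2⟩
  · exact ⟨h2, h1, h3⟩
  · exact ⟨h3, h1, h2⟩
  · exact ⟨h2, h3, h1⟩
  · exact ⟨h3, h2, h1⟩

theorem ne2 {a b x y v : Fin 6} (h' : (x = a ∧ y = b) ∨ (x = b ∧ y = a)) (h1 : v ≠ x)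
    (h2 : v ≠ y) : v ≠ a ∧ v ≠ b := by
  rcases h' with ⟨rfl, rfl⟩ | ⟨rfl, rfl⟩
  · exact ⟨h1, h2⟩
  · exact ⟨h2, h1⟩

theorem cn1 : Spec.CN1 := by
  intro r j c t1 t2 t3 hn f0 f1 f2 f3 hok
  have hm := mem_six hn
  simp only [List.nodup_cons, List.mem_cons, List.not_mem_nil, or_false, not_or, not_false_eq_true,
    List.nodup_nil, and_true] at hn
  obtain ⟨⟨nrj, nrc, nr1, nr2, nr3⟩, ⟨njc, nj1, nj2, nj3⟩, ⟨nc1, nc2, nc3⟩, ⟨n12, n13⟩, n23⟩ := hn
  obtain ⟨y0, z0, w0⟩ := f0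
  obtain ⟨y1, z1, w1⟩ := f1
  obtain ⟨y2, z2', w2⟩ := f2
  obtain ⟨y3, z3, w3⟩ := f3
  simp only [ok4, ok] at hok
  obtain ⟨o00, o11, o22, o33, o01, o02, o03, o12, o13, o23, h4z, h4w⟩ := hok
  unfold d2 C131 C231 C132
  simp only
  -- (1)
  have e1 : (i1 r y1 + i1 r y0) * i3 t1 t2 t3 z1 z2' z3 * i1 c w3 =
      i2 r j y0 y1 * i3 t1 t2 t3 z1 z2' z3 * i1 c w3 := by
    rcases i3_cases t1 t2 t3 z1 z2' z3 with h | ⟨h, h'⟩
    · rw [h]; simp
    rcases i1_cases c w3 with g | ⟨g, g'⟩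
    · rw [g]; simp
    rw [h, g, mul_one, mul_one, mul_one, mul_one]
    subst g'
    have k0 : y0 = r ∨ y0 = j := by
      obtain ⟨q1, q2, q3⟩ := ne3 h' o01.1 o02.1 o03.1
      have q4 := o03.2.1
      rcases hm y0 with k | k | k | k | k | k
      · exact Or.inl k
      · exact Or.inr k
      · exact absurd k q4
      · exact absurd k q1
      · exact absurd k q2
      · exact absurd k q3
    have k1 : y1 = r ∨ y1 = j := by
      obtain ⟨q1, q2, q3⟩ := ne3 h' o11.1 o12.1 o13.1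
      have q4 := o13.2.1
      rcases hm y1 with k | k | k | k | k | k
      · exact Or.inl k
      · exact Or.inr k
      · exact absurd k q4
      · exact absurd k q1
      · exact absurd k q2
      · exact absurd k q3
    exact edge2 nrj k0 k1
  have e2 : i1 r y0 * (i3 t1 t2 t3 z1 z2' z3 + i3 t1 t2 t3 z0 z2' z3 + i3 t1 t2 t3 z0 z1 z3 +
      i3 t1 t2 t3 z0 z1 z2') * i1 c w3 = 0 := by
    rw [tri4 n12 n13 n23 h4z]; simp
  have e3 : i1 r y0 * i3 t1 t2 t3 z0 z1 z2' * (i1 c w3 + i1 c w2) =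
      i1 r y0 * i3 t1 t2 t3 z0 z1 z2' * i2 c j w2 w3 := by
    rcases i3_cases t1 t2 t3 z0 z1 z2' with h | ⟨h, h'⟩
    · rw [h]; simp
    rcases i1_cases r y0 with g | ⟨g, g'⟩
    · rw [g]; simp
    rw [h, g, mul_one, one_mul, one_mul]
    subst g'
    have k0 : w2 = c ∨ w2 = j := by
      obtain ⟨q1, q2, q3⟩ := ne3 h' o02.2.2.1.symm o12.2.2.1.symm o22.2.2.1.symm
      have q4 := o02.2.1.symm
      rcases hm w2 with k | k | k | k | k | k
      · exact absurd k q4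
      · exact Or.inr k
      · exact Or.inl k
      · exact absurd k q1
      · exact absurd k q2
      · exact absurd k q3
    have k1 : w3 = c ∨ w3 = j := by
      obtain ⟨q1, q2, q3⟩ := ne3 h' o03.2.2.1.symm o13.2.2.1.symm o23.2.2.1.symm
      have q4 := o03.2.1.symm
      rcases hm w3 with k | k | k | k | k | k
      · exact absurd k q4
      · exact Or.inr k
      · exact Or.inl k
      · exact absurd k q1
      · exact absurd k q2
      · exact absurd k q3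
    exact edge2 (Ne.symm njc) k0 k1
  rw [← e1, ← e3]
  linear_combination e2 - z2 (i1 r y0 * i3 t1 t2 t3 z1 z2' z3 * i1 c w3) -
    z2 (i1 r y0 * i3 t1 t2 t3 z0 z1 z2' * i1 c w3)

theorem cn2 : Spec.CN2 := by
  intro a b c d e f hn f0 f1 f2 f3 hok
  have hm := mem_six hn
  simp only [List.nodup_cons, List.mem_cons, List.not_mem_nil, or_false, not_or, not_false_eq_true,
    List.nodup_nil, and_true] at hn
  obtain ⟨⟨nab, nac, nad, nae, naf⟩, ⟨nbc, nbd, nbe, nbf⟩, ⟨ncd, nce, ncf⟩, ⟨nde, ndf⟩, nef⟩ := hn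
  obtain ⟨y0, z0, w0⟩ := f0
  obtain ⟨y1, z1, w1⟩ := f1
  obtain ⟨y2, z2', w2⟩ := f2
  obtain ⟨y3, z3, w3⟩ := f3
  simp only [ok4, ok] at hok
  obtain ⟨o00, o11, o22, o33, o01, o02, o03, o12, o13, o23, h4z, h4w⟩ := hok
  unfold d2 C221 C321 C231 C222
  simp only
  have e1 : (i2 a b y1 y2 + i2 a b y0 y2 + i2 a b y0 y1) * i2 c d z2' z3 * i1 e w3 =
      i3 a b f y0 y1 y2 * i2 c d z2' z3 * i1 e w3 := by
    rcases i2_cases c d z2' z3 with h | ⟨h, h'⟩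
    · rw [h]; simp
    rcases i1_cases e w3 with g | ⟨g, g'⟩
    · rw [g]; simp
    rw [h, g, mul_one, mul_one, mul_one, mul_one]
    subst g'
    have key : ∀ v : Fin 6, v ≠ z2' → v ≠ z3 → v ≠ w3 → v = a ∨ v = b ∨ v = f := by
      intro v v1 v2 v3
      obtain ⟨q1, q2⟩ := ne2 h' v1 v2
      rcases hm v with k | k | k | k | k | k
      · exact Or.inl k
      · exact Or.inr (Or.inl k)
      · exact absurd k q1
      · exact absurd k q2
      · exact absurd k v3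
      · exact Or.inr (Or.inr k)
    exact edge3 nab naf nbf (key _ o02.1 o03.1 o03.2.1) (key _ o12.1 o13.1 o13.2.1)
      (key _ o22.1 o23.1 o23.2.1)
  have e2 : i2 a b y0 y1 * (i2 c d z2' z3 + i2 c d z1 z3 + i2 c d z1 z2') * i1 e w3 =
      i2 a b y0 y1 * i3 c d f z1 z2' z3 * i1 e w3 := by
    rcases i2_cases a b y0 y1 with h | ⟨h, h'⟩
    · rw [h]; simp
    rcases i1_cases e w3 with g | ⟨g, g'⟩
    · rw [g]; simp
    rw [h, g, mul_one, mul_one, one_mul, one_mul]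
    subst g'
    have key : ∀ v : Fin 6, v ≠ y0 → v ≠ y1 → v ≠ w3 → v = c ∨ v = d ∨ v = f := by
      intro v v1 v2 v3
      obtain ⟨q1, q2⟩ := ne2 h' v1 v2
      rcases hm v with k | k | k | k | k | k
      · exact absurd k q1
      · exact absurd k q2
      · exact Or.inl k
      · exact Or.inr (Or.inl k)
      · exact absurd k v3
      · exact Or.inr (Or.inr k)
    exact edge3 ncd ncf ndf (key _ o01.1.symm o11.1.symm o13.2.2.1)
      (key _ o02.1.symm o12.1.symm o23.2.2.1)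
      (key _ o03.1.symm o13.1.symm o33.2.2.1)
  have e3 : i2 a b y0 y1 * i2 c d z1 z2' * (i1 e w3 + i1 e w2) =
      i2 a b y0 y1 * i2 c d z1 z2' * i2 e f w2 w3 := by
    rcases i2_cases a b y0 y1 with h | ⟨h, h'⟩
    · rw [h]; simp
    rcases i2_cases c d z1 z2' with g | ⟨g, g'⟩
    · rw [g]; simp
    rw [h, g, mul_one, one_mul, one_mul]
    have key : ∀ v : Fin 6, v ≠ y0 → v ≠ y1 → v ≠ z1 → v ≠ z2' → v = e ∨ v = f := by
      intro v v1 v2 v3 v4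
      obtain ⟨q1, q2⟩ := ne2 h' v1 v2
      obtain ⟨q3, q4⟩ := ne2 g' v3 v4
      rcases hm v with k | k | k | k | k | k
      · exact absurd k q1
      · exact absurd k q2
      · exact absurd k q3
      · exact absurd k q4
      · exact Or.inl k
      · exact Or.inr k
    exact edge2 nef (key _ o02.2.1.symm o12.2.1.symm o12.2.2.1.symm o22.2.2.1.symm)
      (key _ o03.2.1.symm o13.2.1.symm o13.2.2.1.symm o23.2.2.1.symm)
  rw [← e1, ← e2, ← e3]
  linear_combination - z2 (i2 a b y0 y1 * i2 c d z2' z3 * i1 e w3) -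
    z2 (i2 a b y0 y1 * i2 c d z1 z2' * i1 e w3)

end Crest.B29
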