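import Crest.Agent.H29BRGeoDefs
import Crest.Agent.H7BRCN

/-!
rid 50: GEOG.
-/

set_option autoImplicit false

namespace Crest.B29

open Real

abbrev T3 := ℝ × ℝ × ℝ

def dot (p q : T3) : ℝ := p.1 * q.1 + p.2.1 * q.2.1 + p.2.2 * q.2.2

noncomputable def vec (a b n : E4) (p : T3) : E4 := p.1 • a + p.2.1 • b + p.2.2 • n

noncomputable def Yc (θ φ : ℝ) : T3 := (sin θ * cos φ, sin θ * sin φ, cos θ)

noncomputable def Zc (θ φ ψ : ℝ) : T3 :=
  (cos ψ * (cos θ * cos φ) - sin ψ * sin φ, cos ψ * (cos θ * sin φ) + sin ψ * cos φ,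
    - (cos ψ * sin θ))

noncomputable def Wc (θ φ ψ : ℝ) : T3 :=
  (- (sin ψ * (cos θ * cos φ)) - cos ψ * sin φ, - (sin ψ * (cos θ * sin φ)) + cos ψ * cos φ,
    sin ψ * sin θ)

theorem dotYY (θ φ : ℝ) : dot (Yc θ φ) (Yc θ φ) = 1 := by
  simp only [dot, Yc]
  linear_combination (sin θ ^ 2) * (sin_sq_add_cos_sq φ) + sin_sq_add_cos_sq θ

theorem dotZZ (θ φ ψ : ℝ) : dot (Zc θ φ ψ) (Zc θ φ ψ) = 1 := by
  simp only [dot, Zc]
  linear_combination (cos ψ ^ 2 * cos θ ^ 2 + sin ψ ^ 2) * (sin_sq_add_cos_sq φ) +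
    cos ψ ^ 2 * sin_sq_add_cos_sq θ + sin_sq_add_cos_sq ψ

theorem dotWW (θ φ ψ : ℝ) : dot (Wc θ φ ψ) (Wc θ φ ψ) = 1 := by
  simp only [dot, Wc]
  linear_combination (sin ψ ^ 2 * cos θ ^ 2 + cos ψ ^ 2) * (sin_sq_add_cos_sq φ) +
    sin ψ ^ 2 * sin_sq_add_cos_sq θ + sin_sq_add_cos_sq ψ

theorem dotYZ (θ φ ψ : ℝ) : dot (Yc θ φ) (Zc θ φ ψ) = 0 := by
  simp only [dot, Yc, Zc]
  linear_combination (sin θ * cos ψ * cos θ) * (sin_sq_add_cos_sq φ)

theorem dotYW (θ φ ψ : ℝ) : dot (Yc θ φ) (Wc θ φ ψ) = 0 := by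
  simp only [dot, Yc, Wc]
  linear_combination -(sin θ * sin ψ * cos θ) * (sin_sq_add_cos_sq φ)

theorem dotZW (θ φ ψ : ℝ) : dot (Zc θ φ ψ) (Wc θ φ ψ) = 0 := by
  simp only [dot, Zc, Wc]
  linear_combination (sin ψ * cos ψ - cos ψ * sin ψ * cos θ ^ 2) * (sin_sq_add_cos_sq φ) -
    cos ψ * sin ψ * sin_sq_add_cos_sq θ

theorem dot_comm (p q : T3) : dot p q = dot q p := by
  simp only [dot]; ring

/-- `ℓ¹` distance -/
noncomputable def l1 (p q : T3) : ℝ := |p.1 - q.1| + |p.2.1 - q.2.1| + |p.2.2 - q.2.2|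

theorem abs_coord {v : T3} (hv : dot v v = 1) : |v.1| ≤ 1 ∧ |v.2.1| ≤ 1 ∧ |v.2.2| ≤ 1 := by
  simp only [dot] at hv
  refine ⟨?_, ?_, ?_⟩ <;> rw [← sq_le_one_iff_abs_le_one] <;>
    nlinarith [sq_nonneg v.1, sq_nonneg v.2.1, sq_nonneg v.2.2]

theorem dot_near {v p q : T3} (hv : dot v v = 1) (hp : dot v p = 0) : |dot v q| ≤ l1 q p := by
  obtain ⟨h1, h2, h3⟩ := abs_coord hv
  have e : dot v q = v.1 * (q.1 - p.1) + v.2.1 * (q.2.1 - p.2.1) + v.2.2 * (q.2.2 - p.2.2) := by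
    have : dot v q = dot v q - dot v p := by rw [hp, sub_zero]
    rw [this]; simp only [dot]; ring
  rw [e]
  have t : ∀ x y : ℝ, |x| ≤ 1 → |x * y| ≤ |y| := by
    intro x y hx
    rw [abs_mul]
    have := mul_le_mul_of_nonneg_right hx (abs_nonneg y)
    linarith
  calc |v.1 * (q.1 - p.1) + v.2.1 * (q.2.1 - p.2.1) + v.2.2 * (q.2.2 - p.2.2)|
      ≤ |v.1 * (q.1 - p.1)| + |v.2.1 * (q.2.1 - p.2.1)| + |v.2.2 * (q.2.2 - p.2.2)| :=
        abs_add_three _ _ _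
    _ ≤ l1 q p := by
        unfold l1
        have := t _ (q.1 - p.1) h1
        have := t _ (q.2.1 - p.2.1) h2
        have := t _ (q.2.2 - p.2.2) h3
        linarith

theorem prod_lip {x x' y y' A B : ℝ} (hx : |x| ≤ 1) (hy' : |y'| ≤ 1) (h1 : |x - x'| ≤ A)
    (h2 : |y - y'| ≤ B) : |x * y - x' * y'| ≤ A + B := by
  have e : x * y - x' * y' = x * (y - y') + y' * (x - x') := by ring
  rw [e]
  have t : ∀ x y : ℝ, |x| ≤ 1 → |x * y| ≤ |y| := by
    intro x y hx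
    rw [abs_mul]
    have := mul_le_mul_of_nonneg_right hx (abs_nonneg y)
    linarith
  have := abs_add_le (x * (y - y')) (y' * (x - x'))
  have := t x (y - y') hx
  have := t y' (x - x') hy'
  linarith

theorem abs_mul_le_one {x y : ℝ} (hx : |x| ≤ 1) (hy : |y| ≤ 1) : |x * y| ≤ 1 := by
  rw [abs_mul]
  exact mul_le_one₀ hx (abs_nonneg _) hy

theorem lipY {θ φ θ' φ' h : ℝ} (h1 : |θ - θ'| ≤ h) (h2 : |φ - φ'| ≤ h) :
    l1 (Yc θ φ) (Yc θ' φ') ≤ 12 * h := by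
  have hh : 0 ≤ h := (abs_nonneg _).trans h1
  have s1 := (abs_sin_sub_sin_le θ θ').trans h1
  have s2 := (abs_sin_sub_sin_le φ φ').trans h2
  have c1 := (abs_cos_sub_cos_le θ θ').trans h1
  have c2 := (abs_cos_sub_cos_le φ φ').trans h2
  have a1 := prod_lip (abs_sin_le_one θ) (abs_cos_le_one φ') s1 c2
  have a2 := prod_lip (abs_sin_le_one θ) (abs_sin_le_one φ') s1 s2
  simp only [l1, Yc]
  linarith

theorem lipZ {θ φ ψ θ' φ' ψ' h : ℝ} (h1 : |θ - θ'| ≤ h) (h2 : |φ - φ'| ≤ h) (h3 : |ψ - ψ'| ≤ h) :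
    l1 (Zc θ φ ψ) (Zc θ' φ' ψ') ≤ 12 * h := by
  have s1 := (abs_sin_sub_sin_le θ θ').trans h1
  have s2 := (abs_sin_sub_sin_le φ φ').trans h2
  have s3 := (abs_sin_sub_sin_le ψ ψ').trans h3
  have c1 := (abs_cos_sub_cos_le θ θ').trans h1
  have c2 := (abs_cos_sub_cos_le φ φ').trans h2
  have c3 := (abs_cos_sub_cos_le ψ ψ').trans h3
  have a1 := prod_lip (abs_cos_le_one θ) (abs_cos_le_one φ') c1 c2
  have a2 := prod_lip (abs_cos_le_one θ) (abs_sin_le_one φ') c1 s2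
  have b1 := prod_lip (abs_cos_le_one ψ)
    (abs_mul_le_one (abs_cos_le_one θ') (abs_cos_le_one φ')) c3 a1
  have b2 := prod_lip (abs_cos_le_one ψ)
    (abs_mul_le_one (abs_cos_le_one θ') (abs_sin_le_one φ')) c3 a2
  have d1 := prod_lip (abs_sin_le_one ψ) (abs_sin_le_one φ') s3 s2
  have d2 := prod_lip (abs_sin_le_one ψ) (abs_cos_le_one φ') s3 c2
  have e1 := prod_lip (abs_cos_le_one ψ) (abs_sin_le_one θ') c3 s1
  have t1 : |cos ψ * (cos θ * cos φ) - sin ψ * sin φ -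
      (cos ψ' * (cos θ' * cos φ') - sin ψ' * sin φ')| ≤ 5 * h := by
    rw [abs_le] at b1 d1 ⊢
    constructor <;> linarith [b1.1, b1.2, d1.1, d1.2]
  have t2 : |cos ψ * (cos θ * sin φ) + sin ψ * cos φ -
      (cos ψ' * (cos θ' * sin φ') + sin ψ' * cos φ')| ≤ 5 * h := by
    rw [abs_le] at b2 d2 ⊢
    constructor <;> linarith [b2.1, b2.2, d2.1, d2.2]
  have t3 : |-(cos ψ * sin θ) - -(cos ψ' * sin θ')| ≤ 2 * h := by
    rw [abs_le] at e1 ⊢
    constructor <;> linarith [e1.1, e1.2]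
  simp only [l1, Zc]
  linarith

theorem lipW {θ φ ψ θ' φ' ψ' h : ℝ} (h1 : |θ - θ'| ≤ h) (h2 : |φ - φ'| ≤ h) (h3 : |ψ - ψ'| ≤ h) :
    l1 (Wc θ φ ψ) (Wc θ' φ' ψ') ≤ 12 * h := by
  have s1 := (abs_sin_sub_sin_le θ θ').trans h1
  have s2 := (abs_sin_sub_sin_le φ φ').trans h2
  have s3 := (abs_sin_sub_sin_le ψ ψ').trans h3
  have c1 := (abs_cos_sub_cos_le θ θ').trans h1
  have c2 := (abs_cos_sub_cos_le φ φ').trans h2
  have c3 := (abs_cos_sub_cos_le ψ ψ').trans h3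
  have a1 := prod_lip (abs_cos_le_one θ) (abs_cos_le_one φ') c1 c2
  have a2 := prod_lip (abs_cos_le_one θ) (abs_sin_le_one φ') c1 s2
  have b1 := prod_lip (abs_sin_le_one ψ)
    (abs_mul_le_one (abs_cos_le_one θ') (abs_cos_le_one φ')) s3 a1
  have b2 := prod_lip (abs_sin_le_one ψ)
    (abs_mul_le_one (abs_cos_le_one θ') (abs_sin_le_one φ')) s3 a2
  have d1 := prod_lip (abs_cos_le_one ψ) (abs_sin_le_one φ') c3 s2
  have d2 := prod_lip (abs_cos_le_one ψ) (abs_cos_le_one φ') c3 c2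
  have e1 := prod_lip (abs_sin_le_one ψ) (abs_sin_le_one θ') s3 s1
  have t1 : |-(sin ψ * (cos θ * cos φ)) - cos ψ * sin φ -
      (-(sin ψ' * (cos θ' * cos φ')) - cos ψ' * sin φ')| ≤ 5 * h := by
    rw [abs_le] at b1 d1 ⊢
    constructor <;> linarith [b1.1, b1.2, d1.1, d1.2]
  have t2 : |-(sin ψ * (cos θ * sin φ)) + cos ψ * cos φ -
      (-(sin ψ' * (cos θ' * sin φ')) + cos ψ' * cos φ')| ≤ 5 * h := by
    rw [abs_le] at b2 d2 ⊢
    constructor <;> linarith [b2.1, b2.2, d2.1, d2.2]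
  simp only [l1, Wc]
  linarith

/-- two colours left on a circle: nearly orthogonal to a common point gives the same colour -/
theorem same_of_two {k0 k1 k2 k3 x y w : Fin 6}
    (h : k0 ≠ k1 ∧ k0 ≠ k2 ∧ k0 ≠ k3 ∧ k1 ≠ k2 ∧ k1 ≠ k3 ∧ k2 ≠ k3)
    (hx : x ≠ k0 ∧ x ≠ k1 ∧ x ≠ k2 ∧ x ≠ k3) (hy : y ≠ k0 ∧ y ≠ k1 ∧ y ≠ k2 ∧ y ≠ k3)
    (hw : w ≠ k0 ∧ w ≠ k1 ∧ w ≠ k2 ∧ w ≠ k3) (hxw : x ≠ w) (hyw : y ≠ w) : x = y := by
  have hn : [k0, k1, k2, k3, w, y].Nodup := by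
    obtain ⟨a1, a2, a3, a4, a5, a6⟩ := h
    obtain ⟨b1, b2, b3, b4⟩ := hy
    obtain ⟨c1, c2, c3, c4⟩ := hw
    simp only [List.nodup_cons, List.mem_cons, List.not_mem_nil, or_false, not_or,
      not_false_eq_true, List.nodup_nil, and_true]
    exact ⟨⟨a1, a2, a3, c1.symm, b1.symm⟩, ⟨a4, a5, c2.symm, b2.symm⟩, ⟨a6, c3.symm, b3.symm⟩,
      ⟨c4.symm, b4.symm⟩, hyw.symm⟩
  rcases mem_six hn x with k | k | k | k | k | k
  · exact absurd k hx.1
  · exact absurd k hx.2.1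
  · exact absurd k hx.2.2.1
  · exact absurd k hx.2.2.2
  · exact absurd k hxw
  · exact k

/-- the point of the circle through `P`, `Q` -/
noncomputable def circ (P Q : T3) (t : ℝ) : T3 :=
  (cos t * P.1 + sin t * Q.1, cos t * P.2.1 + sin t * Q.2.1, cos t * P.2.2 + sin t * Q.2.2)

theorem dot_circ {P Q : T3} (hP : dot P P = 1) (hQ : dot Q Q = 1) (hPQ : dot P Q = 0) (s t : ℝ) :
    dot (circ P Q s) (circ P Q t) = cos (s - t) := by
  rw [cos_sub]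
  simp only [dot] at hP hQ hPQ
  simp only [dot, circ]
  linear_combination (cos s * cos t) * hP + (sin s * sin t) * hQ +
    (cos s * sin t + sin s * cos t) * hPQ

theorem dot_circ_left {P Q : T3} {R : T3} (hP : dot P R = 0) (hQ : dot Q R = 0) (t : ℝ) :
    dot (circ P Q t) R = 0 := by
  simp only [dot] at hP hQ
  simp only [dot, circ]
  linear_combination (cos t) * hP + (sin t) * hQ

theorem no_four {cc : T3 → Fin 6} {δ : ℝ} (hδ : 0 < δ)
    (hcc : ∀ p q, dot p p = 1 → dot q q = 1 → |dot p q| < δ → cc p ≠ cc q)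
    {P Q : T3} (hP : dot P P = 1) (hQ : dot Q Q = 1) (hPQ : dot P Q = 0)
    {k0 k1 k2 k3 : Fin 6} (h : k0 ≠ k1 ∧ k0 ≠ k2 ∧ k0 ≠ k3 ∧ k1 ≠ k2 ∧ k1 ≠ k3 ∧ k2 ≠ k3)
    (hk : ∀ t : ℝ, cc (circ P Q t) ≠ k0 ∧ cc (circ P Q t) ≠ k1 ∧ cc (circ P Q t) ≠ k2 ∧
      cc (circ P Q t) ≠ k3) : False := by
  obtain ⟨M, hM⟩ := exists_nat_gt (π / δ)
  have hM0 : (0 : ℝ) < M := lt_trans (by positivity) hM
  have hu : ∀ t, dot (circ P Q t) (circ P Q t) = 1 := fun t => by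
    rw [dot_circ hP hQ hPQ, sub_self, cos_zero]
  set s : ℝ := π / (2 * M) with hs
  have hs0 : 0 < s := by positivity
  have hsδ : s < δ := by
    rw [hs, div_lt_iff₀ (by positivity)]
    rw [div_lt_iff₀ hδ] at hM
    nlinarith
  have step : ∀ m : ℕ, cc (circ P Q (m * s)) = cc (circ P Q 0) := by
    intro m
    induction m with
    | zero => simp
    | succ m ih =>
      rw [← ih]
      refine same_of_two h (hk _) (hk _) (hk (m * s + π / 2)) ?_ ?_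
      · apply hcc _ _ (hu _) (hu _)
        rw [dot_circ hP hQ hPQ]
        have e : ((m + 1 : ℕ) : ℝ) * s - (m * s + π / 2) = s - π / 2 := by push_cast; ring
        rw [e, cos_sub_pi_div_two, abs_of_nonneg]
        · exact lt_of_lt_of_le (sin_lt hs0) hsδ.le
        · apply sin_nonneg_of_nonneg_of_le_pi hs0.le
          rw [hs, div_le_iff₀ (by positivity)]
          have : (1:ℝ) ≤ M := by
            have : 0 < M := by exact_mod_cast hM0
            exact_mod_cast this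
          nlinarith [pi_pos]
      · apply hcc _ _ (hu _) (hu _)
        rw [dot_circ hP hQ hPQ]
        have e : (m : ℝ) * s - (m * s + π / 2) = - (π / 2) := by ring
        rw [e, cos_neg, cos_pi_div_two, abs_zero]
        exact hδ
  have h1 := step M
  have e : (M : ℝ) * s = π / 2 := by rw [hs]; field_simp
  rw [e] at h1
  refine hcc _ _ (hu _) (hu _) ?_ h1
  rw [dot_circ hP hQ hPQ, sub_zero, cos_pi_div_two, abs_zero]
  exact hδ

/-- colour frame -/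
noncomputable def fr (cc : T3 → Fin 6) (θ φ ψ : ℝ) : CF := (cc (Yc θ φ), cc (Zc θ φ ψ), cc (Wc θ φ ψ))

theorem ok_fr {cc : T3 → Fin 6} {δ h : ℝ} (hh : 12 * h < δ)
    (hcc : ∀ p q, dot p p = 1 → dot q q = 1 → |dot p q| < δ → cc p ≠ cc q)
    {θ φ ψ θ' φ' ψ' : ℝ} (h1 : |θ - θ'| ≤ h) (h2 : |φ - φ'| ≤ h) (h3 : |ψ - ψ'| ≤ h) :
    ok (fr cc θ φ ψ) (fr cc θ' φ' ψ') := by
  have h1' : |θ' - θ| ≤ h := by rwa [abs_sub_comm]
  have h2' : |φ' - φ| ≤ h := by rwa [abs_sub_comm]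
  have h3' : |ψ' - ψ| ≤ h := by rwa [abs_sub_comm]
  refine ⟨?_, ?_, ?_, ?_, ?_, ?_⟩
  · exact hcc _ _ (dotYY _ _) (dotZZ _ _ _)
      (((dot_near (dotYY _ _) (dotYZ θ φ ψ)).trans (lipZ h1' h2' h3')).trans_lt hh)
  · exact hcc _ _ (dotYY _ _) (dotWW _ _ _)
      (((dot_near (dotYY _ _) (dotYW θ φ ψ)).trans (lipW h1' h2' h3')).trans_lt hh)
  · exact hcc _ _ (dotZZ _ _ _) (dotWW _ _ _)
      (((dot_near (dotZZ _ _ _) (dotZW θ φ ψ)).trans (lipW h1' h2' h3')).trans_lt hh)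
  · exact hcc _ _ (dotYY _ _) (dotZZ _ _ _)
      (((dot_near (dotYY _ _) (dotYZ θ' φ' ψ')).trans (lipZ h1 h2 h3)).trans_lt hh)
  · exact hcc _ _ (dotYY _ _) (dotWW _ _ _)
      (((dot_near (dotYY _ _) (dotYW θ' φ' ψ')).trans (lipW h1 h2 h3)).trans_lt hh)
  · exact hcc _ _ (dotZZ _ _ _) (dotWW _ _ _)
      (((dot_near (dotZZ _ _ _) (dotZW θ' φ' ψ')).trans (lipW h1 h2 h3)).trans_lt hh)

theorem four_fr {cc : T3 → Fin 6} {δ h : ℝ} (hδ : 0 < δ) (hh : 12 * h < δ)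
    (hcc : ∀ p q, dot p p = 1 → dot q q = 1 → |dot p q| < δ → cc p ≠ cc q)
    (θ φ ψ : Fin 4 → ℝ) (h1 : ∀ i j, |θ i - θ j| ≤ h) (h2 : ∀ i j, |φ i - φ j| ≤ h)
    (h3 : ∀ i j, |ψ i - ψ j| ≤ h) :
    ok4 (fr cc (θ 0) (φ 0) (ψ 0)) (fr cc (θ 1) (φ 1) (ψ 1)) (fr cc (θ 2) (φ 2) (ψ 2))
      (fr cc (θ 3) (φ 3) (ψ 3)) := by
  have O := fun i j => ok_fr hh hcc (h1 i j) (h2 i j) (h3 i j)
  refine ⟨O 0 0, O 1 1, O 2 2, O 3 3, O 0 1, O 0 2, O 0 3, O 1 2, O 1 3, O 2 3, ?_, ?_⟩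
  · intro hd
    refine no_four hδ hcc (dotYY (θ 0) (φ 0)) (dotWW (θ 0) (φ 0) (ψ 0)) (dotYW (θ 0) (φ 0) (ψ 0)) hd
      ?_
    intro t
    have key : ∀ i, cc (circ (Yc (θ 0) (φ 0)) (Wc (θ 0) (φ 0) (ψ 0)) t) ≠
        cc (Zc (θ i) (φ i) (ψ i)) := by
      intro i
      have hu : dot (circ (Yc (θ 0) (φ 0)) (Wc (θ 0) (φ 0) (ψ 0)) t)
          (circ (Yc (θ 0) (φ 0)) (Wc (θ 0) (φ 0) (ψ 0)) t) = 1 := by
        rw [dot_circ (dotYY _ _) (dotWW _ _ _) (dotYW _ _ _), sub_self, cos_zero]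
      have ho : dot (circ (Yc (θ 0) (φ 0)) (Wc (θ 0) (φ 0) (ψ 0)) t)
          (Zc (θ 0) (φ 0) (ψ 0)) = 0 :=
        dot_circ_left (dotYZ _ _ _) (by rw [dot_comm]; exact dotZW _ _ _) t
      exact hcc _ _ hu (dotZZ _ _ _)
        (((dot_near hu ho).trans (lipZ (h1 i 0) (h2 i 0) (h3 i 0))).trans_lt hh)
    exact ⟨key 0, key 1, key 2, key 3⟩
  · intro hd
    refine no_four hδ hcc (dotYY (θ 0) (φ 0)) (dotZZ (θ 0) (φ 0) (ψ 0)) (dotYZ (θ 0) (φ 0) (ψ 0)) hd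
      ?_
    intro t
    have key : ∀ i, cc (circ (Yc (θ 0) (φ 0)) (Zc (θ 0) (φ 0) (ψ 0)) t) ≠
        cc (Wc (θ i) (φ i) (ψ i)) := by
      intro i
      have hu : dot (circ (Yc (θ 0) (φ 0)) (Zc (θ 0) (φ 0) (ψ 0)) t)
          (circ (Yc (θ 0) (φ 0)) (Zc (θ 0) (φ 0) (ψ 0)) t) = 1 := by
        rw [dot_circ (dotYY _ _) (dotZZ _ _ _) (dotYZ _ _ _), sub_self, cos_zero]
      have ho : dot (circ (Yc (θ 0) (φ 0)) (Zc (θ 0) (φ 0) (ψ 0)) t)
          (Wc (θ 0) (φ 0) (ψ 0)) = 0 :=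
        dot_circ_left (dotYW _ _ _) (dotZW _ _ _) t
      exact hcc _ _ hu (dotWW _ _ _)
        (((dot_near hu ho).trans (lipW (h1 i 0) (h2 i 0) (h3 i 0))).trans_lt hh)
    exact ⟨key 0, key 1, key 2, key 3⟩

/-- sign of the box -/
noncomputable def sgb (b : Bool) : ℝ := if b then -1 else 1

theorem abs_sgb (b : Bool) : |sgb b| = 1 := by
  cases b <;> simp [sgb]

theorem idx_near {N : ℕ} (i u v : ℕ) (hu : u ≤ 1) (hv : v ≤ 1) :
    |((i + u : ℕ) : ℝ) * (π / (4 * N)) - ((i + v : ℕ) : ℝ) * (π / (4 * N))| ≤ π / (4 * N) := by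
  have h0 : 0 ≤ π / (4 * (N : ℝ)) := by positivity
  have e : ((i + u : ℕ) : ℝ) * (π / (4 * N)) - ((i + v : ℕ) : ℝ) * (π / (4 * N)) =
      ((u : ℝ) - v) * (π / (4 * N)) := by push_cast; ring
  rw [e, abs_mul, abs_of_nonneg h0]
  have h1 : |(u : ℝ) - v| ≤ 1 := by
    interval_cases u <;> interval_cases v <;> simp
  have := mul_le_mul_of_nonneg_right h1 h0
  linarith

theorem idx_near_sg {N : ℕ} (b : Bool) (i u v : ℕ) (hu : u ≤ 1) (hv : v ≤ 1) :
    |sgb b * (((i + u : ℕ) : ℝ) * (π / (4 * N))) - sgb b * (((i + v : ℕ) : ℝ) * (π / (4 * N)))| ≤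
      π / (4 * N) := by
  rw [← mul_sub, abs_mul, abs_sgb, one_mul]
  exact idx_near i u v hu hv

theorem geog_core (cc : T3 → Fin 6) (δ : ℝ) (hδ : 0 < δ) (hev : ∀ p : T3, cc (-p) = cc p)
    (hcc : ∀ p q, dot p p = 1 → dot q q = 1 → |dot p q| < δ → cc p ≠ cc q)
    (N : ℕ) (hN : 0 < N) (hh : 12 * (π / (4 * N)) < δ) :
    ∃ G : Grid, G.N = N ∧ ∀ i j, G.Y i j = cc (Yc (i * (π / (4 * N))) (j * (π / (4 * N)))) := by
  have hN' : (N : ℝ) ≠ 0 := by exact_mod_cast hN.ne'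
  refine ⟨{ N := N
            hN := hN
            g := fun b i j k => fr cc (i * (π / (4 * N))) (j * (π / (4 * N)))
              (sgb b * (k * (π / (4 * N))))
            Y := fun i j => cc (Yc (i * (π / (4 * N))) (j * (π / (4 * N))))
            hY := fun b i j k => rfl
            h0 := ?_
            hper := ?_
            heq := ?_
            hpole := ?_
            hsw := ?_
            hok := ?_
            h4 := ?_ }, rfl, fun i j => rfl⟩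
  · intro i j
    simp
  · intro b i j k
    have e : ((j + 8 * N : ℕ) : ℝ) * (π / (4 * N)) = j * (π / (4 * N)) + 2 * π := by
      push_cast; field_simp; ring
    simp only [fr, Yc, Zc, Wc]
    rw [e, sin_add_two_pi, cos_add_two_pi]
  · intro j k
    have e : ((j + 4 * N : ℕ) : ℝ) * (π / (4 * N)) = j * (π / (4 * N)) + π := by
      push_cast; field_simp
    have e2 : ((2 * N : ℕ) : ℝ) * (π / (4 * N)) = π / 2 := by
      push_cast; field_simp; norm_num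
    have h1 : Yc (π / 2) (j * (π / (4 * N)) + π) = - Yc (π / 2) (j * (π / (4 * N))) := by
      simp [Yc]
    have h2 : Zc (π / 2) (j * (π / (4 * N)) + π) (k * (π / (4 * N))) =
        Zc (π / 2) (j * (π / (4 * N))) (-(k * (π / (4 * N)))) := by
      simp [Zc]
    have h3 : Wc (π / 2) (j * (π / (4 * N)) + π) (k * (π / (4 * N))) =
        - Wc (π / 2) (j * (π / (4 * N))) (-(k * (π / (4 * N)))) := by
      simp [Wc]
    simp only [fr]
    rw [e, e2]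
    simp only [sgb, Bool.false_eq_true, if_false, if_true, one_mul, neg_mul]
    rw [h1, h2, h3, hev, hev]
  · intro b j k
    have e : ((j + 4 * N : ℕ) : ℝ) * (π / (4 * N)) = j * (π / (4 * N)) + π := by
      push_cast; field_simp
    have h1 : Yc 0 (j * (π / (4 * N)) + π) = Yc 0 (j * (π / (4 * N))) := by
      simp [Yc]
    have h2 : ∀ ψ, Zc 0 (j * (π / (4 * N)) + π) ψ = - Zc 0 (j * (π / (4 * N))) ψ := by
      intro ψ
      simp [Zc]; constructor <;> ring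
    have h3 : ∀ ψ, Wc 0 (j * (π / (4 * N)) + π) ψ = - Wc 0 (j * (π / (4 * N))) ψ := by
      intro ψ
      simp [Wc]; constructor <;> ring
    simp only [fr]
    rw [e, Nat.cast_zero, zero_mul, h1, h2, h3, hev, hev]
  · intro i j
    have e : (N : ℝ) * (π / (4 * N)) = π / 4 := by field_simp
    have h2 : ∀ θ φ, Zc θ φ (-(π / 4)) = - Wc θ φ (π / 4) := by
      intro θ φ
      simp only [Zc, Wc, cos_neg, sin_neg, cos_pi_div_four, sin_pi_div_four, Prod.neg_mk]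
      refine Prod.ext ?_ (Prod.ext ?_ ?_) <;> simp only <;> ring
    have h3 : ∀ θ φ, Wc θ φ (-(π / 4)) = Zc θ φ (π / 4) := by
      intro θ φ
      simp [Zc, Wc]
    simp only [fr, sw]
    rw [e]
    simp only [sgb, Bool.false_eq_true, if_false, if_true, one_mul, neg_mul]
    rw [h2, h3, hev]
  · intro b i j k u1 u2 u3 v1 v2 v3 hu1 hu2 hu3 hv1 hv2 hv3
    exact ok_fr hh hcc (idx_near i u1 v1 hu1 hv1) (idx_near j u2 v2 hu2 hv2)
      (idx_near_sg b k u3 v3 hu3 hv3)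
  · intro b i j k f0 f1 f2 f3 hf
    obtain ⟨u1, u2, u3, hu1, hu2, hu3, e0⟩ := hf f0 (by simp)
    obtain ⟨v1, v2, v3, hv1, hv2, hv3, e1⟩ := hf f1 (by simp)
    obtain ⟨w1, w2, w3, hw1, hw2, hw3, e2⟩ := hf f2 (by simp)
    obtain ⟨x1, x2, x3, hx1, hx2, hx3, e3⟩ := hf f3 (by simp)
    have b1 : ∀ a : Fin 4, (![u1, v1, w1, x1] : Fin 4 → ℕ) a ≤ 1 := by
      intro a; fin_cases a <;> simpa
    have b2 : ∀ a : Fin 4, (![u2, v2, w2, x2] : Fin 4 → ℕ) a ≤ 1 := by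
      intro a; fin_cases a <;> simpa
    have b3 : ∀ a : Fin 4, (![u3, v3, w3, x3] : Fin 4 → ℕ) a ≤ 1 := by
      intro a; fin_cases a <;> simpa
    have := four_fr hδ hh hcc
      (fun a => ((i + ![u1, v1, w1, x1] a : ℕ) : ℝ) * (π / (4 * N)))
      (fun a => ((j + ![u2, v2, w2, x2] a : ℕ) : ℝ) * (π / (4 * N)))
      (fun a => sgb b * (((k + ![u3, v3, w3, x3] a : ℕ) : ℝ) * (π / (4 * N))))
      (fun a a' => idx_near i _ _ (b1 a) (b1 a')) (fun a a' => idx_near j _ _ (b2 a) (b2 a'))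
      (fun a a' => idx_near_sg b k _ _ (b3 a) (b3 a'))
    rw [e0, e1, e2, e3]
    exact this

theorem inner_vec {a b n : E4} (ha : ‖a‖ = 1) (hb : ‖b‖ = 1) (hn : ‖n‖ = 1)
    (hab : inner ℝ a b = (0:ℝ)) (han : inner ℝ a n = (0:ℝ)) (hbn : inner ℝ b n = (0:ℝ))
    (p q : T3) : inner ℝ (vec a b n p) (vec a b n q) = dot p q := by
  have haa : inner ℝ a a = (1:ℝ) := by rw [real_inner_self_eq_norm_sq, ha]; norm_num
  have hbb : inner ℝ b b = (1:ℝ) := by rw [real_inner_self_eq_norm_sq, hb]; norm_num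
  have hnn : inner ℝ n n = (1:ℝ) := by rw [real_inner_self_eq_norm_sq, hn]; norm_num
  have hba : inner ℝ b a = (0:ℝ) := by rw [real_inner_comm]; exact hab
  have hna : inner ℝ n a = (0:ℝ) := by rw [real_inner_comm]; exact han
  have hnb : inner ℝ n b = (0:ℝ) := by rw [real_inner_comm]; exact hbn
  simp only [vec, inner_add_left, inner_add_right, inner_smul_left, inner_smul_right, haa, hbb, hnn,
    hab, hba, han, hna, hbn, hnb, dot]
  simp
  ring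

theorem vec_mem (a b n : E4) (p : T3) : vec a b n p ∈ Submodule.span ℝ {a, b, n} := by
  unfold vec
  apply Submodule.add_mem
  · apply Submodule.add_mem
    · exact Submodule.smul_mem _ _ (Submodule.subset_span (by simp))
    · exact Submodule.smul_mem _ _ (Submodule.subset_span (by simp))
  · exact Submodule.smul_mem _ _ (Submodule.subset_span (by simp))

theorem geog : Spec.GEOG := by
  intro a b n ha hb hn hab han hbn c δ hδ hev hc
  obtain ⟨M, hM⟩ := exists_nat_gt (3 * π / δ)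
  have hM0 : (0 : ℝ) < M := lt_trans (by positivity) hM
  refine ⟨M, fun N hN => ?_⟩
  have hN0 : (0 : ℝ) < N := lt_of_lt_of_le hM0 (by exact_mod_cast hN)
  have hN' : 0 < N := by exact_mod_cast hN0
  have hu : ∀ p, dot p p = 1 → ‖vec a b n p‖ = 1 := by
    intro p hp
    have h := inner_vec ha hb hn hab han hbn p p
    rw [hp, real_inner_self_eq_norm_sq] at h
    have h0 := norm_nonneg (vec a b n p)
    nlinarith
  obtain ⟨G, hG, hY⟩ := geog_core (fun p => c (vec a b n p)) δ hδ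
    (by
      intro p
      have : vec a b n (-p) = - vec a b n p := by
        simp only [vec, Prod.fst_neg, Prod.snd_neg, neg_smul]
        abel
      simp only [this, hev])
    (by
      intro p q hp hq hpq
      apply hc _ _ (hu p hp) (hu q hq) (vec_mem _ _ _ _) (vec_mem _ _ _ _)
      rwa [inner_vec ha hb hn hab han hbn]) N hN'
    (by
      have h1 : 3 * π / δ < N := lt_of_lt_of_le hM (by exact_mod_cast hN)
      rw [div_lt_iff₀ hδ] at h1
      have e : 12 * (π / (4 * (N:ℝ))) = 3 * π / N := by field_simp; norm_num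
      rw [e, div_lt_iff₀ hN0]
      linarith)
  refine ⟨G, hG, fun i j => ?_⟩
  rw [hY]
  simp only [vec, Yc, yv]
  rw [smul_add, smul_smul, smul_smul]

end Crest.B29
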