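import Mathlib

set_option autoImplicit false

/-! Prékopa–Leindler inequality at the midpoint. -/

namespace Crest.Agent.H7PL

open MeasureTheory Set Filter
open scoped ENNReal Topology Pointwise

/-- A space has the midpoint Prékopa–Leindler property. -/
def PL (X : Type) [AddCommGroup X] [Module ℝ X] [MeasureSpace X] : Prop :=
  ∀ u v w : X → ℝ≥0∞, Measurable u → Measurable v → Measurable w →
    (∀ x y, u x * v y ≤ w ((1 / 2 : ℝ) • (x + y)) ^ 2) →
    (∫⁻ x, u x) * (∫⁻ x, v x) ≤ (∫⁻ x, w x) ^ 2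

/-- one-dimensional Brunn–Minkowski, midpoint form, compact sets -/
theorem bm_compact {A B : Set ℝ} {C : Set ℝ} (hA : IsCompact A) (hB : IsCompact B)
    (hAn : A.Nonempty) (hBn : B.Nonempty)
    (h : ∀ a ∈ A, ∀ b ∈ B, (a + b) / 2 ∈ C) :
    (volume A + volume B) / 2 ≤ volume C := by
  obtain ⟨a, haA, ha⟩ := hA.exists_isGreatest hAn
  obtain ⟨b, hbB, hb⟩ := hB.exists_isLeast hBn
  -- images
  set f : ℝ → ℝ := fun x => (1 / 2 : ℝ) * x + b / 2 with hf
  set g : ℝ → ℝ := fun x => (1 / 2 : ℝ) * x + a / 2 with hg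
  have hfC : f '' A ⊆ C := by
    rintro _ ⟨x, hx, rfl⟩
    have := h x hx b hbB
    convert this using 1
    simp only [hf]; ring
  have hgC : g '' B ⊆ C := by
    rintro _ ⟨x, hx, rfl⟩
    have := h a haA x hx
    convert this using 1
    simp only [hg]; ring
  have hvol : ∀ (c : ℝ) (S : Set ℝ), volume ((fun x : ℝ => (1 / 2 : ℝ) * x + c) '' S)
      = volume S / 2 := by
    intro c S
    have e : (fun x : ℝ => (1 / 2 : ℝ) * x + c) '' S
        = (fun x : ℝ => x + c) '' ((fun x : ℝ => (1 / 2 : ℝ) • x) '' S) := by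
      rw [image_image]; simp
    rw [e]
    rw [show ((fun x : ℝ => x + c) '' ((fun x : ℝ => (1 / 2 : ℝ) • x) '' S))
      = (fun x : ℝ => x + (-c)) ⁻¹' ((fun x : ℝ => (1 / 2 : ℝ) • x) '' S) by
        rw [image_add_right]]
    rw [measure_preimage_add_right]
    rw [show ((fun x : ℝ => (1 / 2 : ℝ) • x) '' S) = (1 / 2 : ℝ) • S from rfl]
    rw [Measure.addHaar_smul]
    simp only [Module.finrank_self, pow_one]
    rw [abs_of_pos (by norm_num), ENNReal.ofReal_div_of_pos (by norm_num)]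
    simp [ENNReal.div_eq_inv_mul]
  have hdisj : AEDisjoint volume (f '' A) (g '' B) := by
    apply measure_mono_null (t := {(a + b) / 2}) _ (by simp)
    rintro z ⟨⟨x, hx, hxz⟩, ⟨y, hy, hyz⟩⟩
    have h1 : z ≤ (a + b) / 2 := by
      rw [← hxz]; simp only [hf]; linarith [ha hx]
    have h2 : (a + b) / 2 ≤ z := by
      rw [← hyz]; simp only [hg]; linarith [hb hy]
    exact le_antisymm h1 h2
  have hfm : NullMeasurableSet (g '' B) volume :=
    (hB.image (by fun_prop : Continuous g)).measurableSet.nullMeasurableSet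
  calc (volume A + volume B) / 2 = volume (f '' A) + volume (g '' B) := by
        rw [hvol, hvol, ENNReal.add_div]
    _ = volume (f '' A ∪ g '' B) := (measure_union₀ hfm hdisj).symm
    _ ≤ volume C := measure_mono (union_subset hfC hgC)

theorem bm {A B : Set ℝ} {C : Set ℝ} (hA : MeasurableSet A) (hB : MeasurableSet B)
    (hAn : A.Nonempty) (hBn : B.Nonempty)
    (h : ∀ a ∈ A, ∀ b ∈ B, (a + b) / 2 ∈ C) :
    (volume A + volume B) / 2 ≤ volume C := by
  obtain ⟨a, ha⟩ := hAn
  obtain ⟨b, hb⟩ := hBn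
  have hsupA : ∀ r, r < volume A → ∃ K, K ⊆ A ∧ IsCompact K ∧ K.Nonempty ∧ r < volume K := by
    intro r hr
    obtain ⟨K, hKA, hK, hrK⟩ := hA.exists_lt_isCompact hr
    exact ⟨K, hKA, hK, by
      by_contra hne
      rw [not_nonempty_iff_eq_empty] at hne
      rw [hne] at hrK
      simp at hrK, hrK⟩
  have hsupB : ∀ r, r < volume B → ∃ K, K ⊆ B ∧ IsCompact K ∧ K.Nonempty ∧ r < volume K := by
    intro r hr
    obtain ⟨K, hKA, hK, hrK⟩ := hB.exists_lt_isCompact hr
    exact ⟨K, hKA, hK, by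
      by_contra hne
      rw [not_nonempty_iff_eq_empty] at hne
      rw [hne] at hrK
      simp at hrK, hrK⟩
  rw [ENNReal.div_le_iff (by norm_num) (by norm_num)]
  -- sup over compacts
  have key : ∀ K L, K ⊆ A → IsCompact K → K.Nonempty → L ⊆ B → IsCompact L → L.Nonempty →
      volume K + volume L ≤ volume C * 2 := by
    intro K L hKA hK hKn hLB hL hLn
    have := bm_compact (C := C) hK hL hKn hLn (fun x hx y hy => h x (hKA hx) y (hLB hy))
    rwa [ENNReal.div_le_iff (by norm_num) (by norm_num)] at this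
  have key2 : ∀ K, K ⊆ A → IsCompact K → K.Nonempty → volume K + volume B ≤ volume C * 2 := by
    intro K hKA hK hKn
    by_cases hB0 : volume B = 0
    · rw [hB0, add_zero]
      have := key K {b} hKA hK hKn (singleton_subset_iff.mpr hb) isCompact_singleton
        (singleton_nonempty b)
      exact le_self_add.trans this
    · apply le_of_forall_lt
      intro c hc
      by_cases hcK : c < volume K
      · have := key K {b} hKA hK hKn (singleton_subset_iff.mpr hb) isCompact_singleton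
          (singleton_nonempty b)
        exact hcK.trans_le (le_self_add.trans this)
      · have hcK := not_lt.mp hcK
        have hctop : c ≠ ⊤ := hc.ne_top
        have hKtop : volume K ≠ ⊤ := (lt_of_le_of_lt hcK (lt_top_iff_ne_top.mpr hctop)).ne
        have hcB : c - volume K < volume B := by
          rw [ENNReal.sub_lt_iff_lt_left hKtop hcK]; exact hc
        obtain ⟨L, hLB, hL, hLn, hrL⟩ := hsupB _ hcB
        have := key K L hKA hK hKn hLB hL hLn
        refine lt_of_lt_of_le ?_ this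
        rwa [ENNReal.sub_lt_iff_lt_left hKtop hcK] at hrL
  by_cases hA0 : volume A = 0
  · have := key2 {a} (singleton_subset_iff.mpr ha) isCompact_singleton (singleton_nonempty a)
    rw [hA0, zero_add]
    exact le_add_self.trans this
  · apply le_of_forall_lt
    intro c hc
    by_cases hcK : c < volume B
    · have := key2 {a} (singleton_subset_iff.mpr ha) isCompact_singleton (singleton_nonempty a)
      exact hcK.trans_le (le_add_self.trans this)
    · have hcK := not_lt.mp hcK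
      have hctop : c ≠ ⊤ := hc.ne_top
      have hKtop : volume B ≠ ⊤ := (lt_of_le_of_lt hcK (lt_top_iff_ne_top.mpr hctop)).ne
      have hcB : c - volume B < volume A := by
        rw [ENNReal.sub_lt_iff_lt_right hKtop hcK]; exact hc
      obtain ⟨L, hLB, hL, hLn, hrL⟩ := hsupA _ hcB
      have := key2 L hLB hL hLn
      refine lt_of_lt_of_le ?_ this
      rwa [ENNReal.sub_lt_iff_lt_right hKtop hcK] at hrL


theorem amgm (x y : ℝ≥0∞) : x * y ≤ ((x + y) / 2) ^ 2 := by
  by_cases hx : x = ⊤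
  · rw [hx]
    have : ((⊤ + y) / 2 : ℝ≥0∞) ^ 2 = ⊤ := by simp [ENNReal.top_div]
    rw [this]; exact le_top
  by_cases hy : y = ⊤
  · rw [hy]
    have : ((x + ⊤) / 2 : ℝ≥0∞) ^ 2 = ⊤ := by simp [ENNReal.top_div]
    rw [this]; exact le_top
  lift x to NNReal using hx
  lift y to NNReal using hy
  have h2 : ((x : ℝ≥0∞) + y) / 2 = (((x + y) / 2 : NNReal) : ℝ≥0∞) := by
    rw [ENNReal.coe_div (by norm_num)]; push_cast; rfl
  rw [h2]
  norm_cast
  rw [← NNReal.coe_le_coe]
  push_cast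
  nlinarith [sq_nonneg ((x : ℝ) - y)]

theorem lintegral_layer {f : ℝ → ℝ≥0∞} (hf : Measurable f) (hf1 : ∀ x, f x ≠ ⊤) :
    ∫⁻ x, f x = ∫⁻ t in Ioi (0 : ℝ), volume {x | t < (f x).toReal} := by
  rw [← lintegral_eq_lintegral_meas_lt volume (Eventually.of_forall fun x => ENNReal.toReal_nonneg)
    hf.ennreal_toReal.aemeasurable]
  apply lintegral_congr
  intro x
  rw [ENNReal.ofReal_toReal (hf1 x)]

theorem pl_real_one {u v w : ℝ → ℝ≥0∞} (hu : Measurable u) (hv : Measurable v) (hw : Measurable w)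
    (hu1 : (⨆ x, u x) = 1) (hv1 : (⨆ x, v x) = 1)
    (h : ∀ x y, u x * v y ≤ w ((1 / 2 : ℝ) • (x + y)) ^ 2) :
    ((∫⁻ x, u x) + ∫⁻ x, v x) / 2 ≤ ∫⁻ x, w x := by
  have hule : ∀ x, u x ≤ 1 := fun x => hu1 ▸ le_iSup u x
  have hvle : ∀ x, v x ≤ 1 := fun x => hv1 ▸ le_iSup v x
  have hut : ∀ x, u x ≠ ⊤ := fun x => ((hule x).trans_lt ENNReal.one_lt_top).ne
  have hvt : ∀ x, v x ≠ ⊤ := fun x => ((hvle x).trans_lt ENNReal.one_lt_top).ne
  set w1 : ℝ → ℝ≥0∞ := fun x => min (w x) 1 with hw1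
  have hw1m : Measurable w1 := hw.min measurable_const
  have hw1t : ∀ x, w1 x ≠ ⊤ := fun x => ((min_le_right _ _).trans_lt ENNReal.one_lt_top).ne
  have hww : ∫⁻ x, w1 x ≤ ∫⁻ x, w x := lintegral_mono (fun x => min_le_left _ _)
  refine le_trans ?_ hww
  rw [lintegral_layer hu hut, lintegral_layer hv hvt, lintegral_layer hw1m hw1t]
  have hmeas : ∀ g : ℝ → ℝ≥0∞, Measurable (fun t : ℝ => volume {x | t < (g x).toReal}) := by
    intro g
    apply Antitone.measurable
    intro s t hst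
    exact measure_mono (fun x (hx : t < (g x).toReal) => lt_of_le_of_lt hst hx)
  rw [← lintegral_add_left (hmeas u), ENNReal.div_eq_inv_mul,
    ← lintegral_const_mul' _ _ (by simp)]
  apply setLIntegral_mono (hmeas w1)
  intro t ht
  have ht0 : 0 < t := ht
  rw [← ENNReal.div_eq_inv_mul]
  by_cases ht1 : t < 1
  · have hconv : ∀ (g : ℝ → ℝ≥0∞) (x : ℝ), g x ≠ ⊤ → (t < (g x).toReal ↔ ENNReal.ofReal t < g x) := by
      intro g x hx
      rw [ENNReal.ofReal_lt_iff_lt_toReal ht0.le hx]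
    have hof1 : ENNReal.ofReal t < 1 := by
      rw [ENNReal.ofReal_lt_one]; exact ht1
    apply bm
    · exact measurableSet_lt measurable_const hu.ennreal_toReal
    · exact measurableSet_lt measurable_const hv.ennreal_toReal
    · rw [← hu1, lt_iSup_iff] at hof1
      obtain ⟨x, hx⟩ := hof1
      exact ⟨x, (hconv u x (hut x)).mpr hx⟩
    · rw [← hv1, lt_iSup_iff] at hof1
      obtain ⟨x, hx⟩ := hof1
      exact ⟨x, (hconv v x (hvt x)).mpr hx⟩
    · intro a ha b hb
      have ha' := (hconv u a (hut a)).mp ha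
      have hb' := (hconv v b (hvt b)).mp hb
      have hmid : (a + b) / 2 = (1 / 2 : ℝ) • (a + b) := by rw [smul_eq_mul]; ring
      rw [hmid]
      show t < (w1 ((1 / 2 : ℝ) • (a + b))).toReal
      rw [hconv w1 _ (hw1t _)]
      simp only [hw1]
      rw [lt_min_iff]
      refine ⟨?_, hof1⟩
      by_contra hcon
      have hcon := not_lt.mp hcon
      have h1 := h a b
      have h2 : w ((1 / 2 : ℝ) • (a + b)) ^ 2 ≤ ENNReal.ofReal t * ENNReal.ofReal t := by
        rw [sq]; gcongr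
      have h3 : ENNReal.ofReal t * ENNReal.ofReal t < u a * v b := ENNReal.mul_lt_mul ha' hb'
      exact absurd (h1.trans h2) (not_le.mpr h3)
  · have ht1 := not_lt.mp ht1
    have hempty : ∀ (g : ℝ → ℝ≥0∞), (∀ x, g x ≤ 1) → {x | t < (g x).toReal} = ∅ := by
      intro g hg
      ext x
      simp only [mem_setOf_eq, mem_empty_iff_false, iff_false, not_lt]
      refine le_trans ?_ ht1
      have := ENNReal.toReal_mono ENNReal.one_ne_top (hg x)
      simpa using this
    rw [hempty u hule, hempty v hvle]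
    simp

theorem pl_real_bdd {u v w : ℝ → ℝ≥0∞} (hu : Measurable u) (hv : Measurable v) (hw : Measurable w)
    (hut : (⨆ x, u x) ≠ ⊤) (hvt : (⨆ x, v x) ≠ ⊤)
    (h : ∀ x y, u x * v y ≤ w ((1 / 2 : ℝ) • (x + y)) ^ 2) :
    (∫⁻ x, u x) * (∫⁻ x, v x) ≤ (∫⁻ x, w x) ^ 2 := by
  set a := ⨆ x, u x with ha
  set b := ⨆ x, v x with hb
  by_cases ha0 : a = 0
  · have : ∀ x, u x = 0 := fun x => by
      have := le_iSup u x
      rw [← ha, ha0] at this
      exact le_antisymm this zero_le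
    simp [this]
  by_cases hb0 : b = 0
  · have : ∀ x, v x = 0 := fun x => by
      have := le_iSup v x
      rw [← hb, hb0] at this
      exact le_antisymm this zero_le
    simp [this]
  set c : ℝ≥0∞ := (a * b) ^ (1 / 2 : ℝ) with hc
  have hab0 : a * b ≠ 0 := mul_ne_zero ha0 hb0
  have habt : a * b ≠ ⊤ := ENNReal.mul_ne_top hut hvt
  have hc2 : c ^ 2 = a * b := by
    rw [hc, ← ENNReal.rpow_natCast, ← ENNReal.rpow_mul]
    norm_num
  have hc0 : c ≠ 0 := by
    intro h0
    rw [h0] at hc2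
    simp at hc2
    rcases hc2 with h1 | h1
    · exact ha0 h1
    · exact hb0 h1
  have hct : c ≠ ⊤ := by
    intro h0
    rw [h0] at hc2
    simp at hc2
    exact habt hc2.symm
  have key := pl_real_one (u := fun x => a⁻¹ * u x) (v := fun x => b⁻¹ * v x)
    (w := fun x => c⁻¹ * w x) (hu.const_mul _) (hv.const_mul _) (hw.const_mul _)
    (by rw [← ENNReal.mul_iSup, ← ha, ENNReal.inv_mul_cancel ha0 hut])
    (by rw [← ENNReal.mul_iSup, ← hb, ENNReal.inv_mul_cancel hb0 hvt])
    (by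
      intro x y
      have h1 := h x y
      calc a⁻¹ * u x * (b⁻¹ * v y) = (a⁻¹ * b⁻¹) * (u x * v y) := by ring
        _ ≤ (a⁻¹ * b⁻¹) * (w ((1 / 2 : ℝ) • (x + y)) ^ 2) := by gcongr
        _ = (c⁻¹ * w ((1 / 2 : ℝ) • (x + y))) ^ 2 := by
          rw [mul_pow, ← ENNReal.inv_pow, hc2, ENNReal.mul_inv (Or.inl ha0) (Or.inl hut)])
  rw [lintegral_const_mul _ hu, lintegral_const_mul _ hv, lintegral_const_mul _ hw] at key
  have h1 := amgm (a⁻¹ * ∫⁻ x, u x) (b⁻¹ * ∫⁻ x, v x)
  have h2 : (a⁻¹ * ∫⁻ x, u x) * (b⁻¹ * ∫⁻ x, v x) ≤ (c⁻¹ * ∫⁻ x, w x) ^ 2 :=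
    h1.trans (pow_le_pow_left' key 2)
  have h3 : (∫⁻ x, u x) * (∫⁻ x, v x)
      = (a * b) * ((a⁻¹ * ∫⁻ x, u x) * (b⁻¹ * ∫⁻ x, v x)) := by
    have e1 : a * a⁻¹ = 1 := ENNReal.mul_inv_cancel ha0 hut
    have e2 : b * b⁻¹ = 1 := ENNReal.mul_inv_cancel hb0 hvt
    calc (∫⁻ x, u x) * (∫⁻ x, v x) = (a * a⁻¹) * (b * b⁻¹) * ((∫⁻ x, u x) * (∫⁻ x, v x)) := by
          rw [e1, e2, one_mul, one_mul]
      _ = _ := by ring
  rw [h3]
  calc (a * b) * ((a⁻¹ * ∫⁻ x, u x) * (b⁻¹ * ∫⁻ x, v x)) ≤ (a * b) * (c⁻¹ * ∫⁻ x, w x) ^ 2 := by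
        gcongr
    _ = (c ^ 2 * (c⁻¹) ^ 2) * (∫⁻ x, w x) ^ 2 := by rw [hc2]; ring
    _ = (∫⁻ x, w x) ^ 2 := by
      rw [← mul_pow, ENNReal.mul_inv_cancel hc0 hct, one_pow, one_mul]

theorem lintegral_min_nat {X : Type} [MeasureSpace X] {u : X → ℝ≥0∞} (hu : Measurable u) :
    ∫⁻ x, u x = ⨆ n : ℕ, ∫⁻ x, min (u x) n := by
  rw [← lintegral_iSup (fun n => hu.min measurable_const)]
  · apply lintegral_congr
    intro x
    apply le_antisymm
    · apply le_of_forall_lt
      intro c hc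
      obtain ⟨n, hn⟩ := ENNReal.exists_nat_gt hc.ne_top
      exact lt_of_lt_of_le (lt_min hc hn) (le_iSup (fun n : ℕ => min (u x) (n : ℝ≥0∞)) n)
    · exact iSup_le (fun n => min_le_left _ _)
  · intro m n hmn x
    have : (m : ℝ≥0∞) ≤ n := by exact_mod_cast hmn
    exact min_le_min le_rfl this

theorem pl_real : PL ℝ := by
  intro u v w hu hv hw h
  rw [lintegral_min_nat hu, lintegral_min_nat hv, ENNReal.iSup_mul]
  apply iSup_le
  intro m
  rw [ENNReal.mul_iSup]
  apply iSup_le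
  intro n
  apply pl_real_bdd (hu.min measurable_const) (hv.min measurable_const) hw
  · apply ne_top_of_le_ne_top (ENNReal.natCast_ne_top m)
    exact iSup_le (fun x => min_le_right _ _)
  · apply ne_top_of_le_ne_top (ENNReal.natCast_ne_top n)
    exact iSup_le (fun x => min_le_right _ _)
  · intro x y
    exact (mul_le_mul' (min_le_left _ _) (min_le_left _ _)).trans (h x y)

theorem pl_prod {X Y : Type} [AddCommGroup X] [Module ℝ X] [MeasureSpace X]
    [AddCommGroup Y] [Module ℝ Y] [MeasureSpace Y] [SFinite (volume : Measure X)]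
    [SFinite (volume : Measure Y)] (hX : PL X) (hY : PL Y) : PL (X × Y) := by
  intro u v w hu hv hw h
  have hu' : ∫⁻ z : X × Y, u z = ∫⁻ x : X, ∫⁻ y : Y, u (x, y) := lintegral_prod _ hu.aemeasurable
  have hv' : ∫⁻ z : X × Y, v z = ∫⁻ x : X, ∫⁻ y : Y, v (x, y) := lintegral_prod _ hv.aemeasurable
  have hw' : ∫⁻ z : X × Y, w z = ∫⁻ x : X, ∫⁻ y : Y, w (x, y) := lintegral_prod _ hw.aemeasurable
  rw [hu', hv', hw']
  apply hX
  · exact hu.lintegral_prod_right'
  · exact hv.lintegral_prod_right'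
  · exact hw.lintegral_prod_right'
  · intro x x'
    apply hY
    · exact hu.comp measurable_prodMk_left
    · exact hv.comp measurable_prodMk_left
    · exact hw.comp measurable_prodMk_left
    · intro y y'
      exact h (x, y) (x', y')

theorem pl_equiv {X Y : Type} [AddCommGroup X] [Module ℝ X] [MeasureSpace X]
    [AddCommGroup Y] [Module ℝ Y] [MeasureSpace Y] (e : X ≃ᵐ Y)
    (he : MeasurePreserving e volume volume)
    (hlin : ∀ x y : X, e ((1 / 2 : ℝ) • (x + y)) = (1 / 2 : ℝ) • (e x + e y))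
    (hX : PL X) : PL Y := by
  intro u v w hu hv hw h
  rw [← he.lintegral_comp hu, ← he.lintegral_comp hv, ← he.lintegral_comp hw]
  apply hX _ _ _ (hu.comp e.measurable) (hv.comp e.measurable) (hw.comp e.measurable)
  intro x y
  have := h (e x) (e y)
  rw [← hlin] at this
  exact this

theorem pl_pi (n : ℕ) : PL (Fin n → ℝ) := by
  induction n with
  | zero =>
    intro u v w hu hv hw h
    have hvol : (volume : Measure (Fin 0 → ℝ)) = Measure.dirac 0 := by
      rw [volume_pi, Measure.pi_of_empty (x := 0)]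
    rw [hvol, lintegral_dirac' _ hu, lintegral_dirac' _ hv, lintegral_dirac' _ hw]
    have := h 0 0
    simpa using this
  | succ n ih =>
    have he := volume_preserving_piFinSuccAbove (fun _ : Fin (n + 1) => ℝ) 0
    apply pl_equiv (MeasurableEquiv.piFinSuccAbove (fun _ : Fin (n + 1) => ℝ) 0).symm
      he.symm _ (pl_prod pl_real ih)
    intro x y
    rw [MeasurableEquiv.symm_apply_eq]
    ext i
    · simp [MeasurableEquiv.piFinSuccAbove]
    · simp [MeasurableEquiv.piFinSuccAbove, Fin.tail, Fin.consEquiv]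

theorem pl_euclidean (n : ℕ) : PL (EuclideanSpace ℝ (Fin n)) := by
  apply pl_equiv (MeasurableEquiv.toLp 2 (Fin n → ℝ))
    (PiLp.volume_preserving_toLp (Fin n)) _ (pl_pi n)
  intro x y
  rfl

end Crest.Agent.H7PL
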