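import Mathlib
import Crest.Agent.H7PL

set_option autoImplicit false

/-! The key estimate: barycentres of matched cells. -/

namespace Crest.Agent.H7Key

open MeasureTheory Set Filter
open scoped ENNReal Topology RealInnerProductSpace

variable {d : ℕ}

local notation "E" => EuclideanSpace ℝ (Fin d)

/-- weight -/
noncomputable def om (l : ℝ) (x : E) : ℝ := 1 - l * ‖x‖ ^ 2 / 2

theorem om_continuous (l : ℝ) : Continuous (om (d := d) l) := by
  unfold om; fun_prop

theorem om_le_one {l : ℝ} (hl : 0 ≤ l) (x : E) : om l x ≤ 1 := by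
  unfold om
  have : 0 ≤ l * ‖x‖ ^ 2 / 2 := by positivity
  linarith

theorem om_ge {l R : ℝ} (hl : 0 ≤ l) (hlR : l * R ^ 2 ≤ 1) {x : E} (hx : ‖x‖ ≤ R) :
    1 / 2 ≤ om l x := by
  unfold om
  have h1 : ‖x‖ ^ 2 ≤ R ^ 2 := by
    have := norm_nonneg x
    gcongr
  nlinarith

theorem om_mid {l : ℝ} (x y : E) :
    om l ((1 / 2 : ℝ) • (x + y)) = (om l x + om l y) / 2 + l * ‖x - y‖ ^ 2 / 8 := by
  unfold om
  have h1 : ‖(1 / 2 : ℝ) • (x + y)‖ ^ 2 = (1 / 4) * ‖x + y‖ ^ 2 := by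
    rw [norm_smul, mul_pow]; norm_num
  have h2 := parallelogram_law_with_norm ℝ x y
  have h2' : ‖x + y‖ ^ 2 = 2 * (‖x‖ ^ 2 + ‖y‖ ^ 2) - ‖x - y‖ ^ 2 := by linarith
  rw [h1, h2']
  ring

/-- strict log-concavity of the weight at midpoints. -/
theorem om_logconc {l R : ℝ} (hl : 0 ≤ l) (hlR : l * R ^ 2 ≤ 1) {x y : E}
    (hx : ‖x‖ ≤ R) (hy : ‖y‖ ≤ R) :
    om l x * om l y * Real.exp (l * ‖x - y‖ ^ 2 / 8) ≤ om l ((1 / 2 : ℝ) • (x + y)) ^ 2 := by
  rw [om_mid]
  have hx1 := om_le_one hl x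
  have hy1 := om_le_one hl y
  have hx2 := om_ge hl hlR hx
  have hy2 := om_ge hl hlR hy
  set a := om l x
  set b := om l y
  set t := l * ‖x - y‖ ^ 2 / 8 with ht
  have ht0 : 0 ≤ t := by positivity
  have hxy : ‖x - y‖ ≤ 2 * R := by
    calc _ ≤ ‖x‖ + ‖y‖ := norm_sub_le _ _
      _ ≤ _ := by linarith
  have ht1 : t ≤ 1 / 2 := by
    have h1 : ‖x - y‖ ^ 2 ≤ (2 * R) ^ 2 := by
      have := norm_nonneg (x - y)
      gcongr
    rw [ht]
    nlinarith
  -- exp t ≤ (1 + t)^2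
  have hexp : Real.exp t ≤ (1 + t) ^ 2 := by
    have h1 : Real.exp t ≤ 1 / (1 - t) := by
      have h2 : 1 - t ≤ Real.exp (-t) := by linarith [Real.add_one_le_exp (-t)]
      have h3 : 0 < 1 - t := by linarith
      rw [le_div_iff₀ h3]
      calc Real.exp t * (1 - t) ≤ Real.exp t * Real.exp (-t) := by gcongr
        _ = 1 := by rw [← Real.exp_add]; simp
    refine h1.trans ?_
    rw [div_le_iff₀ (by linarith)]
    nlinarith [mul_nonneg ht0 ht0]
  have h1 : a * b ≤ ((a + b) / 2) ^ 2 := by nlinarith [sq_nonneg (a - b)]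
  have h2 : ((a + b) / 2) * (1 + t) ≤ (a + b) / 2 + t := by nlinarith
  calc a * b * Real.exp t ≤ ((a + b) / 2) ^ 2 * (1 + t) ^ 2 := by gcongr
    _ = (((a + b) / 2) * (1 + t)) ^ 2 := by ring
    _ ≤ ((a + b) / 2 + t) ^ 2 := by
      have : 0 ≤ ((a + b) / 2) * (1 + t) := by positivity
      gcongr

theorem integrableOn_bdd {K : Set E} (hK : volume K ≠ ⊤) {f : E → ℝ} (hf : Measurable f) {C : ℝ}
    (hKm : MeasurableSet K) (hC : ∀ x ∈ K, |f x| ≤ C) : IntegrableOn f K := by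
  apply Measure.integrableOn_of_bounded hK hf.aestronglyMeasurable (M := C)
  filter_upwards [ae_restrict_mem hKm] with x hx
  exact hC x hx

/-- Prékopa–Leindler applied to a pair of cells. -/
theorem pl_cells {l R L : ℝ} (hl : 0 < l) (hlR : l * R ^ 2 ≤ 1) {K V V' W : Set E}
    (hKR : ∀ x ∈ K, ‖x‖ ≤ R) (hKv : volume K ≠ ⊤)
    (hVm : MeasurableSet V) (hV'm : MeasurableSet V') (hWm : MeasurableSet W)
    (hVK : V ⊆ K) (hV'K : V' ⊆ K) (hWK : W ⊆ K)
    (hmid : ∀ x ∈ V, ∀ y ∈ V', (1 / 2 : ℝ) • (x + y) ∈ W)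
    {h : E → ℝ} (hc : Measurable h) {B : ℝ} (hB : ∀ x ∈ K, |h x| ≤ B)
    (hL : ∀ x ∈ K, ∀ y ∈ K, h x - h y ≤ L * ‖x - y‖) :
    (∫ x in V, om l x * Real.exp (h x)) * (∫ x in V', om l x * Real.exp (-(h x)))
      * Real.exp (-(2 * L ^ 2 / l)) ≤ (∫ x in W, om l x) ^ 2 := by
  have hVv : volume V ≠ ⊤ := measure_ne_top_of_subset hVK hKv
  have hV'v : volume V' ≠ ⊤ := measure_ne_top_of_subset hV'K hKv
  have hWv : volume W ≠ ⊤ := measure_ne_top_of_subset hWK hKv
  have hom := om_continuous (d := d) l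
  have hompos : ∀ x ∈ K, 0 < om l x := fun x hx => by
    have := om_ge hl.le hlR (hKR x hx); linarith
  have hi1 : IntegrableOn (fun x => om l x * Real.exp (h x)) V := by
    apply integrableOn_bdd hVv (hom.measurable.mul hc.exp) (C := Real.exp B) hVm
    intro x hx
    show |om l x * Real.exp (h x)| ≤ _
    rw [abs_of_nonneg (mul_nonneg (hompos x (hVK hx)).le (Real.exp_pos _).le)]
    calc _ ≤ 1 * Real.exp B := by
          gcongr
          · exact om_le_one hl.le x
          · exact (abs_le.mp (hB x (hVK hx))).2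
      _ = _ := one_mul _
  have hi2 : IntegrableOn (fun x => om l x * Real.exp (-(h x))) V' := by
    apply integrableOn_bdd hV'v (hom.measurable.mul hc.neg.exp) (C := Real.exp B) hV'm
    intro x hx
    show |om l x * Real.exp (-(h x))| ≤ _
    rw [abs_of_nonneg (mul_nonneg (hompos x (hV'K hx)).le (Real.exp_pos _).le)]
    calc _ ≤ 1 * Real.exp B := by
          gcongr
          · exact om_le_one hl.le x
          · linarith [(abs_le.mp (hB x (hV'K hx))).1]
      _ = _ := one_mul _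
  have hi3 : IntegrableOn (fun x => om l x) W := by
    apply integrableOn_bdd hWv hom.measurable (C := 1) hWm
    intro x hx
    rw [abs_of_nonneg (hompos x (hWK hx)).le]
    exact om_le_one hl.le x
  set c : ℝ := Real.exp (-(2 * L ^ 2 / l)) with hcdef
  have hc0 : 0 < c := Real.exp_pos _
  have key := Crest.Agent.H7PL.pl_euclidean d
    (V.indicator (fun x => ENNReal.ofReal (c * (om l x * Real.exp (h x)))))
    (V'.indicator (fun x => ENNReal.ofReal (om l x * Real.exp (-(h x)))))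
    (W.indicator (fun x => ENNReal.ofReal (om l x)))
    ((ENNReal.measurable_ofReal.comp ((hom.measurable.mul hc.exp).const_mul c)).indicator hVm)
    ((ENNReal.measurable_ofReal.comp (hom.measurable.mul hc.neg.exp)).indicator hV'm)
    ((ENNReal.measurable_ofReal.comp hom.measurable).indicator hWm)
    (by
      intro x y
      by_cases hx : x ∈ V
      swap
      · rw [indicator_of_notMem hx, zero_mul]; exact zero_le
      by_cases hy : y ∈ V'
      swap
      · rw [indicator_of_notMem hy, mul_zero]; exact zero_le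
      have hxK := hVK hx
      have hyK := hV'K hy
      rw [indicator_of_mem hx, indicator_of_mem hy, indicator_of_mem (hmid x hx y hy),
        ← ENNReal.ofReal_mul (mul_nonneg hc0.le (mul_nonneg (hompos x hxK).le (Real.exp_pos _).le)),
        ← ENNReal.ofReal_pow (hompos _ (hWK (hmid x hx y hy))).le]
      apply ENNReal.ofReal_le_ofReal
      refine le_trans ?_ (om_logconc hl.le hlR (hKR x hxK) (hKR y hyK))
      have e1 : c * (om l x * Real.exp (h x)) * (om l y * Real.exp (-(h y)))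
          = om l x * om l y * Real.exp (-(2 * L ^ 2 / l) + h x - h y) := by
        rw [hcdef, sub_eq_add_neg, Real.exp_add, Real.exp_add]; ring
      rw [e1]
      have h0 : 0 ≤ om l x * om l y := mul_nonneg (hompos x hxK).le (hompos y hyK).le
      apply mul_le_mul_of_nonneg_left _ h0
      apply Real.exp_le_exp.mpr
      have h1 := hL x hxK y hyK
      set r := ‖x - y‖
      -- L r - 2 L²/l ≤ l r² / 8
      have h2 : L * r ≤ l * r ^ 2 / 8 + 2 * L ^ 2 / l := by
        have h3 : 0 ≤ (l * r - 4 * L) ^ 2 / (8 * l) := by positivity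
        have h4 : (l * r - 4 * L) ^ 2 / (8 * l) = l * r ^ 2 / 8 - L * r + 2 * L ^ 2 / l := by
          field_simp
          ring
        linarith
      linarith)
  rw [lintegral_indicator hVm, lintegral_indicator hV'm, lintegral_indicator hWm,
    ← ofReal_integral_eq_lintegral_ofReal (hi1.const_mul c) (by
      filter_upwards [ae_restrict_mem hVm] with x hx
      exact mul_nonneg hc0.le (mul_nonneg (hompos x (hVK hx)).le (Real.exp_pos _).le)),
    ← ofReal_integral_eq_lintegral_ofReal hi2 (by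
      filter_upwards [ae_restrict_mem hV'm] with x hx
      exact (mul_nonneg (hompos x (hV'K hx)).le (Real.exp_pos _).le)),
    ← ofReal_integral_eq_lintegral_ofReal hi3 (by
      filter_upwards [ae_restrict_mem hWm] with x hx
      exact (hompos x (hWK hx)).le)] at key
  have hW0 : 0 ≤ ∫ x in W, om l x :=
    setIntegral_nonneg hWm (fun x hx => (hompos x (hWK hx)).le)
  have hV0 : 0 ≤ ∫ x in V, c * (om l x * Real.exp (h x)) :=
    setIntegral_nonneg hVm (fun x hx =>
      mul_nonneg hc0.le (mul_nonneg (hompos x (hVK hx)).le (Real.exp_pos _).le))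
  rw [← ENNReal.ofReal_mul hV0, ← ENNReal.ofReal_pow hW0,
    ENNReal.ofReal_le_ofReal_iff (by positivity), integral_const_mul] at key
  calc _ = c * (∫ x in V, om l x * Real.exp (h x)) * (∫ x in V', om l x * Real.exp (-(h x))) := by
        ring
    _ ≤ _ := key

/-- Jensen inequality for the exponential. -/
theorem jensen {l : ℝ} {V : Set E} (hVm : MeasurableSet V)
    (hpos : ∀ x ∈ V, 0 ≤ om l x) {h : E → ℝ}
    (hi : IntegrableOn (fun x => om l x) V) (hi1 : IntegrableOn (fun x => om l x * h x) V)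
    (hi2 : IntegrableOn (fun x => om l x * Real.exp (h x)) V)
    {M m : ℝ} (hM : ∫ x in V, om l x = M) (hm : ∫ x in V, om l x * h x = M * m) :
    M * Real.exp m ≤ ∫ x in V, om l x * Real.exp (h x) := by
  have h1 : ∀ x ∈ V, Real.exp m * (om l x * (1 - m) + om l x * h x)
      ≤ om l x * Real.exp (h x) := by
    intro x hx
    have h2 : h x - m + 1 ≤ Real.exp (h x - m) := Real.add_one_le_exp _
    have h3 : Real.exp (h x) = Real.exp m * Real.exp (h x - m) := by
      rw [← Real.exp_add]; congr 1; ring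
    rw [h3]
    have h4 := mul_le_mul_of_nonneg_left h2 (mul_nonneg (hpos x hx) (Real.exp_pos m).le)
    calc _ = om l x * Real.exp m * (h x - m + 1) := by ring
      _ ≤ _ := h4
      _ = _ := by ring
  calc M * Real.exp m = ∫ x in V, Real.exp m * (om l x * (1 - m) + om l x * h x) := by
        rw [integral_const_mul, integral_add (hi.mul_const _) hi1, integral_mul_const, hM, hm]
        ring
    _ ≤ _ := setIntegral_mono_on ((hi.mul_const _).add hi1 |>.const_mul _) hi2 hVm h1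


/-- lower bound of the midpoint cell -/
theorem pair_bound {l R L : ℝ} (hl : 0 < l) (hlR : l * R ^ 2 ≤ 1) {K V V' W : Set E}
    (hKR : ∀ x ∈ K, ‖x‖ ≤ R) (hKv : volume K ≠ ⊤)
    (hVm : MeasurableSet V) (hV'm : MeasurableSet V') (hWm : MeasurableSet W)
    (hVK : V ⊆ K) (hV'K : V' ⊆ K) (hWK : W ⊆ K)
    (hmid : ∀ x ∈ V, ∀ y ∈ V', (1 / 2 : ℝ) • (x + y) ∈ W)
    {h : E → ℝ} (hc : Measurable h) {B : ℝ} (hB : ∀ x ∈ K, |h x| ≤ B)
    (hL : ∀ x ∈ K, ∀ y ∈ K, h x - h y ≤ L * ‖x - y‖)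
    {M M' m m' : ℝ} (hM : ∫ x in V, om l x = M) (hM' : ∫ x in V', om l x = M')
    (hm : ∫ x in V, om l x * h x = M * m) (hm' : ∫ x in V', om l x * h x = M' * m')
    (hM0 : 0 ≤ M) (hM'0 : 0 ≤ M') :
    Real.sqrt (M * M') * (1 + (m - m' - 2 * L ^ 2 / l) / 2) ≤ ∫ x in W, om l x := by
  have hVv : volume V ≠ ⊤ := measure_ne_top_of_subset hVK hKv
  have hV'v : volume V' ≠ ⊤ := measure_ne_top_of_subset hV'K hKv
  have hom := om_continuous (d := d) l
  have hompos : ∀ x ∈ K, 0 < om l x := fun x hx => by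
    have := om_ge hl.le hlR (hKR x hx); linarith
  have hint : ∀ (U : Set E), MeasurableSet U → U ⊆ K → ∀ (f : E → ℝ), Measurable f →
      ∀ C : ℝ, (∀ x ∈ K, |f x| ≤ C) → IntegrableOn (fun x => om l x * f x) U := by
    intro U hU hUK f hf C hC
    apply integrableOn_bdd (measure_ne_top_of_subset hUK hKv) (hom.measurable.mul hf) (C := C) hU
    intro x hx
    show |om l x * f x| ≤ _
    rw [abs_mul, abs_of_pos (hompos x (hUK hx))]
    calc _ ≤ 1 * C := by
          gcongr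
          · exact om_le_one hl.le x
          · exact hC x (hUK hx)
      _ = _ := one_mul _
  have hint1 : ∀ (U : Set E), MeasurableSet U → U ⊆ K → IntegrableOn (fun x => om l x) U := by
    intro U hU hUK
    have := hint U hU hUK (fun _ => 1) measurable_const 1 (fun x _ => by simp)
    simpa using this
  have hexpB : ∀ x ∈ K, |Real.exp (h x)| ≤ Real.exp B := fun x hx => by
    rw [abs_of_pos (Real.exp_pos _)]
    exact Real.exp_le_exp.mpr (abs_le.mp (hB x hx)).2
  have hexpB' : ∀ x ∈ K, |Real.exp (-(h x))| ≤ Real.exp B := fun x hx => by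
    rw [abs_of_pos (Real.exp_pos _)]
    exact Real.exp_le_exp.mpr (by linarith [(abs_le.mp (hB x hx)).1])
  have j1 := jensen hVm (fun x hx => (hompos x (hVK hx)).le) (hint1 V hVm hVK)
    (hint V hVm hVK h hc B hB) (hint V hVm hVK _ hc.exp _ hexpB) hM hm
  have j2 := jensen (h := fun x => -(h x)) (m := -m') hV'm (fun x hx => (hompos x (hV'K hx)).le)
    (hint1 V' hV'm hV'K) (hint V' hV'm hV'K _ hc.neg B (fun x hx => by
      show |-(h x)| ≤ B
      rw [abs_neg]; exact hB x hx))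
    (hint V' hV'm hV'K _ hc.neg.exp _ hexpB') hM' (by
      simp only [mul_neg]
      rw [integral_neg, hm'])
  have pl := pl_cells hl hlR hKR hKv hVm hV'm hWm hVK hV'K hWK hmid hc hB hL
  set S := ∫ x in W, om l x with hS
  have hS0 : 0 ≤ S := setIntegral_nonneg hWm (fun x hx => (hompos x (hWK hx)).le)
  have h1 : (M * M') * Real.exp (m - m' - 2 * L ^ 2 / l) ≤ S ^ 2 := by
    have e : (M * M') * Real.exp (m - m' - 2 * L ^ 2 / l)
        = (M * Real.exp m) * (M' * Real.exp (-m')) * Real.exp (-(2 * L ^ 2 / l)) := by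
      rw [sub_eq_add_neg, sub_eq_add_neg, Real.exp_add, Real.exp_add]; ring
    rw [e]
    refine le_trans ?_ pl
    have hA0 : 0 ≤ ∫ x in V, om l x * Real.exp (h x) :=
      setIntegral_nonneg hVm (fun x hx => mul_nonneg (hompos x (hVK hx)).le (Real.exp_pos _).le)
    gcongr
  have h2 : Real.sqrt (M * M') * Real.exp ((m - m' - 2 * L ^ 2 / l) / 2) ≤ S := by
    apply le_of_sq_le_sq _ hS0
    rw [mul_pow, Real.sq_sqrt (mul_nonneg hM0 hM'0), ← Real.exp_nat_mul]
    refine le_trans (le_of_eq ?_) h1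
    congr 2
    push_cast; ring
  refine le_trans ?_ h2
  apply mul_le_mul_of_nonneg_left _ (Real.sqrt_nonneg _)
  linarith [Real.add_one_le_exp ((m - m' - 2 * L ^ 2 / l) / 2)]

/-- Matched families of cells. -/
structure Cells {ι : Type} [Fintype ι] (K : Set (EuclideanSpace ℝ (Fin d))) (R : ℝ)
    (g : EuclideanSpace ℝ (Fin d) → ℝ)
    (V V' W : ι → Set (EuclideanSpace ℝ (Fin d))) (μ : ι → ℝ) : Prop where
  R_pos : 0 < R
  K_meas : MeasurableSet K
  K_vol : volume K ≠ ⊤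
  K_R : ∀ x ∈ K, ‖x‖ ≤ R
  V_meas : ∀ i, MeasurableSet (V i)
  V'_meas : ∀ i, MeasurableSet (V' i)
  W_meas : ∀ i, MeasurableSet (W i)
  V_sub : ∀ i, V i ⊆ K
  V'_sub : ∀ i, V' i ⊆ K
  W_sub : ∀ i, W i ⊆ K
  mid : ∀ i, ∀ x ∈ V i, ∀ y ∈ V' i, (1 / 2 : ℝ) • (x + y) ∈ W i
  g_meas : Measurable g
  g_bd : ∀ x ∈ K, |g x - 1| ≤ 1 / 2
  μ_pos : ∀ i, 0 < μ i
  mass : ∀ i, ∫ _x in V i, (1 : ℝ) = μ i
  mass' : ∀ i, ∫ x in V' i, g x = μ i
  sumV : ∀ f : EuclideanSpace ℝ (Fin d) → ℝ, IntegrableOn f K →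
    ∑ i, ∫ x in V i, f x = ∫ x in K, f x
  sumV' : ∀ f : EuclideanSpace ℝ (Fin d) → ℝ, IntegrableOn f K →
    ∑ i, ∫ x in V' i, f x = ∫ x in K, f x
  sumW : ∀ f : EuclideanSpace ℝ (Fin d) → ℝ, IntegrableOn f K →
    ∑ i, ∫ x in W i, f x = ∫ x in K, f x

namespace Cells

variable {ι : Type} [Fintype ι] {K : Set (EuclideanSpace ℝ (Fin d))} {R : ℝ}
  {g : EuclideanSpace ℝ (Fin d) → ℝ} {V V' W : ι → Set (EuclideanSpace ℝ (Fin d))} {μ : ι → ℝ}

/-- the star inequality -/
theorem star_ineq (C : Cells K R g V V' W μ) {l : ℝ} (hl : 0 < l) (hlR : l * R ^ 2 ≤ 1)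
    (h : ι → E → ℝ) (hc : ∀ i, Measurable (h i)) (B : ι → ℝ) (hB : ∀ i, ∀ x ∈ K, |h i x| ≤ B i)
    (L : ι → ℝ) (hL : ∀ i, ∀ x ∈ K, ∀ y ∈ K, h i x - h i y ≤ L i * ‖x - y‖)
    (M M' m m' : ι → ℝ) (hM : ∀ i, ∫ x in V i, om l x = M i)
    (hM' : ∀ i, ∫ x in V' i, om l x = M' i)
    (hm : ∀ i, ∫ x in V i, om l x * h i x = M i * m i)
    (hm' : ∀ i, ∫ x in V' i, om l x * h i x = M' i * m' i)
    (hM0 : ∀ i, 0 ≤ M i) (hM'0 : ∀ i, 0 ≤ M' i) :
    ∑ i, Real.sqrt (M i * M' i) * (m i - m' i - 2 * L i ^ 2 / l)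
      ≤ ∑ i, (Real.sqrt (M i) - Real.sqrt (M' i)) ^ 2 := by
  have hom := om_continuous (d := d) l
  have hiK : IntegrableOn (fun x : E => om l x) K := by
    apply integrableOn_bdd C.K_vol hom.measurable (C := 1) C.K_meas
    intro x hx
    have := om_ge hl.le hlR (C.K_R x hx)
    rw [abs_of_nonneg (by linarith)]
    exact om_le_one hl.le x
  have h1 : ∑ i, Real.sqrt (M i * M' i) * (1 + (m i - m' i - 2 * L i ^ 2 / l) / 2)
      ≤ ∫ x in K, om l x := by
    rw [← C.sumW _ hiK]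
    apply Finset.sum_le_sum
    intro i _
    exact pair_bound hl hlR C.K_R C.K_vol (C.V_meas i) (C.V'_meas i) (C.W_meas i) (C.V_sub i)
      (C.V'_sub i) (C.W_sub i) (C.mid i) (hc i) (hB i) (hL i) (hM i) (hM' i) (hm i) (hm' i)
      (hM0 i) (hM'0 i)
  have h2 : ∑ i, M i = ∫ x in K, om l x := by
    rw [← C.sumV _ hiK]; exact Finset.sum_congr rfl (fun i _ => (hM i).symm)
  have h3 : ∑ i, M' i = ∫ x in K, om l x := by
    rw [← C.sumV' _ hiK]; exact Finset.sum_congr rfl (fun i _ => (hM' i).symm)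
  have h4 : ∑ i, (Real.sqrt (M i) - Real.sqrt (M' i)) ^ 2
      = ∑ i, M i + ∑ i, M' i - 2 * ∑ i, Real.sqrt (M i * M' i) := by
    rw [Finset.mul_sum, ← Finset.sum_add_distrib, ← Finset.sum_sub_distrib]
    apply Finset.sum_congr rfl
    intro i _
    rw [Real.sqrt_mul (hM0 i), sub_sq, Real.sq_sqrt (hM0 i), Real.sq_sqrt (hM'0 i)]
    ring
  have h5 : ∑ i, Real.sqrt (M i * M' i) * (1 + (m i - m' i - 2 * L i ^ 2 / l) / 2)
      = ∑ i, Real.sqrt (M i * M' i)
        + (1 / 2) * ∑ i, Real.sqrt (M i * M' i) * (m i - m' i - 2 * L i ^ 2 / l) := by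
    rw [Finset.mul_sum, ← Finset.sum_add_distrib]
    apply Finset.sum_congr rfl
    intro i _
    ring
  rw [h5] at h1
  rw [h4, h2, h3]
  linarith


/-- Lipschitz bound for `1/ω`. -/
theorem inv_om_lip {l R : ℝ} (hl : 0 ≤ l) (hlR : l * R ^ 2 ≤ 1) {x y : EuclideanSpace ℝ (Fin d)}
    (hx : ‖x‖ ≤ R) (hy : ‖y‖ ≤ R) : |(om l x)⁻¹ - (om l y)⁻¹| ≤ 4 * l * R * ‖x - y‖ := by
  have hx2 := om_ge hl hlR hx
  have hy2 := om_ge hl hlR hy
  have e : (om l x)⁻¹ - (om l y)⁻¹ = (om l y - om l x) * ((om l x)⁻¹ * (om l y)⁻¹) := by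
    have : om l x ≠ 0 := by linarith
    have : om l y ≠ 0 := by linarith
    field_simp
  have h1 : |om l y - om l x| ≤ l * R * ‖x - y‖ := by
    have e1 : om l y - om l x = l / 2 * ((‖x‖ - ‖y‖) * (‖x‖ + ‖y‖)) := by
      unfold om; ring
    rw [e1, abs_mul, abs_mul, abs_of_nonneg (by positivity : 0 ≤ l / 2),
      abs_of_nonneg (by positivity : 0 ≤ ‖x‖ + ‖y‖)]
    have h2 := abs_norm_sub_norm_le x y
    have h3 : ‖x‖ + ‖y‖ ≤ 2 * R := by linarith
    calc l / 2 * (|‖x‖ - ‖y‖| * (‖x‖ + ‖y‖)) ≤ l / 2 * (‖x - y‖ * (2 * R)) := by gcongr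
      _ = _ := by ring
  have h2 : (om l x)⁻¹ ≤ 2 := by
    rw [inv_le_comm₀ (by linarith) (by norm_num)]; linarith
  have h3 : (om l y)⁻¹ ≤ 2 := by
    rw [inv_le_comm₀ (by linarith) (by norm_num)]; linarith
  have h4 : 0 < (om l x)⁻¹ := by apply inv_pos.mpr; linarith
  have h5 : 0 < (om l y)⁻¹ := by apply inv_pos.mpr; linarith
  have hR0 : 0 ≤ R := (norm_nonneg x).trans hx
  rw [e, abs_mul, abs_of_pos (mul_pos h4 h5)]
  calc |om l y - om l x| * ((om l x)⁻¹ * (om l y)⁻¹) ≤ (l * R * ‖x - y‖) * (2 * 2) := by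
        gcongr
    _ = _ := by ring

/-- pure arithmetic for one cell -/
theorem arith {M M' μ v η Δ P Q γ : ℝ} (hμ : 0 < μ)
    (hM1 : μ / 2 ≤ M) (hM2 : M ≤ μ) (hM'1 : v / 2 ≤ M') (hM'2 : M' ≤ v)
    (hv : v = μ - η) (hη : |η| ≤ v / 2) (hη2 : η ^ 2 ≤ v * γ)
    (hΔ : Δ = μ / M - v / M') (hP : P = Real.sqrt (M * M'))
    (hQ : Q = (Real.sqrt M - Real.sqrt M') ^ 2) :
    Q ≤ 4 * γ + 4 * (P * Δ ^ 2) ∧ M ≤ 2 * P ∧ (M - M') ^ 2 ≤ 6 * μ * Q ∧ v ≤ 2 * μ ∧ 0 < M' := by
  have hη' := abs_le.mp hη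
  have hv0 : 0 < v := by linarith [hη'.1, hη'.2]
  have hM0 : 0 < M := by linarith
  have hM'0 : 0 < M' := by linarith
  have hv2 : v ≤ 2 * μ := by linarith [hη'.1]
  have hγ0 : 0 ≤ γ := by
    by_contra hneg
    have := mul_neg_of_pos_of_neg hv0 (not_le.mp hneg)
    nlinarith [sq_nonneg η]
  have hP0 : 0 ≤ P := by rw [hP]; exact Real.sqrt_nonneg _
  have hP2 : P ^ 2 = M * M' := by rw [hP, Real.sq_sqrt (by positivity)]
  have hMP : M ≤ 2 * P := by
    apply le_of_sq_le_sq _ (by positivity)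
    rw [mul_pow, hP2]
    have : M ≤ 3 * M' := by linarith [hη'.2]
    nlinarith
  have hM'P : M' ≤ 2 * P := by
    apply le_of_sq_le_sq _ (by positivity)
    rw [mul_pow, hP2]
    have : M' ≤ 4 * M := by linarith
    nlinarith
  have hsM := Real.sq_sqrt hM0.le
  have hsM' := Real.sq_sqrt hM'0.le
  have hsM0 := Real.sqrt_nonneg M
  have hsM'0 := Real.sqrt_nonneg M'
  have hfac : (M - M') ^ 2 = Q * (Real.sqrt M + Real.sqrt M') ^ 2 := by
    rw [hQ]
    calc (M - M') ^ 2 = (Real.sqrt M ^ 2 - Real.sqrt M' ^ 2) ^ 2 := by rw [hsM, hsM']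
      _ = _ := by ring
  have hQ0 : 0 ≤ Q := by rw [hQ]; positivity
  have hge : M' ≤ (Real.sqrt M + Real.sqrt M') ^ 2 := by nlinarith [mul_nonneg hsM0 hsM'0]
  have hle : (Real.sqrt M + Real.sqrt M') ^ 2 ≤ 2 * (M + M') := by
    nlinarith [sq_nonneg (Real.sqrt M - Real.sqrt M')]
  -- M - M' = (η - M' Δ) / r
  have hr : 1 ≤ μ / M := by rw [le_div_iff₀ hM0]; linarith
  have hrel : (M - M') * (μ / M) = η - M' * Δ := by
    rw [hΔ]
    have : v = μ - η := hv
    field_simp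
    rw [this]; ring
  have hsq : (M - M') ^ 2 ≤ 2 * η ^ 2 + 2 * M' ^ 2 * Δ ^ 2 := by
    have h1 : (M - M') ^ 2 ≤ ((M - M') * (μ / M)) ^ 2 := by
      rw [mul_pow]
      have : 1 ≤ (μ / M) ^ 2 := by nlinarith
      nlinarith [sq_nonneg (M - M')]
    rw [hrel] at h1
    nlinarith [sq_nonneg (η + M' * Δ)]
  refine ⟨?_, hMP, ?_, hv2, hM'0⟩
  · -- Q * M' ≤ (M-M')^2
    have h1 : Q * M' ≤ 2 * η ^ 2 + 2 * M' ^ 2 * Δ ^ 2 := by
      calc Q * M' ≤ Q * (Real.sqrt M + Real.sqrt M') ^ 2 := by gcongr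
        _ = (M - M') ^ 2 := hfac.symm
        _ ≤ _ := hsq
    have h2 : η ^ 2 ≤ 2 * M' * γ := by
      calc η ^ 2 ≤ v * γ := hη2
        _ ≤ 2 * M' * γ := by gcongr; linarith
    have h3 : Q * M' ≤ (4 * γ + 2 * M' * Δ ^ 2) * M' := by nlinarith
    have h4 : Q ≤ 4 * γ + 2 * M' * Δ ^ 2 := le_of_mul_le_mul_right h3 hM'0
    have h5 : 2 * M' * Δ ^ 2 ≤ 4 * (P * Δ ^ 2) := by nlinarith [sq_nonneg Δ]
    linarith
  · rw [hfac]
    have : 2 * (M + M') ≤ 6 * μ := by linarith
    calc Q * (Real.sqrt M + Real.sqrt M') ^ 2 ≤ Q * (6 * μ) := by gcongr; linarith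
      _ = _ := by ring


/-- Cauchy–Schwarz on a set of finite measure -/
theorem sq_setIntegral_le {A : Set (EuclideanSpace ℝ (Fin d))} {f : EuclideanSpace ℝ (Fin d) → ℝ}
    (h1 : IntegrableOn (fun _ => (1 : ℝ)) A) (hf : IntegrableOn f A)
    (hf2 : IntegrableOn (fun x => f x ^ 2) A) :
    (∫ x in A, f x) ^ 2 ≤ (∫ _x in A, (1 : ℝ)) * ∫ x in A, f x ^ 2 := by
  set v := ∫ _x in A, (1 : ℝ) with hv
  set η := ∫ x in A, f x with hη
  set γ := ∫ x in A, f x ^ 2 with hγ
  have key : ∀ t : ℝ, 0 ≤ t ^ 2 * v - 2 * t * η + γ := by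
    intro t
    have h0 : 0 ≤ ∫ x in A, (t ^ 2 * 1 - 2 * t * f x + f x ^ 2) := by
      apply integral_nonneg
      intro x
      have : t ^ 2 * 1 - 2 * t * f x + f x ^ 2 = (t - f x) ^ 2 := by ring
      show 0 ≤ t ^ 2 * 1 - 2 * t * f x + f x ^ 2
      rw [this]; positivity
    have e : ∫ x in A, (t ^ 2 * 1 - 2 * t * f x + f x ^ 2) = t ^ 2 * v - 2 * t * η + γ := by
      have i1 : IntegrableOn (fun x => t ^ 2 * 1 - 2 * t * f x) A :=
        (h1.const_mul (t ^ 2)).sub (hf.const_mul (2 * t))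
      have i2 : Integrable (fun x => t ^ 2 * (1 : ℝ)) (volume.restrict A) := h1.const_mul (t ^ 2)
      have i3 : Integrable (fun x => 2 * t * f x) (volume.restrict A) := hf.const_mul (2 * t)
      rw [integral_add i1 hf2, integral_sub i2 i3, integral_const_mul, integral_const_mul]
    rwa [e] at h0
  have hv0 : 0 ≤ v := integral_nonneg (fun _ => zero_le_one)
  rcases hv0.eq_or_lt with h | h
  · -- v = 0
    have hv00 : v = 0 := h.symm
    by_contra hneg
    have hneg := not_le.mp hneg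
    rw [hv00, zero_mul] at hneg
    have hη0 : η ≠ 0 := by
      intro h0; rw [h0] at hneg; simp at hneg
    have h1 := key ((γ + 1) / (2 * η))
    rw [hv00] at h1
    have h2 : 2 * ((γ + 1) / (2 * η)) * η = γ + 1 := by field_simp
    rw [h2] at h1
    linarith
  · have h1 := key (η / v)
    have h2 : (η / v) ^ 2 * v - 2 * (η / v) * η + γ = γ - η ^ 2 / v := by field_simp; ring
    rw [h2] at h1
    have h3 : η ^ 2 / v ≤ γ := by linarith
    rw [div_le_iff₀ h] at h3
    linarith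

/-- The key estimate. -/
theorem key_estimate (C : Cells K R g V V' W μ) :
    ∑ i, ‖(∫ x in V i, x) - ∫ x in V' i, g x • x‖ ^ 2 / μ i
      ≤ 4000000 * R ^ 2 * ∫ x in K, (g x - 1) ^ 2 := by
  have hR := C.R_pos
  set l : ℝ := 1 / (1024 * R ^ 2) with hl
  have hl0 : 0 < l := by positivity
  have hlR : l * R ^ 2 = 1 / 1024 := by rw [hl]; field_simp
  have hlR1 : l * R ^ 2 ≤ 1 := by rw [hlR]; norm_num
  have hom := om_continuous (d := d) l
  -- finiteness and integrability helpers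
  have hVv : ∀ i, volume (V i) ≠ ⊤ := fun i => measure_ne_top_of_subset (C.V_sub i) C.K_vol
  have hV'v : ∀ i, volume (V' i) ≠ ⊤ := fun i => measure_ne_top_of_subset (C.V'_sub i) C.K_vol
  have hint : ∀ (U : Set (EuclideanSpace ℝ (Fin d))), MeasurableSet U → U ⊆ K →
      ∀ (f : EuclideanSpace ℝ (Fin d) → ℝ), Measurable f →
      ∀ c : ℝ, (∀ x ∈ K, |f x| ≤ c) → IntegrableOn f U := by
    intro U hU hUK f hf c hc
    exact integrableOn_bdd (measure_ne_top_of_subset hUK C.K_vol) hf (C := c) hU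
      (fun x hx => hc x (hUK hx))
  have hone : ∀ (U : Set (EuclideanSpace ℝ (Fin d))), MeasurableSet U → U ⊆ K →
      IntegrableOn (fun _ => (1 : ℝ)) U := fun U hU hUK =>
    hint U hU hUK _ measurable_const 1 (fun x _ => by simp)
  have homle : ∀ x ∈ K, |om l x| ≤ 1 := fun x hx => by
    have := om_ge hl0.le hlR1 (C.K_R x hx)
    rw [abs_of_nonneg (by linarith)]
    exact om_le_one hl0.le x
  have homi : ∀ (U : Set (EuclideanSpace ℝ (Fin d))), MeasurableSet U → U ⊆ K →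
      IntegrableOn (fun x => om l x) U := fun U hU hUK => hint U hU hUK _ hom.measurable 1 homle
  have homne : ∀ x ∈ K, om l x ≠ 0 := fun x hx => by
    have := om_ge hl0.le hlR1 (C.K_R x hx); linarith
  have homb : ∀ (U : Set (EuclideanSpace ℝ (Fin d))), MeasurableSet U → U ⊆ K →
      (∫ _x in U, (1 : ℝ)) / 2 ≤ ∫ x in U, om l x ∧ ∫ x in U, om l x ≤ ∫ _x in U, (1 : ℝ) := by
    intro U hU hUK
    constructor
    · rw [div_eq_inv_mul, ← integral_const_mul]
      apply setIntegral_mono_on ((hone U hU hUK).const_mul _) (homi U hU hUK) hU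
      intro x hx
      have := om_ge hl0.le hlR1 (C.K_R x (hUK hx))
      linarith
    · apply setIntegral_mono_on (homi U hU hUK) (hone U hU hUK) hU
      intro x hx
      exact om_le_one hl0.le x
  -- the basic quantities
  set M : ι → ℝ := fun i => ∫ x in V i, om l x with hM
  set M' : ι → ℝ := fun i => ∫ x in V' i, om l x with hM'
  set v : ι → ℝ := fun i => ∫ _x in V' i, (1 : ℝ) with hv
  set η : ι → ℝ := fun i => ∫ x in V' i, (g x - 1) with hη
  set γ : ι → ℝ := fun i => ∫ x in V' i, (g x - 1) ^ 2 with hγ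
  set Δ : ι → ℝ := fun i => μ i / M i - v i / M' i with hΔ
  set P : ι → ℝ := fun i => Real.sqrt (M i * M' i) with hP
  set Q : ι → ℝ := fun i => (Real.sqrt (M i) - Real.sqrt (M' i)) ^ 2 with hQ
  set G : ℝ := ∫ x in K, (g x - 1) ^ 2 with hG
  have hg1m : Measurable (fun x => g x - 1) := C.g_meas.sub_const 1
  have hgi : ∀ (U : Set (EuclideanSpace ℝ (Fin d))), MeasurableSet U → U ⊆ K →
      IntegrableOn (fun x => g x - 1) U := fun U hU hUK => hint U hU hUK _ hg1m (1 / 2) C.g_bd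
  have hg2i : ∀ (U : Set (EuclideanSpace ℝ (Fin d))), MeasurableSet U → U ⊆ K →
      IntegrableOn (fun x => (g x - 1) ^ 2) U := fun U hU hUK =>
    hint U hU hUK _ (hg1m.pow_const 2) ((1 / 2) ^ 2) (fun x hx => by
      rw [abs_pow]
      have := C.g_bd x hx
      gcongr)
  have hgsum : ∑ i, γ i = G := C.sumV' _ (hg2i K C.K_meas subset_rfl)
  have har : ∀ i, Q i ≤ 4 * γ i + 4 * (P i * Δ i ^ 2) ∧ M i ≤ 2 * P i ∧
      (M i - M' i) ^ 2 ≤ 6 * μ i * Q i ∧ v i ≤ 2 * μ i ∧ 0 < M' i := by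
    intro i
    have hVi := homb (V i) (C.V_meas i) (C.V_sub i)
    have hV'i := homb (V' i) (C.V'_meas i) (C.V'_sub i)
    rw [C.mass i] at hVi
    refine arith (C.μ_pos i) hVi.1 hVi.2 hV'i.1 hV'i.2 (η := η i) ?_ ?_ ?_ rfl rfl rfl
    · have h1 : ∫ x in V' i, g x = v i + η i := by
        rw [← integral_add (hone _ (C.V'_meas i) (C.V'_sub i)) (hgi _ (C.V'_meas i) (C.V'_sub i))]
        congr 1; ext x; ring
      rw [C.mass' i] at h1
      linarith
    · calc |η i| ≤ ∫ x in V' i, |g x - 1| := abs_integral_le_integral_abs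
        _ ≤ ∫ _x in V' i, (1 / 2 : ℝ) * 1 := by
          apply setIntegral_mono_on (hgi _ (C.V'_meas i) (C.V'_sub i)).abs
            ((hone _ (C.V'_meas i) (C.V'_sub i)).const_mul _) (C.V'_meas i)
          intro x hx
          rw [mul_one]
          exact C.g_bd x (C.V'_sub i hx)
        _ = v i / 2 := by rw [integral_const_mul]; ring
    · exact sq_setIntegral_le (hone _ (C.V'_meas i) (C.V'_sub i))
        (hgi _ (C.V'_meas i) (C.V'_sub i)) (hg2i _ (C.V'_meas i) (C.V'_sub i))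
  have hμle : ∀ i, μ i / 2 ≤ M i ∧ M i ≤ μ i := fun i => by
    have hVi := homb (V i) (C.V_meas i) (C.V_sub i)
    rwa [C.mass i] at hVi
  have hM0 : ∀ i, 0 < M i := fun i => by linarith [C.μ_pos i, (hμle i).1]
  have hM'0 : ∀ i, 0 < M' i := fun i => (har i).2.2.2.2
  have hP0 : ∀ i, 0 ≤ P i := fun i => Real.sqrt_nonneg _
  have hQ0 : ∀ i, 0 ≤ Q i := fun i => by positivity
  -- first test functions
  have hinvm : Measurable (fun x : EuclideanSpace ℝ (Fin d) => (om l x)⁻¹) := hom.measurable.inv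
  have hinvb : ∀ x ∈ K, |(om l x)⁻¹| ≤ 2 := fun x hx => by
    have := om_ge hl0.le hlR1 (C.K_R x hx)
    rw [abs_of_pos (by apply inv_pos.mpr; linarith), inv_le_comm₀ (by linarith) (by norm_num)]
    linarith
  have s1 := C.star_ineq hl0 hlR1 (fun i x => (16 * Δ i) * (om l x)⁻¹)
    (fun i => hinvm.const_mul _) (fun i => |16 * Δ i| * 2)
    (fun i x hx => by
      rw [abs_mul]
      exact mul_le_mul_of_nonneg_left (hinvb x hx) (abs_nonneg _))
    (fun i => |16 * Δ i| * (4 * l * R))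
    (fun i x hx y hy => by
      rw [← mul_sub]
      calc _ ≤ |16 * Δ i * ((om l x)⁻¹ - (om l y)⁻¹)| := le_abs_self _
        _ = |16 * Δ i| * |(om l x)⁻¹ - (om l y)⁻¹| := abs_mul _ _
        _ ≤ |16 * Δ i| * (4 * l * R * ‖x - y‖) := by
          gcongr
          exact inv_om_lip hl0.le hlR1 (C.K_R x hx) (C.K_R y hy)
        _ = _ := by ring)
    M M' (fun i => 16 * Δ i * (μ i / M i)) (fun i => 16 * Δ i * (v i / M' i))
    (fun i => rfl) (fun i => rfl)
    (fun i => by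
      have e : ∫ x in V i, om l x * (16 * Δ i * (om l x)⁻¹) = ∫ _x in V i, 16 * Δ i * (1 : ℝ) := by
        apply setIntegral_congr_fun (C.V_meas i)
        intro x hx
        have := homne x (C.V_sub i hx)
        show om l x * (16 * Δ i * (om l x)⁻¹) = 16 * Δ i * 1
        field_simp
      rw [e, integral_const_mul, C.mass i]
      have := (hM0 i).ne'
      field_simp)
    (fun i => by
      have e : ∫ x in V' i, om l x * (16 * Δ i * (om l x)⁻¹) = ∫ _x in V' i, 16 * Δ i * (1 : ℝ) := by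
        apply setIntegral_congr_fun (C.V'_meas i)
        intro x hx
        have := homne x (C.V'_sub i hx)
        show om l x * (16 * Δ i * (om l x)⁻¹) = 16 * Δ i * 1
        field_simp
      rw [e, integral_const_mul]
      have := (hM'0 i).ne'
      show 16 * Δ i * v i = _
      field_simp)
    (fun i => (hM0 i).le) (fun i => (hM'0 i).le)
  have s1' : 8 * ∑ i, P i * Δ i ^ 2 ≤ ∑ i, Q i := by
    refine le_trans (le_of_eq ?_) s1
    rw [Finset.mul_sum]
    apply Finset.sum_congr rfl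
    intro i _
    have e : 2 * (|16 * Δ i| * (4 * l * R)) ^ 2 / l = 8192 * (l * R ^ 2) * Δ i ^ 2 := by
      rw [mul_pow, sq_abs]; field_simp; ring
    rw [e, hlR]
    have e2 : 16 * Δ i * (μ i / M i) - 16 * Δ i * (v i / M' i) = 16 * Δ i ^ 2 := by
      have : Δ i = μ i / M i - v i / M' i := rfl
      rw [← mul_sub, ← this]; ring
    rw [e2]; ring
  have hQsum : ∑ i, Q i ≤ 8 * G := by
    have h1 : ∑ i, Q i ≤ ∑ i, (4 * γ i + 4 * (P i * Δ i ^ 2)) :=
      Finset.sum_le_sum (fun i _ => (har i).1)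
    rw [Finset.sum_add_distrib, ← Finset.mul_sum, ← Finset.mul_sum, hgsum] at h1
    linarith
  -- second test functions
  have hxi : ∀ (U : Set (EuclideanSpace ℝ (Fin d))), MeasurableSet U → U ⊆ K →
      IntegrableOn (fun x : EuclideanSpace ℝ (Fin d) => x) U := by
    intro U hU hUK
    apply Measure.integrableOn_of_bounded (measure_ne_top_of_subset hUK C.K_vol)
      measurable_id.aestronglyMeasurable (M := R)
    filter_upwards [ae_restrict_mem hU] with x hx
    exact C.K_R x (hUK hx)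
  set X : ι → EuclideanSpace ℝ (Fin d) := fun i => (M i)⁻¹ • ∫ x in V i, x with hX
  set X' : ι → EuclideanSpace ℝ (Fin d) := fun i => (M' i)⁻¹ • ∫ x in V' i, x with hX'
  set D : ι → EuclideanSpace ℝ (Fin d) := fun i => X i - X' i with hD
  set a : ι → EuclideanSpace ℝ (Fin d) := fun i => (l / 36) • D i with ha
  have s2 := C.star_ineq hl0 hlR1 (fun i x => ⟪a i, x⟫ * (om l x)⁻¹)
    (fun i => (by fun_prop : Measurable fun x => ⟪a i, x⟫).mul hinvm) (fun i => ‖a i‖ * R * 2)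
    (fun i x hx => by
      rw [abs_mul]
      have h1 : |⟪a i, x⟫| ≤ ‖a i‖ * R :=
        (abs_real_inner_le_norm _ _).trans
          (mul_le_mul_of_nonneg_left (C.K_R x hx) (norm_nonneg _))
      have := hinvb x hx
      gcongr)
    (fun i => 3 * ‖a i‖)
    (fun i x hx y hy => by
      have e : ⟪a i, x⟫ * (om l x)⁻¹ - ⟪a i, y⟫ * (om l y)⁻¹
          = ⟪a i, x - y⟫ * (om l x)⁻¹ + ⟪a i, y⟫ * ((om l x)⁻¹ - (om l y)⁻¹) := by
        rw [inner_sub_right]; ring
      rw [e]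
      have h1 : ⟪a i, x - y⟫ * (om l x)⁻¹ ≤ (‖a i‖ * ‖x - y‖) * 2 := by
        calc _ ≤ |⟪a i, x - y⟫ * (om l x)⁻¹| := le_abs_self _
          _ = |⟪a i, x - y⟫| * |(om l x)⁻¹| := abs_mul _ _
          _ ≤ _ := by
            have h1 := abs_real_inner_le_norm (a i) (x - y)
            have := hinvb x hx
            gcongr
      have h2 : ⟪a i, y⟫ * ((om l x)⁻¹ - (om l y)⁻¹) ≤ (‖a i‖ * R) * (4 * l * R * ‖x - y‖) := by
        calc _ ≤ |⟪a i, y⟫ * ((om l x)⁻¹ - (om l y)⁻¹)| := le_abs_self _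
          _ = |⟪a i, y⟫| * |(om l x)⁻¹ - (om l y)⁻¹| := abs_mul _ _
          _ ≤ _ := by
            have h1 : |⟪a i, y⟫| ≤ ‖a i‖ * R :=
              (abs_real_inner_le_norm _ _).trans
                (mul_le_mul_of_nonneg_left (C.K_R y hy) (norm_nonneg _))
            have := inv_om_lip hl0.le hlR1 (C.K_R x hx) (C.K_R y hy)
            gcongr
      have h3 : (‖a i‖ * R) * (4 * l * R * ‖x - y‖) = 4 * (l * R ^ 2) * (‖a i‖ * ‖x - y‖) := by ring
      rw [h3, hlR] at h2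
      have h4 : 0 ≤ ‖a i‖ * ‖x - y‖ := by positivity
      linarith)
    M M' (fun i => ⟪a i, X i⟫) (fun i => ⟪a i, X' i⟫)
    (fun i => rfl) (fun i => rfl)
    (fun i => by
      have e : ∫ x in V i, om l x * (⟪a i, x⟫ * (om l x)⁻¹) = ∫ x in V i, ⟪a i, x⟫ := by
        apply setIntegral_congr_fun (C.V_meas i)
        intro x hx
        have := homne x (C.V_sub i hx)
        show om l x * (⟪a i, x⟫ * (om l x)⁻¹) = ⟪a i, x⟫
        field_simp
      rw [e, integral_inner (hxi _ (C.V_meas i) (C.V_sub i))]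
      simp only [hX]
      rw [inner_smul_right]
      have := (hM0 i).ne'
      field_simp)
    (fun i => by
      have e : ∫ x in V' i, om l x * (⟪a i, x⟫ * (om l x)⁻¹) = ∫ x in V' i, ⟪a i, x⟫ := by
        apply setIntegral_congr_fun (C.V'_meas i)
        intro x hx
        have := homne x (C.V'_sub i hx)
        show om l x * (⟪a i, x⟫ * (om l x)⁻¹) = ⟪a i, x⟫
        field_simp
      rw [e, integral_inner (hxi _ (C.V'_meas i) (C.V'_sub i))]
      simp only [hX']
      rw [inner_smul_right]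
      have := (hM'0 i).ne'
      field_simp)
    (fun i => (hM0 i).le) (fun i => (hM'0 i).le)
  have s2' : (l / 72) * ∑ i, P i * ‖D i‖ ^ 2 ≤ 8 * G := by
    refine le_trans (le_of_eq ?_) (s2.trans hQsum)
    rw [Finset.mul_sum]
    apply Finset.sum_congr rfl
    intro i _
    have e1 : ⟪a i, X i⟫ - ⟪a i, X' i⟫ = (l / 36) * ‖D i‖ ^ 2 := by
      rw [← inner_sub_right]
      show ⟪(l / 36) • D i, D i⟫ = _
      rw [inner_smul_left, real_inner_self_eq_norm_sq]; simp
    have e2 : ‖a i‖ = (l / 36) * ‖D i‖ := by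
      show ‖(l / 36) • D i‖ = _
      rw [norm_smul, Real.norm_of_nonneg (by positivity)]
    rw [e1, e2]
    field_simp
    ring
  have hPD : ∑ i, P i * ‖D i‖ ^ 2 ≤ 589824 * R ^ 2 * G := by
    have h1 : ∑ i, P i * ‖D i‖ ^ 2 ≤ (8 * G) / (l / 72) := by
      rw [le_div_iff₀ (by positivity)]; linarith
    have h2 : (8 * G) / (l / 72) = 589824 * R ^ 2 * G := by
      rw [hl]; field_simp; ring
    linarith
  -- final
  have hfin : ∀ i, ‖(∫ x in V i, x) - ∫ x in V' i, g x • x‖ ^ 2 / μ i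
      ≤ 3 * (2 * (P i * ‖D i‖ ^ 2) + 24 * R ^ 2 * Q i + 2 * R ^ 2 * γ i) := by
    intro i
    have hμ0 := C.μ_pos i
    have hgx : IntegrableOn (fun x : EuclideanSpace ℝ (Fin d) => (g x - 1) • x) (V' i) := by
      apply Measure.integrableOn_of_bounded (hV'v i)
        (hg1m.smul measurable_id).aestronglyMeasurable (M := 1 / 2 * R)
      filter_upwards [ae_restrict_mem (C.V'_meas i)] with x hx
      show ‖(g x - 1) • x‖ ≤ 1 / 2 * R
      rw [norm_smul, Real.norm_eq_abs]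
      have h1 := C.g_bd x (C.V'_sub i hx)
      have h2 := C.K_R x (C.V'_sub i hx)
      gcongr
    set ξ : EuclideanSpace ℝ (Fin d) := ∫ x in V' i, (g x - 1) • x with hξ
    have e1 : ∫ x in V i, x = M i • X i := by
      simp only [hX]; rw [smul_smul, mul_inv_cancel₀ (hM0 i).ne', one_smul]
    have e2 : ∫ x in V' i, x = M' i • X' i := by
      simp only [hX']; rw [smul_smul, mul_inv_cancel₀ (hM'0 i).ne', one_smul]
    have e3 : ∫ x in V' i, g x • x = M' i • X' i + ξ := by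
      rw [← e2, hξ, ← integral_add (hxi _ (C.V'_meas i) (C.V'_sub i)) hgx]
      congr 1; ext1 x; rw [sub_smul, one_smul]; abel
    have e4 : (∫ x in V i, x) - ∫ x in V' i, g x • x
        = M i • D i + ((M i - M' i) • X' i - ξ) := by
      rw [e1, e3]
      simp only [hD, smul_sub, sub_smul]
      abel
    have hX'b : ‖X' i‖ ≤ 2 * R := by
      simp only [hX']
      rw [norm_smul, norm_inv, Real.norm_of_nonneg (hM'0 i).le]
      have h1 : ‖∫ x in V' i, x‖ ≤ R * v i := by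
        calc _ ≤ ∫ x in V' i, ‖x‖ := norm_integral_le_integral_norm _
          _ ≤ ∫ _x in V' i, R * (1 : ℝ) := by
            apply setIntegral_mono_on (hxi _ (C.V'_meas i) (C.V'_sub i)).norm
              ((hone _ (C.V'_meas i) (C.V'_sub i)).const_mul _) (C.V'_meas i)
            intro x hx
            rw [mul_one]; exact C.K_R x (C.V'_sub i hx)
          _ = _ := by rw [integral_const_mul]
      rw [inv_mul_le_iff₀ (hM'0 i)]
      have h2 := (homb (V' i) (C.V'_meas i) (C.V'_sub i)).1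
      calc _ ≤ R * v i := h1
        _ ≤ R * (2 * M' i) := by
          gcongr
          show v i ≤ 2 * M' i
          have : v i / 2 ≤ M' i := h2
          linarith
        _ = _ := by ring
    have hγ0 : 0 ≤ γ i := integral_nonneg (fun x => by positivity)
    have hv0 : 0 ≤ v i := integral_nonneg (fun _ => zero_le_one)
    have hξb : ‖ξ‖ ^ 2 ≤ R ^ 2 * (v i * γ i) := by
      have h1 : ‖ξ‖ ≤ R * ∫ x in V' i, |g x - 1| := by
        calc _ ≤ ∫ x in V' i, ‖(g x - 1) • x‖ := norm_integral_le_integral_norm _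
          _ ≤ ∫ x in V' i, R * |g x - 1| := by
            apply setIntegral_mono_on hgx.norm
              ((hgi _ (C.V'_meas i) (C.V'_sub i)).abs.const_mul _) (C.V'_meas i)
            intro x hx
            rw [norm_smul, Real.norm_eq_abs, mul_comm]
            have h2 := C.K_R x (C.V'_sub i hx)
            gcongr
          _ = _ := by rw [integral_const_mul]
      have h2 : (∫ x in V' i, |g x - 1|) ^ 2 ≤ v i * γ i := by
        have := sq_setIntegral_le (f := fun x => |g x - 1|) (hone _ (C.V'_meas i) (C.V'_sub i))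
          (hgi _ (C.V'_meas i) (C.V'_sub i)).abs (by
            simp only [sq_abs]; exact hg2i _ (C.V'_meas i) (C.V'_sub i))
        simpa only [sq_abs] using this
      calc ‖ξ‖ ^ 2 ≤ (R * ∫ x in V' i, |g x - 1|) ^ 2 := by gcongr
        _ = R ^ 2 * (∫ x in V' i, |g x - 1|) ^ 2 := by ring
        _ ≤ _ := by gcongr
    obtain ⟨a1, a2, a3, a4, a5⟩ := har i
    have n1 : ‖M i • D i‖ ^ 2 = M i ^ 2 * ‖D i‖ ^ 2 := by
      rw [norm_smul, Real.norm_of_nonneg (hM0 i).le]; ring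
    have n2 : ‖(M i - M' i) • X' i‖ ^ 2 ≤ 6 * μ i * Q i * (4 * R ^ 2) := by
      rw [norm_smul, mul_pow, Real.norm_eq_abs, sq_abs]
      have : ‖X' i‖ ^ 2 ≤ 4 * R ^ 2 := by
        calc ‖X' i‖ ^ 2 ≤ (2 * R) ^ 2 := by gcongr
          _ = _ := by ring
      have h6 : 0 ≤ 6 * μ i * Q i := by
        have := hQ0 i
        positivity
      gcongr
    have n3 : ‖(∫ x in V i, x) - ∫ x in V' i, g x • x‖ ^ 2
        ≤ 3 * (‖M i • D i‖ ^ 2 + ‖(M i - M' i) • X' i‖ ^ 2 + ‖ξ‖ ^ 2) := by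
      rw [e4]
      have t1 : ‖M i • D i + ((M i - M' i) • X' i - ξ)‖
          ≤ ‖M i • D i‖ + (‖(M i - M' i) • X' i‖ + ‖ξ‖) :=
        (norm_add_le _ _).trans (by gcongr; exact norm_sub_le _ _)
      have t0 := norm_nonneg (M i • D i + ((M i - M' i) • X' i - ξ))
      have := norm_nonneg (M i • D i)
      have := norm_nonneg ((M i - M' i) • X' i)
      have := norm_nonneg ξ
      calc _ ≤ (‖M i • D i‖ + (‖(M i - M' i) • X' i‖ + ‖ξ‖)) ^ 2 := by gcongr
        _ ≤ _ := by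
          nlinarith [sq_nonneg (‖M i • D i‖ - ‖(M i - M' i) • X' i‖),
            sq_nonneg (‖M i • D i‖ - ‖ξ‖), sq_nonneg (‖(M i - M' i) • X' i‖ - ‖ξ‖)]
    rw [div_le_iff₀ hμ0]
    refine n3.trans ?_
    have n4 : M i ^ 2 * ‖D i‖ ^ 2 ≤ μ i * (2 * P i) * ‖D i‖ ^ 2 := by
      have : M i ^ 2 ≤ μ i * (2 * P i) := by
        rw [sq]
        exact mul_le_mul (hμle i).2 a2 (hM0 i).le hμ0.le
      gcongr
    have n5 : R ^ 2 * (v i * γ i) ≤ R ^ 2 * ((2 * μ i) * γ i) := by gcongr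
    rw [n1]
    nlinarith
  calc ∑ i, ‖(∫ x in V i, x) - ∫ x in V' i, g x • x‖ ^ 2 / μ i
      ≤ ∑ i, 3 * (2 * (P i * ‖D i‖ ^ 2) + 24 * R ^ 2 * Q i + 2 * R ^ 2 * γ i) :=
        Finset.sum_le_sum (fun i _ => hfin i)
    _ = 3 * (2 * (∑ i, P i * ‖D i‖ ^ 2) + 24 * R ^ 2 * (∑ i, Q i) + 2 * R ^ 2 * ∑ i, γ i) := by
        rw [← Finset.mul_sum, Finset.sum_add_distrib, Finset.sum_add_distrib, ← Finset.mul_sum,
          ← Finset.mul_sum, ← Finset.mul_sum]
    _ ≤ 3 * (2 * (589824 * R ^ 2 * G) + 24 * R ^ 2 * (8 * G) + 2 * R ^ 2 * G) := by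
        rw [hgsum]
        gcongr
    _ = 3539526 * R ^ 2 * G := by ring
    _ ≤ 4000000 * R ^ 2 * G := by
        have hG0 : 0 ≤ G := integral_nonneg (fun x => by positivity)
        have : 0 ≤ R ^ 2 * G := by positivity
        nlinarith

end Cells

end Crest.Agent.H7Key
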