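import Mathlib
import Crest.Agent.H7Key

set_option autoImplicit false

/-! Semi-discrete optimal transport: cells of max-affine functions. -/

namespace Crest.Agent.H7SD

open MeasureTheory Set Filter
open scoped ENNReal Topology RealInnerProductSpace Function
open Crest.Agent.H7Key

variable {d : ℕ}

/-- closed cells -/
def cell {ι : Type} (K : Set (EuclideanSpace ℝ (Fin d))) (y : ι → EuclideanSpace ℝ (Fin d))
    (ψ : ι → ℝ) (i : ι) : Set (EuclideanSpace ℝ (Fin d)) :=
  {x | x ∈ K ∧ ∀ j, ⟪x, y j⟫ - ψ j ≤ ⟪x, y i⟫ - ψ i}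

theorem hyperplane_null (a : EuclideanSpace ℝ (Fin d)) (ha : a ≠ 0) (c : ℝ) :
    volume {x : EuclideanSpace ℝ (Fin d) | ⟪x, a⟫ = c} = 0 := by
  by_cases h : ∃ x0 : EuclideanSpace ℝ (Fin d), ⟪x0, a⟫ = c
  swap
  · push Not at h
    have : {x : EuclideanSpace ℝ (Fin d) | ⟪x, a⟫ = c} = ∅ := by ext x; simp [h x]
    rw [this, measure_empty]
  obtain ⟨x0, hx0⟩ := h
  set S : Submodule ℝ (EuclideanSpace ℝ (Fin d)) :=
    LinearMap.ker ((innerSL ℝ a : EuclideanSpace ℝ (Fin d) →L[ℝ] ℝ) : _ →ₗ[ℝ] ℝ) with hS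
  set P := AffineSubspace.mk' x0 S with hPdef
  have hmem : ∀ x, x ∈ P ↔ ⟪x, a⟫ = c := by
    intro x
    rw [hPdef, AffineSubspace.mem_mk', hS, LinearMap.mem_ker]
    show ⟪a, x - x0⟫ = 0 ↔ _
    rw [inner_sub_right, real_inner_comm x a, real_inner_comm x0 a, hx0, sub_eq_zero]
  have hP : P ≠ ⊤ := by
    intro h
    have h1 : x0 + a ∈ P := by rw [h]; trivial
    rw [hmem, inner_add_left, hx0, real_inner_self_eq_norm_sq] at h1
    have : ‖a‖ = 0 := by
      have : ‖a‖ ^ 2 = 0 := by linarith
      exact pow_eq_zero_iff (two_ne_zero) |>.mp this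
    exact ha (norm_eq_zero.mp this)
  have := Measure.addHaar_affineSubspace volume P hP
  convert this using 2
  ext x
  exact (hmem x).symm

section cells
variable {ι : Type} [Fintype ι] {K : Set (EuclideanSpace ℝ (Fin d))}
  {y : ι → EuclideanSpace ℝ (Fin d)} {ψ : ι → ℝ}

omit [Fintype ι] in
theorem cell_sub (i : ι) : cell K y ψ i ⊆ K := fun _ hx => hx.1

omit [Fintype ι] in
theorem cell_meas [Finite ι] (hK : MeasurableSet K) (i : ι) : MeasurableSet (cell K y ψ i) := by
  have : cell K y ψ i = K ∩ ⋂ j, {x | ⟪x, y j⟫ - ψ j ≤ ⟪x, y i⟫ - ψ i} := by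
    ext x; simp [cell]
  rw [this]
  refine hK.inter (MeasurableSet.iInter fun j => ?_)
  exact measurableSet_le (by fun_prop) (by fun_prop)

theorem cell_cover [Nonempty ι] : ⋃ i, cell K y ψ i = K := by
  apply subset_antisymm (iUnion_subset fun i => cell_sub i)
  intro x hx
  obtain ⟨i, hi⟩ := Finite.exists_max (fun i => ⟪x, y i⟫ - ψ i)
  exact mem_iUnion.mpr ⟨i, hx, hi⟩

omit [Fintype ι] in
theorem cell_inter_sub (i j : ι) :
    cell K y ψ i ∩ cell K y ψ j ⊆ {x | ⟪x, y i - y j⟫ = ψ i - ψ j} := by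
  rintro x ⟨h1, h2⟩
  have a := h1.2 j
  have b := h2.2 i
  show ⟪x, y i - y j⟫ = _
  rw [inner_sub_right]
  linarith

omit [Fintype ι] in
theorem cell_disj (hy : Function.Injective y) :
    Pairwise (AEDisjoint (volume : Measure (EuclideanSpace ℝ (Fin d))) on (cell K y ψ)) := by
  intro i j hij
  exact measure_mono_null (cell_inter_sub i j)
    (hyperplane_null _ (sub_ne_zero.mpr (fun h => hij (hy h))) _)

theorem cell_sum [Nonempty ι] (hK : MeasurableSet K) (hy : Function.Injective y)
    {F : Type*} [NormedAddCommGroup F] [NormedSpace ℝ F]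
    (f : EuclideanSpace ℝ (Fin d) → F) (hf : IntegrableOn f K) :
    ∑ i, ∫ x in cell K y ψ i, f x = ∫ x in K, f x := by
  have h := integral_iUnion_ae (μ := volume) (f := f) (s := cell K y ψ)
    (fun i => (cell_meas hK i).nullMeasurableSet) (cell_disj hy) (by rwa [cell_cover])
  rw [cell_cover, tsum_fintype] at h
  exact h.symm

omit [Fintype ι] in
theorem cell_mid (hK : Convex ℝ K) {ψ' : ι → ℝ} (i : ι) {x x' : EuclideanSpace ℝ (Fin d)}
    (hx : x ∈ cell K y ψ i) (hx' : x' ∈ cell K y ψ' i) :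
    (1 / 2 : ℝ) • (x + x') ∈ cell K y (fun j => (ψ j + ψ' j) / 2) i := by
  refine ⟨?_, ?_⟩
  · rw [smul_add]
    exact hK hx.1 hx'.1 (by norm_num) (by norm_num) (by norm_num)
  · intro j
    have h1 := hx.2 j
    have h2 := hx'.2 j
    rw [real_inner_smul_left, real_inner_smul_left, inner_add_left, inner_add_left]
    linarith

end cells

/-- max-affine function -/
noncomputable def mx {ι : Type} (y : ι → EuclideanSpace ℝ (Fin d)) (ψ : ι → ℝ)
    (x : EuclideanSpace ℝ (Fin d)) : ℝ := ⨆ i, (⟪x, y i⟫ - ψ i)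

section mxs
variable {ι : Type} [Finite ι] [Nonempty ι]
  {y : ι → EuclideanSpace ℝ (Fin d)} {ψ : ι → ℝ}

omit [Nonempty ι] in
theorem le_mx (x : EuclideanSpace ℝ (Fin d)) (i : ι) : ⟪x, y i⟫ - ψ i ≤ mx y ψ x :=
  le_ciSup (f := fun i => ⟪x, y i⟫ - ψ i) (Finite.bddAbove_range _) i

omit [Finite ι] in
theorem mx_le (x : EuclideanSpace ℝ (Fin d)) {c : ℝ} (h : ∀ i, ⟪x, y i⟫ - ψ i ≤ c) :
    mx y ψ x ≤ c := ciSup_le h

theorem exists_mx (x : EuclideanSpace ℝ (Fin d)) : ∃ i, ⟪x, y i⟫ - ψ i = mx y ψ x :=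
  exists_eq_ciSup_of_finite

theorem mx_lip {R : ℝ} (hyR : ∀ i, ‖y i‖ ≤ R) (x z : EuclideanSpace ℝ (Fin d)) :
    |mx y ψ x - mx y ψ z| ≤ R * ‖x - z‖ := by
  have key : ∀ x z, mx y ψ x ≤ mx y ψ z + R * ‖x - z‖ := by
    intro x z
    apply mx_le
    intro i
    have h1 := le_mx (y := y) (ψ := ψ) z i
    have h2 : ⟪x - z, y i⟫ ≤ R * ‖x - z‖ := by
      calc _ ≤ ‖x - z‖ * ‖y i‖ := real_inner_le_norm _ _
        _ ≤ ‖x - z‖ * R := by have := hyR i; gcongr
        _ = _ := mul_comm _ _
    rw [inner_sub_left] at h2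
    linarith
  rw [abs_le]
  constructor
  · have := key z x
    rw [norm_sub_rev] at this
    linarith
  · linarith [key x z]

theorem mx_psi {ψ' : ι → ℝ} {c : ℝ} (h : ∀ i, |ψ i - ψ' i| ≤ c) (x : EuclideanSpace ℝ (Fin d)) :
    |mx y ψ x - mx y ψ' x| ≤ c := by
  have key : ∀ ψ ψ' : ι → ℝ, (∀ i, |ψ i - ψ' i| ≤ c) → mx y ψ x ≤ mx y ψ' x + c := by
    intro ψ ψ' h
    apply mx_le
    intro i
    have h1 := le_mx (y := y) (ψ := ψ') x i
    have h2 := (abs_le.mp (h i)).1
    linarith
  rw [abs_le]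
  constructor
  · have := key ψ' ψ (fun i => by rw [abs_sub_comm]; exact h i)
    linarith
  · linarith [key ψ ψ' h]

omit [Nonempty ι] in
theorem mx_meas : Measurable (mx y ψ) := by
  unfold mx
  exact Measurable.iSup (fun i => by fun_prop)

end mxs

theorem semidiscrete {ι : Type} [Fintype ι] [Nonempty ι] {K : Set (EuclideanSpace ℝ (Fin d))}
    (hKm : MeasurableSet K) (hKv : volume K ≠ ⊤) {R : ℝ} (hR : 0 < R) (hKR : ∀ x ∈ K, ‖x‖ ≤ R)
    (y : ι → EuclideanSpace ℝ (Fin d)) (hy : Function.Injective y) (hyR : ∀ i, ‖y i‖ ≤ R)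
    {g : EuclideanSpace ℝ (Fin d) → ℝ} (hg : Measurable g) (hgb : ∀ x ∈ K, |g x - 1| ≤ 1 / 2)
    {v : ℝ} (hv : 0 < v) (hgv : ∫ x in K, g x = v) (w : ι → ℝ) (hw : ∀ i, 0 < w i)
    (hw1 : ∑ i, w i = 1) :
    ∃ ψ : ι → ℝ, ∀ i, ∫ x in cell K y ψ i, g x = v * w i := by
  classical
  have hg0 : ∀ x ∈ K, 0 < g x := fun x hx => by
    have := (abs_le.mp (hgb x hx)).1; linarith
  have hg2 : ∀ x ∈ K, |g x| ≤ 2 := fun x hx => by
    have h1 := (abs_le.mp (hgb x hx)).1
    have h2 := (abs_le.mp (hgb x hx)).2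
    rw [abs_le]; constructor <;> linarith
  have hgi : IntegrableOn g K := integrableOn_bdd hKv hg hKm hg2
  have hmxb : ∀ (ψ : ι → ℝ) x, x ∈ K → |mx y ψ x| ≤ R ^ 2 + ‖ψ‖ := by
    intro ψ x hx
    obtain ⟨i, hi⟩ := exists_mx (y := y) (ψ := ψ) x
    rw [← hi]
    calc _ ≤ |⟪x, y i⟫| + |ψ i| := abs_sub _ _
      _ ≤ R * R + ‖ψ‖ := by
        gcongr
        · calc _ ≤ ‖x‖ * ‖y i‖ := abs_real_inner_le_norm _ _
            _ ≤ _ := by
              have h1 := hKR x hx
              have h2 := hyR i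
              gcongr
        · exact norm_le_pi_norm ψ i
      _ = _ := by ring
  have hmxi : ∀ ψ : ι → ℝ, IntegrableOn (fun x => mx y ψ x * g x) K := by
    intro ψ
    apply integrableOn_bdd hKv (mx_meas.mul hg) hKm (C := (R ^ 2 + ‖ψ‖) * 2)
    intro x hx
    show |mx y ψ x * g x| ≤ _
    rw [abs_mul]
    have h1 := hmxb ψ x hx
    have h2 := hg2 x hx
    gcongr
  set F : (ι → ℝ) → ℝ := fun ψ => (∫ x in K, mx y ψ x * g x) + v * ∑ i, w i * ψ i with hF
  have hFlip : ∀ ψ ψ' : ι → ℝ, F ψ ≤ F ψ' + 2 * v * ‖ψ - ψ'‖ := by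
    intro ψ ψ'
    have h1 : (∫ x in K, mx y ψ x * g x) ≤ (∫ x in K, mx y ψ' x * g x) + ‖ψ - ψ'‖ * v := by
      have : (∫ x in K, mx y ψ' x * g x) + ‖ψ - ψ'‖ * v
          = ∫ x in K, (mx y ψ' x * g x + ‖ψ - ψ'‖ * g x) := by
        rw [integral_add (hmxi ψ') (hgi.const_mul _), integral_const_mul, hgv]
      rw [this]
      apply setIntegral_mono_on (hmxi ψ) ((hmxi ψ').add (hgi.const_mul _)) hKm
      intro x hx
      have h2 := mx_psi (y := y) (ψ := ψ) (ψ' := ψ') (c := ‖ψ - ψ'‖)
        (fun i => norm_le_pi_norm (ψ - ψ') i) x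
      have h3 := (abs_le.mp h2).2
      have h4 := hg0 x hx
      show mx y ψ x * g x ≤ mx y ψ' x * g x + ‖ψ - ψ'‖ * g x
      nlinarith
    have h2 : ∑ i, w i * ψ i ≤ (∑ i, w i * ψ' i) + ‖ψ - ψ'‖ := by
      have : ‖ψ - ψ'‖ = ∑ i, w i * ‖ψ - ψ'‖ := by rw [← Finset.sum_mul, hw1, one_mul]
      rw [this, ← Finset.sum_add_distrib]
      apply Finset.sum_le_sum
      intro i _
      have h3 : ψ i - ψ' i ≤ ‖ψ - ψ'‖ := (le_abs_self _).trans (norm_le_pi_norm (ψ - ψ') i)
      have h4 := hw i
      nlinarith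
    simp only [hF]
    nlinarith
  have hFcont : Continuous F := by
    have : LipschitzWith (Real.toNNReal (2 * v)) F := by
      apply LipschitzWith.of_le_add_mul
      intro ψ ψ'
      rw [Real.coe_toNNReal _ (by positivity), dist_eq_norm]
      exact hFlip ψ ψ'
    exact this.continuous
  have hFshift : ∀ (ψ : ι → ℝ) (c : ℝ), F (fun i => ψ i - c) = F ψ := by
    intro ψ c
    have h1 : ∀ x, mx y (fun i => ψ i - c) x = mx y ψ x + c := by
      intro x
      apply le_antisymm
      · apply mx_le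
        intro i
        have := le_mx (y := y) (ψ := ψ) x i
        linarith
      · have : mx y ψ x ≤ mx y (fun i => ψ i - c) x - c := by
          apply mx_le
          intro i
          have := le_mx (y := y) (ψ := fun i => ψ i - c) x i
          linarith
        linarith
    simp only [hF, h1, add_mul, mul_sub, Finset.sum_sub_distrib]
    rw [integral_add (hmxi ψ) (hgi.const_mul _), integral_const_mul, hgv, ← Finset.sum_mul, hw1]
    ring
  set L : ℝ := ∑ i, 2 * R ^ 2 / w i with hL
  have hL0 : 0 ≤ L := Finset.sum_nonneg (fun i _ => by have := hw i; positivity)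
  have hLw : ∀ i, 2 * R ^ 2 ≤ w i * L := by
    intro i
    have h1 : 2 * R ^ 2 / w i ≤ L :=
      Finset.single_le_sum (f := fun i => 2 * R ^ 2 / w i)
        (fun j _ => by have := hw j; positivity) (Finset.mem_univ i)
    have h2 := hw i
    rw [div_le_iff₀ h2] at h1
    linarith
  obtain ⟨ψ, hψB, hψmin⟩ := (isCompact_Icc (a := (0 : ι → ℝ)) (b := fun _ => L)).exists_isMinOn
    ⟨0, by simp only [mem_Icc]; exact ⟨le_rfl, fun i => hL0⟩⟩ hFcont.continuousOn
  have hglob : ∀ ψ', F ψ ≤ F ψ' := by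
    intro ψ'
    obtain ⟨i0, hi0⟩ := Finite.exists_min ψ'
    rw [← hFshift ψ' (ψ' i0)]
    by_cases hall : ∀ i, ψ' i - ψ' i0 ≤ L
    · apply hψmin
      constructor
      · intro i; show (0 : ℝ) ≤ ψ' i - ψ' i0
        linarith [hi0 i]
      · intro i; exact hall i
    · push Not at hall
      obtain ⟨j, hj⟩ := hall
      have h1 : F ψ ≤ F 0 := hψmin (by simp only [mem_Icc]; exact ⟨le_rfl, fun i => hL0⟩)
      have h2 : F 0 ≤ R ^ 2 * v := by
        simp only [hF, Pi.zero_apply, mul_zero, Finset.sum_const_zero, add_zero]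
        rw [← hgv, ← integral_const_mul]
        apply setIntegral_mono_on (hmxi 0) (hgi.const_mul _) hKm
        intro x hx
        have h3 := (abs_le.mp (hmxb 0 x hx)).2
        rw [norm_zero, add_zero] at h3
        have h4 := hg0 x hx
        exact mul_le_mul_of_nonneg_right h3 h4.le
      have h3 : -(R ^ 2 * v) ≤ ∫ x in K, mx y (fun i => ψ' i - ψ' i0) x * g x := by
        rw [← hgv, ← integral_const_mul, ← integral_neg]
        apply setIntegral_mono_on (hgi.const_mul _).neg (hmxi _) hKm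
        intro x hx
        have h4 := hg0 x hx
        have h5 := le_mx (y := y) (ψ := fun i => ψ' i - ψ' i0) x i0
        have h6 : -(R ^ 2) ≤ ⟪x, y i0⟫ := by
          have h7 := abs_real_inner_le_norm x (y i0)
          have h8 : ‖x‖ * ‖y i0‖ ≤ R * R := by
            have h1 := hKR x hx
            have h2 := hyR i0
            gcongr
          have := (abs_le.mp h7).1
          nlinarith
        have h9 : -(R ^ 2) ≤ mx y (fun i => ψ' i - ψ' i0) x := by linarith
        show -(R ^ 2 * g x) ≤ mx y (fun i => ψ' i - ψ' i0) x * g x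
        nlinarith
      have h4 : w j * L ≤ ∑ i, w i * (ψ' i - ψ' i0) := by
        calc w j * L ≤ w j * (ψ' j - ψ' i0) := by have := hw j; gcongr
          _ ≤ _ := Finset.single_le_sum (f := fun i => w i * (ψ' i - ψ' i0))
            (fun i _ => mul_nonneg (hw i).le (by linarith [hi0 i])) (Finset.mem_univ j)
      have h5 := hLw j
      show F ψ ≤ _
      have h6 : R ^ 2 * v ≤ F (fun i => ψ' i - ψ' i0) := by
        simp only [hF]
        have : v * (2 * R ^ 2) ≤ v * ∑ i, w i * (ψ' i - ψ' i0) := by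
          apply mul_le_mul_of_nonneg_left _ hv.le
          linarith
        linarith
      linarith
  refine ⟨ψ, fun i => ?_⟩
  set φ : ℝ → (ι → ℝ) := fun t j => ψ j + t * (if j = i then 1 else 0) with hφ
  have hφ0 : φ 0 = ψ := by ext j; simp [hφ]
  have hstrict : ∀ᵐ x ∂(volume : Measure (EuclideanSpace ℝ (Fin d))), ∀ j, j ≠ i →
      ⟪x, y j⟫ - ψ j ≠ ⟪x, y i⟫ - ψ i := by
    rw [ae_all_iff]
    intro j
    by_cases hj : j = i
    · filter_upwards with x h; exact absurd hj h
    · have := hyperplane_null (y j - y i) (sub_ne_zero.mpr (fun h => hj (hy h))) (ψ j - ψ i)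
      rw [measure_eq_zero_iff_ae_notMem] at this
      filter_upwards [this] with x hx _ h
      apply hx
      show ⟪x, y j - y i⟫ = _
      rw [inner_sub_right]; linarith
  have hder := hasDerivAt_integral_of_dominated_loc_of_lip (μ := volume.restrict K)
    (F := fun t x => mx y (φ t) x * g x) (x₀ := (0 : ℝ)) (s := univ)
    (F' := fun x => (cell K y ψ i).indicator (fun x => -g x) x) (bound := fun _ => (2 : ℝ))
    univ_mem
    (Eventually.of_forall fun t => (mx_meas.mul hg).aestronglyMeasurable)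
    (hmxi _) ((hg.neg.indicator (cell_meas hKm i)).aestronglyMeasurable)
    (by
      filter_upwards [ae_restrict_mem hKm] with x hx
      apply LipschitzOnWith.of_dist_le_mul
      intro t _ t' _
      rw [Real.dist_eq, Real.dist_eq, ← sub_mul, abs_mul, Real.coe_nnabs, abs_of_pos (by norm_num : (0:ℝ) < 2)]
      have h1 : |mx y (φ t) x - mx y (φ t') x| ≤ |t - t'| := by
        apply mx_psi
        intro j
        simp only [hφ]
        by_cases hj : j = i
        · simp [hj]
        · simp [hj]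
      have h2 := hg2 x hx
      calc _ ≤ |t - t'| * 2 := by gcongr
        _ = _ := mul_comm _ _)
    (by
      have : IntegrableOn (fun _ : EuclideanSpace ℝ (Fin d) => (2 : ℝ)) K :=
        integrableOn_bdd hKv measurable_const hKm (C := 2) (fun x _ => by norm_num)
      exact this)
    (by
      filter_upwards [ae_restrict_mem hKm, ae_restrict_of_ae hstrict] with x hx hs
      by_cases hc : x ∈ cell K y ψ i
      · rw [indicator_of_mem hc]
        have hev : ∀ᶠ t : ℝ in 𝓝 0, mx y (φ t) x = (⟪x, y i⟫ - ψ i) - t := by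
          have h1 : ∀ᶠ t : ℝ in 𝓝 0, ∀ j, j ≠ i → ⟪x, y j⟫ - ψ j < (⟪x, y i⟫ - ψ i) - t := by
            rw [eventually_all]
            intro j
            by_cases hj : j = i
            · filter_upwards with t h; exact absurd hj h
            · have h2 : ⟪x, y j⟫ - ψ j < ⟪x, y i⟫ - ψ i := lt_of_le_of_ne (hc.2 j) (hs j hj)
              have h3 : ∀ᶠ t : ℝ in 𝓝 0, t < (⟪x, y i⟫ - ψ i) - (⟪x, y j⟫ - ψ j) :=
                eventually_lt_nhds (by linarith)
              filter_upwards [h3] with t ht _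
              linarith
          filter_upwards [h1] with t ht
          apply le_antisymm
          · apply mx_le
            intro j
            by_cases hj : j = i
            · subst hj
              simp only [hφ, if_true, mul_one]
              linarith
            · have := ht j hj
              simp only [hφ, hj, if_false, mul_zero, add_zero]
              linarith
          · have := le_mx (y := y) (ψ := φ t) x i
            simp only [hφ, if_true, mul_one] at this
            linarith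
        have h2 : HasDerivAt (fun t : ℝ => ((⟪x, y i⟫ - ψ i) - t) * g x) (-g x) 0 := by
          have := ((hasDerivAt_id (0 : ℝ)).const_sub (⟪x, y i⟫ - ψ i)).mul_const (g x)
          simpa using this
        apply h2.congr_of_eventuallyEq
        filter_upwards [hev] with t ht
        rw [ht]
      · rw [indicator_of_notMem hc]
        have hne : ∃ j, ⟪x, y i⟫ - ψ i < ⟪x, y j⟫ - ψ j := by
          by_contra hcon
          push Not at hcon
          exact hc ⟨hx, hcon⟩
        obtain ⟨j, hj⟩ := hne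
        have hji : j ≠ i := fun h => by rw [h] at hj; exact lt_irrefl _ hj
        have hev : ∀ᶠ t : ℝ in 𝓝 0, mx y (φ t) x = mx y ψ x := by
          have h3 : ∀ᶠ t : ℝ in 𝓝 0, -((⟪x, y j⟫ - ψ j) - (⟪x, y i⟫ - ψ i)) < t :=
            eventually_gt_nhds (by linarith)
          filter_upwards [h3] with t ht
          obtain ⟨k, hk⟩ := exists_mx (y := y) (ψ := ψ) x
          have hjm := le_mx (y := y) (ψ := ψ) x j
          apply le_antisymm
          · apply mx_le
            intro l
            by_cases hl : l = i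
            · subst hl
              simp only [hφ, if_true, mul_one]
              linarith
            · simp only [hφ, hl, if_false, mul_zero, add_zero]
              exact le_mx x l
          · have hki : k ≠ i := fun h => by
              rw [h] at hk
              linarith
            have := le_mx (y := y) (ψ := φ t) x k
            simp only [hφ, hki, if_false, mul_zero, add_zero] at this
            linarith
        have h2 : HasDerivAt (fun _ : ℝ => mx y ψ x * g x) 0 0 := hasDerivAt_const _ _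
        apply h2.congr_of_eventuallyEq
        filter_upwards [hev] with t ht
        rw [ht])
  have hd1 := hder.2
  have hint : ∫ x in K, (cell K y ψ i).indicator (fun x => -g x) x
      = -∫ x in cell K y ψ i, g x := by
    rw [setIntegral_indicator (cell_meas hKm i), inter_eq_self_of_subset_right (cell_sub i),
      integral_neg]
  rw [hint] at hd1
  have hd2 : HasDerivAt (fun t : ℝ => F (φ t)) (-(∫ x in cell K y ψ i, g x) + v * w i) 0 := by
    have h1 : HasDerivAt (fun t : ℝ => v * ∑ j, w j * φ t j) (v * w i) 0 := by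
      have e : (fun t : ℝ => v * ∑ j, w j * φ t j) = fun t => v * (∑ j, w j * ψ j) + t * (v * w i) := by
        ext t
        simp only [hφ, mul_add, Finset.sum_add_distrib]
        have : ∑ j, w j * (t * (if j = i then (1 : ℝ) else 0)) = t * w i := by
          simp; ring
        rw [this]; ring
      rw [e]
      have := ((hasDerivAt_id (0 : ℝ)).mul_const (v * w i)).const_add (v * ∑ j, w j * ψ j)
      simpa using this
    exact hd1.add h1
  have hloc : IsLocalMin (fun t : ℝ => F (φ t)) 0 := by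
    apply Eventually.of_forall
    intro t
    show F (φ 0) ≤ F (φ t)
    rw [hφ0]; exact hglob _
  have := hloc.hasDerivAt_eq_zero hd2
  linarith

end Crest.Agent.H7SD
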