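import Mathlib
import Crest.Agent.H7SD

set_option autoImplicit false

/-! The dual (Kantorovich) functional on Lipschitz pairs, for an abstract target functional. -/

namespace Crest.Agent.H7Fn

open MeasureTheory Set Filter
open scoped ENNReal Topology RealInnerProductSpace
open Crest.Agent.H7Key Crest.Agent.H7SD

variable {d : ℕ}

/-- `R`-Lipschitz functions -/
def Lip (R : ℝ) (φ : EuclideanSpace ℝ (Fin d) → ℝ) : Prop := ∀ x z, |φ x - φ z| ≤ R * ‖x - z‖

theorem Lip.le {R : ℝ} {φ : EuclideanSpace ℝ (Fin d) → ℝ} (h : Lip R φ)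
    (x z : EuclideanSpace ℝ (Fin d)) : φ x ≤ φ z + R * ‖x - z‖ := by
  linarith [(abs_le.mp (h x z)).2]

theorem Lip.of_le {R : ℝ} {φ : EuclideanSpace ℝ (Fin d) → ℝ}
    (h : ∀ x z, φ x ≤ φ z + R * ‖x - z‖) : Lip R φ := by
  intro x z
  rw [abs_le]
  constructor
  · have := h z x
    rw [norm_sub_rev] at this
    linarith
  · linarith [h x z]

theorem Lip.continuous {R : ℝ} {φ : EuclideanSpace ℝ (Fin d) → ℝ} (h : Lip R φ) :
    Continuous φ := by
  have : LipschitzWith (Real.toNNReal R) φ := by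
    apply LipschitzWith.of_dist_le_mul
    intro x z
    rw [Real.dist_eq, dist_eq_norm]
    refine (h x z).trans ?_
    gcongr
    exact Real.le_coe_toNNReal R
  exact this.continuous

/-- standing hypotheses on the convex body -/
structure Body (K : Set (EuclideanSpace ℝ (Fin d))) (R r : ℝ) (x0 : EuclideanSpace ℝ (Fin d)) :
    Prop where
  compact : IsCompact K
  convex : Convex ℝ K
  r_pos : 0 < r
  R_pos : 0 < R
  ball : Metric.closedBall x0 r ⊆ K
  K_R : ∀ x ∈ K, ‖x‖ ≤ R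

section body
variable {K : Set (EuclideanSpace ℝ (Fin d))} {R r : ℝ} {x0 : EuclideanSpace ℝ (Fin d)}

theorem Body.meas (B : Body K R r x0) : MeasurableSet K := B.compact.isClosed.measurableSet

theorem Body.vol (B : Body K R r x0) : volume K ≠ ⊤ := B.compact.measure_lt_top.ne

theorem Body.x0_mem (B : Body K R r x0) : x0 ∈ K :=
  B.ball (Metric.mem_closedBall_self B.r_pos.le)

theorem Body.vol_pos (B : Body K R r x0) : 0 < volume.real K := by
  rw [Measure.real, ENNReal.toReal_pos_iff]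
  refine ⟨?_, B.vol.lt_top⟩
  calc 0 < volume (Metric.ball x0 r) := Metric.measure_ball_pos _ _ B.r_pos
    _ ≤ volume K := measure_mono (Metric.ball_subset_closedBall.trans B.ball)

theorem Body.intOn (B : Body K R r x0) {f : EuclideanSpace ℝ (Fin d) → ℝ} (hf : Measurable f)
    {C : ℝ} (hC : ∀ x ∈ K, |f x| ≤ C) : IntegrableOn f K :=
  integrableOn_bdd B.vol hf B.meas hC

theorem Body.int_const (_B : Body K R r x0) (c : ℝ) :
    ∫ _x in K, c = volume.real K * c := by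
  rw [setIntegral_const, smul_eq_mul]

end body

/-- densities -/
structure Dens (K : Set (EuclideanSpace ℝ (Fin d))) (g : EuclideanSpace ℝ (Fin d) → ℝ) : Prop where
  meas : Measurable g
  bd : ∀ x ∈ K, |g x - 1| ≤ 1 / 2
  mass : ∫ x in K, g x = volume.real K

theorem Dens.one (K : Set (EuclideanSpace ℝ (Fin d))) : Dens K (fun _ => 1) where
  meas := measurable_const
  bd := fun x _ => by norm_num
  mass := by simp

theorem Dens.nonneg {K : Set (EuclideanSpace ℝ (Fin d))} {g : EuclideanSpace ℝ (Fin d) → ℝ}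
    (D : Dens K g) {x : EuclideanSpace ℝ (Fin d)} (hx : x ∈ K) : 0 ≤ g x := by
  linarith [(abs_le.mp (D.bd x hx)).1]

theorem Dens.abs_le_two {K : Set (EuclideanSpace ℝ (Fin d))} {g : EuclideanSpace ℝ (Fin d) → ℝ}
    (D : Dens K g) {x : EuclideanSpace ℝ (Fin d)} (hx : x ∈ K) : |g x| ≤ 2 := by
  have h1 := abs_le.mp (D.bd x hx)
  rw [abs_le]; constructor <;> linarith [h1.1, h1.2]

/-- admissible pairs -/
structure Adm (K : Set (EuclideanSpace ℝ (Fin d))) (R : ℝ)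
    (φ ψ : EuclideanSpace ℝ (Fin d) → ℝ) : Prop where
  lip : Lip R φ
  lip' : Lip R ψ
  le : ∀ x ∈ K, ∀ y, ‖y‖ ≤ R → ⟪x, y⟫ ≤ φ x + ψ y

/-- dual value -/
noncomputable def val (K : Set (EuclideanSpace ℝ (Fin d))) (g : EuclideanSpace ℝ (Fin d) → ℝ)
    (Λ : (EuclideanSpace ℝ (Fin d) → ℝ) → ℝ) (φ ψ : EuclideanSpace ℝ (Fin d) → ℝ) : ℝ :=
  (∫ x in K, φ x * g x) + volume.real K * Λ ψ

/-- target functionals -/
def Fn (R : ℝ) (Λ : (EuclideanSpace ℝ (Fin d) → ℝ) → ℝ) : Prop :=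
  ∀ ψ : EuclideanSpace ℝ (Fin d) → ℝ, Lip R ψ → |Λ ψ - ψ 0| ≤ R ^ 2

/-- the value of the dual problem -/
noncomputable def Mf (K : Set (EuclideanSpace ℝ (Fin d))) (R : ℝ)
    (g : EuclideanSpace ℝ (Fin d) → ℝ) (Λ : (EuclideanSpace ℝ (Fin d) → ℝ) → ℝ) : ℝ :=
  sInf {c | ∃ φ ψ, Adm K R φ ψ ∧ c = val K g Λ φ ψ}

section functional
variable {K : Set (EuclideanSpace ℝ (Fin d))} {R r : ℝ} {x0 : EuclideanSpace ℝ (Fin d)}
  {g : EuclideanSpace ℝ (Fin d) → ℝ} {Λ Λ' : (EuclideanSpace ℝ (Fin d) → ℝ) → ℝ}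
  {φ ψ : EuclideanSpace ℝ (Fin d) → ℝ}

theorem Adm.intOn (B : Body K R r x0) (D : Dens K g) (A : Lip R φ) :
    IntegrableOn (fun x => φ x * g x) K := by
  apply B.intOn (A.continuous.measurable.mul D.meas) (C := (|φ 0| + R * R) * 2)
  intro x hx
  show |φ x * g x| ≤ _
  rw [abs_mul]
  have h1 : |φ x| ≤ |φ 0| + R * R := by
    have h2 := A x 0
    rw [sub_zero] at h2
    have h3 : |φ x| ≤ |φ 0| + |φ x - φ 0| := by
      calc |φ x| = |φ 0 + (φ x - φ 0)| := by congr 1; ring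
        _ ≤ _ := abs_add_le _ _
    have h4 : R * ‖x‖ ≤ R * R := mul_le_mul_of_nonneg_left (B.K_R x hx) B.R_pos.le
    linarith
  have h2 := D.abs_le_two hx
  exact mul_le_mul h1 h2 (abs_nonneg _) ((abs_nonneg _).trans h1)

theorem adm_exists (B : Body K R r x0) : ∃ φ ψ, Adm K R φ ψ := by
  refine ⟨fun x => R * ‖x‖, fun _ => 0, ?_, ?_, ?_⟩
  · apply Lip.of_le
    intro x z
    have := norm_sub_norm_le x z
    have hR := B.R_pos
    nlinarith
  · apply Lip.of_le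
    intro x z
    have hR := B.R_pos
    have := norm_nonneg (x - z)
    nlinarith
  · intro x _ y hy
    have h1 := real_inner_le_norm x y
    have h2 : ‖x‖ * ‖y‖ ≤ ‖x‖ * R := by gcongr
    linarith

theorem val_lower (B : Body K R r x0) (D : Dens K g) (hΛ : Fn R Λ) (A : Adm K R φ ψ) :
    -(volume.real K * R ^ 2) ≤ val K g Λ φ ψ := by
  have hv := B.vol_pos
  have h1 : volume.real K * (-ψ 0) ≤ ∫ x in K, φ x * g x := by
    rw [← D.mass, mul_comm, ← integral_const_mul]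
    apply setIntegral_mono_on _ (Adm.intOn B D A.lip) B.meas
    · intro x hx
      have h2 := A.le x hx 0 (by simp [B.R_pos.le])
      rw [inner_zero_right] at h2
      exact mul_le_mul_of_nonneg_right (by linarith) (D.nonneg hx)
    · exact (B.intOn D.meas (fun x hx => D.abs_le_two hx)).const_mul _
  have h2 := (abs_le.mp (hΛ ψ A.lip')).1
  unfold val
  nlinarith

theorem bddBelow (B : Body K R r x0) (D : Dens K g) (hΛ : Fn R Λ) :
    BddBelow {c | ∃ φ ψ, Adm K R φ ψ ∧ c = val K g Λ φ ψ} := by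
  refine ⟨-(volume.real K * R ^ 2), ?_⟩
  rintro c ⟨φ, ψ, A, rfl⟩
  exact val_lower B D hΛ A

theorem Mf_le (B : Body K R r x0) (D : Dens K g) (hΛ : Fn R Λ) (A : Adm K R φ ψ) :
    Mf K R g Λ ≤ val K g Λ φ ψ :=
  csInf_le (bddBelow B D hΛ) ⟨φ, ψ, A, rfl⟩

theorem le_Mf (B : Body K R r x0) {c : ℝ} (h : ∀ φ ψ, Adm K R φ ψ → c ≤ val K g Λ φ ψ) :
    c ≤ Mf K R g Λ := by
  apply le_csInf
  · obtain ⟨φ, ψ, A⟩ := adm_exists B
    exact ⟨_, φ, ψ, A, rfl⟩
  · rintro _ ⟨φ, ψ, A, rfl⟩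
    exact h φ ψ A

theorem exists_near (B : Body K R r x0) {ε : ℝ} (hε : 0 < ε) :
    ∃ φ ψ, Adm K R φ ψ ∧ val K g Λ φ ψ < Mf K R g Λ + ε := by
  have h := exists_lt_of_csInf_lt (s := {c | ∃ φ ψ, Adm K R φ ψ ∧ c = val K g Λ φ ψ})
    (b := Mf K R g Λ + ε) (by
      obtain ⟨φ, ψ, A⟩ := adm_exists B
      exact ⟨_, φ, ψ, A, rfl⟩) (lt_add_of_pos_right _ hε)
  obtain ⟨_, ⟨φ, ψ, A, rfl⟩, h2⟩ := h
  exact ⟨φ, ψ, A, h2⟩

theorem Mf_mono (B : Body K R r x0) (D : Dens K g) (hΛ : Fn R Λ) {δ : ℝ}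
    (h : ∀ ψ : EuclideanSpace ℝ (Fin d) → ℝ, Lip R ψ → |Λ ψ - Λ' ψ| ≤ δ) :
    Mf K R g Λ ≤ Mf K R g Λ' + volume.real K * δ := by
  have : Mf K R g Λ - volume.real K * δ ≤ Mf K R g Λ' := by
    apply le_Mf B
    intro φ ψ A
    have h1 := Mf_le B D hΛ A
    have h2 := (abs_le.mp (h ψ A.lip')).2
    have hv := B.vol_pos
    unfold val at *
    nlinarith
  linarith

end functional

/-! ### conjugates -/

/-- conjugate function on `K` -/
noncomputable def conj (K : Set (EuclideanSpace ℝ (Fin d))) (φ : EuclideanSpace ℝ (Fin d) → ℝ)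
    (z : EuclideanSpace ℝ (Fin d)) : ℝ := sSup ((fun x => ⟪x, z⟫ - φ x) '' K)

section conj
variable {K : Set (EuclideanSpace ℝ (Fin d))} {R r : ℝ} {x0 : EuclideanSpace ℝ (Fin d)}
  {φ : EuclideanSpace ℝ (Fin d) → ℝ}

theorem conj_bdd (B : Body K R r x0) (h : Lip R φ) (z : EuclideanSpace ℝ (Fin d)) :
    BddAbove ((fun x => ⟪x, z⟫ - φ x) '' K) := by
  refine ⟨R * ‖z‖ - φ 0 + R * R, ?_⟩
  rintro _ ⟨x, hx, rfl⟩
  have h1 := real_inner_le_norm x z
  have h2 := h.le 0 x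
  rw [zero_sub, norm_neg] at h2
  have h3 := B.K_R x hx
  have h4 : ‖x‖ * ‖z‖ ≤ R * ‖z‖ := by gcongr
  have h5 : R * ‖x‖ ≤ R * R := mul_le_mul_of_nonneg_left h3 B.R_pos.le
  show ⟪x, z⟫ - φ x ≤ _
  linarith

theorem le_conj (B : Body K R r x0) (h : Lip R φ) {x : EuclideanSpace ℝ (Fin d)} (hx : x ∈ K)
    (z : EuclideanSpace ℝ (Fin d)) : ⟪x, z⟫ - φ x ≤ conj K φ z :=
  le_csSup (conj_bdd B h z) ⟨x, hx, rfl⟩

theorem conj_le (B : Body K R r x0) {z : EuclideanSpace ℝ (Fin d)} {c : ℝ}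
    (h : ∀ x ∈ K, ⟪x, z⟫ - φ x ≤ c) : conj K φ z ≤ c := by
  apply csSup_le (Set.Nonempty.image _ ⟨x0, B.x0_mem⟩)
  rintro _ ⟨x, hx, rfl⟩
  exact h x hx

theorem adm_conj (B : Body K R r x0) (h : Lip R φ) : Adm K R φ (conj K φ) := by
  refine ⟨h, Lip.of_le fun z z' => ?_, fun x hx y _ => ?_⟩
  · apply conj_le B
    intro x hx
    have h1 := le_conj B h hx z'
    have h2 : ⟪x, z - z'⟫ ≤ R * ‖z - z'‖ := by
      calc _ ≤ ‖x‖ * ‖z - z'‖ := real_inner_le_norm _ _
        _ ≤ _ := by have := B.K_R x hx; gcongr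
    rw [inner_sub_right] at h2
    linarith
  · have := le_conj B h hx y
    linarith

end conj

/-! ### discrete targets -/

/-- the discrete functional -/
noncomputable def disc {ι : Type} [Fintype ι] (w : ι → ℝ) (y : ι → EuclideanSpace ℝ (Fin d))
    (ψ : EuclideanSpace ℝ (Fin d) → ℝ) : ℝ := ∑ i, w i * ψ (y i)

section discrete
variable {ι : Type} [Fintype ι] {K : Set (EuclideanSpace ℝ (Fin d))} {R r : ℝ}
  {x0 : EuclideanSpace ℝ (Fin d)}
  {g : EuclideanSpace ℝ (Fin d) → ℝ} {w : ι → ℝ} {y y' : ι → EuclideanSpace ℝ (Fin d)}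

theorem disc_diff (hR : 0 < R) (hw : ∀ i, 0 < w i) (hw1 : ∑ i, w i = 1) {δ : ℝ}
    (h : ∀ i, ‖y i - y' i‖ ≤ δ) {ψ : EuclideanSpace ℝ (Fin d) → ℝ} (hψ : Lip R ψ) :
    |disc w y ψ - disc w y' ψ| ≤ R * δ := by
  unfold disc
  rw [← Finset.sum_sub_distrib]
  calc _ ≤ ∑ i, |w i * ψ (y i) - w i * ψ (y' i)| := Finset.abs_sum_le_sum_abs _ _
    _ ≤ ∑ i, w i * (R * δ) := by
      apply Finset.sum_le_sum
      intro i _
      rw [← mul_sub, abs_mul, abs_of_pos (hw i)]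
      have h1 := hψ (y i) (y' i)
      have h2 := h i
      have h3 : R * ‖y i - y' i‖ ≤ R * δ := by gcongr
      exact mul_le_mul_of_nonneg_left (h1.trans h3) (hw i).le
    _ = _ := by rw [← Finset.sum_mul, hw1, one_mul]

theorem disc_fn (hR : 0 < R) (hw : ∀ i, 0 < w i) (hw1 : ∑ i, w i = 1) (hy : ∀ i, ‖y i‖ ≤ R) :
    Fn R (disc w y) := by
  intro ψ hψ
  have h1 := disc_diff (y' := fun _ => 0) hR hw hw1 (δ := R) (by simpa using hy) hψ
  have h2 : disc w (fun _ => 0) ψ = ψ 0 := by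
    unfold disc
    rw [← Finset.sum_mul, hw1, one_mul]
  rw [h2] at h1
  calc _ ≤ _ := h1
    _ = _ := by ring

theorem smul_intOn (B : Body K R r x0) (D : Dens K g) {V : Set (EuclideanSpace ℝ (Fin d))}
    (hV : V ⊆ K) : IntegrableOn (fun x => g x • x) V := by
  have : IntegrableOn (fun x => g x • x) K := by
    apply Measure.integrableOn_of_bounded B.vol
      (D.meas.smul measurable_id).aestronglyMeasurable (M := 2 * R)
    filter_upwards [ae_restrict_mem B.meas] with x hx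
    show ‖g x • x‖ ≤ _
    rw [norm_smul, Real.norm_eq_abs]
    have h1 := D.abs_le_two hx
    have h2 := B.K_R x hx
    gcongr
  exact this.mono_set hV

theorem inner_int (B : Body K R r x0) (D : Dens K g) {V : Set (EuclideanSpace ℝ (Fin d))}
    (hV : V ⊆ K) (z : EuclideanSpace ℝ (Fin d)) :
    ⟪∫ x in V, g x • x, z⟫ = ∫ x in V, ⟪x, z⟫ * g x := by
  rw [real_inner_comm, ← integral_inner (smul_intOn B D hV)]
  congr 1
  ext x
  rw [inner_smul_right, real_inner_comm]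
  ring

/-- weak duality for a partition -/
theorem weak_duality (B : Body K R r x0) (D : Dens K g) {V : ι → Set (EuclideanSpace ℝ (Fin d))}
    (hVm : ∀ i, MeasurableSet (V i)) (hVK : ∀ i, V i ⊆ K)
    (hsum : ∀ f : EuclideanSpace ℝ (Fin d) → ℝ, IntegrableOn f K →
      ∑ i, ∫ x in V i, f x = ∫ x in K, f x)
    (hmass : ∀ i, ∫ x in V i, g x = volume.real K * w i)
    (hy : ∀ i, ‖y i‖ ≤ R) :
    ∑ i, ⟪∫ x in V i, g x • x, y i⟫ ≤ Mf K R g (disc w y) := by
  apply le_Mf B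
  intro φ ψ A
  unfold val disc
  rw [← hsum _ (Adm.intOn B D A.lip), Finset.mul_sum, ← Finset.sum_add_distrib]
  apply Finset.sum_le_sum
  intro i _
  rw [inner_int B D (hVK i), ← mul_assoc, ← hmass i]
  have hgi : IntegrableOn g (V i) :=
    (B.intOn D.meas (fun x hx => D.abs_le_two hx)).mono_set (hVK i)
  have hφi := (Adm.intOn B D A.lip).mono_set (hVK i)
  rw [← integral_mul_const, ← integral_add hφi (hgi.mul_const _)]
  apply setIntegral_mono_on _ (hφi.add (hgi.mul_const _)) (hVm i)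
  · intro x hx
    have h1 := A.le x (hVK i hx) (y i) (hy i)
    have h2 := D.nonneg (hVK i hx)
    show ⟪x, y i⟫ * g x ≤ φ x * g x + g x * ψ (y i)
    nlinarith
  · have := (smul_intOn B D (hVK i)).const_inner (𝕜 := ℝ) (y i)
    refine this.congr (Eventually.of_forall fun x => ?_)
    show ⟪y i, g x • x⟫ = _
    rw [inner_smul_right, real_inner_comm]
    ring

/-- Strong duality for a discrete target, with cells. -/
theorem strong_duality [Nonempty ι] (B : Body K R r x0) (D : Dens K g)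
    (hy : ∀ i, ‖y i‖ ≤ R) (hyi : Function.Injective y) (hw : ∀ i, 0 < w i)
    (hw1 : ∑ i, w i = 1) :
    ∃ ψ : ι → ℝ, (∀ i, ∫ x in cell K y ψ i, g x = volume.real K * w i) ∧
      val K g (disc w y) (mx y ψ) (conj K (mx y ψ)) ≤
        ∑ i, ⟪∫ x in cell K y ψ i, g x • x, y i⟫ := by
  obtain ⟨ψ, hψ⟩ := semidiscrete B.meas B.vol B.R_pos B.K_R y hyi hy D.meas D.bd B.vol_pos
    D.mass w hw hw1
  refine ⟨ψ, hψ, ?_⟩
  have hL : Lip R (mx y ψ) := mx_lip hy
  unfold val disc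
  rw [← cell_sum B.meas hyi _ (Adm.intOn B D hL) (ψ := ψ), Finset.mul_sum,
    ← Finset.sum_add_distrib]
  apply Finset.sum_le_sum
  intro i _
  have hVK : cell K y ψ i ⊆ K := cell_sub i
  rw [inner_int B D hVK, ← mul_assoc, ← hψ i]
  have hgi : IntegrableOn g (cell K y ψ i) :=
    (B.intOn D.meas (fun x hx => D.abs_le_two hx)).mono_set hVK
  have hφi := (Adm.intOn B D hL).mono_set hVK
  rw [← integral_mul_const, ← integral_add hφi (hgi.mul_const _)]
  apply setIntegral_mono_on (hφi.add (hgi.mul_const _)) _ (cell_meas B.meas i)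
  · intro x hx
    have h1 : mx y ψ x = ⟪x, y i⟫ - ψ i :=
      le_antisymm (mx_le x hx.2) (le_mx x i)
    have h2 := D.nonneg (hVK hx)
    have h3 : conj K (mx y ψ) (y i) ≤ ψ i := by
      apply conj_le B
      intro z _
      have := le_mx (y := y) (ψ := ψ) z i
      linarith
    show mx y ψ x * g x + g x * conj K (mx y ψ) (y i) ≤ ⟪x, y i⟫ * g x
    rw [h1]
    nlinarith
  · have := (smul_intOn B D hVK).const_inner (𝕜 := ℝ) (y i)
    refine this.congr (Eventually.of_forall fun x => ?_)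
    show ⟪y i, g x • x⟫ = _
    rw [inner_smul_right, real_inner_comm]
    ring

end discrete

end Crest.Agent.H7Fn
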