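import Mathlib
import Crest.Agent.H7Fn

set_option autoImplicit false

/-! The mixed difference bound. -/

namespace Crest.Agent.H7Mix

open MeasureTheory Set Filter
open scoped ENNReal Topology RealInnerProductSpace
open Crest.Agent.H7Key Crest.Agent.H7SD Crest.Agent.H7Fn

variable {d : ℕ}

/-- Cauchy–Schwarz with weights -/
theorem cs_weights {ι : Type} [Fintype ι] (D c : ι → EuclideanSpace ℝ (Fin d)) (μ : ι → ℝ)
    (hμ : ∀ i, 0 < μ i) {A B : ℝ} (hA : ∑ i, ‖D i‖ ^ 2 / μ i ≤ A) (hB : ∑ i, μ i * ‖c i‖ ^ 2 ≤ B)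
    (hB0 : 0 ≤ B) :
    ∑ i, ⟪D i, c i⟫ ≤ Real.sqrt A * Real.sqrt B := by
  have h1 : ∑ i, ⟪D i, c i⟫ ≤ ∑ i, Real.sqrt (‖D i‖ ^ 2 / μ i) * Real.sqrt (μ i * ‖c i‖ ^ 2) := by
    apply Finset.sum_le_sum
    intro i _
    have e : Real.sqrt (‖D i‖ ^ 2 / μ i) * Real.sqrt (μ i * ‖c i‖ ^ 2) = ‖D i‖ * ‖c i‖ := by
      rw [← Real.sqrt_mul (by have := hμ i; positivity)]
      have : ‖D i‖ ^ 2 / μ i * (μ i * ‖c i‖ ^ 2) = (‖D i‖ * ‖c i‖) ^ 2 := by
        have := (hμ i).ne'
        field_simp
      rw [this, Real.sqrt_sq (by positivity)]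
    rw [e]
    exact real_inner_le_norm _ _
  refine h1.trans ?_
  refine (Real.sum_sqrt_mul_sqrt_le Finset.univ (fun i => by have := hμ i; positivity)
    (fun i => by have := hμ i; positivity)).trans ?_
  gcongr

section
variable {ι : Type} [Fintype ι] [Nonempty ι] {K : Set (EuclideanSpace ℝ (Fin d))} {R r : ℝ}
  {x0 : EuclideanSpace ℝ (Fin d)}
  {g : EuclideanSpace ℝ (Fin d) → ℝ} {w : ι → ℝ} {a b : ι → EuclideanSpace ℝ (Fin d)}

/-- the data at one configuration -/
theorem at_config (B : Body K R r x0) (D : Dens K g) {y : ι → EuclideanSpace ℝ (Fin d)}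
    (hy : ∀ i, ‖y i‖ ≤ R) (hyi : Function.Injective y) (hw : ∀ i, 0 < w i)
    (hw1 : ∑ i, w i = 1) :
    ∃ P P' : ι → EuclideanSpace ℝ (Fin d),
      (∀ y' : ι → EuclideanSpace ℝ (Fin d), (∀ i, ‖y' i‖ ≤ R) →
        ∑ i, ⟪P i, y' i⟫ ≤ Mf K R (fun _ => 1) (disc w y')) ∧
      (Mf K R (fun _ => 1) (disc w y) ≤ ∑ i, ⟪P i, y i⟫) ∧
      (∀ y' : ι → EuclideanSpace ℝ (Fin d), (∀ i, ‖y' i‖ ≤ R) →
        ∑ i, ⟪P' i, y' i⟫ ≤ Mf K R g (disc w y')) ∧
      (Mf K R g (disc w y) ≤ ∑ i, ⟪P' i, y i⟫) ∧
      (∑ i, ‖P i - P' i‖ ^ 2 / (volume.real K * w i) ≤ 4000000 * R ^ 2 * ∫ x in K, (g x - 1) ^ 2)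
      ∧ (∀ i, ‖P i‖ ≤ R * (volume.real K * w i)) := by
  obtain ⟨ψ, hm, hv⟩ := strong_duality B (Dens.one K) hy hyi hw hw1
  obtain ⟨ψ', hm', hv'⟩ := strong_duality B D hy hyi hw hw1
  refine ⟨fun i => ∫ x in cell K y ψ i, (1 : ℝ) • x, fun i => ∫ x in cell K y ψ' i, g x • x,
    ?_, ?_, ?_, ?_, ?_, ?_⟩
  · intro y' hy'
    exact weak_duality B (Dens.one K) (fun i => cell_meas B.meas i) (fun i => cell_sub i)
      (fun f hf => cell_sum B.meas hyi f hf) hm hy'
  · exact (Mf_le B (Dens.one K) (disc_fn B.R_pos hw hw1 hy)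
      (adm_conj B (mx_lip hy))).trans hv
  · intro y' hy'
    exact weak_duality B D (fun i => cell_meas B.meas i) (fun i => cell_sub i)
      (fun f hf => cell_sum B.meas hyi f hf) hm' hy'
  · exact (Mf_le B D (disc_fn B.R_pos hw hw1 hy)
      (adm_conj B (mx_lip hy))).trans hv'
  · have C : Cells K R g (cell K y ψ) (cell K y ψ') (cell K y (fun j => (ψ j + ψ' j) / 2))
        (fun i => volume.real K * w i) :=
      { R_pos := B.R_pos
        K_meas := B.meas
        K_vol := B.vol
        K_R := B.K_R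
        V_meas := fun i => cell_meas B.meas i
        V'_meas := fun i => cell_meas B.meas i
        W_meas := fun i => cell_meas B.meas i
        V_sub := fun i => cell_sub i
        V'_sub := fun i => cell_sub i
        W_sub := fun i => cell_sub i
        mid := fun i x hx y hy => cell_mid B.convex i hx hy
        g_meas := D.meas
        g_bd := D.bd
        μ_pos := fun i => mul_pos B.vol_pos (hw i)
        mass := hm
        mass' := hm'
        sumV := fun f hf => cell_sum B.meas hyi f hf
        sumV' := fun f hf => cell_sum B.meas hyi f hf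
        sumW := fun f hf => cell_sum B.meas hyi f hf }
    have := C.key_estimate
    simpa only [one_smul] using this
  · intro i
    have h1 : ‖∫ x in cell K y ψ i, (1 : ℝ) • x‖ ≤ ∫ x in cell K y ψ i, R * 1 := by
      refine (norm_integral_le_integral_norm _).trans ?_
      apply setIntegral_mono_on (smul_intOn B (Dens.one K) (cell_sub i)).norm _
        (cell_meas B.meas i)
      · intro x hx
        rw [norm_smul, norm_one, one_mul, mul_one]
        exact B.K_R x hx.1
      · exact ((B.intOn measurable_const (C := 1) (fun x _ => by norm_num)).mono_set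
          (cell_sub i)).const_mul _
    rw [integral_const_mul, hm i] at h1
    exact h1

/-- The mixed difference bound for discrete targets. -/
theorem mixed_disc (B : Body K R r x0) (D : Dens K g)
    (ha : ∀ i, ‖a i‖ ≤ R) (hb : ∀ i, ‖b i‖ ≤ R) (hab : ∀ i j, a i = a j → b i = b j → i = j)
    (hw : ∀ i, 0 < w i) (hw1 : ∑ i, w i = 1) :
    (Mf K R (fun _ => 1) (disc w b) - Mf K R (fun _ => 1) (disc w a))
      - (Mf K R g (disc w b) - Mf K R g (disc w a)) ≤
    Real.sqrt (4000000 * R ^ 2 * ∫ x in K, (g x - 1) ^ 2) *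
      Real.sqrt (volume.real K * ∑ i, w i * ‖b i - a i‖ ^ 2) := by
  set A : ℝ := Real.sqrt (4000000 * R ^ 2 * ∫ x in K, (g x - 1) ^ 2) *
      Real.sqrt (volume.real K * ∑ i, w i * ‖b i - a i‖ ^ 2) with hA
  have hA0 : 0 ≤ A := by positivity
  have hR := B.R_pos
  have hv := B.vol_pos
  set v := volume.real K
  set c : ι → EuclideanSpace ℝ (Fin d) := fun i => b i - a i with hc
  have hcb : ∀ i, ‖c i‖ ≤ 2 * R := fun i => by
    calc ‖b i - a i‖ ≤ ‖b i‖ + ‖a i‖ := norm_sub_le _ _
      _ ≤ _ := by linarith [ha i, hb i]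
  have key : ∀ N : ℕ, (Mf K R (fun _ => 1) (disc w b) - Mf K R (fun _ => 1) (disc w a))
      - (Mf K R g (disc w b) - Mf K R g (disc w a)) ≤ A + 12 * R ^ 2 * v / (N + 1) := by
    intro N
    have hN1 : (0 : ℝ) < N + 1 := by positivity
    -- choose a generic offset
    have hbad : (⋃ (k : Fin (N + 1)) (p : ι × ι) (_ : p.1 ≠ p.2),
        {θ : ℝ | a p.1 + ((k + θ) / (N + 1)) • c p.1 = a p.2 + ((k + θ) / (N + 1)) • c p.2}).Finite := by
      apply Set.finite_iUnion
      intro k
      apply Set.finite_iUnion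
      intro p
      apply Set.finite_iUnion
      intro hp
      apply Set.Subsingleton.finite
      intro θ hθ θ' hθ'
      by_contra hne
      have h1 : a p.1 + ((k + θ) / (N + 1)) • c p.1 = a p.2 + ((k + θ) / (N + 1)) • c p.2 := hθ
      have h2 : a p.1 + ((k + θ') / (N + 1)) • c p.1 = a p.2 + ((k + θ') / (N + 1)) • c p.2 := hθ'
      have h3 : ((k + θ) / (N + 1) - (k + θ') / (N + 1) : ℝ) • (c p.1 - c p.2) = 0 := by
        have := congrArg₂ (fun x y => x - y) h1 h2
        rw [sub_smul, smul_sub _ (c p.1) (c p.2), smul_sub _ (c p.1) (c p.2)]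
        have e : ∀ (x y z w u v : EuclideanSpace ℝ (Fin d)), x + y - (x + z) = w + u - (w + v) →
            y - u - (z - v) = 0 := by
          intro x y z w u v h
          have : y - z = u - v := by
            have h' : x + y - (x + z) = y - z := by abel
            have h'' : w + u - (w + v) = u - v := by abel
            rw [h', h''] at h; exact h
          have : y - u - (z - v) = (y - z) - (u - v) := by abel
          rw [this]; rw [‹y - z = u - v›]; simp
        exact e _ _ _ _ _ _ this
      have h4 : ((k + θ) / (N + 1) - (k + θ') / (N + 1) : ℝ) ≠ 0 := by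
        rw [← sub_div]
        apply div_ne_zero _ hN1.ne'
        intro h
        apply hne
        linarith
      have h5 : c p.1 = c p.2 := by
        rcases smul_eq_zero.mp h3 with h | h
        · exact absurd h h4
        · exact sub_eq_zero.mp h
      rw [h5] at h1
      have h6 : a p.1 = a p.2 := add_right_cancel h1
      have h7 : b p.1 = b p.2 := by
        have : b p.1 - a p.1 = b p.2 - a p.2 := h5
        rw [h6] at this
        exact sub_left_injective this
      exact hp (hab _ _ h6 h7)
    obtain ⟨θ, hθ, hθbad⟩ : ∃ θ : ℝ, θ ∈ Ioo (0 : ℝ) 1 ∧ θ ∉ (⋃ (k : Fin (N + 1)) (p : ι × ι)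
        (_ : p.1 ≠ p.2),
        {θ : ℝ | a p.1 + ((k + θ) / (N + 1)) • c p.1 = a p.2 + ((k + θ) / (N + 1)) • c p.2}) := by
      have hinf : (Ioo (0 : ℝ) 1).Infinite := Ioo_infinite one_pos
      obtain ⟨θ, h1, h2⟩ := (hinf.sdiff hbad).nonempty
      exact ⟨θ, h1, h2⟩
    set t : ℕ → ℝ := fun k => (k + θ) / (N + 1) with ht
    set y : ℕ → ι → EuclideanSpace ℝ (Fin d) := fun k i => a i + t k • c i with hydef
    have ht0 : ∀ k, 0 ≤ t k := fun k => by
      simp only [ht]; have := hθ.1; positivity
    have ht1 : ∀ k, k ≤ N → t k ≤ 1 := fun k hk => by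
      simp only [ht]
      rw [div_le_one hN1]
      have : (k : ℝ) ≤ N := by exact_mod_cast hk
      linarith [hθ.2]
    have hyR : ∀ k, k ≤ N → ∀ i, ‖y k i‖ ≤ R := by
      intro k hk i
      have e : y k i = (1 - t k) • a i + t k • b i := by
        simp only [hydef, hc]
        rw [smul_sub, sub_smul, one_smul]; abel
      rw [e]
      calc _ ≤ ‖(1 - t k) • a i‖ + ‖t k • b i‖ := norm_add_le _ _
        _ = (1 - t k) * ‖a i‖ + t k * ‖b i‖ := by
          rw [norm_smul, norm_smul, Real.norm_of_nonneg (by linarith [ht1 k hk]),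
            Real.norm_of_nonneg (ht0 k)]
        _ ≤ (1 - t k) * R + t k * R := by
          have h1 : 0 ≤ 1 - t k := by linarith [ht1 k hk]
          have h2 := ht0 k
          have h3 := ha i
          have h4 := hb i
          gcongr
        _ = R := by ring
    have hyinj : ∀ k, k ≤ N → Function.Injective (y k) := by
      intro k hk i j hij
      by_contra hne
      apply hθbad
      simp only [mem_iUnion]
      refine ⟨⟨k, by omega⟩, (i, j), hne, ?_⟩
      exact hij
    choose! P P' hP1 hP2 hP'1 hP'2 hPP hPb using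
      fun (k : ℕ) (hk : k ≤ N) => at_config B D (hyR k hk) (hyinj k hk) hw hw1
    set m : ℕ → ℝ := fun k => Mf K R (fun _ => 1) (disc w (y k)) with hm
    set m' : ℕ → ℝ := fun k => Mf K R g (disc w (y k)) with hm'
    set q : ℕ → ℝ := fun k => ∑ i, ⟪P k i, c i⟫ with hq
    set q' : ℕ → ℝ := fun k => ∑ i, ⟪P' k i, c i⟫ with hq'
    have hystep : ∀ k i, y (k + 1) i = y k i + (1 / (N + 1) : ℝ) • c i := by
      intro k i
      simp only [hydef, ht]
      rw [add_assoc, ← add_smul]
      congr 2
      push_cast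
      field_simp
      ring
    have step1 : ∀ k, k + 1 ≤ N → m (k + 1) - m k ≤ q (k + 1) / (N + 1) := by
      intro k hk
      have h1 := hP2 (k + 1) hk
      have h2 := hP1 (k + 1) hk (y k) (hyR k (by omega))
      have h3 : ∑ i, ⟪P (k + 1) i, y (k + 1) i⟫ = ∑ i, ⟪P (k + 1) i, y k i⟫ + q (k + 1) / (N + 1) := by
        simp only [hq]
        rw [Finset.sum_div, ← Finset.sum_add_distrib]
        apply Finset.sum_congr rfl
        intro i _
        rw [hystep, inner_add_right, inner_smul_right]
        ring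
      simp only [hm]
      linarith
    have step2 : ∀ k, k + 1 ≤ N → q' k / (N + 1) ≤ m' (k + 1) - m' k := by
      intro k hk
      have h1 := hP'2 k (by omega)
      have h2 := hP'1 k (by omega) (y (k + 1)) (hyR (k + 1) hk)
      have h3 : ∑ i, ⟪P' k i, y (k + 1) i⟫ = ∑ i, ⟪P' k i, y k i⟫ + q' k / (N + 1) := by
        simp only [hq']
        rw [Finset.sum_div, ← Finset.sum_add_distrib]
        apply Finset.sum_congr rfl
        intro i _
        rw [hystep, inner_add_right, inner_smul_right]
        ring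
      simp only [hm']
      linarith
    have step3 : ∀ k, k ≤ N → q k - q' k ≤ A := by
      intro k hk
      have h1 : q k - q' k = ∑ i, ⟪P k i - P' k i, c i⟫ := by
        simp only [hq, hq']
        rw [← Finset.sum_sub_distrib]
        apply Finset.sum_congr rfl
        intro i _
        rw [inner_sub_left]
      rw [h1]
      apply cs_weights _ _ (fun i => v * w i) (fun i => mul_pos hv (hw i)) (hPP k hk)
      · rw [Finset.mul_sum]
        apply le_of_eq
        apply Finset.sum_congr rfl
        intro i _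
        ring
      · apply mul_nonneg hv.le
        exact Finset.sum_nonneg (fun i _ => mul_nonneg (hw i).le (by positivity))
    have hqb : ∀ k, k ≤ N → |q k| ≤ 2 * R ^ 2 * v := by
      intro k hk
      simp only [hq]
      calc _ ≤ ∑ i, |⟪P k i, c i⟫| := Finset.abs_sum_le_sum_abs _ _
        _ ≤ ∑ i, (R * (v * w i)) * (2 * R) := by
          apply Finset.sum_le_sum
          intro i _
          refine (abs_real_inner_le_norm _ _).trans ?_
          have h1 := hPb k hk i
          have h2 := hcb i
          exact mul_le_mul h1 h2 (norm_nonneg _) (by have := hw i; positivity)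
        _ = 2 * R ^ 2 * v * ∑ i, w i := by
          rw [Finset.mul_sum]
          apply Finset.sum_congr rfl
          intro i _
          ring
        _ = _ := by rw [hw1, mul_one]
    have tele : (m N - m 0) - (m' N - m' 0) ≤ A + 4 * R ^ 2 * v / (N + 1) := by
      have h1 : ∀ n, n ≤ N → (m n - m 0) - (m' n - m' 0) ≤ n * (A / (N + 1)) + (q n - q 0) / (N + 1) := by
        intro n
        induction n with
        | zero => intro _; simp
        | succ n ih =>
          intro hn
          have h2 := ih (by omega)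
          have h3 := step1 n hn
          have h4 := step2 n hn
          have h5 := step3 n (by omega)
          have h6 : (q n - q' n) / (N + 1) ≤ A / (N + 1) := by gcongr
          rw [sub_div] at h6 h2
          rw [sub_div]
          push_cast
          nlinarith
      have h2 := h1 N le_rfl
      have h3 : (N : ℝ) * (A / (N + 1)) ≤ A := by
        rw [mul_div_assoc', div_le_iff₀ hN1]
        nlinarith
      have h4 : (q N - q 0) / (N + 1) ≤ 4 * R ^ 2 * v / (N + 1) := by
        have h5 := (abs_le.mp (hqb N le_rfl)).2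
        have h6 := (abs_le.mp (hqb 0 (Nat.zero_le _))).1
        gcongr
        linarith
      linarith
    -- end pieces
    have hend : ∀ (z z' : ι → EuclideanSpace ℝ (Fin d)), (∀ i, ‖z i‖ ≤ R) →
        (∀ i, ‖z i - z' i‖ ≤ 2 * R / (N + 1)) → ∀ h, Dens K h →
        Mf K R h (disc w z) ≤ Mf K R h (disc w z') + 2 * R ^ 2 * v / (N + 1) := by
      intro z z' hz hzz h Dh
      have := Mf_mono (Λ' := disc w z') B Dh (disc_fn hR hw hw1 hz) (δ := R * (2 * R / (N + 1)))
        (fun ψ hψ => disc_diff hR hw hw1 hzz hψ)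
      refine this.trans (le_of_eq ?_)
      ring
    have hbN : ∀ i, ‖b i - y N i‖ ≤ 2 * R / (N + 1) := by
      intro i
      have e : b i - y N i = ((1 - θ) / (N + 1) : ℝ) • c i := by
        have : ((1 - θ) / (N + 1) : ℝ) = 1 - t N := by
          simp only [ht]; field_simp; ring
        rw [this, sub_smul, one_smul]
        simp only [hydef, hc]
        abel
      rw [e, norm_smul, Real.norm_of_nonneg (div_nonneg (by linarith [hθ.2]) hN1.le)]
      rw [div_mul_eq_mul_div]
      have h1 := hcb i
      have h2 : 0 ≤ 1 - θ := by linarith [hθ.2]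
      have h3 : (1 - θ) * ‖c i‖ ≤ 2 * R := by
        calc _ ≤ 1 * (2 * R) := by
              apply mul_le_mul _ h1 (norm_nonneg _) zero_le_one
              linarith [hθ.1]
          _ = _ := one_mul _
      gcongr
    have ha0 : ∀ i, ‖a i - y 0 i‖ ≤ 2 * R / (N + 1) := by
      intro i
      have e : a i - y 0 i = -((θ / (N + 1) : ℝ) • c i) := by
        simp only [hydef, ht, Nat.cast_zero, zero_add]
        abel
      rw [e, norm_neg, norm_smul, Real.norm_of_nonneg (div_nonneg hθ.1.le hN1.le),
        div_mul_eq_mul_div]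
      have h1 := hcb i
      have h3 : θ * ‖c i‖ ≤ 2 * R := by
        calc _ ≤ 1 * (2 * R) := by
              apply mul_le_mul hθ.2.le h1 (norm_nonneg _) zero_le_one
          _ = _ := one_mul _
      gcongr
    have e1 := hend b (y N) hb hbN _ (Dens.one K)
    have e2 := hend (y 0) a (hyR 0 (Nat.zero_le _)) (fun i => by rw [norm_sub_rev]; exact ha0 i) _
      (Dens.one K)
    have e3 := hend (y N) b (hyR N le_rfl) (fun i => by rw [norm_sub_rev]; exact hbN i) g D
    have e4 := hend a (y 0) ha ha0 g D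
    have e5 : A + 12 * R ^ 2 * v / (N + 1) = A + 4 * R ^ 2 * v / (N + 1)
      + 4 * (2 * R ^ 2 * v / (N + 1)) := by ring
    rw [e5]
    simp only [hm, hm'] at tele
    linarith
  have hlim : Tendsto (fun N : ℕ => A + 12 * R ^ 2 * v / ((N : ℝ) + 1)) atTop (𝓝 (A + 0)) := by
    apply Tendsto.const_add
    exact tendsto_const_div_atTop_nhds_zero_nat (12 * R ^ 2 * v) |>.comp (tendsto_add_atTop_nat 1)
      |>.congr (fun n => by simp)
  rw [add_zero] at hlim
  exact ge_of_tendsto' hlim key

end

end Crest.Agent.H7Mix
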