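import Mathlib
import Crest.Agent.H7Mix

set_option autoImplicit false

/-! Quantisation of measures and the mixed difference bound for couplings. -/

namespace Crest.Agent.H7Gen

open MeasureTheory Set Filter
open scoped ENNReal Topology RealInnerProductSpace
open Crest.Agent.H7Key Crest.Agent.H7SD Crest.Agent.H7Fn Crest.Agent.H7Mix

variable {d : ℕ}

theorem quantise {X : Type} [MetricSpace X] [MeasurableSpace X] [OpensMeasurableSpace X]
    (π : Measure X) [IsProbabilityMeasure π] {S : Set X} (hS : IsCompact S) (hSn : S.Nonempty)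
    {ε : ℝ} (hε : 0 < ε) :
    ∃ (ι : Type) (_ : Fintype ι) (_ : Nonempty ι) (p : ι → X) (w : ι → ℝ) (q : X → X),
      Measurable q ∧ (∀ x, q x ∈ S) ∧ (∀ x ∈ S, dist (q x) x ≤ ε) ∧ (∀ i, p i ∈ S) ∧
      Function.Injective p ∧ (∀ i, 0 < w i) ∧ ∑ i, w i = 1 ∧
      (∀ i, MeasurableSet (q ⁻¹' {p i})) ∧ (∀ i, π.real (q ⁻¹' {p i}) = w i) ∧
      ∀ F : X → ℝ, ∑ i, w i * F (p i) = ∫ x, F (q x) ∂π := by
  classical
  obtain ⟨t, htS, htf, hcov⟩ := hS.finite_cover_balls hε
  have htn : t.Nonempty := by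
    obtain ⟨x, hx⟩ := hSn
    have := hcov hx
    simp only [mem_iUnion] at this
    obtain ⟨i, hi, _⟩ := this
    exact ⟨i, hi⟩
  -- enumerate
  obtain ⟨z, hz⟩ := htn
  have hfin : Finite t := htf
  obtain ⟨N, ⟨e'⟩⟩ := Finite.exists_equiv_fin t
  set e : ℕ → X := fun n => if h : n < N then (e'.symm ⟨n, h⟩ : t) else z with he
  have het : ∀ n, e n ∈ t := by
    intro n
    simp only [he]
    split_ifs with h
    · exact (e'.symm ⟨n, h⟩).2
    · exact hz
  have hesurj : ∀ x ∈ t, ∃ n ≤ N, e n = x := by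
    intro x hx
    refine ⟨(e' ⟨x, hx⟩ : Fin N), (e' ⟨x, hx⟩).2.le, ?_⟩
    simp only [he]
    rw [dif_pos (e' ⟨x, hx⟩).2]
    simp
  set q : SimpleFunc X X := SimpleFunc.nearestPt e N with hq
  have hqt : ∀ x, q x ∈ t := by
    intro x
    rw [hq]
    show e _ ∈ t
    exact het _
  have hqd : ∀ x ∈ S, dist (q x) x ≤ ε := by
    intro x hx
    have := hcov hx
    simp only [mem_iUnion] at this
    obtain ⟨y, hy, hxy⟩ := this
    obtain ⟨n, hn, rfl⟩ := hesurj y hy
    have h1 := SimpleFunc.edist_nearestPt_le e x hn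
    rw [edist_dist, edist_dist, ENNReal.ofReal_le_ofReal_iff dist_nonneg] at h1
    refine h1.trans ?_
    rw [dist_comm]
    exact (Metric.mem_ball.mp hxy).le
  set s : Finset X := q.range.filter (fun c => 0 < π.real (q ⁻¹' {c})) with hs
  have hmeas : ∀ c : X, MeasurableSet (q ⁻¹' {c}) := fun c => q.measurableSet_fiber c
  have hF : ∀ F : X → ℝ, ∑ c ∈ s, π.real (q ⁻¹' {c}) * F c = ∫ x, F (q x) ∂π := by
    intro F
    have h1 : ∀ x, F (q x) = ∑ c ∈ q.range, (q ⁻¹' {c}).indicator (fun _ => F c) x := by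
      intro x
      rw [Finset.sum_eq_single (q x)]
      · rw [indicator_of_mem]; rfl
      · intro c _ hc
        rw [indicator_of_notMem]
        intro h
        exact hc (h : q x = c).symm
      · intro h
        exact absurd (SimpleFunc.mem_range_self q x) h
    have h2 : ∫ x, F (q x) ∂π = ∑ c ∈ q.range, π.real (q ⁻¹' {c}) * F c := by
      simp_rw [h1]
      rw [integral_finset_sum]
      · apply Finset.sum_congr rfl
        intro c _
        rw [integral_indicator_const _ (hmeas c), smul_eq_mul]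
      · intro c _
        exact (integrable_const (F c)).indicator (hmeas c)
    rw [h2, hs, Finset.sum_filter]
    apply Finset.sum_congr rfl
    intro c _
    split_ifs with h
    · rfl
    · have : π.real (q ⁻¹' {c}) = 0 := le_antisymm (not_lt.mp h) measureReal_nonneg
      rw [this, zero_mul]
  have hone : ∑ c ∈ s, π.real (q ⁻¹' {c}) = 1 := by
    have := hF (fun _ => 1)
    simpa using this
  have hsn : s.Nonempty := by
    rw [Finset.nonempty_iff_ne_empty]
    intro h
    rw [h, Finset.sum_empty] at hone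
    exact zero_ne_one hone
  refine ⟨s, inferInstance, ⟨⟨hsn.choose, hsn.choose_spec⟩⟩, fun c => c.1,
    fun c => π.real (q ⁻¹' {c.1}), q, q.measurable, fun x => htS (hqt x), hqd, ?_,
    Subtype.val_injective, ?_, ?_, fun c => hmeas _, fun c => rfl, ?_⟩
  · rintro ⟨c, hc⟩
    rw [hs, Finset.mem_filter] at hc
    obtain ⟨x, hx⟩ := SimpleFunc.mem_range.mp hc.1
    show c ∈ S
    rw [← hx]
    exact htS (hqt x)
  · rintro ⟨c, hc⟩
    rw [hs, Finset.mem_filter] at hc
    exact hc.2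
  · rw [← hone]
    exact Finset.sum_coe_sort s (fun c => π.real (q ⁻¹' {c}))
  · intro F
    rw [← hF F]
    exact Finset.sum_coe_sort s (fun c => π.real (q ⁻¹' {c}) * F c)

/-- functional of a measure -/
noncomputable def meas (μ : Measure (EuclideanSpace ℝ (Fin d)))
    (ψ : EuclideanSpace ℝ (Fin d) → ℝ) : ℝ := ∫ y, ψ y ∂μ

theorem lip_integrable {X : Type} [MeasurableSpace X] (π : Measure X)
    [IsProbabilityMeasure π] {f : X → EuclideanSpace ℝ (Fin d)} (hf : Measurable f) {R : ℝ}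
    (hR : 0 < R) (hb : ∀ᵐ x ∂π, ‖f x‖ ≤ R)
    {ψ : EuclideanSpace ℝ (Fin d) → ℝ} (hψ : Lip R ψ) : Integrable (fun x => ψ (f x)) π := by
  apply Integrable.of_bound (hψ.continuous.measurable.comp hf).aestronglyMeasurable (|ψ 0| + R * R)
  filter_upwards [hb] with x hx
  show |ψ (f x)| ≤ _
  have h1 := hψ (f x) 0
  rw [sub_zero] at h1
  have h2 : |ψ (f x)| ≤ |ψ 0| + |ψ (f x) - ψ 0| := by
    calc |ψ (f x)| = |ψ 0 + (ψ (f x) - ψ 0)| := by congr 1; ring
      _ ≤ _ := abs_add_le _ _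
  have h3 : R * ‖f x‖ ≤ R * R := by gcongr
  linarith

theorem int_lip_diff {X : Type} [MeasurableSpace X] (π : Measure X)
    [IsProbabilityMeasure π] {f f' : X → EuclideanSpace ℝ (Fin d)} (hf : Measurable f)
    (hf' : Measurable f') {R δ : ℝ}
    (hR : 0 < R) (hb : ∀ᵐ x ∂π, ‖f x‖ ≤ R) (hb' : ∀ᵐ x ∂π, ‖f' x‖ ≤ R)
    (hd : ∀ᵐ x ∂π, ‖f x - f' x‖ ≤ δ)
    {ψ : EuclideanSpace ℝ (Fin d) → ℝ} (hψ : Lip R ψ) :
    |∫ x, ψ (f x) ∂π - ∫ x, ψ (f' x) ∂π| ≤ R * δ := by
  rw [← integral_sub (lip_integrable π hf hR hb hψ) (lip_integrable π hf' hR hb' hψ)]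
  have : ∀ᵐ x ∂π, ‖ψ (f x) - ψ (f' x)‖ ≤ R * δ := by
    filter_upwards [hd] with x hx
    rw [Real.norm_eq_abs]
    refine (hψ _ _).trans ?_
    gcongr
  have h2 := norm_integral_le_of_norm_le_const this
  simpa using h2

theorem meas_fn (μ : Measure (EuclideanSpace ℝ (Fin d))) [IsProbabilityMeasure μ] {R : ℝ}
    (hR : 0 < R) (hb : ∀ᵐ y ∂μ, ‖y‖ ≤ R) : Fn R (meas μ) := by
  intro ψ hψ
  have := int_lip_diff μ (f := fun y => y) (f' := fun _ => 0) measurable_id measurable_const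
    (δ := R) hR hb (by filter_upwards with x; simp [hR.le]) (by simpa using hb) hψ
  unfold meas
  simp only [integral_const, probReal_univ, one_smul] at this
  rw [sq]
  exact this

/-- mixed difference bound for a coupling -/
theorem mixed {K : Set (EuclideanSpace ℝ (Fin d))} {R r : ℝ} {x0 : EuclideanSpace ℝ (Fin d)}
    (B : Body K R r x0) {g : EuclideanSpace ℝ (Fin d) → ℝ} (D : Dens K g)
    (π : Measure (EuclideanSpace ℝ (Fin d) × EuclideanSpace ℝ (Fin d))) [IsProbabilityMeasure π]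
    (h1 : ∀ᵐ p ∂π, ‖p.1‖ ≤ R) (h2 : ∀ᵐ p ∂π, ‖p.2‖ ≤ R) :
    (Mf K R (fun _ => 1) (meas (π.map Prod.snd)) - Mf K R (fun _ => 1) (meas (π.map Prod.fst)))
      - (Mf K R g (meas (π.map Prod.snd)) - Mf K R g (meas (π.map Prod.fst))) ≤
    Real.sqrt (4000000 * R ^ 2 * ∫ x in K, (g x - 1) ^ 2) *
      Real.sqrt (volume.real K * ∫ p, ‖p.2 - p.1‖ ^ 2 ∂π) := by
  have hR := B.R_pos
  have hv := B.vol_pos
  set v := volume.real K with hvdef
  set A := Real.sqrt (4000000 * R ^ 2 * ∫ x in K, (g x - 1) ^ 2) with hA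
  set c := ∫ p, ‖p.2 - p.1‖ ^ 2 ∂π with hc
  have hfst : ∀ ψ : EuclideanSpace ℝ (Fin d) → ℝ, Lip R ψ →
      meas (π.map Prod.fst) ψ = ∫ p, ψ p.1 ∂π := fun ψ hψ => by
    unfold meas
    rw [integral_map measurable_fst.aemeasurable hψ.continuous.aestronglyMeasurable]
  have hsnd : ∀ ψ : EuclideanSpace ℝ (Fin d) → ℝ, Lip R ψ →
      meas (π.map Prod.snd) ψ = ∫ p, ψ p.2 ∂π := fun ψ hψ => by
    unfold meas
    rw [integral_map measurable_snd.aemeasurable hψ.continuous.aestronglyMeasurable]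
  haveI : IsProbabilityMeasure (π.map Prod.fst) := Measure.isProbabilityMeasure_map measurable_fst.aemeasurable
  haveI : IsProbabilityMeasure (π.map Prod.snd) := Measure.isProbabilityMeasure_map measurable_snd.aemeasurable
  have hF0 : Fn R (meas (π.map Prod.fst)) := by
    apply meas_fn _ hR
    rw [ae_map_iff measurable_fst.aemeasurable (by measurability)]
    exact h1
  have hF1 : Fn R (meas (π.map Prod.snd)) := by
    apply meas_fn _ hR
    rw [ae_map_iff measurable_snd.aemeasurable (by measurability)]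
    exact h2
  have key : ∀ ε : ℝ, 0 < ε →
      (Mf K R (fun _ => 1) (meas (π.map Prod.snd)) - Mf K R (fun _ => 1) (meas (π.map Prod.fst)))
      - (Mf K R g (meas (π.map Prod.snd)) - Mf K R g (meas (π.map Prod.fst))) ≤
      A * Real.sqrt (v * (c + 8 * R * ε)) + 4 * v * (R * ε) := by
    intro ε hε
    set S : Set (EuclideanSpace ℝ (Fin d) × EuclideanSpace ℝ (Fin d)) :=
      Metric.closedBall 0 R ×ˢ Metric.closedBall 0 R with hS
    have hSc : IsCompact S := (isCompact_closedBall 0 R).prod (isCompact_closedBall 0 R)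
    have hSn : S.Nonempty := ⟨(0, 0), by simp [hS, hR.le]⟩
    have hmemS : ∀ p, p ∈ S ↔ ‖p.1‖ ≤ R ∧ ‖p.2‖ ≤ R := by
      intro p; simp [hS, Set.mem_prod]
    obtain ⟨ι, _, _, p, w, q, hqm, hqS, hqd, hpS, hpinj, hw, hw1, -, -, hF⟩ :=
      quantise π hSc hSn hε
    have hπS : ∀ᵐ x ∂π, x ∈ S := by
      filter_upwards [h1, h2] with x hx1 hx2
      exact (hmemS x).mpr ⟨hx1, hx2⟩
    have hqb : ∀ x, ‖(q x).1‖ ≤ R ∧ ‖(q x).2‖ ≤ R := fun x => (hmemS _).mp (hqS x)
    have hqc : ∀ᵐ x ∂π, ‖x.1 - (q x).1‖ ≤ ε ∧ ‖x.2 - (q x).2‖ ≤ ε := by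
      filter_upwards [hπS] with x hx
      have := hqd x hx
      rw [dist_comm, Prod.dist_eq, max_le_iff, dist_eq_norm, dist_eq_norm] at this
      exact this
    set a : ι → EuclideanSpace ℝ (Fin d) := fun i => (p i).1 with ha
    set b : ι → EuclideanSpace ℝ (Fin d) := fun i => (p i).2 with hb
    have haR : ∀ i, ‖a i‖ ≤ R := fun i => ((hmemS _).mp (hpS i)).1
    have hbR : ∀ i, ‖b i‖ ≤ R := fun i => ((hmemS _).mp (hpS i)).2
    have hab : ∀ i j, a i = a j → b i = b j → i = j := fun i j h h' =>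
      hpinj (Prod.ext h h')
    have hmix := mixed_disc B D haR hbR hab hw hw1
    have hd0 : ∀ ψ : EuclideanSpace ℝ (Fin d) → ℝ, Lip R ψ →
        |meas (π.map Prod.fst) ψ - disc w a ψ| ≤ R * ε := by
      intro ψ hψ
      rw [hfst ψ hψ]
      have e : disc w a ψ = ∫ x, ψ (q x).1 ∂π := hF (fun x => ψ x.1)
      rw [e]
      exact int_lip_diff π measurable_fst (measurable_fst.comp hqm) hR h1
        (Eventually.of_forall fun x => (hqb x).1) (hqc.mono fun x hx => hx.1) hψ
    have hd1 : ∀ ψ : EuclideanSpace ℝ (Fin d) → ℝ, Lip R ψ →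
        |meas (π.map Prod.snd) ψ - disc w b ψ| ≤ R * ε := by
      intro ψ hψ
      rw [hsnd ψ hψ]
      have e : disc w b ψ = ∫ x, ψ (q x).2 ∂π := hF (fun x => ψ x.2)
      rw [e]
      exact int_lip_diff π measurable_snd (measurable_snd.comp hqm) hR h2
        (Eventually.of_forall fun x => (hqb x).2) (hqc.mono fun x hx => hx.2) hψ
    have hcost : ∑ i, w i * ‖b i - a i‖ ^ 2 ≤ c + 8 * R * ε := by
      have e : ∑ i, w i * ‖b i - a i‖ ^ 2 = ∫ x, ‖(q x).2 - (q x).1‖ ^ 2 ∂π :=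
        hF (fun x => ‖x.2 - x.1‖ ^ 2)
      rw [e]
      have hi1 : Integrable (fun x => ‖(q x).2 - (q x).1‖ ^ 2) π := by
        apply Integrable.of_bound (by fun_prop) ((2 * R) ^ 2)
        filter_upwards with x
        rw [Real.norm_eq_abs, abs_of_nonneg (by positivity)]
        have := norm_sub_le (q x).2 (q x).1
        have h3 := hqb x
        have : ‖(q x).2 - (q x).1‖ ≤ 2 * R := by linarith [h3.1, h3.2]
        gcongr
      have hi2 : Integrable (fun x : EuclideanSpace ℝ (Fin d) × EuclideanSpace ℝ (Fin d) =>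
          ‖x.2 - x.1‖ ^ 2) π := by
        apply Integrable.of_bound (by fun_prop) ((2 * R) ^ 2)
        filter_upwards [h1, h2] with x hx1 hx2
        rw [Real.norm_eq_abs, abs_of_nonneg (by positivity)]
        have := norm_sub_le x.2 x.1
        have : ‖x.2 - x.1‖ ≤ 2 * R := by linarith
        gcongr
      have h3 : ∫ x, ‖(q x).2 - (q x).1‖ ^ 2 ∂π ≤ ∫ x, (‖x.2 - x.1‖ ^ 2 + 8 * R * ε) ∂π := by
        apply integral_mono_ae hi1 (hi2.add (integrable_const _))
        filter_upwards [h1, h2, hqc] with x hx1 hx2 hx3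
        have h4 := hqb x
        have h5 : ‖(q x).2 - (q x).1‖ ≤ ‖x.2 - x.1‖ + 2 * ε := by
          calc ‖(q x).2 - (q x).1‖ = ‖(x.2 - x.1) + (-(x.2 - (q x).2) + (x.1 - (q x).1))‖ := by
                congr 1; abel
            _ ≤ ‖x.2 - x.1‖ + (‖-(x.2 - (q x).2)‖ + ‖x.1 - (q x).1‖) :=
                (norm_add_le _ _).trans (by gcongr; exact norm_add_le _ _)
            _ ≤ _ := by rw [norm_neg]; linarith [hx3.1, hx3.2]
        have h6 : ‖(q x).2 - (q x).1‖ ≤ 2 * R := by
          have := norm_sub_le (q x).2 (q x).1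
          linarith [h4.1, h4.2]
        have h7 : ‖x.2 - x.1‖ ≤ 2 * R := by
          have := norm_sub_le x.2 x.1
          linarith
        have h8 := norm_nonneg ((q x).2 - (q x).1)
        have h9 := norm_nonneg (x.2 - x.1)
        show ‖(q x).2 - (q x).1‖ ^ 2 ≤ ‖x.2 - x.1‖ ^ 2 + 8 * R * ε
        set u := ‖(q x).2 - (q x).1‖
        set u' := ‖x.2 - x.1‖
        have h10 : u ^ 2 - u' ^ 2 = (u - u') * (u + u') := by ring
        have h11 : (u - u') * (u + u') ≤ (2 * ε) * (u + u') := by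
          apply mul_le_mul_of_nonneg_right (by linarith) (by linarith)
        nlinarith
      rw [integral_add hi2 (integrable_const _)] at h3
      simpa using h3
    have hda := disc_fn hR hw hw1 haR
    have hdb := disc_fn hR hw hw1 hbR
    have m1 := Mf_mono B (Dens.one K) hF1 hd1
    have m2 := Mf_mono B (Dens.one K) hda (fun ψ hψ => by rw [abs_sub_comm]; exact hd0 ψ hψ)
    have m3 := Mf_mono B D hdb (fun ψ hψ => by rw [abs_sub_comm]; exact hd1 ψ hψ)
    have m4 := Mf_mono B D hF0 hd0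
    have hsq : A * Real.sqrt (v * ∑ i, w i * ‖b i - a i‖ ^ 2)
        ≤ A * Real.sqrt (v * (c + 8 * R * ε)) := by
      gcongr
    linarith
  have hlim : Tendsto (fun ε : ℝ => A * Real.sqrt (v * (c + 8 * R * ε)) + 4 * v * (R * ε))
      (𝓝[>] 0) (𝓝 (A * Real.sqrt (v * c))) := by
    have hcont : Continuous (fun ε : ℝ => A * Real.sqrt (v * (c + 8 * R * ε)) + 4 * v * (R * ε)) := by
      fun_prop
    have := hcont.tendsto 0
    simp only [mul_zero, add_zero] at this
    exact this.mono_left nhdsWithin_le_nhds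
  apply ge_of_tendsto hlim
  filter_upwards [self_mem_nhdsWithin] with ε hε
  exact key ε hε

end Crest.Agent.H7Gen
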