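import Mathlib
import Crest.Agent.H7Gen

set_option autoImplicit false

/-! Quantitative uniqueness of near-optimal potentials, and the second difference bound. -/

namespace Crest.Agent.H7Uniq

open MeasureTheory Set Filter
open scoped ENNReal Topology RealInnerProductSpace
open Crest.Agent.H7Key Crest.Agent.H7SD Crest.Agent.H7Fn Crest.Agent.H7Mix Crest.Agent.H7Gen

variable {d : ℕ}

theorem ofReal_sum_le {ι : Type*} (s : Finset ι) (f : ι → ℝ) :
    ENNReal.ofReal (∑ i ∈ s, f i) ≤ ∑ i ∈ s, ENNReal.ofReal (f i) := by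
  classical
  induction s using Finset.induction_on with
  | empty => simp
  | insert a s ha ih =>
    rw [Finset.sum_insert ha, Finset.sum_insert ha]
    exact ENNReal.ofReal_add_le.trans (by gcongr)

/-- deficit of a pair along a map -/
noncomputable def dft (T : EuclideanSpace ℝ (Fin d) → EuclideanSpace ℝ (Fin d))
    (φ ψ : EuclideanSpace ℝ (Fin d) → ℝ) (x : EuclideanSpace ℝ (Fin d)) : ℝ :=
  φ x + ψ (T x) - ⟪x, T x⟫

section
variable {K : Set (EuclideanSpace ℝ (Fin d))} {R r : ℝ} {x0 : EuclideanSpace ℝ (Fin d)}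
  {T : EuclideanSpace ℝ (Fin d) → EuclideanSpace ℝ (Fin d)}
  {φ ψ φ' ψ' : EuclideanSpace ℝ (Fin d) → ℝ}

theorem dft_nonneg (A : Adm K R φ ψ) (hT : ∀ x, ‖T x‖ ≤ R) {x : EuclideanSpace ℝ (Fin d)}
    (hx : x ∈ K) : 0 ≤ dft T φ ψ x := by
  have := A.le x hx (T x) (hT x)
  unfold dft; linarith

theorem sub_ineq (A : Adm K R φ ψ) (hT : ∀ x, ‖T x‖ ≤ R) {x z : EuclideanSpace ℝ (Fin d)}
    (hz : z ∈ K) : φ x + ⟪z - x, T x⟫ - dft T φ ψ x ≤ φ z := by
  have := A.le z hz (T x) (hT x)
  unfold dft
  rw [inner_sub_left]; linarith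

theorem dft_meas (A : Adm K R φ ψ) (hTm : Measurable T) : Measurable (dft T φ ψ) := by
  have h1 := A.lip.continuous.measurable
  have h2 := A.lip'.continuous.measurable.comp hTm
  exact (h1.add h2).sub (measurable_id.inner hTm)

theorem dft_int (B : Body K R r x0) (A : Adm K R φ ψ) (hTm : Measurable T)
    (hT : ∀ x, ‖T x‖ ≤ R) : IntegrableOn (dft T φ ψ) K := by
  apply B.intOn (dft_meas A hTm) (C := (|φ 0| + R * R) + (|ψ 0| + R * R) + R * R)
  intro x hx
  have hR := B.R_pos
  have hφ : |φ x| ≤ |φ 0| + R * R := by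
    have h1 := A.lip x 0
    rw [sub_zero] at h1
    have h2 : |φ x| ≤ |φ 0| + |φ x - φ 0| := by
      calc |φ x| = |φ 0 + (φ x - φ 0)| := by congr 1; ring
        _ ≤ _ := abs_add_le _ _
    have h3 : R * ‖x‖ ≤ R * R := mul_le_mul_of_nonneg_left (B.K_R x hx) hR.le
    linarith
  have hψ : |ψ (T x)| ≤ |ψ 0| + R * R := by
    have h1 := A.lip' (T x) 0
    rw [sub_zero] at h1
    have h2 : |ψ (T x)| ≤ |ψ 0| + |ψ (T x) - ψ 0| := by
      calc |ψ (T x)| = |ψ 0 + (ψ (T x) - ψ 0)| := by congr 1; ring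
        _ ≤ _ := abs_add_le _ _
    have h3 : R * ‖T x‖ ≤ R * R := mul_le_mul_of_nonneg_left (hT x) hR.le
    linarith
  have hin : |⟪x, T x⟫| ≤ R * R := by
    refine (abs_real_inner_le_norm _ _).trans ?_
    have h1 := B.K_R x hx
    have h2 := hT x
    gcongr
  unfold dft
  calc _ ≤ |φ x + ψ (T x)| + |⟪x, T x⟫| := abs_sub _ _
    _ ≤ |φ x| + |ψ (T x)| + |⟪x, T x⟫| := by gcongr; exact abs_add_le _ _
    _ ≤ _ := by gcongr

/-- one step -/
theorem step (A : Adm K R φ ψ) (A' : Adm K R φ' ψ') (hT : ∀ x, ‖T x‖ ≤ R)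
    {x a : EuclideanSpace ℝ (Fin d)} (hx : x ∈ K) (hxa : x + a ∈ K) :
    |(φ (x + a) - φ' (x + a)) - (φ x - φ' x)| ≤ ⟪a, T (x + a) - T x⟫
      + ((dft T φ ψ x + dft T φ' ψ' x) + (dft T φ ψ (x + a) + dft T φ' ψ' (x + a))) := by
  have h1 := sub_ineq A hT (x := x) hxa
  have h2 := sub_ineq A hT (x := x + a) hx
  have h3 := sub_ineq A' hT (x := x) hxa
  have h4 := sub_ineq A' hT (x := x + a) hx
  have e1 : x + a - x = a := by abel
  have e2 : x - (x + a) = -a := by abel
  rw [e1] at h1 h3
  rw [e2, inner_neg_left] at h2 h4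
  have n1 := dft_nonneg A hT hx
  have n2 := dft_nonneg A hT hxa
  have n3 := dft_nonneg A' hT hx
  have n4 := dft_nonneg A' hT hxa
  rw [inner_sub_right, abs_le]
  constructor <;> linarith

/-- telescoping -/
theorem tele (B : Body K R r x0) (A : Adm K R φ ψ) (A' : Adm K R φ' ψ') (hT : ∀ x, ‖T x‖ ≤ R)
    {x b : EuclideanSpace ℝ (Fin d)} (hx : x ∈ K) (hxb : x + b ∈ K) {N : ℕ} (hN : 0 < N) :
    |(φ (x + b) - φ' (x + b)) - (φ x - φ' x)| ≤ 2 * R * ‖b‖ / N
      + ∑ k ∈ Finset.range N, ((dft T φ ψ (x + ((k : ℝ) / N) • b)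
          + dft T φ' ψ' (x + ((k : ℝ) / N) • b))
        + (dft T φ ψ (x + (((k : ℝ) + 1) / N) • b) + dft T φ' ψ' (x + (((k : ℝ) + 1) / N) • b))) := by
  have hN0 : (0 : ℝ) < N := by exact_mod_cast hN
  set z : ℕ → EuclideanSpace ℝ (Fin d) := fun k => x + ((k : ℝ) / N) • b with hz
  set a : EuclideanSpace ℝ (Fin d) := (1 / N : ℝ) • b with ha
  have hz1 : ∀ k : ℕ, x + (((k : ℝ) + 1) / N) • b = z (k + 1) := by
    intro k; simp only [hz]; push_cast; rfl
  have hza : ∀ k : ℕ, z (k + 1) = z k + a := by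
    intro k
    simp only [hz, ha]
    rw [add_assoc, ← add_smul]
    congr 2
    push_cast; ring
  have hzK : ∀ k, k ≤ N → z k ∈ K := by
    intro k hk
    have hk' : (k : ℝ) ≤ N := by exact_mod_cast hk
    have e : z k = (1 - (k : ℝ) / N) • x + ((k : ℝ) / N) • (x + b) := by
      simp only [hz]
      rw [sub_smul, one_smul, smul_add]; abel
    rw [e]
    apply B.convex hx hxb
    · rw [sub_nonneg, div_le_one hN0]; exact hk'
    · positivity
    · ring
  set u : EuclideanSpace ℝ (Fin d) → ℝ := fun x => φ x - φ' x with hu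
  set S : EuclideanSpace ℝ (Fin d) → ℝ := fun x => dft T φ ψ x + dft T φ' ψ' x with hS
  have h0 : z 0 = x := by simp [hz]
  have hNz : z N = x + b := by simp only [hz]; rw [div_self hN0.ne', one_smul]
  have h1 : (φ (x + b) - φ' (x + b)) - (φ x - φ' x)
      = ∑ k ∈ Finset.range N, (u (z (k + 1)) - u (z k)) := by
    rw [Finset.sum_range_sub (fun k => u (z k)) N, h0, hNz]
  have h2 : ∑ k ∈ Finset.range N, ⟪a, T (z (k + 1)) - T (z k)⟫ ≤ 2 * R * ‖b‖ / N := by
    have e : ∑ k ∈ Finset.range N, ⟪a, T (z (k + 1)) - T (z k)⟫ = ⟪a, T (z N) - T (z 0)⟫ := by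
      rw [← inner_sum, Finset.sum_range_sub (fun k => T (z k)) N]
    rw [e]
    calc _ ≤ ‖a‖ * ‖T (z N) - T (z 0)‖ := real_inner_le_norm _ _
      _ ≤ (‖b‖ / N) * (R + R) := by
        have h3 : ‖a‖ = ‖b‖ / N := by
          rw [ha, norm_smul, Real.norm_of_nonneg (by positivity)]; ring
        rw [h3]
        have h4 : ‖T (z N) - T (z 0)‖ ≤ R + R :=
          (norm_sub_le _ _).trans (add_le_add (hT _) (hT _))
        gcongr
      _ = _ := by ring
  rw [h1]
  calc _ ≤ ∑ k ∈ Finset.range N, |u (z (k + 1)) - u (z k)| := Finset.abs_sum_le_sum_abs _ _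
    _ ≤ ∑ k ∈ Finset.range N, (⟪a, T (z (k + 1)) - T (z k)⟫ + (S (z k) + S (z (k + 1)))) := by
      apply Finset.sum_le_sum
      intro k hk
      rw [Finset.mem_range] at hk
      have h5 := hzK (k + 1) hk
      rw [hza k] at h5 ⊢
      exact step A A' hT (hzK k hk.le) h5
    _ = (∑ k ∈ Finset.range N, ⟪a, T (z (k + 1)) - T (z k)⟫)
        + ∑ k ∈ Finset.range N, (S (z k) + S (z (k + 1))) := Finset.sum_add_distrib
    _ ≤ _ := by
      apply add_le_add h2
      apply le_of_eq
      apply Finset.sum_congr rfl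
      intro k _
      rw [hz1 k]

theorem shift_bound (B : Body K R r x0) (A : Adm K R φ ψ) (A' : Adm K R φ' ψ')
    (hTm : Measurable T) (hT : ∀ x, ‖T x‖ ≤ R)
    (b : EuclideanSpace ℝ (Fin d)) {N : ℕ} (hN : 0 < N) :
    ∫⁻ x in {x | x ∈ K ∧ x + b ∈ K},
        ENNReal.ofReal |(φ (x + b) - φ' (x + b)) - (φ x - φ' x)| ≤
      ENNReal.ofReal (2 * R * ‖b‖ / N) * volume K
        + (2 * N) * ∫⁻ x in K, ENNReal.ofReal (dft T φ ψ x + dft T φ' ψ' x) := by
  have hN0 : (0 : ℝ) < N := by exact_mod_cast hN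
  have hR := B.R_pos
  set S : EuclideanSpace ℝ (Fin d) → ℝ := fun x => dft T φ ψ x + dft T φ' ψ' x with hS
  have hSm : Measurable S := (dft_meas A hTm).add (dft_meas A' hTm)
  set L : Set (EuclideanSpace ℝ (Fin d)) := {x | x ∈ K ∧ x + b ∈ K} with hL
  have hLm : MeasurableSet L := B.meas.inter ((measurable_id.add_const b) B.meas)
  have hLK : L ⊆ K := fun x hx => hx.1
  set I : ℝ≥0∞ := ∫⁻ x in K, ENNReal.ofReal (S x) with hI
  have hshift : ∀ s : ℝ, 0 ≤ s → s ≤ 1 →
      ∫⁻ x in L, ENNReal.ofReal (S (x + s • b)) ≤ I := by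
    intro s hs0 hs1
    have hmem : ∀ x ∈ L, x + s • b ∈ K := by
      intro x hx
      have e : x + s • b = (1 - s) • x + s • (x + b) := by
        rw [sub_smul, one_smul, smul_add]; abel
      rw [e]
      exact B.convex hx.1 hx.2 (by linarith) hs0 (by ring)
    calc ∫⁻ x in L, ENNReal.ofReal (S (x + s • b))
        = ∫⁻ x, L.indicator (fun x => ENNReal.ofReal (S (x + s • b))) x :=
          (lintegral_indicator hLm _).symm
      _ ≤ ∫⁻ x, K.indicator (fun x => ENNReal.ofReal (S x)) (x + s • b) := by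
          apply lintegral_mono
          intro x
          show L.indicator (fun x => ENNReal.ofReal (S (x + s • b))) x
            ≤ K.indicator (fun x => ENNReal.ofReal (S x)) (x + s • b)
          by_cases hx : x ∈ L
          · rw [indicator_of_mem hx, indicator_of_mem (hmem x hx)]
          · rw [indicator_of_notMem hx]; exact zero_le
      _ = ∫⁻ x, K.indicator (fun x => ENNReal.ofReal (S x)) x :=
          lintegral_add_right_eq_self _ _
      _ = I := lintegral_indicator B.meas _
  have hb0 : 0 ≤ 2 * R * ‖b‖ / N := by positivity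
  calc ∫⁻ x in L, ENNReal.ofReal |(φ (x + b) - φ' (x + b)) - (φ x - φ' x)|
      ≤ ∫⁻ x in L, (ENNReal.ofReal (2 * R * ‖b‖ / N)
          + ∑ k ∈ Finset.range N, (ENNReal.ofReal (S (x + ((k : ℝ) / N) • b))
            + ENNReal.ofReal (S (x + (((k : ℝ) + 1) / N) • b)))) := by
        apply setLIntegral_mono' hLm
        intro x hx
        refine (ENNReal.ofReal_le_ofReal (tele B A A' hT hx.1 hx.2 hN)).trans ?_
        refine (ENNReal.ofReal_add_le).trans ?_
        gcongr
        refine (ofReal_sum_le _ _).trans ?_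
        apply Finset.sum_le_sum
        intro k _
        exact ENNReal.ofReal_add_le
    _ = ENNReal.ofReal (2 * R * ‖b‖ / N) * volume L
          + ∑ k ∈ Finset.range N, ((∫⁻ x in L, ENNReal.ofReal (S (x + ((k : ℝ) / N) • b)))
            + ∫⁻ x in L, ENNReal.ofReal (S (x + (((k : ℝ) + 1) / N) • b))) := by
        have hm : ∀ s : ℝ, Measurable fun x => ENNReal.ofReal (S (x + s • b)) := fun s =>
          ENNReal.measurable_ofReal.comp (hSm.comp (measurable_id.add_const _))
        rw [lintegral_add_left measurable_const, setLIntegral_const, lintegral_finsetSum]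
        · congr 1
          apply Finset.sum_congr rfl
          intro k _
          rw [lintegral_add_left (hm _)]
        · intro k _
          exact (hm _).add (hm _)
    _ ≤ ENNReal.ofReal (2 * R * ‖b‖ / N) * volume K + ∑ k ∈ Finset.range N, (I + I) := by
        gcongr with k hk
        · rw [Finset.mem_range] at hk
          apply hshift
          · positivity
          · rw [div_le_one hN0]; exact_mod_cast hk.le
        · rw [Finset.mem_range] at hk
          apply hshift
          · positivity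
          · rw [div_le_one hN0]; exact_mod_cast hk
    _ = _ := by
        rw [Finset.sum_const, Finset.card_range, nsmul_eq_mul]
        ring

theorem double_bound (B : Body K R r x0) (A : Adm K R φ ψ) (A' : Adm K R φ' ψ')
    (hTm : Measurable T) (hT : ∀ x, ‖T x‖ ≤ R) {N : ℕ} (hN : 0 < N) :
    ∫⁻ x in K, ∫⁻ z in K, ENNReal.ofReal |(φ z - φ' z) - (φ x - φ' x)| ≤
      volume (Metric.closedBall (0 : EuclideanSpace ℝ (Fin d)) (2 * R)) *
      (ENNReal.ofReal (4 * R ^ 2 / N) * volume K
        + (2 * N) * ∫⁻ x in K, ENNReal.ofReal (dft T φ ψ x + dft T φ' ψ' x)) := by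
  have hN0 : (0 : ℝ) < N := by exact_mod_cast hN
  have hR := B.R_pos
  set u : EuclideanSpace ℝ (Fin d) → ℝ := fun x => φ x - φ' x with hu
  have hum : Measurable u := A.lip.continuous.measurable.sub A'.lip.continuous.measurable
  set S : EuclideanSpace ℝ (Fin d) → ℝ := fun x => dft T φ ψ x + dft T φ' ψ' x with hS
  set C : ℝ≥0∞ := ENNReal.ofReal (4 * R ^ 2 / N) * volume K
        + (2 * N) * ∫⁻ x in K, ENNReal.ofReal (S x) with hC
  set f : EuclideanSpace ℝ (Fin d) → EuclideanSpace ℝ (Fin d) → ℝ≥0∞ := fun x z =>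
    K.indicator (fun _ => K.indicator (fun z => ENNReal.ofReal |u z - u x|) z) x with hf
  have hfm : Measurable (Function.uncurry f) := by
    have : Function.uncurry f = (K ×ˢ K).indicator
        (fun p : EuclideanSpace ℝ (Fin d) × EuclideanSpace ℝ (Fin d) =>
          ENNReal.ofReal |u p.2 - u p.1|) := by
      ext ⟨x, z⟩
      simp only [hf, Function.uncurry]
      by_cases hx : x ∈ K
      · by_cases hz : z ∈ K
        · rw [indicator_of_mem hx, indicator_of_mem hz, indicator_of_mem (mk_mem_prod hx hz)]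
        · rw [indicator_of_mem hx, indicator_of_notMem hz, indicator_of_notMem]
          exact fun h => hz h.2
      · rw [indicator_of_notMem hx, indicator_of_notMem]
        exact fun h => hx h.1
    rw [this]
    apply Measurable.indicator _ (B.meas.prod B.meas)
    exact ENNReal.measurable_ofReal.comp
      ((hum.comp measurable_snd).sub (hum.comp measurable_fst)).abs
  have e1 : ∫⁻ x in K, ∫⁻ z in K, ENNReal.ofReal |u z - u x| = ∫⁻ x, ∫⁻ z, f x z := by
    rw [← lintegral_indicator B.meas]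
    apply lintegral_congr
    intro x
    simp only [hf]
    by_cases hx : x ∈ K
    · simp only [indicator_of_mem hx]
      rw [lintegral_indicator B.meas]
    · simp only [indicator_of_notMem hx, lintegral_zero]
  have e2 : ∫⁻ x, ∫⁻ z, f x z = ∫⁻ x, ∫⁻ b, f x (x + b) := by
    apply lintegral_congr
    intro x
    exact (lintegral_add_left_eq_self (fun z => f x z) x).symm
  have e3 : ∫⁻ x, ∫⁻ b, f x (x + b) = ∫⁻ b, ∫⁻ x, f x (x + b) := by
    apply lintegral_lintegral_swap
    apply Measurable.aemeasurable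
    exact hfm.comp (measurable_fst.prodMk (measurable_fst.add measurable_snd))
  have e4 : ∀ b, ∫⁻ x, f x (x + b) ≤ (Metric.closedBall 0 (2 * R)).indicator (fun _ => C) b := by
    intro b
    have h1 : ∫⁻ x, f x (x + b) = ∫⁻ x in {x | x ∈ K ∧ x + b ∈ K},
        ENNReal.ofReal |u (x + b) - u x| := by
      have hLm : MeasurableSet {x | x ∈ K ∧ x + b ∈ K} :=
        B.meas.inter ((measurable_id.add_const b) B.meas)
      rw [← lintegral_indicator hLm]
      apply lintegral_congr
      intro x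
      simp only [hf]
      by_cases hx : x ∈ K
      · by_cases hz : x + b ∈ K
        · rw [indicator_of_mem hx, indicator_of_mem hz, indicator_of_mem]
          exact ⟨hx, hz⟩
        · rw [indicator_of_mem hx, indicator_of_notMem hz, indicator_of_notMem]
          exact fun h => hz h.2
      · rw [indicator_of_notMem hx, indicator_of_notMem]
        exact fun h => hx h.1
    rw [h1]
    by_cases hb : b ∈ Metric.closedBall (0 : EuclideanSpace ℝ (Fin d)) (2 * R)
    · rw [indicator_of_mem hb]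
      refine (shift_bound B A A' hTm hT b hN).trans ?_
      rw [hC]
      have h2 : 2 * R * ‖b‖ / N ≤ 4 * R ^ 2 / N := by
        have h3 : ‖b‖ ≤ 2 * R := by simpa using hb
        have h4 : 2 * R * ‖b‖ ≤ 4 * R ^ 2 := by nlinarith
        exact div_le_div_of_nonneg_right h4 hN0.le
      gcongr
    · have h2 : {x | x ∈ K ∧ x + b ∈ K} = ∅ := by
        apply eq_empty_of_forall_notMem
        rintro x ⟨hx, hxb⟩
        apply hb
        rw [mem_closedBall_zero_iff]
        calc ‖b‖ = ‖(x + b) - x‖ := by congr 1; abel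
          _ ≤ ‖x + b‖ + ‖x‖ := norm_sub_le _ _
          _ ≤ _ := by linarith [B.K_R _ hx, B.K_R _ hxb]
      rw [h2]
      simp
  show ∫⁻ x in K, ∫⁻ z in K, ENNReal.ofReal |u z - u x| ≤ _
  rw [e1, e2, e3]
  calc _ ≤ ∫⁻ b, (Metric.closedBall 0 (2 * R)).indicator (fun _ => C) b := lintegral_mono e4
    _ = _ := by
      rw [lintegral_indicator_const measurableSet_closedBall, mul_comm]

/-- Near-optimal potentials are close, tested against mean-zero functions. -/
theorem test_bound (B : Body K R r x0) (A : Adm K R φ ψ) (A' : Adm K R φ' ψ')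
    (hTm : Measurable T) (hT : ∀ x, ‖T x‖ ≤ R) {N : ℕ} (hN : 0 < N)
    {h : EuclideanSpace ℝ (Fin d) → ℝ} (hm : Measurable h) {C : ℝ} (hC0 : 0 ≤ C)
    (hC : ∀ x ∈ K, |h x| ≤ C) (hmean : ∫ x in K, h x = 0) {δ : ℝ}
    (hδ : ∫ x in K, dft T φ ψ x ≤ δ) (hδ' : ∫ x in K, dft T φ' ψ' x ≤ δ) :
    volume.real K * |∫ x in K, (φ x - φ' x) * h x| ≤
      C * (volume.real (Metric.closedBall (0 : EuclideanSpace ℝ (Fin d)) (2 * R)) *
      (4 * R ^ 2 / N * volume.real K + 4 * N * δ)) := by
  have hR := B.R_pos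
  have hN0 : (0 : ℝ) < N := by exact_mod_cast hN
  set u : EuclideanSpace ℝ (Fin d) → ℝ := fun x => φ x - φ' x with hu
  have hum : Measurable u := A.lip.continuous.measurable.sub A'.lip.continuous.measurable
  set S : EuclideanSpace ℝ (Fin d) → ℝ := fun x => dft T φ ψ x + dft T φ' ψ' x with hS
  have hSi : IntegrableOn S K := (dft_int B A hTm hT).add (dft_int B A' hTm hT)
  have hS2 : ∫⁻ x in K, ENNReal.ofReal (S x) ≤ ENNReal.ofReal (2 * δ) := by
    rw [← ofReal_integral_eq_lintegral_ofReal hSi]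
    · apply ENNReal.ofReal_le_ofReal
      have : ∫ x in K, S x = (∫ x in K, dft T φ ψ x) + ∫ x in K, dft T φ' ψ' x :=
        integral_add (dft_int B A hTm hT) (dft_int B A' hTm hT)
      rw [this]; linarith
    · filter_upwards [ae_restrict_mem B.meas] with x hx
      exact add_nonneg (dft_nonneg A hT hx) (dft_nonneg A' hT hx)
  have hub : ∀ x ∈ K, |u x| ≤ |φ 0| + R * R + (|φ' 0| + R * R) := by
    have hb : ∀ {f : EuclideanSpace ℝ (Fin d) → ℝ}, Lip R f → ∀ x ∈ K, |f x| ≤ |f 0| + R * R := by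
      intro f hf x hx
      have h1 := hf x 0
      rw [sub_zero] at h1
      have h2 : |f x| ≤ |f 0| + |f x - f 0| := by
        calc |f x| = |f 0 + (f x - f 0)| := by congr 1; ring
          _ ≤ _ := abs_add_le _ _
      have h3 : R * ‖x‖ ≤ R * R := mul_le_mul_of_nonneg_left (B.K_R x hx) hR.le
      linarith
    intro x hx
    exact (abs_sub _ _).trans (add_le_add (hb A.lip x hx) (hb A'.lip x hx))
  set M : ℝ := |φ 0| + R * R + (|φ' 0| + R * R) with hM
  have hhi : IntegrableOn h K := B.intOn hm hC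
  have huh : IntegrableOn (fun x => u x * h x) K := by
    apply B.intOn (hum.mul hm) (C := M * C)
    intro x hx
    show |u x * h x| ≤ _
    rw [abs_mul]
    exact mul_le_mul (hub x hx) (hC x hx) (abs_nonneg _) ((abs_nonneg _).trans (hub x hx))
  have hpt : ∀ z, ENNReal.ofReal |∫ x in K, u x * h x|
      ≤ ∫⁻ x in K, ENNReal.ofReal C * ENNReal.ofReal |u x - u z| := by
    intro z
    have e : ∫ x in K, u x * h x = ∫ x in K, (u x - u z) * h x := by
      have : ∫ x in K, (u x - u z) * h x = (∫ x in K, u x * h x) - ∫ x in K, u z * h x := by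
        rw [← integral_sub huh (hhi.const_mul _)]
        congr 1; ext x; ring
      rw [this, integral_const_mul, hmean]; ring
    rw [e, ← Real.enorm_eq_ofReal_abs]
    refine (enorm_integral_le_lintegral_enorm _).trans ?_
    apply setLIntegral_mono' B.meas
    intro x hx
    rw [Real.enorm_eq_ofReal_abs, abs_mul, ← ENNReal.ofReal_mul hC0, mul_comm]
    apply ENNReal.ofReal_le_ofReal
    have := hC x hx
    gcongr
  have hdb : volume K * ENNReal.ofReal |∫ x in K, u x * h x| ≤
      ENNReal.ofReal C * (volume (Metric.closedBall (0 : EuclideanSpace ℝ (Fin d)) (2 * R)) *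
      (ENNReal.ofReal (4 * R ^ 2 / N) * volume K + (2 * N) * ENNReal.ofReal (2 * δ))) := by
    calc volume K * ENNReal.ofReal |∫ x in K, u x * h x|
        = ∫⁻ _z in K, ENNReal.ofReal |∫ x in K, u x * h x| := by
          rw [setLIntegral_const, mul_comm]
      _ ≤ ∫⁻ z in K, ∫⁻ x in K, ENNReal.ofReal C * ENNReal.ofReal |u x - u z| :=
          lintegral_mono (fun z => hpt z)
      _ = ENNReal.ofReal C * ∫⁻ z in K, ∫⁻ x in K, ENNReal.ofReal |u x - u z| := by
          rw [← lintegral_const_mul' _ _ ENNReal.ofReal_ne_top]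
          apply lintegral_congr
          intro z
          rw [lintegral_const_mul' _ _ ENNReal.ofReal_ne_top]
      _ ≤ _ := by
          gcongr
          exact (double_bound B A A' hTm hT hN).trans (by gcongr)
  have hcb : volume (Metric.closedBall (0 : EuclideanSpace ℝ (Fin d)) (2 * R)) ≠ ⊤ :=
    measure_closedBall_lt_top.ne
  have hδ0 : 0 ≤ δ := by
    refine le_trans ?_ hδ
    exact setIntegral_nonneg B.meas (fun x hx => dft_nonneg A hT hx)
  have := ENNReal.toReal_mono (by
    apply ENNReal.mul_ne_top ENNReal.ofReal_ne_top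
    apply ENNReal.mul_ne_top hcb
    apply ENNReal.add_ne_top.mpr
    exact ⟨ENNReal.mul_ne_top ENNReal.ofReal_ne_top B.vol,
      ENNReal.mul_ne_top (ENNReal.mul_ne_top (by norm_num) (ENNReal.natCast_ne_top N))
        ENNReal.ofReal_ne_top⟩) hdb
  rw [ENNReal.toReal_mul, ENNReal.toReal_mul, ENNReal.toReal_mul, ENNReal.toReal_add
    (ENNReal.mul_ne_top ENNReal.ofReal_ne_top B.vol)
    (ENNReal.mul_ne_top (ENNReal.mul_ne_top (by norm_num) (ENNReal.natCast_ne_top N))
        ENNReal.ofReal_ne_top), ENNReal.toReal_mul, ENNReal.toReal_mul, ENNReal.toReal_mul,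
    ENNReal.toReal_ofReal (abs_nonneg _), ENNReal.toReal_ofReal hC0,
    ENNReal.toReal_ofReal (by positivity), ENNReal.toReal_ofReal (by positivity),
    ENNReal.toReal_natCast, ENNReal.toReal_ofNat] at this
  calc _ ≤ _ := this
    _ = _ := by unfold Measure.real; ring

end

end Crest.Agent.H7Uniq
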