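import Mathlib
import Crest.Agent.H7Uniq

set_option autoImplicit false

/-! Stability of potentials. -/

namespace Crest.Agent.H7Stab

open MeasureTheory Set Filter
open scoped ENNReal Topology RealInnerProductSpace
open Crest.Agent.H7Key Crest.Agent.H7SD Crest.Agent.H7Fn Crest.Agent.H7Mix Crest.Agent.H7Gen
open Crest.Agent.H7Uniq

variable {d : ℕ}

/-- maps with near-optimal potentials -/
structure Opt (K : Set (EuclideanSpace ℝ (Fin d))) (R : ℝ)
    (μ : Measure (EuclideanSpace ℝ (Fin d)))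
    (T : EuclideanSpace ℝ (Fin d) → EuclideanSpace ℝ (Fin d)) : Prop where
  Tmeas : Measurable T
  bd : ∀ x, ‖T x‖ ≤ R
  push : ∀ ψ : EuclideanSpace ℝ (Fin d) → ℝ, Lip R ψ →
    ∫ x in K, ψ (T x) = volume.real K * meas μ ψ
  fn : Fn R (meas μ)
  near : ∀ ε : ℝ, 0 < ε → ∃ φ ψ, Adm K R φ ψ ∧ ∫ x in K, dft T φ ψ x ≤ ε

section
variable {K : Set (EuclideanSpace ℝ (Fin d))} {R r : ℝ} {x0 : EuclideanSpace ℝ (Fin d)}
  {μ : Measure (EuclideanSpace ℝ (Fin d))}
  {T : EuclideanSpace ℝ (Fin d) → EuclideanSpace ℝ (Fin d)}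
  {φ ψ φ' ψ' : EuclideanSpace ℝ (Fin d) → ℝ}

theorem lip_bd (B : Body K R r x0) {f : EuclideanSpace ℝ (Fin d) → ℝ} (hf : Lip R f)
    {x : EuclideanSpace ℝ (Fin d)} (hx : ‖x‖ ≤ R) : |f x| ≤ |f 0| + R * R := by
  have h1 := hf x 0
  rw [sub_zero] at h1
  have h2 : |f x| ≤ |f 0| + |f x - f 0| := by
    calc |f x| = |f 0 + (f x - f 0)| := by congr 1; ring
      _ ≤ _ := abs_add_le _ _
  have h3 : R * ‖x‖ ≤ R * R := mul_le_mul_of_nonneg_left hx B.R_pos.le
  linarith

theorem lip_intOn (B : Body K R r x0) {f : EuclideanSpace ℝ (Fin d) → ℝ} (hf : Lip R f) :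
    IntegrableOn f K :=
  B.intOn hf.continuous.measurable (fun x hx => lip_bd B hf (B.K_R x hx))

/-- perturbed densities -/
theorem dens_pert (B : Body K R r x0) {h : EuclideanSpace ℝ (Fin d) → ℝ} (hm : Measurable h)
    {C : ℝ} (hC : ∀ x ∈ K, |h x| ≤ C) (hmean : ∫ x in K, h x = 0) {s : ℝ}
    (hs : |s| * C ≤ 1 / 2) : Dens K (fun x => 1 + s * h x) where
  meas := (hm.const_mul s).const_add 1
  bd := fun x hx => by
    have e : 1 + s * h x - 1 = s * h x := by ring
    rw [e, abs_mul]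
    exact (mul_le_mul_of_nonneg_left (hC x hx) (abs_nonneg s)).trans hs
  mass := by
    rw [integral_add (B.intOn measurable_const (C := 1) (fun x _ => by norm_num))
      ((B.intOn hm hC).const_mul s), integral_const_mul, hmean]
    simp

theorem val_pert (B : Body K R r x0) {h : EuclideanSpace ℝ (Fin d) → ℝ} (hm : Measurable h)
    {C : ℝ} (hC : ∀ x ∈ K, |h x| ≤ C) {s : ℝ}
    (Λ : (EuclideanSpace ℝ (Fin d) → ℝ) → ℝ) (hφ : Lip R φ) :
    val K (fun x => 1 + s * h x) Λ φ ψ = val K (fun _ => 1) Λ φ ψ + s * ∫ x in K, φ x * h x := by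
  have hi1 := lip_intOn B hφ
  have hi2 : IntegrableOn (fun x => φ x * h x) K := by
    apply B.intOn (hφ.continuous.measurable.mul hm) (C := (|φ 0| + R * R) * C)
    intro x hx
    show |φ x * h x| ≤ _
    rw [abs_mul]
    have h1 := lip_bd B hφ (B.K_R x hx)
    exact mul_le_mul h1 (hC x hx) (abs_nonneg _) ((abs_nonneg _).trans h1)
  unfold val
  have e : ∫ x in K, φ x * (1 + s * h x) = (∫ x in K, φ x * 1) + s * ∫ x in K, φ x * h x := by
    rw [← integral_const_mul, ← integral_add (by simp only [mul_one]; exact hi1)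
      (hi2.const_mul s)]
    congr 1; ext x; ring
  rw [e]; ring

theorem int_lip_mul (B : Body K R r x0) {h : EuclideanSpace ℝ (Fin d) → ℝ} (hm : Measurable h)
    {C : ℝ} (hC0 : 0 ≤ C) (hC : ∀ x ∈ K, |h x| ≤ C) (hmean : ∫ x in K, h x = 0) (hφ : Lip R φ) :
    |∫ x in K, φ x * h x| ≤ R ^ 2 * C * volume.real K := by
  have hhi := B.intOn hm hC
  have hi2 : IntegrableOn (fun x => φ x * h x) K := by
    apply B.intOn (hφ.continuous.measurable.mul hm) (C := (|φ 0| + R * R) * C)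
    intro x hx
    show |φ x * h x| ≤ _
    rw [abs_mul]
    have h1 := lip_bd B hφ (B.K_R x hx)
    exact mul_le_mul h1 (hC x hx) (abs_nonneg _) ((abs_nonneg _).trans h1)
  have e : ∫ x in K, φ x * h x = ∫ x in K, (φ x - φ 0) * h x := by
    have : ∫ x in K, (φ x - φ 0) * h x = (∫ x in K, φ x * h x) - ∫ x in K, φ 0 * h x := by
      rw [← integral_sub hi2 (hhi.const_mul _)]
      congr 1; ext x; ring
    rw [this, integral_const_mul, hmean]; ring
  rw [e]
  have h1 : ∀ᵐ x ∂(volume.restrict K), ‖(φ x - φ 0) * h x‖ ≤ R ^ 2 * C := by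
    filter_upwards [ae_restrict_mem B.meas] with x hx
    rw [Real.norm_eq_abs, abs_mul]
    have h1 := hφ x 0
    rw [sub_zero] at h1
    have h2 : R * ‖x‖ ≤ R * R := mul_le_mul_of_nonneg_left (B.K_R x hx) B.R_pos.le
    have h3 : |φ x - φ 0| ≤ R ^ 2 := by nlinarith
    exact mul_le_mul h3 (hC x hx) (abs_nonneg _) (by positivity)
  haveI : IsFiniteMeasure (volume.restrict K) := ⟨by simpa using B.vol.lt_top⟩
  have := norm_integral_le_of_norm_le_const h1
  simpa [Measure.real] using this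

theorem val_eq (B : Body K R r x0) (O : Opt K R μ T) (A : Adm K R φ ψ) :
    val K (fun _ => 1) (meas μ) φ ψ = (∫ x in K, dft T φ ψ x) + ∫ x in K, ⟪x, T x⟫ := by
  have hi1 := lip_intOn B A.lip
  have hi2 : IntegrableOn (fun x => ψ (T x)) K :=
    B.intOn (A.lip'.continuous.measurable.comp O.Tmeas) (fun x _ => lip_bd B A.lip' (O.bd x))
  have hi3 : IntegrableOn (fun x => ⟪x, T x⟫) K := by
    apply B.intOn (measurable_id.inner O.Tmeas) (C := R * R)
    intro x hx
    refine (abs_real_inner_le_norm _ _).trans ?_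
    have h1 := B.K_R x hx
    have h2 := O.bd x
    have h3 := B.R_pos
    exact mul_le_mul h1 h2 (norm_nonneg _) h3.le
  unfold val dft
  rw [← O.push ψ A.lip', integral_sub (f := fun x => φ x + ψ (T x)) (hi1.add hi2) hi3,
    integral_add hi1 hi2]
  simp

theorem inner_le_Mf (B : Body K R r x0) (O : Opt K R μ T) :
    ∫ x in K, ⟪x, T x⟫ ≤ Mf K R (fun _ => 1) (meas μ) := by
  apply le_Mf B
  intro φ ψ A
  rw [val_eq B O A]
  have : 0 ≤ ∫ x in K, dft T φ ψ x :=
    setIntegral_nonneg B.meas (fun x hx => dft_nonneg A O.bd hx)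
  linarith

theorem Mf_eq (B : Body K R r x0) (O : Opt K R μ T) :
    Mf K R (fun _ => 1) (meas μ) = ∫ x in K, ⟪x, T x⟫ := by
  apply le_antisymm _ (inner_le_Mf B O)
  apply le_of_forall_pos_le_add
  intro ε hε
  obtain ⟨φ, ψ, A, h⟩ := O.near ε hε
  have h1 := Mf_le B (Dens.one K) O.fn A
  rw [val_eq B O A] at h1
  linarith

theorem second_diff (B : Body K R r x0) (O : Opt K R μ T)
    {h : EuclideanSpace ℝ (Fin d) → ℝ} (hm : Measurable h)
    {C : ℝ} (hC0 : 0 ≤ C) (hC : ∀ x ∈ K, |h x| ≤ C) (hmean : ∫ x in K, h x = 0) {s : ℝ}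
    (hs0 : 0 < s) (hs : s * C ≤ 1 / 2) {N : ℕ} (hN : 0 < N) :
    volume.real K * (2 * Mf K R (fun _ => 1) (meas μ) - Mf K R (fun x => 1 + s * h x) (meas μ)
      - Mf K R (fun x => 1 + (-s) * h x) (meas μ)) ≤
      s * (C * (volume.real (Metric.closedBall (0 : EuclideanSpace ℝ (Fin d)) (2 * R)) *
      (4 * R ^ 2 / N * volume.real K + 4 * N * (2 * s * (R ^ 2 * C * volume.real K))))) := by
  have hR := B.R_pos
  have hv := B.vol_pos
  have hN0 : (0 : ℝ) < N := by exact_mod_cast hN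
  set v := volume.real K with hvdef
  set V2 := volume.real (Metric.closedBall (0 : EuclideanSpace ℝ (Fin d)) (2 * R)) with hV2
  have hV20 : 0 ≤ V2 := measureReal_nonneg
  have D1 : Dens K (fun x => 1 + s * h x) := dens_pert B hm hC hmean (by rwa [abs_of_pos hs0])
  have D2 : Dens K (fun x => 1 + (-s) * h x) :=
    dens_pert B hm hC hmean (by rwa [abs_neg, abs_of_pos hs0])
  set I := ∫ x in K, ⟪x, T x⟫ with hI
  have hMI := Mf_eq B O
  have key : ∀ ε : ℝ, 0 < ε → v * (2 * Mf K R (fun _ => 1) (meas μ)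
      - Mf K R (fun x => 1 + s * h x) (meas μ)
      - Mf K R (fun x => 1 + (-s) * h x) (meas μ)) ≤
      s * (C * (V2 * (4 * R ^ 2 / N * v + 4 * N * (2 * ε + 2 * s * (R ^ 2 * C * v))))) + 2 * ε * v := by
    intro ε hε
    obtain ⟨φp, ψp, Ap, hp⟩ := exists_near (g := fun x => 1 + s * h x) (Λ := meas μ) B hε
    obtain ⟨φm, ψm, Am, hmn⟩ := exists_near (g := fun x => 1 + (-s) * h x) (Λ := meas μ) B hε
    obtain ⟨φo, ψo, Ao, ho⟩ := O.near ε hε
    have b1 := Mf_le B D1 O.fn Ao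
    have b2 := Mf_le B D2 O.fn Ao
    have b3 := Mf_le B (Dens.one K) O.fn Ap
    have b4 := Mf_le B (Dens.one K) O.fn Am
    rw [val_pert B hm hC _ Ao.lip, val_eq B O Ao] at b1 b2
    rw [val_pert B hm hC _ Ap.lip] at hp
    rw [val_pert B hm hC _ Am.lip] at hmn
    have ep := val_eq B O Ap
    have em := val_eq B O Am
    have iop := abs_le.mp (int_lip_mul B hm hC0 hC hmean Ao.lip)
    have ipp := abs_le.mp (int_lip_mul B hm hC0 hC hmean Ap.lip)
    have imp := abs_le.mp (int_lip_mul B hm hC0 hC hmean Am.lip)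
    set Io := ∫ x in K, φo x * h x
    set Ip := ∫ x in K, φp x * h x
    set Im := ∫ x in K, φm x * h x
    have so1 : s * Io ≤ s * (R ^ 2 * C * v) := by have := iop.2; gcongr
    have so2 : -(s * (R ^ 2 * C * v)) ≤ s * Io := by nlinarith [iop.1]
    have sp1 : s * Ip ≤ s * (R ^ 2 * C * v) := by have := ipp.2; gcongr
    have sp2 : -(s * (R ^ 2 * C * v)) ≤ s * Ip := by nlinarith [ipp.1]
    have sm1 : s * Im ≤ s * (R ^ 2 * C * v) := by have := imp.2; gcongr
    have sm2 : -(s * (R ^ 2 * C * v)) ≤ s * Im := by nlinarith [imp.1]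
    have dp : ∫ x in K, dft T φp ψp x ≤ 2 * ε + 2 * s * (R ^ 2 * C * v) := by linarith
    have dm : ∫ x in K, dft T φm ψm x ≤ 2 * ε + 2 * s * (R ^ 2 * C * v) := by linarith
    have tb := test_bound B Am Ap O.Tmeas O.bd hN hm hC0 hC hmean dm dp
    have e1 : ∫ x in K, (φm x - φp x) * h x = Im - Ip := by
      have hi : ∀ {f : EuclideanSpace ℝ (Fin d) → ℝ}, Lip R f →
          IntegrableOn (fun x => f x * h x) K := by
        intro f hf
        apply B.intOn (hf.continuous.measurable.mul hm) (C := (|f 0| + R * R) * C)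
        intro x hx
        show |f x * h x| ≤ _
        rw [abs_mul]
        have h1 := lip_bd B hf (B.K_R x hx)
        exact mul_le_mul h1 (hC x hx) (abs_nonneg _) ((abs_nonneg _).trans h1)
      have : ∫ x in K, (φm x - φp x) * h x = ∫ x in K, (φm x * h x - φp x * h x) := by
        congr 1; ext x; ring
      rw [this, integral_sub (hi Am.lip) (hi Ap.lip)]
    rw [e1] at tb
    have h2 : 2 * Mf K R (fun _ => 1) (meas μ)
      - Mf K R (fun x => 1 + s * h x) (meas μ)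
      - Mf K R (fun x => 1 + (-s) * h x) (meas μ) ≤ s * (Im - Ip) + 2 * ε := by linarith
    have h3 : v * (Im - Ip) ≤ C * (V2 * (4 * R ^ 2 / N * v + 4 * N * (2 * ε + 2 * s * (R ^ 2 * C * v)))) := by
      refine le_trans ?_ tb
      gcongr
      exact le_abs_self _
    calc _ ≤ v * (s * (Im - Ip) + 2 * ε) := by gcongr
      _ = s * (v * (Im - Ip)) + 2 * ε * v := by ring
      _ ≤ _ := by gcongr
  have hlim : Tendsto (fun ε : ℝ => s * (C * (V2 * (4 * R ^ 2 / N * v
      + 4 * N * (2 * ε + 2 * s * (R ^ 2 * C * v))))) + 2 * ε * v) (𝓝[>] 0)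
      (𝓝 (s * (C * (V2 * (4 * R ^ 2 / N * v + 4 * N * (2 * s * (R ^ 2 * C * v))))))) := by
    have hcont : Continuous (fun ε : ℝ => s * (C * (V2 * (4 * R ^ 2 / N * v
      + 4 * N * (2 * ε + 2 * s * (R ^ 2 * C * v))))) + 2 * ε * v) := by fun_prop
    have := hcont.tendsto 0
    simp only [mul_zero, zero_add, add_zero, zero_mul] at this
    exact this.mono_left nhdsWithin_le_nhds
  apply ge_of_tendsto hlim
  filter_upwards [self_mem_nhdsWithin] with ε hε
  exact key ε hε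

end

section
variable {K : Set (EuclideanSpace ℝ (Fin d))} {R r : ℝ} {x0 : EuclideanSpace ℝ (Fin d)}
  {μ ν : Measure (EuclideanSpace ℝ (Fin d))}
  {T T' : EuclideanSpace ℝ (Fin d) → EuclideanSpace ℝ (Fin d)}

/-- the tested inequality -/
theorem tested (B : Body K R r x0) (O : Opt K R μ T) (O' : Opt K R ν T')
    (π : Measure (EuclideanSpace ℝ (Fin d) × EuclideanSpace ℝ (Fin d))) [IsProbabilityMeasure π]
    (h1 : ∀ᵐ p ∂π, ‖p.1‖ ≤ R) (h2 : ∀ᵐ p ∂π, ‖p.2‖ ≤ R) (hπ1 : π.map Prod.fst = μ)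
    (hπ2 : π.map Prod.snd = ν)
    {h : EuclideanSpace ℝ (Fin d) → ℝ} (hm : Measurable h)
    {C : ℝ} (hC0 : 0 ≤ C) (hC : ∀ x ∈ K, |h x| ≤ C) (hmean : ∫ x in K, h x = 0) {s : ℝ}
    (hs0 : 0 < s) (hs : s * C ≤ 1 / 2) {N : ℕ} (hN : 0 < N)
    {φ ψ φ' ψ' : EuclideanSpace ℝ (Fin d) → ℝ} (A : Adm K R φ ψ) (A' : Adm K R φ' ψ') {δ : ℝ}
    (hδ : ∫ x in K, dft T φ ψ x ≤ δ) (hδ' : ∫ x in K, dft T' φ' ψ' x ≤ δ) :
    s * ∫ x in K, (φ' x - φ x) * h x ≤
      s * (2000 * R * Real.sqrt (∫ x in K, h x ^ 2) *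
        Real.sqrt (volume.real K * ∫ p, ‖p.2 - p.1‖ ^ 2 ∂π)) +
      s * (C * (volume.real (Metric.closedBall (0 : EuclideanSpace ℝ (Fin d)) (2 * R)) *
      (4 * R ^ 2 / N * volume.real K + 4 * N * (2 * s * (R ^ 2 * C * volume.real K)))))
        / volume.real K + 2 * δ := by
  have hR := B.R_pos
  have hv := B.vol_pos
  set v := volume.real K with hvdef
  have D1 : Dens K (fun x => 1 + s * h x) := dens_pert B hm hC hmean (by rwa [abs_of_pos hs0])
  have D2 : Dens K (fun x => 1 + (-s) * h x) :=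
    dens_pert B hm hC hmean (by rwa [abs_neg, abs_of_pos hs0])
  have sd := second_diff B O hm hC0 hC hmean hs0 hs hN
  have mx := mixed B D2 π h1 h2
  rw [hπ1, hπ2] at mx
  have b1 := Mf_le B D2 O'.fn A'
  have b2 := Mf_le B D1 O.fn A
  rw [val_pert B hm hC _ A'.lip, val_eq B O' A'] at b1
  rw [val_pert B hm hC _ A.lip, val_eq B O A] at b2
  have m1 := Mf_eq B O
  have m2 := Mf_eq B O'
  have hi : ∀ {f : EuclideanSpace ℝ (Fin d) → ℝ}, Lip R f →
      IntegrableOn (fun x => f x * h x) K := by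
    intro f hf
    apply B.intOn (hf.continuous.measurable.mul hm) (C := (|f 0| + R * R) * C)
    intro x hx
    show |f x * h x| ≤ _
    rw [abs_mul]
    have h1 := lip_bd B hf (B.K_R x hx)
    exact mul_le_mul h1 (hC x hx) (abs_nonneg _) ((abs_nonneg _).trans h1)
  have e1 : ∫ x in K, (φ' x - φ x) * h x = (∫ x in K, φ' x * h x) - ∫ x in K, φ x * h x := by
    have : ∫ x in K, (φ' x - φ x) * h x = ∫ x in K, (φ' x * h x - φ x * h x) := by
      congr 1; ext x; ring
    rw [this, integral_sub (hi A'.lip) (hi A.lip)]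
  have e2 : Real.sqrt (4000000 * R ^ 2 * ∫ x in K, (1 + -s * h x - 1) ^ 2)
      = s * (2000 * R * Real.sqrt (∫ x in K, h x ^ 2)) := by
    have e3 : ∫ x in K, (1 + -s * h x - 1) ^ 2 = s ^ 2 * ∫ x in K, h x ^ 2 := by
      rw [← integral_const_mul]
      congr 1; ext x; ring
    rw [e3]
    have e4 : 4000000 * R ^ 2 * (s ^ 2 * ∫ x in K, h x ^ 2)
        = (s * (2000 * R)) ^ 2 * ∫ x in K, h x ^ 2 := by ring
    rw [e4, Real.sqrt_mul (by positivity), Real.sqrt_sq (by positivity)]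
    ring
  rw [e2] at mx
  have sd' : 2 * Mf K R (fun _ => 1) (meas μ) - Mf K R (fun x => 1 + s * h x) (meas μ)
      - Mf K R (fun x => 1 + (-s) * h x) (meas μ) ≤
      s * (C * (volume.real (Metric.closedBall (0 : EuclideanSpace ℝ (Fin d)) (2 * R)) *
      (4 * R ^ 2 / N * v + 4 * N * (2 * s * (R ^ 2 * C * v))))) / v := by
    rw [le_div_iff₀ hv]
    linarith
  rw [e1]
  nlinarith

/-- **Stability of near-optimal potentials** in L². -/
theorem stability (B : Body K R r x0) (O : Opt K R μ T) (O' : Opt K R ν T')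
    (π : Measure (EuclideanSpace ℝ (Fin d) × EuclideanSpace ℝ (Fin d))) [IsProbabilityMeasure π]
    (h1 : ∀ᵐ p ∂π, ‖p.1‖ ≤ R) (h2 : ∀ᵐ p ∂π, ‖p.2‖ ≤ R) (hπ1 : π.map Prod.fst = μ)
    (hπ2 : π.map Prod.snd = ν) {η : ℝ} (hη : 0 < η) :
    ∃ δ0 : ℝ, 0 < δ0 ∧ ∀ (φ ψ φ' ψ' : EuclideanSpace ℝ (Fin d) → ℝ), Adm K R φ ψ → Adm K R φ' ψ' →
      ∫ x in K, dft T φ ψ x ≤ δ0 → ∫ x in K, dft T' φ' ψ' x ≤ δ0 →
      ∃ c : ℝ, ∫ x in K, (φ' x - φ x - c) ^ 2 ≤
        4000000 * R ^ 2 * (volume.real K * ∫ p, ‖p.2 - p.1‖ ^ 2 ∂π) + η := by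
  have hR := B.R_pos
  have hv := B.vol_pos
  set v := volume.real K with hvdef
  set V2 := volume.real (Metric.closedBall (0 : EuclideanSpace ℝ (Fin d)) (2 * R)) with hV2
  have hV20 : 0 ≤ V2 := measureReal_nonneg
  set C : ℝ := 4 * R ^ 2 with hCdef
  have hC0 : 0 < C := by positivity
  set q := ∫ p, ‖p.2 - p.1‖ ^ 2 ∂π with hq
  have hq0 : 0 ≤ q := integral_nonneg (fun _ => by positivity)
  -- choose N
  obtain ⟨N, hN⟩ := exists_nat_gt (C * V2 * (4 * R ^ 2) / (η / 6))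
  have hN0' : (0 : ℝ) < N := lt_of_le_of_lt (by positivity) hN
  have hN0 : 0 < N := by exact_mod_cast hN0'
  have hN1 : C * V2 * (4 * R ^ 2) / N ≤ η / 6 := by
    rw [div_le_iff₀ hN0']
    rw [div_lt_iff₀ (by positivity)] at hN
    linarith
  -- choose s
  set Q : ℝ := C * V2 * (4 * N * (2 * (R ^ 2 * C))) with hQ
  have hQ0 : 0 ≤ Q := by positivity
  set s : ℝ := min (1 / (2 * C)) (η / 6 / (Q + 1)) with hs
  have hs0 : 0 < s := by
    apply lt_min <;> positivity
  have hs1 : s * C ≤ 1 / 2 := by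
    calc s * C ≤ 1 / (2 * C) * C := by gcongr; exact min_le_left _ _
      _ = 1 / 2 := by field_simp
  have hs2 : s * Q ≤ η / 6 := by
    calc s * Q ≤ (η / 6 / (Q + 1)) * Q := by gcongr; exact min_le_right _ _
      _ ≤ η / 6 := by
        rw [div_mul_eq_mul_div, div_le_iff₀ (by positivity)]
        nlinarith
  refine ⟨s * η / 12, by positivity, ?_⟩
  intro φ ψ φ' ψ' A A' hδ hδ'
  set u : EuclideanSpace ℝ (Fin d) → ℝ := fun x => φ' x - φ x with hu
  have hum : Measurable u := A'.lip.continuous.measurable.sub A.lip.continuous.measurable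
  have hui : IntegrableOn u K := (lip_intOn B A'.lip).sub (lip_intOn B A.lip)
  set c : ℝ := (∫ x in K, u x) / v with hc
  refine ⟨c, ?_⟩
  set h : EuclideanSpace ℝ (Fin d) → ℝ := fun x => u x - c with hh
  have hhm : Measurable h := hum.sub_const c
  haveI : IsFiniteMeasure (volume.restrict K) := ⟨by simpa using B.vol.lt_top⟩
  have hmean : ∫ x in K, h x = 0 := by
    have : ∫ x in K, h x = (∫ x in K, u x) - ∫ _x in K, c := integral_sub hui (integrable_const c)
    rw [this, B.int_const, hc]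
    field_simp
    ring
  have hulip : ∀ x ∈ K, ∀ z ∈ K, |u x - u z| ≤ C := by
    intro x hx z hz
    have h3 := A'.lip x z
    have h4 := A.lip x z
    have h5 : ‖x - z‖ ≤ 2 * R := by
      calc _ ≤ ‖x‖ + ‖z‖ := norm_sub_le _ _
        _ ≤ _ := by linarith [B.K_R x hx, B.K_R z hz]
    have h6 : R * ‖x - z‖ ≤ 2 * R ^ 2 := by nlinarith
    calc |u x - u z| = |(φ' x - φ' z) - (φ x - φ z)| := by simp only [hu]; congr 1; ring
      _ ≤ |φ' x - φ' z| + |φ x - φ z| := abs_sub _ _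
      _ ≤ C := by rw [hCdef]; linarith
  have hhC : ∀ x ∈ K, |h x| ≤ C := by
    intro x hx
    have e : h x = (∫ z in K, (u x - u z)) / v := by
      have : ∫ z in K, (u x - u z) = (∫ _z in K, u x) - ∫ z in K, u z :=
        integral_sub (integrable_const _) hui
      rw [this, B.int_const, ← hvdef]
      simp only [hh, hc]
      field_simp
    rw [e, abs_div, abs_of_pos hv, div_le_iff₀ hv]
    have h3 : ∀ᵐ z ∂(volume.restrict K), ‖u x - u z‖ ≤ C := by
      filter_upwards [ae_restrict_mem B.meas] with z hz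
      rw [Real.norm_eq_abs]
      exact hulip x hx z hz
    have := norm_integral_le_of_norm_le_const h3
    rw [hvdef]
    simpa [Measure.real] using this
  have ht := tested B O O' π h1 h2 hπ1 hπ2 hhm hC0.le hhC hmean hs0 hs1 hN0 A A' hδ hδ'
  set H := ∫ x in K, h x ^ 2 with hH
  have hH0 : 0 ≤ H := integral_nonneg (fun _ => by positivity)
  have hhi := B.intOn hhm hhC
  have hh2i : IntegrableOn (fun x => h x ^ 2) K := by
    apply B.intOn (hhm.pow_const 2) (C := C ^ 2)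
    intro x hx
    rw [abs_pow]
    have := hhC x hx
    gcongr
  have e1 : ∫ x in K, (φ' x - φ x) * h x = H := by
    have : ∫ x in K, (φ' x - φ x) * h x = ∫ x in K, (h x ^ 2 + c * h x) := by
      congr 1; ext x; simp only [hh, hu]; ring
    rw [this, integral_add hh2i (hhi.const_mul c), integral_const_mul, hmean]
    ring
  rw [e1] at ht
  show H ≤ _
  set P := Real.sqrt (v * q) with hP
  have hP2 : P ^ 2 = v * q := Real.sq_sqrt (by positivity)
  have hH2 : Real.sqrt H ^ 2 = H := Real.sq_sqrt hH0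
  have e2 : s * (C * (V2 * (4 * R ^ 2 / N * v + 4 * N * (2 * s * (R ^ 2 * C * v))))) / v
      = s * (C * V2 * (4 * R ^ 2) / N + s * Q) := by
    rw [hQ]
    field_simp
  rw [e2] at ht
  have h3 : s * H ≤ s * (2000 * R * Real.sqrt H * P + η / 2) := by
    calc s * H ≤ _ := ht
      _ ≤ s * (2000 * R * Real.sqrt H * P) + s * (η / 6 + η / 6) + 2 * (s * η / 12) := by
        gcongr
      _ = _ := by ring
  have h4 : H ≤ 2000 * R * Real.sqrt H * P + η / 2 := le_of_mul_le_mul_left h3 hs0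
  have h5 : 2000 * R * Real.sqrt H * P ≤ H / 2 + 2000000 * R ^ 2 * (v * q) := by
    rw [← hP2]
    nlinarith [sq_nonneg (Real.sqrt H - 2000 * R * P)]
  linarith

end

end Crest.Agent.H7Stab
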