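import Mathlib
import Crest.Agent.H7Stab

set_option autoImplicit false

/-! Interpolation: from potentials to maps. -/

namespace Crest.Agent.H7Interp

open MeasureTheory Set Filter
open scoped ENNReal Topology RealInnerProductSpace
open Crest.Agent.H7Key Crest.Agent.H7SD Crest.Agent.H7Fn Crest.Agent.H7Mix Crest.Agent.H7Gen
open Crest.Agent.H7Uniq Crest.Agent.H7Stab

variable {d : ℕ}

/-- shrunk body -/
def shr (K : Set (EuclideanSpace ℝ (Fin d))) (x0 : EuclideanSpace ℝ (Fin d)) (l : ℝ) :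
    Set (EuclideanSpace ℝ (Fin d)) := AffineMap.homothety x0 (1 - l) '' K

section
variable {K : Set (EuclideanSpace ℝ (Fin d))} {R r : ℝ} {x0 : EuclideanSpace ℝ (Fin d)}

theorem shr_meas (B : Body K R r x0) (l : ℝ) : MeasurableSet (shr K x0 l) := by
  have : IsCompact (shr K x0 l) := B.compact.image (AffineMap.homothety_continuous x0 (1 - l))
  exact this.isClosed.measurableSet

theorem shr_mem (B : Body K R r x0) {l : ℝ} (hl0 : 0 < l) (hl1 : l ≤ 1)
    {x e : EuclideanSpace ℝ (Fin d)} (hx : x ∈ shr K x0 l) (he : ‖e‖ ≤ l * r) : x + e ∈ K := by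
  obtain ⟨z, hz, rfl⟩ := hx
  have e1 : AffineMap.homothety x0 (1 - l) z + e = (1 - l) • z + l • (x0 + l⁻¹ • e) := by
    rw [AffineMap.homothety_apply, vsub_eq_sub, vadd_eq_add, smul_add, smul_smul,
      mul_inv_cancel₀ hl0.ne', one_smul, smul_sub, sub_smul, sub_smul, one_smul, one_smul]
    abel
  rw [e1]
  apply B.convex hz _ (by linarith) hl0.le (by ring)
  apply B.ball
  rw [Metric.mem_closedBall, dist_eq_norm]
  have : x0 + l⁻¹ • e - x0 = l⁻¹ • e := by abel
  rw [this, norm_smul, norm_inv, Real.norm_of_nonneg hl0.le, inv_mul_le_iff₀ hl0]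
  exact he

theorem shr_sub (B : Body K R r x0) {l : ℝ} (hl0 : 0 < l) (hl1 : l ≤ 1) : shr K x0 l ⊆ K := by
  intro x hx
  have := shr_mem B hl0 hl1 hx (e := 0) (by
    rw [norm_zero]; have := B.r_pos; positivity)
  rwa [add_zero] at this

theorem shr_vol (B : Body K R r x0) {l : ℝ} (hl1 : l ≤ 1) :
    volume.real K - volume.real (shr K x0 l) ≤ d * l * volume.real K := by
  have h1 : volume.real (shr K x0 l) = (1 - l) ^ d * volume.real K := by
    unfold shr Measure.real
    rw [Measure.addHaar_image_homothety, ENNReal.toReal_mul, finrank_euclideanSpace_fin,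
      ENNReal.toReal_ofReal (abs_nonneg _), abs_of_nonneg (pow_nonneg (by linarith) d)]
  rw [h1]
  have h2 : 1 + (d : ℝ) * (-l) ≤ (1 + (-l)) ^ d := one_add_mul_le_pow (by linarith) d
  have h3 := B.vol_pos
  have h4 : (1 - l) ^ d = (1 + (-l)) ^ d := by ring
  rw [h4]
  nlinarith

/-- change of variables -/
theorem shift_int {A : Set (EuclideanSpace ℝ (Fin d))} (hA : MeasurableSet A)
    (b : EuclideanSpace ℝ (Fin d)) (f : EuclideanSpace ℝ (Fin d) → ℝ) :
    ∫ x in A, f (x + b) = ∫ x in {x | x - b ∈ A}, f x := by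
  have hA' : MeasurableSet {x | x - b ∈ A} := (measurable_id.sub_const b) hA
  rw [← integral_indicator hA, ← integral_indicator hA']
  rw [← integral_add_right_eq_self (μ := volume)
    (fun x => {x | x - b ∈ A}.indicator (fun x => f x) x) b]
  congr 1
  ext x
  by_cases hx : x ∈ A
  · rw [indicator_of_mem hx, indicator_of_mem]
    show x + b - b ∈ A
    simpa using hx
  · rw [indicator_of_notMem hx, indicator_of_notMem]
    show ¬ (x + b - b ∈ A)
    simpa using hx

/-- shifts stay under the integral over `K` -/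
theorem shift_le (B : Body K R r x0) {A : Set (EuclideanSpace ℝ (Fin d))} (hA : MeasurableSet A)
    {b : EuclideanSpace ℝ (Fin d)} (hAK : ∀ x ∈ A, x + b ∈ K)
    {f : EuclideanSpace ℝ (Fin d) → ℝ} (hf : IntegrableOn f K) (hf0 : ∀ x, 0 ≤ f x) :
    ∫ x in A, f (x + b) ≤ ∫ x in K, f x := by
  rw [shift_int hA]
  apply setIntegral_mono_set hf (Eventually.of_forall hf0)
  apply Eventually.of_forall
  intro x hx
  have := hAK (x - b) hx
  rwa [sub_add_cancel] at this

/-- integral of the second difference -/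
theorem second_diff_int (B : Body K R r x0) {f : EuclideanSpace ℝ (Fin d) → ℝ} (hf : Lip R f)
    {A : Set (EuclideanSpace ℝ (Fin d))} (hA : MeasurableSet A)
    {e : EuclideanSpace ℝ (Fin d)} (hAK : A ⊆ K) (hAK1 : ∀ x ∈ A, x + e ∈ K)
    (hAK2 : ∀ x ∈ A, x - e ∈ K) :
    ∫ x in A, (f (x + e) + f (x - e) - 2 * f x)
      ≤ 2 * (R * ‖e‖) * (volume.real K - volume.real A) := by
  have hR := B.R_pos
  set G : EuclideanSpace ℝ (Fin d) → ℝ := fun x => f (x + e) - f x with hG
  have hGm : Measurable G := by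
    have := hf.continuous
    have h2 : Continuous G := by fun_prop
    exact h2.measurable
  have hGb : ∀ x, |G x| ≤ R * ‖e‖ := by
    intro x
    have := hf (x + e) x
    simpa [hG] using this
  have hGK : IntegrableOn G K := B.intOn hGm (fun x _ => hGb x)
  set A' : Set (EuclideanSpace ℝ (Fin d)) := {x | x - (-e) ∈ A} with hA'
  have hA'm : MeasurableSet A' := (measurable_id.sub_const (-e)) hA
  have hA'K : A' ⊆ K := by
    intro x hx
    have h1 : x - (-e) ∈ A := hx
    have := hAK2 _ h1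
    have e1 : x - -e - e = x := by abel
    rwa [e1] at this
  have hvA' : volume.real A' = volume.real A := by
    unfold Measure.real
    congr 1
    have : A' = (fun x => x + e) ⁻¹' A := by
      ext x; simp [hA']
    rw [this, measure_preimage_add_right]
  have h1 : ∫ x in A, (f (x + e) + f (x - e) - 2 * f x) = (∫ x in A, G x) - ∫ x in A', G x := by
    have h2 : ∫ x in A, G (x + (-e)) = ∫ x in A', G x := shift_int hA (-e) G
    rw [← h2, ← integral_sub (hGK.mono_set hAK)]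
    · congr 1; ext x
      simp only [hG]
      have e1 : x + -e + e = x := by abel
      have e2 : x + -e = x - e := by abel
      rw [e1, e2]; ring
    · apply Measure.integrableOn_of_bounded (measure_ne_top_of_subset hAK B.vol)
        (hGm.comp (measurable_id.add_const (-e))).aestronglyMeasurable (M := R * ‖e‖)
      filter_upwards with x
      exact hGb _
  have h3 : ∀ S : Set (EuclideanSpace ℝ (Fin d)), MeasurableSet S → S ⊆ K →
      ∫ x in S, G x = (∫ x in K, G x) - ∫ x in K \ S, G x := by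
    intro S hS hSK
    rw [setIntegral_sdiff hS hGK hSK]; ring
  have h4 : ∀ S : Set (EuclideanSpace ℝ (Fin d)), MeasurableSet S → S ⊆ K →
      |∫ x in K \ S, G x| ≤ (R * ‖e‖) * (volume.real K - volume.real S) := by
    intro S hS hSK
    have h5 := norm_setIntegral_le_of_norm_le_const (f := G) (s := K \ S) (C := R * ‖e‖)
      (μ := volume) ((measure_mono sdiff_subset).trans_lt B.vol.lt_top) (fun x _ => hGb x)
    rw [Real.norm_eq_abs, measureReal_sdiff hSK hS B.vol] at h5
    exact h5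
  rw [h1, h3 A hA hAK, h3 A' hA'm hA'K]
  have h6 := abs_le.mp (h4 A hA hAK)
  have h7 := abs_le.mp (h4 A' hA'm hA'K)
  rw [hvA'] at h7
  linarith [h6.1, h7.2]

end

section
variable {K : Set (EuclideanSpace ℝ (Fin d))} {R r : ℝ} {x0 : EuclideanSpace ℝ (Fin d)}
  {T T' : EuclideanSpace ℝ (Fin d) → EuclideanSpace ℝ (Fin d)}
  {φ ψ φ' ψ' : EuclideanSpace ℝ (Fin d) → ℝ}

/-- pointwise estimate in one direction -/
theorem pointwise (B : Body K R r x0) (A : Adm K R φ ψ) (A' : Adm K R φ' ψ')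
    (hT : ∀ x, ‖T x‖ ≤ R) (hT' : ∀ x, ‖T' x‖ ≤ R) (c : ℝ)
    {x e : EuclideanSpace ℝ (Fin d)} (hx : x ∈ K) (hx1 : x + e ∈ K) (hx2 : x - e ∈ K) :
    ⟪e, T' x - T x⟫ ^ 2 ≤ 3 * ((φ' (x + e) - φ (x + e) - c) ^ 2 + (φ' x - φ x - c) ^ 2
        + (φ' (x - e) - φ (x - e) - c) ^ 2)
      + 4 * R * ‖e‖ * ((φ (x + e) + φ (x - e) - 2 * φ x) + 3 * dft T φ ψ x + dft T' φ' ψ' x) := by
  have hR := B.R_pos
  have a1 := sub_ineq A' hT' (x := x) hx1
  have a2 := sub_ineq A' hT' (x := x) hx2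
  have a3 := sub_ineq A hT (x := x) hx1
  have a4 := sub_ineq A hT (x := x) hx2
  have e1 : x + e - x = e := by abel
  have e2 : x - e - x = -e := by abel
  rw [e1] at a1 a3
  rw [e2, inner_neg_left] at a2 a4
  have n1 := dft_nonneg A hT hx
  have n2 := dft_nonneg A' hT' hx
  rw [inner_sub_right]
  set D := dft T φ ψ x
  set D' := dft T' φ' ψ' x
  set a := ⟪e, T' x⟫ - ⟪e, T x⟫ with ha
  set P := |φ' (x + e) - φ (x + e) - c| + |φ' x - φ x - c| + |φ' (x - e) - φ (x - e) - c| with hP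
  set Q := (φ (x + e) + φ (x - e) - 2 * φ x) + 3 * D + D' with hQ
  have hQ0 : 0 ≤ Q := by rw [hQ]; linarith
  have hP0 : 0 ≤ P := by positivity
  have hab : |a| ≤ P + Q := by
    have b1 := le_abs_self (φ' (x + e) - φ (x + e) - c)
    have b2 := neg_abs_le (φ' (x + e) - φ (x + e) - c)
    have b3 := le_abs_self (φ' x - φ x - c)
    have b4 := neg_abs_le (φ' x - φ x - c)
    have b5 := le_abs_self (φ' (x - e) - φ (x - e) - c)
    have b6 := neg_abs_le (φ' (x - e) - φ (x - e) - c)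
    have b7 := abs_nonneg (φ' (x + e) - φ (x + e) - c)
    have b8 := abs_nonneg (φ' (x - e) - φ (x - e) - c)
    rw [abs_le]
    constructor <;> simp only [hP, hQ, ha] <;> linarith
  have haR : |a| ≤ 2 * R * ‖e‖ := by
    have : a = ⟪e, T' x - T x⟫ := by rw [inner_sub_right]
    rw [this]
    refine (abs_real_inner_le_norm _ _).trans ?_
    have h1 : ‖T' x - T x‖ ≤ R + R := (norm_sub_le _ _).trans (add_le_add (hT' x) (hT x))
    nlinarith [norm_nonneg e]
  have ha0 := abs_nonneg a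
  have h1 : a ^ 2 ≤ P ^ 2 + 4 * R * ‖e‖ * Q := by
    have h2 : a ^ 2 = |a| * |a| := by rw [← sq, sq_abs]
    have h3 : |a| * |a| ≤ |a| * (P + Q) := mul_le_mul_of_nonneg_left hab ha0
    have h4 : |a| * Q ≤ 2 * R * ‖e‖ * Q := mul_le_mul_of_nonneg_right haR hQ0
    nlinarith [sq_nonneg (|a| - P)]
  have h2 : P ^ 2 ≤ 3 * ((φ' (x + e) - φ (x + e) - c) ^ 2 + (φ' x - φ x - c) ^ 2
        + (φ' (x - e) - φ (x - e) - c) ^ 2) := by
    rw [hP, ← sq_abs (φ' (x + e) - φ (x + e) - c), ← sq_abs (φ' x - φ x - c),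
      ← sq_abs (φ' (x - e) - φ (x - e) - c)]
    nlinarith [sq_nonneg (|φ' (x + e) - φ (x + e) - c| - |φ' x - φ x - c|),
      sq_nonneg (|φ' (x + e) - φ (x + e) - c| - |φ' (x - e) - φ (x - e) - c|),
      sq_nonneg (|φ' x - φ x - c| - |φ' (x - e) - φ (x - e) - c|)]
  linarith

/-- integrated estimate in one direction -/
theorem one_direction (B : Body K R r x0) (A : Adm K R φ ψ) (A' : Adm K R φ' ψ')
    (hTm : Measurable T) (hT'm : Measurable T')
    (hT : ∀ x, ‖T x‖ ≤ R) (hT' : ∀ x, ‖T' x‖ ≤ R) (c : ℝ) {δ : ℝ}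
    (hδ : ∫ x in K, dft T φ ψ x ≤ δ) (hδ' : ∫ x in K, dft T' φ' ψ' x ≤ δ)
    {l : ℝ} (hl0 : 0 < l) (hl1 : l ≤ 1) {e : EuclideanSpace ℝ (Fin d)} (he : ‖e‖ ≤ l * r) :
    ∫ x in shr K x0 l, ⟪e, T' x - T x⟫ ^ 2 ≤ 9 * (∫ x in K, (φ' x - φ x - c) ^ 2)
      + 4 * R * ‖e‖ * (2 * (R * ‖e‖) * (d * l * volume.real K) + 4 * δ) := by
  have hR := B.R_pos
  set S := shr K x0 l with hS
  have hSm : MeasurableSet S := shr_meas B l
  have hSK : S ⊆ K := shr_sub B hl0 hl1
  have hS1 : ∀ x ∈ S, x + e ∈ K := fun x hx => shr_mem B hl0 hl1 hx he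
  have hS2 : ∀ x ∈ S, x + (-e) ∈ K := fun x hx =>
    shr_mem B hl0 hl1 hx (by rwa [norm_neg])
  set u : EuclideanSpace ℝ (Fin d) → ℝ := fun x => φ' x - φ x - c with hu
  have huc : Continuous u := by
    have := A.lip.continuous
    have := A'.lip.continuous
    fun_prop
  have hub : ∀ x ∈ K, |u x| ≤ |φ' 0| + R * R + (|φ 0| + R * R) + |c| := by
    intro x hx
    calc |φ' x - φ x - c| ≤ |φ' x - φ x| + |c| := abs_sub _ _
      _ ≤ |φ' x| + |φ x| + |c| := by gcongr; exact abs_sub _ _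
      _ ≤ _ := by
        gcongr
        · exact lip_bd B A'.lip (B.K_R x hx)
        · exact lip_bd B A.lip (B.K_R x hx)
  set M := |φ' 0| + R * R + (|φ 0| + R * R) + |c| with hM
  have hM0 : 0 ≤ M := by positivity
  have hu2 : IntegrableOn (fun x => u x ^ 2) K := by
    apply B.intOn (huc.measurable.pow_const 2) (C := M ^ 2)
    intro x hx
    rw [abs_pow]
    have := hub x hx
    gcongr
  have hSt : volume S ≠ ⊤ := measure_ne_top_of_subset hSK B.vol
  have i1 : IntegrableOn (fun x => u (x + e) ^ 2) S := by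
    apply integrableOn_bdd hSt (by fun_prop : Measurable _) (C := M ^ 2) hSm
    intro x hx
    rw [abs_pow]
    have := hub _ (hS1 x hx)
    gcongr
  have i2 : IntegrableOn (fun x => u x ^ 2) S := hu2.mono_set hSK
  have i3 : IntegrableOn (fun x => u (x + (-e)) ^ 2) S := by
    apply integrableOn_bdd hSt (by fun_prop : Measurable _) (C := M ^ 2) hSm
    intro x hx
    rw [abs_pow]
    have := hub _ (hS2 x hx)
    gcongr
  have hφc := A.lip.continuous
  have i4 : IntegrableOn (fun x => φ (x + e) + φ (x - e) - 2 * φ x) S := by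
    have hg : Continuous (fun x => φ (x + e) + φ (x - e) - 2 * φ x) := by fun_prop
    apply integrableOn_bdd hSt hg.measurable
      (C := (|φ 0| + R * R) + (|φ 0| + R * R) + 2 * (|φ 0| + R * R)) hSm
    intro x hx
    have b1 := lip_bd B A.lip (B.K_R _ (hS1 x hx))
    have b2 := lip_bd B A.lip (B.K_R _ (hS2 x hx))
    rw [← sub_eq_add_neg] at b2
    have b3 := lip_bd B A.lip (B.K_R _ (hSK hx))
    calc _ ≤ |φ (x + e) + φ (x - e)| + |2 * φ x| := abs_sub _ _
      _ ≤ (|φ (x + e)| + |φ (x - e)|) + 2 * |φ x| := by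
        gcongr
        · exact abs_add_le _ _
        · rw [abs_mul, abs_two]
      _ ≤ _ := by gcongr
  have i5 := (dft_int B A hTm hT).mono_set hSK
  have i6 := (dft_int B A' hT'm hT').mono_set hSK
  have iL : IntegrableOn (fun x => ⟪e, T' x - T x⟫ ^ 2) S := by
    apply integrableOn_bdd hSt ((measurable_const.inner (hT'm.sub hTm)).pow_const 2)
      (C := (‖e‖ * (R + R)) ^ 2) hSm
    intro x hx
    rw [abs_pow]
    have h1 : |⟪e, T' x - T x⟫| ≤ ‖e‖ * (R + R) := by
      refine (abs_real_inner_le_norm _ _).trans ?_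
      gcongr
      exact (norm_sub_le _ _).trans (add_le_add (hT' x) (hT x))
    exact pow_le_pow_left₀ (abs_nonneg _) h1 2
  have main : ∫ x in S, ⟪e, T' x - T x⟫ ^ 2 ≤ ∫ x in S,
      (3 * ((u (x + e) ^ 2 + u x ^ 2) + u (x + (-e)) ^ 2)
      + 4 * R * ‖e‖ * (((φ (x + e) + φ (x - e) - 2 * φ x) + 3 * dft T φ ψ x)
        + dft T' φ' ψ' x)) := by
    apply setIntegral_mono_on iL _ hSm
    · intro x hx
      have := pointwise B A A' hT hT' c (hSK hx) (hS1 x hx) (by
        have := hS2 x hx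
        rwa [← sub_eq_add_neg] at this)
      simp only [hu, ← sub_eq_add_neg]
      exact this
    · exact (((i1.add i2).add i3).const_mul 3).add
        (((i4.add (i5.const_mul 3)).add i6).const_mul (4 * R * ‖e‖))
  have split : ∫ x in S,
      (3 * ((u (x + e) ^ 2 + u x ^ 2) + u (x + (-e)) ^ 2)
      + 4 * R * ‖e‖ * (((φ (x + e) + φ (x - e) - 2 * φ x) + 3 * dft T φ ψ x)
        + dft T' φ' ψ' x))
      = 3 * ((∫ x in S, u (x + e) ^ 2) + (∫ x in S, u x ^ 2) + ∫ x in S, u (x + (-e)) ^ 2)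
      + 4 * R * ‖e‖ * ((∫ x in S, (φ (x + e) + φ (x - e) - 2 * φ x))
        + 3 * (∫ x in S, dft T φ ψ x) + ∫ x in S, dft T' φ' ψ' x) := by
    have j1 : IntegrableOn (fun x => u (x + e) ^ 2 + u x ^ 2) S := i1.add i2
    have j2 : IntegrableOn (fun x => (u (x + e) ^ 2 + u x ^ 2) + u (x + (-e)) ^ 2) S := j1.add i3
    have j3 : IntegrableOn (fun x => (φ (x + e) + φ (x - e) - 2 * φ x) + 3 * dft T φ ψ x) S :=
      i4.add (i5.const_mul 3)
    have j4 : IntegrableOn (fun x => ((φ (x + e) + φ (x - e) - 2 * φ x) + 3 * dft T φ ψ x)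
        + dft T' φ' ψ' x) S := j3.add i6
    rw [integral_add (j2.const_mul 3) (j4.const_mul (4 * R * ‖e‖)), integral_const_mul,
      integral_const_mul, integral_add j1 i3, integral_add i1 i2, integral_add j3 i6,
      integral_add i4 (i5.const_mul 3), integral_const_mul]
  rw [split] at main
  have hu0 : ∀ x, 0 ≤ (fun x => u x ^ 2) x := fun x => by positivity
  have k1 : ∫ x in S, u (x + e) ^ 2 ≤ ∫ x in K, u x ^ 2 := shift_le B hSm hS1 hu2 hu0
  have k2 : ∫ x in S, u x ^ 2 ≤ ∫ x in K, u x ^ 2 :=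
    setIntegral_mono_set hu2 (Eventually.of_forall hu0) (Eventually.of_forall hSK)
  have k3 : ∫ x in S, u (x + (-e)) ^ 2 ≤ ∫ x in K, u x ^ 2 := shift_le B hSm hS2 hu2 hu0
  have k4 := second_diff_int B A.lip hSm (e := e) hSK hS1 (fun x hx => by
    have := hS2 x hx
    rwa [← sub_eq_add_neg] at this)
  have k5 : ∫ x in S, dft T φ ψ x ≤ δ := by
    refine le_trans ?_ hδ
    apply setIntegral_mono_set (dft_int B A hTm hT) _ (Eventually.of_forall hSK)
    filter_upwards [ae_restrict_mem B.meas] with x hx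
    exact dft_nonneg A hT hx
  have k6 : ∫ x in S, dft T' φ' ψ' x ≤ δ := by
    refine le_trans ?_ hδ'
    apply setIntegral_mono_set (dft_int B A' hT'm hT') _ (Eventually.of_forall hSK)
    filter_upwards [ae_restrict_mem B.meas] with x hx
    exact dft_nonneg A' hT' hx
  have k7 := shr_vol B hl1
  have k8 : 2 * (R * ‖e‖) * (volume.real K - volume.real S)
      ≤ 2 * (R * ‖e‖) * (d * l * volume.real K) := by gcongr
  refine main.trans ?_
  have k9 : (∫ x in S, (φ (x + e) + φ (x - e) - 2 * φ x))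
        + 3 * (∫ x in S, dft T φ ψ x) + ∫ x in S, dft T' φ' ψ' x
      ≤ 2 * (R * ‖e‖) * (d * l * volume.real K) + 4 * δ := by linarith
  have k10 : 0 ≤ 4 * R * ‖e‖ := by positivity
  have k11 := mul_le_mul_of_nonneg_left k9 k10
  linarith

/-- The interpolation estimate. -/
theorem interp (B : Body K R r x0) (A : Adm K R φ ψ) (A' : Adm K R φ' ψ')
    (hTm : Measurable T) (hT'm : Measurable T')
    (hT : ∀ x, ‖T x‖ ≤ R) (hT' : ∀ x, ‖T' x‖ ≤ R) (c : ℝ) {δ : ℝ}
    (hδ : ∫ x in K, dft T φ ψ x ≤ δ) (hδ' : ∫ x in K, dft T' φ' ψ' x ≤ δ)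
    {t : ℝ} (ht0 : 0 < t) (ht1 : t ≤ r) :
    ∫ x in K, ‖T' x - T x‖ ^ 2 ≤ 9 * d / t ^ 2 * (∫ x in K, (φ' x - φ x - c) ^ 2)
      + (8 * R ^ 2 * d ^ 2 + 4 * R ^ 2 * d) * volume.real K / r * t + 16 * R * d * δ / t := by
  have hR := B.R_pos
  have hr := B.r_pos
  have hv := B.vol_pos
  set v := volume.real K with hvdef
  set l := t / r with hl
  have hl0 : 0 < l := by positivity
  have hl1 : l ≤ 1 := by rw [hl, div_le_one hr]; exact ht1
  have hlr : l * r = t := by rw [hl]; field_simp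
  set S := shr K x0 l with hS
  have hSm : MeasurableSet S := shr_meas B l
  have hSK : S ⊆ K := shr_sub B hl0 hl1
  have hb : ∀ x, ‖T' x - T x‖ ^ 2 ≤ 4 * R ^ 2 := by
    intro x
    have h1 : ‖T' x - T x‖ ≤ R + R := (norm_sub_le _ _).trans (add_le_add (hT' x) (hT x))
    calc ‖T' x - T x‖ ^ 2 ≤ (R + R) ^ 2 := by gcongr
      _ = _ := by ring
  have hi : IntegrableOn (fun x => ‖T' x - T x‖ ^ 2) K := by
    apply B.intOn ((hT'm.sub hTm).norm.pow_const 2) (C := 4 * R ^ 2)
    intro x _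
    rw [abs_of_nonneg (by positivity)]
    exact hb x
  have hsplit : ∫ x in K, ‖T' x - T x‖ ^ 2
      = (∫ x in S, ‖T' x - T x‖ ^ 2) + ∫ x in K \ S, ‖T' x - T x‖ ^ 2 := by
    rw [setIntegral_sdiff hSm hi hSK]; ring
  have hbdry : ∫ x in K \ S, ‖T' x - T x‖ ^ 2 ≤ 4 * R ^ 2 * (d * l * v) := by
    have h5 := norm_setIntegral_le_of_norm_le_const (f := fun x => ‖T' x - T x‖ ^ 2)
      (s := K \ S) (C := 4 * R ^ 2)
      (μ := volume) ((measure_mono sdiff_subset).trans_lt B.vol.lt_top) (fun x _ => by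
        rw [Real.norm_eq_abs, abs_of_nonneg (by positivity)]
        exact hb x)
    rw [Real.norm_eq_abs, measureReal_sdiff hSK hSm B.vol] at h5
    refine (le_abs_self _).trans (h5.trans ?_)
    have := shr_vol B hl1
    gcongr
  have hdir : ∀ j : Fin d, ∫ x in S, ⟪t • (EuclideanSpace.single j (1 : ℝ) : EuclideanSpace ℝ (Fin d)), T' x - T x⟫ ^ 2
      ≤ 9 * (∫ x in K, (φ' x - φ x - c) ^ 2)
      + 4 * R * t * (2 * (R * t) * (d * l * v) + 4 * δ) := by
    intro j
    have hnorm : ‖t • (EuclideanSpace.single j (1 : ℝ) : EuclideanSpace ℝ (Fin d))‖ = t := by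
      rw [norm_smul, Real.norm_of_nonneg ht0.le]; simp
    have := one_direction B A A' hTm hT'm hT hT' c hδ hδ' hl0 hl1
      (e := t • (EuclideanSpace.single j (1 : ℝ) : EuclideanSpace ℝ (Fin d)))
      (by rw [hnorm, hlr])
    rw [hnorm] at this
    exact this
  have hcoord : ∀ x, t ^ 2 * ‖T' x - T x‖ ^ 2
      = ∑ j : Fin d, ⟪t • (EuclideanSpace.single j (1 : ℝ) : EuclideanSpace ℝ (Fin d)), T' x - T x⟫ ^ 2 := by
    intro x
    rw [EuclideanSpace.real_norm_sq_eq, Finset.mul_sum]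
    apply Finset.sum_congr rfl
    intro j _
    rw [real_inner_smul_left, EuclideanSpace.inner_single_left]
    simp; ring
  have hsum : t ^ 2 * ∫ x in S, ‖T' x - T x‖ ^ 2 ≤
      d * (9 * (∫ x in K, (φ' x - φ x - c) ^ 2)
      + 4 * R * t * (2 * (R * t) * (d * l * v) + 4 * δ)) := by
    rw [← integral_const_mul]
    simp_rw [hcoord]
    rw [integral_finsetSum]
    · calc _ ≤ ∑ j : Fin d, (9 * (∫ x in K, (φ' x - φ x - c) ^ 2)
            + 4 * R * t * (2 * (R * t) * (d * l * v) + 4 * δ)) :=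
            Finset.sum_le_sum (fun j _ => hdir j)
        _ = _ := by rw [Finset.sum_const, Finset.card_univ, Fintype.card_fin, nsmul_eq_mul]
    · intro j _
      apply integrableOn_bdd (measure_ne_top_of_subset hSK B.vol)
        ((measurable_const.inner (hT'm.sub hTm)).pow_const 2) (C := (t * (R + R)) ^ 2) hSm
      intro x _
      rw [abs_pow]
      have h1 : |⟪t • (EuclideanSpace.single j (1 : ℝ) : EuclideanSpace ℝ (Fin d)), T' x - T x⟫| ≤ t * (R + R) := by
        refine (abs_real_inner_le_norm _ _).trans ?_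
        have hnorm : ‖t • (EuclideanSpace.single j (1 : ℝ) : EuclideanSpace ℝ (Fin d))‖ = t := by
          rw [norm_smul, Real.norm_of_nonneg ht0.le]; simp
        rw [hnorm]
        gcongr
        exact (norm_sub_le _ _).trans (add_le_add (hT' x) (hT x))
      exact pow_le_pow_left₀ (abs_nonneg _) h1 2
  have ht2 : 0 < t ^ 2 := by positivity
  have h1 : ∫ x in S, ‖T' x - T x‖ ^ 2 ≤ (d * (9 * (∫ x in K, (φ' x - φ x - c) ^ 2)
      + 4 * R * t * (2 * (R * t) * (d * l * v) + 4 * δ))) / t ^ 2 := by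
    rw [le_div_iff₀ ht2]; linarith
  have h2 : (d * (9 * (∫ x in K, (φ' x - φ x - c) ^ 2)
      + 4 * R * t * (2 * (R * t) * (d * l * v) + 4 * δ))) / t ^ 2
      = 9 * d / t ^ 2 * (∫ x in K, (φ' x - φ x - c) ^ 2) + 8 * R ^ 2 * d ^ 2 * v / r * t
        + 16 * R * d * δ / t := by
    rw [hl]; field_simp; ring
  have h3 : 4 * R ^ 2 * (d * l * v) = 4 * R ^ 2 * d * v / r * t := by rw [hl]; ring
  rw [hsplit]
  rw [h2] at h1
  rw [h3] at hbdry
  calc _ ≤ _ := add_le_add h1 hbdry
    _ = _ := by ring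

end

end Crest.Agent.H7Interp
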