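import Mathlib
import Crest.Agent.H7Stab
import Crest.Prelude.Def_QuadraticTransport

set_option autoImplicit false

/-! From Monge-optimal maps to near-optimal potentials. -/

namespace Crest.Agent.H7Monge

open MeasureTheory Set Filter ProbabilityTheory
open scoped ENNReal Topology RealInnerProductSpace
open Crest.Agent.H7Key Crest.Agent.H7SD Crest.Agent.H7Fn Crest.Agent.H7Mix Crest.Agent.H7Gen
open Crest.Agent.H7Uniq Crest.Agent.H7Stab Crest.AnalysisR.OT

variable {d : ℕ}

/-- an atomless probability on the line can be pushed to the uniform one -/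
theorem exists_map_unif (m : Measure ℝ) [IsProbabilityMeasure m] (hm : ∀ x, m {x} = 0) :
    ∃ F : ℝ → unitInterval, Measurable F ∧ m.map F = volume := by
  set F : ℝ → unitInterval := fun t => ⟨cdf m t, cdf_nonneg m t, cdf_le_one m t⟩ with hF
  have hFm : Measurable F := (monotone_cdf m).measurable.subtype_mk
  refine ⟨F, hFm, ?_⟩
  haveI : IsProbabilityMeasure (m.map F) := Measure.isProbabilityMeasure_map hFm.aemeasurable
  apply Measure.ext_of_Iic
  intro x
  rw [Measure.map_apply hFm measurableSet_Iic, unitInterval.volume_Iic]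
  have hL : F ⁻¹' Iic x = {t | cdf m t ≤ x} := rfl
  rw [hL]
  set L : Set ℝ := {t | cdf m t ≤ x} with hLdef
  rcases eq_or_lt_of_le x.2.2 with hx1 | hx1
  · have : L = univ := by
      ext t
      simp only [hLdef, mem_univ, iff_true]
      show cdf m t ≤ x
      rw [hx1]; exact cdf_le_one m t
    rw [this, hx1]; simp
  obtain ⟨t0, ht0⟩ := ((tendsto_cdf_atTop m).eventually (eventually_gt_nhds hx1)).exists
  have hbdd : BddAbove L := by
    refine ⟨t0, fun t ht => ?_⟩
    by_contra hcon
    push Not at hcon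
    have := monotone_cdf m hcon.le
    have ht' : cdf m t ≤ x := ht
    linarith
  by_cases hne : L.Nonempty
  swap
  · rw [not_nonempty_iff_eq_empty] at hne
    have h0 : (x : ℝ) ≤ 0 := by
      apply ge_of_tendsto (tendsto_cdf_atBot m)
      filter_upwards with t
      by_contra hcon
      push Not at hcon
      have : t ∈ L := hcon.le
      rw [hne] at this
      exact this
    have h1 : (x : ℝ) = 0 := le_antisymm h0 x.2.1
    rw [hne, h1]; simp
  set b := sSup L with hb
  have c1 : (x : ℝ) ≤ cdf m b := by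
    by_contra hcon
    push Not at hcon
    have hrc : Tendsto (cdf m) (𝓝[>] b) (𝓝 (cdf m b)) :=
      ((cdf m).right_continuous b).mono_left (nhdsWithin_mono b Ioi_subset_Ici_self)
    obtain ⟨t, ht1, ht2⟩ := ((hrc.eventually (eventually_lt_nhds hcon)).and
      self_mem_nhdsWithin).exists
    have : t ∈ L := ht1.le
    have := le_csSup hbdd this
    exact absurd ht2 (not_lt.mpr this)
  have c2 : Function.leftLim (cdf m) b ≤ x := by
    apply le_of_tendsto ((monotone_cdf m).tendsto_leftLim b)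
    filter_upwards [self_mem_nhdsWithin] with t ht
    obtain ⟨t', ht', htt'⟩ := exists_lt_of_lt_csSup hne ht
    exact (monotone_cdf m htt'.le).trans ht'
  have c3 : cdf m b ≤ Function.leftLim (cdf m) b := by
    have h1 := (cdf m).measure_singleton b
    rw [measure_cdf, hm b] at h1
    have := ENNReal.ofReal_eq_zero.mp h1.symm
    linarith
  have hLe : L = Iic b := by
    ext t
    constructor
    · intro ht; exact le_csSup hbdd ht
    · intro ht
      show cdf m t ≤ x
      exact (monotone_cdf m ht).trans (c3.trans c2)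
  rw [hLe, ← ofReal_cdf]
  congr 1
  exact le_antisymm (c3.trans c2) c1

/-- a transport map from the uniform measure on a set to any probability -/
theorem exists_transport (hd : 0 < d) {V : Set (EuclideanSpace ℝ (Fin d))}
    (hVm : MeasurableSet V) (hV0 : volume V ≠ 0) (hV1 : volume V ≠ ⊤)
    (ν : Measure (EuclideanSpace ℝ (Fin d))) [IsProbabilityMeasure ν] :
    ∃ S : EuclideanSpace ℝ (Fin d) → EuclideanSpace ℝ (Fin d), Measurable S ∧
      (cond volume V).map S = ν := by
  haveI : IsProbabilityMeasure (cond volume V) :=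
    cond_isProbabilityMeasure_of_finite hV0 hV1
  set p : EuclideanSpace ℝ (Fin d) → ℝ := fun x => x ⟨0, hd⟩ with hp
  have hpm : Measurable p := by
    have : Continuous p := by fun_prop
    exact this.measurable
  haveI : IsProbabilityMeasure ((cond volume V).map p) :=
    Measure.isProbabilityMeasure_map hpm.aemeasurable
  have hat : ∀ c, (cond volume V).map p {c} = 0 := by
    intro c
    rw [Measure.map_apply hpm (measurableSet_singleton c), cond_apply hVm]
    have h1 : volume (V ∩ p ⁻¹' {c}) = 0 := by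
      apply measure_mono_null inter_subset_right
      have h2 := hyperplane_null (d := d) (EuclideanSpace.single ⟨0, hd⟩ (1 : ℝ)) (by
        intro h
        have := congrArg (fun v : EuclideanSpace ℝ (Fin d) => v ⟨0, hd⟩) h
        simp at this) c
      convert h2 using 2
      ext x
      simp [hp, EuclideanSpace.inner_single_right]
    rw [h1, mul_zero]
  obtain ⟨F, hFm, hF⟩ := exists_map_unif _ hat
  obtain ⟨f, hfm, hf⟩ := Measure.exists_measurable_map_eq ν
  refine ⟨fun x => f (F (p x)), hfm.comp (hFm.comp hpm), ?_⟩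
  have e : (cond volume V).map (fun x => f (F (p x)))
      = (((cond volume V).map p).map F).map f := by
    rw [Measure.map_map hfm hFm, Measure.map_map (hfm.comp hFm) hpm]
    rfl
  rw [e, hF, hf]

section
variable {K : Set (EuclideanSpace ℝ (Fin d))} {R r : ℝ} {x0 : EuclideanSpace ℝ (Fin d)}

theorem volK_ne_zero (B : Body K R r x0) : volume K ≠ 0 := by
  intro h
  have := B.vol_pos
  rw [Measure.real, h] at this
  simp at this

theorem rho_prob (B : Body K R r x0) : IsProbabilityMeasure (uniformProbOn K) := by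
  constructor
  unfold uniformProbOn
  rw [Measure.smul_apply, Measure.restrict_apply_univ, smul_eq_mul,
    ENNReal.inv_mul_cancel (volK_ne_zero B) B.vol]

theorem int_rho (B : Body K R r x0) (f : EuclideanSpace ℝ (Fin d) → ℝ) :
    ∫ x in K, f x = volume.real K * ∫ x, f x ∂(uniformProbOn K) := by
  unfold uniformProbOn
  rw [integral_smul_measure, smul_eq_mul, ← mul_assoc, ENNReal.toReal_inv]
  have := B.vol_pos
  unfold Measure.real at *
  rw [mul_inv_cancel₀ this.ne', one_mul]

theorem ae_rho (B : Body K R r x0) {p : EuclideanSpace ℝ (Fin d) → Prop} :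
    (∀ᵐ x ∂(uniformProbOn K), p x) ↔ ∀ᵐ x ∂(volume.restrict K), p x := by
  unfold uniformProbOn
  rw [Measure.ae_ennreal_smul_measure_iff]
  exact ENNReal.inv_ne_zero.mpr B.vol

theorem opt_inner {ρ μ : Measure (EuclideanSpace ℝ (Fin d))} [IsProbabilityMeasure ρ]
    (hρ : ∀ᵐ x ∂ρ, ‖x‖ ≤ R) (hμ : ∀ᵐ y ∂μ, ‖y‖ ≤ R)
    {T S : EuclideanSpace ℝ (Fin d) → EuclideanSpace ℝ (Fin d)} (hT : Measurable T)
    (hS : Measurable S) (hTμ : ρ.map T = μ) (hSμ : ρ.map S = μ)
    (h : ∫⁻ x, ‖x - T x‖ₑ ^ 2 ∂ρ ≤ ∫⁻ x, ‖x - S x‖ₑ ^ 2 ∂ρ) :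
    ∫ x, ⟪x, S x⟫ ∂ρ ≤ ∫ x, ⟪x, T x⟫ ∂ρ := by
  have hb : ∀ {U : EuclideanSpace ℝ (Fin d) → EuclideanSpace ℝ (Fin d)}, Measurable U →
      ρ.map U = μ → ∀ᵐ x ∂ρ, ‖U x‖ ≤ R := by
    intro U hU hUμ
    rw [← hUμ, ae_map_iff hU.aemeasurable (by measurability)] at hμ
    exact hμ
  have hexp : ∀ {U : EuclideanSpace ℝ (Fin d) → EuclideanSpace ℝ (Fin d)}, Measurable U →
      ρ.map U = μ → ∫⁻ x, ‖x - U x‖ₑ ^ 2 ∂ρ
        = ENNReal.ofReal ((∫ x, ‖x‖ ^ 2 ∂ρ) + (∫ y, ‖y‖ ^ 2 ∂μ) - 2 * ∫ x, ⟪x, U x⟫ ∂ρ) ∧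
        0 ≤ (∫ x, ‖x‖ ^ 2 ∂ρ) + (∫ y, ‖y‖ ^ 2 ∂μ) - 2 * ∫ x, ⟪x, U x⟫ ∂ρ := by
    intro U hU hUμ
    have hUb := hb hU hUμ
    have i1 : Integrable (fun x : EuclideanSpace ℝ (Fin d) => ‖x‖ ^ 2) ρ := by
      apply Integrable.of_bound (by fun_prop) (R ^ 2)
      filter_upwards [hρ] with x hx
      rw [Real.norm_eq_abs, abs_of_nonneg (by positivity)]
      gcongr
    have i2 : Integrable (fun x => ‖U x‖ ^ 2) ρ := by
      apply Integrable.of_bound (by fun_prop) (R ^ 2)
      filter_upwards [hUb] with x hx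
      rw [Real.norm_eq_abs, abs_of_nonneg (by positivity)]
      gcongr
    have i3 : Integrable (fun x => ⟪x, U x⟫) ρ := by
      apply Integrable.of_bound (measurable_id.inner hU).aestronglyMeasurable (R * R)
      filter_upwards [hρ, hUb] with x hx hx'
      rw [Real.norm_eq_abs]
      refine (abs_real_inner_le_norm _ _).trans ?_
      have := norm_nonneg x
      exact mul_le_mul hx hx' (norm_nonneg _) (this.trans hx)
    have e1 : ∫ y, ‖y‖ ^ 2 ∂μ = ∫ x, ‖U x‖ ^ 2 ∂ρ := by
      rw [← hUμ, integral_map hU.aemeasurable (by fun_prop)]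
    have e2 : ∫ x, ‖x - U x‖ ^ 2 ∂ρ
        = (∫ x, ‖x‖ ^ 2 ∂ρ) + (∫ y, ‖y‖ ^ 2 ∂μ) - 2 * ∫ x, ⟪x, U x⟫ ∂ρ := by
      rw [e1, ← integral_const_mul, ← integral_add i1 i2, ← integral_sub (f := fun x =>
        ‖x‖ ^ 2 + ‖U x‖ ^ 2) (i1.add i2) (i3.const_mul 2)]
      congr 1; ext x
      rw [norm_sub_sq_real]; ring
    have i4 : Integrable (fun x => ‖x - U x‖ ^ 2) ρ := by
      apply Integrable.of_bound (by fun_prop) ((R + R) ^ 2)
      filter_upwards [hρ, hUb] with x hx hx'
      rw [Real.norm_eq_abs, abs_of_nonneg (by positivity)]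
      have : ‖x - U x‖ ≤ R + R := (norm_sub_le _ _).trans (add_le_add hx hx')
      gcongr
    constructor
    · rw [← e2, ofReal_integral_eq_lintegral_ofReal i4 (by
        filter_upwards with x; positivity)]
      apply lintegral_congr
      intro x
      rw [ENNReal.ofReal_pow (norm_nonneg _), ofReal_norm]
    · rw [← e2]; exact integral_nonneg (fun x => by positivity)
  obtain ⟨e1, _⟩ := hexp hT hTμ
  obtain ⟨e2, p2⟩ := hexp hS hSμ
  rw [e1, e2, ENNReal.ofReal_le_ofReal_iff p2] at h
  linarith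

/-- gluing transports on cells -/
theorem exists_glue (hd : 0 < d) (B : Body K R r x0) {ι : Type} [Fintype ι]
    {V : ι → Set (EuclideanSpace ℝ (Fin d))} (hVm : ∀ i, MeasurableSet (V i))
    (hcov : ⋃ i, V i = K) (hdisj : ∀ i j, i ≠ j → volume (V i ∩ V j) = 0)
    {w : ι → ℝ} (hw : ∀ i, 0 < w i) (hw1 : ∑ i, w i = 1)
    (hmass : ∀ i, volume.real (V i) = volume.real K * w i)
    {μ : Measure (EuclideanSpace ℝ (Fin d))} [IsProbabilityMeasure μ]
    {A : ι → Set (EuclideanSpace ℝ (Fin d))} (hAm : ∀ i, MeasurableSet (A i))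
    (hAd : ∀ i j, i ≠ j → Disjoint (A i) (A j)) (hAw : ∀ i, μ.real (A i) = w i) :
    ∃ S : EuclideanSpace ℝ (Fin d) → EuclideanSpace ℝ (Fin d), Measurable S ∧
      (uniformProbOn K).map S = μ ∧ ∀ i, ∀ᵐ x ∂(volume.restrict (V i)), S x ∈ A i := by
  classical
  have hv := B.vol_pos
  have hVK : ∀ i, V i ⊆ K := fun i => by rw [← hcov]; exact subset_iUnion V i
  have hVt : ∀ i, volume (V i) ≠ ⊤ := fun i => measure_ne_top_of_subset (hVK i) B.vol
  have hVpos : ∀ i, 0 < volume.real (V i) := fun i => by rw [hmass i]; exact mul_pos hv (hw i)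
  have hV0 : ∀ i, volume (V i) ≠ 0 := fun i h => by
    have := hVpos i
    rw [Measure.real, h] at this
    simp at this
  have hA0 : ∀ i, μ (A i) ≠ 0 := fun i h => by
    have := hw i
    rw [← hAw i, Measure.real, h] at this
    simp at this
  have hAt : ∀ i, μ (A i) ≠ ⊤ := fun i => measure_ne_top _ _
  have hVA : ∀ i, volume (V i) = volume K * μ (A i) := by
    intro i
    have h1 := hmass i
    rw [← hAw i] at h1
    unfold Measure.real at h1
    rw [← ENNReal.toReal_mul] at h1
    exact (ENNReal.toReal_eq_toReal_iff' (hVt i) (ENNReal.mul_ne_top B.vol (hAt i))).mp h1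
  have hex : ∀ i, ∃ S : EuclideanSpace ℝ (Fin d) → EuclideanSpace ℝ (Fin d), Measurable S ∧
      (cond volume (V i)).map S = cond μ (A i) := by
    intro i
    haveI : IsProbabilityMeasure (cond μ (A i)) := cond_isProbabilityMeasure_of_finite (hA0 i) (hAt i)
    exact exists_transport hd (hVm i) (hV0 i) (hVt i) _
  choose S hSm hS using hex
  have hae : ∀ᵐ x ∂(volume : Measure (EuclideanSpace ℝ (Fin d))), ∀ i j, i ≠ j →
      x ∉ V i ∩ V j := by
    rw [ae_all_iff]; intro i
    rw [ae_all_iff]; intro j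
    by_cases hij : i = j
    · filter_upwards with x h; exact absurd hij h
    · have := hdisj i j hij
      rw [measure_eq_zero_iff_ae_notMem] at this
      filter_upwards [this] with x hx _
      exact hx
  set U : EuclideanSpace ℝ (Fin d) → EuclideanSpace ℝ (Fin d) :=
    fun x => ∑ i, (V i).indicator (S i) x with hU
  have hUm : Measurable U := by
    apply Finset.measurable_sum
    intro i _
    exact (hSm i).indicator (hVm i)
  have hUS : ∀ᵐ x ∂(volume : Measure (EuclideanSpace ℝ (Fin d))), ∀ i, x ∈ V i → U x = S i x := by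
    filter_upwards [hae] with x hx i hi
    simp only [hU]
    rw [Finset.sum_eq_single i]
    · exact indicator_of_mem hi _
    · intro j _ hj
      apply indicator_of_notMem
      intro hxj
      exact hx i j hj.symm ⟨hi, hxj⟩
    · intro h; exact absurd (Finset.mem_univ i) h
  refine ⟨U, hUm, ?_, ?_⟩
  · ext s hs
    rw [Measure.map_apply hUm hs]
    unfold uniformProbOn
    rw [Measure.smul_apply, smul_eq_mul, Measure.restrict_apply (hUm hs)]
    have e1 : U ⁻¹' s ∩ K = ⋃ i, (U ⁻¹' s ∩ V i) := by rw [← inter_iUnion, hcov]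
    have e2 : volume (U ⁻¹' s ∩ K) = ∑ i, volume (U ⁻¹' s ∩ V i) := by
      rw [e1, measure_iUnion₀, tsum_fintype]
      · intro i j hij
        apply measure_mono_null _ (hdisj i j hij)
        intro x hx
        exact ⟨hx.1.2, hx.2.2⟩
      · intro i
        exact ((hUm hs).inter (hVm i)).nullMeasurableSet
    have e3 : ∀ i, volume (U ⁻¹' s ∩ V i) = volume K * μ (A i ∩ s) := by
      intro i
      have h1 : volume (U ⁻¹' s ∩ V i) = volume (V i ∩ S i ⁻¹' s) := by
        apply measure_congr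
        filter_upwards [hUS] with x hx
        apply propext
        show (U x ∈ s ∧ x ∈ V i) ↔ (x ∈ V i ∧ S i x ∈ s)
        constructor
        · rintro ⟨h1, h2⟩
          exact ⟨h2, by rw [← hx i h2]; exact h1⟩
        · rintro ⟨h1, h2⟩
          exact ⟨by rw [hx i h1]; exact h2, h1⟩
      have h2 : (cond volume (V i)).map (S i) s = cond μ (A i) s := by rw [hS i]
      rw [Measure.map_apply (hSm i) hs, cond_apply (hVm i), cond_apply (hAm i)] at h2
      rw [h1]
      have h3 : volume (V i ∩ S i ⁻¹' s) = volume (V i) * ((volume (V i))⁻¹ * volume (V i ∩ S i ⁻¹' s)) := by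
        rw [← mul_assoc, ENNReal.mul_inv_cancel (hV0 i) (hVt i), one_mul]
      rw [h3, h2, hVA i, mul_assoc, ← mul_assoc (μ (A i)), ENNReal.mul_inv_cancel (hA0 i) (hAt i),
        one_mul]
    rw [e2, Finset.sum_congr rfl (fun i _ => e3 i), ← Finset.mul_sum, ← mul_assoc,
      ENNReal.inv_mul_cancel (volK_ne_zero B) B.vol, one_mul]
    -- partition of μ
    have e4 : ∑ i, μ (A i ∩ s) = μ ((⋃ i, A i) ∩ s) := by
      rw [iUnion_inter, measure_iUnion, tsum_fintype]
      · intro i j hij
        exact (hAd i j hij).mono inter_subset_left inter_subset_left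
      · intro i; exact (hAm i).inter hs
    have e5 : μ (⋃ i, A i) = 1 := by
      rw [measure_iUnion (fun i j hij => hAd i j hij) hAm, tsum_fintype]
      have : ∑ i, μ (A i) = ENNReal.ofReal (∑ i, w i) := by
        rw [ENNReal.ofReal_sum_of_nonneg (fun i _ => (hw i).le)]
        apply Finset.sum_congr rfl
        intro i _
        rw [← hAw i]
        exact (ofReal_measureReal (hAt i)).symm
      rw [this, hw1, ENNReal.ofReal_one]
    rw [e4]
    have e6 : μ (⋃ i, A i)ᶜ = 0 := by
      rw [prob_compl_eq_zero_iff (MeasurableSet.iUnion hAm)]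
      exact e5
    apply measure_congr
    have e7 : ∀ᵐ x ∂μ, x ∈ ⋃ i, A i := by
      rw [ae_iff]; exact e6
    filter_upwards [e7] with x hx
    apply propext
    show (x ∈ ⋃ i, A i) ∧ x ∈ s ↔ x ∈ s
    exact ⟨fun h => h.2, fun h => ⟨hx, h⟩⟩
  · intro i
    have h1 : ∀ᵐ x ∂(cond volume (V i)), S i x ∈ A i := by
      have h2 : ∀ᵐ y ∂((cond volume (V i)).map (S i)), y ∈ A i := by
        rw [hS i]
        exact ae_cond_mem (hAm i)
      exact (ae_map_iff (hSm i).aemeasurable (hAm i)).mp h2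
    have h3 : ∀ᵐ x ∂(volume.restrict (V i)), S i x ∈ A i := by
      unfold ProbabilityTheory.cond at h1
      rw [Measure.ae_ennreal_smul_measure_iff (ENNReal.inv_ne_zero.mpr (hVt i))] at h1
      exact h1
    filter_upwards [h3, ae_restrict_of_ae hUS, ae_restrict_mem (hVm i)] with x hx1 hx2 hx3
    rw [hx2 i hx3]
    exact hx1

/-- Monge-optimal maps have near-optimal potentials. -/
theorem opt_of_isOptimalMap (hd : 0 < d) (B : Body K R r x0)
    {μ : Measure (EuclideanSpace ℝ (Fin d))} [IsProbabilityMeasure μ]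
    (hμ : ∀ᵐ y ∂μ, ‖y‖ ≤ R) {T : EuclideanSpace ℝ (Fin d) → EuclideanSpace ℝ (Fin d)}
    (hT : IsOptimalMap (uniformProbOn K) μ T) (hTb : ∀ x, ‖T x‖ ≤ R) : Opt K R μ T := by
  haveI := rho_prob B
  have hR := B.R_pos
  have hv := B.vol_pos
  obtain ⟨hTm, hTμ, hTopt⟩ := hT
  have hρR : ∀ᵐ x ∂(uniformProbOn K), ‖x‖ ≤ R := by
    rw [ae_rho B]
    filter_upwards [ae_restrict_mem B.meas] with x hx
    exact B.K_R x hx
  have hpush : ∀ ψ : EuclideanSpace ℝ (Fin d) → ℝ, Lip R ψ →
      ∫ x in K, ψ (T x) = volume.real K * meas μ ψ := by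
    intro ψ hψ
    rw [int_rho B]
    unfold meas
    rw [← hTμ, integral_map hTm.aemeasurable hψ.continuous.aestronglyMeasurable]
  refine ⟨hTm, hTb, hpush, meas_fn μ hR hμ, ?_⟩
  intro ε hε
  set v := volume.real K with hvdef
  set ε' : ℝ := ε / (2 * R * v) with hε'
  have hε'0 : 0 < ε' := by positivity
  obtain ⟨ι, _, _, y, w, q, hqm, hqS, hqd, hyS, hyinj, hw, hw1, hAm, hAw, hF⟩ :=
    quantise μ (isCompact_closedBall (0 : EuclideanSpace ℝ (Fin d)) R)
      ⟨0, Metric.mem_closedBall_self hR.le⟩ hε'0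
  have hyR : ∀ i, ‖y i‖ ≤ R := fun i => mem_closedBall_zero_iff.mp (hyS i)
  obtain ⟨ψ, hm, hval⟩ := strong_duality B (Dens.one K) hyR hyinj hw hw1
  have hdisj : ∀ i j, i ≠ j → volume (cell K y ψ i ∩ cell K y ψ j) = 0 :=
    fun i j hij => cell_disj hyinj hij
  have hcellv : ∀ i, volume.real (cell K y ψ i) = v * w i := by
    intro i
    have := hm i
    simpa using this
  obtain ⟨S, hSm, hSμ, hSA⟩ := exists_glue hd B (fun i => cell_meas B.meas i) cell_cover hdisj
    hw hw1 hcellv (A := fun i => q ⁻¹' {y i}) hAm (by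
      intro i j hij
      rw [Set.disjoint_left]
      intro x hx hx'
      apply hij
      apply hyinj
      have h1 : q x = y i := hx
      have h2 : q x = y j := hx'
      rw [← h1, ← h2]) hAw
  have hopt := opt_inner hρR hμ hTm hSm hTμ hSμ (hTopt S hSm hSμ)
  refine ⟨mx y ψ, conj K (mx y ψ), adm_conj B (mx_lip hyR), ?_⟩
  set φ := mx y ψ with hφ
  set φc := conj K (mx y ψ) with hφc
  have Aφ : Adm K R φ φc := adm_conj B (mx_lip hyR)
  -- S is bounded a.e.
  have hSb : ∀ᵐ x ∂(volume.restrict K), ‖S x‖ ≤ R := by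
    rw [← ae_rho B]
    have h1 := hμ
    rw [← hSμ, ae_map_iff hSm.aemeasurable (by measurability)] at h1
    exact h1
  have hTS : ∫ x in K, ⟪x, S x⟫ ≤ ∫ x in K, ⟪x, T x⟫ := by
    rw [int_rho B, int_rho B]
    exact mul_le_mul_of_nonneg_left hopt hv.le
  -- S is close to y i on the cell
  have hclose : ∀ i, ∀ᵐ x ∂(volume.restrict (cell K y ψ i)), ‖S x - y i‖ ≤ ε' := by
    intro i
    have h1 : ∀ᵐ x ∂(volume.restrict (cell K y ψ i)), ‖S x‖ ≤ R :=
      ae_restrict_of_ae_restrict_of_subset (cell_sub i) hSb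
    filter_upwards [hSA i, h1] with x hx1 hx2
    have h2 : q (S x) = y i := hx1
    have h3 := hqd (S x) (mem_closedBall_zero_iff.mpr hx2)
    rw [h2, dist_comm, dist_eq_norm] at h3
    exact h3
  haveI : IsFiniteMeasure (volume.restrict K) := ⟨by simpa using B.vol.lt_top⟩
  have hSi : IntegrableOn (fun x => ⟪x, S x⟫) K := by
    apply Integrable.of_bound (measurable_id.inner hSm).aestronglyMeasurable (R * R)
    filter_upwards [ae_restrict_mem B.meas, hSb] with x hx hx'
    rw [Real.norm_eq_abs]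
    refine (abs_real_inner_le_norm _ _).trans ?_
    exact mul_le_mul (B.K_R x hx) hx' (norm_nonneg _) hR.le
  have hlow : ∑ i, ⟪∫ x in cell K y ψ i, (1 : ℝ) • x, y i⟫ - R * ε' * v
      ≤ ∫ x in K, ⟪x, S x⟫ := by
    rw [← cell_sum B.meas hyinj _ hSi (ψ := ψ)]
    have e : R * ε' * v = ∑ i, R * ε' * (v * w i) := by
      rw [← Finset.mul_sum, ← Finset.mul_sum, hw1, mul_one]
    rw [e, ← Finset.sum_sub_distrib]
    apply Finset.sum_le_sum
    intro i _
    rw [inner_int B (Dens.one K) (cell_sub i), ← hm i, ← integral_const_mul]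
    have hi1 : IntegrableOn (fun x => ⟪x, y i⟫ * (1 : ℝ)) (cell K y ψ i) := by
      apply IntegrableOn.mono_set _ (cell_sub i)
      apply B.intOn (by fun_prop) (C := R * R)
      intro x hx
      rw [mul_one]
      refine (abs_real_inner_le_norm _ _).trans ?_
      exact mul_le_mul (B.K_R x hx) (hyR i) (norm_nonneg _) hR.le
    have hi2 : IntegrableOn (fun _ : EuclideanSpace ℝ (Fin d) => R * ε' * (1 : ℝ))
        (cell K y ψ i) := by
      apply IntegrableOn.mono_set _ (cell_sub i)
      exact B.intOn measurable_const (C := |R * ε' * (1 : ℝ)|) (fun _ _ => le_rfl)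
    rw [← integral_sub hi1 hi2]
    apply integral_mono_ae (hi1.sub hi2) (hSi.mono_set (cell_sub i))
    filter_upwards [hclose i, ae_restrict_mem (cell_meas B.meas i)] with x hx hxV
    show ⟪x, y i⟫ * 1 - R * ε' * 1 ≤ ⟪x, S x⟫
    have h1 : ⟪x, y i - S x⟫ ≤ R * ε' := by
      calc _ ≤ ‖x‖ * ‖y i - S x‖ := real_inner_le_norm _ _
        _ ≤ _ := by
          rw [norm_sub_rev]
          exact mul_le_mul (B.K_R x hxV.1) hx (norm_nonneg _) hR.le
    rw [inner_sub_right] at h1
    linarith
  -- the deficit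
  have hi1 : IntegrableOn φ K := lip_intOn B Aφ.lip
  have hi2 : IntegrableOn (fun x => φc (T x)) K :=
    B.intOn (Aφ.lip'.continuous.measurable.comp hTm) (fun x _ => lip_bd B Aφ.lip' (hTb x))
  have hi3 : IntegrableOn (fun x => ⟪x, T x⟫) K := by
    apply B.intOn (measurable_id.inner hTm) (C := R * R)
    intro x hx
    refine (abs_real_inner_le_norm _ _).trans ?_
    exact mul_le_mul (B.K_R x hx) (hTb x) (norm_nonneg _) hR.le
  have e1 : ∫ x in K, dft T φ φc x
      = (∫ x in K, φ x) + v * meas μ φc - ∫ x in K, ⟪x, T x⟫ := by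
    unfold dft
    rw [integral_sub (f := fun x => φ x + φc (T x)) (hi1.add hi2) hi3, integral_add hi1 hi2,
      hpush φc Aφ.lip']
  have e2 : |meas μ φc - disc w y φc| ≤ R * ε' := by
    have e3 : disc w y φc = ∫ x, φc (q x) ∂μ := hF φc
    rw [e3]
    unfold meas
    apply int_lip_diff μ (f := fun x => x) measurable_id hqm hR hμ
      (Eventually.of_forall fun x => mem_closedBall_zero_iff.mp (hqS x)) _ Aφ.lip'
    filter_upwards [hμ] with x hx
    rw [norm_sub_rev, ← dist_eq_norm]
    exact hqd x (mem_closedBall_zero_iff.mpr hx)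
  have e4 : val K (fun _ => 1) (disc w y) φ φc = (∫ x in K, φ x) + v * disc w y φc := by
    unfold val
    simp only [mul_one]
    rfl
  rw [e4] at hval
  rw [e1]
  have e5 : v * meas μ φc ≤ v * (disc w y φc + R * ε') := by
    apply mul_le_mul_of_nonneg_left _ hv.le
    linarith [(abs_le.mp e2).2]
  have e6 : 2 * R * v * ε' = ε := by
    rw [hε']; field_simp
  nlinarith

end

end Crest.Agent.H7Monge
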