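import Mathlib
import Crest.Agent.H7Interp
import Crest.Agent.H7Monge

set_option autoImplicit false

/-! Stability of optimal transport maps: the core inequality. -/

namespace Crest.Agent.H7Core

open MeasureTheory Set Filter
open scoped ENNReal Topology RealInnerProductSpace
open Crest.Agent.H7Key Crest.Agent.H7SD Crest.Agent.H7Fn Crest.Agent.H7Mix Crest.Agent.H7Gen
open Crest.Agent.H7Uniq Crest.Agent.H7Stab Crest.Agent.H7Interp Crest.Agent.H7Monge
open Crest.AnalysisR.OT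

variable {d : ℕ}

section
variable {K : Set (EuclideanSpace ℝ (Fin d))} {R r : ℝ} {x0 : EuclideanSpace ℝ (Fin d)}
  {T T' : EuclideanSpace ℝ (Fin d) → EuclideanSpace ℝ (Fin d)}
  {μ ν : Measure (EuclideanSpace ℝ (Fin d))}

theorem core_t (B : Body K R r x0) (O : Opt K R μ T) (O' : Opt K R ν T')
    (π : Measure (EuclideanSpace ℝ (Fin d) × EuclideanSpace ℝ (Fin d))) [IsProbabilityMeasure π]
    (h1 : ∀ᵐ p ∂π, ‖p.1‖ ≤ R) (h2 : ∀ᵐ p ∂π, ‖p.2‖ ≤ R) (hπ1 : π.map Prod.fst = μ)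
    (hπ2 : π.map Prod.snd = ν) {t : ℝ} (ht0 : 0 < t) (ht1 : t ≤ r) :
    ∫ x in K, ‖T' x - T x‖ ^ 2 ≤
      36000000 * d * R ^ 2 * volume.real K * (∫ p, ‖p.2 - p.1‖ ^ 2 ∂π) / t ^ 2
      + (8 * R ^ 2 * d ^ 2 + 4 * R ^ 2 * d) * volume.real K / r * t := by
  have hR := B.R_pos
  set q := ∫ p, ‖p.2 - p.1‖ ^ 2 ∂π with hq
  set v := volume.real K with hv
  have key : ∀ η : ℝ, 0 < η → ∫ x in K, ‖T' x - T x‖ ^ 2 ≤
      9 * d / t ^ 2 * (4000000 * R ^ 2 * (v * q) + η)
      + (8 * R ^ 2 * d ^ 2 + 4 * R ^ 2 * d) * v / r * t + 16 * R * d * η / t := by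
    intro η hη
    obtain ⟨δ0, hδ0, hst⟩ := stability B O O' π h1 h2 hπ1 hπ2 hη
    have hm : 0 < min δ0 η := lt_min hδ0 hη
    obtain ⟨φ, ψ, A, hA⟩ := O.near _ hm
    obtain ⟨φ', ψ', A', hA'⟩ := O'.near _ hm
    obtain ⟨c, hc⟩ := hst φ ψ φ' ψ' A A' (hA.trans (min_le_left _ _)) (hA'.trans (min_le_left _ _))
    have hin := interp B A A' O.Tmeas O'.Tmeas O.bd O'.bd c (hA.trans (min_le_right _ _))
      (hA'.trans (min_le_right _ _)) ht0 ht1
    refine hin.trans ?_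
    gcongr
  have hlim : Tendsto (fun η : ℝ => 9 * d / t ^ 2 * (4000000 * R ^ 2 * (v * q) + η)
      + (8 * R ^ 2 * d ^ 2 + 4 * R ^ 2 * d) * v / r * t + 16 * R * d * η / t) (𝓝[>] 0)
      (𝓝 (9 * d / t ^ 2 * (4000000 * R ^ 2 * (v * q))
      + (8 * R ^ 2 * d ^ 2 + 4 * R ^ 2 * d) * v / r * t)) := by
    have hcont : Continuous (fun η : ℝ => 9 * d / t ^ 2 * (4000000 * R ^ 2 * (v * q) + η)
      + (8 * R ^ 2 * d ^ 2 + 4 * R ^ 2 * d) * v / r * t + 16 * R * d * η / t) := by fun_prop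
    have := hcont.tendsto 0
    simp only [mul_zero, add_zero, zero_div] at this
    exact this.mono_left nhdsWithin_le_nhds
  have := ge_of_tendsto hlim (by
    filter_upwards [self_mem_nhdsWithin] with η hη
    exact key η hη)
  refine this.trans (le_of_eq ?_)
  ring

theorem core (B : Body K R r x0) (O : Opt K R μ T) (O' : Opt K R ν T')
    (π : Measure (EuclideanSpace ℝ (Fin d) × EuclideanSpace ℝ (Fin d))) [IsProbabilityMeasure π]
    (h1 : ∀ᵐ p ∂π, ‖p.1‖ ≤ R) (h2 : ∀ᵐ p ∂π, ‖p.2‖ ≤ R) (hπ1 : π.map Prod.fst = μ)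
    (hπ2 : π.map Prod.snd = ν) :
    ∫ x in K, ‖T' x - T x‖ ^ 2 ≤
      (36000000 * d * R ^ 2 * volume.real K
      + (8 * R ^ 2 * d ^ 2 + 4 * R ^ 2 * d) * volume.real K / r + 4 * R ^ 2 * volume.real K / r)
      * (∫ p, ‖p.2 - p.1‖ ^ 2 ∂π) ^ (1 / 3 : ℝ) := by
  have hR := B.R_pos
  have hr := B.r_pos
  have hv := B.vol_pos
  have ht := fun (t : ℝ) (ht0 : 0 < t) (ht1 : t ≤ r) =>
    core_t B O O' π h1 h2 hπ1 hπ2 ht0 ht1
  set q := ∫ p, ‖p.2 - p.1‖ ^ 2 ∂π with hq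
  have hq0 : 0 ≤ q := integral_nonneg (fun _ => by positivity)
  set v := volume.real K with hvdef
  set a : ℝ := 36000000 * d * R ^ 2 * v with ha
  set b : ℝ := (8 * R ^ 2 * d ^ 2 + 4 * R ^ 2 * d) * v / r with hb
  have ha0 : 0 ≤ a := by positivity
  have hb0 : 0 ≤ b := by positivity
  rcases hq0.eq_or_lt with hq1 | hq1
  · rw [← hq1] at ht ⊢
    rw [Real.zero_rpow (by norm_num), mul_zero]
    have hlim : Tendsto (fun t : ℝ => b * t) (𝓝[>] 0) (𝓝 0) := by
      have : Continuous (fun t : ℝ => b * t) := by fun_prop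
      have := this.tendsto 0
      rw [mul_zero] at this
      exact this.mono_left nhdsWithin_le_nhds
    apply ge_of_tendsto hlim
    have hev : ∀ᶠ t in 𝓝[>] (0 : ℝ), t ≤ r :=
      nhdsWithin_le_nhds (eventually_le_nhds hr)
    filter_upwards [self_mem_nhdsWithin, hev] with t ht0 ht1
    have := ht t ht0 ht1
    rw [mul_zero, zero_div, zero_add] at this
    exact this
  · set τ := q ^ (1 / 3 : ℝ) with hτ
    have hτ0 : 0 < τ := Real.rpow_pos_of_pos hq1 _
    have hτ3 : τ ^ 3 = q := by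
      rw [hτ, ← Real.rpow_natCast, ← Real.rpow_mul hq0]
      norm_num
    by_cases hτr : τ ≤ r
    · have h3 := ht τ hτ0 hτr
      have h4 : a * q / τ ^ 2 = a * τ := by
        rw [← hτ3]; field_simp
      rw [h4] at h3
      refine h3.trans ?_
      have h5 : 0 ≤ 4 * R ^ 2 * v / r * τ := by positivity
      linarith
    · push Not at hτr
      have h3 : ∫ x in K, ‖T' x - T x‖ ^ 2 ≤ 4 * R ^ 2 * v := by
        have h5 := norm_setIntegral_le_of_norm_le_const (f := fun x => ‖T' x - T x‖ ^ 2)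
          (s := K) (C := 4 * R ^ 2) (μ := volume) B.vol.lt_top (fun x _ => by
            rw [Real.norm_eq_abs, abs_of_nonneg (by positivity)]
            have h1 : ‖T' x - T x‖ ≤ R + R :=
              (norm_sub_le _ _).trans (add_le_add (O'.bd x) (O.bd x))
            calc ‖T' x - T x‖ ^ 2 ≤ (R + R) ^ 2 := by gcongr
              _ = _ := by ring)
        exact (le_abs_self _).trans h5
      have h4 : 4 * R ^ 2 * v ≤ 4 * R ^ 2 * v / r * τ := by
        rw [div_mul_eq_mul_div, le_div_iff₀ hr]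
        gcongr
      have h5 : 0 ≤ (a + b) * τ := by positivity
      linarith

end

/-- truncation of a map -/
noncomputable def trunc (R : ℝ) (T : EuclideanSpace ℝ (Fin d) → EuclideanSpace ℝ (Fin d))
    (x : EuclideanSpace ℝ (Fin d)) : EuclideanSpace ℝ (Fin d) :=
  {x | ‖T x‖ ≤ R}.indicator T x

theorem trunc_bd {R : ℝ} (hR : 0 ≤ R) (T : EuclideanSpace ℝ (Fin d) → EuclideanSpace ℝ (Fin d))
    (x : EuclideanSpace ℝ (Fin d)) : ‖trunc R T x‖ ≤ R := by
  unfold trunc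
  by_cases h : x ∈ {x | ‖T x‖ ≤ R}
  · rw [indicator_of_mem h]; exact h
  · rw [indicator_of_notMem h, norm_zero]; exact hR

theorem trunc_opt {R : ℝ} {ρ μ : Measure (EuclideanSpace ℝ (Fin d))}
    {T : EuclideanSpace ℝ (Fin d) → EuclideanSpace ℝ (Fin d)} (hT : IsOptimalMap ρ μ T)
    (hμ : ∀ᵐ y ∂μ, ‖y‖ ≤ R) :
    trunc R T =ᵐ[ρ] T ∧ IsOptimalMap ρ μ (trunc R T) := by
  obtain ⟨hTm, hTμ, hopt⟩ := hT
  have hae : trunc R T =ᵐ[ρ] T := by
    have h1 := hμ
    rw [← hTμ, ae_map_iff hTm.aemeasurable (by measurability)] at h1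
    filter_upwards [h1] with x hx
    exact indicator_of_mem (show x ∈ {x | ‖T x‖ ≤ R} from hx) _
  refine ⟨hae, hTm.indicator (measurableSet_le hTm.norm measurable_const), ?_, ?_⟩
  · rw [← hTμ]; exact Measure.map_congr hae
  · intro S hS hSμ
    refine le_trans (le_of_eq ?_) (hopt S hS hSμ)
    apply lintegral_congr_ae
    filter_upwards [hae] with x hx
    rw [hx]

theorem exists_body {K Y : Set (EuclideanSpace ℝ (Fin d))} (hKc : IsCompact K)
    (hKv : Convex ℝ K) (hKi : (interior K).Nonempty) (hYc : IsCompact Y) :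
    ∃ R r x0, Body K R r x0 ∧ ∀ y ∈ Y, ‖y‖ ≤ R := by
  obtain ⟨x0, hx0⟩ := hKi
  obtain ⟨r, hr, hrK⟩ := Metric.nhds_basis_closedBall.mem_iff.mp (mem_interior_iff_mem_nhds.mp hx0)
  obtain ⟨R, hR, hRb⟩ := (hKc.union hYc).isBounded.exists_pos_norm_le
  exact ⟨R, r, x0, ⟨hKc, hKv, hr, hR, hrK, fun x hx => hRb x (Or.inl hx)⟩,
    fun y hy => hRb y (Or.inr hy)⟩

/-- Main theorem. -/
theorem main (hd : 0 < d) {K Y : Set (EuclideanSpace ℝ (Fin d))} (hKc : IsCompact K)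
    (hKv : Convex ℝ K) (hKi : (interior K).Nonempty) (hYc : IsCompact Y) :
    ∃ C : NNReal, ∀ μ ν : Measure (EuclideanSpace ℝ (Fin d)), IsProbabilityOn Y μ →
      IsProbabilityOn Y ν →
      ∀ Tμ Tν : EuclideanSpace ℝ (Fin d) → EuclideanSpace ℝ (Fin d),
        IsOptimalMap (uniformProbOn K) μ Tμ → IsOptimalMap (uniformProbOn K) ν Tν →
        ∀ π : Measure (EuclideanSpace ℝ (Fin d) × EuclideanSpace ℝ (Fin d)),
          IsPairCoupling μ ν π →
          ∫⁻ x, ‖Tμ x - Tν x‖ₑ ^ 2 ∂(uniformProbOn K) ≤ C * quadCost π ^ (1 / 3 : ℝ) := by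
  obtain ⟨R, r, x0, B, hY⟩ := exists_body hKc hKv hKi hYc
  have hR := B.R_pos
  have hr := B.r_pos
  have hv := B.vol_pos
  set C0 : ℝ := 36000000 * d * R ^ 2 * volume.real K
      + (8 * R ^ 2 * d ^ 2 + 4 * R ^ 2 * d) * volume.real K / r
      + 4 * R ^ 2 * volume.real K / r with hC0
  have hC00 : 0 ≤ C0 := by positivity
  refine ⟨(C0 / volume.real K).toNNReal, ?_⟩
  intro μ ν hμ hν Tμ Tν hTμ hTν π hπ
  haveI := hμ.1
  haveI := hν.1
  haveI := rho_prob B
  have hμR : ∀ᵐ y ∂μ, ‖y‖ ≤ R := by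
    have : ∀ᵐ y ∂μ, y ∈ Y := by rw [ae_iff]; exact hμ.2
    filter_upwards [this] with y hy
    exact hY y hy
  have hνR : ∀ᵐ y ∂ν, ‖y‖ ≤ R := by
    have : ∀ᵐ y ∂ν, y ∈ Y := by rw [ae_iff]; exact hν.2
    filter_upwards [this] with y hy
    exact hY y hy
  haveI : IsProbabilityMeasure π := by
    constructor
    have h1 : (π.map Prod.fst) univ = 1 := by rw [hπ.1]; exact measure_univ
    rwa [Measure.map_apply measurable_fst MeasurableSet.univ, preimage_univ] at h1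
  have h1 : ∀ᵐ p ∂π, ‖p.1‖ ≤ R := by
    have h := hμR
    rw [← hπ.1, ae_map_iff measurable_fst.aemeasurable (by measurability)] at h
    exact h
  have h2 : ∀ᵐ p ∂π, ‖p.2‖ ≤ R := by
    have h := hνR
    rw [← hπ.2, ae_map_iff measurable_snd.aemeasurable (by measurability)] at h
    exact h
  obtain ⟨ae1, o1⟩ := trunc_opt hTμ hμR
  obtain ⟨ae2, o2⟩ := trunc_opt hTν hνR
  have O1 := opt_of_isOptimalMap hd B hμR o1 (trunc_bd hR.le Tμ)
  have O2 := opt_of_isOptimalMap hd B hνR o2 (trunc_bd hR.le Tν)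
  have hcore := core B O1 O2 π h1 h2 hπ.1 hπ.2
  set q := ∫ p, ‖p.2 - p.1‖ ^ 2 ∂π with hq
  have hq0 : 0 ≤ q := integral_nonneg (fun _ => by positivity)
  have hqc : quadCost π = ENNReal.ofReal q := by
    have hi : Integrable (fun p : EuclideanSpace ℝ (Fin d) × EuclideanSpace ℝ (Fin d) =>
        ‖p.2 - p.1‖ ^ 2) π := by
      apply Integrable.of_bound (by fun_prop) ((2 * R) ^ 2)
      filter_upwards [h1, h2] with x hx1 hx2
      rw [Real.norm_eq_abs, abs_of_nonneg (by positivity)]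
      have := norm_sub_le x.2 x.1
      have : ‖x.2 - x.1‖ ≤ 2 * R := by linarith
      gcongr
    unfold quadCost
    rw [hq, ofReal_integral_eq_lintegral_ofReal hi (by filter_upwards with x; positivity)]
    apply lintegral_congr
    intro p
    rw [ENNReal.ofReal_pow (norm_nonneg _), ofReal_norm, enorm_sub_rev]
  have hlhs : ∫⁻ x, ‖Tμ x - Tν x‖ₑ ^ 2 ∂(uniformProbOn K)
      = ENNReal.ofReal (∫ x, ‖trunc R Tν x - trunc R Tμ x‖ ^ 2 ∂(uniformProbOn K)) := by
    have hm : Measurable fun x => ‖trunc R Tν x - trunc R Tμ x‖ ^ 2 :=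
      (O2.Tmeas.sub O1.Tmeas).norm.pow_const 2
    have hi : Integrable (fun x => ‖trunc R Tν x - trunc R Tμ x‖ ^ 2) (uniformProbOn K) := by
      apply Integrable.of_bound hm.aestronglyMeasurable ((2 * R) ^ 2)
      filter_upwards with x
      rw [Real.norm_eq_abs, abs_of_nonneg (by positivity)]
      have := norm_sub_le (trunc R Tν x) (trunc R Tμ x)
      have h3 := trunc_bd hR.le Tν x
      have h4 := trunc_bd hR.le Tμ x
      have : ‖trunc R Tν x - trunc R Tμ x‖ ≤ 2 * R := by linarith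
      gcongr
    rw [ofReal_integral_eq_lintegral_ofReal hi (by filter_upwards with x; positivity)]
    apply lintegral_congr_ae
    filter_upwards [ae1, ae2] with x hx1 hx2
    rw [ENNReal.ofReal_pow (norm_nonneg _), ofReal_norm, enorm_sub_rev, hx1, hx2]
  rw [hlhs, hqc, ENNReal.ofReal_rpow_of_nonneg hq0 (by norm_num)]
  have hcoe : ((C0 / volume.real K).toNNReal : ℝ≥0∞) = ENNReal.ofReal (C0 / volume.real K) := rfl
  rw [hcoe, ← ENNReal.ofReal_mul (by positivity)]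
  apply ENNReal.ofReal_le_ofReal
  rw [int_rho B] at hcore
  rw [div_mul_eq_mul_div, le_div_iff₀ hv, mul_comm]
  exact hcore

end Crest.Agent.H7Core
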