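import Mathlib
import Crest.Prelude.Def_ModularData

set_option autoImplicit false

namespace Crest.Agent.H7Mean

open Filter MeasureTheory Crest.OpAlg
open scoped Topology BoundedContinuousFunction

/-- bounded continuous real function -/
def BC (f : ℝ → ℝ) : Prop := Continuous f ∧ ∃ C : ℝ, ∀ t, |f t| ≤ C

theorem BC.add {f g : ℝ → ℝ} (hf : BC f) (hg : BC g) : BC (fun t => f t + g t) := by
  obtain ⟨hf1, C, hC⟩ := hf
  obtain ⟨hg1, C', hC'⟩ := hg
  exact ⟨hf1.add hg1, C + C', fun t => (abs_add_le _ _).trans (add_le_add (hC t) (hC' t))⟩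

theorem BC.const_mul {f : ℝ → ℝ} (hf : BC f) (c : ℝ) : BC (fun t => c * f t) := by
  obtain ⟨hf1, C, hC⟩ := hf
  exact ⟨continuous_const.mul hf1, |c| * C, fun t => by
    rw [abs_mul]; exact mul_le_mul_of_nonneg_left (hC t) (abs_nonneg c)⟩

theorem BC.neg {f : ℝ → ℝ} (hf : BC f) : BC (fun t => - f t) := by
  obtain ⟨hf1, C, hC⟩ := hf
  exact ⟨hf1.neg, C, fun t => by rw [abs_neg]; exact hC t⟩

theorem BC.sub {f g : ℝ → ℝ} (hf : BC f) (hg : BC g) : BC (fun t => f t - g t) := by
  simpa [sub_eq_add_neg] using hf.add hg.neg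

theorem BC.const (c : ℝ) : BC (fun _ => c) := ⟨continuous_const, |c|, fun _ => le_rfl⟩

theorem BC.shift {f : ℝ → ℝ} (hf : BC f) (s : ℝ) : BC (fun t => f (t + s)) := by
  obtain ⟨hf1, C, hC⟩ := hf
  exact ⟨by fun_prop, C, fun t => hC _⟩

theorem BC.reflect {f : ℝ → ℝ} (hf : BC f) : BC (fun t => f (-t)) := by
  obtain ⟨hf1, C, hC⟩ := hf
  exact ⟨by fun_prop, C, fun t => hC _⟩

theorem windowMean_eq (f : ℝ → ℝ) (k : ℕ) :
    windowMean f k = (2 * (k : ℝ))⁻¹ * ∫ t in (-(k : ℝ))..(k : ℝ), f t := by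
  have hk : (-(k : ℝ)) ≤ (k : ℝ) := by
    have : (0 : ℝ) ≤ k := Nat.cast_nonneg k
    linarith
  rw [windowMean, setAverage_eq, intervalIntegral.integral_of_le hk,
    ← integral_Icc_eq_integral_Ioc, smul_eq_mul]
  congr 2
  rw [Measure.real, Real.volume_Icc, ENNReal.toReal_ofReal (by
    have : (0 : ℝ) ≤ k := Nat.cast_nonneg k
    linarith)]
  ring

theorem windowMean_abs_le {f : ℝ → ℝ} {C : ℝ} (hC : ∀ t, |f t| ≤ C) (k : ℕ) :
    |windowMean f k| ≤ C := by
  have hC0 : 0 ≤ C := (abs_nonneg _).trans (hC 0)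
  rw [windowMean_eq]
  rcases Nat.eq_zero_or_pos k with hk | hk
  · subst hk; simp [hC0]
  · have hk' : (0 : ℝ) < k := by exact_mod_cast hk
    have h1 := intervalIntegral.norm_integral_le_of_norm_le_const (a := -(k : ℝ)) (b := (k : ℝ))
      (f := f) (C := C) (fun t _ => hC t)
    rw [abs_mul, abs_of_pos (by positivity)]
    rw [Real.norm_eq_abs] at h1
    calc (2 * (k : ℝ))⁻¹ * |∫ t in (-(k : ℝ))..(k : ℝ), f t|
        ≤ (2 * (k : ℝ))⁻¹ * (C * |(k : ℝ) - (-(k : ℝ))|) := by gcongr
      _ = C := by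
        have : |(k : ℝ) - (-(k : ℝ))| = 2 * k := by
          rw [abs_of_pos (by linarith)]; ring
        rw [this]; field_simp

variable (ω : Ultrafilter ℕ)

theorem tendsto_mean {f : ℝ → ℝ} (hf : BC f) :
    Tendsto (windowMean f) (ω : Filter ℕ) (𝓝 (ultraMean ω f)) := by
  obtain ⟨_, C, hC⟩ := hf
  have hcomp : IsCompact (Set.Icc (-C) C) := isCompact_Icc
  have hmem : ∀ k, windowMean f k ∈ Set.Icc (-C) C := fun k => abs_le.mp (windowMean_abs_le hC k)
  obtain ⟨z, _, hz⟩ := hcomp.ultrafilter_le_nhds (ω.map (windowMean f)) (by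
    rw [le_principal_iff]
    exact Filter.mem_map.mpr (Filter.univ_mem' hmem))
  exact tendsto_nhds_limUnder ⟨z, hz⟩

theorem mean_eq_of_tendsto {f : ℝ → ℝ} {z : ℝ}
    (h : Tendsto (windowMean f) (ω : Filter ℕ) (𝓝 z)) : ultraMean ω f = z :=
  h.limUnder_eq

theorem windowMean_add {f g : ℝ → ℝ} (hf : BC f) (hg : BC g) (k : ℕ) :
    windowMean (fun t => f t + g t) k = windowMean f k + windowMean g k := by
  simp only [windowMean_eq]
  rw [intervalIntegral.integral_add (hf.1.intervalIntegrable _ _) (hg.1.intervalIntegrable _ _)]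
  ring

theorem windowMean_const_mul (c : ℝ) (f : ℝ → ℝ) (k : ℕ) :
    windowMean (fun t => c * f t) k = c * windowMean f k := by
  simp only [windowMean_eq]
  rw [intervalIntegral.integral_const_mul]; ring

theorem windowMean_mono {f g : ℝ → ℝ} (hf : BC f) (hg : BC g) (h : ∀ t, f t ≤ g t) (k : ℕ) :
    windowMean f k ≤ windowMean g k := by
  simp only [windowMean_eq]
  have hk : (0 : ℝ) ≤ k := Nat.cast_nonneg k
  apply mul_le_mul_of_nonneg_left _ (by positivity)
  exact intervalIntegral.integral_mono_on (by linarith) (hf.1.intervalIntegrable _ _)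
    (hg.1.intervalIntegrable _ _) (fun t _ => h t)

theorem mean_add {f g : ℝ → ℝ} (hf : BC f) (hg : BC g) :
    ultraMean ω (fun t => f t + g t) = ultraMean ω f + ultraMean ω g := by
  apply mean_eq_of_tendsto
  have : windowMean (fun t => f t + g t) = fun k => windowMean f k + windowMean g k := by
    funext k; exact windowMean_add hf hg k
  rw [this]
  exact (tendsto_mean ω hf).add (tendsto_mean ω hg)

theorem mean_const_mul {f : ℝ → ℝ} (hf : BC f) (c : ℝ) :
    ultraMean ω (fun t => c * f t) = c * ultraMean ω f := by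
  apply mean_eq_of_tendsto
  have : windowMean (fun t => c * f t) = fun k => c * windowMean f k := by
    funext k; exact windowMean_const_mul c f k
  rw [this]
  exact (tendsto_mean ω hf).const_mul c

theorem mean_neg {f : ℝ → ℝ} (hf : BC f) :
    ultraMean ω (fun t => - f t) = - ultraMean ω f := by
  have := mean_const_mul ω hf (-1)
  simpa using this

theorem mean_sub {f g : ℝ → ℝ} (hf : BC f) (hg : BC g) :
    ultraMean ω (fun t => f t - g t) = ultraMean ω f - ultraMean ω g := by
  have := mean_add ω hf hg.neg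
  rw [mean_neg ω hg] at this
  simpa [sub_eq_add_neg] using this

theorem mean_mono {f g : ℝ → ℝ} (hf : BC f) (hg : BC g) (h : ∀ t, f t ≤ g t) :
    ultraMean ω f ≤ ultraMean ω g :=
  le_of_tendsto_of_tendsto' (tendsto_mean ω hf) (tendsto_mean ω hg)
    (fun k => windowMean_mono hf hg h k)

theorem windowMean_const (c : ℝ) {k : ℕ} (hk : 0 < k) : windowMean (fun _ => c) k = c := by
  have hk' : (0 : ℝ) < k := by exact_mod_cast hk
  rw [windowMean_eq, intervalIntegral.integral_const, smul_eq_mul]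
  field_simp; ring

variable {ω} (hω : (ω : Filter ℕ) ≤ atTop)
include hω

theorem mean_const (c : ℝ) : ultraMean ω (fun _ => c) = c := by
  apply mean_eq_of_tendsto
  apply Tendsto.congr' _ tendsto_const_nhds
  have : ∀ᶠ k : ℕ in (ω : Filter ℕ), 0 < k := hω (eventually_gt_atTop 0)
  filter_upwards [this] with k hk
  exact (windowMean_const c hk).symm

theorem mean_le_of_le {f : ℝ → ℝ} (hf : BC f) {c : ℝ} (h : ∀ t, f t ≤ c) :
    ultraMean ω f ≤ c := by
  rw [← mean_const hω c]
  exact mean_mono ω hf (BC.const c) h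

theorem le_mean_of_le {f : ℝ → ℝ} (hf : BC f) {c : ℝ} (h : ∀ t, c ≤ f t) :
    c ≤ ultraMean ω f := by
  rw [← mean_const hω c]
  exact mean_mono ω (BC.const c) hf h

theorem abs_mean_le {f : ℝ → ℝ} (hf : BC f) {C : ℝ} (h : ∀ t, |f t| ≤ C) :
    |ultraMean ω f| ≤ C :=
  abs_le.mpr ⟨le_mean_of_le hω hf (fun t => (abs_le.mp (h t)).1),
    mean_le_of_le hω hf (fun t => (abs_le.mp (h t)).2)⟩

theorem mean_shift {f : ℝ → ℝ} (hf : BC f) (s : ℝ) :
    ultraMean ω (fun t => f (t + s)) = ultraMean ω f := by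
  apply mean_eq_of_tendsto
  obtain ⟨hf1, C, hC⟩ := hf
  have hC0 : 0 ≤ C := (abs_nonneg _).trans (hC 0)
  have key : ∀ k : ℕ, 0 < k →
      |windowMean (fun t => f (t + s)) k - windowMean f k| ≤ (|s| * C) * (k : ℝ)⁻¹ := by
    intro k hk
    have hk' : (0 : ℝ) < k := by exact_mod_cast hk
    rw [windowMean_eq, windowMean_eq, ← mul_sub, abs_mul, abs_of_pos (by positivity)]
    have e1 : (∫ t in (-(k : ℝ))..(k : ℝ), f (t + s)) = ∫ t in (-(k : ℝ) + s)..((k : ℝ) + s), f t :=
      intervalIntegral.integral_comp_add_right (fun x => f x) s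
    have e2 : (∫ t in (-(k : ℝ) + s)..((k : ℝ) + s), f t) - (∫ t in (-(k : ℝ))..(k : ℝ), f t)
        = (∫ t in (-(k : ℝ) + s)..(-(k : ℝ)), f t) - (∫ t in ((k : ℝ) + s)..(k : ℝ), f t) := by
      apply intervalIntegral.integral_interval_sub_interval_comm <;>
        exact hf1.intervalIntegrable _ _
    rw [e1, e2]
    have b1 := intervalIntegral.norm_integral_le_of_norm_le_const (a := -(k : ℝ) + s)
      (b := -(k : ℝ)) (f := f) (C := C) (fun t _ => hC t)
    have b2 := intervalIntegral.norm_integral_le_of_norm_le_const (a := (k : ℝ) + s)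
      (b := (k : ℝ)) (f := f) (C := C) (fun t _ => hC t)
    rw [Real.norm_eq_abs] at b1 b2
    have s1 : |(-(k : ℝ)) - (-(k : ℝ) + s)| = |s| := by
      rw [show (-(k : ℝ)) - (-(k : ℝ) + s) = -s by ring, abs_neg]
    have s2 : |(k : ℝ) - ((k : ℝ) + s)| = |s| := by
      rw [show (k : ℝ) - ((k : ℝ) + s) = -s by ring, abs_neg]
    rw [s1] at b1
    rw [s2] at b2
    calc _ ≤ (2 * (k : ℝ))⁻¹ * (C * |s| + C * |s|) := by
          gcongr
          exact (abs_sub _ _).trans (add_le_add b1 b2)
      _ = _ := by field_simp; ring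
  have hlim : Tendsto (fun k : ℕ => windowMean (fun t => f (t + s)) k - windowMean f k)
      (ω : Filter ℕ) (𝓝 0) := by
    apply squeeze_zero_norm' (a := fun k : ℕ => (|s| * C) * (k : ℝ)⁻¹)
    · have : ∀ᶠ k : ℕ in (ω : Filter ℕ), 0 < k := hω (eventually_gt_atTop 0)
      filter_upwards [this] with k hk
      rw [Real.norm_eq_abs]
      exact key k hk
    · have h1 : Tendsto (fun k : ℕ => (k : ℝ)⁻¹) atTop (𝓝 0) :=
        tendsto_inv_atTop_zero.comp tendsto_natCast_atTop_atTop
      have h2 := (h1.mono_left hω).const_mul (|s| * C)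
      simpa using h2
  have := hlim.add (tendsto_mean ω (f := f) ⟨hf1, C, hC⟩)
  simpa using this

omit hω in
theorem mean_reflect (f : ℝ → ℝ) :
    ultraMean ω (fun t => f (-t)) = ultraMean ω f := by
  have : windowMean (fun t => f (-t)) = windowMean f := by
    funext k
    rw [windowMean_eq, windowMean_eq, intervalIntegral.integral_comp_neg (fun x => f x)]
    simp
  rw [ultraMean, this, ultraMean]

theorem exists_lt_of_lt_mean {f : ℝ → ℝ} (hf : BC f) {r : ℝ} (h : r < ultraMean ω f) :
    ∃ t, r < f t := by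
  by_contra hcon
  push Not at hcon
  exact absurd (mean_le_of_le hω hf hcon) (not_le.mpr h)

theorem exists_lt_of_mean_lt {f : ℝ → ℝ} (hf : BC f) {r : ℝ} (h : ultraMean ω f < r) :
    ∃ t, f t < r := by
  by_contra hcon
  push Not at hcon
  exact absurd (le_mean_of_le hω hf hcon) (not_le.mpr h)

/-! ### complex mean -/

omit hω in
theorem BC_re (F : ℝ →ᵇ ℂ) : BC (fun t => (F t).re) :=
  ⟨Complex.continuous_re.comp F.continuous, ‖F‖, fun t =>
    (Complex.abs_re_le_norm _).trans (F.norm_coe_le_norm t)⟩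

omit hω in
theorem BC_im (F : ℝ →ᵇ ℂ) : BC (fun t => (F t).im) :=
  ⟨Complex.continuous_im.comp F.continuous, ‖F‖, fun t =>
    (Complex.abs_im_le_norm _).trans (F.norm_coe_le_norm t)⟩

/-- the complex-linear mean. -/
noncomputable def meanC : (ℝ →ᵇ ℂ) →L[ℂ] ℂ :=
  LinearMap.mkContinuous
    { toFun := fun F => ((ultraMean ω (fun t => (F t).re) : ℝ) : ℂ)
        + ((ultraMean ω (fun t => (F t).im) : ℝ) : ℂ) * Complex.I
      map_add' := fun F G => by
        have h1 : (fun t => ((F + G) t).re) = fun t => (F t).re + (G t).re := by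
          funext t; simp
        have h2 : (fun t => ((F + G) t).im) = fun t => (F t).im + (G t).im := by
          funext t; simp
        rw [h1, h2, mean_add ω (BC_re F) (BC_re G), mean_add ω (BC_im F) (BC_im G)]
        push_cast; ring
      map_smul' := fun c F => by
        have h1 : (fun t => ((c • F) t).re) = fun t => c.re * (F t).re - c.im * (F t).im := by
          funext t; simp
        have h2 : (fun t => ((c • F) t).im) = fun t => c.re * (F t).im + c.im * (F t).re := by
          funext t; simp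
        rw [h1, h2, mean_sub ω ((BC_re F).const_mul _) ((BC_im F).const_mul _),
          mean_add ω ((BC_im F).const_mul _) ((BC_re F).const_mul _),
          mean_const_mul ω (BC_re F), mean_const_mul ω (BC_im F), mean_const_mul ω (BC_im F),
          mean_const_mul ω (BC_re F)]
        simp only [RingHom.id_apply, smul_eq_mul]
        push_cast
        apply Complex.ext
        · simp
        · simp }
    2
    (fun F => by
      have h1 : |ultraMean ω (fun t => (F t).re)| ≤ ‖F‖ :=
        abs_mean_le hω (BC_re F) (fun t => (Complex.abs_re_le_norm _).trans (F.norm_coe_le_norm t))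
      have h2 : |ultraMean ω (fun t => (F t).im)| ≤ ‖F‖ :=
        abs_mean_le hω (BC_im F) (fun t => (Complex.abs_im_le_norm _).trans (F.norm_coe_le_norm t))
      calc _ ≤ ‖((ultraMean ω (fun t => (F t).re) : ℝ) : ℂ)‖
            + ‖((ultraMean ω (fun t => (F t).im) : ℝ) : ℂ) * Complex.I‖ := norm_add_le _ _
        _ ≤ ‖F‖ + ‖F‖ := by
          rw [norm_mul, Complex.norm_I, mul_one, Complex.norm_real, Complex.norm_real]
          exact add_le_add h1 h2
        _ = _ := by ring)

theorem meanC_apply (F : ℝ →ᵇ ℂ) : meanC hω F = ((ultraMean ω (fun t => (F t).re) : ℝ) : ℂ)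
        + ((ultraMean ω (fun t => (F t).im) : ℝ) : ℂ) * Complex.I := rfl

theorem meanC_re (F : ℝ →ᵇ ℂ) : (meanC hω F).re = ultraMean ω (fun t => (F t).re) := by
  rw [meanC_apply]; simp

theorem meanC_congr_shift {F G : ℝ →ᵇ ℂ} (s : ℝ) (h : ∀ t, G t = F (t + s)) :
    meanC hω G = meanC hω F := by
  rw [meanC_apply, meanC_apply]
  have h1 : (fun t => (G t).re) = fun t => (fun u => (F u).re) (t + s) := by
    funext t; rw [h t]
  have h2 : (fun t => (G t).im) = fun t => (fun u => (F u).im) (t + s) := by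
    funext t; rw [h t]
  rw [h1, h2, mean_shift hω (BC_re F), mean_shift hω (BC_im F)]

theorem meanC_congr_reflect {F G : ℝ →ᵇ ℂ} (h : ∀ t, G t = F (-t)) :
    meanC hω G = meanC hω F := by
  rw [meanC_apply, meanC_apply]
  have h1 : (fun t => (G t).re) = fun t => (fun u => (F u).re) (-t) := by
    funext t; rw [h t]
  have h2 : (fun t => (G t).im) = fun t => (fun u => (F u).im) (-t) := by
    funext t; rw [h t]
  rw [h1, h2, mean_reflect (fun u => (F u).re), mean_reflect (fun u => (F u).im)]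

theorem meanC_const {F : ℝ →ᵇ ℂ} (c : ℂ) (h : ∀ t, F t = c) : meanC hω F = c := by
  rw [meanC_apply]
  have h1 : (fun t => (F t).re) = fun _ => c.re := by funext t; rw [h t]
  have h2 : (fun t => (F t).im) = fun _ => c.im := by funext t; rw [h t]
  rw [h1, h2, mean_const hω, mean_const hω, Complex.re_add_im]

end Crest.Agent.H7Mean
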