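import Mathlib
import Crest.Prelude.Def_ModularData

set_option autoImplicit false

namespace Crest.Agent.H7Modular

open Filter MeasureTheory Crest.OpAlg
open scoped Topology BoundedContinuousFunction InnerProductSpace ComplexConjugate

variable {H : Type*} [NormedAddCommGroup H] [InnerProductSpace ℂ H] [CompleteSpace H]

/-! ### Basic properties of the line calculus -/

theorem apply_norm_le (D : LineCalculus H) (f : ℝ →ᵇ ℂ) : ‖D.apply f‖ ≤ ‖f‖ :=
  NonUnitalStarAlgHom.norm_apply_le D.apply f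

theorem apply_apply_norm_le (D : LineCalculus H) (f : ℝ →ᵇ ℂ) (x : H) :
    ‖D.apply f x‖ ≤ ‖f‖ * ‖x‖ :=
  (ContinuousLinearMap.le_opNorm _ _).trans
    (mul_le_mul_of_nonneg_right (apply_norm_le D f) (norm_nonneg _))

theorem apply_mul_apply (D : LineCalculus H) (f g : ℝ →ᵇ ℂ) (x : H) :
    D.apply f (D.apply g x) = D.apply (f * g) x := by
  rw [map_mul]; rfl

theorem apply_comm (D : LineCalculus H) (f g : ℝ →ᵇ ℂ) (x : H) :
    D.apply f (D.apply g x) = D.apply g (D.apply f x) := by
  rw [apply_mul_apply, apply_mul_apply, mul_comm]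

theorem inner_apply_left (D : LineCalculus H) (f : ℝ →ᵇ ℂ) (x y : H) :
    ⟪D.apply f x, y⟫_ℂ = ⟪x, D.apply (star f) y⟫_ℂ := by
  rw [map_star, ContinuousLinearMap.star_eq_adjoint, ContinuousLinearMap.adjoint_inner_right]

@[simp] theorem character_apply (t u : ℝ) :
    LineCalculus.character t u = Complex.exp (Complex.I * ((t * u : ℝ) : ℂ)) := rfl

theorem character_zero : LineCalculus.character 0 = 1 := by
  ext u; simp

theorem character_add (s t : ℝ) :
    LineCalculus.character (s + t) = LineCalculus.character s * LineCalculus.character t := by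
  ext u
  simp only [character_apply, BoundedContinuousFunction.coe_mul, Pi.mul_apply, ← Complex.exp_add]
  congr 1; push_cast; ring

theorem character_star (t : ℝ) :
    star (LineCalculus.character t) = LineCalculus.character (-t) := by
  ext u
  simp only [character_apply, BoundedContinuousFunction.star_apply, Complex.star_def,
    ← Complex.exp_conj]
  congr 1; simp

theorem wave_zero (D : LineCalculus H) : D.wave 0 = 1 := by
  simp [LineCalculus.wave, character_zero]

theorem wave_add (D : LineCalculus H) (s t : ℝ) : D.wave (s + t) = D.wave s * D.wave t := by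
  simp [LineCalculus.wave, character_add]

theorem wave_add_apply (D : LineCalculus H) (s t : ℝ) (x : H) :
    D.wave (s + t) x = D.wave s (D.wave t x) := by
  rw [wave_add]; rfl

theorem wave_star (D : LineCalculus H) (t : ℝ) : star (D.wave t) = D.wave (-t) := by
  simp [LineCalculus.wave, ← map_star, character_star]

theorem inner_wave_left (D : LineCalculus H) (t : ℝ) (x y : H) :
    ⟪D.wave t x, y⟫_ℂ = ⟪x, D.wave (-t) y⟫_ℂ := by
  rw [LineCalculus.wave, inner_apply_left, character_star]; rfl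

theorem wave_neg_wave (D : LineCalculus H) (t : ℝ) (x : H) : D.wave (-t) (D.wave t x) = x := by
  rw [← wave_add_apply]; simp [wave_zero]

theorem wave_wave_neg (D : LineCalculus H) (t : ℝ) (x : H) : D.wave t (D.wave (-t) x) = x := by
  rw [← wave_add_apply]; simp [wave_zero]

theorem norm_wave (D : LineCalculus H) (t : ℝ) (x : H) : ‖D.wave t x‖ = ‖x‖ := by
  have h : ⟪D.wave t x, D.wave t x⟫_ℂ = ⟪x, x⟫_ℂ := by
    rw [inner_wave_left, wave_neg_wave]
  rw [@norm_eq_sqrt_re_inner ℂ, h, ← @norm_eq_sqrt_re_inner ℂ]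

theorem wave_apply_comm (D : LineCalculus H) (t : ℝ) (f : ℝ →ᵇ ℂ) (x : H) :
    D.wave t (D.apply f x) = D.apply f (D.wave t x) := apply_comm D _ _ _


/-! ### Cut-off functions -/

/-- the real function equal to `1` on `[-R, R]`, vanishing off `[-R-1, R+1]`. -/
noncomputable def cutR (R : ℝ) (u : ℝ) : ℝ := max 0 (min 1 (R + 1 - |u|))

theorem cutR_nonneg (R u : ℝ) : 0 ≤ cutR R u := le_max_left _ _

theorem cutR_le_one (R u : ℝ) : cutR R u ≤ 1 := max_le zero_le_one (min_le_left _ _)

theorem cutR_continuous (R : ℝ) : Continuous (cutR R) := by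
  unfold cutR; fun_prop

theorem cutR_eq_one {R u : ℝ} (h : |u| ≤ R) : cutR R u = 1 := by
  unfold cutR
  rw [min_eq_left (by linarith), max_eq_right zero_le_one]

theorem cutR_eq_zero {R u : ℝ} (h : R + 1 ≤ |u|) : cutR R u = 0 := by
  unfold cutR
  exact max_eq_left ((min_le_right _ _).trans (by linarith))

/-- the complex bounded continuous version of `cutR`. -/
noncomputable def cut (R : ℝ) : ℝ →ᵇ ℂ :=
  BoundedContinuousFunction.ofNormedAddCommGroup (fun u : ℝ => ((cutR R u : ℝ) : ℂ))
    (Complex.continuous_ofReal.comp (cutR_continuous R)) 1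
    (fun u => by
      rw [Complex.norm_real, Real.norm_of_nonneg (cutR_nonneg R u)]
      exact cutR_le_one R u)

@[simp] theorem cut_apply (R u : ℝ) : cut R u = ((cutR R u : ℝ) : ℂ) := rfl

theorem cut_norm_le (R : ℝ) : ‖cut R‖ ≤ 1 :=
  BoundedContinuousFunction.norm_ofNormedAddCommGroup_le _ zero_le_one _

theorem cut_compact (R : ℝ) : HasCompactSupport (cut R : ℝ → ℂ) := by
  apply HasCompactSupport.intro (isCompact_Icc (a := -(R + 1)) (b := R + 1))
  intro u hu
  have : R + 1 ≤ |u| := by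
    rw [Set.mem_Icc, ← abs_le] at hu
    exact le_of_lt (not_le.mp hu)
  simp [cutR_eq_zero this]

theorem window_cut (D : LineCalculus H) (x : H) {ε : ℝ} (hε : 0 < ε) :
    ∃ R : ℝ, 0 ≤ R ∧ ‖D.apply (cut R) x - x‖ < ε := by
  obtain ⟨f, hf, hfx⟩ := D.window x (ε / 2) (by positivity)
  obtain ⟨R, hR⟩ := (hf.isCompact.isBounded).subset_closedBall (0 : ℝ)
  refine ⟨max R 0, le_max_right _ _, ?_⟩
  have hmul : cut (max R 0) * f = f := by
    ext u
    simp only [BoundedContinuousFunction.coe_mul, Pi.mul_apply, cut_apply]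
    by_cases hu : u ∈ tsupport (f : ℝ → ℂ)
    · have h1 := hR hu
      rw [mem_closedBall_zero_iff, Real.norm_eq_abs] at h1
      rw [cutR_eq_one (h1.trans (le_max_left _ _))]; simp
    · rw [image_eq_zero_of_notMem_tsupport hu, mul_zero]
  have h1 : D.apply (cut (max R 0)) x - x
      = D.apply (cut (max R 0)) (x - D.apply f x) + (D.apply f x - x) := by
    rw [map_sub, apply_mul_apply, hmul]; abel
  rw [h1]
  calc _ ≤ ‖D.apply (cut (max R 0)) (x - D.apply f x)‖ + ‖D.apply f x - x‖ := norm_add_le _ _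
    _ ≤ 1 * ‖x - D.apply f x‖ + ‖D.apply f x - x‖ := by
        gcongr
        exact (apply_apply_norm_le D _ _).trans
          (mul_le_mul_of_nonneg_right (cut_norm_le _) (norm_nonneg _))
    _ = ‖D.apply f x - x‖ + ‖D.apply f x - x‖ := by rw [one_mul, norm_sub_rev]
    _ < ε := by linarith

/-- `t ↦ e^{itu} f(u)` is continuous into bounded continuous functions if `f` is cut off. -/
theorem continuous_character_mul_cut (R : ℝ) (hR : 0 ≤ R) :
    Continuous (fun t : ℝ => LineCalculus.character t * cut R) := by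
  rw [Metric.continuous_iff]
  intro t ε hε
  refine ⟨ε / (2 * (R + 1)), by positivity, fun s hs => ?_⟩
  rw [dist_eq_norm]
  have hb : ‖LineCalculus.character s * cut R - LineCalculus.character t * cut R‖
      ≤ |s - t| * (R + 1) := by
    rw [BoundedContinuousFunction.norm_le (by positivity)]
    intro u
    simp only [BoundedContinuousFunction.coe_sub, Pi.sub_apply, BoundedContinuousFunction.coe_mul,
      Pi.mul_apply, ← sub_mul, norm_mul, cut_apply, character_apply]
    by_cases hu : R + 1 ≤ |u|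
    · rw [cutR_eq_zero hu]; simp; positivity
    · have hu := not_le.mp hu
      have h2 : ‖((cutR R u : ℝ) : ℂ)‖ ≤ 1 := by
        rw [Complex.norm_real, Real.norm_of_nonneg (cutR_nonneg R u)]; exact cutR_le_one R u
      have h3 : ‖Complex.exp (Complex.I * ((s * u : ℝ) : ℂ))
          - Complex.exp (Complex.I * ((t * u : ℝ) : ℂ))‖ ≤ |s - t| * |u| := by
        have e1 : Complex.exp (Complex.I * ((s * u : ℝ) : ℂ))
            = Complex.exp (Complex.I * ((t * u : ℝ) : ℂ))
              * Complex.exp (Complex.I * (((s - t) * u : ℝ) : ℂ)) := by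
          rw [← Complex.exp_add]; congr 1; push_cast; ring
        have e2 : Complex.exp (Complex.I * ((s * u : ℝ) : ℂ))
            - Complex.exp (Complex.I * ((t * u : ℝ) : ℂ))
            = Complex.exp (Complex.I * ((t * u : ℝ) : ℂ))
              * (Complex.exp (Complex.I * (((s - t) * u : ℝ) : ℂ)) - 1) := by
          rw [e1]; ring
        rw [e2, norm_mul]
        have e3 : ‖Complex.exp (Complex.I * ((t * u : ℝ) : ℂ))‖ = 1 := by
          rw [mul_comm]; exact Complex.norm_exp_ofReal_mul_I _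
        rw [e3, one_mul]
        calc _ ≤ ‖(s - t) * u‖ := Real.norm_exp_I_mul_ofReal_sub_one_le
          _ = |s - t| * |u| := by rw [Real.norm_eq_abs, abs_mul]
      calc _ ≤ (|s - t| * |u|) * 1 := by gcongr
        _ ≤ |s - t| * (R + 1) := by
          rw [mul_one]; gcongr
  refine lt_of_le_of_lt hb ?_
  rw [Real.dist_eq] at hs
  calc |s - t| * (R + 1) ≤ (ε / (2 * (R + 1))) * (R + 1) := by gcongr
    _ = ε / 2 := by field_simp
    _ < ε := by linarith

theorem continuous_wave (D : LineCalculus H) (x : H) : Continuous (fun t : ℝ => D.wave t x) := by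
  rw [continuous_iff_continuousAt]
  intro t
  rw [Metric.continuousAt_iff]
  intro ε hε
  obtain ⟨R, hR0, hR⟩ := window_cut D x (ε := ε / 4) (by positivity)
  have hc : Continuous (fun s : ℝ => D.wave s (D.apply (cut R) x)) := by
    have h1 : (fun s : ℝ => D.wave s (D.apply (cut R) x))
        = fun s : ℝ => D.apply (LineCalculus.character s * cut R) x := by
      funext s
      rw [LineCalculus.wave, apply_mul_apply]
    rw [h1]
    have h2 : Continuous (fun f : ℝ →ᵇ ℂ => D.apply f x) := by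
      have : LipschitzWith (Real.toNNReal ‖x‖) (fun f : ℝ →ᵇ ℂ => D.apply f x) := by
        apply LipschitzWith.of_dist_le_mul
        intro f g
        rw [dist_eq_norm, dist_eq_norm, Real.coe_toNNReal _ (norm_nonneg _), mul_comm]
        have : D.apply f x - D.apply g x = D.apply (f - g) x := by
          rw [map_sub]; rfl
        rw [this]
        exact apply_apply_norm_le D _ _
      exact this.continuous
    exact h2.comp (continuous_character_mul_cut R hR0)
  obtain ⟨δ, hδ, h⟩ := (Metric.continuousAt_iff.mp (hc.continuousAt (x := t))) (ε / 4) (by positivity)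
  refine ⟨δ, hδ, fun s hs => ?_⟩
  have h1 := h hs
  rw [dist_eq_norm] at h1 ⊢
  have e : D.wave s x - D.wave t x
      = D.wave s (x - D.apply (cut R) x) + (D.wave s (D.apply (cut R) x)
        - D.wave t (D.apply (cut R) x)) + D.wave t (D.apply (cut R) x - x) := by
    simp only [map_sub]; abel
  rw [e]
  calc _ ≤ ‖D.wave s (x - D.apply (cut R) x) + (D.wave s (D.apply (cut R) x)
        - D.wave t (D.apply (cut R) x))‖ + ‖D.wave t (D.apply (cut R) x - x)‖ := norm_add_le _ _
    _ ≤ ‖D.wave s (x - D.apply (cut R) x)‖ + ‖D.wave s (D.apply (cut R) x)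
        - D.wave t (D.apply (cut R) x)‖ + ‖D.wave t (D.apply (cut R) x - x)‖ := by
          gcongr; exact norm_add_le _ _
    _ < ε := by
      rw [norm_wave, norm_wave, norm_sub_rev]
      linarith


/-! ### Weak averages along the flow -/

/-- the flow `σ_t(a)`. -/
noncomputable def flow (D : LineCalculus H) (t : ℝ) (a : H →L[ℂ] H) : H →L[ℂ] H :=
  D.wave t * a * D.wave (-t)

theorem flow_apply (D : LineCalculus H) (t : ℝ) (a : H →L[ℂ] H) (x : H) :
    flow D t a x = D.wave t (a (D.wave (-t) x)) := rfl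

theorem norm_wave_le (D : LineCalculus H) (t : ℝ) : ‖D.wave t‖ ≤ 1 :=
  ContinuousLinearMap.opNorm_le_bound _ zero_le_one (fun x => by rw [norm_wave, one_mul])

theorem norm_flow_le (D : LineCalculus H) (t : ℝ) (a : H →L[ℂ] H) : ‖flow D t a‖ ≤ ‖a‖ := by
  apply ContinuousLinearMap.opNorm_le_bound _ (norm_nonneg _)
  intro x
  rw [flow_apply, norm_wave]
  exact (a.le_opNorm _).trans (by rw [norm_wave])

theorem flow_zero (D : LineCalculus H) (a : H →L[ℂ] H) : flow D 0 a = a := by
  simp [flow, wave_zero]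

theorem flow_flow (D : LineCalculus H) (s t : ℝ) (a : H →L[ℂ] H) :
    flow D s (flow D t a) = flow D (s + t) a := by
  simp only [flow, wave_add, neg_add_rev]
  simp only [mul_assoc]

theorem flow_star (D : LineCalculus H) (t : ℝ) (a : H →L[ℂ] H) :
    star (flow D t a) = flow D t (star a) := by
  simp [flow, wave_star, mul_assoc]

theorem flow_mul (D : LineCalculus H) (t : ℝ) (a b : H →L[ℂ] H) :
    flow D t (a * b) = flow D t a * flow D t b := by
  have h : D.wave (-t) * D.wave t = 1 := by rw [← wave_add]; simp [wave_zero]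
  calc flow D t (a * b) = D.wave t * a * (D.wave (-t) * D.wave t) * b * D.wave (-t) := by
        rw [h]; simp [flow, mul_assoc]
    _ = _ := by simp [flow, mul_assoc]

/-- the matrix coefficient `t ↦ ⟪σ_t(a) x, y⟫` as a bounded continuous function. -/
noncomputable def coef (D : LineCalculus H) (a : H →L[ℂ] H) (x y : H) : ℝ →ᵇ ℂ :=
  BoundedContinuousFunction.ofNormedAddCommGroup (fun t : ℝ => ⟪flow D t a x, y⟫_ℂ)
    (by
      have h1 : (fun t : ℝ => ⟪flow D t a x, y⟫_ℂ)
          = fun t : ℝ => ⟪a (D.wave (-t) x), D.wave (-t) y⟫_ℂ := by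
        funext t; rw [flow_apply, inner_wave_left]
      rw [h1]
      exact Continuous.inner (a.continuous.comp ((continuous_wave D x).comp continuous_neg))
        ((continuous_wave D y).comp continuous_neg))
    (‖a‖ * ‖x‖ * ‖y‖)
    (fun t => (norm_inner_le_norm _ _).trans
      (mul_le_mul_of_nonneg_right ((ContinuousLinearMap.le_opNorm _ _).trans
        (mul_le_mul_of_nonneg_right (norm_flow_le D t a) (norm_nonneg _))) (norm_nonneg _)))

@[simp] theorem coef_apply (D : LineCalculus H) (a : H →L[ℂ] H) (x y : H) (t : ℝ) :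
    coef D a x y t = ⟪flow D t a x, y⟫_ℂ := rfl

theorem coef_norm_le (D : LineCalculus H) (a : H →L[ℂ] H) (x y : H) :
    ‖coef D a x y‖ ≤ ‖a‖ * ‖x‖ * ‖y‖ :=
  BoundedContinuousFunction.norm_ofNormedAddCommGroup_le _ (by positivity) _

/-- the sesquilinear form `(x, y) ↦ m (t ↦ ⟪σ_t(a) x, y⟫)`. -/
noncomputable def avgForm (D : LineCalculus H) (m : (ℝ →ᵇ ℂ) →L[ℂ] ℂ) (a : H →L[ℂ] H) :
    H →L⋆[ℂ] H →L[ℂ] ℂ :=
  LinearMap.mkContinuous₂
    (LinearMap.mk₂'ₛₗ (starRingEnd ℂ) (RingHom.id ℂ) (fun x y => m (coef D a x y))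
      (fun x x' y => by
        rw [← map_add]; congr 1; ext t; simp)
      (fun c x y => by
        rw [smul_eq_mul, ← smul_eq_mul, ← map_smul]; congr 1; ext t
        simp [mul_comm])
      (fun x y y' => by
        rw [← map_add]; congr 1; ext t; simp)
      (fun c x y => by
        rw [RingHom.id_apply, ← map_smul]; congr 1; ext t
        simp))
    (‖m‖ * ‖a‖)
    (fun x y => by
      show ‖m (coef D a x y)‖ ≤ _
      calc _ ≤ ‖m‖ * ‖coef D a x y‖ := m.le_opNorm _
        _ ≤ ‖m‖ * (‖a‖ * ‖x‖ * ‖y‖) := by gcongr; exact coef_norm_le D a x y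
        _ = _ := by ring)

/-- the weak average `m(σ(a))`. -/
noncomputable def avgOp (D : LineCalculus H) (m : (ℝ →ᵇ ℂ) →L[ℂ] ℂ) (a : H →L[ℂ] H) :
    H →L[ℂ] H :=
  InnerProductSpace.continuousLinearMapOfBilin (avgForm D m a)

theorem inner_avgOp (D : LineCalculus H) (m : (ℝ →ᵇ ℂ) →L[ℂ] ℂ) (a : H →L[ℂ] H) (x y : H) :
    ⟪avgOp D m a x, y⟫_ℂ = m (coef D a x y) := by
  rw [avgOp, InnerProductSpace.continuousLinearMapOfBilin_apply]
  rfl

theorem norm_avgOp_le (D : LineCalculus H) (m : (ℝ →ᵇ ℂ) →L[ℂ] ℂ) (a : H →L[ℂ] H) :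
    ‖avgOp D m a‖ ≤ ‖m‖ * ‖a‖ := by
  apply ContinuousLinearMap.opNorm_le_bound _ (by positivity)
  intro x
  by_cases hx : avgOp D m a x = 0
  · rw [hx, norm_zero]; positivity
  · have h1 : ‖avgOp D m a x‖ ^ 2 ≤ (‖m‖ * ‖a‖ * ‖x‖) * ‖avgOp D m a x‖ := by
      have h2 : ‖⟪avgOp D m a x, avgOp D m a x⟫_ℂ‖ = ‖avgOp D m a x‖ ^ 2 := by
        rw [inner_self_eq_norm_sq_to_K]; simp
      rw [← h2, inner_avgOp]
      calc _ ≤ ‖m‖ * ‖coef D a x (avgOp D m a x)‖ := m.le_opNorm _
        _ ≤ ‖m‖ * (‖a‖ * ‖x‖ * ‖avgOp D m a x‖) := by gcongr; exact coef_norm_le D a x _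
        _ = _ := by ring
    have h3 : 0 < ‖avgOp D m a x‖ := norm_pos_iff.mpr hx
    nlinarith

variable (S : ModularDatum H)

theorem flow_mem (t : ℝ) {a : H →L[ℂ] H} (ha : a ∈ S.M) : flow S.D t a ∈ S.M :=
  S.flow_mem t a ha

theorem avgOp_mem (m : (ℝ →ᵇ ℂ) →L[ℂ] ℂ) {a : H →L[ℂ] H} (ha : a ∈ S.M) :
    avgOp S.D m a ∈ S.M := by
  have key : avgOp S.D m a ∈ S.M.commutant.commutant := by
    rw [VonNeumannAlgebra.mem_commutant_iff]
    intro b hb
    have hbs : star b ∈ S.M.commutant := star_mem hb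
    ext x
    apply ext_inner_right ℂ
    intro y
    show ⟪b (avgOp S.D m a x), y⟫_ℂ = ⟪avgOp S.D m a (b x), y⟫_ℂ
    have h1 : ⟪b (avgOp S.D m a x), y⟫_ℂ = ⟪avgOp S.D m a x, (star b) y⟫_ℂ := by
      rw [ContinuousLinearMap.star_eq_adjoint, ContinuousLinearMap.adjoint_inner_right]
    rw [h1, inner_avgOp, inner_avgOp]
    congr 1
    ext t
    simp only [coef_apply]
    have h2 : flow S.D t a * b = b * flow S.D t a :=
      (VonNeumannAlgebra.mem_commutant_iff.mp hb) _ (flow_mem S t ha)
    have h3 : flow S.D t a (b x) = b (flow S.D t a x) := by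
      have := congrArg (fun A : H →L[ℂ] H => A x) h2
      exact this
    rw [h3, ContinuousLinearMap.star_eq_adjoint, ContinuousLinearMap.adjoint_inner_right]
  rwa [VonNeumannAlgebra.commutant_commutant] at key


/-! ### Consequences of the Tomita relation -/

theorem J_inner_map (x y : H) : ⟪S.J x, S.J y⟫_ℂ = ⟪y, x⟫_ℂ := by
  have h1 : ‖S.J x + S.J y‖ = ‖x + y‖ := by rw [← map_add, S.J.norm_map]
  have h2 : ‖S.J x - S.J y‖ = ‖x - y‖ := by rw [← map_sub, S.J.norm_map]
  have hI : (RCLike.I : ℂ) • S.J y = - S.J ((RCLike.I : ℂ) • y) := by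
    rw [LinearIsometryEquiv.map_smulₛₗ]; simp
  have h3 : ‖S.J x - (RCLike.I : ℂ) • S.J y‖ = ‖x + (RCLike.I : ℂ) • y‖ := by
    rw [hI, sub_neg_eq_add, ← map_add, S.J.norm_map]
  have h4 : ‖S.J x + (RCLike.I : ℂ) • S.J y‖ = ‖x - (RCLike.I : ℂ) • y‖ := by
    rw [hI, ← sub_eq_add_neg, ← map_sub, S.J.norm_map]
  rw [← inner_conj_symm y x, inner_eq_sum_norm_sq_div_four, inner_eq_sum_norm_sq_div_four x y,
    h1, h2, h3, h4]
  have h4' : (starRingEnd ℂ) (4 : ℂ) = 4 := map_ofNat _ 4
  simp only [map_div₀, map_add, map_sub, map_mul, map_pow, h4', RCLike.conj_ofReal, RCLike.conj_I]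
  ring

theorem J_inner (x y : H) : ⟪S.J x, y⟫_ℂ = ⟪S.J y, x⟫_ℂ := by
  have h := J_inner_map S x (S.J y)
  rw [S.J_J] at h
  exact h

theorem graph_halfExp {a : H →L[ℂ] H} (ha : a ∈ S.M) :
    S.D.HalfExp (a S.vac) (S.J (star a S.vac)) := by
  have h : ((a S.vac, star a S.vac) : H × H) ∈ {p : H × H | S.D.HalfExp p.1 (S.J p.2)} := by
    rw [← S.tomita]
    exact subset_closure ⟨⟨a, ha⟩, rfl⟩
  exact h

/-- a compactly supported continuous function as a bounded continuous function -/
noncomputable def mkC (f : ℝ → ℂ) (hf : Continuous f) (h : HasCompactSupport f) : ℝ →ᵇ ℂ :=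
  BoundedContinuousFunction.ofNormedAddCommGroup f hf
    (Classical.choose (h.exists_bound_of_continuous hf))
    (Classical.choose_spec (h.exists_bound_of_continuous hf))

@[simp] theorem mkC_apply (f : ℝ → ℂ) (hf : Continuous f) (h : HasCompactSupport f) (u : ℝ) :
    mkC f hf h u = f u := rfl

/-- multiplication of a cut-off function by `e^{c u}`. -/
noncomputable def expMul (c : ℝ) (f : ℝ →ᵇ ℂ) (hf : HasCompactSupport (f : ℝ → ℂ)) : ℝ →ᵇ ℂ :=
  mkC (fun u => f u * ((Real.exp (c * u) : ℝ) : ℂ)) (by fun_prop) hf.mul_right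

@[simp] theorem expMul_apply (c : ℝ) (f : ℝ →ᵇ ℂ) (hf : HasCompactSupport (f : ℝ → ℂ)) (u : ℝ) :
    expMul c f hf u = f u * ((Real.exp (c * u) : ℝ) : ℂ) := rfl

theorem expMul_compact (c : ℝ) (f : ℝ →ᵇ ℂ) (hf : HasCompactSupport (f : ℝ → ℂ)) :
    HasCompactSupport (expMul c f hf : ℝ → ℂ) := hf.mul_right

/-- every pair in the closed graph satisfies `⟪y, ξ⟫ = ⟪ξ, x⟫`. -/
theorem graph_inner {x y : H} (h : S.D.HalfExp x (S.J y)) : ⟪y, S.vac⟫_ℂ = ⟪S.vac, x⟫_ℂ := by
  have hmem : ((x, y) : H × H) ∈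
      closure (Set.range fun a : S.M => ((a : H →L[ℂ] H) S.vac, star (a : H →L[ℂ] H) S.vac)) := by
    rw [S.tomita]; exact h
  have hclosed : IsClosed {p : H × H | ⟪p.2, S.vac⟫_ℂ = ⟪S.vac, p.1⟫_ℂ} := by
    apply isClosed_eq
    · exact continuous_snd.inner continuous_const
    · exact continuous_const.inner continuous_fst
  have hsub : (Set.range fun a : S.M => ((a : H →L[ℂ] H) S.vac, star (a : H →L[ℂ] H) S.vac))
      ⊆ {p : H × H | ⟪p.2, S.vac⟫_ℂ = ⟪S.vac, p.1⟫_ℂ} := by
    rintro _ ⟨a, rfl⟩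
    show ⟪star (a : H →L[ℂ] H) S.vac, S.vac⟫_ℂ = ⟪S.vac, (a : H →L[ℂ] H) S.vac⟫_ℂ
    rw [ContinuousLinearMap.star_eq_adjoint, ContinuousLinearMap.adjoint_inner_left]
  exact hclosed.closure_subset_iff.mpr hsub hmem

theorem halfExp_cut (f : ℝ →ᵇ ℂ) (hf : HasCompactSupport (f : ℝ → ℂ)) (z : H) :
    S.D.HalfExp (S.D.apply f z) (S.D.apply (expMul (1 / 2) f hf) z) := by
  intro F G hFG
  rw [apply_mul_apply, apply_mul_apply]
  congr 2
  ext u
  simp only [BoundedContinuousFunction.coe_mul, Pi.mul_apply, expMul_apply, hFG u]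
  have : (1 / 2 : ℝ) * u = u / 2 := by ring
  rw [this]; ring

theorem vac_J (f : ℝ →ᵇ ℂ) (hf : HasCompactSupport (f : ℝ → ℂ)) :
    S.D.apply (expMul (1 / 2) f hf) (S.J S.vac) = S.D.apply f S.vac := by
  -- first for the star
  have hsf : HasCompactSupport ((star f : ℝ →ᵇ ℂ) : ℝ → ℂ) := by
    have : ((star f : ℝ →ᵇ ℂ) : ℝ → ℂ) = fun u => star (f u) := rfl
    rw [this]
    exact hf.comp_left (g := fun z : ℂ => star z) (by simp)
  apply ext_inner_right ℂ
  intro z
  have h1 := halfExp_cut S (star f) hsf z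
  have h2 : S.D.HalfExp (S.D.apply (star f) z)
      (S.J (S.J (S.D.apply (expMul (1 / 2) (star f) hsf) z))) := by
    rw [S.J_J]; exact h1
  have h3 := graph_inner S h2
  rw [J_inner] at h3
  have h4 : expMul (1 / 2) (star f) hsf = star (expMul (1 / 2) f hf) := by
    ext u
    simp only [expMul_apply, BoundedContinuousFunction.star_apply, star_mul', Complex.star_def,
      Complex.conj_ofReal]
  rw [h4] at h3
  rw [inner_apply_left, h3, inner_apply_left]

theorem vac_exp (f : ℝ →ᵇ ℂ) (hf : HasCompactSupport (f : ℝ → ℂ)) :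
    S.D.apply (expMul 1 f hf) S.vac = S.D.apply f S.vac := by
  rw [← vac_J S f hf]
  have h1 := graph_halfExp S (one_mem S.M)
  simp only [star_one, one_apply_eq_self] at h1
  symm
  apply h1
  intro u
  simp only [expMul_apply]
  rw [mul_assoc, ← Complex.ofReal_mul, ← Real.exp_add]
  congr 3; ring

theorem abs_exp_ge {R u : ℝ} (h : |u| ≤ R) : |u| ≤ Real.exp R * |Real.exp u - 1| := by
  have hR : 0 ≤ R := (abs_nonneg u).trans h
  rcases le_total 0 u with hu | hu
  · have h1 : u ≤ Real.exp u - 1 := by linarith [Real.add_one_le_exp u]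
    have h2 : 1 ≤ Real.exp R := Real.one_le_exp hR
    rw [abs_of_nonneg hu, abs_of_nonneg (by linarith)]
    nlinarith
  · have h1 : -u ≤ Real.exp (-u) - 1 := by linarith [Real.add_one_le_exp (-u)]
    have h2 : Real.exp (-u) ≤ Real.exp R := Real.exp_le_exp.mpr (by
      rw [abs_of_nonpos hu] at h; exact h)
    have h3 : Real.exp u ≤ 1 := Real.exp_le_one_iff.mpr hu
    have h4 : Real.exp u * Real.exp (-u) = 1 := by rw [← Real.exp_add]; simp
    rw [abs_of_nonpos hu, abs_of_nonpos (by linarith)]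
    have h5 : Real.exp (-u) - 1 = Real.exp (-u) * (1 - Real.exp u) := by
      rw [mul_sub, mul_one, mul_comm, h4]
    calc -u ≤ Real.exp (-u) - 1 := h1
      _ = Real.exp (-u) * (1 - Real.exp u) := h5
      _ ≤ Real.exp R * (1 - Real.exp u) := by
          apply mul_le_mul_of_nonneg_right h2; linarith
      _ = _ := by ring

/-- a compactly supported function `F` with `|F u| ≤ C |u|` kills the vacuum. -/
theorem vac_kill (F : ℝ →ᵇ ℂ) (hF : HasCompactSupport (F : ℝ → ℂ)) (C : ℝ) (hC : 0 ≤ C)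
    (hb : ∀ u, ‖F u‖ ≤ C * |u|) : S.D.apply F S.vac = 0 := by
  obtain ⟨R, hR⟩ := (hF.isCompact.isBounded).subset_closedBall (0 : ℝ)
  have hR' : ∀ u, F u ≠ 0 → |u| ≤ R := by
    intro u hu
    have : u ∈ tsupport (F : ℝ → ℂ) := subset_tsupport _ hu
    have := hR this
    rwa [mem_closedBall_zero_iff, Real.norm_eq_abs] at this
  have hR0 : ∀ u, ‖F u‖ ≤ C * Real.exp R * |Real.exp u - 1| := by
    intro u
    by_cases hu : F u = 0
    · rw [hu, norm_zero]; positivity
    · calc _ ≤ C * |u| := hb u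
        _ ≤ C * (Real.exp R * |Real.exp u - 1|) := by
          gcongr; exact abs_exp_ge (hR' u hu)
        _ = _ := by ring
  rw [← norm_le_zero_iff]
  apply le_of_forall_pos_le_add
  intro ε hε
  -- choose η
  set K : ℝ := C * Real.exp R with hK
  have hK0 : 0 ≤ K := by positivity
  set η : ℝ := (ε / (K + 1)) ^ 2 with hη
  have hη0 : 0 < η := by positivity
  have hsq : Real.sqrt η = ε / (K + 1) := by rw [hη, Real.sqrt_sq (by positivity)]
  set den : ℝ → ℝ := fun u => (Real.exp u - 1) ^ 2 + η with hden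
  have hden0 : ∀ u, 0 < den u := fun u => by positivity
  have hdc : Continuous den := by fun_prop
  -- the quotient
  have hkc : Continuous (fun u : ℝ => F u * (((Real.exp u - 1) / den u : ℝ) : ℂ)) := by
    apply F.continuous.mul
    apply Complex.continuous_ofReal.comp
    exact (by fun_prop : Continuous fun u : ℝ => Real.exp u - 1).div hdc (fun u => (hden0 u).ne')
  have hks : HasCompactSupport (fun u : ℝ => F u * (((Real.exp u - 1) / den u : ℝ) : ℂ)) :=
    hF.mul_right
  have h1 := vac_exp S (mkC _ hkc hks) hks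
  -- difference
  have h2 : ‖F - (expMul 1 (mkC _ hkc hks) hks - mkC _ hkc hks)‖ ≤ ε := by
    rw [BoundedContinuousFunction.norm_le hε.le]
    intro u
    have e1 : (F - (expMul 1 (mkC _ hkc hks) hks - mkC _ hkc hks)) u
        = F u * (((η / den u : ℝ)) : ℂ) := by
      simp only [BoundedContinuousFunction.coe_sub, Pi.sub_apply, expMul_apply, mkC_apply, one_mul]
      have : (η / den u : ℝ) = 1 - (Real.exp u - 1) / den u * (Real.exp u - 1) := by
        rw [div_mul_eq_mul_div, eq_sub_iff_add_eq, ← add_div, div_eq_one_iff_eq (hden0 u).ne']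
        simp only [hden]; ring
      rw [this]
      push_cast
      ring
    rw [e1, norm_mul, Complex.norm_real, Real.norm_of_nonneg (div_nonneg hη0.le (hden0 u).le)]
    set w := |Real.exp u - 1| with hw
    have hw0 : 0 ≤ w := abs_nonneg _
    have hden' : den u = w ^ 2 + η := by simp only [hden, hw, sq_abs]
    calc ‖F u‖ * (η / den u) ≤ (K * w) * (η / den u) := by
          apply mul_le_mul_of_nonneg_right (hR0 u) (div_nonneg hη0.le (hden0 u).le)
      _ = K * ((w * η) / den u) := by ring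
      _ ≤ K * (Real.sqrt η) := by
          gcongr
          rw [div_le_iff₀ (hden0 u), hden']
          have hs : Real.sqrt η ^ 2 = η := Real.sq_sqrt hη0.le
          have hs0 : 0 ≤ Real.sqrt η := Real.sqrt_nonneg _
          nlinarith [mul_nonneg hs0 (sq_nonneg (w - Real.sqrt η)), mul_nonneg hw0 hη0.le,
            mul_nonneg hs0 (sq_nonneg w)]
      _ ≤ ε := by
          rw [hsq]
          rw [mul_div_assoc', div_le_iff₀ (by positivity)]
          nlinarith
  have h3 : S.D.apply F S.vac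
      = S.D.apply (F - (expMul 1 (mkC _ hkc hks) hks - mkC _ hkc hks)) S.vac := by
    simp only [map_sub, sub_apply, h1, sub_self, sub_zero]
  rw [h3, zero_add]
  calc _ ≤ ‖F - (expMul 1 (mkC _ hkc hks) hks - mkC _ hkc hks)‖ * ‖S.vac‖ :=
        apply_apply_norm_le _ _ _
    _ ≤ ε := by rw [S.norm_vac, mul_one]; exact h2

theorem wave_vac (t : ℝ) : S.D.wave t S.vac = S.vac := by
  rw [← sub_eq_zero, ← norm_le_zero_iff]
  apply le_of_forall_pos_le_add
  intro ε hε
  obtain ⟨R, hR0, hR⟩ := window_cut S.D S.vac (ε := ε / 2) (by positivity)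
  have hF : HasCompactSupport (((LineCalculus.character t - 1) * cut R : ℝ →ᵇ ℂ) : ℝ → ℂ) := by
    have : (((LineCalculus.character t - 1) * cut R : ℝ →ᵇ ℂ) : ℝ → ℂ)
        = fun u => ((LineCalculus.character t - 1 : ℝ →ᵇ ℂ) u) * cut R u := by
      funext u; simp
    rw [this]
    exact (cut_compact R).mul_left
  have h0 := vac_kill S ((LineCalculus.character t - 1) * cut R) hF |t| (abs_nonneg t) (by
    intro u
    simp only [BoundedContinuousFunction.coe_mul, Pi.mul_apply, BoundedContinuousFunction.coe_sub,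
      Pi.sub_apply, character_apply, BoundedContinuousFunction.coe_one, Pi.one_apply, cut_apply,
      norm_mul]
    have h2 : ‖((cutR R u : ℝ) : ℂ)‖ ≤ 1 := by
      rw [Complex.norm_real, Real.norm_of_nonneg (cutR_nonneg R u)]; exact cutR_le_one R u
    have h3 : ‖Complex.exp (Complex.I * ((t * u : ℝ) : ℂ)) - 1‖ ≤ |t| * |u| := by
      calc _ ≤ ‖t * u‖ := Real.norm_exp_I_mul_ofReal_sub_one_le
        _ = |t| * |u| := by rw [Real.norm_eq_abs, abs_mul]
    calc _ ≤ (|t| * |u|) * 1 := by gcongr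
      _ = _ := mul_one _)
  have h1 : S.D.wave t S.vac - S.vac
      = S.D.wave t (S.vac - S.D.apply (cut R) S.vac) - (S.vac - S.D.apply (cut R) S.vac) := by
    have h2 : S.D.wave t (S.D.apply (cut R) S.vac) - S.D.apply (cut R) S.vac = 0 := by
      rw [← h0, LineCalculus.wave, apply_mul_apply]
      rw [sub_mul, one_mul, map_sub]; rfl
    rw [map_sub]
    have h3 : S.D.wave t (S.D.apply (cut R) S.vac) = S.D.apply (cut R) S.vac :=
      sub_eq_zero.mp h2
    rw [h3]; abel
  rw [h1, zero_add]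
  calc _ ≤ ‖S.D.wave t (S.vac - S.D.apply (cut R) S.vac)‖ + ‖S.vac - S.D.apply (cut R) S.vac‖ :=
        norm_sub_le _ _
    _ ≤ ε := by
      rw [norm_wave, norm_sub_rev]; linarith

/-- if `aξ` has spectral support in `[α, β]`, then `‖a⋆ξ‖ ≤ e^{β/2} ‖aξ‖`. -/
theorem norm_star_vac_le {a : H →L[ℂ] H} (ha : a ∈ S.M) {α β : ℝ}
    (hs : S.D.SupportedIn (Set.Icc α β) (a S.vac)) :
    ‖star a S.vac‖ ≤ Real.exp (β / 2) * ‖a S.vac‖ := by
  have hG := graph_halfExp S ha
  rw [← S.J.norm_map (star a S.vac)]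
  set y := S.J (star a S.vac) with hy
  apply le_of_forall_pos_le_add
  intro ε hε
  obtain ⟨R, hR0, hR⟩ := window_cut S.D y hε
  -- the function cut R * e^{u/2}
  have h1 : S.D.apply (cut R) y = S.D.apply (expMul (1 / 2) (cut R) (cut_compact R)) (a S.vac) := by
    apply hG
    intro u
    simp only [expMul_apply]
    congr 3; ring
  -- replace by bounded function
  let g : ℝ →ᵇ ℂ := BoundedContinuousFunction.ofNormedAddCommGroup
    (fun u : ℝ => ((cutR R u * min (Real.exp (u / 2)) (Real.exp (β / 2)) : ℝ) : ℂ))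
    (Complex.continuous_ofReal.comp ((cutR_continuous R).mul
      ((by fun_prop : Continuous fun u : ℝ => Real.exp (u / 2)).min continuous_const)))
    (Real.exp (β / 2))
    (fun u => by
      have h0 : 0 ≤ min (Real.exp (u / 2)) (Real.exp (β / 2)) := le_min (by positivity) (by positivity)
      rw [Complex.norm_real, Real.norm_of_nonneg (mul_nonneg (cutR_nonneg R u) h0)]
      calc _ ≤ 1 * Real.exp (β / 2) :=
            mul_le_mul (cutR_le_one R u) (min_le_right _ _) h0 zero_le_one
        _ = _ := one_mul _)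
  have hg : ‖g‖ ≤ Real.exp (β / 2) :=
    BoundedContinuousFunction.norm_ofNormedAddCommGroup_le _ (Real.exp_pos _).le _
  have h2 : S.D.apply (expMul (1 / 2) (cut R) (cut_compact R)) (a S.vac)
      = S.D.apply g (a S.vac) := by
    rw [← sub_eq_zero]
    have : S.D.apply (expMul (1 / 2) (cut R) (cut_compact R) - g) (a S.vac) = 0 := by
      apply hs
      intro u hu
      have hmin : min (Real.exp (u / 2)) (Real.exp (β / 2)) = Real.exp (u / 2) :=
        min_eq_left (Real.exp_le_exp.mpr (by linarith [hu.2]))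
      show (cut R) u * ((Real.exp (1 / 2 * u) : ℝ) : ℂ)
        - ((cutR R u * min (Real.exp (u / 2)) (Real.exp (β / 2)) : ℝ) : ℂ) = 0
      rw [hmin, cut_apply]
      have : (1 / 2 : ℝ) * u = u / 2 := by ring
      rw [this]; push_cast; ring
    rw [map_sub] at this
    exact this
  calc ‖y‖ = ‖S.D.apply (cut R) y - (S.D.apply (cut R) y - y)‖ := by congr 1; abel
    _ ≤ ‖S.D.apply (cut R) y‖ + ‖S.D.apply (cut R) y - y‖ := norm_sub_le _ _
    _ ≤ Real.exp (β / 2) * ‖a S.vac‖ + ε := by
      gcongr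
      rw [h1, h2]
      exact (apply_apply_norm_le _ _ _).trans (mul_le_mul_of_nonneg_right hg (norm_nonneg _))

end Crest.Agent.H7Modular
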