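import Mathlib
import Crest.Prelude.Def_ModularData
import Crest.Agent.H7Modular
import Crest.Agent.H7Mean

set_option autoImplicit false

namespace Crest.Agent.H7Moment

open Filter MeasureTheory Crest.OpAlg Crest.Agent.H7Modular Crest.Agent.H7Mean
open scoped Topology BoundedContinuousFunction InnerProductSpace ComplexConjugate

variable {H : Type*} [NormedAddCommGroup H] [InnerProductSpace ℂ H] [CompleteSpace H]
variable (S : ModularDatum H)

/-- the ergodic identity -/
theorem mean_coef (herg : S.Ergodic) {ω : Ultrafilter ℕ} (hω : (ω : Filter ℕ) ≤ atTop)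
    {a : H →L[ℂ] H} (ha : a ∈ S.M) (x y : H) :
    meanC hω (coef S.D a x y) = ⟪a S.vac, S.vac⟫_ℂ * ⟪x, y⟫_ℂ := by
  have hinv : ∀ t : ℝ, S.flow t (avgOp S.D (meanC hω) a) = avgOp S.D (meanC hω) a := by
    intro t
    ext u
    apply ext_inner_right ℂ
    intro v
    show ⟪S.D.wave t (avgOp S.D (meanC hω) a (S.D.wave (-t) u)), v⟫_ℂ
      = ⟪avgOp S.D (meanC hω) a u, v⟫_ℂ
    rw [inner_wave_left, inner_avgOp, inner_avgOp]
    apply meanC_congr_shift hω t
    intro r
    rw [coef_apply, coef_apply, flow_apply, flow_apply, ← inner_wave_left, ← wave_add_apply,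
      ← wave_add_apply]
    congr 3
    · ring_nf
    · congr 2
      ring
  obtain ⟨c, hc⟩ := herg _ (avgOp_mem S (meanC hω) ha) hinv
  have h1 : ∀ u v : H, meanC hω (coef S.D a u v) = (starRingEnd ℂ) c * ⟪u, v⟫_ℂ := by
    intro u v
    rw [← inner_avgOp, hc]
    show ⟪c • u, v⟫_ℂ = _
    rw [inner_smul_left]
  have h2 : meanC hω (coef S.D a S.vac S.vac) = ⟪a S.vac, S.vac⟫_ℂ := by
    apply meanC_const
    intro t
    rw [coef_apply, flow_apply, inner_wave_left, wave_vac]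
  have h3 := h1 S.vac S.vac
  rw [h2, inner_self_eq_norm_sq_to_K, S.norm_vac] at h3
  simp only [map_one, one_pow, mul_one] at h3
  rw [h1, h3]

/-- second moment -/
noncomputable def m2 (a : H →L[ℂ] H) : ℝ := ‖a S.vac‖ ^ 2
/-- fourth moment -/
noncomputable def m4 (a : H →L[ℂ] H) : ℝ := ‖(star a * a) S.vac‖ ^ 2

omit [CompleteSpace H] in
theorem norm_sq_eq_re (x : H) : ‖x‖ ^ 2 = (⟪x, x⟫_ℂ).re := by
  rw [← @inner_self_eq_norm_sq ℂ]; rfl

omit [CompleteSpace H] in
theorem inner_self_cast (x : H) : ⟪x, x⟫_ℂ = ((‖x‖ ^ 2 : ℝ) : ℂ) := by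
  rw [inner_self_eq_norm_sq_to_K]; simp

theorem inner_star_left (a : H →L[ℂ] H) (x y : H) : ⟪star a x, y⟫_ℂ = ⟪x, a y⟫_ℂ := by
  rw [ContinuousLinearMap.star_eq_adjoint, ContinuousLinearMap.adjoint_inner_left]

theorem inner_star_right (a : H →L[ℂ] H) (x y : H) : ⟪x, star a y⟫_ℂ = ⟪a x, y⟫_ℂ := by
  rw [ContinuousLinearMap.star_eq_adjoint, ContinuousLinearMap.adjoint_inner_right]

theorem inner_star_mul_self (a : H →L[ℂ] H) (x : H) :
    ⟪(star a * a) x, x⟫_ℂ = ((‖a x‖ ^ 2 : ℝ) : ℂ) := by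
  show ⟪star a (a x), x⟫_ℂ = _
  rw [inner_star_left, inner_self_eq_norm_sq_to_K]; simp

theorem inner_self_mul_star (a : H →L[ℂ] H) (x : H) :
    ⟪(a * star a) x, x⟫_ℂ = ((‖star a x‖ ^ 2 : ℝ) : ℂ) := by
  have := inner_star_mul_self (star a) x
  rwa [star_star] at this

/-- a real bounded continuous function from a vector-valued orbit -/
theorem BC_norm_sq (T : H →L[ℂ] H) (x : H) : BC (fun t : ℝ => ‖T (S.D.wave t x)‖ ^ 2) := by
  refine ⟨((T.continuous.comp (continuous_wave S.D x)).norm.pow 2), (‖T‖ * ‖x‖) ^ 2, fun t => ?_⟩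
  rw [abs_of_nonneg (by positivity)]
  apply pow_le_pow_left₀ (norm_nonneg _)
  exact (T.le_opNorm _).trans (by rw [norm_wave])

/-- Cross term (i): `Re ⟪σ_t(x⋆x)ξ, y⋆yξ⟫`. -/
theorem cross1 (herg : S.Ergodic) {ω : Ultrafilter ℕ} (hω : (ω : Filter ℕ) ≤ atTop)
    {x : H →L[ℂ] H} (hx : x ∈ S.M) (y : H →L[ℂ] H) :
    BC (fun t : ℝ => (⟪flow S.D t (star x * x) S.vac, (star y * y) S.vac⟫_ℂ).re) ∧
    ultraMean ω (fun t : ℝ => (⟪flow S.D t (star x * x) S.vac, (star y * y) S.vac⟫_ℂ).re)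
      = m2 S x * m2 S y := by
  refine ⟨BC_re (coef S.D (star x * x) S.vac ((star y * y) S.vac)), ?_⟩
  have h := mean_coef S herg hω (mul_mem (star_mem hx) hx) S.vac ((star y * y) S.vac)
  have h2 := meanC_re hω (coef S.D (star x * x) S.vac ((star y * y) S.vac))
  simp only [coef_apply] at h2
  rw [← h2, h, inner_star_mul_self, ← inner_conj_symm, inner_star_mul_self, Complex.conj_ofReal,
    ← Complex.ofReal_mul, Complex.ofReal_re]
  rfl

/-- Cross term (ii): `‖σ_t(x)⋆ yξ‖²`. -/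
theorem cross2 (herg : S.Ergodic) {ω : Ultrafilter ℕ} (hω : (ω : Filter ℕ) ≤ atTop)
    {x : H →L[ℂ] H} (hx : x ∈ S.M) (y : H →L[ℂ] H) :
    BC (fun t : ℝ => ‖star (flow S.D t x) (y S.vac)‖ ^ 2) ∧
    ultraMean ω (fun t : ℝ => ‖star (flow S.D t x) (y S.vac)‖ ^ 2)
      = m2 S (star x) * m2 S y := by
  have e : (fun t : ℝ => ‖star (flow S.D t x) (y S.vac)‖ ^ 2)
      = fun t : ℝ => (coef S.D (x * star x) (y S.vac) (y S.vac) t).re := by
    funext t
    have h1 := inner_self_mul_star (flow S.D t x) (y S.vac)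
    rw [coef_apply, flow_mul, ← flow_star, h1, Complex.ofReal_re]
  rw [e]
  refine ⟨BC_re _, ?_⟩
  rw [← meanC_re hω, mean_coef S herg hω (mul_mem hx (star_mem hx)), inner_self_mul_star,
    inner_self_cast, ← Complex.ofReal_mul, Complex.ofReal_re]
  rfl

/-- Cross term (iii): `‖y⋆ σ_t(x) ξ‖²`. -/
theorem cross3 (herg : S.Ergodic) {ω : Ultrafilter ℕ} (hω : (ω : Filter ℕ) ≤ atTop)
    (x : H →L[ℂ] H) {y : H →L[ℂ] H} (hy : y ∈ S.M) :
    BC (fun t : ℝ => ‖star y (flow S.D t x S.vac)‖ ^ 2) ∧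
    ultraMean ω (fun t : ℝ => ‖star y (flow S.D t x S.vac)‖ ^ 2)
      = m2 S (star y) * m2 S x := by
  have e : (fun t : ℝ => ‖star y (flow S.D t x S.vac)‖ ^ 2)
      = fun t : ℝ => (fun r : ℝ => (coef S.D (y * star y) (x S.vac) (x S.vac) r).re) (-t) := by
    funext t
    have h1 := inner_self_mul_star y (flow S.D t x S.vac)
    have h2 : (⟪(y * star y) (flow S.D t x S.vac), flow S.D t x S.vac⟫_ℂ).re
        = ‖star y (flow S.D t x S.vac)‖ ^ 2 := by rw [h1, Complex.ofReal_re]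
    rw [← h2]
    simp only [coef_apply, flow_apply, wave_vac, neg_neg]
    rw [inner_wave_left S.D (-t), neg_neg]
  rw [e]
  refine ⟨(BC_re _).reflect, ?_⟩
  rw [mean_reflect (fun r : ℝ => (coef S.D (y * star y) (x S.vac) (x S.vac) r).re)]
  rw [← meanC_re hω, mean_coef S herg hω (mul_mem hy (star_mem hy)), inner_self_mul_star,
    inner_self_cast, ← Complex.ofReal_mul, Complex.ofReal_re]
  rfl


/-! ### Four-phase averages -/

omit [CompleteSpace H] in
theorem par4 (u v : H) : ‖u + v‖ ^ 2 + ‖u + Complex.I • v‖ ^ 2 + ‖u - v‖ ^ 2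
    + ‖u - Complex.I • v‖ ^ 2 = 4 * (‖u‖ ^ 2 + ‖v‖ ^ 2) := by
  have h1 := parallelogram_law_with_norm ℂ u v
  have h2 := parallelogram_law_with_norm ℂ u (Complex.I • v)
  have h3 : ‖Complex.I • v‖ = ‖v‖ := by rw [norm_smul]; simp
  rw [h3] at h2
  nlinarith

omit [CompleteSpace H] in
theorem par4' (A B C : H) : ‖A + (B + C)‖ ^ 2 + ‖A + Complex.I • (B - C)‖ ^ 2
    + ‖A - (B + C)‖ ^ 2 + ‖A - Complex.I • (B - C)‖ ^ 2
    = 4 * (‖A‖ ^ 2 + ‖B‖ ^ 2 + ‖C‖ ^ 2) := by
  have h1 := parallelogram_law_with_norm ℂ A (B + C)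
  have h2 := parallelogram_law_with_norm ℂ A (Complex.I • (B - C))
  have h3 : ‖Complex.I • (B - C)‖ = ‖B - C‖ := by rw [norm_smul]; simp
  have h4 := parallelogram_law_with_norm ℂ B C
  rw [h3] at h2
  nlinarith

/-- the quadratic mean of `T` along the flow -/
noncomputable def q (ω : Ultrafilter ℕ) (T : H →L[ℂ] H) (x : H) : ℝ :=
  ultraMean ω (fun t : ℝ => ‖T (S.D.wave t x)‖ ^ 2)

theorem q_wave {ω : Ultrafilter ℕ} (hω : (ω : Filter ℕ) ≤ atTop) (T : H →L[ℂ] H) (t : ℝ) (x : H) :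
    q S ω T (S.D.wave t x) = q S ω T x := by
  unfold q
  have e : (fun r : ℝ => ‖T (S.D.wave r (S.D.wave t x))‖ ^ 2)
      = fun r : ℝ => (fun u : ℝ => ‖T (S.D.wave u x)‖ ^ 2) (r + t) := by
    funext r; simp only [wave_add_apply]
  rw [e, mean_shift hω (BC_norm_sq S T x)]

theorem q_par4 (ω : Ultrafilter ℕ) (T : H →L[ℂ] H) (u v : H) :
    q S ω T (u + v) + q S ω T (u + Complex.I • v) + q S ω T (u - v)
      + q S ω T (u - Complex.I • v) = 4 * (q S ω T u + q S ω T v) := by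
  unfold q
  rw [← mean_add ω (BC_norm_sq S T _) (BC_norm_sq S T _),
    ← mean_add ω ((BC_norm_sq S T _).add (BC_norm_sq S T _)) (BC_norm_sq S T _),
    ← mean_add ω (((BC_norm_sq S T _).add (BC_norm_sq S T _)).add (BC_norm_sq S T _))
      (BC_norm_sq S T _),
    ← mean_add ω (BC_norm_sq S T _) (BC_norm_sq S T _),
    ← mean_const_mul ω ((BC_norm_sq S T _).add (BC_norm_sq S T _))]
  congr 1
  funext t
  simp only [map_add, map_sub, map_smul]
  exact par4 _ _

theorem q_nonneg {ω : Ultrafilter ℕ} (hω : (ω : Filter ℕ) ≤ atTop) (T : H →L[ℂ] H) (x : H) :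
    0 ≤ q S ω T x :=
  le_mean_of_le hω (BC_norm_sq S T x) (fun t => by positivity)

theorem q_le {ω : Ultrafilter ℕ} (hω : (ω : Filter ℕ) ≤ atTop) (T : H →L[ℂ] H) (x : H) :
    q S ω T x ≤ ‖T‖ ^ 2 * ‖x‖ ^ 2 := by
  apply mean_le_of_le hω (BC_norm_sq S T x)
  intro t
  rw [← mul_pow]
  apply pow_le_pow_left₀ (norm_nonneg _)
  exact (T.le_opNorm _).trans (by rw [norm_wave])

theorem q_le_two {ω : Ultrafilter ℕ} (hω : (ω : Filter ℕ) ≤ atTop) (T : H →L[ℂ] H) (x y : H) :
    q S ω T x ≤ 2 * q S ω T y + 2 * (‖T‖ ^ 2 * ‖x - y‖ ^ 2) := by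
  have h1 : q S ω T x ≤ 2 * q S ω T y + 2 * q S ω T (x - y) := by
    unfold q
    rw [← mean_const_mul ω (BC_norm_sq S T _), ← mean_const_mul ω (BC_norm_sq S T _),
      ← mean_add ω ((BC_norm_sq S T _).const_mul 2) ((BC_norm_sq S T _).const_mul 2)]
    apply mean_mono ω (BC_norm_sq S T _)
      (((BC_norm_sq S T _).const_mul 2).add ((BC_norm_sq S T _).const_mul 2))
    intro t
    have e : T (S.D.wave t x) = T (S.D.wave t y) + T (S.D.wave t (x - y)) := by
      rw [← map_add, ← map_add]; congr 2; abel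
    rw [e]
    have := norm_add_le (T (S.D.wave t y)) (T (S.D.wave t (x - y)))
    nlinarith [norm_nonneg (T (S.D.wave t y)), norm_nonneg (T (S.D.wave t (x - y))),
      norm_nonneg (T (S.D.wave t y) + T (S.D.wave t (x - y))),
      sq_nonneg (‖T (S.D.wave t y)‖ - ‖T (S.D.wave t (x - y))‖)]
  have h2 := q_le S hω T (x - y)
  linarith

/-! ### The step -/

/-- the functional to be controlled -/
noncomputable def Fn (ω : Ultrafilter ℕ) (T : H →L[ℂ] H) (α β γ l : ℝ) (z : H →L[ℂ] H) : ℝ :=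
  α * m4 S z + β * m2 S z + γ * m2 S (star z) - l * q S ω T (z S.vac)

theorem m2_flow (t : ℝ) (x : H →L[ℂ] H) : m2 S (flow S.D t x) = m2 S x := by
  unfold m2; rw [flow_apply, wave_vac, norm_wave]

theorem m4_flow (t : ℝ) (x : H →L[ℂ] H) : m4 S (flow S.D t x) = m4 S x := by
  unfold m4; rw [flow_star, ← flow_mul, flow_apply, wave_vac, norm_wave]

theorem m2_par4 (y x : H →L[ℂ] H) : m2 S (y + x) + m2 S (y + Complex.I • x) + m2 S (y - x)
    + m2 S (y - Complex.I • x) = 4 * (m2 S y + m2 S x) := by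
  unfold m2
  exact par4 (y S.vac) (x S.vac)

theorem m2_star_par4 (y x : H →L[ℂ] H) : m2 S (star (y + x)) + m2 S (star (y + Complex.I • x))
    + m2 S (star (y - x)) + m2 S (star (y - Complex.I • x))
    = 4 * (m2 S (star y) + m2 S (star x)) := by
  have h := m2_par4 S (star y) (star x)
  have e1 : star (y + Complex.I • x) = star y - Complex.I • star x := by
    rw [star_add, star_smul, Complex.star_def, Complex.conj_I, neg_smul, sub_eq_add_neg]
  have e2 : star (y - Complex.I • x) = star y + Complex.I • star x := by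
    rw [star_sub, star_smul, Complex.star_def, Complex.conj_I, neg_smul, sub_neg_eq_add]
  rw [e1, e2, star_add, star_sub]
  linarith

theorem m4_par4 (y x : H →L[ℂ] H) : m4 S (y + x) + m4 S (y + Complex.I • x) + m4 S (y - x)
    + m4 S (y - Complex.I • x)
    = 4 * (‖(star y * y + star x * x) S.vac‖ ^ 2 + ‖(star y * x) S.vac‖ ^ 2
      + ‖(star x * y) S.vac‖ ^ 2) := by
  have h := par4' ((star y * y + star x * x) S.vac) ((star y * x) S.vac) ((star x * y) S.vac)
  have hII : Complex.I * Complex.I = -1 := Complex.I_mul_I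
  have e1 : (star (y + x) * (y + x)) S.vac
      = (star y * y + star x * x) S.vac + ((star y * x) S.vac + (star x * y) S.vac) := by
    rw [star_add, mul_add, add_mul, add_mul]
    simp only [add_apply]; abel
  have e2 : (star (y - x) * (y - x)) S.vac
      = (star y * y + star x * x) S.vac - ((star y * x) S.vac + (star x * y) S.vac) := by
    rw [star_sub, mul_sub, sub_mul, sub_mul]
    simp only [add_apply, sub_apply]; abel
  have e3 : (star (y + Complex.I • x) * (y + Complex.I • x)) S.vac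
      = (star y * y + star x * x) S.vac
        + Complex.I • ((star y * x) S.vac - (star x * y) S.vac) := by
    rw [star_add, star_smul, Complex.star_def, Complex.conj_I, mul_add, add_mul, add_mul,
      mul_smul_comm, smul_mul_assoc, smul_mul_smul_comm, neg_mul, hII, neg_neg, one_smul]
    simp only [add_apply, smul_apply, smul_sub, neg_smul, neg_apply]; abel
  have e4 : (star (y - Complex.I • x) * (y - Complex.I • x)) S.vac
      = (star y * y + star x * x) S.vac
        - Complex.I • ((star y * x) S.vac - (star x * y) S.vac) := by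
    rw [star_sub, star_smul, Complex.star_def, Complex.conj_I, mul_sub, sub_mul, sub_mul,
      mul_smul_comm, smul_mul_assoc, smul_mul_smul_comm, neg_mul, hII, neg_neg, one_smul]
    simp only [add_apply, sub_apply, smul_apply, smul_sub, neg_smul, neg_apply]; abel
  unfold m4
  rw [e1, e2, e3, e4]
  exact h

theorem exists_le_of_sum4 {a b c d M : ℝ} (h : a + b + c + d ≤ 4 * M) :
    a ≤ M ∨ b ≤ M ∨ c ≤ M ∨ d ≤ M := by
  by_contra hcon
  push Not at hcon
  obtain ⟨h1, h2, h3, h4⟩ := hcon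
  linarith

theorem step (herg : S.Ergodic) {ω : Ultrafilter ℕ} (hω : (ω : Filter ℕ) ≤ atTop)
    (T : H →L[ℂ] H) {x y : H →L[ℂ] H} (hx : x ∈ S.M) (hy : y ∈ S.M) (α β γ l : ℝ) (hα : 0 ≤ α)
    {η : ℝ} (hη : 0 < η) :
    ∃ (ε : ℂ) (t : ℝ), Fn S ω T α β γ l (y + ε • flow S.D t x) ≤
      α * (m4 S y + m4 S x + (2 * (m2 S x * m2 S y) + m2 S (star x) * m2 S y
        + m2 S (star y) * m2 S x))
      + β * (m2 S y + m2 S x) + γ * (m2 S (star y) + m2 S (star x))
      - l * (q S ω T (y S.vac) + q S ω T (x S.vac)) + η := by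
  obtain ⟨b1, c1⟩ := cross1 S herg hω hx y
  obtain ⟨b2, c2⟩ := cross2 S herg hω hx y
  obtain ⟨b3, c3⟩ := cross3 S herg hω x hy
  have hbc := ((b1.const_mul 2).add b2).add b3
  have hmean := mean_add ω ((b1.const_mul 2).add b2) b3
  rw [mean_add ω (b1.const_mul 2) b2, mean_const_mul ω b1, c1, c2, c3] at hmean
  obtain ⟨t, ht⟩ := exists_lt_of_mean_lt hω hbc (r := 2 * (m2 S x * m2 S y)
    + m2 S (star x) * m2 S y + m2 S (star y) * m2 S x + η / (α + 1)) (by
      rw [hmean]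
      have : 0 < η / (α + 1) := by positivity
      linarith)
  set z := flow S.D t x with hz
  -- expand the square
  have hA : ‖(star y * y + star z * z) S.vac‖ ^ 2 = m4 S y + m4 S x
      + 2 * (⟪flow S.D t (star x * x) S.vac, (star y * y) S.vac⟫_ℂ).re := by
    rw [add_apply, add_comm ((star y * y) S.vac), @norm_add_sq ℂ]
    have h1 : (star z * z) S.vac = flow S.D t (star x * x) S.vac := by
      rw [hz, flow_star, ← flow_mul]
    have h2 : ‖(star z * z) S.vac‖ ^ 2 = m4 S x := m4_flow S t x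
    rw [h2, h1]
    unfold m4
    simp only [RCLike.re_to_complex]
    ring
  have hB : ‖(star y * z) S.vac‖ ^ 2 = ‖star y (flow S.D t x S.vac)‖ ^ 2 := rfl
  have hC : ‖(star z * y) S.vac‖ ^ 2 = ‖star (flow S.D t x) (y S.vac)‖ ^ 2 := rfl
  have hm4 := m4_par4 S y z
  rw [hA, hB, hC] at hm4
  have hm2 := m2_par4 S y z
  have hm2s := m2_star_par4 S y z
  have hq := q_par4 S ω T (y S.vac) (z S.vac)
  have hzx : m2 S z = m2 S x := m2_flow S t x
  have hzxs : m2 S (star z) = m2 S (star x) := by rw [hz, flow_star, m2_flow]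
  have hqz : q S ω T (z S.vac) = q S ω T (x S.vac) := by
    rw [hz, flow_apply, wave_vac, q_wave S hω]
  rw [hzx] at hm2
  rw [hzxs] at hm2s
  rw [hqz] at hq
  have hηα : α * (η / (α + 1)) ≤ η := by
    rw [mul_div_assoc', div_le_iff₀ (by positivity)]
    nlinarith
  have hαt := mul_le_mul_of_nonneg_left ht.le hα
  have key : Fn S ω T α β γ l (y + z) + Fn S ω T α β γ l (y + Complex.I • z)
      + Fn S ω T α β γ l (y - z) + Fn S ω T α β γ l (y - Complex.I • z)
      ≤ 4 * (α * (m4 S y + m4 S x + (2 * (m2 S x * m2 S y) + m2 S (star x) * m2 S y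
        + m2 S (star y) * m2 S x))
      + β * (m2 S y + m2 S x) + γ * (m2 S (star y) + m2 S (star x))
      - l * (q S ω T (y S.vac) + q S ω T (x S.vac)) + η) := by
    have e : Fn S ω T α β γ l (y + z) + Fn S ω T α β γ l (y + Complex.I • z)
      + Fn S ω T α β γ l (y - z) + Fn S ω T α β γ l (y - Complex.I • z)
      = α * (m4 S (y + z) + m4 S (y + Complex.I • z) + m4 S (y - z) + m4 S (y - Complex.I • z))
        + β * (m2 S (y + z) + m2 S (y + Complex.I • z) + m2 S (y - z) + m2 S (y - Complex.I • z))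
        + γ * (m2 S (star (y + z)) + m2 S (star (y + Complex.I • z)) + m2 S (star (y - z))
          + m2 S (star (y - Complex.I • z)))
        - l * (q S ω T (y S.vac + z S.vac) + q S ω T (y S.vac + Complex.I • z S.vac)
          + q S ω T (y S.vac - z S.vac) + q S ω T (y S.vac - Complex.I • z S.vac)) := by
      unfold Fn
      simp only [add_apply, sub_apply, smul_apply]
      ring
    rw [e, hm4, hm2, hm2s, hq]
    linarith
  rcases exists_le_of_sum4 key with h | h | h | h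
  · exact ⟨1, t, by rw [one_smul]; exact h⟩
  · exact ⟨Complex.I, t, h⟩
  · exact ⟨-1, t, by rw [neg_smul, one_smul, ← sub_eq_add_neg]; exact h⟩
  · exact ⟨-Complex.I, t, by rw [neg_smul, ← sub_eq_add_neg]; exact h⟩

/-- the target value after `k` steps -/
noncomputable def V (ω : Ultrafilter ℕ) (T : H →L[ℂ] H) (x : H →L[ℂ] H) (k : ℕ)
    (α β γ l : ℝ) : ℝ :=
  α * (k * m4 S x + k * (k - 1) * (m2 S x ^ 2 + m2 S x * m2 S (star x))) + β * (k * m2 S x)
    + γ * (k * m2 S (star x)) - l * (k * q S ω T (x S.vac))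

theorem induct (herg : S.Ergodic) {ω : Ultrafilter ℕ} (hω : (ω : Filter ℕ) ≤ atTop)
    (T : H →L[ℂ] H) {x : H →L[ℂ] H} (hx : x ∈ S.M) (P : (H →L[ℂ] H) → Prop) (hP0 : P 0)
    (hPM : ∀ y, P y → y ∈ S.M)
    (hP : ∀ (y : H →L[ℂ] H) (ε : ℂ) (t : ℝ), P y → P (y + ε • flow S.D t x)) (k : ℕ) :
    ∀ (α β γ l : ℝ), 0 ≤ α → ∀ η : ℝ, 0 < η →
      ∃ y : H →L[ℂ] H, P y ∧ Fn S ω T α β γ l y ≤ V S ω T x k α β γ l + η := by
  induction k with
  | zero =>
    intro α β γ l hα η hη
    refine ⟨0, hP0, ?_⟩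
    have hq0 : q S ω T 0 = 0 := by
      have h1 := q_nonneg S hω T 0
      have h2 := q_le S hω T 0
      simp only [norm_zero] at h2
      nlinarith
    unfold Fn V m4 m2
    simp only [star_zero, mul_zero, zero_apply, norm_zero, hq0, Nat.cast_zero]
    simp
    exact hη.le
  | succ k ih =>
    intro α β γ l hα η hη
    obtain ⟨y, hPy, hy⟩ := ih α (β + α * (2 * m2 S x + m2 S (star x))) (γ + α * m2 S x) l hα
      (η / 2) (by positivity)
    obtain ⟨ε, t, h⟩ := step S herg hω T hx (hPM y hPy) α β γ l hα (η := η / 2) (by positivity)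
    refine ⟨y + ε • flow S.D t x, hP y ε t hPy, h.trans ?_⟩
    unfold Fn at hy
    unfold V at hy ⊢
    push_cast
    nlinarith

end Crest.Agent.H7Moment
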