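/-
rid 342 (S0536/S0537), module AVERAGING: from the one-coordinate estimates to the threshold bound.
Purely real-number / finite combinatorics.  (helper7)
-/
import Mathlib

set_option autoImplicit false

namespace Crest.H7PRAvg

open Finset

variable {Ω : Type*} [Fintype Ω] {k : ℕ}

/-- probability that all coordinates in `C` are won -/
noncomputable def PC (μ : Ω → ℝ) (W : Ω → Finset (Fin k)) (C : Finset (Fin k)) : ℝ :=
  ∑ ω, if C ⊆ W ω then μ ω else 0

/-- sum over the `j`-sets -/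
noncomputable def SC (μ : Ω → ℝ) (W : Ω → Finset (Fin k)) (j : ℕ) : ℝ :=
  ∑ C ∈ powersetCard j (univ : Finset (Fin k)), PC μ W C

/-- average over the `j`-sets -/
noncomputable def sC (μ : Ω → ℝ) (W : Ω → Finset (Fin k)) (j : ℕ) : ℝ :=
  SC μ W j / (k.choose j : ℝ)

lemma PC_nonneg {μ : Ω → ℝ} (hμ : ∀ ω, 0 ≤ μ ω) (W : Ω → Finset (Fin k)) (C : Finset (Fin k)) :
    0 ≤ PC μ W C := by
  unfold PC
  exact Finset.sum_nonneg fun ω _ => by split_ifs <;> simp [hμ ω]

lemma PC_mono {μ : Ω → ℝ} (hμ : ∀ ω, 0 ≤ μ ω) (W : Ω → Finset (Fin k)) {C D : Finset (Fin k)}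
    (h : C ⊆ D) : PC μ W D ≤ PC μ W C := by
  unfold PC
  refine Finset.sum_le_sum fun ω _ => ?_
  by_cases hD : D ⊆ W ω
  · rw [if_pos hD, if_pos (h.trans hD)]
  · rw [if_neg hD]
    split_ifs <;> simp [hμ ω]

lemma SC_eq (μ : Ω → ℝ) (W : Ω → Finset (Fin k)) (j : ℕ) :
    SC μ W j = ∑ ω, μ ω * ((W ω).card.choose j : ℝ) := by
  unfold SC PC
  rw [Finset.sum_comm]
  refine Finset.sum_congr rfl fun ω _ => ?_
  rw [← Finset.sum_filter, Finset.sum_const, nsmul_eq_mul, mul_comm]
  congr 2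
  rw [← Finset.card_powersetCard]
  congr 1
  ext C
  simp [mem_powersetCard, and_comm]

lemma sC_zero {μ : Ω → ℝ} (hμ1 : ∑ ω, μ ω = 1) (W : Ω → Finset (Fin k)) : sC μ W 0 = 1 := by
  unfold sC
  rw [SC_eq]
  simp [hμ1]

lemma SC_nonneg {μ : Ω → ℝ} (hμ : ∀ ω, 0 ≤ μ ω) (W : Ω → Finset (Fin k)) (j : ℕ) :
    0 ≤ SC μ W j := Finset.sum_nonneg fun C _ => PC_nonneg hμ W C

lemma choose_ratio (k w j : ℕ) (v δ : ℝ) (hv : 0 ≤ v) (hδ : 0 < δ) (hvδ : δ < 1 - v)
    (hwk : (v + δ) * k ≤ w) (hj : (j : ℝ) ≤ δ / 4 * k + 1) (hjk : j ≤ k) :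
    (v + 3 / 4 * δ) ^ j * (k.choose j : ℝ) ≤ (w.choose j : ℝ) := by
  induction j with
  | zero => simp
  | succ j ih =>
    have hj' : (j : ℝ) ≤ δ / 4 * k := by push_cast at hj; linarith
    have ih' := ih (by linarith) (by omega)
    have hkj : (j : ℝ) < k := by exact_mod_cast (by omega : j < k)
    have hkj' : (0 : ℝ) < k - j := by linarith
    have hwj : (v + 3 / 4 * δ) * (k - j) ≤ (w : ℝ) - j := by
      have h1 : (v + 3 / 4 * δ) * (k - j) = (v + δ) * k - j + (j * (1 - v - 3 / 4 * δ) - δ / 4 * k) := by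
        ring
      have h2 : j * (1 - v - 3 / 4 * δ) ≤ j := by
        have : (0 : ℝ) ≤ j := Nat.cast_nonneg j
        nlinarith
      linarith
    have hwj0 : 0 ≤ (w : ℝ) - j := le_trans (by positivity) hwj
    have hjw : j ≤ w := by
      have : (j : ℝ) ≤ w := by linarith
      exact_mod_cast this
    have e1 : ((k.choose (j + 1) : ℕ) : ℝ) * (j + 1) = (k.choose j : ℝ) * (k - j) := by
      have := Nat.choose_succ_right_eq k j
      have h2 : ((k.choose (j + 1) * (j + 1) : ℕ) : ℝ) = ((k.choose j * (k - j) : ℕ) : ℝ) := by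
        exact_mod_cast this
      rw [Nat.cast_mul, Nat.cast_mul, Nat.cast_sub (by omega)] at h2
      push_cast at h2
      exact h2
    have e2 : ((w.choose (j + 1) : ℕ) : ℝ) * (j + 1) = (w.choose j : ℝ) * (w - j) := by
      have := Nat.choose_succ_right_eq w j
      have h2 : ((w.choose (j + 1) * (j + 1) : ℕ) : ℝ) = ((w.choose j * (w - j) : ℕ) : ℝ) := by
        exact_mod_cast this
      rw [Nat.cast_mul, Nat.cast_mul, Nat.cast_sub hjw] at h2
      push_cast at h2
      exact h2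
    have hj1 : (0 : ℝ) < j + 1 := by positivity
    have hv3 : 0 ≤ v + 3 / 4 * δ := by positivity
    refine le_of_mul_le_mul_right ?_ hj1
    rw [e2, mul_assoc, e1, pow_succ]
    calc (v + 3 / 4 * δ) ^ j * (v + 3 / 4 * δ) * ((k.choose j : ℝ) * (k - j))
        = ((v + 3 / 4 * δ) ^ j * (k.choose j : ℝ)) * ((v + 3 / 4 * δ) * (k - j)) := by ring
      _ ≤ (w.choose j : ℝ) * (w - j) := by
          apply mul_le_mul ih' hwj (by positivity) (by positivity)

/-- the probability of the threshold event -/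
noncomputable def PT (μ : Ω → ℝ) (W : Ω → Finset (Fin k)) (t : ℝ) : ℝ :=
  ∑ ω, if t ≤ ((W ω).card : ℝ) then μ ω else 0

lemma sC_lower {μ : Ω → ℝ} (hμ : ∀ ω, 0 ≤ μ ω) (W : Ω → Finset (Fin k)) (v δ : ℝ) (hv : 0 ≤ v)
    (hδ : 0 < δ) (hvδ : δ < 1 - v) (j : ℕ) (hj : (j : ℝ) ≤ δ / 4 * k + 1) (hjk : j ≤ k) :
    PT μ W ((v + δ) * k) * (v + 3 / 4 * δ) ^ j ≤ sC μ W j := by
  unfold sC
  have hc : (0 : ℝ) < (k.choose j : ℝ) := by exact_mod_cast Nat.choose_pos hjk
  rw [le_div_iff₀ hc, SC_eq]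
  unfold PT
  rw [mul_assoc, Finset.sum_mul]
  refine Finset.sum_le_sum fun ω _ => ?_
  split_ifs with h
  · refine mul_le_mul_of_nonneg_left ?_ (hμ ω)
    exact choose_ratio k _ j v δ hv hδ hvδ h hj hjk
  · rw [zero_mul]
    exact mul_nonneg (hμ ω) (Nat.cast_nonneg _)

/-- double counting -/
lemma SC_succ (μ : Ω → ℝ) (W : Ω → Finset (Fin k)) (j : ℕ) :
    SC μ W (j + 1) * (j + 1) =
      ∑ C ∈ powersetCard j (univ : Finset (Fin k)), ∑ i ∈ univ \ C, PC μ W (insert i C) := by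
  unfold SC
  rw [Finset.sum_mul]
  have h1 : ∀ D ∈ powersetCard (j + 1) (univ : Finset (Fin k)),
      PC μ W D * ((j : ℝ) + 1) = ∑ i ∈ D, PC μ W D := by
    intro D hD
    rw [mem_powersetCard] at hD
    rw [Finset.sum_const, nsmul_eq_mul, hD.2]
    push_cast; ring
  rw [Finset.sum_congr rfl h1, Finset.sum_sigma', Finset.sum_sigma']
  refine Finset.sum_bij' (fun x _ => ⟨x.1.erase x.2, x.2⟩) (fun x _ => ⟨insert x.2 x.1, x.2⟩)
    ?_ ?_ ?_ ?_ ?_
  · rintro ⟨D, i⟩ h
    simp only [mem_sigma, mem_powersetCard, subset_univ, true_and, mem_sdiff, mem_univ] at h ⊢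
    refine ⟨?_, by simp⟩
    rw [Finset.card_erase_of_mem h.2, h.1]; simp
  · rintro ⟨C, i⟩ h
    simp only [mem_sigma, mem_powersetCard, subset_univ, true_and, mem_sdiff, mem_univ] at h ⊢
    refine ⟨?_, by simp⟩
    rw [Finset.card_insert_of_notMem h.2, h.1]
  · rintro ⟨D, i⟩ h
    simp only [mem_sigma, mem_powersetCard, subset_univ, true_and] at h
    simp [Finset.insert_erase h.2]
  · rintro ⟨C, i⟩ h
    simp only [mem_sigma, mem_powersetCard, subset_univ, true_and, mem_sdiff, mem_univ] at h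
    simp [Finset.erase_insert h.2]
  · rintro ⟨D, i⟩ h
    simp only [mem_sigma, mem_powersetCard, subset_univ, true_and] at h
    simp [Finset.insert_erase h.2]


/-- the recursion `s_{j+1} ≤ s_j (v + c (…)^p)` -/
lemma sC_succ_le {μ : Ω → ℝ} (hμ : ∀ ω, 0 ≤ μ ω) (W : Ω → Finset (Fin k)) (j : ℕ) (hjk : j < k)
    (q L v c p r : ℝ) (hr : 0 ≤ r) (hp : 0 < p) (hp1 : p ≤ 1) (hc : 0 ≤ c) (hL : 0 ≤ L)
    (hPq : ∀ C, PC μ W C ≤ q ^ C.card)
    (h1 : ∀ C : Finset (Fin k), C.card < k → 0 < PC μ W C →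
      ∑ i ∈ univ \ C, PC μ W (insert i C) ≤ ((k : ℝ) - C.card) * (PC μ W C *
        (v + c * ((r * Real.log (q ^ C.card / PC μ W C) + C.card * L) / ((k : ℝ) - C.card)) ^ p)))
    (hs : 0 < sC μ W j) :
    sC μ W (j + 1) ≤ sC μ W j *
      (v + c * ((r * Real.log (q ^ j / sC μ W j) + j * L) / ((k : ℝ) - j)) ^ p) := by
  classical
  have hkj : (0 : ℝ) < (k : ℝ) - j := by
    have : (j : ℝ) < k := by exact_mod_cast hjk
    linarith
  set S := powersetCard j (univ : Finset (Fin k)) with hS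
  have hScard : S.card = k.choose j := by rw [hS, Finset.card_powersetCard]; simp
  have hchoose : (0 : ℝ) < (k.choose j : ℝ) := by exact_mod_cast Nat.choose_pos hjk.le
  have hSC : 0 < SC μ W j := by
    unfold sC at hs
    by_contra hcon
    push Not at hcon
    have : SC μ W j / (k.choose j : ℝ) ≤ 0 := div_nonpos_of_nonpos_of_nonneg hcon hchoose.le
    linarith
  have hSCdef : SC μ W j = ∑ C ∈ S, PC μ W C := rfl
  set X : Finset (Fin k) → ℝ := fun C => (r * Real.log (q ^ j / PC μ W C) + j * L) / ((k : ℝ) - j)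
    with hX
  have hlog : ∀ C ∈ S, 0 ≤ Real.log (q ^ j / PC μ W C) := by
    intro C hC
    rw [hS, mem_powersetCard] at hC
    rcases (PC_nonneg hμ W C).lt_or_eq with h | h
    · apply Real.log_nonneg
      rw [le_div_iff₀ h, one_mul, ← hC.2]
      exact hPq C
    · rw [← h]; simp
  have hX0 : ∀ C ∈ S, 0 ≤ X C := by
    intro C hC
    have := hlog C hC
    simp only [hX]
    positivity
  -- first step
  have step1 : SC μ W (j + 1) * (j + 1) ≤
      ∑ C ∈ S, ((k : ℝ) - j) * (PC μ W C * (v + c * (X C) ^ p)) := by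
    rw [SC_succ]
    refine Finset.sum_le_sum fun C hC => ?_
    have hC' := hC
    rw [mem_powersetCard] at hC'
    rcases (PC_nonneg hμ W C).lt_or_eq with h | h
    · have := h1 C (by rw [hC'.2]; exact hjk) h
      rw [hC'.2] at this
      exact this
    · rw [← h, zero_mul, mul_zero]
      refine Finset.sum_nonpos fun i _ => ?_
      rw [h]
      exact PC_mono hμ W (Finset.subset_insert _ _)
  have step2 : ∑ C ∈ S, ((k : ℝ) - j) * (PC μ W C * (v + c * (X C) ^ p)) =
      ((k : ℝ) - j) * (v * SC μ W j + c * ∑ C ∈ S, PC μ W C * (X C) ^ p) := by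
    rw [← Finset.mul_sum, hSCdef]
    congr 1
    rw [Finset.mul_sum, Finset.mul_sum, ← Finset.sum_add_distrib]
    refine Finset.sum_congr rfl fun C _ => ?_
    ring
  -- Jensen
  have hw0 : ∀ C ∈ S, 0 ≤ PC μ W C / SC μ W j := fun C _ => div_nonneg (PC_nonneg hμ W C) hSC.le
  have hw1 : ∑ C ∈ S, PC μ W C / SC μ W j = 1 := by
    rw [← Finset.sum_div, ← hSCdef, div_self hSC.ne']
  have jensen := (Real.concaveOn_rpow hp.le hp1).le_map_sum hw0 hw1
    (p := X) (fun C hC => Set.mem_Ici.2 (hX0 C hC))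
  simp only [smul_eq_mul] at jensen
  -- Jensen for log
  have hlogJ : ∑ C ∈ S, PC μ W C / SC μ W j * Real.log (q ^ j / PC μ W C) ≤
      Real.log (q ^ j / sC μ W j) := by
    set S' := S.filter (fun C => 0 < PC μ W C) with hS'
    have e1 : ∑ C ∈ S, PC μ W C / SC μ W j * Real.log (q ^ j / PC μ W C) =
        ∑ C ∈ S', PC μ W C / SC μ W j * Real.log (q ^ j / PC μ W C) := by
      rw [hS', Finset.sum_filter]
      refine Finset.sum_congr rfl fun C _ => ?_
      split_ifs with h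
      · rfl
      · have : PC μ W C = 0 := le_antisymm (not_lt.1 h) (PC_nonneg hμ W C)
        rw [this]; simp
    have e2 : ∑ C ∈ S', PC μ W C / SC μ W j = 1 := by
      rw [← hw1, hS', Finset.sum_filter]
      refine Finset.sum_congr rfl fun C _ => ?_
      split_ifs with h
      · rfl
      · have : PC μ W C = 0 := le_antisymm (not_lt.1 h) (PC_nonneg hμ W C)
        rw [this]; simp
    have hS'ne : S'.Nonempty := by
      by_contra hne
      rw [Finset.not_nonempty_iff_eq_empty] at hne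
      rw [hne] at e2; simp at e2
    have hqj : 0 < q ^ j := by
      obtain ⟨C, hC⟩ := hS'ne
      rw [hS', Finset.mem_filter] at hC
      have h2 := hC.1
      rw [mem_powersetCard] at h2
      have := hPq C
      rw [h2.2] at this
      linarith [hC.2]
    rw [e1]
    have jl := strictConcaveOn_log_Ioi.concaveOn.le_map_sum (t := S')
      (w := fun C => PC μ W C / SC μ W j) (p := fun C => q ^ j / PC μ W C)
      (fun C _ => div_nonneg (PC_nonneg hμ W C) hSC.le) e2
      (fun C hC => Set.mem_Ioi.2 (div_pos hqj (by rw [hS', Finset.mem_filter] at hC; exact hC.2)))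
    simp only [smul_eq_mul] at jl
    refine jl.trans ?_
    have e3 : ∑ C ∈ S', PC μ W C / SC μ W j * (q ^ j / PC μ W C) = (S'.card : ℝ) * (q ^ j / SC μ W j) := by
      rw [← nsmul_eq_mul, ← Finset.sum_const]
      refine Finset.sum_congr rfl fun C hC => ?_
      rw [hS', Finset.mem_filter] at hC
      have := hC.2.ne'
      field_simp
    rw [e3]
    have hcardpos : (0 : ℝ) < S'.card := by exact_mod_cast Finset.card_pos.2 hS'ne
    apply Real.log_le_log (by positivity)
    have hle : (S'.card : ℝ) ≤ (k.choose j : ℝ) := by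
      rw [← hScard]
      exact_mod_cast Finset.card_filter_le _ _
    unfold sC
    rw [div_div_eq_mul_div, mul_div_assoc']
    rw [mul_comm]
    gcongr
  have hmean : ∑ C ∈ S, PC μ W C / SC μ W j * X C ≤
      (r * Real.log (q ^ j / sC μ W j) + j * L) / ((k : ℝ) - j) := by
    have e : ∑ C ∈ S, PC μ W C / SC μ W j * X C =
        (r * ∑ C ∈ S, PC μ W C / SC μ W j * Real.log (q ^ j / PC μ W C) + j * L) / ((k : ℝ) - j) := by
      have : ∀ C ∈ S, PC μ W C / SC μ W j * X C =
          (r * (PC μ W C / SC μ W j * Real.log (q ^ j / PC μ W C)) +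
            (PC μ W C / SC μ W j) * (j * L)) / ((k : ℝ) - j) := by
        intro C _
        simp only [hX]
        ring
      rw [Finset.sum_congr rfl this, ← Finset.sum_div, Finset.sum_add_distrib, ← Finset.mul_sum,
        ← Finset.sum_mul, hw1, one_mul]
    rw [e]
    gcongr
  have hmean0 : 0 ≤ ∑ C ∈ S, PC μ W C / SC μ W j * X C :=
    Finset.sum_nonneg fun C hC => mul_nonneg (hw0 C hC) (hX0 C hC)
  have step3 : ∑ C ∈ S, PC μ W C * (X C) ^ p ≤ SC μ W j *
      ((r * Real.log (q ^ j / sC μ W j) + j * L) / ((k : ℝ) - j)) ^ p := by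
    have e : ∑ C ∈ S, PC μ W C * (X C) ^ p = SC μ W j * ∑ C ∈ S, PC μ W C / SC μ W j * (X C) ^ p := by
      rw [Finset.mul_sum]
      refine Finset.sum_congr rfl fun C _ => ?_
      field_simp
    rw [e]
    refine mul_le_mul_of_nonneg_left (jensen.trans ?_) hSC.le
    exact Real.rpow_le_rpow hmean0 hmean hp.le
  have total : SC μ W (j + 1) * (j + 1) ≤ ((k : ℝ) - j) * (SC μ W j *
      (v + c * ((r * Real.log (q ^ j / sC μ W j) + j * L) / ((k : ℝ) - j)) ^ p)) := by
    refine step1.trans ?_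
    rw [step2]
    refine mul_le_mul_of_nonneg_left ?_ hkj.le
    have := mul_le_mul_of_nonneg_left step3 hc
    nlinarith [this]
  have e1 : ((k.choose (j + 1) : ℕ) : ℝ) * (j + 1) = (k.choose j : ℝ) * (k - j) := by
    have := Nat.choose_succ_right_eq k j
    have h2 : ((k.choose (j + 1) * (j + 1) : ℕ) : ℝ) = ((k.choose j * (k - j) : ℕ) : ℝ) := by
      exact_mod_cast this
    rw [Nat.cast_mul, Nat.cast_mul, Nat.cast_sub (by omega)] at h2
    push_cast at h2
    exact h2
  have hchoose' : (0 : ℝ) < (k.choose (j + 1) : ℝ) := by exact_mod_cast Nat.choose_pos hjk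
  have hj1 : (0 : ℝ) < (j : ℝ) + 1 := by positivity
  set Y := (v + c * ((r * Real.log (q ^ j / sC μ W j) + j * L) / ((k : ℝ) - j)) ^ p) with hY
  have hsj : sC μ W j = SC μ W j / (k.choose j : ℝ) := rfl
  have hsj1 : sC μ W (j + 1) = SC μ W (j + 1) / (k.choose (j + 1) : ℝ) := rfl
  rw [hsj1, hsj, div_mul_eq_mul_div, div_le_div_iff₀ hchoose' hchoose]
  have h3 : SC μ W (j + 1) * (k.choose j : ℝ) * (k - j) = (SC μ W (j + 1) * (j + 1)) * (k.choose (j + 1) : ℝ) := by
    rw [mul_assoc, ← e1]; ring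
  refine le_of_mul_le_mul_right ?_ hkj
  rw [h3]
  calc (SC μ W (j + 1) * (j + 1)) * (k.choose (j + 1) : ℝ)
      ≤ (((k : ℝ) - j) * (SC μ W j * Y)) * (k.choose (j + 1) : ℝ) :=
        mul_le_mul_of_nonneg_right total hchoose'.le
    _ = SC μ W j * Y * (k.choose (j + 1) : ℝ) * (k - j) := by ring

end Crest.H7PRAvg
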