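import Mathlib
import Crest.Agent.PRDefs

/-!
rid 342 (S0536): interface of the correlated-sampling construction (module CSX, helper7).
-/

set_option autoImplicit false

open scoped Kronecker ComplexOrder BigOperators Matrix
open Crest.PR Crest.H26OneShot

namespace Crest.H7Csx

/-- Output of the correlated-sampling construction with constant `C`. -/
def CSXOut (C : ℝ) : Prop :=
  ∀ (X Y α β : Type) [Fintype X] [DecidableEq X] [Fintype Y] [DecidableEq Y] [Fintype α]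
    [DecidableEq α] [Fintype β] [DecidableEq β]
    (U : X → α × β → ℂ) (V : Y → α × β → ℂ) (κ η : ℝ), 0 < κ → κ ≤ 1 → 0 < η →
    ∃ (R S : Type) (_ : Fintype R) (_ : DecidableEq R) (_ : Fintype S) (_ : DecidableEq S)
      (Ω : (R × α) × (R × α) → ℂ) (a : X → Matrix (S × α) (R × α) ℂ)
      (b : Y → Matrix (S × β) (R × α) ℂ) (ω : S × S → ℂ),
      nsq ω = 1 ∧
      (∀ x, (1 - (a x)ᴴ * a x).PosSemidef) ∧
      (∀ y, (1 - (b y)ᴴ * b y).PosSemidef) ∧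
      (∀ x, bra Ω ((a x)ᴴ * a x) 1 ≤ (1 + C * κ) * nsq (U x) + η) ∧
      (∀ y, bra Ω 1 ((b y)ᴴ * b y) ≤ (1 + C * κ) * nsq (V y) + η) ∧
      (∀ x y, nsq (((a x) ⊗ₖ (b y)).mulVec Ω - fun p => V y (p.1.2, p.2.2) * ω (p.1.1, p.2.1))
        ≤ C / κ ^ 2 * nsq (U x - V y) + C * κ ^ 2 * (nsq (U x) + nsq (V y)) + η)

open Finset in
/-- Register lemma (module REG, helper8). -/
def RegOut (C : ℝ) : Prop :=
  ∀ κ : ℝ, 0 < κ → κ ≤ 1 → ∀ τ₀ : ℝ, 0 < τ₀ → ∃ τ : ℝ, 0 < τ ∧ τ ≤ τ₀ ∧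
    ∃ (n : ℕ) (h : ℕ → ℕ → ℝ),
      (∑ s ∈ range n, ∑ t ∈ range n, h s t ^ 2 = 1) ∧
      (∀ l l' : ℕ, ∑ s ∈ range n, ∑ t ∈ range n,
        (h (s + l) (t + l') - Real.exp (-(l' * τ)) * h s t) ^ 2
          ≤ C / κ ^ 2 * (Real.exp (-(l * τ)) - Real.exp (-(l' * τ))) ^ 2) ∧
      (∀ l m : ℕ, ∑ s ∈ range n, ∑ t ∈ range m, h (s + l) t ^ 2
          ≤ (1 + C * κ) * Real.exp (-(2 * l * τ))) ∧
      (∀ l m : ℕ, ∑ s ∈ range n, ∑ t ∈ range m, h t (s + l) ^ 2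
          ≤ (1 + C * κ) * Real.exp (-(2 * l * τ)))

/-- Double-sum inequality (module CONN, helper26). -/
def ConnOut : Prop :=
  ∀ (α β : Type) [Fintype α] [DecidableEq α] [Fintype β] [DecidableEq β]
    (U V : Matrix α β ℂ) (E F : Matrix α α ℂ) (lam mu : α → ℝ),
    Eᴴ * E = 1 → Fᴴ * F = 1 → (∀ i, 0 ≤ lam i) → (∀ i, 0 ≤ mu i) →
    U * Uᴴ = E * Matrix.diagonal (fun i => ((lam i ^ 2 : ℝ) : ℂ)) * Eᴴ →
    V * Vᴴ = F * Matrix.diagonal (fun i => ((mu i ^ 2 : ℝ) : ℂ)) * Fᴴ →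
    ∑ i, ∑ j, ‖(Eᴴ * F) i j‖ ^ 2 * (lam i - mu j) ^ 2 ≤ 2 * ∑ i, ∑ j, ‖(U - V) i j‖ ^ 2

end Crest.H7Csx
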