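import Mathlib
import Crest.Agent.H7PRCsxDef

/-!
rid 342 (S0536): linear algebra for the correlated-sampling construction (module CSX, helper7).
-/

set_option autoImplicit false
set_option linter.unusedSectionVars false

open scoped Kronecker ComplexOrder BigOperators Matrix
open Crest.PR Crest.H26OneShot

namespace Crest.H7Csx

section basic
variable {p q r s : Type*} [Fintype p] [Fintype q] [Fintype r] [Fintype s]

/-- squared Hilbert-Schmidt norm -/
noncomputable def hs (M : Matrix p q ℂ) : ℝ := ∑ i, ∑ j, ‖M i j‖ ^ 2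

/-- a matrix as a vector -/
def mvec (M : Matrix p q ℂ) : p × q → ℂ := fun x => M x.1 x.2

lemma nsq_mvec (M : Matrix p q ℂ) : nsq (mvec M) = hs M := by
  unfold nsq hs mvec
  rw [Fintype.sum_prod_type]

lemma hs_nonneg (M : Matrix p q ℂ) : 0 ≤ hs M :=
  Finset.sum_nonneg fun i _ => Finset.sum_nonneg fun j _ => by positivity

lemma kron_mulVec (A : Matrix r p ℂ) (B : Matrix s q ℂ) (M : Matrix p q ℂ) :
    (A ⊗ₖ B).mulVec (mvec M) = mvec (A * M * Bᵀ) := by
  ext ⟨i, j⟩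
  simp only [Matrix.mulVec, dotProduct, mvec, Matrix.mul_apply, Matrix.transpose_apply,
    Matrix.kroneckerMap_apply, Fintype.sum_prod_type, Finset.sum_mul]
  rw [Finset.sum_comm]
  refine Finset.sum_congr rfl fun x _ => Finset.sum_congr rfl fun y _ => ?_
  ring

lemma bra_conj (ψ : p × q → ℂ) (A : Matrix r p ℂ) (B : Matrix s q ℂ) :
    bra ψ (Aᴴ * A) (Bᴴ * B) = nsq ((A ⊗ₖ B).mulVec ψ) := by
  unfold bra nsq
  rw [Matrix.mul_kronecker_mul, ← Matrix.conjTranspose_kronecker, ← Matrix.mulVec_mulVec,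
    Matrix.dotProduct_mulVec, ← Matrix.star_mulVec]
  unfold dotProduct
  rw [Complex.re_sum]
  refine Finset.sum_congr rfl fun i _ => ?_
  rw [Pi.star_apply, Complex.star_def, Complex.conj_mul', ← Complex.ofReal_pow, Complex.ofReal_re]

lemma hs_eq_trace (M : Matrix p q ℂ) : hs M = (Matrix.trace (M * Mᴴ)).re := by
  unfold hs Matrix.trace
  rw [Complex.re_sum]
  refine Finset.sum_congr rfl fun i _ => ?_
  rw [Matrix.diag_apply, Matrix.mul_apply, Complex.re_sum]
  refine Finset.sum_congr rfl fun j _ => ?_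
  rw [Matrix.conjTranspose_apply, Complex.star_def, Complex.mul_conj', ← Complex.ofReal_pow,
    Complex.ofReal_re]

lemma hs_transpose (M : Matrix p q ℂ) : hs Mᵀ = hs M := by
  unfold hs
  rw [Finset.sum_comm]
  rfl

lemma hs_smul (c : ℂ) (M : Matrix p q ℂ) : hs (c • M) = ‖c‖ ^ 2 * hs M := by
  unfold hs
  simp only [Matrix.smul_apply, smul_eq_mul, norm_mul, mul_pow, Finset.mul_sum]

lemma hs_mul_left [DecidableEq p] (W : Matrix r p ℂ) (hW : Wᴴ * W = 1) (M : Matrix p q ℂ) :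
    hs (W * M) = hs M := by
  rw [hs_eq_trace, hs_eq_trace, Matrix.conjTranspose_mul, ← Matrix.mul_assoc, Matrix.trace_mul_comm,
    Matrix.mul_assoc W, ← Matrix.mul_assoc Wᴴ W, hW, Matrix.one_mul]

/-- right multiplication by a matrix with `G Gᴴ` diagonal, entries `≤ 1` -/
lemma hs_mul_right_le [DecidableEq q] (G : Matrix q r ℂ) (d : q → ℝ) (hd : ∀ i, d i ≤ 1)
    (hG : G * Gᴴ = Matrix.diagonal (fun i => ((d i : ℝ) : ℂ))) (M : Matrix p q ℂ) :
    hs (M * G) ≤ hs M := by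
  rw [hs_eq_trace, Matrix.conjTranspose_mul, Matrix.mul_assoc, ← Matrix.mul_assoc G, hG]
  unfold hs Matrix.trace
  rw [Complex.re_sum]
  refine Finset.sum_le_sum fun i _ => ?_
  rw [Matrix.diag_apply, Matrix.mul_apply, Complex.re_sum]
  refine Finset.sum_le_sum fun j _ => ?_
  rw [Matrix.diagonal_mul, Matrix.conjTranspose_apply, Complex.star_def, mul_left_comm,
    Complex.mul_conj', ← Complex.ofReal_pow, ← Complex.ofReal_mul, Complex.ofReal_re]
  have := hd j
  have h2 : 0 ≤ ‖M i j‖ ^ 2 := by positivity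
  nlinarith

/-- partial isometries are contractions -/
lemma psd_of_partial_isometry [DecidableEq p] (W : Matrix r p ℂ) (hW : W * Wᴴ * W = W) :
    (1 - Wᴴ * W).PosSemidef := by
  have h : (1 - Wᴴ * W) = (1 - Wᴴ * W)ᴴ * (1 - Wᴴ * W) := by
    rw [Matrix.conjTranspose_sub, Matrix.conjTranspose_one, Matrix.conjTranspose_mul,
      Matrix.conjTranspose_conjTranspose, Matrix.sub_mul, Matrix.mul_sub, Matrix.mul_sub,
      Matrix.one_mul, Matrix.mul_one, Matrix.one_mul]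
    have : Wᴴ * W * (Wᴴ * W) = Wᴴ * W := by
      rw [Matrix.mul_assoc, ← Matrix.mul_assoc W, hW]
    rw [this]; simp
  rw [h]
  exact Matrix.posSemidef_conjTranspose_mul_self _

end basic

section shift
variable {n m : ℕ} {α : Type*} [Fintype α] [DecidableEq α]

/-- the selection matrix of a map -/
def sel {p q : Type*} [DecidableEq q] (f : p → q) : Matrix p q ℂ :=
  (1 : Matrix q q ℂ).submatrix f id

lemma sel_mul {p q r : Type*} [Fintype q] [DecidableEq q] (f : p → q) (M : Matrix q r ℂ) :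
    sel f * M = M.submatrix f id := by
  ext i j
  simp [sel, Matrix.mul_apply, Matrix.one_apply]

lemma mul_sel_transpose {p q r : Type*} [Fintype q] [DecidableEq q] (f : p → q) (M : Matrix r q ℂ) :
    M * (sel f)ᵀ = M.submatrix id f := by
  ext i j
  simp [sel, Matrix.mul_apply, Matrix.one_apply]

lemma sel_conjTranspose {p q : Type*} [DecidableEq q] (f : p → q) :
    (sel f)ᴴ = (sel f)ᵀ := by
  ext i j
  simp [sel, Matrix.one_apply]

lemma sel_mul_conjTranspose {p q : Type*} [Fintype q] [DecidableEq q] [DecidableEq p] (f : p → q)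
    (hf : Function.Injective f) : sel f * (sel f)ᴴ = 1 := by
  rw [sel_conjTranspose, mul_sel_transpose]
  ext i j
  simp [sel, Matrix.one_apply, hf.eq_iff]

end shift

section polar
variable {α β : Type*} [Fintype α] [DecidableEq α] [Fintype β] [DecidableEq β]

lemma exists_eigen (U : Matrix α β ℂ) : ∃ (E : Matrix α α ℂ) (lam : α → ℝ), Eᴴ * E = 1 ∧
    (∀ i, 0 ≤ lam i) ∧
    U * Uᴴ = E * Matrix.diagonal (fun i => ((lam i ^ 2 : ℝ) : ℂ)) * Eᴴ := by
  have hps : (U * Uᴴ).PosSemidef := Matrix.posSemidef_self_mul_conjTranspose U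
  have hh := hps.1
  refine ⟨(hh.eigenvectorUnitary : Matrix α α ℂ), fun i => Real.sqrt (hh.eigenvalues i), ?_, ?_, ?_⟩
  · exact (Matrix.mem_unitaryGroup_iff').1 hh.eigenvectorUnitary.2
  · intro i; exact Real.sqrt_nonneg _
  · have h1 := hh.spectral_theorem
    have h2 : ∀ i, Real.sqrt (hh.eigenvalues i) ^ 2 = hh.eigenvalues i := fun i =>
      Real.sq_sqrt (hps.eigenvalues_nonneg i)
    simp only [h2]
    conv_lhs => rw [h1]
    rfl

/-- the "polar part" `G = diag(mu⁻¹) Fᴴ V` -/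
noncomputable def polarG (F : Matrix α α ℂ) (mu : α → ℝ) (V : Matrix α β ℂ) : Matrix α β ℂ :=
  Matrix.diagonal (fun i => (((mu i)⁻¹ : ℝ) : ℂ)) * (Fᴴ * V)

variable (F : Matrix α α ℂ) (mu : α → ℝ) (V : Matrix α β ℂ)

lemma FV_mul (hF : Fᴴ * F = 1)
    (hV : V * Vᴴ = F * Matrix.diagonal (fun i => ((mu i ^ 2 : ℝ) : ℂ)) * Fᴴ) :
    (Fᴴ * V) * (Fᴴ * V)ᴴ = Matrix.diagonal (fun i => ((mu i ^ 2 : ℝ) : ℂ)) := by
  rw [Matrix.conjTranspose_mul, Matrix.conjTranspose_conjTranspose, Matrix.mul_assoc,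
    ← Matrix.mul_assoc V, hV]
  calc Fᴴ * (F * Matrix.diagonal (fun i => ((mu i ^ 2 : ℝ) : ℂ)) * Fᴴ * F)
      = (Fᴴ * F) * Matrix.diagonal (fun i => ((mu i ^ 2 : ℝ) : ℂ)) * (Fᴴ * F) := by
        simp only [Matrix.mul_assoc]
    _ = _ := by rw [hF, Matrix.one_mul, Matrix.mul_one]

lemma FV_row_zero (hF : Fᴴ * F = 1)
    (hV : V * Vᴴ = F * Matrix.diagonal (fun i => ((mu i ^ 2 : ℝ) : ℂ)) * Fᴴ) (i : α)
    (hi : mu i = 0) (b : β) : (Fᴴ * V) i b = 0 := by
  have h := congrFun (congrFun (FV_mul F mu V hF hV) i) i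
  rw [Matrix.diagonal_apply_eq, hi] at h
  have h2 : ∑ b, ‖(Fᴴ * V) i b‖ ^ 2 = 0 := by
    have h3 : ((∑ b, ‖(Fᴴ * V) i b‖ ^ 2 : ℝ) : ℂ) = 0 := by
      rw [Matrix.mul_apply] at h
      push_cast
      rw [← show (∑ j, (Fᴴ * V) i j * (Fᴴ * V)ᴴ j i) = ∑ b, ((‖(Fᴴ * V) i b‖ : ℂ)) ^ 2 from
        Finset.sum_congr rfl fun j _ => by
          rw [Matrix.conjTranspose_apply, Complex.star_def, Complex.mul_conj']]
      rw [h]; simp
    exact_mod_cast h3
  have h4 := (Finset.sum_eq_zero_iff_of_nonneg (fun b _ => by positivity)).1 h2 b (Finset.mem_univ b)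
  simpa using h4

lemma polarG_mul (hF : Fᴴ * F = 1)
    (hV : V * Vᴴ = F * Matrix.diagonal (fun i => ((mu i ^ 2 : ℝ) : ℂ)) * Fᴴ) :
    polarG F mu V * (polarG F mu V)ᴴ =
      Matrix.diagonal (fun i => (((if mu i = 0 then 0 else 1) : ℝ) : ℂ)) := by
  unfold polarG
  rw [Matrix.conjTranspose_mul, Matrix.mul_assoc, ← Matrix.mul_assoc (Fᴴ * V), FV_mul F mu V hF hV,
    Matrix.diagonal_conjTranspose, Matrix.diagonal_mul_diagonal, Matrix.diagonal_mul_diagonal]
  congr 1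
  ext i
  simp only [Pi.star_apply, Complex.star_def, Complex.conj_ofReal]
  rw [← Complex.ofReal_mul, ← Complex.ofReal_mul]
  congr 1
  split_ifs with h
  · simp [h]
  · field_simp

lemma polarG_chi (hF : Fᴴ * F = 1)
    (hV : V * Vᴴ = F * Matrix.diagonal (fun i => ((mu i ^ 2 : ℝ) : ℂ)) * Fᴴ) :
    polarG F mu V * (polarG F mu V)ᴴ * polarG F mu V = polarG F mu V := by
  rw [polarG_mul F mu V hF hV]
  ext i b
  rw [Matrix.diagonal_mul]
  unfold polarG
  rw [Matrix.diagonal_mul]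
  split_ifs with h
  · simp [h]
  · simp

lemma polarG_eq (hF : Fᴴ * F = 1)
    (hV : V * Vᴴ = F * Matrix.diagonal (fun i => ((mu i ^ 2 : ℝ) : ℂ)) * Fᴴ) :
    F * (Matrix.diagonal (fun i => ((mu i : ℝ) : ℂ)) * polarG F mu V) = V := by
  have h1 : Matrix.diagonal (fun i => ((mu i : ℝ) : ℂ)) * polarG F mu V = Fᴴ * V := by
    ext i b
    unfold polarG
    rw [Matrix.diagonal_mul, Matrix.diagonal_mul, ← mul_assoc, ← Complex.ofReal_mul]
    by_cases h : mu i = 0
    · rw [FV_row_zero F mu V hF hV i h b]; simp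
    · rw [mul_inv_cancel₀ h]; simp
  rw [h1, ← Matrix.mul_assoc]
  have : F * Fᴴ = 1 := by
    exact mul_eq_one_comm.1 hF
  rw [this, Matrix.one_mul]

lemma hs_eq_sum (hF : Fᴴ * F = 1)
    (hV : V * Vᴴ = F * Matrix.diagonal (fun i => ((mu i ^ 2 : ℝ) : ℂ)) * Fᴴ) :
    hs V = ∑ i, mu i ^ 2 := by
  have hF' : Fᴴᴴ * Fᴴ = 1 := by
    rw [Matrix.conjTranspose_conjTranspose]; exact mul_eq_one_comm.1 hF
  rw [← hs_mul_left Fᴴ hF' V, hs_eq_trace, FV_mul F mu V hF hV, Matrix.trace_diagonal,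
    Complex.re_sum]
  rfl

end polar

end Crest.H7Csx
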