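import Mathlib
import Crest.Agent.H7PRCsxLin

/-!
rid 342 (S0536): the correlated-sampling construction (module CSX, helper7).
-/

set_option autoImplicit false
set_option linter.unusedSectionVars false

open scoped Kronecker ComplexOrder BigOperators Matrix
open Crest.PR Crest.H26OneShot

namespace Crest.H7Csx

open Finset in
/-- weak form of the register lemma -/
def RegW (C : ℝ) : Prop :=
  ∀ κ : ℝ, 0 < κ → κ ≤ 1 → ∀ τ₀ : ℝ, 0 < τ₀ → ∃ τ : ℝ, 0 < τ ∧ τ ≤ τ₀ ∧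
    ∀ (L : ℕ) (η : ℝ), 0 < η → ∃ (n : ℕ) (h : ℕ → ℕ → ℝ),
      (∑ s ∈ range n, ∑ t ∈ range n, h s t ^ 2 = 1) ∧
      (∀ l l' : ℕ, l ≤ L → l' ≤ L → ∑ s ∈ range n, ∑ t ∈ range n,
        (h (s + l) (t + l') - Real.exp (-(l' * τ)) * h s t) ^ 2
          ≤ C / κ ^ 2 * (Real.exp (-(l * τ)) - Real.exp (-(l' * τ))) ^ 2 + η) ∧
      (∀ l : ℕ, l ≤ L → ∑ s ∈ range n, ∑ t ∈ range (n + L), h (s + l) t ^ 2
          ≤ (1 + C * κ) * Real.exp (-(2 * l * τ)) + η) ∧
      (∀ l : ℕ, l ≤ L → ∑ s ∈ range n, ∑ t ∈ range (n + L), h t (s + l) ^ 2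
          ≤ (1 + C * κ) * Real.exp (-(2 * l * τ)) + η)

lemma RegOut.weak {C : ℝ} (h : RegOut C) : RegW C := by
  intro κ hκ hκ1 τ₀ hτ₀
  obtain ⟨τ, hτ, hττ, n, g, h1, h2, h3, h4⟩ := h κ hκ hκ1 τ₀ hτ₀
  refine ⟨τ, hτ, hττ, fun L η hη => ⟨n, g, h1, ?_, ?_, ?_⟩⟩
  · intro l l' _ _
    have := h2 l l'
    linarith
  · intro l _
    have := h3 l (n + L)
    linarith
  · intro l _
    have := h4 l (n + L)
    linarith

/-- rounding a number in `[0,1]` to a power of `e^{-τ}` -/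
lemma round_lemma (τ η' z : ℝ) (hτ : 0 < τ) (hη : 0 < η') (hη1 : η' ≤ 1)
    (hz : 0 ≤ z) (hz1 : z ≤ 1) : ∃ l : ℕ, l ≤ ⌈-Real.log η' / τ⌉₊ ∧
      Real.exp (-(l * τ)) ≤ z + η' ∧ |Real.exp (-(l * τ)) - z| ≤ τ * z + η' := by
  set w := max z η' with hw
  have hw0 : 0 < w := lt_of_lt_of_le hη (le_max_right _ _)
  have hw1 : w ≤ 1 := max_le hz1 hη1
  have hlogw : Real.log w ≤ 0 := Real.log_nonpos hw0.le hw1
  have hq0 : 0 ≤ -Real.log w / τ := div_nonneg (by linarith) hτ.le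
  refine ⟨⌈-Real.log w / τ⌉₊, ?_, ?_, ?_⟩
  · apply Nat.ceil_le_ceil
    have : Real.log η' ≤ Real.log w := Real.log_le_log hη (le_max_right _ _)
    gcongr
  all_goals
    have hup : Real.exp (-((⌈-Real.log w / τ⌉₊ : ℕ) * τ)) ≤ w := by
      have h1 : -Real.log w / τ ≤ (⌈-Real.log w / τ⌉₊ : ℝ) := Nat.le_ceil _
      rw [div_le_iff₀ hτ] at h1
      calc Real.exp (-((⌈-Real.log w / τ⌉₊ : ℕ) * τ)) ≤ Real.exp (Real.log w) := by
            apply Real.exp_le_exp.2; linarith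
        _ = w := Real.exp_log hw0
    have hlow : w * (1 - τ) ≤ Real.exp (-((⌈-Real.log w / τ⌉₊ : ℕ) * τ)) := by
      have h1 : (⌈-Real.log w / τ⌉₊ : ℝ) < -Real.log w / τ + 1 := Nat.ceil_lt_add_one hq0
      have h2 : (⌈-Real.log w / τ⌉₊ : ℝ) * τ ≤ -Real.log w + τ := by
        have := mul_le_mul_of_nonneg_right h1.le hτ.le
        rw [add_mul, div_mul_cancel₀ _ hτ.ne'] at this
        linarith
      calc w * (1 - τ) ≤ w * Real.exp (-τ) := by
            apply mul_le_mul_of_nonneg_left _ hw0.le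
            have := Real.add_one_le_exp (-τ)
            linarith
        _ = Real.exp (Real.log w + -τ) := by rw [Real.exp_add, Real.exp_log hw0]
        _ ≤ Real.exp (-((⌈-Real.log w / τ⌉₊ : ℕ) * τ)) := by
            apply Real.exp_le_exp.2; linarith
    have hwz : w ≤ z + η' := max_le (by linarith) (by linarith)
    have hwz' : z ≤ w := le_max_left _ _
  · linarith
  · rw [abs_le]
    constructor
    · -- w (1-τ) ≥ z (1-τ) if τ ≤ 1, otherwise trivial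
      rcases le_total τ 1 with h | h
      · have : z * (1 - τ) ≤ w * (1 - τ) := mul_le_mul_of_nonneg_right hwz' (by linarith)
        nlinarith
      · have := Real.exp_pos (-((⌈-Real.log w / τ⌉₊ : ℕ) * τ))
        nlinarith
    · nlinarith

section construction
variable {α β : Type} [Fintype α] [DecidableEq α] [Fintype β] [DecidableEq β] {n L : ℕ}

/-- the shift map -/
def shf (l : α → Fin (L + 1)) : Fin n × α → Fin (n + L) × α :=
  fun p => (⟨p.1 + l p.2, by have := p.1.2; have := (l p.2).2; omega⟩, p.2)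

lemma shf_inj (l : α → Fin (L + 1)) : Function.Injective (shf (n := n) l) := by
  rintro ⟨s, i⟩ ⟨s', i'⟩ h
  simp only [shf, Prod.mk.injEq, Fin.mk.injEq] at h
  obtain ⟨h1, h2⟩ := h
  subst h2
  simp only [Prod.mk.injEq, and_true]
  ext
  omega

/-- `1 ⊗ M` with a `Fin a` register -/
def kr (a : ℕ) {γ δ : Type} (M : Matrix γ δ ℂ) : Matrix (Fin a × γ) (Fin a × δ) ℂ :=
  (1 : Matrix (Fin a) (Fin a) ℂ) ⊗ₖ M

lemma kr_conjTranspose {a : ℕ} {γ δ : Type} (M : Matrix γ δ ℂ) : (kr a M)ᴴ = kr a Mᴴ := by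
  unfold kr
  rw [Matrix.conjTranspose_kronecker, Matrix.conjTranspose_one]

lemma kr_transpose {a : ℕ} {γ δ : Type} (M : Matrix γ δ ℂ) : (kr a M)ᵀ = kr a Mᵀ := by
  ext ⟨i, j⟩ ⟨i', j'⟩
  simp [kr, Matrix.kroneckerMap_apply, Matrix.one_apply, eq_comm]

lemma kr_mul {a : ℕ} {γ δ ε : Type} [Fintype δ] (M : Matrix γ δ ℂ) (N : Matrix δ ε ℂ) :
    kr a M * kr a N = kr a (M * N) := by
  unfold kr
  rw [← Matrix.mul_kronecker_mul, Matrix.one_mul]

lemma kr_one {a : ℕ} : kr a (1 : Matrix α α ℂ) = 1 := by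
  unfold kr
  exact Matrix.one_kronecker_one

/-- Alice's operator -/
noncomputable def opA (n : ℕ) (E : Matrix α α ℂ) (l : α → Fin (L + 1)) :
    Matrix (Fin n × α) (Fin (n + L) × α) ℂ :=
  kr n E * (sel (shf (n := n) l) * kr (n + L) Eᴴ)

/-- Bob's operator -/
noncomputable def opB (n : ℕ) (F : Matrix α α ℂ) (g : Matrix α β ℂ) (l : α → Fin (L + 1)) :
    Matrix (Fin n × β) (Fin (n + L) × α) ℂ :=
  kr n gᵀ * (sel (shf (n := n) l) * kr (n + L) Fᵀ)

lemma opA_mul (E : Matrix α α ℂ) (hE : Eᴴ * E = 1) (l : α → Fin (L + 1)) :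
    opA n E l * (opA n E l)ᴴ = 1 := by
  have hE' : E * Eᴴ = 1 := mul_eq_one_comm.1 hE
  unfold opA
  rw [Matrix.conjTranspose_mul, Matrix.conjTranspose_mul, kr_conjTranspose, kr_conjTranspose,
    Matrix.conjTranspose_conjTranspose]
  calc kr n E * (sel (shf (n := n) l) * kr (n + L) Eᴴ) * (kr (n + L) E * (sel (shf (n := n) l))ᴴ * kr n Eᴴ)
      = kr n E * (sel (shf (n := n) l) * (kr (n + L) Eᴴ * kr (n + L) E) * (sel (shf (n := n) l))ᴴ) * kr n Eᴴ := by
        simp only [Matrix.mul_assoc]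
    _ = 1 := by
        rw [kr_mul, hE, kr_one, Matrix.mul_one, sel_mul_conjTranspose _ (shf_inj l), Matrix.mul_one,
          kr_mul, hE', kr_one]

lemma opA_psd (E : Matrix α α ℂ) (hE : Eᴴ * E = 1) (l : α → Fin (L + 1)) :
    (1 - (opA n E l)ᴴ * opA n E l).PosSemidef := by
  apply psd_of_partial_isometry
  rw [opA_mul E hE l, Matrix.one_mul]

lemma opB_psd (F : Matrix α α ℂ) (hF : Fᴴ * F = 1) (g : Matrix α β ℂ) (hg : g * gᴴ * g = g)
    (l : α → Fin (L + 1)) :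
    (1 - (opB n F g l)ᴴ * opB n F g l).PosSemidef := by
  apply psd_of_partial_isometry
  have hF' : Fᵀ * (Fᵀ)ᴴ = 1 := by
    have : Fᵀ * (Fᵀ)ᴴ = (Fᴴ * F)ᵀ := by
      rw [Matrix.transpose_mul]
      congr 1
    rw [this, hF, Matrix.transpose_one]
  have h1 : opB n F g l * (opB n F g l)ᴴ = kr n (gᵀ * (gᵀ)ᴴ) := by
    unfold opB
    rw [Matrix.conjTranspose_mul, Matrix.conjTranspose_mul, kr_conjTranspose, kr_conjTranspose]
    calc kr n gᵀ * (sel (shf (n := n) l) * kr (n + L) Fᵀ) * (kr (n + L) (Fᵀ)ᴴ * (sel (shf (n := n) l))ᴴ * kr n (gᵀ)ᴴ)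
        = kr n gᵀ * (sel (shf (n := n) l) * (kr (n + L) Fᵀ * kr (n + L) (Fᵀ)ᴴ) * (sel (shf (n := n) l))ᴴ) *
            kr n (gᵀ)ᴴ := by
          simp only [Matrix.mul_assoc]
      _ = _ := by
          rw [kr_mul, hF', kr_one, Matrix.mul_one, sel_mul_conjTranspose _ (shf_inj l),
            Matrix.mul_one, kr_mul]
  rw [h1]
  unfold opB
  rw [← Matrix.mul_assoc, kr_mul]
  have h2 : gᵀ * (gᵀ)ᴴ * gᵀ = gᵀ := by
    have : gᵀ * (gᵀ)ᴴ * gᵀ = (g * gᴴ * g)ᵀ := by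
      rw [Matrix.transpose_mul, Matrix.transpose_mul, Matrix.mul_assoc]
      congr 1
    rw [this, hg]
  rw [h2]

/-- register matrix -/
def regM (h : ℕ → ℕ → ℝ) (a b : ℕ) : Matrix (Fin a) (Fin b) ℂ := fun i j => ((h i j : ℝ) : ℂ)

/-- the shared state as a matrix -/
noncomputable def regO (α : Type) [DecidableEq α] (t : ℝ) (h : ℕ → ℕ → ℝ) (a : ℕ) : Matrix (Fin a × α) (Fin a × α) ℂ :=
  fun p q => if p.2 = q.2 then ((t⁻¹ * h p.1 q.1 : ℝ) : ℂ) else 0

/-- the register-times-matrix -/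
noncomputable def regK {γ δ : Type} (t : ℝ) (h : ℕ → ℕ → ℝ) (a : ℕ) (M : Matrix γ δ ℂ) :
    Matrix (Fin a × γ) (Fin a × δ) ℂ :=
  fun p q => ((t⁻¹ * h p.1 q.1 : ℝ) : ℂ) * M p.2 q.2

lemma regO_eq (t : ℝ) (h : ℕ → ℕ → ℝ) (a : ℕ) : regO α t h a = regK t h a (1 : Matrix α α ℂ) := by
  ext p q
  simp [regO, regK, Matrix.one_apply]

lemma kr_mul_regK {γ δ ε : Type} [Fintype γ] (t : ℝ) (h : ℕ → ℕ → ℝ) (a : ℕ) (M : Matrix γ δ ℂ)
    (N : Matrix ε γ ℂ) : kr a N * regK t h a M = regK t h a (N * M) := by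
  ext p q
  simp only [kr, regK, Matrix.mul_apply, Matrix.kroneckerMap_apply, Fintype.sum_prod_type,
    Matrix.one_apply, ite_mul, one_mul, zero_mul]
  rw [Finset.sum_eq_single p.1]
  · simp only [if_true, Finset.mul_sum]
    refine Finset.sum_congr rfl fun i _ => ?_
    ring
  · intro b _ hb
    simp [Ne.symm hb]
  · intro h; exact absurd (Finset.mem_univ _) h

lemma regK_mul_kr {γ δ ε : Type} [Fintype δ] (t : ℝ) (h : ℕ → ℕ → ℝ) (a : ℕ) (M : Matrix γ δ ℂ)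
    (N : Matrix δ ε ℂ) : regK t h a M * kr a N = regK t h a (M * N) := by
  ext p q
  simp only [kr, regK, Matrix.mul_apply, Matrix.kroneckerMap_apply, Fintype.sum_prod_type,
    Matrix.one_apply, ite_mul, one_mul, zero_mul, mul_ite, mul_zero]
  rw [Finset.sum_eq_single q.1]
  · simp only [if_true, Finset.mul_sum]
    refine Finset.sum_congr rfl fun i _ => ?_
    ring
  · intro b _ hb
    simp [hb]
  · intro h; exact absurd (Finset.mem_univ _) h

/-- Alice's and Bob's operators applied to the state -/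
lemma op_state (E F : Matrix α α ℂ) (g : Matrix α β ℂ) (l l' : α → Fin (L + 1)) (t : ℝ)
    (h : ℕ → ℕ → ℝ) :
    opA n E l * regO α t h (n + L) * (opB n F g l')ᵀ =
      kr n E * ((regK t h (n + L) (Eᴴ * F)).submatrix (shf (n := n) l) (shf (n := n) l') * kr n g) := by
  unfold opA opB
  rw [regO_eq, Matrix.transpose_mul, Matrix.transpose_mul, kr_transpose, kr_transpose,
    Matrix.transpose_transpose, Matrix.transpose_transpose]
  calc kr n E * (sel (shf (n := n) l) * kr (n + L) Eᴴ) * regK t h (n + L) (1 : Matrix α α ℂ) *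
        (kr (n + L) F * (sel (shf (n := n) l'))ᵀ * kr n g)
      = kr n E * ((sel (shf (n := n) l) * ((kr (n + L) Eᴴ * regK t h (n + L) (1 : Matrix α α ℂ)) * kr (n + L) F) *
          (sel (shf (n := n) l'))ᵀ) * kr n g) := by
        simp only [Matrix.mul_assoc]
    _ = _ := by
        rw [kr_mul_regK, regK_mul_kr, Matrix.mul_one, sel_mul, mul_sel_transpose,
          Matrix.submatrix_submatrix]
        rfl

lemma opA_state (E : Matrix α α ℂ) (l : α → Fin (L + 1)) (t : ℝ) (h : ℕ → ℕ → ℝ) :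
    opA n E l * regO α t h (n + L) =
      kr n E * ((regK t h (n + L) Eᴴ).submatrix (shf (n := n) l) id) := by
  unfold opA
  rw [regO_eq, Matrix.mul_assoc, Matrix.mul_assoc, kr_mul_regK, Matrix.mul_one, sel_mul]

lemma opB_state (F : Matrix α α ℂ) (g : Matrix α β ℂ) (l' : α → Fin (L + 1)) (t : ℝ)
    (h : ℕ → ℕ → ℝ) :
    regO α t h (n + L) * (opB n F g l')ᵀ =
      ((regK t h (n + L) F).submatrix id (shf (n := n) l')) * kr n g := by
  unfold opB
  rw [regO_eq, Matrix.transpose_mul, Matrix.transpose_mul, kr_transpose, kr_transpose,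
    Matrix.transpose_transpose, Matrix.transpose_transpose]
  calc regK t h (n + L) (1 : Matrix α α ℂ) * (kr (n + L) F * (sel (shf (n := n) l'))ᵀ * kr n g)
      = ((regK t h (n + L) (1 : Matrix α α ℂ) * kr (n + L) F) * (sel (shf (n := n) l'))ᵀ) * kr n g := by
        simp only [Matrix.mul_assoc]
    _ = _ := by
        rw [regK_mul_kr, Matrix.one_mul, mul_sel_transpose]

lemma kr_isometry (E : Matrix α α ℂ) (hE : Eᴴ * E = 1) : (kr n E)ᴴ * kr n E = 1 := by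
  rw [kr_conjTranspose, kr_mul, hE, kr_one]

lemma row_norm (E : Matrix α α ℂ) (hE : E * Eᴴ = 1) (i : α) : ∑ q, ‖E i q‖ ^ 2 = 1 := by
  have h := congrFun (congrFun hE i) i
  rw [Matrix.mul_apply, Matrix.one_apply_eq] at h
  have h2 : ((∑ q, ‖E i q‖ ^ 2 : ℝ) : ℂ) = 1 := by
    rw [← h]; push_cast
    refine Finset.sum_congr rfl fun q _ => ?_
    rw [Matrix.conjTranspose_apply, Complex.star_def, Complex.mul_conj']
  exact_mod_cast h2

lemma col_norm (E : Matrix α α ℂ) (hE : Eᴴ * E = 1) (i : α) : ∑ q, ‖E q i‖ ^ 2 = 1 := by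
  have h := row_norm Eᴴ (by rw [Matrix.conjTranspose_conjTranspose]; exact hE) i
  simpa using h

lemma sum_fin_prod {a b : ℕ} {γ δ : Type} [Fintype γ] [Fintype δ] (f : Fin a × γ → Fin b × δ → ℝ) :
    ∑ p, ∑ q, f p q = ∑ i, ∑ j, ∑ s, ∑ u, f (s, i) (u, j) := by
  rw [Fintype.sum_prod_type]
  have : ∀ (s : Fin a) (i : γ), ∑ q, f (s, i) q = ∑ j, ∑ u, f (s, i) (u, j) := by
    intro s i
    rw [Fintype.sum_prod_type, Finset.sum_comm]
  simp only [this]
  rw [Finset.sum_comm]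
  refine Finset.sum_congr rfl fun i _ => ?_
  rw [Finset.sum_comm]

lemma hs_opA (E : Matrix α α ℂ) (hE : Eᴴ * E = 1) (l : α → Fin (L + 1)) (t : ℝ) (h : ℕ → ℕ → ℝ) :
    hs (opA n E l * regO α t h (n + L)) =
      t⁻¹ ^ 2 * ∑ i, ∑ s ∈ Finset.range n, ∑ u ∈ Finset.range (n + L), h (s + (l i : ℕ)) u ^ 2 := by
  rw [opA_state, hs_mul_left _ (kr_isometry E hE)]
  unfold hs
  rw [sum_fin_prod]
  have h1 : ∀ i : α, ∑ j : α, ∑ s : Fin n, ∑ u : Fin (n + L),
      ‖(regK t h (n + L) Eᴴ).submatrix (shf (n := n) l) id (s, i) (u, j)‖ ^ 2 =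
      (∑ j : α, ‖Eᴴ i j‖ ^ 2) * (t⁻¹ ^ 2 * ∑ s : Fin n, ∑ u : Fin (n + L), h (s + l i) u ^ 2) := by
    intro i
    rw [Finset.sum_mul]
    refine Finset.sum_congr rfl fun j _ => ?_
    rw [Finset.mul_sum, Finset.mul_sum]
    refine Finset.sum_congr rfl fun s _ => ?_
    rw [Finset.mul_sum, Finset.mul_sum]
    refine Finset.sum_congr rfl fun u _ => ?_
    simp only [Matrix.submatrix_apply, regK, shf, id, norm_mul, mul_pow, Complex.norm_real,
      Real.norm_eq_abs, sq_abs]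
    ring
  simp only [h1]
  rw [Finset.mul_sum]
  refine Finset.sum_congr rfl fun i _ => ?_
  rw [row_norm Eᴴ (by rw [Matrix.conjTranspose_conjTranspose]; exact hE) i, one_mul]
  congr 1
  rw [Finset.sum_range]
  refine Finset.sum_congr rfl fun s _ => ?_
  rw [Finset.sum_range]

lemma hs_opB (F : Matrix α α ℂ) (hF : Fᴴ * F = 1) (g : Matrix α β ℂ) (d : α → ℝ)
    (hd : ∀ i, d i ≤ 1) (hg : g * gᴴ = Matrix.diagonal (fun i => ((d i : ℝ) : ℂ)))
    (l : α → Fin (L + 1)) (t : ℝ) (h : ℕ → ℕ → ℝ) :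
    hs (regO α t h (n + L) * (opB n F g l)ᵀ) ≤
      t⁻¹ ^ 2 * ∑ i, ∑ s ∈ Finset.range n, ∑ u ∈ Finset.range (n + L), h u (s + (l i : ℕ)) ^ 2 := by
  rw [opB_state]
  have hkg : kr n g * (kr n g)ᴴ = Matrix.diagonal (fun i : Fin n × α => ((d i.2 : ℝ) : ℂ)) := by
    rw [kr_conjTranspose, kr_mul, hg]
    ext ⟨i, j⟩ ⟨i', j'⟩
    simp only [kr, Matrix.kroneckerMap_apply, Matrix.one_apply, Matrix.diagonal_apply,
      Prod.mk.injEq]
    split_ifs <;> simp_all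
  refine (hs_mul_right_le (kr n g) (fun i => d i.2) (fun i => hd i.2) hkg _).trans (le_of_eq ?_)
  unfold hs
  rw [sum_fin_prod, Finset.sum_comm]
  have h1 : ∀ i : α, ∑ j : α, ∑ s : Fin (n + L), ∑ u : Fin n,
      ‖(regK t h (n + L) F).submatrix id (shf (n := n) l) (s, j) (u, i)‖ ^ 2 =
      (∑ j : α, ‖F j i‖ ^ 2) * (t⁻¹ ^ 2 * ∑ u : Fin n, ∑ s : Fin (n + L), h s (u + l i) ^ 2) := by
    intro i
    rw [Finset.sum_mul]
    refine Finset.sum_congr rfl fun j _ => ?_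
    rw [Finset.sum_comm, Finset.mul_sum, Finset.mul_sum]
    refine Finset.sum_congr rfl fun s _ => ?_
    rw [Finset.mul_sum, Finset.mul_sum]
    refine Finset.sum_congr rfl fun u _ => ?_
    simp only [Matrix.submatrix_apply, regK, shf, id, norm_mul, mul_pow, Complex.norm_real,
      Real.norm_eq_abs, sq_abs]
    ring
  simp only [h1]
  rw [Finset.mul_sum]
  refine Finset.sum_congr rfl fun i _ => ?_
  rw [col_norm F hF i, one_mul]
  congr 1
  rw [Finset.sum_range]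
  refine Finset.sum_congr rfl fun s _ => ?_
  rw [Finset.sum_range]

lemma hs_diff (E F : Matrix α α ℂ) (hE : Eᴴ * E = 1) (g V : Matrix α β ℂ) (d mu : α → ℝ)
    (hd : ∀ i, d i ≤ 1) (hg : g * gᴴ = Matrix.diagonal (fun i => ((d i : ℝ) : ℂ)))
    (hV : F * (Matrix.diagonal (fun i => ((mu i : ℝ) : ℂ)) * g) = V)
    (l l' : α → Fin (L + 1)) (t : ℝ) (h : ℕ → ℕ → ℝ) :
    hs (opA n E l * regO α t h (n + L) * (opB n F g l')ᵀ - regK 1 h n V) ≤
      ∑ i, ∑ j, ‖(Eᴴ * F) i j‖ ^ 2 * ∑ s ∈ Finset.range n, ∑ u ∈ Finset.range n,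
        (t⁻¹ * h (s + (l i : ℕ)) (u + (l' j : ℕ)) - mu j * h s u) ^ 2 := by
  have hE' : E * Eᴴ = 1 := mul_eq_one_comm.1 hE
  have hkg : kr n g * (kr n g)ᴴ = Matrix.diagonal (fun i : Fin n × α => ((d i.2 : ℝ) : ℂ)) := by
    rw [kr_conjTranspose, kr_mul, hg]
    ext ⟨i, j⟩ ⟨i', j'⟩
    simp only [kr, Matrix.kroneckerMap_apply, Matrix.one_apply, Matrix.diagonal_apply,
      Prod.mk.injEq]
    split_ifs <;> simp_all
  have hT : regK 1 h n V = kr n E * (regK 1 h n (Eᴴ * F * Matrix.diagonal (fun i => ((mu i : ℝ) : ℂ)))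
      * kr n g) := by
    rw [regK_mul_kr, kr_mul_regK]
    congr 1
    rw [← hV]
    calc F * (Matrix.diagonal (fun i => ((mu i : ℝ) : ℂ)) * g)
        = (E * Eᴴ) * (F * (Matrix.diagonal (fun i => ((mu i : ℝ) : ℂ)) * g)) := by
          rw [hE', Matrix.one_mul]
      _ = _ := by simp only [Matrix.mul_assoc]
  rw [op_state, hT, ← Matrix.mul_sub, ← Matrix.sub_mul, hs_mul_left _ (kr_isometry E hE)]
  refine (hs_mul_right_le (kr n g) (fun i => d i.2) (fun i => hd i.2) hkg _).trans (le_of_eq ?_)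
  unfold hs
  rw [sum_fin_prod]
  refine Finset.sum_congr rfl fun i _ => Finset.sum_congr rfl fun j _ => ?_
  rw [Finset.sum_range, Finset.mul_sum]
  refine Finset.sum_congr rfl fun s _ => ?_
  rw [Finset.sum_range, Finset.mul_sum]
  refine Finset.sum_congr rfl fun u _ => ?_
  simp only [Matrix.sub_apply, Matrix.submatrix_apply, regK, shf, inv_one, one_mul]
  rw [Matrix.mul_diagonal]
  have : ((t⁻¹ * h (↑s + ↑(l i)) (↑u + ↑(l' j)) : ℝ) : ℂ) * (Eᴴ * F) i j -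
      ((h ↑s ↑u : ℝ) : ℂ) * ((Eᴴ * F) i j * ((mu j : ℝ) : ℂ)) =
      (Eᴴ * F) i j * (((t⁻¹ * h (↑s + ↑(l i)) (↑u + ↑(l' j)) - mu j * h ↑s ↑u : ℝ)) : ℂ) := by
    push_cast; ring
  rw [this, norm_mul, mul_pow, Complex.norm_real, Real.norm_eq_abs, sq_abs]

end construction

end Crest.H7Csx
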