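import Mathlib
import Crest.Agent.H7PRCsx

/-!
rid 342 (S0536): assembly of the correlated-sampling construction (module CSX, helper7).
-/

set_option autoImplicit false
set_option linter.unusedSectionVars false

open scoped Kronecker ComplexOrder BigOperators Matrix
open Crest.PR Crest.H26OneShot

namespace Crest.H7Csx

open Finset in
/-- numeric part (helper1) -/
def NumOut (C : ℝ) : Prop :=
  ∀ (X Y α : Type) [Fintype X] [Fintype Y] [Fintype α] (lam : X → α → ℝ) (mu : Y → α → ℝ),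
  (∀ x i, 0 ≤ lam x i) → (∀ y j, 0 ≤ mu y j) → ∀ (κ η : ℝ), 0 < κ → κ ≤ 1 → 0 < η →
 ∃ (n L : ℕ) (h : ℕ → ℕ → ℝ) (t : ℝ) (lA : X → α → Fin (L+1)) (lB : Y → α → Fin (L+1)), 0 < t ∧
 (∑ s ∈ range n, ∑ u ∈ range n, h s u ^ 2 = 1) ∧
 (∀ x, t⁻¹^2 * ∑ i, ∑ s ∈ range n, ∑ u ∈ range (n+L), h (s + (lA x i : ℕ)) u ^ 2
    ≤ (1 + (12*C+4)*κ) * ∑ i, lam x i ^ 2 + η) ∧
 (∀ y, t⁻¹^2 * ∑ j, ∑ s ∈ range n, ∑ u ∈ range (n+L), h u (s + (lB y j : ℕ)) ^ 2
    ≤ (1 + (12*C+4)*κ) * ∑ j, mu y j ^ 2 + η) ∧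
 (∀ x y (O : α → α → ℝ), (∀ i j, 0 ≤ O i j) → (∀ i, ∑ j, O i j = 1) → (∀ j, ∑ i, O i j = 1) →
    ∑ i, ∑ j, O i j * ∑ s ∈ range n, ∑ u ∈ range n,
      (t⁻¹ * h (s + (lA x i : ℕ)) (u + (lB y j : ℕ)) - mu y j * h s u) ^ 2
    ≤ (12*C+4)/(2*κ^2) * ∑ i, ∑ j, O i j * (lam x i - mu y j)^2
      + (12*C+4)*κ^2*(∑ i, lam x i^2 + ∑ j, mu y j^2) + η)

lemma mvec_sub {p q : Type*} [Fintype p] [Fintype q] (A B : Matrix p q ℂ) :
    mvec A - mvec B = mvec (A - B) := by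
  ext x; simp [mvec]

theorem csx (C : ℝ) (hC : 0 < C) (hnum : NumOut C) (hconn : ConnOut) : CSXOut (12 * C + 4) := by
  intro X Y α β _ _ _ _ _ _ _ _ U V κ η hκ hκ1 hη
  set Um : X → Matrix α β ℂ := fun x a b => U x (a, b) with hUm
  set Vm : Y → Matrix α β ℂ := fun y a b => V y (a, b) with hVm
  have hUv : ∀ x, mvec (Um x) = U x := fun x => by ext ⟨a, b⟩; rfl
  have hVv : ∀ y, mvec (Vm y) = V y := fun y => by ext ⟨a, b⟩; rfl
  choose E lam hE hlam hUE using fun x => exists_eigen (Um x)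
  choose F mu hF hmu hVF using fun y => exists_eigen (Vm y)
  obtain ⟨n, L, h, t, lA, lB, ht, hsum, hA, hB, hD⟩ := hnum X Y α lam mu hlam hmu κ η hκ hκ1 hη
  refine ⟨Fin (n + L), Fin n, inferInstance, inferInstance, inferInstance, inferInstance,
    mvec (regO α t h (n + L)), fun x => opA n (E x) (lA x),
    fun y => opB n (F y) (polarG (F y) (mu y) (Vm y)) (lB y),
    fun p => ((h p.1 p.2 : ℝ) : ℂ), ?_, ?_, ?_, ?_, ?_, ?_⟩
  · unfold nsq
    rw [Fintype.sum_prod_type, ← hsum, Finset.sum_range]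
    refine Finset.sum_congr rfl fun s _ => ?_
    rw [Finset.sum_range]
    refine Finset.sum_congr rfl fun u _ => ?_
    simp
  · intro x; exact opA_psd (E x) (hE x) (lA x)
  · intro y; exact opB_psd (F y) (hF y) _ (polarG_chi (F y) (mu y) (Vm y) (hF y) (hVF y)) (lB y)
  · intro x
    have h1 : bra (mvec (regO α t h (n + L))) ((opA n (E x) (lA x))ᴴ * opA n (E x) (lA x)) 1
        = hs (opA n (E x) (lA x) * regO α t h (n + L)) := by
      have := bra_conj (mvec (regO α t h (n + L))) (opA n (E x) (lA x))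
        (1 : Matrix (Fin (n + L) × α) (Fin (n + L) × α) ℂ)
      rw [Matrix.conjTranspose_one, Matrix.one_mul, kron_mulVec, Matrix.transpose_one,
        Matrix.mul_one, nsq_mvec] at this
      exact this
    rw [h1, hs_opA (E x) (hE x) (lA x) t h, ← hUv x, nsq_mvec,
      hs_eq_sum (E x) (lam x) (Um x) (hE x) (hUE x)]
    exact hA x
  · intro y
    have h1 : bra (mvec (regO α t h (n + L))) 1
        ((opB n (F y) (polarG (F y) (mu y) (Vm y)) (lB y))ᴴ *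
          opB n (F y) (polarG (F y) (mu y) (Vm y)) (lB y))
        = hs (regO α t h (n + L) * (opB n (F y) (polarG (F y) (mu y) (Vm y)) (lB y))ᵀ) := by
      have := bra_conj (mvec (regO α t h (n + L)))
        (1 : Matrix (Fin (n + L) × α) (Fin (n + L) × α) ℂ)
        (opB n (F y) (polarG (F y) (mu y) (Vm y)) (lB y))
      rw [Matrix.conjTranspose_one, Matrix.one_mul, kron_mulVec, Matrix.one_mul, nsq_mvec] at this
      exact this
    rw [h1, ← hVv y, nsq_mvec, hs_eq_sum (F y) (mu y) (Vm y) (hF y) (hVF y)]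
    refine (hs_opB (F y) (hF y) _ (fun i => if mu y i = 0 then 0 else 1) ?_
      (polarG_mul (F y) (mu y) (Vm y) (hF y) (hVF y)) (lB y) t h).trans (hB y)
    intro i
    split_ifs <;> norm_num
  · intro x y
    have h1 : (fun p : (Fin n × α) × (Fin n × β) => V y (p.1.2, p.2.2) *
        ((h (p.1.1, p.2.1).1 (p.1.1, p.2.1).2 : ℝ) : ℂ)) = mvec (regK 1 h n (Vm y)) := by
      ext ⟨⟨s, a⟩, ⟨u, b⟩⟩
      simp only [mvec, regK, inv_one, one_mul, hVm]
      ring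
    rw [h1, kron_mulVec, mvec_sub, nsq_mvec]
    refine (hs_diff (E x) (F y) (hE x) (polarG (F y) (mu y) (Vm y)) (Vm y)
      (fun i => if mu y i = 0 then 0 else 1) (mu y) ?_
      (polarG_mul (F y) (mu y) (Vm y) (hF y) (hVF y))
      (polarG_eq (F y) (mu y) (Vm y) (hF y) (hVF y)) (lA x) (lB y) t h).trans ?_
    · intro i
      split_ifs <;> norm_num
    have hO : ((E x)ᴴ * F y)ᴴ * ((E x)ᴴ * F y) = 1 := by
      rw [Matrix.conjTranspose_mul, Matrix.conjTranspose_conjTranspose, Matrix.mul_assoc,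
        ← Matrix.mul_assoc (E x), mul_eq_one_comm.1 (hE x), Matrix.one_mul, hF y]
    have hO' : ((E x)ᴴ * F y) * ((E x)ᴴ * F y)ᴴ = 1 := mul_eq_one_comm.1 hO
    refine (hD x y (fun i j => ‖((E x)ᴴ * F y) i j‖ ^ 2) (fun i j => by positivity)
      (fun i => row_norm _ hO' i) (fun j => col_norm _ hO j)).trans ?_
    have hc := hconn α β (Um x) (Vm y) (E x) (F y) (lam x) (mu y) (hE x) (hF y) (hlam x) (hmu y)
      (hUE x) (hVF y)
    have e1 : nsq (U x - V y) = ∑ i, ∑ j, ‖(Um x - Vm y) i j‖ ^ 2 := by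
      rw [← hUv x, ← hVv y, mvec_sub, nsq_mvec]; rfl
    rw [e1, ← hUv x, ← hVv y, nsq_mvec, nsq_mvec, hs_eq_sum (E x) (lam x) (Um x) (hE x) (hUE x),
      hs_eq_sum (F y) (mu y) (Vm y) (hF y) (hVF y)]
    have hk : (12 * C + 4) / (2 * κ ^ 2) *
        (∑ i, ∑ j, ‖((E x)ᴴ * F y) i j‖ ^ 2 * (lam x i - mu y j) ^ 2) ≤
        (12 * C + 4) / κ ^ 2 * ∑ i, ∑ j, ‖(Um x - Vm y) i j‖ ^ 2 := by
      have h0 : 0 ≤ (12 * C + 4) / (2 * κ ^ 2) := by positivity
      refine (mul_le_mul_of_nonneg_left hc h0).trans (le_of_eq ?_)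
      field_simp
    linarith

end Crest.H7Csx
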