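import Crest.Agent.H8PRReg

set_option autoImplicit false

namespace Crest.Agent.H8PRRegW

open Finset

theorem main : ∃ C : ℝ, 0 < C ∧ ∀ κ : ℝ, 0 < κ → κ ≤ 1 → ∀ τ₀ : ℝ, 0 < τ₀ → ∃ τ : ℝ, 0 < τ ∧ τ ≤ τ₀ ∧
    ∀ (L : ℕ) (η : ℝ), 0 < η → ∃ (n : ℕ) (h : ℕ → ℕ → ℝ),
      (∑ s ∈ range n, ∑ t ∈ range n, h s t ^ 2 = 1) ∧
      (∀ l l' : ℕ, l ≤ L → l' ≤ L → ∑ s ∈ range n, ∑ t ∈ range n,
        (h (s+l) (t+l') - Real.exp (-((l':ℝ)*τ)) * h s t)^2
          ≤ C/κ^2 * (Real.exp (-((l:ℝ)*τ)) - Real.exp (-((l':ℝ)*τ)))^2 + η) ∧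
      (∀ l ≤ L, ∑ s ∈ range n, ∑ t ∈ range (n+L), h (s+l) t ^ 2 ≤ (1 + C*κ) * Real.exp (-(2*(l:ℝ)*τ)) + η) ∧
      (∀ l ≤ L, ∑ s ∈ range n, ∑ t ∈ range (n+L), h t (s+l) ^ 2 ≤ (1 + C*κ) * Real.exp (-(2*(l:ℝ)*τ)) + η) := by
  obtain ⟨C, hC, H⟩ := H8PRReg.main
  refine ⟨C, hC, fun κ hκ hκ1 τ₀ hτ₀ => ⟨τ₀, hτ₀, le_rfl, fun L η hη => ?_⟩⟩
  obtain ⟨J, G, h0, hz, h1, hR1, -, hR2, hR2'⟩ := H κ hκ hκ1 η hη τ₀ hτ₀ L
  refine ⟨J, G, h1, fun l l' hl hl' => hR1 l hl l' hl', fun l hl => ?_, fun l hl => ?_⟩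
  · refine le_trans ?_ (hR2 l)
    have e1 : ∀ a, ∑ t ∈ range (J+L), G a t ^ 2 = ∑ t ∈ range J, G a t ^ 2 := by
      intro a
      symm
      apply Finset.sum_subset
      · intro x; simp; omega
      · intro x _ hx
        have : J ≤ x := by simpa using hx
        rw [hz a x (Or.inr this)]; norm_num
    simp_rw [e1]
    have e2 : ∑ s ∈ range J, ∑ t ∈ range J, G (s+l) t ^ 2 ≤ ∑ s ∈ range (J+l), (if l ≤ s then ∑ t ∈ range J, G s t ^ 2 else 0) := by
      exact H8PRReg.shift1 J l l le_rfl (fun s => ∑ t ∈ range J, G s t ^ 2) (fun s => Finset.sum_nonneg (fun _ _ => by positivity))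
    refine le_trans e2 (le_of_eq ?_)
    symm
    calc ∑ j ∈ range J, ∑ j' ∈ range J, (if l ≤ j then (G j j')^2 else 0)
        = ∑ j ∈ range J, (if l ≤ j then ∑ j' ∈ range J, (G j j')^2 else 0) := by
          refine Finset.sum_congr rfl (fun j _ => ?_)
          split_ifs <;> simp
      _ = ∑ s ∈ range (J+l), (if l ≤ s then ∑ t ∈ range J, G s t ^ 2 else 0) := by
          apply Finset.sum_subset
          · intro x; simp; omega
          · intro x _ hx
            have : J ≤ x := by simpa using hx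
            split_ifs
            · apply Finset.sum_eq_zero
              intro t _
              rw [hz x t (Or.inl this)]; norm_num
            · rfl
  · refine le_trans ?_ (hR2' l)
    have e1 : ∀ a, ∑ t ∈ range (J+L), G t a ^ 2 = ∑ t ∈ range J, G t a ^ 2 := by
      intro a
      symm
      apply Finset.sum_subset
      · intro x; simp; omega
      · intro x _ hx
        have : J ≤ x := by simpa using hx
        rw [hz x a (Or.inl this)]; norm_num
    simp_rw [e1]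
    have e2 : ∑ s ∈ range J, ∑ t ∈ range J, G t (s+l) ^ 2 ≤ ∑ s ∈ range (J+l), (if l ≤ s then ∑ t ∈ range J, G t s ^ 2 else 0) := by
      exact H8PRReg.shift1 J l l le_rfl (fun s => ∑ t ∈ range J, G t s ^ 2) (fun s => Finset.sum_nonneg (fun _ _ => by positivity))
    refine le_trans e2 (le_of_eq ?_)
    symm
    rw [Finset.sum_comm]
    calc ∑ j' ∈ range J, ∑ j ∈ range J, (if l ≤ j' then (G j j')^2 else 0)
        = ∑ j' ∈ range J, (if l ≤ j' then ∑ j ∈ range J, (G j j')^2 else 0) := by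
          refine Finset.sum_congr rfl (fun j' _ => ?_)
          split_ifs <;> simp
      _ = ∑ s ∈ range (J+l), (if l ≤ s then ∑ t ∈ range J, G t s ^ 2 else 0) := by
          apply Finset.sum_subset
          · intro x; simp; omega
          · intro x _ hx
            have : J ≤ x := by simpa using hx
            split_ifs
            · apply Finset.sum_eq_zero
              intro t _
              rw [hz t x (Or.inr this)]; norm_num
            · rfl

end Crest.Agent.H8PRRegW
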