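import Mathlib
import Crest.Agent.H7PRCsxFin
import Crest.Agent.H26PRConn
import Crest.Agent.H8PRRegW

/-!
rid 342 (S0536): connectors for the CSX module (helper7).
-/

set_option autoImplicit false

open scoped Kronecker ComplexOrder BigOperators Matrix
open Crest.PR Crest.H26OneShot

namespace Crest.H7Csx

theorem connOut : ConnOut := by
  intro α β _ _ _ _ U V E F lam mu hE hF hlam hmu hU hV
  have h1 : Crest.H26PRConn.IsDiag U E lam :=
    ⟨hE, mul_eq_one_comm.1 hE, hlam, FV_mul E lam U hE hU⟩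
  have h2 : Crest.H26PRConn.IsDiag V F mu :=
    ⟨hF, mul_eq_one_comm.1 hF, hmu, FV_mul F mu V hF hV⟩
  exact Crest.H26PRConn.conn h1 h2

theorem regW : ∃ C : ℝ, 0 < C ∧ RegW C := Crest.Agent.H8PRRegW.main

end Crest.H7Csx
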