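import Mathlib
import Crest.Agent.H7PRCsxFin

/-!
rid 342 (S0536): numeric part of the CSX module (helper7).
-/

set_option autoImplicit false

open scoped BigOperators
open Finset

namespace Crest.H7Csx

/-- pointwise estimate for the difference -/
lemma num_diff (C κ τ t η₁ e lam m : ℝ) (hC : 0 < C) (hκ : 0 < κ) (hκ1 : κ ≤ 1)
    (hτ0 : 0 < τ) (hτ : τ ≤ κ ^ 2)
    (ht : 0 < t) (n l l' : ℕ) (h : ℕ → ℕ → ℝ)
    (h1 : ∑ s ∈ range n, ∑ u ∈ range n, h s u ^ 2 = 1)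
    (hR : ∑ s ∈ range n, ∑ u ∈ range n,
        (h (s + l) (u + l') - Real.exp (-(l' * τ)) * h s u) ^ 2
          ≤ C / κ ^ 2 * (Real.exp (-(l * τ)) - Real.exp (-(l' * τ))) ^ 2 + η₁)
    (hl : |t⁻¹ * Real.exp (-(l * τ)) - lam| ≤ τ * lam + e)
    (hl' : |t⁻¹ * Real.exp (-(l' * τ)) - m| ≤ τ * m + e) (hlam : 0 ≤ lam) (hm : 0 ≤ m)
    (he : 0 ≤ e) :
    ∑ s ∈ range n, ∑ u ∈ range n, (t⁻¹ * h (s + l) (u + l') - m * h s u) ^ 2 ≤
      (12 * C + 4) / (2 * κ ^ 2) * (lam - m) ^ 2 + (12 * C + 4) * κ ^ 2 * (lam ^ 2 + m ^ 2)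
        + ((24 * C / κ ^ 2 + 4) * e ^ 2 + 2 * t⁻¹ ^ 2 * η₁) := by
  set lh := t⁻¹ * Real.exp (-(l * τ)) with hlh
  set mh := t⁻¹ * Real.exp (-(l' * τ)) with hmh
  have hstep : ∑ s ∈ range n, ∑ u ∈ range n, (t⁻¹ * h (s + l) (u + l') - m * h s u) ^ 2 ≤
      2 * (t⁻¹ ^ 2 * ∑ s ∈ range n, ∑ u ∈ range n,
        (h (s + l) (u + l') - Real.exp (-(l' * τ)) * h s u) ^ 2)
      + 2 * (mh - m) ^ 2 * ∑ s ∈ range n, ∑ u ∈ range n, h s u ^ 2 := by
    rw [Finset.mul_sum, Finset.mul_sum, Finset.mul_sum, ← Finset.sum_add_distrib]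
    refine Finset.sum_le_sum fun s _ => ?_
    rw [Finset.mul_sum, Finset.mul_sum, Finset.mul_sum, ← Finset.sum_add_distrib]
    refine Finset.sum_le_sum fun u _ => ?_
    have e1 : t⁻¹ * h (s + l) (u + l') - m * h s u =
        t⁻¹ * (h (s + l) (u + l') - Real.exp (-(l' * τ)) * h s u) + (mh - m) * h s u := by
      rw [hmh]; ring
    rw [e1]
    nlinarith [sq_nonneg (t⁻¹ * (h (s + l) (u + l') - Real.exp (-(l' * τ)) * h s u)
      - (mh - m) * h s u)]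
  rw [h1, mul_one] at hstep
  have hstep2 : t⁻¹ ^ 2 * ∑ s ∈ range n, ∑ u ∈ range n,
        (h (s + l) (u + l') - Real.exp (-(l' * τ)) * h s u) ^ 2 ≤
      C / κ ^ 2 * (lh - mh) ^ 2 + t⁻¹ ^ 2 * η₁ := by
    have := mul_le_mul_of_nonneg_left hR (by positivity : 0 ≤ t⁻¹ ^ 2)
    refine this.trans (le_of_eq ?_)
    rw [hlh, hmh]; ring
  have hτ2 : τ ^ 2 ≤ κ ^ 4 := by
    have : τ ^ 2 ≤ (κ ^ 2) ^ 2 := by gcongr
    calc τ ^ 2 ≤ (κ ^ 2) ^ 2 := this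
      _ = κ ^ 4 := by ring
  have hL : (lh - lam) ^ 2 ≤ 2 * κ ^ 4 * lam ^ 2 + 2 * e ^ 2 := by
    have h2 : (lh - lam) ^ 2 ≤ (τ * lam + e) ^ 2 := by
      rw [← sq_abs (lh - lam)]
      gcongr
    have h3 : τ ^ 2 * lam ^ 2 ≤ κ ^ 4 * lam ^ 2 := by gcongr
    nlinarith [sq_nonneg (τ * lam - e)]
  have hM : (mh - m) ^ 2 ≤ 2 * κ ^ 4 * m ^ 2 + 2 * e ^ 2 := by
    have h2 : (mh - m) ^ 2 ≤ (τ * m + e) ^ 2 := by
      rw [← sq_abs (mh - m)]
      gcongr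
    have h3 : τ ^ 2 * m ^ 2 ≤ κ ^ 4 * m ^ 2 := by gcongr
    nlinarith [sq_nonneg (τ * m - e)]
  have hLM : (lh - mh) ^ 2 ≤ 3 * (lam - m) ^ 2 + 3 * (lh - lam) ^ 2 + 3 * (mh - m) ^ 2 := by
    nlinarith [sq_nonneg ((lh - lam) - (lam - m)), sq_nonneg ((lh - lam) + (mh - m)),
      sq_nonneg ((lam - m) + (mh - m))]
  have hCκ : 0 ≤ C / κ ^ 2 := by positivity
  have hκ2 : 0 < κ ^ 2 := by positivity
  -- put together
  have f1 : C / κ ^ 2 * (lh - mh) ^ 2 ≤ C / κ ^ 2 * (3 * (lam - m) ^ 2 +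
      3 * (2 * κ ^ 4 * lam ^ 2 + 2 * e ^ 2) + 3 * (2 * κ ^ 4 * m ^ 2 + 2 * e ^ 2)) := by
    apply mul_le_mul_of_nonneg_left _ hCκ
    linarith
  have f2 : C / κ ^ 2 * (3 * (lam - m) ^ 2 +
      3 * (2 * κ ^ 4 * lam ^ 2 + 2 * e ^ 2) + 3 * (2 * κ ^ 4 * m ^ 2 + 2 * e ^ 2)) =
      3 * (C / κ ^ 2) * (lam - m) ^ 2 + 6 * C * κ ^ 2 * (lam ^ 2 + m ^ 2) + 12 * (C / κ ^ 2) * e ^ 2 := by
    field_simp
    ring
  have f3 : κ ^ 4 ≤ κ ^ 2 := by
    have : κ ^ 4 = κ ^ 2 * κ ^ 2 := by ring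
    rw [this]
    have h4 : κ ^ 2 ≤ 1 := by
      calc κ ^ 2 ≤ 1 ^ 2 := by gcongr
        _ = 1 := one_pow 2
    exact mul_le_of_le_one_right (by positivity) h4
  have f4 : κ ^ 4 * m ^ 2 ≤ κ ^ 2 * m ^ 2 := by gcongr
  have f5 : (12 * C + 4) / (2 * κ ^ 2) * (lam - m) ^ 2 = 6 * (C / κ ^ 2) * (lam - m) ^ 2
      + 2 / κ ^ 2 * (lam - m) ^ 2 := by
    field_simp
    ring
  have f6 : 0 ≤ 2 / κ ^ 2 * (lam - m) ^ 2 := by positivity
  have f7 : 24 * C / κ ^ 2 = 24 * (C / κ ^ 2) := by ring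
  have f8 : 0 ≤ κ ^ 2 * lam ^ 2 := by positivity
  have f9 : 0 ≤ κ ^ 2 * m ^ 2 := by positivity
  rw [f5, f7]
  generalize C / κ ^ 2 = D at *
  generalize (lam - m) ^ 2 = P at *
  generalize (lh - mh) ^ 2 = Q at *
  generalize (mh - m) ^ 2 = R at *
  have g1 : (12 * C + 4) * κ ^ 2 * (lam ^ 2 + m ^ 2) = 12 * C * κ ^ 2 * (lam ^ 2 + m ^ 2) +
    4 * (κ ^ 2 * lam ^ 2) + 4 * (κ ^ 2 * m ^ 2) := by ring
  have g2 : 2 * κ ^ 4 * m ^ 2 = 2 * (κ ^ 4 * m ^ 2) := by ring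
  have g3 : (24 * D + 4) * e ^ 2 = 24 * (D * e ^ 2) + 4 * e ^ 2 := by ring
  have g4 : 12 * D * e ^ 2 = 12 * (D * e ^ 2) := by ring
  have g5 : 12 * C * κ ^ 2 * (lam ^ 2 + m ^ 2) = 2 * (6 * C * κ ^ 2 * (lam ^ 2 + m ^ 2)) := by ring
  have g6 : 6 * D * P = 2 * (3 * D * P) := by ring
  have g7 : 2 * t⁻¹ ^ 2 * η₁ = 2 * (t⁻¹ ^ 2 * η₁) := by ring
  rw [g1, g3, g5, g6]
  linarith

theorem numOut (C : ℝ) (hC : 0 < C) (hreg : RegW C) : NumOut C := by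
  intro X Y α _ _ _ lam mu hlam hmu κ η hκ hκ1 hη
  classical
  set A : ℝ := (Fintype.card α : ℝ) with hA
  have hA0 : 0 ≤ A := by rw [hA]; positivity
  set T : ℝ := 1 + ∑ x, ∑ i, lam x i + ∑ y, ∑ j, mu y j with hT
  have hlT : ∀ x i, lam x i ≤ T := by
    intro x i
    have a1 : lam x i ≤ ∑ i, lam x i :=
      Finset.single_le_sum (f := fun i => lam x i) (fun i _ => hlam x i) (Finset.mem_univ i)
    have a2 : ∑ i, lam x i ≤ ∑ x, ∑ i, lam x i :=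
      Finset.single_le_sum (f := fun x => ∑ i, lam x i)
        (fun x _ => Finset.sum_nonneg fun i _ => hlam x i) (Finset.mem_univ x)
    have a3 : 0 ≤ ∑ y, ∑ j, mu y j :=
      Finset.sum_nonneg fun y _ => Finset.sum_nonneg fun j _ => hmu y j
    linarith
  have hmT : ∀ y j, mu y j ≤ T := by
    intro y j
    have a1 : mu y j ≤ ∑ j, mu y j :=
      Finset.single_le_sum (f := fun i => mu y i) (fun i _ => hmu y i) (Finset.mem_univ j)
    have a2 : ∑ j, mu y j ≤ ∑ y, ∑ j, mu y j :=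
      Finset.single_le_sum (f := fun y => ∑ j, mu y j)
        (fun x _ => Finset.sum_nonneg fun i _ => hmu x i) (Finset.mem_univ y)
    have a3 : 0 ≤ ∑ x, ∑ i, lam x i :=
      Finset.sum_nonneg fun y _ => Finset.sum_nonneg fun j _ => hlam y j
    linarith
  have hT1 : 1 ≤ T := by
    have a3 : 0 ≤ ∑ x, ∑ i, lam x i :=
      Finset.sum_nonneg fun y _ => Finset.sum_nonneg fun j _ => hlam y j
    have a4 : 0 ≤ ∑ y, ∑ j, mu y j :=
      Finset.sum_nonneg fun y _ => Finset.sum_nonneg fun j _ => hmu y j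
    linarith
  have hT0 : 0 < T := by linarith
  set t : ℝ := T⁻¹ with ht
  have ht0 : 0 < t := inv_pos.2 hT0
  have htT : t⁻¹ = T := inv_inv T
  obtain ⟨τ, hτ0, hττ, hreg'⟩ := hreg κ hκ hκ1 (κ ^ 2) (by positivity)
  set η' : ℝ := min 1 (η * κ ^ 2 / (60 * (A + 1) * (C + 1) * T ^ 2)) with hη'
  have hη'0 : 0 < η' := lt_min one_pos (by positivity)
  have hη'1 : η' ≤ 1 := min_le_left _ _
  have hη'2 : η' * (60 * (A + 1) * (C + 1) * T ^ 2) ≤ η * κ ^ 2 := by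
    have := min_le_right 1 (η * κ ^ 2 / (60 * (A + 1) * (C + 1) * T ^ 2))
    rwa [← hη', le_div_iff₀ (by positivity)] at this
  set L : ℕ := ⌈-Real.log η' / τ⌉₊ with hL
  set η₁ : ℝ := η / (4 * (A + 1) * T ^ 2) with hη₁
  have hη₁0 : 0 < η₁ := by positivity
  have hη₁2 : T ^ 2 * η₁ * (4 * (A + 1)) = η := by
    rw [hη₁]; field_simp
  obtain ⟨n, h, h1, hR1, hR2, hR2'⟩ := hreg' L η₁ hη₁0
  have rl : ∀ z : ℝ, 0 ≤ z → z ≤ 1 → ∃ l : Fin (L + 1), Real.exp (-((l : ℕ) * τ)) ≤ z + η' ∧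
      |Real.exp (-((l : ℕ) * τ)) - z| ≤ τ * z + η' := by
    intro z hz hz1
    obtain ⟨l, hl, h2, h3⟩ := round_lemma τ η' z hτ0 hη'0 hη'1 hz hz1
    exact ⟨⟨l, Nat.lt_succ_of_le hl⟩, h2, h3⟩
  have sc : ∀ z : ℝ, 0 ≤ z → z ≤ T → 0 ≤ t * z ∧ t * z ≤ 1 := by
    intro z hz hz1
    refine ⟨by positivity, ?_⟩
    rw [ht, inv_mul_le_iff₀ hT0]; linarith
  choose lA hlA1 hlA2 using fun x i => rl (t * lam x i) (sc _ (hlam x i) (hlT x i)).1
    (sc _ (hlam x i) (hlT x i)).2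
  choose lB hlB1 hlB2 using fun y j => rl (t * mu y j) (sc _ (hmu y j) (hmT y j)).1
    (sc _ (hmu y j) (hmT y j)).2
  set e : ℝ := η' * T with he
  have he0 : 0 ≤ e := by positivity
  have heT : e ≤ T := by rw [he]; exact mul_le_of_le_one_left hT0.le hη'1
  have cv1 : ∀ (l : ℕ) (z : ℝ), Real.exp (-((l : ℕ) * τ)) ≤ t * z + η' →
      t⁻¹ * Real.exp (-((l : ℕ) * τ)) ≤ z + e := by
    intro l z hz
    rw [htT]
    have := mul_le_mul_of_nonneg_left hz hT0.le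
    have e2 : T * (t * z + η') = z + e := by
      rw [ht, he]; field_simp
    linarith
  have cv2 : ∀ (l : ℕ) (z : ℝ), |Real.exp (-((l : ℕ) * τ)) - t * z| ≤ τ * (t * z) + η' →
      |t⁻¹ * Real.exp (-((l : ℕ) * τ)) - z| ≤ τ * z + e := by
    intro l z hz
    have e1 : t⁻¹ * Real.exp (-((l : ℕ) * τ)) - z = T * (Real.exp (-((l : ℕ) * τ)) - t * z) := by
      rw [htT, mul_sub, ← mul_assoc T t z, ht, mul_inv_cancel₀ hT0.ne', one_mul]
    rw [e1, abs_mul, abs_of_pos hT0]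
    have := mul_le_mul_of_nonneg_left hz hT0.le
    have e2 : T * (τ * (t * z) + η') = τ * z + e := by
      rw [ht, he]; field_simp
    linarith
  -- key bound for the sums of squares
  have key : ∀ (f : α → ℝ) (l : α → Fin (L + 1)), (∀ i, 0 ≤ f i) → (∀ i, f i ≤ T) →
      (∀ i, t⁻¹ * Real.exp (-(((l i : ℕ) : ℝ) * τ)) ≤ f i + e) → ∀ (g : α → ℝ),
      (∀ i, g i ≤ (1 + C * κ) * Real.exp (-(2 * ((l i : ℕ) : ℝ) * τ)) + η₁) →
      t⁻¹ ^ 2 * ∑ i, g i ≤ (1 + (12 * C + 4) * κ) * ∑ i, f i ^ 2 + η := by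
    intro f l hf0 hfT hfl g hg
    have hi : ∀ i, t⁻¹ ^ 2 * g i ≤ (1 + C * κ) * (f i ^ 2 + 3 * T * e) + T ^ 2 * η₁ := by
      intro i
      have a1 : t⁻¹ ^ 2 * g i ≤ t⁻¹ ^ 2 * ((1 + C * κ) * Real.exp (-(2 * ((l i : ℕ) : ℝ) * τ)) + η₁) :=
        mul_le_mul_of_nonneg_left (hg i) (by positivity)
      have a2 : Real.exp (-(2 * ((l i : ℕ) : ℝ) * τ)) = Real.exp (-(((l i : ℕ) : ℝ) * τ)) ^ 2 := by
        rw [← Real.exp_nat_mul]; congr 1; push_cast; ring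
      have a3 : (t⁻¹ * Real.exp (-(((l i : ℕ) : ℝ) * τ))) ^ 2 ≤ (f i + e) ^ 2 := by
        have : 0 ≤ t⁻¹ * Real.exp (-(((l i : ℕ) : ℝ) * τ)) := by positivity
        gcongr
        exact hfl i
      have a4 : (f i + e) ^ 2 ≤ f i ^ 2 + 3 * T * e := by
        have p1 := mul_le_mul_of_nonneg_right (hfT i) he0
        have p2 := mul_le_mul_of_nonneg_right heT he0
        have p3 : (f i + e) ^ 2 = f i ^ 2 + 2 * (f i * e) + e * e := by ring
        have p4 : 3 * T * e = 3 * (T * e) := by ring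
        rw [p3, p4]
        linarith
      calc t⁻¹ ^ 2 * g i ≤ _ := a1
        _ = (1 + C * κ) * (t⁻¹ * Real.exp (-(((l i : ℕ) : ℝ) * τ))) ^ 2 + T ^ 2 * η₁ := by
            rw [a2, htT]; ring
        _ ≤ (1 + C * κ) * (f i ^ 2 + 3 * T * e) + T ^ 2 * η₁ := by
            have : 0 ≤ 1 + C * κ := by positivity
            gcongr
            exact a3.trans a4
    rw [Finset.mul_sum]
    refine (Finset.sum_le_sum fun i _ => hi i).trans ?_
    rw [Finset.sum_add_distrib, ← Finset.mul_sum, Finset.sum_add_distrib, Finset.sum_const,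
      Finset.sum_const, Finset.card_univ, nsmul_eq_mul, nsmul_eq_mul, ← hA]
    have b1 : 0 ≤ ∑ i, f i ^ 2 := Finset.sum_nonneg fun i _ => by positivity
    have b2 : A * (T ^ 2 * η₁) ≤ η / 4 := by
      have q1 : T ^ 2 * η₁ * (4 * (A + 1)) = 4 * (A * (T ^ 2 * η₁)) + 4 * (T ^ 2 * η₁) := by ring
      have q2 : 0 < T ^ 2 * η₁ := mul_pos (pow_pos hT0 2) hη₁0
      linarith
    have b3 : (1 + C * κ) * (A * (3 * T * e)) ≤ η / 2 := by
      have c1 : 1 + C * κ ≤ 1 + C := by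
        have := mul_le_of_le_one_right hC.le hκ1
        linarith
      have c2 : 0 ≤ A * (3 * T * e) := by positivity
      have c3 : (1 + C * κ) * (A * (3 * T * e)) ≤ (1 + C) * (A * (3 * T * e)) :=
        mul_le_mul_of_nonneg_right c1 c2
      have c4 : (1 + C) * (A * (3 * T * e)) = 3 * (A * (η' * ((C + 1) * T ^ 2))) := by
        rw [he]; ring
      have c5 : η * κ ^ 2 ≤ η := by
        have : κ ^ 2 ≤ 1 := by
          calc κ ^ 2 ≤ 1 ^ 2 := by gcongr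
            _ = 1 := one_pow 2
        exact mul_le_of_le_one_right hη.le this
      have c6 : 0 ≤ η' * ((C + 1) * T ^ 2) := by positivity
      have c7 : 60 * (A * (η' * ((C + 1) * T ^ 2))) + 60 * (η' * ((C + 1) * T ^ 2)) ≤ η := by
        have : η' * (60 * (A + 1) * (C + 1) * T ^ 2) =
          60 * (A * (η' * ((C + 1) * T ^ 2))) + 60 * (η' * ((C + 1) * T ^ 2)) := by ring
        linarith
      rw [c4] at c3
      linarith
    have b4 : C * κ * ∑ i, f i ^ 2 ≤ (12 * C + 4) * κ * ∑ i, f i ^ 2 := by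
      apply mul_le_mul_of_nonneg_right _ b1
      have q1 : (12 * C + 4) * κ = 12 * (C * κ) + 4 * κ := by ring
      have q2 : 0 ≤ C * κ := by positivity
      rw [q1]; linarith
    have b5 : (1 + C * κ) * (∑ i, f i ^ 2 + A * (3 * T * e)) =
      (∑ i, f i ^ 2 + C * κ * ∑ i, f i ^ 2) + (1 + C * κ) * (A * (3 * T * e)) := by ring
    rw [b5]
    linarith
  refine ⟨n, L, h, t, lA, lB, ht0, h1, ?_, ?_, ?_⟩
  · intro x
    exact key (lam x) (lA x) (hlam x) (hlT x) (fun i => cv1 _ _ (hlA1 x i)) _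
      (fun i => hR2 (lA x i) (Nat.lt_succ_iff.1 (lA x i).2))
  · intro y
    exact key (mu y) (lB y) (hmu y) (hmT y) (fun i => cv1 _ _ (hlB1 y i)) _
      (fun i => hR2' (lB y i) (Nat.lt_succ_iff.1 (lB y i).2))
  · intro x y O hO0 hOr hOc
    set R : ℝ := (24 * C / κ ^ 2 + 4) * e ^ 2 + 2 * t⁻¹ ^ 2 * η₁ with hR
    have pt : ∀ i j, O i j * ∑ s ∈ range n, ∑ u ∈ range n,
        (t⁻¹ * h (s + (lA x i : ℕ)) (u + (lB y j : ℕ)) - mu y j * h s u) ^ 2 ≤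
        O i j * ((12 * C + 4) / (2 * κ ^ 2) * (lam x i - mu y j) ^ 2 +
          (12 * C + 4) * κ ^ 2 * (lam x i ^ 2 + mu y j ^ 2) + R) := by
      intro i j
      apply mul_le_mul_of_nonneg_left _ (hO0 i j)
      exact num_diff C κ τ t η₁ e (lam x i) (mu y j) hC hκ hκ1 hτ0 hττ ht0 n (lA x i) (lB y j) h h1
        (hR1 _ _ (Nat.lt_succ_iff.1 (lA x i).2) (Nat.lt_succ_iff.1 (lB y j).2))
        (cv2 _ _ (hlA2 x i)) (cv2 _ _ (hlB2 y j)) (hlam x i) (hmu y j) he0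
    refine (Finset.sum_le_sum fun i _ => Finset.sum_le_sum fun j _ => pt i j).trans ?_
    have s1 : ∑ i, ∑ j, O i j * ((12 * C + 4) / (2 * κ ^ 2) * (lam x i - mu y j) ^ 2 +
          (12 * C + 4) * κ ^ 2 * (lam x i ^ 2 + mu y j ^ 2) + R) =
        (12 * C + 4) / (2 * κ ^ 2) * ∑ i, ∑ j, O i j * (lam x i - mu y j) ^ 2 +
        (12 * C + 4) * κ ^ 2 * (∑ i, ∑ j, O i j * lam x i ^ 2 + ∑ i, ∑ j, O i j * mu y j ^ 2) +
        R * ∑ i, ∑ j, O i j := by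
      simp only [Finset.mul_sum, ← Finset.sum_add_distrib]
      refine Finset.sum_congr rfl fun i _ => Finset.sum_congr rfl fun j _ => ?_
      ring
    have s2 : ∑ i, ∑ j, O i j * lam x i ^ 2 = ∑ i, lam x i ^ 2 := by
      refine Finset.sum_congr rfl fun i _ => ?_
      rw [← Finset.sum_mul, hOr i, one_mul]
    have s3 : ∑ i, ∑ j, O i j * mu y j ^ 2 = ∑ j, mu y j ^ 2 := by
      rw [Finset.sum_comm]
      refine Finset.sum_congr rfl fun i _ => ?_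
      rw [← Finset.sum_mul, hOc i, one_mul]
    have s4 : ∑ i, ∑ j, O i j = A := by
      simp [hOr, hA]
    rw [s1, s2, s3, s4]
    have hRb : R * A ≤ η := by
      have d1 : 2 * t⁻¹ ^ 2 * η₁ * A ≤ η / 2 := by
        rw [htT]
        have q1 : T ^ 2 * η₁ * (4 * (A + 1)) = 4 * (A * (T ^ 2 * η₁)) + 4 * (T ^ 2 * η₁) := by ring
        have q2 : 0 < T ^ 2 * η₁ := mul_pos (pow_pos hT0 2) hη₁0
        have q3 : 2 * T ^ 2 * η₁ * A = 2 * (A * (T ^ 2 * η₁)) := by ring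
        rw [q3]
        linarith
      have hκ2 : 0 < κ ^ 2 := by positivity
      have hk1 : κ ^ 2 ≤ 1 := by
        calc κ ^ 2 ≤ 1 ^ 2 := by gcongr
          _ = 1 := one_pow 2
      have d2 : (24 * C / κ ^ 2 + 4) ≤ 28 * (C + 1) / κ ^ 2 := by
        rw [le_div_iff₀ hκ2, add_mul, div_mul_cancel₀ _ hκ2.ne']
        linarith
      have d3 : e ^ 2 ≤ η' * T ^ 2 := by
        rw [he, mul_pow]
        have : η' ^ 2 ≤ η' := by
          rw [pow_two]; exact mul_le_of_le_one_right hη'0.le hη'1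
        gcongr
      have d4 : (24 * C / κ ^ 2 + 4) * e ^ 2 * A ≤ 28 * (C + 1) / κ ^ 2 * (η' * T ^ 2) * A := by
        gcongr
      have d5 : 28 * (C + 1) / κ ^ 2 * (η' * T ^ 2) * A ≤ η / 2 := by
        have c6 : 0 ≤ η' * ((C + 1) * T ^ 2) := by positivity
        have c7 : 60 * (A * (η' * ((C + 1) * T ^ 2))) + 60 * (η' * ((C + 1) * T ^ 2)) ≤ η * κ ^ 2 := by
          have : η' * (60 * (A + 1) * (C + 1) * T ^ 2) =
            60 * (A * (η' * ((C + 1) * T ^ 2))) + 60 * (η' * ((C + 1) * T ^ 2)) := by ring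
          linarith
        have c8 : 28 * (C + 1) / κ ^ 2 * (η' * T ^ 2) * A =
            28 * (A * (η' * ((C + 1) * T ^ 2))) / κ ^ 2 := by ring
        rw [c8, div_le_iff₀ hκ2]
        have c9 : η / 2 * κ ^ 2 = η * κ ^ 2 / 2 := by ring
        have c10 : 0 ≤ A * (η' * ((C + 1) * T ^ 2)) := mul_nonneg hA0 c6
        rw [c9]
        linarith
      rw [hR, add_mul]
      linarith
    linarith

end Crest.H7Csx
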