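import Mathlib
import Crest.Agent.H7PRCsxConn
import Crest.Agent.H7PRCsxNum

/-!
rid 342 (S0536): the correlated-sampling theorem (module CSX, helper7).
-/

set_option autoImplicit false

namespace Crest.H7Csx

theorem csxOut : ∃ C : ℝ, 0 < C ∧ CSXOut C := by
  obtain ⟨C, hC, hreg⟩ := regW
  exact ⟨12 * C + 4, by positivity, csx C hC (numOut C hC hreg) connOut⟩

end Crest.H7Csx
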