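import Mathlib
import Crest.Prelude.Def_ModularData
import Crest.Agent.H7Modular

set_option autoImplicit false

namespace Crest.Agent.H7Smooth

open Filter MeasureTheory Crest.OpAlg Crest.Agent.H7Modular
open scoped Topology BoundedContinuousFunction InnerProductSpace ComplexConjugate FourierTransform
open Real (pi)

variable {H : Type*} [NormedAddCommGroup H] [InnerProductSpace ℂ H] [CompleteSpace H]

/-- the standard bump: `1` on `[-1,1]`, `0` off `(-2,2)` -/
noncomputable def bump0 : ContDiffBump (0 : ℝ) := ⟨1, 2, one_pos, one_lt_two⟩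

theorem bump0_one {u : ℝ} (h : |u| ≤ 1) : bump0 u = 1 := by
  apply bump0.one_of_mem_closedBall
  rw [mem_closedBall_zero_iff]; exact h

theorem bump0_zero {u : ℝ} (h : 2 ≤ |u|) : bump0 u = 0 := by
  apply bump0.zero_of_le_dist
  rw [dist_zero_right]; exact h

theorem bump0_continuous : Continuous (fun u : ℝ => bump0 u) := bump0.continuous

/-- Schwartz version -/
noncomputable def bumpS : SchwartzMap ℝ ℂ :=
  HasCompactSupport.toSchwartzMap (f := fun u : ℝ => ((bump0 u : ℝ) : ℂ))
    (bump0.hasCompactSupport.comp_left (g := fun r : ℝ => (r : ℂ)) (by simp))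
    (Complex.ofRealCLM.contDiff.comp bump0.contDiff)

@[simp] theorem bumpS_apply (u : ℝ) : bumpS u = ((bump0 u : ℝ) : ℂ) := rfl

/-- its inverse Fourier transform -/
noncomputable def ker : SchwartzMap ℝ ℂ := 𝓕⁻ bumpS

theorem bump_eq (u : ℝ) : ((bump0 u : ℝ) : ℂ)
    = ∫ v : ℝ, Complex.exp (((-2 * Real.pi * v * u : ℝ) : ℂ) * Complex.I) * ker v := by
  have h1 : 𝓕 ker = bumpS := FourierTransform.fourier_fourierInv_eq bumpS
  have h2 : (𝓕 ker : SchwartzMap ℝ ℂ) u = 𝓕 (ker : ℝ → ℂ) u := by
    rw [← SchwartzMap.fourier_coe]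
  rw [h1, bumpS_apply, Real.fourier_real_eq_integral_exp_smul] at h2
  rw [h2]
  simp only [smul_eq_mul]

/-- the kernel mass -/
noncomputable def kerMass : ℝ := ∫ v : ℝ, ‖ker v‖

theorem kerMass_nonneg : 0 ≤ kerMass := integral_nonneg (fun _ => norm_nonneg _)

theorem ker_integrable : Integrable (fun v : ℝ => ker v) := ker.integrable

/-- modulated kernel -/
noncomputable def kap (s δ t : ℝ) : ℂ := ker t * Complex.exp (((2 * Real.pi * t * s / δ : ℝ) : ℂ) * Complex.I)

theorem norm_kap (s δ t : ℝ) : ‖kap s δ t‖ = ‖ker t‖ := by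
  rw [kap, norm_mul, Complex.norm_exp_ofReal_mul_I, mul_one]

theorem kap_continuous (s δ : ℝ) : Continuous (kap s δ) := by
  unfold kap
  have : Continuous (fun t : ℝ => ker t) := ker.continuous
  fun_prop

theorem kap_integrable (s δ : ℝ) : Integrable (kap s δ) := by
  apply Integrable.mono ker_integrable (kap_continuous s δ).aestronglyMeasurable
  filter_upwards with t
  rw [norm_kap]

theorem integral_norm_kap (s δ : ℝ) : ∫ t, ‖kap s δ t‖ = kerMass := by
  simp_rw [norm_kap]; rfl

/-- the smooth spectral cut-off around `s` of width `δ`. -/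
noncomputable def bumpF (s δ : ℝ) : ℝ →ᵇ ℂ :=
  BoundedContinuousFunction.ofNormedAddCommGroup (fun u : ℝ => ((bump0 ((u - s) / δ) : ℝ) : ℂ))
    (Complex.continuous_ofReal.comp (bump0_continuous.comp (by fun_prop))) 1
    (fun u => by
      rw [Complex.norm_real, Real.norm_of_nonneg bump0.nonneg]
      exact bump0.le_one)

@[simp] theorem bumpF_apply (s δ u : ℝ) : bumpF s δ u = ((bump0 ((u - s) / δ) : ℝ) : ℂ) := rfl

theorem bumpF_norm_le (s δ : ℝ) : ‖bumpF s δ‖ ≤ 1 :=
  BoundedContinuousFunction.norm_ofNormedAddCommGroup_le _ zero_le_one _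

theorem bumpF_one {s δ u : ℝ} (hδ : 0 < δ) (h : u ∈ Set.Icc (s - δ) (s + δ)) :
    bumpF s δ u = 1 := by
  rw [bumpF_apply, bump0_one]; · simp
  rw [abs_div, abs_of_pos hδ, div_le_one hδ, abs_le]
  constructor <;> linarith [h.1, h.2]

theorem bumpF_zero {s δ u : ℝ} (hδ : 0 < δ) (h : 2 * δ ≤ |u - s|) :
    bumpF s δ u = 0 := by
  rw [bumpF_apply, bump0_zero]; · simp
  rw [abs_div, abs_of_pos hδ, le_div_iff₀ hδ]
  exact h

theorem bumpF_eq (s δ u : ℝ) : bumpF s δ u
    = ∫ t : ℝ, kap s δ t * LineCalculus.character (-(2 * Real.pi * t / δ)) u := by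
  rw [bumpF_apply, bump_eq]
  congr 1
  funext t
  rw [kap, character_apply, mul_assoc (ker t), ← Complex.exp_add, mul_comm]
  congr 2
  push_cast
  ring

/-- `f ↦ f(D) z` as a continuous linear map. -/
noncomputable def applyCLM (D : LineCalculus H) (z : H) : (ℝ →ᵇ ℂ) →L[ℂ] H :=
  LinearMap.mkContinuous
    { toFun := fun f => D.apply f z
      map_add' := fun f g => by rw [map_add]; rfl
      map_smul' := fun c f => by rw [map_smul]; rfl } ‖z‖
    (fun f => by
      rw [mul_comm]; exact apply_apply_norm_le D f z)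

@[simp] theorem applyCLM_apply (D : LineCalculus H) (z : H) (f : ℝ →ᵇ ℂ) :
    applyCLM D z f = D.apply f z := rfl

theorem integrable_kap_wave (D : LineCalculus H) (s δ : ℝ) (x : H) :
    Integrable (fun t : ℝ => kap s δ t • D.wave (-(2 * Real.pi * t / δ)) x) := by
  have hc : Continuous (fun t : ℝ => kap s δ t • D.wave (-(2 * Real.pi * t / δ)) x) :=
    (kap_continuous s δ).smul ((continuous_wave D x).comp (by fun_prop))
  apply Integrable.mono' ((kap_integrable s δ).norm.mul_const ‖x‖) hc.aestronglyMeasurable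
  filter_upwards with t
  rw [norm_smul, norm_wave]


theorem integrable_kap_char (s δ R : ℝ) (hR : 0 ≤ R) :
    Integrable (fun t : ℝ => kap s δ t •
      (LineCalculus.character (-(2 * Real.pi * t / δ)) * cut R)) := by
  have hc : Continuous (fun t : ℝ => kap s δ t •
      (LineCalculus.character (-(2 * Real.pi * t / δ)) * cut R)) :=
    (kap_continuous s δ).smul ((continuous_character_mul_cut R hR).comp
      (by fun_prop : Continuous fun t : ℝ => -(2 * Real.pi * t / δ)))
  apply Integrable.mono' ((kap_integrable s δ).norm) hc.aestronglyMeasurable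
  filter_upwards with t
  rw [norm_smul]
  have h1 : ‖LineCalculus.character (-(2 * Real.pi * t / δ)) * cut R‖ ≤ 1 := by
    calc _ ≤ ‖LineCalculus.character (-(2 * Real.pi * t / δ))‖ * ‖cut R‖ := norm_mul_le _ _
      _ ≤ 1 * 1 := by
        gcongr
        · exact BoundedContinuousFunction.norm_ofNormedAddCommGroup_le _ zero_le_one _
        · exact cut_norm_le R
      _ = 1 := one_mul 1
  calc _ ≤ ‖kap s δ t‖ * 1 := by gcongr
    _ = _ := mul_one _

theorem bumpF_mul_cut (s δ R : ℝ) (hR : 0 ≤ R) :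
    bumpF s δ * cut R = ∫ t : ℝ, kap s δ t •
      (LineCalculus.character (-(2 * Real.pi * t / δ)) * cut R) := by
  ext u
  have h1 := (BoundedContinuousFunction.evalCLM ℂ u).integral_comp_comm
    (integrable_kap_char s δ R hR)
  simp only [BoundedContinuousFunction.evalCLM_apply] at h1
  rw [← h1]
  simp only [BoundedContinuousFunction.coe_mul, Pi.mul_apply, BoundedContinuousFunction.coe_smul,
    smul_eq_mul, ← mul_assoc]
  rw [integral_mul_const, bumpF_eq]

theorem bumpF_cut_vec (D : LineCalculus H) (s δ R : ℝ) (hR : 0 ≤ R) (z : H) :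
    D.apply (bumpF s δ) (D.apply (cut R) z) = ∫ t : ℝ, kap s δ t •
      D.wave (-(2 * Real.pi * t / δ)) (D.apply (cut R) z) := by
  rw [apply_mul_apply, bumpF_mul_cut s δ R hR]
  have h1 := (applyCLM D z).integral_comp_comm (integrable_kap_char s δ R hR)
  simp only [applyCLM_apply] at h1
  rw [← h1]
  congr 1
  funext t
  rw [map_smul, LineCalculus.wave, apply_mul_apply]
  rfl

theorem norm_integral_kap_le (D : LineCalculus H) (s δ : ℝ) (x : H) :
    ‖∫ t : ℝ, kap s δ t • D.wave (-(2 * Real.pi * t / δ)) x‖ ≤ kerMass * ‖x‖ := by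
  calc _ ≤ ∫ t : ℝ, ‖kap s δ t • D.wave (-(2 * Real.pi * t / δ)) x‖ :=
        norm_integral_le_integral_norm _
    _ = ∫ t : ℝ, ‖kap s δ t‖ * ‖x‖ := by
        congr 1; funext t; rw [norm_smul, norm_wave]
    _ = _ := by rw [integral_mul_const, integral_norm_kap]

theorem bumpF_vec (D : LineCalculus H) (s δ : ℝ) (x : H) :
    D.apply (bumpF s δ) x = ∫ t : ℝ, kap s δ t • D.wave (-(2 * Real.pi * t / δ)) x := by
  rw [← sub_eq_zero, ← norm_le_zero_iff]
  apply le_of_forall_pos_le_add
  intro ε hε
  have hK := kerMass_nonneg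
  obtain ⟨R, hR0, hR⟩ := window_cut D x (ε := ε / (1 + kerMass)) (by positivity)
  set y := D.apply (cut R) x with hy
  have h1 : D.apply (bumpF s δ) x - ∫ t : ℝ, kap s δ t • D.wave (-(2 * Real.pi * t / δ)) x
      = D.apply (bumpF s δ) (x - y) - ∫ t : ℝ, kap s δ t • D.wave (-(2 * Real.pi * t / δ)) (x - y) := by
    have h2 : ∫ t : ℝ, kap s δ t • D.wave (-(2 * Real.pi * t / δ)) (x - y)
        = (∫ t : ℝ, kap s δ t • D.wave (-(2 * Real.pi * t / δ)) x)
          - ∫ t : ℝ, kap s δ t • D.wave (-(2 * Real.pi * t / δ)) y := by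
      rw [← integral_sub (integrable_kap_wave D s δ x) (integrable_kap_wave D s δ y)]
      congr 1; funext t; rw [map_sub, smul_sub]
    rw [h2, map_sub, hy, bumpF_cut_vec D s δ R hR0 x]
    abel
  rw [h1, zero_add]
  calc _ ≤ ‖D.apply (bumpF s δ) (x - y)‖
        + ‖∫ t : ℝ, kap s δ t • D.wave (-(2 * Real.pi * t / δ)) (x - y)‖ := norm_sub_le _ _
    _ ≤ 1 * ‖x - y‖ + kerMass * ‖x - y‖ := by
        gcongr
        · exact (apply_apply_norm_le D _ _).trans
            (mul_le_mul_of_nonneg_right (bumpF_norm_le _ _) (norm_nonneg _))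
        · exact norm_integral_kap_le D s δ (x - y)
    _ = (1 + kerMass) * ‖x - y‖ := by ring
    _ ≤ (1 + kerMass) * (ε / (1 + kerMass)) := by
        gcongr
        rw [norm_sub_rev]; exact hR.le
    _ = ε := by field_simp

/-- the smoothing functional. -/
noncomputable def smoothFun (s δ : ℝ) : (ℝ →ᵇ ℂ) →L[ℂ] ℂ :=
  LinearMap.mkContinuous
    { toFun := fun F => ∫ t : ℝ, (starRingEnd ℂ) (kap s δ t) * F (-(2 * Real.pi * t / δ))
      map_add' := fun F G => by
        have hi : ∀ F : ℝ →ᵇ ℂ, Integrable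
            (fun t : ℝ => (starRingEnd ℂ) (kap s δ t) * F (-(2 * Real.pi * t / δ))) := by
          intro F
          have hc : Continuous
            (fun t : ℝ => (starRingEnd ℂ) (kap s δ t) * F (-(2 * Real.pi * t / δ))) :=
            (Complex.continuous_conj.comp (kap_continuous s δ)).mul
              (F.continuous.comp (by fun_prop))
          apply Integrable.mono' ((kap_integrable s δ).norm.mul_const ‖F‖) hc.aestronglyMeasurable
          filter_upwards with t
          rw [norm_mul, RCLike.norm_conj]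
          gcongr
          exact F.norm_coe_le_norm _
        rw [← integral_add (hi F) (hi G)]
        congr 1; funext t; simp [mul_add]
      map_smul' := fun c F => by
        simp only [RingHom.id_apply, smul_eq_mul]
        rw [← integral_const_mul]
        congr 1; funext t; simp; ring }
    kerMass
    (fun F => by
      calc _ ≤ ∫ t : ℝ, ‖(starRingEnd ℂ) (kap s δ t) * F (-(2 * Real.pi * t / δ))‖ :=
            norm_integral_le_integral_norm _
        _ ≤ ∫ t : ℝ, ‖kap s δ t‖ * ‖F‖ := by
          apply integral_mono_of_nonneg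
          · filter_upwards with t; exact norm_nonneg _
          · exact (kap_integrable s δ).norm.mul_const _
          · filter_upwards with t
            rw [norm_mul, RCLike.norm_conj]
            gcongr
            exact F.norm_coe_le_norm _
        _ = _ := by rw [integral_mul_const, integral_norm_kap])

theorem smoothFun_apply (s δ : ℝ) (F : ℝ →ᵇ ℂ) :
    smoothFun s δ F = ∫ t : ℝ, (starRingEnd ℂ) (kap s δ t) * F (-(2 * Real.pi * t / δ)) := rfl

theorem norm_smoothFun_le (s δ : ℝ) : ‖smoothFun s δ‖ ≤ kerMass :=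
  LinearMap.mkContinuous_norm_le _ kerMass_nonneg _

variable (S : ModularDatum H)

/-- The smoothing lemma. -/
theorem exists_smooth (s δ : ℝ) {a : H →L[ℂ] H} (ha : a ∈ S.M) :
    ∃ b : H →L[ℂ] H, b ∈ S.M ∧ ‖b‖ ≤ kerMass * ‖a‖ ∧
      b S.vac = S.D.apply (bumpF s δ) (a S.vac) := by
  refine ⟨avgOp S.D (smoothFun s δ) a, avgOp_mem S _ ha, ?_, ?_⟩
  · exact (norm_avgOp_le _ _ _).trans
      (mul_le_mul_of_nonneg_right (norm_smoothFun_le s δ) (norm_nonneg _))
  · apply ext_inner_right ℂ
    intro w
    rw [inner_avgOp, smoothFun_apply, bumpF_vec, ← inner_conj_symm,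
      ← integral_inner (integrable_kap_wave S.D s δ (a S.vac)), ← integral_conj]
    congr 1
    funext t
    rw [coef_apply, flow_apply, wave_vac, inner_smul_right, map_mul, inner_conj_symm]

end Crest.Agent.H7Smooth
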