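import Mathlib
import Crest.Prelude.Def_ModularData
import Crest.Agent.H7Modular
import Crest.Agent.H7Mean
import Crest.Agent.H7Smooth
import Crest.Agent.H7Moment

set_option autoImplicit false

namespace Crest.Agent.H7Recover

open Filter MeasureTheory Crest.OpAlg Crest.Agent.H7Modular Crest.Agent.H7Mean
open Crest.Agent.H7Smooth Crest.Agent.H7Moment
open scoped Topology BoundedContinuousFunction InnerProductSpace ComplexConjugate

variable {H : Type*} [NormedAddCommGroup H] [InnerProductSpace ℂ H] [CompleteSpace H]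
variable (S : ModularDatum H)

/-- truncation of an element of `M`. -/
theorem exists_trunc {y : H →L[ℂ] H} (hy : y ∈ S.M) {R : ℝ} (hR : 0 < R) :
    ∃ z : H →L[ℂ] H, z ∈ S.M ∧ ‖z‖ ≤ Real.sqrt (R / 2) ∧
      ‖(y - z) S.vac‖ ^ 2 ≤ m4 S y / (2 * R) := by
  set P : H →L[ℂ] H := star y * y with hP
  have hU : IsUnit ((R : ℂ) • (1 : H →L[ℂ] H) + P) := by
    have h1 : (-R) ∉ spectrum ℝ (star y * y) := fun h => by
      have := spectrum_star_mul_self_nonneg _ h
      linarith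
    rw [spectrum.mem_iff, not_not] at h1
    have h2 := h1.neg
    have h3 : -((algebraMap ℝ (H →L[ℂ] H)) (-R) - star y * y)
        = (R : ℂ) • (1 : H →L[ℂ] H) + P := by
      rw [Algebra.algebraMap_eq_smul_one, neg_smul, hP]
      have : (R : ℝ) • (1 : H →L[ℂ] H) = (R : ℂ) • (1 : H →L[ℂ] H) := by
        ext x; simp
      rw [this]; abel
    rwa [h3] at h2
  obtain ⟨u, hu⟩ := hU
  set B : H →L[ℂ] H := ((u⁻¹ : (H →L[ℂ] H)ˣ) : H →L[ℂ] H) with hB
  have huB : ((R : ℂ) • (1 : H →L[ℂ] H) + P) * B = 1 := by rw [← hu, hB]; simp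
  have hBu : B * ((R : ℂ) • (1 : H →L[ℂ] H) + P) = 1 := by rw [← hu, hB]; simp
  have hPM : P ∈ S.M := mul_mem (star_mem hy) hy
  have h1M : (R : ℂ) • (1 : H →L[ℂ] H) ∈ S.M := by
    show (R : ℂ) • (1 : H →L[ℂ] H) ∈ S.M.toStarSubalgebra
    exact SMulMemClass.smul_mem _ (one_mem _)
  have hBM : B ∈ S.M := by
    have key : B ∈ S.M.commutant.commutant := by
      rw [VonNeumannAlgebra.mem_commutant_iff]
      intro c hc
      have hcomm : Commute c (u : H →L[ℂ] H) := by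
        rw [hu]
        exact ((VonNeumannAlgebra.mem_commutant_iff.mp hc) _ (add_mem h1M hPM)).symm
      exact hcomm.units_inv_right.eq
    rwa [VonNeumannAlgebra.commutant_commutant] at key
  -- the basic estimate
  have hest : ∀ x : H, ‖y (B x)‖ ^ 2 * (2 * R) ≤ ‖x‖ ^ 2 := by
    intro x
    have e1 : x = (R : ℂ) • B x + P (B x) := by
      have := congrArg (fun A : H →L[ℂ] H => A x) huB
      simp only [mul_apply_eq_comp, one_apply_eq_self] at this
      exact this.symm.trans (by simp)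
    have e2 : ‖x‖ ^ 2 = ‖(R : ℂ) • B x‖ ^ 2 + 2 * (⟪(R : ℂ) • B x, P (B x)⟫_ℂ).re
        + ‖P (B x)‖ ^ 2 := by
      conv_lhs => rw [e1]
      rw [@norm_add_sq ℂ]
      rfl
    have e3 : (⟪(R : ℂ) • B x, P (B x)⟫_ℂ).re = R * ‖y (B x)‖ ^ 2 := by
      rw [inner_smul_left, Complex.conj_ofReal, ← inner_conj_symm, hP, inner_star_mul_self,
        Complex.conj_ofReal, ← Complex.ofReal_mul, Complex.ofReal_re]
    rw [e2, e3]
    nlinarith [sq_nonneg ‖(R : ℂ) • B x‖, sq_nonneg ‖P (B x)‖]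
  set z : H →L[ℂ] H := (R : ℂ) • (y * B) with hz
  have hzM : z ∈ S.M := by
    show (R : ℂ) • (y * B) ∈ S.M.toStarSubalgebra
    exact SMulMemClass.smul_mem _ (mul_mem hy hBM)
  have hznorm : ∀ x : H, ‖z x‖ ^ 2 ≤ (R / 2) * ‖x‖ ^ 2 := by
    intro x
    have e : ‖z x‖ = R * ‖y (B x)‖ := by
      show ‖(R : ℂ) • y (B x)‖ = _
      rw [norm_smul, Complex.norm_real, Real.norm_of_nonneg hR.le]
    rw [e, mul_pow]
    have := hest x
    nlinarith
  refine ⟨z, hzM, ?_, ?_⟩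
  · apply ContinuousLinearMap.opNorm_le_bound _ (Real.sqrt_nonneg _)
    intro x
    apply le_of_sq_le_sq _ (by positivity)
    rw [mul_pow, Real.sq_sqrt (by positivity)]
    exact hznorm x
  · have e : (y - z) S.vac = ((R : ℂ)⁻¹) • z (P S.vac) := by
      have h1 : S.vac = B ((R : ℂ) • S.vac + P S.vac) := by
        have := congrArg (fun A : H →L[ℂ] H => A S.vac) hBu
        simp only [mul_apply_eq_comp, one_apply_eq_self] at this
        exact this.symm.trans (by simp)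
      have h2 : y S.vac = (R : ℂ) • y (B S.vac) + y (B (P S.vac)) := by
        conv_lhs => rw [h1]
        simp only [map_add, map_smul]
      have h3 : (y - z) S.vac = y S.vac - (R : ℂ) • y (B S.vac) := rfl
      have h4 : z (P S.vac) = (R : ℂ) • y (B (P S.vac)) := rfl
      have hR' : (R : ℂ) ≠ 0 := by exact_mod_cast hR.ne'
      rw [h3, h2, h4, smul_smul, inv_mul_cancel₀ hR', one_smul]
      abel
    rw [e, norm_smul, norm_inv, Complex.norm_real, Real.norm_of_nonneg hR.le, mul_pow]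
    have h1 := hznorm (P S.vac)
    have h2 : m4 S y = ‖P S.vac‖ ^ 2 := rfl
    rw [h2, le_div_iff₀ (by positivity)]
    have h3 : (R⁻¹) ^ 2 * ‖z (P S.vac)‖ ^ 2 * (2 * R) ≤ (R⁻¹) ^ 2 * ((R / 2) * ‖P S.vac‖ ^ 2) * (2 * R) := by
      gcongr
    calc _ ≤ _ := h3
      _ = ‖P S.vac‖ ^ 2 := by field_simp

/-- the set of algebra elements whose vacuum vector is supported in `K` -/
def Good (K : Set ℝ) (y : H →L[ℂ] H) : Prop := y ∈ S.M ∧ S.D.SupportedIn K (y S.vac)

theorem good_zero (K : Set ℝ) : Good S K 0 := by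
  refine ⟨zero_mem _, fun f _ => by simp⟩

theorem supported_wave {K : Set ℝ} {x : H} (h : S.D.SupportedIn K x) (t : ℝ) :
    S.D.SupportedIn K (S.D.wave t x) := by
  intro f hf
  rw [← wave_apply_comm, h f hf, map_zero]

theorem good_flow {K : Set ℝ} {y : H →L[ℂ] H} (h : Good S K y) (t : ℝ) :
    Good S K (flow S.D t y) := by
  refine ⟨flow_mem S t h.1, ?_⟩
  rw [flow_apply, wave_vac]
  exact supported_wave S h.2 t

theorem good_add {K : Set ℝ} {y x : H →L[ℂ] H} (hy : Good S K y) (hx : Good S K x) (c : ℂ) :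
    Good S K (y + c • x) := by
  refine ⟨?_, ?_⟩
  · have : c • x ∈ S.M := by
      show c • x ∈ S.M.toStarSubalgebra
      exact SMulMemClass.smul_mem _ hx.1
    exact add_mem hy.1 this
  · intro f hf
    have h1 := hy.2 f hf
    have h2 := hx.2 f hf
    show S.D.apply f (y S.vac + c • x S.vac) = 0
    rw [map_add, map_smul, h1, h2]; simp

theorem bump_fix {s δ : ℝ} (hδ : 0 < δ) {x : H}
    (h : S.D.SupportedIn (Set.Icc (s - δ) (s + δ)) x) : S.D.apply (bumpF s δ) x = x := by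
  have h1 := h (1 - bumpF s δ) (fun u hu => by
    simp only [BoundedContinuousFunction.coe_sub, Pi.sub_apply, BoundedContinuousFunction.coe_one,
      Pi.one_apply]
    rw [bumpF_one hδ hu]; simp)
  rw [map_sub, map_one] at h1
  have h2 : x - S.D.apply (bumpF s δ) x = 0 := h1
  exact (sub_eq_zero.mp h2).symm

theorem bump_supported {s δ : ℝ} (hδ : 0 < δ) (x : H) :
    S.D.SupportedIn (Set.Icc (s - 2 * δ) (s + 2 * δ)) (S.D.apply (bumpF s δ) x) := by
  intro f hf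
  rw [apply_mul_apply]
  have : f * bumpF s δ = 0 := by
    ext u
    simp only [BoundedContinuousFunction.coe_mul, Pi.mul_apply, BoundedContinuousFunction.coe_zero,
      Pi.zero_apply]
    by_cases hu : u ∈ Set.Icc (s - 2 * δ) (s + 2 * δ)
    · rw [hf u hu, zero_mul]
    · rw [bumpF_zero hδ, mul_zero]
      by_contra hcon
      push Not at hcon
      apply hu
      rw [abs_lt] at hcon
      constructor <;> linarith [hcon.1, hcon.2]
  rw [this, map_zero]; rfl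

/-- the key one-step recovery with explicit constants. -/
theorem key (herg : S.Ergodic) {ω : Ultrafilter ℕ} (hω : (ω : Filter ℕ) ≤ atTop)
    (T : H →L[ℂ] H) (s : ℝ) {c : ℝ} (hc : 0 < c) :
    ∃ C η : ℝ, 0 < η ∧ ∀ (δ : ℝ) (h : H), 0 < δ → δ ≤ 1 → ‖h‖ = 1 →
      S.D.SupportedIn (Set.Icc (s - δ) (s + δ)) h → c ≤ q S ω T h →
      ∃ v : H →L[ℂ] H, v ∈ S.M ∧ ‖v‖ ≤ C ∧ η ≤ ‖T (v S.vac)‖ ∧
        S.D.SupportedIn (Set.Icc (s - 4 * δ) (s + 4 * δ)) (v S.vac) := by
  set E : ℝ := Real.exp (s + 2) with hE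
  have hE0 : 0 < E := Real.exp_pos _
  set K0 : ℝ := 16 + 16 * E with hK0
  have hK00 : 0 < K0 := by positivity
  set l : ℝ := 4 * (K0 + 3) / c with hl
  have hl0 : 0 < l := by positivity
  set R : ℝ := 2 * l * (‖T‖ ^ 2 + 1) with hR
  have hR0 : 0 < R := by positivity
  refine ⟨kerMass * Real.sqrt (R / 2), Real.sqrt (1 / (8 * l)), by positivity, ?_⟩
  intro δ h hδ hδ1 hh hband hq
  -- approximate h
  set ε : ℝ := min 1 (Real.sqrt (c / (4 * (‖T‖ ^ 2 + 1)))) with hε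
  have hε0 : 0 < ε := lt_min one_pos (by positivity)
  obtain ⟨_, ha0, ⟨a0, rfl⟩⟩ := Metric.dense_iff.mp S.cyclic h ε hε0
  rw [Metric.mem_ball, dist_eq_norm] at ha0
  obtain ⟨a, haM, _, ha⟩ := exists_smooth S s δ a0.2
  have hah : ‖a S.vac - h‖ ≤ ε := by
    have e1 : a S.vac - h = S.D.apply (bumpF s δ) ((a0 : H →L[ℂ] H) S.vac - h) := by
      rw [map_sub, ← ha, bump_fix S hδ hband]
    rw [e1]
    calc _ ≤ ‖bumpF s δ‖ * ‖(a0 : H →L[ℂ] H) S.vac - h‖ := apply_apply_norm_le _ _ _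
      _ ≤ 1 * ε := by
        gcongr
        exact bumpF_norm_le _ _
      _ = ε := one_mul _
  have hasup : S.D.SupportedIn (Set.Icc (s - 2 * δ) (s + 2 * δ)) (a S.vac) := by
    rw [ha]; exact bump_supported S hδ _
  have haq : c / 4 ≤ q S ω T (a S.vac) := by
    have h1 := q_le_two S hω T h (a S.vac)
    have h2 : ‖h - a S.vac‖ ≤ ε := by rw [norm_sub_rev]; exact hah
    have h3 : ‖h - a S.vac‖ ^ 2 ≤ c / (4 * (‖T‖ ^ 2 + 1)) := by
      calc _ ≤ ε ^ 2 := by gcongr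
        _ ≤ (Real.sqrt (c / (4 * (‖T‖ ^ 2 + 1)))) ^ 2 := by
          gcongr; exact min_le_right _ _
        _ = _ := Real.sq_sqrt (by positivity)
    have h4 : ‖T‖ ^ 2 * ‖h - a S.vac‖ ^ 2 ≤ c / 4 := by
      calc _ ≤ ‖T‖ ^ 2 * (c / (4 * (‖T‖ ^ 2 + 1))) := by gcongr
        _ ≤ c / 4 := by
          rw [mul_div_assoc', div_le_div_iff₀ (by positivity) (by positivity)]
          nlinarith [sq_nonneg ‖T‖]
    linarith
  have han : ‖a S.vac‖ ≤ 2 := by
    have h1 : ‖a S.vac‖ ≤ ‖a S.vac - h‖ + ‖h‖ := by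
      calc ‖a S.vac‖ = ‖(a S.vac - h) + h‖ := by congr 1; abel
        _ ≤ _ := norm_add_le _ _
    have : ε ≤ 1 := min_le_left _ _
    linarith
  have ham2 : m2 S a ≤ 4 := by
    unfold m2; nlinarith [norm_nonneg (a S.vac)]
  have ham20 : 0 ≤ m2 S a := by unfold m2; positivity
  have ham2s : m2 S (star a) ≤ 4 * E := by
    have h1 := norm_star_vac_le S haM hasup
    have h2 : Real.exp ((s + 2 * δ) / 2) ^ 2 ≤ E := by
      rw [← Real.exp_nat_mul, hE]
      apply Real.exp_le_exp.mpr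
      push_cast; linarith
    have h3 : m2 S (star a) = ‖star a S.vac‖ ^ 2 := rfl
    rw [h3]
    calc _ ≤ (Real.exp ((s + 2 * δ) / 2) * ‖a S.vac‖) ^ 2 := by gcongr
      _ = Real.exp ((s + 2 * δ) / 2) ^ 2 * ‖a S.vac‖ ^ 2 := by ring
      _ ≤ E * 4 := by
        gcongr
        exact ham2
      _ = _ := by ring
  have ham2s0 : 0 ≤ m2 S (star a) := by unfold m2; positivity
  -- number of terms
  obtain ⟨N, hN⟩ := exists_nat_gt (max 1 (m4 S a))
  have hN1 : (1 : ℝ) < N := lt_of_le_of_lt (le_max_left _ _) hN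
  have hN4 : m4 S a < N := lt_of_le_of_lt (le_max_right _ _) hN
  have hN0 : (0 : ℝ) < N := by linarith
  set r : ℝ := (Real.sqrt N)⁻¹ with hr
  have hr0 : 0 ≤ r := by positivity
  have hr2 : r ^ 2 = (N : ℝ)⁻¹ := by rw [hr, inv_pow, Real.sq_sqrt hN0.le]
  set x : H →L[ℂ] H := (r : ℂ) • a with hx
  have hxM : x ∈ S.M := by
    show (r : ℂ) • a ∈ S.M.toStarSubalgebra
    exact SMulMemClass.smul_mem _ haM
  have hxstar : star x = (r : ℂ) • star a := by
    rw [hx, star_smul, Complex.star_def, Complex.conj_ofReal]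
  have hnr : ‖(r : ℂ)‖ = r := by rw [Complex.norm_real, Real.norm_of_nonneg hr0]
  have hxm2 : m2 S x = (N : ℝ)⁻¹ * m2 S a := by
    unfold m2
    show ‖(r : ℂ) • a S.vac‖ ^ 2 = _
    rw [norm_smul, hnr, mul_pow, hr2]
  have hxm2s : m2 S (star x) = (N : ℝ)⁻¹ * m2 S (star a) := by
    unfold m2
    rw [hxstar]
    show ‖(r : ℂ) • star a S.vac‖ ^ 2 = _
    rw [norm_smul, hnr, mul_pow, hr2]
  have hxm4 : m4 S x = (N : ℝ)⁻¹ ^ 2 * m4 S a := by
    unfold m4
    rw [hxstar, hx, smul_mul_smul_comm]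
    show ‖((r : ℂ) * (r : ℂ)) • (star a * a) S.vac‖ ^ 2 = _
    rw [norm_smul, norm_mul, hnr, mul_pow, ← sq, hr2]
  have hxq : q S ω T (x S.vac) = (N : ℝ)⁻¹ * q S ω T (a S.vac) := by
    unfold q
    rw [← mean_const_mul ω (BC_norm_sq S T _)]
    congr 1
    funext t
    show ‖T (S.D.wave t ((r : ℂ) • a S.vac))‖ ^ 2 = _
    rw [map_smul, map_smul, norm_smul, hnr, mul_pow, hr2]
  have hxgood : Good S (Set.Icc (s - 2 * δ) (s + 2 * δ)) x := by
    have := good_add S (good_zero S (Set.Icc (s - 2 * δ) (s + 2 * δ))) ⟨haM, hasup⟩ (r : ℂ)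
    rwa [zero_add] at this
  obtain ⟨y, hyG, hyF⟩ := induct S herg hω T hxM (Good S (Set.Icc (s - 2 * δ) (s + 2 * δ)))
    (good_zero S _) (fun y hy => hy.1)
    (fun y ε t hy => good_add S hy (good_flow S hxgood t) ε) N 1 0 0 l zero_le_one 1 one_pos
  have hV : V S ω T x N 1 0 0 l ≤ -2 := by
    unfold V
    rw [hxm4, hxm2, hxm2s, hxq]
    have e1 : 1 * ((N : ℝ) * ((N : ℝ)⁻¹ ^ 2 * m4 S a) + (N : ℝ) * ((N : ℝ) - 1)
        * (((N : ℝ)⁻¹ * m2 S a) ^ 2 + (N : ℝ)⁻¹ * m2 S a * ((N : ℝ)⁻¹ * m2 S (star a))))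
        + 0 * ((N : ℝ) * ((N : ℝ)⁻¹ * m2 S a)) + 0 * ((N : ℝ) * ((N : ℝ)⁻¹ * m2 S (star a)))
        - l * ((N : ℝ) * ((N : ℝ)⁻¹ * q S ω T (a S.vac)))
        = m4 S a / N + (1 - (N : ℝ)⁻¹) * (m2 S a ^ 2 + m2 S a * m2 S (star a))
          - l * q S ω T (a S.vac) := by
      field_simp
      ring
    rw [e1]
    have e2 : m4 S a / N ≤ 1 := by rw [div_le_one hN0]; exact hN4.le
    have e3 : m2 S a ^ 2 + m2 S a * m2 S (star a) ≤ K0 := by
      have : m2 S a * m2 S (star a) ≤ 4 * (4 * E) := mul_le_mul ham2 ham2s ham2s0 (by norm_num)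
      nlinarith
    have e4 : (1 - (N : ℝ)⁻¹) * (m2 S a ^ 2 + m2 S a * m2 S (star a)) ≤ K0 := by
      have h1 : 0 ≤ (N : ℝ)⁻¹ := by positivity
      have h2 : 0 ≤ m2 S a ^ 2 + m2 S a * m2 S (star a) := by positivity
      nlinarith
    have e5 : l * (c / 4) ≤ l * q S ω T (a S.vac) := mul_le_mul_of_nonneg_left haq hl0.le
    have e6 : l * (c / 4) = K0 + 3 := by rw [hl]; field_simp
    linarith
  have hy1 : m4 S y + 1 ≤ l * q S ω T (y S.vac) := by
    unfold Fn at hyF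
    linarith
  have hm4y : 0 ≤ m4 S y := by unfold m4; positivity
  obtain ⟨z, hzM, hzn, hzy⟩ := exists_trunc S hyG.1 hR0
  obtain ⟨b, hbM, hbn, hb⟩ := exists_smooth S s (2 * δ) hzM
  have hyb : ‖y S.vac - b S.vac‖ ^ 2 ≤ m4 S y / (2 * R) := by
    have e1 : y S.vac - b S.vac = S.D.apply (bumpF s (2 * δ)) ((y - z) S.vac) := by
      show _ = S.D.apply (bumpF s (2 * δ)) (y S.vac - z S.vac)
      rw [map_sub, ← hb, bump_fix S (by positivity) hyG.2]
    have e2 : ‖y S.vac - b S.vac‖ ≤ ‖(y - z) S.vac‖ := by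
      rw [e1]
      calc _ ≤ ‖bumpF s (2 * δ)‖ * ‖(y - z) S.vac‖ := apply_apply_norm_le _ _ _
        _ ≤ 1 * ‖(y - z) S.vac‖ := by gcongr; exact bumpF_norm_le _ _
        _ = _ := one_mul _
    calc _ ≤ ‖(y - z) S.vac‖ ^ 2 := by gcongr
      _ ≤ _ := hzy
  have hqb : 1 / (4 * l) ≤ q S ω T (b S.vac) := by
    have h1 := q_le_two S hω T (y S.vac) (b S.vac)
    have h2 : 2 * (‖T‖ ^ 2 * ‖y S.vac - b S.vac‖ ^ 2) ≤ q S ω T (y S.vac) / 2 := by
      have hqy : m4 S y ≤ l * q S ω T (y S.vac) := by linarith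
      calc 2 * (‖T‖ ^ 2 * ‖y S.vac - b S.vac‖ ^ 2) ≤ 2 * (‖T‖ ^ 2 * (m4 S y / (2 * R))) := by
            gcongr
        _ ≤ 2 * ((‖T‖ ^ 2 + 1) * ((l * q S ω T (y S.vac)) / (2 * R))) := by
            have : m4 S y / (2 * R) ≤ (l * q S ω T (y S.vac)) / (2 * R) := by gcongr
            have h0 : 0 ≤ m4 S y / (2 * R) := by positivity
            have hT : 0 ≤ ‖T‖ ^ 2 := by positivity
            nlinarith
        _ = q S ω T (y S.vac) / 2 := by
            rw [hR]; field_simp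
    have h3 : 1 / l ≤ q S ω T (y S.vac) := by
      rw [div_le_iff₀ hl0]; linarith
    have h4 : 1 / (4 * l) = (1 / l) / 4 := by field_simp
    rw [h4]
    linarith
  obtain ⟨t, ht⟩ := exists_lt_of_lt_mean hω (BC_norm_sq S T (b S.vac)) (r := 1 / (8 * l)) (by
    have : (1 : ℝ) / (8 * l) < 1 / (4 * l) := by
      apply one_div_lt_one_div_of_lt (by positivity); linarith
    exact lt_of_lt_of_le this hqb)
  refine ⟨flow S.D t b, flow_mem S t hbM, ?_, ?_, ?_⟩
  · calc _ ≤ ‖b‖ := norm_flow_le _ _ _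
      _ ≤ kerMass * ‖z‖ := hbn
      _ ≤ _ := mul_le_mul_of_nonneg_left hzn kerMass_nonneg
  · rw [flow_apply, wave_vac]
    rw [← Real.sqrt_sq (norm_nonneg (T (S.D.wave t (b S.vac))))]
    exact Real.sqrt_le_sqrt ht.le
  · rw [flow_apply, wave_vac]
    apply supported_wave
    rw [hb]
    have := bump_supported S (s := s) (δ := 2 * δ) (by positivity) (z S.vac)
    have e : (2 : ℝ) * (2 * δ) = 4 * δ := by ring
    rwa [e] at this

end Crest.Agent.H7Recover
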