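import Crest.Statements.S0150

set_option autoImplicit false

namespace Crest.R113.H7

open Crest.AnalysisR.TwoAdic MeasureTheory Finset
attribute [local instance] Crest.AnalysisR.TwoAdic.borelTwoAdic Crest.AnalysisR.TwoAdic.borelSpace_twoAdic

/-- residue of `x` modulo `2^k` -/
noncomputable def r (k : ℕ) (x : ℤ_[2]) : ℕ := (PadicInt.toZModPow (p := 2) k x).val

theorem r_lt (k : ℕ) (x : ℤ_[2]) : r k x < 2 ^ k := by
  haveI : NeZero (2 ^ k) := ⟨by positivity⟩
  exact ZMod.val_lt _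

theorem r_succ (k : ℕ) (x : ℤ_[2]) (h : r k x + 1 ≠ 2 ^ k) : r k (x + 1) = r k x + 1 := by
  haveI : NeZero (2 ^ k) := ⟨by positivity⟩
  have hlt : r k x + 1 < 2 ^ k := lt_of_le_of_ne (r_lt k x) h
  unfold r at *
  rw [map_add, map_one]
  rcases Nat.eq_zero_or_pos k with hk | hk
  · subst hk; simp at hlt
  · haveI : Fact (1 < 2 ^ k) := ⟨Nat.one_lt_two_pow hk.ne'⟩
    rw [ZMod.val_add, ZMod.val_one, Nat.mod_eq_of_lt hlt]

/-- for `x ≠ -1` there is no wrap for all large `k` -/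
theorem no_wrap (x : ℤ_[2]) (hx : x ≠ -1) : ∃ k1 : ℕ, ∀ k, k1 ≤ k → r k x + 1 ≠ 2 ^ k := by
  by_contra hcon
  push_neg at hcon
  apply hx
  rw [← PadicInt.ext_of_toZModPow]
  intro n
  obtain ⟨k, hk, hw⟩ := hcon n
  haveI : NeZero (2 ^ k) := ⟨by positivity⟩
  have h1 : PadicInt.toZModPow (p := 2) k x = -1 := by
    have : (((r k x + 1 : ℕ)) : ZMod (2 ^ k)) = 0 := by
      rw [hw]; exact ZMod.natCast_self _
    have h2 : ((r k x : ℕ) : ZMod (2 ^ k)) = PadicInt.toZModPow (p := 2) k x := by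
      unfold r; exact ZMod.natCast_zmod_val _
    push_cast at this
    rw [h2] at this
    exact eq_neg_of_add_eq_zero_left this
  have h3 := PadicInt.cast_toZModPow (p := 2) n k hk x
  have h4 := PadicInt.cast_toZModPow (p := 2) n k hk (-1)
  rw [← h3, ← h4, h1, map_neg, map_one]

theorem isOpen_fiber (k : ℕ) (a : ZMod (2 ^ k)) :
    IsOpen {x : ℤ_[2] | PadicInt.toZModPow (p := 2) k x = a} := by
  rw [Metric.isOpen_iff]
  intro x hx
  refine ⟨(2 : ℝ) ^ (-(k : ℤ)), by positivity, ?_⟩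
  intro y hy
  rw [Metric.mem_ball, dist_eq_norm] at hy
  have h1 : y - x ∈ Ideal.span {((2 : ℕ) : ℤ_[2]) ^ k} := by
    rw [← PadicInt.norm_le_pow_iff_mem_span_pow]
    exact_mod_cast hy.le
  rw [← PadicInt.ker_toZModPow, RingHom.mem_ker, map_sub, sub_eq_zero] at h1
  show _ = a
  rw [h1]; exact hx

theorem measurable_r (k : ℕ) : Measurable (fun x : ℤ_[2] => (r k x : ℝ)) := by
  letI : MeasurableSpace (ZMod (2 ^ k)) := ⊤
  haveI : NeZero (2 ^ k) := ⟨by positivity⟩
  have h1 : Measurable (fun x : ℤ_[2] => PadicInt.toZModPow (p := 2) k x) := by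
    apply measurable_to_countable'
    intro a
    exact (isOpen_fiber k a).measurableSet
  have h2 : Measurable (fun a : ZMod (2 ^ k) => ((a.val : ℕ) : ℝ)) := measurable_from_top
  exact h2.comp h1

/-- truncated sum -/
noncomputable def G (g : ℕ → ℝ) (n : ℕ) : ℝ := ∑ k ∈ range n, if 2 ^ (k + 2) ≤ n then g k else 0

noncomputable def rp (x : ℤ_[2]) (k : ℕ) : ℝ := 1 + r k x
noncomputable def rm (x : ℤ_[2]) (k : ℕ) : ℝ := 2 ^ k - r k x

noncomputable def Phi (x : ℤ_[2]) (j : ℤ) : ℝ :=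
  10 * (1 + |(j : ℝ)|) + (if 0 ≤ j then G (rp x) j.natAbs else G (rm x) j.natAbs)

theorem r_le_real (k : ℕ) (x : ℤ_[2]) : (r k x : ℝ) + 1 ≤ 2 ^ k := by
  have := r_lt k x
  have h2 : (r k x + 1 : ℕ) ≤ 2 ^ k := this
  exact_mod_cast h2

theorem rp_nonneg (x : ℤ_[2]) (k : ℕ) : 0 ≤ rp x k := by unfold rp; positivity
theorem rm_nonneg (x : ℤ_[2]) (k : ℕ) : 0 ≤ rm x k := by
  unfold rm; linarith [r_le_real k x]
theorem rp_le (x : ℤ_[2]) (k : ℕ) : rp x k ≤ 2 ^ k := by unfold rp; linarith [r_le_real k x]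
theorem rm_le (x : ℤ_[2]) (k : ℕ) : rm x k ≤ 2 ^ k := by
  unfold rm; have : (0:ℝ) ≤ r k x := by positivity
  linarith

theorem G_nonneg (g : ℕ → ℝ) (hg : ∀ k, 0 ≤ g k) (n : ℕ) : 0 ≤ G g n := by
  unfold G
  apply sum_nonneg
  intro k _
  split_ifs
  · exact hg k
  · exact le_rfl

theorem G_eq (g : ℕ → ℝ) (n N : ℕ) (h : n ≤ N) :
    G g n = ∑ k ∈ range N, if 2 ^ (k + 2) ≤ n then g k else 0 := by
  unfold G
  apply sum_subset (range_mono h)
  intro k _ hk
  rw [mem_range, not_lt] at hk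
  rw [if_neg]
  intro hle
  have : k < 2 ^ k := Nat.lt_two_pow_self
  have : 2 ^ (k + 2) = 4 * 2 ^ k := by ring
  omega

theorem G_mono (g : ℕ → ℝ) (hg : ∀ k, 0 ≤ g k) {m n : ℕ} (h : m ≤ n) : G g m ≤ G g n := by
  rw [G_eq g m n h, G_eq g n n le_rfl]
  apply sum_le_sum
  intro k _
  split_ifs with h1 h2 h2
  · exact le_rfl
  · exact absurd (h1.trans h) h2
  · exact hg k
  · exact le_rfl

theorem G_le (g : ℕ → ℝ) (hg : ∀ k, g k ≤ 2 ^ k) (n : ℕ) : G g n ≤ n := by
  have key : ∀ N : ℕ, (∑ k ∈ range N, if 2 ^ (k + 2) ≤ n then g k else 0) ≤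
      if 2 ^ (N + 1) ≤ n then (2 : ℝ) ^ N else n := by
    intro N
    induction N with
    | zero => simp; split_ifs <;> positivity
    | succ N ih =>
      rw [sum_range_succ]
      by_cases h1 : 2 ^ (N + 1 + 1) ≤ n
      · have h0 : 2 ^ (N + 1) ≤ n := by
          have : 2 ^ (N + 1 + 1) = 2 * 2 ^ (N + 1) := by ring
          omega
        have h2 : 2 ^ (N + 2) ≤ n := h1
        rw [if_pos h1, if_pos h2]
        rw [if_pos h0] at ih
        have := hg N
        have e : (2 : ℝ) ^ (N + 1) = 2 * 2 ^ N := by ring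
        linarith
      · have h2 : ¬ 2 ^ (N + 2) ≤ n := h1
        rw [if_neg h1, if_neg h2, add_zero]
        refine ih.trans ?_
        split_ifs with h3
        · have : (2 : ℝ) ^ (N + 1) ≤ n := by exact_mod_cast h3
          have e : (2 : ℝ) ^ (N + 1) = 2 * 2 ^ N := by ring
          have : (0 : ℝ) < 2 ^ N := by positivity
          linarith
        · exact le_rfl
  have h := key n
  have h3 : ¬ 2 ^ (n + 1) ≤ n := by
    have : n < 2 ^ n := Nat.lt_two_pow_self
    have : 2 ^ (n + 1) = 2 * 2 ^ n := by ring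
    omega
  rw [if_neg h3] at h
  exact h

theorem abs_cast (j : ℤ) : |(j : ℝ)| = (j.natAbs : ℝ) := by
  rw [Nat.cast_natAbs, Int.cast_abs]

theorem Phi_lo (x : ℤ_[2]) (j : ℤ) : 10 * (1 + |(j : ℝ)|) ≤ Phi x j := by
  unfold Phi
  split_ifs
  · linarith [G_nonneg _ (rp_nonneg x) j.natAbs]
  · linarith [G_nonneg _ (rm_nonneg x) j.natAbs]

theorem Phi_hi (x : ℤ_[2]) (j : ℤ) : Phi x j ≤ 11 * (1 + |(j : ℝ)|) := by
  unfold Phi
  rw [abs_cast]
  split_ifs
  · linarith [G_le _ (rp_le x) j.natAbs]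
  · linarith [G_le _ (rm_le x) j.natAbs]

theorem Phi_zero (x : ℤ_[2]) : Phi x 0 = 10 := by
  unfold Phi G; simp

theorem Phi_mono_pos (x : ℤ_[2]) {i j : ℤ} (hi : 0 ≤ i) (hij : i ≤ j) : Phi x i ≤ Phi x j := by
  have hj : 0 ≤ j := hi.trans hij
  unfold Phi
  rw [if_pos hi, if_pos hj, abs_cast, abs_cast]
  have h : i.natAbs ≤ j.natAbs := by omega
  have h2 : (i.natAbs : ℝ) ≤ j.natAbs := by exact_mod_cast h
  linarith [G_mono _ (rp_nonneg x) h]

theorem Phi_mono_neg (x : ℤ_[2]) {i j : ℤ} (hi : i < 0) (hij : j ≤ i) : Phi x i ≤ Phi x j := by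
  unfold Phi
  rw [if_neg (by omega), if_neg (by omega), abs_cast, abs_cast]
  have h : i.natAbs ≤ j.natAbs := by omega
  have h2 : (i.natAbs : ℝ) ≤ j.natAbs := by exact_mod_cast h
  linarith [G_mono _ (rm_nonneg x) h]

theorem measurable_Phi (j : ℤ) : Measurable (fun x : ℤ_[2] => Phi x j) := by
  unfold Phi G
  split_ifs
  · apply Measurable.add measurable_const
    apply Finset.measurable_fun_sum
    intro k _
    split_ifs
    · exact measurable_const.add (measurable_r k)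
    · exact measurable_const
  · apply Measurable.add measurable_const
    apply Finset.measurable_fun_sum
    intro k _
    split_ifs
    · exact measurable_const.sub (measurable_r k)
    · exact measurable_const

end Crest.R113.H7
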