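import Crest.Statements.S0150

set_option autoImplicit false

namespace Crest.R113

open Crest.AnalysisR.TwoAdic MeasureTheory
attribute [local instance] Crest.AnalysisR.TwoAdic.borelTwoAdic Crest.AnalysisR.TwoAdic.borelSpace_twoAdic

instance H7.haarTwoAdic_isAddHaar : Measure.IsAddHaarMeasure haarTwoAdic := by
  unfold haarTwoAdic; infer_instance

instance H7.haarTwoAdic_isProb : IsProbabilityMeasure haarTwoAdic := by
  constructor
  have := Measure.addHaarMeasure_self (K₀ := (⊤ : TopologicalSpace.PositiveCompacts ℤ_[2]))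
  simpa [haarTwoAdic] using this

theorem H7.ergodic_odometer : Ergodic (fun x : ℤ_[2] => (1 : ℤ_[2]) + x) haarTwoAdic := by
  have hd : DenseRange (fun n : ℕ => n • (1 : ℤ_[2])) := by
    simpa using (PadicInt.denseRange_natCast (p := 2))
  exact ergodic_add_left_of_denseRange_nsmul hd haarTwoAdic

theorem H7.ergodic_odometer' : Ergodic (fun x : ℤ_[2] => x + (1 : ℤ_[2])) haarTwoAdic := by
  have h := H7.ergodic_odometer
  have e : (fun x : ℤ_[2] => x + (1 : ℤ_[2])) = fun x => (1 : ℤ_[2]) + x := by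
    funext x; ring
  rw [e]; exact h

theorem H7.erg (A : Set ℤ_[2]) (hA : MeasurableSet A)
    (h : ∀ᵐ x ∂haarTwoAdic, x ∈ A → x + 1 ∈ A) :
    haarTwoAdic A = 0 ∨ haarTwoAdic Aᶜ = 0 := by
  have hle : A ≤ᵐ[haarTwoAdic] (fun x : ℤ_[2] => x + (1 : ℤ_[2])) ⁻¹' A := by
    filter_upwards [h] with x hx hxA
    exact hx hxA
  rcases H7.ergodic_odometer'.ae_empty_or_univ_of_ae_le_preimage hA.nullMeasurableSet hle with h0 | h1
  · left
    exact ae_eq_empty.1 h0
  · right
    exact ae_eq_univ.1 h1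

end Crest.R113
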