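import Mathlib

set_option autoImplicit false

namespace Crest.Agent.H8PRReg

open Finset

/-- unnormalised register -/
noncomputable def G0 (τ κ : ℝ) (j j' : ℕ) : ℝ :=
  Real.exp (-(((j:ℝ)+(j':ℝ))*τ/2) - |(j:ℝ)-(j':ℝ)| * τ / κ)

noncomputable def EE (τ : ℝ) : ℝ := Real.exp (-(2*τ))
noncomputable def ww (τ κ : ℝ) : ℝ := Real.exp (-(τ+2*τ/κ))
noncomputable def w2 (τ κ : ℝ) : ℝ := Real.exp (-(2*τ/κ-τ))

lemma G0_pos (τ κ : ℝ) (j j' : ℕ) : 0 < G0 τ κ j j' := Real.exp_pos _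

lemma G0_symm (τ κ : ℝ) (j j' : ℕ) : G0 τ κ j j' = G0 τ κ j' j := by
  unfold G0
  rw [abs_sub_comm, add_comm (j:ℝ) (j':ℝ)]

lemma G0_sq_diag (τ κ : ℝ) (k : ℕ) : (G0 τ κ k k)^2 = (EE τ)^k := by
  unfold G0 EE
  rw [← Real.exp_nat_mul, ← Real.exp_nat_mul]
  congr 1
  simp
  ring

lemma G0_sq_off (τ κ : ℝ) (k d : ℕ) : (G0 τ κ (k+1+d) k)^2 = (EE τ)^k * (ww τ κ)^(d+1) := by
  unfold G0 EE ww
  rw [← Real.exp_nat_mul, ← Real.exp_nat_mul, ← Real.exp_nat_mul, ← Real.exp_add]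
  congr 1
  have h : |((k+1+d : ℕ):ℝ) - (k:ℝ)| = (d:ℝ)+1 := by
    push_cast
    rw [abs_of_nonneg (by have : (0:ℝ) ≤ d := Nat.cast_nonneg d; linarith)]
    ring
  rw [h]
  push_cast
  ring

lemma sum_gt (J k : ℕ) (F : ℕ → ℝ) :
    ∑ j ∈ range J, (if k < j then F j else 0) = ∑ d ∈ range (J - (k+1)), F (k+1+d) := by
  rw [← Finset.sum_filter]
  have : (range J).filter (fun j => k < j) = Finset.Ico (k+1) J := by
    ext j; simp; omega
  rw [this, Finset.sum_Ico_eq_sum_range]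

lemma sum_gt_le (J k : ℕ) (F : ℕ → ℝ) (hF : ∀ j, 0 ≤ F j) :
    ∑ j ∈ range J, (if k < j then F j else 0) ≤ ∑ d ∈ range J, F (k+1+d) := by
  rw [sum_gt]
  apply Finset.sum_le_sum_of_subset_of_nonneg
  · intro x; simp; omega
  · intros; exact hF _

lemma decomp (J : ℕ) (f : ℕ → ℕ → ℝ) :
    ∑ j ∈ range J, ∑ j' ∈ range J, f j j' =
      ∑ k ∈ range J, f k k + ∑ k ∈ range J, ∑ j ∈ range J, (if k < j then f j k else 0)
        + ∑ k ∈ range J, ∑ j ∈ range J, (if k < j then f k j else 0) := by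
  have h1 : ∀ j j' : ℕ, f j j' = (if j = j' then f j j' else 0) + (if j' < j then f j j' else 0)
      + (if j < j' then f j j' else 0) := by
    intro j j'
    rcases lt_trichotomy j j' with h | h | h
    · simp [h, h.ne, h.le]
    · subst h; simp
    · simp [h, h.ne', not_lt.2 h.le]
  calc ∑ j ∈ range J, ∑ j' ∈ range J, f j j'
      = ∑ j ∈ range J, ∑ j' ∈ range J, ((if j = j' then f j j' else 0) + (if j' < j then f j j' else 0)
      + (if j < j' then f j j' else 0)) := by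
        refine Finset.sum_congr rfl (fun j _ => Finset.sum_congr rfl (fun j' _ => h1 j j'))
    _ = _ := by
        simp only [Finset.sum_add_distrib]
        congr 1
        congr 1
        · refine Finset.sum_congr rfl (fun j hj => ?_)
          rw [Finset.sum_ite_eq]
          simp [Finset.mem_range.1 hj]
        · rw [Finset.sum_comm]

section
variable (τ κ : ℝ)

noncomputable def ZZ (J : ℕ) : ℝ := ∑ j ∈ range J, ∑ j' ∈ range J, (G0 τ κ j j')^2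

noncomputable def NN (J l : ℕ) : ℝ :=
  ∑ j ∈ range J, ∑ j' ∈ range J, (if l ≤ j ∨ l ≤ j' then (G0 τ κ j j')^2 else 0)

lemma EE_lt (hτ : 0 < τ) : EE τ < 1 := by
  unfold EE; rw [Real.exp_lt_one_iff]; linarith

lemma EE_pos : 0 < EE τ := Real.exp_pos _

lemma ww_pos : 0 < ww τ κ := Real.exp_pos _
lemma w2_pos : 0 < w2 τ κ := Real.exp_pos _

lemma div_k (hτ : 0 < τ) (hκ : 0 < κ) (hκ1 : κ ≤ 1) : τ ≤ τ/κ := by
  rw [le_div_iff₀ hκ]; nlinarith

lemma ww_lt (hτ : 0 < τ) (hκ : 0 < κ) : ww τ κ < 1 := by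
  unfold ww; rw [Real.exp_lt_one_iff]; have : 0 < 2*τ/κ := by positivity
  linarith

lemma w2_lt (hτ : 0 < τ) (hκ : 0 < κ) (hκ1 : κ ≤ 1) : w2 τ κ < 1 := by
  unfold w2; rw [Real.exp_lt_one_iff]
  have h := div_k τ κ hτ hκ hκ1
  have : 2*τ/κ = 2*(τ/κ) := by ring
  linarith

lemma ww_mul : ww τ κ = w2 τ κ * EE τ := by
  unfold ww w2 EE; rw [← Real.exp_add]; congr 1; ring

/-- geometric tail -/
lemma geom_tail (x : ℝ) (hx : 0 < x) (hx1 : x < 1) (J r : ℕ) :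
    ∑ k ∈ range J, (if r ≤ k then x^k else 0) ≤ x^r / (1 - x) := by
  have h1x : 0 < 1 - x := by linarith
  have hle : ∑ k ∈ range J, (if r ≤ k then x^k else 0) = ∑ k ∈ Finset.Ico r J, x^k := by
    rw [← Finset.sum_filter]
    congr 1
    ext j; simp; omega
  rw [hle, Finset.sum_Ico_eq_sum_range]
  have : ∀ i, x^(r+i) = x^r * x^i := fun i => pow_add _ _ _
  simp_rw [this]
  rw [← Finset.mul_sum, div_eq_mul_inv]
  apply mul_le_mul_of_nonneg_left _ (by positivity)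
  have := geom_sum_eq (ne_of_lt hx1) (J - r)
  rw [this]
  rw [← neg_div_neg_eq]
  rw [div_le_iff₀ (by linarith)]
  have : (1-x)⁻¹ * (-(x-1)) = 1 := by
    rw [neg_sub]; field_simp
  rw [this]
  have : 0 ≤ x^(J-r) := by positivity
  linarith

lemma geom_le (x : ℝ) (hx : 0 < x) (hx1 : x < 1) (J : ℕ) :
    ∑ k ∈ range J, x^k ≤ 1 / (1 - x) := by
  have := geom_tail x hx hx1 J 0
  simpa using this

/-- tail bound -/
lemma NN_le (hτ : 0 < τ) (hκ : 0 < κ) (hκ1 : κ ≤ 1) (J l : ℕ) :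
    NN τ κ J l ≤ (EE τ)^l * (1/(1-EE τ)) * ((1 + w2 τ κ)/(1 - w2 τ κ)) := by
  have hE := EE_pos τ
  have hE1 := EE_lt τ hτ
  have hw := ww_pos τ κ
  have hw1 := ww_lt τ κ hτ hκ
  have hv := w2_pos τ κ
  have hv1 := w2_lt τ κ hτ hκ hκ1
  have h1E : 0 < 1 - EE τ := by linarith
  have h1v : 0 < 1 - w2 τ κ := by linarith
  unfold NN
  rw [decomp]
  -- diagonal part
  have hdiag : ∑ k ∈ range J, (if l ≤ k ∨ l ≤ k then (G0 τ κ k k)^2 else 0) ≤ (EE τ)^l / (1 - EE τ) := by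
    have : ∀ k, (if l ≤ k ∨ l ≤ k then (G0 τ κ k k)^2 else 0) = (if l ≤ k then (EE τ)^k else 0) := by
      intro k; simp only [or_self, G0_sq_diag]
    simp_rw [this]
    exact geom_tail _ hE hE1 J l
  -- off-diagonal part
  have key : ∑ k ∈ range J, ∑ d ∈ range J, (if l ≤ k+1+d ∨ l ≤ k then (EE τ)^k * (ww τ κ)^(d+1) else 0)
      ≤ (EE τ)^l / (1 - EE τ) * (w2 τ κ / (1 - w2 τ κ)) := by
    rw [Finset.sum_comm]
    calc ∑ d ∈ range J, ∑ k ∈ range J, (if l ≤ k+1+d ∨ l ≤ k then (EE τ)^k * (ww τ κ)^(d+1) else 0)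
        ≤ ∑ d ∈ range J, (ww τ κ)^(d+1) * ((EE τ)^(l-(d+1)) / (1 - EE τ)) := by
          refine Finset.sum_le_sum (fun d _ => ?_)
          have : ∀ k, (if l ≤ k+1+d ∨ l ≤ k then (EE τ)^k * (ww τ κ)^(d+1) else 0)
              = (ww τ κ)^(d+1) * (if l-(d+1) ≤ k then (EE τ)^k else 0) := by
            intro k
            by_cases h : l ≤ k+1+d ∨ l ≤ k
            · rw [if_pos h, if_pos (by omega)]; ring
            · rw [if_neg h, if_neg (by omega)]; ring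
          simp_rw [this]
          rw [← Finset.mul_sum]
          exact mul_le_mul_of_nonneg_left (geom_tail _ hE hE1 J _) (by positivity)
      _ ≤ ∑ d ∈ range J, (EE τ)^l / (1 - EE τ) * (w2 τ κ * (w2 τ κ)^d) := by
          refine Finset.sum_le_sum (fun d _ => ?_)
          rw [ww_mul τ κ, mul_pow]
          have h1 : (EE τ)^(d+1) * (EE τ)^(l-(d+1)) ≤ (EE τ)^l := by
            rw [← pow_add]
            exact pow_le_pow_of_le_one hE.le hE1.le (by omega)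
          have h2 : (w2 τ κ)^(d+1) * (EE τ)^(d+1) * ((EE τ)^(l-(d+1)) / (1 - EE τ))
              = (w2 τ κ)^(d+1) / (1 - EE τ) * ((EE τ)^(d+1) * (EE τ)^(l-(d+1))) := by ring
          have h3 : (EE τ)^l / (1 - EE τ) * (w2 τ κ * (w2 τ κ)^d) = (w2 τ κ)^(d+1) / (1 - EE τ) * (EE τ)^l := by
            ring
          rw [h2, h3]
          exact mul_le_mul_of_nonneg_left h1 (by positivity)
      _ ≤ (EE τ)^l / (1 - EE τ) * (w2 τ κ / (1 - w2 τ κ)) := by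
          rw [← Finset.mul_sum, ← Finset.mul_sum]
          apply mul_le_mul_of_nonneg_left _ (by positivity)
          rw [div_eq_mul_one_div]
          exact mul_le_mul_of_nonneg_left (geom_le _ hv hv1 J) hv.le
  have hoff1 : ∑ k ∈ range J, ∑ j ∈ range J, (if k < j then (if l ≤ j ∨ l ≤ k then (G0 τ κ j k)^2 else 0) else 0)
      ≤ (EE τ)^l / (1 - EE τ) * (w2 τ κ / (1 - w2 τ κ)) := by
    refine le_trans (Finset.sum_le_sum (fun k _ => sum_gt_le J k (fun j => if l ≤ j ∨ l ≤ k then (G0 τ κ j k)^2 else 0) ?_)) ?_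
    · intro j; split_ifs <;> positivity
    · refine le_trans (le_of_eq ?_) key
      refine Finset.sum_congr rfl (fun k _ => Finset.sum_congr rfl (fun d _ => ?_))
      simp only [G0_sq_off]
  have hoff2 : ∑ k ∈ range J, ∑ j ∈ range J, (if k < j then (if l ≤ k ∨ l ≤ j then (G0 τ κ k j)^2 else 0) else 0)
      ≤ (EE τ)^l / (1 - EE τ) * (w2 τ κ / (1 - w2 τ κ)) := by
    refine le_trans (le_of_eq ?_) hoff1
    refine Finset.sum_congr rfl (fun k _ => Finset.sum_congr rfl (fun j _ => ?_))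
    rw [G0_symm τ κ k j]
    simp only [or_comm]
  have hfin : (EE τ)^l / (1 - EE τ) + (EE τ)^l / (1 - EE τ) * (w2 τ κ / (1 - w2 τ κ))
      + (EE τ)^l / (1 - EE τ) * (w2 τ κ / (1 - w2 τ κ))
      = (EE τ)^l * (1/(1-EE τ)) * ((1 + w2 τ κ)/(1 - w2 τ κ)) := by
    field_simp
    ring
  rw [← hfin]
  exact add_le_add (add_le_add hdiag hoff1) hoff2

/-- exact formula for Z -/
lemma ZZ_ge (hτ : 0 < τ) (hκ : 0 < κ) (hκ1 : κ ≤ 1) (J : ℕ) :
    (1/(1-EE τ)) * ((1 + ww τ κ)/(1 - ww τ κ)) * (1 - (EE τ)^J) - 2/(1 - ww τ κ) * (J * (EE τ)^J) ≤ ZZ τ κ J := by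
  have hE := EE_pos τ
  have hE1 := EE_lt τ hτ
  have hw := ww_pos τ κ
  have hw1 := ww_lt τ κ hτ hκ
  have h1E : 0 < 1 - EE τ := by linarith
  have h1w : 0 < 1 - ww τ κ := by linarith
  have hwE : ww τ κ ≤ EE τ := by
    rw [ww_mul]
    have := w2_lt τ κ hτ hκ hκ1
    nlinarith
  unfold ZZ
  rw [decomp]
  have hoff : ∀ k, ∑ j ∈ range J, (if k < j then (G0 τ κ j k)^2 else 0)
      = (EE τ)^k * (∑ d ∈ range (J-(k+1)), (ww τ κ)^(d+1)) := by
    intro k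
    rw [sum_gt J k (fun j => (G0 τ κ j k)^2), Finset.mul_sum]
    refine Finset.sum_congr rfl (fun d _ => ?_)
    rw [G0_sq_off]
  have hoff' : ∀ k, ∑ j ∈ range J, (if k < j then (G0 τ κ k j)^2 else 0)
      = (EE τ)^k * (∑ d ∈ range (J-(k+1)), (ww τ κ)^(d+1)) := by
    intro k
    rw [← hoff k]
    refine Finset.sum_congr rfl (fun j _ => ?_)
    rw [G0_symm]
  simp_rw [hoff, hoff', G0_sq_diag]
  rw [← Finset.sum_add_distrib, ← Finset.sum_add_distrib]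
  have hg : ∀ n : ℕ, ∑ d ∈ range n, (ww τ κ)^(d+1) = (ww τ κ - (ww τ κ)^(n+1)) / (1 - ww τ κ) := by
    intro n
    have : ∀ d, (ww τ κ)^(d+1) = ww τ κ * (ww τ κ)^d := fun d => by ring
    simp_rw [this]
    rw [← Finset.mul_sum, geom_sum_eq (ne_of_lt hw1), ← neg_div_neg_eq, neg_sub, neg_sub]
    field_simp
  have hterm : ∀ k ∈ range J, (EE τ)^k * ((1 + ww τ κ)/(1 - ww τ κ)) - 2/(1-ww τ κ) * (EE τ)^J ≤
      (EE τ)^k + (EE τ)^k * (∑ d ∈ range (J-(k+1)), (ww τ κ)^(d+1))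
        + (EE τ)^k * (∑ d ∈ range (J-(k+1)), (ww τ κ)^(d+1)) := by
    intro k hk
    have hk' := Finset.mem_range.1 hk
    rw [hg]
    have e1 : J - (k+1) + 1 = J - k := by omega
    rw [e1]
    have h1 : (EE τ)^k * (ww τ κ)^(J-k) ≤ (EE τ)^J := by
      calc (EE τ)^k * (ww τ κ)^(J-k) ≤ (EE τ)^k * (EE τ)^(J-k) := by
            apply mul_le_mul_of_nonneg_left _ (by positivity)
            exact pow_le_pow_left₀ hw.le hwE _
        _ = (EE τ)^J := by rw [← pow_add]; congr 1; omega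
    have h2 : (EE τ)^k + (EE τ)^k * ((ww τ κ - (ww τ κ)^(J-k)) / (1 - ww τ κ))
        + (EE τ)^k * ((ww τ κ - (ww τ κ)^(J-k)) / (1 - ww τ κ))
        = (EE τ)^k * ((1 + ww τ κ)/(1 - ww τ κ)) - 2/(1-ww τ κ) * ((EE τ)^k * (ww τ κ)^(J-k)) := by
      field_simp
      ring
    rw [h2]
    have : 2/(1-ww τ κ) * ((EE τ)^k * (ww τ κ)^(J-k)) ≤ 2/(1-ww τ κ) * (EE τ)^J :=
      mul_le_mul_of_nonneg_left h1 (by positivity)
    linarith
  refine le_trans (le_of_eq ?_) (Finset.sum_le_sum hterm)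
  have hgE : ∑ k ∈ range J, (EE τ)^k = (1 - (EE τ)^J) / (1 - EE τ) := by
    rw [geom_sum_eq (ne_of_lt hE1), div_eq_div_iff (by linarith) (by linarith)]
    ring
  rw [Finset.sum_sub_distrib, ← Finset.sum_mul, hgE, Finset.sum_const, card_range, nsmul_eq_mul]
  ring

lemma ratio_le (hτ : 0 < τ) (hκ : 0 < κ) (hκ1 : κ ≤ 1) :
    (1 + w2 τ κ)/(1 - w2 τ κ) ≤ (1 + 8*κ) * ((1 + ww τ κ)/(1 - ww τ κ)) := by
  have hE := EE_pos τ
  have hE1 := EE_lt τ hτ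
  have hw := ww_pos τ κ
  have hw1 := ww_lt τ κ hτ hκ
  have hv := w2_pos τ κ
  have hv1 := w2_lt τ κ hτ hκ hκ1
  set y := 2*τ/κ-τ with hy
  have hky : κ * y = 2*τ - κ*τ := by rw [hy]; field_simp
  have hvy : w2 τ κ * y ≤ 1 - w2 τ κ := by
    have h1 : w2 τ κ * Real.exp y = 1 := by
      unfold w2; rw [← Real.exp_add]; simp [hy]
    have h2 := Real.add_one_le_exp y
    nlinarith
  have hE2 : 1 - EE τ ≤ 2*τ := by
    unfold EE; have := Real.add_one_le_exp (-(2*τ)); linarith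
  have F1 : w2 τ κ * (1 - EE τ) ≤ 2*κ*(1 - w2 τ κ) := by
    have a1 : w2 τ κ * (1 - EE τ) ≤ w2 τ κ * (2*τ) := mul_le_mul_of_nonneg_left hE2 hv.le
    have a2 : w2 τ κ * (2*τ) ≤ w2 τ κ * (2*(κ*y)) := by
      apply mul_le_mul_of_nonneg_left _ hv.le
      rw [hky]; nlinarith
    have a3 : w2 τ κ * (2*(κ*y)) = 2*κ*(w2 τ κ * y) := by ring
    have a4 : 2*κ*(w2 τ κ * y) ≤ 2*κ*(1 - w2 τ κ) := mul_le_mul_of_nonneg_left hvy (by positivity)
    linarith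
  rw [← mul_div_assoc, div_le_div_iff₀ (by linarith) (by linarith)]
  rw [ww_mul]
  set v := w2 τ κ
  set E := EE τ
  have b1 : 1 - v*E ≤ (1-v)*(1+2*κ) := by nlinarith
  have b2 : 1 + v ≤ (1+v*E)*(1+2*κ) := by
    have : 0 < v*E := by positivity
    nlinarith
  have hvE : 0 < 1 - v*E := by nlinarith
  calc (1+v)*(1-v*E) ≤ ((1+v*E)*(1+2*κ))*((1-v)*(1+2*κ)) := by
        apply mul_le_mul b2 b1 hvE.le
        have : 0 < v*E := by positivity
        positivity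
    _ = (1+2*κ)^2 * ((1+v*E)*(1-v)) := by ring
    _ ≤ (1+8*κ) * ((1+v*E)*(1-v)) := by
        apply mul_le_mul_of_nonneg_right
        · nlinarith
        · have : 0 < v*E := by positivity
          have : 0 < 1 - v := by linarith
          positivity
    _ = (1+8*κ)*(1+v*E)*(1-v) := by ring

noncomputable def Zinf : ℝ := (1/(1-EE τ)) * ((1 + ww τ κ)/(1 - ww τ κ))

lemma Zinf_pos (hτ : 0 < τ) (hκ : 0 < κ) : 0 < Zinf τ κ := by
  have hE := EE_pos τ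
  have hE1 := EE_lt τ hτ
  have hw := ww_pos τ κ
  have hw1 := ww_lt τ κ hτ hκ
  unfold Zinf
  have : 0 < 1 - EE τ := by linarith
  have : 0 < 1 - ww τ κ := by linarith
  positivity

lemma NN_le' (hτ : 0 < τ) (hκ : 0 < κ) (hκ1 : κ ≤ 1) (J l : ℕ) :
    NN τ κ J l ≤ (1+8*κ) * (EE τ)^l * Zinf τ κ := by
  refine le_trans (NN_le τ κ hτ hκ hκ1 J l) ?_
  have hE := EE_pos τ
  have hE1 := EE_lt τ hτ
  have h1 : 0 < 1 - EE τ := by linarith
  have := ratio_le τ κ hτ hκ hκ1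
  calc (EE τ)^l * (1/(1-EE τ)) * ((1 + w2 τ κ)/(1 - w2 τ κ))
      ≤ (EE τ)^l * (1/(1-EE τ)) * ((1 + 8*κ) * ((1 + ww τ κ)/(1 - ww τ κ))) :=
        mul_le_mul_of_nonneg_left this (by positivity)
    _ = _ := by unfold Zinf; ring

lemma ZZ_le (hτ : 0 < τ) (hκ : 0 < κ) (hκ1 : κ ≤ 1) (J : ℕ) :
    ZZ τ κ J ≤ (1+8*κ) * Zinf τ κ := by
  have := NN_le' τ κ hτ hκ hκ1 J 0
  unfold NN at this
  simpa [ZZ] using this

lemma ZZ_eventually (hτ : 0 < τ) (hκ : 0 < κ) (hκ1 : κ ≤ 1) (ε : ℝ) (hε : 0 < ε) (L : ℕ) :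
    ∃ J : ℕ, L ≤ J ∧ Zinf τ κ ≤ (1+ε) * ZZ τ κ J ∧ (EE τ)^(J-L) ≤ ε := by
  have hE := EE_pos τ
  have hE1 := EE_lt τ hτ
  have hZ := Zinf_pos τ κ hτ hκ
  have t1 : Filter.Tendsto (fun J : ℕ => (EE τ)^J) Filter.atTop (nhds 0) :=
    tendsto_pow_atTop_nhds_zero_of_lt_one hE.le hE1
  have t2 : Filter.Tendsto (fun J : ℕ => (J:ℝ) * (EE τ)^J) Filter.atTop (nhds 0) :=
    tendsto_self_mul_const_pow_of_lt_one hE.le hE1
  have t3 : Filter.Tendsto (fun J : ℕ => Zinf τ κ * (EE τ)^J + 2/(1 - ww τ κ) * ((J:ℝ) * (EE τ)^J))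
      Filter.atTop (nhds 0) := by
    have := (t1.const_mul (Zinf τ κ)).add (t2.const_mul (2/(1 - ww τ κ)))
    simpa using this
  have hε0 : 0 < Zinf τ κ * ε / (1+ε) := by positivity
  have e3 := t3.eventually (gt_mem_nhds hε0)
  have t4 : Filter.Tendsto (fun J : ℕ => (EE τ)^(J-L)) Filter.atTop (nhds 0) :=
    t1.comp (Filter.tendsto_sub_atTop_nat L)
  have e4 := t4.eventually (gt_mem_nhds hε)
  obtain ⟨J, hJ⟩ := ((e3.and e4).and (Filter.eventually_ge_atTop L)).exists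
  refine ⟨J, hJ.2, ?_, hJ.1.2.le⟩
  have h1 := ZZ_ge τ κ hτ hκ hκ1 J
  have h2 := hJ.1.1
  have h3 : Zinf τ κ - Zinf τ κ * ε/(1+ε) ≤ ZZ τ κ J := by
    have : (1/(1-EE τ)) * ((1 + ww τ κ)/(1 - ww τ κ)) * (1 - (EE τ)^J) = Zinf τ κ - Zinf τ κ * (EE τ)^J := by
      unfold Zinf; ring
    rw [this] at h1
    linarith
  have h4 : Zinf τ κ - Zinf τ κ * ε/(1+ε) = Zinf τ κ / (1+ε) := by field_simp; ring
  rw [h4, div_le_iff₀ (by linarith)] at h3
  linarith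

/-- lower bound of |e^x - 1| -/
lemma exp_lower (x : ℝ) (hx : |x| ≤ 1/2) : |x|/2 ≤ |Real.exp x - 1| := by
  have h := Real.abs_exp_sub_one_sub_id_le (x := x) (by linarith)
  have h2 : |x| ≤ |Real.exp x - 1| + |Real.exp x - 1 - x| := by
    have := abs_sub_abs_le_abs_sub (Real.exp x - 1) (Real.exp x - 1 - x)
    have e : x = (Real.exp x - 1) - (Real.exp x - 1 - x) := by ring
    calc |x| = |(Real.exp x - 1) - (Real.exp x - 1 - x)| := by rw [← e]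
      _ ≤ _ := abs_sub _ _
  have h3 : x^2 ≤ |x|/2 := by
    rw [← sq_abs]; nlinarith [abs_nonneg x]
  linarith

lemma exp_lower2 (a : ℝ) (hκ : 0 < κ) (hκ1 : κ ≤ 1) (ha : κ/2 < |a|) : κ/4 ≤ |Real.exp (-a) - 1| := by
  rcases le_or_gt a 0 with h | h
  · have h1 := Real.add_one_le_exp (-a)
    rw [abs_of_nonpos h] at ha
    rw [abs_of_nonneg (by linarith)]
    linarith
  · rw [abs_of_pos h] at ha
    have h1 : Real.exp (-a) ≤ Real.exp (-(κ/2)) := Real.exp_le_exp.2 (by linarith)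
    have h2 := exp_lower (-(κ/2)) (by rw [abs_neg, abs_of_pos (by linarith)]; linarith)
    rw [abs_neg, abs_of_pos (by linarith : (0:ℝ) < κ/2)] at h2
    have h3 : Real.exp (-(κ/2)) ≤ 1 := by rw [Real.exp_le_one_iff]; linarith
    rw [abs_of_nonpos (by linarith)] at h2
    rw [abs_of_nonpos (by linarith)]
    linarith

/-- pointwise estimate in the close case -/
lemma close (hτ : 0 < τ) (hκ : 0 < κ) (hκ1 : κ ≤ 1) (l l' m m' : ℕ)
    (h : |((l:ℝ)-(l':ℝ))*τ| ≤ κ/2) :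
    (G0 τ κ (m+l) (m'+l') - Real.exp (-((l':ℝ)*τ)) * G0 τ κ m m')^2
      ≤ 36/κ^2 * (Real.exp (-((l:ℝ)*τ)) - Real.exp (-((l':ℝ)*τ)))^2 * (G0 τ κ m m')^2 := by
  set a := ((l:ℝ)-(l':ℝ))*τ with ha
  set y := -a/2 - (|((m:ℝ)-m') + ((l:ℝ)-l')| - |(m:ℝ)-m'|)*τ/κ with hy
  have e1 : G0 τ κ (m+l) (m'+l') = G0 τ κ m m' * Real.exp (-((l':ℝ)*τ)) * Real.exp y := by
    unfold G0
    rw [← Real.exp_add, ← Real.exp_add]
    congr 1
    have : ((m+l:ℕ):ℝ) - ((m'+l':ℕ):ℝ) = ((m:ℝ)-m') + ((l:ℝ)-l') := by push_cast; ring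
    rw [this, hy, ha]
    push_cast
    ring
  have e2 : Real.exp (-((l:ℝ)*τ)) = Real.exp (-((l':ℝ)*τ)) * Real.exp (-a) := by
    rw [← Real.exp_add]; congr 1; rw [ha]; ring
  have hy1 : |y| ≤ 3/2 * |a| / κ := by
    have h1 : abs (|((m:ℝ)-m') + ((l:ℝ)-l')| - |(m:ℝ)-m'|) ≤ |(l:ℝ)-l'| := by
      have := abs_abs_sub_abs_le_abs_sub (((m:ℝ)-m') + ((l:ℝ)-l')) ((m:ℝ)-m')
      simpa using this
    have h2 : abs ((|((m:ℝ)-m') + ((l:ℝ)-l')| - |(m:ℝ)-m'|)*τ/κ) ≤ |a|/κ := by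
      rw [abs_div, abs_mul, abs_of_pos hτ, abs_of_pos hκ, ha, abs_mul, abs_of_pos hτ]
      gcongr
    have h3 : |-a/2| ≤ |a|/(2*κ) := by
      rw [abs_div, abs_neg, abs_of_pos (by norm_num : (0:ℝ) < 2)]
      apply div_le_div_of_nonneg_left (abs_nonneg _) (by positivity)
      linarith
    calc |y| ≤ |-a/2| + abs ((|((m:ℝ)-m') + ((l:ℝ)-l')| - |(m:ℝ)-m'|)*τ/κ) := abs_sub _ _
      _ ≤ |a|/(2*κ) + |a|/κ := add_le_add h3 h2
      _ = 3/2*|a|/κ := by field_simp; ring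
  have hy2 : |y| ≤ 1 := by
    refine le_trans hy1 ?_
    rw [div_le_one hκ]; linarith
  have hy3 : |Real.exp y - 1| ≤ 3*|a|/κ := by
    have := Real.abs_exp_sub_one_le hy2
    calc |Real.exp y - 1| ≤ 2*|y| := this
      _ ≤ 2*(3/2*|a|/κ) := by linarith
      _ = 3*|a|/κ := by ring
  have ha2 : |a|/2 ≤ |Real.exp (-a) - 1| := by
    have := exp_lower (-a) (by rw [abs_neg]; linarith)
    rwa [abs_neg] at this
  have h5 : |Real.exp y - 1| ≤ 6/κ * |Real.exp (-a) - 1| := by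
    refine le_trans hy3 ?_
    have : 3*|a|/κ = 6/κ * (|a|/2) := by ring
    rw [this]
    exact mul_le_mul_of_nonneg_left ha2 (by positivity)
  have h6 : (Real.exp y - 1)^2 ≤ 36/κ^2 * (Real.exp (-a) - 1)^2 := by
    rw [← sq_abs (Real.exp y - 1), ← sq_abs (Real.exp (-a) - 1)]
    calc |Real.exp y - 1|^2 ≤ (6/κ * |Real.exp (-a) - 1|)^2 := pow_le_pow_left₀ (abs_nonneg _) h5 2
      _ = _ := by ring
  rw [e1, e2]
  have e3 : (G0 τ κ m m' * Real.exp (-((l':ℝ)*τ)) * Real.exp y - Real.exp (-((l':ℝ)*τ)) * G0 τ κ m m')^2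
      = (G0 τ κ m m')^2 * (Real.exp (-((l':ℝ)*τ)))^2 * (Real.exp y - 1)^2 := by ring
  have e4 : 36/κ^2 * (Real.exp (-((l':ℝ)*τ)) * Real.exp (-a) - Real.exp (-((l':ℝ)*τ)))^2 * (G0 τ κ m m')^2
      = (G0 τ κ m m')^2 * (Real.exp (-((l':ℝ)*τ)))^2 * (36/κ^2 * (Real.exp (-a) - 1)^2) := by ring
  rw [e3, e4]
  exact mul_le_mul_of_nonneg_left h6 (by positivity)

lemma shift1 (J L l : ℕ) (hl : l ≤ L) (f : ℕ → ℝ) (hf : ∀ j, 0 ≤ f j) :
    ∑ m ∈ range J, f (m+l) ≤ ∑ j ∈ range (J+L), (if l ≤ j then f j else 0) := by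
  rw [← Finset.sum_filter]
  have h : ∑ m ∈ range J, f (m+l) = ∑ j ∈ Finset.Ico l (l+J), f j := by
    rw [Finset.sum_Ico_eq_sum_range]
    have : l + J - l = J := by omega
    rw [this]
    exact Finset.sum_congr rfl (fun m _ => by rw [add_comm])
  rw [h]
  apply Finset.sum_le_sum_of_subset_of_nonneg
  · intro x; simp; omega
  · intros; exact hf _

lemma shift2 (J L l l' : ℕ) (hl : l ≤ L) (hl' : l' ≤ L) :
    ∑ m ∈ range J, ∑ m' ∈ range J, (G0 τ κ (m+l) (m'+l'))^2 ≤ NN τ κ (J+L) (max l l') := by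
  unfold NN
  calc ∑ m ∈ range J, ∑ m' ∈ range J, (G0 τ κ (m+l) (m'+l'))^2
      ≤ ∑ m ∈ range J, ∑ j' ∈ range (J+L), (if l' ≤ j' then (G0 τ κ (m+l) j')^2 else 0) :=
        Finset.sum_le_sum (fun m _ => shift1 J L l' hl' (fun j' => (G0 τ κ (m+l) j')^2) (fun _ => by positivity))
    _ ≤ ∑ j ∈ range (J+L), (if l ≤ j then ∑ j' ∈ range (J+L), (if l' ≤ j' then (G0 τ κ j j')^2 else 0) else 0) :=
        shift1 J L l hl (fun j => ∑ j' ∈ range (J+L), (if l' ≤ j' then (G0 τ κ j j')^2 else 0))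
          (fun j => Finset.sum_nonneg (fun j' _ => by split_ifs <;> positivity))
    _ ≤ _ := by
        refine Finset.sum_le_sum (fun j _ => ?_)
        split_ifs with h
        · refine Finset.sum_le_sum (fun j' _ => ?_)
          by_cases h' : l' ≤ j'
          · rw [if_pos h', if_pos]
            rcases le_total l l' with h2 | h2
            · right; rw [max_eq_right h2]; exact h'
            · left; rw [max_eq_left h2]; exact h
          · rw [if_neg h']; split_ifs <;> positivity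
        · exact Finset.sum_nonneg (fun j' _ => by split_ifs <;> positivity)

lemma far (hτ : 0 < τ) (hκ : 0 < κ) (hκ1 : κ ≤ 1) (J L l l' : ℕ) (hl : l ≤ L) (hl' : l' ≤ L)
    (h : κ/2 < |((l:ℝ)-(l':ℝ))*τ|) (hZ : Zinf τ κ ≤ 2 * ZZ τ κ J) :
    ∑ m ∈ range J, ∑ m' ∈ range J, (G0 τ κ (m+l) (m'+l') - Real.exp (-((l':ℝ)*τ)) * G0 τ κ m m')^2
      ≤ 1000/κ^2 * (Real.exp (-((l:ℝ)*τ)) - Real.exp (-((l':ℝ)*τ)))^2 * ZZ τ κ J := by
  have hZ0 : 0 ≤ ZZ τ κ J := Finset.sum_nonneg (fun _ _ => Finset.sum_nonneg (fun _ _ => by positivity))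
  have hE := EE_pos τ
  have hE1 := EE_lt τ hτ
  have hZi := Zinf_pos τ κ hτ hκ
  have hEl : (Real.exp (-((l':ℝ)*τ)))^2 = (EE τ)^l' := by
    unfold EE
    rw [← Real.exp_nat_mul, ← Real.exp_nat_mul]; congr 1; push_cast; ring
  have s1 : ∑ m ∈ range J, ∑ m' ∈ range J, (G0 τ κ (m+l) (m'+l') - Real.exp (-((l':ℝ)*τ)) * G0 τ κ m m')^2
      ≤ ∑ m ∈ range J, ∑ m' ∈ range J, (2*(G0 τ κ (m+l) (m'+l'))^2 + 2*(EE τ)^l' * (G0 τ κ m m')^2) := by
    refine Finset.sum_le_sum (fun m _ => Finset.sum_le_sum (fun m' _ => ?_))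
    rw [← hEl]
    nlinarith [sq_nonneg (G0 τ κ (m+l) (m'+l') + Real.exp (-((l':ℝ)*τ)) * G0 τ κ m m')]
  have s2 : ∑ m ∈ range J, ∑ m' ∈ range J, (2*(G0 τ κ (m+l) (m'+l'))^2 + 2*(EE τ)^l' * (G0 τ κ m m')^2)
      = 2 * (∑ m ∈ range J, ∑ m' ∈ range J, (G0 τ κ (m+l) (m'+l'))^2) + 2*(EE τ)^l' * ZZ τ κ J := by
    unfold ZZ
    simp only [Finset.sum_add_distrib, Finset.mul_sum]
  have s3 := shift2 τ κ J L l l' hl hl'
  have s4 := NN_le' τ κ hτ hκ hκ1 (J+L) (max l l')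
  have s5 : (EE τ)^(max l l') ≤ (EE τ)^l' := pow_le_pow_of_le_one hE.le hE1.le (le_max_right _ _)
  have s6 : (1+8*κ) * (EE τ)^(max l l') * Zinf τ κ ≤ 9 * (EE τ)^l' * (2 * ZZ τ κ J) := by
    have : (1+8*κ) ≤ 9 := by linarith
    gcongr
  have hx := exp_lower2 κ (((l:ℝ)-(l':ℝ))*τ) hκ hκ1 h
  have e2 : Real.exp (-((l:ℝ)*τ)) = Real.exp (-((l':ℝ)*τ)) * Real.exp (-(((l:ℝ)-(l':ℝ))*τ)) := by
    rw [← Real.exp_add]; congr 1; ring
  have s7 : 40 * (EE τ)^l' ≤ 1000/κ^2 * (Real.exp (-((l:ℝ)*τ)) - Real.exp (-((l':ℝ)*τ)))^2 := by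
    rw [e2]
    have e3 : 1000/κ^2 * (Real.exp (-((l':ℝ)*τ)) * Real.exp (-(((l:ℝ)-(l':ℝ))*τ)) - Real.exp (-((l':ℝ)*τ)))^2
      = (EE τ)^l' * (1000/κ^2 * (Real.exp (-(((l:ℝ)-(l':ℝ))*τ)) - 1)^2) := by
      rw [← hEl]; ring
    rw [e3, mul_comm 40]
    apply mul_le_mul_of_nonneg_left _ (by positivity)
    have h1 : (κ/4)^2 ≤ (Real.exp (-(((l:ℝ)-(l':ℝ))*τ)) - 1)^2 := by
      rw [← sq_abs (Real.exp (-(((l:ℝ)-(l':ℝ))*τ)) - 1)]
      exact pow_le_pow_left₀ (by positivity) hx 2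
    calc (40:ℝ) ≤ 1000/κ^2 * (κ/4)^2 := by
          have : 1000/κ^2 * (κ/4)^2 = 1000/16 := by field_simp; norm_num
          rw [this]; norm_num
      _ ≤ _ := mul_le_mul_of_nonneg_left h1 (by positivity)
  have s8 : 40 * (EE τ)^l' * ZZ τ κ J ≤ 1000/κ^2 * (Real.exp (-((l:ℝ)*τ)) - Real.exp (-((l':ℝ)*τ)))^2 * ZZ τ κ J :=
    mul_le_mul_of_nonneg_right s7 hZ0
  have s9 : 0 ≤ (EE τ)^l' * ZZ τ κ J := by positivity
  nlinarith [s1, s2, s3, s4, s6, s8, s9]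

end

open Real in
theorem main : ∃ C : ℝ, 0 < C ∧ ∀ κ : ℝ, 0 < κ → κ ≤ 1 → ∀ η : ℝ, 0 < η → ∀ τ : ℝ, 0 < τ → ∀ L : ℕ,
    ∃ (J : ℕ) (G : ℕ → ℕ → ℝ),
      (∀ j j', 0 ≤ G j j') ∧ (∀ j j', (J ≤ j ∨ J ≤ j') → G j j' = 0) ∧
      (∑ j ∈ range J, ∑ j' ∈ range J, (G j j')^2 = 1) ∧
      (∀ l ≤ L, ∀ l' ≤ L, ∑ m ∈ range J, ∑ m' ∈ range J,
        (G (m+l) (m'+l') - Real.exp (-((l':ℝ)*τ)) * G m m')^2
          ≤ C/κ^2 * (Real.exp (-((l:ℝ)*τ)) - Real.exp (-((l':ℝ)*τ)))^2 + η) ∧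
      (∀ l l' : ℕ, ∑ j ∈ range J, ∑ j' ∈ range J, (if l ≤ j ∨ l' ≤ j' then (G j j')^2 else 0)
          ≤ (1 + C*κ) * max (Real.exp (-(2*(l:ℝ)*τ))) (Real.exp (-(2*(l':ℝ)*τ))) + η) ∧
      (∀ l : ℕ, ∑ j ∈ range J, ∑ j' ∈ range J, (if l ≤ j then (G j j')^2 else 0)
          ≤ (1 + C*κ) * Real.exp (-(2*(l:ℝ)*τ)) + η) ∧
      (∀ l : ℕ, ∑ j ∈ range J, ∑ j' ∈ range J, (if l ≤ j' then (G j j')^2 else 0)
          ≤ (1 + C*κ) * Real.exp (-(2*(l:ℝ)*τ)) + η) := by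
  refine ⟨1000, by norm_num, fun κ hκ hκ1 η hη τ hτ L => ?_⟩
  set ε := min (η/40) 1 with hε
  have hε0 : 0 < ε := by rw [hε]; positivity
  have hε1 : ε ≤ 1 := min_le_right _ _
  have hε2 : ε ≤ η/40 := min_le_left _ _
  obtain ⟨J, hLJ, hZ, hEJ⟩ := ZZ_eventually τ κ hτ hκ hκ1 ε hε0 L
  have hZi := Zinf_pos τ κ hτ hκ
  have hE := EE_pos τ
  have hE1 := EE_lt τ hτ
  have hZpos : 0 < ZZ τ κ J := by
    by_contra hcon
    rw [not_lt] at hcon
    have : (1+ε) * ZZ τ κ J ≤ 0 := mul_nonpos_of_nonneg_of_nonpos (by linarith) hcon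
    linarith
  have hZ2 : Zinf τ κ ≤ 2 * ZZ τ κ J := by nlinarith
  have hEexp : ∀ l : ℕ, (EE τ)^l = Real.exp (-(2*(l:ℝ)*τ)) := by
    intro l; unfold EE; rw [← Real.exp_nat_mul]; congr 1; ring
  set s := Real.sqrt (ZZ τ κ J) with hs
  have hs2 : s^2 = ZZ τ κ J := Real.sq_sqrt hZpos.le
  have hspos : 0 < s := Real.sqrt_pos.2 hZpos
  let G : ℕ → ℕ → ℝ := fun j j' => if j < J ∧ j' < J then G0 τ κ j j' / s else 0
  have hGsq : ∀ j j', j < J → j' < J → (G j j')^2 = (G0 τ κ j j')^2 / ZZ τ κ J := by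
    intro j j' h1 h2
    simp only [G]
    rw [if_pos ⟨h1, h2⟩, div_pow, hs2]
  -- general tail
  have tail : ∀ (P : ℕ → ℕ → Prop) [∀ a b, Decidable (P a b)] (l : ℕ), (∀ j j', P j j' → (l ≤ j ∨ l ≤ j')) →
      ∑ j ∈ range J, ∑ j' ∈ range J, (if P j j' then (G j j')^2 else 0)
        ≤ (1 + 1000*κ) * Real.exp (-(2*(l:ℝ)*τ)) + η := by
    intro P _ l hP
    have h1 : ∑ j ∈ range J, ∑ j' ∈ range J, (if P j j' then (G j j')^2 else 0) ≤ NN τ κ J l / ZZ τ κ J := by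
      unfold NN
      rw [Finset.sum_div]
      refine Finset.sum_le_sum (fun j hj => ?_)
      rw [Finset.sum_div]
      refine Finset.sum_le_sum (fun j' hj' => ?_)
      have hj := Finset.mem_range.1 hj
      have hj' := Finset.mem_range.1 hj'
      by_cases h : P j j'
      · rw [if_pos h, if_pos (hP j j' h), hGsq j j' hj hj']
      · rw [if_neg h]; split_ifs <;> positivity
    have h2 := NN_le' τ κ hτ hκ hκ1 J l
    have h3 : NN τ κ J l / ZZ τ κ J ≤ (1+8*κ) * (EE τ)^l * (1+ε) := by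
      rw [div_le_iff₀ hZpos]
      calc NN τ κ J l ≤ (1+8*κ) * (EE τ)^l * Zinf τ κ := h2
        _ ≤ (1+8*κ) * (EE τ)^l * ((1+ε) * ZZ τ κ J) := mul_le_mul_of_nonneg_left hZ (by positivity)
        _ = _ := by ring
    have h4 : (EE τ)^l ≤ 1 := pow_le_one₀ hE.le hE1.le
    have h5 : 0 < (EE τ)^l := by positivity
    rw [← hEexp]
    refine le_trans h1 (le_trans h3 ?_)
    have h6 : (1+8*κ) * (EE τ)^l * (1+ε) = (1+8*κ) * (EE τ)^l + (1+8*κ) * (EE τ)^l * ε := by ring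
    have h7 : (1+8*κ) * (EE τ)^l * ε ≤ 9 * 1 * ε := by
      apply mul_le_mul_of_nonneg_right _ hε0.le
      apply mul_le_mul (by linarith) h4 h5.le (by norm_num)
    have h8 : (1+8*κ) * (EE τ)^l ≤ (1+1000*κ) * (EE τ)^l := by
      apply mul_le_mul_of_nonneg_right _ h5.le
      nlinarith
    rw [h6]
    linarith
  refine ⟨J, G, ?_, ?_, ?_, ?_, ?_, ?_, ?_⟩
  · intro j j'
    simp only [G]
    split_ifs
    · exact div_nonneg (G0_pos _ _ _ _).le hspos.le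
    · exact le_rfl
  · intro j j' h
    simp only [G]
    rw [if_neg (by omega)]
  · have : ∑ j ∈ range J, ∑ j' ∈ range J, (G j j')^2 = ZZ τ κ J / ZZ τ κ J := by
      conv_rhs => arg 1; unfold ZZ
      rw [Finset.sum_div]
      refine Finset.sum_congr rfl (fun j hj => ?_)
      rw [Finset.sum_div]
      exact Finset.sum_congr rfl (fun j' hj' => hGsq j j' (Finset.mem_range.1 hj) (Finset.mem_range.1 hj'))
    rw [this, div_self hZpos.ne']
  · intro l hl l' hl'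
    have hEl : (Real.exp (-((l':ℝ)*τ)))^2 ≤ 1 := by
      have : Real.exp (-((l':ℝ)*τ)) ≤ 1 := by
        rw [Real.exp_le_one_iff]; have : (0:ℝ) ≤ l' := Nat.cast_nonneg _; nlinarith
      exact pow_le_one₀ (Real.exp_pos _).le this
    have h1 : ∑ m ∈ range J, ∑ m' ∈ range J, (G (m+l) (m'+l') - Real.exp (-((l':ℝ)*τ)) * G m m')^2
        ≤ (∑ m ∈ range J, ∑ m' ∈ range J, (G0 τ κ (m+l) (m'+l') - Real.exp (-((l':ℝ)*τ)) * G0 τ κ m m')^2
            + NN τ κ J (J-L)) / ZZ τ κ J := by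
      unfold NN
      rw [← Finset.sum_add_distrib, Finset.sum_div]
      refine Finset.sum_le_sum (fun m hm => ?_)
      rw [← Finset.sum_add_distrib, Finset.sum_div]
      refine Finset.sum_le_sum (fun m' hm' => ?_)
      have hm := Finset.mem_range.1 hm
      have hm' := Finset.mem_range.1 hm'
      rw [le_div_iff₀ hZpos, ← hs2]
      simp only [G]
      rw [if_pos (⟨hm, hm'⟩ : m < J ∧ m' < J)]
      by_cases h : m + l < J ∧ m' + l' < J
      · rw [if_pos h]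
        have e : (G0 τ κ (m+l) (m'+l') / s - Real.exp (-((l':ℝ)*τ)) * (G0 τ κ m m' / s))^2 * s^2
            = (G0 τ κ (m+l) (m'+l') - Real.exp (-((l':ℝ)*τ)) * G0 τ κ m m')^2 := by
          field_simp
        rw [e]
        have : 0 ≤ (if J - L ≤ m ∨ J - L ≤ m' then (G0 τ κ m m')^2 else 0) := by split_ifs <;> positivity
        linarith
      · rw [if_neg h, if_pos (by omega : J - L ≤ m ∨ J - L ≤ m')]
        have e : (0 - Real.exp (-((l':ℝ)*τ)) * (G0 τ κ m m' / s))^2 * s^2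
            = (Real.exp (-((l':ℝ)*τ)))^2 * (G0 τ κ m m')^2 := by
          field_simp
          ring
        rw [e]
        have h2 : (Real.exp (-((l':ℝ)*τ)))^2 * (G0 τ κ m m')^2 ≤ 1 * (G0 τ κ m m')^2 :=
          mul_le_mul_of_nonneg_right hEl (by positivity)
        have h3 : 0 ≤ (G0 τ κ (m+l) (m'+l') - Real.exp (-((l':ℝ)*τ)) * G0 τ κ m m')^2 := by positivity
        linarith
    have h2 : ∑ m ∈ range J, ∑ m' ∈ range J, (G0 τ κ (m+l) (m'+l') - Real.exp (-((l':ℝ)*τ)) * G0 τ κ m m')^2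
        ≤ 1000/κ^2 * (Real.exp (-((l:ℝ)*τ)) - Real.exp (-((l':ℝ)*τ)))^2 * ZZ τ κ J := by
      by_cases hc : |((l:ℝ)-(l':ℝ))*τ| ≤ κ/2
      · calc ∑ m ∈ range J, ∑ m' ∈ range J, (G0 τ κ (m+l) (m'+l') - Real.exp (-((l':ℝ)*τ)) * G0 τ κ m m')^2
            ≤ ∑ m ∈ range J, ∑ m' ∈ range J, 36/κ^2 * (Real.exp (-((l:ℝ)*τ)) - Real.exp (-((l':ℝ)*τ)))^2 * (G0 τ κ m m')^2 :=
              Finset.sum_le_sum (fun m _ => Finset.sum_le_sum (fun m' _ => close τ κ hτ hκ hκ1 l l' m m' hc))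
          _ = 36/κ^2 * (Real.exp (-((l:ℝ)*τ)) - Real.exp (-((l':ℝ)*τ)))^2 * ZZ τ κ J := by
              unfold ZZ; simp only [Finset.mul_sum]
          _ ≤ _ := by
              apply mul_le_mul_of_nonneg_right _ hZpos.le
              apply mul_le_mul_of_nonneg_right _ (by positivity)
              apply div_le_div_of_nonneg_right (by norm_num) (by positivity)
      · exact far τ κ hτ hκ hκ1 J L l l' hl hl' (not_le.1 hc) hZ2
    have h3 : NN τ κ J (J-L) ≤ η * ZZ τ κ J := by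
      calc NN τ κ J (J-L) ≤ (1+8*κ) * (EE τ)^(J-L) * Zinf τ κ := NN_le' τ κ hτ hκ hκ1 J (J-L)
        _ ≤ 9 * ε * (2 * ZZ τ κ J) := by
            have : 1+8*κ ≤ 9 := by linarith
            gcongr
        _ ≤ η * ZZ τ κ J := by nlinarith
    refine le_trans h1 ?_
    rw [div_le_iff₀ hZpos]
    linarith
  · intro l l'
    have := tail (fun j j' => l ≤ j ∨ l' ≤ j') (min l l') (by
      intro j j' h
      rcases h with h | h
      · left; exact le_trans (min_le_left _ _) h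
      · right; exact le_trans (min_le_right _ _) h)
    refine le_trans this ?_
    have hm : Real.exp (-(2*((min l l' : ℕ):ℝ)*τ)) ≤ max (Real.exp (-(2*(l:ℝ)*τ))) (Real.exp (-(2*(l':ℝ)*τ))) := by
      rcases le_total l l' with h | h
      · rw [min_eq_left h]; exact le_max_left _ _
      · rw [min_eq_right h]; exact le_max_right _ _
    have : (1+1000*κ) * Real.exp (-(2*((min l l' : ℕ):ℝ)*τ)) ≤ (1+1000*κ) * max (Real.exp (-(2*(l:ℝ)*τ))) (Real.exp (-(2*(l':ℝ)*τ))) :=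
      mul_le_mul_of_nonneg_left hm (by positivity)
    linarith
  · intro l
    exact tail (fun j _ => l ≤ j) l (fun j j' h => Or.inl h)
  · intro l
    exact tail (fun _ j' => l ≤ j') l (fun j j' h => Or.inr h)

end Crest.Agent.H8PRReg
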