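import Mathlib

set_option autoImplicit false

/-!
Part A of the permanence proof: admissible sequences ("hierarchical roundings").
-/

namespace Crest.Agent.H8PermA

open Finset

/-- prefix sum of an integer combination -/
noncomputable def ps (z : ℕ → ℤ) (v : ℕ → ℝ) (k : ℕ) : ℝ :=
  ∑ l ∈ range (k + 1), (z l : ℝ) * v l

/-- `t` is a locked value at position `k+1`, given the prefix `v 0, ..., v k`. -/
def LockVal (D : ℕ → ℕ) (v : ℕ → ℝ) (k : ℕ) (t : ℝ) : Prop :=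
  ∃ z : ℕ → ℤ, (∀ l, |z l| ≤ (D (k + 1) : ℤ)) ∧ z (k + 1) ≠ 0 ∧
    ps z v k + (z (k + 1) : ℝ) * t = 0

open Classical in
/-- the error scale after position `j` -/
noncomputable def EE (D Γ : ℕ → ℕ) (μ : ℕ) (v : ℕ → ℝ) : ℕ → ℕ
  | 0 => μ
  | (j + 1) => if LockVal D v j (v (j + 1)) then Γ (j + 1) * EE D Γ μ v j else EE D Γ μ v j

/-- `t` is a free value at position `k+1`. -/
def FreeVal (D Γ : ℕ → ℕ) (μ : ℕ) (v : ℕ → ℝ) (k : ℕ) (t : ℝ) : Prop :=
  ∀ z : ℕ → ℤ, (∀ l, |z l| ≤ (D (k + 1) : ℤ)) → z (k + 1) ≠ 0 →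
    (Γ (k + 1) : ℝ) * (EE D Γ μ v k : ℝ) ≤ |ps z v k + (z (k + 1) : ℝ) * t|

/-- the numerical hypotheses on the parameters -/
structure Good (D Γ : ℕ → ℕ) (n : ℕ) : Prop where
  D1 : ∀ j, 1 ≤ D j
  D0 : ∀ j, D j ≤ D 0
  DD : ∀ j, j + 1 < n → 2 * D (j + 1) ^ 2 ≤ D j
  G4 : ∀ j, 4 ≤ Γ j
  GG : ∀ j, j + 1 < n → 2 * D (j + 1) ^ 2 * Γ (j + 1) ^ 2 ≤ Γ j

/-- valid sequences of length `m` with leading value `a` -/
structure Valid (D Γ : ℕ → ℕ) (μ : ℕ) (m : ℕ) (a : ℤ) (B : ℕ) (v : ℕ → ℝ) : Prop where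
  lead : v 0 = a
  anti : ∀ j, j + 1 < m → v (j + 1) ≤ v j
  low : ∀ j, j < m → -(B : ℝ) ≤ v j
  grid : ∀ j, j < m → ∃ n : ℤ, v j * ((D 0).factorial : ℝ) ^ j = n
  adm : ∀ j, j + 1 < m → LockVal D v j (v (j + 1)) ∨ FreeVal D Γ μ v j (v (j + 1))
  zero : ∀ j, m ≤ j → v j = 0

variable {D Γ : ℕ → ℕ} {μ m n : ℕ} {a : ℤ} {B : ℕ}

lemma ps_congr {z : ℕ → ℤ} {v w : ℕ → ℝ} {k : ℕ} (h : ∀ l, l ≤ k → v l = w l) :
    ps z v k = ps z w k := by
  unfold ps
  refine Finset.sum_congr rfl fun l hl => ?_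
  rw [h l (by simpa [Nat.lt_succ_iff] using hl)]

lemma ps_succ (z : ℕ → ℤ) (v : ℕ → ℝ) (k : ℕ) :
    ps z v (k + 1) = ps z v k + (z (k + 1) : ℝ) * v (k + 1) := by
  unfold ps
  rw [Finset.sum_range_succ _ (k + 1)]

lemma lockVal_congr {v w : ℕ → ℝ} {k : ℕ} {t : ℝ} (h : ∀ l, l ≤ k → v l = w l) :
    LockVal D v k t ↔ LockVal D w k t := by
  unfold LockVal
  constructor
  · rintro ⟨z, h1, h2, h3⟩
    exact ⟨z, h1, h2, by rw [← ps_congr h]; exact h3⟩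
  · rintro ⟨z, h1, h2, h3⟩
    exact ⟨z, h1, h2, by rw [ps_congr h]; exact h3⟩

lemma EE_congr {v w : ℕ → ℝ} {k : ℕ} (h : ∀ l, l ≤ k → v l = w l) :
    EE D Γ μ v k = EE D Γ μ w k := by
  induction k with
  | zero => rfl
  | succ k ih =>
    have h' : ∀ l, l ≤ k → v l = w l := fun l hl => h l (by omega)
    have ih' := ih h'
    unfold EE
    rw [ih', h (k + 1) le_rfl]
    by_cases hl : LockVal D v k (w (k + 1))
    · rw [if_pos hl, if_pos ((lockVal_congr h').1 hl)]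
    · rw [if_neg hl, if_neg (fun hh => hl ((lockVal_congr h').2 hh))]

lemma freeVal_congr {v w : ℕ → ℝ} {k : ℕ} {t : ℝ} (h : ∀ l, l ≤ k → v l = w l) :
    FreeVal D Γ μ v k t ↔ FreeVal D Γ μ w k t := by
  unfold FreeVal
  rw [EE_congr h]
  constructor
  · intro H z h1 h2
    rw [← ps_congr h]; exact H z h1 h2
  · intro H z h1 h2
    rw [ps_congr h]; exact H z h1 h2

lemma EE_lock {v : ℕ → ℝ} {k : ℕ} (h : LockVal D v k (v (k + 1))) :
    EE D Γ μ v (k + 1) = Γ (k + 1) * EE D Γ μ v k := by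
  rw [EE]; rw [if_pos h]

lemma EE_notlock {v : ℕ → ℝ} {k : ℕ} (h : ¬ LockVal D v k (v (k + 1))) :
    EE D Γ μ v (k + 1) = EE D Γ μ v k := by
  rw [EE]; rw [if_neg h]

lemma EE_le_succ (hg : Good D Γ n) (v : ℕ → ℝ) (k : ℕ) :
    EE D Γ μ v k ≤ EE D Γ μ v (k + 1) := by
  by_cases h : LockVal D v k (v (k + 1))
  · rw [EE_lock h]
    have := hg.G4 (k + 1)
    nlinarith [Nat.zero_le (EE D Γ μ v k)]
  · rw [EE_notlock h]

lemma EE_mono (hg : Good D Γ n) (v : ℕ → ℝ) : Monotone (EE D Γ μ v) :=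
  monotone_nat_of_le_succ (EE_le_succ hg v)

lemma EE_pos (hg : Good D Γ n) (hμ : 1 ≤ μ) (v : ℕ → ℝ) (k : ℕ) : 1 ≤ EE D Γ μ v k := by
  have := EE_mono (μ := μ) hg v (Nat.zero_le k)
  have h0 : EE D Γ μ v 0 = μ := rfl
  omega

lemma EE_ge (hg : Good D Γ n) (v : ℕ → ℝ) (k : ℕ) : μ ≤ EE D Γ μ v k := by
  have := EE_mono (μ := μ) hg v (Nat.zero_le k)
  have h0 : EE D Γ μ v 0 = μ := rfl
  omega

lemma not_lock_of_free (hg : Good D Γ n) (hμ : 1 ≤ μ) {v : ℕ → ℝ} {k : ℕ} {t : ℝ}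
    (h : FreeVal D Γ μ v k t) : ¬ LockVal D v k t := by
  rintro ⟨z, h1, h2, h3⟩
  have := h z h1 h2
  rw [h3, abs_zero] at this
  have h4 : (4 : ℝ) ≤ Γ (k + 1) := by exact_mod_cast hg.G4 (k + 1)
  have h5 : (1 : ℝ) ≤ EE D Γ μ v k := by exact_mod_cast EE_pos hg hμ v k
  nlinarith

/-- the gap property at position `k` -/
def GapAt (D Γ : ℕ → ℕ) (μ : ℕ) (v : ℕ → ℝ) (k : ℕ) : Prop :=
  ∀ z : ℕ → ℤ, (∀ l, |z l| ≤ (D k : ℤ)) → ps z v k ≠ 0 →
    (Γ k : ℝ) * (EE D Γ μ v k : ℝ) ≤ |ps z v k|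

lemma elim_bound {k : ℕ} {z w : ℕ → ℤ} (hg : Good D Γ n) (hk : k + 1 < n)
    (hz : ∀ l, |z l| ≤ (D (k + 1) : ℤ)) (hw : ∀ l, |w l| ≤ (D (k + 1) : ℤ)) (l : ℕ) :
    |z (k + 1) * w l - w (k + 1) * z l| ≤ (D k : ℤ) := by
  have h1 := hz (k + 1)
  have h2 := hw l
  have h3 := hw (k + 1)
  have h4 := hz l
  have hD : (2 * (D (k + 1) : ℤ) ^ 2) ≤ D k := by exact_mod_cast hg.DD k hk
  have e1 : |z (k + 1) * w l| ≤ (D (k + 1) : ℤ) * D (k + 1) := by
    rw [abs_mul]; exact mul_le_mul h1 h2 (abs_nonneg _) (by positivity)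
  have e2 : |w (k + 1) * z l| ≤ (D (k + 1) : ℤ) * D (k + 1) := by
    rw [abs_mul]; exact mul_le_mul h3 h4 (abs_nonneg _) (by positivity)
  calc |z (k + 1) * w l - w (k + 1) * z l| ≤ |z (k + 1) * w l| + |w (k + 1) * z l| := abs_sub _ _
    _ ≤ D k := by nlinarith

lemma ps_elim (z w : ℕ → ℤ) (c e : ℤ) (v : ℕ → ℝ) (k : ℕ) :
    ps (fun l => c * w l - e * z l) v k = c * ps w v k - e * ps z v k := by
  unfold ps
  rw [Finset.mul_sum, Finset.mul_sum, ← Finset.sum_sub_distrib]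
  refine Finset.sum_congr rfl fun l _ => ?_
  push_cast; ring

lemma gap (hg : Good D Γ n) (hmn : m ≤ n) {v : ℕ → ℝ} (hv : Valid D Γ μ m a B v)
    (ha : (Γ 0 : ℝ) * μ ≤ |(a : ℝ)|) : ∀ k, k < m → GapAt D Γ μ v k := by
  intro k
  induction k with
  | zero =>
    intro _ z hz hne
    have h0 : ps z v 0 = (z 0 : ℝ) * a := by simp [ps, hv.lead]
    rw [h0] at hne ⊢
    have hz0 : z 0 ≠ 0 := by
      intro h; apply hne; rw [h]; simp
    have : (1 : ℝ) ≤ |(z 0 : ℝ)| := by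
      have : (1 : ℤ) ≤ |z 0| := Int.one_le_abs hz0
      exact_mod_cast this
    rw [abs_mul]
    have h1 : EE D Γ μ v 0 = μ := rfl
    rw [h1]
    nlinarith [abs_nonneg (a : ℝ)]
  | succ k ih =>
    intro hk z hz hne
    have ihk := ih (by omega)
    have hD : (2 * (D (k + 1) : ℝ) ^ 2) ≤ D k := by exact_mod_cast hg.DD k (by omega)
    have hG : 2 * (D (k + 1) : ℝ) ^ 2 * (Γ (k + 1) : ℝ) ^ 2 ≤ Γ k := by
      exact_mod_cast hg.GG k (by omega)
    have hD1 : (1 : ℝ) ≤ D (k + 1) := by exact_mod_cast hg.D1 (k + 1)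
    have hG4 : (4 : ℝ) ≤ Γ (k + 1) := by exact_mod_cast hg.G4 (k + 1)
    have hE0 : (0 : ℝ) ≤ EE D Γ μ v k := by positivity
    by_cases hz0 : z (k + 1) = 0
    · rw [ps_succ, hz0] at hne ⊢
      simp only [Int.cast_zero, zero_mul, add_zero] at hne ⊢
      have hz' : ∀ l, |z l| ≤ (D k : ℤ) := by
        intro l
        refine (hz l).trans ?_
        have h2 := hg.DD k (by omega)
        have h3 := hg.D1 (k + 1)
        have : D (k + 1) ≤ D k := by nlinarith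
        exact_mod_cast this
      have h1 := ihk z hz' hne
      have h2 : (EE D Γ μ v (k + 1) : ℝ) ≤ Γ (k + 1) * EE D Γ μ v k := by
        by_cases h : LockVal D v k (v (k + 1))
        · rw [EE_lock h]; push_cast; exact le_rfl
        · rw [EE_notlock h]; nlinarith
      calc (Γ (k + 1) : ℝ) * EE D Γ μ v (k + 1) ≤ Γ (k + 1) * (Γ (k + 1) * EE D Γ μ v k) :=
            mul_le_mul_of_nonneg_left h2 (by linarith)
        _ = (Γ (k + 1)) ^ 2 * EE D Γ μ v k := by ring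
        _ ≤ (Γ k : ℝ) * EE D Γ μ v k := by
            apply mul_le_mul_of_nonneg_right _ hE0
            have : (1 : ℝ) ≤ 2 * (D (k + 1) : ℝ) ^ 2 := by nlinarith
            nlinarith [sq_nonneg (Γ (k + 1) : ℝ)]
        _ ≤ |ps z v k| := h1
    · rcases hv.adm k hk with hl | hf
      · have hl' := hl
        obtain ⟨w, hw, hw0, hwe⟩ := hl
        rw [EE_lock hl']
        set u : ℕ → ℤ := fun l => w (k + 1) * z l - z (k + 1) * w l with hu
        have hub : ∀ l, |u l| ≤ (D k : ℤ) := fun l => elim_bound hg (by omega) hw hz l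
        have hue : ps u v k = (w (k + 1) : ℝ) * ps z v (k + 1) := by
          rw [hu, ps_elim, ps_succ]
          linear_combination -(z (k + 1) : ℝ) * hwe
        have hw0' : (w (k + 1) : ℝ) ≠ 0 := by exact_mod_cast hw0
        have h1 := ihk u hub (by rw [hue]; exact mul_ne_zero hw0' hne)
        rw [hue, abs_mul] at h1
        have h2 : |(w (k + 1) : ℝ)| ≤ D (k + 1) := by
          have := hw (k + 1)
          exact_mod_cast this
        have h3 : (Γ k : ℝ) * EE D Γ μ v k ≤ D (k + 1) * |ps z v (k + 1)| :=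
          h1.trans (mul_le_mul_of_nonneg_right h2 (abs_nonneg _))
        push_cast
        have h4 : 2 * (D (k + 1) : ℝ) ^ 2 * (Γ (k + 1) : ℝ) ^ 2 * EE D Γ μ v k
            ≤ D (k + 1) * |ps z v (k + 1)| :=
          (mul_le_mul_of_nonneg_right hG hE0).trans h3
        have h5 : (D (k + 1) : ℝ) * (2 * (D (k + 1) : ℝ) * (Γ (k + 1) : ℝ) ^ 2 * EE D Γ μ v k)
            ≤ D (k + 1) * |ps z v (k + 1)| := by
          calc _ = 2 * (D (k + 1) : ℝ) ^ 2 * (Γ (k + 1) : ℝ) ^ 2 * EE D Γ μ v k := by ring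
            _ ≤ _ := h4
        have h6 := le_of_mul_le_mul_left h5 (by linarith)
        calc (Γ (k + 1) : ℝ) * (Γ (k + 1) * EE D Γ μ v k)
            = 1 * ((Γ (k + 1) : ℝ) ^ 2 * EE D Γ μ v k) := by ring
          _ ≤ (2 * (D (k + 1) : ℝ)) * ((Γ (k + 1) : ℝ) ^ 2 * EE D Γ μ v k) := by
              apply mul_le_mul_of_nonneg_right _ (by positivity)
              linarith
          _ = 2 * (D (k + 1) : ℝ) * (Γ (k + 1) : ℝ) ^ 2 * EE D Γ μ v k := by ring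
          _ ≤ _ := h6
      · by_cases hl : LockVal D v k (v (k + 1))
        · -- impossible or handle: use freeness with the locking vector
          obtain ⟨w, hw, hw0, hwe⟩ := hl
          have h0 := hf w hw hw0
          rw [hwe, abs_zero] at h0
          have h1 : (EE D Γ μ v k : ℝ) = 0 := by nlinarith
          rw [EE_lock ⟨w, hw, hw0, hwe⟩]
          push_cast
          rw [h1]; simp
        · rw [EE_notlock hl, ps_succ]
          exact hf z hz hz0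

/-- Separation of thresholds. -/
lemma sep (hg : Good D Γ n) {v : ℕ → ℝ} {k : ℕ} (hk : k + 1 < n) (hgap : GapAt D Γ μ v k)
    {z w : ℕ → ℤ} {s t : ℝ}
    (hz : ∀ l, |z l| ≤ (D (k + 1) : ℤ)) (hz0 : z (k + 1) ≠ 0)
    (hs : ps z v k + (z (k + 1) : ℝ) * s = 0)
    (hw : ∀ l, |w l| ≤ (D (k + 1) : ℤ)) (hw0 : w (k + 1) ≠ 0)
    (ht : ps w v k + (w (k + 1) : ℝ) * t = 0) (hst : s ≠ t) :
    2 * (Γ (k + 1) : ℝ) * EE D Γ μ v k ≤ |s - t| := by
  set u : ℕ → ℤ := fun l => z (k + 1) * w l - w (k + 1) * z l with hu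
  have hub : ∀ l, |u l| ≤ (D k : ℤ) := fun l => elim_bound hg hk hz hw l
  have hue : ps u v k = (z (k + 1) : ℝ) * w (k + 1) * (s - t) := by
    rw [hu, ps_elim]
    linear_combination (z (k + 1) : ℝ) * ht - (w (k + 1) : ℝ) * hs
  have hz0' : (z (k + 1) : ℝ) ≠ 0 := by exact_mod_cast hz0
  have hw0' : (w (k + 1) : ℝ) ≠ 0 := by exact_mod_cast hw0
  have h1 := hgap u hub (by
    rw [hue]; exact mul_ne_zero (mul_ne_zero hz0' hw0') (sub_ne_zero.2 hst))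
  rw [hue, abs_mul, abs_mul] at h1
  have h2 : |(z (k + 1) : ℝ)| ≤ D (k + 1) := by exact_mod_cast hz (k + 1)
  have h3 : |(w (k + 1) : ℝ)| ≤ D (k + 1) := by exact_mod_cast hw (k + 1)
  have hG : 2 * (D (k + 1) : ℝ) ^ 2 * (Γ (k + 1) : ℝ) ^ 2 ≤ Γ k := by
    exact_mod_cast hg.GG k (by omega)
  have hD1 : (1 : ℝ) ≤ D (k + 1) := by exact_mod_cast hg.D1 (k + 1)
  have hG4 : (4 : ℝ) ≤ Γ (k + 1) := by exact_mod_cast hg.G4 (k + 1)
  have hE0 : (0 : ℝ) ≤ EE D Γ μ v k := by positivity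
  have h4 : |(z (k + 1) : ℝ)| * |(w (k + 1) : ℝ)| ≤ (D (k + 1) : ℝ) ^ 2 := by
    rw [sq]; exact mul_le_mul h2 h3 (abs_nonneg _) (by positivity)
  have h5 : (Γ k : ℝ) * EE D Γ μ v k ≤ (D (k + 1) : ℝ) ^ 2 * |s - t| :=
    h1.trans (mul_le_mul_of_nonneg_right h4 (abs_nonneg _))
  have h6 : 2 * (D (k + 1) : ℝ) ^ 2 * (Γ (k + 1) : ℝ) ^ 2 * EE D Γ μ v k ≤
      (D (k + 1) : ℝ) ^ 2 * |s - t| := (mul_le_mul_of_nonneg_right hG hE0).trans h5
  have h7 : (D (k + 1) : ℝ) ^ 2 * (2 * (Γ (k + 1) : ℝ) ^ 2 * EE D Γ μ v k) ≤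
      (D (k + 1) : ℝ) ^ 2 * |s - t| := by
    calc _ = 2 * (D (k + 1) : ℝ) ^ 2 * (Γ (k + 1) : ℝ) ^ 2 * EE D Γ μ v k := by ring
      _ ≤ _ := h6
  have h8 := le_of_mul_le_mul_left h7 (by positivity)
  refine le_trans ?_ h8
  apply mul_le_mul_of_nonneg_right _ hE0
  nlinarith

/-- the tie threshold -/
lemma tie_lock (hg : Good D Γ n) (v : ℕ → ℝ) (k : ℕ) :
    ∃ w : ℕ → ℤ, (∀ l, |w l| ≤ (D (k + 1) : ℤ)) ∧ w (k + 1) ≠ 0 ∧
      ps w v k + (w (k + 1) : ℝ) * v k = 0 := by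
  refine ⟨fun l => if l = k then 1 else if l = k + 1 then -1 else 0, ?_, ?_, ?_⟩
  · intro l
    have h1 : (1 : ℤ) ≤ D (k + 1) := by exact_mod_cast hg.D1 (k + 1)
    dsimp only
    split_ifs
    · simpa using h1
    · simpa using h1
    · simp
  · simp
  · have : ps (fun l => if l = k then (1 : ℤ) else if l = k + 1 then -1 else 0) v k = v k := by
      unfold ps
      rw [Finset.sum_eq_single k]
      · simp
      · intro b hb hbk
        have : b ≠ k + 1 := by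
          have := Finset.mem_range.1 hb
          omega
        simp [hbk, this]
      · intro h
        exact absurd (Finset.mem_range.2 (Nat.lt_succ_self k)) h
    rw [this]
    simp

lemma tie_lockVal (hg : Good D Γ n) (v : ℕ → ℝ) (k : ℕ) : LockVal D v k (v k) :=
  tie_lock hg v k

lemma grid_mono {Q : ℕ} {t : ℝ} {i j : ℕ} (hij : i ≤ j) (h : ∃ n : ℤ, t * (Q : ℝ) ^ i = n) :
    ∃ n : ℤ, t * (Q : ℝ) ^ j = n := by
  obtain ⟨n, hn⟩ := h
  obtain ⟨c, rfl⟩ := Nat.exists_eq_add_of_le hij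
  refine ⟨n * (Q : ℤ) ^ c, ?_⟩
  rw [pow_add, ← mul_assoc, hn]; push_cast; ring

lemma grid_ps {Q : ℕ} {v : ℕ → ℝ} {k : ℕ} (z : ℕ → ℤ)
    (h : ∀ l, l ≤ k → ∃ n : ℤ, v l * (Q : ℝ) ^ l = n) :
    ∃ n : ℤ, ps z v k * (Q : ℝ) ^ k = n := by
  have h' : ∀ l, ∃ n : ℤ, l ≤ k → v l * (Q : ℝ) ^ k = n := by
    intro l
    by_cases hl : l ≤ k
    · obtain ⟨n, hn⟩ := grid_mono hl (h l hl)
      exact ⟨n, fun _ => hn⟩
    · exact ⟨0, fun hh => absurd hh hl⟩
  choose f hf using h'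
  refine ⟨∑ l ∈ range (k + 1), z l * f l, ?_⟩
  unfold ps
  rw [Finset.sum_mul]
  push_cast
  refine Finset.sum_congr rfl fun l hl => ?_
  rw [mul_assoc, hf l (by simpa [Nat.lt_succ_iff] using hl)]

lemma grid_threshold (hg : Good D Γ n) {v : ℕ → ℝ} {k : ℕ} {z : ℕ → ℤ} {t : ℝ}
    (h : ∀ l, l ≤ k → ∃ n : ℤ, v l * ((D 0).factorial : ℝ) ^ l = n)
    (hz : ∀ l, |z l| ≤ (D (k + 1) : ℤ)) (hz0 : z (k + 1) ≠ 0)
    (ht : ps z v k + (z (k + 1) : ℝ) * t = 0) :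
    ∃ n : ℤ, t * ((D 0).factorial : ℝ) ^ (k + 1) = n := by
  obtain ⟨p, hp⟩ := grid_ps z h
  have hdvd : z (k + 1) ∣ ((D 0).factorial : ℤ) := by
    rw [← Int.natAbs_dvd_natAbs]
    rw [Int.natAbs_natCast]
    apply Nat.dvd_factorial
    · exact Int.natAbs_pos.2 hz0
    · have h1 := hz (k + 1)
      have h2 := hg.D0 (k + 1)
      have h3 : ((z (k + 1)).natAbs : ℤ) ≤ D (k + 1) := by rw [Int.natCast_natAbs]; exact h1
      have h4 : (z (k + 1)).natAbs ≤ D (k + 1) := by exact_mod_cast h3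
      omega
  obtain ⟨c, hc⟩ := hdvd
  refine ⟨-(p * c), ?_⟩
  have hz0' : (z (k + 1) : ℝ) ≠ 0 := by exact_mod_cast hz0
  have hc' : ((D 0).factorial : ℝ) = z (k + 1) * c := by exact_mod_cast hc
  have h1 : (z (k + 1) : ℝ) * t = - ps z v k := by linarith
  push_cast
  rw [← hp, pow_succ]
  have h2 : t * (((D 0).factorial : ℝ) ^ k * ((D 0).factorial : ℝ)) =
      (z (k + 1) * t) * (((D 0).factorial : ℝ) ^ k * c) := by
    conv_lhs => rw [hc']
    conv_rhs => rw [hc']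
    ring
  rw [h2, h1]; ring

lemma grid_int {Q : ℕ} (b : ℤ) (j : ℕ) : ∃ n : ℤ, (b : ℝ) * (Q : ℝ) ^ j = n :=
  ⟨b * (Q : ℤ) ^ j, by push_cast; ring⟩

lemma grid_add {Q : ℕ} {s t : ℝ} {j : ℕ} (hs : ∃ n : ℤ, s * (Q : ℝ) ^ j = n)
    (ht : ∃ n : ℤ, t * (Q : ℝ) ^ j = n) : ∃ n : ℤ, (s + t) * (Q : ℝ) ^ j = n := by
  obtain ⟨n, hn⟩ := hs
  obtain ⟨p, hp⟩ := ht
  exact ⟨n + p, by push_cast; rw [add_mul, hn, hp]⟩

lemma grid_sep {Q : ℕ} (hQ : 1 ≤ Q) {s t : ℝ} {j : ℕ} (hs : ∃ n : ℤ, s * (Q : ℝ) ^ j = n)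
    (ht : ∃ n : ℤ, t * (Q : ℝ) ^ j = n) (hst : s < t) : s + 1 / (Q : ℝ) ^ j ≤ t := by
  obtain ⟨n, hn⟩ := hs
  obtain ⟨p, hp⟩ := ht
  have hQ' : (0 : ℝ) < (Q : ℝ) ^ j := by positivity
  have h1 : (n : ℝ) < p := by rw [← hn, ← hp]; exact mul_lt_mul_of_pos_right hst hQ'
  have h2 : n + 1 ≤ p := by exact_mod_cast h1
  have h3 : (n : ℝ) + 1 ≤ p := by exact_mod_cast h2
  rw [← hn, ← hp] at h3
  have : (s + 1 / (Q : ℝ) ^ j) * (Q : ℝ) ^ j ≤ t * (Q : ℝ) ^ j := by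
    rw [add_mul, one_div, inv_mul_cancel₀ hQ'.ne']; exact h3
  exact le_of_mul_le_mul_right this hQ'

/-- Selection of a competitor slightly above. -/
lemma select_up (hg : Good D Γ n) (hμ : 2 ≤ μ) {v : ℕ → ℝ} {k : ℕ} (hk : k + 1 < n)
    (hgap : GapAt D Γ μ v k)
    (hadm : LockVal D v k (v (k + 1)) ∨ FreeVal D Γ μ v k (v (k + 1)))
    (hgrid : ∀ l, l ≤ k + 1 → ∃ n : ℤ, v l * ((D 0).factorial : ℝ) ^ l = n)
    (hlt : v (k + 1) < v k) :
    ∃ a' : ℝ, v (k + 1) + 1 / ((D 0).factorial : ℝ) ^ (k + 1) ≤ a' ∧ a' ≤ v k ∧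
      (∃ n : ℤ, a' * ((D 0).factorial : ℝ) ^ (k + 1) = n) ∧
      ((LockVal D v k a' ∧
          a' - Γ (k + 1) * EE D Γ μ v k ≤ v (k + 1) + EE D Γ μ v (k + 1) - 1) ∨
        (¬ LockVal D v k a' ∧ FreeVal D Γ μ v k a' ∧
          a' - EE D Γ μ v k ≤ v (k + 1) + EE D Γ μ v (k + 1) - 1)) := by
  set Q : ℕ := (D 0).factorial with hQdef
  have hQ1 : 1 ≤ Q := Nat.factorial_pos _
  set θ : ℝ := 1 / (Q : ℝ) ^ (k + 1) with hθ
  have hθ0 : 0 < θ := by positivity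
  have hθ1 : θ ≤ 1 := by
    rw [hθ, div_le_one (by positivity)]
    have : (1 : ℝ) ≤ Q := by exact_mod_cast hQ1
    exact one_le_pow₀ this
  have hμ1 : 1 ≤ μ := by omega
  have hP2 : (2 : ℝ) ≤ EE D Γ μ v k := by
    have := EE_ge (μ := μ) hg v k
    exact_mod_cast (hμ.trans this)
  have hG4 : (4 : ℝ) ≤ Γ (k + 1) := by exact_mod_cast hg.G4 (k + 1)
  have hEmono : (EE D Γ μ v k : ℝ) ≤ EE D Γ μ v (k + 1) := by
    exact_mod_cast EE_le_succ (μ := μ) hg v k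
  have hgv : ∃ n : ℤ, v (k + 1) * (Q : ℝ) ^ (k + 1) = n := hgrid (k + 1) le_rfl
  have hgvk : ∃ n : ℤ, v k * (Q : ℝ) ^ (k + 1) = n :=
    grid_mono (Nat.le_succ k) (hgrid k (Nat.le_succ k))
  have hyk : v (k + 1) + θ ≤ v k := grid_sep hQ1 hgv hgvk hlt
  have hgy : ∃ n : ℤ, (v (k + 1) + θ) * (Q : ℝ) ^ (k + 1) = n := by
    apply grid_add hgv
    refine ⟨1, ?_⟩
    rw [hθ, one_div, inv_mul_cancel₀ (by positivity)]; simp
  obtain ⟨w, hw, hw0, hwe⟩ := tie_lock hg v k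
  by_cases hfree : FreeVal D Γ μ v k (v (k + 1) + θ)
  · refine ⟨v (k + 1) + θ, le_rfl, hyk, hgy, Or.inr ⟨not_lock_of_free hg hμ1 hfree, hfree, ?_⟩⟩
    linarith
  · unfold FreeVal at hfree
    push Not at hfree
    obtain ⟨z, hz, hz0, hzlt⟩ := hfree
    have hz0' : (z (k + 1) : ℝ) ≠ 0 := by exact_mod_cast hz0
    set t : ℝ := - ps z v k / z (k + 1) with ht
    have hte : ps z v k + (z (k + 1) : ℝ) * t = 0 := by
      rw [ht]; field_simp; ring
    have hzabs : (1 : ℝ) ≤ |(z (k + 1) : ℝ)| := by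
      have : (1 : ℤ) ≤ |z (k + 1)| := Int.one_le_abs hz0
      exact_mod_cast this
    have hyt : |v (k + 1) + θ - t| < Γ (k + 1) * EE D Γ μ v k := by
      have h1 : ps z v k + (z (k + 1) : ℝ) * (v (k + 1) + θ) =
          (z (k + 1) : ℝ) * (v (k + 1) + θ - t) := by linear_combination hte
      rw [h1, abs_mul] at hzlt
      have h2 : |v (k + 1) + θ - t| ≤ |(z (k + 1) : ℝ)| * |v (k + 1) + θ - t| := by
        nlinarith [abs_nonneg (v (k + 1) + θ - t)]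
      linarith
    have hgt : ∃ n : ℤ, t * (Q : ℝ) ^ (k + 1) = n :=
      grid_threshold hg (fun l hl => hgrid l (by omega)) hz hz0 hte
    have hGP : 0 ≤ (Γ (k + 1) : ℝ) * EE D Γ μ v k := by positivity
    by_cases htv : v (k + 1) < t
    · -- case (2)
      have htk : t ≤ v k := by
        by_contra hcon
        push Not at hcon
        have hs := sep hg hk hgap hz hz0 hte hw hw0 hwe (ne_of_gt hcon)
        rw [abs_of_pos (by linarith)] at hs
        have := (abs_lt.1 hyt).1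
        nlinarith
      refine ⟨t, grid_sep hQ1 hgv hgt htv, htk, hgt, Or.inl ⟨⟨z, hz, hz0, hte⟩, ?_⟩⟩
      have := (abs_lt.1 hyt).1
      linarith
    · -- case (3)
      push Not at htv
      have hnf : ¬ FreeVal D Γ μ v k (v (k + 1)) := by
        intro hf
        have h0 := hf z hz hz0
        have h1 : ps z v k + (z (k + 1) : ℝ) * (v (k + 1) ) =
            (z (k + 1) : ℝ) * (v (k + 1) - t) := by linear_combination hte
        have h1' : ps z v k + (z (k + 1) : ℝ) * (v (k + 1) + θ) =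
            (z (k + 1) : ℝ) * (v (k + 1) + θ - t) := by linear_combination hte
        rw [h1, abs_mul, abs_of_nonneg (by linarith : (0:ℝ) ≤ v (k + 1) - t)] at h0
        rw [h1', abs_mul, abs_of_nonneg (by linarith : (0:ℝ) ≤ v (k + 1) + θ - t)] at hzlt
        nlinarith
      have hlock : LockVal D v k (v (k + 1)) := hadm.resolve_right hnf
      have hE : (EE D Γ μ v (k + 1) : ℝ) = Γ (k + 1) * EE D Γ μ v k := by
        rw [EE_lock hlock]; push_cast; ring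
      obtain ⟨w', hw', hw0', hwe'⟩ := hlock
      have hle : v (k + 1) + Γ (k + 1) * EE D Γ μ v k ≤ v k := by
        have hs := sep hg hk hgap hw hw0 hwe hw' hw0' hwe' (ne_of_gt hlt)
        rw [abs_of_pos (by linarith)] at hs
        nlinarith
      have hfree' : FreeVal D Γ μ v k (v (k + 1) + Γ (k + 1) * EE D Γ μ v k) := by
        intro z' hz' hz0''
        have hz0r : (z' (k + 1) : ℝ) ≠ 0 := by exact_mod_cast hz0''
        set t' : ℝ := - ps z' v k / z' (k + 1) with ht'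
        have hte' : ps z' v k + (z' (k + 1) : ℝ) * t' = 0 := by
          rw [ht']; field_simp; ring
        have hzabs' : (1 : ℝ) ≤ |(z' (k + 1) : ℝ)| := by
          have : (1 : ℤ) ≤ |z' (k + 1)| := Int.one_le_abs hz0''
          exact_mod_cast this
        have h1 : ps z' v k + (z' (k + 1) : ℝ) * (v (k + 1) + Γ (k + 1) * EE D Γ μ v k) =
            (z' (k + 1) : ℝ) * (v (k + 1) + Γ (k + 1) * EE D Γ μ v k - t') := by
          linear_combination hte'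
        rw [h1, abs_mul]
        have h2 : (Γ (k + 1) : ℝ) * EE D Γ μ v k ≤
            |v (k + 1) + Γ (k + 1) * EE D Γ μ v k - t'| := by
          by_cases heq : v (k + 1) = t'
          · rw [← heq]
            rw [show v (k + 1) + (Γ (k + 1) : ℝ) * EE D Γ μ v k - v (k + 1) =
              (Γ (k + 1) : ℝ) * EE D Γ μ v k by ring, abs_of_nonneg hGP]
          · have hs := sep hg hk hgap hw' hw0' hwe' hz' hz0'' hte' heq
            have h3 : |v (k + 1) - t'| ≤ |v (k + 1) + Γ (k + 1) * EE D Γ μ v k - t'| +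
                |(Γ (k + 1) : ℝ) * EE D Γ μ v k| := by
              have := abs_sub (v (k + 1) + Γ (k + 1) * EE D Γ μ v k - t')
                ((Γ (k + 1) : ℝ) * EE D Γ μ v k)
              rwa [show v (k + 1) + (Γ (k + 1) : ℝ) * EE D Γ μ v k - t' -
                (Γ (k + 1) : ℝ) * EE D Γ μ v k = v (k + 1) - t' by ring] at this
            rw [abs_of_nonneg hGP] at h3
            nlinarith
        nlinarith [abs_nonneg (v (k + 1) + Γ (k + 1) * EE D Γ μ v k - t')]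
      refine ⟨v (k + 1) + Γ (k + 1) * EE D Γ μ v k, ?_, hle, ?_,
        Or.inr ⟨not_lock_of_free hg hμ1 hfree', hfree', ?_⟩⟩
      · nlinarith
      · apply grid_add hgv
        have := grid_int (Q := Q) ((Γ (k + 1) : ℤ) * (EE D Γ μ v k : ℤ)) (k + 1)
        push_cast at this
        exact this
      · rw [hE]; linarith

/-- Selection of a low competitor. -/
lemma select_down (hg : Good D Γ n) (hμ : 2 ≤ μ) {v : ℕ → ℝ} {k : ℕ} (hk : k + 1 < n)
    (hgap : GapAt D Γ μ v k)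
    (hgrid : ∀ l, l ≤ k → ∃ n : ℤ, v l * ((D 0).factorial : ℝ) ^ l = n)
    (b0 : ℤ) (hb0 : (b0 : ℝ) ≤ v k) :
    ∃ b : ℝ, b0 - Γ (k + 1) * EE D Γ μ v k ≤ b ∧ b ≤ v k ∧
      (∃ n : ℤ, b * ((D 0).factorial : ℝ) ^ (k + 1) = n) ∧
      ((LockVal D v k b ∧ b - Γ (k + 1) * EE D Γ μ v k ≤ b0) ∨
        (¬ LockVal D v k b ∧ FreeVal D Γ μ v k b ∧ b - EE D Γ μ v k ≤ b0)) := by
  have hμ1 : 1 ≤ μ := by omega
  have hP2 : (2 : ℝ) ≤ EE D Γ μ v k := by
    have := EE_ge (μ := μ) hg v k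
    exact_mod_cast (hμ.trans this)
  have hG4 : (4 : ℝ) ≤ Γ (k + 1) := by exact_mod_cast hg.G4 (k + 1)
  by_cases hfree : FreeVal D Γ μ v k b0
  · refine ⟨b0, ?_, hb0, grid_int b0 _, Or.inr ⟨not_lock_of_free hg hμ1 hfree, hfree, ?_⟩⟩
    · nlinarith
    · linarith
  · unfold FreeVal at hfree
    push Not at hfree
    obtain ⟨z, hz, hz0, hzlt⟩ := hfree
    have hz0' : (z (k + 1) : ℝ) ≠ 0 := by exact_mod_cast hz0
    set t : ℝ := - ps z v k / z (k + 1) with ht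
    have hte : ps z v k + (z (k + 1) : ℝ) * t = 0 := by
      rw [ht]; field_simp; ring
    have hzabs : (1 : ℝ) ≤ |(z (k + 1) : ℝ)| := by
      have : (1 : ℤ) ≤ |z (k + 1)| := Int.one_le_abs hz0
      exact_mod_cast this
    have hyt : |(b0 : ℝ) - t| < Γ (k + 1) * EE D Γ μ v k := by
      have h1 : ps z v k + (z (k + 1) : ℝ) * b0 =
          (z (k + 1) : ℝ) * (b0 - t) := by linear_combination hte
      rw [h1, abs_mul] at hzlt
      have h2 : |(b0 : ℝ) - t| ≤ |(z (k + 1) : ℝ)| * |(b0 : ℝ) - t| := by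
        nlinarith [abs_nonneg ((b0 : ℝ) - t)]
      linarith
    have hgt := grid_threshold hg hgrid hz hz0 hte
    obtain ⟨w, hw, hw0, hwe⟩ := tie_lock hg v k
    have htk : t ≤ v k := by
      by_contra hcon
      push Not at hcon
      have hs := sep hg hk hgap hz hz0 hte hw hw0 hwe (ne_of_gt hcon)
      rw [abs_of_pos (by linarith)] at hs
      have := (abs_lt.1 hyt).1
      nlinarith
    refine ⟨t, ?_, htk, hgt, Or.inl ⟨⟨z, hz, hz0, hte⟩, ?_⟩⟩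
    · have := (abs_lt.1 hyt).2
      linarith
    · have := (abs_lt.1 hyt).1
      linarith

end Crest.Agent.H8PermA
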