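import Crest.Agent.H8PermA

set_option autoImplicit false

/-!
Part B: the region lemma. If the constraint attached to `v` is active at `y`, then
`log y j / N` is close to `v j`.
-/

namespace Crest.Agent.H8PermB

open Finset Crest.Agent.H8PermA

variable {D Γ : ℕ → ℕ} {μ m n : ℕ} {a : ℤ} {B : ℕ}

/-- the pairing -/
noncomputable def lin (m : ℕ) (v y : ℕ → ℝ) : ℝ := ∑ j ∈ range m, v j * y j

/-- the right-hand side of the constraint attached to `v` -/
noncomputable def hh (D Γ : ℕ → ℕ) (μ m : ℕ) (a : ℤ) (v : ℕ → ℝ) (N : ℝ) : ℝ :=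
  a * Real.exp (a * N) + ∑ j ∈ range m, Real.exp (N * (v j - EE D Γ μ v j))

/-- tail update -/
noncomputable def upd (m : ℕ) (v : ℕ → ℝ) (i : ℕ) (t : ℝ) : ℕ → ℝ :=
  fun j => if j < i then v j else if j < m then t else 0

lemma upd_lt {v : ℕ → ℝ} {i j : ℕ} {t : ℝ} (h : j < i) : upd m v i t j = v j := by
  simp [upd, h]

lemma upd_ge {v : ℕ → ℝ} {i j : ℕ} {t : ℝ} (h : i ≤ j) (hj : j < m) : upd m v i t j = t := by
  simp [upd, not_lt.2 h, hj]

lemma upd_valid (hg : Good D Γ n) {v : ℕ → ℝ} (hv : Valid D Γ μ m a B v) {k : ℕ}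
    (hk : k + 1 < m) {t : ℝ} (ht : t ≤ v k) (hB : -(B : ℝ) ≤ t)
    (hgrid : ∃ n : ℤ, t * ((D 0).factorial : ℝ) ^ (k + 1) = n)
    (hadm : LockVal D v k t ∨ FreeVal D Γ μ v k t) :
    Valid D Γ μ m a B (upd m v (k + 1) t) := by
  have hpre : ∀ l, l ≤ k → upd m v (k + 1) t l = v l := fun l hl => upd_lt (by omega)
  refine ⟨?_, ?_, ?_, ?_, ?_, ?_⟩
  · rw [hpre 0 (by omega)]; exact hv.lead
  · intro j hj
    rcases lt_trichotomy j k with h | h | h
    · rw [hpre (j + 1) (by omega), hpre j (by omega)]; exact hv.anti j hj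
    · subst h
      rw [hpre j le_rfl, upd_ge le_rfl hj]; exact ht
    · rw [upd_ge (by omega) hj, upd_ge (by omega) (by omega)]
  · intro j hj
    by_cases h : j ≤ k
    · rw [hpre j h]; exact hv.low j hj
    · rw [upd_ge (by omega) hj]; exact hB
  · intro j hj
    by_cases h : j ≤ k
    · rw [hpre j h]; exact hv.grid j hj
    · rw [upd_ge (by omega) hj]
      exact grid_mono (by omega) hgrid
  · intro j hj
    rcases lt_trichotomy j k with h | h | h
    · rw [hpre (j + 1) (by omega)]
      rw [lockVal_congr (fun l hl => hpre l (by omega)),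
        freeVal_congr (fun l hl => hpre l (by omega))]
      exact hv.adm j hj
    · subst h
      rw [upd_ge le_rfl hj]
      rw [lockVal_congr (fun l hl => hpre l (by omega)),
        freeVal_congr (fun l hl => hpre l (by omega))]
      exact hadm
    · left
      have h1 : upd m v (k + 1) t (j + 1) = upd m v (k + 1) t j := by
        rw [upd_ge (by omega) hj, upd_ge (by omega) (by omega)]
      rw [h1]
      exact tie_lockVal hg _ j
  · intro j hj
    simp [upd, show ¬ j < k + 1 by omega, show ¬ j < m by omega]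

lemma split_sum {k m : ℕ} (hk : k + 1 ≤ m) (F : ℕ → ℝ) :
    ∑ j ∈ range m, F j = ∑ j ∈ range (k + 1), F j + ∑ j ∈ Ico (k + 1) m, F j :=
  (Finset.sum_range_add_sum_Ico F hk).symm

/-- the basic comparison inequality -/
lemma key (hg : Good D Γ n) {v y : ℕ → ℝ} {N : ℝ} (hv : Valid D Γ μ m a B v)
    (hsat : ∀ g, Valid D Γ μ m a B g → lin m g y ≤ hh D Γ μ m a g N)
    (hact : lin m v y = hh D Γ μ m a v N) {k : ℕ}
    (hk : k + 1 < m) {t : ℝ} (ht : t ≤ v k) (hB : -(B : ℝ) ≤ t)
    (hgrid : ∃ n : ℤ, t * ((D 0).factorial : ℝ) ^ (k + 1) = n)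
    (hadm : LockVal D v k t ∨ FreeVal D Γ μ v k t) :
    ∑ j ∈ Ico (k + 1) m, (t - v j) * y j ≤
      ∑ j ∈ Ico (k + 1) m, (Real.exp (N * (t - EE D Γ μ (upd m v (k + 1) t) j)) -
        Real.exp (N * (v j - EE D Γ μ v j))) := by
  have h1 := hsat _ (upd_valid hg hv hk ht hB hgrid hadm)
  have hpre : ∀ l, l ≤ k → upd m v (k + 1) t l = v l := fun l hl => upd_lt (by omega)
  have e1 : lin m (upd m v (k + 1) t) y =
      ∑ j ∈ range (k + 1), v j * y j + ∑ j ∈ Ico (k + 1) m, t * y j := by
    unfold lin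
    rw [split_sum (k := k) (by omega)]
    congr 1
    · refine Finset.sum_congr rfl fun j hj => ?_
      rw [upd_lt (Finset.mem_range.1 hj)]
    · refine Finset.sum_congr rfl fun j hj => ?_
      rw [Finset.mem_Ico] at hj
      rw [upd_ge hj.1 hj.2]
  have e2 : lin m v y = ∑ j ∈ range (k + 1), v j * y j + ∑ j ∈ Ico (k + 1) m, v j * y j := by
    unfold lin
    rw [split_sum (k := k) (by omega)]
  have e3 : hh D Γ μ m a (upd m v (k + 1) t) N = a * Real.exp (a * N) +
      (∑ j ∈ range (k + 1), Real.exp (N * (v j - EE D Γ μ v j)) +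
      ∑ j ∈ Ico (k + 1) m, Real.exp (N * (t - EE D Γ μ (upd m v (k + 1) t) j))) := by
    unfold hh
    rw [split_sum (k := k) (by omega)]
    congr 2
    · refine Finset.sum_congr rfl fun j hj => ?_
      rw [upd_lt (Finset.mem_range.1 hj)]
      rw [EE_congr (v := upd m v (k + 1) t) (w := v) (k := j)]
      intro l hl
      exact hpre l (by have := Finset.mem_range.1 hj; omega)
    · refine Finset.sum_congr rfl fun j hj => ?_
      rw [Finset.mem_Ico] at hj
      rw [upd_ge hj.1 hj.2]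
  have e4 : hh D Γ μ m a v N = a * Real.exp (a * N) +
      (∑ j ∈ range (k + 1), Real.exp (N * (v j - EE D Γ μ v j)) +
      ∑ j ∈ Ico (k + 1) m, Real.exp (N * (v j - EE D Γ μ v j))) := by
    unfold hh
    rw [split_sum (k := k) (by omega)]
  rw [Finset.sum_sub_distrib]
  have e5 : ∑ j ∈ Ico (k + 1) m, (t - v j) * y j =
      ∑ j ∈ Ico (k + 1) m, t * y j - ∑ j ∈ Ico (k + 1) m, v j * y j := by
    rw [← Finset.sum_sub_distrib]
    refine Finset.sum_congr rfl fun j _ => by ring
  rw [e5]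
  linarith

lemma EE_upd_ge (hg : Good D Γ n) {v : ℕ → ℝ} {k : ℕ} (hk : k + 1 < m) {t : ℝ} {j : ℕ}
    (hj : k + 1 ≤ j) :
    (LockVal D v k t → Γ (k + 1) * EE D Γ μ v k ≤ EE D Γ μ (upd m v (k + 1) t) j) ∧
    EE D Γ μ v k ≤ EE D Γ μ (upd m v (k + 1) t) j := by
  have hpre : ∀ l, l ≤ k → upd m v (k + 1) t l = v l := fun l hl => upd_lt (by omega)
  have hmono := EE_mono (μ := μ) hg (upd m v (k + 1) t)
  constructor
  · intro hl
    refine le_trans ?_ (hmono hj)
    have : LockVal D (upd m v (k + 1) t) k (upd m v (k + 1) t (k + 1)) := by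
      rw [upd_ge le_rfl hk, lockVal_congr hpre]; exact hl
    rw [EE_lock this, EE_congr hpre]
  · refine le_trans ?_ (hmono (by omega : k ≤ j))
    rw [EE_congr hpre]

lemma anti_le {v : ℕ → ℝ} (hv : Valid D Γ μ m a B v) {i j : ℕ} (hij : i ≤ j) (hj : j < m) :
    v j ≤ v i := by
  induction j, hij using Nat.le_induction with
  | base => exact le_rfl
  | succ j hij ih => exact (hv.anti j hj).trans (ih (by omega))

/-- two distinct values are far apart -/
lemma value_gap (hg : Good D Γ n) (hmn : m ≤ n) {v : ℕ → ℝ} (hv : Valid D Γ μ m a B v)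
    (ha : (Γ 0 : ℝ) * μ ≤ |(a : ℝ)|) {i j : ℕ} (hij : i < j) (hj : j < m) (hlt : v j < v i) :
    v j + (Γ (m - 1) : ℝ) * EE D Γ μ v (m - 1) ≤ v i := by
  have hgap := gap hg hmn hv ha (m - 1) (by omega)
  have hD1 : (1 : ℤ) ≤ D (m - 1) := by exact_mod_cast hg.D1 (m - 1)
  have hps : ps (fun l => if l = i then (1 : ℤ) else if l = j then -1 else 0) v (m - 1) =
      v i - v j := by
    unfold ps
    have h1 : ∀ l ∈ range (m - 1 + 1), (((if l = i then (1 : ℤ) else if l = j then -1 else 0 : ℤ)) : ℝ) * v l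
        = (if l = i then v i else 0) - (if l = j then v j else 0) := by
      intro l _
      by_cases h1 : l = i
      · have h2 : l ≠ j := by omega
        simp [h1, show i ≠ j by omega]
      · by_cases h2 : l = j
        · subst h2
          simp [h1]
        · simp [h1, h2]
    rw [Finset.sum_congr rfl h1, Finset.sum_sub_distrib]
    rw [Finset.sum_ite_eq', Finset.sum_ite_eq']
    rw [if_pos (Finset.mem_range.2 (by omega)), if_pos (Finset.mem_range.2 (by omega))]
  have := hgap (fun l => if l = i then (1 : ℤ) else if l = j then -1 else 0) (by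
    intro l
    split_ifs
    · simpa using hD1
    · simpa using hD1
    · simp) (by rw [hps]; exact (sub_pos.2 hlt).ne')
  rw [hps, abs_of_pos (sub_pos.2 hlt)] at this
  linarith

/-- upper bound for non-leading values -/
lemma upper (hg : Good D Γ n) (hμ : 2 ≤ μ) (hmn : m ≤ n) {v y : ℕ → ℝ} {N : ℝ}
    (hv : Valid D Γ μ m a B v)
    (ha : (Γ 0 : ℝ) * μ ≤ |(a : ℝ)|) (hy : ∀ j, j < m → 0 < y j)
    (hsat : ∀ g, Valid D Γ μ m a B g → lin m g y ≤ hh D Γ μ m a g N)
    (hact : lin m v y = hh D Γ μ m a v N) (hN0 : 0 ≤ N)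
    (hN : (m : ℝ) * ((D 0).factorial : ℝ) ^ m ≤ Real.exp N)
    {l : ℕ} (hl : l < m) (hla : v l < a) :
    y l ≤ Real.exp (N * (v l + EE D Γ μ v (m - 1))) := by
  classical
  -- the first index of the block of `l`
  have hex : ∃ i, v i = v l := ⟨l, rfl⟩
  set i := Nat.find hex with hi
  have hvi : v i = v l := Nat.find_spec hex
  have hil : i ≤ l := Nat.find_min' hex rfl
  have hi0 : i ≠ 0 := by
    intro h
    rw [h, hv.lead] at hvi
    linarith
  obtain ⟨k, hk⟩ := Nat.exists_eq_succ_of_ne_zero hi0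
  rw [Nat.succ_eq_add_one] at hk
  have hkm : k + 1 < m := by omega
  have hvk : v (k + 1) < v k := by
    refine lt_of_le_of_ne (hv.anti k hkm) ?_
    intro h
    have : v k = v l := by rw [← h, ← hk, hvi]
    exact Nat.find_min hex (by omega : k < Nat.find hex) this
  have hgap := gap hg hmn hv ha k (by omega)
  obtain ⟨t, ht1, ht2, ht3, ht4⟩ := select_up hg hμ (by omega) hgap (hv.adm k hkm)
    (fun l hl => hv.grid l (by omega)) hvk
  have hQ1 : (1 : ℝ) ≤ (D 0).factorial := by exact_mod_cast Nat.factorial_pos (D 0)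
  set Q : ℝ := ((D 0).factorial : ℝ) with hQ
  have hθ : 0 < 1 / Q ^ (k + 1) := by positivity
  have hvkl : v (k + 1) = v l := by rw [← hk, hvi]
  have hB : -(B : ℝ) ≤ t := by
    have := hv.low (k + 1) hkm
    linarith
  have hkey := key hg hv hsat hact hkm ht2 hB ht3 (by
    rcases ht4 with h | h
    · exact Or.inl h.1
    · exact Or.inr h.2.1)
  -- lower bound of lhs
  have h1 : (t - v l) * y l ≤ ∑ j ∈ Ico (k + 1) m, (t - v j) * y j := by
    apply Finset.single_le_sum (f := fun j => (t - v j) * y j)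
    · intro j hj
      rw [Finset.mem_Ico] at hj
      apply mul_nonneg _ (hy j hj.2).le
      have := anti_le hv hj.1 hj.2
      linarith
    · rw [Finset.mem_Ico]; omega
  -- upper bound of rhs
  have hElast : (EE D Γ μ v (k + 1) : ℝ) ≤ EE D Γ μ v (m - 1) := by
    exact_mod_cast EE_mono (μ := μ) hg v (by omega : k + 1 ≤ m - 1)
  have h2 : ∀ j ∈ Ico (k + 1) m, Real.exp (N * (t - EE D Γ μ (upd m v (k + 1) t) j)) -
        Real.exp (N * (v j - EE D Γ μ v j)) ≤ Real.exp (N * (v l + EE D Γ μ v (m - 1) - 1)) := by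
    intro j hj
    rw [Finset.mem_Ico] at hj
    have hE := EE_upd_ge (μ := μ) hg hkm (v := v) (t := t) hj.1
    have : Real.exp (N * (t - EE D Γ μ (upd m v (k + 1) t) j)) ≤
        Real.exp (N * (v l + EE D Γ μ v (m - 1) - 1)) := by
      rw [Real.exp_le_exp]
      apply mul_le_mul_of_nonneg_left _ hN0
      rcases ht4 with h | h
      · have h3 : ((Γ (k + 1) : ℝ)) * EE D Γ μ v k ≤ EE D Γ μ (upd m v (k + 1) t) j := by
          exact_mod_cast hE.1 h.1
        linarith [h.2]
      · have h3 : (EE D Γ μ v k : ℝ) ≤ EE D Γ μ (upd m v (k + 1) t) j := by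
          exact_mod_cast hE.2
        linarith [h.2.2]
    have := Real.exp_pos (N * (v j - EE D Γ μ v j))
    linarith
  have h3 := Finset.sum_le_card_nsmul _ _ _ h2
  rw [nsmul_eq_mul, Nat.card_Ico] at h3
  have h4 : (t - v l) * y l ≤ ((m - (k + 1) : ℕ) : ℝ) *
      Real.exp (N * (v l + EE D Γ μ v (m - 1) - 1)) := h1.trans (hkey.trans h3)
  have h5 : ((m - (k + 1) : ℕ) : ℝ) ≤ m := by
    have : m - (k + 1) ≤ m := Nat.sub_le _ _
    exact_mod_cast this
  have h6 : 1 / Q ^ m ≤ t - v l := by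
    have : Q ^ (k + 1) ≤ Q ^ m := pow_le_pow_right₀ hQ1 (by omega)
    have h7 : 1 / Q ^ m ≤ 1 / Q ^ (k + 1) := one_div_le_one_div_of_le (by positivity) this
    linarith
  have hyl := hy l hl
  have h7 : 1 / Q ^ m * y l ≤ m * Real.exp (N * (v l + EE D Γ μ v (m - 1) - 1)) := by
    calc 1 / Q ^ m * y l ≤ (t - v l) * y l := mul_le_mul_of_nonneg_right h6 hyl.le
      _ ≤ _ := h4
      _ ≤ _ := mul_le_mul_of_nonneg_right h5 (Real.exp_pos _).le
  have h8 : y l ≤ (m * Q ^ m) * Real.exp (N * (v l + EE D Γ μ v (m - 1) - 1)) := by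
    have hQm : (0 : ℝ) < Q ^ m := by positivity
    calc y l = Q ^ m * (1 / Q ^ m * y l) := by field_simp
      _ ≤ Q ^ m * (m * Real.exp (N * (v l + EE D Γ μ v (m - 1) - 1))) :=
          mul_le_mul_of_nonneg_left h7 hQm.le
      _ = _ := by ring
  calc y l ≤ (m * Q ^ m) * Real.exp (N * (v l + EE D Γ μ v (m - 1) - 1)) := h8
    _ ≤ Real.exp N * Real.exp (N * (v l + EE D Γ μ v (m - 1) - 1)) :=
        mul_le_mul_of_nonneg_right hN (Real.exp_pos _).le
    _ = Real.exp (N * (v l + EE D Γ μ v (m - 1))) := by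
        rw [← Real.exp_add]; congr 1; ring

lemma abs_val_le {v : ℕ → ℝ} (hv : Valid D Γ μ m a B v) (haB : |(a : ℝ)| ≤ B) {l : ℕ}
    (hl : l < m) : |v l| ≤ B := by
  rw [abs_le]
  refine ⟨hv.low l hl, ?_⟩
  have h1 := anti_le hv (Nat.zero_le l) hl
  rw [hv.lead] at h1
  have h2 := (abs_le.1 haB).2
  linarith

/-- the leading block is close to `exp (a N)` -/
lemma leader (hg : Good D Γ n) (hμ : 2 ≤ μ) (hmn : m ≤ n) {v y : ℕ → ℝ} {N : ℝ}
    (hv : Valid D Γ μ m a B v) (haB : |(a : ℝ)| ≤ B)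
    (ha : (Γ 0 : ℝ) * μ ≤ |(a : ℝ)|) (hy : ∀ j, j < m → 0 < y j)
    (hsat : ∀ g, Valid D Γ μ m a B g → lin m g y ≤ hh D Γ μ m a g N)
    (hact : lin m v y = hh D Γ μ m a v N) (hN0 : 0 ≤ N)
    (hN : (m : ℝ) * ((D 0).factorial : ℝ) ^ m ≤ Real.exp N)
    (hN2 : 2 * (m : ℝ) * (B + 1) ≤ Real.exp N) :
    |∑ l ∈ (range m).filter (fun l => v l = a), y l - Real.exp (a * N)| ≤
      1 / 2 * Real.exp (a * N) := by
  have hμ1 : 1 ≤ μ := by omega
  have hGa : (1 : ℝ) ≤ |(a : ℝ)| := by
    have h1 : (4 : ℝ) ≤ Γ 0 := by exact_mod_cast hg.G4 0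
    have h2 : (2 : ℝ) ≤ μ := by exact_mod_cast hμ
    nlinarith
  set S := ∑ l ∈ (range m).filter (fun l => v l = a), y l with hS
  have hsplit : lin m v y = a * S + ∑ l ∈ (range m).filter (fun l => ¬ v l = a), v l * y l := by
    unfold lin
    rw [← Finset.sum_filter_add_sum_filter_not (range m) (fun l => v l = a)]
    congr 1
    rw [hS, Finset.mul_sum]
    refine Finset.sum_congr rfl fun l hl => ?_
    rw [(Finset.mem_filter.1 hl).2]
  have hElast : ∀ j, j < m → (1 : ℝ) ≤ EE D Γ μ v j := by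
    intro j _
    exact_mod_cast EE_pos hg hμ1 v j
  have h1 : |∑ l ∈ (range m).filter (fun l => ¬ v l = a), v l * y l| ≤
      m * (B * Real.exp (N * (a - 1))) := by
    refine (Finset.abs_sum_le_sum_abs _ _).trans ?_
    have h2 : ∀ l ∈ (range m).filter (fun l => ¬ v l = a), |v l * y l| ≤
        B * Real.exp (N * (a - 1)) := by
      intro l hl
      rw [Finset.mem_filter, Finset.mem_range] at hl
      obtain ⟨hlm, hne⟩ := hl
      have h3 := anti_le hv (Nat.zero_le l) hlm
      rw [hv.lead] at h3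
      have h4 : v l < a := lt_of_le_of_ne h3 hne
      have h5 := upper hg hμ hmn hv ha hy hsat hact hN0 hN hlm h4
      rw [abs_mul, abs_of_pos (hy l hlm)]
      have hl0 : 0 < l := by
        rcases Nat.eq_zero_or_pos l with h | h
        · subst h; exact absurd hv.lead hne
        · exact h
      have h6 := value_gap hg hmn hv ha hl0 hlm (by rw [hv.lead]; exact h4)
      rw [hv.lead] at h6
      have hG4 : (4 : ℝ) ≤ Γ (m - 1) := by exact_mod_cast hg.G4 (m - 1)
      have hE1 : (1 : ℝ) ≤ EE D Γ μ v (m - 1) := hElast (m - 1) (by omega)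
      apply mul_le_mul (abs_val_le hv haB hlm) _ (hy l hlm).le (by positivity)
      refine h5.trans ?_
      rw [Real.exp_le_exp]
      apply mul_le_mul_of_nonneg_left _ hN0
      nlinarith
    refine (Finset.sum_le_card_nsmul _ _ _ h2).trans ?_
    rw [nsmul_eq_mul]
    apply mul_le_mul_of_nonneg_right _ (by positivity)
    have := Finset.card_filter_le (range m) (fun l => ¬ v l = a)
    rw [Finset.card_range] at this
    exact_mod_cast this
  have h7 : ∑ j ∈ range m, Real.exp (N * (v j - EE D Γ μ v j)) ≤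
      m * Real.exp (N * (a - 1)) := by
    have h8 : ∀ j ∈ range m, Real.exp (N * (v j - EE D Γ μ v j)) ≤ Real.exp (N * (a - 1)) := by
      intro j hj
      rw [Finset.mem_range] at hj
      rw [Real.exp_le_exp]
      apply mul_le_mul_of_nonneg_left _ hN0
      have h3 := anti_le hv (Nat.zero_le j) hj
      rw [hv.lead] at h3
      have := hElast j hj
      linarith
    refine (Finset.sum_le_card_nsmul _ _ _ h8).trans ?_
    rw [nsmul_eq_mul, Finset.card_range]
  have h7' : 0 ≤ ∑ j ∈ range m, Real.exp (N * (v j - EE D Γ μ v j)) :=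
    Finset.sum_nonneg fun j _ => (Real.exp_pos _).le
  have h9 : (a : ℝ) * (S - Real.exp (a * N)) =
      ∑ j ∈ range m, Real.exp (N * (v j - EE D Γ μ v j)) -
      ∑ l ∈ (range m).filter (fun l => ¬ v l = a), v l * y l := by
    rw [hsplit] at hact
    unfold hh at hact
    linarith
  have h10 : |(a : ℝ)| * |S - Real.exp (a * N)| ≤
      m * (B + 1) * Real.exp (N * (a - 1)) := by
    rw [← abs_mul, h9]
    refine (abs_sub _ _).trans ?_
    rw [abs_of_nonneg h7']
    linarith
  have h11 : |S - Real.exp (a * N)| ≤ m * (B + 1) * Real.exp (N * (a - 1)) := by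
    have := abs_nonneg (S - Real.exp (a * N))
    nlinarith
  refine h11.trans ?_
  have h12 : Real.exp (a * N) = Real.exp N * Real.exp (N * (a - 1)) := by
    rw [← Real.exp_add]; congr 1; ring
  rw [h12]
  have := Real.exp_pos (N * ((a : ℝ) - 1))
  nlinarith

/-- lower bound at the last index of a block -/
lemma lower (hg : Good D Γ n) (hμ : 2 ≤ μ) (hmn : m ≤ n) {v y : ℕ → ℝ} {N : ℝ} {Lw : ℕ}
    (hv : Valid D Γ μ m a B v) (haB : (Lw : ℝ) + 1 + |(a : ℝ)| ≤ B)
    (ha : (Γ 0 : ℝ) * μ ≤ |(a : ℝ)|) (hy : ∀ j, j < m → Real.exp (-(Lw : ℝ) * N) ≤ y j)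
    (hsat : ∀ g, Valid D Γ μ m a B g → lin m g y ≤ hh D Γ μ m a g N)
    (hact : lin m v y = hh D Γ μ m a v N) (hN0 : 0 ≤ N)
    (hN : (m : ℝ) * ((D 0).factorial : ℝ) ^ m ≤ Real.exp N)
    (hN2 : 4 * (m : ℝ) * (B + 1) ≤ Real.exp N)
    {i : ℕ} (hi1 : 1 ≤ i) (him : i < m) (hlast : ∀ l, i < l → l < m → v l < v i) :
    Real.exp (N * (v i - EE D Γ μ v (m - 1) - 1)) ≤ y i := by
  have hμ1 : 1 ≤ μ := by omega
  have hypos : ∀ j, j < m → 0 < y j := fun j hj => (Real.exp_pos _).trans_le (hy j hj)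
  set E : ℝ := ((EE D Γ μ v (m - 1) : ℕ) : ℝ) with hEdef
  have hE1 : (1 : ℝ) ≤ E := by
    rw [hEdef]; exact_mod_cast EE_pos hg hμ1 v (m - 1)
  have hLw0 : (0 : ℝ) ≤ Lw := by positivity
  have hm1 : (1 : ℝ) ≤ m := by
    have : 1 ≤ m := by omega
    exact_mod_cast this
  by_cases hcase : v i - E ≤ -(Lw : ℝ)
  · refine le_trans ?_ (hy i him)
    rw [Real.exp_le_exp]
    nlinarith
  push Not at hcase
  obtain ⟨k, rfl⟩ : ∃ k, i = k + 1 := ⟨i - 1, by omega⟩
  have hgap := gap hg hmn hv ha k (by omega)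
  have hvk := hv.anti k him
  set b0 : ℤ := -((Lw : ℤ) + 1) with hb0
  have hb0r : (b0 : ℝ) = -((Lw : ℝ) + 1) := by rw [hb0]; push_cast; ring
  obtain ⟨b, hb1, hb2, hb3, hb4⟩ := select_down hg hμ (by omega) hgap
    (fun l hl => hv.grid l (by omega)) b0 (by rw [hb0r]; linarith)
  -- size of the zone
  have hzone : (Γ (k + 1) : ℝ) * EE D Γ μ v k ≤ |(a : ℝ)| := by
    have hps : ps (fun l => if l = 0 then (1 : ℤ) else 0) v k = v 0 := by
      unfold ps
      rw [Finset.sum_eq_single 0]
      · simp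
      · intro b _ hb0
        simp [hb0]
      · intro h
        exact absurd (Finset.mem_range.2 (Nat.succ_pos k)) h
    have hD1 : (1 : ℤ) ≤ D k := by exact_mod_cast hg.D1 k
    have hane : (a : ℝ) ≠ 0 := by
      intro h
      rw [h, abs_zero] at ha
      have h1 : (4 : ℝ) ≤ Γ 0 := by exact_mod_cast hg.G4 0
      have h2 : (2 : ℝ) ≤ μ := by exact_mod_cast hμ
      nlinarith
    have h1 := hgap (fun l => if l = 0 then (1 : ℤ) else 0) (by
      intro l
      split_ifs
      · simpa using hD1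
      · simp) (by rw [hps, hv.lead]; exact hane)
    rw [hps, hv.lead] at h1
    have hG : 2 * (D (k + 1) : ℝ) ^ 2 * (Γ (k + 1) : ℝ) ^ 2 ≤ Γ k := by
      exact_mod_cast hg.GG k (by omega)
    have hD1' : (1 : ℝ) ≤ D (k + 1) := by exact_mod_cast hg.D1 (k + 1)
    have hG4 : (4 : ℝ) ≤ Γ (k + 1) := by exact_mod_cast hg.G4 (k + 1)
    have hE0 : (0 : ℝ) ≤ EE D Γ μ v k := by positivity
    refine le_trans ?_ h1
    apply mul_le_mul_of_nonneg_right _ hE0
    have h2 : (1 : ℝ) ≤ (D (k + 1) : ℝ) ^ 2 := one_le_pow₀ hD1'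
    nlinarith [sq_nonneg (Γ (k + 1) : ℝ)]
  have hbB : -(B : ℝ) ≤ b := by linarith
  have hkey := key hg hv hsat hact him hb2 hbB hb3 (by
    rcases hb4 with h | h
    · exact Or.inl h.1
    · exact Or.inr h.2.1)
  -- exponentials on the right
  have h2 : ∀ j ∈ Ico (k + 1) m, Real.exp (N * (b - EE D Γ μ (upd m v (k + 1) b) j)) ≤
      Real.exp (N * (v (k + 1) - E - 1)) := by
    intro j hj
    rw [Finset.mem_Ico] at hj
    have hE := EE_upd_ge (μ := μ) hg him (v := v) (t := b) hj.1
    rw [Real.exp_le_exp]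
    apply mul_le_mul_of_nonneg_left _ hN0
    rcases hb4 with h | h
    · have h3 : ((Γ (k + 1) : ℝ)) * EE D Γ μ v k ≤ EE D Γ μ (upd m v (k + 1) b) j := by
        exact_mod_cast hE.1 h.1
      linarith [h.2]
    · have h3 : (EE D Γ μ v k : ℝ) ≤ EE D Γ μ (upd m v (k + 1) b) j := by
        exact_mod_cast hE.2
      linarith [h.2.2]
  have hcardm : ((m - (k + 1) : ℕ) : ℝ) ≤ m := by
    have : m - (k + 1) ≤ m := Nat.sub_le _ _
    exact_mod_cast this
  have h3 : ∑ j ∈ Ico (k + 1) m, Real.exp (N * (b - EE D Γ μ (upd m v (k + 1) b) j)) ≤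
      m * Real.exp (N * (v (k + 1) - E - 1)) := by
    refine (Finset.sum_le_card_nsmul _ _ _ h2).trans ?_
    rw [nsmul_eq_mul, Nat.card_Ico]
    exact mul_le_mul_of_nonneg_right hcardm (Real.exp_pos _).le
  have h4 : Real.exp (N * (v (k + 1) - E)) ≤
      ∑ j ∈ Ico (k + 1) m, Real.exp (N * (v j - EE D Γ μ v j)) := by
    have h5 : Real.exp (N * (v (k + 1) - EE D Γ μ v (k + 1))) ≤
      ∑ j ∈ Ico (k + 1) m, Real.exp (N * (v j - EE D Γ μ v j)) := by
      apply Finset.single_le_sum (f := fun j => Real.exp (N * (v j - EE D Γ μ v j)))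
      · intro j _; exact (Real.exp_pos _).le
      · rw [Finset.mem_Ico]; omega
    refine le_trans ?_ h5
    rw [Real.exp_le_exp]
    apply mul_le_mul_of_nonneg_left _ hN0
    have : (EE D Γ μ v (k + 1) : ℝ) ≤ E := by
      rw [hEdef]; exact_mod_cast EE_mono (μ := μ) hg v (by omega : k + 1 ≤ m - 1)
    linarith
  rw [Finset.sum_sub_distrib] at hkey
  have haB' : |(a : ℝ)| ≤ B := by linarith
  -- the left side
  have h6 : ∑ j ∈ Ico (k + 1) m, (v j - b) * y j ≤
      2 * B * y (k + 1) + m * (2 * B * Real.exp (N * (v (k + 1) - E - 1))) := by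
    rw [Finset.sum_eq_sum_Ico_succ_bot him]
    have h7 : ∀ j, j < m → (v j - b) ≤ 2 * B := by
      intro j hj
      have := (abs_le.1 (abs_val_le hv haB' hj)).2
      linarith
    have h8 : (v (k + 1) - b) * y (k + 1) ≤ 2 * B * y (k + 1) :=
      mul_le_mul_of_nonneg_right (h7 _ him) (hypos _ him).le
    have h9 : ∀ j ∈ Ico (k + 1 + 1) m, (v j - b) * y j ≤
        2 * B * Real.exp (N * (v (k + 1) - E - 1)) := by
      intro j hj
      rw [Finset.mem_Ico] at hj
      have h10 := hlast j (by omega) hj.2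
      have h11 : v j < a := by
        have := anti_le hv (Nat.zero_le (k + 1)) him
        rw [hv.lead] at this
        linarith
      have h12 := upper hg hμ hmn hv ha hypos hsat hact hN0 hN hj.2 h11
      have h13 := value_gap hg hmn hv ha (by omega : k + 1 < j) hj.2 h10
      have hG4 : (4 : ℝ) ≤ Γ (m - 1) := by exact_mod_cast hg.G4 (m - 1)
      have h14 : y j ≤ Real.exp (N * (v (k + 1) - E - 1)) := by
        refine h12.trans ?_
        rw [Real.exp_le_exp]
        apply mul_le_mul_of_nonneg_left _ hN0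
        nlinarith
      calc (v j - b) * y j ≤ 2 * B * y j :=
            mul_le_mul_of_nonneg_right (h7 _ hj.2) (hypos _ hj.2).le
        _ ≤ _ := mul_le_mul_of_nonneg_left h14 (by positivity)
    have h15 : ∑ j ∈ Ico (k + 1 + 1) m, (v j - b) * y j ≤
        m * (2 * B * Real.exp (N * (v (k + 1) - E - 1))) := by
      refine (Finset.sum_le_card_nsmul _ _ _ h9).trans ?_
      rw [nsmul_eq_mul, Nat.card_Ico]
      apply mul_le_mul_of_nonneg_right _ (by positivity)
      have : m - (k + 1 + 1) ≤ m := Nat.sub_le _ _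
      exact_mod_cast this
    linarith
  have h16 : ∑ j ∈ Ico (k + 1) m, (b - v j) * y j = - ∑ j ∈ Ico (k + 1) m, (v j - b) * y j := by
    rw [← Finset.sum_neg_distrib]
    exact Finset.sum_congr rfl fun j _ => by ring
  rw [h16] at hkey
  have h17 : Real.exp (N * (v (k + 1) - E)) = Real.exp N * Real.exp (N * (v (k + 1) - E - 1)) := by
    rw [← Real.exp_add]; congr 1; ring
  have hpos := Real.exp_pos (N * (v (k + 1) - E - 1))
  rw [h17] at h4
  set X := Real.exp (N * (v (k + 1) - E - 1)) with hX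
  have hBpos : (1 : ℝ) ≤ B := by
    have := abs_nonneg (a : ℝ); linarith
  -- exp N * X ≤ m X + 2 B y + 2 m B X
  have h18 : Real.exp N * X ≤ m * X + 2 * B * y (k + 1) + m * (2 * B * X) := by linarith
  have h19 : 4 * (m : ℝ) * (B + 1) * X ≤ Real.exp N * X := mul_le_mul_of_nonneg_right hN2 hpos.le
  have h20 : 2 * B * X ≤ 2 * B * y (k + 1) := by
    have e1 : 0 ≤ (m - 1) * ((B : ℝ) * X) := mul_nonneg (by linarith) (by positivity)
    have e2 : 0 ≤ (m : ℝ) * X := by positivity
    nlinarith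
  have : (0 : ℝ) < 2 * B := by linarith
  exact le_of_mul_le_mul_left h20 this

/-- The region lemma. -/
theorem region (hg : Good D Γ n) (hμ : 2 ≤ μ) (hmn : m ≤ n) {v y : ℕ → ℝ} {N : ℝ} {Lw : ℕ}
    (hv : Valid D Γ μ m a B v) (haB : (Lw : ℝ) + 1 + |(a : ℝ)| ≤ B)
    (ha : (Γ 0 : ℝ) * μ ≤ |(a : ℝ)|) (hy : ∀ j, j < m → Real.exp (-(Lw : ℝ) * N) ≤ y j)
    (hsat : ∀ i j, i < m → j < m → ∀ g, Valid D Γ μ m a B g →
      lin m g (fun l => y (Equiv.swap i j l)) ≤ hh D Γ μ m a g N)
    (hact : lin m v y = hh D Γ μ m a v N) (hN0 : 0 ≤ N)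
    (hN : (m : ℝ) * ((D 0).factorial : ℝ) ^ m ≤ Real.exp N)
    (hN2 : 4 * (m : ℝ) * (B + 1) ≤ Real.exp N)
    {j : ℕ} (hj : j < m) :
    Real.exp (N * (v j - EE D Γ μ v (m - 1) - 1)) ≤ y j ∧
      y j ≤ Real.exp (N * (v j + EE D Γ μ v (m - 1) + 1)) := by
  have hμ1 : 1 ≤ μ := by omega
  have hypos : ∀ j, j < m → 0 < y j := fun j hj => (Real.exp_pos _).trans_le (hy j hj)
  have hLw0 : (0 : ℝ) ≤ Lw := by positivity
  have haB' : |(a : ℝ)| ≤ B := by linarith
  have hm1 : (1 : ℝ) ≤ m := by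
    have : 1 ≤ m := by omega
    exact_mod_cast this
  have hBpos : (1 : ℝ) ≤ B := by
    have := abs_nonneg (a : ℝ); linarith
  have hsat0 : ∀ g, Valid D Γ μ m a B g → lin m g y ≤ hh D Γ μ m a g N := by
    intro g hgv
    have := hsat j j hj hj g hgv
    simpa using this
  have hN3 : 2 * (m : ℝ) * (B + 1) ≤ Real.exp N := by nlinarith
  set E : ℝ := ((EE D Γ μ v (m - 1) : ℕ) : ℝ) with hEdef
  have hE1 : (1 : ℝ) ≤ E := by
    rw [hEdef]; exact_mod_cast EE_pos hg hμ1 v (m - 1)
  have hlead := leader hg hμ hmn hv haB' ha hypos hsat0 hact hN0 hN hN3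
  rw [abs_le] at hlead
  have hexpN : (2 : ℝ) ≤ Real.exp N := by nlinarith
  constructor
  · -- lower bound
    set i := Nat.findGreatest (fun i => v i = v j) (m - 1) with hi
    have hvi : v i = v j :=
      Nat.findGreatest_spec (P := fun i => v i = v j) (by omega : j ≤ m - 1) rfl
    have him : i < m := by
      have := Nat.findGreatest_le (P := fun i => v i = v j) (m - 1)
      omega
    have hji : j ≤ i := Nat.le_findGreatest (by omega : j ≤ m - 1) rfl
    have hlast : ∀ l, i < l → l < m → v l < v i := by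
      intro l h1 h2
      refine lt_of_le_of_ne (anti_le hv h1.le h2) ?_
      intro h
      have := Nat.findGreatest_is_greatest (P := fun i => v i = v j) h1 (by omega)
      exact this (by rw [h, hvi])
    by_cases hi0 : i = 0
    · have hj0 : j = 0 := by omega
      subst hj0
      have hfil : (range m).filter (fun l => v l = a) = {0} := by
        ext l
        rw [Finset.mem_filter, Finset.mem_range, Finset.mem_singleton]
        constructor
        · rintro ⟨h1, h2⟩
          by_contra h3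
          have := hlast l (by omega) h1
          rw [h2, hvi, hv.lead] at this
          exact lt_irrefl _ this
        · rintro rfl
          exact ⟨hj, hv.lead⟩
      rw [hfil, Finset.sum_singleton] at hlead
      have h1 : 1 / 2 * Real.exp (a * N) ≤ y 0 := by linarith [hlead.1]
      refine le_trans ?_ h1
      rw [hv.lead]
      have h2 : Real.exp (a * N) = Real.exp N * Real.exp (N * (a - 1)) := by
        rw [← Real.exp_add]; congr 1; ring
      have h3 : Real.exp (N * (a - E - 1)) ≤ Real.exp (N * (a - 1)) := by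
        rw [Real.exp_le_exp]
        apply mul_le_mul_of_nonneg_left _ hN0
        linarith
      rw [h2]
      have := Real.exp_pos (N * ((a : ℝ) - 1))
      nlinarith
    · set y' : ℕ → ℝ := fun l => y (Equiv.swap j i l) with hy'
      have hswm : ∀ l, l < m → Equiv.swap j i l < m := by
        intro l hl
        rw [Equiv.swap_apply_def]
        split_ifs <;> omega
      have hsat' : ∀ g, Valid D Γ μ m a B g → lin m g y' ≤ hh D Γ μ m a g N :=
        fun g hgv => hsat j i hj him g hgv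
      have hy'low : ∀ l, l < m → Real.exp (-(Lw : ℝ) * N) ≤ y' l :=
        fun l hl => hy _ (hswm l hl)
      have hvsw : ∀ l, v (Equiv.swap j i l) = v l := by
        intro l
        rw [Equiv.swap_apply_def]
        split_ifs with h1 h2
        · rw [h1, hvi]
        · rw [h2, hvi]
        · rfl
      have hact' : lin m v y' = hh D Γ μ m a v N := by
        rw [← hact]
        unfold lin
        apply Finset.sum_equiv (Equiv.swap j i)
        · intro l
          rw [Finset.mem_range, Finset.mem_range]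
          constructor
          · exact hswm l
          · intro h
            have := hswm _ h
            rwa [Equiv.swap_apply_self] at this
        · intro l _
          rw [hvsw]
      have := lower hg hμ hmn hv haB ha hy'low hsat' hact' hN0 hN hN2 (by omega) him hlast
      have h1 : y' i = y j := by rw [hy']; simp
      rw [h1, hvi] at this
      exact this
  · -- upper bound
    have h3 := anti_le hv (Nat.zero_le j) hj
    rw [hv.lead] at h3
    rcases lt_or_eq_of_le h3 with h4 | h4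
    · refine (upper hg hμ hmn hv ha hypos hsat0 hact hN0 hN hj h4).trans ?_
      rw [Real.exp_le_exp]
      apply mul_le_mul_of_nonneg_left _ hN0
      linarith
    · have h5 : y j ≤ ∑ l ∈ (range m).filter (fun l => v l = a), y l := by
        apply Finset.single_le_sum (f := fun l => y l)
        · intro l hl
          rw [Finset.mem_filter, Finset.mem_range] at hl
          exact (hypos l hl.1).le
        · rw [Finset.mem_filter, Finset.mem_range]
          exact ⟨hj, h4⟩
      have h6 : y j ≤ 2 * Real.exp (a * N) := by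
        have := Real.exp_pos (a * N)
        linarith [hlead.2]
      refine h6.trans ?_
      have h7 : Real.exp (N * (v j + E + 1)) = Real.exp N * Real.exp (N * (a + E)) := by
        rw [← Real.exp_add, h4]; congr 1; ring
      have h8 : Real.exp (a * N) ≤ Real.exp (N * (a + E)) := by
        rw [Real.exp_le_exp]
        nlinarith
      rw [h7]
      have := Real.exp_pos ((a : ℝ) * N)
      nlinarith

end Crest.Agent.H8PermB
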