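import Crest.Agent.H8PermB

set_option autoImplicit false

/-!
Part C: choice of the constants and the geometric theorem.
-/

namespace Crest.Agent.H8PermC

open Finset Crest.Agent.H8PermA Crest.Agent.H8PermB

/-! ### constants -/

def Dr (Dz : ℕ) : ℕ → ℕ
  | 0 => max Dz 1
  | (k + 1) => 2 * (Dr Dz k) ^ 2

def Gr (Dz Gf : ℕ) : ℕ → ℕ
  | 0 => max Gf 4
  | (k + 1) => 2 * (Dr Dz k) ^ 2 * (Gr Dz Gf k) ^ 2

lemma Dr_pos (Dz k : ℕ) : 1 ≤ Dr Dz k := by
  induction k with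
  | zero => exact le_max_right _ _
  | succ k ih => unfold Dr; nlinarith

lemma Dr_succ (Dz k : ℕ) : Dr Dz k ≤ Dr Dz (k + 1) := by
  have := Dr_pos Dz k
  rw [Dr]; nlinarith

lemma Dr_mono (Dz : ℕ) : Monotone (Dr Dz) := monotone_nat_of_le_succ (Dr_succ Dz)

lemma Gr_succ (Dz Gf k : ℕ) (h : 4 ≤ Gr Dz Gf k) : Gr Dz Gf k ≤ Gr Dz Gf (k + 1) := by
  have h1 := Dr_pos Dz k
  rw [Gr]
  have h2 : 1 ≤ (Dr Dz k) ^ 2 := Nat.one_le_pow _ _ h1
  nlinarith

lemma Gr_four (Dz Gf k : ℕ) : 4 ≤ Gr Dz Gf k := by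
  induction k with
  | zero => exact le_max_right _ _
  | succ k ih => exact ih.trans (Gr_succ Dz Gf k ih)

lemma Gr_mono (Dz Gf : ℕ) : Monotone (Gr Dz Gf) :=
  monotone_nat_of_le_succ fun k => Gr_succ Dz Gf k (Gr_four Dz Gf k)

def DD (d Dz : ℕ) (j : ℕ) : ℕ := Dr Dz (d - 1 - j)

def GG (d Dz Gf : ℕ) (j : ℕ) : ℕ := Gr Dz Gf (d - 1 - j)

lemma good (d Dz Gf : ℕ) : Good (DD d Dz) (GG d Dz Gf) d := by
  refine ⟨fun j => Dr_pos _ _, fun j => Dr_mono _ (by omega), ?_, fun j => Gr_four _ _ _, ?_⟩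
  · intro j hj
    unfold DD
    rw [show d - 1 - j = (d - 1 - (j + 1)) + 1 by omega]
    rw [Dr]
  · intro j hj
    unfold DD GG
    rw [show d - 1 - j = (d - 1 - (j + 1)) + 1 by omega]
    rw [Gr]

lemma DD_ge (d Dz j : ℕ) : Dz ≤ DD d Dz j :=
  (le_max_left Dz 1).trans (Dr_mono Dz (Nat.zero_le _))

lemma GG_ge (d Dz Gf j : ℕ) : Gf ≤ GG d Dz Gf j :=
  (le_max_left Gf 4).trans (Gr_mono Dz Gf (Nat.zero_le _))

/-- the scales -/
def nu (G0 : ℕ) : ℕ → ℕ
  | 0 => G0 * 2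
  | (k + 1) => G0 * (nu G0 k + 2)

def muu (G0 : ℕ) : ℕ → ℕ
  | 0 => 2
  | (k + 1) => nu G0 k + 2

def mm (d : ℕ) : ℕ → ℕ
  | 0 => d
  | (k + 1) => d - k

def aa (G0 : ℕ) : ℕ → ℤ
  | 0 => nu G0 0
  | (k + 1) => -(nu G0 (k + 1) : ℤ)

lemma nu_succ_ge {G0 : ℕ} (h : 4 ≤ G0) (k : ℕ) : 4 * (nu G0 k + 2) ≤ nu G0 (k + 1) := by
  rw [nu]
  exact Nat.mul_le_mul_right _ h

lemma nu_mono {G0 : ℕ} (h : 4 ≤ G0) : Monotone (nu G0) :=
  monotone_nat_of_le_succ fun k => by have := nu_succ_ge h k; omega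

lemma nu_pos {G0 : ℕ} (h : 4 ≤ G0) (k : ℕ) : 8 ≤ nu G0 k := by
  have h1 := nu_mono h (Nat.zero_le k)
  have h2 : nu G0 0 = G0 * 2 := rfl
  omega

lemma muu_two (G0 k : ℕ) : 2 ≤ muu G0 k := by
  cases k with
  | zero => exact le_rfl
  | succ k => show 2 ≤ nu G0 k + 2; omega

lemma abs_aa (G0 k : ℕ) : |(aa G0 k : ℝ)| = nu G0 k := by
  cases k with
  | zero =>
    unfold aa
    push_cast
    exact abs_of_nonneg (by positivity)
  | succ k =>
    unfold aa
    push_cast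
    rw [abs_neg]
    exact abs_of_nonneg (by positivity)

lemma aa_cond (G0 k : ℕ) : (G0 : ℝ) * muu G0 k ≤ |(aa G0 k : ℝ)| := by
  rw [abs_aa]
  cases k with
  | zero => unfold nu muu; push_cast; exact le_rfl
  | succ k => unfold muu; rw [nu]; push_cast; exact le_rfl

/-! ### finiteness -/

lemma valid_finite (D Γ : ℕ → ℕ) (μ m : ℕ) (a : ℤ) (B : ℕ) :
    {v : ℕ → ℝ | Valid D Γ μ m a B v}.Finite := by
  classical
  set Q : ℕ := (D 0).factorial with hQ
  have hQ1 : 1 ≤ Q := Nat.factorial_pos _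
  set M : ℤ := ((B : ℤ) + |a|) * (Q : ℤ) ^ m with hM
  set F : (Fin m → Finset.Icc (-M) M) → (ℕ → ℝ) := fun f j =>
    if h : j < m then ((f ⟨j, h⟩ : ℤ) : ℝ) / (Q : ℝ) ^ j else 0 with hF
  refine Set.Finite.subset (Set.finite_range F) ?_
  intro v hv
  have hv' : Valid D Γ μ m a B v := hv
  have hcoord : ∀ j : Fin m, ∃ n : Finset.Icc (-M) M, v j * (Q : ℝ) ^ (j : ℕ) = ((n : ℤ) : ℝ) := by
    intro j
    obtain ⟨n, hn⟩ := hv'.grid j j.2
    have h1 : |v j| ≤ (B : ℝ) + |(a : ℝ)| := by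
      rw [abs_le]
      constructor
      · have := hv'.low j j.2
        have := abs_nonneg (a : ℝ)
        linarith
      · have h2 := anti_le hv' (Nat.zero_le j) j.2
        rw [hv'.lead] at h2
        have h3 := le_abs_self (a : ℝ)
        have : (0 : ℝ) ≤ B := by positivity
        linarith
    have h2 : |(n : ℝ)| ≤ M := by
      rw [← hn, abs_mul, hM]
      push_cast
      have h3 : |(Q : ℝ) ^ (j : ℕ)| ≤ (Q : ℝ) ^ m := by
        rw [abs_of_nonneg (by positivity)]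
        exact pow_le_pow_right₀ (by exact_mod_cast hQ1) j.2.le
      exact mul_le_mul h1 h3 (abs_nonneg _) (by positivity)
    have h3 : |n| ≤ M := by exact_mod_cast h2
    rw [abs_le] at h3
    exact ⟨⟨n, Finset.mem_Icc.2 h3⟩, hn⟩
  choose f hf using hcoord
  refine ⟨f, ?_⟩
  funext j
  rw [hF]
  by_cases h : j < m
  · simp only [h, dite_true]
    rw [← hf ⟨j, h⟩]
    have : (Q : ℝ) ^ j ≠ 0 := by positivity
    field_simp
  · simp only [h, dite_false]
    exact (hv'.zero j (by omega)).symm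

/-! ### all ties -/

lemma ties_valid {D Γ : ℕ → ℕ} {n μ m : ℕ} {a : ℤ} {B : ℕ} (hg : Good D Γ n) (hm : 1 ≤ m)
    (hB : |(a : ℝ)| ≤ B) : Valid D Γ μ m a B (fun j => if j < m then (a : ℝ) else 0) := by
  refine ⟨by simp [show 0 < m by omega], ?_, ?_, ?_, ?_, ?_⟩
  · intro j hj
    simp [hj, show j < m by omega]
  · intro j hj
    simp only [hj, if_true]
    linarith [neg_abs_le (a : ℝ)]
  · intro j hj
    simp only [hj, if_true]
    exact grid_int a j
  · intro j hj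
    left
    have : (if j + 1 < m then (a : ℝ) else 0) = (fun j => if j < m then (a : ℝ) else 0) j := by
      simp [hj, show j < m by omega]
    rw [this]
    exact tie_lockVal hg _ j
  · intro j hj
    simp [show ¬ j < m by omega]

lemma ties_hh_le {D Γ : ℕ → ℕ} {n μ m : ℕ} {a : ℤ} (hg : Good D Γ n) (hμ : 1 ≤ μ)
    {N : ℝ} (hN : 0 ≤ N) : hh D Γ μ m a (fun j => if j < m then (a : ℝ) else 0) N ≤
      a * Real.exp (a * N) + m * Real.exp (N * (a - 1)) := by
  unfold hh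
  have h1 : ∀ j ∈ range m, Real.exp (N * ((fun j => if j < m then (a : ℝ) else 0) j -
      EE D Γ μ (fun j => if j < m then (a : ℝ) else 0) j)) ≤ Real.exp (N * (a - 1)) := by
    intro j hj
    rw [Finset.mem_range] at hj
    rw [Real.exp_le_exp]
    apply mul_le_mul_of_nonneg_left _ hN
    have : (1 : ℝ) ≤ EE D Γ μ (fun j => if j < m then (a : ℝ) else 0) j := by
      exact_mod_cast EE_pos hg hμ _ j
    simp only [hj, if_true]
    linarith
  have := Finset.sum_le_card_nsmul _ _ _ h1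
  rw [nsmul_eq_mul, Finset.card_range] at this
  linarith

/-! ### the constraint set -/

/-- extension of a vector to a sequence -/
noncomputable def ext {d : ℕ} (u : Fin d → ℝ) : ℕ → ℝ :=
  fun j => if h : j < d then u ⟨j, h⟩ else 1

lemma ext_fin {d : ℕ} (u : Fin d → ℝ) (q : Fin d) : ext u q = u q := by
  simp [ext, q.2]

lemma pairing {d m : ℕ} (hm : m ≤ d) (σ : Equiv.Perm (Fin d)) {v : ℕ → ℝ}
    (hv : ∀ j, m ≤ j → v j = 0) (x : Fin d → ℝ) :
    ∑ p, v (σ.symm p : ℕ) * x p = lin m v (ext (fun q => x (σ q))) := by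
  rw [← Equiv.sum_comp σ]
  simp only [Equiv.symm_apply_apply]
  have h1 : ∑ i : Fin d, v i * x (σ i) = ∑ j ∈ range d, v j * ext (fun q => x (σ q)) j := by
    rw [Finset.sum_range]
    refine Finset.sum_congr rfl fun q _ => ?_
    rw [ext_fin]
  rw [h1]
  unfold lin
  symm
  apply Finset.sum_subset (Finset.range_subset_range.2 hm)
  intro j _ hj2
  rw [Finset.mem_range, not_lt] at hj2
  rw [hv j hj2, zero_mul]

/-- `G0` -/
def G0 (d Dz Gf : ℕ) : ℕ := GG d Dz Gf 0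

lemma G0_four (d Dz Gf : ℕ) : 4 ≤ G0 d Dz Gf := Gr_four _ _ _

/-- validity in region `r` -/
def VV (d Dz Gf r : ℕ) (v : ℕ → ℝ) : Prop :=
  Valid (DD d Dz) (GG d Dz Gf) (muu (G0 d Dz Gf) r) (mm d r) (aa (G0 d Dz Gf) r)
    (2 * nu (G0 d Dz Gf) d + 2) v

/-- right-hand side in region `r` -/
noncomputable def HH (d Dz Gf r : ℕ) (v : ℕ → ℝ) (N : ℝ) : ℝ :=
  hh (DD d Dz) (GG d Dz Gf) (muu (G0 d Dz Gf) r) (mm d r) (aa (G0 d Dz Gf) r) v N

/-- the constraint set -/
def Sat (d Dz Gf : ℕ) (N : ℝ) (x : Fin d → ℝ) : Prop :=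
  ∀ r, r ≤ d → ∀ σ : Equiv.Perm (Fin d), ∀ v, VV d Dz Gf r v →
    lin (mm d r) v (ext (fun q => x (σ q))) ≤ HH d Dz Gf r v N

/-- the numerical requirement on `N` -/
def Big (d Dz Gf : ℕ) (N : ℝ) : Prop :=
  0 ≤ N ∧ 4 * ((d : ℝ) + 1) * ((2 * nu (G0 d Dz Gf) d + 2 : ℕ) + 1) ≤ Real.exp N ∧
    ((d : ℝ) + 1) * (((DD d Dz) 0).factorial : ℝ) ^ (d + 1) ≤ Real.exp N

variable {d Dz Gf : ℕ}

lemma mm_pos (hd : 1 ≤ d) {r : ℕ} (hr : r ≤ d) : 1 ≤ mm d r := by
  cases r with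
  | zero => exact hd
  | succ k => show 1 ≤ d - k; omega

lemma mm_le (r : ℕ) : mm d r ≤ d := by
  cases r with
  | zero => exact le_rfl
  | succ k => show d - k ≤ d; omega

lemma nu_le {r : ℕ} (hr : r ≤ d) : nu (G0 d Dz Gf) r ≤ nu (G0 d Dz Gf) d :=
  nu_mono (G0_four d Dz Gf) hr

lemma aB {r : ℕ} (hr : r ≤ d) : |(aa (G0 d Dz Gf) r : ℝ)| ≤ ((2 * nu (G0 d Dz Gf) d + 2 : ℕ) : ℝ) := by
  rw [abs_aa]
  have := nu_le (Dz := Dz) (Gf := Gf) hr
  exact_mod_cast (by omega : nu (G0 d Dz Gf) r ≤ 2 * nu (G0 d Dz Gf) d + 2)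

lemma exp_ge_four {N : ℝ} (hN : Big d Dz Gf N) : 4 * ((d : ℝ) + 1) ≤ Real.exp N := by
  have h1 := hN.2.1
  have h2 : (0 : ℝ) ≤ ((2 * nu (G0 d Dz Gf) d + 2 : ℕ) : ℝ) := by positivity
  have h3 : (0 : ℝ) ≤ d := by positivity
  nlinarith

/-- the sum over the first `mm d r` positions is bounded below -/
lemma sum_low (hd : 1 ≤ d) {N : ℝ} (hN : Big d Dz Gf N) {x : Fin d → ℝ}
    (hx : Sat d Dz Gf N x) {k : ℕ} (hk : k + 1 ≤ d) (σ : Equiv.Perm (Fin d)) :
    1 / 2 * Real.exp (-(nu (G0 d Dz Gf) (k + 1) : ℝ) * N) ≤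
      ∑ j ∈ range (mm d (k + 1)), ext (fun q => x (σ q)) j := by
  have hg := good d Dz Gf
  set ν : ℝ := (nu (G0 d Dz Gf) (k + 1) : ℝ) with hν
  have hν1 : (1 : ℝ) ≤ ν := by
    have := nu_pos (G0_four d Dz Gf) (k + 1)
    rw [hν]
    exact_mod_cast (by omega : 1 ≤ nu (G0 d Dz Gf) (k + 1))
  have hv := ties_valid (μ := muu (G0 d Dz Gf) (k + 1)) (B := 2 * nu (G0 d Dz Gf) d + 2)
    hg (mm_pos hd hk) (aB hk) (a := aa (G0 d Dz Gf) (k + 1))
  have h1 := hx (k + 1) hk σ _ hv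
  have h2 := ties_hh_le (m := mm d (k + 1)) (a := aa (G0 d Dz Gf) (k + 1)) hg
    (by have := muu_two (G0 d Dz Gf) (k + 1); omega : 1 ≤ muu (G0 d Dz Gf) (k + 1)) hN.1
  have ha : (aa (G0 d Dz Gf) (k + 1) : ℝ) = -ν := by
    rw [hν]; unfold aa; push_cast; ring
  have h3 : lin (mm d (k + 1)) (fun j => if j < mm d (k + 1) then
      (aa (G0 d Dz Gf) (k + 1) : ℝ) else 0) (ext (fun q => x (σ q))) =
      -ν * ∑ j ∈ range (mm d (k + 1)), ext (fun q => x (σ q)) j := by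
    unfold lin
    rw [Finset.mul_sum]
    refine Finset.sum_congr rfl fun j hj => ?_
    beta_reduce
    rw [if_pos (Finset.mem_range.1 hj), ha]
  rw [h3] at h1
  have h4 := h1.trans h2
  rw [ha] at h4
  set S := ∑ j ∈ range (mm d (k + 1)), ext (fun q => x (σ q)) j with hS
  have h5 : Real.exp (-ν * N) = Real.exp N * Real.exp (N * (-ν - 1)) := by
    rw [← Real.exp_add]; congr 1; ring
  have h6 : ((mm d (k + 1) : ℕ) : ℝ) ≤ d := by exact_mod_cast mm_le (k + 1)
  have h7 := exp_ge_four hN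
  have hpos := Real.exp_pos (N * (-ν - 1))
  set X := Real.exp (N * (-ν - 1)) with hX
  rw [h5] at h4 ⊢
  have h8 : ν * (Real.exp N * X) ≤ ν * S + d * X := by nlinarith
  have h9 : (d : ℝ) * X ≤ ν * (1 / 2 * (Real.exp N * X)) := by
    have h10 : (d : ℝ) * X ≤ 1 / 2 * (Real.exp N * X) := by nlinarith
    have h11 : 0 ≤ 1 / 2 * (Real.exp N * X) := by positivity
    nlinarith
  have h12 : ν * (1 / 2 * (Real.exp N * X)) ≤ ν * S := by nlinarith
  exact le_of_mul_le_mul_left h12 (by linarith)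

/-- (L1) coordinatewise lower bound -/
lemma low (hd : 1 ≤ d) {N : ℝ} (hN : Big d Dz Gf N) {x : Fin d → ℝ}
    (hx : Sat d Dz Gf N x) (p : Fin d) :
    Real.exp (-((nu (G0 d Dz Gf) d + 1 : ℕ) : ℝ) * N) ≤ x p := by
  obtain ⟨k, rfl⟩ : ∃ k, d = k + 1 := ⟨d - 1, by omega⟩
  have h1 := sum_low hd hN hx le_rfl (Equiv.swap 0 p)
  have h2 : mm (k + 1) (k + 1) = 1 := by show k + 1 - k = 1; omega
  rw [h2, Finset.sum_range_one] at h1
  have h3 : ext (fun q => x ((Equiv.swap 0 p) q)) 0 = x p := by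
    have := ext_fin (fun q => x ((Equiv.swap 0 p) q)) 0
    simpa using this
  rw [h3] at h1
  refine le_trans ?_ h1
  have h4 := exp_ge_four hN
  have h5 : Real.exp (-(nu (G0 (k + 1) Dz Gf) (k + 1) : ℝ) * N) = Real.exp N *
      Real.exp (-((nu (G0 (k + 1) Dz Gf) (k + 1) + 1 : ℕ) : ℝ) * N) := by
    rw [← Real.exp_add]; congr 1; push_cast; ring
  rw [h5]
  have := Real.exp_pos (-((nu (G0 (k + 1) Dz Gf) (k + 1) + 1 : ℕ) : ℝ) * N)
  have h6 : (0 : ℝ) ≤ ((k + 1 : ℕ) : ℝ) := by positivity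
  nlinarith

/-- (L2) coordinatewise upper bound -/
lemma up (hd : 1 ≤ d) {N : ℝ} (hN : Big d Dz Gf N) {x : Fin d → ℝ}
    (hx : Sat d Dz Gf N x) (p : Fin d) :
    x p ≤ Real.exp (((nu (G0 d Dz Gf) 0 + 1 : ℕ) : ℝ) * N) := by
  have hg := good d Dz Gf
  have hpos : ∀ q, 0 < x q := fun q => (Real.exp_pos _).trans_le (low hd hN hx q)
  set a : ℝ := (nu (G0 d Dz Gf) 0 : ℝ) with ha
  have ha1 : (1 : ℝ) ≤ a := by
    have := nu_pos (G0_four d Dz Gf) 0
    rw [ha]
    exact_mod_cast (by omega : 1 ≤ nu (G0 d Dz Gf) 0)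
  have hv := ties_valid (μ := muu (G0 d Dz Gf) 0) (B := 2 * nu (G0 d Dz Gf) d + 2)
    hg (mm_pos hd (Nat.zero_le d)) (aB (Nat.zero_le d)) (a := aa (G0 d Dz Gf) 0)
  have h1 := hx 0 (Nat.zero_le d) (Equiv.refl _) _ hv
  have h2 := ties_hh_le (m := mm d 0) (a := aa (G0 d Dz Gf) 0) hg
    (by have := muu_two (G0 d Dz Gf) 0; omega : 1 ≤ muu (G0 d Dz Gf) 0) hN.1
  have ha' : (aa (G0 d Dz Gf) 0 : ℝ) = a := by
    rw [ha]; unfold aa; push_cast; ring
  have h3 : lin (mm d 0) (fun j => if j < mm d 0 then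
      (aa (G0 d Dz Gf) 0 : ℝ) else 0) (ext (fun q => x ((Equiv.refl (Fin d)) q))) =
      a * ∑ q, x q := by
    change ∑ j ∈ range d, (if j < d then (aa (G0 d Dz Gf) 0 : ℝ) else 0) *
      ext (fun q => x ((Equiv.refl (Fin d)) q)) j = a * ∑ q, x q
    rw [Finset.sum_range, Finset.mul_sum]
    refine Finset.sum_congr rfl fun q _ => ?_
    rw [if_pos q.2, ha', ext_fin]
    rfl
  rw [h3] at h1
  have h4 := h1.trans h2
  rw [ha'] at h4
  have h5 : Real.exp (a * N) = Real.exp N * Real.exp (N * (a - 1)) := by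
    rw [← Real.exp_add]; congr 1; ring
  have h7 := exp_ge_four hN
  have h8 : x p ≤ ∑ q, x q :=
    Finset.single_le_sum (f := fun q => x q) (fun q _ => (hpos q).le) (Finset.mem_univ p)
  have h9 : Real.exp (((nu (G0 d Dz Gf) 0 + 1 : ℕ) : ℝ) * N) =
      Real.exp N * (Real.exp N * Real.exp (N * (a - 1))) := by
    rw [← h5, ← Real.exp_add, ha]; congr 1; push_cast; ring
  rw [h9]
  have hmm : ((mm d 0 : ℕ) : ℝ) = d := rfl
  rw [hmm, h5] at h4
  set X := Real.exp (N * (a - 1)) with hX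
  have hXpos : 0 < X := Real.exp_pos _
  have hd0 : (0 : ℝ) ≤ d := by positivity
  set S := ∑ q, x q with hS
  have h10 : a * S ≤ a * (Real.exp N * X + d * X) := by
    have : (d : ℝ) * X ≤ a * (d * X) := by
      have := mul_nonneg hd0 hXpos.le
      nlinarith
    nlinarith
  have h11 : S ≤ Real.exp N * X + d * X := le_of_mul_le_mul_left h10 (by linarith)
  have h12 : (d : ℝ) * X ≤ Real.exp N * X := by nlinarith
  have h13 : 0 < Real.exp N * X := by positivity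
  nlinarith

/-- swapping two positions -/
lemma ext_swap {x : Fin d → ℝ} {σ : Equiv.Perm (Fin d)} {i j : ℕ} (hi : i < d) (hj : j < d)
    {l : ℕ} (hl : l < d) :
    ext (fun q => x (σ q)) (Equiv.swap i j l) =
      ext (fun q => x ((Equiv.swap (⟨i, hi⟩ : Fin d) ⟨j, hj⟩ |>.trans σ) q)) l := by
  have h1 : Equiv.swap i j l = ((Equiv.swap (⟨i, hi⟩ : Fin d) ⟨j, hj⟩) ⟨l, hl⟩ : Fin d) := by
    rw [Equiv.swap_apply_def, Equiv.swap_apply_def]
    by_cases h1 : l = i
    · subst h1; simp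
    · by_cases h2 : l = j
      · subst h2
        simp [h1]
      · simp [h1, h2]
  rw [h1, ext_fin]
  have := ext_fin (fun q => x ((Equiv.swap (⟨i, hi⟩ : Fin d) ⟨j, hj⟩ |>.trans σ) q)) ⟨l, hl⟩
  simp only at this
  rw [this]
  rfl

/-- (L3) region estimate -/
lemma region' (hd : 1 ≤ d) {N : ℝ} (hN : Big d Dz Gf N) {x : Fin d → ℝ}
    (hx : Sat d Dz Gf N x) {r : ℕ} (hr : r ≤ d) (σ : Equiv.Perm (Fin d)) {v : ℕ → ℝ}
    (hv : VV d Dz Gf r v)
    (hact : lin (mm d r) v (ext (fun q => x (σ q))) = HH d Dz Gf r v N)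
    {j : ℕ} (hj : j < mm d r) :
    Real.exp (N * (v j - EE (DD d Dz) (GG d Dz Gf) (muu (G0 d Dz Gf) r) v (mm d r - 1) - 1)) ≤
        ext (fun q => x (σ q)) j ∧
      ext (fun q => x (σ q)) j ≤
        Real.exp (N * (v j + EE (DD d Dz) (GG d Dz Gf) (muu (G0 d Dz Gf) r) v (mm d r - 1) + 1)) := by
  have hg := good d Dz Gf
  have hmd := mm_le (d := d) r
  have hm1 := mm_pos hd hr
  have hylow : ∀ j, j < mm d r →
      Real.exp (-((nu (G0 d Dz Gf) d + 1 : ℕ) : ℝ) * N) ≤ ext (fun q => x (σ q)) j := by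
    intro j hj
    have h1 : j < d := by omega
    have := ext_fin (fun q => x (σ q)) ⟨j, h1⟩
    simp only at this
    rw [this]
    exact low hd hN hx _
  refine region hg (muu_two _ r) hmd (Lw := nu (G0 d Dz Gf) d + 1) hv ?_ (aa_cond _ r) hylow ?_
    hact hN.1 ?_ ?_ hj
  · rw [abs_aa]
    have h1 := nu_le (Dz := Dz) (Gf := Gf) hr
    have h2 : (nu (G0 d Dz Gf) r : ℝ) ≤ nu (G0 d Dz Gf) d := by exact_mod_cast h1
    push_cast
    linarith
  · intro i k hi hk g hgv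
    have h1 := hx r hr ((Equiv.swap (⟨i, by omega⟩ : Fin d) ⟨k, by omega⟩).trans σ) g hgv
    have h2 : lin (mm d r) g (fun l => ext (fun q => x (σ q)) (Equiv.swap i k l)) =
        lin (mm d r) g (ext (fun q => x
          (((Equiv.swap (⟨i, by omega⟩ : Fin d) ⟨k, by omega⟩).trans σ) q))) := by
      unfold lin
      refine Finset.sum_congr rfl fun l hl => ?_
      rw [Finset.mem_range] at hl
      beta_reduce
      rw [ext_swap (by omega) (by omega) (by omega)]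
    rw [h2]
    exact h1
  · refine le_trans ?_ hN.2.2
    have h1 : ((mm d r : ℕ) : ℝ) ≤ d := by exact_mod_cast hmd
    have hQ1 : (1 : ℝ) ≤ (((DD d Dz) 0).factorial : ℝ) := by
      exact_mod_cast Nat.factorial_pos _
    have h2 : (((DD d Dz) 0).factorial : ℝ) ^ (mm d r) ≤
        (((DD d Dz) 0).factorial : ℝ) ^ (d + 1) := pow_le_pow_right₀ hQ1 (by omega)
    exact mul_le_mul (by linarith) h2 (by positivity) (by positivity)
  · refine le_trans ?_ hN.2.1
    have h1 : ((mm d r : ℕ) : ℝ) ≤ d := by exact_mod_cast hmd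
    have h2 : (0 : ℝ) ≤ ((2 * nu (G0 d Dz Gf) d + 2 : ℕ) : ℝ) := by positivity
    apply mul_le_mul_of_nonneg_right _ (by linarith)
    linarith

/-- the final error scale is at most a quarter of the leading value -/
lemma E_le (hd : 1 ≤ d) {r : ℕ} (hr : r ≤ d) {v : ℕ → ℝ} (hv : VV d Dz Gf r v) :
    4 * (EE (DD d Dz) (GG d Dz Gf) (muu (G0 d Dz Gf) r) v (mm d r - 1) : ℝ) ≤
      nu (G0 d Dz Gf) r := by
  have hg := good d Dz Gf
  have hm1 := mm_pos hd hr
  have hgap := gap hg (mm_le r) hv (aa_cond _ r) (mm d r - 1) (by omega)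
  have hps : ps (fun l => if l = 0 then (1 : ℤ) else 0) v (mm d r - 1) = v 0 := by
    unfold ps
    rw [Finset.sum_eq_single 0]
    · simp
    · intro b _ hb0
      simp [hb0]
    · intro h
      exact absurd (Finset.mem_range.2 (Nat.succ_pos _)) h
  have hD1 : (1 : ℤ) ≤ DD d Dz (mm d r - 1) := by exact_mod_cast hg.D1 _
  have hv0 := Valid.lead hv
  have h8 := nu_pos (G0_four d Dz Gf) r
  have h8' : (0 : ℝ) < nu (G0 d Dz Gf) r := by exact_mod_cast (by omega : 0 < nu (G0 d Dz Gf) r)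
  have hne : ps (fun l => if l = 0 then (1 : ℤ) else 0) v (mm d r - 1) ≠ 0 := by
    rw [hps, hv0]
    intro h
    have := abs_aa (G0 d Dz Gf) r
    rw [h, abs_zero] at this
    linarith
  have h1 := hgap (fun l => if l = 0 then (1 : ℤ) else 0) (by
      intro l
      split_ifs
      · simpa using hD1
      · simp) hne
  rw [hps, hv0, abs_aa] at h1
  have hG4 : (4 : ℝ) ≤ GG d Dz Gf (mm d r - 1) := by exact_mod_cast hg.G4 _
  refine le_trans ?_ h1
  exact mul_le_mul_of_nonneg_right hG4 (by positivity)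

/-- closeness of `log x` to `N v` on all coordinates -/
lemma close (hd : 1 ≤ d) {N : ℝ} (hN : Big d Dz Gf N) {x : Fin d → ℝ}
    (hx : Sat d Dz Gf N x) {r : ℕ} (hr : r ≤ d) (σ : Equiv.Perm (Fin d)) {v : ℕ → ℝ}
    (hv : VV d Dz Gf r v)
    (hact : lin (mm d r) v (ext (fun q => x (σ q))) = HH d Dz Gf r v N) (q : Fin d) :
    |Real.log (x (σ q)) - N * v q| ≤
      N * (EE (DD d Dz) (GG d Dz Gf) (muu (G0 d Dz Gf) r) v (mm d r - 1) + 1) := by
  have hg := good d Dz Gf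
  have hpos : ∀ q, 0 < x q := fun q => (Real.exp_pos _).trans_le (low hd hN hx q)
  set E : ℝ := ((EE (DD d Dz) (GG d Dz Gf) (muu (G0 d Dz Gf) r) v (mm d r - 1) : ℕ) : ℝ) with hE
  by_cases hq : (q : ℕ) < mm d r
  · have h1 := region' hd hN hx hr σ hv hact hq
    rw [ext_fin] at h1
    obtain ⟨h2, h3⟩ := h1
    have h4 := (Real.le_log_iff_exp_le (hpos (σ q))).2 h2
    have h5 := (Real.log_le_iff_le_exp (hpos (σ q))).2 h3
    rw [abs_le]
    constructor <;> nlinarith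
  · push Not at hq
    have hvq : v q = 0 := Valid.zero hv q hq
    rw [hvq, mul_zero, sub_zero]
    -- here `r = s + 1` with `s ≥ 1`
    obtain ⟨s, rfl⟩ : ∃ s, r = s + 1 := by
      cases r with
      | zero =>
        exfalso
        have : mm d 0 = d := rfl
        have := q.2
        omega
      | succ s => exact ⟨s, rfl⟩
    have hmm : mm d (s + 1) = d - s := rfl
    obtain ⟨k, rfl⟩ : ∃ k, s = k + 1 := by
      cases s with
      | zero =>
        exfalso
        have := q.2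
        omega
      | succ k => exact ⟨k, rfl⟩
    set m := mm d (k + 1 + 1) with hm
    have hmk : mm d (k + 1) = m + 1 := by
      show d - k = m + 1
      omega
    have hm1 : 1 ≤ m := mm_pos hd hr
    set ν : ℝ := (nu (G0 d Dz Gf) (k + 1) : ℝ) with hν
    have hν0 : (0 : ℝ) ≤ ν := by positivity
    have hEμ : ν + 2 ≤ E := by
      have := EE_ge (μ := muu (G0 d Dz Gf) (k + 1 + 1)) hg v (mm d (k + 1 + 1) - 1)
      have h2 : muu (G0 d Dz Gf) (k + 1 + 1) = nu (G0 d Dz Gf) (k + 1) + 2 := rfl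
      rw [h2] at this
      rw [hE, hν]
      exact_mod_cast this
    have hE4 := E_le hd hr hv
    have hnu : 4 * (ν + 2) ≤ (nu (G0 d Dz Gf) (k + 1 + 1) : ℝ) := by
      rw [hν]; exact_mod_cast nu_succ_ge (G0_four d Dz Gf) (k + 1)
    have hup := up hd hN hx (σ q)
    have h5 := (Real.log_le_iff_le_exp (hpos (σ q))).2 hup
    have hnu0 : (nu (G0 d Dz Gf) 0 : ℝ) ≤ ν := by
      rw [hν]; exact_mod_cast nu_mono (G0_four d Dz Gf) (Nat.zero_le _)
    -- lower bound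
    have hmd : m < d := lt_of_le_of_lt hq q.2
    have h1 := sum_low hd hN hx (by omega : k + 1 ≤ d)
      ((Equiv.swap (⟨m, hmd⟩ : Fin d) q).trans σ)
    rw [hmk, Finset.sum_range_succ] at h1
    have h2 : ext (fun q' => x (((Equiv.swap (⟨m, hmd⟩ : Fin d) q).trans σ) q')) m =
        x (σ q) := by
      have := ext_fin (fun q' => x (((Equiv.swap (⟨m, hmd⟩ : Fin d) q).trans σ) q')) ⟨m, hmd⟩
      simp only at this
      rw [this]
      simp
    have h3 : ∀ l ∈ range m,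
        ext (fun q' => x (((Equiv.swap (⟨m, hmd⟩ : Fin d) q).trans σ) q')) l ≤
          Real.exp (-(ν + 1) * N) := by
      intro l hl
      rw [Finset.mem_range] at hl
      have hld : l < d := by omega
      have h4 : ext (fun q' => x (((Equiv.swap (⟨m, hmd⟩ : Fin d) q).trans σ) q')) l =
          ext (fun q' => x (σ q')) l := by
        have e1 := ext_fin (fun q' => x (((Equiv.swap (⟨m, hmd⟩ : Fin d) q).trans σ) q')) ⟨l, hld⟩
        have e2 := ext_fin (fun q' => x (σ q')) ⟨l, hld⟩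
        simp only at e1 e2
        rw [e1, e2]
        congr 1
        rw [Equiv.trans_apply, Equiv.swap_apply_of_ne_of_ne]
        · intro h
          have := congrArg Fin.val h
          simp only at this
          omega
        · intro h
          have := congrArg Fin.val h
          simp only at this
          omega
      rw [h4]
      refine (region' hd hN hx hr σ hv hact hl).2.trans ?_
      rw [Real.exp_le_exp]
      have hvl : v l ≤ -(nu (G0 d Dz Gf) (k + 1 + 1) : ℝ) := by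
        have h6 := anti_le hv (Nat.zero_le l) hl
        rw [Valid.lead hv] at h6
        unfold aa at h6
        push_cast at h6
        exact h6
      rw [mul_comm]
      apply mul_le_mul_of_nonneg_right _ hN.1
      rw [← hE]
      linarith
    have h6 := Finset.sum_le_card_nsmul _ _ _ h3
    rw [nsmul_eq_mul, Finset.card_range] at h6
    rw [h2] at h1
    have h7 : Real.exp (-ν * N) = Real.exp N * Real.exp (-(ν + 1) * N) := by
      rw [← Real.exp_add]; congr 1; ring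
    have h8 := exp_ge_four hN
    have h9 : ((m : ℕ) : ℝ) ≤ d := by exact_mod_cast hmd.le
    rw [h7] at h1
    have hX := Real.exp_pos (-(ν + 1) * N)
    have h10 : Real.exp (-(ν + 1) * N) ≤ x (σ q) := by
      have h11 : (m : ℝ) * Real.exp (-(ν + 1) * N) ≤ d * Real.exp (-(ν + 1) * N) :=
        mul_le_mul_of_nonneg_right h9 hX.le
      have h12 : 4 * ((d : ℝ) + 1) * Real.exp (-(ν + 1) * N) ≤
          Real.exp N * Real.exp (-(ν + 1) * N) := mul_le_mul_of_nonneg_right h8 hX.le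
      have h13 : 0 ≤ (d : ℝ) * Real.exp (-(ν + 1) * N) := by positivity
      nlinarith
    have h14 := (Real.le_log_iff_exp_le (hpos (σ q))).2 h10
    have hN0 := hN.1
    push_cast at h5
    rw [abs_le]
    constructor <;> nlinarith

/-- the key property of active constraints -/
lemma star (hd : 1 ≤ d) {N : ℝ} (hN : Big d Dz (2 * d * Dz + 1) N) {x : Fin d → ℝ}
    (hx : Sat d Dz (2 * d * Dz + 1) N x) {r : ℕ} (hr : r ≤ d) (σ : Equiv.Perm (Fin d)) {v : ℕ → ℝ}
    (hv : VV d Dz (2 * d * Dz + 1) r v)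
    (hact : lin (mm d r) v (ext (fun q => x (σ q))) = HH d Dz (2 * d * Dz + 1) r v N)
    (z : Fin d → ℤ) (hz : ∀ p, |z p| ≤ (Dz : ℤ))
    (hpos : 0 < ∑ p, (z p : ℝ) * v (σ.symm p : ℕ)) :
    N ≤ ∑ p, (z p : ℝ) * Real.log (x p) := by
  set Gf := 2 * d * Dz + 1 with hGf
  have hg := good d Dz Gf
  have hm1 := mm_pos hd hr
  have hmd := mm_le (d := d) r
  set En : ℕ := EE (DD d Dz) (GG d Dz Gf) (muu (G0 d Dz Gf) r) v (mm d r - 1) with hEn
  have hE1 : (1 : ℝ) ≤ En := by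
    have := EE_pos (μ := muu (G0 d Dz Gf) r) hg (by have := muu_two (G0 d Dz Gf) r; omega) v
      (mm d r - 1)
    exact_mod_cast this
  set S := ∑ p, (z p : ℝ) * v (σ.symm p : ℕ) with hS
  -- `S` as a prefix sum
  set z' : ℕ → ℤ := fun j => if h : j < d then z (σ ⟨j, h⟩) else 0 with hz'
  have hz'b : ∀ l, |z' l| ≤ (DD d Dz (mm d r - 1) : ℤ) := by
    intro l
    have h1 : (Dz : ℤ) ≤ DD d Dz (mm d r - 1) := by exact_mod_cast DD_ge d Dz _
    rw [hz']
    by_cases h : l < d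
    · simp only [h, dite_true]
      exact (hz _).trans h1
    · simp only [h, dite_false, abs_zero]
      positivity
  have hps : ps z' v (mm d r - 1) = S := by
    rw [hS, ← Equiv.sum_comp σ]
    simp only [Equiv.symm_apply_apply]
    unfold ps
    rw [show mm d r - 1 + 1 = mm d r by omega]
    have h1 : ∑ q : Fin d, (z (σ q) : ℝ) * v q = ∑ j ∈ range d, (z' j : ℝ) * v j := by
      rw [Finset.sum_range]
      refine Finset.sum_congr rfl fun q _ => ?_
      rw [hz']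
      simp [q.2]
    rw [h1]
    apply Finset.sum_subset (Finset.range_subset_range.2 hmd)
    intro j _ hj2
    rw [Finset.mem_range, not_lt] at hj2
    rw [Valid.zero hv j hj2, mul_zero]
  have hgap := gap hg hmd hv (aa_cond _ r) (mm d r - 1) (by omega) z' hz'b
    (by rw [hps]; exact hpos.ne')
  rw [hps, abs_of_pos hpos] at hgap
  have hclose := close hd hN hx hr σ hv hact
  have h2 : ∑ p, (z p : ℝ) * Real.log (x p) = ∑ q, (z (σ q) : ℝ) * Real.log (x (σ q)) := by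
    rw [← Equiv.sum_comp σ]
  have h3 : S = ∑ q : Fin d, (z (σ q) : ℝ) * v q := by
    rw [hS, ← Equiv.sum_comp σ]
    simp only [Equiv.symm_apply_apply]
  have h4 : ∀ q ∈ (Finset.univ : Finset (Fin d)), N * ((z (σ q) : ℝ) * v q) - N * (Dz * (En + 1)) ≤
      (z (σ q) : ℝ) * Real.log (x (σ q)) := by
    intro q _
    have h5 := hclose q
    have h6 : |(z (σ q) : ℝ)| ≤ Dz := by exact_mod_cast hz (σ q)
    have h7 : |(z (σ q) : ℝ) * (Real.log (x (σ q)) - N * v q)| ≤ Dz * (N * (En + 1)) := by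
      rw [abs_mul]
      exact mul_le_mul h6 h5 (abs_nonneg _) (by positivity)
    have h8 := (abs_le.1 h7).1
    nlinarith
  have h5 := Finset.sum_le_sum h4
  rw [Finset.sum_sub_distrib, ← Finset.mul_sum, ← h3, Finset.sum_const, Finset.card_univ,
    Fintype.card_fin, nsmul_eq_mul] at h5
  rw [h2]
  refine le_trans ?_ h5
  have hΓ : (2 * d * Dz + 1 : ℝ) ≤ GG d Dz Gf (mm d r - 1) := by
    exact_mod_cast GG_ge d Dz Gf (mm d r - 1)
  have hN0 := hN.1
  have h9 : ((2 : ℝ) * d * Dz + 1) * En ≤ S := by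
    refine le_trans ?_ hgap
    exact mul_le_mul_of_nonneg_right hΓ (by positivity)
  have h10 : 1 ≤ S - d * (Dz * (En + 1)) := by
    have hdz : (0 : ℝ) ≤ (d : ℝ) * Dz := by positivity
    nlinarith
  have h11 : N * S - (d : ℝ) * (N * (Dz * (En + 1))) = N * (S - d * (Dz * (En + 1))) := by ring
  rw [h11]
  nlinarith

/-- positive pairings of integer vectors with normals are at least one -/
lemma pair_ge (hd : 1 ≤ d) {r : ℕ} (hr : r ≤ d) (σ : Equiv.Perm (Fin d)) {v : ℕ → ℝ}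
    (hv : VV d Dz Gf r v)
    (z : Fin d → ℤ) (hz : ∀ p, |z p| ≤ (Dz : ℤ))
    (hpos : 0 < ∑ p, (z p : ℝ) * v (σ.symm p : ℕ)) :
    1 ≤ ∑ p, (z p : ℝ) * v (σ.symm p : ℕ) := by
  have hg := good d Dz Gf
  have hm1 := mm_pos hd hr
  have hmd := mm_le (d := d) r
  have hE1 : (1 : ℝ) ≤ EE (DD d Dz) (GG d Dz Gf) (muu (G0 d Dz Gf) r) v (mm d r - 1) := by
    have := EE_pos (μ := muu (G0 d Dz Gf) r) hg (by have := muu_two (G0 d Dz Gf) r; omega) v
      (mm d r - 1)
    exact_mod_cast this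
  set S := ∑ p, (z p : ℝ) * v (σ.symm p : ℕ) with hS
  set z' : ℕ → ℤ := fun j => if h : j < d then z (σ ⟨j, h⟩) else 0 with hz'
  have hz'b : ∀ l, |z' l| ≤ (DD d Dz (mm d r - 1) : ℤ) := by
    intro l
    have h1 : (Dz : ℤ) ≤ DD d Dz (mm d r - 1) := by exact_mod_cast DD_ge d Dz _
    rw [hz']
    by_cases h : l < d
    · simp only [h, dite_true]
      exact (hz _).trans h1
    · simp only [h, dite_false, abs_zero]
      positivity
  have hps : ps z' v (mm d r - 1) = S := by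
    rw [hS, ← Equiv.sum_comp σ]
    simp only [Equiv.symm_apply_apply]
    unfold ps
    rw [show mm d r - 1 + 1 = mm d r by omega]
    have h1 : ∑ q : Fin d, (z (σ q) : ℝ) * v q = ∑ j ∈ range d, (z' j : ℝ) * v j := by
      rw [Finset.sum_range]
      refine Finset.sum_congr rfl fun q _ => ?_
      rw [hz']
      simp [q.2]
    rw [h1]
    apply Finset.sum_subset (Finset.range_subset_range.2 hmd)
    intro j _ hj2
    rw [Finset.mem_range, not_lt] at hj2
    rw [Valid.zero hv j hj2, mul_zero]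
  have hgap := gap hg hmd hv (aa_cond _ r) (mm d r - 1) (by omega) z' hz'b
    (by rw [hps]; exact hpos.ne')
  rw [hps, abs_of_pos hpos] at hgap
  have hG4 : (4 : ℝ) ≤ GG d Dz Gf (mm d r - 1) := by exact_mod_cast hg.G4 _
  nlinarith

/-- every positive point satisfies all constraints strictly for large `N` -/
lemma eventually_strict (hd : 1 ≤ d) {x : Fin d → ℝ} (hx : ∀ p, 0 < x p) :
    ∃ N1 : ℝ, ∀ N, N1 ≤ N → ∀ r, r ≤ d → ∀ σ : Equiv.Perm (Fin d), ∀ v, VV d Dz Gf r v →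
      lin (mm d r) v (ext (fun q => x (σ q))) < HH d Dz Gf r v N := by
  set B : ℝ := ((2 * nu (G0 d Dz Gf) d + 2 : ℕ) : ℝ) with hB
  have hB0 : 0 ≤ B := by positivity
  refine ⟨B * ∑ p, x p + ∑ p, 1 / x p + 1, ?_⟩
  intro N hN r hr σ v hv
  have hS0 : 0 ≤ ∑ p, x p := Finset.sum_nonneg fun p _ => (hx p).le
  have hT0 : 0 ≤ ∑ p, 1 / x p := Finset.sum_nonneg fun p _ => (one_div_pos.2 (hx p)).le
  have hN1 : 1 ≤ N := by nlinarith [mul_nonneg hB0 hS0]
  have hexp : N + 1 ≤ Real.exp N := Real.add_one_le_exp N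
  have hsum0 : 0 ≤ ∑ j ∈ range (mm d r), Real.exp (N * (v j -
      EE (DD d Dz) (GG d Dz Gf) (muu (G0 d Dz Gf) r) v j)) :=
    Finset.sum_nonneg fun j _ => (Real.exp_pos _).le
  have hHH : (aa (G0 d Dz Gf) r : ℝ) * Real.exp (aa (G0 d Dz Gf) r * N) ≤ HH d Dz Gf r v N := by
    unfold HH hh
    linarith
  have hmd := mm_le (d := d) r
  have hm1 := mm_pos hd hr
  have hy : ∀ j, j < mm d r → 0 < ext (fun q => x (σ q)) j := by
    intro j hj
    have := ext_fin (fun q => x (σ q)) ⟨j, by omega⟩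
    simp only at this
    rw [this]
    exact hx _
  refine lt_of_lt_of_le ?_ hHH
  cases r with
  | zero =>
    have h1 : lin (mm d 0) v (ext (fun q => x (σ q))) ≤ B * ∑ p, x p := by
      rw [← pairing (mm_le 0) σ (Valid.zero hv) x, Finset.mul_sum]
      refine Finset.sum_le_sum fun p _ => ?_
      apply mul_le_mul_of_nonneg_right _ (hx p).le
      have h2 : ((σ.symm p : Fin d) : ℕ) < mm d 0 := (σ.symm p).2
      exact (le_abs_self _).trans (abs_val_le hv (aB (Nat.zero_le d)) h2)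
    have h8 := nu_pos (G0_four d Dz Gf) 0
    have ha : (1 : ℝ) ≤ (aa (G0 d Dz Gf) 0 : ℝ) := by
      show (1 : ℝ) ≤ (((nu (G0 d Dz Gf) 0 : ℕ) : ℤ) : ℝ)
      exact_mod_cast (by omega : 1 ≤ nu (G0 d Dz Gf) 0)
    have h3 : Real.exp N ≤ Real.exp (aa (G0 d Dz Gf) 0 * N) := by
      rw [Real.exp_le_exp]; nlinarith
    have h4 := Real.exp_pos N
    nlinarith
  | succ k =>
    set ν : ℝ := (nu (G0 d Dz Gf) (k + 1) : ℝ) with hν
    have ha : (aa (G0 d Dz Gf) (k + 1) : ℝ) = -ν := by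
      rw [hν]; unfold aa; push_cast; ring
    have hν1 : (1 : ℝ) ≤ ν := by
      have := nu_pos (G0_four d Dz Gf) (k + 1)
      rw [hν]
      exact_mod_cast (by omega : 1 ≤ nu (G0 d Dz Gf) (k + 1))
    have h1 : lin (mm d (k + 1)) v (ext (fun q => x (σ q))) ≤
        -ν * ext (fun q => x (σ q)) 0 := by
      unfold lin
      have h2 : range (mm d (k + 1)) = insert 0 ((range (mm d (k + 1))).erase 0) := by
        rw [Finset.insert_erase]
        exact Finset.mem_range.2 (by omega)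
      rw [h2, Finset.sum_insert (Finset.notMem_erase _ _), Valid.lead hv, ha]
      have h3 : ∑ j ∈ (range (mm d (k + 1))).erase 0, v j * ext (fun q => x (σ q)) j ≤ 0 := by
        apply Finset.sum_nonpos
        intro j hj
        rw [Finset.mem_erase, Finset.mem_range] at hj
        apply mul_nonpos_of_nonpos_of_nonneg _ (hy j hj.2).le
        have := anti_le hv (Nat.zero_le j) hj.2
        rw [Valid.lead hv, ha] at this
        linarith
      linarith
    have h0 : ext (fun q => x (σ q)) 0 = x (σ ⟨0, by omega⟩) :=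
      ext_fin (fun q => x (σ q)) ⟨0, by omega⟩
    rw [h0] at h1
    set p := σ ⟨0, by omega⟩ with hp
    have h4 : 1 / x p ≤ ∑ p, 1 / x p :=
      Finset.single_le_sum (f := fun p => 1 / x p) (fun q _ => (one_div_pos.2 (hx q)).le)
        (Finset.mem_univ p)
    have h5 : 1 / x p < Real.exp N := by nlinarith [mul_nonneg hB0 hS0]
    have h6 : Real.exp (-N) < x p := by
      rw [Real.exp_neg, ← one_div]
      rw [one_div_lt (Real.exp_pos N) (hx p)]
      exact h5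
    have h7 : Real.exp (-ν * N) ≤ Real.exp (-N) := by
      rw [Real.exp_le_exp]; nlinarith
    rw [ha]
    nlinarith

/-- The geometric theorem. -/
theorem geometry (d Dz : ℕ) (hd : 1 ≤ d) :
    ∃ (ι : Type) (_ : Finite ι) (f : ι → Fin d → ℝ) (h : ι → ℝ → ℝ) (N0 C : ℝ),
      0 ≤ N0 ∧ 0 ≤ C ∧
      (∀ i, ContDiff ℝ 1 (h i)) ∧
      (∀ x : Fin d → ℝ, (∀ p, 0 < x p) →
        ∃ N1 : ℝ, ∀ N, N1 ≤ N → ∀ i, ∑ p, f i p * x p < h i N) ∧
      (∀ N, N0 ≤ N → ∀ x : Fin d → ℝ, (∀ i, ∑ p, f i p * x p ≤ h i N) →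
        ∀ p, Real.exp (-C * N) ≤ x p ∧ x p ≤ Real.exp (C * N)) ∧
      (∀ N, N0 ≤ N → ∀ x : Fin d → ℝ, (∀ i, ∑ p, f i p * x p ≤ h i N) →
        ∀ i, ∑ p, f i p * x p = h i N → ∀ z : Fin d → ℤ, (∀ p, |z p| ≤ (Dz : ℤ)) →
          0 < ∑ p, (z p : ℝ) * f i p → N ≤ ∑ p, (z p : ℝ) * Real.log (x p)) ∧
      (∀ i, ∀ z : Fin d → ℤ, (∀ p, |z p| ≤ (Dz : ℤ)) →
          0 < ∑ p, (z p : ℝ) * f i p → 1 ≤ ∑ p, (z p : ℝ) * f i p) ∧
      (∀ i p, |f i p| ≤ C) := by
  classical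
  set Gf := 2 * d * Dz + 1 with hGf
  set C : ℝ := ((2 * nu (G0 d Dz Gf) d + 2 : ℕ) : ℝ) with hC
  have hfin : ∀ r : Fin (d + 1), Finite {v : ℕ → ℝ // VV d Dz Gf r v} := by
    intro r
    exact (valid_finite (DD d Dz) (GG d Dz Gf) (muu (G0 d Dz Gf) r) (mm d r)
      (aa (G0 d Dz Gf) r) (2 * nu (G0 d Dz Gf) d + 2)).to_subtype
  have h1d : (0 : ℝ) ≤ d := by positivity
  have h2n : (0 : ℝ) ≤ ((2 * nu (G0 d Dz Gf) d + 2 : ℕ) : ℝ) := by positivity
  have hmax : 1 ≤ (max (4 * ((d : ℝ) + 1) * ((2 * nu (G0 d Dz Gf) d + 2 : ℕ) + 1))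
      (((d : ℝ) + 1) * (((DD d Dz) 0).factorial : ℝ) ^ (d + 1))) := by
    apply le_max_of_le_left
    nlinarith
  have hBig : ∀ N, Real.log (max (4 * ((d : ℝ) + 1) * ((2 * nu (G0 d Dz Gf) d + 2 : ℕ) + 1))
      (((d : ℝ) + 1) * (((DD d Dz) 0).factorial : ℝ) ^ (d + 1))) ≤ N → Big d Dz Gf N := by
    intro N hN
    have h1 := (Real.log_le_iff_le_exp (by linarith)).1 hN
    refine ⟨(Real.log_nonneg hmax).trans hN, (le_max_left _ _).trans h1,
      (le_max_right _ _).trans h1⟩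
  have hSat : ∀ N, ∀ x : Fin d → ℝ, (∀ i : (Σ r : Fin (d + 1), Equiv.Perm (Fin d) ×
      {v : ℕ → ℝ // VV d Dz Gf r v}), ∑ p, i.2.2.1 (i.2.1.symm p : ℕ) * x p ≤
      HH d Dz Gf i.1 i.2.2.1 N) → Sat d Dz Gf N x := by
    intro N x h r hr σ v hv
    have h1 := h ⟨⟨r, by omega⟩, σ, ⟨v, hv⟩⟩
    simp only at h1
    rw [pairing (mm_le _) σ (Valid.zero hv) x] at h1
    exact h1
  refine ⟨Σ r : Fin (d + 1), Equiv.Perm (Fin d) × {v : ℕ → ℝ // VV d Dz Gf r v}, inferInstance,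
    fun i p => i.2.2.1 (i.2.1.symm p : ℕ), fun i N => HH d Dz Gf i.1 i.2.2.1 N,
    Real.log (max (4 * ((d : ℝ) + 1) * ((2 * nu (G0 d Dz Gf) d + 2 : ℕ) + 1))
      (((d : ℝ) + 1) * (((DD d Dz) 0).factorial : ℝ) ^ (d + 1))), C, ?_, ?_, ?_, ?_, ?_, ?_, ?_, ?_⟩
  · exact Real.log_nonneg hmax
  · positivity
  · intro i
    unfold HH hh
    fun_prop
  · intro x hx
    obtain ⟨N1, h1⟩ := eventually_strict (Dz := Dz) (Gf := Gf) hd hx
    refine ⟨N1, fun N hN i => ?_⟩
    have h2 := h1 N hN i.1 (by have := i.1.2; omega) i.2.1 i.2.2.1 i.2.2.2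
    rw [← pairing (mm_le _) i.2.1 (Valid.zero i.2.2.2) x] at h2
    exact h2
  · intro N hN x hx p
    have h1 := hSat N x hx
    have h2 := hBig N hN
    constructor
    · refine le_trans ?_ (low hd h2 h1 p)
      rw [Real.exp_le_exp]
      apply mul_le_mul_of_nonneg_right _ h2.1
      rw [hC]
      push_cast
      have : (0 : ℝ) ≤ nu (G0 d Dz Gf) d := by positivity
      linarith
    · refine (up hd h2 h1 p).trans ?_
      rw [Real.exp_le_exp]
      apply mul_le_mul_of_nonneg_right _ h2.1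
      rw [hC]
      have := nu_le (Dz := Dz) (Gf := Gf) (Nat.zero_le d)
      exact_mod_cast (by omega : nu (G0 d Dz Gf) 0 + 1 ≤ 2 * nu (G0 d Dz Gf) d + 2)
  · intro N hN x hx i hi z hz hpos
    have h1 := hSat N x hx
    have h2 := hBig N hN
    have h3 := hi
    rw [pairing (mm_le _) i.2.1 (Valid.zero i.2.2.2) x] at h3
    exact star hd h2 h1 (by have := i.1.2; omega) i.2.1 i.2.2.2 h3 z hz hpos
  · intro i z hz hpos
    exact pair_ge hd (by have := i.1.2; omega) i.2.1 i.2.2.2 z hz hpos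
  · intro i p
    by_cases h : ((i.2.1.symm p : Fin d) : ℕ) < mm d i.1
    · exact abs_val_le i.2.2.2 (aB (by have := i.1.2; omega)) h
    · beta_reduce
      rw [Valid.zero i.2.2.2 _ (not_lt.1 h), abs_zero]
      positivity

end Crest.Agent.H8PermC
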