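import Mathlib

set_option autoImplicit false

/-!
Part D: ODE lemmas (global existence for bounded Lipschitz fields, a barrier lemma).
-/

namespace Crest.Agent.H8PermD

open Set Filter Topology
open scoped NNReal

variable {E : Type*} [NormedAddCommGroup E] [NormedSpace ℝ E]

/-- `x` solves `x' = w x` on `[0, ∞)`. -/
def Sol (w : E → E) (x : ℝ → E) : Prop :=
  ∀ t : ℝ, 0 ≤ t → HasDerivWithinAt x (w (x t)) (Ici 0) t

lemma Sol.continuousOn {w : E → E} {x : ℝ → E} (h : Sol w x) (b : ℝ) :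
    ContinuousOn x (Icc 0 b) := fun t ht =>
  (h t ht.1).continuousWithinAt.mono fun _ hs => hs.1

lemma Sol.right {w : E → E} {x : ℝ → E} (h : Sol w x) {t : ℝ} (ht : 0 ≤ t) :
    HasDerivWithinAt x (w (x t)) (Ici t) t :=
  (h t ht).mono fun _ hs => ht.trans hs

lemma unique {w : E → E} {K : ℝ≥0} (hK : LipschitzWith K w) {b : ℝ} {f g : ℝ → E}
    (hf : ContinuousOn f (Icc 0 b))
    (hf' : ∀ t ∈ Ico 0 b, HasDerivWithinAt f (w (f t)) (Ici t) t)
    (hg : ContinuousOn g (Icc 0 b))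
    (hg' : ∀ t ∈ Ico 0 b, HasDerivWithinAt g (w (g t)) (Ici t) t)
    (h0 : f 0 = g 0) : EqOn f g (Icc 0 b) :=
  ODE_solution_unique_of_mem_Icc_right (v := fun _ => w) (s := fun _ => univ) (K := K)
    (fun _ _ => hK.lipschitzOnWith) hf hf' (fun _ _ => mem_univ _) hg hg'
    (fun _ _ => mem_univ _) h0

lemma Sol.unique {w : E → E} {K : ℝ≥0} (hK : LipschitzWith K w) {x y : ℝ → E}
    (hx : Sol w x) (hy : Sol w y) (h0 : x 0 = y 0) {t : ℝ} (ht : 0 ≤ t) : x t = y t :=
  H8PermD.unique hK (hx.continuousOn t) (fun _ hs => hx.right hs.1) (hy.continuousOn t)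
    (fun _ hs => hy.right hs.1) h0 ⟨ht, le_rfl⟩

/-- global existence for bounded Lipschitz fields -/
theorem exists_global [CompleteSpace E] {w : E → E} {K L : ℝ≥0} (hK : LipschitzWith K w)
    (hL : ∀ x, ‖w x‖ ≤ L) (x₀ : E) : ∃ x : ℝ → E, Sol w x ∧ x 0 = x₀ := by
  have hloc : ∀ n : ℕ, ∃ x : ℝ → E, x 0 = x₀ ∧
      ∀ t ∈ Icc (0 : ℝ) n, HasDerivWithinAt x (w (x t)) (Icc 0 n) t := by
    intro n
    have h0 : (0 : ℝ) ∈ Icc (0 : ℝ) n := ⟨le_rfl, by positivity⟩
    have hpl : IsPicardLindelof (fun _ => w) (⟨0, h0⟩ : Icc (0 : ℝ) n) x₀ (L * n) 0 L K := by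
      apply IsPicardLindelof.of_time_independent
      · intro x _; exact hL x
      · exact hK.lipschitzOnWith
      · simp
    exact hpl.exists_eq_forall_mem_Icc_hasDerivWithinAt₀
  choose X hX0 hX using hloc
  have hcont : ∀ n : ℕ, ContinuousOn (X n) (Icc 0 n) := fun n t ht =>
    (hX n t ht).continuousWithinAt
  have hright : ∀ n : ℕ, ∀ t ∈ Ico (0 : ℝ) n, HasDerivWithinAt (X n) (w (X n t)) (Ici t) t := by
    intro n t ht
    have h1 := hX n t ⟨ht.1, ht.2.le⟩
    apply h1.mono_of_mem_nhdsWithin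
    have : Ico t (n : ℝ) ∈ 𝓝[≥] t := Ico_mem_nhdsGE ht.2
    exact Filter.mem_of_superset this fun s hs => ⟨ht.1.trans hs.1, hs.2.le⟩
  have hagree : ∀ n m : ℕ, n ≤ m → EqOn (X n) (X m) (Icc 0 n) := by
    intro n m hnm
    have hnm' : (n : ℝ) ≤ m := by exact_mod_cast hnm
    apply H8PermD.unique hK (hcont n) (hright n)
    · exact (hcont m).mono (Icc_subset_Icc_right hnm')
    · intro t ht
      exact hright m t ⟨ht.1, ht.2.trans_le hnm'⟩
    · rw [hX0, hX0]
  set x : ℝ → E := fun t => X (⌈t⌉₊ + 1) t with hx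
  have hxn : ∀ n : ℕ, ∀ t ∈ Icc (0 : ℝ) n, x t = X n t := by
    intro n t ht
    rw [hx]
    simp only
    rcases le_total n (⌈t⌉₊ + 1) with h | h
    · exact (hagree n _ h ht).symm
    · apply hagree _ n h
      refine ⟨ht.1, ?_⟩
      push_cast
      exact (Nat.le_ceil t).trans (by linarith)
  refine ⟨x, ?_, ?_⟩
  · intro t ht
    set n := ⌈t⌉₊ + 1 with hn
    have htn : t < n := by
      rw [hn]; push_cast
      exact (Nat.le_ceil t).trans_lt (by linarith)
    have h1 := hX n t ⟨ht, htn.le⟩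
    have h2 : HasDerivWithinAt (X n) (w (X n t)) (Ici 0) t := by
      apply h1.mono_of_mem_nhdsWithin
      have : Iio (n : ℝ) ∈ 𝓝 t := Iio_mem_nhds htn
      have h3 : Ici (0 : ℝ) ∩ Iio (n : ℝ) ∈ 𝓝[≥] (0 : ℝ) ⊔ 𝓝[Ici 0] t := by
        rw [mem_sup]
        constructor
        · apply inter_mem self_mem_nhdsWithin
          apply mem_nhdsWithin_of_mem_nhds
          exact Iio_mem_nhds (ht.trans_lt htn)
        · exact inter_mem self_mem_nhdsWithin (mem_nhdsWithin_of_mem_nhds this)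
      have h4 := (mem_sup.1 h3).2
      exact Filter.mem_of_superset h4 fun s hs => ⟨hs.1, le_of_lt hs.2⟩
    have hxt : x t = X n t := hxn n t ⟨ht, htn.le⟩
    rw [hxt]
    apply h2.congr_of_eventuallyEq _ hxt
    have h5 : Ici (0 : ℝ) ∩ Iio (n : ℝ) ∈ 𝓝[Ici 0] t :=
      inter_mem self_mem_nhdsWithin (mem_nhdsWithin_of_mem_nhds (Iio_mem_nhds htn))
    exact Filter.mem_of_superset h5 fun s hs => hxn n s ⟨hs.1, le_of_lt hs.2⟩
  · rw [hxn 0 0 ⟨le_rfl, by simp⟩, hX0]

/-- The barrier lemma. -/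
theorem barrier {ι : Type*} [Finite ι] {T : ℝ} {φ φ' : ι → ℝ → ℝ}
    (hd : ∀ i, ∀ t, 0 ≤ t → HasDerivWithinAt (φ i) (φ' i t) (Ici 0) t)
    (h0 : ∀ i, φ i 0 ≤ 0)
    (hneg : ∀ t ∈ Ico 0 T, (∀ j, φ j t ≤ 0) → ∀ i, φ i t = 0 → φ' i t < 0) :
    ∀ t ∈ Icc 0 T, ∀ i, φ i t ≤ 0 := by
  have hsub : Icc 0 T ⊆ {t | ∀ i, φ i t ≤ 0} := by
    apply IsClosed.Icc_subset_of_forall_exists_gt
    · have hcl : ∀ i, IsClosed (Icc 0 T ∩ φ i ⁻¹' Iic 0) := by
        intro i
        apply ContinuousOn.preimage_isClosed_of_isClosed _ isClosed_Icc isClosed_Iic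
        intro t ht
        exact (hd i t ht.1).continuousWithinAt.mono fun _ hs => hs.1
      have heq : {t | ∀ i, φ i t ≤ 0} ∩ Icc 0 T = Icc 0 T ∩ ⋂ i, (Icc 0 T ∩ φ i ⁻¹' Iic 0) := by
        ext t
        simp only [mem_inter_iff, mem_iInter, mem_preimage, mem_Iic]
        constructor
        · rintro ⟨h1, h2⟩
          exact ⟨h2, fun i => ⟨h2, h1 i⟩⟩
        · rintro ⟨h1, h2⟩
          exact ⟨fun i => (h2 i).2, h1⟩
      rw [heq]
      exact isClosed_Icc.inter (isClosed_iInter hcl)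
    · exact h0
    · rintro t ⟨ht1, ht2⟩ y hy
      have hev : ∀ i, ∀ᶠ s in 𝓝[>] t, φ i s ≤ 0 := by
        intro i
        have hdt : HasDerivWithinAt (φ i) (φ' i t) (Ici t) t :=
          (hd i t ht2.1).mono fun _ hs => ht2.1.trans hs
        rcases lt_or_eq_of_le (ht1 i) with h | h
        · have hc : ContinuousWithinAt (φ i) (Ioi t) t :=
            hdt.continuousWithinAt.mono Ioi_subset_Ici_self
          have := hc.eventually (Iio_mem_nhds h)
          exact this.mono fun s hs => le_of_lt hs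
        · have hn := hneg t ht2 ht1 i h
          have hs := (hasDerivWithinAt_iff_tendsto_slope' (by simp)).1 hdt.Ioi_of_Ici
          have := hs.eventually (Iio_mem_nhds hn)
          filter_upwards [this, self_mem_nhdsWithin] with s hs1 hs2
          have hs2' : t < s := hs2
          have h3 : slope (φ i) t s < 0 := hs1
          rw [slope_def_field, h, sub_zero] at h3
          have h4 : 0 < s - t := by linarith
          by_contra h5
          push Not at h5
          have : 0 ≤ φ i s / (s - t) := div_nonneg h5.le h4.le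
          linarith
      have hall : ∀ᶠ s in 𝓝[>] t, ∀ i, φ i s ≤ 0 := eventually_all.2 hev
      have hIoc : ∀ᶠ s in 𝓝[>] t, s ∈ Ioc t y := Ioc_mem_nhdsGT hy
      obtain ⟨s, hs⟩ := (hall.and hIoc).exists
      exact ⟨s, hs⟩
  exact hsub

end Crest.Agent.H8PermD
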