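import Crest.Prelude.Def_MassAction
import Crest.Agent.H8PermC
import Crest.Agent.H8PermD

set_option autoImplicit false

/-!
Part E: the network inequality.
-/

namespace Crest.Agent.H8PermE

open Finset Crest.AnalysisR.MassAction

variable {d : ℕ}

/-- bound on entries of complexes -/
def Dz (R : Network d) : ℕ := ∑ r ∈ R, ∑ p, (r.1 p + r.2 p)

lemma sum_le {R : Network d} {r : (Fin d → ℕ) × (Fin d → ℕ)} (hr : r ∈ R) :
    ∑ p, (r.1 p + r.2 p) ≤ Dz R :=
  Finset.single_le_sum (f := fun r : (Fin d → ℕ) × (Fin d → ℕ) => ∑ p, (r.1 p + r.2 p))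
    (fun _ _ => Nat.zero_le _) hr

/-- `y` occurs in the network -/
def Occ (R : Network d) (y : Fin d → ℕ) : Prop := ∃ r ∈ R, y = r.1 ∨ y = r.2

lemma occ_sum_le {R : Network d} {y : Fin d → ℕ} (hy : Occ R y) : ∑ p, y p ≤ Dz R := by
  obtain ⟨r, hr, h⟩ := hy
  refine le_trans ?_ (sum_le hr)
  apply Finset.sum_le_sum
  intro p _
  rcases h with rfl | rfl <;> omega

lemma occ_le {R : Network d} {y : Fin d → ℕ} (hy : Occ R y) (p : Fin d) : y p ≤ Dz R :=
  (Finset.single_le_sum (f := fun p => y p) (fun _ _ => Nat.zero_le _) (mem_univ p)).trans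
    (occ_sum_le hy)

lemma diff_le {R : Network d} {y y' : Fin d → ℕ} (hy : Occ R y) (hy' : Occ R y') (p : Fin d) :
    |((y p : ℤ) - (y' p : ℤ))| ≤ (Dz R : ℤ) := by
  have h1 := occ_le hy p
  have h2 := occ_le hy' p
  rw [abs_le]
  constructor <;> omega

/-- monomial -/
noncomputable def mono (x : Fin d → ℝ) (y : Fin d → ℕ) : ℝ := ∏ i, x i ^ (y i)

lemma mono_pos {x : Fin d → ℝ} (hx : ∀ p, 0 < x p) (y : Fin d → ℕ) : 0 < mono x y :=
  Finset.prod_pos fun i _ => pow_pos (hx i) _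

lemma log_mono {x : Fin d → ℝ} (hx : ∀ p, 0 < x p) (y : Fin d → ℕ) :
    Real.log (mono x y) = ∑ p, (y p : ℝ) * Real.log (x p) := by
  unfold mono
  rw [Real.log_prod (fun i _ => (pow_pos (hx i) _).ne')]
  exact Finset.sum_congr rfl fun p _ => Real.log_pow _ _

lemma mono_low {x : Fin d → ℝ} {c : ℝ} (hc : 0 ≤ c) (hx : ∀ p, Real.exp (-c) ≤ x p)
    {y : Fin d → ℕ} {D : ℕ} (hy : ∑ p, y p ≤ D) : Real.exp (-c * D) ≤ mono x y := by
  have h1 : ∏ p, Real.exp (-c) ^ (y p) ≤ mono x y := by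
    unfold mono
    apply Finset.prod_le_prod
    · intro i _; positivity
    · intro i _
      exact pow_le_pow_left₀ (Real.exp_pos _).le (hx i) _
  refine le_trans ?_ h1
  rw [Finset.prod_pow_eq_pow_sum, ← Real.exp_nat_mul, Real.exp_le_exp]
  have : ((∑ p, y p : ℕ) : ℝ) ≤ D := by exact_mod_cast hy
  nlinarith

/-- crossing lemma -/
lemma cross {α : Type*} {r : α → α → Prop} {φ : α → ℝ} {c : ℝ} {u w : α}
    (h : Relation.ReflTransGen r u w) (hu : c ≤ φ u) (hw : φ w < c) :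
    ∃ a b, r a b ∧ c ≤ φ a ∧ φ b < c := by
  induction h with
  | refl => exact absurd hw (not_lt.2 hu)
  | tail hab hbc ih =>
    rename_i b c'
    by_cases hb : φ b < c
    · exact ih hb
    · exact ⟨b, c', hbc, not_lt.1 hb, hw⟩

lemma dot_reaction (f : Fin d → ℝ) (r : (Fin d → ℕ) × (Fin d → ℕ)) :
    ∑ p, f p * reactionVector r p = ∑ p, f p * (r.2 p : ℝ) - ∑ p, f p * (r.1 p : ℝ) := by
  unfold reactionVector
  rw [← Finset.sum_sub_distrib]
  exact Finset.sum_congr rfl fun p _ => by ring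

lemma dot_field (R : Network d) (k : (Fin d → ℕ) × (Fin d → ℕ) → ℝ) (f x : Fin d → ℝ) :
    ∑ p, f p * field R k x p =
      ∑ r ∈ R, (k r * mono x r.1) * ∑ p, f p * reactionVector r p := by
  unfold field
  simp only [Finset.sum_apply, Pi.smul_apply, smul_eq_mul, Finset.mul_sum]
  rw [Finset.sum_comm]
  refine Finset.sum_congr rfl fun r _ => Finset.sum_congr rfl fun p _ => ?_
  unfold mono
  ring

lemma dot_int (f : Fin d → ℝ) (y y' : Fin d → ℕ) :
    ∑ p, (((y p : ℤ) - (y' p : ℤ) : ℤ) : ℝ) * f p =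
      ∑ p, f p * (y p : ℝ) - ∑ p, f p * (y' p : ℝ) := by
  rw [← Finset.sum_sub_distrib]
  refine Finset.sum_congr rfl fun p _ => ?_
  push_cast; ring

lemma log_int {x : Fin d → ℝ} (hx : ∀ p, 0 < x p) (y y' : Fin d → ℕ) :
    ∑ p, (((y p : ℤ) - (y' p : ℤ) : ℤ) : ℝ) * Real.log (x p) =
      Real.log (mono x y) - Real.log (mono x y') := by
  rw [log_mono hx, log_mono hx, ← Finset.sum_sub_distrib]
  refine Finset.sum_congr rfl fun p _ => ?_
  push_cast; ring

theorem network_neg {R : Network d} (hR : IsWeaklyReversible R)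
    {k : (Fin d → ℕ) × (Fin d → ℕ) → ℝ} {kmin kmax C N : ℝ} (hkmin : 0 < kmin)
    (hk : ∀ r ∈ R, kmin ≤ k r ∧ k r ≤ kmax) (hC : 0 ≤ C) (hN : 0 ≤ N)
    {f x : Fin d → ℝ} (hx : ∀ p, Real.exp (-C * N) ≤ x p)
    (hP1 : ∀ z : Fin d → ℤ, (∀ p, |z p| ≤ (Dz R : ℤ)) →
      0 < ∑ p, (z p : ℝ) * f p → N ≤ ∑ p, (z p : ℝ) * Real.log (x p))
    (hP2 : ∀ z : Fin d → ℤ, (∀ p, |z p| ≤ (Dz R : ℤ)) →
      0 < ∑ p, (z p : ℝ) * f p → 1 ≤ ∑ p, (z p : ℝ) * f p)
    (hf : ∀ p, |f p| ≤ C)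
    (hbig : 2 * (R.card : ℝ) * kmax * (d * (Dz R * C)) ≤ kmin * Real.exp N)
    (hnt : ∃ r ∈ R, ∑ p, f p * reactionVector r p ≠ 0) :
    ∑ p, f p * field R k x p ≤ -(1 / 2 * (kmin * Real.exp (-(C * N) * Dz R))) := by
  classical
  have hxpos : ∀ p, 0 < x p := fun p => (Real.exp_pos _).trans_le (hx p)
  set φ : (Fin d → ℕ) → ℝ := fun y => ∑ p, f p * (y p : ℝ) with hφ
  have hdot : ∀ r : (Fin d → ℕ) × (Fin d → ℕ), ∑ p, f p * reactionVector r p = φ r.2 - φ r.1 :=
    fun r => dot_reaction f r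
  set T : ℝ := ∑ r ∈ R.filter (fun r => φ r.2 < φ r.1), (k r * mono x r.1) * (φ r.1 - φ r.2)
    with hT
  have hterm : ∀ r ∈ R, 0 ≤ k r * mono x r.1 := fun r hr =>
    mul_nonneg (hkmin.le.trans (hk r hr).1) (mono_pos hxpos _).le
  -- every good reaction contributes
  have hgood : ∀ g ∈ R, φ g.2 < φ g.1 → kmin * mono x g.1 ≤ T := by
    intro g hg hlt
    have h1 : (k g * mono x g.1) * (φ g.1 - φ g.2) ≤ T := by
      rw [hT]
      apply Finset.single_le_sum (f := fun r : (Fin d → ℕ) × (Fin d → ℕ) =>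
        (k r * mono x r.1) * (φ r.1 - φ r.2))
      · intro r hr
        rw [Finset.mem_filter] at hr
        exact mul_nonneg (hterm r hr.1) (by linarith [hr.2])
      · exact Finset.mem_filter.2 ⟨hg, hlt⟩
    have h2 : 1 ≤ φ g.1 - φ g.2 := by
      have h3 := hP2 (fun p => (g.1 p : ℤ) - (g.2 p : ℤ))
        (diff_le ⟨g, hg, Or.inl rfl⟩ ⟨g, hg, Or.inr rfl⟩)
      rw [dot_int] at h3
      exact h3 (by linarith)
    have h3 := (hk g hg).1
    have h4 := mono_pos hxpos g.1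
    have h5 := hterm g hg
    nlinarith
  -- a bad reaction has a dominating good one
  have hbad : ∀ r ∈ R, φ r.1 < φ r.2 → ∃ g ∈ R, φ g.2 < φ g.1 ∧
      Real.exp N * mono x r.1 ≤ mono x g.1 := by
    intro r hr hlt
    obtain ⟨a, b, hab, h1, h2⟩ := cross (φ := φ) (c := φ r.2) (hR r hr) le_rfl hlt
    have hab' : (a, b) ∈ R := hab
    refine ⟨(a, b), hab', by simp only; linarith, ?_⟩
    have h3 := hP1 (fun p => (a p : ℤ) - (r.1 p : ℤ))
      (diff_le ⟨(a, b), hab', Or.inl rfl⟩ ⟨r, hr, Or.inl rfl⟩)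
    rw [dot_int, log_int hxpos] at h3
    have h4 := h3 (by
      have : φ r.1 < φ a := by linarith
      have h5 : φ a - φ r.1 > 0 := by linarith
      exact h5)
    have h5 : Real.exp (N + Real.log (mono x r.1)) ≤ mono x a := by
      rw [← Real.le_log_iff_exp_le (mono_pos hxpos _)]
      linarith
    rw [Real.exp_add, Real.exp_log (mono_pos hxpos _)] at h5
    exact h5
  -- existence of a good reaction
  have hex : ∃ g ∈ R, φ g.2 < φ g.1 := by
    obtain ⟨r, hr, hne⟩ := hnt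
    rw [hdot] at hne
    rcases lt_or_gt_of_ne hne with h | h
    · exact ⟨r, hr, by linarith⟩
    · obtain ⟨g, hg, h1, _⟩ := hbad r hr (by linarith)
      exact ⟨g, hg, h1⟩
  obtain ⟨g0, hg0, hg0lt⟩ := hex
  have hTlow : kmin * Real.exp (-(C * N) * Dz R) ≤ T := by
    refine le_trans ?_ (hgood g0 hg0 hg0lt)
    apply mul_le_mul_of_nonneg_left _ hkmin.le
    apply mono_low (mul_nonneg hC hN)
    · intro p
      have := hx p
      rwa [neg_mul] at this
    · exact occ_sum_le ⟨g0, hg0, Or.inl rfl⟩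
  have hTpos : 0 < T := lt_of_lt_of_le (by positivity) hTlow
  -- bound of bad terms
  set F : ℝ := d * (Dz R * C) with hF
  have hF0 : 0 ≤ F := by positivity
  have hkmax : 0 ≤ kmax := by
    have := hk g0 hg0
    linarith [this.1, this.2]
  have hbadterm : ∀ r ∈ R.filter (fun r => φ r.1 < φ r.2),
      (k r * mono x r.1) * (φ r.2 - φ r.1) ≤ kmax * F * (T / (kmin * Real.exp N)) := by
    intro r hr
    rw [Finset.mem_filter] at hr
    obtain ⟨g, hg, h1, h2⟩ := hbad r hr.1 hr.2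
    have h3 := hgood g hg h1
    have h4 : mono x r.1 ≤ T / (kmin * Real.exp N) := by
      rw [le_div_iff₀ (by positivity)]
      nlinarith
    have h5 : φ r.2 - φ r.1 ≤ F := by
      have h6 : φ r.2 - φ r.1 = ∑ p, (((r.2 p : ℤ) - (r.1 p : ℤ) : ℤ) : ℝ) * f p := by
        rw [dot_int]
      rw [h6]
      have h7 : ∀ p ∈ (Finset.univ : Finset (Fin d)),
          (((r.2 p : ℤ) - (r.1 p : ℤ) : ℤ) : ℝ) * f p ≤ Dz R * C := by
        intro p _
        have h8 := diff_le (R := R) (y := r.2) (y' := r.1) ⟨r, hr.1, Or.inr rfl⟩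
          ⟨r, hr.1, Or.inl rfl⟩ p
        have h9 : |(((r.2 p : ℤ) - (r.1 p : ℤ) : ℤ) : ℝ)| ≤ Dz R := by exact_mod_cast h8
        calc (((r.2 p : ℤ) - (r.1 p : ℤ) : ℤ) : ℝ) * f p
            ≤ |(((r.2 p : ℤ) - (r.1 p : ℤ) : ℤ) : ℝ) * f p| := le_abs_self _
          _ = |(((r.2 p : ℤ) - (r.1 p : ℤ) : ℤ) : ℝ)| * |f p| := abs_mul _ _
          _ ≤ Dz R * C := mul_le_mul h9 (hf p) (abs_nonneg _) (by positivity)
      have h8 := Finset.sum_le_card_nsmul _ _ _ h7
      rw [nsmul_eq_mul, Finset.card_univ, Fintype.card_fin] at h8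
      exact h8
    have h6 := (hk r hr.1).2
    have h7 := mono_pos hxpos r.1
    have h8 : k r * mono x r.1 ≤ kmax * (T / (kmin * Real.exp N)) :=
      mul_le_mul h6 h4 h7.le hkmax
    calc (k r * mono x r.1) * (φ r.2 - φ r.1) ≤ (kmax * (T / (kmin * Real.exp N))) * F :=
          mul_le_mul h8 h5 (by linarith [hr.2]) (by positivity)
      _ = kmax * F * (T / (kmin * Real.exp N)) := by ring
  have hP := Finset.sum_le_card_nsmul _ _ _ hbadterm
  rw [nsmul_eq_mul] at hP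
  have hcard : ((R.filter (fun r => φ r.1 < φ r.2)).card : ℝ) ≤ R.card := by
    exact_mod_cast Finset.card_filter_le _ _
  have hP2' : ∑ r ∈ R.filter (fun r => φ r.1 < φ r.2), (k r * mono x r.1) * (φ r.2 - φ r.1) ≤
      1 / 2 * T := by
    refine hP.trans ?_
    have h1 : ((R.filter (fun r => φ r.1 < φ r.2)).card : ℝ) *
        (kmax * F * (T / (kmin * Real.exp N))) ≤
        R.card * (kmax * F * (T / (kmin * Real.exp N))) :=
      mul_le_mul_of_nonneg_right hcard (by positivity)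
    refine h1.trans ?_
    have h2 : (R.card : ℝ) * (kmax * F * (T / (kmin * Real.exp N))) =
        (2 * (R.card : ℝ) * kmax * F) / (kmin * Real.exp N) * (1 / 2 * T) := by
      field_simp
    rw [h2]
    have h3 : (2 * (R.card : ℝ) * kmax * F) / (kmin * Real.exp N) ≤ 1 := by
      rw [div_le_one (by positivity)]
      exact hbig
    nlinarith
  -- total
  rw [dot_field]
  have hsplit : ∑ r ∈ R, (k r * mono x r.1) * ∑ p, f p * reactionVector r p =
      ∑ r ∈ R.filter (fun r => φ r.1 < φ r.2), (k r * mono x r.1) * (φ r.2 - φ r.1) - T := by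
    rw [hT, Finset.sum_filter, Finset.sum_filter, ← Finset.sum_sub_distrib]
    refine Finset.sum_congr rfl fun r _ => ?_
    rw [hdot]
    by_cases h1 : φ r.1 < φ r.2
    · rw [if_pos h1, if_neg (not_lt.2 h1.le)]; ring
    · by_cases h2 : φ r.2 < φ r.1
      · rw [if_neg h1, if_pos h2]; ring
      · have : φ r.1 = φ r.2 := le_antisymm (not_lt.1 h2) (not_lt.1 h1)
        rw [if_neg h1, if_neg h2, this]; ring
  rw [hsplit]
  linarith

end Crest.Agent.H8PermE
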