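import Crest.Agent.H8PermE

set_option autoImplicit false

/-!
Part F: assembly.
-/

namespace Crest.Agent.H8PermF

open Set Filter Topology
open Crest.AnalysisR.MassAction
open Crest.Agent.H8PermC Crest.Agent.H8PermD Crest.Agent.H8PermE
open scoped NNReal

variable {d : ℕ}

/-- the family of absorbing sets -/
def KK {ι : Type} (R : Network d) (c : Fin d → ℝ) (f : ι → Fin d → ℝ) (h : ι → ℝ → ℝ) (N : ℝ) :
    Set (Fin d → ℝ) :=
  {x | (∀ i, ∑ p, f i p * x p ≤ h i N) ∧ x - c ∈ stoichSubspace R}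

lemma field_mem (R : Network d) (k : (Fin d → ℕ) × (Fin d → ℕ) → ℝ) (x : Fin d → ℝ) :
    field R k x ∈ stoichSubspace R := by
  unfold field
  apply Submodule.sum_mem
  intro r hr
  apply Submodule.smul_mem
  exact Submodule.subset_span ⟨r, hr, rfl⟩

lemma dot_zero_of_mem {R : Network d} {f : Fin d → ℝ}
    (hf : ∀ r ∈ R, ∑ p, f p * reactionVector r p = 0) {s : Fin d → ℝ}
    (hs : s ∈ stoichSubspace R) : ∑ p, f p * s p = 0 := by
  unfold stoichSubspace at hs
  induction hs using Submodule.span_induction with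
  | mem x hx =>
    obtain ⟨r, hr, rfl⟩ := hx
    exact hf r hr
  | zero => simp
  | add x y _ _ hx hy =>
    have : ∑ p, f p * (x + y) p = ∑ p, f p * x p + ∑ p, f p * y p := by
      rw [← Finset.sum_add_distrib]
      exact Finset.sum_congr rfl fun p _ => by rw [Pi.add_apply]; ring
    rw [this, hx, hy, add_zero]
  | smul a x _ hx =>
    have : ∑ p, f p * (a • x) p = a * ∑ p, f p * x p := by
      rw [Finset.mul_sum]
      exact Finset.sum_congr rfl fun p _ => by rw [Pi.smul_apply, smul_eq_mul]; ring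
    rw [this, hx, mul_zero]

lemma sol_mem {R : Network d} {c : Fin d → ℝ} {w : (Fin d → ℝ) → (Fin d → ℝ)}
    (hw : ∀ x, w x ∈ stoichSubspace R) {x : ℝ → Fin d → ℝ} (hx : Sol w x)
    (h0 : x 0 - c ∈ stoichSubspace R) {t : ℝ} (ht : 0 ≤ t) : x t - c ∈ stoichSubspace R := by
  by_contra hcon
  obtain ⟨ℓ, hℓ, hker⟩ := Submodule.exists_le_ker_of_notMem hcon
  have hℓS : ∀ s ∈ stoichSubspace R, ℓ s = 0 := fun s hs => LinearMap.mem_ker.1 (hker hs)
  set L : (Fin d → ℝ) →L[ℝ] ℝ := LinearMap.toContinuousLinearMap ℓ with hL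
  have hLℓ : ∀ s, L s = ℓ s := fun s => rfl
  have hconst := constant_of_has_deriv_right_zero (f := fun s => L (x s)) (a := 0) (b := t)
    (L.continuous.comp_continuousOn (hx.continuousOn t)) (by
      intro s hs
      have h1 := (hx.right hs.1)
      have h2 := L.hasFDerivAt.comp_hasDerivWithinAt s h1
      have h3 : L (w (x s)) = 0 := by rw [hLℓ]; exact hℓS _ (hw _)
      rw [h3] at h2
      exact h2)
  have h1 := hconst t ⟨ht, le_rfl⟩
  apply hℓ
  have h2 : ℓ (x t) = ℓ (x 0) := h1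
  have h3 := hℓS _ h0
  rw [map_sub] at h3 ⊢
  rw [h2, h3]

lemma Sol.shift {w : (Fin d → ℝ) → (Fin d → ℝ)} {x : ℝ → Fin d → ℝ} (hx : Sol w x) {s : ℝ}
    (hs : 0 ≤ s) : Sol w (fun t => x (t + s)) := by
  intro t ht
  have h1 := hx (t + s) (by linarith)
  have h2 : HasDerivWithinAt (fun t : ℝ => t + s) 1 (Ici 0) t :=
    (hasDerivAt_id t).add_const s |>.hasDerivWithinAt
  have h3 := HasDerivWithinAt.scomp t h1 h2 (fun u hu => by
    have : 0 ≤ u := hu
    show 0 ≤ u + s
    linarith)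
  rw [one_smul] at h3
  exact h3

/-- clamping to the box `[0, L]^d` -/
noncomputable def clamp (L : ℝ) (x : Fin d → ℝ) : Fin d → ℝ := fun p => max 0 (min L (x p))

lemma clamp_lipschitz (L : ℝ) : LipschitzWith 1 (clamp (d := d) L) := by
  apply LipschitzWith.of_dist_le_mul
  intro x y
  rw [NNReal.coe_one, one_mul, dist_pi_le_iff dist_nonneg]
  intro p
  have h1 : LipschitzWith 1 (fun a : ℝ => max 0 (min L a)) :=
    (LipschitzWith.id.const_min L).const_max 0
  have h2 := h1.dist_le_mul (x p) (y p)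
  rw [NNReal.coe_one, one_mul] at h2
  exact h2.trans (dist_le_pi_dist x y p)

lemma clamp_mem {L : ℝ} (hL : 0 ≤ L) (x : Fin d → ℝ) :
    clamp L x ∈ Icc (fun _ : Fin d => (0 : ℝ)) (fun _ => L) := by
  constructor
  · intro p; exact le_max_left _ _
  · intro p; exact max_le hL (min_le_left _ _)

lemma clamp_eq {L : ℝ} {x : Fin d → ℝ} (hx : ∀ p, 0 ≤ x p ∧ x p ≤ L) : clamp L x = x := by
  funext p
  unfold clamp
  rw [min_eq_right (hx p).2, max_eq_right (hx p).1]

lemma field_contDiff (R : Network d) (k : (Fin d → ℕ) × (Fin d → ℕ) → ℝ) :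
    ContDiff ℝ 1 (field R k) := by
  unfold field
  fun_prop

/-- a globally Lipschitz bounded modification of the field -/
lemma exists_modification (R : Network d) (k : (Fin d → ℕ) × (Fin d → ℕ) → ℝ) {L : ℝ}
    (hL : 0 ≤ L) : ∃ (w : (Fin d → ℝ) → (Fin d → ℝ)) (K M : ℝ≥0), LipschitzWith K w ∧
      (∀ x, ‖w x‖ ≤ M) ∧ (∀ x, w x ∈ stoichSubspace R) ∧
      (∀ x, (∀ p, 0 ≤ x p ∧ x p ≤ L) → w x = field R k x) := by
  have hcd := field_contDiff R k
  have hloc : LocallyLipschitz (field R k) := hcd.locallyLipschitz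
  have hcomp : IsCompact (Icc (fun _ : Fin d => (0 : ℝ)) (fun _ => L)) := isCompact_Icc
  obtain ⟨K, hK⟩ := LocallyLipschitzOn.exists_lipschitzOnWith_of_compact hcomp
    hloc.locallyLipschitzOn
  obtain ⟨M, hM⟩ := hcomp.exists_bound_of_continuousOn (f := field R k)
    hcd.continuous.continuousOn
  refine ⟨fun x => field R k (clamp L x), K * 1, ⟨max M 0, le_max_right _ _⟩, ?_, ?_, ?_, ?_⟩
  · rw [← lipschitzOnWith_univ]
    exact hK.comp (clamp_lipschitz L).lipschitzOnWith (fun x _ => clamp_mem hL x)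
  · intro x
    exact (hM _ (clamp_mem hL x)).trans (le_max_left _ _)
  · intro x; exact field_mem _ _ _
  · intro x hx
    simp only
    rw [clamp_eq hx]

section main

variable {ι : Type} [Finite ι] {R : Network d} {c : Fin d → ℝ}
  {k : (Fin d → ℕ) × (Fin d → ℕ) → ℝ} {f : ι → Fin d → ℝ} {h : ι → ℝ → ℝ} {N0 C kmin kmax : ℝ}

/-- the main staying lemma -/
lemma stay (hR : IsWeaklyReversible R) (hkmin : 0 < kmin)
    (hk : ∀ r ∈ R, kmin ≤ k r ∧ k r ≤ kmax) (hN0 : 0 ≤ N0) (hC : 0 ≤ C)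
    (hsmooth : ∀ i, ContDiff ℝ 1 (h i))
    (hbox : ∀ N, N0 ≤ N → ∀ x : Fin d → ℝ, (∀ i, ∑ p, f i p * x p ≤ h i N) →
        ∀ p, Real.exp (-C * N) ≤ x p ∧ x p ≤ Real.exp (C * N))
    (hstar : ∀ N, N0 ≤ N → ∀ x : Fin d → ℝ, (∀ i, ∑ p, f i p * x p ≤ h i N) →
        ∀ i, ∑ p, f i p * x p = h i N → ∀ z : Fin d → ℤ, (∀ p, |z p| ≤ (Dz R : ℤ)) →
          0 < ∑ p, (z p : ℝ) * f i p → N ≤ ∑ p, (z p : ℝ) * Real.log (x p))
    (hpair : ∀ i, ∀ z : Fin d → ℤ, (∀ p, |z p| ≤ (Dz R : ℤ)) →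
          0 < ∑ p, (z p : ℝ) * f i p → 1 ≤ ∑ p, (z p : ℝ) * f i p)
    (hfC : ∀ i p, |f i p| ≤ C)
    (hbig : ∀ N, N0 ≤ N → 2 * (R.card : ℝ) * kmax * (d * (Dz R * C)) ≤ kmin * Real.exp N)
    (hc : ∀ N, N0 ≤ N → ∀ i, ∑ p, f i p * c p < h i N)
    {N1 : ℝ} (hN1 : N0 ≤ N1) :
    ∃ η0 : ℝ, 0 < η0 ∧ ∀ (w : (Fin d → ℝ) → (Fin d → ℝ)), (∀ x, w x ∈ stoichSubspace R) →
      (∀ x, (∀ p, 0 ≤ x p ∧ x p ≤ Real.exp (C * N1)) → w x = field R k x) →
      ∀ x : ℝ → Fin d → ℝ, Sol w x → x 0 ∈ KK R c f h N1 → ∀ η, 0 ≤ η → η ≤ η0 → ∀ T,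
        η * T ≤ N1 - N0 → ∀ t ∈ Icc 0 T, x t ∈ KK R c f h (N1 - η * t) := by
  classical
  -- bound for the derivatives
  have hH : ∀ i, ∃ H : ℝ, ∀ N ∈ Icc N0 N1, ‖deriv (h i) N‖ ≤ H := by
    intro i
    have hcont : Continuous (deriv (h i)) := (hsmooth i).continuous_deriv le_rfl
    exact isCompact_Icc.exists_bound_of_continuousOn hcont.continuousOn
  choose Hi hHi using hH
  obtain ⟨H, hHle⟩ := Finite.exists_le Hi
  have hH' : ∀ i, ∀ N ∈ Icc N0 N1, |deriv (h i) N| ≤ max H 0 := by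
    intro i N hN
    exact ((hHi i N hN).trans (hHle i)).trans (le_max_left _ _)
  set κ : ℝ := 1 / 2 * (kmin * Real.exp (-(C * N1) * Dz R)) with hκ
  have hκpos : 0 < κ := by positivity
  refine ⟨κ / (2 * (max H 0 + 1)), by positivity, ?_⟩
  intro w hwS hwf x hx hx0 η hη hη0 T hT
  have hxS : ∀ t, 0 ≤ t → x t - c ∈ stoichSubspace R := fun t ht => sol_mem hwS hx hx0.2 ht
  have hηH : η * max H 0 < κ := by
    have h1 : 0 < max H 0 + 1 := by positivity
    have h2 : η * (2 * (max H 0 + 1)) ≤ κ := by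
      rwa [le_div_iff₀ (by positivity)] at hη0
    nlinarith [le_max_right H 0]
  set φ : ι → ℝ → ℝ := fun i t => ∑ p, f i p * x t p - h i (N1 - η * t) with hφ
  set φ' : ι → ℝ → ℝ := fun i t => ∑ p, f i p * w (x t) p - deriv (h i) (N1 - η * t) * (-η)
    with hφ'
  have hd : ∀ i, ∀ t, 0 ≤ t → HasDerivWithinAt (φ i) (φ' i t) (Ici 0) t := by
    intro i t ht
    have h1 : HasDerivWithinAt x (w (x t)) (Ici 0) t := hx t ht
    have h2 : ∀ p, HasDerivWithinAt (fun s => x s p) (w (x t) p) (Ici 0) t :=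
      hasDerivWithinAt_pi.1 h1
    have h3 : HasDerivWithinAt (fun s => ∑ p, f i p * x s p) (∑ p, f i p * w (x t) p)
        (Ici 0) t := by
      apply HasDerivWithinAt.fun_sum
      intro p _
      exact (h2 p).const_mul (f i p)
    have h4 : HasDerivAt (h i) (deriv (h i) (N1 - η * t)) (N1 - η * t) :=
      ((hsmooth i).differentiable (by norm_num) _).hasDerivAt
    have h5 : HasDerivAt (fun s : ℝ => N1 - η * s) (-η) t := by
      have := ((hasDerivAt_id t).const_mul η).const_sub N1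
      simpa using this
    have h6 : HasDerivAt (fun s : ℝ => h i (N1 - η * s)) (deriv (h i) (N1 - η * t) * (-η)) t :=
      h4.comp t h5
    exact h3.sub h6.hasDerivWithinAt
  have h0 : ∀ i, φ i 0 ≤ 0 := by
    intro i
    have := hx0.1 i
    rw [hφ]
    simp only [mul_zero, sub_zero]
    linarith
  have hneg : ∀ t ∈ Ico 0 T, (∀ j, φ j t ≤ 0) → ∀ i, φ i t = 0 → φ' i t < 0 := by
    intro t ht hle i hi
    set N := N1 - η * t with hN
    have hNN0 : N0 ≤ N := by
      have : η * t ≤ η * T := mul_le_mul_of_nonneg_left ht.2.le hη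
      linarith
    have hNN1 : N ≤ N1 := by
      have : 0 ≤ η * t := mul_nonneg hη ht.1
      linarith
    have hcons : ∀ j, ∑ p, f j p * x t p ≤ h j N := by
      intro j
      have := hle j
      rw [hφ] at this
      simp only at this
      linarith
    have hact : ∑ p, f i p * x t p = h i N := by
      have := hi
      rw [hφ] at this
      simp only at this
      linarith
    have hNpos : 0 ≤ N := hN0.trans hNN0
    have hbx := hbox N hNN0 (x t) hcons
    have hwx : w (x t) = field R k (x t) := by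
      apply hwf
      intro p
      refine ⟨(Real.exp_pos _).le.trans (hbx p).1, (hbx p).2.trans ?_⟩
      rw [Real.exp_le_exp]
      exact mul_le_mul_of_nonneg_left hNN1 hC
    have hnt : ∃ r ∈ R, ∑ p, f i p * reactionVector r p ≠ 0 := by
      by_contra hcon
      push Not at hcon
      have h1 := dot_zero_of_mem hcon (hxS t ht.1)
      have h2 : ∑ p, f i p * (x t - c) p = ∑ p, f i p * x t p - ∑ p, f i p * c p := by
        rw [← Finset.sum_sub_distrib]
        exact Finset.sum_congr rfl fun p _ => by rw [Pi.sub_apply]; ring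
      rw [h2] at h1
      have h3 := hc N hNN0 i
      linarith
    have hnet := network_neg hR hkmin hk hC hNpos (fun p => (hbx p).1)
      (hstar N hNN0 (x t) hcons i hact) (hpair i) (hfC i) (hbig N hNN0) hnt
    have h1 : -(1 / 2 * (kmin * Real.exp (-(C * N) * Dz R))) ≤ -κ := by
      rw [hκ]
      have : Real.exp (-(C * N1) * Dz R) ≤ Real.exp (-(C * N) * Dz R) := by
        rw [Real.exp_le_exp]
        apply mul_le_mul_of_nonneg_right _ (by positivity)
        have := mul_le_mul_of_nonneg_left hNN1 hC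
        linarith
      nlinarith
    have h2 := hH' i N ⟨hNN0, hNN1⟩
    have h3 : deriv (h i) N * η ≤ max H 0 * η := by
      apply mul_le_mul_of_nonneg_right _ hη
      exact (le_abs_self _).trans h2
    have h4 : φ' i t = ∑ p, f i p * w (x t) p - deriv (h i) N * (-η) := rfl
    rw [h4, hwx]
    nlinarith
  have hfinal := barrier hd h0 hneg
  intro t ht
  refine ⟨fun i => ?_, hxS t ht.1⟩
  have := hfinal t ht i
  rw [hφ] at this
  simp only at this
  linarith

end main

end Crest.Agent.H8PermF
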