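import Crest.Agent.H19SLSpec

set_option autoImplicit false

open MeasureTheory ProbabilityTheory Crest.StreamLearn Crest.Agent.H19SL
open scoped ENNReal NNReal

namespace Crest.Agent.H8SlEnergy

theorem main (hR : Row) (hZ : Riesz) : Energy := by
  intro d s k m
  induction m with
  | zero =>
    intro β τ h z ν _ hτ hh hks hball hF
    have h1 : ∀ xs : Fin (0 + 1) → E d,
        (stdGaussian (E d) {g | ∀ i, |(inner ℝ g (xs i - xs 0) : ℝ)| ≤ h}) ^ k ≤ 1 := by
      intro xs
      exact pow_le_one₀ (by positivity) prob_le_one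
    calc _ ≤ ∫⁻ xs : Fin (0 + 1) → E d, 1 ∂(Measure.pi fun _ => ν) := lintegral_mono h1
      _ = (Measure.pi fun _ : Fin (0 + 1) => ν) Set.univ := by simp
      _ = ν Set.univ := by
        rw [Measure.pi_univ]; simp
      _ ≤ _ := by simp
  | succ m ih =>
    intro β τ h z ν _ hτ hh hks hball hF
    have IH := ih β τ h z ν hτ hh (by omega) hball hF
    -- the pointwise bound
    have hpt : ∀ (ys : Fin (m + 1) → E d) (x : E d),
        stdGaussian (E d) {g | ∀ i : Fin (m + 1 + 1),
            |(inner ℝ g ((Fin.snoc ys x : Fin (m + 1 + 1) → E d) i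
              - (Fin.snoc ys x : Fin (m + 1 + 1) → E d) 0) : ℝ)| ≤ h}
          ≤ stdGaussian (E d) {g | ∀ i, |(inner ℝ g (ys i - ys 0) : ℝ)| ≤ h} *
            (ENNReal.ofReal h * (ENNReal.ofReal (Metric.infDist (x - ys 0)
              (Submodule.span ℝ (Set.range fun i => ys i - ys 0) : Submodule ℝ (E d))))⁻¹) := by
      intro ys x
      set H : Submodule ℝ (E d) := Submodule.span ℝ (Set.range fun i => ys i - ys 0) with hH
      have h0 : (Fin.snoc ys x : Fin (m + 1 + 1) → E d) 0 = ys 0 := by
        have : (0 : Fin (m + 1 + 1)) = Fin.castSucc (0 : Fin (m + 1)) := rfl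
        rw [this, Fin.snoc_castSucc]
      have hset : {g : E d | ∀ i : Fin (m + 1 + 1),
            |(inner ℝ g ((Fin.snoc ys x : Fin (m + 1 + 1) → E d) i
              - (Fin.snoc ys x : Fin (m + 1 + 1) → E d) 0) : ℝ)| ≤ h}
          = {g | ∀ i, |(inner ℝ g (ys i - ys 0) : ℝ)| ≤ h} ∩
            {g | |(inner ℝ g (x - ys 0) : ℝ)| ≤ h} := by
        ext g
        simp only [Set.mem_ofPred_eq, Set.mem_inter_iff]
        rw [Fin.forall_fin_succ']
        simp [h0]
      rw [hset]
      refine hR d H (x - ys 0) h _ hh ?_ ?_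
      · have : {g : E d | ∀ i, |(inner ℝ g (ys i - ys 0) : ℝ)| ≤ h}
            = ⋂ i, {g : E d | |(inner ℝ g (ys i - ys 0) : ℝ)| ≤ h} := by
          ext g; simp
        rw [this]
        refine MeasurableSet.iInter fun i => ?_
        exact measurableSet_le (by fun_prop) measurable_const
      · intro g u hg hu i
        have : (inner ℝ u (ys i - ys 0) : ℝ) = 0 :=
          hu _ (Submodule.subset_span ⟨i, rfl⟩)
        rw [inner_add_left, this, add_zero]
        exact hg i
    have hfin : ∀ ys : Fin (m + 1) → E d,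
        Module.finrank ℝ (Submodule.span ℝ (Set.range fun i => ys i - ys 0) :
          Submodule ℝ (E d)) ≤ m := by
      intro ys
      have hsub : Submodule.span ℝ (Set.range fun i : Fin (m + 1) => ys i - ys 0)
          ≤ Submodule.span ℝ (Set.range fun i : Fin m => ys i.succ - ys 0) := by
        rw [Submodule.span_le]
        rintro _ ⟨i, rfl⟩
        refine Fin.cases ?_ (fun j => ?_) i
        · simp
        · exact Submodule.subset_span ⟨j, rfl⟩
      calc _ ≤ Module.finrank ℝ (Submodule.span ℝ
            (Set.range fun i : Fin m => ys i.succ - ys 0) : Submodule ℝ (E d)) :=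
            Submodule.finrank_mono hsub
        _ ≤ Fintype.card (Fin m) := finrank_range_le_card _
        _ = m := Fintype.card_fin m
    -- change of variables
    have hmp := measurePreserving_piFinSuccAbove (fun _ : Fin (m + 1 + 1) => ν) (Fin.last (m + 1))
    set F : (Fin (m + 1 + 1) → E d) → ℝ≥0∞ := fun xs =>
      (stdGaussian (E d) {g | ∀ i, |(inner ℝ g (xs i - xs 0) : ℝ)| ≤ h}) ^ k with hFdef
    have e1 : ∫⁻ xs, F xs ∂(Measure.pi fun _ : Fin (m + 1 + 1) => ν)
        = ∫⁻ p : E d × (Fin (m + 1) → E d), F (Fin.snoc p.2 p.1)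
            ∂(ν.prod (Measure.pi fun _ : Fin (m + 1) => ν)) := by
      have := hmp.lintegral_comp_emb (MeasurableEquiv.measurableEmbedding _)
        (fun p : E d × (Fin (m + 1) → E d) => F (Fin.snoc p.2 p.1))
      rw [← this]
      refine lintegral_congr fun xs => ?_
      congr 1
      have : (Fin.snoc ((MeasurableEquiv.piFinSuccAbove (fun _ => E d) (Fin.last (m + 1))) xs).2
        ((MeasurableEquiv.piFinSuccAbove (fun _ => E d) (Fin.last (m + 1))) xs).1 :
          Fin (m + 1 + 1) → E d) = xs := by
        ext1 i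
        refine Fin.lastCases ?_ (fun j => ?_) i
        · simp [MeasurableEquiv.piFinSuccAbove_apply, Fin.insertNthEquiv]
        · simp [MeasurableEquiv.piFinSuccAbove_apply, Fin.insertNthEquiv, Fin.init]
      exact this.symm
    rw [show (∫⁻ xs : Fin (m + 1 + 1) → E d,
      (stdGaussian (E d) {g | ∀ i, |(inner ℝ g (xs i - xs 0) : ℝ)| ≤ h}) ^ k
      ∂(Measure.pi fun _ => ν)) = ∫⁻ xs, F xs ∂(Measure.pi fun _ : Fin (m + 1 + 1) => ν) from rfl,
      e1, ← lintegral_prod_swap]
    refine (lintegral_prod_le _).trans ?_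
    simp only [Prod.swap_prod_mk]
    calc ∫⁻ ys : Fin (m + 1) → E d, ∫⁻ x, F (Fin.snoc ys x) ∂ν
          ∂(Measure.pi fun _ : Fin (m + 1) => ν)
        ≤ ∫⁻ ys : Fin (m + 1) → E d, (ENNReal.ofReal h ^ k * Th s k β τ) *
            (stdGaussian (E d) {g | ∀ i, |(inner ℝ g (ys i - ys 0) : ℝ)| ≤ h}) ^ k
            ∂(Measure.pi fun _ : Fin (m + 1) => ν) := by
          refine lintegral_mono fun ys => ?_
          set P := stdGaussian (E d) {g | ∀ i, |(inner ℝ g (ys i - ys 0) : ℝ)| ≤ h} with hP
          have hPle : P ≤ 1 := prob_le_one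
          have hPtop : P ≠ ⊤ := (hPle.trans_lt ENNReal.one_lt_top).ne
          calc ∫⁻ x, F (Fin.snoc ys x) ∂ν
              ≤ ∫⁻ x, (P ^ k * ENNReal.ofReal h ^ k) *
                ((ENNReal.ofReal (Metric.infDist (x - ys 0)
                (Submodule.span ℝ (Set.range fun i => ys i - ys 0) : Submodule ℝ (E d))))⁻¹) ^ k
                ∂ν := by
                refine lintegral_mono fun x => ?_
                rw [hFdef]
                refine (pow_le_pow_left₀ (by positivity) (hpt ys x) k).trans ?_
                rw [mul_pow, mul_pow, mul_assoc]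
            _ = (P ^ k * ENNReal.ofReal h ^ k) * ∫⁻ x, 
                ((ENNReal.ofReal (Metric.infDist (x - ys 0)
                (Submodule.span ℝ (Set.range fun i => ys i - ys 0) : Submodule ℝ (E d))))⁻¹) ^ k
                ∂ν := by
                rw [lintegral_const_mul']
                exact ENNReal.mul_ne_top (ENNReal.pow_ne_top hPtop)
                  (ENNReal.pow_ne_top ENNReal.ofReal_ne_top)
            _ ≤ (P ^ k * ENNReal.ofReal h ^ k) * Th s k β τ := by
                gcongr
                exact hZ d s k m β τ z (ys 0) _ ν hτ (hfin ys) (by omega) hball hF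
            _ = _ := by ring
      _ ≤ (ENNReal.ofReal h ^ k * Th s k β τ) * 
            ∫⁻ ys : Fin (m + 1) → E d, 
            (stdGaussian (E d) {g | ∀ i, |(inner ℝ g (ys i - ys 0) : ℝ)| ≤ h}) ^ k
            ∂(Measure.pi fun _ : Fin (m + 1) => ν) := by
          rw [lintegral_const_mul]
          refine Measurable.pow_const ?_ k
          have hm : MeasurableSet {p : (Fin (m + 1) → E d) × E d |
              ∀ i, |(inner ℝ p.2 (p.1 i - p.1 0) : ℝ)| ≤ h} := by
            have : {p : (Fin (m + 1) → E d) × E d |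
                ∀ i, |(inner ℝ p.2 (p.1 i - p.1 0) : ℝ)| ≤ h}
              = ⋂ i, {p : (Fin (m + 1) → E d) × E d |
                |(inner ℝ p.2 (p.1 i - p.1 0) : ℝ)| ≤ h} := by
              ext p; simp
            rw [this]
            refine MeasurableSet.iInter fun i => ?_
            exact measurableSet_le (by fun_prop) measurable_const
          exact measurable_measure_prodMk_left hm
      _ ≤ (ENNReal.ofReal h ^ k * Th s k β τ) *
            ((ENNReal.ofReal h ^ k * Th s k β τ) ^ m * ν Set.univ) := by
          gcongr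
      _ = _ := by ring

end Crest.Agent.H8SlEnergy
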