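import Mathlib

set_option autoImplicit false

open Finset

namespace Crest.H9PR36

/-- Cauchy–Schwarz with weights -/
lemma wcs {I : Type*} [Fintype I] (pi f g : I → ℝ) (hpi : ∀ i, 0 ≤ pi i) (hf : ∀ i, 0 ≤ f i)
    (hg : ∀ i, 0 ≤ g i) :
    ∑ i, pi i * (f i * g i) ≤ √(∑ i, pi i * f i ^ 2) * √(∑ i, pi i * g i ^ 2) := by
  have h := Finset.sum_mul_sq_le_sq_mul_sq univ (fun i => √(pi i) * f i) (fun i => √(pi i) * g i)
  have e1 : ∀ i, (√(pi i) * f i) * (√(pi i) * g i) = pi i * (f i * g i) := by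
    intro i
    have := Real.mul_self_sqrt (hpi i)
    calc (√(pi i) * f i) * (√(pi i) * g i) = (√(pi i) * √(pi i)) * (f i * g i) := by ring
      _ = _ := by rw [this]
  have e2 : ∀ (k : I → ℝ) i, (√(pi i) * k i) ^ 2 = pi i * k i ^ 2 := by
    intro k i
    rw [mul_pow, Real.sq_sqrt (hpi i)]
  simp only [e1, e2] at h
  have h0 : 0 ≤ ∑ i, pi i * (f i * g i) :=
    Finset.sum_nonneg fun i _ => mul_nonneg (hpi i) (mul_nonneg (hf i) (hg i))
  rw [← Real.sqrt_mul (Finset.sum_nonneg fun i _ => mul_nonneg (hpi i) (sq_nonneg _))]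
  exact Real.le_sqrt_of_sq_le h

/-- the hypothesis at fixed `κ` and cut-off error `T` (`T = √η`) -/
def Fam {I : Type*} [Fintype I] (pi n a Ei : I → ℝ) (A v κ T : ℝ) : Prop :=
  ∃ g e D : I → ℝ, (∀ i, 0 ≤ g i) ∧ (∀ i, g i ≤ e i) ∧ (∑ i, pi i * (g i / e i) ≤ v) ∧
    (∀ i, 0 ≤ D i) ∧ (∀ i, D i ≤ A / κ * √(Ei i) + A * κ * n i + T) ∧
    (∀ i, a i ≤ g i + 2 * (D i + √(Ei i)) * n i) ∧
    (∀ i, e i ≤ (1 + A * κ) * (n i + √(Ei i)) ^ 2 + 2 * (n i + √(Ei i)) * D i + 2 * T ^ 2)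

lemma pt_e {A κ T p s n D e : ℝ} (hA : 0 ≤ A) (hκ : 0 < κ) (hκ1 : κ ≤ 1) (hT : 0 < T)
    (hp0 : 0 ≤ p) (hs0 : 0 ≤ s) (hn : 0 ≤ n) (hD0 : 0 ≤ D) (hn1 : n ≤ p + s)
    (hDD : D ≤ A / κ * s + A * κ * n + T)
    (hee : e ≤ (1 + A * κ) * (n + s) ^ 2 + 2 * (n + s) * D + 2 * T ^ 2) :
    e ≤ p ^ 2 + (3 * A * κ * p ^ 2 + (4 + 16 * A) / κ * (p * s + s ^ 2)
        + (2 * p * T + 4 * s * T + 2 * T ^ 2)) := by
  obtain ⟨B, hB⟩ : ∃ B, B = A / κ := ⟨_, rfl⟩
  obtain ⟨K, hK⟩ : ∃ K, K = 1 / κ := ⟨_, rfl⟩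
  obtain ⟨F, hF⟩ : ∃ F, F = A * κ := ⟨_, rfl⟩
  have hκi : 1 ≤ K := by rw [hK, le_div_iff₀ hκ]; linarith
  have hF0 : 0 ≤ F := by rw [hF]; exact mul_nonneg hA hκ.le
  have hB0 : 0 ≤ B := by rw [hB]; exact div_nonneg hA hκ.le
  have hFB : F ≤ B := by
    rw [hF, hB, div_eq_mul_one_div, ← hK]
    exact mul_le_mul_of_nonneg_left (by linarith) hA
  have e4 : (4 + 16 * A) / κ = 4 * K + 16 * B := by rw [hK, hB]; ring
  have e5 : 3 * A * κ = 3 * F := by rw [hF]; ring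
  rw [e4, e5]
  rw [← hB, ← hF] at hDD
  rw [← hF] at hee
  clear e4 e5 hB hK hF hA hκ hκ1
  have hns : n + s ≤ p + 2 * s := by linarith
  have hns0 : 0 ≤ n + s := add_nonneg hn hs0
  have hns2 : (n + s) ^ 2 ≤ (p + 2 * s) ^ 2 := pow_le_pow_left₀ hns0 hns 2
  have hps : 0 ≤ p * s := mul_nonneg hp0 hs0
  have hss : 0 ≤ s ^ 2 := sq_nonneg s
  have hFn : F * n ≤ F * (p + s) := mul_le_mul_of_nonneg_left hn1 hF0
  have hFs : F * s ≤ B * s := mul_le_mul_of_nonneg_right hFB hs0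
  have hD1 : D ≤ 2 * B * s + F * p + T := by linarith
  have hD2 : (n + s) * D ≤ (p + 2 * s) * (2 * B * s + F * p + T) :=
    mul_le_mul hns hD1 hD0 (by positivity)
  have h1 : (1 + F) * (n + s) ^ 2 ≤ (1 + F) * (p + 2 * s) ^ 2 :=
    mul_le_mul_of_nonneg_left hns2 (by linarith)
  have k1 : 0 ≤ (K - 1) * (p * s) := mul_nonneg (by linarith) hps
  have k2 : 0 ≤ (K - 1) * s ^ 2 := mul_nonneg (by linarith) hss
  have k3 : 0 ≤ (B - F) * (p * s) := mul_nonneg (by linarith) hps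
  have k4 : 0 ≤ (B - F) * s ^ 2 := mul_nonneg (by linarith) hss
  have k5 : 0 ≤ B * (p * s) := mul_nonneg hB0 hps
  have k6 : 0 ≤ B * s ^ 2 := mul_nonneg hB0 hss
  have x1 : (1 + F) * (p + 2 * s) ^ 2
      = p ^ 2 + 4 * (p * s) + 4 * s ^ 2 + F * p ^ 2 + 4 * (F * (p * s)) + 4 * (F * s ^ 2) := by
    ring
  have x2 : (p + 2 * s) * (2 * B * s + F * p + T)
      = 2 * (B * (p * s)) + F * p ^ 2 + p * T + 4 * (B * s ^ 2) + 2 * (F * (p * s)) + 2 * (s * T) := by
    ring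
  have x3 : (K - 1) * (p * s) = K * (p * s) - p * s := by ring
  have x4 : (K - 1) * s ^ 2 = K * s ^ 2 - s ^ 2 := by ring
  have x5 : (B - F) * (p * s) = B * (p * s) - F * (p * s) := by ring
  have x6 : (B - F) * s ^ 2 = B * s ^ 2 - F * s ^ 2 := by ring
  have x7 : p ^ 2 + (3 * F * p ^ 2 + (4 * K + 16 * B) * (p * s + s ^ 2)
        + (2 * p * T + 4 * s * T + 2 * T ^ 2))
      = p ^ 2 + 3 * (F * p ^ 2) + 4 * (K * (p * s)) + 4 * (K * s ^ 2) + 16 * (B * (p * s))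
        + 16 * (B * s ^ 2) + 2 * (p * T) + 4 * (s * T) + 2 * T ^ 2 := by ring
  have x8 : 2 * (n + s) * D = 2 * ((n + s) * D) := by ring
  rw [x7]
  rw [x8] at hee
  rw [x1] at h1
  rw [x2] at hD2
  rw [x3] at k1
  rw [x4] at k2
  rw [x5] at k3
  rw [x6] at k4
  linarith

lemma pt_g {g e P Z : ℝ} (hg : 0 ≤ g) (hge : g ≤ e) (hZ0 : 0 ≤ Z) (he : e ≤ P + Z) :
    g ≤ (g / e) * P + Z := by
  have he0 : 0 ≤ e := le_trans hg hge
  have hr0 : 0 ≤ g / e := div_nonneg hg he0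
  have hr1 : g / e ≤ 1 := div_le_one_of_le₀ hge he0
  have hge' : (g / e) * e = g := by
    rcases he0.eq_or_lt with h | h
    · have : g = 0 := le_antisymm (by rw [h]; exact hge) hg
      rw [this]; simp
    · rw [div_mul_cancel₀ _ h.ne']
  calc g = (g / e) * e := hge'.symm
    _ ≤ (g / e) * (P + Z) := mul_le_mul_of_nonneg_left he hr0
    _ = (g / e) * P + (g / e) * Z := by ring
    _ ≤ (g / e) * P + 1 * Z := by
        have := mul_le_mul_of_nonneg_right hr1 hZ0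
        linarith
    _ = _ := by ring

section
variable {I : Type*} [Fintype I] {pi n a Ei : I → ℝ} {A v P E : ℝ}

set_option maxHeartbeats 1000000 in
lemma stepT (hpi : ∀ i, 0 ≤ pi i) (hsum : ∑ i, pi i = 1) (hn : ∀ i, 0 ≤ n i)
    (hEi : ∀ i, 0 ≤ Ei i) (hP : ∑ i, pi i * n i ^ 2 = P) (hE : ∑ i, pi i * Ei i ≤ E)
    (hnP : ∀ i, (n i - √P) ^ 2 ≤ Ei i) (hA : 0 ≤ A) {κ T : ℝ} (hκ : 0 < κ)
    (hκ1 : κ ≤ 1) (hT : 0 < T) (H : Fam pi n a Ei A v κ T) :
    ∑ i, pi i * a i ≤ v * P + 5 * A * κ * P + (6 + 18 * A) / κ * (√P * √E + E)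
      + (4 * √P * T + 4 * √E * T + 2 * T ^ 2) := by
  obtain ⟨g, e, D, hg, hge, hr, hD, hDD, had, hee⟩ := H
  have hP0 : 0 ≤ P := by
    rw [← hP]; exact Finset.sum_nonneg fun i _ => mul_nonneg (hpi i) (sq_nonneg _)
  have hE0 : 0 ≤ E := le_trans (Finset.sum_nonneg fun i _ => mul_nonneg (hpi i) (hEi i)) hE
  set p := √P with hp
  have hp0 : 0 ≤ p := Real.sqrt_nonneg P
  have hpp : p ^ 2 = P := Real.sq_sqrt hP0
  have hκi : 1 ≤ 1 / κ := by rw [le_div_iff₀ hκ]; linarith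
  have hκi0 : 0 < 1 / κ := by positivity
  have hκκ : κ ≤ 1 / κ := by linarith
  have hAκ : 0 ≤ A * κ := mul_nonneg hA hκ.le
  have hAκi : 0 ≤ A / κ := div_nonneg hA hκ.le
  have hAκ1 : A * κ ≤ A / κ := by
    rw [div_eq_mul_one_div]; exact mul_le_mul_of_nonneg_left hκκ hA
  have hAAκ : A ≤ A / κ := by
    rw [div_eq_mul_one_div]
    calc A = A * 1 := (mul_one A).symm
      _ ≤ A * (1 / κ) := mul_le_mul_of_nonneg_left hκi hA
  have hAκA : A * κ ≤ A := by nlinarith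
  -- sums
  have hs1 : ∑ i, pi i * √(Ei i) ≤ √E := by
    have h := wcs pi (fun i => √(Ei i)) (fun _ => 1) hpi (fun i => Real.sqrt_nonneg _)
      (fun _ => zero_le_one)
    simp only [mul_one, one_pow, hsum, Real.sqrt_one] at h
    refine le_trans h (Real.sqrt_le_sqrt ?_)
    refine le_trans (le_of_eq ?_) hE
    exact Finset.sum_congr rfl fun i _ => by rw [Real.sq_sqrt (hEi i)]
  have hs2 : ∑ i, pi i * n i ≤ p := by
    have h := wcs pi n (fun _ => 1) hpi hn (fun _ => zero_le_one)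
    simp only [mul_one, one_pow, hsum, Real.sqrt_one, hP] at h
    exact h
  have hs3 : ∑ i, pi i * (√(Ei i) * n i) ≤ √E * p := by
    have h := wcs pi (fun i => √(Ei i)) n hpi (fun i => Real.sqrt_nonneg _) hn
    rw [hP] at h
    refine le_trans h (mul_le_mul_of_nonneg_right (Real.sqrt_le_sqrt ?_) hp0)
    refine le_trans (le_of_eq ?_) hE
    exact Finset.sum_congr rfl fun i _ => by rw [Real.sq_sqrt (hEi i)]
  -- pointwise bound of g
  have h3 : ∀ i, g i ≤ (g i / e i) * P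
      + (3 * A * κ * P + (4 + 16 * A) / κ * (p * √(Ei i) + Ei i)
        + (2 * p * T + 4 * √(Ei i) * T + 2 * T ^ 2)) := by
    intro i
    have hs0 : 0 ≤ √(Ei i) := Real.sqrt_nonneg _
    have hss : √(Ei i) ^ 2 = Ei i := Real.sq_sqrt (hEi i)
    have hn1 : n i ≤ p + √(Ei i) := by
      have := Real.abs_le_sqrt (hnP i)
      have := (abs_le.1 this).2
      linarith
    have he2 := pt_e hA hκ hκ1 hT hp0 hs0 (hn i) (hD i) hn1 (hDD i) (hee i)
    rw [hss, hpp] at he2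
    have hZ0 : 0 ≤ 3 * A * κ * P + (4 + 16 * A) / κ * (p * √(Ei i) + Ei i)
        + (2 * p * T + 4 * √(Ei i) * T + 2 * T ^ 2) := by
      have := hEi i
      positivity
    exact pt_g (hg i) (hge i) hZ0 he2
  have h4 : ∑ i, pi i * g i ≤ v * P + 3 * A * κ * P + (4 + 16 * A) / κ * (p * √E + E)
      + (2 * p * T + 4 * √E * T + 2 * T ^ 2) := by
    have hs : ∑ i, pi i * g i ≤ ∑ i, ((pi i * (g i / e i)) * P
        + (pi i * (3 * A * κ * P + 2 * p * T + 2 * T ^ 2)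
          + ((4 + 16 * A) / κ * p + 4 * T) * (pi i * √(Ei i))
          + (4 + 16 * A) / κ * (pi i * Ei i))) := by
      refine Finset.sum_le_sum fun i _ => ?_
      have := mul_le_mul_of_nonneg_left (h3 i) (hpi i)
      refine le_trans this (le_of_eq ?_)
      ring
    refine le_trans hs ?_
    rw [Finset.sum_add_distrib, Finset.sum_add_distrib, Finset.sum_add_distrib,
      ← Finset.sum_mul, ← Finset.sum_mul, ← Finset.mul_sum, ← Finset.mul_sum, hsum, one_mul]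
    have hK : 0 ≤ (4 + 16 * A) / κ := by positivity
    have q1 := mul_le_mul_of_nonneg_right hr hP0
    have q2 := mul_le_mul_of_nonneg_left hs1 (by positivity : 0 ≤ (4 + 16 * A) / κ * p + 4 * T)
    have q3 := mul_le_mul_of_nonneg_left hE hK
    nlinarith
  have h5 : ∑ i, pi i * a i ≤ ∑ i, pi i * g i
      + 2 * ((A / κ + 1) * (√E * p) + A * κ * P + T * p) := by
    have h6 : ∑ i, pi i * a i ≤ ∑ i, (pi i * g i
        + 2 * ((A / κ + 1) * (pi i * (√(Ei i) * n i)) + A * κ * (pi i * n i ^ 2)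
          + T * (pi i * n i))) := by
      refine Finset.sum_le_sum fun i _ => ?_
      have k1 := mul_le_mul_of_nonneg_left (had i) (hpi i)
      have k2 : pi i * (D i * n i)
          ≤ pi i * ((A / κ * √(Ei i) + A * κ * n i + T) * n i) :=
        mul_le_mul_of_nonneg_left (mul_le_mul_of_nonneg_right (hDD i) (hn i)) (hpi i)
      nlinarith
    refine le_trans h6 ?_
    rw [Finset.sum_add_distrib, ← Finset.mul_sum, Finset.sum_add_distrib,
      Finset.sum_add_distrib, ← Finset.mul_sum, ← Finset.mul_sum, ← Finset.mul_sum, hP]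
    have q1 := mul_le_mul_of_nonneg_left hs3 (by positivity : 0 ≤ A / κ + 1)
    have q2 := mul_le_mul_of_nonneg_left hs2 hT.le
    linarith
  have hfin : (6 + 18 * A) / κ * (p * √E + E)
      = (4 + 16 * A) / κ * (p * √E + E) + (2 * (1 / κ) + 2 * (A / κ)) * (p * √E + E) := by ring
  rw [hfin]
  have hpE : 0 ≤ p * √E := mul_nonneg hp0 (Real.sqrt_nonneg _)
  have k1 : 0 ≤ (1 / κ - 1) * (p * √E) := mul_nonneg (by linarith) hpE
  have k2 : 0 ≤ (2 * (1 / κ) + 2 * (A / κ)) * E := mul_nonneg (by positivity) hE0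
  nlinarith

lemma stepKappa (hpi : ∀ i, 0 ≤ pi i) (hsum : ∑ i, pi i = 1) (hn : ∀ i, 0 ≤ n i)
    (hEi : ∀ i, 0 ≤ Ei i) (hP : ∑ i, pi i * n i ^ 2 = P) (hE : ∑ i, pi i * Ei i ≤ E)
    (hnP : ∀ i, (n i - √P) ^ 2 ≤ Ei i) (hA : 0 ≤ A) {κ : ℝ} (hκ : 0 < κ)
    (hκ1 : κ ≤ 1) (H : ∀ T, 0 < T → Fam pi n a Ei A v κ T) :
    ∑ i, pi i * a i ≤ v * P + 5 * A * κ * P + (6 + 18 * A) / κ * (√P * √E + E) := by
  refine le_of_forall_pos_le_add fun ε hε => ?_
  have hPs := Real.sqrt_nonneg P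
  have hEs := Real.sqrt_nonneg E
  set T : ℝ := min 1 (ε / (4 * √P + 4 * √E + 2)) with hTd
  have hT0 : 0 < T := lt_min one_pos (by positivity)
  have hT1 : T ≤ 1 := min_le_left _ _
  have hT2 : T ≤ ε / (4 * √P + 4 * √E + 2) := min_le_right _ _
  have h := stepT hpi hsum hn hEi hP hE hnP hA hκ hκ1 hT0 (H T hT0)
  have h1 : T * (4 * √P + 4 * √E + 2) ≤ ε := by
    rwa [le_div_iff₀ (by positivity)] at hT2
  have h2 : T ^ 2 ≤ T := by nlinarith
  nlinarith

set_option maxHeartbeats 1000000 in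
/-- the scalar final inequality -/
theorem scalar (hpi : ∀ i, 0 ≤ pi i) (hsum : ∑ i, pi i = 1) (hn : ∀ i, 0 ≤ n i)
    (han : ∀ i, a i ≤ n i ^ 2) (hEi : ∀ i, 0 ≤ Ei i) (hP : ∑ i, pi i * n i ^ 2 = P)
    (hE : ∑ i, pi i * Ei i ≤ E) (hnP : ∀ i, (n i - √P) ^ 2 ≤ Ei i) (hA : 0 ≤ A)
    (hv0 : 0 ≤ v)
    (H : ∀ κ, 0 < κ → κ ≤ 1 → ∀ T, 0 < T → Fam pi n a Ei A v κ T) :
    ∑ i, pi i * a i ≤ v * P + (12 + 41 * A) * (√P * √(√(P * E))) := by
  have hP0 : 0 ≤ P := by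
    rw [← hP]; exact Finset.sum_nonneg fun i _ => mul_nonneg (hpi i) (sq_nonneg _)
  have hE0 : 0 ≤ E := le_trans (Finset.sum_nonneg fun i _ => mul_nonneg (hpi i) (hEi i)) hE
  have haP : ∑ i, pi i * a i ≤ P := by
    rw [← hP]
    exact Finset.sum_le_sum fun i _ => mul_le_mul_of_nonneg_left (han i) (hpi i)
  have hPs := Real.sqrt_nonneg P
  have hEs := Real.sqrt_nonneg E
  have hPP := Real.mul_self_sqrt hP0
  have hEE := Real.mul_self_sqrt hE0
  set Q : ℝ := √P * √(√(P * E)) with hQ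
  have hQ0 : 0 ≤ Q := by positivity
  have hAQ : 0 ≤ A * Q := mul_nonneg hA hQ0
  have hc0 : 0 ≤ (12 + 41 * A) * Q := by positivity
  have hvP : 0 ≤ v * P := mul_nonneg hv0 hP0
  by_cases hPE : P ≤ E
  · -- trivial
    have h1 : P ≤ Q := by
      have h2 : √(P * P) ≤ √(P * E) := Real.sqrt_le_sqrt (mul_le_mul_of_nonneg_left hPE hP0)
      rw [Real.sqrt_mul_self hP0] at h2
      have h3 : √P ≤ √(√(P * E)) := Real.sqrt_le_sqrt h2
      calc P = √P * √P := hPP.symm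
        _ ≤ Q := mul_le_mul_of_nonneg_left h3 hPs
    nlinarith
  · push Not at hPE
    have hPpos : 0 < P := lt_of_le_of_lt hE0 hPE
    have hstep := fun κ (h0 : 0 < κ) (h1 : κ ≤ 1) =>
      stepKappa hpi hsum hn hEi hP hE hnP hA h0 h1 (fun η hη => H κ h0 h1 η hη)
    rcases hE0.eq_or_lt with hz | hEpos
    · -- E = 0
      refine le_trans ?_ (le_add_of_nonneg_right hc0)
      refine le_of_forall_pos_le_add fun ε hε => ?_
      have hAP : 0 ≤ 5 * A * P := by positivity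
      set κ : ℝ := min 1 (ε / (5 * A * P + 1)) with hκd
      have hκ0 : 0 < κ := lt_min one_pos (by positivity)
      have h := hstep κ hκ0 (min_le_left _ _)
      rw [← hz] at h
      simp only [Real.sqrt_zero, mul_zero, add_zero] at h
      have h2 : κ ≤ ε / (5 * A * P + 1) := min_le_right _ _
      have h3 : 5 * A * κ * P ≤ ε := by
        rw [le_div_iff₀ (by positivity)] at h2
        have : 5 * A * κ * P = κ * (5 * A * P) := by ring
        rw [this]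
        linarith
      linarith
    · -- 0 < E < P
      set κ : ℝ := √(√(E / P)) with hκd
      have hEP : 0 < E / P := div_pos hEpos hPpos
      have hEP1 : E / P ≤ 1 := by rw [div_le_one hPpos]; exact hPE.le
      have hκ0 : 0 < κ := Real.sqrt_pos.2 (Real.sqrt_pos.2 hEP)
      have hκ1 : κ ≤ 1 := by
        rw [hκd]
        have h1 : √(E / P) ≤ 1 := by
          rw [Real.sqrt_le_left zero_le_one]; simpa using hEP1
        rw [Real.sqrt_le_left zero_le_one]; simpa using h1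
      have h := hstep κ hκ0 hκ1
      have hκ2 : κ * κ = √(E / P) := Real.mul_self_sqrt (Real.sqrt_nonneg _)
      have hs1 : √(E / P) = √E / √P := Real.sqrt_div hE0 P
      have hPsp : 0 < √P := Real.sqrt_pos.2 hPpos
      have hEsp : 0 < √E := Real.sqrt_pos.2 hEpos
      -- Q = κ P
      have hQκ : Q = κ * P := by
        have h2 : √(√(P * E)) = κ * √P := by
          have h3 : √(P * E) = (κ * √P) * (κ * √P) := by
            have : (κ * √P) * (κ * √P) = (κ * κ) * (√P * √P) := by ring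
            rw [this, hκ2, hPP, hs1, Real.sqrt_mul hP0]
            field_simp
            nlinarith
          rw [h3, Real.sqrt_mul_self (by positivity)]
        rw [hQ, h2]
        calc √P * (κ * √P) = κ * (√P * √P) := by ring
          _ = κ * P := by rw [hPP]
      -- √P √E = κ² P
      have hPE2 : √P * √E = κ * κ * P := by
        rw [hκ2, hs1]
        field_simp
        nlinarith
      have hB : E ≤ √P * √E := by
        have h5 : √E ≤ √P := Real.sqrt_le_sqrt hPE.le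
        nlinarith
      have hD : (6 + 18 * A) / κ * (√P * √E + E) ≤ (6 + 18 * A) * (2 * Q) := by
        have h6 : √P * √E + E ≤ 2 * (κ * κ * P) := by linarith
        have h7 : (6 + 18 * A) / κ * (√P * √E + E)
            ≤ (6 + 18 * A) / κ * (2 * (κ * κ * P)) :=
          mul_le_mul_of_nonneg_left h6 (by positivity)
        refine le_trans h7 (le_of_eq ?_)
        rw [hQκ]
        field_simp
      have hE1 : 5 * A * κ * P = 5 * (A * Q) := by rw [hQκ]; ring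
      rw [hE1] at h
      nlinarith

end

end Crest.H9PR36
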