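import Mathlib
import Crest.Agent.PRDefs
import Crest.Agent.H1PRRetry
import Crest.Agent.H7PRCsxDef
import Crest.Agent.H9PRS36a

set_option autoImplicit false
set_option linter.unusedSectionVars false

open scoped ComplexOrder MatrixOrder Matrix Kronecker
open Matrix Crest.H26OneShot Crest.MathPhysics.NonlocalGame Crest.PR Crest.H1PR

namespace Crest.H9PR36

/-! ### L² facts -/

section l2
variable {ι : Type*} [Fintype ι]

lemma nsq_nonneg (f : ι → ℂ) : 0 ≤ nsq f := by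
  unfold nsq; exact Finset.sum_nonneg fun i _ => by positivity

lemma nsq_eq_norm (f : ι → ℂ) : √(nsq f) = ‖(WithLp.toLp 2 f : EuclideanSpace ℂ ι)‖ := by
  rw [EuclideanSpace.norm_eq]; rfl

lemma sqrt_nsq_add (f g : ι → ℂ) : √(nsq (f + g)) ≤ √(nsq f) + √(nsq g) := by
  rw [nsq_eq_norm, nsq_eq_norm, nsq_eq_norm]
  exact norm_add_le (WithLp.toLp 2 f : EuclideanSpace ℂ ι) (WithLp.toLp 2 g)

lemma nsq_neg (f : ι → ℂ) : nsq (-f) = nsq f := by
  unfold nsq; simp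

lemma sqrt_nsq_sub_comm (f g : ι → ℂ) : nsq (f - g) = nsq (g - f) := by
  rw [← nsq_neg (f - g)]; congr 1; abel

lemma sqrt_nsq_le (f g : ι → ℂ) : √(nsq f) ≤ √(nsq g) + √(nsq (f - g)) := by
  have := sqrt_nsq_add g (f - g)
  simpa using this

lemma nsq_fam {R : Type*} [Fintype R] (f : R → ι → ℂ) :
    nsq (fun p : R × ι => f p.1 p.2) = ∑ r, nsq (f r) := by
  unfold nsq; rw [Fintype.sum_prod_type]

lemma sqrt_fam_add {R : Type*} [Fintype R] (f g : R → ι → ℂ) :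
    √(∑ r, nsq (f r + g r)) ≤ √(∑ r, nsq (f r)) + √(∑ r, nsq (g r)) := by
  rw [← nsq_fam f, ← nsq_fam g, ← nsq_fam (fun r => f r + g r)]
  exact sqrt_nsq_add (fun p : R × ι => f p.1 p.2) (fun p : R × ι => g p.1 p.2)

lemma nsq_smul (c : ℂ) (f : ι → ℂ) : nsq (fun i => c * f i) = ‖c‖ ^ 2 * nsq f := by
  unfold nsq
  rw [Finset.mul_sum]
  refine Finset.sum_congr rfl fun i _ => ?_
  rw [norm_mul, mul_pow]

end l2

/-! ### a nonnegative form bounded by the squared norm -/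

section form
variable {δ : Type*} [Fintype δ] [DecidableEq δ]

lemma form_eq {W B : Matrix δ δ ℂ} (hB : W = Bᴴ * B) (φ : δ → ℂ) :
    (star φ ⬝ᵥ W *ᵥ φ).re = nsq (B *ᵥ φ) := by
  rw [hB, ← Matrix.mulVec_mulVec, Matrix.dotProduct_mulVec, Matrix.vecMul_conjTranspose, star_star]
  unfold nsq dotProduct
  rw [Complex.re_sum]
  refine Finset.sum_congr rfl fun i _ => ?_
  rw [Pi.star_apply, Complex.star_def, Complex.conj_mul']
  norm_cast

/-- Minkowski for the semi-norm of a psd matrix, with an error measured in the full norm -/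
lemma mink {R : Type*} [Fintype R] {W : Matrix δ δ ℂ} (hW : W.PosSemidef)
    (hW1 : ∀ φ : δ → ℂ, (star φ ⬝ᵥ W *ᵥ φ).re ≤ nsq φ) (Z X : R → δ → ℂ) :
    √(∑ r, (star (Z r) ⬝ᵥ W *ᵥ Z r).re) ≤ √(∑ r, (star (X r) ⬝ᵥ W *ᵥ X r).re)
      + √(∑ r, nsq (X r - Z r)) := by
  obtain ⟨B, hB⟩ := CStarAlgebra.nonneg_iff_eq_star_mul_self.mp hW.nonneg
  have e : ∀ φ : δ → ℂ, (star φ ⬝ᵥ W *ᵥ φ).re = nsq (B *ᵥ φ) := form_eq hB
  simp only [e] at hW1 ⊢
  have h1 := sqrt_fam_add (fun r => B *ᵥ X r) (fun r => B *ᵥ (Z r - X r))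
  have e2 : ∀ r, B *ᵥ X r + B *ᵥ (Z r - X r) = B *ᵥ Z r := by
    intro r; rw [← Matrix.mulVec_add]; congr 1; abel
  simp only [e2] at h1
  refine le_trans h1 ?_
  gcongr with r
  rw [sqrt_nsq_sub_comm (X r)]
  exact hW1 _

end form

/-! ### slices and pull-backs -/

section slices
variable {S α β γ δ : Type*} [Fintype S] [DecidableEq S] [Fintype α] [DecidableEq α]
  [Fintype β] [DecidableEq β] [Fintype γ] [DecidableEq γ] [Fintype δ] [DecidableEq δ]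

/-- the `(s,t)` slice of a vector -/
def slice (V : (S × α) × (S × β) → ℂ) (r : S × S) : α × β → ℂ := fun p => V ((r.1, p.1), (r.2, p.2))

lemma nsq_slice (V : (S × α) × (S × β) → ℂ) : nsq V = ∑ r, nsq (slice V r) := by
  unfold nsq slice
  simp only [Fintype.sum_prod_type]
  refine Finset.sum_congr rfl fun s _ => ?_
  rw [Finset.sum_comm]

lemma mulVec_slice (V : (S × α) × (S × β) → ℂ) (Q : Matrix α α ℂ) (Q' : Matrix β β ℂ) (r : S × S) :
    slice ((((1 : Matrix S S ℂ) ⊗ₖ Q) ⊗ₖ ((1 : Matrix S S ℂ) ⊗ₖ Q')).mulVec V) r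
      = (Q ⊗ₖ Q').mulVec (slice V r) := by
  funext p
  unfold slice Matrix.mulVec dotProduct
  simp only [Fintype.sum_prod_type, Matrix.kroneckerMap_apply]
  simp only [Matrix.one_apply]
  rw [Finset.sum_eq_single r.1]
  · refine Finset.sum_congr rfl fun i _ => ?_
    rw [Finset.sum_eq_single r.2]
    · simp
    · intro b _ hb
      refine Finset.sum_eq_zero fun j _ => ?_
      rw [if_neg (fun h : r.2 = b => hb h.symm)]
      simp
    · intro h; exact absurd (Finset.mem_univ _) h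
  · intro b _ hb
    refine Finset.sum_eq_zero fun i _ => Finset.sum_eq_zero fun t _ => Finset.sum_eq_zero fun j _ => ?_
    rw [if_neg (fun h => hb h.symm)]
    simp
  · intro h; exact absurd (Finset.mem_univ _) h

lemma bra_slice (V : (S × α) × (S × β) → ℂ) (Q : Matrix α α ℂ) (Q' : Matrix β β ℂ) :
    bra V ((1 : Matrix S S ℂ) ⊗ₖ Q) ((1 : Matrix S S ℂ) ⊗ₖ Q') = ∑ r, bra (slice V r) Q Q' := by
  unfold bra
  simp only [← mulVec_slice]
  rw [← Complex.re_sum]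
  congr 1
  unfold dotProduct slice
  simp only [Fintype.sum_prod_type, Pi.star_apply]
  refine Finset.sum_congr rfl fun s _ => ?_
  rw [Finset.sum_comm]

lemma bra_pull (Ω : γ × δ → ℂ) (a : Matrix α γ ℂ) (b : Matrix β δ ℂ) (Q : Matrix α α ℂ)
    (Q' : Matrix β β ℂ) :
    bra Ω (aᴴ * Q * a) (bᴴ * Q' * b) = bra ((a ⊗ₖ b).mulVec Ω) Q Q' := by
  unfold bra
  congr 1
  rw [Matrix.mul_kronecker_mul, Matrix.mul_kronecker_mul, ← Matrix.conjTranspose_kronecker,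
    ← Matrix.mulVec_mulVec, ← Matrix.mulVec_mulVec, Matrix.dotProduct_mulVec,
    Matrix.vecMul_conjTranspose, star_star]

end slices

/-! ### real inequalities -/

lemma real1 {a g d n : ℝ} (ha : 0 ≤ a) (hg : 0 ≤ g) (hd : 0 ≤ d) (hn : 0 ≤ n) (han : a ≤ n ^ 2)
    (h : √a ≤ √g + d) : a ≤ g + 2 * d * n := by
  have h1 := Real.mul_self_sqrt ha
  have h2 := Real.mul_self_sqrt hg
  have h3 := Real.sqrt_nonneg a
  have h4 := Real.sqrt_nonneg g
  have h5 : √a ≤ n := by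
    rw [Real.sqrt_le_left hn]; exact han
  have h6 : a ≤ g + 2 * d * √a := by
    by_cases hc : d ≤ √a
    · have h7 : (√a - d) * (√a - d) ≤ √g * √g :=
        mul_self_le_mul_self (by linarith) (by linarith)
      nlinarith [mul_self_nonneg d]
    · push Not at hc
      nlinarith
  have h8 : d * √a ≤ d * n := mul_le_mul_of_nonneg_left h5 hd
  nlinarith

lemma real2 {v D r : ℝ} (hv : 0 ≤ v) (hD : 0 ≤ D) (hr : 0 ≤ r) (h : v ≤ √r + D) :
    v ^ 2 - 2 * v * D ≤ r := by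
  have h2 := Real.mul_self_sqrt hr
  have h4 := Real.sqrt_nonneg r
  by_cases hc : D ≤ v
  · have h7 : (v - D) * (v - D) ≤ √r * √r :=
      mul_self_le_mul_self (by linarith) (by linarith)
    nlinarith [mul_self_nonneg D]
  · push Not at hc
    nlinarith

lemma real3 {C κ D s n u2 v2 d2 T : ℝ} (hC : 0 < C) (hκ : 0 < κ) (hκ1 : κ ≤ 1) (hD : 0 ≤ D)
    (hs : 0 ≤ s) (hn : 0 ≤ n) (hT : 0 < T) (hd2 : d2 ≤ 2 * s ^ 2) (hu : u2 ≤ (n + s) ^ 2)
    (hv : v2 ≤ (n + s) ^ 2) (h : D ^ 2 ≤ C / κ ^ 2 * d2 + C * κ ^ 2 * (u2 + v2) + T ^ 2) :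
    D ≤ (6 * C + 6) / κ * s + (6 * C + 6) * κ * n + T := by
  have hκ2 : 0 < κ ^ 2 := by positivity
  have hk : κ ^ 2 ≤ 1 / κ ^ 2 := by
    rw [le_div_iff₀ hκ2]
    have : κ ^ 2 ≤ 1 := by nlinarith
    nlinarith
  obtain ⟨L, hL⟩ : ∃ L, L = 1 / κ ^ 2 := ⟨_, rfl⟩
  have hL0 : 0 < L := by rw [hL]; positivity
  have e1 : C / κ ^ 2 = C * L := by rw [hL]; ring
  have e2 : ((6 * C + 6) / κ) ^ 2 = (6 * C + 6) ^ 2 * L := by rw [hL, div_pow]; ring
  rw [← hL] at hk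
  rw [e1] at h
  have hR : 0 ≤ (6 * C + 6) / κ * s + (6 * C + 6) * κ * n + T := by positivity
  have hsq : ((6 * C + 6) / κ * s) ^ 2 + ((6 * C + 6) * κ * n) ^ 2 + T ^ 2
      ≤ ((6 * C + 6) / κ * s + (6 * C + 6) * κ * n + T) ^ 2 := by
    have x1 : 0 ≤ (6 * C + 6) / κ * s := by positivity
    have x2 : 0 ≤ (6 * C + 6) * κ * n := by positivity
    nlinarith [mul_nonneg x1 x2, mul_nonneg x1 hT.le, mul_nonneg x2 hT.le]
  have e3 : ((6 * C + 6) / κ * s) ^ 2 = (6 * C + 6) ^ 2 * L * s ^ 2 := by rw [mul_pow, e2]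
  have e4 : ((6 * C + 6) * κ * n) ^ 2 = (6 * C + 6) ^ 2 * κ ^ 2 * n ^ 2 := by ring
  rw [e3, e4] at hsq
  have hmain : D ^ 2 ≤ (6 * C + 6) ^ 2 * L * s ^ 2 + (6 * C + 6) ^ 2 * κ ^ 2 * n ^ 2 + T ^ 2 := by
    refine le_trans h ?_
    have y1 : C * L * d2 ≤ C * L * (2 * s ^ 2) := mul_le_mul_of_nonneg_left hd2 (by positivity)
    have y2 : u2 + v2 ≤ 4 * n ^ 2 + 4 * s ^ 2 := by nlinarith [sq_nonneg (n - s)]
    have y3 : C * κ ^ 2 * (u2 + v2) ≤ C * κ ^ 2 * (4 * n ^ 2 + 4 * s ^ 2) :=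
      mul_le_mul_of_nonneg_left y2 (by positivity)
    have y4 : C * κ ^ 2 * s ^ 2 ≤ C * L * s ^ 2 := by
      have := mul_le_mul_of_nonneg_left hk hC.le
      exact mul_le_mul_of_nonneg_right this (sq_nonneg s)
    have y5 : 6 * C ≤ (6 * C + 6) ^ 2 := by nlinarith
    have y6 : 6 * C * (L * s ^ 2) ≤ (6 * C + 6) ^ 2 * (L * s ^ 2) :=
      mul_le_mul_of_nonneg_right y5 (by positivity)
    have y7 : 6 * C * (κ ^ 2 * n ^ 2) ≤ (6 * C + 6) ^ 2 * (κ ^ 2 * n ^ 2) :=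
      mul_le_mul_of_nonneg_right y5 (by positivity)
    have y8 : 0 ≤ C * (κ ^ 2 * n ^ 2) := by positivity
    nlinarith
  exact abs_le_of_sq_le_sq' (le_trans hmain hsq) hR |>.2

/-! ### the game -/

section game
variable {G : Game} {α β : Type*} [Fintype α] [DecidableEq α] [Fintype β] [DecidableEq β]

noncomputable def Wm (G : Game) (QA : Fin G.nX → Fin G.nA → Matrix α α ℂ)
    (QB : Fin G.nY → Fin G.nB → Matrix β β ℂ) (x : Fin G.nX) (y : Fin G.nY) :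
    Matrix (α × β) (α × β) ℂ :=
  ∑ a, ∑ b, if G.accept x y a b = true then QA x a ⊗ₖ QB y b else 0

lemma gval_eq (QA : Fin G.nX → Fin G.nA → Matrix α α ℂ) (QB : Fin G.nY → Fin G.nB → Matrix β β ℂ)
    (x : Fin G.nX) (y : Fin G.nY) (φ : α × β → ℂ) :
    gval G φ QA QB x y = (star φ ⬝ᵥ Wm G QA QB x y *ᵥ φ).re := by
  unfold gval Wm
  rw [Matrix.sum_mulVec, dotProduct_sum, Complex.re_sum]
  refine Finset.sum_congr rfl fun a _ => ?_
  rw [Matrix.sum_mulVec, dotProduct_sum, Complex.re_sum]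
  refine Finset.sum_congr rfl fun b _ => ?_
  split_ifs
  · rfl
  · simp

lemma Wm_psd (QA : Fin G.nX → Fin G.nA → Matrix α α ℂ) (QB : Fin G.nY → Fin G.nB → Matrix β β ℂ)
    (hQA : ∀ x a, (QA x a).PosSemidef) (hQB : ∀ y b, (QB y b).PosSemidef)
    (x : Fin G.nX) (y : Fin G.nY) : (Wm G QA QB x y).PosSemidef := by
  unfold Wm
  refine Matrix.posSemidef_sum _ fun a _ => Matrix.posSemidef_sum _ fun b _ => ?_
  split_ifs
  · exact (hQA x a).kronecker (hQB y b)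
  · exact Matrix.PosSemidef.zero

lemma gval_nonneg (φ : α × β → ℂ) (QA : Fin G.nX → Fin G.nA → Matrix α α ℂ)
    (QB : Fin G.nY → Fin G.nB → Matrix β β ℂ)
    (hQA : ∀ x a, (QA x a).PosSemidef) (hQB : ∀ y b, (QB y b).PosSemidef)
    (x : Fin G.nX) (y : Fin G.nY) : 0 ≤ gval G φ QA QB x y := by
  unfold gval
  refine Finset.sum_nonneg fun a _ => Finset.sum_nonneg fun b _ => ?_
  split_ifs
  · exact bra_nonneg φ (hQA x a) (hQB y b)
  · exact le_refl _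

lemma gval_le_bra (φ : α × β → ℂ) (QA : Fin G.nX → Fin G.nA → Matrix α α ℂ)
    (QB : Fin G.nY → Fin G.nB → Matrix β β ℂ)
    (hQA : ∀ x a, (QA x a).PosSemidef) (hQB : ∀ y b, (QB y b).PosSemidef)
    (x : Fin G.nX) (y : Fin G.nY) :
    gval G φ QA QB x y ≤ bra φ (∑ a, QA x a) (∑ b, QB y b) := by
  unfold gval
  rw [bra_sum_left]
  refine Finset.sum_le_sum fun a _ => ?_
  rw [bra_sum_right]
  refine Finset.sum_le_sum fun b _ => ?_
  split_ifs
  · exact le_refl _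
  · exact bra_nonneg φ (hQA x a) (hQB y b)

lemma gval_le (φ : α × β → ℂ) (QA : Fin G.nX → Fin G.nA → Matrix α α ℂ)
    (QB : Fin G.nY → Fin G.nB → Matrix β β ℂ)
    (hQA : ∀ x a, (QA x a).PosSemidef) (hQB : ∀ y b, (QB y b).PosSemidef)
    (hA1 : ∀ x, (1 - ∑ a, QA x a).PosSemidef) (hB1 : ∀ y, (1 - ∑ b, QB y b).PosSemidef)
    (x : Fin G.nX) (y : Fin G.nY) : gval G φ QA QB x y ≤ nsq φ := by
  refine le_trans (gval_le_bra φ QA QB hQA hQB x y) ?_
  refine le_trans (bra_mono φ (Matrix.posSemidef_sum _ fun a _ => hQA x a)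
    Matrix.PosSemidef.one (hA1 x) (hB1 y)) (le_of_eq ?_)
  rw [bra_one_one]; rfl

lemma gval_le_eval (φ : α × β → ℂ) (QA : Fin G.nX → Fin G.nA → Matrix α α ℂ)
    (QB : Fin G.nY → Fin G.nB → Matrix β β ℂ)
    (hQA : ∀ x a, (QA x a).PosSemidef) (hQB : ∀ y b, (QB y b).PosSemidef)
    (hA1 : ∀ x, (1 - ∑ a, QA x a).PosSemidef) (hB1 : ∀ y, (1 - ∑ b, QB y b).PosSemidef)
    (x : Fin G.nX) (y : Fin G.nY) : gval G φ QA QB x y ≤ eval' G φ QA QB x y := by
  refine le_trans (gval_le_bra φ QA QB hQA hQB x y) ?_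
  unfold eval'
  have hSA : (∑ a, QA x a).PosSemidef := Matrix.posSemidef_sum _ fun a _ => hQA x a
  have hSB : (∑ b, QB y b).PosSemidef := Matrix.posSemidef_sum _ fun b _ => hQB y b
  have h1 := bra_nonneg φ hSA (hB1 y)
  have h2 := bra_nonneg φ (hA1 x) hSB
  rw [bra_sub_right] at h1
  rw [bra_sub_left] at h2
  linarith

lemma eval_mono (φ : α × β → ℂ) (QA : Fin G.nX → Fin G.nA → Matrix α α ℂ)
    (QB : Fin G.nY → Fin G.nB → Matrix β β ℂ)
    (hA1 : ∀ x, (1 - ∑ a, QA x a).PosSemidef)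
    (x : Fin G.nX) (y : Fin G.nY) (A2 : Matrix α α ℂ) (B2 : Matrix β β ℂ)
    (hA2 : (A2 - ∑ a, QA x a).PosSemidef) (hB2 : (B2 - ∑ b, QB y b).PosSemidef)
    (hB21 : (1 - B2).PosSemidef) :
    eval' G φ QA QB x y ≤ bra φ A2 1 + bra φ 1 B2 - bra φ A2 B2 := by
  unfold eval'
  have h1 := bra_nonneg φ hA2 hB21
  have h2 := bra_nonneg φ (hA1 x) hB2
  rw [bra_sub_right, bra_sub_left, bra_sub_left] at h1
  rw [bra_sub_right, bra_sub_left, bra_sub_left] at h2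
  linarith

end game

end Crest.H9PR36
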