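import Mathlib
import Crest.Agent.H9PRS36

set_option autoImplicit false
set_option linter.unusedSectionVars false

open scoped ComplexOrder MatrixOrder Matrix Kronecker
open Matrix Crest.H26OneShot Crest.MathPhysics.NonlocalGame Crest.PR Crest.H1PR

namespace Crest.H9PR36

section pair
variable {G : Game} {α β : Type} [Fintype α] [DecidableEq α] [Fintype β] [DecidableEq β]
  {R S : Type} [Fintype R] [DecidableEq R] [Fintype S] [DecidableEq S]

/-- pulled back operators -/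
noncomputable def pullOp {X A γ δ : Type*} [Fintype γ] [Fintype δ]
    (a : X → Matrix (S × δ) γ ℂ) (Q : X → A → Matrix δ δ ℂ) :
    X → A → Matrix γ γ ℂ :=
  fun x i => (a x)ᴴ * ((1 : Matrix S S ℂ) ⊗ₖ Q x i) * a x

lemma pullOp_psd {X A γ δ : Type*} [Fintype γ] [DecidableEq γ] [Fintype δ] [DecidableEq δ]
    (a : X → Matrix (S × δ) γ ℂ) (Q : X → A → Matrix δ δ ℂ) (hQ : ∀ x i, (Q x i).PosSemidef)
    (x : X) (i : A) : (pullOp a Q x i).PosSemidef := by
  unfold pullOp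
  exact (Matrix.PosSemidef.one.kronecker (hQ x i)).conjTranspose_mul_mul_same _

lemma pullOp_sum {X A γ δ : Type*} [Fintype A] [Fintype γ] [DecidableEq γ] [Fintype δ]
    [DecidableEq δ] (a : X → Matrix (S × δ) γ ℂ) (Q : X → A → Matrix δ δ ℂ) (x : X) :
    ∑ i, pullOp a Q x i = (a x)ᴴ * ((1 : Matrix S S ℂ) ⊗ₖ ∑ i, Q x i) * a x := by
  unfold pullOp
  rw [← Matrix.sum_mul, ← Matrix.mul_sum]
  congr 2
  ext p q
  simp [Matrix.sum_apply, Matrix.kroneckerMap_apply, Finset.mul_sum]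

lemma pullOp_le {X A γ δ : Type*} [Fintype A] [Fintype γ] [DecidableEq γ] [Fintype δ]
    [DecidableEq δ] (a : X → Matrix (S × δ) γ ℂ) (Q : X → A → Matrix δ δ ℂ)
    (hQ : ∀ x, (1 - ∑ i, Q x i).PosSemidef) (x : X) :
    ((a x)ᴴ * a x - ∑ i, pullOp a Q x i).PosSemidef := by
  have e : (a x)ᴴ * a x - ∑ i, pullOp a Q x i
      = (a x)ᴴ * ((1 : Matrix S S ℂ) ⊗ₖ (1 - ∑ i, Q x i)) * a x := by
    have h1 : (1 : Matrix S S ℂ) ⊗ₖ (1 - ∑ i, Q x i)
        = (1 : Matrix (S × δ) (S × δ) ℂ) - (1 : Matrix S S ℂ) ⊗ₖ ∑ i, Q x i := by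
      rw [← Matrix.one_kronecker_one]
      ext p q
      simp only [Matrix.sub_apply, Matrix.kroneckerMap_apply]
      ring
    rw [pullOp_sum, h1, Matrix.mul_sub, Matrix.sub_mul, Matrix.mul_one]
  rw [e]
  exact (Matrix.PosSemidef.one.kronecker (hQ x)).conjTranspose_mul_mul_same _

lemma pullOp_le_one {X A γ δ : Type*} [Fintype A] [Fintype γ] [DecidableEq γ] [Fintype δ]
    [DecidableEq δ] (a : X → Matrix (S × δ) γ ℂ) (Q : X → A → Matrix δ δ ℂ)
    (hQ : ∀ x, (1 - ∑ i, Q x i).PosSemidef) (ha : ∀ x, (1 - (a x)ᴴ * a x).PosSemidef) (x : X) :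
    (1 - ∑ i, pullOp a Q x i).PosSemidef := by
  have := (ha x).add (pullOp_le a Q hQ x)
  simpa using this

lemma gval_pull {γ δ : Type*} [Fintype γ] [DecidableEq γ] [Fintype δ] [DecidableEq δ]
    (Ω : γ × δ → ℂ) (a : Fin G.nX → Matrix (S × α) γ ℂ) (b : Fin G.nY → Matrix (S × β) δ ℂ)
    (QA : Fin G.nX → Fin G.nA → Matrix α α ℂ) (QB : Fin G.nY → Fin G.nB → Matrix β β ℂ)
    (x : Fin G.nX) (y : Fin G.nY) :
    gval G Ω (pullOp a QA) (pullOp b QB) x y
      = ∑ r, gval G (slice (((a x) ⊗ₖ (b y)).mulVec Ω) r) QA QB x y := by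
  unfold gval
  have h : ∀ i j, (if G.accept x y i j = true then
      bra Ω (pullOp a QA x i) (pullOp b QB y j) else 0)
      = ∑ r : S × S, (if G.accept x y i j = true then
        bra (slice (((a x) ⊗ₖ (b y)).mulVec Ω) r) (QA x i) (QB y j) else 0) := by
    intro i j
    split_ifs
    · unfold pullOp
      rw [bra_pull, bra_slice]
    · simp
  simp only [h]
  calc ∑ i, ∑ j, ∑ r : S × S, (if G.accept x y i j = true then
        bra (slice (((a x) ⊗ₖ (b y)).mulVec Ω) r) (QA x i) (QB y j) else 0)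
      = ∑ i, ∑ r : S × S, ∑ j, (if G.accept x y i j = true then
        bra (slice (((a x) ⊗ₖ (b y)).mulVec Ω) r) (QA x i) (QB y j) else 0) :=
        Finset.sum_congr rfl fun i _ => Finset.sum_comm
    _ = _ := Finset.sum_comm

end pair

/-- the tensor vector `V ⊗ ω` on the register space -/
def tens {S α β : Type*} (V : α × β → ℂ) (ω : S × S → ℂ) : (S × α) × (S × β) → ℂ :=
  fun p => V (p.1.2, p.2.2) * ω (p.1.1, p.2.1)

lemma slice_tens {S α β : Type*} (V : α × β → ℂ) (ω : S × S → ℂ) (r : S × S) :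
    slice (tens V ω) r = fun q => ω r * V q := by
  funext q
  simp [slice, tens, mul_comm]

lemma nsq_tens {S α β : Type*} [Fintype S] [DecidableEq S] [Fintype α] [DecidableEq α] [Fintype β]
    [DecidableEq β] (V : α × β → ℂ) (ω : S × S → ℂ) : nsq (tens V ω) = nsq ω * nsq V := by
  rw [nsq_slice]
  simp only [slice_tens, nsq_smul]
  rw [← Finset.sum_mul]
  rfl

set_option maxHeartbeats 1000000 in
/-- everything at a fixed question pair -/
lemma pairBound {G : Game} {α β : Type} [Fintype α] [DecidableEq α] [Fintype β] [DecidableEq β]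
    {R S : Type} [Fintype R] [DecidableEq R] [Fintype S] [DecidableEq S]
    (QA : Fin G.nX → Fin G.nA → Matrix α α ℂ) (QB : Fin G.nY → Fin G.nB → Matrix β β ℂ)
    (hQA : ∀ x a, (QA x a).PosSemidef) (hQB : ∀ y b, (QB y b).PosSemidef)
    (hA1 : ∀ x, (1 - ∑ a, QA x a).PosSemidef) (hB1 : ∀ y, (1 - ∑ b, QB y b).PosSemidef)
    (Ω : (R × α) × (R × α) → ℂ) (a : Fin G.nX → Matrix (S × α) (R × α) ℂ)
    (b : Fin G.nY → Matrix (S × β) (R × α) ℂ) (ω : S × S → ℂ) (hω : nsq ω = 1)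
    (ha : ∀ x, (1 - (a x)ᴴ * a x).PosSemidef) (hb : ∀ y, (1 - (b y)ᴴ * b y).PosSemidef)
    (x : Fin G.nX) (y : Fin G.nY) (Φ U V : α × β → ℂ) (C κ T Ei : ℝ) (hC : 0 < C) (hκ : 0 < κ)
    (hκ1 : κ ≤ 1) (hT : 0 < T)
    (hE0 : 0 ≤ Ei) (hE : nsq (Φ - U) + nsq (Φ - V) ≤ Ei)
    (hu : bra Ω ((a x)ᴴ * a x) 1 ≤ (1 + C * κ) * nsq U + T ^ 2)
    (hv : bra Ω 1 ((b y)ᴴ * b y) ≤ (1 + C * κ) * nsq V + T ^ 2)
    (hD : nsq (((a x) ⊗ₖ (b y)).mulVec Ω - tens V ω)
        ≤ C / κ ^ 2 * nsq (U - V) + C * κ ^ 2 * (nsq U + nsq V) + T ^ 2) :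
    √(nsq (((a x) ⊗ₖ (b y)).mulVec Ω - tens V ω))
        ≤ (6 * C + 6) / κ * √Ei + (6 * C + 6) * κ * √(nsq Φ) + T ∧
    gval G Φ QA QB x y ≤ gval G Ω (pullOp a QA) (pullOp b QB) x y
      + 2 * (√(nsq (((a x) ⊗ₖ (b y)).mulVec Ω - tens V ω)) + √Ei) * √(nsq Φ) ∧
    eval' G Ω (pullOp a QA) (pullOp b QB) x y
      ≤ (1 + (6 * C + 6) * κ) * (√(nsq Φ) + √Ei) ^ 2
        + 2 * (√(nsq Φ) + √Ei) * √(nsq (((a x) ⊗ₖ (b y)).mulVec Ω - tens V ω)) + 2 * T ^ 2 := by
  set RR := ((a x) ⊗ₖ (b y)).mulVec Ω with hRR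
  set D := √(nsq (RR - tens V ω)) with hDd
  have hD0 : 0 ≤ D := Real.sqrt_nonneg _
  have hDsq : D ^ 2 = nsq (RR - tens V ω) := Real.sq_sqrt (nsq_nonneg _)
  set n := √(nsq Φ) with hn
  have hn0 : 0 ≤ n := Real.sqrt_nonneg _
  have hnsq : n ^ 2 = nsq Φ := Real.sq_sqrt (nsq_nonneg _)
  set s := √Ei with hs
  have hs0 : 0 ≤ s := Real.sqrt_nonneg _
  have hssq : s ^ 2 = Ei := Real.sq_sqrt hE0
  have hΦU0 := nsq_nonneg (Φ - U)
  have hΦV0 := nsq_nonneg (Φ - V)
  have hΦU : √(nsq (Φ - U)) ≤ s := Real.sqrt_le_sqrt (by linarith)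
  have hΦV : √(nsq (Φ - V)) ≤ s := Real.sqrt_le_sqrt (by linarith)
  have hU : √(nsq U) ≤ n + s := by
    have := sqrt_nsq_le U Φ
    rw [sqrt_nsq_sub_comm U Φ] at this
    linarith
  have hV : √(nsq V) ≤ n + s := by
    have := sqrt_nsq_le V Φ
    rw [sqrt_nsq_sub_comm V Φ] at this
    linarith
  have hU2 : nsq U ≤ (n + s) ^ 2 := by
    have := pow_le_pow_left₀ (Real.sqrt_nonneg _) hU 2
    rwa [Real.sq_sqrt (nsq_nonneg _)] at this
  have hV2 : nsq V ≤ (n + s) ^ 2 := by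
    have := pow_le_pow_left₀ (Real.sqrt_nonneg _) hV 2
    rwa [Real.sq_sqrt (nsq_nonneg _)] at this
  have hUV : nsq (U - V) ≤ 2 * s ^ 2 := by
    have h1 : √(nsq (U - V)) ≤ √(nsq (Φ - U)) + √(nsq (Φ - V)) := by
      have := sqrt_nsq_add (U - Φ) (Φ - V)
      rw [sqrt_nsq_sub_comm U Φ] at this
      have e : U - Φ + (Φ - V) = U - V := by abel
      rwa [e] at this
    have h2 := pow_le_pow_left₀ (Real.sqrt_nonneg _) h1 2
    rw [Real.sq_sqrt (nsq_nonneg _)] at h2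
    have h3 := Real.sq_sqrt hΦU0
    have h4 := Real.sq_sqrt hΦV0
    nlinarith [sq_nonneg (√(nsq (Φ - U)) - √(nsq (Φ - V)))]
  refine ⟨?_, ?_, ?_⟩
  · exact real3 hC hκ hκ1 hD0 hs0 hn0 hT hUV hU2 hV2 (by rw [hDsq]; exact hD)
  · refine real1 (gval_nonneg Φ QA QB hQA hQB x y)
      (gval_nonneg Ω _ _ (fun x i => pullOp_psd a QA hQA x i) (fun y i => pullOp_psd b QB hQB y i)
        x y) (by positivity) hn0 ?_ ?_
    · rw [hnsq]; exact gval_le Φ QA QB hQA hQB hA1 hB1 x y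
    · rw [gval_pull]
      have hm := mink (R := S × S) (Wm_psd QA QB hQA hQB x y)
        (fun φ => by rw [← gval_eq]; exact gval_le φ QA QB hQA hQB hA1 hB1 x y)
        (fun r => slice (tens Φ ω) r) (fun r => slice RR r)
      simp only [← gval_eq] at hm
      have e1 : ∑ r : S × S, gval G (slice (tens Φ ω) r) QA QB x y = gval G Φ QA QB x y := by
        have : ∀ r : S × S, gval G (slice (tens Φ ω) r) QA QB x y
            = ‖ω r‖ ^ 2 * gval G Φ QA QB x y := by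
          intro r
          rw [slice_tens]
          have e2 : (fun q => ω r * Φ q) = ω r • Φ := rfl
          rw [e2]
          unfold gval
          simp only [bra_smul, Finset.mul_sum, mul_ite, mul_zero]
        rw [Finset.sum_congr rfl fun r _ => this r, ← Finset.sum_mul]
        have : ∑ r : S × S, ‖ω r‖ ^ 2 = 1 := hω
        rw [this, one_mul]
      rw [e1] at hm
      refine le_trans hm ?_
      have h2 : √(∑ r : S × S, nsq (slice RR r - slice (tens Φ ω) r)) ≤ D + s := by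
        have h3 := sqrt_fam_add (fun r : S × S => slice RR r - slice (tens V ω) r)
          (fun r => slice (tens V ω) r - slice (tens Φ ω) r)
        have e3 : ∀ r : S × S, slice RR r - slice (tens V ω) r
            + (slice (tens V ω) r - slice (tens Φ ω) r) = slice RR r - slice (tens Φ ω) r := by
          intro r; abel
        simp only [e3] at h3
        refine le_trans h3 (add_le_add ?_ ?_)
        · have e4 : ∑ r : S × S, nsq (slice RR r - slice (tens V ω) r) = nsq (RR - tens V ω) := by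
            rw [nsq_slice]; rfl
          rw [e4]
        · have e5 : ∀ r : S × S, nsq (slice (tens V ω) r - slice (tens Φ ω) r)
              = ‖ω r‖ ^ 2 * nsq (V - Φ) := by
            intro r
            rw [slice_tens, slice_tens, ← nsq_smul]
            congr 1
            funext q
            simp [mul_sub]
          simp only [e5]
          rw [← Finset.sum_mul]
          have : ∑ r : S × S, ‖ω r‖ ^ 2 = 1 := hω
          rw [this, one_mul, sqrt_nsq_sub_comm]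
          exact hΦV
      linarith
  · have h1 := eval_mono Ω (pullOp a QA) (pullOp b QB)
      (fun x => pullOp_le_one a QA hA1 ha x) x y ((a x)ᴴ * a x) ((b y)ᴴ * b y)
      (pullOp_le a QA hA1 x) (pullOp_le b QB hB1 y) (hb y)
    have h2 : bra Ω ((a x)ᴴ * a x) ((b y)ᴴ * b y) = nsq RR := by
      have := bra_pull Ω (a x) (b y) 1 1
      rw [Matrix.mul_one, Matrix.mul_one, bra_one_one] at this
      rw [this]; rfl
    rw [h2] at h1
    have h3 : √(nsq V) ≤ √(nsq RR) + D := by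
      have h4 := sqrt_nsq_le (tens V ω) RR
      rw [nsq_tens, hω, one_mul, sqrt_nsq_sub_comm] at h4
      exact h4
    have h5 := real2 (Real.sqrt_nonneg (nsq V)) hD0 (nsq_nonneg RR) h3
    rw [Real.sq_sqrt (nsq_nonneg _)] at h5
    have h6 : √(nsq V) * D ≤ (n + s) * D := mul_le_mul_of_nonneg_right hV hD0
    have h7 : 0 ≤ C * κ := by positivity
    have h8 : (1 + C * κ) * nsq U ≤ (1 + C * κ) * (n + s) ^ 2 :=
      mul_le_mul_of_nonneg_left hU2 (by linarith)
    have h9 : C * κ * nsq V ≤ C * κ * (n + s) ^ 2 := mul_le_mul_of_nonneg_left hV2 h7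
    have h10 : 0 ≤ κ * (n + s) ^ 2 := by positivity
    nlinarith [mul_nonneg hC.le h10]

/-- **S36** from the correlated-sampling output -/
theorem s36 (C : ℝ) (hC : 0 < C) (hcsx : Crest.H7Csx.CSXOut C) :
    ∃ c : ℝ, 0 ≤ c ∧ ∀ (G : Game) (v : ℝ), ValLe G v → 0 < G.nA → 0 < G.nB →
      ∀ P E W : ℝ, 0 ≤ P → 0 ≤ E → OneCoord G P E W →
        W ≤ v * P + c * (√P * √(√(P * E))) := by
  refine ⟨12 + 41 * (6 * C + 6), by positivity, ?_⟩
  intro G v hval hnA hnB P E W hP0 hE0 hone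
  obtain ⟨α, β, _, _, _, _, Φ, ΦX, ΦY, QA, QB, hQA, hQB, hA1, hB1, hP, hE, hW⟩ := hone
  have hv0 : 0 ≤ v := v_nonneg hval hnA hnB
  have key := scalar (I := Fin G.nX × Fin G.nY) (pi := fun p => G.prob p.1 p.2)
    (n := fun p => √(nsq (Φ p.1 p.2))) (a := fun p => gval G (Φ p.1 p.2) QA QB p.1 p.2)
    (Ei := fun p => nsq (Φ p.1 p.2 - ΦX p.1) + nsq (Φ p.1 p.2 - ΦY p.2)
        + (Real.sqrt (nsq (Φ p.1 p.2)) - Real.sqrt P) ^ 2)
    (A := 6 * C + 6) (v := v) (P := P) (E := E)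
    (fun p => G.prob_nonneg _ _)
    (by rw [Fintype.sum_prod_type]; exact G.prob_sum)
    (fun p => Real.sqrt_nonneg _)
    (fun p => by
      show gval G (Φ p.1 p.2) QA QB p.1 p.2 ≤ √(nsq (Φ p.1 p.2)) ^ 2
      rw [Real.sq_sqrt (nsq_nonneg _)]
      exact gval_le _ QA QB hQA hQB hA1 hB1 _ _)
    (fun p => by
      have h1 := nsq_nonneg (Φ p.1 p.2 - ΦX p.1)
      have h2 := nsq_nonneg (Φ p.1 p.2 - ΦY p.2)
      positivity)
    (by
      rw [Fintype.sum_prod_type, ← hP]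
      refine Finset.sum_congr rfl fun x _ => Finset.sum_congr rfl fun y _ => ?_
      show G.prob x y * √(nsq (Φ x y)) ^ 2 = _
      rw [Real.sq_sqrt (nsq_nonneg _)])
    (by
      rw [Fintype.sum_prod_type]
      exact hE)
    (fun p => by
      have h1 := nsq_nonneg (Φ p.1 p.2 - ΦX p.1)
      have h2 := nsq_nonneg (Φ p.1 p.2 - ΦY p.2)
      show (√(nsq (Φ p.1 p.2)) - √P) ^ 2 ≤ _
      linarith)
    (by positivity) hv0
    (by
      intro κ hκ hκ1 T hT
      obtain ⟨R, S, _, _, _, _, Ω, a, b, ω, hω, ha, hb, hu, hvv, hD⟩ :=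
        hcsx (Fin G.nX) (Fin G.nY) α β ΦX ΦY κ (T ^ 2) hκ hκ1 (by positivity)
      have hpair := fun p : Fin G.nX × Fin G.nY =>
        pairBound QA QB hQA hQB hA1 hB1 Ω a b ω hω ha hb p.1 p.2 (Φ p.1 p.2) (ΦX p.1) (ΦY p.2)
          C κ T (nsq (Φ p.1 p.2 - ΦX p.1) + nsq (Φ p.1 p.2 - ΦY p.2)
            + (Real.sqrt (nsq (Φ p.1 p.2)) - Real.sqrt P) ^ 2) hC hκ hκ1 hT
          (by
            have h1 := nsq_nonneg (Φ p.1 p.2 - ΦX p.1)
            have h2 := nsq_nonneg (Φ p.1 p.2 - ΦY p.2)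
            positivity)
          (by
            have := sq_nonneg (Real.sqrt (nsq (Φ p.1 p.2)) - Real.sqrt P)
            linarith)
          (hu p.1) (hvv p.2) (hD p.1 p.2)
      refine ⟨fun p => gval G Ω (pullOp a QA) (pullOp b QB) p.1 p.2,
        fun p => eval' G Ω (pullOp a QA) (pullOp b QB) p.1 p.2,
        fun p => √(nsq (((a p.1) ⊗ₖ (b p.2)).mulVec Ω - tens (ΦY p.2) ω)), ?_, ?_, ?_, ?_,
        ?_, ?_, ?_⟩
      · exact fun p => gval_nonneg Ω _ _ (fun x i => pullOp_psd a QA hQA x i)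
          (fun y i => pullOp_psd b QB hQB y i) p.1 p.2
      · exact fun p => gval_le_eval Ω _ _ (fun x i => pullOp_psd a QA hQA x i)
          (fun y i => pullOp_psd b QB hQB y i) (fun x => pullOp_le_one a QA hA1 ha x)
          (fun y => pullOp_le_one b QB hB1 hb y) p.1 p.2
      · rw [Fintype.sum_prod_type]
        exact retry hval hnA hnB Ω (pullOp a QA) (pullOp b QB)
          (fun x i => pullOp_psd a QA hQA x i)
          (fun y i => pullOp_psd b QB hQB y i) (fun x => pullOp_le_one a QA hA1 ha x)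
          (fun y => pullOp_le_one b QB hB1 hb y)
      · exact fun p => Real.sqrt_nonneg _
      · exact fun p => (hpair p).1
      · exact fun p => (hpair p).2.1
      · exact fun p => (hpair p).2.2)
  have hWeq : ∑ p : Fin G.nX × Fin G.nY, G.prob p.1 p.2 * gval G (Φ p.1 p.2) QA QB p.1 p.2 = W := by
    rw [Fintype.sum_prod_type, ← hW]
    rfl
  rw [← hWeq]
  exact key

end Crest.H9PR36
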