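import Mathlib

set_option autoImplicit false
set_option linter.unusedSectionVars false

open Finset

namespace Crest.H9PRTele

universe u1 u2 u3 u4 u5

variable {X : Type u1} {Y : Type u2} {ι : Type u3} [Fintype X] [Fintype Y] [DecidableEq ι] [Fintype ι]
variable {V : Type u4} {W : Type u5} [AddCommGroup V] [Module ℝ V] [AddCommGroup W] [Module ℝ W]

/-- conditional weight of `x'` given `y` -/
noncomputable def cX (w : X → Y → ℝ) (x' : X) (y : Y) : ℝ := w x' y / ∑ x'', w x'' y

/-- conditional weight of `y'` given `x` -/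
noncomputable def cY (w : X → Y → ℝ) (x : X) (y' : Y) : ℝ := w x y' / ∑ y'', w x y''

/-- average over the first question in coordinate `i`, given the second one -/
noncomputable def TX (w : X → Y → ℝ) (i : ι) (f : (ι → X) → (ι → Y) → V) :
    (ι → X) → (ι → Y) → V :=
  fun x y => ∑ x', cX w x' (y i) • f (Function.update x i x') y

/-- average over the second question in coordinate `i`, given the first one -/
noncomputable def TY (w : X → Y → ℝ) (i : ι) (f : (ι → X) → (ι → Y) → V) :
    (ι → X) → (ι → Y) → V :=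
  fun x y => ∑ y', cY w (x i) y' • f x (Function.update y i y')

/-- expectation over independent question pairs -/
noncomputable def E (w : X → Y → ℝ) (g : (ι → X) → (ι → Y) → ℝ) : ℝ :=
  ∑ x : ι → X, ∑ y : ι → Y, (∏ i, w (x i) (y i)) * g x y

/-- `f` does not depend on the first question in coordinate `i` -/
def IndX (i : ι) (f : (ι → X) → (ι → Y) → V) : Prop :=
  ∀ x y x', f (Function.update x i x') y = f x y

/-- `f` does not depend on the second question in coordinate `i` -/
def IndY (i : ι) (f : (ι → X) → (ι → Y) → V) : Prop :=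
  ∀ x y y', f x (Function.update y i y') = f x y

/-! ### symmetry -/

/-- swap the two players -/
def sw (f : (ι → X) → (ι → Y) → V) : (ι → Y) → (ι → X) → V := fun y x => f x y

def swW (w : X → Y → ℝ) : Y → X → ℝ := fun y x => w x y

lemma cY_eq (w : X → Y → ℝ) (x : X) (y' : Y) : cY w x y' = cX (swW w) y' x := rfl

lemma TY_eq (w : X → Y → ℝ) (i : ι) (f : (ι → X) → (ι → Y) → V) :
    TY w i f = sw (TX (swW w) i (sw f)) := rfl

lemma E_sw (w : X → Y → ℝ) (g : (ι → X) → (ι → Y) → ℝ) : E w g = E (swW w) (sw g) := by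
  unfold E sw swW
  rw [Finset.sum_comm]

/-! ### the expectation is invariant -/

lemma cX_mul (w : X → Y → ℝ) (hw : ∀ x y, 0 ≤ w x y) (x : X) (y : Y) :
    (∑ x', w x' y) * cX w x y = w x y := by
  unfold cX
  by_cases h : (∑ x', w x' y) = 0
  · have h0 : w x y = 0 := by
      have := (Finset.sum_eq_zero_iff_of_nonneg (fun x' _ => hw x' y)).1 h x (Finset.mem_univ x)
      exact this
    rw [h0, h]; simp
  · field_simp

lemma cX_nonneg (w : X → Y → ℝ) (hw : ∀ x y, 0 ≤ w x y) (x : X) (y : Y) : 0 ≤ cX w x y :=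
  div_nonneg (hw x y) (Finset.sum_nonneg fun _ _ => hw _ _)

lemma cX_sum (w : X → Y → ℝ) (y : Y) (h : (∑ x', w x' y) ≠ 0) : ∑ x', cX w x' y = 1 := by
  unfold cX
  rw [← Finset.sum_div, div_self h]

lemma cX_sum_le (w : X → Y → ℝ) (y : Y) : ∑ x', cX w x' y ≤ 1 := by
  by_cases h : (∑ x', w x' y) = 0
  · unfold cX; rw [h]; simp
  · rw [cX_sum w y h]

lemma cY_nonneg (w : X → Y → ℝ) (hw : ∀ x y, 0 ≤ w x y) (x : X) (y : Y) : 0 ≤ cY w x y :=
  div_nonneg (hw x y) (Finset.sum_nonneg fun _ _ => hw _ _)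

lemma cY_sum (w : X → Y → ℝ) (x : X) (h : (∑ y', w x y') ≠ 0) : ∑ y', cY w x y' = 1 := by
  unfold cY
  rw [← Finset.sum_div, div_self h]

lemma cY_sum_le (w : X → Y → ℝ) (x : X) : ∑ y', cY w x y' ≤ 1 := by
  by_cases h : (∑ y', w x y') = 0
  · unfold cY; rw [h]; simp
  · rw [cY_sum w x h]

/-- the involution on (string, letter) exchanging the `i`-th letter with the extra letter -/
def flipEquiv (i : ι) : ((ι → X) × X) ≃ ((ι → X) × X) where
  toFun p := (Function.update p.1 i p.2, p.1 i)
  invFun p := (Function.update p.1 i p.2, p.1 i)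
  left_inv p := by
    ext1
    · simp
    · simp
  right_inv p := by
    ext1
    · simp
    · simp

lemma sum_flip (i : ι) (F : (ι → X) → X → ℝ) :
    ∑ x : ι → X, ∑ x' : X, F x x' = ∑ x : ι → X, ∑ x' : X, F (Function.update x i x') (x i) := by
  rw [← Fintype.sum_prod_type', ← Fintype.sum_prod_type']
  exact (Equiv.sum_comp (flipEquiv (X := X) i) (fun p => F p.1 p.2)).symm

lemma prod_update (w : X → Y → ℝ) (i : ι) (x : ι → X) (y : ι → Y) (x' : X) :
    ∏ j, w (Function.update x i x' j) (y j) = w x' (y i) * ∏ j ∈ univ.erase i, w (x j) (y j) := by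
  rw [← Finset.mul_prod_erase univ _ (Finset.mem_univ i)]
  congr 1
  · simp
  · refine Finset.prod_congr rfl fun j hj => ?_
    rw [Function.update_of_ne (Finset.ne_of_mem_erase hj)]

lemma E_TX (w : X → Y → ℝ) (hw : ∀ x y, 0 ≤ w x y) (i : ι) (h : (ι → X) → (ι → Y) → ℝ) :
    E w (TX w i h) = E w h := by
  unfold E
  rw [Finset.sum_comm]
  conv_rhs => rw [Finset.sum_comm]
  refine Finset.sum_congr rfl fun y _ => ?_
  have h1 : ∀ x : ι → X, (∏ j, w (x j) (y j)) * TX w i h x y
      = ∑ x' : X, (∏ j, w (x j) (y j)) * (cX w x' (y i) * h (Function.update x i x') y) := by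
    intro x
    unfold TX
    rw [Finset.mul_sum]
    rfl
  rw [Finset.sum_congr rfl fun x _ => h1 x, sum_flip i]
  refine Finset.sum_congr rfl fun x _ => ?_
  have h2 : ∀ x' : X, (∏ j, w (Function.update x i x' j) (y j)) * (cX w (x i) (y i)
        * h (Function.update (Function.update x i x') i (x i)) y)
      = w x' (y i) * ((∏ j ∈ univ.erase i, w (x j) (y j)) * cX w (x i) (y i) * h x y) := by
    intro x'
    rw [prod_update]
    simp only [Function.update_idem, Function.update_eq_self]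
    ring
  rw [Finset.sum_congr rfl fun x' _ => h2 x', ← Finset.sum_mul,
    ← Finset.mul_prod_erase univ (fun j => w (x j) (y j)) (Finset.mem_univ i),
    ← cX_mul w hw (x i) (y i)]
  ring

lemma E_TY (w : X → Y → ℝ) (hw : ∀ x y, 0 ≤ w x y) (i : ι) (h : (ι → X) → (ι → Y) → ℝ) :
    E w (TY w i h) = E w h := by
  rw [E_sw, E_sw w h, TY_eq]
  exact E_TX (swW w) (fun y x => hw x y) i (sw h)

lemma E_B_TX (w : X → Y → ℝ) (hw : ∀ x y, 0 ≤ w x y) (B : V →ₗ[ℝ] W →ₗ[ℝ] ℝ) (i : ι)
    (f : (ι → X) → (ι → Y) → V) (g : (ι → X) → (ι → Y) → W) (hg : IndX i g) :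
    E w (fun x y => B (TX w i f x y) (g x y)) = E w (fun x y => B (f x y) (g x y)) := by
  rw [← E_TX w hw i (fun x y => B (f x y) (g x y))]
  congr 1
  funext x y
  unfold TX
  rw [map_sum, LinearMap.sum_apply]
  refine Finset.sum_congr rfl fun x' _ => ?_
  rw [map_smul, LinearMap.smul_apply]
  show _ = cX w x' (y i) • B (f (Function.update x i x') y) (g (Function.update x i x') y)
  rw [hg x y x']

lemma E_B_TY (w : X → Y → ℝ) (hw : ∀ x y, 0 ≤ w x y) (B : V →ₗ[ℝ] W →ₗ[ℝ] ℝ) (i : ι)
    (f : (ι → X) → (ι → Y) → V) (g : (ι → X) → (ι → Y) → W) (hf : IndY i f) :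
    E w (fun x y => B (f x y) (TY w i g x y)) = E w (fun x y => B (f x y) (g x y)) := by
  rw [← E_TY w hw i (fun x y => B (f x y) (g x y))]
  congr 1
  funext x y
  unfold TY
  rw [map_sum]
  refine Finset.sum_congr rfl fun x' _ => ?_
  rw [map_smul]
  show _ = cY w (x i) x' • B (f x (Function.update y i x')) (g x (Function.update y i x'))
  rw [hf x y x']

/-! ### independence bookkeeping -/

lemma IndX_TX (w : X → Y → ℝ) (i : ι) (f : (ι → X) → (ι → Y) → V) : IndX i (TX w i f) := by
  intro x y x'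
  unfold TX
  simp

lemma IndY_TY (w : X → Y → ℝ) (i : ι) (f : (ι → X) → (ι → Y) → V) : IndY i (TY w i f) := by
  intro x y x'
  unfold TY
  simp

lemma IndY_TX (w : X → Y → ℝ) {i j : ι} (hij : j ≠ i) (f : (ι → X) → (ι → Y) → V)
    (hf : IndY j f) : IndY j (TX w i f) := by
  intro x y y'
  unfold TX
  refine Finset.sum_congr rfl fun x' _ => ?_
  rw [Function.update_of_ne (Ne.symm hij), hf]

lemma IndX_TY (w : X → Y → ℝ) {i j : ι} (hij : j ≠ i) (f : (ι → X) → (ι → Y) → V)
    (hf : IndX j f) : IndX j (TY w i f) := by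
  intro x y y'
  unfold TY
  refine Finset.sum_congr rfl fun x' _ => ?_
  rw [Function.update_of_ne (Ne.symm hij), hf]

lemma IndX_TX' (w : X → Y → ℝ) {i j : ι} (hij : j ≠ i) (f : (ι → X) → (ι → Y) → V)
    (hf : IndX j f) : IndX j (TX w i f) := by
  intro x y x''
  unfold TX
  refine Finset.sum_congr rfl fun x' _ => ?_
  rw [Function.update_comm hij, hf]

lemma IndY_TY' (w : X → Y → ℝ) {i j : ι} (hij : j ≠ i) (f : (ι → X) → (ι → Y) → V)
    (hf : IndY j f) : IndY j (TY w i f) := by
  intro x y x''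
  unfold TY
  refine Finset.sum_congr rfl fun x' _ => ?_
  rw [Function.update_comm hij, hf]

/-- `foldX w [r₁,…,r_m] M = T_{r_m} ⋯ T_{r_1} M` -/
noncomputable def foldX (w : X → Y → ℝ) : List ι → ((ι → X) → (ι → Y) → V) →
    ((ι → X) → (ι → Y) → V)
  | [], f => f
  | i :: l, f => foldX w l (TX w i f)

/-- `foldY w [r₁,…,r_m] N = S_{r_1} ( S_{r_2} ⋯ (S_{r_m} N))` -/
noncomputable def foldY (w : X → Y → ℝ) : List ι → ((ι → X) → (ι → Y) → V) →
    ((ι → X) → (ι → Y) → V)
  | [], f => f
  | i :: l, f => TY w i (foldY w l f)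

lemma foldX_append (w : X → Y → ℝ) (l₁ l₂ : List ι) (f : (ι → X) → (ι → Y) → V) :
    foldX w (l₁ ++ l₂) f = foldX w l₂ (foldX w l₁ f) := by
  induction l₁ generalizing f with
  | nil => rfl
  | cons i l ih => simp only [List.cons_append, foldX]; exact ih _

lemma foldY_append (w : X → Y → ℝ) (l₁ l₂ : List ι) (f : (ι → X) → (ι → Y) → V) :
    foldY w (l₁ ++ l₂) f = foldY w l₁ (foldY w l₂ f) := by
  induction l₁ with
  | nil => rfl
  | cons i l ih => simp only [List.cons_append, foldY]; rw [ih]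

lemma IndY_foldX (w : X → Y → ℝ) (l : List ι) (j : ι) (hj : j ∉ l)
    (f : (ι → X) → (ι → Y) → V) (hf : IndY j f) : IndY j (foldX w l f) := by
  induction l generalizing f with
  | nil => exact hf
  | cons i l ih =>
    simp only [List.mem_cons, not_or] at hj
    exact ih hj.2 _ (IndY_TX w hj.1 f hf)

lemma IndX_foldY (w : X → Y → ℝ) (l : List ι) (j : ι) (hj : j ∉ l)
    (f : (ι → X) → (ι → Y) → V) (hf : IndX j f) : IndX j (foldY w l f) := by
  induction l with
  | nil => exact hf
  | cons i l ih =>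
    simp only [List.mem_cons, not_or] at hj
    exact IndX_TY w hj.1 _ (ih hj.2)

lemma IndX_foldX_of_mem (w : X → Y → ℝ) (l : List ι) (j : ι) (hj : j ∈ l)
    (f : (ι → X) → (ι → Y) → V) : IndX j (foldX w l f) := by
  induction l generalizing f with
  | nil => simp at hj
  | cons i l ih =>
    by_cases hjl : j ∈ l
    · exact ih hjl _
    · have hji : j = i := by
        rcases List.mem_cons.1 hj with h | h
        · exact h
        · exact absurd h hjl
      subst hji
      have : ∀ (l : List ι) (g : (ι → X) → (ι → Y) → V), j ∉ l → IndX j g →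
          IndX j (foldX w l g) := by
        intro l
        induction l with
        | nil => intro g _ hg; exact hg
        | cons k l ih' =>
          intro g hk hg
          simp only [List.mem_cons, not_or] at hk
          exact ih' _ hk.2 (IndX_TX' w hk.1 g hg)
      exact this l _ hjl (IndX_TX w j f)

lemma IndY_foldY_of_mem (w : X → Y → ℝ) (l : List ι) (j : ι) (hj : j ∈ l)
    (f : (ι → X) → (ι → Y) → V) : IndY j (foldY w l f) := by
  induction l with
  | nil => simp at hj
  | cons i l ih =>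
    by_cases hji : j = i
    · subst hji; exact IndY_TY w j _
    · rcases List.mem_cons.1 hj with h | h
      · exact absurd h hji
      · exact IndY_TY' w hji _ (ih h)

/-! ### telescoping -/

/-- the increments for the first functional, along a list -/
noncomputable def incX (w : X → Y → ℝ) (B : V →ₗ[ℝ] W →ₗ[ℝ] ℝ) (θ : V → V)
    (M : (ι → X) → (ι → Y) → V) (N : (ι → X) → (ι → Y) → W) (l₁ : List ι) (i : ι)
    (l₂ : List ι) : ℝ :=
  E w (fun x y => B (θ (TX w i (foldX w l₁ M) x y) - TX w i (fun x y => θ (foldX w l₁ M x y)) x y)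
    (foldY w l₂ N x y))

/-- the increments for the second functional, along a list -/
noncomputable def incY (w : X → Y → ℝ) (B : V →ₗ[ℝ] W →ₗ[ℝ] ℝ) (θ : W → W)
    (M : (ι → X) → (ι → Y) → V) (N : (ι → X) → (ι → Y) → W) (l₁ : List ι) (i : ι)
    (l₂ : List ι) : ℝ :=
  E w (fun x y => B (foldX w l₁ M x y)
    (θ (TY w i (foldY w l₂ N) x y) - TY w i (fun x y => θ (foldY w l₂ N x y)) x y))

lemma E_sub (w : X → Y → ℝ) (g g' : (ι → X) → (ι → Y) → ℝ) :
    E w (fun x y => g x y - g' x y) = E w g - E w g' := by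
  unfold E
  simp only [mul_sub, Finset.sum_sub_distrib]

lemma incX_eq (w : X → Y → ℝ) (hw : ∀ x y, 0 ≤ w x y) (B : V →ₗ[ℝ] W →ₗ[ℝ] ℝ) (θ : V → V)
    (M : (ι → X) → (ι → Y) → V) (N : (ι → X) → (ι → Y) → W) (l₁ : List ι) (i : ι)
    (l₂ : List ι) (h1 : i ∉ l₁) (h2 : i ∉ l₂) (hM : IndY i M) (hN : IndX i N) :
    incX w B θ M N l₁ i l₂
      = E w (fun x y => B (θ (foldX w (l₁ ++ [i]) M x y)) (foldY w l₂ N x y))
        - E w (fun x y => B (θ (foldX w l₁ M x y)) (foldY w (i :: l₂) N x y)) := by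
  unfold incX
  have e1 : ∀ x y, B (θ (TX w i (foldX w l₁ M) x y)
        - TX w i (fun x y => θ (foldX w l₁ M x y)) x y) (foldY w l₂ N x y)
      = B (θ (foldX w (l₁ ++ [i]) M x y)) (foldY w l₂ N x y)
        - B (TX w i (fun x y => θ (foldX w l₁ M x y)) x y) (foldY w l₂ N x y) := by
    intro x y
    rw [map_sub, LinearMap.sub_apply, foldX_append]
    rfl
  simp only [e1]
  rw [E_sub, E_B_TX w hw B i (fun x y => θ (foldX w l₁ M x y)) (foldY w l₂ N)
    (IndX_foldY w l₂ i h2 N hN)]
  congr 1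
  have hθ : IndY i (fun x y => θ (foldX w l₁ M x y)) := by
    intro x y y'
    have := IndY_foldX w l₁ i h1 M hM x y y'
    simp only [this]
  exact (E_B_TY w hw B i (fun x y => θ (foldX w l₁ M x y)) (foldY w l₂ N) hθ).symm

lemma incY_eq (w : X → Y → ℝ) (hw : ∀ x y, 0 ≤ w x y) (B : V →ₗ[ℝ] W →ₗ[ℝ] ℝ) (θ : W → W)
    (M : (ι → X) → (ι → Y) → V) (N : (ι → X) → (ι → Y) → W) (l₁ : List ι) (i : ι)
    (l₂ : List ι) (h1 : i ∉ l₁) (h2 : i ∉ l₂) (hM : IndY i M) (hN : IndX i N) :
    incY w B θ M N l₁ i l₂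
      = E w (fun x y => B (foldX w l₁ M x y) (θ (foldY w (i :: l₂) N x y)))
        - E w (fun x y => B (foldX w (l₁ ++ [i]) M x y) (θ (foldY w l₂ N x y))) := by
  unfold incY
  have e1 : ∀ x y, B (foldX w l₁ M x y) (θ (TY w i (foldY w l₂ N) x y)
        - TY w i (fun x y => θ (foldY w l₂ N x y)) x y)
      = B (foldX w l₁ M x y) (θ (foldY w (i :: l₂) N x y))
        - B (foldX w l₁ M x y) (TY w i (fun x y => θ (foldY w l₂ N x y)) x y) := by
    intro x y
    rw [map_sub]
    rfl
  simp only [e1]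
  rw [E_sub, E_B_TY w hw B i (foldX w l₁ M) (fun x y => θ (foldY w l₂ N x y))
    (IndY_foldX w l₁ i h1 M hM)]
  congr 1
  have hθ : IndX i (fun x y => θ (foldY w l₂ N x y)) := by
    intro x y y'
    have := IndX_foldY w l₂ i h2 N hN x y y'
    simp only [this]
  rw [foldX_append]
  exact (E_B_TX w hw B i (foldX w l₁ M) (fun x y => θ (foldY w l₂ N x y)) hθ).symm

/-- telescoping of the first functional along a list (positions `t`) -/
theorem tele_X (w : X → Y → ℝ) (hw : ∀ x y, 0 ≤ w x y) (B : V →ₗ[ℝ] W →ₗ[ℝ] ℝ) (θ : V → V)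
    (M : (ι → X) → (ι → Y) → V) (N : (ι → X) → (ι → Y) → W) (l : List ι) (hl : l.Nodup)
    (hM : ∀ i ∈ l, IndY i M) (hN : ∀ i ∈ l, IndX i N) :
    ∑ t : Fin l.length, incX w B θ M N (l.take t) (l.get t) (l.drop (t + 1))
      = E w (fun x y => B (θ (foldX w l M x y)) (N x y))
        - E w (fun x y => B (θ (M x y)) (foldY w l N x y)) := by
  set F : ℕ → ℝ := fun t => E w (fun x y => B (θ (foldX w (l.take t) M x y))
    (foldY w (l.drop t) N x y)) with hF
  have key : ∀ t : Fin l.length,
      incX w B θ M N (l.take t) (l.get t) (l.drop (t + 1)) = F (t + 1) - F t := by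
    intro t
    have hmem : l.get t ∈ l := List.get_mem l t
    have ht2 : l.get t :: l.drop (t + 1) = l.drop t := (List.drop_eq_getElem_cons t.2).symm
    have hsplit : l.take t ++ l.get t :: l.drop (t + 1) = l := by
      rw [ht2]
      exact List.take_append_drop _ _
    have hnd : (l.take t ++ l.get t :: l.drop (t + 1)).Nodup := by rw [hsplit]; exact hl
    have h1 : l.get t ∉ l.take t := by
      intro hc
      have := (List.nodup_append.1 hnd).2.2
      exact this _ hc _ (List.mem_cons_self) rfl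
    have h2 : l.get t ∉ l.drop (t + 1) := by
      have := (List.nodup_append.1 hnd).2.1
      exact (List.nodup_cons.1 this).1
    rw [incX_eq w hw B θ M N _ _ _ h1 h2 (hM _ hmem) (hN _ hmem)]
    have ht1 : l.take t ++ [l.get t] = l.take (t + 1) := by
      rw [List.take_succ_eq_append_getElem t.2]; rfl
    rw [ht1, ht2]
  rw [Finset.sum_congr rfl fun t _ => key t]
  rw [Fin.sum_univ_eq_sum_range (fun t => F (t + 1) - F t) l.length, Finset.sum_range_sub]
  simp only [hF, List.take_length, List.drop_length, List.take_zero, List.drop_zero]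
  rfl

/-- telescoping of the second functional along a list (positions `t`) -/
theorem tele_Y (w : X → Y → ℝ) (hw : ∀ x y, 0 ≤ w x y) (B : V →ₗ[ℝ] W →ₗ[ℝ] ℝ) (θ : W → W)
    (M : (ι → X) → (ι → Y) → V) (N : (ι → X) → (ι → Y) → W) (l : List ι) (hl : l.Nodup)
    (hM : ∀ i ∈ l, IndY i M) (hN : ∀ i ∈ l, IndX i N) :
    ∑ t : Fin l.length, incY w B θ M N (l.take t) (l.get t) (l.drop (t + 1))
      = E w (fun x y => B (M x y) (θ (foldY w l N x y)))
        - E w (fun x y => B (foldX w l M x y) (θ (N x y))) := by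
  set F : ℕ → ℝ := fun t => E w (fun x y => B (foldX w (l.take t) M x y)
    (θ (foldY w (l.drop t) N x y))) with hF
  have key : ∀ t : Fin l.length,
      incY w B θ M N (l.take t) (l.get t) (l.drop (t + 1)) = - (F (t + 1) - F t) := by
    intro t
    have hmem : l.get t ∈ l := List.get_mem l t
    have ht2 : l.get t :: l.drop (t + 1) = l.drop t := (List.drop_eq_getElem_cons t.2).symm
    have hsplit : l.take t ++ l.get t :: l.drop (t + 1) = l := by
      rw [ht2]
      exact List.take_append_drop _ _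
    have hnd : (l.take t ++ l.get t :: l.drop (t + 1)).Nodup := by rw [hsplit]; exact hl
    have h1 : l.get t ∉ l.take t := by
      intro hc
      have := (List.nodup_append.1 hnd).2.2
      exact this _ hc _ (List.mem_cons_self) rfl
    have h2 : l.get t ∉ l.drop (t + 1) := by
      have := (List.nodup_append.1 hnd).2.1
      exact (List.nodup_cons.1 this).1
    rw [incY_eq w hw B θ M N _ _ _ h1 h2 (hM _ hmem) (hN _ hmem)]
    have ht1 : l.take t ++ [l.get t] = l.take (t + 1) := by
      rw [List.take_succ_eq_append_getElem t.2]; rfl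
    rw [ht1, ht2]
    simp only [hF]
    ring
  rw [Finset.sum_congr rfl fun t _ => key t, Finset.sum_neg_distrib]
  rw [Fin.sum_univ_eq_sum_range (fun t => F (t + 1) - F t) l.length, Finset.sum_range_sub]
  simp only [hF, List.take_length, List.drop_length, List.take_zero, List.drop_zero]
  simp only [foldX, foldY]
  ring

/-! ### preservation and invariance -/

lemma cX_eq_zero (w : X → Y → ℝ) (x : X) (y : Y) (h : (∑ x', w x' y) = 0) : cX w x y = 0 := by
  unfold cX; rw [h, div_zero]

lemma cY_eq_zero (w : X → Y → ℝ) (x : X) (y : Y) (h : (∑ y', w x y') = 0) : cY w x y = 0 := by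
  unfold cY; rw [h, div_zero]

lemma TX_mem (w : X → Y → ℝ) (hw : ∀ x y, 0 ≤ w x y) (S : Set V) (hS : Convex ℝ S)
    (h0 : (0 : V) ∈ S) (i : ι) (f : (ι → X) → (ι → Y) → V) (hf : ∀ x y, f x y ∈ S) :
    ∀ x y, TX w i f x y ∈ S := by
  intro x y
  by_cases h : (∑ x', w x' (y i)) = 0
  · have : TX w i f x y = 0 := by
      unfold TX
      refine Finset.sum_eq_zero fun x' _ => ?_
      rw [cX_eq_zero w x' (y i) h, zero_smul]
    rw [this]; exact h0
  · exact hS.sum_mem (fun x' _ => cX_nonneg w hw x' (y i)) (cX_sum w (y i) h)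
      (fun x' _ => hf _ _)

lemma TY_mem (w : X → Y → ℝ) (hw : ∀ x y, 0 ≤ w x y) (S : Set V) (hS : Convex ℝ S)
    (h0 : (0 : V) ∈ S) (i : ι) (f : (ι → X) → (ι → Y) → V) (hf : ∀ x y, f x y ∈ S) :
    ∀ x y, TY w i f x y ∈ S := by
  intro x y
  by_cases h : (∑ y', w (x i) y') = 0
  · have : TY w i f x y = 0 := by
      unfold TY
      refine Finset.sum_eq_zero fun x' _ => ?_
      rw [cY_eq_zero w (x i) x' h, zero_smul]
    rw [this]; exact h0
  · exact hS.sum_mem (fun y' _ => cY_nonneg w hw (x i) y') (cY_sum w (x i) h)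
      (fun x' _ => hf _ _)

lemma foldX_mem (w : X → Y → ℝ) (hw : ∀ x y, 0 ≤ w x y) (S : Set V) (hS : Convex ℝ S)
    (h0 : (0 : V) ∈ S) (l : List ι) (f : (ι → X) → (ι → Y) → V) (hf : ∀ x y, f x y ∈ S) :
    ∀ x y, foldX w l f x y ∈ S := by
  induction l generalizing f with
  | nil => exact hf
  | cons i l ih => exact ih _ (TX_mem w hw S hS h0 i f hf)

lemma foldY_mem (w : X → Y → ℝ) (hw : ∀ x y, 0 ≤ w x y) (S : Set V) (hS : Convex ℝ S)
    (h0 : (0 : V) ∈ S) (l : List ι) (f : (ι → X) → (ι → Y) → V) (hf : ∀ x y, f x y ∈ S) :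
    ∀ x y, foldY w l f x y ∈ S := by
  induction l with
  | nil => exact hf
  | cons i l ih => exact TY_mem w hw S hS h0 i _ ih

/-- exact invariance of the bilinear expectation under averaging the first argument -/
lemma E_B_foldX (w : X → Y → ℝ) (hw : ∀ x y, 0 ≤ w x y) (B : V →ₗ[ℝ] W →ₗ[ℝ] ℝ) (l : List ι)
    (f : (ι → X) → (ι → Y) → V) (g : (ι → X) → (ι → Y) → W) (hg : ∀ i ∈ l, IndX i g) :
    E w (fun x y => B (foldX w l f x y) (g x y)) = E w (fun x y => B (f x y) (g x y)) := by
  induction l generalizing f with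
  | nil => rfl
  | cons i l ih =>
    have h1 := ih (TX w i f) (fun j hj => hg j (List.mem_cons_of_mem _ hj))
    simp only [foldX]
    rw [h1]
    exact E_B_TX w hw B i f g (hg i List.mem_cons_self)

/-- exact invariance of the bilinear expectation under averaging the second argument -/
lemma E_B_foldY (w : X → Y → ℝ) (hw : ∀ x y, 0 ≤ w x y) (B : V →ₗ[ℝ] W →ₗ[ℝ] ℝ) (l : List ι)
    (f : (ι → X) → (ι → Y) → V) (g : (ι → X) → (ι → Y) → W) (hf : ∀ i ∈ l, IndY i f) :
    E w (fun x y => B (f x y) (foldY w l g x y)) = E w (fun x y => B (f x y) (g x y)) := by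
  induction l with
  | nil => rfl
  | cons i l ih =>
    have h1 := ih (fun j hj => hf j (List.mem_cons_of_mem _ hj))
    rw [← h1]
    exact E_B_TY w hw B i f (foldY w l g) (hf i List.mem_cons_self)

lemma E_mono (w : X → Y → ℝ) (hw : ∀ x y, 0 ≤ w x y) (g g' : (ι → X) → (ι → Y) → ℝ)
    (h : ∀ x y, g x y ≤ g' x y) : E w g ≤ E w g' := by
  unfold E
  refine Finset.sum_le_sum fun x _ => Finset.sum_le_sum fun y _ => ?_
  exact mul_le_mul_of_nonneg_left (h x y) (Finset.prod_nonneg fun i _ => hw _ _)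

lemma E_nonneg (w : X → Y → ℝ) (hw : ∀ x y, 0 ≤ w x y) (g : (ι → X) → (ι → Y) → ℝ)
    (h : ∀ x y, 0 ≤ g x y) : 0 ≤ E w g := by
  unfold E
  exact Finset.sum_nonneg fun x _ => Finset.sum_nonneg fun y _ =>
    mul_nonneg (Finset.prod_nonneg fun i _ => hw _ _) (h x y)

/-- the sum over the positions of a duplicate-free list is the sum over its members; `pre`/`post`
are the parts of the list before/after `i` -/
lemma sum_positions (l : List ι) (hl : l.Nodup) (g : List ι → ι → List ι → ℝ) :
    ∑ t : Fin l.length, g (l.take t) (l.get t) (l.drop (t + 1))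
      = ∑ i ∈ l.toFinset, g (l.take (l.idxOf i)) i (l.drop (l.idxOf i + 1)) := by
  have h1 : ∀ t : Fin l.length, g (l.take t) (l.get t) (l.drop (t + 1))
      = (fun i => g (l.take (l.idxOf i)) i (l.drop (l.idxOf i + 1))) (l.get t) := by
    intro t
    have : l.idxOf (l.get t) = t := List.Nodup.idxOf_getElem hl t.1 t.2
    simp only [this]
  rw [Finset.sum_congr rfl fun t _ => h1 t]
  rw [List.sum_toFinset _ hl, ← List.sum_ofFn]
  congr 1
  have h2 : ∀ F : ι → ℝ, List.ofFn (fun t => F (l.get t)) = l.map F := by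
    intro F
    conv_rhs => rw [← List.ofFn_get l, List.map_ofFn]
    rfl
  exact h2 (fun i => g (l.take (l.idxOf i)) i (l.drop (l.idxOf i + 1)))

/-! ### linearity -/

lemma TX_smul_of_ind (w : X → Y → ℝ) (i : ι) (ρ : (ι → X) → (ι → Y) → ℝ) (hρ : IndX i ρ)
    (f : (ι → X) → (ι → Y) → V) :
    TX w i (fun x y => ρ x y • f x y) = fun x y => ρ x y • TX w i f x y := by
  funext x y
  unfold TX
  rw [Finset.smul_sum]
  refine Finset.sum_congr rfl fun x' _ => ?_
  show cX w x' (y i) • ρ (Function.update x i x') y • f (Function.update x i x') y = _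
  rw [hρ x y x', smul_comm]

lemma TY_smul_of_ind (w : X → Y → ℝ) (i : ι) (ρ : (ι → X) → (ι → Y) → ℝ) (hρ : IndY i ρ)
    (f : (ι → X) → (ι → Y) → V) :
    TY w i (fun x y => ρ x y • f x y) = fun x y => ρ x y • TY w i f x y := by
  funext x y
  unfold TY
  rw [Finset.smul_sum]
  refine Finset.sum_congr rfl fun x' _ => ?_
  show cY w (x i) x' • ρ x (Function.update y i x') • f x (Function.update y i x') = _
  rw [hρ x y x', smul_comm]

lemma TX_add (w : X → Y → ℝ) (i : ι) (f g : (ι → X) → (ι → Y) → V) :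
    TX w i (fun x y => f x y + g x y) = fun x y => TX w i f x y + TX w i g x y := by
  funext x y
  simp only [TX, smul_add, Finset.sum_add_distrib]

lemma TX_sub (w : X → Y → ℝ) (i : ι) (f g : (ι → X) → (ι → Y) → V) :
    TX w i (fun x y => f x y - g x y) = fun x y => TX w i f x y - TX w i g x y := by
  funext x y
  simp only [TX, smul_sub, Finset.sum_sub_distrib]

lemma TY_add (w : X → Y → ℝ) (i : ι) (f g : (ι → X) → (ι → Y) → V) :
    TY w i (fun x y => f x y + g x y) = fun x y => TY w i f x y + TY w i g x y := by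
  funext x y
  simp only [TY, smul_add, Finset.sum_add_distrib]

lemma TY_sub (w : X → Y → ℝ) (i : ι) (f g : (ι → X) → (ι → Y) → V) :
    TY w i (fun x y => f x y - g x y) = fun x y => TY w i f x y - TY w i g x y := by
  funext x y
  simp only [TY, smul_sub, Finset.sum_sub_distrib]

lemma TX_map (w : X → Y → ℝ) (i : ι) (L : V →ₗ[ℝ] W) (f : (ι → X) → (ι → Y) → V) :
    TX w i (fun x y => L (f x y)) = fun x y => L (TX w i f x y) := by
  funext x y
  simp only [TX, map_sum, map_smul]

lemma TY_map (w : X → Y → ℝ) (i : ι) (L : V →ₗ[ℝ] W) (f : (ι → X) → (ι → Y) → V) :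
    TY w i (fun x y => L (f x y)) = fun x y => L (TY w i f x y) := by
  funext x y
  simp only [TY, map_sum, map_smul]

/-- positivity in the form used for the gauge inequality -/
lemma E_add (w : X → Y → ℝ) (g g' : (ι → X) → (ι → Y) → ℝ) :
    E w (fun x y => g x y + g' x y) = E w g + E w g' := by
  unfold E
  simp only [mul_add, Finset.sum_add_distrib]

lemma E_const (w : X → Y → ℝ) (hsum : ∑ x, ∑ y, w x y = 1) (c : ℝ) :
    E (ι := ι) w (fun _ _ => c) = c := by
  unfold E
  simp only [← Finset.sum_mul]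
  have h1 : (∑ x : ι → X, ∑ y : ι → Y, ∏ i, w (x i) (y i)) = 1 := by
    have h2 : ∀ x : ι → X, ∑ y : ι → Y, ∏ i, w (x i) (y i) = ∏ i, ∑ y, w (x i) y := by
      intro x
      rw [Finset.prod_univ_sum]
      simp
    rw [Finset.sum_congr rfl fun x _ => h2 x]
    have h3 := Finset.prod_univ_sum (fun _ : ι => (univ : Finset X)) (fun _ x => ∑ y, w x y)
    simp only [Fintype.piFinset_univ] at h3
    rw [← h3, hsum]
    simp
  rw [h1, one_mul]

end Crest.H9PRTele
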