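import Mathlib
import Crest.Agent.H9SalemDefs

/-! Elementary facts on `phi`, products, and the basic step of the recursion. -/

set_option autoImplicit false

open Filter Topology

namespace Crest.Agent.H9Salem

theorem phi_nonneg (x : ℝ) : 0 ≤ phi x := abs_nonneg _

theorem phi_le_one (x : ℝ) : phi x ≤ 1 := Real.abs_cos_le_one _

theorem phi_neg (x : ℝ) : phi (-x) = phi x := by
  unfold phi
  rw [mul_neg, Real.cos_neg]

theorem phi_sub_int (x : ℝ) (k : ℤ) : phi (x - k) = phi x := by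
  unfold phi
  have : 2 * Real.pi * (x - k) = 2 * Real.pi * x - k * (2 * Real.pi) := by ring
  rw [this, Real.cos_sub_int_mul_two_pi]

theorem abs_cos_sub_cos_le (x y : ℝ) : |Real.cos x - Real.cos y| ≤ |x - y| := by
  have := Real.lipschitzWith_cos.dist_le_mul x y
  simpa [Real.dist_eq] using this

theorem phi_lip (x y : ℝ) : |phi x - phi y| ≤ 2 * Real.pi * |x - y| := by
  unfold phi
  refine (abs_abs_sub_abs_le _ _).trans ((abs_cos_sub_cos_le _ _).trans ?_)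
  rw [← mul_sub, abs_mul, abs_of_pos (by positivity : (0 : ℝ) < 2 * Real.pi)]

/-- `phi` is `2π`-Lipschitz modulo one. -/
theorem phi_close {x y d : ℝ} {k : ℤ} (h : |x - y - k| ≤ d) : phi y - 2 * Real.pi * d ≤ phi x := by
  have h1 := phi_lip (x - k) y
  rw [phi_sub_int] at h1
  have h2 : |x - k - y| ≤ d := by
    have : x - k - y = x - y - k := by ring
    rw [this]; exact h
  have h3 := (abs_le.1 h1).1
  have h4 : 2 * Real.pi * |x - k - y| ≤ 2 * Real.pi * d := by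
    have := Real.pi_pos
    gcongr
  linarith

theorem phi_close' {x y σ d : ℝ} {k : ℤ} (hσ : σ = 1 ∨ σ = -1) (h : |x + σ * y - k| ≤ d) :
    phi y - 2 * Real.pi * d ≤ phi x := by
  rcases hσ with h1 | h1
  · rw [← phi_neg y]
    apply phi_close (k := k)
    rw [h1] at h
    have e : x - -y - k = x + 1 * y - k := by ring
    rw [e]; exact h
  · apply phi_close (k := k)
    rw [h1] at h
    have e : x - y - k = x + -1 * y - k := by ring
    rw [e]; exact h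

theorem phi_near {x d : ℝ} {k : ℤ} (h : |x - k| ≤ d) : 1 - 2 * Real.pi ^ 2 * d ^ 2 ≤ phi x := by
  rw [← phi_sub_int x k]
  unfold phi
  have h1 := Real.one_sub_sq_div_two_le_cos (x := 2 * Real.pi * (x - k))
  have h2 := le_abs_self (Real.cos (2 * Real.pi * (x - k)))
  have h3 : (x - k) ^ 2 ≤ d ^ 2 := by
    rw [← sq_abs (x - k)]
    have := abs_nonneg (x - k)
    gcongr
  have h4 : 2 * Real.pi ^ 2 * (x - k) ^ 2 ≤ 2 * Real.pi ^ 2 * d ^ 2 := by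
    have := Real.pi_pos
    gcongr
  nlinarith

/-- products bounded below. -/
theorem prod_lower {ι : Type*} (s : Finset ι) (p a x : ι → ℝ) (hp : ∀ i ∈ s, 0 ≤ p i)
    (ha : ∀ i ∈ s, 0 ≤ a i) (hx : ∀ i ∈ s, 0 ≤ x i) (h : ∀ i ∈ s, a i * (1 - x i) ≤ p i) :
    (∏ i ∈ s, a i) * (1 - ∑ i ∈ s, x i) ≤ ∏ i ∈ s, p i := by
  classical
  induction s using Finset.induction_on with
  | empty => simp
  | insert j s hj ih =>
    have ih' := ih (fun i hi => hp i (Finset.mem_insert_of_mem hi))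
      (fun i hi => ha i (Finset.mem_insert_of_mem hi))
      (fun i hi => hx i (Finset.mem_insert_of_mem hi))
      (fun i hi => h i (Finset.mem_insert_of_mem hi))
    rw [Finset.prod_insert hj, Finset.sum_insert hj, Finset.prod_insert hj]
    have hpj := hp j (Finset.mem_insert_self _ _)
    have haj := ha j (Finset.mem_insert_self _ _)
    have hxj := hx j (Finset.mem_insert_self _ _)
    have hj' := h j (Finset.mem_insert_self _ _)
    have hA : 0 ≤ ∏ i ∈ s, a i :=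
      Finset.prod_nonneg fun i hi => ha i (Finset.mem_insert_of_mem hi)
    have hP : 0 ≤ ∏ i ∈ s, p i :=
      Finset.prod_nonneg fun i hi => hp i (Finset.mem_insert_of_mem hi)
    have hX : 0 ≤ ∑ i ∈ s, x i :=
      Finset.sum_nonneg fun i hi => hx i (Finset.mem_insert_of_mem hi)
    set P := ∏ i ∈ s, p i
    set A := ∏ i ∈ s, a i
    set X := ∑ i ∈ s, x i
    rcases le_or_gt (1 - (x j + X)) 0 with h0 | h0
    · have : a j * A * (1 - (x j + X)) ≤ 0 := mul_nonpos_of_nonneg_of_nonpos (by positivity) h0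
      have h2 : 0 ≤ p j * P := by positivity
      linarith
    · have h1 : 0 ≤ 1 - x j := by linarith
      have h2 : 0 ≤ 1 - X := by linarith
      calc a j * A * (1 - (x j + X)) ≤ a j * A * ((1 - x j) * (1 - X)) := by
            apply mul_le_mul_of_nonneg_left _ (by positivity)
            nlinarith
        _ = (a j * (1 - x j)) * (A * (1 - X)) := by ring
        _ ≤ p j * P := by
            apply mul_le_mul hj' ih' (by positivity) hpj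

/-- The product formula for the transform. -/
theorem prod_formula {b : ℝ} {G : ℝ → ℝ} (hb : b ≠ 0) (hG : FFacts b G) (T : ℝ) (a : ℤ) (n : ℕ) :
    G (T * b ^ (a + n)) = G (T * b ^ a) * ∏ k ∈ Finset.range n, phi (T * b ^ (a + (k + 1 : ℕ))) := by
  induction n with
  | zero => simp
  | succ n ih =>
    rw [Finset.prod_range_succ, ← mul_assoc, ← ih]
    have e : T * b ^ (a + ((n + 1 : ℕ) : ℤ)) = b * (T * b ^ (a + n)) := by
      push_cast
      rw [← add_assoc, zpow_add_one₀ hb]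
      ring
    rw [e, hG.scale]
    ring

/-- The algebraic state: `T = p(b)`, `w = p(z)` for a product `p` of `x^M - x^{-M}`. -/
structure Pre (b : ℝ) (z : ℂ) (T : ℝ) (w : ℂ) (s : ℕ) (σ : ℝ) : Prop where
  one_le : 1 ≤ T
  le_pow : T ≤ b ^ s
  sign : σ = 1 ∨ σ = -1
  int : ∀ i : ℤ, ∃ k : ℤ, T * b ^ i + σ * (T * b ^ (-i)) + 2 * (w * z ^ i).re = k
  alg : IsIntegral ℤ T

theorem Pre.near {b : ℝ} {z : ℂ} (hz : ‖z‖ = 1) {T : ℝ} {w : ℂ} {s : ℕ} {σ : ℝ}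
    (h : Pre b z T w s σ) {τ : ℝ} (hτ : ‖w‖ ≤ τ) (i : ℤ) :
    ∃ k : ℤ, |T * b ^ i + σ * (T * b ^ (-i)) - k| ≤ 2 * τ := by
  obtain ⟨k, hk⟩ := h.int i
  refine ⟨k, ?_⟩
  have e : T * b ^ i + σ * (T * b ^ (-i)) - k = -(2 * (w * z ^ i).re) := by
    rw [← hk]; ring
  rw [e, abs_neg, abs_mul, abs_two]
  have h1 := Complex.abs_re_le_norm (w * z ^ i)
  rw [norm_mul, norm_zpow, hz, one_zpow, mul_one] at h1
  linarith

theorem Pre.datum {b : ℝ} {z : ℂ} (hz : ‖z‖ = 1) {T : ℝ} {w : ℂ} {s : ℕ} {σ : ℝ}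
    (h : Pre b z T w s σ) {τ m : ℝ} (hτ : ‖w‖ ≤ τ) (hm : ∀ i : ℤ, m ≤ phi (T * b ^ i)) :
    Datum b m T τ s σ :=
  ⟨h.one_le, h.le_pow, h.sign, h.near hz hτ, hm⟩

theorem Pre.zero {b : ℝ} {z : ℂ}
    (h : ∀ i : ℤ, ∃ k : ℤ, b ^ i + b ^ (-i) + 2 * (z ^ i).re = k) :
    Pre b z 1 1 0 1 where
  one_le := le_rfl
  le_pow := by simp
  sign := Or.inl rfl
  int := by simpa using h
  alg := isIntegral_one

theorem Pre.step {b : ℝ} (hb : 1 < b) (hbi : IsIntegral ℤ b) (hbi' : IsIntegral ℤ b⁻¹)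
    {z : ℂ} (hz : ‖z‖ = 1) {T : ℝ} {w : ℂ} {s : ℕ} {σ : ℝ}
    (h : Pre b z T w s σ) (M : ℕ) (hM : 1 ≤ b ^ (M : ℤ) - b ^ (-(M : ℤ))) :
    Pre b z (T * (b ^ (M : ℤ) - b ^ (-(M : ℤ)))) (w * (z ^ (M : ℤ) - z ^ (-(M : ℤ))))
      (s + M) (-σ) where
  one_le := by
    have := h.one_le
    nlinarith
  le_pow := by
    have h1 := h.one_le
    have h2 := h.le_pow
    have h3 : (0 : ℝ) < b ^ (-(M : ℤ)) := by positivity
    have h4 : b ^ (M : ℤ) - b ^ (-(M : ℤ)) ≤ b ^ M := by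
      rw [zpow_natCast]; linarith
    rw [pow_add]
    exact mul_le_mul h2 h4 (by linarith) (by positivity)
  sign := by
    rcases h.sign with h | h <;> simp [h]
  int := by
    intro i
    obtain ⟨k, hk⟩ := h.int (i + M)
    obtain ⟨l, hl⟩ := h.int (i - M)
    refine ⟨k - l, ?_⟩
    push_cast
    rw [← hk, ← hl]
    have hb0 : b ≠ 0 := by positivity
    have hz0 : z ≠ 0 := by
      intro h; rw [h, norm_zero] at hz; exact zero_ne_one hz
    have e1 : b ^ (i + (M : ℤ)) = b ^ i * b ^ (M : ℤ) := zpow_add₀ hb0 _ _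
    have e2 : b ^ (i - (M : ℤ)) = b ^ i * b ^ (-(M : ℤ)) := by
      rw [sub_eq_add_neg, zpow_add₀ hb0]
    have e3 : b ^ (-(i + (M : ℤ))) = b ^ (-i) * b ^ (-(M : ℤ)) := by
      rw [neg_add, zpow_add₀ hb0]
    have e4 : b ^ (-(i - (M : ℤ))) = b ^ (-i) * b ^ (M : ℤ) := by
      rw [← zpow_add₀ hb0]; congr 1; ring
    have e5 : z ^ (i + (M : ℤ)) = z ^ i * z ^ (M : ℤ) := zpow_add₀ hz0 _ _
    have e6 : z ^ (i - (M : ℤ)) = z ^ i * z ^ (-(M : ℤ)) := by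
      rw [sub_eq_add_neg, zpow_add₀ hz0]
    rw [e1, e2, e3, e4, e5, e6]
    have e7 : w * (z ^ (M : ℤ) - z ^ (-(M : ℤ))) * z ^ i =
        w * (z ^ i * z ^ (M : ℤ)) - w * (z ^ i * z ^ (-(M : ℤ))) := by ring
    rw [e7, Complex.sub_re]
    ring
  alg := by
    apply h.alg.mul
    apply IsIntegral.sub
    · rw [zpow_natCast]; exact hbi.pow _
    · rw [zpow_neg, ← inv_zpow, zpow_natCast]; exact hbi'.pow _

theorem norm_sub_inv {z : ℂ} (hz : ‖z‖ = 1) (M : ℕ) :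
    ‖z ^ (M : ℤ) - z ^ (-(M : ℤ))‖ = ‖z ^ (2 * M) - 1‖ := by
  have hz0 : z ≠ 0 := by
    intro h; rw [h, norm_zero] at hz; exact zero_ne_one hz
  have e : z ^ (M : ℤ) - z ^ (-(M : ℤ)) = z ^ (-(M : ℤ)) * (z ^ (2 * M) - 1) := by
    rw [mul_sub, mul_one]
    congr 1
    rw [← zpow_natCast z (2 * M), ← zpow_add₀ hz0]
    congr 1
    push_cast
    ring
  rw [e, norm_mul, norm_zpow, hz, one_zpow, one_mul]

/-- If `cos (2πx) = 0` then `x` is not an algebraic integer. -/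
theorem phi_ne_zero {x : ℝ} (hx : IsIntegral ℤ x) : phi x ≠ 0 := by
  intro h
  unfold phi at h
  rw [abs_eq_zero, Real.cos_eq_zero_iff] at h
  obtain ⟨k, hk⟩ := h
  have hx' : x = (((2 * k + 1 : ℤ) : ℚ) / 4 : ℚ) := by
    have := Real.pi_pos
    push_cast
    field_simp at hk
    linarith
  rw [hx'] at hx
  have h1 : IsIntegral ℤ (((2 * k + 1 : ℤ) : ℚ) / 4 : ℚ) := by
    have h2 : IsIntegral ℤ ((algebraMap ℚ ℝ) (((2 * k + 1 : ℤ) : ℚ) / 4 : ℚ)) := hx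
    exact (isIntegral_algebraMap_iff (algebraMap ℚ ℝ).injective).1 h2
  obtain ⟨n, hn⟩ := IsIntegrallyClosed.isIntegral_iff.1 h1
  have h3 : (4 * n : ℚ) = (2 * k + 1 : ℤ) := by
    have : (algebraMap ℤ ℚ) n = (n : ℚ) := rfl
    rw [this] at hn
    rw [hn]; push_cast; ring
  have h4 : 4 * n = 2 * k + 1 := by exact_mod_cast h3
  omega

theorem Pre.phi_pos {b : ℝ} (hbi : IsIntegral ℤ b) (hbi' : IsIntegral ℤ b⁻¹)
    {z : ℂ} {T : ℝ} {w : ℂ} {s : ℕ} {σ : ℝ} (h : Pre b z T w s σ) (i : ℤ) :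
    0 < phi (T * b ^ i) := by
  apply lt_of_le_of_ne (phi_nonneg _)
  symm
  apply phi_ne_zero
  apply h.alg.mul
  obtain ⟨n, rfl | rfl⟩ := Int.eq_nat_or_neg i
  · rw [zpow_natCast]; exact hbi.pow _
  · rw [zpow_neg, ← inv_zpow, zpow_natCast]; exact hbi'.pow _

/-- Comparison of `phi (T⁺ b^i)` with `phi (T b^{i+M})`. -/
theorem phi_plus_left {b : ℝ} (hb : 1 < b) {T : ℝ} {s : ℕ} (hT0 : 0 ≤ T) (hT : T ≤ b ^ s) (M : ℕ)
    (i : ℤ) :
    phi (T * b ^ (i + M)) - 2 * Real.pi * b ^ ((s : ℤ) + i - M) ≤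
      phi (T * (b ^ (M : ℤ) - b ^ (-(M : ℤ))) * b ^ i) := by
  have hb0 : b ≠ 0 := by positivity
  apply phi_close (k := 0)
  have e : T * (b ^ (M : ℤ) - b ^ (-(M : ℤ))) * b ^ i - T * b ^ (i + M) - ((0 : ℤ) : ℝ) =
      -(T * (b ^ (i - M))) := by
    rw [zpow_add₀ hb0, sub_eq_add_neg i, zpow_add₀ hb0]
    push_cast
    ring
  rw [e, abs_neg, abs_of_nonneg (by positivity)]
  have e2 : (s : ℤ) + i - M = s + (i - M) := by ring
  rw [e2, zpow_add₀ hb0 (s : ℤ), zpow_natCast]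
  gcongr

theorem phi_plus_right {b : ℝ} (hb : 1 < b) {T : ℝ} {s : ℕ} {σ : ℝ} (hT0 : 0 ≤ T)
    (hT : T ≤ b ^ s) (M : ℕ) {τ : ℝ} (hσ : σ = 1 ∨ σ = -1)
    (hnear : ∀ i : ℤ, ∃ k : ℤ, |T * (b ^ (M : ℤ) - b ^ (-(M : ℤ))) * b ^ i +
      σ * (T * (b ^ (M : ℤ) - b ^ (-(M : ℤ))) * b ^ (-i)) - k| ≤ 2 * τ) (i : ℤ) :
    phi (T * b ^ ((M : ℤ) - i)) - 2 * Real.pi * (2 * τ + b ^ ((s : ℤ) - i - M)) ≤
      phi (T * (b ^ (M : ℤ) - b ^ (-(M : ℤ))) * b ^ i) := by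
  obtain ⟨k, hk⟩ := hnear i
  have h1 := phi_close' hσ hk
  have h2 := phi_plus_left hb hT0 hT M (-i)
  have e1 : -i + (M : ℤ) = M - i := by ring
  have e2 : (s : ℤ) + -i - M = s - i - M := by ring
  rw [e1, e2] at h2
  linarith

theorem lower_step {b : ℝ} (hb : 1 < b) {T : ℝ} {s : ℕ} {σ : ℝ} (hT0 : 0 ≤ T)
    (hT : T ≤ b ^ s) (M : ℕ) {τ μ : ℝ} (hτ : 0 ≤ τ) (hσ : σ = 1 ∨ σ = -1)
    (hnear : ∀ i : ℤ, ∃ k : ℤ, |T * (b ^ (M : ℤ) - b ^ (-(M : ℤ))) * b ^ i +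
      σ * (T * (b ^ (M : ℤ) - b ^ (-(M : ℤ))) * b ^ (-i)) - k| ≤ 2 * τ)
    (hμ : ∀ i : ℤ, μ ≤ phi (T * b ^ i)) (i : ℤ) :
    μ - 2 * Real.pi * b ^ ((s : ℤ) - M) - 4 * Real.pi * τ ≤
      phi (T * (b ^ (M : ℤ) - b ^ (-(M : ℤ))) * b ^ i) := by
  have hpi := Real.pi_pos
  rcases le_or_gt i 0 with hi | hi
  · have h1 := phi_plus_left hb hT0 hT M i
    have h2 := hμ (i + M)
    have h3 : b ^ ((s : ℤ) + i - M) ≤ b ^ ((s : ℤ) - M) :=
      zpow_le_zpow_right₀ hb.le (by linarith)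
    have h4 : 2 * Real.pi * b ^ ((s : ℤ) + i - M) ≤ 2 * Real.pi * b ^ ((s : ℤ) - M) := by
      gcongr
    have h5 : 0 ≤ 4 * Real.pi * τ := by positivity
    linarith
  · have h1 := phi_plus_right hb hT0 hT M hσ hnear i
    have h2 := hμ (M - i)
    have h3 : b ^ ((s : ℤ) - i - M) ≤ b ^ ((s : ℤ) - M) :=
      zpow_le_zpow_right₀ hb.le (by linarith)
    have h4 : 2 * Real.pi * b ^ ((s : ℤ) - i - M) ≤ 2 * Real.pi * b ^ ((s : ℤ) - M) := by
      gcongr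
    linarith

theorem geom_lt {c : ℝ} (h0 : 0 ≤ c) (h1 : c < 1) (n : ℕ) :
    ∑ k ∈ Finset.range n, c ^ k ≤ 1 / (1 - c) := by
  rw [geom_sum_eq h1.ne, le_div_iff₀ (by linarith)]
  have : (c ^ n - 1) / (c - 1) * (1 - c) = 1 - c ^ n := by
    have : c - 1 ≠ 0 := by linarith
    field_simp
    ring
  rw [this]
  have : 0 ≤ c ^ n := by positivity
  linarith

/-- (L) -/
theorem G_growth {b : ℝ} (hb : 1 < b) {G : ℝ → ℝ} (hG : FFacts b G) {T : ℝ} {s : ℕ} {σ : ℝ}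
    (hT0 : 0 ≤ T) (hT : T ≤ b ^ s) {τ : ℝ} (hτ : 0 ≤ τ) (hσ : σ = 1 ∨ σ = -1)
    (hnear : ∀ i : ℤ, ∃ k : ℤ, |T * b ^ i + σ * (T * b ^ (-i)) - k| ≤ 2 * τ)
    (n0 : ℤ) (n : ℕ) :
    G (T * b ^ n0) * (1 - 4 * Real.pi ^ 2 * (4 * τ ^ 2 * n + b ^ (2 * ((s : ℤ) - n0)) / (b ^ 2 - 1)))
      ≤ G (T * b ^ (n0 + n)) := by
  have hb0 : b ≠ 0 := by positivity
  have hpi := Real.pi_pos
  have hb2 : 0 < b ^ 2 - 1 := by nlinarith
  rw [prod_formula hb0 hG]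
  apply mul_le_mul_of_nonneg_left _ (hG.nonneg _)
  have key := prod_lower (Finset.range n) (fun k => phi (T * b ^ (n0 + (k + 1 : ℕ)))) (fun _ => 1)
    (fun k => 4 * Real.pi ^ 2 * (4 * τ ^ 2 + b ^ (2 * ((s : ℤ) - n0)) * (b⁻¹ ^ 2) ^ (k + 1)))
    (fun k _ => phi_nonneg _) (fun _ _ => zero_le_one) (fun k _ => by positivity) ?_
  · refine le_trans ?_ key
    rw [Finset.prod_const_one, one_mul, ← Finset.mul_sum, Finset.sum_add_distrib,
      Finset.sum_const, Finset.card_range, nsmul_eq_mul, ← Finset.mul_sum]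
    have h1 : ∑ k ∈ Finset.range n, (b⁻¹ ^ 2) ^ (k + 1) ≤ 1 / (b ^ 2 - 1) := by
      have hc : (b⁻¹ ^ 2) < 1 := by
        rw [inv_pow]
        exact inv_lt_one_of_one_lt₀ (by nlinarith)
      have := geom_lt (c := b⁻¹ ^ 2) (by positivity) hc n
      have e : ∑ k ∈ Finset.range n, (b⁻¹ ^ 2) ^ (k + 1) =
          (b⁻¹ ^ 2) * ∑ k ∈ Finset.range n, (b⁻¹ ^ 2) ^ k := by
        rw [Finset.mul_sum]
        apply Finset.sum_congr rfl
        intro k _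
        rw [pow_succ]; ring
      rw [e]
      calc (b⁻¹ ^ 2) * ∑ k ∈ Finset.range n, (b⁻¹ ^ 2) ^ k ≤ (b⁻¹ ^ 2) * (1 / (1 - b⁻¹ ^ 2)) := by
            gcongr
        _ = 1 / (b ^ 2 - 1) := by
            have h3 : 1 - b⁻¹ ^ 2 ≠ 0 := by linarith
            have h4 : b ^ 2 - 1 ≠ 0 := by linarith
            rw [mul_one_div, div_eq_div_iff h3 h4]
            field_simp
    have h2 : (0 : ℝ) ≤ b ^ (2 * ((s : ℤ) - n0)) := by positivity
    have h3 : (n : ℝ) * (4 * τ ^ 2 : ℝ) = 4 * τ ^ 2 * n := by ring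
    rw [h3]
    have h4 : b ^ (2 * ((s : ℤ) - n0)) * ∑ k ∈ Finset.range n, (b⁻¹ ^ 2) ^ (k + 1) ≤
        b ^ (2 * ((s : ℤ) - n0)) / (b ^ 2 - 1) := by
      rw [div_eq_mul_one_div]
      gcongr
    have h5 : 4 * Real.pi ^ 2 * (4 * τ ^ 2 * n +
        b ^ (2 * ((s : ℤ) - n0)) * ∑ k ∈ Finset.range n, (b⁻¹ ^ 2) ^ (k + 1)) ≤
        4 * Real.pi ^ 2 * (4 * τ ^ 2 * n + b ^ (2 * ((s : ℤ) - n0)) / (b ^ 2 - 1)) := by
      gcongr
    linarith
  · intro k _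
    rw [one_mul]
    obtain ⟨l, hl⟩ := hnear (n0 + (k + 1 : ℕ))
    have h1 : |T * b ^ (n0 + (k + 1 : ℕ)) - l| ≤ 2 * τ + b ^ ((s : ℤ) - (n0 + (k + 1 : ℕ))) := by
      have h2 : |σ * (T * b ^ (-(n0 + (k + 1 : ℕ))))| ≤ b ^ ((s : ℤ) - (n0 + (k + 1 : ℕ))) := by
        have hσ1 : |σ| = 1 := by rcases hσ with h | h <;> simp [h]
        rw [abs_mul, hσ1, one_mul, abs_of_nonneg (by positivity), sub_eq_add_neg, zpow_add₀ hb0,
          zpow_natCast]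
        gcongr
      have e : T * b ^ (n0 + (k + 1 : ℕ)) - l =
          (T * b ^ (n0 + (k + 1 : ℕ)) + σ * (T * b ^ (-(n0 + (k + 1 : ℕ)))) - l) -
            σ * (T * b ^ (-(n0 + (k + 1 : ℕ)))) := by ring
      rw [e]
      refine (abs_sub _ _).trans ?_
      linarith
    refine le_trans ?_ (phi_near h1)
    set y := b ^ ((s : ℤ) - (n0 + (k + 1 : ℕ))) with hy
    have e2 : b ^ (2 * ((s : ℤ) - n0)) * (b⁻¹ ^ 2) ^ (k + 1) = y ^ 2 := by
      rw [hy, ← zpow_natCast (b⁻¹ ^ 2), ← zpow_natCast b⁻¹ 2, ← zpow_mul, inv_zpow, ← zpow_neg,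
        ← zpow_add₀ hb0, ← zpow_natCast _ 2, ← zpow_mul]
      congr 1
      push_cast
      ring
    rw [e2]
    have h6 : (2 * τ + y) ^ 2 ≤ 2 * (4 * τ ^ 2 + y ^ 2) := by nlinarith [sq_nonneg (2 * τ - y)]
    have h7 : 2 * Real.pi ^ 2 * (2 * τ + y) ^ 2 ≤ 2 * Real.pi ^ 2 * (2 * (4 * τ ^ 2 + y ^ 2)) := by
      gcongr
    linarith

/-- (A1) -/
theorem G_plus_zero {b : ℝ} (hb : 1 < b) {G : ℝ → ℝ} (hG : FFacts b G) {T : ℝ} {s : ℕ}
    (hT0 : 0 ≤ T) (hT : T ≤ b ^ s) (M : ℕ) {μ : ℝ} (hμ0 : 0 < μ)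
    (hμ : ∀ i : ℤ, μ ≤ phi (T * b ^ i))
    (hδ : 2 * Real.pi * (b / (b - 1)) * b ^ ((s : ℤ) - M) / μ ≤ 1) :
    G (T * b ^ (M : ℤ)) * (1 - 2 * Real.pi * (b / (b - 1)) * b ^ ((s : ℤ) - M) / μ) ≤
      G (T * (b ^ (M : ℤ) - b ^ (-(M : ℤ)))) := by
  have hb0 : b ≠ 0 := by positivity
  have hpi := Real.pi_pos
  have hb1 : 0 < b - 1 := by linarith
  set T' := T * (b ^ (M : ℤ) - b ^ (-(M : ℤ))) with hT'
  set δ := 2 * Real.pi * (b / (b - 1)) * b ^ ((s : ℤ) - M) / μ with hδdef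
  have key : ∀ L : ℕ, (1 - 2 * Real.pi * (b / (b - 1)) * |T'| * (b⁻¹) ^ L) *
      (G (T * b ^ (M : ℤ)) * (1 - δ)) ≤ G T' := by
    intro L
    have e1 : G T' = G (T' * b ^ (-(L : ℤ))) *
        ∏ k ∈ Finset.range L, phi (T' * b ^ (-(L : ℤ) + (k + 1 : ℕ))) := by
      rw [← prod_formula hb0 hG, neg_add_cancel, zpow_zero, mul_one]
    have e2 : G (T * b ^ (M : ℤ)) = G (T * b ^ ((M : ℤ) - L)) *
        ∏ k ∈ Finset.range L, phi (T * b ^ ((M : ℤ) - L + (k + 1 : ℕ))) := by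
      rw [← prod_formula hb0 hG, sub_add_cancel]
    have h3 : G (T * b ^ (M : ℤ)) ≤
        ∏ k ∈ Finset.range L, phi (T * b ^ ((M : ℤ) - L + (k + 1 : ℕ))) := by
      rw [e2]
      exact mul_le_of_le_one_left (Finset.prod_nonneg fun k _ => phi_nonneg _) (hG.le_one _)
    have h4 := prod_lower (Finset.range L) (fun k => phi (T' * b ^ (-(L : ℤ) + (k + 1 : ℕ))))
      (fun k => phi (T * b ^ ((M : ℤ) - L + (k + 1 : ℕ))))
      (fun k => 2 * Real.pi * b ^ ((s : ℤ) - M) / μ * (b⁻¹) ^ (L - 1 - k))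
      (fun k _ => phi_nonneg _) (fun k _ => phi_nonneg _) (fun k _ => by positivity) (by
        intro k hk
        have hk' := Finset.mem_range.1 hk
        have h5 := phi_plus_left hb hT0 hT M (-(L : ℤ) + (k + 1 : ℕ))
        have e3 : -(L : ℤ) + (k + 1 : ℕ) + M = (M : ℤ) - L + (k + 1 : ℕ) := by ring
        rw [e3, ← hT'] at h5
        refine le_trans ?_ h5
        rw [mul_sub, mul_one]
        have h6 := hμ ((M : ℤ) - L + (k + 1 : ℕ))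
        have e4 : b ^ ((s : ℤ) + (-(L : ℤ) + (k + 1 : ℕ)) - M) =
            b ^ ((s : ℤ) - M) * (b⁻¹) ^ (L - 1 - k) := by
          rw [← zpow_natCast b⁻¹, inv_zpow, ← zpow_neg, ← zpow_add₀ hb0]
          congr 1
          have : ((L - 1 - k : ℕ) : ℤ) = (L : ℤ) - 1 - k := by omega
          rw [this]
          push_cast
          ring
        rw [e4]
        have h7 : 2 * Real.pi * (b ^ ((s : ℤ) - M) * (b⁻¹) ^ (L - 1 - k)) ≤
            phi (T * b ^ ((M : ℤ) - L + (k + 1 : ℕ))) *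
              (2 * Real.pi * b ^ ((s : ℤ) - M) / μ * (b⁻¹) ^ (L - 1 - k)) := by
          calc 2 * Real.pi * (b ^ ((s : ℤ) - M) * (b⁻¹) ^ (L - 1 - k)) =
              μ * (2 * Real.pi * b ^ ((s : ℤ) - M) / μ * (b⁻¹) ^ (L - 1 - k)) := by
                field_simp
            _ ≤ _ := by gcongr
        linarith)
    have h8 : ∑ k ∈ Finset.range L, 2 * Real.pi * b ^ ((s : ℤ) - M) / μ * (b⁻¹) ^ (L - 1 - k) ≤
        δ := by
      rw [← Finset.mul_sum, Finset.sum_range_reflect (fun k => (b⁻¹) ^ k)]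
      have h9 := geom_lt (c := b⁻¹) (by positivity) (inv_lt_one_of_one_lt₀ hb) L
      have e5 : 1 / (1 - b⁻¹) = b / (b - 1) := by
        have : 1 - b⁻¹ ≠ 0 := by
          have := inv_lt_one_of_one_lt₀ hb
          linarith
        have h2 : b - 1 ≠ 0 := hb1.ne'
        rw [div_eq_div_iff this h2]
        field_simp
      rw [e5] at h9
      calc 2 * Real.pi * b ^ ((s : ℤ) - M) / μ * ∑ k ∈ Finset.range L, (b⁻¹) ^ k ≤
          2 * Real.pi * b ^ ((s : ℤ) - M) / μ * (b / (b - 1)) := by gcongr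
        _ = δ := by rw [hδdef]; ring
    have h10 := hG.near_one (T' * b ^ (-(L : ℤ)))
    rw [abs_mul, abs_of_pos (by positivity : (0 : ℝ) < b ^ (-(L : ℤ)))] at h10
    have e6 : b ^ (-(L : ℤ)) = (b⁻¹) ^ L := by
      rw [← zpow_natCast b⁻¹, inv_zpow, ← zpow_neg]
    rw [e6, ← mul_assoc] at h10
    rw [e1, e6]
    have hP : 0 ≤ ∏ k ∈ Finset.range L, phi (T' * b ^ (-(L : ℤ) + (k + 1 : ℕ))) :=
      Finset.prod_nonneg fun k _ => phi_nonneg _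
    have h11 : G (T * b ^ (M : ℤ)) * (1 - δ) ≤
        ∏ k ∈ Finset.range L, phi (T' * b ^ (-(L : ℤ) + (k + 1 : ℕ))) := by
      refine le_trans ?_ h4
      have hG0 := hG.nonneg (T * b ^ (M : ℤ))
      calc G (T * b ^ (M : ℤ)) * (1 - δ) ≤
          (∏ k ∈ Finset.range L, phi (T * b ^ ((M : ℤ) - L + (k + 1 : ℕ)))) * (1 - δ) := by
            apply mul_le_mul_of_nonneg_right h3; linarith
        _ ≤ _ := by
            apply mul_le_mul_of_nonneg_left _ (hG0.trans h3)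
            linarith
    have h12 : 0 ≤ G (T * b ^ (M : ℤ)) * (1 - δ) :=
      mul_nonneg (hG.nonneg _) (by linarith)
    calc (1 - 2 * Real.pi * (b / (b - 1)) * |T'| * (b⁻¹) ^ L) * (G (T * b ^ (M : ℤ)) * (1 - δ)) ≤
        G (T' * (b⁻¹) ^ L) * (G (T * b ^ (M : ℤ)) * (1 - δ)) :=
          mul_le_mul_of_nonneg_right h10 h12
      _ ≤ _ := mul_le_mul_of_nonneg_left h11 (hG.nonneg _)
  have hlim : Tendsto (fun L : ℕ => (1 - 2 * Real.pi * (b / (b - 1)) * |T'| * (b⁻¹) ^ L) *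
      (G (T * b ^ (M : ℤ)) * (1 - δ))) atTop
      (𝓝 ((1 - 2 * Real.pi * (b / (b - 1)) * |T'| * 0) * (G (T * b ^ (M : ℤ)) * (1 - δ)))) := by
    apply Tendsto.mul_const
    apply Tendsto.const_sub
    apply Tendsto.const_mul
    exact tendsto_pow_atTop_nhds_zero_of_lt_one (by positivity) (inv_lt_one_of_one_lt₀ hb)
  rw [mul_zero, sub_zero, one_mul] at hlim
  exact le_of_tendsto' hlim key

/-- (A2) -/
theorem G_plus_prod {b : ℝ} (hb : 1 < b) {G : ℝ → ℝ} (hG : FFacts b G) {T : ℝ} {s : ℕ} {σ : ℝ}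
    (hT0 : 0 ≤ T) (hT : T ≤ b ^ s) (M : ℕ) {τ μ : ℝ} (hτ : 0 ≤ τ) (hμ0 : 0 < μ)
    (hσ : σ = 1 ∨ σ = -1)
    (hnear : ∀ i : ℤ, ∃ k : ℤ, |T * (b ^ (M : ℤ) - b ^ (-(M : ℤ))) * b ^ i +
      σ * (T * (b ^ (M : ℤ) - b ^ (-(M : ℤ))) * b ^ (-i)) - k| ≤ 2 * τ)
    (hμ : ∀ i : ℤ, μ ≤ phi (T * b ^ i)) (n : ℕ)
    (hδ : 2 * Real.pi * (2 * τ * n + b ^ ((s : ℤ) - M) / (b - 1)) / μ ≤ 1) :
    G (T * b ^ ((M : ℤ) - 1)) *
      (1 - 2 * Real.pi * (2 * τ * n + b ^ ((s : ℤ) - M) / (b - 1)) / μ) ≤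
      ∏ k ∈ Finset.range n,
        phi (T * (b ^ (M : ℤ) - b ^ (-(M : ℤ))) * b ^ ((k + 1 : ℕ) : ℤ)) := by
  have hb0 : b ≠ 0 := by positivity
  have hpi := Real.pi_pos
  have hb1 : 0 < b - 1 := by linarith
  set T' := T * (b ^ (M : ℤ) - b ^ (-(M : ℤ))) with hT'
  set δ := 2 * Real.pi * (2 * τ * n + b ^ ((s : ℤ) - M) / (b - 1)) / μ with hδdef
  have h1 : G (T * b ^ ((M : ℤ) - 1)) ≤
      ∏ k ∈ Finset.range n, phi (T * b ^ ((M : ℤ) - (k + 1 : ℕ))) := by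
    have e1 : G (T * b ^ ((M : ℤ) - 1)) = G (T * b ^ ((M : ℤ) - n - 1)) *
        ∏ k ∈ Finset.range n, phi (T * b ^ ((M : ℤ) - n - 1 + (k + 1 : ℕ))) := by
      rw [← prod_formula hb0 hG]
      congr 3
      ring
    have e2 : ∏ k ∈ Finset.range n, phi (T * b ^ ((M : ℤ) - n - 1 + (k + 1 : ℕ))) =
        ∏ k ∈ Finset.range n, phi (T * b ^ ((M : ℤ) - (k + 1 : ℕ))) := by
      rw [← Finset.prod_range_reflect]
      apply Finset.prod_congr rfl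
      intro k hk
      have hk' := Finset.mem_range.1 hk
      congr 3
      omega
    rw [e1, e2]
    exact mul_le_of_le_one_left (Finset.prod_nonneg fun k _ => phi_nonneg _) (hG.le_one _)
  have h4 := prod_lower (Finset.range n) (fun k => phi (T' * b ^ ((k + 1 : ℕ) : ℤ)))
      (fun k => phi (T * b ^ ((M : ℤ) - (k + 1 : ℕ))))
      (fun k => 2 * Real.pi * (2 * τ + b ^ ((s : ℤ) - M) * (b⁻¹) ^ (k + 1)) / μ)
      (fun k _ => phi_nonneg _) (fun k _ => phi_nonneg _) (fun k _ => by positivity) (by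
        intro k hk
        have h5 := phi_plus_right hb hT0 hT M hσ hnear (k + 1 : ℕ)
        rw [← hT'] at h5
        refine le_trans ?_ h5
        rw [mul_sub, mul_one]
        have h6 := hμ ((M : ℤ) - (k + 1 : ℕ))
        have e4 : b ^ ((s : ℤ) - (k + 1 : ℕ) - M) =
            b ^ ((s : ℤ) - M) * (b⁻¹) ^ (k + 1) := by
          rw [← zpow_natCast b⁻¹, inv_zpow, ← zpow_neg, ← zpow_add₀ hb0]
          congr 1
          ring
        rw [e4]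
        have h7 : 2 * Real.pi * (2 * τ + b ^ ((s : ℤ) - M) * (b⁻¹) ^ (k + 1)) ≤
            phi (T * b ^ ((M : ℤ) - (k + 1 : ℕ))) *
              (2 * Real.pi * (2 * τ + b ^ ((s : ℤ) - M) * (b⁻¹) ^ (k + 1)) / μ) := by
          calc 2 * Real.pi * (2 * τ + b ^ ((s : ℤ) - M) * (b⁻¹) ^ (k + 1)) =
              μ * (2 * Real.pi * (2 * τ + b ^ ((s : ℤ) - M) * (b⁻¹) ^ (k + 1)) / μ) := by
                field_simp
            _ ≤ _ := by gcongr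
        linarith)
  have h8 : ∑ k ∈ Finset.range n, 2 * Real.pi * (2 * τ + b ^ ((s : ℤ) - M) * (b⁻¹) ^ (k + 1)) / μ ≤
      δ := by
    rw [← Finset.sum_div, ← Finset.mul_sum, Finset.sum_add_distrib, Finset.sum_const,
      Finset.card_range, nsmul_eq_mul, ← Finset.mul_sum]
    have h9 := geom_lt (c := b⁻¹) (by positivity) (inv_lt_one_of_one_lt₀ hb) n
    have e5 : b⁻¹ * (1 / (1 - b⁻¹)) = 1 / (b - 1) := by
      have h1 : 1 - b⁻¹ ≠ 0 := by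
        have := inv_lt_one_of_one_lt₀ hb
        linarith
      have h2 : b - 1 ≠ 0 := hb1.ne'
      rw [mul_one_div, div_eq_div_iff h1 h2]
      field_simp
    have e6 : ∑ k ∈ Finset.range n, (b⁻¹) ^ (k + 1) =
        b⁻¹ * ∑ k ∈ Finset.range n, (b⁻¹) ^ k := by
      rw [Finset.mul_sum]
      apply Finset.sum_congr rfl
      intro k _
      rw [pow_succ]; ring
    have h10 : ∑ k ∈ Finset.range n, (b⁻¹) ^ (k + 1) ≤ 1 / (b - 1) := by
      rw [e6, ← e5]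
      gcongr
    rw [hδdef]
    have e7 : (n : ℝ) * (2 * τ) = 2 * τ * n := by ring
    rw [e7, div_eq_mul_one_div (b ^ ((s : ℤ) - M))]
    gcongr
  have hG0 := hG.nonneg (T * b ^ ((M : ℤ) - 1))
  calc G (T * b ^ ((M : ℤ) - 1)) * (1 - δ) ≤
      (∏ k ∈ Finset.range n, phi (T * b ^ ((M : ℤ) - (k + 1 : ℕ)))) * (1 - δ) := by
        apply mul_le_mul_of_nonneg_right h1; linarith
    _ ≤ _ := by
        refine le_trans ?_ h4
        apply mul_le_mul_of_nonneg_left _ (hG0.trans h1)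
        linarith

/-- (A) -/
theorem G_plus {b : ℝ} (hb : 1 < b) {G : ℝ → ℝ} (hG : FFacts b G) {T : ℝ} {s : ℕ} {σ : ℝ}
    (hT0 : 0 ≤ T) (hT : T ≤ b ^ s) (M : ℕ) {τ μ : ℝ} (hτ : 0 ≤ τ) (hμ0 : 0 < μ)
    (hσ : σ = 1 ∨ σ = -1)
    (hnear : ∀ i : ℤ, ∃ k : ℤ, |T * (b ^ (M : ℤ) - b ^ (-(M : ℤ))) * b ^ i +
      σ * (T * (b ^ (M : ℤ) - b ^ (-(M : ℤ))) * b ^ (-i)) - k| ≤ 2 * τ)
    (hμ : ∀ i : ℤ, μ ≤ phi (T * b ^ i)) (n : ℕ)
    (hδ1 : 2 * Real.pi * (b / (b - 1)) * b ^ ((s : ℤ) - M) / μ ≤ 1)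
    (hδ2 : 2 * Real.pi * (2 * τ * n + b ^ ((s : ℤ) - M) / (b - 1)) / μ ≤ 1) :
    (G (T * b ^ (M : ℤ)) * (1 - 2 * Real.pi * (b / (b - 1)) * b ^ ((s : ℤ) - M) / μ)) *
    (G (T * b ^ ((M : ℤ) - 1)) *
      (1 - 2 * Real.pi * (2 * τ * n + b ^ ((s : ℤ) - M) / (b - 1)) / μ)) ≤
      G (T * (b ^ (M : ℤ) - b ^ (-(M : ℤ))) * b ^ (n : ℤ)) := by
  have hb0 : b ≠ 0 := by positivity
  have h1 := G_plus_zero hb hG hT0 hT M hμ0 hμ hδ1
  have h2 := G_plus_prod hb hG hT0 hT M hτ hμ0 hσ hnear hμ n hδ2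
  have h3 := prod_formula hb0 hG (T * (b ^ (M : ℤ) - b ^ (-(M : ℤ)))) 0 n
  simp only [zero_add, zpow_zero, mul_one] at h3
  rw [h3]
  exact mul_le_mul h1 h2 (mul_nonneg (hG.nonneg _) (by linarith)) (hG.nonneg _)

end Crest.Agent.H9Salem
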