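import Mathlib
import Crest.Agent.H9SalemDefs
import Crest.Agent.H9SalemStep

/-! Choice of the exponents and the recursion. -/

set_option autoImplicit false

open Filter Topology

namespace Crest.Agent.H9Salem

theorem norm_pow_sub_one_le {u : ℂ} (hu : ‖u‖ = 1) (r : ℕ) : ‖u ^ r - 1‖ ≤ r * ‖u - 1‖ := by
  induction r with
  | zero => simp
  | succ r ih =>
    have e : u ^ (r + 1) - 1 = u ^ r * (u - 1) + (u ^ r - 1) := by ring
    rw [e]
    refine (norm_add_le _ _).trans ?_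
    rw [norm_mul, norm_pow, hu, one_pow, one_mul]
    push_cast
    linarith

/-- Dirichlet. -/
theorem dirichlet {z : ℂ} (hz : ‖z‖ = 1) {Q : ℕ} (hQ : 0 < Q) :
    ∃ k : ℕ, 0 < k ∧ k ≤ Q ∧ ‖z ^ (2 * k) - 1‖ ≤ 2 * Real.pi / Q := by
  obtain ⟨k, hk0, hkQ, hk⟩ := Real.exists_nat_abs_mul_sub_round_le (z.arg / Real.pi) hQ
  refine ⟨k, hk0, hkQ, ?_⟩
  have hpi := Real.pi_pos
  have h1 : z = Complex.exp (z.arg * Complex.I) := by
    have := Complex.norm_mul_exp_arg_mul_I z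
    rw [hz] at this
    simpa using this.symm
  set ρ := k * (z.arg / Real.pi) - round (k * (z.arg / Real.pi)) with hρ
  have h2 : z ^ (2 * k) = Complex.exp (Complex.I * ((2 * Real.pi * ρ : ℝ) : ℂ)) := by
    have h3 : z ^ (2 * k) = Complex.exp (((2 * k : ℕ) : ℂ) * (z.arg * Complex.I)) := by
      rw [Complex.exp_nat_mul, ← h1]
    rw [h3]
    have e : Complex.I * ((2 * Real.pi * ρ : ℝ) : ℂ) =
        ((2 * k : ℕ) : ℂ) * (z.arg * Complex.I) -
          ((round (k * (z.arg / Real.pi)) : ℤ) : ℂ) * (2 * Real.pi * Complex.I) := by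
      rw [hρ]
      have hpc : (Real.pi : ℂ) ≠ 0 := by exact_mod_cast hpi.ne'
      push_cast
      field_simp
    rw [e, Complex.exp_sub, Complex.exp_int_mul_two_pi_mul_I, div_one]
  rw [h2]
  refine Real.norm_exp_I_mul_ofReal_sub_one_le.trans ?_
  rw [Real.norm_eq_abs, abs_mul, abs_of_pos (by positivity : (0 : ℝ) < 2 * Real.pi)]
  have hQ' : (0 : ℝ) < Q := by exact_mod_cast hQ
  calc 2 * Real.pi * |ρ| ≤ 2 * Real.pi * (1 / (Q + 1)) := by gcongr
    _ ≤ 2 * Real.pi * (1 / Q) := by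
        gcongr
        linarith
    _ = 2 * Real.pi / Q := by ring

/-- Choice of `M ≥ L`. -/
theorem choice {z : ℂ} (hz : ‖z‖ = 1) {Q : ℕ} (hQ : 0 < Q) {L : ℕ} (hL : 1 ≤ L) :
    ∃ M : ℕ, L ≤ M ∧ ((M ≤ Q ∧ ‖z ^ (2 * M) - 1‖ ≤ 2 * Real.pi / Q) ∨
      (M ≤ 2 * L ∧ ‖z ^ (2 * M) - 1‖ ≤ 2 * Real.pi * L / Q)) := by
  obtain ⟨k, hk0, hkQ, hk⟩ := dirichlet hz hQ
  rcases le_or_gt L k with h | h
  · exact ⟨k, h, Or.inl ⟨hkQ, hk⟩⟩
  · have h1 := Nat.div_add_mod (L + k - 1) k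
    have h2 := Nat.mod_lt (L + k - 1) hk0
    set r := (L + k - 1) / k with hr
    have hrL : r ≤ L := by
      rw [hr]
      apply Nat.div_le_of_le_mul
      rcases k with _ | k
      · omega
      · have : L + (k + 1) - 1 = L + k := by omega
        rw [this]
        nlinarith
    refine ⟨k * r, by omega, Or.inr ⟨by omega, ?_⟩⟩
    have e : z ^ (2 * (k * r)) = (z ^ (2 * k)) ^ r := by
      rw [← pow_mul]; congr 1; ring
    rw [e]
    have hn : ‖z ^ (2 * k)‖ = 1 := by rw [norm_pow, hz, one_pow]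
    refine (norm_pow_sub_one_le hn r).trans ?_
    have hrL' : (r : ℝ) ≤ L := by exact_mod_cast hrL
    have hpi := Real.pi_pos
    calc (r : ℝ) * ‖z ^ (2 * k) - 1‖ ≤ L * (2 * Real.pi / Q) := by gcongr
      _ = 2 * Real.pi * L / Q := by ring

theorem exp_ten : (22000 : ℝ) ≤ Real.exp 10 := by
  have h := Real.exp_one_gt_d9
  have e : Real.exp 10 = (Real.exp 1) ^ 10 := by
    rw [← Real.exp_nat_mul]; norm_num
  rw [e]
  calc (22000 : ℝ) ≤ (2.718) ^ 10 := by norm_num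
    _ ≤ (Real.exp 1) ^ 10 := by
        gcongr
        linarith

theorem exp_twelve : (100000 : ℝ) ≤ Real.exp 12 := by
  have h := Real.exp_one_gt_d9
  have e : Real.exp 12 = (Real.exp 1) ^ 12 := by
    rw [← Real.exp_nat_mul]; norm_num
  rw [e]
  calc (100000 : ℝ) ≤ (2.718) ^ 12 := by norm_num
    _ ≤ (Real.exp 1) ^ 12 := by
        gcongr
        linarith

theorem choice2 {z : ℂ} (hz : ‖z‖ = 1) {κ θ : ℝ} {s h' : ℕ} {w : ℂ} (hw : ‖w‖ ≤ Real.exp (-κ))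
    (hs : (s : ℝ) ≤ Real.exp θ) (hh : (h' : ℝ) ≤ Real.exp θ) (hL : 1 ≤ 2 * s + h')
    (hθ : θ + 10 ≤ 2 * κ) (hθ0 : 0 ≤ θ) :
    ∃ (M : ℕ) (κ' : ℝ), 2 * s + h' ≤ M ∧ (M : ℝ) ≤ Real.exp (2 * κ) / 2600 ∧
      ‖w * (z ^ (M : ℤ) - z ^ (-(M : ℤ)))‖ ≤ Real.exp (-κ') ∧
      ((κ' = 3 * κ - 12 ∧ (s : ℝ) + M ≤ Real.exp (2 * κ)) ∨
       (κ' = 3 * κ - θ - 12 ∧ (s : ℝ) + M ≤ 7 * Real.exp θ)) := by
  have hpi := Real.pi_pos
  have hpi4 := Real.pi_lt_d2
  set E := Real.exp (2 * κ) with hE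
  have hE0 : 0 < E := Real.exp_pos _
  have hθE : 22000 * Real.exp θ ≤ E := by
    calc 22000 * Real.exp θ ≤ Real.exp 10 * Real.exp θ := by
          have := exp_ten
          gcongr
      _ = Real.exp (10 + θ) := by rw [Real.exp_add]
      _ ≤ E := Real.exp_le_exp.2 (by linarith)
  have hθ1 : 1 ≤ Real.exp θ := Real.one_le_exp hθ0
  have hEb : 22000 ≤ E := by linarith
  set Q := ⌊E / 2600⌋₊ with hQ
  have hQ1 : (Q : ℝ) ≤ E / 2600 := Nat.floor_le (by positivity)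
  have hQ2 : E / 2600 < Q + 1 := Nat.lt_floor_add_one _
  have hQ3 : E / 5200 ≤ Q := by linarith
  have hQ4 : (0 : ℝ) < Q := by linarith
  have hQ5 : 0 < Q := by exact_mod_cast hQ4
  obtain ⟨M, hLM, hM⟩ := choice hz hQ5 hL
  have hw0 := norm_nonneg w
  rcases hM with ⟨hMQ, hMn⟩ | ⟨hML, hMn⟩
  · refine ⟨M, 3 * κ - 12, hLM, ?_, ?_, Or.inl ⟨rfl, ?_⟩⟩
    · have : (M : ℝ) ≤ Q := by exact_mod_cast hMQ
      linarith
    · rw [norm_mul, norm_sub_inv hz]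
      have h1 : 2 * Real.pi / Q ≤ 100000 / E := by
        rw [div_le_div_iff₀ hQ4 hE0]
        nlinarith
      calc ‖w‖ * ‖z ^ (2 * M) - 1‖ ≤ Real.exp (-κ) * (100000 / E) :=
            mul_le_mul hw (hMn.trans h1) (norm_nonneg _) (Real.exp_pos _).le
        _ ≤ Real.exp (-κ) * (Real.exp 12 / E) := by
            have := exp_twelve
            gcongr
        _ = Real.exp (-(3 * κ - 12)) := by
            rw [hE, ← Real.exp_sub, ← Real.exp_add]
            congr 1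
            ring
    · have : (M : ℝ) ≤ Q := by exact_mod_cast hMQ
      linarith
  · have hML' : (M : ℝ) ≤ 2 * (2 * s + h') := by exact_mod_cast hML
    refine ⟨M, 3 * κ - θ - 12, hLM, ?_, ?_, Or.inr ⟨rfl, ?_⟩⟩
    · linarith
    · rw [norm_mul, norm_sub_inv hz]
      have h1 : 2 * Real.pi * ((2 * s + h' : ℕ) : ℝ) / Q ≤ 100000 * Real.exp θ / E := by
        rw [div_le_div_iff₀ hQ4 hE0]
        push_cast
        have h2 : (2 * (s : ℝ) + h') ≤ 3 * Real.exp θ := by linarith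
        have h3 : 2 * Real.pi * (2 * (s : ℝ) + h') * E ≤ 2 * 3.15 * (3 * Real.exp θ) * (5200 * Q) := by
          have h4 : E ≤ 5200 * Q := by linarith
          gcongr
        have h5 : 0 ≤ Real.exp θ * Q := by positivity
        nlinarith
      calc ‖w‖ * ‖z ^ (2 * M) - 1‖ ≤ Real.exp (-κ) * (100000 * Real.exp θ / E) :=
            mul_le_mul hw (hMn.trans h1) (norm_nonneg _) (Real.exp_pos _).le
        _ ≤ Real.exp (-κ) * (Real.exp 12 * Real.exp θ / E) := by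
            have := exp_twelve
            gcongr
        _ = Real.exp (-(3 * κ - θ - 12)) := by
            rw [hE, ← Real.exp_add, ← Real.exp_sub, ← Real.exp_add]
            congr 1
            ring
    · linarith

/-- The constants of the recursion. -/
structure Consts (b m : ℝ) (h h' : ℕ) : Prop where
  hm : 0 < m
  hh : 4 * Real.pi ^ 2 * (b ^ (-(2 * (h : ℤ))) / (b ^ 2 - 1)) ≤ 1 / 16
  hh' : h + 1 ≤ h'
  h1 : 2 * Real.pi * (b / (b - 1)) * b ^ (-(h' : ℤ)) / m ≤ 1 / 16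
  h2 : 2 ≤ b ^ h'

/-- The invariant of the recursion. -/
structure Inv (b : ℝ) (z : ℂ) (m : ℝ) (h h' : ℕ) (κ T : ℝ) (w : ℂ) (s : ℕ) (σ : ℝ) : Prop where
  pre : Pre b z T w s σ
  hw : ‖w‖ ≤ Real.exp (-κ)
  lower : ∀ i : ℤ, m + 2 * Real.pi * (b / (b - 1)) * b ^ (-(h' : ℤ)) * b ^ (-(s : ℤ)) +
    4 * Real.pi * Real.exp (-κ) ≤ phi (T * b ^ i)
  hs : (s : ℝ) ≤ Real.exp (3 / 4 * κ)
  hκ : 240 ≤ κ
  hκ1 : (h' : ℝ) ≤ Real.exp (3 / 4 * κ)
  hκ2 : 128 * Real.pi / m ≤ Real.exp (κ / 4)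
  hhs : h + 1 ≤ s

theorem main_step {b : ℝ} (hb : 1 < b) (hbi : IsIntegral ℤ b) (hbi' : IsIntegral ℤ b⁻¹)
    {z : ℂ} (hz : ‖z‖ = 1) {G : ℝ → ℝ} (hG : FFacts b G) {m : ℝ} {h h' : ℕ}
    (hc : Consts b m h h') {κ T : ℝ} {w : ℂ} {s : ℕ} {σ : ℝ} (hI : Inv b z m h h' κ T w s σ) :
    ∃ (κ' T' : ℝ) (w' : ℂ) (s' : ℕ) (σ' : ℝ), Inv b z m h h' κ' T' w' s' σ' ∧
      11 / 5 * κ ≤ κ' ∧ s + 1 ≤ s' ∧
      G (T * b ^ ((s : ℤ) + h)) ^ 2 / 2 ≤ G (T' * b ^ ((s' : ℤ) + h)) := by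
  have hpi := Real.pi_pos
  have hb0 : b ≠ 0 := by positivity
  have hb1 : 0 < b - 1 := by linarith
  have hb2 : 0 < b ^ 2 - 1 := by nlinarith
  have hm := hc.hm
  have hκ := hI.hκ
  have hhs := hI.hhs
  obtain ⟨M, κ', hLM, hME, hw', hcase⟩ := choice2 hz (θ := 3 / 4 * κ) hI.hw hI.hs hI.hκ1
    (by omega) (by linarith) (by linarith)
  have hκ' : 11 / 5 * κ ≤ κ' := by
    rcases hcase with ⟨h1, -⟩ | ⟨h1, -⟩ <;> linarith
  have hs' : ((s + M : ℕ) : ℝ) ≤ Real.exp (3 / 4 * κ') := by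
    push_cast
    rcases hcase with ⟨h1, h2⟩ | ⟨h1, h2⟩
    · refine h2.trans (Real.exp_le_exp.2 ?_)
      linarith
    · refine h2.trans ?_
      have h3 : (7 : ℝ) ≤ Real.exp 10 := by linarith [exp_ten]
      calc 7 * Real.exp (3 / 4 * κ) ≤ Real.exp 10 * Real.exp (3 / 4 * κ) := by gcongr
        _ = Real.exp (10 + 3 / 4 * κ) := by rw [Real.exp_add]
        _ ≤ _ := Real.exp_le_exp.2 (by linarith)
  have hMh : h' ≤ M := by omega
  have hbM : 1 ≤ b ^ (M : ℤ) - b ^ (-(M : ℤ)) := by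
    have h3 : b ^ h' ≤ b ^ M := pow_le_pow_right₀ hb.le hMh
    have h4 : b ^ (-(M : ℤ)) ≤ 1 := zpow_le_one_of_nonpos₀ hb.le (by omega)
    rw [zpow_natCast]
    have := hc.h2
    linarith
  have hpre := hI.pre.step hb hbi hbi' hz M hbM
  have hT0 : 0 ≤ T := by linarith [hI.pre.one_le]
  have hnear := fun i => hpre.near hz hw' i
  have hexp' : 0 < Real.exp (-κ') := Real.exp_pos _
  have hR1 : 1 / (b - 1) ≤ b / (b - 1) := by gcongr
  -- the loss
  have hμ : ∀ i : ℤ, m ≤ phi (T * b ^ i) := by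
    intro i
    have := hI.lower i
    have h3 : 0 ≤ 2 * Real.pi * (b / (b - 1)) * b ^ (-(h' : ℤ)) * b ^ (-(s : ℤ)) := by positivity
    have h4 : 0 ≤ 4 * Real.pi * Real.exp (-κ) := by positivity
    linarith
  have hsM : b ^ ((s : ℤ) - M) ≤ b ^ (-(h' : ℤ)) * b ^ (-(s : ℤ)) := by
    rw [← zpow_add₀ hb0]
    apply zpow_le_zpow_right₀ hb.le
    omega
  have hsM' : b ^ ((s : ℤ) - M) ≤ b ^ (-(h' : ℤ)) := by
    apply zpow_le_zpow_right₀ hb.le
    omega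
  have hδ1 : 2 * Real.pi * (b / (b - 1)) * b ^ ((s : ℤ) - M) / m ≤ 1 / 16 := by
    refine le_trans ?_ hc.h1
    gcongr
  have hexp4 : 2 * Real.exp (-κ') ≤ Real.exp (-κ) := by
    have h3 : (2 : ℝ) ≤ Real.exp 10 := by linarith [exp_ten]
    calc 2 * Real.exp (-κ') ≤ Real.exp 10 * Real.exp (-κ') := by gcongr
      _ = Real.exp (10 - κ') := by rw [← Real.exp_add]; congr 1
      _ ≤ _ := Real.exp_le_exp.2 (by linarith)
  have hδ2 : 2 * Real.pi * (2 * Real.exp (-κ') * ((s + M + h : ℕ) : ℝ) +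
      b ^ ((s : ℤ) - M) / (b - 1)) / m ≤ 1 / 8 := by
    have h3 : 2 * Real.pi * (b ^ ((s : ℤ) - M) / (b - 1)) / m ≤ 1 / 16 := by
      refine le_trans ?_ hδ1
      rw [div_eq_mul_one_div (b ^ ((s : ℤ) - M))]
      calc 2 * Real.pi * (b ^ ((s : ℤ) - M) * (1 / (b - 1))) / m ≤
          2 * Real.pi * (b ^ ((s : ℤ) - M) * (b / (b - 1))) / m := by gcongr
        _ = _ := by ring
    have h4 : ((s + M + h : ℕ) : ℝ) ≤ 2 * Real.exp (3 / 4 * κ') := by
      have h5 : (h : ℝ) ≤ Real.exp (3 / 4 * κ') := by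
        have h6 : (h : ℝ) ≤ h' := by
          have := hc.hh'
          have : h ≤ h' := by omega
          exact_mod_cast this
        refine h6.trans (hI.hκ1.trans (Real.exp_le_exp.2 ?_))
        linarith
      push_cast
      push_cast at hs'
      linarith
    have h7 : 2 * Real.pi * (2 * Real.exp (-κ') * ((s + M + h : ℕ) : ℝ)) / m ≤ 1 / 16 := by
      have h8 : Real.exp (-κ') * Real.exp (3 / 4 * κ') = Real.exp (-(κ' / 4)) := by
        rw [← Real.exp_add]; congr 1; ring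
      have h9 : Real.exp (-(κ' / 4)) ≤ Real.exp (-(κ / 4)) := Real.exp_le_exp.2 (by linarith)
      have h10 : Real.exp (-(κ / 4)) ≤ m / (128 * Real.pi) := by
        rw [Real.exp_neg, inv_le_comm₀ (Real.exp_pos _) (by positivity), inv_div]
        exact hI.hκ2
      calc 2 * Real.pi * (2 * Real.exp (-κ') * ((s + M + h : ℕ) : ℝ)) / m ≤
          2 * Real.pi * (2 * Real.exp (-κ') * (2 * Real.exp (3 / 4 * κ'))) / m := by gcongr
        _ = 8 * Real.pi * (Real.exp (-κ') * Real.exp (3 / 4 * κ')) / m := by ring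
        _ = 8 * Real.pi * Real.exp (-(κ' / 4)) / m := by rw [h8]
        _ ≤ 8 * Real.pi * (m / (128 * Real.pi)) / m := by
            gcongr
            exact h9.trans h10
        _ = 1 / 16 := by field_simp; norm_num
    have e : 2 * Real.pi * (2 * Real.exp (-κ') * ((s + M + h : ℕ) : ℝ) +
      b ^ ((s : ℤ) - M) / (b - 1)) / m =
      2 * Real.pi * (2 * Real.exp (-κ') * ((s + M + h : ℕ) : ℝ)) / m +
        2 * Real.pi * (b ^ ((s : ℤ) - M) / (b - 1)) / m := by ring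
    rw [e]
    linarith
  -- the growth factors
  have hx : ∀ n : ℕ, n ≤ M → 4 * Real.pi ^ 2 * (4 * Real.exp (-κ) ^ 2 * n +
      b ^ (2 * ((s : ℤ) - ((s : ℤ) + h))) / (b ^ 2 - 1)) ≤ 1 / 8 := by
    intro n hn
    have e : 2 * ((s : ℤ) - ((s : ℤ) + h)) = -(2 * (h : ℤ)) := by ring
    rw [e, mul_add]
    have h3 := hc.hh
    have h4 : 4 * Real.pi ^ 2 * (4 * Real.exp (-κ) ^ 2 * n) ≤ 1 / 16 := by
      have h5 : (n : ℝ) ≤ Real.exp (2 * κ) / 2600 := by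
        have : (n : ℝ) ≤ M := by exact_mod_cast hn
        linarith
      have h6 : Real.exp (-κ) ^ 2 * Real.exp (2 * κ) = 1 := by
        rw [← Real.exp_nat_mul, ← Real.exp_add]
        have : ((2 : ℕ) : ℝ) * -κ + 2 * κ = 0 := by push_cast; ring
        rw [this, Real.exp_zero]
      have h7 := Real.pi_lt_d2
      calc 4 * Real.pi ^ 2 * (4 * Real.exp (-κ) ^ 2 * n) ≤
          4 * Real.pi ^ 2 * (4 * Real.exp (-κ) ^ 2 * (Real.exp (2 * κ) / 2600)) := by gcongr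
        _ = 16 * Real.pi ^ 2 / 2600 * (Real.exp (-κ) ^ 2 * Real.exp (2 * κ)) := by ring
        _ = 16 * Real.pi ^ 2 / 2600 := by rw [h6, mul_one]
        _ ≤ 1 / 16 := by
          have : Real.pi ^ 2 ≤ 3.15 ^ 2 := by gcongr
          norm_num at this ⊢
          linarith
    linarith
  set A := G (T * b ^ ((s : ℤ) + h)) with hA
  have hA0 : 0 ≤ A := hG.nonneg _
  have hg1 : A * (7 / 8) ≤ G (T * b ^ (M : ℤ)) := by
    have h3 := G_growth hb hG hT0 hI.pre.le_pow (Real.exp_pos (-κ)).le hI.pre.sign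
      (hI.pre.near hz hI.hw) ((s : ℤ) + h) (M - s - h)
    have h4 := hx (M - s - h) (by omega)
    have hh := hc.hh'
    have e : (s : ℤ) + h + ((M - s - h : ℕ) : ℤ) = M := by omega
    rw [e] at h3
    refine le_trans ?_ h3
    apply mul_le_mul_of_nonneg_left _ hA0
    linarith
  have hg2 : A * (7 / 8) ≤ G (T * b ^ ((M : ℤ) - 1)) := by
    have h3 := G_growth hb hG hT0 hI.pre.le_pow (Real.exp_pos (-κ)).le hI.pre.sign
      (hI.pre.near hz hI.hw) ((s : ℤ) + h) (M - 1 - s - h)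
    have h4 := hx (M - 1 - s - h) (by omega)
    have hh := hc.hh'
    have e : (s : ℤ) + h + ((M - 1 - s - h : ℕ) : ℤ) = M - 1 := by omega
    rw [e] at h3
    refine le_trans ?_ h3
    apply mul_le_mul_of_nonneg_left _ hA0
    linarith
  have hfin := G_plus hb hG hT0 hI.pre.le_pow M hexp'.le hm hpre.sign hnear hμ (s + M + h)
    (by linarith) (by linarith)
  refine ⟨κ', _, _, _, _, ⟨hpre, hw', ?_, hs', by linarith, ?_, ?_, by omega⟩, hκ', by omega, ?_⟩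
  · intro i
    have h3 := lower_step hb hT0 hI.pre.le_pow M hexp'.le hpre.sign hnear hI.lower i
    refine le_trans ?_ h3
    have h4 : b ^ (-((s + M : ℕ) : ℤ)) ≤ b ^ (-(s : ℤ)) * b⁻¹ := by
      rw [← zpow_sub_one₀ hb0]
      apply zpow_le_zpow_right₀ hb.le
      push_cast
      omega
    have h5 : 2 * Real.pi * (b / (b - 1)) * b ^ (-(h' : ℤ)) * b ^ (-((s + M : ℕ) : ℤ)) ≤
        2 * Real.pi * (b / (b - 1)) * b ^ (-(h' : ℤ)) * (b ^ (-(s : ℤ)) * b⁻¹) := by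
      gcongr
    have h6 : 2 * Real.pi * b ^ ((s : ℤ) - M) ≤ 2 * Real.pi * (b ^ (-(h' : ℤ)) * b ^ (-(s : ℤ))) := by
      gcongr
    have h7 : 2 * Real.pi * (b / (b - 1)) * b ^ (-(h' : ℤ)) * b ^ (-(s : ℤ)) -
        2 * Real.pi * (b / (b - 1)) * b ^ (-(h' : ℤ)) * (b ^ (-(s : ℤ)) * b⁻¹) =
        2 * Real.pi * (b ^ (-(h' : ℤ)) * b ^ (-(s : ℤ))) := by
      field_simp
    have h8 : 4 * Real.pi * (2 * Real.exp (-κ')) ≤ 4 * Real.pi * Real.exp (-κ) := by gcongr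
    linarith
  · refine hI.hκ1.trans (Real.exp_le_exp.2 ?_)
    linarith
  · refine hI.hκ2.trans (Real.exp_le_exp.2 ?_)
    linarith
  · have e : (((s + M : ℕ) : ℤ) + (h : ℤ)) = ((s + M + h : ℕ) : ℤ) := by push_cast; ring
    rw [e]
    refine le_trans ?_ hfin
    set δ1 := 2 * Real.pi * (b / (b - 1)) * b ^ ((s : ℤ) - M) / m
    set δ2 := 2 * Real.pi * (2 * Real.exp (-κ') * ((s + M + h : ℕ) : ℝ) +
      b ^ ((s : ℤ) - M) / (b - 1)) / m
    calc A ^ 2 / 2 ≤ (A * (7 / 8) * (7 / 8)) * (A * (7 / 8) * (7 / 8)) := by nlinarith [sq_nonneg A]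
      _ ≤ (G (T * b ^ (M : ℤ)) * (1 - δ1)) * (G (T * b ^ ((M : ℤ) - 1)) * (1 - δ2)) := by
        have h3 : (7 / 8 : ℝ) ≤ 1 - δ1 := by linarith
        have h4 : (7 / 8 : ℝ) ≤ 1 - δ2 := by linarith
        have h5 : 0 ≤ A * (7 / 8) * (7 / 8) := by positivity
        have h6 : A * (7 / 8) * (7 / 8) ≤ G (T * b ^ (M : ℤ)) * (1 - δ1) :=
          mul_le_mul hg1 h3 (by norm_num) (by linarith [hG.nonneg (T * b ^ (M : ℤ)), hA0])
        have h7 : A * (7 / 8) * (7 / 8) ≤ G (T * b ^ ((M : ℤ) - 1)) * (1 - δ2) :=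
          mul_le_mul hg2 h4 (by norm_num) (by linarith [hG.nonneg (T * b ^ ((M : ℤ) - 1)), hA0])
        exact mul_le_mul h6 h7 h5 (h5.trans h6)

end Crest.Agent.H9Salem
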