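import Mathlib
import Crest.Agent.H9SalemDefs
import Crest.Agent.H9SalemStep
import Crest.Agent.H9SalemRec

/-! The initial state and the sequence. -/

set_option autoImplicit false

open Filter Topology

namespace Crest.Agent.H9Salem

theorem exists_neg_zpow_le {b : ℝ} (hb : 1 < b) {ε : ℝ} (hε : 0 < ε) :
    ∃ n0 : ℕ, ∀ n : ℕ, n0 ≤ n → b ^ (-(n : ℤ)) ≤ ε := by
  have h1 := tendsto_pow_atTop_nhds_zero_of_lt_one (inv_nonneg.2 (by linarith : (0 : ℝ) ≤ b))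
    (inv_lt_one_of_one_lt₀ hb)
  obtain ⟨n0, hn0⟩ := Filter.eventually_atTop.1 (h1.eventually (ge_mem_nhds hε))
  refine ⟨n0, fun n hn => ?_⟩
  have := hn0 n hn
  rwa [← zpow_natCast b⁻¹, inv_zpow, ← zpow_neg] at this

theorem exists_consts {b : ℝ} (hb : 1 < b) {m : ℝ} (hm : 0 < m) :
    ∃ h h' : ℕ, Consts b m h h' := by
  have hpi := Real.pi_pos
  have hb1 : 0 < b - 1 := by linarith
  have hb2 : 0 < b ^ 2 - 1 := by nlinarith
  obtain ⟨h, hh⟩ := exists_neg_zpow_le hb (ε := (b ^ 2 - 1) / (64 * Real.pi ^ 2)) (by positivity)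
  obtain ⟨n1, hn1⟩ := exists_neg_zpow_le hb
    (ε := m / (32 * Real.pi * (b / (b - 1)))) (by positivity)
  obtain ⟨n2, hn2⟩ := exists_neg_zpow_le hb (ε := 1 / 2) (by norm_num)
  refine ⟨h, h + 1 + n1 + n2, hm, ?_, by omega, ?_, ?_⟩
  · have h1 := hh (2 * h) (by omega)
    push_cast at h1
    calc 4 * Real.pi ^ 2 * (b ^ (-(2 * (h : ℤ))) / (b ^ 2 - 1)) ≤
        4 * Real.pi ^ 2 * ((b ^ 2 - 1) / (64 * Real.pi ^ 2) / (b ^ 2 - 1)) := by gcongr
      _ = 1 / 16 := by field_simp; norm_num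
  · have h1 := hn1 (h + 1 + n1 + n2) (by omega)
    calc 2 * Real.pi * (b / (b - 1)) * b ^ (-((h + 1 + n1 + n2 : ℕ) : ℤ)) / m ≤
        2 * Real.pi * (b / (b - 1)) * (m / (32 * Real.pi * (b / (b - 1)))) / m := by gcongr
      _ = 1 / 16 := by field_simp; norm_num
  · have h1 := hn2 (h + 1 + n1 + n2) (by omega)
    rw [zpow_neg, zpow_natCast, one_div] at h1
    exact (inv_le_inv₀ (by positivity) (by norm_num)).1 h1

theorem lower_exists {b : ℝ} (hb : 1 < b) (hbi : IsIntegral ℤ b) (hbi' : IsIntegral ℤ b⁻¹)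
    {z : ℂ} (hz : ‖z‖ = 1) {T : ℝ} {w : ℂ} {s : ℕ} {σ : ℝ} (h : Pre b z T w s σ)
    (hw : ‖w‖ ≤ 1 / 100) : ∃ m : ℝ, 0 < m ∧ ∀ i : ℤ, m ≤ phi (T * b ^ i) := by
  have hpi := Real.pi_pos
  have hpi4 := Real.pi_lt_d2
  have hb0 : b ≠ 0 := by positivity
  have hT0 : 0 ≤ T := by linarith [h.one_le]
  obtain ⟨n0, hn0⟩ := exists_neg_zpow_le hb (ε := 1 / 50 / b ^ s) (by positivity)
  have hn0' : ∀ i : ℤ, (n0 : ℤ) ≤ i → T * b ^ (-i) ≤ 1 / 50 := by
    intro i hi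
    obtain ⟨n, rfl⟩ := Int.eq_ofNat_of_zero_le (by omega : 0 ≤ i)
    have h1 := hn0 n (by exact_mod_cast hi)
    calc T * b ^ (-(n : ℤ)) ≤ b ^ s * (1 / 50 / b ^ s) := by
          have := h.le_pow
          gcongr
      _ = 1 / 50 := by field_simp
  have hhalf : ∀ {x : ℝ} {k : ℤ}, |x - k| ≤ 1 / 25 → 1 / 2 ≤ phi x := by
    intro x k hx
    have h1 := phi_near hx
    have : Real.pi ^ 2 ≤ 3.15 ^ 2 := by gcongr
    norm_num at this h1 ⊢
    linarith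
  have hbig : ∀ i : ℤ, (n0 : ℤ) ≤ i → 1 / 2 ≤ phi (T * b ^ i) := by
    intro i hi
    obtain ⟨k, hk⟩ := h.near hz hw i
    apply hhalf (k := k)
    have h1 := hn0' i hi
    have h2 : |σ * (T * b ^ (-i))| ≤ 1 / 50 := by
      have hσ1 : |σ| = 1 := by rcases h.sign with h | h <;> simp [h]
      rw [abs_mul, hσ1, one_mul, abs_of_nonneg (by positivity)]
      exact h1
    have e : T * b ^ i - k = (T * b ^ i + σ * (T * b ^ (-i)) - k) - σ * (T * b ^ (-i)) := by ring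
    rw [e]
    refine (abs_sub _ _).trans ?_
    linarith
  have hsmall : ∀ i : ℤ, i ≤ -(n0 : ℤ) → 1 / 2 ≤ phi (T * b ^ i) := by
    intro i hi
    apply hhalf (k := 0)
    have h1 := hn0' (-i) (by omega)
    rw [neg_neg] at h1
    rw [Int.cast_zero, sub_zero, abs_of_nonneg (by positivity)]
    linarith
  obtain ⟨i0, -, hi0⟩ := Finset.exists_min_image (Finset.Icc (-(n0 : ℤ)) n0)
    (fun i => phi (T * b ^ i)) ⟨0, by simp⟩
  refine ⟨min (1 / 2) (phi (T * b ^ i0)), lt_min (by norm_num) (h.phi_pos hbi hbi' i0), ?_⟩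
  intro i
  rcases le_or_gt (n0 : ℤ) i with h1 | h1
  · exact (min_le_left _ _).trans (hbig i h1)
  · rcases le_or_gt i (-(n0 : ℤ)) with h2 | h2
    · exact (min_le_left _ _).trans (hsmall i h2)
    · exact (min_le_right _ _).trans (hi0 i (Finset.mem_Icc.2 ⟨h2.le, h1.le⟩))

theorem bM_ge {b : ℝ} (hb : 1 < b) {L M : ℕ} (hL : 2 ≤ b ^ L) (hM : L ≤ M) :
    1 ≤ b ^ (M : ℤ) - b ^ (-(M : ℤ)) := by
  have h3 : b ^ L ≤ b ^ M := pow_le_pow_right₀ hb.le hM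
  have h4 : b ^ (-(M : ℤ)) ≤ 1 := zpow_le_one_of_nonpos₀ hb.le (by omega)
  rw [zpow_natCast]
  linarith

theorem exists_first {b : ℝ} (hb : 1 < b) (hbi : IsIntegral ℤ b) (hbi' : IsIntegral ℤ b⁻¹)
    {z : ℂ} (hz : ‖z‖ = 1) (htr : ∀ i : ℤ, ∃ k : ℤ, b ^ i + b ^ (-i) + 2 * (z ^ i).re = k) :
    ∃ (T : ℝ) (w : ℂ) (s : ℕ) (σ m : ℝ), Pre b z T w s σ ∧ ‖w‖ ≤ 1 / 100 ∧ 0 < m ∧
      ∀ i : ℤ, m ≤ phi (T * b ^ i) := by
  have hpi := Real.pi_pos
  have hpi4 := Real.pi_lt_d2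
  obtain ⟨n2, hn2⟩ := exists_neg_zpow_le hb (ε := 1 / 2) (by norm_num)
  have hL : 2 ≤ b ^ (n2 + 1) := by
    have h1 := hn2 (n2 + 1) (by omega)
    rw [zpow_neg, zpow_natCast, one_div] at h1
    exact (inv_le_inv₀ (by positivity) (by norm_num)).1 h1
  obtain ⟨M, hLM, hM⟩ := choice hz (Q := 700 * (n2 + 1)) (by omega) (L := n2 + 1) (by omega)
  have hn : (0 : ℝ) < n2 + 1 := by positivity
  have hM' : ‖z ^ (2 * M) - 1‖ ≤ 1 / 100 := by
    rcases hM with ⟨-, h⟩ | ⟨-, h⟩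
    · refine h.trans ?_
      push_cast
      rw [div_le_div_iff₀ (by positivity) (by norm_num)]
      have : (0 : ℝ) ≤ n2 := Nat.cast_nonneg _
      nlinarith
    · refine h.trans ?_
      push_cast
      rw [div_le_div_iff₀ (by positivity) (by norm_num)]
      nlinarith
  have hpre := (Pre.zero htr).step hb hbi hbi' hz M (bM_ge hb hL hLM)
  have hw : ‖(1 : ℂ) * (z ^ (M : ℤ) - z ^ (-(M : ℤ)))‖ ≤ 1 / 100 := by
    rw [one_mul, norm_sub_inv hz]; exact hM'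
  obtain ⟨m, hm, hlow⟩ := lower_exists hb hbi hbi' hz hpre hw
  exact ⟨_, _, _, _, m, hpre, hw, hm, hlow⟩

set_option maxHeartbeats 2000000 in
theorem exists_start {b : ℝ} (hb : 1 < b) (hbi : IsIntegral ℤ b) (hbi' : IsIntegral ℤ b⁻¹)
    {z : ℂ} (hz : ‖z‖ = 1) (htr : ∀ i : ℤ, ∃ k : ℤ, b ^ i + b ^ (-i) + 2 * (z ^ i).re = k) :
    ∃ (m : ℝ) (h h' : ℕ) (κ T : ℝ) (w : ℂ) (s : ℕ) (σ : ℝ), Consts b m h h' ∧
      Inv b z m h h' κ T w s σ := by
  have hpi := Real.pi_pos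
  have hpi4 := Real.pi_lt_d2
  have hb0 : b ≠ 0 := by positivity
  have hb1 : 0 < b - 1 := by linarith
  obtain ⟨T1, w1, s1, σ1, m1, hpre1, hw1, hm1, hlow1⟩ := exists_first hb hbi hbi' hz htr
  have hm : 0 < m1 / 4 := by positivity
  set m := m1 / 4 with hmdef
  obtain ⟨h, h', hc⟩ := exists_consts hb hm
  have hhh := hc.hh'
  set L : ℕ := 2 * s1 + h' with hLdef
  have hL1 : 1 ≤ L := by omega
  have hL1' : (1 : ℝ) ≤ L := by exact_mod_cast hL1
  set c := Real.log (3 * L) with hcdef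
  have hc0 : 0 ≤ c := Real.log_nonneg (by linarith)
  have hcexp : Real.exp c = 3 * L := Real.exp_log (by linarith)
  have hh'0 : (0 : ℝ) ≤ h' := Nat.cast_nonneg _
  have hπm : 0 < 128 * Real.pi / m := by positivity
  set κ2 := 240 + 4 * c + 2 * h' + 4 * (128 * Real.pi / m) with hκ2
  have hκ240 : 240 ≤ κ2 := by linarith
  have hE10 : 22000 ≤ Real.exp κ2 := exp_ten.trans (Real.exp_le_exp.2 (by linarith))
  set Q := ⌈(L : ℝ) * Real.exp κ2⌉₊ with hQ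
  have hQ1 : (L : ℝ) * Real.exp κ2 ≤ Q := Nat.le_ceil _
  have hQ2 : (Q : ℝ) < L * Real.exp κ2 + 1 := Nat.ceil_lt_add_one (by positivity)
  have hLE : 1 ≤ (L : ℝ) * Real.exp κ2 := by nlinarith
  have hQ0 : (0 : ℝ) < Q := by linarith
  obtain ⟨M, hLM, hM⟩ := choice hz (Q := Q) (by exact_mod_cast hQ0) hL1
  have hMn : ‖z ^ (2 * M) - 1‖ ≤ 2 * Real.pi * L / Q := by
    rcases hM with ⟨-, h⟩ | ⟨-, h⟩
    · refine h.trans ?_
      have h3 : 2 * Real.pi ≤ 2 * Real.pi * L := by nlinarith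
      exact div_le_div_of_nonneg_right h3 hQ0.le
    · exact h
  have hMn2 : ‖z ^ (2 * M) - 1‖ ≤ 7 * Real.exp (-κ2) := by
    refine hMn.trans ?_
    rw [div_le_iff₀ hQ0, Real.exp_neg]
    have h3 : (Real.exp κ2)⁻¹ * (L * Real.exp κ2) = L := by
      have := (Real.exp_pos κ2).ne'
      field_simp
    calc 2 * Real.pi * L ≤ 7 * L := by nlinarith
      _ = 7 * (Real.exp κ2)⁻¹ * (L * Real.exp κ2) := by rw [mul_assoc, h3]
      _ ≤ 7 * (Real.exp κ2)⁻¹ * Q := by gcongr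
  have hMs : (s1 : ℝ) + M ≤ 3 * L * Real.exp κ2 := by
    have h3 : (s1 : ℝ) ≤ L := by
      have : s1 ≤ L := by omega
      exact_mod_cast this
    have h4 : (L : ℝ) * 22000 ≤ L * Real.exp κ2 := by gcongr
    rcases hM with ⟨h, -⟩ | ⟨h, -⟩
    · have h5 : (M : ℝ) ≤ Q := by exact_mod_cast h
      linarith
    · have h5 : (M : ℝ) ≤ 2 * L := by exact_mod_cast h
      linarith
  have hMh : h' ≤ M := by omega
  have hbM := bM_ge hb hc.h2 hMh
  have hpre2 := hpre1.step hb hbi hbi' hz M hbM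
  have hw2 : ‖w1 * (z ^ (M : ℤ) - z ^ (-(M : ℤ)))‖ ≤ Real.exp (-κ2) := by
    rw [norm_mul, norm_sub_inv hz]
    calc ‖w1‖ * ‖z ^ (2 * M) - 1‖ ≤ (1 / 100) * (7 * Real.exp (-κ2)) :=
          mul_le_mul hw1 hMn2 (norm_nonneg _) (by norm_num)
      _ ≤ Real.exp (-κ2) := by
          have := Real.exp_pos (-κ2)
          linarith
  have hT10 : 0 ≤ T1 := by linarith [hpre1.one_le]
  have hlow2 := lower_step hb hT10 hpre1.le_pow M (Real.exp_pos (-κ2)).le hpre2.sign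
    (fun i => hpre2.near hz hw2 i) hlow1
  generalize T1 * (b ^ (M : ℤ) - b ^ (-(M : ℤ))) = T2 at *
  generalize w1 * (z ^ (M : ℤ) - z ^ (-(M : ℤ))) = w2 at *
  generalize -σ1 = σ2 at *
  -- third step
  have hκ34 : κ2 ≤ Real.exp (3 / 4 * κ2) := by
    have h3 := Real.add_one_le_exp (3 / 8 * κ2)
    have h4 : Real.exp (3 / 4 * κ2) = Real.exp (3 / 8 * κ2) ^ 2 := by
      rw [← Real.exp_nat_mul]; congr 1; push_cast; ring
    rw [h4]
    nlinarith
  have hκ44 : κ2 / 4 ≤ Real.exp (κ2 / 4) := by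
    have h3 := Real.add_one_le_exp (κ2 / 4)
    linarith
  have hs2 : ((s1 + M : ℕ) : ℝ) ≤ Real.exp (κ2 + c) := by
    rw [Real.exp_add, hcexp]
    push_cast
    linarith
  have hh2 : (h' : ℝ) ≤ Real.exp (κ2 + c) := by
    have h3 : Real.exp (3 / 4 * κ2) ≤ Real.exp (κ2 + c) := Real.exp_le_exp.2 (by linarith)
    linarith
  obtain ⟨M', κ', hLM', hME', hw3, hcase⟩ := choice2 hz (θ := κ2 + c) hw2 hs2 hh2
    (by omega) (by linarith) (by linarith)
  have hκ' : κ2 ≤ κ' := by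
    rcases hcase with ⟨h1, -⟩ | ⟨h1, -⟩ <;> linarith
  have hs' : ((s1 + M + M' : ℕ) : ℝ) ≤ Real.exp (3 / 4 * κ') := by
    push_cast
    push_cast at hcase
    rcases hcase with ⟨h1, h2⟩ | ⟨h1, h2⟩
    · refine h2.trans (Real.exp_le_exp.2 ?_)
      linarith
    · refine h2.trans ?_
      have h3 : (7 : ℝ) ≤ Real.exp 10 := by linarith [exp_ten]
      calc 7 * Real.exp (κ2 + c) ≤ Real.exp 10 * Real.exp (κ2 + c) := by gcongr
        _ = Real.exp (10 + (κ2 + c)) := by rw [← Real.exp_add]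
        _ ≤ _ := Real.exp_le_exp.2 (by linarith)
  have hMh' : h' ≤ M' := by omega
  have hbM' := bM_ge hb hc.h2 hMh'
  have hpre3 := hpre2.step hb hbi hbi' hz M' hbM'
  have hT20 : 0 ≤ T2 := by linarith [hpre2.one_le]
  have hlow3 := lower_step hb hT20 hpre2.le_pow M' (Real.exp_pos (-κ')).le hpre3.sign
    (fun i => hpre3.near hz hw3 i) hlow2
  refine ⟨m, h, h', κ', _, _, _, _, hc, hpre3, hw3, ?_, hs', by linarith, ?_, ?_, by omega⟩
  · intro i
    refine le_trans ?_ (hlow3 i)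
    have h3 : b ^ ((s1 : ℤ) - M) ≤ b ^ (-(h' : ℤ)) := by
      apply zpow_le_zpow_right₀ hb.le
      omega
    have h4 : b ^ (((s1 + M : ℕ) : ℤ) - M') ≤ b ^ (-(h' : ℤ)) := by
      apply zpow_le_zpow_right₀ hb.le
      omega
    have h5 : 2 * Real.pi * (b / (b - 1)) * b ^ (-(h' : ℤ)) ≤ m / 16 := by
      have := hc.h1
      rw [div_le_iff₀ hm] at this
      linarith
    have h6 : 2 * Real.pi * b ^ (-(h' : ℤ)) ≤ m / 16 := by
      refine le_trans ?_ h5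
      have h7 : 1 ≤ b / (b - 1) := by
        rw [le_div_iff₀ hb1]; linarith
      have h8 : 0 ≤ 2 * Real.pi * b ^ (-(h' : ℤ)) := by positivity
      nlinarith
    have h9 : 2 * Real.pi * b ^ ((s1 : ℤ) - M) ≤ 2 * Real.pi * b ^ (-(h' : ℤ)) := by gcongr
    have h10 : 2 * Real.pi * b ^ (((s1 + M : ℕ) : ℤ) - M') ≤ 2 * Real.pi * b ^ (-(h' : ℤ)) := by
      gcongr
    have h11 : 4 * Real.pi * Real.exp (-κ2) ≤ m / 16 := by
      have h12 : 128 * Real.pi / m ≤ Real.exp κ2 := by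
        have : Real.exp (κ2 / 4) ≤ Real.exp κ2 := Real.exp_le_exp.2 (by linarith)
        linarith
      rw [Real.exp_neg]
      have h13 := (Real.exp_pos κ2)
      rw [div_le_iff₀ hm] at h12
      rw [← div_eq_mul_inv, div_le_iff₀ h13]
      linarith
    have h14 : 4 * Real.pi * Real.exp (-κ') ≤ 4 * Real.pi * Real.exp (-κ2) := by
      gcongr
    have h15 : 2 * Real.pi * (b / (b - 1)) * b ^ (-(h' : ℤ)) * b ^ (-((s1 + M + M' : ℕ) : ℤ)) ≤
        m / 16 := by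
      refine le_trans ?_ h5
      apply mul_le_of_le_one_right (by positivity)
      exact zpow_le_one_of_nonpos₀ hb.le (by omega)
    have h16 : m1 = 4 * m := by rw [hmdef]; ring
    linarith
  · have h3 : Real.exp (3 / 4 * κ2) ≤ Real.exp (3 / 4 * κ') := Real.exp_le_exp.2 (by linarith)
    linarith
  · have h3 : Real.exp (κ2 / 4) ≤ Real.exp (κ' / 4) := Real.exp_le_exp.2 (by linarith)
    linarith

end Crest.Agent.H9Salem
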