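import Mathlib
import Crest.Agent.H9SalemDefs
import Crest.Agent.H9SalemStep
import Crest.Agent.H9SalemRec
import Crest.Agent.H9SalemStart

/-! Part A: the sequence of data. -/

set_option autoImplicit false

open Filter Topology

namespace Crest.Agent.H9Salem

theorem G_pos {b : ℝ} (hb : 1 < b) {G : ℝ → ℝ} (hG : FFacts b G) {T m : ℝ} (hm : 0 < m)
    (hlow : ∀ i : ℤ, m ≤ phi (T * b ^ i)) (n : ℤ) : 0 < G (T * b ^ n) := by
  have hpi := Real.pi_pos
  have hb0 : b ≠ 0 := by positivity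
  have hb1 : 0 < b - 1 := by linarith
  obtain ⟨n0, hn0⟩ := exists_neg_zpow_le hb
    (ε := 1 / (2 * Real.pi * (b / (b - 1)) * (|T| + 1)) / 2) (by positivity)
  set L := n0 + n.natAbs with hL
  have h1 := hG.near_one (T * b ^ (-(L : ℤ)))
  rw [abs_mul, abs_of_pos (by positivity : (0 : ℝ) < b ^ (-(L : ℤ)))] at h1
  have h2 : 0 < G (T * b ^ (-(L : ℤ))) := by
    refine lt_of_lt_of_le ?_ h1
    have h3 : 2 * Real.pi * (b / (b - 1)) * (|T| * b ^ (-(L : ℤ))) ≤ 1 / 2 := by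
      calc 2 * Real.pi * (b / (b - 1)) * (|T| * b ^ (-(L : ℤ))) ≤
          2 * Real.pi * (b / (b - 1)) * ((|T| + 1) *
            (1 / (2 * Real.pi * (b / (b - 1)) * (|T| + 1)) / 2)) := by
            have := hn0 L (by omega)
            gcongr
            linarith
        _ = 1 / 2 := by
            have : |T| + 1 ≠ 0 := by positivity
            field_simp
    linarith
  have h4 := prod_formula hb0 hG T (-(L : ℤ)) (n + L).toNat
  have e : (-(L : ℤ)) + ((n + L).toNat : ℤ) = n := by omega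
  rw [e] at h4
  rw [h4]
  apply mul_pos h2
  exact Finset.prod_pos fun k _ => lt_of_lt_of_le hm (hlow _)

set_option maxHeartbeats 1000000 in
theorem partA {b : ℝ} (hb : 1 < b) (hbi : IsIntegral ℤ b) (hbi' : IsIntegral ℤ b⁻¹)
    {z : ℂ} (hz : ‖z‖ = 1) (htr : ∀ i : ℤ, ∃ k : ℤ, b ^ i + b ^ (-i) + 2 * (z ^ i).re = k)
    (hG : FFacts b (F b)) : SalemSeq b := by
  have hpi := Real.pi_pos
  have hpi4 := Real.pi_lt_d2
  have hb0 : b ≠ 0 := by positivity
  obtain ⟨m, h, h', κ0, T0, w0, s0, σ0, hc, hI0⟩ := exists_start hb hbi hbi' hz htr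
  have hm := hc.hm
  -- the sequence
  have hstep : ∀ x : {x : ℝ × ℝ × ℂ × ℕ × ℝ // Inv b z m h h' x.1 x.2.1 x.2.2.1 x.2.2.2.1 x.2.2.2.2},
      ∃ y : {x : ℝ × ℝ × ℂ × ℕ × ℝ // Inv b z m h h' x.1 x.2.1 x.2.2.1 x.2.2.2.1 x.2.2.2.2},
        11 / 5 * x.1.1 ≤ y.1.1 ∧ x.1.2.2.2.1 + 1 ≤ y.1.2.2.2.1 ∧
        F b (x.1.2.1 * b ^ ((x.1.2.2.2.1 : ℤ) + h)) ^ 2 / 2 ≤
          F b (y.1.2.1 * b ^ ((y.1.2.2.2.1 : ℤ) + h)) := by
    rintro ⟨⟨κ, T, w, s, σ⟩, hx⟩
    obtain ⟨κ', T', w', s', σ', hI', h1, h2, h3⟩ := main_step hb hbi hbi' hz hG hc hx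
    exact ⟨⟨⟨κ', T', w', s', σ'⟩, hI'⟩, h1, h2, h3⟩
  choose nxt hn1 hn2 hn3 using hstep
  let seq : ℕ → {x : ℝ × ℝ × ℂ × ℕ × ℝ // Inv b z m h h' x.1 x.2.1 x.2.2.1 x.2.2.2.1 x.2.2.2.2} :=
    fun n => Nat.rec ⟨⟨κ0, T0, w0, s0, σ0⟩, hI0⟩ (fun _ x => nxt x) n
  have hseq : ∀ n, seq (n + 1) = nxt (seq n) := fun n => rfl
  obtain ⟨κ, hκdef⟩ : ∃ κ : ℕ → ℝ, ∀ n, κ n = (seq n).1.1 := ⟨_, fun _ => rfl⟩
  obtain ⟨T, hTdef⟩ : ∃ T : ℕ → ℝ, ∀ n, T n = (seq n).1.2.1 := ⟨_, fun _ => rfl⟩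
  obtain ⟨w, hwdef⟩ : ∃ w : ℕ → ℂ, ∀ n, w n = (seq n).1.2.2.1 := ⟨_, fun _ => rfl⟩
  obtain ⟨s, hsdef⟩ : ∃ s : ℕ → ℕ, ∀ n, s n = (seq n).1.2.2.2.1 := ⟨_, fun _ => rfl⟩
  obtain ⟨σ, hσdef⟩ : ∃ σ : ℕ → ℝ, ∀ n, σ n = (seq n).1.2.2.2.2 := ⟨_, fun _ => rfl⟩
  have hI : ∀ n, Inv b z m h h' (κ n) (T n) (w n) (s n) (σ n) := by
    intro n
    rw [hκdef, hTdef, hwdef, hsdef, hσdef]
    exact (seq n).2
  have hκs : ∀ n, 11 / 5 * κ n ≤ κ (n + 1) := by
    intro n
    rw [hκdef, hκdef, hseq]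
    exact hn1 (seq n)
  have hss : ∀ n, s n + 1 ≤ s (n + 1) := by
    intro n
    rw [hsdef, hsdef, hseq]
    exact hn2 (seq n)
  have hFs : ∀ n, F b (T n * b ^ ((s n : ℤ) + h)) ^ 2 / 2 ≤
      F b (T (n + 1) * b ^ ((s (n + 1) : ℤ) + h)) := by
    intro n
    rw [hTdef, hTdef, hsdef, hsdef, hseq]
    exact hn3 (seq n)
  clear_value seq
  clear hseq hκdef hTdef hwdef hsdef hσdef hn1 hn2 hn3
  -- growth
  have hκpow : ∀ n, (11 / 5 : ℝ) ^ n * κ 0 ≤ κ n := by
    intro n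
    induction n with
    | zero => simp
    | succ n ih =>
      calc (11 / 5 : ℝ) ^ (n + 1) * κ 0 = 11 / 5 * ((11 / 5 : ℝ) ^ n * κ 0) := by
            rw [pow_succ]; ring
        _ ≤ 11 / 5 * κ n := by gcongr
        _ ≤ _ := hκs n
  have hκ0 : 240 ≤ κ 0 := (hI 0).hκ
  have hlow : ∀ n (i : ℤ), m ≤ phi (T n * b ^ i) := by
    intro n i
    have := (hI n).lower i
    have h3 : 0 ≤ 2 * Real.pi * (b / (b - 1)) * b ^ (-(h' : ℤ)) * b ^ (-(s n : ℤ)) := by
      have : 0 < b - 1 := by linarith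
      positivity
    have h4 : 0 ≤ 4 * Real.pi * Real.exp (-(κ n)) := by positivity
    linarith
  have hApos : ∀ n, 0 < F b (T n * b ^ ((s n : ℤ) + h)) := fun n => G_pos hb hG hm (hlow n) _
  obtain ⟨α, hα⟩ : ∃ α : ℕ → ℝ, ∀ n, α n = Real.log 2 - Real.log (F b (T n * b ^ ((s n : ℤ) + h))) :=
    ⟨_, fun _ => rfl⟩
  have hαs : ∀ n, α (n + 1) ≤ 2 * α n := by
    intro n
    rw [hα, hα]
    have h1 := Real.log_le_log (by have := hApos n; positivity) (hFs n)
    rw [Real.log_div (by have := hApos n; positivity) (by norm_num), Real.log_pow] at h1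
    push_cast at h1
    linarith
  have hαpow : ∀ n, α n ≤ 2 ^ n * α 0 := by
    intro n
    induction n with
    | zero => simp
    | succ n ih =>
      calc α (n + 1) ≤ 2 * α n := hαs n
        _ ≤ 2 * (2 ^ n * α 0) := by gcongr
        _ = _ := by rw [pow_succ]; ring
  have hα0 : 0 ≤ α 0 := by
    rw [hα]
    have h1 := Real.log_nonpos (hApos 0).le (hG.le_one _)
    have h2 := Real.log_nonneg (by norm_num : (1 : ℝ) ≤ 2)
    linarith
  have hακ : ∀ᶠ n in atTop, α n ≤ κ n / 10 := by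
    have h1 : Tendsto (fun n : ℕ => (10 / 11 : ℝ) ^ n * (10 * α 0 / κ 0)) atTop (𝓝 (0 * _)) :=
      (tendsto_pow_atTop_nhds_zero_of_lt_one (by norm_num) (by norm_num)).mul_const _
    rw [zero_mul] at h1
    filter_upwards [h1.eventually (ge_mem_nhds zero_lt_one)] with n hn
    have h2 : (10 / 11 : ℝ) ^ n * (11 / 5) ^ n = 2 ^ n := by
      rw [← mul_pow]; norm_num
    have h3 : (10 / 11 : ℝ) ^ n * (10 * α 0) ≤ κ 0 := by
      have e : (10 / 11 : ℝ) ^ n * (10 * α 0 / κ 0) = (10 / 11 : ℝ) ^ n * (10 * α 0) / κ 0 := by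
        ring
      rw [e, div_le_one (by linarith)] at hn
      exact hn
    have h4 : (0 : ℝ) < (11 / 5) ^ n := by positivity
    have h5 : ((10 / 11 : ℝ) ^ n * (10 * α 0)) * (11 / 5) ^ n ≤ κ 0 * (11 / 5) ^ n := by
      gcongr
    have h6 : ((10 / 11 : ℝ) ^ n * (10 * α 0)) * (11 / 5) ^ n = 10 * (2 ^ n * α 0) := by
      rw [← h2]; ring
    have h7 := hαpow n
    have h8 := hκpow n
    linarith
  have hκtop : Tendsto κ atTop atTop := by
    refine tendsto_atTop_mono hκpow ?_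
    exact (tendsto_pow_atTop_atTop_of_one_lt (by norm_num)).atTop_mul_const (by linarith)
  have hstop : Tendsto s atTop atTop := by
    apply tendsto_atTop_mono (f := fun n => n) _ tendsto_id
    intro n
    induction n with
    | zero => exact Nat.zero_le _
    | succ n ih =>
      have := hss n
      omega
  refine ⟨m, T, fun n => Real.exp (-(κ n)), σ, s, fun n => ⌊Real.exp (9 / 5 * κ n)⌋₊, hm,
    fun n => (hI n).pre.datum hz (hI n).hw (hlow n), hstop, ?_, ?_, ?_⟩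
  · have h1 : Tendsto (fun n => Real.exp (-(κ n / 5))) atTop (𝓝 0) := by
      apply Real.tendsto_exp_neg_atTop_nhds_zero.comp
      exact hκtop.atTop_div_const (by norm_num)
    refine squeeze_zero (fun n => by positivity) (fun n => ?_) h1
    calc ((⌊Real.exp (9 / 5 * κ n)⌋₊ : ℕ) : ℝ) * Real.exp (-(κ n)) ^ 2 ≤
        Real.exp (9 / 5 * κ n) * Real.exp (-(κ n)) ^ 2 := by
          gcongr
          exact Nat.floor_le (Real.exp_pos _).le
      _ = Real.exp (-(κ n / 5)) := by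
          rw [← Real.exp_nat_mul, ← Real.exp_add]
          congr 1
          push_cast
          ring
  · have h1 : Tendsto (fun n => Real.exp (-(κ n / 4))) atTop (𝓝 0) := by
      apply Real.tendsto_exp_neg_atTop_nhds_zero.comp
      exact hκtop.atTop_div_const (by norm_num)
    refine squeeze_zero (fun n => by positivity) (fun n => ?_) h1
    calc (s n : ℝ) * Real.exp (-(κ n)) ≤
        Real.exp (3 / 4 * κ n) * Real.exp (-(κ n)) := by
          have := (hI n).hs
          gcongr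
      _ = Real.exp (-(κ n / 4)) := by
          rw [← Real.exp_add]
          congr 1
          ring
  · have h1 : Tendsto (fun n => Real.exp (17 / 20 * κ n) / 2) atTop atTop := by
      apply Tendsto.atTop_div_const (by norm_num)
      apply Real.tendsto_exp_atTop.comp
      exact hκtop.const_mul_atTop (by norm_num)
    refine tendsto_atTop_mono' _ ?_ h1
    filter_upwards [hακ] with n hn
    have hκn : 240 ≤ κ n := (hI n).hκ
    have hsn := (hI n).hhs
    have hs0 : (0 : ℝ) < s n := by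
      have : 0 < s n := by omega
      exact_mod_cast this
    have hN : Real.exp (9 / 5 * κ n) / 2 ≤ ((⌊Real.exp (9 / 5 * κ n)⌋₊ : ℕ) : ℝ) := by
      have h2 := Nat.lt_floor_add_one (Real.exp (9 / 5 * κ n))
      have h3 : (2 : ℝ) ≤ Real.exp (9 / 5 * κ n) := by
        have := Real.add_one_le_exp (9 / 5 * κ n)
        linarith
      linarith
    have hA : Real.exp (-(κ n / 10)) ≤ F b (T n * b ^ (2 * s n)) := by
      have h2 := G_growth hb hG (by linarith [(hI n).pre.one_le]) (hI n).pre.le_pow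
        (Real.exp_pos (-(κ n))).le (hI n).pre.sign
        ((hI n).pre.near hz (hI n).hw) ((s n : ℤ) + h) (s n - h)
      have e : (s n : ℤ) + h + ((s n - h : ℕ) : ℤ) = ((2 * s n : ℕ) : ℤ) := by omega
      rw [e, zpow_natCast] at h2
      refine le_trans ?_ h2
      have e2 : 2 * ((s n : ℤ) - ((s n : ℤ) + h)) = -(2 * (h : ℤ)) := by ring
      rw [e2]
      have h3 := hc.hh
      have h4 : 4 * Real.pi ^ 2 * (4 * Real.exp (-(κ n)) ^ 2 * ((s n - h : ℕ) : ℝ)) ≤ 1 / 16 := by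
        have h5 : ((s n - h : ℕ) : ℝ) ≤ Real.exp (3 / 4 * κ n) := by
          refine le_trans ?_ (hI n).hs
          exact_mod_cast Nat.sub_le _ _
        have h6 : Real.exp (-(κ n)) ^ 2 * Real.exp (3 / 4 * κ n) ≤ Real.exp (-10) := by
          rw [← Real.exp_nat_mul, ← Real.exp_add]
          apply Real.exp_le_exp.2
          push_cast
          linarith
        have h7 : Real.exp (-10) ≤ 1 / 22000 := by
          rw [Real.exp_neg, one_div]
          exact inv_anti₀ (by norm_num) exp_ten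
        calc 4 * Real.pi ^ 2 * (4 * Real.exp (-(κ n)) ^ 2 * ((s n - h : ℕ) : ℝ)) ≤
            4 * Real.pi ^ 2 * (4 * Real.exp (-(κ n)) ^ 2 * Real.exp (3 / 4 * κ n)) := by gcongr
          _ = 16 * Real.pi ^ 2 * (Real.exp (-(κ n)) ^ 2 * Real.exp (3 / 4 * κ n)) := by ring
          _ ≤ 16 * Real.pi ^ 2 * (1 / 22000) := by
              gcongr
              exact h6.trans h7
          _ ≤ 1 / 16 := by
            have : Real.pi ^ 2 ≤ 3.15 ^ 2 := by gcongr
            norm_num at this ⊢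
            linarith
      have h8 : Real.exp (-(κ n / 10)) ≤ F b (T n * b ^ ((s n : ℤ) + h)) / 2 := by
        rw [hα] at hn
        have h9 : -(κ n / 10) ≤ Real.log (F b (T n * b ^ ((s n : ℤ) + h)) / 2) := by
          rw [Real.log_div (hApos n).ne' (by norm_num)]
          linarith
        calc Real.exp (-(κ n / 10)) ≤ Real.exp (Real.log (F b (T n * b ^ ((s n : ℤ) + h)) / 2)) :=
              Real.exp_le_exp.2 h9
          _ = _ := Real.exp_log (by have := hApos n; positivity)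
      refine h8.trans ?_
      rw [div_eq_mul_inv]
      apply mul_le_mul_of_nonneg_left _ (hApos n).le
      rw [mul_add]
      have h10 : (2 : ℝ)⁻¹ = 1 / 2 := by norm_num
      rw [h10]
      linarith
    rw [le_div_iff₀ hs0]
    calc Real.exp (17 / 20 * κ n) / 2 * (s n : ℝ) ≤
        Real.exp (17 / 20 * κ n) / 2 * Real.exp (3 / 4 * κ n) := by
          have := (hI n).hs
          gcongr
      _ = (Real.exp (9 / 5 * κ n) / 2) * Real.exp (-(κ n / 10)) ^ 2 := by
          have e1 : Real.exp (17 / 20 * κ n) / 2 * Real.exp (3 / 4 * κ n) =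
              Real.exp (17 / 20 * κ n + 3 / 4 * κ n) / 2 := by rw [Real.exp_add]; ring
          have e2 : (Real.exp (9 / 5 * κ n) / 2) * Real.exp (-(κ n / 10)) ^ 2 =
              Real.exp (9 / 5 * κ n + (2 : ℕ) * (-(κ n / 10))) / 2 := by
            rw [Real.exp_add, ← Real.exp_nat_mul]; ring
          rw [e1, e2]
          congr 2
          push_cast
          ring
      _ ≤ _ := by
          gcongr

end Crest.Agent.H9Salem
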