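import Mathlib
import Crest.Prelude.Def_BernoulliConv
import Crest.Agent.H9SalemDefs

/-! Algebra of quartic Salem numbers: the power sums of the conjugates are integers. -/

set_option autoImplicit false

open Polynomial Crest.AnalysisR

namespace Crest.Agent.H9Salem

/-- power sums `x^n + y^n` are integers when `x+y` and `xy` are. -/
theorem powsum_int (x y : ℂ) (A B : ℤ) (hA : x + y = A) (hB : x * y = B) :
    ∀ n : ℕ, ∃ k : ℤ, x ^ n + y ^ n = k := by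
  have key : ∀ n : ℕ, (∃ k : ℤ, x ^ n + y ^ n = k) ∧ (∃ k : ℤ, x ^ (n + 1) + y ^ (n + 1) = k) := by
    intro n
    induction n with
    | zero =>
      refine ⟨⟨2, by norm_num⟩, ⟨A, by simpa using hA⟩⟩
    | succ n ih =>
      obtain ⟨⟨k, hk⟩, ⟨l, hl⟩⟩ := ih
      refine ⟨⟨l, hl⟩, ⟨A * l - B * k, ?_⟩⟩
      push_cast
      rw [← hA, ← hB, ← hk, ← hl]
      ring
  exact fun n => (key n).1

/-- `x^n + x^{-n}` and `y^n+y^{-n}`, twisted by powers of the traces. -/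
theorem cheb_int (x y : ℂ) (hx : x ≠ 0) (hy : y ≠ 0) (A B : ℤ)
    (hA : (x + x⁻¹) + (y + y⁻¹) = A) (hB : (x + x⁻¹) * (y + y⁻¹) = B) :
    ∀ n : ℕ, ∃ k : ℤ, (x ^ n + (x⁻¹) ^ n) + (y ^ n + (y⁻¹) ^ n) = k := by
  have key : ∀ n : ℕ, (∀ j : ℕ, ∃ k : ℤ, (x + x⁻¹) ^ j * (x ^ n + (x⁻¹) ^ n) +
        (y + y⁻¹) ^ j * (y ^ n + (y⁻¹) ^ n) = k) ∧
      (∀ j : ℕ, ∃ k : ℤ, (x + x⁻¹) ^ j * (x ^ (n + 1) + (x⁻¹) ^ (n + 1)) +
        (y + y⁻¹) ^ j * (y ^ (n + 1) + (y⁻¹) ^ (n + 1)) = k) := by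
    intro n
    induction n with
    | zero =>
      refine ⟨fun j => ?_, fun j => ?_⟩
      · obtain ⟨k, hk⟩ := powsum_int _ _ A B hA hB j
        refine ⟨2 * k, ?_⟩
        push_cast
        rw [← hk]
        ring
      · obtain ⟨k, hk⟩ := powsum_int _ _ A B hA hB (j + 1)
        refine ⟨k, ?_⟩
        rw [← hk]
        ring
    | succ n ih =>
      obtain ⟨h0, h1⟩ := ih
      refine ⟨h1, fun j => ?_⟩
      obtain ⟨k, hk⟩ := h0 j
      obtain ⟨l, hl⟩ := h1 (j + 1)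
      refine ⟨l - k, ?_⟩
      push_cast
      rw [← hk, ← hl]
      have e : ∀ t : ℂ, t ≠ 0 → t ^ (n + 1 + 1) + (t⁻¹) ^ (n + 1 + 1) =
          (t + t⁻¹) * (t ^ (n + 1) + (t⁻¹) ^ (n + 1)) - (t ^ n + (t⁻¹) ^ n) := by
        intro t ht
        have h1 : t * t⁻¹ = 1 := mul_inv_cancel₀ ht
        linear_combination (-(t ^ n + (t⁻¹) ^ n)) * h1
      rw [e x hx, e y hy]
      ring
  intro n
  obtain ⟨k, hk⟩ := (key n).1 0
  exact ⟨k, by simpa using hk⟩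

theorem cheb_int' (x y : ℂ) (hx : x ≠ 0) (hy : y ≠ 0) (A B : ℤ)
    (hA : (x + x⁻¹) + (y + y⁻¹) = A) (hB : (x + x⁻¹) * (y + y⁻¹) = B) (i : ℤ) :
    ∃ k : ℤ, (x ^ i + x ^ (-i)) + (y ^ i + y ^ (-i)) = k := by
  obtain ⟨n, rfl | rfl⟩ := Int.eq_nat_or_neg i
  · obtain ⟨k, hk⟩ := cheb_int x y hx hy A B hA hB n
    refine ⟨k, ?_⟩
    rw [← hk]
    simp
  · obtain ⟨k, hk⟩ := cheb_int x y hx hy A B hA hB n
    refine ⟨k, ?_⟩
    rw [← hk]
    simp
    ring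

theorem quart_coeff (u v : ℂ) :
    (X ^ 4 - C u * X ^ 3 + C v * X ^ 2 - C u * X + 1 : ℂ[X]).coeff 3 = -u ∧
    (X ^ 4 - C u * X ^ 3 + C v * X ^ 2 - C u * X + 1 : ℂ[X]).coeff 2 = v := by
  constructor <;> simp [coeff_one, coeff_X_pow, coeff_C_mul]

/-- The algebraic content of `IsQuarticSalem`. -/
theorem salem_algebra (β : ℝ) (hβ : IsQuarticSalem β) :
    IsIntegral ℤ β⁻¹ ∧ ∃ z : ℂ, ‖z‖ = 1 ∧
      ∀ i : ℤ, ∃ k : ℤ, β ^ i + β ^ (-i) + 2 * (z ^ i).re = k := by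
  obtain ⟨h1, hint, hdeg, hinv, hroots⟩ := hβ
  have hp : minpoly ℚ β = (minpoly ℤ β).map (algebraMap ℤ ℚ) :=
    minpoly.isIntegrallyClosed_eq_field_fractions' ℚ hint
  have hmon : (minpoly ℤ β).Monic := minpoly.monic hint
  have hintQ : IsIntegral ℚ β := hint.tower_top
  have hirr : Irreducible (minpoly ℚ β) := minpoly.irreducible hintQ
  have hβ0 : β ≠ 0 := by positivity
  refine ⟨⟨minpoly ℤ β, hmon, ?_⟩, ?_⟩
  · rw [hp, aeval_map_algebraMap] at hinv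
    exact hinv
  have hPmon : ((minpoly ℚ β).map (algebraMap ℚ ℂ)).Monic := (minpoly.monic hintQ).map _
  have hPdeg : ((minpoly ℚ β).map (algebraMap ℚ ℂ)).natDegree = 4 := by
    rw [natDegree_map, hdeg]
  have hnodup : ((minpoly ℚ β).map (algebraMap ℚ ℂ)).roots.Nodup :=
    nodup_roots hirr.separable.map
  have hcard : ((minpoly ℚ β).map (algebraMap ℚ ℂ)).roots.card = 4 := by
    rw [← hPdeg]
    exact (splits_iff_card_roots.1 (IsAlgClosed.splits _))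
  have hmem : ∀ z : ℂ, z ∈ ((minpoly ℚ β).map (algebraMap ℚ ℂ)).roots ↔
      aeval z (minpoly ℚ β) = 0 := by
    intro z
    rw [mem_roots hPmon.ne_zero, IsRoot, eval_map_algebraMap]
  have hβmem : ((β : ℝ) : ℂ) ∈ ((minpoly ℚ β).map (algebraMap ℚ ℂ)).roots := by
    rw [hmem]
    have := minpoly.aeval ℚ β
    have h2 : aeval ((algebraMap ℝ ℂ) β) (minpoly ℚ β) = 0 := by
      rw [aeval_algebraMap_apply, this, map_zero]
    exact h2
  have hβimem : (((β⁻¹ : ℝ)) : ℂ) ∈ ((minpoly ℚ β).map (algebraMap ℚ ℂ)).roots := by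
    rw [hmem]
    have h2 : aeval ((algebraMap ℝ ℂ) β⁻¹) (minpoly ℚ β) = 0 := by
      rw [aeval_algebraMap_apply, hinv, map_zero]
    exact h2
  have hconj : ∀ z : ℂ, z ∈ ((minpoly ℚ β).map (algebraMap ℚ ℂ)).roots →
      (starRingEnd ℂ) z ∈ ((minpoly ℚ β).map (algebraMap ℚ ℂ)).roots := by
    intro z hz
    rw [hmem] at hz ⊢
    have h2 : ((minpoly ℚ β)).aeval ((starRingEnd ℂ) z) =
        (starRingEnd ℂ) (aeval z (minpoly ℚ β)) := by
      rw [aeval_def, aeval_def, hom_eval₂]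
      congr 1
      exact Subsingleton.elim _ _
    rw [h2, hz, map_zero]
  have hinj : β⁻¹ < 1 := inv_lt_one_of_one_lt₀ h1
  -- a third root
  obtain ⟨z, hz, hzn⟩ : ∃ z ∈ ((minpoly ℚ β).map (algebraMap ℚ ℂ)).roots, ‖z‖ = 1 := by
    by_contra hcon
    push Not at hcon
    have hsub : ((minpoly ℚ β).map (algebraMap ℚ ℂ)).roots.toFinset ⊆
        {((β : ℝ) : ℂ), (((β⁻¹ : ℝ)) : ℂ)} := by
      intro z hz
      rw [Multiset.mem_toFinset] at hz
      rcases hroots z ((hmem z).1 hz) with h | h | h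
      · simp [h]
      · simp [h]
      · exact absurd h (hcon z hz)
    have hc := Finset.card_le_card hsub
    rw [Multiset.toFinset_card_of_nodup hnodup, hcard] at hc
    have h2 := Finset.card_le_two (a := ((β : ℝ) : ℂ)) (b := (((β⁻¹ : ℝ)) : ℂ))
    omega
  have hz0 : z ≠ 0 := by
    intro h
    rw [h, norm_zero] at hzn
    exact zero_ne_one hzn
  -- `z` is not real
  have hzr : (starRingEnd ℂ) z ≠ z := by
    intro h
    rw [Complex.conj_eq_iff_real] at h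
    obtain ⟨r, hr⟩ := h
    have hr1 : r = 1 ∨ r = -1 := by
      rw [hr, Complex.norm_real, Real.norm_eq_abs] at hzn
      rcases abs_cases r with h | h
      · left; linarith
      · right; linarith
    have hq : ∃ q : ℚ, (minpoly ℚ β).IsRoot q := by
      rcases hr1 with h | h
      · refine ⟨1, ?_⟩
        have h3 := (hmem z).1 hz
        rw [hr, h] at h3
        have h4 : aeval ((algebraMap ℚ ℂ) 1) (minpoly ℚ β) = 0 := by simpa using h3
        rw [aeval_algebraMap_apply] at h4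
        have h5 := (map_eq_zero (algebraMap ℚ ℂ)).1 h4
        rwa [IsRoot, ← coe_aeval_eq_eval]
      · refine ⟨-1, ?_⟩
        have h3 := (hmem z).1 hz
        rw [hr, h] at h3
        have h4 : aeval ((algebraMap ℚ ℂ) (-1)) (minpoly ℚ β) = 0 := by simpa using h3
        rw [aeval_algebraMap_apply] at h4
        have h5 := (map_eq_zero (algebraMap ℚ ℂ)).1 h4
        rwa [IsRoot, ← coe_aeval_eq_eval]
    obtain ⟨q, hq⟩ := hq
    have h6 := degree_eq_one_of_irreducible_of_root hirr hq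
    have h7 := natDegree_eq_of_degree_eq_some h6
    exact absurd (hdeg.symm.trans h7) (by norm_num)
  have hzinv : (starRingEnd ℂ) z = z⁻¹ := by
    rw [Complex.inv_def]
    have : Complex.normSq z = 1 := by
      rw [Complex.normSq_eq_norm_sq, hzn]; norm_num
    rw [this]; simp
  have hzcn : ‖(starRingEnd ℂ) z‖ = 1 := by rw [Complex.norm_conj, hzn]
  have hβn : ‖((β : ℝ) : ℂ)‖ = β := by
    rw [Complex.norm_real, Real.norm_eq_abs, abs_of_pos (by positivity)]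
  have hβin : ‖(((β⁻¹ : ℝ)) : ℂ)‖ = β⁻¹ := by
    rw [Complex.norm_real, Real.norm_eq_abs, abs_of_pos (by positivity)]
  have hne1 : ((β : ℝ) : ℂ) ≠ (((β⁻¹ : ℝ)) : ℂ) := by
    intro h; rw [h, hβin] at hβn; linarith
  have hne2 : ((β : ℝ) : ℂ) ≠ z := by
    intro h; rw [h, hzn] at hβn; linarith
  have hne3 : ((β : ℝ) : ℂ) ≠ (starRingEnd ℂ) z := by
    intro h; rw [h, hzcn] at hβn; linarith
  have hne4 : (((β⁻¹ : ℝ)) : ℂ) ≠ z := by
    intro h; rw [h, hzn] at hβin; linarith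
  have hne5 : (((β⁻¹ : ℝ)) : ℂ) ≠ (starRingEnd ℂ) z := by
    intro h; rw [h, hzcn] at hβin; linarith
  have hnd : ({((β : ℝ) : ℂ), (((β⁻¹ : ℝ)) : ℂ), z, (starRingEnd ℂ) z} : Multiset ℂ).Nodup := by
    simp only [Multiset.insert_eq_cons, Multiset.nodup_cons, Multiset.mem_cons,
      Multiset.mem_singleton, Multiset.nodup_singleton, not_or]
    exact ⟨⟨hne1, hne2, hne3⟩, ⟨hne4, hne5⟩, hzr.symm, trivial⟩
  have hrt : ((minpoly ℚ β).map (algebraMap ℚ ℂ)).roots =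
      {((β : ℝ) : ℂ), (((β⁻¹ : ℝ)) : ℂ), z, (starRingEnd ℂ) z} := by
    symm
    apply Multiset.eq_of_le_of_card_le
    · rw [Multiset.le_iff_subset hnd]
      intro t ht
      simp only [Multiset.insert_eq_cons, Multiset.mem_cons, Multiset.mem_singleton] at ht
      rcases ht with h | h | h | h
      · rw [h]; exact hβmem
      · rw [h]; exact hβimem
      · rw [h]; exact hz
      · rw [h]; exact hconj z hz
    · rw [hcard]; simp
  have hprod := prod_multiset_X_sub_C_of_monic_of_roots_card_eq hPmon (by rw [hcard, hPdeg])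
  rw [hrt] at hprod
  simp only [Multiset.insert_eq_cons, Multiset.map_cons, Multiset.map_singleton,
    Multiset.prod_cons, Multiset.prod_singleton] at hprod
  have hPint : (minpoly ℚ β).map (algebraMap ℚ ℂ) = (minpoly ℤ β).map (Int.castRingHom ℂ) := by
    rw [hp, Polynomial.map_map]
    congr 1
  rw [hPint] at hprod
  have hβc0 : ((β : ℝ) : ℂ) ≠ 0 := by exact_mod_cast hβ0
  have hexp : (X - C ((β : ℝ) : ℂ)) * ((X - C (((β⁻¹ : ℝ)) : ℂ)) *
      ((X - C z) * (X - C ((starRingEnd ℂ) z)))) =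
      X ^ 4 - C (((β : ℂ) + (β : ℂ)⁻¹) + (z + z⁻¹)) * X ^ 3 +
        C (2 + ((β : ℂ) + (β : ℂ)⁻¹) * (z + z⁻¹)) * X ^ 2 -
        C (((β : ℂ) + (β : ℂ)⁻¹) + (z + z⁻¹)) * X + 1 := by
    rw [hzinv]
    push_cast
    have e1 : (C (β : ℂ)) * C ((β : ℂ)⁻¹) = 1 := by
      rw [← C_mul, mul_inv_cancel₀ hβc0, C_1]
    have e2 : (C z) * C (z⁻¹) = 1 := by
      rw [← C_mul, mul_inv_cancel₀ hz0, C_1]
    have e3 : (C (2 : ℂ)) = 2 := map_ofNat C 2
    simp only [C_add, C_mul, e3]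
    linear_combination e1 * (X ^ 2 - (C z + C z⁻¹) * X + C z * C z⁻¹) +
      e2 * (X ^ 2 - (C (β : ℂ) + C (β : ℂ)⁻¹) * X + 1)
  rw [hexp] at hprod
  have hc3 : -(((β : ℂ) + (β : ℂ)⁻¹) + (z + z⁻¹)) = (((minpoly ℤ β).coeff 3 : ℤ) : ℂ) := by
    rw [← (quart_coeff (((β : ℂ) + (β : ℂ)⁻¹) + (z + z⁻¹))
      (2 + ((β : ℂ) + (β : ℂ)⁻¹) * (z + z⁻¹))).1, hprod, coeff_map]
    rfl
  have hc2 : (2 + ((β : ℂ) + (β : ℂ)⁻¹) * (z + z⁻¹)) = (((minpoly ℤ β).coeff 2 : ℤ) : ℂ) := by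
    rw [← (quart_coeff (((β : ℂ) + (β : ℂ)⁻¹) + (z + z⁻¹))
      (2 + ((β : ℂ) + (β : ℂ)⁻¹) * (z + z⁻¹))).2, hprod, coeff_map]
    rfl
  have hA : ((β : ℂ) + (β : ℂ)⁻¹) + (z + z⁻¹) = ((-(minpoly ℤ β).coeff 3 : ℤ) : ℂ) := by
    push_cast
    rw [← hc3]; ring
  have hB : ((β : ℂ) + (β : ℂ)⁻¹) * (z + z⁻¹) = (((minpoly ℤ β).coeff 2 - 2 : ℤ) : ℂ) := by
    push_cast
    rw [← hc2]; ring
  refine ⟨z, hzn, fun i => ?_⟩
  obtain ⟨k, hk⟩ := cheb_int' (β : ℂ) z hβc0 hz0 _ _ hA hB i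
  refine ⟨k, ?_⟩
  have hk2 := congrArg Complex.re hk
  have hzi : z ^ (-i) = (starRingEnd ℂ) (z ^ i) := by
    rw [map_zpow₀, hzinv, zpow_neg, inv_zpow]
  rw [hzi] at hk2
  have e4 : ((β : ℂ) ^ i + (β : ℂ) ^ (-i)) = (((β ^ i + β ^ (-i) : ℝ)) : ℂ) := by push_cast; ring
  rw [e4] at hk2
  simp only [Complex.add_re, Complex.ofReal_re, Complex.conj_re, Complex.intCast_re] at hk2
  rw [← hk2]
  ring

end Crest.Agent.H9Salem
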