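import Crest.Agent.IsgDefs

set_option autoImplicit false

/-!
Shared library for S0241: the word model of the regular tree.
-/

open MeasureTheory ProbabilityTheory Filter Topology

namespace Crest.Agent.Isg

variable {b : ℕ}

/-! ### Basic facts on `nb` and `follow` -/

@[simp] lemma rt_l : (rt b).l = [] := rfl

lemma nb_cons_chain (i : Fin (b + 1)) (l : List (Fin (b + 1))) (h : (i :: l).IsChain (· ≠ ·)) :
    nb i (⟨l, h.tail⟩ : V b) = ⟨i :: l, h⟩ := by
  cases l with
  | nil => rfl
  | cons j l => rw [nb_cons_ne l h.tail (List.isChain_cons_cons.1 h).1]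

@[simp] lemma follow_nil (u : V b) : follow u [] = u := rfl

@[simp] lemma follow_cons (u : V b) (i : Fin (b + 1)) (l : List (Fin (b + 1))) :
    follow u (i :: l) = nb i (follow u l) := rfl

lemma follow_append (u : V b) (l l' : List (Fin (b + 1))) :
    follow u (l ++ l') = follow (follow u l') l := by
  simp [follow, List.foldr_append]

lemma follow_concat (u : V b) (l : List (Fin (b + 1))) (i : Fin (b + 1)) :
    follow u (l ++ [i]) = follow (nb i u) l := by
  rw [follow_append]; rfl

lemma follow_rt (l : List (Fin (b + 1))) (h : l.IsChain (· ≠ ·)) :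
    follow (rt b) l = ⟨l, h⟩ := by
  induction l with
  | nil => rfl
  | cons i l ih => rw [follow_cons, ih h.tail, nb_cons_chain]

lemma follow_reverse (u : V b) (l : List (Fin (b + 1))) : follow (follow u l) l.reverse = u := by
  induction l generalizing u with
  | nil => rfl
  | cons i l ih => rw [List.reverse_cons, follow_concat, follow_cons, nb_nb, ih]

lemma nb_mul (i : Fin (b + 1)) (u v : V b) : nb i (mul u v) = mul u (nb i v) := by
  obtain ⟨l, hl⟩ := v
  cases l with
  | nil => rfl
  | cons j l =>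
    by_cases hij : i = j
    · subst hij
      rw [nb_cons_self]
      show nb i (nb i (follow u l)) = follow u l
      rw [nb_nb]
    · rw [nb_cons_ne l hl hij]
      rfl

lemma follow_mul (u v : V b) (l : List (Fin (b + 1))) : follow (mul u v) l = mul u (follow v l) := by
  induction l with
  | nil => rfl
  | cons i l ih => rw [follow_cons, ih, nb_mul, follow_cons]

lemma mul_rt (u : V b) : mul u (rt b) = u := rfl

lemma rt_mul (v : V b) : mul (rt b) v = v := follow_rt v.l v.h

lemma mul_asc (u v w : V b) : mul (mul u v) w = mul u (mul v w) := follow_mul u v w.l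

lemma mul_inv' (v : V b) : mul v (inv v) = rt b := by
  have := follow_reverse (rt b) v.l
  rw [follow_rt v.l v.h] at this
  exact this

lemma inv_inv' (v : V b) : inv (inv v) = v := by
  ext1
  simp [inv]

lemma inv_mul' (v : V b) : mul (inv v) v = rt b := by
  have := mul_inv' (inv v)
  rwa [inv_inv'] at this

instance : Group (V b) where
  mul := mul
  mul_assoc := mul_asc
  one := rt b
  one_mul := rt_mul
  mul_one := mul_rt
  inv := inv
  inv_mul_cancel := inv_mul'

lemma mul_def (u v : V b) : mul u v = u * v := rfl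
lemma inv_def (u : V b) : inv u = u⁻¹ := rfl
lemma rt_def : rt b = 1 := rfl

/-- Left multiplication as an equivalence. -/
def lmulE (g : V b) : V b ≃ V b where
  toFun := mul g
  invFun := mul (inv g)
  left_inv := fun v => by rw [← mul_asc, inv_mul', rt_mul]
  right_inv := fun v => by rw [← mul_asc, mul_inv', rt_mul]

@[simp] lemma lmulE_apply (g v : V b) : lmulE g v = mul g v := rfl

/-- Inversion as an equivalence. -/
def invE : V b ≃ V b where
  toFun := inv
  invFun := inv
  left_inv := inv_inv'
  right_inv := inv_inv'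

lemma mul_inv_cancel_left' (g v : V b) : mul g (mul (inv g) v) = v := (lmulE g).right_inv v

lemma inv_mul_cancel_left' (g v : V b) : mul (inv g) (mul g v) = v := (lmulE g).left_inv v

lemma inv_mul_rev (u v : V b) : inv (mul u v) = mul (inv v) (inv u) := by
  show (u * v)⁻¹ = v⁻¹ * u⁻¹
  exact mul_inv_rev u v

lemma nb_eq_mul (i : Fin (b + 1)) (u : V b) : nb i u = mul u (nb i (rt b)) := by
  rw [← nb_mul, mul_rt]

lemma inv_nb (i : Fin (b + 1)) (u : V b) : inv (nb i u) = mul (nb i (rt b)) (inv u) := by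
  rw [nb_eq_mul, inv_mul_rev]
  congr 1

lemma inv_rt : inv (rt b) = rt b := rfl

lemma inv_gen (i : Fin (b + 1)) : inv (nb i (rt b)) = nb i (rt b) := rfl

/-! ### Length -/

@[simp] lemma len_rt : len (rt b) = 0 := rfl

lemma len_eq_zero_iff (v : V b) : len v = 0 ↔ v = rt b := by
  constructor
  · intro h
    obtain ⟨l, hl⟩ := v
    have : l = [] := List.length_eq_zero_iff.1 h
    subst this
    rfl
  · rintro rfl; rfl

lemma len_inv (v : V b) : len (inv v) = len v := by simp [len, inv]

lemma nb_l_of_head (i : Fin (b + 1)) (v : V b) (h : v.l.head? = some i) :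
    (nb i v).l = v.l.tail := by
  obtain ⟨l, hl⟩ := v
  cases l with
  | nil => simp at h
  | cons j l =>
    simp only [List.head?_cons, Option.some.injEq] at h
    subst h
    rw [nb_cons_self]; rfl

lemma nb_l_of_not_head (i : Fin (b + 1)) (v : V b) (h : v.l.head? ≠ some i) :
    (nb i v).l = i :: v.l := by
  obtain ⟨l, hl⟩ := v
  cases l with
  | nil => rfl
  | cons j l =>
    simp only [List.head?_cons, ne_eq, Option.some.injEq] at h
    rw [nb_cons_ne l hl (fun h' => h h'.symm)]

lemma len_nb_of_head (i : Fin (b + 1)) (v : V b) (h : v.l.head? = some i) :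
    len (nb i v) + 1 = len v := by
  obtain ⟨l, hl⟩ := v
  cases l with
  | nil => simp at h
  | cons j l =>
    simp only [List.head?_cons, Option.some.injEq] at h
    subst h
    rw [nb_cons_self]; rfl

lemma len_nb_of_not_head (i : Fin (b + 1)) (v : V b) (h : v.l.head? ≠ some i) :
    len (nb i v) = len v + 1 := by
  unfold len
  rw [nb_l_of_not_head i v h]; rfl

lemma len_nb (i : Fin (b + 1)) (v : V b) : len (nb i v) = len v + 1 ∨ len v = len (nb i v) + 1 := by
  by_cases h : v.l.head? = some i
  · right; exact (len_nb_of_head i v h).symm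
  · left; exact len_nb_of_not_head i v h

/-- The child condition used in `lh`. -/
lemma len_lt_len_nb_iff (i : Fin (b + 1)) (v : V b) : len v < len (nb i v) ↔ v.l.head? ≠ some i := by
  constructor
  · intro h h'
    have := len_nb_of_head i v h'
    omega
  · intro h
    rw [len_nb_of_not_head i v h]; omega

lemma nb_ne (i : Fin (b + 1)) (v : V b) : nb i v ≠ v := by
  intro h
  have h1 := len_nb i v
  rw [h] at h1
  omega

lemma nb_inj_color (i j : Fin (b + 1)) (v : V b) (h : nb i v = nb j v) : i = j := by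
  rw [nb_eq_mul i v, nb_eq_mul j v] at h
  have h2 : nb i (rt b) = nb j (rt b) := (lmulE v).injective h
  have h3 := congrArg V.l h2
  simpa [nb, rt] using h3

lemma nb_inj_color_iff (i j : Fin (b + 1)) (v : V b) : nb i v = nb j v ↔ i = j :=
  ⟨nb_inj_color i j v, fun h => by rw [h]⟩

lemma nb_injective (i : Fin (b + 1)) : Function.Injective (nb i : V b → V b) := fun u v h => by
  rw [← nb_nb i u, h, nb_nb]

lemma len_follow_le (u : V b) (l : List (Fin (b + 1))) : len (follow u l) ≤ len u + l.length := by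
  induction l with
  | nil => simp
  | cons i l ih =>
    rw [follow_cons, List.length_cons]
    rcases len_nb i (follow u l) with h | h <;> omega

lemma len_mul_le (u v : V b) : len (mul u v) ≤ len u + len v := len_follow_le u v.l

/-- When the concatenation is reduced. -/
lemma mul_of_chain (u v : V b) (h : (v.l ++ u.l).IsChain (· ≠ ·)) : mul u v = ⟨v.l ++ u.l, h⟩ := by
  have h1 : mul u v = follow (rt b) (v.l ++ u.l) := by
    rw [follow_append, follow_rt u.l u.h]; rfl
  rw [h1, follow_rt _ h]

lemma follow_of_chain (v : V b) (r : List (Fin (b + 1))) (h : (r ++ v.l).IsChain (· ≠ ·)) :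
    follow v r = ⟨r ++ v.l, h⟩ := by
  have h1 : follow v r = follow (rt b) (r ++ v.l) := by
    rw [follow_append, follow_rt v.l v.h]
  rw [h1, follow_rt _ h]

/-! ### First steps and branches -/

/-- First step of a word. -/
def fs (v : V b) : Option (Fin (b + 1)) := v.l.getLast?

@[simp] lemma fs_rt : fs (rt b) = none := rfl

lemma fs_eq_none_iff (v : V b) : fs v = none ↔ v = rt b := by
  unfold fs
  rw [List.getLast?_eq_none_iff]
  constructor
  · intro h; ext1; exact h
  · rintro rfl; rfl

lemma head_inv (v : V b) : (inv v).l.head? = fs v := by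
  simp [inv, fs, List.head?_reverse]

lemma fs_inv (v : V b) : fs (inv v) = v.l.head? := by
  simp [inv, fs, List.getLast?_reverse]

/-- Left multiplication by a generator, when the first step is that generator. -/
lemma gen_mul_eq (i : Fin (b + 1)) (w : V b) : mul (nb i (rt b)) w = inv (nb i (inv w)) := by
  rw [nb_eq_mul i (inv w), inv_mul_rev, inv_inv', inv_gen]

lemma len_gen_mul_of_fs (i : Fin (b + 1)) (w : V b) (h : fs w = some i) :
    len (mul (nb i (rt b)) w) + 1 = len w := by
  rw [gen_mul_eq, len_inv, len_nb_of_head i (inv w) (by rw [head_inv]; exact h), len_inv]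

lemma len_gen_mul_of_not_fs (i : Fin (b + 1)) (w : V b) (h : fs w ≠ some i) :
    len (mul (nb i (rt b)) w) = len w + 1 := by
  rw [gen_mul_eq, len_inv, len_nb_of_not_head i (inv w) (by rw [head_inv]; exact h), len_inv]

lemma nb_head_iff (i : Fin (b + 1)) (v : V b) : (nb i v).l.head? = some i ↔ v.l.head? ≠ some i := by
  constructor
  · intro h h'
    have h1 := len_nb_of_head i v h'
    have h2 := len_nb_of_head i (nb i v) h
    rw [nb_nb] at h2
    omega
  · intro h
    rw [nb_l_of_not_head i v h]; rfl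

lemma fs_gen_mul_iff (i : Fin (b + 1)) (w : V b) :
    fs (mul (nb i (rt b)) w) = some i ↔ fs w ≠ some i := by
  rw [gen_mul_eq, fs_inv, nb_head_iff, head_inv]

/-- Distance. -/
def dst (u v : V b) : ℕ := len (mul (inv u) v)

@[simp] lemma dst_self (u : V b) : dst u u = 0 := by
  unfold dst; rw [inv_mul']; rfl

lemma dst_eq_zero_iff (u v : V b) : dst u v = 0 ↔ v = u := by
  unfold dst
  rw [len_eq_zero_iff]
  constructor
  · intro h
    have := mul_inv_cancel_left' u v
    rw [h, mul_rt] at this
    exact this.symm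
  · rintro rfl; exact inv_mul' v

lemma dst_rt (v : V b) : dst (rt b) v = len v := by
  unfold dst; rw [inv_rt, rt_mul]

lemma dst_comm (u v : V b) : dst u v = dst v u := by
  unfold dst
  rw [← len_inv, inv_mul_rev, inv_inv']

lemma dst_mul (g u v : V b) : dst (mul g u) (mul g v) = dst u v := by
  unfold dst
  rw [inv_mul_rev, mul_asc, inv_mul_cancel_left']

lemma dst_triangle (u v w : V b) : dst u w ≤ dst u v + dst v w := by
  have h : mul (inv u) w = mul (mul (inv u) v) (mul (inv v) w) := by
    rw [mul_asc, mul_inv_cancel_left']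
  unfold dst
  rw [h]
  exact len_mul_le _ _

/-- `v` lies in the branch of `nb i u`. -/
lemma dst_nb_of_fs (i : Fin (b + 1)) (u v : V b) (h : fs (mul (inv u) v) = some i) :
    dst (nb i u) v + 1 = dst u v := by
  unfold dst
  rw [inv_nb, mul_asc, len_gen_mul_of_fs i _ h]

lemma dst_nb_of_not_fs (i : Fin (b + 1)) (u v : V b) (h : fs (mul (inv u) v) ≠ some i) :
    dst (nb i u) v = dst u v + 1 := by
  unfold dst
  rw [inv_nb, mul_asc, len_gen_mul_of_not_fs i _ h]

lemma fs_nb_iff (i : Fin (b + 1)) (u v : V b) :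
    fs (mul (inv (nb i u)) v) = some i ↔ fs (mul (inv u) v) ≠ some i := by
  rw [inv_nb, mul_asc, fs_gen_mul_iff]

lemma mem_Sub {N : ℕ} {u : V b} {i : Fin (b + 1)} {v : V b} :
    v ∈ Sub N u i ↔ dst u v < N ∧ fs (mul (inv u) v) ≠ some i := by
  induction N generalizing u i with
  | zero => simp [Sub]
  | succ N ih =>
    rw [Sub, Finset.mem_insert, Finset.mem_biUnion]
    constructor
    · rintro (rfl | ⟨j, hj, hv⟩)
      · refine ⟨by simp, ?_⟩
        rw [inv_mul']; simp
      · have hji : j ≠ i := (Finset.mem_erase.1 hj).1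
        obtain ⟨h1, h2⟩ := ih.1 hv
        have h3 : fs (mul (inv u) v) = some j := by
          by_contra h4
          exact h2 ((fs_nb_iff j u v).2 h4)
        have h5 := dst_nb_of_fs j u v h3
        refine ⟨by omega, ?_⟩
        rw [h3]
        simpa using hji
    · rintro ⟨h1, h2⟩
      by_cases hv : v = u
      · left; exact hv
      · right
        have h3 : fs (mul (inv u) v) ≠ none := by
          intro h4
          rw [fs_eq_none_iff] at h4
          apply hv
          have := mul_inv_cancel_left' u v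
          rw [h4, mul_rt] at this
          exact this.symm
        obtain ⟨j, hj⟩ := Option.ne_none_iff_exists'.1 h3
        refine ⟨j, ?_, ?_⟩
        · rw [Finset.mem_erase]
          refine ⟨?_, Finset.mem_univ _⟩
          rintro rfl
          exact h2 hj
        · rw [ih]
          have h5 := dst_nb_of_fs j u v hj
          refine ⟨by omega, ?_⟩
          rw [ne_eq, fs_nb_iff]
          simpa using hj

lemma mem_Bl {N : ℕ} {u v : V b} : v ∈ Bl N u ↔ dst u v ≤ N := by
  unfold Bl
  rw [Finset.mem_insert, Finset.mem_biUnion]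
  constructor
  · rintro (rfl | ⟨j, -, hv⟩)
    · simp
    · obtain ⟨h1, h2⟩ := mem_Sub.1 hv
      have h3 : fs (mul (inv u) v) = some j := by
        by_contra h4
        exact h2 ((fs_nb_iff j u v).2 h4)
      have h5 := dst_nb_of_fs j u v h3
      omega
  · intro h1
    by_cases hv : v = u
    · left; exact hv
    · right
      have h3 : fs (mul (inv u) v) ≠ none := by
        intro h4
        rw [fs_eq_none_iff] at h4
        apply hv
        have := mul_inv_cancel_left' u v
        rw [h4, mul_rt] at this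
        exact this.symm
      obtain ⟨j, hj⟩ := Option.ne_none_iff_exists'.1 h3
      refine ⟨j, Finset.mem_univ _, ?_⟩
      rw [mem_Sub]
      have h5 := dst_nb_of_fs j u v hj
      refine ⟨by omega, ?_⟩
      rw [ne_eq, fs_nb_iff]
      simpa using hj

lemma mem_Bl_rt {N : ℕ} {v : V b} : v ∈ Bl N (rt b) ↔ len v ≤ N := by
  rw [mem_Bl, dst_rt]

lemma Sub_mono {N N' : ℕ} (h : N ≤ N') (u : V b) (i : Fin (b + 1)) : Sub N u i ⊆ Sub N' u i := by
  intro v hv
  rw [mem_Sub] at hv ⊢
  exact ⟨by omega, hv.2⟩

lemma Bl_mono {N N' : ℕ} (h : N ≤ N') (u : V b) : Bl N u ⊆ Bl N' u := by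
  intro v hv
  rw [mem_Bl] at hv ⊢
  omega

lemma Sub_subset_Bl (N : ℕ) (u : V b) (i : Fin (b + 1)) : Sub N u i ⊆ Bl N u := by
  intro v hv
  rw [mem_Sub] at hv
  rw [mem_Bl]
  omega

lemma not_mem_Sub_nb (N : ℕ) (u : V b) (j : Fin (b + 1)) : u ∉ Sub N (nb j u) j := by
  intro h
  have := (mem_Sub.1 h).2
  rw [ne_eq, fs_nb_iff] at this
  apply this
  rw [inv_mul']; simp

/-- The vertices of the branch of `nb j u` are characterised by the first step. -/
lemma fs_of_mem_Sub_nb {N : ℕ} {u : V b} {j : Fin (b + 1)} {v : V b} (h : v ∈ Sub N (nb j u) j) :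
    fs (mul (inv u) v) = some j := by
  by_contra h4
  exact (mem_Sub.1 h).2 ((fs_nb_iff j u v).2 h4)

lemma Sub_nb_disjoint (N N' : ℕ) (u : V b) {i j : Fin (b + 1)} (hij : i ≠ j) :
    Disjoint (Sub N (nb i u) i) (Sub N' (nb j u) j) := by
  rw [Finset.disjoint_left]
  intro v h1 h2
  have h3 := fs_of_mem_Sub_nb h1
  have h4 := fs_of_mem_Sub_nb h2
  rw [h3] at h4
  exact hij (by simpa using h4)

lemma mem_Sub_mul {N : ℕ} {g u : V b} {i : Fin (b + 1)} {v : V b} :
    mul g v ∈ Sub N (mul g u) i ↔ v ∈ Sub N u i := by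
  rw [mem_Sub, mem_Sub, dst_mul, inv_mul_rev, mul_asc, inv_mul_cancel_left']

lemma mem_Bl_mul {N : ℕ} {g u v : V b} : mul g v ∈ Bl N (mul g u) ↔ v ∈ Bl N u := by
  rw [mem_Bl, mem_Bl, dst_mul]

/-! ### Children and spheres -/

/-- Colours leading to children. -/
def ch (v : V b) : Finset (Fin (b + 1)) := Finset.univ.filter (fun j => len v < len (nb j v))

lemma mem_ch {v : V b} {j : Fin (b + 1)} : j ∈ ch v ↔ v.l.head? ≠ some j := by
  unfold ch
  rw [Finset.mem_filter, len_lt_len_nb_iff]
  simp

lemma ch_rt : ch (rt b) = Finset.univ := by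
  ext j; simp [mem_ch]

lemma ch_eq_erase {v : V b} {i : Fin (b + 1)} (h : v.l.head? = some i) :
    ch v = Finset.univ.erase i := by
  ext j
  rw [mem_ch, h]
  simp [eq_comm]

lemma exists_head {v : V b} (hv : v ≠ rt b) : ∃ i, v.l.head? = some i := by
  obtain ⟨l, hl⟩ := v
  cases l with
  | nil => exact absurd rfl hv
  | cons i l => exact ⟨i, rfl⟩

lemma card_ch {v : V b} (hv : v ≠ rt b) : (ch v).card = b := by
  obtain ⟨i, hi⟩ := exists_head hv
  rw [ch_eq_erase hi, Finset.card_erase_of_mem (Finset.mem_univ _)]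
  simp

lemma card_ch_rt : (ch (rt b)).card = b + 1 := by
  rw [ch_rt]; simp

/-- The parent. -/
def par (v : V b) : V b := ⟨v.l.tail, v.h.tail⟩

lemma par_nb {v : V b} {j : Fin (b + 1)} (hj : j ∈ ch v) : par (nb j v) = v := by
  ext1
  show (nb j v).l.tail = v.l
  rw [nb_l_of_not_head j v (mem_ch.1 hj)]; rfl

lemma nb_par {v : V b} {i : Fin (b + 1)} (h : v.l.head? = some i) : nb i (par v) = v := by
  have h1 : par v = nb i v := by
    ext1
    rw [nb_l_of_head i v h]; rfl
  rw [h1, nb_nb]

lemma head_mem_ch_par {v : V b} {i : Fin (b + 1)} (h : v.l.head? = some i) : i ∈ ch (par v) := by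
  rw [mem_ch]
  intro h2
  have h3 := (nb_head_iff i (par v)).1 (by rw [nb_par h]; exact h)
  exact h3 h2

lemma len_nb_ch {v : V b} {j : Fin (b + 1)} (hj : j ∈ ch v) : len (nb j v) = len v + 1 :=
  len_nb_of_not_head j v (mem_ch.1 hj)

/-- Non-root vertices are pairs (parent, colour of the last step). -/
noncomputable def childE : (Σ v : V b, {j // j ∈ ch v}) ≃ {v : V b // v ≠ rt b} where
  toFun p := ⟨nb p.2.1 p.1, by
    intro h
    have := len_nb_ch p.2.2
    rw [h] at this
    simp at this⟩
  invFun v := ⟨par v.1, ⟨(exists_head v.2).choose, head_mem_ch_par (exists_head v.2).choose_spec⟩⟩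
  left_inv := by
    rintro ⟨v, ⟨j, hj⟩⟩
    have hne : nb j v ≠ rt b := by
      intro h
      have := len_nb_ch hj
      rw [h] at this
      simp at this
    have h1 : par (nb j v) = v := par_nb hj
    have h2 : (exists_head hne).choose = j := by
      have h3 := (exists_head hne).choose_spec
      have h4 : (nb j v).l.head? = some j := by
        rw [nb_l_of_not_head j v (mem_ch.1 hj)]; rfl
      exact Option.some.inj (h3.symm.trans h4)
    simp only
    refine Sigma.ext h1 ?_
    simp only
    have key : ∀ (w : V b) (hw : w = v) (k : Fin (b + 1)) (hk : k ∈ ch w) (hkj : k = j),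
        HEq (⟨k, hk⟩ : {j // j ∈ ch w}) (⟨j, hj⟩ : {j // j ∈ ch v}) := by
      rintro w rfl k hk rfl
      rfl
    exact key _ h1 _ _ h2
  right_inv := by
    rintro ⟨v, hv⟩
    apply Subtype.ext
    exact nb_par (exists_head hv).choose_spec

lemma tsum_split (F : V b → ENNReal) :
    ∑' v, F v = F (rt b) + ∑' v, ∑ j ∈ ch v, F (nb j v) := by
  have h1 : ∑' v, F v = F (rt b) + ∑' v : {v : V b // v ≠ rt b}, F v.1 := by
    rw [ENNReal.tsum_eq_add_tsum_ite (rt b)]
    congr 1
    have h2 := tsum_subtype {v : V b | v ≠ rt b} F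
    rw [show (∑' v : {v : V b // v ≠ rt b}, F v.1) =
      ∑' v : ↑{v : V b | v ≠ rt b}, F ↑v from rfl, h2]
    congr 1
    ext v
    by_cases hv : v = rt b
    · simp [hv]
    · simp [hv]
  rw [h1, ← childE.tsum_eq (fun v : {v : V b // v ≠ rt b} => F v.1)]
  congr 1
  rw [ENNReal.tsum_sigma']
  congr 1
  ext v
  rw [tsum_fintype]
  exact Finset.sum_coe_sort (ch v) (fun j => F (nb j v))

/-- The sphere of radius `n` around the root. -/
def Sph (b n : ℕ) : Finset (V b) := (Bl n (rt b)).filter (fun v => len v = n)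

lemma mem_Sph {n : ℕ} {v : V b} : v ∈ Sph b n ↔ len v = n := by
  unfold Sph
  rw [Finset.mem_filter, mem_Bl_rt]
  omega

lemma Sph_zero : Sph b 0 = {rt b} := by
  ext v
  rw [mem_Sph, len_eq_zero_iff, Finset.mem_singleton]

lemma sum_Sph_succ {R : Type*} [AddCommMonoid R] (n : ℕ) (F : V b → R) :
    ∑ v ∈ Sph b (n + 1), F v = ∑ v ∈ Sph b n, ∑ j ∈ ch v, F (nb j v) := by
  rw [Finset.sum_sigma']
  symm
  apply Finset.sum_bij (fun (p : Σ _ : V b, Fin (b + 1)) _ => nb p.2 p.1)
  · rintro ⟨v, j⟩ hp
    rw [Finset.mem_sigma] at hp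
    rw [mem_Sph, len_nb_ch hp.2, mem_Sph.1 hp.1]
  · rintro ⟨v, j⟩ hp ⟨v', j'⟩ hp' h
    rw [Finset.mem_sigma] at hp hp'
    simp only at h hp hp'
    have h1 : v = v' := by
      rw [← par_nb hp.2, h, par_nb hp'.2]
    subst h1
    have h2 := nb_inj_color j j' v h
    subst h2
    rfl
  · intro v hv
    have hv0 : v ≠ rt b := by
      rintro rfl
      rw [mem_Sph] at hv
      simp at hv
    obtain ⟨i, hi⟩ := exists_head hv0
    refine ⟨⟨par v, i⟩, ?_, nb_par hi⟩
    rw [Finset.mem_sigma]
    refine ⟨?_, head_mem_ch_par hi⟩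
    rw [mem_Sph] at hv ⊢
    have := len_nb_ch (head_mem_ch_par hi)
    rw [nb_par hi] at this
    simp only
    omega
  · rintro ⟨v, j⟩ hp
    rfl

lemma card_Sph_succ (n : ℕ) : (Sph b (n + 1)).card = (b + 1) * b ^ n := by
  induction n with
  | zero =>
    rw [Finset.card_eq_sum_ones, sum_Sph_succ, Sph_zero, Finset.sum_singleton,
      ← Finset.card_eq_sum_ones, card_ch_rt]
    simp
  | succ n ih =>
    rw [Finset.card_eq_sum_ones, sum_Sph_succ]
    have : ∀ v ∈ Sph b (n + 1), ∑ j ∈ ch v, 1 = b := by
      intro v hv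
      rw [← Finset.card_eq_sum_ones, card_ch]
      rintro rfl
      rw [mem_Sph] at hv
      simp at hv
    rw [Finset.sum_congr rfl this, Finset.sum_const, ih, smul_eq_mul, pow_succ]
    ring

/-- Decomposition of a sum over the tree into spheres. -/
lemma tsum_eq_tsum_Sph (F : V b → ENNReal) : ∑' v, F v = ∑' n, ∑ v ∈ Sph b n, F v := by
  have h := (Equiv.sigmaFiberEquiv (fun v : V b => len v)).tsum_eq F
  rw [← h, ENNReal.tsum_sigma']
  congr 1
  ext n
  have h2 := tsum_subtype {v : V b | len v = n} F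
  have h3 : ∑' (x : {v : V b // len v = n}), F x.1 = ∑ v ∈ Sph b n, F v := by
    rw [show (∑' v : {v : V b // len v = n}, F v.1) =
      ∑' v : ↑{v : V b | len v = n}, F ↑v from rfl, h2]
    rw [tsum_eq_sum (s := Sph b n)]
    · apply Finset.sum_congr rfl
      intro v hv
      rw [mem_Sph] at hv
      simp [hv]
    · intro v hv
      rw [mem_Sph] at hv
      simp [hv]
  exact h3

lemma tsum_len (f : ℕ → ENNReal) :
    ∑' w : V b, f (len w) = f 0 + ∑' n, ((b + 1) * b ^ n : ℕ) * f (n + 1) := by
  rw [tsum_eq_tsum_Sph, tsum_eq_zero_add' ENNReal.summable]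
  congr 1
  · rw [Sph_zero, Finset.sum_singleton]; rfl
  · congr 1
    ext n
    rw [Finset.sum_congr rfl (g := fun _ => f (n + 1))]
    · rw [Finset.sum_const, card_Sph_succ, nsmul_eq_mul]
    · intro v hv
      rw [mem_Sph.1 hv]

/-- Mass transport. -/
lemma mass_transport (f : V b → V b → ENNReal) (hf : ∀ g u v, f (mul g u) (mul g v) = f u v) :
    ∑' v, f (rt b) v = ∑' v, f v (rt b) := by
  rw [← (invE (b := b)).tsum_eq (fun v => f v (rt b))]
  congr 1
  ext v
  have := hf (inv v) (rt b) v
  rw [mul_rt, inv_mul'] at this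
  exact this.symm

/-! ### Automorphisms -/

/-- Left multiplication as an automorphism. -/
def lmulIso (g : V b) : GG b ≃g GG b where
  toEquiv := lmulE g
  map_rel_iff' := by
    intro u v
    show (mul g u ≠ mul g v ∧ ∃ i, mul g v = nb i (mul g u)) ↔ (u ≠ v ∧ ∃ i, v = nb i u)
    constructor
    · rintro ⟨h1, i, h2⟩
      refine ⟨fun h => h1 (by rw [h]), i, ?_⟩
      rw [nb_mul] at h2
      exact (lmulE g).injective h2
    · rintro ⟨h1, i, h2⟩
      refine ⟨fun h => h1 ((lmulE g).injective h), i, ?_⟩
      rw [nb_mul, h2]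

@[simp] lemma lmulIso_apply (g v : V b) : lmulIso g v = mul g v := rfl

lemma adj_iff (u v : V b) : (GG b).Adj u v ↔ ∃ i, v = nb i u := by
  constructor
  · rintro ⟨-, h⟩; exact h
  · rintro ⟨i, rfl⟩
    exact ⟨fun h => nb_ne i u h.symm, i, rfl⟩

lemma exists_color (φ : GG b ≃g GG b) (u : V b) (i : Fin (b + 1)) :
    ∃ j, φ (nb i u) = nb j (φ u) := by
  have h : (GG b).Adj u (nb i u) := (adj_iff _ _).2 ⟨i, rfl⟩
  exact (adj_iff _ _).1 (φ.map_rel_iff.2 h)

/-- Colour of the image of an edge under an automorphism. -/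
noncomputable def colF (φ : GG b ≃g GG b) (u : V b) (i : Fin (b + 1)) : Fin (b + 1) :=
  (exists_color φ u i).choose

lemma colF_spec (φ : GG b ≃g GG b) (u : V b) (i : Fin (b + 1)) :
    φ (nb i u) = nb (colF φ u i) (φ u) := (exists_color φ u i).choose_spec

lemma colF_injective (φ : GG b ≃g GG b) (u : V b) : Function.Injective (colF φ u) := by
  intro i j h
  have h1 : φ (nb i u) = φ (nb j u) := by rw [colF_spec, colF_spec, h]
  exact nb_inj_color i j u (φ.injective h1)

/-- The permutation of colours at `u` induced by an automorphism. -/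
noncomputable def colE (φ : GG b ≃g GG b) (u : V b) : Equiv.Perm (Fin (b + 1)) :=
  Equiv.ofBijective (colF φ u) (Finite.injective_iff_bijective.1 (colF_injective φ u))

lemma colE_spec (φ : GG b ≃g GG b) (u : V b) (i : Fin (b + 1)) :
    φ (nb i u) = nb (colE φ u i) (φ u) := colF_spec φ u i

/-- The colour of an edge seen from the other endpoint is the same. -/
lemma colE_nb (φ : GG b ≃g GG b) (u : V b) (i : Fin (b + 1)) :
    colE φ (nb i u) i = colE φ u i := by
  have h1 := colE_spec φ (nb i u) i
  rw [nb_nb, colE_spec φ u i] at h1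
  have h2 : nb (colE φ u i) (φ u) = nb (colE φ (nb i u) i) (φ u) := by
    conv_rhs => rw [h1]
    rw [nb_nb]
  exact (nb_inj_color _ _ _ h2).symm

end Crest.Agent.Isg
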