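import Crest.Agent.IsgSpec
import Crest.Agent.IsgTree
import Crest.Agent.H14Read

set_option autoImplicit false

/-!
Assembly for S0241.
-/

universe u

open MeasureTheory ProbabilityTheory Filter Topology

namespace Crest.Agent.IsgAsm

open Crest.Agent.Isg Crest.ProbabilityR.TreeIsing

/-! ### Transport along isomorphisms -/

lemma isingWeight_iso {W W' : Type*} {G : SimpleGraph W} {G' : SimpleGraph W'} (e : G ≃g G') (θ : ℝ)
    (S : Finset W) (η : W → Bool) :
    isingWeight G' θ (S.map e.toEquiv.toEmbedding) (fun v => η (e.symm v)) =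
      isingWeight G θ S η := by
  classical
  unfold isingWeight
  congr 1
  symm
  apply Finset.prod_bij (fun x _ => Sym2.map e x)
  · intro x he
    rw [Finset.mem_filter] at he ⊢
    induction x using Sym2.ind with
    | _ x y =>
      rw [Finset.mk_mem_sym2_iff, SimpleGraph.mem_edgeSet] at he
      rw [Sym2.map_mk, Finset.mk_mem_sym2_iff, SimpleGraph.mem_edgeSet]
      refine ⟨⟨Finset.mem_map_of_mem _ he.1.1, Finset.mem_map_of_mem _ he.1.2⟩, ?_⟩
      exact e.map_rel_iff.2 he.2
  · intro x _ x' _ h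
    exact Sym2.map.injective e.injective h
  · intro x he
    rw [Finset.mem_filter] at he
    induction x using Sym2.ind with
    | _ x y =>
      rw [Finset.mk_mem_sym2_iff, SimpleGraph.mem_edgeSet, Finset.mem_map, Finset.mem_map] at he
      obtain ⟨⟨⟨x', hx', rfl⟩, ⟨y', hy', rfl⟩⟩, hadj⟩ := he
      refine ⟨s(x', y'), ?_, rfl⟩
      rw [Finset.mem_filter, Finset.mk_mem_sym2_iff, SimpleGraph.mem_edgeSet]
      exact ⟨⟨hx', hy'⟩, e.map_rel_iff.1 hadj⟩
  · intro x _
    induction x using Sym2.ind with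
    | _ x y =>
      simp only [Sym2.map_mk, Sym2.mk_isDiag_iff, RelIso.symm_apply_apply]

lemma connected_iso {W W' : Type*} {G : SimpleGraph W} {G' : SimpleGraph W'} (e : G ≃g G')
    (S : Finset W) (h : (G.induce (S : Set W)).Connected) :
    (G'.induce ((S.map e.toEquiv.toEmbedding : Finset W') : Set W')).Connected := by
  classical
  have f : G.induce (S : Set W) ≃g
      G'.induce ((S.map e.toEquiv.toEmbedding : Finset W') : Set W') :=
    { toFun := fun x => ⟨e x.1, by
        have := x.2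
        simp only [Finset.coe_map, Set.mem_image, Finset.mem_coe] at this ⊢
        exact ⟨x.1, this, rfl⟩⟩
      invFun := fun y => ⟨e.symm y.1, by
        have := y.2
        simp only [Finset.coe_map, Set.mem_image, Finset.mem_coe] at this ⊢
        obtain ⟨x, hx, hxy⟩ := this
        rw [← hxy]
        have : e.symm (e.toEquiv.toEmbedding x) = x := e.symm_apply_apply x
        rw [this]; exact hx⟩
      left_inv := fun x => Subtype.ext (e.symm_apply_apply x.1)
      right_inv := fun y => Subtype.ext (e.apply_symm_apply y.1)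
      map_rel_iff' := by
        intro x y
        exact e.map_rel_iff }
  exact f.connected_iff.1 h

/-- The statement on the word tree. -/
def TreeFactor : Prop := ∀ (b : ℕ) (θ : ℝ), 2 ≤ b → 0 ≤ θ → b * θ ^ 2 ≤ 1 →
  ∃ Φ : (V b → UI) → (V b → Bool), Measurable Φ ∧
    (∀ (g : GG b ≃g GG b) (x : V b → UI), Φ (fun v => x (g v)) = fun v => Φ x (g v)) ∧
    (noise (V b)).map Φ = mu b θ

theorem transport (hTF : TreeFactor) (hTI : Spec.TreeIso.{u}) (hMW : Spec.MuWeight)
    (d : ℕ) (hd : 3 ≤ d) (β : ℝ)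
    (hβ : 0 ≤ β) (hθ : Real.tanh β ≤ ((d : ℝ) - 1) ^ (-(1 / 2 : ℝ))) (W : Type u)
    (G : SimpleGraph W) [G.LocallyFinite] (hT : G.IsTree) (hreg : G.IsRegularOfDegree d) :
    ∃ Φ : (W → unitInterval) → (W → Bool),
      Measurable Φ ∧
      (∀ (g : G ≃g G) (x : W → unitInterval), Φ (x ∘ ⇑g) = Φ x ∘ ⇑g) ∧
      ∀ (S : Finset W) (η : W → Bool), (G.induce (S : Set W)).Connected →
        (Crest.ProbabilityR.Labels.labelMeasure W).map Φ {σ | ∀ v ∈ S, σ v = η v} =
          ENNReal.ofReal (Crest.ProbabilityR.TreeIsing.isingWeight G (Real.tanh β) S η) := by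
  obtain ⟨b, rfl⟩ : ∃ b, d = b + 1 := ⟨d - 1, by omega⟩
  have hb : 2 ≤ b := by omega
  have hbpos : (0 : ℝ) < b := by
    have : (2 : ℝ) ≤ b := by exact_mod_cast hb
    linarith
  set θ := Real.tanh β with hθd
  have h0 : 0 ≤ θ := by
    rw [hθd, Real.tanh_eq_sinh_div_cosh]
    exact div_nonneg (Real.sinh_nonneg_iff.2 hβ) (Real.cosh_pos β).le
  have hc : (b : ℝ) * θ ^ 2 ≤ 1 := by
    have h1 : ((b + 1 : ℕ) : ℝ) - 1 = b := by push_cast; ring
    rw [h1] at hθ
    have h2 : θ ^ 2 ≤ ((b : ℝ) ^ (-(1 / 2 : ℝ))) ^ 2 := by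
      apply pow_le_pow_left₀ h0 hθ
    have h3 : ((b : ℝ) ^ (-(1 / 2 : ℝ))) ^ 2 = (b : ℝ)⁻¹ := by
      rw [← Real.rpow_natCast, ← Real.rpow_mul hbpos.le]
      norm_num
      rw [Real.rpow_neg_one]
    rw [h3] at h2
    calc (b : ℝ) * θ ^ 2 ≤ b * (b : ℝ)⁻¹ := by
          apply mul_le_mul_of_nonneg_left h2 hbpos.le
      _ = 1 := mul_inv_cancel₀ hbpos.ne'
  have h1 : θ < 1 := by
    by_contra h
    push Not at h
    have h2 : (2 : ℝ) ≤ b := by exact_mod_cast hb
    nlinarith
  obtain ⟨Φ, hΦm, hΦe, hΦl⟩ := hTF b θ hb h0 hc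
  obtain ⟨e⟩ := hTI b hb W G hT hreg
  have hem : Measurable (fun (x : W → unitInterval) (v : V b) => x (e.symm v)) :=
    measurable_pi_lambda _ (fun v => measurable_pi_apply _)
  have hem2 : Measurable (fun (x : V b → Bool) (v : W) => x (e v)) :=
    measurable_pi_lambda _ (fun v => measurable_pi_apply _)
  have hlaw : (Crest.ProbabilityR.Labels.labelMeasure W).map
      (fun (x : W → unitInterval) (v : V b) => x (e.symm v)) = noise (V b) :=
    H14.noise_comp_inj (A := V b) (O := W) (fun v => e.symm v) e.symm.injective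
  have hcW : Countable W := Countable.of_equiv (V b) e.toEquiv.symm
  refine ⟨fun x v => Φ (fun w => x (e.symm w)) (e v), hem2.comp (hΦm.comp hem), ?_, ?_⟩
  · intro g x
    have h2 := hΦe ((e.symm.trans g).trans e) (fun w => x (e.symm w))
    funext v
    have h3 : (fun w => (x ∘ g) (e.symm w)) =
        (fun w => (fun w => x (e.symm w)) (((e.symm.trans g).trans e) w)) := by
      funext w
      show x (g (e.symm w)) = x (e.symm (e (g (e.symm w))))
      rw [e.symm_apply_apply]
    show Φ (fun w => (x ∘ g) (e.symm w)) (e v) = Φ (fun w => x (e.symm w)) (e (g v))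
    rw [h3, h2]
    show Φ (fun w => x (e.symm w)) (e (g (e.symm (e v)))) = _
    rw [e.symm_apply_apply]
  · intro S η hS
    have hms : MeasurableSet {σ : W → Bool | ∀ v ∈ S, σ v = η v} := by
      have : {σ : W → Bool | ∀ v ∈ S, σ v = η v} =
          ⋂ v ∈ S, (fun σ : W → Bool => σ v) ⁻¹' {η v} := by
        ext σ; simp
      rw [this]
      apply Finset.measurableSet_biInter
      intro v _
      exact (measurable_pi_apply v) (MeasurableSet.singleton (η v))
    have e1 : (fun (x : W → unitInterval) (v : W) => Φ (fun w => x (e.symm w)) (e v)) =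
        (fun (x : V b → Bool) (v : W) => x (e v)) ∘ (Φ ∘
          (fun (x : W → unitInterval) (v : V b) => x (e.symm v))) := rfl
    rw [e1, ← Measure.map_map hem2 (hΦm.comp hem), ← Measure.map_map hΦm hem, hlaw, hΦl,
      Measure.map_apply hem2 hms]
    have e2 : (fun (x : V b → Bool) (v : W) => x (e v)) ⁻¹' {σ : W → Bool | ∀ v ∈ S, σ v = η v} =
        {σ : V b → Bool | ∀ v ∈ S.map e.toEquiv.toEmbedding, σ v = η (e.symm v)} := by
      ext σ
      simp only [Set.mem_preimage, Set.mem_ofPred_eq, Finset.mem_map, forall_exists_index, and_imp,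
        forall_apply_eq_imp_iff₂]
      constructor
      · intro h a ha
        have h3 := h a ha
        have h4 : e.symm (e.toEquiv.toEmbedding a) = a := e.symm_apply_apply a
        rw [h4]; exact h3
      · intro h a ha
        have h3 := h a ha
        have h4 : e.symm (e.toEquiv.toEmbedding a) = a := e.symm_apply_apply a
        rw [h4] at h3; exact h3
    rw [e2, hMW b θ (by omega) h0 h1 _ _ (connected_iso e S hS), isingWeight_iso]

/-- The factor map on the word tree. -/
theorem treeFactor (hTriple : Spec.Triple)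
    (hTS : Spec.TailStrict) (hTC : Spec.TailCrit) (hDecay : Spec.Decay) (hCF : Spec.ChanFamT)
    (hPair : Spec.PairT) (hIneq : Spec.Ineq) (hUS : Spec.UniqStrict) (hUC : Spec.UniqCrit)
    (hSK : Spec.StrictKK) (hCr : Spec.Crude) (hNear : Spec.Near) (hSMsg : Spec.SmallMsg)
    (hSMag : Spec.SmallMag) (hTail : Spec.Tail) (hSame : Spec.SameY) (hFinal : Spec.Final) :
    TreeFactor := by
  intro b θ hb h0 hc
  have h1 : θ < 1 := by
    by_contra h
    push Not at h
    have h2 : (2 : ℝ) ≤ b := by exact_mod_cast hb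
    nlinarith
  have hb1 : 1 ≤ b := by omega
  obtain ⟨L, hLp, hL, hLΦ⟩ := hTriple b θ hb1 h0 h1
  have hPairT := (hPair b θ hb1 h0 h1).2 L hLp hL
  have hAA : ∀ τ, 0 < τ → AA θ (LT L τ) = 0 := by
    rcases lt_or_eq_of_le hc with hlt | heq
    · have hTH := hTS b θ hb h0 hlt
      exact hUS hSK b θ hb h0 hlt rhoT (fun t => LT L t) hCF hPairT
        (hIneq b θ hb h0 h1 hTH L hLp hL)
    · have hpos : 0 < θ := by
        rcases h0.lt_or_eq with h | h
        · exact h
        · rw [← h] at heq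
          simp at heq
      have hTH := hTC hDecay hCF b θ hb hpos heq
      exact hUC ⟨hCr, hNear, hSMsg, hSMag, hTail⟩ b θ hb h0 heq rhoT (fun t => LT L t) hCF hPairT
        (hIneq b θ hb h0 h1 hTH L hLp hL)
  have hY := hSame b θ hb h0 h1 L hLp hL hAA
  exact hFinal b θ hb h0 h1 (hLΦ hY)

end Crest.Agent.IsgAsm
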