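import Crest.Agent.IsgEqvB

set_option autoImplicit false

/-!
Module BP for S0241: belief propagation formulas (Markov structure of `mu`).
-/

open MeasureTheory ProbabilityTheory Filter Topology

namespace Crest.Agent.Isg

/-- Resampling one coordinate does not change an infinite product measure. -/
lemma infinitePi_resample {O X : Type*} [DecidableEq O] [MeasurableSpace X] (ν : Measure X)
    [IsProbabilityMeasure ν] (o : O) :
    (ν.prod (Measure.infinitePi (fun _ : O => ν))).map (fun p => Function.update p.2 o p.1) =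
      Measure.infinitePi (fun _ : O => ν) := by
  have hm : Measurable (fun p : X × (O → X) => Function.update p.2 o p.1) := by
    apply measurable_pi_lambda
    intro w
    by_cases hw : w = o
    · subst hw
      simpa using measurable_fst
    · simp only [Function.update_of_ne hw]
      exact (measurable_pi_apply w).comp measurable_snd
  apply Measure.eq_infinitePi
  intro s t ht
  rw [Measure.map_apply hm (MeasurableSet.pi s.countable_toSet (fun i _ => ht i))]
  have hset : (fun p : X × (O → X) => Function.update p.2 o p.1) ⁻¹' ((s : Set O).pi t) =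
      (if o ∈ s then t o else Set.univ) ×ˢ (((s.erase o : Finset O) : Set O).pi t) := by
    ext ⟨x, y⟩
    simp only [Set.mem_preimage, Set.mem_pi, Set.mem_prod, Finset.coe_erase, Finset.mem_coe,
      Set.mem_sdiff, Set.mem_singleton_iff]
    constructor
    · intro h
      refine ⟨?_, ?_⟩
      · by_cases ho : o ∈ s
        · rw [if_pos ho]
          have := h o ho
          simpa using this
        · rw [if_neg ho]; trivial
      · intro i hi
        have := h i hi.1
        rwa [Function.update_of_ne hi.2] at this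
    · rintro ⟨h1, h2⟩ i hi
      by_cases hio : i = o
      · subst hio
        rw [if_pos hi] at h1
        simpa using h1
      · rw [Function.update_of_ne hio]
        exact h2 i ⟨hi, hio⟩
  rw [hset, Measure.prod_prod, Measure.infinitePi_pi _ (fun i _ => ht i)]
  by_cases ho : o ∈ s
  · rw [if_pos ho, Finset.mul_prod_erase s (fun i => ν (t i)) ho]
  · rw [if_neg ho, measure_univ, one_mul, Finset.erase_eq_of_notMem ho]

variable {b : ℕ}

/-! ### Nice functions of the spins -/

/-- Bounded measurable functions of the spins. -/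
def Nice (G : (V b → Bool) → ℝ) : Prop := Measurable G ∧ ∃ C : ℝ, ∀ σ, |G σ| ≤ C

lemma Nice.mul {G G' : (V b → Bool) → ℝ} (h : Nice G) (h' : Nice G') :
    Nice (fun σ => G σ * G' σ) := by
  obtain ⟨m, C, hC⟩ := h
  obtain ⟨m', C', hC'⟩ := h'
  refine ⟨m.mul m', C * C', fun σ => ?_⟩
  rw [abs_mul]
  have := abs_nonneg (G σ)
  have := abs_nonneg (G' σ)
  have := hC σ
  have := hC' σ
  nlinarith

lemma Nice.const (c : ℝ) : Nice (fun _ : V b → Bool => c) :=
  ⟨measurable_const, |c|, fun _ => le_refl _⟩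

lemma Nice.coord (φ : Bool → ℝ) (v : V b) : Nice (fun σ : V b → Bool => φ (σ v)) := by
  refine ⟨(measurable_of_countable φ).comp (measurable_pi_apply v), |φ true| + |φ false|, ?_⟩
  intro σ
  show |φ (σ v)| ≤ |φ true| + |φ false|
  cases σ v
  · linarith [abs_nonneg (φ true)]
  · linarith [abs_nonneg (φ false)]

lemma Nice.prod {ι : Type*} (s : Finset ι) (G : ι → (V b → Bool) → ℝ) (h : ∀ i ∈ s, Nice (G i)) :
    Nice (fun σ => ∏ i ∈ s, G i σ) := by
  classical
  induction s using Finset.induction_on with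
  | empty => simpa using Nice.const 1
  | insert a s ha ih =>
    have h1 : (fun σ => ∏ i ∈ insert a s, G i σ) = fun σ => G a σ * ∏ i ∈ s, G i σ := by
      funext σ; rw [Finset.prod_insert ha]
    rw [h1]
    exact (h a (Finset.mem_insert_self _ _)).mul
      (ih (fun i hi => h i (Finset.mem_insert_of_mem hi)))

lemma Nice.integrable {G : (V b → Bool) → ℝ} (h : Nice G) (μ : Measure (V b → Bool))
    [IsFiniteMeasure μ] : Integrable G μ := by
  obtain ⟨m, C, hC⟩ := h
  exact Integrable.of_bound m.aestronglyMeasurable C (ae_of_all _ hC)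

/-! ### The Markov property of `mu` -/

/-- The one step operator. -/
noncomputable def Kop (θ : ℝ) (φ : Bool → ℝ) (s : Bool) : ℝ :=
  (1 + θ) / 2 * φ s + (1 - θ) / 2 * φ (!s)

lemma integral_bern {p : ℝ} (h0 : 0 ≤ p) (h1 : p ≤ 1) (φ : Bool → ℝ) :
    ∫ x, φ x ∂(bern p) = p * φ true + (1 - p) * φ false := by
  have i1 : Integrable φ (ENNReal.ofReal p • Measure.dirac true) :=
    Integrable.smul_measure (integrable_dirac (by simp)) ENNReal.ofReal_ne_top
  have i2 : Integrable φ (ENNReal.ofReal (1 - p) • Measure.dirac false) :=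
    Integrable.smul_measure (integrable_dirac (by simp)) ENNReal.ofReal_ne_top
  unfold bern
  rw [integral_add_measure i1 i2, integral_smul_measure, integral_smul_measure,
    integral_dirac, integral_dirac, ENNReal.toReal_ofReal h0,
    ENNReal.toReal_ofReal (by linarith)]
  simp

lemma spin_update {s : Bool} {ξ : V b → Bool} {j : Fin (b + 1)} {x : Bool} {v : V b}
    (hv : fs v ≠ some j) :
    spin s (Function.update ξ (nb j (rt b)) x) v = spin s ξ v := by
  obtain ⟨l, hl⟩ := v
  show spinL s (Function.update ξ (nb j (rt b)) x) l hl = spinL s ξ l hl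
  induction l with
  | nil => rfl
  | cons i l ih =>
    simp only [spinL]
    have h1 : (⟨i :: l, hl⟩ : V b) ≠ nb j (rt b) := by
      intro h
      apply hv
      rw [h]; rfl
    have h2 : fs (⟨l, hl.tail⟩ : V b) ≠ some j := by
      intro h
      apply hv
      unfold fs at h ⊢
      simp only at h ⊢
      rw [List.getLast?_cons, h]
      rfl
    rw [Function.update_of_ne h1, ih hl.tail h2]

lemma spin_nb_rt (s : Bool) (ξ : V b → Bool) (j : Fin (b + 1)) :
    spin s ξ (nb j (rt b)) = if ξ (nb j (rt b)) then s else !s := rfl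

lemma integral_mu {θ : ℝ} (h0 : 0 ≤ θ) (h1 : θ < 1) {G : (V b → Bool) → ℝ} (hG : Nice G) :
    ∫ σ, G σ ∂(mu b θ) =
      ∫ s, ∫ ξ, G (spin s ξ) ∂(xiLaw b θ) ∂(bern (1 / 2)) := by
  have := isProb_xiLaw (b := b) h0 h1
  unfold mu
  rw [integral_map measurable_spin.aemeasurable hG.1.aestronglyMeasurable, integral_prod]
  obtain ⟨m, C, hC⟩ := hG
  exact Integrable.of_bound (m.comp measurable_spin).aestronglyMeasurable C
    (ae_of_all _ (fun p => hC _))

lemma markov_rt {θ : ℝ} (h0 : 0 ≤ θ) (h1 : θ < 1) {G : (V b → Bool) → ℝ} (hG : Nice G)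
    (j : Fin (b + 1)) (hd : DependsOn G {w | fs w ≠ some j}) (φ : Bool → ℝ) :
    ∫ σ, G σ * φ (σ (nb j (rt b))) ∂(mu b θ) = ∫ σ, G σ * Kop θ φ (σ (rt b)) ∂(mu b θ) := by
  have := isProb_xiLaw (b := b) h0 h1
  have := isProb_bern_theta h0 h1
  rw [integral_mu h0 h1 (hG.mul (Nice.coord φ _)), integral_mu h0 h1 (hG.mul (Nice.coord _ _))]
  congr 1
  funext s
  simp only [spin_rt]
  rw [integral_mul_const]
  have hm : Measurable (fun p : Bool × (V b → Bool) =>
      Function.update p.2 (nb j (rt b)) p.1) := by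
    apply measurable_pi_lambda
    intro w
    by_cases hw : w = nb j (rt b)
    · subst hw
      simpa using measurable_fst
    · simp only [Function.update_of_ne hw]
      exact (measurable_pi_apply w).comp measurable_snd
  have hspin : Measurable (fun ξ : V b → Bool => spin s ξ) :=
    measurable_spin.comp (measurable_const.prodMk measurable_id)
  have e := infinitePi_resample (bern ((1 + θ) / 2)) (nb j (rt b))
  have hx : xiLaw b θ = Measure.infinitePi (fun _ : V b => bern ((1 + θ) / 2)) := rfl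
  have hF : Measurable (fun ξ : V b → Bool => G (spin s ξ) * φ (spin s ξ (nb j (rt b)))) :=
    (hG.1.comp hspin).mul ((measurable_of_countable φ).comp
      ((measurable_pi_apply _).comp hspin))
  calc ∫ ξ, G (spin s ξ) * φ (spin s ξ (nb j (rt b))) ∂(xiLaw b θ)
      = ∫ p, G (spin s (Function.update p.2 (nb j (rt b)) p.1)) *
          φ (spin s (Function.update p.2 (nb j (rt b)) p.1) (nb j (rt b)))
          ∂((bern ((1 + θ) / 2)).prod (xiLaw b θ)) := by
        rw [hx]
        conv_lhs => rw [← e]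
        rw [integral_map hm.aemeasurable hF.aestronglyMeasurable]
    _ = ∫ p, φ (if p.1 then s else !s) * G (spin s p.2)
          ∂((bern ((1 + θ) / 2)).prod (xiLaw b θ)) := by
        congr 1
        funext p
        have h2 : G (spin s (Function.update p.2 (nb j (rt b)) p.1)) = G (spin s p.2) := by
          apply hd
          intro w hw
          exact spin_update hw
        rw [h2, spin_nb_rt, Function.update_self, mul_comm]
    _ = (∫ x, φ (if x then s else !s) ∂(bern ((1 + θ) / 2))) *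
          ∫ ξ, G (spin s ξ) ∂(xiLaw b θ) :=
        integral_prod_mul (fun x : Bool => φ (if x then s else !s)) (fun ξ => G (spin s ξ))
    _ = (∫ ξ, G (spin s ξ) ∂(xiLaw b θ)) * Kop θ φ s := by
        rw [mul_comm]
        congr 1
        rw [integral_bern (by linarith) (by linarith)]
        unfold Kop
        simp only [if_true, Bool.false_eq_true, if_false]
        ring

/-- Change of variables by left multiplication. -/
lemma integral_mu_mul (hmu : Spec.MuInv) (hb : 1 ≤ b) {θ : ℝ} (h0 : 0 ≤ θ) (h1 : θ < 1)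
    {G : (V b → Bool) → ℝ} (hG : Measurable G) (g : V b) :
    ∫ σ, G σ ∂(mu b θ) = ∫ σ, G (fun w => σ (mul g w)) ∂(mu b θ) := by
  have e := (hmu b θ hb h0 h1).2 (lmulIso g)
  conv_lhs => rw [← e]
  rw [integral_map (measurable_reindex _).aemeasurable hG.aestronglyMeasurable]
  rfl

/-- The Markov property along the edge from `v` to `nb j v`. -/
lemma markov (hmu : Spec.MuInv) (hb : 1 ≤ b) {θ : ℝ} (h0 : 0 ≤ θ) (h1 : θ < 1)
    {G : (V b → Bool) → ℝ} (hG : Nice G) (v : V b) (j : Fin (b + 1))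
    (hd : DependsOn G {w | fs (mul (inv v) w) ≠ some j}) (φ : Bool → ℝ) :
    ∫ σ, G σ * φ (σ (nb j v)) ∂(mu b θ) = ∫ σ, G σ * Kop θ φ (σ v) ∂(mu b θ) := by
  rw [integral_mu_mul hmu hb h0 h1 (hG.mul (Nice.coord φ _)).1 (inv v),
    integral_mu_mul hmu hb h0 h1 (hG.mul (Nice.coord (Kop θ φ) v)).1 (inv v)]
  have e1 : mul (inv v) (nb j v) = nb j (rt b) := by rw [← nb_mul, inv_mul']
  have e2 : mul (inv v) v = rt b := inv_mul' v
  simp only [e1, e2]
  have hG' : Nice (fun σ : V b → Bool => G (fun w => σ (mul (inv v) w))) := by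
    obtain ⟨m, C, hC⟩ := hG
    exact ⟨m.comp (measurable_reindex _), C, fun σ => hC _⟩
  apply markov_rt h0 h1 hG' j
  intro σ σ' hσ
  apply hd
  intro w hw
  exact hσ _ hw

/-- One-point marginals. -/
lemma integral_coord (hmu : Spec.MuInv) (hb : 1 ≤ b) {θ : ℝ} (h0 : 0 ≤ θ) (h1 : θ < 1)
    (φ : Bool → ℝ) (v : V b) :
    ∫ σ, φ (σ v) ∂(mu b θ) = (φ true + φ false) / 2 := by
  have := isProb_xiLaw (b := b) h0 h1
  rw [integral_mu_mul hmu hb h0 h1 (Nice.coord φ v).1 (inv v)]
  simp only [inv_mul']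
  rw [integral_mu h0 h1 (Nice.coord φ (rt b))]
  simp only [spin_rt, integral_const, probReal_univ, one_smul]
  rw [integral_bern (by norm_num) (by norm_num)]
  ring

/-! ### Peeling -/

/-- Partition functions of the branches. -/
noncomputable def Zs (θ : ℝ) (f : V b → Bool → ℝ) : ℕ → V b → Fin (b + 1) → Bool → ℝ
  | 0, _, _, _ => 1
  | N + 1, v, i, s => f v s * ∏ j ∈ Finset.univ.erase i, Kop θ (Zs θ f N (nb j v) j) s

lemma prod_Sub_succ (N : ℕ) (v : V b) (i : Fin (b + 1)) (F : V b → ℝ) :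
    ∏ w ∈ Sub (N + 1) v i, F w =
      F v * ∏ j ∈ Finset.univ.erase i, ∏ w ∈ Sub N (nb j v) j, F w := by
  rw [Sub, Finset.prod_insert, Finset.prod_biUnion]
  · intro j _ j' _ hjj'
    exact Sub_nb_disjoint N N v hjj'
  · intro h
    obtain ⟨j, _, hj⟩ := Finset.mem_biUnion.1 h
    exact not_mem_Sub_nb N v j hj

lemma prod_Bl (N : ℕ) (v : V b) (F : V b → ℝ) :
    ∏ w ∈ Bl N v, F w = F v * ∏ j : Fin (b + 1), ∏ w ∈ Sub N (nb j v) j, F w := by
  rw [Bl, Finset.prod_insert, Finset.prod_biUnion]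
  · intro j _ j' _ hjj'
    exact Sub_nb_disjoint N N v hjj'
  · intro h
    obtain ⟨j, _, hj⟩ := Finset.mem_biUnion.1 h
    exact not_mem_Sub_nb N v j hj

/-- Peeling several branches at `v`, given the peeling of one branch of depth `N`. -/
lemma peelT (hmu : Spec.MuInv) (hb : 1 ≤ b) {θ : ℝ} (h0 : 0 ≤ θ) (h1 : θ < 1)
    (f : V b → Bool → ℝ) (N : ℕ)
    (ih : ∀ (v : V b) (i : Fin (b + 1)) (G : (V b → Bool) → ℝ), Nice G →
      DependsOn G {w | w = v ∨ fs (mul (inv v) w) = some i} →
      ∫ σ, G σ * ∏ w ∈ Sub N v i, f w (σ w) ∂(mu b θ) =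
        ∫ σ, G σ * Zs θ f N v i (σ v) ∂(mu b θ))
    (v : V b) (T : Finset (Fin (b + 1))) :
    ∀ (G : (V b → Bool) → ℝ), Nice G →
      DependsOn G {w | ∀ j ∈ T, fs (mul (inv v) w) ≠ some j} →
      ∫ σ, G σ * ∏ j ∈ T, ∏ w ∈ Sub N (nb j v) j, f w (σ w) ∂(mu b θ) =
        ∫ σ, G σ * ∏ j ∈ T, Kop θ (Zs θ f N (nb j v) j) (σ v) ∂(mu b θ) := by
  induction T using Finset.induction_on with
  | empty => intro G _ _; simp
  | insert j T hj ihT =>
    intro G hG hd
    simp only [Finset.prod_insert hj]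
    -- the branches of T do not see the branch j
    set A : (V b → Bool) → ℝ := fun σ => ∏ j' ∈ T, ∏ w ∈ Sub N (nb j' v) j', f w (σ w) with hA
    have hAn : Nice A := Nice.prod _ _ (fun j' _ => Nice.prod _ _ (fun w _ => Nice.coord _ w))
    have hAd : DependsOn A {w | fs (mul (inv v) w) ≠ some j} := by
      intro σ σ' hσ
      rw [hA]
      apply Finset.prod_congr rfl
      intro j' hj'
      apply Finset.prod_congr rfl
      intro w hw
      rw [hσ w]
      have h3 := fs_of_mem_Sub_nb hw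
      show fs (mul (inv v) w) ≠ some j
      rw [h3]
      intro h4
      apply hj
      rw [← Option.some.inj h4]
      exact hj'
    have hGd : DependsOn G {w | fs (mul (inv v) w) ≠ some j} := by
      intro σ σ' hσ
      apply hd
      intro w hw
      exact hσ w (hw j (Finset.mem_insert_self _ _))
    have hGA : DependsOn (fun σ => G σ * A σ) {w | fs (mul (inv v) w) ≠ some j} := by
      intro σ σ' hσ
      show G σ * A σ = G σ' * A σ'
      rw [hGd hσ, hAd hσ]
    calc ∫ σ, G σ * ((∏ w ∈ Sub N (nb j v) j, f w (σ w)) * A σ) ∂(mu b θ)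
        = ∫ σ, (G σ * A σ) * ∏ w ∈ Sub N (nb j v) j, f w (σ w) ∂(mu b θ) := by
          congr 1; funext σ; ring
      _ = ∫ σ, (G σ * A σ) * Zs θ f N (nb j v) j (σ (nb j v)) ∂(mu b θ) := by
          apply ih (nb j v) j _ (hG.mul hAn)
          intro σ σ' hσ
          apply hGA
          intro w hw
          apply hσ
          right
          exact (fs_nb_iff j v w).2 hw
      _ = ∫ σ, (G σ * A σ) * Kop θ (Zs θ f N (nb j v) j) (σ v) ∂(mu b θ) :=
          markov hmu hb h0 h1 (hG.mul hAn) v j hGA _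
      _ = ∫ σ, (G σ * Kop θ (Zs θ f N (nb j v) j) (σ v)) * A σ ∂(mu b θ) := by
          congr 1; funext σ; ring
      _ = ∫ σ, (G σ * Kop θ (Zs θ f N (nb j v) j) (σ v)) *
            ∏ j' ∈ T, Kop θ (Zs θ f N (nb j' v) j') (σ v) ∂(mu b θ) := by
          apply ihT _ (hG.mul (Nice.coord _ v))
          intro σ σ' hσ
          have h5 : G σ = G σ' := by
            apply hd
            intro w hw
            apply hσ
            intro j' hj'
            exact hw j' (Finset.mem_insert_of_mem hj')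
          have h6 : σ v = σ' v := by
            apply hσ
            intro j' _
            rw [inv_mul']; simp
          show G σ * _ = G σ' * _
          rw [h5, h6]
      _ = ∫ σ, G σ * (Kop θ (Zs θ f N (nb j v) j) (σ v) *
            ∏ j' ∈ T, Kop θ (Zs θ f N (nb j' v) j') (σ v)) ∂(mu b θ) := by
          congr 1; funext σ; ring

/-- Peeling a branch. -/
lemma peel (hmu : Spec.MuInv) (hb : 1 ≤ b) {θ : ℝ} (h0 : 0 ≤ θ) (h1 : θ < 1)
    (f : V b → Bool → ℝ) (N : ℕ) :
    ∀ (v : V b) (i : Fin (b + 1)) (G : (V b → Bool) → ℝ), Nice G →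
      DependsOn G {w | w = v ∨ fs (mul (inv v) w) = some i} →
      ∫ σ, G σ * ∏ w ∈ Sub N v i, f w (σ w) ∂(mu b θ) =
        ∫ σ, G σ * Zs θ f N v i (σ v) ∂(mu b θ) := by
  induction N with
  | zero => intro v i G _ _; simp [Sub, Zs]
  | succ N ih =>
    intro v i G hG hd
    have e1 : ∀ σ : V b → Bool, G σ * ∏ w ∈ Sub (N + 1) v i, f w (σ w) =
        (G σ * f v (σ v)) * ∏ j ∈ Finset.univ.erase i, ∏ w ∈ Sub N (nb j v) j, f w (σ w) := by
      intro σ
      rw [prod_Sub_succ N v i (fun w => f w (σ w))]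
      ring
    have e2 : ∀ σ : V b → Bool, G σ * Zs θ f (N + 1) v i (σ v) =
        (G σ * f v (σ v)) *
          ∏ j ∈ Finset.univ.erase i, Kop θ (Zs θ f N (nb j v) j) (σ v) := by
      intro σ
      rw [Zs]
      ring
    simp only [e1, e2]
    apply peelT hmu hb h0 h1 f N ih v _ _ (hG.mul (Nice.coord _ v))
    intro σ σ' hσ
    have h6 : σ v = σ' v := by
      apply hσ
      intro j' _
      rw [inv_mul']; simp
    have h5 : G σ = G σ' := by
      apply hd
      intro w hw
      rcases hw with rfl | hw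
      · exact h6
      · apply hσ
        intro j hj
        rw [hw]
        intro h7
        exact (Finset.mem_erase.1 hj).1 (Option.some.inj h7).symm
    show G σ * _ = G σ' * _
    rw [h5, h6]

/-- Peeling a ball. -/
lemma peelBl (hmu : Spec.MuInv) (hb : 1 ≤ b) {θ : ℝ} (h0 : 0 ≤ θ) (h1 : θ < 1)
    (f : V b → Bool → ℝ) (N : ℕ) (v : V b) (φ : Bool → ℝ) :
    ∫ σ, φ (σ v) * ∏ w ∈ Bl N v, f w (σ w) ∂(mu b θ) =
      ∫ σ, φ (σ v) * (f v (σ v) * ∏ j : Fin (b + 1), Kop θ (Zs θ f N (nb j v) j) (σ v))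
        ∂(mu b θ) := by
  have e1 : ∀ σ : V b → Bool, φ (σ v) * ∏ w ∈ Bl N v, f w (σ w) =
      (φ (σ v) * f v (σ v)) * ∏ j : Fin (b + 1), ∏ w ∈ Sub N (nb j v) j, f w (σ w) := by
    intro σ
    rw [prod_Bl N v (fun w => f w (σ w))]
    ring
  have e2 : ∀ σ : V b → Bool,
      φ (σ v) * (f v (σ v) * ∏ j : Fin (b + 1), Kop θ (Zs θ f N (nb j v) j) (σ v)) =
      (φ (σ v) * f v (σ v)) * ∏ j : Fin (b + 1), Kop θ (Zs θ f N (nb j v) j) (σ v) := by
    intro σ; ring
  simp only [e1, e2]
  apply peelT hmu hb h0 h1 f N (peel hmu hb h0 h1 f N) v Finset.univ _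
    ((Nice.coord _ v).mul (Nice.coord _ v))
  intro σ σ' hσ
  have h6 : σ v = σ' v := by
    apply hσ
    intro j' _
    rw [inv_mul']; simp
  show φ (σ v) * _ = φ (σ' v) * _
  rw [h6]

/-! ### The weights `1 + σ tanh h` -/

lemma prod_one_add_tanh {ι : Type*} (T : Finset ι) (a : ι → ℝ) :
    ∃ c : ℝ, 0 < c ∧ ∀ s : Bool, ∏ k ∈ T, (1 + sg s * Real.tanh (a k)) =
      c * (1 + sg s * Real.tanh (∑ k ∈ T, a k)) := by
  classical
  induction T using Finset.induction_on with
  | empty => exact ⟨1, one_pos, fun s => by simp⟩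
  | insert k T hk ih =>
    obtain ⟨c, hc, h⟩ := ih
    have hp := one_add_tanh_mul_tanh_pos (a k) (∑ k ∈ T, a k)
    refine ⟨c * (1 + Real.tanh (a k) * Real.tanh (∑ k ∈ T, a k)), mul_pos hc hp, fun s => ?_⟩
    rw [Finset.prod_insert hk, Finset.sum_insert hk, h s, tanh_add_eq]
    have h2 : 1 + sg s * ((Real.tanh (a k) + Real.tanh (∑ k ∈ T, a k)) /
        (1 + Real.tanh (a k) * Real.tanh (∑ k ∈ T, a k))) =
        ((1 + Real.tanh (a k) * Real.tanh (∑ k ∈ T, a k)) +
          sg s * (Real.tanh (a k) + Real.tanh (∑ k ∈ T, a k))) /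
        (1 + Real.tanh (a k) * Real.tanh (∑ k ∈ T, a k)) := by
      field_simp
    rw [h2]
    rw [mul_assoc, mul_div_cancel₀ _ hp.ne']
    have h3 := sg_mul_self s
    linear_combination c * Real.tanh (a k) * Real.tanh (∑ k ∈ T, a k) * h3

lemma Kop_lin (θ c t : ℝ) (s : Bool) :
    Kop θ (fun s => c * (1 + sg s * t)) s = c * (1 + sg s * (θ * t)) := by
  unfold Kop
  simp only [sg_not]
  ring

lemma Zs_eq {θ : ℝ} (h0 : 0 ≤ θ) (h1 : θ < 1) (h : V b → ℝ) (N : ℕ) (v : V b)
    (i : Fin (b + 1)) : ∃ c : ℝ, 0 < c ∧ ∀ s : Bool,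
      Zs θ (fun w s => 1 + sg s * Real.tanh (h w)) N v i s =
        c * (1 + sg s * Real.tanh (lm θ N h v i)) := by
  induction N generalizing v i with
  | zero => exact ⟨1, one_pos, fun s => by simp [Zs]⟩
  | succ N ih =>
    choose c hc hZ using fun (j : Fin (b + 1)) => ih (nb j v) j
    obtain ⟨c', hc', hprod⟩ := prod_one_add_tanh (Finset.univ.erase i)
      (fun j => psi θ (lm θ N h (nb j v) j))
    obtain ⟨c'', hc'', hprod2⟩ := prod_one_add_tanh (Finset.univ : Finset Bool)
      (fun k => if k then h v else ∑ j ∈ Finset.univ.erase i, psi θ (lm θ N h (nb j v) j))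
    refine ⟨(∏ j ∈ Finset.univ.erase i, c j) * c' * c'', by
      have : 0 < ∏ j ∈ Finset.univ.erase i, c j := Finset.prod_pos (fun j _ => hc j)
      positivity, fun s => ?_⟩
    rw [Zs]
    have h3 : ∀ j : Fin (b + 1), Kop θ (Zs θ (fun w s => 1 + sg s * Real.tanh (h w)) N
        (nb j v) j) s = c j * (1 + sg s * Real.tanh (psi θ (lm θ N h (nb j v) j))) := by
      intro j
      have h4 : Zs θ (fun w s => 1 + sg s * Real.tanh (h w)) N (nb j v) j =
          fun s => c j * (1 + sg s * Real.tanh (lm θ N h (nb j v) j)) := by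
        funext s; exact hZ j s
      rw [h4, Kop_lin, tanh_psi h0 h1]
    simp only [h3]
    rw [Finset.prod_mul_distrib, hprod s]
    have h5 := hprod2 s
    simp only [Fintype.prod_bool, Fintype.sum_bool, if_true, Bool.false_eq_true, if_false] at h5
    rw [lm_succ]
    linear_combination ((∏ j ∈ Finset.univ.erase i, c j) * c') * h5

lemma Zball_eq {θ : ℝ} (h0 : 0 ≤ θ) (h1 : θ < 1) (h : V b → ℝ) (N : ℕ) (v : V b) :
    ∃ c : ℝ, 0 < c ∧ ∀ s : Bool,
      (1 + sg s * Real.tanh (h v)) * ∏ j : Fin (b + 1),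
        Kop θ (Zs θ (fun w s => 1 + sg s * Real.tanh (h w)) N (nb j v) j) s =
        c * (1 + sg s * Real.tanh (lg θ N h v)) := by
  choose c hc hZ using fun (j : Fin (b + 1)) => Zs_eq h0 h1 h N (nb j v) j
  obtain ⟨c', hc', hprod⟩ := prod_one_add_tanh (Finset.univ : Finset (Fin (b + 1)))
    (fun j => psi θ (lm θ N h (nb j v) j))
  obtain ⟨c'', hc'', hprod2⟩ := prod_one_add_tanh (Finset.univ : Finset Bool)
    (fun k => if k then h v else ∑ j, psi θ (lm θ N h (nb j v) j))
  refine ⟨(∏ j, c j) * c' * c'', by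
    have : 0 < ∏ j, c j := Finset.prod_pos (fun j _ => hc j)
    positivity, fun s => ?_⟩
  have h3 : ∀ j : Fin (b + 1), Kop θ (Zs θ (fun w s => 1 + sg s * Real.tanh (h w)) N
      (nb j v) j) s = c j * (1 + sg s * Real.tanh (psi θ (lm θ N h (nb j v) j))) := by
    intro j
    have h4 : Zs θ (fun w s => 1 + sg s * Real.tanh (h w)) N (nb j v) j =
        fun s => c j * (1 + sg s * Real.tanh (lm θ N h (nb j v) j)) := by
      funext s; exact hZ j s
    rw [h4, Kop_lin, tanh_psi h0 h1]
  simp only [h3]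
  rw [Finset.prod_mul_distrib, hprod s]
  have h5 := hprod2 s
  simp only [Fintype.prod_bool, Fintype.sum_bool, if_true, Bool.false_eq_true, if_false] at h5
  unfold lg
  linear_combination ((∏ j, c j) * c') * h5

end Crest.Agent.Isg

namespace Crest.Agent.IsgBP

open Crest.Agent.Isg

/-- B1 (from the invariance of `mu`). -/
theorem BPsub (hmu : Spec.MuInv) : Spec.BPsub := by
  intro b θ hb h0 h1 N h u i
  have key : ∀ φ : Bool → ℝ,
      ∫ σ, φ (σ u) * ∏ v ∈ Sub N u i, (1 + sg (σ v) * Real.tanh (h v)) ∂(mu b θ) =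
      ∫ σ, φ (σ u) * Zs θ (fun w s => 1 + sg s * Real.tanh (h w)) N u i (σ u) ∂(mu b θ) := by
    intro φ
    apply peel hmu hb h0 h1 (fun w s => 1 + sg s * Real.tanh (h w)) N u i _ (Nice.coord φ u)
    intro σ σ' hσ
    show φ (σ u) = φ (σ' u)
    rw [hσ u (Or.inl rfl)]
  obtain ⟨c, _, hZ⟩ := Zs_eq h0 h1 h N u i
  have e1 := key sg
  have e2 := key (fun _ => 1)
  simp only [one_mul] at e2
  rw [e1, e2]
  simp only [hZ]
  rw [integral_coord hmu hb h0 h1 (fun s => sg s * (c * (1 + sg s * Real.tanh (lm θ N h u i)))) u,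
    integral_coord hmu hb h0 h1 (fun s => c * (1 + sg s * Real.tanh (lm θ N h u i))) u]
  simp only [sg_true, sg_false]
  ring

/-- B2 (from the invariance of `mu`). -/
theorem BPball (hmu : Spec.MuInv) : Spec.BPball := by
  intro b θ hb h0 h1 N h u
  have key := peelBl hmu hb h0 h1 (fun w s => 1 + sg s * Real.tanh (h w)) N u
  obtain ⟨c, _, hZ⟩ := Zball_eq h0 h1 h N u
  have e1 := key sg
  have e2 := key (fun _ => 1)
  simp only [one_mul] at e2
  rw [e1, e2]
  simp only [hZ]
  rw [integral_coord hmu hb h0 h1 (fun s => sg s * (c * (1 + sg s * Real.tanh (lg θ N h u)))) u,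
    integral_coord hmu hb h0 h1 (fun s => c * (1 + sg s * Real.tanh (lg θ N h u))) u]
  simp only [sg_true, sg_false]
  ring

end Crest.Agent.IsgBP
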