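import Mathlib
import Crest.Prelude.Def_Labels
import Crest.Prelude.Def_TreeIsing

set_option autoImplicit false

/-!
Definitions for S0241 (free Ising measure on the regular tree as a factor of iid).
The tree of degree `b+1` is modelled by reduced words over `b+1` colours.
-/

open MeasureTheory ProbabilityTheory Filter Topology

namespace Crest.Agent.Isg

abbrev UI : Type := unitInterval

/-- Sign of a spin. -/
def sg (s : Bool) : ℝ := if s then 1 else -1

/-! ### The tree -/

/-- Vertices: reduced words over the colours `Fin (b+1)`; the head of the list is the LAST step of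
the path from the root `[]`. -/
@[ext]
structure V (b : ℕ) where
  l : List (Fin (b + 1))
  h : l.IsChain (· ≠ ·)
deriving DecidableEq

instance (b : ℕ) : Countable (V b) :=
  Function.Injective.countable (f := fun v : V b => v.l) (fun _ _ h => V.ext h)

variable {b : ℕ}

/-- The root. -/
def rt (b : ℕ) : V b := ⟨[], List.isChain_nil⟩

/-- The neighbour of `v` along colour `i` (an involution for every `i`). -/
def nb (i : Fin (b + 1)) : V b → V b
  | ⟨[], _⟩ => ⟨[i], List.isChain_singleton i⟩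
  | ⟨j :: l, h⟩ => if hij : i = j then ⟨l, h.tail⟩ else
      ⟨i :: j :: l, List.isChain_cons_cons.2 ⟨hij, h⟩⟩

lemma nb_nil (i : Fin (b + 1)) (h : ([] : List (Fin (b + 1))).IsChain (· ≠ ·)) :
    nb i (⟨[], h⟩ : V b) = ⟨[i], List.isChain_singleton i⟩ := rfl

lemma nb_cons_self (i : Fin (b + 1)) (l : List (Fin (b + 1))) (h : (i :: l).IsChain (· ≠ ·)) :
    nb i (⟨i :: l, h⟩ : V b) = ⟨l, h.tail⟩ := by
  simp [nb]

lemma nb_cons_ne {i j : Fin (b + 1)} (l : List (Fin (b + 1))) (h : (j :: l).IsChain (· ≠ ·))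
    (hij : i ≠ j) :
    nb i (⟨j :: l, h⟩ : V b) = ⟨i :: j :: l, List.isChain_cons_cons.2 ⟨hij, h⟩⟩ := by
  simp [nb, hij]

lemma nb_nb (i : Fin (b + 1)) (u : V b) : nb i (nb i u) = u := by
  obtain ⟨l, hl⟩ := u
  cases l with
  | nil => rw [nb_nil, nb_cons_self]
  | cons j l =>
    by_cases hij : i = j
    · subst hij
      rw [nb_cons_self]
      cases l with
      | nil => rfl
      | cons k l => rw [nb_cons_ne l hl.tail (List.isChain_cons_cons.1 hl).1]
    · rw [nb_cons_ne l hl hij, nb_cons_self]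

/-- Length = distance to the root. -/
def len (v : V b) : ℕ := v.1.length

/-- Follow from `u` the colours of the list `l` (the head is the last step). -/
def follow (u : V b) (l : List (Fin (b + 1))) : V b := l.foldr nb u

/-- Multiplication: follow the word of `v` starting at `u` (left multiplication by `u` is a colour
preserving automorphism taking the root to `u`). -/
def mul (u v : V b) : V b := follow u v.1

/-- Inverse word. -/
def inv (v : V b) : V b := ⟨v.1.reverse, by
  have h := v.2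
  rw [List.isChain_reverse]
  exact h.imp (fun _ _ h => Ne.symm h)⟩

/-- The graph. -/
def GG (b : ℕ) : SimpleGraph (V b) where
  Adj u v := u ≠ v ∧ ∃ i, v = nb i u
  symm := ⟨by
    intro u v h
    obtain ⟨h1, i, h2⟩ := h
    exact ⟨fun h => h1 h.symm, i, by rw [h2, nb_nb]⟩⟩
  loopless := ⟨fun u h => h.1 rfl⟩

/-! ### The Ising measure -/

/-- Bernoulli measure on `Bool`. -/
noncomputable def bern (p : ℝ) : Measure Bool :=
  ENNReal.ofReal p • Measure.dirac true + ENNReal.ofReal (1 - p) • Measure.dirac false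

/-- Spin at a word, from the root spin and the edge variables (`ξ v` true: `v` agrees with its
parent). -/
def spinL (s : Bool) (ξ : V b → Bool) : (l : List (Fin (b + 1))) → l.IsChain (· ≠ ·) → Bool
  | [], _ => s
  | i :: l, h => if ξ ⟨i :: l, h⟩ then spinL s ξ l h.tail else !(spinL s ξ l h.tail)

/-- The spin configuration. -/
def spin (s : Bool) (ξ : V b → Bool) (v : V b) : Bool := spinL s ξ v.1 v.2

/-- Law of the edge variables. -/
noncomputable def xiLaw (b : ℕ) (θ : ℝ) : Measure (V b → Bool) :=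
  Measure.infinitePi (fun _ => bern ((1 + θ) / 2))

/-- The free Ising measure. -/
noncomputable def mu (b : ℕ) (θ : ℝ) : Measure (V b → Bool) :=
  ((bern (1 / 2)).prod (xiLaw b θ)).map (fun p => spin p.1 p.2)

/-! ### Messages (logarithmic cavity fields) -/

/-- Effective field transmitted through an edge. -/
noncomputable def psi (θ x : ℝ) : ℝ := Real.artanh (θ * Real.tanh x)

/-- Slope factor, divided by `θ`. -/
noncomputable def kap (θ x : ℝ) : ℝ :=
  (1 - Real.tanh x ^ 2) / (1 - θ ^ 2 * Real.tanh x ^ 2)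

/-- Depth-`N` log-message from `u` to `nb i u`: the cavity field at `u` in the branch of `u` away
from `nb i u`, using the fields at depth `< N`. -/
noncomputable def lm (θ : ℝ) : ℕ → (V b → ℝ) → V b → Fin (b + 1) → ℝ
  | 0, _, _, _ => 0
  | N + 1, h, u, i => h u + ∑ j ∈ Finset.univ.erase i, psi θ (lm θ N h (nb j u) j)

/-- Depth-`N` total log-field at `u` (fields in the ball of radius `N`). -/
noncomputable def lg (θ : ℝ) (N : ℕ) (h : V b → ℝ) (u : V b) : ℝ :=
  h u + ∑ j, psi θ (lm θ N h (nb j u) j)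

/-- Infinite-depth log-message. -/
noncomputable def lmI (θ : ℝ) (h : V b → ℝ) (u : V b) (i : Fin (b + 1)) : ℝ :=
  limsup (fun N => lm θ N h u i) atTop

/-- Infinite-depth total log-field. -/
noncomputable def lgI (θ : ℝ) (h : V b → ℝ) (u : V b) : ℝ :=
  h u + ∑ j, psi θ (lmI θ h (nb j u) j)

/-- Posterior magnetisation. -/
noncomputable def M (θ : ℝ) (h : V b → ℝ) (u : V b) : ℝ := Real.tanh (lgI θ h u)

/-- The vertices used by the depth-`N` message from `u` to `nb i u`. -/
def Sub : ℕ → V b → Fin (b + 1) → Finset (V b)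
  | 0, _, _ => ∅
  | N + 1, u, i => insert u ((Finset.univ.erase i).biUnion (fun j => Sub N (nb j u) j))

/-- The ball of radius `N`. -/
def Bl (N : ℕ) (u : V b) : Finset (V b) :=
  insert u (Finset.univ.biUnion (fun j => Sub N (nb j u) j))

/-- All messages converge. -/
def Good (θ : ℝ) (h : V b → ℝ) : Prop :=
  ∀ u i, ∃ ℓ, Tendsto (fun N => lm θ N h u i) atTop (𝓝 ℓ)

/-- Product of the slope factors along the path from `u` with the colours of `l` (head = last
step); the factor of a vertex of the path is that of its message back towards `u`. -/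
noncomputable def DDl (θ : ℝ) (h : V b → ℝ) (u : V b) : List (Fin (b + 1)) → ℝ
  | [] => 1
  | i :: l => DDl θ h u l * kap θ (lmI θ h (follow u (i :: l)) i)

/-- Sum of the squared message differences along the same path. -/
noncomputable def SQl (θ : ℝ) (h h' : V b → ℝ) (u : V b) : List (Fin (b + 1)) → ℝ
  | [] => 0
  | i :: l => SQl θ h h' u l +
      (lmI θ h (follow u (i :: l)) i - lmI θ h' (follow u (i :: l)) i) ^ 2

/-- Product of the slope factors from `u` to `mul u w`. -/
noncomputable def DD (θ : ℝ) (h : V b → ℝ) (u w : V b) : ℝ := DDl θ h u w.1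

/-- Posterior covariance of the spins at `u` and `mul u w`. -/
noncomputable def CC (θ : ℝ) (h : V b → ℝ) (u w : V b) : ℝ :=
  (1 - M θ h u ^ 2) * θ ^ len w * DD θ h u w

/-- Good configurations with fields bounded by `H`. -/
def GoodH (θ H : ℝ) (h : V b → ℝ) : Prop := Good θ h ∧ ∀ v, |h v| ≤ H

/-- Directed edge functional: minus the logarithm of the slope factor. -/
noncomputable def gg (θ : ℝ) (h : V b → ℝ) (u : V b) (i : Fin (b + 1)) : ℝ :=
  -Real.log (kap θ (lmI θ h u i))

/-- Weighted sum of the slope products from the root. -/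
noncomputable def Gl (θ lam : ℝ) (h : V b → ℝ) : ENNReal :=
  ∑' w : V b, ENNReal.ofReal (Real.exp (lam * len w) * ((b : ℝ)⁻¹) ^ len w * DD θ h (rt b) w)

/-! ### Planted fields -/

/-- Symmetric bounded channels: `ρ` is the law of the own log-field seen from a plus spin. -/
structure Chan (ρ : Measure ℝ) (H : ℝ) : Prop where
  prob : IsProbabilityMeasure ρ
  bdd : ∀ᵐ x ∂ρ, |x| ≤ H
  nish : ∀ φ : ℝ → ℝ, Measurable φ → (∃ C, ∀ x, |φ x| ≤ C) →
    ∫ x, φ (-x) ∂ρ = ∫ x, φ x * Real.exp (-2 * x) ∂ρ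

/-- Information of a channel. -/
noncomputable def info (ρ : Measure ℝ) : ℝ := ∫ x, Real.tanh x ^ 2 ∂ρ

/-- The gauge measure: edge variables and gauged own fields. -/
noncomputable def GM (b : ℕ) (θ : ℝ) (ρ : Measure ℝ) : Measure ((V b → Bool) × (V b → ℝ)) :=
  (xiLaw b θ).prod (Measure.infinitePi (fun _ : V b => ρ))

/-- The planted field law. -/
noncomputable def PL (b : ℕ) (θ : ℝ) (ρ : Measure ℝ) : Measure (V b → ℝ) :=
  ((mu b θ).prod (Measure.infinitePi (fun _ : V b => ρ))).map (fun p v => sg (p.1 v) * p.2 v)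

/-- Gauged depth-`N` message from `v` to its parent (at the root: total field of the ball). -/
noncomputable def lh (θ : ℝ) : ℕ → (V b → Bool) → (V b → ℝ) → V b → ℝ
  | 0, _, _, _ => 0
  | N + 1, ξ, z, v => z v + ∑ j ∈ Finset.univ.filter (fun j => len v < len (nb j v)),
      sg (ξ (nb j v)) * psi θ (lh θ N ξ z (nb j v))

/-- Finite-depth product of slope factors from `v` down along `r` (head = last step); the vertex at
distance `k ≥ 1` from `v` uses depth `Mx + 1 - k`. -/
noncomputable def DMl (θ : ℝ) (Mx : ℕ) (ξ : V b → Bool) (z : V b → ℝ) (v : V b) :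
    List (Fin (b + 1)) → ℝ
  | [] => 1
  | i :: r => DMl θ Mx ξ z v r * kap θ (lh θ (Mx - r.length) ξ z (follow v (i :: r)))

/-! ### Pair laws -/

/-- Squared difference kernel at the root, restricted to words with length in `R`. -/
noncomputable def KK (θ : ℝ) (R : Set ℕ) (h h' : V b → ℝ) : ENNReal :=
  ∑' w : V b, (R.indicator (fun _ => (1 : ENNReal)) (len w)) *
    ENNReal.ofReal (8 * (CC θ h (rt b) w - CC θ h' (rt b) w) ^ 2 +
      32 * CC θ h' (rt b) w ^ 2 * (M θ h w - M θ h' w) ^ 2)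

/-- Admissible laws of pairs of fields. -/
structure PairLaw (b : ℕ) (θ : ℝ) (ρ : Measure ℝ) (L : Measure ((V b → ℝ) × (V b → ℝ))) :
    Prop where
  fst : L.map Prod.fst = PL b θ ρ
  snd : L.map Prod.snd = PL b θ ρ
  swap : L.map Prod.swap = L
  inv : ∀ u : V b, L.map (fun p => ((fun v => p.1 (mul u v)), (fun v => p.2 (mul u v)))) = L

/-- Mean square difference of the posterior magnetisations at the root. -/
noncomputable def AA (θ : ℝ) (L : Measure ((V b → ℝ) × (V b → ℝ))) : ENNReal :=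
  ∫⁻ p, ENNReal.ofReal ((M θ p.1 (rt b) - M θ p.2 (rt b)) ^ 2) ∂L

/-! ### Dynamics -/

/-- Signal strength as a function of the label. -/
noncomputable def str (u : ℝ) : ℝ := Real.sqrt (u * (1 - u))

/-- Observation times. -/
def tm (U : ℕ × V b → UI) (α : ℕ × V b) : ℝ := α.1 + (U α : ℝ)

/-- Signals. -/
noncomputable def zz (U Y : ℕ × V b → UI) (α : ℕ × V b) : ℝ :=
  str (U α) * (2 * (Y α : ℝ) - 1)

/-- The field at time `τ`: sum of the log-signals observed strictly before `τ`. -/
noncomputable def fld (U Y : ℕ × V b → UI) (τ : ℝ) (v : V b) : ℝ :=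
  ∑ j ∈ Finset.range (⌊τ⌋₊ + 1),
    if tm U (j, v) < τ then Real.artanh (zz U Y (j, v)) else 0

/-- Distribution function (on the unit interval) of the density `1 + a (2 y - 1)`. -/
noncomputable def Fc (a : ℝ) (y : UI) : UI :=
  Set.projIcc 0 1 zero_le_one ((y : ℝ) - a * ((y : ℝ) * (1 - y)))

/-- Posterior mean of the observed spin before its observation. -/
noncomputable def pm (θ : ℝ) (U Y : ℕ × V b → UI) (α : ℕ × V b) : ℝ :=
  M θ (fld U Y (tm U α)) α.2

/-- The innovations. -/
noncomputable def TT (θ : ℝ) (U Y : ℕ × V b → UI) (α : ℕ × V b) : UI :=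
  Fc (str (U α) * pm θ U Y α) (Y α)

/-- The uniform product law. -/
noncomputable abbrev noise (O : Type*) : Measure (O → UI) :=
  Measure.infinitePi (fun _ : O => (volume : Measure UI))

/-- The inverse of `Fc a` (quantile function) for `|a| ≤ 1/2`. -/
noncomputable def Gc (a : ℝ) (w : UI) : UI :=
  Set.projIcc 0 1 zero_le_one (2 * (w : ℝ) / ((1 - a) + Real.sqrt ((1 - a) ^ 2 + 4 * a * w)))

/-- Observation of the spin `s` with strength `e` and noise `w`. -/
noncomputable def obs (e : ℝ) (s : Bool) (w : UI) : UI :=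
  if s then Gc e w else unitInterval.symm (Gc e w)

/-- The observation field. -/
noncomputable def Yf (U : ℕ × V b → UI) (σ : V b → Bool) (η : ℕ × V b → UI) (α : ℕ × V b) : UI :=
  obs (str (U α)) (σ α.2) (η α)

/-- Joint law of labels, spins and noise. -/
noncomputable def JJ (b : ℕ) (θ : ℝ) :
    Measure ((ℕ × V b → UI) × ((V b → Bool) × (ℕ × V b → UI))) :=
  (noise (ℕ × V b)).prod ((mu b θ).prod (noise (ℕ × V b)))

/-- Joint law of labels and observations. -/
noncomputable def PP (b : ℕ) (θ : ℝ) : Measure ((ℕ × V b → UI) × (ℕ × V b → UI)) :=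
  (JJ b θ).map (fun p => (p.1, Yf p.1 p.2.1 p.2.2))

/-- The innovation increment. -/
noncomputable def pw (e m : ℝ) (w : UI) : ℝ :=
  (e * (2 * (Gc (e * m) w : ℝ) - 1)) / (1 + (e * (2 * (Gc (e * m) w : ℝ) - 1)) * m)

/-- The channel at time `t`. -/
noncomputable def rhoT (t : ℝ) : Measure ℝ :=
  ((noise ℕ).prod (noise ℕ)).map (fun p => ∑ j ∈ Finset.range (⌊t⌋₊ + 1),
    if (j : ℝ) + (p.1 j : ℝ) < t then
      Real.artanh (str (p.1 j) * (2 * (Gc (str (p.1 j)) (p.2 j) : ℝ) - 1)) else 0)

/-- `F` depends on the observations only through those made strictly before `τ U`. -/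
def PastY {X : Type*} (τ : (ℕ × V b → UI) → ℝ)
    (F : (ℕ × V b → UI) → (ℕ × V b → UI) → X) : Prop :=
  ∀ U Y Y', (∀ β, tm U β < τ U → Y β = Y' β) → F U Y = F U Y'

/-- `F` depends on labels and observations only through those before the fixed time `τ`. -/
def PastUY {X : Type*} (τ : ℝ) (F : (ℕ × V b → UI) → (ℕ × V b → UI) → X) : Prop :=
  ∀ U U' Y Y', (∀ β, tm U β < τ ↔ tm U' β < τ) → (∀ β, tm U β < τ → U β = U' β ∧ Y β = Y' β) →
    F U Y = F U' Y'

/-- Admissible laws of triples (labels, observations, second observations). -/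
structure Trip (b : ℕ) (θ : ℝ)
    (L : Measure ((ℕ × V b → UI) × ((ℕ × V b → UI) × (ℕ × V b → UI)))) : Prop where
  fst : L.map (fun p => (p.1, p.2.1)) = PP b θ
  snd : L.map (fun p => (p.1, p.2.2)) = PP b θ
  swap : L.map (fun p => (p.1, (p.2.2, p.2.1))) = L
  innov : ∀ᵐ p ∂L, TT θ p.1 p.2.1 = TT θ p.1 p.2.2
  inv : ∀ u : V b, L.map (fun p => ((fun α => p.1 (α.1, mul u α.2)),
    ((fun α => p.2.1 (α.1, mul u α.2)), (fun α => p.2.2 (α.1, mul u α.2))))) = L
  /-- the innovation at `α` is uniform and independent of the past of `α` -/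
  fresh : ∀ (α : ℕ × V b) (F : (ℕ × V b → UI) → (ℕ × V b → UI) → (ℕ × V b → UI) → ℝ),
    Measurable (fun p : (ℕ × V b → UI) × ((ℕ × V b → UI) × (ℕ × V b → UI)) => F p.1 p.2.1 p.2.2) →
    (∃ C, ∀ U Y Y', |F U Y Y'| ≤ C) →
    (∀ Y', PastY (fun U => tm U α) (fun U Y => F U Y Y')) →
    (∀ Y, PastY (fun U => tm U α) (fun U Y' => F U Y Y')) →
    ∀ φ : UI → ℝ, Measurable φ → (∃ C, ∀ x, |φ x| ≤ C) →
    ∫ p, F p.1 p.2.1 p.2.2 * φ (TT θ p.1 p.2.1 α) ∂L =
      (∫ p, F p.1 p.2.1 p.2.2 ∂L) * ∫ w, φ w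
  /-- on `{U α ≥ r}` the label `U α` is independent of the past of the fixed time `α.1 + r` -/
  label : ∀ (α : ℕ × V b) (r : ℝ), 0 ≤ r → r < 1 →
    ∀ F : (ℕ × V b → UI) → (ℕ × V b → UI) → (ℕ × V b → UI) → ENNReal,
    Measurable (fun p : (ℕ × V b → UI) × ((ℕ × V b → UI) × (ℕ × V b → UI)) => F p.1 p.2.1 p.2.2) →
    (∀ U U' Y1 Y1' Y2 Y2', (∀ β, tm U β < α.1 + r ↔ tm U' β < α.1 + r) →
      (∀ β, tm U β < α.1 + r → U β = U' β ∧ Y1 β = Y1' β ∧ Y2 β = Y2' β) →
      F U Y1 Y2 = F U' Y1' Y2') →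
    ∀ φ : UI → ENNReal, Measurable φ →
    (∫⁻ p, F p.1 p.2.1 p.2.2 * ({x : UI | r ≤ (x : ℝ)}.indicator φ (p.1 α)) ∂L) *
        ENNReal.ofReal (1 - r) =
      (∫⁻ p, F p.1 p.2.1 p.2.2 * ({x : UI | r ≤ (x : ℝ)}.indicator 1 (p.1 α)) ∂L) *
        ∫⁻ x in {x : UI | r ≤ (x : ℝ)}, φ x

/-- Law of the pair of fields at time `t`. -/
noncomputable def LT {b : ℕ} (L : Measure ((ℕ × V b → UI) × ((ℕ × V b → UI) × (ℕ × V b → UI))))
    (t : ℝ) : Measure ((V b → ℝ) × (V b → ℝ)) :=
  L.map (fun p => (fld p.1 p.2.1 t, fld p.1 p.2.2 t))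

end Crest.Agent.Isg
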