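import Crest.Agent.IsgDefs

set_option autoImplicit false

/-!
Module statements for S0241.  Each `def Xyz : Prop` below is to be proved as
`theorem Crest.Agent.Isg<...>.main : Crest.Agent.Isg.Spec.Xyz` in its own file; modules may assume the
other specs as hypotheses (or import the file once it has landed).
-/

open MeasureTheory ProbabilityTheory Filter Topology

namespace Crest.Agent.Isg.Spec

open Crest.Agent.Isg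

/-! ### Measure `mu` -/

/-- T2a: `mu` is a probability measure invariant under all graph automorphisms. -/
def MuInv : Prop := ∀ (b : ℕ) (θ : ℝ), 1 ≤ b → 0 ≤ θ → θ < 1 →
  IsProbabilityMeasure (mu b θ) ∧
    ∀ g : GG b ≃g GG b, (mu b θ).map (fun σ v => σ (g v)) = mu b θ

/-- T2b: `mu` has the Ising weights on connected finite sets. -/
def MuWeight : Prop := ∀ (b : ℕ) (θ : ℝ), 1 ≤ b → 0 ≤ θ → θ < 1 →
  ∀ (S : Finset (V b)) (η : V b → Bool), ((GG b).induce (S : Set (V b))).Connected →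
    mu b θ {σ | ∀ v ∈ S, σ v = η v} =
      ENNReal.ofReal (Crest.ProbabilityR.TreeIsing.isingWeight (GG b) θ S η)

/-- T3: every regular tree is isomorphic to the word model. -/
def TreeIso.{u} : Prop := ∀ (b : ℕ), 2 ≤ b → ∀ (W : Type u) (G : SimpleGraph W) [G.LocallyFinite],
  G.IsTree → G.IsRegularOfDegree (b + 1) → Nonempty (G ≃g GG b)

/-! ### Belief propagation and convergence of messages -/

/-- B1: Bayes/BP formula for branches. -/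
def BPsub : Prop := ∀ (b : ℕ) (θ : ℝ), 1 ≤ b → 0 ≤ θ → θ < 1 →
  ∀ (N : ℕ) (h : V b → ℝ) (u : V b) (i : Fin (b + 1)),
    ∫ σ, sg (σ u) * ∏ v ∈ Sub N u i, (1 + sg (σ v) * Real.tanh (h v)) ∂(mu b θ) =
      Real.tanh (lm θ N h u i) *
        ∫ σ, ∏ v ∈ Sub N u i, (1 + sg (σ v) * Real.tanh (h v)) ∂(mu b θ)

/-- B2: Bayes/BP formula for balls. -/
def BPball : Prop := ∀ (b : ℕ) (θ : ℝ), 1 ≤ b → 0 ≤ θ → θ < 1 →
  ∀ (N : ℕ) (h : V b → ℝ) (u : V b),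
    ∫ σ, sg (σ u) * ∏ v ∈ Bl N u, (1 + sg (σ v) * Real.tanh (h v)) ∂(mu b θ) =
      Real.tanh (lg θ N h u) *
        ∫ σ, ∏ v ∈ Bl N u, (1 + sg (σ v) * Real.tanh (h v)) ∂(mu b θ)

/-- S1: under the planted law all messages converge (Levy's upward theorem and BP). -/
def GoodPL : Prop := ∀ (b : ℕ) (θ : ℝ), 1 ≤ b → 0 ≤ θ → θ < 1 →
  ∀ (ρ : Measure ℝ) (H : ℝ), Chan ρ H → ∀ᵐ h ∂(PL b θ ρ), GoodH θ H h

/-! ### Deterministic facts -/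

/-- S2a: messages are Lipschitz functions of the magnetisations of the two endpoints. -/
def MsgLip : Prop := ∀ (b : ℕ) (θ : ℝ), 0 ≤ θ → θ < 1 → ∀ H : ℝ, ∃ L : ℝ, 0 ≤ L ∧
  ∀ h h' : V b → ℝ, GoodH θ H h → GoodH θ H h' → ∀ (u : V b) (i : Fin (b + 1)),
    |lmI θ h u i - lmI θ h' u i| ≤
      L * (|M θ h u - M θ h' u| + |M θ h (nb i u) - M θ h' (nb i u)|)

/-- S2b: symmetry of the posterior covariance. -/
def DDsymm : Prop := ∀ (b : ℕ) (θ : ℝ), 0 ≤ θ → θ < 1 → ∀ h : V b → ℝ, Good θ h →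
  ∀ u w : V b, (1 - M θ h u ^ 2) * DD θ h u w =
    (1 - M θ h (mul u w) ^ 2) * DD θ h (mul u w) (inv w)

/-- S2c: uniform bounds. -/
def DetBounds : Prop := ∀ (b : ℕ) (θ : ℝ), 0 ≤ θ → θ < 1 → ∀ H : ℝ, ∃ c C : ℝ, 0 < c ∧ 0 ≤ C ∧
  ∀ h : V b → ℝ, GoodH θ H h →
    (∀ u i, |lmI θ h u i| ≤ C) ∧ (∀ u i, c ≤ kap θ (lmI θ h u i) ∧ kap θ (lmI θ h u i) ≤ 1) ∧
    (∀ u, c ≤ 1 - M θ h u ^ 2)

/-- S2d: comparison of two slope products. -/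
def DDcomp : Prop := ∀ (b : ℕ) (θ : ℝ), 0 ≤ θ → θ < 1 → ∀ H : ℝ, ∃ C : ℝ, 0 ≤ C ∧
  ∀ h h' : V b → ℝ, GoodH θ H h → GoodH θ H h' → ∀ (u : V b) (l : List (Fin (b + 1))),
    (DDl θ h u l - DDl θ h' u l) ^ 2 ≤ C * SQl θ h h' u l * (DDl θ h u l + DDl θ h' u l) ∧
    (DDl θ h u l - DDl θ h' u l) ^ 2 ≤ C * l.length * SQl θ h h' u l

/-- S2e: effect of one more signal `z` at the vertex `mul u w` on the magnetisation at `u`. -/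
def Update : Prop := ∀ (b : ℕ) (θ : ℝ), 0 ≤ θ → θ < 1 → ∀ h : V b → ℝ, Good θ h →
  ∀ (u w : V b) (z : ℝ), |z| < 1 →
    Good θ (Function.update h (mul u w) (h (mul u w) + Real.artanh z)) ∧
    M θ (Function.update h (mul u w) (h (mul u w) + Real.artanh z)) u - M θ h u =
      CC θ h u w * z / (1 + z * M θ h (mul u w))

/-! ### Estimates for the planted law (critical case `b θ² = 1`) -/

/-- S3a: lower bound for the information of the finite depth messages. -/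
def InfoLower : Prop := ∀ (b : ℕ) (θ : ℝ), 2 ≤ b → 0 < θ → b * θ ^ 2 = 1 →
  ∀ (ρ : Measure ℝ) (H : ℝ), Chan ρ H → ∀ (N : ℕ) (v : V b), v ≠ rt b →
    min (N * info ρ / 10) (Real.sqrt (info ρ) / 2) ≤
      ∫ p, Real.tanh (lh θ N p.1 p.2 v) ^ 2 ∂(GM b θ ρ)

/-- S3b: upper bound. -/
def InfoUpper : Prop := ∀ (b : ℕ) (θ : ℝ), 2 ≤ b → 0 < θ → b * θ ^ 2 = 1 →
  ∃ C : ℝ, ∀ (ρ : Measure ℝ) (H : ℝ), Chan ρ H → ∀ (N : ℕ) (v : V b),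
    ∫ p, Real.tanh (lh θ N p.1 p.2 v) ^ 2 ∂(GM b θ ρ) ≤ C * Real.sqrt (info ρ)

/-- S4: exponential decay of the slope products (`r ++ v.l` must be a reduced word). -/
def Decay : Prop := ∀ (b : ℕ) (θ : ℝ), 2 ≤ b → 0 < θ → b * θ ^ 2 = 1 →
  ∃ C c : ℝ, 0 < c ∧ ∀ (ρ : Measure ℝ) (H : ℝ), Chan ρ H →
    ∀ (Mx : ℕ) (v : V b) (r : List (Fin (b + 1))), (r ++ v.l).IsChain (· ≠ ·) → r.length ≤ Mx →
      ∫ p, DMl θ Mx p.1 p.2 v r ∂(GM b θ ρ) ≤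
        C * Real.exp (-(c * Real.sqrt (info ρ) * r.length))

/-- S5: the messages at small times are small with overwhelming probability. -/
def SmallMsg : Prop := ∀ (b : ℕ) (θ : ℝ), 2 ≤ b → 0 < θ → b * θ ^ 2 = 1 →
  ∀ (C₀ η : ℝ) (n : ℕ), 0 < C₀ → 0 < η → ∃ C : ℝ, 0 ≤ C ∧ ∀ s : ℝ, 0 < s → s ≤ 1 →
    ∀ ρ : Measure ℝ, Chan ρ (C₀ * Real.sqrt s) → info ρ ≤ C₀ * s ^ 2 →
      ∀ (u : V b) (i : Fin (b + 1)),
        PL b θ ρ {h | η < |lmI θ h u i|} ≤ ENNReal.ofReal (C * s ^ n)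

/-- S5': second moment of the magnetisation at small times. -/
def SmallMag : Prop := ∀ (b : ℕ) (θ : ℝ), 2 ≤ b → 0 < θ → b * θ ^ 2 = 1 →
  ∃ C : ℝ, ∀ (ρ : Measure ℝ) (H : ℝ), Chan ρ H →
    ∫⁻ h, ENNReal.ofReal (M θ h (rt b) ^ 2) ∂(PL b θ ρ) ≤
      ENNReal.ofReal (C * Real.sqrt (info ρ))

/-- S6: doubly exponential tails of the weighted sum of the slope products. -/
def Tail : Prop := ∀ (b : ℕ) (θ : ℝ), 2 ≤ b → 0 < θ → b * θ ^ 2 = 1 →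
  ∃ c₀ K : ℝ, 0 < c₀ ∧ 0 < K ∧ ∀ (ρ : Measure ℝ) (H : ℝ), Chan ρ H → 0 < info ρ →
    ∀ (lam : ℝ), 0 ≤ lam → lam ≤ c₀ * Real.sqrt (info ρ) → ∀ j : ℕ,
      PL b θ ρ {h | ENNReal.ofReal (Real.exp (lam * j) * (2 * j + K / Real.sqrt (info ρ))) <
        Gl θ lam h} ≤ ENNReal.ofReal (Real.exp (-((b : ℝ) ^ j)))

/-! ### Pair laws -/

/-- S7: temperedness. -/
def Temper : Prop := ∀ (b : ℕ) (θ : ℝ), 2 ≤ b → 0 ≤ θ → θ < 1 →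
  ∃ C : ℝ, 0 ≤ C ∧ ∀ (ρ : Measure ℝ) (H : ℝ) (L : Measure ((V b → ℝ) × (V b → ℝ))),
    Chan ρ H → PairLaw b θ ρ L → ∀ n : ℕ,
      ∑' w : V b, (if len w = n then
          ∫⁻ p, ENNReal.ofReal ((Real.log (DD θ p.1 (rt b) w) -
            Real.log (DD θ p.2 (rt b) w)) ^ 2) ∂L else 0) ≤
        ENNReal.ofReal (C * n * (b : ℝ) ^ n) *
          ∑ i, ∫⁻ p, ENNReal.ofReal ((gg θ p.1 (rt b) i - gg θ p.2 (rt b) i) ^ 2) ∂L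

/-- S8a: crude bound, with mass transport (critical case). -/
def Crude : Prop := ∀ (b : ℕ) (θ : ℝ), 2 ≤ b → 0 < θ → b * θ ^ 2 = 1 → ∀ H : ℝ,
  ∃ C : ℝ, 0 ≤ C ∧ ∀ (ρ : Measure ℝ) (L : Measure ((V b → ℝ) × (V b → ℝ))),
    Chan ρ H → PairLaw b θ ρ L → ∀ (lam : ℝ) (n : ℕ), 0 ≤ lam →
      ∫⁻ p, KK θ {m | n ≤ m} p.1 p.2 ∂L ≤ ENNReal.ofReal (C * Real.exp (-(lam * n))) *
        ∫⁻ p, ENNReal.ofReal ((M θ p.1 (rt b) - M θ p.2 (rt b)) ^ 2) * Gl θ lam p.1 ^ 2 ∂L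

/-- S8b: near bound from temperedness (critical case). -/
def Near : Prop := ∀ (b : ℕ) (θ : ℝ), 2 ≤ b → 0 < θ → b * θ ^ 2 = 1 → ∀ H : ℝ,
  ∃ C : ℝ, 0 ≤ C ∧ ∀ (ρ : Measure ℝ) (L : Measure ((V b → ℝ) × (V b → ℝ))),
    Chan ρ H → PairLaw b θ ρ L → ∀ (η : ℝ) (n : ℕ), 0 < η → η ≤ 1 →
      ∫⁻ p, KK θ {m | m ≤ n} p.1 p.2 ∂L ≤
        ENNReal.ofReal (C * (1 + n + n ^ 2 * η ^ 2)) * AA θ L +
        ENNReal.ofReal (C * n ^ 2) * ∑ i, PL b θ ρ {h | η < |lmI θ h (rt b) i|}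

/-- S8c: linear bound in the strictly subcritical case. -/
def StrictKK : Prop := ∀ (b : ℕ) (θ : ℝ), 2 ≤ b → 0 ≤ θ → b * θ ^ 2 < 1 → ∀ H : ℝ,
  ∃ C : ℝ, 0 ≤ C ∧ ∀ (ρ : Measure ℝ) (L : Measure ((V b → ℝ) × (V b → ℝ))),
    Chan ρ H → PairLaw b θ ρ L →
      ∫⁻ p, KK θ Set.univ p.1 p.2 ∂L ≤ ENNReal.ofReal C * AA θ L

/-- Properties of the family of channels. -/
structure ChanFam (ρ : ℝ → Measure ℝ) : Prop where
  chan : ∃ H : ℝ → ℝ, Monotone H ∧ ∀ t, 0 < t → Chan (ρ t) (H t)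
  small : ∃ C₀ : ℝ, 0 < C₀ ∧ ∀ t, 0 < t → t ≤ 1 →
    Chan (ρ t) (C₀ * Real.sqrt t) ∧ info (ρ t) ≤ C₀ * t ^ 2
  lower : ∃ c : ℝ, 0 < c ∧ (∀ t, 0 < t → t ≤ 1 → c * t ^ 2 ≤ info (ρ t)) ∧
    (∀ t, 1 ≤ t → c ≤ info (ρ t))

/-- S9: the integral inequality forces the two fields to have the same magnetisations. -/
def Uniq (crit : Prop) (P : ℕ → ℝ → Prop) : Prop := crit → ∀ (b : ℕ) (θ : ℝ), 2 ≤ b → 0 ≤ θ →
  P b θ → ∀ (ρ : ℝ → Measure ℝ) (L : ℝ → Measure ((V b → ℝ) × (V b → ℝ))), ChanFam ρ →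
    (∀ t, 0 < t → PairLaw b θ (ρ t) (L t)) →
    (∀ τ, 0 < τ → AA θ (L τ) ≤ ∫⁻ t in Set.Ioo 0 τ, ENNReal.ofReal (Int.fract t) *
      ∫⁻ p, KK θ Set.univ p.1 p.2 ∂(L t)) →
    ∀ τ, 0 < τ → AA θ (L τ) = 0

/-- S9s (from `StrictKK`). -/
def UniqStrict : Prop := Uniq StrictKK (fun b θ => b * θ ^ 2 < 1)

/-- S9c (from `Crude`, `Near`, `SmallMsg`, `SmallMag`, `Tail`). -/
def UniqCrit : Prop := Uniq (Crude ∧ Near ∧ SmallMsg ∧ SmallMag ∧ Tail)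
  (fun b θ => b * θ ^ 2 = 1)

/-! ### Dynamics -/

/-- D1: real analysis of the observation channel. -/
def Real1 : Prop :=
  (Measurable (fun p : ℝ × UI => Gc p.1 p.2)) ∧ (Measurable (fun p : ℝ × UI => Fc p.1 p.2)) ∧
  (∀ a : ℝ, |a| ≤ 1 / 2 → ∀ y : UI, Gc a (Fc a y) = y ∧ Fc a (Gc a y) = y) ∧
  (∀ a : ℝ, |a| ≤ 1 / 2 → ((volume : Measure UI).withDensity
      (fun y => ENNReal.ofReal (1 + a * (2 * (y : ℝ) - 1)))).map (Fc a) = volume) ∧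
  (∀ e : ℝ, 0 ≤ e → e ≤ 1 / 2 → ∀ s : Bool, (volume : Measure UI).map (obs e s) =
      (volume : Measure UI).withDensity
        (fun y => ENNReal.ofReal (1 + e * sg s * (2 * (y : ℝ) - 1)))) ∧
  (∀ e m m' : ℝ, 0 ≤ e → e ≤ 1 / 2 → |m| ≤ 1 → |m'| ≤ 1 →
      (∀ w, |pw e m w| ≤ 2 * e ∧ |pw e m w - pw e m' w| ≤ 8 * e ^ 2 * |m - m'|) ∧
      ∫ w, pw e m w = 0 ∧
      ∀ y : UI, pw e m (Fc (e * m) y) =
        (e * (2 * (y : ℝ) - 1)) / (1 + (e * (2 * (y : ℝ) - 1)) * m))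

/-- D2: posterior means. `τ` is any measurable time depending on the labels only. -/
def Post : Prop := ∀ (b : ℕ) (θ : ℝ), 1 ≤ b → 0 ≤ θ → θ < 1 →
  ∀ τ : (ℕ × V b → UI) → ℝ, Measurable τ →
    (∀ᵐ p ∂(JJ b θ), Good θ (fld p.1 (Yf p.1 p.2.1 p.2.2) (τ p.1))) ∧
    (∀ F : (ℕ × V b → UI) → (ℕ × V b → UI) → ℝ, Measurable (fun p : (ℕ × V b → UI) ×
        (ℕ × V b → UI) => F p.1 p.2) → (∃ C, ∀ U Y, |F U Y| ≤ C) → PastY τ F → ∀ v : V b,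
      ∫ p, F p.1 (Yf p.1 p.2.1 p.2.2) * sg (p.2.1 v) ∂(JJ b θ) =
      ∫ p, F p.1 (Yf p.1 p.2.1 p.2.2) *
        M θ (fld p.1 (Yf p.1 p.2.1 p.2.2) (τ p.1)) v ∂(JJ b θ)) ∧
    (∀ (N : ℕ) (v : V b) (F : (ℕ × V b → UI) → (ℕ × V b → UI) → ℝ),
      Measurable (fun p : (ℕ × V b → UI) × (ℕ × V b → UI) => F p.1 p.2) →
      (∃ C, ∀ U Y, |F U Y| ≤ C) →
      (∀ U Y Y', (∀ β : ℕ × V b, tm U β < τ U → β.2 ∈ Bl N v → Y β = Y' β) → F U Y = F U Y') →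
      ∫ p, F p.1 (Yf p.1 p.2.1 p.2.2) * sg (p.2.1 v) ∂(JJ b θ) =
      ∫ p, F p.1 (Yf p.1 p.2.1 p.2.2) *
        Real.tanh (lg θ N (fld p.1 (Yf p.1 p.2.1 p.2.2) (τ p.1)) v) ∂(JJ b θ))

/-- D3: innovations after the time `τ` are iid uniform and independent of the past of `τ`. -/
def Innov : Prop := ∀ (b : ℕ) (θ : ℝ), 1 ≤ b → 0 ≤ θ → θ < 1 →
  (PP b θ).map (fun p => (p.1, TT θ p.1 p.2)) = (noise (ℕ × V b)).prod (noise (ℕ × V b)) ∧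
  ∀ τ : (ℕ × V b → UI) → ℝ, Measurable τ →
    ∀ F : (ℕ × V b → UI) → (ℕ × V b → UI) → ℝ, Measurable (fun p : (ℕ × V b → UI) ×
        (ℕ × V b → UI) => F p.1 p.2) → (∃ C, ∀ U Y, |F U Y| ≤ C) → PastY τ F →
    ∀ (S : Finset (ℕ × V b)) (φ : ℕ × V b → UI → ℝ), (∀ β, Measurable (φ β)) →
      (∀ β, ∃ C, ∀ x, |φ β x| ≤ C) →
      ∫ p, F p.1 p.2 * ∏ β ∈ S, (if tm p.1 β < τ p.1 then 1 else φ β (TT θ p.1 p.2 β)) ∂(PP b θ) =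
      ∫ p, F p.1 p.2 * ∏ β ∈ S, (if tm p.1 β < τ p.1 then 1 else ∫ x, φ β x) ∂(PP b θ)

/-- D4: existence of the triple law and its use for measurability. -/
def Triple : Prop := ∀ (b : ℕ) (θ : ℝ), 1 ≤ b → 0 ≤ θ → θ < 1 →
  ∃ L : Measure ((ℕ × V b → UI) × ((ℕ × V b → UI) × (ℕ × V b → UI))),
    IsProbabilityMeasure L ∧ Trip b θ L ∧
    ((∀ᵐ p ∂L, p.2.1 = p.2.2) →
      ∃ Φ : (ℕ × V b → UI) × (ℕ × V b → UI) → (ℕ × V b → UI), Measurable Φ ∧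
        ∀ᵐ p ∂(PP b θ), p.2 = Φ (p.1, TT θ p.1 p.2))

/-- D5: from the own time of an observation to fixed times. -/
def OwnTime : Prop := ∀ (b : ℕ) (θ : ℝ), 1 ≤ b → 0 ≤ θ → θ < 1 →
  ∀ L : Measure ((ℕ × V b → UI) × ((ℕ × V b → UI) × (ℕ × V b → UI))),
    IsProbabilityMeasure L → Trip b θ L → ∀ α : ℕ × V b,
    (∀ s : ℝ, 0 ≤ s → s ≤ 1 → ∀ ξ : (V b → ℝ) × (V b → ℝ) → ENNReal, Measurable ξ →
      ∫⁻ p, (if (p.1 α : ℝ) < s then ENNReal.ofReal (str (p.1 α) ^ 2) *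
          ξ (fld p.1 p.2.1 (tm p.1 α), fld p.1 p.2.2 (tm p.1 α)) else 0) ∂L ≤
        ∫⁻ u in Set.Ioo 0 s, ENNReal.ofReal u * ∫⁻ q, ξ q ∂(LT L (α.1 + u))) ∧
    (∀ B : Set ((V b → ℝ) × (V b → ℝ)), MeasurableSet B → (∀ t, 0 < t → LT L t B = 0) →
      L {p | (fld p.1 p.2.1 (tm p.1 α), fld p.1 p.2.2 (tm p.1 α)) ∈ B} = 0)

/-- Uniform tail bound for the finite volume covariances. -/
def TailHyp (b : ℕ) (θ : ℝ) : Prop := ∀ τ : ℝ, 0 < τ → ∀ ε : ℝ, 0 < ε → ∃ R : ℕ, ∀ N : ℕ,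
  ∑' w : V b, (if R < len w ∧ len w ≤ N then ENNReal.ofReal (θ ^ (2 * len w)) *
    ∫⁻ t in Set.Ioo 0 τ, ENNReal.ofReal (Int.fract t) *
      ∫⁻ p, ENNReal.ofReal (DMl θ N p.1 p.2 (rt b) w.l) ∂(GM b θ (rhoT t)) else 0) ≤
    ENNReal.ofReal ε

/-- D6a: the tail bound holds in the strict case. -/
def TailStrict : Prop := ∀ (b : ℕ) (θ : ℝ), 2 ≤ b → 0 ≤ θ → b * θ ^ 2 < 1 → TailHyp b θ

/-- D6b: the tail bound holds in the critical case (from `Decay` and the channel bounds). -/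
def TailCrit : Prop := Decay → ChanFam rhoT → ∀ (b : ℕ) (θ : ℝ), 2 ≤ b → 0 < θ → b * θ ^ 2 = 1 →
  TailHyp b θ

/-- The increment of the magnetisation at the root when the observation `α` is made. -/
noncomputable def incr {b : ℕ} (θ : ℝ) (U Y : ℕ × V b → UI) (α : ℕ × V b) : ℝ :=
  M θ (Function.update (fld U Y (tm U α)) α.2
    (fld U Y (tm U α) α.2 + Real.artanh (zz U Y α))) (rt b) - M θ (fld U Y (tm U α)) (rt b)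

/-- D6: Parseval: the magnetisation is the sum of its increments. -/
def Parseval : Prop := ∀ (b : ℕ) (θ : ℝ), 2 ≤ b → 0 ≤ θ → θ < 1 → TailHyp b θ →
  ∀ τ : ℝ, 0 < τ → ∀ ε : ℝ, 0 < ε → ∃ S : Finset (ℕ × V b), ∀ S' : Finset (ℕ × V b), S ⊆ S' →
    ∫⁻ p, ENNReal.ofReal ((M θ (fld p.1 p.2 τ) (rt b) -
      ∑ α ∈ S', if tm p.1 α < τ then incr θ p.1 p.2 α else 0) ^ 2) ∂(PP b θ) ≤ ENNReal.ofReal ε

/-- D7: the integral inequality. -/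
def Ineq : Prop := ∀ (b : ℕ) (θ : ℝ), 2 ≤ b → 0 ≤ θ → θ < 1 → TailHyp b θ →
  ∀ L : Measure ((ℕ × V b → UI) × ((ℕ × V b → UI) × (ℕ × V b → UI))),
    IsProbabilityMeasure L → Trip b θ L → ∀ τ : ℝ, 0 < τ →
      AA θ (LT L τ) ≤ ∫⁻ t in Set.Ioo 0 τ, ENNReal.ofReal (Int.fract t) *
        ∫⁻ p, KK θ Set.univ p.1 p.2 ∂(LT L t)

/-- D8a: properties of the channels. -/
def ChanFamT : Prop := ChanFam rhoT

/-- D8b: the fields at a fixed time have the planted law, and pair laws are admissible. -/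
def PairT : Prop := ∀ (b : ℕ) (θ : ℝ), 1 ≤ b → 0 ≤ θ → θ < 1 →
  (∀ t : ℝ, 0 < t → (PP b θ).map (fun p => fld p.1 p.2 t) = PL b θ (rhoT t)) ∧
  ∀ L : Measure ((ℕ × V b → UI) × ((ℕ × V b → UI) × (ℕ × V b → UI))),
    IsProbabilityMeasure L → Trip b θ L → ∀ t : ℝ, 0 < t → PairLaw b θ (rhoT t) (LT L t)

/-- D9: if all magnetisations agree at all fixed times then the observations agree. -/
def SameY : Prop := ∀ (b : ℕ) (θ : ℝ), 2 ≤ b → 0 ≤ θ → θ < 1 →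
  ∀ L : Measure ((ℕ × V b → UI) × ((ℕ × V b → UI) × (ℕ × V b → UI))),
    IsProbabilityMeasure L → Trip b θ L → (∀ τ, 0 < τ → AA θ (LT L τ) = 0) →
      ∀ᵐ p ∂L, p.2.1 = p.2.2

/-- E1: exactly equivariant version of an almost surely equivariant map. -/
def ExactEquiv : Prop := ∀ (b : ℕ) (X : (V b → UI) → (V b → Bool)), Measurable X →
  (∀ g : GG b ≃g GG b, ∀ᵐ x ∂(noise (V b)), X (fun v => x (g v)) = fun v => X x (g v)) →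
  ∃ Φ : (V b → UI) → (V b → Bool), Measurable Φ ∧
    (∀ (g : GG b ≃g GG b) (x : V b → UI), Φ (fun v => x (g v)) = fun v => Φ x (g v)) ∧
    ∀ᵐ x ∂(noise (V b)), Φ x = X x

/-- D10: conclusion on the word tree. -/
def Final : Prop := ∀ (b : ℕ) (θ : ℝ), 2 ≤ b → 0 ≤ θ → θ < 1 →
  (∃ Φ : (ℕ × V b → UI) × (ℕ × V b → UI) → (ℕ × V b → UI), Measurable Φ ∧
    ∀ᵐ p ∂(PP b θ), p.2 = Φ (p.1, TT θ p.1 p.2)) →
  ∃ Φ : (V b → UI) → (V b → Bool), Measurable Φ ∧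
    (∀ (g : GG b ≃g GG b) (x : V b → UI), Φ (fun v => x (g v)) = fun v => Φ x (g v)) ∧
    (noise (V b)).map Φ = mu b θ

end Crest.Agent.Isg.Spec
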