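import Mathlib
import Crest.Agent.IsgDefs
import Crest.Agent.IsgSpec
import Crest.Agent.IsgTree
import Crest.Agent.H23IsgBase

/-!
Shared library for S0241: symmetric ("Nishimori") channels.
-/

set_option autoImplicit false
set_option linter.unusedSectionVars false

open MeasureTheory ProbabilityTheory Filter Topology

namespace Crest.Agent.Isg

/-! ### Real analysis -/

lemma one_add_tanh_mul_exp (x : ℝ) :
    (1 + Real.tanh x) * Real.exp (-2 * x) = 1 - Real.tanh x := by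
  have h : Real.exp (-2 * x) = Real.exp (-x) / Real.exp x := by
    rw [← Real.exp_sub]; congr 1; ring
  rw [Real.tanh_eq, h]
  have h1 := Real.exp_pos x
  have h2 := Real.exp_pos (-x)
  field_simp
  ring

lemma one_add_tanh_pos (x : ℝ) : 0 < 1 + Real.tanh x := by linarith [Real.neg_one_lt_tanh x]

lemma one_sub_tanh_pos (x : ℝ) : 0 < 1 - Real.tanh x := by linarith [Real.tanh_lt_one x]

lemma exp_neg_two_mul_eq (x : ℝ) :
    Real.exp (-2 * x) = (1 - Real.tanh x) / (1 + Real.tanh x) := by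
  rw [eq_div_iff (one_add_tanh_pos x).ne', mul_comm, one_add_tanh_mul_exp]

lemma one_add_tanh_mul_tanh_posN (x y : ℝ) : 0 < 1 + Real.tanh x * Real.tanh y := by
  have h1 := Real.abs_tanh_lt_one x
  have h2 := Real.abs_tanh_lt_one y
  have h3 : |Real.tanh x * Real.tanh y| < 1 := by
    rw [abs_mul]
    calc |Real.tanh x| * |Real.tanh y| ≤ |Real.tanh x| * 1 :=
          mul_le_mul_of_nonneg_left h2.le (abs_nonneg _)
      _ < 1 := by linarith
  have := (abs_lt.mp h3).1
  linarith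

lemma tanh_add' (x y : ℝ) :
    Real.tanh (x + y) = (Real.tanh x + Real.tanh y) / (1 + Real.tanh x * Real.tanh y) := by
  rw [eq_div_iff (one_add_tanh_mul_tanh_posN x y).ne']
  simp only [Real.tanh_eq_sinh_div_cosh]
  have h1 := Real.cosh_pos x
  have h2 := Real.cosh_pos y
  have h3 := Real.cosh_pos (x + y)
  rw [Real.cosh_add] at h3
  rw [Real.sinh_add, Real.cosh_add, div_mul_eq_mul_div, div_eq_iff h3.ne']
  field_simp

lemma one_sub_tanh_sq_posN (x : ℝ) : 0 < 1 - Real.tanh x ^ 2 := by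
  have := Real.tanh_sq_lt_one x; linarith

lemma one_sub_tanh_add_sq (x y : ℝ) :
    1 - Real.tanh (x + y) ^ 2 = (1 - Real.tanh x ^ 2) * (1 - Real.tanh y ^ 2) /
      (1 + Real.tanh x * Real.tanh y) ^ 2 := by
  rw [tanh_add']
  have := (one_add_tanh_mul_tanh_posN x y).ne'
  field_simp
  ring

lemma tanh_strictMonoN : StrictMono Real.tanh := by
  intro x y hxy
  have h : Real.tanh y - Real.tanh x = Real.tanh (y + -x) * (1 - Real.tanh y * Real.tanh x) := by
    rw [tanh_add', Real.tanh_neg]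
    have := (one_add_tanh_mul_tanh_posN y (-x)).ne'
    rw [Real.tanh_neg] at this
    have e : 1 - Real.tanh y * Real.tanh x = 1 + Real.tanh y * -Real.tanh x := by ring
    rw [e, div_mul_cancel₀ _ this]
    ring
  have h1 : 0 < Real.tanh (y + -x) := by
    rw [Real.tanh_eq_sinh_div_cosh]
    exact div_pos (Real.sinh_pos_iff.mpr (by linarith)) (Real.cosh_pos _)
  have h2 : 0 < 1 - Real.tanh y * Real.tanh x := by
    have := one_add_tanh_mul_tanh_posN y (-x)
    rw [Real.tanh_neg] at this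
    linarith
  nlinarith

lemma abs_tanh_le_of_abs_le {x H : ℝ} (h : |x| ≤ H) : |Real.tanh x| ≤ Real.tanh H := by
  rw [abs_le] at h ⊢
  constructor
  · rw [← Real.tanh_neg]; exact tanh_strictMonoN.monotone h.1
  · exact tanh_strictMonoN.monotone h.2

lemma tanh_sq_le_of_abs_le {x H : ℝ} (h : |x| ≤ H) : Real.tanh x ^ 2 ≤ Real.tanh H ^ 2 :=
  sq_le_sq' (by linarith [(abs_le.mp (abs_tanh_le_of_abs_le h)).1])
    (abs_le.mp (abs_tanh_le_of_abs_le h)).2

lemma tanh_sq_le_one (x : ℝ) : Real.tanh x ^ 2 ≤ 1 := (Real.tanh_sq_lt_one x).le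

lemma theta_tanh_mem {θ : ℝ} (h0 : 0 ≤ θ) (h1 : θ < 1) (x : ℝ) :
    θ * Real.tanh x ∈ Set.Ioo (-1 : ℝ) 1 := by
  have h := Real.abs_tanh_lt_one x
  have h3 : |θ * Real.tanh x| < 1 := by
    rw [abs_mul, abs_of_nonneg h0]
    calc θ * |Real.tanh x| ≤ θ * 1 := mul_le_mul_of_nonneg_left h.le h0
      _ < 1 := by linarith
  exact abs_lt.mp h3

lemma tanh_psiN {θ : ℝ} (h0 : 0 ≤ θ) (h1 : θ < 1) (x : ℝ) :
    Real.tanh (psi θ x) = θ * Real.tanh x := Real.tanh_artanh (theta_tanh_mem h0 h1 x)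

lemma psi_negN {θ : ℝ} (h0 : 0 ≤ θ) (h1 : θ < 1) (x : ℝ) : psi θ (-x) = -psi θ x := by
  apply tanh_strictMonoN.injective
  rw [Real.tanh_neg, tanh_psiN h0 h1, tanh_psiN h0 h1, Real.tanh_neg]; ring

lemma abs_psi_leN {θ : ℝ} (h0 : 0 ≤ θ) (h1 : θ < 1) (x : ℝ) : |psi θ x| ≤ Real.artanh θ := by
  have hθ : θ ∈ Set.Ioo (-1 : ℝ) 1 := ⟨by linarith, h1⟩
  have h := Real.abs_tanh_lt_one x
  rw [abs_le]
  constructor
  · apply tanh_strictMonoN.le_iff_le.mp
    rw [Real.tanh_neg, Real.tanh_artanh hθ, tanh_psiN h0 h1]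
    nlinarith [(abs_lt.mp h).1]
  · apply tanh_strictMonoN.le_iff_le.mp
    rw [Real.tanh_artanh hθ, tanh_psiN h0 h1]
    nlinarith [(abs_lt.mp h).2]

/-! ### Channels -/

section Chan

variable {ρ ρ' : Measure ℝ} {H H' : ℝ}

lemma integrable_of_bdd {Ω : Type*} [MeasurableSpace Ω] {P : Measure Ω} [IsFiniteMeasure P]
    {f : Ω → ℝ} (hf : Measurable f) {C : ℝ} (hC : ∀ᵐ x ∂P, |f x| ≤ C) : Integrable f P :=
  Integrable.of_bound hf.aestronglyMeasurable C (by simpa [Real.norm_eq_abs] using hC)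

lemma integrable_of_bdd' {Ω : Type*} [MeasurableSpace Ω] {P : Measure Ω} [IsFiniteMeasure P]
    {f : Ω → ℝ} (hf : Measurable f) {C : ℝ} (hC : ∀ x, |f x| ≤ C) : Integrable f P :=
  integrable_of_bdd hf (Filter.Eventually.of_forall hC)

lemma Chan.nonneg (h : Chan ρ H) : 0 ≤ H := by
  have := h.prob
  obtain ⟨x, hx⟩ := h.bdd.exists
  exact (abs_nonneg x).trans hx

lemma Chan.mono (h : Chan ρ H) (hH : H ≤ H') : Chan ρ H' :=
  ⟨h.prob, h.bdd.mono (fun _ hx => hx.trans hH), h.nish⟩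

/-- odd functions and `tanh` -/
lemma Chan.odd_tanh (h : Chan ρ H) {Z : ℝ → ℝ} (hZ : Measurable Z) {C : ℝ} (hb : ∀ x, |Z x| ≤ C)
    (hodd : ∀ x, Z (-x) = -Z x) : ∫ x, Z x * Real.tanh x ∂ρ = ∫ x, Z x ∂ρ := by
  have := h.prob
  have hC : 0 ≤ C := (abs_nonneg _).trans (hb 0)
  have hm : Measurable (fun x => Z x * (1 + Real.tanh x)) :=
    hZ.mul (measurable_const.add H23Isg.measurable_tanh)
  have hbd : ∀ x, |Z x * (1 + Real.tanh x)| ≤ C * 2 := by
    intro x
    rw [abs_mul, abs_of_pos (one_add_tanh_pos x)]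
    have := Real.tanh_lt_one x
    exact mul_le_mul (hb x) (by linarith) (one_add_tanh_pos x).le hC
  have hn := h.nish _ hm ⟨_, hbd⟩
  have e1 : ∀ x, Z (-x) * (1 + Real.tanh (-x)) = -(Z x * (1 - Real.tanh x)) := by
    intro x; rw [hodd, Real.tanh_neg]; ring
  have e2 : ∀ x, Z x * (1 + Real.tanh x) * Real.exp (-2 * x) = Z x * (1 - Real.tanh x) := by
    intro x; rw [mul_assoc, one_add_tanh_mul_exp]
  simp only [e1, e2] at hn
  rw [integral_neg] at hn
  have h0 : ∫ x, Z x * (1 - Real.tanh x) ∂ρ = 0 := by linarith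
  have hi1 : Integrable Z ρ := integrable_of_bdd' hZ hb
  have hi2 : Integrable (fun x => Z x * Real.tanh x) ρ := by
    refine integrable_of_bdd' (C := C) (hZ.mul H23Isg.measurable_tanh) (fun x => ?_)
    rw [abs_mul]
    calc |Z x| * |Real.tanh x| ≤ C * 1 :=
          mul_le_mul (hb x) (Real.abs_tanh_lt_one x).le (abs_nonneg _) hC
      _ = C := mul_one C
  have : ∫ x, Z x * (1 - Real.tanh x) ∂ρ = ∫ x, Z x ∂ρ - ∫ x, Z x * Real.tanh x ∂ρ := by
    rw [← integral_sub hi1 hi2]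
    congr 1; funext x; ring
  linarith

/-- symmetrisation -/
lemma Chan.symm1 (h : Chan ρ H) {f : ℝ → ℝ} (hf : Measurable f) {C : ℝ} (hb : ∀ x, |f x| ≤ C) :
    ∫ x, f x ∂ρ = ∫ x, ((1 + Real.tanh x) * f x + (1 - Real.tanh x) * f (-x)) / 2 ∂ρ := by
  have := h.prob
  have hC : 0 ≤ C := (abs_nonneg _).trans (hb 0)
  have hfn : Measurable (fun x => f (-x)) := hf.comp measurable_neg
  set Z : ℝ → ℝ := fun x => (f x - f (-x)) / 2 with hZdef
  have hZm : Measurable Z := (hf.sub hfn).div_const 2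
  have hZb : ∀ x, |Z x| ≤ C := by
    intro x
    simp only [hZdef]
    rw [abs_div, abs_two, div_le_iff₀ (by norm_num : (0 : ℝ) < 2)]
    calc |f x - f (-x)| ≤ |f x| + |f (-x)| := abs_sub _ _
      _ ≤ C * 2 := by linarith [hb x, hb (-x)]
  have hodd : ∀ x, Z (-x) = -Z x := by intro x; simp only [hZdef, neg_neg]; ring
  have hk := h.odd_tanh hZm hZb hodd
  have hie : Integrable (fun x => (f x + f (-x)) / 2) ρ := by
    refine integrable_of_bdd' (C := C) ((hf.add hfn).div_const 2) (fun x => ?_)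
    rw [abs_div, abs_two, div_le_iff₀ (by norm_num : (0 : ℝ) < 2)]
    calc |f x + f (-x)| ≤ |f x| + |f (-x)| := abs_add_le _ _
      _ ≤ C * 2 := by linarith [hb x, hb (-x)]
  have hiZ : Integrable Z ρ := integrable_of_bdd' hZm hZb
  have hiZt : Integrable (fun x => Z x * Real.tanh x) ρ := by
    refine integrable_of_bdd' (C := C) (hZm.mul H23Isg.measurable_tanh) (fun x => ?_)
    rw [abs_mul]
    calc |Z x| * |Real.tanh x| ≤ C * 1 :=
          mul_le_mul (hZb x) (Real.abs_tanh_lt_one x).le (abs_nonneg _) hC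
      _ = C := mul_one C
  calc ∫ x, f x ∂ρ = ∫ x, ((f x + f (-x)) / 2 + Z x) ∂ρ := by
        congr 1; funext x; simp only [hZdef]; ring
    _ = ∫ x, (f x + f (-x)) / 2 ∂ρ + ∫ x, Z x ∂ρ := integral_add hie hiZ
    _ = ∫ x, (f x + f (-x)) / 2 ∂ρ + ∫ x, Z x * Real.tanh x ∂ρ := by rw [hk]
    _ = ∫ x, ((f x + f (-x)) / 2 + Z x * Real.tanh x) ∂ρ := (integral_add hie hiZt).symm
    _ = _ := by congr 1; funext x; simp only [hZdef]; ring

lemma Chan.integral_tanh (h : Chan ρ H) : ∫ x, Real.tanh x ∂ρ = info ρ := by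
  have := h.odd_tanh (Z := Real.tanh) H23Isg.measurable_tanh
    (fun x => (Real.abs_tanh_lt_one x).le) Real.tanh_neg
  rw [← this]
  unfold info
  congr 1; funext x; ring

lemma info_nonneg (ρ : Measure ℝ) : 0 ≤ info ρ := integral_nonneg (fun _ => sq_nonneg _)

lemma integrable_tanh_sq {P : Measure ℝ} [IsFiniteMeasure P] :
    Integrable (fun x => Real.tanh x ^ 2) P :=
  integrable_of_bdd' (C := 1) (H23Isg.measurable_tanh.pow_const 2) (fun x => by
    rw [abs_of_nonneg (sq_nonneg _)]; exact tanh_sq_le_one x)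

lemma Chan.info_lt_one (h : Chan ρ H) : info ρ < 1 := by
  have := h.prob
  have h1 : info ρ ≤ ∫ _, Real.tanh H ^ 2 ∂ρ := by
    unfold info
    refine integral_mono_ae integrable_tanh_sq (integrable_const _) ?_
    exact h.bdd.mono (fun x hx => tanh_sq_le_of_abs_le hx)
  rw [integral_const] at h1
  simp only [probReal_univ, one_smul] at h1
  exact h1.trans_lt (Real.tanh_sq_lt_one H)

lemma ae_prod_bdd (h1 : Chan ρ H) (h2 : Chan ρ' H') :
    ∀ᵐ p ∂(ρ.prod ρ'), |p.1| ≤ H ∧ |p.2| ≤ H' := by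
  have := h1.prob
  have := h2.prob
  have e1 : ∀ᵐ p ∂(ρ.prod ρ'), |p.1| ≤ H := Measure.quasiMeasurePreserving_fst.ae h1.bdd
  have e2 : ∀ᵐ p ∂(ρ.prod ρ'), |p.2| ≤ H' := Measure.quasiMeasurePreserving_snd.ae h2.bdd
  exact e1.and e2

/-- the joint Nishimori identity -/
lemma Chan.nish2 (h1 : Chan ρ H) (h2 : Chan ρ' H') {Φ : ℝ × ℝ → ℝ} (hΦ : Measurable Φ) {C : ℝ}
    (hb : ∀ p, |Φ p| ≤ C) :
    ∫ p, Φ (-p.1, -p.2) ∂(ρ.prod ρ') = ∫ p, Φ p * Real.exp (-2 * (p.1 + p.2)) ∂(ρ.prod ρ') := by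
  have := h1.prob
  have := h2.prob
  have hC : 0 ≤ C := (abs_nonneg _).trans (hb 0)
  have m1 : Measurable (fun p : ℝ × ℝ => Φ (-p.1, -p.2)) :=
    hΦ.comp (measurable_fst.neg.prodMk measurable_snd.neg)
  have m2 : Measurable (fun p : ℝ × ℝ => Φ (-p.1, p.2) * Real.exp (-2 * p.2)) :=
    (hΦ.comp (measurable_fst.neg.prodMk measurable_snd)).mul
      (Real.measurable_exp.comp (measurable_snd.const_mul _))
  have m3 : Measurable (fun p : ℝ × ℝ => Φ p * Real.exp (-2 * (p.1 + p.2))) :=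
    hΦ.mul (Real.measurable_exp.comp ((measurable_fst.add measurable_snd).const_mul _))
  have i1 : Integrable (fun p : ℝ × ℝ => Φ (-p.1, -p.2)) (ρ.prod ρ') :=
    integrable_of_bdd' m1 (fun p => hb _)
  have i2 : Integrable (fun p : ℝ × ℝ => Φ (-p.1, p.2) * Real.exp (-2 * p.2)) (ρ.prod ρ') := by
    refine integrable_of_bdd (C := C * Real.exp (2 * H')) m2 ?_
    filter_upwards [ae_prod_bdd h1 h2] with p hp
    rw [abs_mul, abs_of_pos (Real.exp_pos _)]
    refine mul_le_mul (hb _) (Real.exp_le_exp.mpr ?_) (Real.exp_pos _).le hC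
    linarith [(abs_le.mp hp.2).1]
  have i3 : Integrable (fun p : ℝ × ℝ => Φ p * Real.exp (-2 * (p.1 + p.2))) (ρ.prod ρ') := by
    refine integrable_of_bdd (C := C * Real.exp (2 * (H + H'))) m3 ?_
    filter_upwards [ae_prod_bdd h1 h2] with p hp
    rw [abs_mul, abs_of_pos (Real.exp_pos _)]
    refine mul_le_mul (hb _) (Real.exp_le_exp.mpr ?_) (Real.exp_pos _).le hC
    linarith [(abs_le.mp hp.1).1, (abs_le.mp hp.2).1]
  rw [integral_prod _ i1]
  have s1 : ∀ x : ℝ, ∫ y, Φ (-x, -y) ∂ρ' = ∫ y, Φ (-x, y) * Real.exp (-2 * y) ∂ρ' := by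
    intro x
    exact h2.nish (fun y => Φ (-x, y)) (hΦ.comp (measurable_const.prodMk measurable_id))
      ⟨C, fun y => hb _⟩
  simp only [s1]
  rw [← integral_prod (f := fun p : ℝ × ℝ => Φ (-p.1, p.2) * Real.exp (-2 * p.2)) i2,
    integral_prod_symm _ i2, integral_prod_symm _ i3]
  congr 1
  funext y
  simp only
  have s2 : ∫ x, Φ (-x, y) ∂ρ = ∫ x, Φ (x, y) * Real.exp (-2 * x) ∂ρ :=
    h1.nish (fun x => Φ (x, y)) (hΦ.comp (measurable_id.prodMk measurable_const))
      ⟨C, fun x => hb _⟩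
  rw [integral_mul_const, s2, ← integral_mul_const]
  congr 1
  funext x
  rw [mul_assoc, ← Real.exp_add]
  congr 2
  ring

/-- the law of the sum of two independent channels is a channel -/
lemma Chan.add (h1 : Chan ρ H) (h2 : Chan ρ' H') :
    Chan ((ρ.prod ρ').map (fun p => p.1 + p.2)) (H + H') := by
  have := h1.prob
  have := h2.prob
  have hm : Measurable (fun p : ℝ × ℝ => p.1 + p.2) := measurable_fst.add measurable_snd
  refine ⟨Measure.isProbabilityMeasure_map hm.aemeasurable, ?_, ?_⟩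
  · rw [ae_map_iff hm.aemeasurable (measurableSet_le (by fun_prop) measurable_const)]
    filter_upwards [ae_prod_bdd h1 h2] with p hp
    exact (abs_add_le _ _).trans (add_le_add hp.1 hp.2)
  · rintro φ hφ ⟨C, hC⟩
    have hφn : Measurable (fun x => φ (-x)) := hφ.comp measurable_neg
    have hφe : Measurable (fun x => φ x * Real.exp (-2 * x)) :=
      hφ.mul (Real.measurable_exp.comp (measurable_id.const_mul _))
    rw [integral_map hm.aemeasurable hφn.aestronglyMeasurable,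
      integral_map hm.aemeasurable hφe.aestronglyMeasurable]
    have := h1.nish2 h2 (Φ := fun p => φ (p.1 + p.2)) (hφ.comp hm) (fun p => hC _)
    simp only at this
    rw [← this]
    congr 1
    funext p
    congr 1
    ring

lemma info_map_add (ρ ρ' : Measure ℝ) :
    info ((ρ.prod ρ').map (fun p => p.1 + p.2)) = ∫ p, Real.tanh (p.1 + p.2) ^ 2 ∂(ρ.prod ρ') := by
  have hm : Measurable (fun p : ℝ × ℝ => p.1 + p.2) := measurable_fst.add measurable_snd
  unfold info
  rw [integral_map hm.aemeasurable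
    (H23Isg.measurable_tanh.pow_const 2).aestronglyMeasurable]

/-- double symmetrisation -/
lemma Chan.symm2 (h1 : Chan ρ H) (h2 : Chan ρ' H') {f : ℝ × ℝ → ℝ} (hf : Measurable f) {C : ℝ}
    (hb : ∀ p, |f p| ≤ C) :
    ∫ p, f p ∂(ρ.prod ρ') =
      ∫ p, ((1 + Real.tanh p.1) * (1 + Real.tanh p.2) * f (p.1, p.2) +
        (1 + Real.tanh p.1) * (1 - Real.tanh p.2) * f (p.1, -p.2) +
        (1 - Real.tanh p.1) * (1 + Real.tanh p.2) * f (-p.1, p.2) +
        (1 - Real.tanh p.1) * (1 - Real.tanh p.2) * f (-p.1, -p.2)) / 4 ∂(ρ.prod ρ') := by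
  have := h1.prob
  have := h2.prob
  have hC : 0 ≤ C := (abs_nonneg _).trans (hb 0)
  have mt := H23Isg.measurable_tanh
  set f1 : ℝ × ℝ → ℝ := fun p => ((1 + Real.tanh p.2) * f (p.1, p.2) +
    (1 - Real.tanh p.2) * f (p.1, -p.2)) / 2 with hf1
  have mf' : Measurable (fun p : ℝ × ℝ => f (p.1, -p.2)) :=
    hf.comp (measurable_fst.prodMk measurable_snd.neg)
  have mf1 : Measurable f1 := by
    have e1 : Measurable (fun p : ℝ × ℝ => (1 + Real.tanh p.2) * f (p.1, p.2)) :=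
      (measurable_const.add (mt.comp measurable_snd)).mul hf
    have e2 : Measurable (fun p : ℝ × ℝ => (1 - Real.tanh p.2) * f (p.1, -p.2)) :=
      (measurable_const.sub (mt.comp measurable_snd)).mul mf'
    exact (e1.add e2).div_const 2
  have key : ∀ t u v : ℝ, 0 ≤ 1 + t → 0 ≤ 1 - t → |u| ≤ C → |v| ≤ C →
      |((1 + t) * u + (1 - t) * v) / 2| ≤ C := by
    intro t u v h1 h2 h3 h4
    have a1 := abs_le.mp h3
    have a2 := abs_le.mp h4
    rw [abs_le]
    constructor <;> nlinarith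
  have bf1 : ∀ p, |f1 p| ≤ C := fun p =>
    key _ _ _ (one_add_tanh_pos _).le (one_sub_tanh_pos _).le (hb _) (hb _)
  set f2 : ℝ × ℝ → ℝ := fun p => ((1 + Real.tanh p.1) * f1 (p.1, p.2) +
    (1 - Real.tanh p.1) * f1 (-p.1, p.2)) / 2 with hf2
  have mf1' : Measurable (fun p : ℝ × ℝ => f1 (-p.1, p.2)) :=
    mf1.comp (measurable_fst.neg.prodMk measurable_snd)
  have mf2 : Measurable f2 := by
    have e1 : Measurable (fun p : ℝ × ℝ => (1 + Real.tanh p.1) * f1 (p.1, p.2)) :=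
      (measurable_const.add (mt.comp measurable_fst)).mul mf1
    have e2 : Measurable (fun p : ℝ × ℝ => (1 - Real.tanh p.1) * f1 (-p.1, p.2)) :=
      (measurable_const.sub (mt.comp measurable_fst)).mul mf1'
    exact (e1.add e2).div_const 2
  have bf2 : ∀ p, |f2 p| ≤ C := fun p =>
    key _ _ _ (one_add_tanh_pos _).le (one_sub_tanh_pos _).le (bf1 _) (bf1 _)
  have i0 : Integrable f (ρ.prod ρ') := integrable_of_bdd' hf hb
  have i1 : Integrable f1 (ρ.prod ρ') := integrable_of_bdd' mf1 bf1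
  have i2 : Integrable f2 (ρ.prod ρ') := integrable_of_bdd' mf2 bf2
  have s1 : ∀ x : ℝ, ∫ y, f (x, y) ∂ρ' = ∫ y, f1 (x, y) ∂ρ' := fun x =>
    h2.symm1 (f := fun y => f (x, y)) (hf.comp (measurable_const.prodMk measurable_id))
      (fun y => hb _)
  have s2 : ∀ y : ℝ, ∫ x, f1 (x, y) ∂ρ = ∫ x, f2 (x, y) ∂ρ := fun y =>
    h1.symm1 (f := fun x => f1 (x, y)) (mf1.comp (measurable_id.prodMk measurable_const))
      (fun x => bf1 _)
  calc ∫ p, f p ∂(ρ.prod ρ') = ∫ x, ∫ y, f (x, y) ∂ρ' ∂ρ := integral_prod _ i0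
    _ = ∫ x, ∫ y, f1 (x, y) ∂ρ' ∂ρ := by simp only [s1]
    _ = ∫ p, f1 p ∂(ρ.prod ρ') := (integral_prod _ i1).symm
    _ = ∫ y, ∫ x, f1 (x, y) ∂ρ ∂ρ' := integral_prod_symm _ i1
    _ = ∫ y, ∫ x, f2 (x, y) ∂ρ ∂ρ' := by simp only [s2]
    _ = ∫ p, f2 p ∂(ρ.prod ρ') := (integral_prod_symm _ i2).symm
    _ = _ := by
        congr 1
        funext p
        simp only [hf2, hf1]
        ring

/-- upper bound for the information of a sum -/
lemma Chan.info_add_upper (h1 : Chan ρ H) (h2 : Chan ρ' H') :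
    (1 - info ρ) * (1 - info ρ') ≤ 1 - info ((ρ.prod ρ').map (fun p => p.1 + p.2)) := by
  have := h1.prob
  have := h2.prob
  have mt := H23Isg.measurable_tanh
  have hm : Measurable (fun p : ℝ × ℝ => p.1 + p.2) := measurable_fst.add measurable_snd
  have mT : Measurable (fun p : ℝ × ℝ => 1 - Real.tanh (p.1 + p.2) ^ 2) :=
    measurable_const.sub ((mt.comp hm).pow_const 2)
  have bT : ∀ p : ℝ × ℝ, |1 - Real.tanh (p.1 + p.2) ^ 2| ≤ 1 := by
    intro p
    rw [abs_of_pos (one_sub_tanh_sq_posN _)]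
    linarith [sq_nonneg (Real.tanh (p.1 + p.2))]
  have hs := h1.symm2 h2 mT bT
  have e1 : ∫ p : ℝ × ℝ, (1 - Real.tanh (p.1 + p.2) ^ 2) ∂(ρ.prod ρ') =
      1 - info ((ρ.prod ρ').map (fun p => p.1 + p.2)) := by
    rw [info_map_add, integral_sub (integrable_const _)]
    · simp
    · exact integrable_of_bdd' (C := 1) ((mt.comp hm).pow_const 2) (fun p => by
        rw [abs_of_nonneg (sq_nonneg _)]; exact tanh_sq_le_one _)
  have e2 : ∫ p : ℝ × ℝ, (1 - Real.tanh p.1 ^ 2) * (1 - Real.tanh p.2 ^ 2) ∂(ρ.prod ρ') =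
      (1 - info ρ) * (1 - info ρ') := by
    rw [integral_prod_mul (fun x => 1 - Real.tanh x ^ 2) (fun x => 1 - Real.tanh x ^ 2),
      integral_sub (integrable_const _) integrable_tanh_sq,
      integral_sub (integrable_const _) integrable_tanh_sq]
    simp [info]
  rw [← e1, ← e2, hs]
  refine integral_mono ?_ ?_ (fun p => ?_)
  · refine integrable_of_bdd' (C := 1) ?_ (fun p => ?_)
    · exact (measurable_const.sub ((mt.comp measurable_fst).pow_const 2)).mul
        (measurable_const.sub ((mt.comp measurable_snd).pow_const 2))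
    · have a1 := one_sub_tanh_sq_posN p.1
      have a2 := one_sub_tanh_sq_posN p.2
      rw [abs_of_pos (mul_pos a1 a2)]
      have := sq_nonneg (Real.tanh p.1)
      have := sq_nonneg (Real.tanh p.2)
      nlinarith
  · refine integrable_of_bdd' (C := 1) ?_ (fun p => ?_)
    · have q1 : Measurable (fun p : ℝ × ℝ => Real.tanh p.1) := mt.comp measurable_fst
      have q2 : Measurable (fun p : ℝ × ℝ => Real.tanh p.2) := mt.comp measurable_snd
      have r1 : Measurable (fun p : ℝ × ℝ => Real.tanh (p.1 + -p.2)) :=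
        mt.comp (measurable_fst.add measurable_snd.neg)
      have r2 : Measurable (fun p : ℝ × ℝ => Real.tanh (-p.1 + p.2)) :=
        mt.comp (measurable_fst.neg.add measurable_snd)
      have r3 : Measurable (fun p : ℝ × ℝ => Real.tanh (-p.1 + -p.2)) :=
        mt.comp (measurable_fst.neg.add measurable_snd.neg)
      have r4 : Measurable (fun p : ℝ × ℝ => Real.tanh (p.1 + p.2)) := mt.comp hm
      fun_prop
    · have b1 := bT (p.1, p.2)
      have b2 := bT (p.1, -p.2)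
      have b3 := bT (-p.1, p.2)
      have b4 := bT (-p.1, -p.2)
      simp only at b1 b2 b3 b4
      have a1 := one_add_tanh_pos p.1
      have a2 := one_add_tanh_pos p.2
      have a3 := one_sub_tanh_pos p.1
      have a4 := one_sub_tanh_pos p.2
      rw [abs_le] at b1 b2 b3 b4 ⊢
      have c1 := mul_pos a1 a2
      have c2 := mul_pos a1 a4
      have c3 := mul_pos a3 a2
      have c4 := mul_pos a3 a4
      constructor <;> nlinarith
  · simp only
    have n1 : Real.tanh (-p.1) = -Real.tanh p.1 := Real.tanh_neg _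
    have n2 : Real.tanh (-p.2) = -Real.tanh p.2 := Real.tanh_neg _
    rw [one_sub_tanh_add_sq p.1 p.2, one_sub_tanh_add_sq p.1 (-p.2),
      one_sub_tanh_add_sq (-p.1) p.2, one_sub_tanh_add_sq (-p.1) (-p.2), n1, n2]
    set s := Real.tanh p.1
    set t := Real.tanh p.2
    have hs1 : 0 < 1 - s ^ 2 := one_sub_tanh_sq_posN p.1
    have ht1 : 0 < 1 - t ^ 2 := one_sub_tanh_sq_posN p.2
    have hst : 0 < 1 + s * t := one_add_tanh_mul_tanh_posN p.1 p.2
    have hst' : 0 < 1 - s * t := by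
      have := one_add_tanh_mul_tanh_posN p.1 (-p.2)
      rw [n2] at this
      linarith
    have hsum : ((1 + s) * (1 + t) * ((1 - s ^ 2) * (1 - t ^ 2) / (1 + s * t) ^ 2) +
        (1 + s) * (1 - t) * ((1 - s ^ 2) * (1 - (-t) ^ 2) / (1 + s * -t) ^ 2) +
        (1 - s) * (1 + t) * ((1 - (-s) ^ 2) * (1 - t ^ 2) / (1 + -s * t) ^ 2) +
        (1 - s) * (1 - t) * ((1 - (-s) ^ 2) * (1 - (-t) ^ 2) / (1 + -s * -t) ^ 2)) / 4 =
        (1 - s ^ 2) * (1 - t ^ 2) * (1 / (1 - (s * t) ^ 2)) := by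
      have e1 : 1 + s * -t = 1 - s * t := by ring
      have e2 : 1 + -s * t = 1 - s * t := by ring
      have e3 : 1 + -s * -t = 1 + s * t := by ring
      have e4 : 1 - (s * t) ^ 2 = (1 + s * t) * (1 - s * t) := by ring
      rw [e1, e2, e3, e4]
      field_simp
      ring
    rw [hsum]
    have h1 : 1 ≤ 1 / (1 - (s * t) ^ 2) := by
      rw [le_div_iff₀ (by nlinarith)]
      linarith [sq_nonneg (s * t)]
    nlinarith [mul_pos hs1 ht1]

lemma lower_alg {x y I α β : ℝ} (hx0 : 0 ≤ x) (hy0 : 0 ≤ y) (hx1 : x < 1) (hy1 : y < 1)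
    (hI0 : 0 ≤ I) (hI1 : I ≤ 1) (hkey : x + y - 2 * x * y ≤ (1 - x * y) * I)
    (ha : α * (1 - x) ≤ x) (hb : β * (1 - y) ≤ y) : (α + β) * (1 - I) ≤ I := by
  have hm0 : 0 < 1 - x * y := by nlinarith
  have a1 := mul_le_mul_of_nonneg_right ha (by linarith : (0 : ℝ) ≤ 1 - y)
  have a2 := mul_le_mul_of_nonneg_right hb (by linarith : (0 : ℝ) ≤ 1 - x)
  have hlin : (α + β) * ((1 - x) * (1 - y)) ≤ x + y - 2 * x * y := by
    have e : (α + β) * ((1 - x) * (1 - y)) = α * (1 - x) * (1 - y) + β * (1 - y) * (1 - x) := by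
      ring
    rw [e]
    linarith
  have h5 : (1 - I) * (1 - x * y) ≤ (1 - x) * (1 - y) := by linarith
  by_cases hab : α + β ≤ 0
  · have : (α + β) * (1 - I) ≤ 0 := mul_nonpos_of_nonpos_of_nonneg hab (by linarith)
    linarith
  · push Not at hab
    have h6 : (α + β) * ((1 - I) * (1 - x * y)) ≤ (1 - x * y) * I :=
      (mul_le_mul_of_nonneg_left h5 hab.le).trans (hlin.trans hkey)
    have h7 : 0 ≤ (1 - x * y) * (I - (α + β) * (1 - I)) := by linarith
    have := nonneg_of_mul_nonneg_right h7 hm0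
    linarith

/-- lower bound for the information of a sum (linear estimator) -/
lemma Chan.info_add_lower (h1 : Chan ρ H) (h2 : Chan ρ' H') {α β : ℝ}
    (ha : α * (1 - info ρ) ≤ info ρ) (hb : β * (1 - info ρ') ≤ info ρ') :
    (α + β) * (1 - info ((ρ.prod ρ').map (fun p => p.1 + p.2))) ≤
      info ((ρ.prod ρ').map (fun p => p.1 + p.2)) := by
  have := h1.prob
  have := h2.prob
  have mt := H23Isg.measurable_tanh
  have hm : Measurable (fun p : ℝ × ℝ => p.1 + p.2) := measurable_fst.add measurable_snd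
  set x := info ρ with hx
  set y := info ρ' with hy
  have hx0 : 0 ≤ x := info_nonneg ρ
  have hy0 : 0 ≤ y := info_nonneg ρ'
  have hx1 : x < 1 := h1.info_lt_one
  have hy1 : y < 1 := h2.info_lt_one
  rw [info_map_add]
  set I := ∫ p : ℝ × ℝ, Real.tanh (p.1 + p.2) ^ 2 ∂(ρ.prod ρ') with hI
  set Z : ℝ × ℝ → ℝ := fun p => (1 - y) * Real.tanh p.1 + (1 - x) * Real.tanh p.2 with hZ
  have mZ : Measurable Z :=
    ((mt.comp measurable_fst).const_mul _).add ((mt.comp measurable_snd).const_mul _)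
  have bZ : ∀ p, |Z p| ≤ 2 := by
    intro p
    have b1 := abs_lt.mp (Real.abs_tanh_lt_one p.1)
    have b2 := abs_lt.mp (Real.abs_tanh_lt_one p.2)
    simp only [hZ]
    rw [abs_le]
    constructor <;> nlinarith
  have mT : Measurable (fun p : ℝ × ℝ => Real.tanh (p.1 + p.2)) := mt.comp hm
  -- E Z (1 - T) = 0
  have hodd : ∫ p, Z p * (1 - Real.tanh (p.1 + p.2)) ∂(ρ.prod ρ') = 0 := by
    have hn := h1.nish2 h2 (Φ := fun p => Z p * (1 + Real.tanh (p.1 + p.2)))
      (mZ.mul (measurable_const.add mT)) (C := 4) (fun p => by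
        rw [abs_mul, abs_of_pos (one_add_tanh_pos _)]
        have := Real.tanh_lt_one (p.1 + p.2)
        calc |Z p| * (1 + Real.tanh (p.1 + p.2)) ≤ 2 * 2 :=
              mul_le_mul (bZ p) (by linarith) (one_add_tanh_pos _).le (by norm_num)
          _ = 4 := by norm_num)
    simp only at hn
    have f1 : ∀ p : ℝ × ℝ, Z (-p.1, -p.2) * (1 + Real.tanh (-p.1 + -p.2)) =
        -(Z p * (1 - Real.tanh (p.1 + p.2))) := by
      intro p
      have : -p.1 + -p.2 = -(p.1 + p.2) := by ring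
      simp only [hZ]
      rw [this, Real.tanh_neg, Real.tanh_neg, Real.tanh_neg]; ring
    have f2 : ∀ p : ℝ × ℝ, Z p * (1 + Real.tanh (p.1 + p.2)) * Real.exp (-2 * (p.1 + p.2)) =
        Z p * (1 - Real.tanh (p.1 + p.2)) := by
      intro p; rw [mul_assoc, one_add_tanh_mul_exp]
    simp only [f1, f2] at hn
    rw [integral_neg] at hn
    linarith
  have iZ : Integrable Z (ρ.prod ρ') := integrable_of_bdd' mZ bZ
  have iT2 : Integrable (fun p : ℝ × ℝ => Real.tanh (p.1 + p.2) ^ 2) (ρ.prod ρ') :=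
    integrable_of_bdd' (C := 1) (mT.pow_const 2) (fun p => by
      rw [abs_of_nonneg (sq_nonneg _)]; exact tanh_sq_le_one _)
  have iZT : Integrable (fun p => Z p * Real.tanh (p.1 + p.2)) (ρ.prod ρ') :=
    integrable_of_bdd' (C := 2) (mZ.mul mT) (fun p => by
      rw [abs_mul]
      calc |Z p| * |Real.tanh (p.1 + p.2)| ≤ 2 * 1 :=
            mul_le_mul (bZ p) (Real.abs_tanh_lt_one _).le (abs_nonneg _) (by norm_num)
        _ = 2 := by norm_num)
  have iZ2 : Integrable (fun p => Z p ^ 2) (ρ.prod ρ') :=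
    integrable_of_bdd' (C := 4) (mZ.pow_const 2) (fun p => by
      rw [abs_of_nonneg (sq_nonneg _), ← sq_abs]
      nlinarith [bZ p, abs_nonneg (Z p)])
  have p1 : ∫ p : ℝ × ℝ, Real.tanh p.1 ∂(ρ.prod ρ') = x := by
    have := integral_prod_mul (μ := ρ) (ν := ρ') Real.tanh (fun _ => (1 : ℝ))
    simp only [mul_one] at this
    rw [this, h1.integral_tanh]; simp [hx]
  have p2 : ∫ p : ℝ × ℝ, Real.tanh p.2 ∂(ρ.prod ρ') = y := by
    have := integral_prod_mul (μ := ρ) (ν := ρ') (fun _ => (1 : ℝ)) Real.tanh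
    simp only [one_mul] at this
    rw [this, h2.integral_tanh]; simp [hy]
  have q1 : ∫ p : ℝ × ℝ, Real.tanh p.1 ^ 2 ∂(ρ.prod ρ') = x := by
    have := integral_prod_mul (μ := ρ) (ν := ρ') (fun x => Real.tanh x ^ 2) (fun _ => (1 : ℝ))
    simp only [mul_one] at this
    rw [this]; simp [hx, info]
  have q2 : ∫ p : ℝ × ℝ, Real.tanh p.2 ^ 2 ∂(ρ.prod ρ') = y := by
    have := integral_prod_mul (μ := ρ) (ν := ρ') (fun _ => (1 : ℝ)) (fun x => Real.tanh x ^ 2)
    simp only [one_mul] at this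
    rw [this]; simp [hy, info]
  have q3 : ∫ p : ℝ × ℝ, Real.tanh p.1 * Real.tanh p.2 ∂(ρ.prod ρ') = x * y := by
    rw [integral_prod_mul Real.tanh Real.tanh, h1.integral_tanh, h2.integral_tanh]
  have j1 : Integrable (fun p : ℝ × ℝ => Real.tanh p.1) (ρ.prod ρ') :=
    integrable_of_bdd' (C := 1) (mt.comp measurable_fst) (fun p => (Real.abs_tanh_lt_one _).le)
  have j2 : Integrable (fun p : ℝ × ℝ => Real.tanh p.2) (ρ.prod ρ') :=
    integrable_of_bdd' (C := 1) (mt.comp measurable_snd) (fun p => (Real.abs_tanh_lt_one _).le)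
  have j11 : Integrable (fun p : ℝ × ℝ => Real.tanh p.1 ^ 2) (ρ.prod ρ') :=
    integrable_of_bdd' (C := 1) ((mt.comp measurable_fst).pow_const 2) (fun p => by
      rw [abs_of_nonneg (sq_nonneg _)]; exact tanh_sq_le_one _)
  have j22 : Integrable (fun p : ℝ × ℝ => Real.tanh p.2 ^ 2) (ρ.prod ρ') :=
    integrable_of_bdd' (C := 1) ((mt.comp measurable_snd).pow_const 2) (fun p => by
      rw [abs_of_nonneg (sq_nonneg _)]; exact tanh_sq_le_one _)
  have j12 : Integrable (fun p : ℝ × ℝ => Real.tanh p.1 * Real.tanh p.2) (ρ.prod ρ') :=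
    integrable_of_bdd' (C := 1) ((mt.comp measurable_fst).mul (mt.comp measurable_snd))
      (fun p => by
        rw [abs_mul]
        calc |Real.tanh p.1| * |Real.tanh p.2| ≤ 1 * 1 :=
              mul_le_mul (Real.abs_tanh_lt_one _).le (Real.abs_tanh_lt_one _).le
                (abs_nonneg _) (by norm_num)
          _ = 1 := by norm_num)
  have EZ : ∫ p, Z p ∂(ρ.prod ρ') = (1 - y) * x + (1 - x) * y := by
    simp only [hZ]
    rw [integral_add (j1.const_mul _) (j2.const_mul _), integral_const_mul, integral_const_mul,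
      p1, p2]
  have EZT : ∫ p, Z p * Real.tanh (p.1 + p.2) ∂(ρ.prod ρ') = (1 - y) * x + (1 - x) * y := by
    have : ∫ p, Z p * (1 - Real.tanh (p.1 + p.2)) ∂(ρ.prod ρ') =
        ∫ p, Z p ∂(ρ.prod ρ') - ∫ p, Z p * Real.tanh (p.1 + p.2) ∂(ρ.prod ρ') := by
      rw [← integral_sub iZ iZT]
      congr 1; funext p; ring
    rw [hodd, EZ] at this
    linarith
  have EZ2 : ∫ p, Z p ^ 2 ∂(ρ.prod ρ') =
      (1 - y) ^ 2 * x + 2 * (1 - x) * (1 - y) * (x * y) + (1 - x) ^ 2 * y := by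
    have : (fun p => Z p ^ 2) = fun p : ℝ × ℝ => (1 - y) ^ 2 * Real.tanh p.1 ^ 2 +
        2 * (1 - x) * (1 - y) * (Real.tanh p.1 * Real.tanh p.2) +
        (1 - x) ^ 2 * Real.tanh p.2 ^ 2 := by
      funext p; simp only [hZ]; ring
    have k1 : Integrable (fun p : ℝ × ℝ => (1 - y) ^ 2 * Real.tanh p.1 ^ 2) (ρ.prod ρ') :=
      j11.const_mul _
    have k2 : Integrable (fun p : ℝ × ℝ => 2 * (1 - x) * (1 - y) *
        (Real.tanh p.1 * Real.tanh p.2)) (ρ.prod ρ') := j12.const_mul _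
    have k3 : Integrable (fun p : ℝ × ℝ => (1 - y) ^ 2 * Real.tanh p.1 ^ 2 +
        2 * (1 - x) * (1 - y) * (Real.tanh p.1 * Real.tanh p.2)) (ρ.prod ρ') := k1.add k2
    rw [this, integral_add k3 (j22.const_mul _), integral_add k1 k2, integral_const_mul,
      integral_const_mul, integral_const_mul, q1, q2, q3]
  -- quadratic form
  set m := 1 - x * y with hmdef
  have hm0 : 0 < m := by simp only [hmdef]; nlinarith
  have hquad : 0 ≤ ∫ p, (Z p - m * Real.tanh (p.1 + p.2)) ^ 2 ∂(ρ.prod ρ') :=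
    integral_nonneg (fun p => sq_nonneg _)
  have hexp : ∫ p, (Z p - m * Real.tanh (p.1 + p.2)) ^ 2 ∂(ρ.prod ρ') =
      ∫ p, Z p ^ 2 ∂(ρ.prod ρ') - 2 * m * ∫ p, Z p * Real.tanh (p.1 + p.2) ∂(ρ.prod ρ') +
        m ^ 2 * I := by
    have : (fun p => (Z p - m * Real.tanh (p.1 + p.2)) ^ 2) = fun p : ℝ × ℝ =>
        Z p ^ 2 - 2 * m * (Z p * Real.tanh (p.1 + p.2)) + m ^ 2 * Real.tanh (p.1 + p.2) ^ 2 := by
      funext p; ring
    have k1 : Integrable (fun p : ℝ × ℝ => 2 * m * (Z p * Real.tanh (p.1 + p.2)))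
        (ρ.prod ρ') := iZT.const_mul _
    have k2 : Integrable (fun p : ℝ × ℝ => Z p ^ 2 - 2 * m * (Z p * Real.tanh (p.1 + p.2)))
        (ρ.prod ρ') := iZ2.sub k1
    rw [this, integral_add k2 (iT2.const_mul _), integral_sub iZ2 k1, integral_const_mul,
      integral_const_mul]
  rw [hexp, EZ2, EZT] at hquad
  have hkey : x + y - 2 * x * y ≤ (1 - x * y) * I := by
    have : 0 ≤ m * (m * I - (x + y - 2 * x * y)) := by
      have e : m * (m * I - (x + y - 2 * x * y)) = (1 - y) ^ 2 * x +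
        2 * (1 - x) * (1 - y) * (x * y) + (1 - x) ^ 2 * y -
        2 * m * ((1 - y) * x + (1 - x) * y) + m ^ 2 * I := by
        simp only [hmdef]; ring
      rw [e]; exact hquad
    have := nonneg_of_mul_nonneg_right this hm0
    linarith
  have hI1 : I ≤ 1 := by
    have : I ≤ ∫ _ : ℝ × ℝ, (1 : ℝ) ∂(ρ.prod ρ') :=
      integral_mono iT2 (integrable_const _) (fun p => tanh_sq_le_one _)
    simpa using this
  have hI0 : 0 ≤ I := integral_nonneg (fun p => sq_nonneg _)
  exact lower_alg hx0 hy0 hx1 hy1 hI0 hI1 hkey ha hb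

end Chan

end Crest.Agent.Isg
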