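import Crest.Agent.IsgReal1
import Crest.Agent.IsgNish
import Crest.Agent.H27Prod

set_option autoImplicit false

/-!
Module CHANT of rid 160: properties of the channels `rhoT t`.
-/

open MeasureTheory ProbabilityTheory Filter Topology

namespace Crest.Agent.IsgChanT

open Crest.Agent.Isg

/-! ### Elementary facts -/

lemma mem_Ioo {z : ℝ} (h : |z| ≤ 1 / 2) : z ∈ Set.Ioo (-1 : ℝ) 1 := by
  obtain ⟨h1, h2⟩ := abs_le.1 h
  exact ⟨by linarith, by linarith⟩

lemma exp_artanh' {z : ℝ} (h : |z| ≤ 1 / 2) :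
    Real.exp (-2 * Real.artanh z) = (1 - z) / (1 + z) := by
  rw [exp_neg_two_mul_eq, Real.tanh_artanh (mem_Ioo h)]

lemma artanh_neg' (z : ℝ) : Real.artanh (-z) = -Real.artanh z := by
  unfold Real.artanh
  have h : √((1 + -z) / (1 - -z)) = (√((1 + z) / (1 - z)))⁻¹ := by
    rw [← Real.sqrt_inv, inv_div]
    congr 2
    ring
  rw [h, Real.log_inv]

lemma artanh_le {z : ℝ} (h0 : 0 ≤ z) (h : z ≤ 1 / 2) : Real.artanh z ≤ 2 * z := by
  rw [Real.artanh_eq_half_log ⟨by linarith, by linarith⟩]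
  have h1 : 0 < 1 - z := by linarith
  have h2 : Real.log ((1 + z) / (1 - z)) ≤ (1 + z) / (1 - z) - 1 :=
    Real.log_le_sub_one_of_pos (by positivity)
  have h3 : (1 + z) / (1 - z) - 1 ≤ 4 * z := by
    rw [sub_le_iff_le_add, div_le_iff₀ h1]
    nlinarith
  linarith

lemma abs_artanh_le {z : ℝ} (h : |z| ≤ 1 / 2) : |Real.artanh z| ≤ 2 * |z| := by
  rcases le_total 0 z with h0 | h0
  · rw [abs_of_nonneg h0] at h ⊢
    rw [abs_of_nonneg (Real.artanh_nonneg h0)]
    exact artanh_le h0 h
  · rw [abs_of_nonpos h0] at h ⊢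
    have h1 : Real.artanh z = -Real.artanh (-z) := by rw [artanh_neg']; ring
    rw [h1, abs_neg, abs_of_nonneg (Real.artanh_nonneg (by linarith))]
    exact artanh_le (by linarith) h

lemma str_nonneg' (u : ℝ) : 0 ≤ str u := Real.sqrt_nonneg _

lemma str_le_half' (u : ℝ) : str u ≤ 1 / 2 := by
  unfold str
  apply Real.sqrt_le_iff.2
  constructor
  · norm_num
  · nlinarith [sq_nonneg (u - 1 / 2)]

lemma str_sq' (u : UI) : str u ^ 2 = (u : ℝ) * (1 - u) := by
  unfold str
  rw [Real.sq_sqrt]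
  exact mul_nonneg u.2.1 (by linarith [u.2.2])

lemma str_le_sqrt {u : ℝ} (h0 : 0 ≤ u) : str u ≤ Real.sqrt u := by
  unfold str
  apply Real.sqrt_le_sqrt
  nlinarith [sq_nonneg u]

lemma measurable_str' : Measurable str := by
  unfold str
  fun_prop

lemma measurable_artanh' : Measurable Real.artanh := by
  unfold Real.artanh
  fun_prop

/-- The signal. -/
noncomputable def zq (q : UI × UI) : ℝ := str (q.1 : ℝ) * (2 * (Gc (str (q.1 : ℝ)) q.2 : ℝ) - 1)

lemma measurable_zq : Measurable zq := by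
  unfold zq
  have h1 : Measurable (fun q : UI × UI => str (q.1 : ℝ)) :=
    measurable_str'.comp (measurable_subtype_coe.comp measurable_fst)
  have h2 : Measurable (fun q : UI × UI => ((Gc (str (q.1 : ℝ)) q.2 : UI) : ℝ)) :=
    measurable_subtype_coe.comp (IsgReal1.measurable_Gc.comp (h1.prodMk measurable_snd))
  exact h1.mul ((h2.const_mul 2).sub_const 1)

lemma abs_two_mul_sub_one_le' (y : UI) : |2 * (y : ℝ) - 1| ≤ 1 := by
  have h1 := y.2.1
  have h2 := y.2.2
  rw [abs_le]; constructor <;> linarith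

lemma abs_zq_le (q : UI × UI) : |zq q| ≤ str (q.1 : ℝ) := by
  unfold zq
  rw [abs_mul, abs_of_nonneg (str_nonneg' _)]
  calc str (q.1 : ℝ) * |2 * ((Gc (str (q.1 : ℝ)) q.2 : UI) : ℝ) - 1| ≤ str (q.1 : ℝ) * 1 :=
        mul_le_mul_of_nonneg_left (abs_two_mul_sub_one_le' _) (str_nonneg' _)
    _ = _ := mul_one _

lemma abs_zq_le_half (q : UI × UI) : |zq q| ≤ 1 / 2 := (abs_zq_le q).trans (str_le_half' _)

/-- One increment of the field. -/
noncomputable def fq (s : ℝ) (q : UI × UI) : ℝ := if (q.1 : ℝ) < s then Real.artanh (zq q) else 0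

lemma measurable_fq (s : ℝ) : Measurable (fq s) := by
  unfold fq
  refine Measurable.ite ?_ (measurable_artanh'.comp measurable_zq) measurable_const
  exact measurableSet_lt (measurable_subtype_coe.comp measurable_fst) measurable_const

lemma abs_fq_le (s : ℝ) (q : UI × UI) : |fq s q| ≤ 1 := by
  unfold fq
  split_ifs
  · refine (abs_artanh_le (abs_zq_le_half q)).trans ?_
    have := abs_zq_le_half q
    linarith
  · simp

lemma abs_fq_le' {s : ℝ} (q : UI × UI) : |fq s q| ≤ 2 * Real.sqrt s := by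
  unfold fq
  split_ifs with h
  · refine (abs_artanh_le (abs_zq_le_half q)).trans ?_
    have h1 := abs_zq_le q
    have h2 := str_le_sqrt q.1.2.1
    have h3 := Real.sqrt_le_sqrt h.le
    linarith
  · simp only [abs_zero]
    positivity

/-- The law of one increment. -/
noncomputable def sig (s : ℝ) : Measure ℝ :=
  ((volume : Measure UI).prod (volume : Measure UI)).map (fq s)

instance (s : ℝ) : IsProbabilityMeasure (sig s) :=
  Measure.isProbabilityMeasure_map (measurable_fq s).aemeasurable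

/-- Change of variables in the noise. -/
lemma integral_Gc {e : ℝ} (he0 : 0 ≤ e) (he : e ≤ 1 / 2) {ψ : ℝ → ℝ} (hψ : Measurable ψ) :
    ∫ w : UI, ψ (e * (2 * ((Gc e w : UI) : ℝ) - 1)) =
      ∫ y : UI, ψ (e * (2 * (y : ℝ) - 1)) * (1 + e * (2 * (y : ℝ) - 1)) := by
  have hea : |e| ≤ 1 / 2 := by rw [abs_of_nonneg he0]; exact he
  have hmG : Measurable (Gc e) :=
    IsgReal1.measurable_Gc.comp (measurable_const.prodMk measurable_id)
  have hm : Measurable (fun y : UI => ψ (e * (2 * (y : ℝ) - 1))) :=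
    hψ.comp (((measurable_subtype_coe.const_mul 2).sub_const 1).const_mul e)
  have h1 : ∫ w : UI, ψ (e * (2 * ((Gc e w : UI) : ℝ) - 1)) =
      ∫ y, ψ (e * (2 * (y : ℝ) - 1)) ∂((volume : Measure UI).map (Gc e)) := by
    rw [integral_map hmG.aemeasurable hm.aestronglyMeasurable]
  rw [h1, IsgReal1.volume_map_Gc hea,
    integral_withDensity_eq_integral_toReal_smul (IsgReal1.measurable_dens e)
    (Filter.Eventually.of_forall fun _ => ENNReal.ofReal_lt_top)]
  congr 1
  funext y
  have h2 := IsgReal1.den_pos (m := 1) he (IsgReal1.abs_z_le he0 y) (by norm_num)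
  rw [mul_one] at h2
  rw [ENNReal.toReal_ofReal (by linarith), smul_eq_mul, mul_comm]

/-- Symmetry of the uniform law. -/
lemma integral_symm' (f : UI → ℝ) :
    ∫ y : UI, f (unitInterval.symm y) = ∫ y : UI, f y :=
  unitInterval.measurePreserving_symm.integral_comp
    unitInterval.symmMeasurableEquiv.measurableEmbedding f

lemma nish_fixed {e : ℝ} (he0 : 0 ≤ e) (he : e ≤ 1 / 2) {φ : ℝ → ℝ} (hφ : Measurable φ) :
    ∫ w : UI, φ (-Real.artanh (e * (2 * ((Gc e w : UI) : ℝ) - 1))) =
      ∫ w : UI, φ (Real.artanh (e * (2 * ((Gc e w : UI) : ℝ) - 1))) *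
        Real.exp (-2 * Real.artanh (e * (2 * ((Gc e w : UI) : ℝ) - 1))) := by
  have h1 := integral_Gc he0 he (ψ := fun z => φ (-Real.artanh z))
    (hφ.comp measurable_artanh'.neg)
  have h2 := integral_Gc he0 he (ψ := fun z => φ (Real.artanh z) * Real.exp (-2 * Real.artanh z))
    ((hφ.comp measurable_artanh').mul (Real.measurable_exp.comp (measurable_artanh'.const_mul _)))
  rw [h1, h2]
  rw [← integral_symm' (fun y : UI => φ (-Real.artanh (e * (2 * (y : ℝ) - 1))) *
    (1 + e * (2 * (y : ℝ) - 1)))]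
  congr 1
  funext y
  rw [unitInterval.coe_symm_eq]
  have h3 : e * (2 * (1 - (y : ℝ)) - 1) = -(e * (2 * (y : ℝ) - 1)) := by ring
  have h4 := (IsgReal1.abs_z_le he0 y).trans he
  rw [h3, artanh_neg', neg_neg, exp_artanh' h4]
  obtain ⟨h5, h6⟩ := abs_le.1 h4
  have h7 : 1 + e * (2 * (y : ℝ) - 1) ≠ 0 := by linarith
  field_simp
  ring

/-- The law of one increment is a channel. -/
lemma chan_sig {s H : ℝ} (hH : ∀ q, |fq s q| ≤ H) : Chan (sig s) H := by
  refine ⟨inferInstance, ?_, ?_⟩
  · unfold sig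
    rw [ae_map_iff (measurable_fq s).aemeasurable (measurableSet_le (by fun_prop) measurable_const)]
    exact Eventually.of_forall hH
  · rintro φ hφ ⟨C, hC⟩
    have hφn : Measurable (fun x => φ (-x)) := hφ.comp measurable_neg
    have hφe : Measurable (fun x => φ x * Real.exp (-2 * x)) :=
      hφ.mul (Real.measurable_exp.comp (measurable_id.const_mul _))
    unfold sig
    rw [integral_map (measurable_fq s).aemeasurable hφn.aestronglyMeasurable,
      integral_map (measurable_fq s).aemeasurable hφe.aestronglyMeasurable]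
    rw [integral_prod, integral_prod]
    · congr 1
      funext u
      by_cases hu : (u : ℝ) < s
      · simp only [fq, hu, if_true, zq]
        exact nish_fixed (str_nonneg' _) (str_le_half' _) hφ
      · simp [fq, hu]
    · refine integrable_of_bdd' (hφe.comp (measurable_fq s)) (C := C * Real.exp 2) (fun q => ?_)
      rw [abs_mul, abs_of_pos (Real.exp_pos _)]
      have h1 := abs_le.1 (abs_fq_le s q)
      exact mul_le_mul (hC _) (Real.exp_le_exp.2 (by linarith)) (Real.exp_pos _).le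
        ((abs_nonneg _).trans (hC 0))
    · exact integrable_of_bdd' (hφn.comp (measurable_fq s)) (C := C) (fun q => hC _)

/-! ### The information of one increment -/

lemma integral_two_sub_sq : ∫ y : UI, (2 * (y : ℝ) - 1) ^ 2 = 1 / 3 := by
  have h1 := unitInterval.measurePreserving_coe.integral_comp
    unitInterval.measurableEmbedding_coe (fun x : ℝ => (2 * x - 1) ^ 2)
  rw [h1]
  have h2 : ∫ x in unitInterval, (2 * x - 1) ^ 2 = ∫ x in (0 : ℝ)..1, (2 * x - 1) ^ 2 := by
    rw [intervalIntegral.integral_of_le zero_le_one, ← integral_Icc_eq_integral_Ioc]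
  rw [h2, intervalIntegral.integral_eq_sub_of_hasDerivAt
    (f := fun x : ℝ => (2 * x - 1) ^ 3 / 6)]
  · norm_num
  · intro x _
    have h3 : HasDerivAt (fun x : ℝ => 2 * x - 1) 2 x := by
      simpa using ((hasDerivAt_id x).const_mul 2).sub_const 1
    have h4 := (h3.pow 3).div_const 6
    have h5 : (2 * x - 1) ^ 2 = (3 : ℕ) * (2 * x - 1) ^ (3 - 1) * 2 / 6 := by
      norm_num
      ring
    rw [h5]
    exact h4
  · apply Continuous.intervalIntegrable
    fun_prop

lemma integral_odd3 (e : ℝ) : ∫ y : UI, (e * (2 * (y : ℝ) - 1)) ^ 3 = 0 := by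
  have h1 := integral_symm' (fun y : UI => (e * (2 * (y : ℝ) - 1)) ^ 3)
  have h2 : ∫ y : UI, (e * (2 * ((unitInterval.symm y : UI) : ℝ) - 1)) ^ 3 =
      -∫ y : UI, (e * (2 * (y : ℝ) - 1)) ^ 3 := by
    rw [← integral_neg]
    congr 1
    funext y
    rw [unitInterval.coe_symm_eq]
    ring
  linarith

lemma bdd_UI_integrable {f : UI → ℝ} (hf : Continuous f) : Integrable f := by
  obtain ⟨C, hC⟩ := isCompact_univ.exists_bound_of_continuousOn hf.continuousOn
  exact Integrable.of_bound hf.aestronglyMeasurable C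
    (Eventually.of_forall fun x => hC x (Set.mem_univ x))

lemma info_fixed {e : ℝ} (he0 : 0 ≤ e) (he : e ≤ 1 / 2) :
    ∫ w : UI, Real.tanh (Real.artanh (e * (2 * ((Gc e w : UI) : ℝ) - 1))) ^ 2 = e ^ 2 / 3 := by
  have h0 : ∀ w : UI, Real.tanh (Real.artanh (e * (2 * ((Gc e w : UI) : ℝ) - 1))) ^ 2 =
      (e * (2 * ((Gc e w : UI) : ℝ) - 1)) ^ 2 := by
    intro w
    rw [Real.tanh_artanh (mem_Ioo ((IsgReal1.abs_z_le he0 _).trans he))]
  simp only [h0]
  have h1 := integral_Gc he0 he (ψ := fun z => z ^ 2) (by fun_prop)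
  rw [h1]
  have h2 : (fun y : UI => (e * (2 * (y : ℝ) - 1)) ^ 2 * (1 + e * (2 * (y : ℝ) - 1))) =
      fun y : UI => e ^ 2 * (2 * (y : ℝ) - 1) ^ 2 + (e * (2 * (y : ℝ) - 1)) ^ 3 := by
    funext y; ring
  rw [h2, integral_add, integral_const_mul, integral_two_sub_sq, integral_odd3]
  · ring
  · exact bdd_UI_integrable (by fun_prop)
  · exact bdd_UI_integrable (by fun_prop)

lemma info_sig (s : ℝ) : info (sig s) =
    ∫ u : UI, if (u : ℝ) < s then (u : ℝ) * (1 - u) / 3 else 0 := by
  unfold info sig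
  have hm : Measurable (fun x : ℝ => Real.tanh x ^ 2) :=
    (H23Isg.measurable_tanh).pow_const 2
  rw [integral_map (measurable_fq s).aemeasurable hm.aestronglyMeasurable, integral_prod]
  · congr 1
    funext u
    by_cases hu : (u : ℝ) < s
    · simp only [fq, hu, if_true, zq]
      rw [info_fixed (str_nonneg' _) (str_le_half' _), str_sq']
    · simp [fq, hu]
  · refine integrable_of_bdd' (hm.comp (measurable_fq s)) (C := 1) (fun q => ?_)
    rw [abs_of_nonneg (sq_nonneg _)]
    exact (Real.tanh_sq_lt_one _).le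

lemma info_sig_eq {s : ℝ} (h0 : 0 ≤ s) (h1 : s ≤ 1) : info (sig s) = s ^ 2 / 6 - s ^ 3 / 9 := by
  rw [info_sig]
  have h2 := unitInterval.measurePreserving_coe.integral_comp
    unitInterval.measurableEmbedding_coe (fun x : ℝ => if x < s then x * (1 - x) / 3 else 0)
  rw [h2]
  have h3 : ∫ x in unitInterval, (if x < s then x * (1 - x) / 3 else 0) =
      ∫ x in Set.Ico 0 s, x * (1 - x) / 3 := by
    have h4 : (fun x : ℝ => if x < s then x * (1 - x) / 3 else 0) =
        (Set.Iio s).indicator (fun x => x * (1 - x) / 3) := by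
      funext x
      simp [Set.indicator]
    rw [h4, setIntegral_indicator measurableSet_Iio]
    congr 1
    congr 1
    ext x
    simp only [unitInterval, Set.mem_inter_iff, Set.mem_Icc, Set.mem_Iio, Set.mem_Ico]
    constructor
    · rintro ⟨⟨h5, h6⟩, h7⟩; exact ⟨h5, h7⟩
    · rintro ⟨h5, h6⟩; exact ⟨⟨h5, by linarith⟩, h6⟩
  rw [h3, integral_Ico_eq_integral_Ioo, ← integral_Ioc_eq_integral_Ioo,
    ← intervalIntegral.integral_of_le h0,
    intervalIntegral.integral_eq_sub_of_hasDerivAt (f := fun x : ℝ => x ^ 2 / 6 - x ^ 3 / 9)]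
  · ring
  · intro x _
    have h5 := ((hasDerivAt_pow 2 x).div_const 6).sub ((hasDerivAt_pow 3 x).div_const 9)
    have h6 : x * (1 - x) / 3 = (2 : ℕ) * x ^ (2 - 1) / 6 - (3 : ℕ) * x ^ (3 - 1) / 9 := by
      norm_num
      ring
    rw [h6]
    exact h5
  · apply Continuous.intervalIntegrable
    fun_prop

lemma info_sig_ge {s : ℝ} (h1 : 1 ≤ s) : 1 / 18 ≤ info (sig s) := by
  have h2 : info (sig 1) ≤ info (sig s) := by
    rw [info_sig, info_sig]
    have hint : ∀ s : ℝ, Integrable (fun u : UI => if (u : ℝ) < s then (u : ℝ) * (1 - u) / 3 else 0)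
        volume := by
      intro s
      refine integrable_of_bdd' (Measurable.ite (measurableSet_lt measurable_subtype_coe
        measurable_const) (by fun_prop) measurable_const) (C := 1) (fun u => ?_)
      have h3 := u.2.1
      have h4 := u.2.2
      split_ifs
      · rw [abs_of_nonneg (by nlinarith [mul_nonneg h3 (sub_nonneg.2 h4)])]
        nlinarith [mul_nonneg h3 (sub_nonneg.2 h4)]
      · simp
    refine integral_mono (hint 1) (hint s) (fun u => ?_)
    have h3 := u.2.1
    have h4 := u.2.2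
    have h5 : 0 ≤ (u : ℝ) * (1 - u) / 3 := by
      have := mul_nonneg h3 (sub_nonneg.2 h4)
      linarith
    simp only
    split_ifs with h6 h7
    · exact le_rfl
    · exact absurd (lt_of_lt_of_le h6 h1) h7
    · exact h5
    · exact le_rfl
  rw [info_sig_eq zero_le_one le_rfl] at h2
  linarith

/-! ### Sums -/

/-- Partial sums. -/
noncomputable def Sn (t : ℝ) (n : ℕ) (p : (ℕ → UI) × (ℕ → UI)) : ℝ :=
  ∑ j ∈ Finset.range n, fq (t - j) (p.1 j, p.2 j)

lemma measurable_term (t : ℝ) (j : ℕ) :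
    Measurable (fun p : (ℕ → UI) × (ℕ → UI) => fq (t - j) (p.1 j, p.2 j)) :=
  (measurable_fq _).comp (H27Prod.measurable_co j)

lemma measurable_Sn (t : ℝ) (n : ℕ) : Measurable (Sn t n) :=
  Finset.measurable_sum _ fun j _ => measurable_term t j

/-- The law of the partial sums. -/
noncomputable def rS (t : ℝ) (n : ℕ) : Measure ℝ := ((noise ℕ).prod (noise ℕ)).map (Sn t n)

lemma map_term (t : ℝ) (j : ℕ) :
    ((noise ℕ).prod (noise ℕ)).map (fun p => fq (t - j) (p.1 j, p.2 j)) = sig (t - j) := by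
  have h1 : (fun p : (ℕ → UI) × (ℕ → UI) => fq (t - j) (p.1 j, p.2 j)) =
      fq (t - j) ∘ H27Prod.co j := rfl
  rw [h1, ← Measure.map_map (measurable_fq _) (H27Prod.measurable_co j), H27Prod.map_co]
  rfl

lemma rS_succ (t : ℝ) (n : ℕ) :
    rS t (n + 1) = ((rS t n).prod (sig (t - n))).map (fun p => p.1 + p.2) := by
  have hind : iIndepFun (fun (j : ℕ) (p : (ℕ → UI) × (ℕ → UI)) => fq (t - j) (p.1 j, p.2 j))
      ((noise ℕ).prod (noise ℕ)) :=
    (H27Prod.iIndepFun_co (fun _ : ℕ => (volume : Measure UI)) (fun _ : ℕ => (volume : Measure UI))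
      ).comp (fun j : ℕ => fq (t - j)) (fun j => measurable_fq _)
  have h1 := hind.indepFun_finsetSum_of_notMem (fun j => measurable_term t j)
    (s := Finset.range n) (i := n) (by simp)
  have h2 : (∑ j ∈ Finset.range n, fun p : (ℕ → UI) × (ℕ → UI) => fq (t - j) (p.1 j, p.2 j)) =
      Sn t n := by
    funext p
    simp [Sn, Finset.sum_apply]
  rw [h2] at h1
  have h3 := (indepFun_iff_map_prod_eq_prod_map_map (measurable_Sn t n).aemeasurable
    (measurable_term t n).aemeasurable).1 h1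
  rw [map_term] at h3
  have h4 : rS t n = ((noise ℕ).prod (noise ℕ)).map (Sn t n) := rfl
  rw [h4, ← h3, Measure.map_map (by fun_prop)
    ((measurable_Sn t n).prodMk (measurable_term t n))]
  unfold rS
  congr 1
  funext p
  simp [Sn, Finset.sum_range_succ]

lemma chan_rS (t : ℝ) (n : ℕ) : Chan (rS t n) n := by
  induction n with
  | zero =>
    have h1 : rS t 0 = Measure.dirac 0 := by
      unfold rS
      have h2 : Sn t 0 = fun _ => 0 := by funext p; simp [Sn]
      rw [h2, Measure.map_const]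
      simp
    rw [h1]
    refine ⟨inferInstance, ?_, ?_⟩
    · rw [ae_dirac_iff (measurableSet_le (by fun_prop) measurable_const)]
      simp
    · intro φ _ _
      simp
  | succ n ih =>
    rw [rS_succ]
    have := ih.add (chan_sig (s := t - n) (abs_fq_le _))
    push_cast
    exact this

lemma info_rS_mono (t : ℝ) (n : ℕ) : info (rS t n) ≤ info (rS t (n + 1)) := by
  rw [rS_succ]
  have h1 := chan_rS t n
  have h2 := chan_sig (s := t - n) (abs_fq_le _)
  have hx0 := info_nonneg (rS t n)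
  have hx1 := h1.info_lt_one
  have h3 := h1.info_add_lower h2 (α := info (rS t n) / (1 - info (rS t n))) (β := 0)
    (by rw [div_mul_cancel₀ _ (by linarith)]) (by simpa using info_nonneg _)
  rw [add_zero] at h3
  set I := info (Measure.map (fun p : ℝ × ℝ => p.1 + p.2) ((rS t n).prod (sig (t - n))))
  have h4 : 0 < 1 - info (rS t n) := by linarith
  have h5 := mul_le_mul_of_nonneg_left h3 h4.le
  have h6 : (1 - info (rS t n)) * (info (rS t n) / (1 - info (rS t n)) * (1 - I)) =
      info (rS t n) * (1 - I) := by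
    field_simp
  rw [h6] at h5
  linarith

lemma rS_one (t : ℝ) : rS t 1 = sig t := by
  unfold rS
  have h1 : Sn t 1 = fun p => fq (t - (0 : ℕ)) (p.1 0, p.2 0) := by
    funext p; simp [Sn]
  rw [h1, map_term]
  simp

lemma rhoT_eq (t : ℝ) : rhoT t = rS t (⌊t⌋₊ + 1) := by
  unfold rhoT rS
  congr 1
  funext p
  unfold Sn fq zq
  refine Finset.sum_congr rfl fun j _ => ?_
  simp only
  have h1 : ((j : ℝ) + (p.1 j : ℝ) < t) ↔ ((p.1 j : ℝ) < t - j) :=
    ⟨fun h => by linarith, fun h => by linarith⟩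
  simp only [h1]

lemma info_sig_le_rS (t : ℝ) (n : ℕ) : info (sig t) ≤ info (rS t (n + 1)) := by
  induction n with
  | zero => rw [zero_add, rS_one]
  | succ n ih => exact ih.trans (info_rS_mono t (n + 1))

/-- For small times only the first term matters. -/
lemma rhoT_small {t : ℝ} (h1 : t ≤ 1) : rhoT t = sig t := by
  rw [rhoT_eq, ← rS_one]
  unfold rS
  congr 1
  funext p
  unfold Sn
  rw [Finset.sum_range_succ']
  have h2 : ∑ k ∈ Finset.range ⌊t⌋₊, fq (t - ((k + 1 : ℕ) : ℝ)) (p.1 (k + 1), p.2 (k + 1)) = 0 := by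
    refine Finset.sum_eq_zero fun k _ => ?_
    unfold fq
    rw [if_neg]
    have := (p.1 (k + 1)).2.1
    push_cast
    have h3 : (0 : ℝ) ≤ k := Nat.cast_nonneg k
    linarith
  rw [h2]
  simp

theorem main : Spec.ChanFamT := by
  refine ⟨⟨fun t => (⌊t⌋₊ : ℝ) + 1, ?_, ?_⟩, ⟨2, by norm_num, ?_⟩, ⟨1 / 18, by norm_num, ?_, ?_⟩⟩
  · intro s t hst
    have : ⌊s⌋₊ ≤ ⌊t⌋₊ := Nat.floor_mono hst
    have h2 : (⌊s⌋₊ : ℝ) ≤ ⌊t⌋₊ := by exact_mod_cast this
    simp only
    linarith
  · intro t _
    rw [rhoT_eq]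
    have := chan_rS t (⌊t⌋₊ + 1)
    push_cast at this
    exact this
  · intro t h0 h1
    rw [rhoT_small h1]
    refine ⟨chan_sig (fun q => abs_fq_le' q), ?_⟩
    rw [info_sig_eq h0.le h1]
    have h2 : 0 < t ^ 2 := by positivity
    have h3 : 0 < t ^ 3 := by positivity
    linarith
  · intro t h0 h1
    rw [rhoT_small h1, info_sig_eq h0.le h1]
    have h2 : t ^ 3 ≤ t ^ 2 := pow_le_pow_of_le_one h0.le h1 (by norm_num)
    linarith
  · intro t h1
    rw [rhoT_eq]
    exact (info_sig_ge h1).trans (info_sig_le_rS t _)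

end Crest.Agent.IsgChanT
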