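import Crest.Agent.IsgPair

set_option autoImplicit false

/-!
Module CRUDE of S0241: crude bound of the kernel, with mass transport.
-/

open MeasureTheory ProbabilityTheory Filter Topology

namespace Crest.Agent.IsgCrude

open Crest.Agent.Isg Crest.Agent.IsgPair

variable {b : ℕ}

/-- The weights. -/
noncomputable def wt (b : ℕ) (lam : ℝ) (n : ℕ) : ℝ := Real.exp (lam * n) * ((b : ℝ)⁻¹) ^ n

lemma wt_nonneg (b : ℕ) (lam : ℝ) (n : ℕ) : 0 ≤ wt b lam n := by unfold wt; positivity

lemma wt_add (b : ℕ) (lam : ℝ) (m n : ℕ) : wt b lam (m + n) = wt b lam m * wt b lam n := by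
  unfold wt
  push_cast
  rw [mul_add, Real.exp_add, pow_add]
  ring

/-- vertices of the path to `w`. -/
def pre (w : V b) (k : ℕ) : V b := ⟨w.l.drop k, w.h.drop k⟩

/-- the rest of the path. -/
def suf (w : V b) (k : ℕ) : V b := ⟨w.l.take k, w.h.take k⟩

lemma pre_suf_inj (w w' : V b) (k k' : ℕ) (hk : k ≤ len w) (hk' : k' ≤ len w')
    (h1 : pre w k = pre w' k') (h2 : suf w k = suf w' k') : w = w' ∧ k = k' := by
  have e1 : w.l.drop k = w'.l.drop k' := congrArg V.l h1
  have e2 : w.l.take k = w'.l.take k' := congrArg V.l h2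
  constructor
  · apply V.ext
    rw [← List.take_append_drop k w.l, ← List.take_append_drop k' w'.l, e1, e2]
  · have := congrArg List.length e2
    rw [List.length_take, List.length_take] at this
    unfold len at hk hk'
    omega

lemma DD_split (θ : ℝ) (h : V b → ℝ) (w : V b) (k : ℕ) :
    DD θ h (rt b) w = DD θ h (rt b) (pre w k) * DD θ h (pre w k) (suf w k) := by
  unfold DD
  have h1 : w.l = (suf w k).l ++ (pre w k).l := (List.take_append_drop k w.l).symm
  conv_lhs => rw [h1]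
  rw [DDl_append]
  have h2 : follow (rt b) (pre w k).l = pre w k := follow_rt _ (pre w k).h
  rw [h2]

lemma len_split (w : V b) (k : ℕ) : len w = len (pre w k) + len (suf w k) := by
  unfold len pre suf
  have := congrArg List.length (List.take_append_drop k w.l)
  rw [List.length_append] at this
  simp only
  change w.l.length = _
  omega

/-- the weighted sum along all paths is bounded by the sum over pairs. -/
lemma sum_path_le (θ lam : ℝ) (h0 : 0 ≤ θ) (h1 : θ < 1) (h h' g : V b → ℝ) :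
    ∑' w : V b, ENNReal.ofReal (wt b lam (len w) * PS θ h h' (rt b) w.l * DD θ g (rt b) w) ≤
      ∑' v : V b, ENNReal.ofReal (wt b lam (len v) * del θ h h' v ^ 2 * DD θ g (rt b) v) *
        Gl θ lam (fun x => g (mul v x)) := by
  have e1 : ∀ w : V b, ENNReal.ofReal (wt b lam (len w) * PS θ h h' (rt b) w.l *
      DD θ g (rt b) w) = ∑' k : Fin (len w + 1),
        ENNReal.ofReal (wt b lam (len (pre w k)) * del θ h h' (pre w k) ^ 2 *
          DD θ g (rt b) (pre w k)) *
        ENNReal.ofReal (wt b lam (len (suf w k)) * DD θ g (pre w k) (suf w k)) := by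
    intro w
    rw [PS_eq_sum, tsum_fintype, Finset.sum_range]
    rw [Finset.mul_sum, Finset.sum_mul, ENNReal.ofReal_sum_of_nonneg]
    · apply Finset.sum_congr rfl
      intro k _
      rw [← ENNReal.ofReal_mul (by
        have := DD_pos h0 h1 g (rt b) (pre w k)
        have := wt_nonneg b lam (len (pre w k))
        positivity)]
      congr 1
      have h2 : follow (rt b) (w.l.drop k) = pre w k := follow_rt _ (pre w k).h
      have h3 : wt b lam (len w) = wt b lam (len (pre w k)) * wt b lam (len (suf w k)) := by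
        rw [← wt_add, ← len_split]
      rw [h2, DD_split θ g w k, h3]
      ring
    · intro k _
      have := DD_pos h0 h1 g (rt b) w
      have := wt_nonneg b lam (len w)
      positivity
  have e2 : ∀ v : V b, Gl θ lam (fun x => g (mul v x)) =
      ∑' x : V b, ENNReal.ofReal (wt b lam (len x) * DD θ g v x) := by
    intro v
    unfold Gl
    congr 1
    ext x
    rw [DD_mul, mul_rt]
    rfl
  simp only [e1]
  rw [← ENNReal.tsum_sigma' (β := fun w : V b => Fin (len w + 1))
    (f := fun q : (Σ w : V b, Fin (len w + 1)) =>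
      ENNReal.ofReal (wt b lam (len (pre q.1 q.2)) * del θ h h' (pre q.1 q.2) ^ 2 *
          DD θ g (rt b) (pre q.1 q.2)) *
        ENNReal.ofReal (wt b lam (len (suf q.1 q.2)) * DD θ g (pre q.1 q.2) (suf q.1 q.2)))]
  have hinj : Function.Injective (fun q : (Σ w : V b, Fin (len w + 1)) =>
      ((pre q.1 q.2, suf q.1 q.2) : V b × V b)) := by
    rintro ⟨w, k⟩ ⟨w', k'⟩ h2
    simp only [Prod.mk.injEq] at h2
    obtain ⟨h3, h4⟩ := pre_suf_inj w w' k k' (by omega) (by omega) h2.1 h2.2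
    subst h3
    have : k = k' := Fin.ext h4
    subst this
    rfl
  refine (ENNReal.tsum_comp_le_tsum_of_injective hinj (fun q : V b × V b =>
    ENNReal.ofReal (wt b lam (len q.1) * del θ h h' q.1 ^ 2 * DD θ g (rt b) q.1) *
      ENNReal.ofReal (wt b lam (len q.2) * DD θ g q.1 q.2))).trans ?_
  rw [ENNReal.tsum_prod']
  apply le_of_eq
  congr 1
  ext v
  rw [e2, ← ENNReal.tsum_mul_left]

section law

variable {θ H : ℝ} {ρ : Measure ℝ} {L : Measure ((V b → ℝ) × (V b → ℝ))}

/-- measurability of the shifted `Gl`. -/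
lemma measurable_Gl_sh (θ lam : ℝ) (v : V b) :
    Measurable (fun p : (V b → ℝ) × (V b → ℝ) => Gl θ lam (fun x => p.1 (mul v x))) :=
  (measurable_Gl θ lam).comp (measurable_pi_lambda _ (fun x =>
    (measurable_pi_apply (mul v x)).comp measurable_fst))

/-- mass transport. -/
lemma transport {c : ℝ} (hc : 0 < c) (h0 : 0 ≤ θ) (h1 : θ < 1) (lam : ℝ)
    (hL : PairLaw b θ ρ L) (hgood : ∀ᵐ p ∂L, Good θ p.1 ∧ ∀ u, c ≤ 1 - M θ p.1 u ^ 2) :
    ∫⁻ p, ∑' v : V b, ENNReal.ofReal (wt b lam (len v) * del θ p.1 p.2 v ^ 2 *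
        DD θ p.1 (rt b) v) * Gl θ lam (fun x => p.1 (mul v x)) ∂L ≤
      ENNReal.ofReal (1 / c) * ∫⁻ p, ENNReal.ofReal (del θ p.1 p.2 (rt b) ^ 2) *
        Gl θ lam p.1 ^ 2 ∂L := by
  have hm : ∀ v : V b, Measurable (fun p : (V b → ℝ) × (V b → ℝ) =>
      ENNReal.ofReal (wt b lam (len v) * del θ p.1 p.2 v ^ 2 *
        DD θ p.1 (rt b) v) * Gl θ lam (fun x => p.1 (mul v x))) := by
    intro v
    apply Measurable.mul
    · apply Measurable.ennreal_ofReal
      exact ((((measurable_del θ v).pow_const 2).const_mul _).mul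
        ((measurable_DD θ (rt b) v).comp measurable_fst))
    · exact measurable_Gl_sh θ lam v
  rw [lintegral_tsum (fun v => (hm v).aemeasurable)]
  have e1 : ∀ v : V b, ∫⁻ p, ENNReal.ofReal (wt b lam (len v) * del θ p.1 p.2 v ^ 2 *
        DD θ p.1 (rt b) v) * Gl θ lam (fun x => p.1 (mul v x)) ∂L =
      ∫⁻ p, ENNReal.ofReal (wt b lam (len v) * del θ p.1 p.2 (rt b) ^ 2 *
        DD θ p.1 (inv v) v) * Gl θ lam p.1 ∂L := by
    intro v
    rw [← lintegral_sh hL (inv v) (hm v)]
    congr 1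
    ext p
    unfold sh
    simp only
    rw [del_mul, DD_mul, inv_mul', mul_rt]
    congr 2
    ext x
    rw [inv_mul_cancel_left']
  simp only [e1]
  rw [← lintegral_tsum, ← lintegral_const_mul]
  · apply lintegral_mono_ae
    filter_upwards [hgood] with p hp
    obtain ⟨hg, hM⟩ := hp
    have e2 : ∀ v : V b, ENNReal.ofReal (wt b lam (len v) * del θ p.1 p.2 (rt b) ^ 2 *
        DD θ p.1 (inv v) v) ≤ ENNReal.ofReal (1 / c) * ENNReal.ofReal (del θ p.1 p.2 (rt b) ^ 2) *
          ENNReal.ofReal (Real.exp (lam * len (inv v)) * ((b : ℝ)⁻¹) ^ len (inv v) *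
            DD θ p.1 (rt b) (inv v)) := by
      intro v
      rw [← ENNReal.ofReal_mul (by positivity), ← ENNReal.ofReal_mul (by positivity)]
      apply ENNReal.ofReal_le_ofReal
      rw [len_inv]
      change _ ≤ _ * (wt b lam (len v) * _)
      have h2 := IsgUpd.ddSymm b θ h0 h1 p.1 hg (inv v) v
      rw [inv_mul'] at h2
      have h3 := hM (inv v)
      have h4 := DD_pos h0 h1 p.1 (inv v) v
      have h5 := DD_pos h0 h1 p.1 (rt b) (inv v)
      have h6 : DD θ p.1 (inv v) v ≤ 1 / c * DD θ p.1 (rt b) (inv v) := by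
        rw [div_mul_eq_mul_div, one_mul, le_div_iff₀ hc]
        have h7 : (1 - M θ p.1 (rt b) ^ 2) * DD θ p.1 (rt b) (inv v) ≤ DD θ p.1 (rt b) (inv v) := by
          nlinarith [sq_nonneg (M θ p.1 (rt b))]
        nlinarith
      have h8 : 0 ≤ wt b lam (len v) * del θ p.1 p.2 (rt b) ^ 2 :=
        mul_nonneg (wt_nonneg _ _ _) (sq_nonneg _)
      calc _ ≤ wt b lam (len v) * del θ p.1 p.2 (rt b) ^ 2 *
            (1 / c * DD θ p.1 (rt b) (inv v)) := mul_le_mul_of_nonneg_left h6 h8
        _ = _ := by ring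
    calc ∑' v : V b, ENNReal.ofReal (wt b lam (len v) * del θ p.1 p.2 (rt b) ^ 2 *
          DD θ p.1 (inv v) v) * Gl θ lam p.1
        ≤ ∑' v : V b, (ENNReal.ofReal (1 / c) * ENNReal.ofReal (del θ p.1 p.2 (rt b) ^ 2) *
          ENNReal.ofReal (Real.exp (lam * len (inv v)) * ((b : ℝ)⁻¹) ^ len (inv v) *
            DD θ p.1 (rt b) (inv v))) * Gl θ lam p.1 := by
          apply ENNReal.tsum_le_tsum
          intro v
          exact mul_le_mul_left (e2 v) _
      _ = ENNReal.ofReal (1 / c) * (ENNReal.ofReal (del θ p.1 p.2 (rt b) ^ 2) *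
        Gl θ lam p.1 ^ 2) := by
          rw [ENNReal.tsum_mul_right, ENNReal.tsum_mul_left]
          have e3 : ∑' v : V b, ENNReal.ofReal (Real.exp (lam * len (inv v)) *
              ((b : ℝ)⁻¹) ^ len (inv v) * DD θ p.1 (rt b) (inv v)) = Gl θ lam p.1 := by
            unfold Gl
            exact (invE (b := b)).tsum_eq (fun v => ENNReal.ofReal (Real.exp (lam * len v) *
              ((b : ℝ)⁻¹) ^ len v * DD θ p.1 (rt b) v))
          rw [e3]
          ring
  · exact ((measurable_del θ _).pow_const 2).ennreal_ofReal.mul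
      (((measurable_Gl θ lam).comp measurable_fst).pow_const 2)
  · intro v
    apply AEMeasurable.mul
    · apply Measurable.aemeasurable
      apply Measurable.ennreal_ofReal
      exact ((((measurable_del θ (rt b)).pow_const 2).const_mul _).mul
        ((measurable_DD θ (inv v) v).comp measurable_fst))
    · exact ((measurable_Gl θ lam).comp measurable_fst).aemeasurable

end law

theorem main (hG : Spec.GoodPL) : Spec.Crude := by
  intro b θ hb hθ hcrit H
  have h0 : 0 ≤ θ := hθ.le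
  have hb1 : (1 : ℝ) < b := by exact_mod_cast (show 1 < b by omega)
  have h1 : θ < 1 := by
    by_contra hcon
    push Not at hcon
    have : 1 ≤ θ ^ 2 := one_le_pow₀ hcon
    nlinarith
  have hθb : θ ^ 2 = (b : ℝ)⁻¹ := by
    rw [← one_div, eq_div_iff (by positivity)]
    linarith
  obtain ⟨c, _, hc, _, hdet⟩ := IsgDet.detBounds b θ h0 h1 H
  obtain ⟨L1, hL1, hmsg⟩ := IsgDet.msgLip b θ h0 h1 H
  obtain ⟨C1, hC1, hcomp⟩ := IsgDet.ddComp b θ h0 h1 H
  set C2 : ℝ := 64 * C1 * L1 ^ 2 + 96 with hC2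
  have hC2pos : 0 ≤ C2 := by positivity
  refine ⟨2 * C2 * (1 / c), by positivity, ?_⟩
  intro ρ L hρ hL lam n hlam
  have hgood := ae_good hG (by omega) h0 h1 hρ hL
  -- pointwise bound
  have key : ∀ᵐ p ∂L, KK θ {m | n ≤ m} p.1 p.2 ≤
      ENNReal.ofReal (C2 * Real.exp (-(lam * n))) *
        ((∑' w : V b, ENNReal.ofReal (wt b lam (len w) * PS θ p.1 p.2 (rt b) w.l *
            DD θ p.1 (rt b) w)) +
          ∑' w : V b, ENNReal.ofReal (wt b lam (len w) * PS θ p.1 p.2 (rt b) w.l *
            DD θ p.2 (rt b) w)) := by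
    filter_upwards [hgood] with p hp
    obtain ⟨hp1, hp2⟩ := hp
    unfold KK
    rw [← ENNReal.tsum_add, ← ENNReal.tsum_mul_left]
    apply ENNReal.tsum_le_tsum
    intro w
    by_cases hw : n ≤ len w
    · have hmem : len w ∈ {m | n ≤ m} := hw
      rw [Set.indicator_of_mem hmem, one_mul]
      have hD := DD_pos h0 h1 p.1 (rt b) w
      have hD' := DD_pos h0 h1 p.2 (rt b) w
      have hPS := PS_nonneg θ p.1 p.2 (rt b) w.l
      have hwt := wt_nonneg b lam (len w)
      rw [← ENNReal.ofReal_add (by positivity) (by positivity),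
        ← ENNReal.ofReal_mul (by positivity)]
      apply ENNReal.ofReal_le_ofReal
      refine (KKterm_le h0 h1 p.1 p.2 w).trans ?_
      have h2 := (hcomp p.1 p.2 hp1 hp2 (rt b) w.l).1
      change (DD θ p.1 (rt b) w - DD θ p.2 (rt b) w) ^ 2 ≤
        C1 * SQl θ p.1 p.2 (rt b) w.l * (DD θ p.1 (rt b) w + DD θ p.2 (rt b) w) at h2
      have h3 := SQl_le_PS (hmsg p.1 p.2 hp1 hp2) (rt b) w.l
      have h4 := del_start_le_PS θ p.1 p.2 (rt b) w.l
      have h5 := del_end_le_PS θ p.1 p.2 (rt b) w.l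
      have hwf : follow (rt b) w.l = w := follow_rt w.l w.h
      rw [hwf] at h3 h5
      set D := DD θ p.1 (rt b) w
      set D' := DD θ p.2 (rt b) w
      set P := PS θ p.1 p.2 (rt b) w.l
      set S := SQl θ p.1 p.2 (rt b) w.l
      have h6 : 0 ≤ 2 * L1 ^ 2 * del θ p.1 p.2 w ^ 2 := by positivity
      have h7 : S ≤ 4 * L1 ^ 2 * P := by linarith
      have h8 : (D - D') ^ 2 ≤ C1 * (4 * L1 ^ 2 * P) * (D + D') := by
        refine h2.trans ?_
        apply mul_le_mul_of_nonneg_right _ (by positivity)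
        exact mul_le_mul_of_nonneg_left h7 hC1
      have h9 : 16 * (D - D') ^ 2 + 64 * del θ p.1 p.2 (rt b) ^ 2 * D' +
          32 * del θ p.1 p.2 w ^ 2 * D' ≤ C2 * (P * (D + D')) := by
        have a1 : del θ p.1 p.2 (rt b) ^ 2 * D' ≤ P * (D + D') :=
          mul_le_mul h4 (by linarith) hD'.le hPS
        have a2 : del θ p.1 p.2 w ^ 2 * D' ≤ P * (D + D') :=
          mul_le_mul h5 (by linarith) hD'.le hPS
        have a3 : C2 * (P * (D + D')) = 16 * (C1 * (4 * L1 ^ 2 * P) * (D + D')) +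
          64 * (P * (D + D')) + 32 * (P * (D + D')) := by rw [hC2]; ring
        rw [a3]
        linarith
      have h10 : θ ^ (2 * len w) = ((b : ℝ)⁻¹) ^ len w := by rw [pow_mul, hθb]
      rw [h10]
      have h11 : (1 : ℝ) ≤ Real.exp (-(lam * n)) * Real.exp (lam * len w) := by
        rw [← Real.exp_add]
        apply Real.one_le_exp
        have : (n : ℝ) ≤ len w := by exact_mod_cast hw
        nlinarith
      have h12 : 0 ≤ ((b : ℝ)⁻¹) ^ len w * (C2 * (P * (D + D'))) := by positivity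
      calc ((b : ℝ)⁻¹) ^ len w * (16 * (D - D') ^ 2 + 64 * del θ p.1 p.2 (rt b) ^ 2 * D' +
            32 * del θ p.1 p.2 w ^ 2 * D')
          ≤ ((b : ℝ)⁻¹) ^ len w * (C2 * (P * (D + D'))) :=
            mul_le_mul_of_nonneg_left h9 (by positivity)
        _ ≤ (Real.exp (-(lam * n)) * Real.exp (lam * len w)) *
            (((b : ℝ)⁻¹) ^ len w * (C2 * (P * (D + D')))) := by
            have := mul_le_mul_of_nonneg_right h11 h12
            rwa [one_mul] at this
        _ = _ := by unfold wt; ring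
    · have hmem : len w ∉ {m | n ≤ m} := hw
      rw [Set.indicator_of_notMem hmem, zero_mul]
      exact zero_le
  -- the two sums
  have hgood' : ∀ᵐ p ∂L, Good θ p.1 ∧ ∀ u, c ≤ 1 - M θ p.1 u ^ 2 := by
    filter_upwards [hgood] with p hp
    exact ⟨hp.1.1, (hdet p.1 hp.1).2.2⟩
  have hmeas : Measurable (fun p : (V b → ℝ) × (V b → ℝ) => ∑' w : V b,
      ENNReal.ofReal (wt b lam (len w) * PS θ p.1 p.2 (rt b) w.l * DD θ p.1 (rt b) w)) := by
    apply Measurable.tsum
    intro w
    apply Measurable.ennreal_ofReal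
    exact (((measurable_PS θ (rt b) w.l).const_mul _).mul
      ((measurable_DD θ (rt b) w).comp measurable_fst))
  have hmeas2 : Measurable (fun p : (V b → ℝ) × (V b → ℝ) => ∑' w : V b,
      ENNReal.ofReal (wt b lam (len w) * PS θ p.1 p.2 (rt b) w.l * DD θ p.2 (rt b) w)) := by
    apply Measurable.tsum
    intro w
    apply Measurable.ennreal_ofReal
    exact (((measurable_PS θ (rt b) w.l).const_mul _).mul
      ((measurable_DD θ (rt b) w).comp measurable_snd))
  have hS1 : ∫⁻ p, ∑' w : V b, ENNReal.ofReal (wt b lam (len w) * PS θ p.1 p.2 (rt b) w.l *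
      DD θ p.1 (rt b) w) ∂L ≤ ENNReal.ofReal (1 / c) *
        ∫⁻ p, ENNReal.ofReal (del θ p.1 p.2 (rt b) ^ 2) * Gl θ lam p.1 ^ 2 ∂L := by
    refine le_trans ?_ (transport hc h0 h1 lam hL hgood')
    apply lintegral_mono
    intro p
    exact sum_path_le θ lam h0 h1 p.1 p.2 p.1
  have hS2 : ∫⁻ p, ∑' w : V b, ENNReal.ofReal (wt b lam (len w) * PS θ p.1 p.2 (rt b) w.l *
      DD θ p.2 (rt b) w) ∂L = ∫⁻ p, ∑' w : V b, ENNReal.ofReal (wt b lam (len w) *
      PS θ p.1 p.2 (rt b) w.l * DD θ p.1 (rt b) w) ∂L := by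
    rw [← lintegral_swap hL hmeas]
    congr 1
    ext p
    simp only [Prod.fst_swap, Prod.snd_swap]
    congr 1
    ext w
    rw [PS_swap]
  calc ∫⁻ p, KK θ {m | n ≤ m} p.1 p.2 ∂L
      ≤ ∫⁻ p, ENNReal.ofReal (C2 * Real.exp (-(lam * n))) *
        ((∑' w : V b, ENNReal.ofReal (wt b lam (len w) * PS θ p.1 p.2 (rt b) w.l *
            DD θ p.1 (rt b) w)) +
          ∑' w : V b, ENNReal.ofReal (wt b lam (len w) * PS θ p.1 p.2 (rt b) w.l *
            DD θ p.2 (rt b) w)) ∂L := lintegral_mono_ae key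
    _ = ENNReal.ofReal (C2 * Real.exp (-(lam * n))) *
        ((∫⁻ p, ∑' w : V b, ENNReal.ofReal (wt b lam (len w) * PS θ p.1 p.2 (rt b) w.l *
            DD θ p.1 (rt b) w) ∂L) +
          ∫⁻ p, ∑' w : V b, ENNReal.ofReal (wt b lam (len w) * PS θ p.1 p.2 (rt b) w.l *
            DD θ p.2 (rt b) w) ∂L) := by
        have hsum : Measurable (fun p : (V b → ℝ) × (V b → ℝ) =>
            (∑' w : V b, ENNReal.ofReal (wt b lam (len w) * PS θ p.1 p.2 (rt b) w.l *
              DD θ p.1 (rt b) w)) +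
            ∑' w : V b, ENNReal.ofReal (wt b lam (len w) * PS θ p.1 p.2 (rt b) w.l *
              DD θ p.2 (rt b) w)) := hmeas.add hmeas2
        rw [lintegral_const_mul _ hsum, lintegral_add_left hmeas]
    _ ≤ ENNReal.ofReal (C2 * Real.exp (-(lam * n))) *
        (2 * (ENNReal.ofReal (1 / c) *
        ∫⁻ p, ENNReal.ofReal (del θ p.1 p.2 (rt b) ^ 2) * Gl θ lam p.1 ^ 2 ∂L)) := by
        rw [hS2, ← two_mul]
        gcongr
    _ = ENNReal.ofReal (2 * C2 * (1 / c) * Real.exp (-(lam * n))) *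
        ∫⁻ p, ENNReal.ofReal (del θ p.1 p.2 (rt b) ^ 2) * Gl θ lam p.1 ^ 2 ∂L := by
        rw [show 2 * C2 * (1 / c) * Real.exp (-(lam * n)) =
          (C2 * Real.exp (-(lam * n))) * (2 * (1 / c)) by ring,
          ENNReal.ofReal_mul (p := C2 * Real.exp (-(lam * n))) (by positivity),
          ENNReal.ofReal_mul (p := (2 : ℝ)) (by norm_num), ENNReal.ofReal_ofNat]
        ring

end Crest.Agent.IsgCrude
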