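import Crest.Agent.IsgGauge

set_option autoImplicit false

/-!
Shared library for S0241: independence of functionals of disjoint sets of coordinates under the
gauge measure.
-/

open MeasureTheory ProbabilityTheory Filter Topology

namespace Crest.Agent.Isg

/-! ### General lemmas -/

lemma iIndep_grouped {Ω ι κ : Type*} {m0 : MeasurableSpace Ω} {μ : Measure Ω}
    {m : ι → MeasurableSpace Ω} (hm : ∀ i, m i ≤ m0) (h : iIndep m μ) (S : κ → Set ι)
    (hS : Pairwise (Function.onFun Disjoint S)) :
    iIndep (fun k => ⨆ i ∈ S k, m i) μ := by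
  classical
  have hp := h.isProbabilityMeasure
  rw [iIndep_iff]
  intro s
  induction s using Finset.induction_on with
  | empty => intro f _; simp
  | insert a s ha ih =>
    intro f hf
    rw [Finset.set_biInter_insert, Finset.prod_insert ha]
    have hdisj : Disjoint (S a) (⋃ k ∈ s, S k) := by
      rw [Set.disjoint_iUnion₂_right]
      intro k hk
      exact hS (fun h => ha (h ▸ hk))
    have hind := indep_iSup_of_disjoint hm h hdisj
    rw [Indep_iff] at hind
    rw [hind (f a) (⋂ k ∈ s, f k) (hf a (Finset.mem_insert_self _ _)) ?_,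
      ih (fun i hi => hf i (Finset.mem_insert_of_mem hi))]
    apply Finset.measurableSet_biInter
    intro k hk
    have hle : (⨆ i ∈ S k, m i) ≤ ⨆ i ∈ (⋃ k ∈ s, S k), m i := by
      apply iSup₂_le
      intro i hi
      exact le_iSup₂_of_le i (Set.mem_iUnion₂.2 ⟨k, hk, hi⟩) le_rfl
    exact hle _ (hf k (Finset.mem_insert_of_mem hk))

/-- A measurable function depending only on the coordinates in `S` is measurable with respect to
the corresponding sigma-algebra. -/
lemma measurable_of_dep {ι X Y : Type*} [MeasurableSpace X] [Nonempty X] [MeasurableSpace Y]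
    {Ω : Type*} [mΩ : MeasurableSpace Ω] (e : Ω ≃ᵐ (ι → X)) {S : Set ι} {F : Ω → Y}
    (hF : Measurable F) (hdep : ∀ ω ω', (∀ i ∈ S, e ω i = e ω' i) → F ω = F ω') :
    Measurable[⨆ i ∈ S, MeasurableSpace.comap (fun ω => e ω i) inferInstance] F := by
  classical
  obtain ⟨x0⟩ := ‹Nonempty X›
  set r : Ω → Ω := fun ω => e.symm (fun i => if i ∈ S then e ω i else x0) with hr
  have h1 : F = F ∘ r := by
    ext ω
    apply hdep
    intro i hi
    simp [hr, hi]
  rw [h1]
  refine hF.comp ?_
  refine e.symm.measurable.comp ?_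
  refine @measurable_pi_lambda Ω ι (fun _ => X)
    (⨆ i ∈ S, MeasurableSpace.comap (fun ω => e ω i) inferInstance) _ _ ?_
  intro i
  by_cases hi : i ∈ S
  · simp only [hi, if_true]
    have h2 : Measurable[MeasurableSpace.comap (fun ω => e ω i) inferInstance]
        (fun ω => e ω i) := comap_measurable _
    exact h2.mono (le_iSup₂_of_le i hi le_rfl) le_rfl
  · simp only [hi, if_false]
    exact measurable_const

/-! ### The gauge measure -/

variable {b : ℕ}

/-- Coordinates of the gauge space. -/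
def gco (v : V b) (p : (V b → Bool) × (V b → ℝ)) : Bool × ℝ := (p.1 v, p.2 v)

lemma measurable_gco (v : V b) : Measurable (gco v) :=
  ((measurable_pi_apply v).comp measurable_fst).prodMk
    ((measurable_pi_apply v).comp measurable_snd)

/-- The gauge space as a space of functions. -/
def gE (b : ℕ) : ((V b → Bool) × (V b → ℝ)) ≃ᵐ (V b → Bool × ℝ) where
  toFun p v := (p.1 v, p.2 v)
  invFun q := (fun v => (q v).1, fun v => (q v).2)
  left_inv _ := rfl
  right_inv _ := rfl
  measurable_toFun := measurable_pi_lambda _ (fun v => measurable_gco v)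
  measurable_invFun := (measurable_pi_lambda _ (fun v => measurable_fst.comp
    (measurable_pi_apply v))).prodMk (measurable_pi_lambda _ (fun v => measurable_snd.comp
    (measurable_pi_apply v)))

lemma GM_iIndep {θ : ℝ} (h0 : 0 ≤ θ) (h1 : θ < 1) (ρ : Measure ℝ) [IsProbabilityMeasure ρ] :
    iIndep (fun v : V b => MeasurableSpace.comap (gco v) inferInstance) (GM b θ ρ) := by
  classical
  have hx := xiLaw_prob b h0 h1
  have hB : IsProbabilityMeasure (bern ((1 + θ) / 2)) := bern_prob (by linarith) (by linarith)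
  have hG := GM_prob b h0 h1 ρ
  set π : V b → Set (Set ((V b → Bool) × (V b → ℝ))) := fun v =>
    Set.preimage (gco v) '' (Set.image2 (· ×ˢ ·) {s : Set Bool | MeasurableSet s}
      {t : Set ℝ | MeasurableSet t}) with hπ
  apply iIndepSets.iIndep (π := π)
  · intro v
    exact (measurable_gco v).comap_le
  · intro v
    have := isPiSystem_prod (α := Bool) (β := ℝ)
    exact this.comap (gco v)
  · intro v
    rw [hπ]
    simp only
    rw [← MeasurableSpace.comap_generateFrom, generateFrom_prod]
  · rw [iIndepSets_iff]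
    intro s f hf
    have hf' : ∀ v ∈ s, ∃ A : Set Bool, ∃ B : Set ℝ, MeasurableSet B ∧ f v = gco v ⁻¹' (A ×ˢ B) := by
      intro v hv
      obtain ⟨t, ⟨A, hA, B, hB, rfl⟩, ht⟩ := hf v hv
      exact ⟨A, B, hB, ht.symm⟩
    choose! A B hBm hfAB using hf'
    have hprod : ∀ (s : Finset (V b)) (A : V b → Set Bool) (B : V b → Set ℝ),
        (∀ v ∈ s, MeasurableSet (B v)) →
        GM b θ ρ (⋂ v ∈ s, gco v ⁻¹' (A v ×ˢ B v)) =
          ∏ v ∈ s, (bern ((1 + θ) / 2) (A v) * ρ (B v)) := by
      intro s A B hBm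
      have h2 : (⋂ v ∈ s, gco v ⁻¹' (A v ×ˢ B v)) =
          (Set.pi (s : Set (V b)) A) ×ˢ (Set.pi (s : Set (V b)) B) := by
        ext p
        simp only [Set.mem_iInter, Set.mem_preimage, Set.mem_prod, Set.mem_pi, Finset.mem_coe, gco]
        exact ⟨fun h => ⟨fun v hv => (h v hv).1, fun v hv => (h v hv).2⟩,
          fun h v hv => ⟨h.1 v hv, h.2 v hv⟩⟩
      rw [h2, GM, Measure.prod_prod, xiLaw]
      have h3 : Set.pi (s : Set (V b)) B = Set.pi (s : Set (V b))
          (fun v => if v ∈ s then B v else Set.univ) := by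
        apply Set.pi_congr rfl
        intro v hv
        rw [if_pos (Finset.mem_coe.1 hv)]
      have h6 := Measure.infinitePi_pi (μ := fun _ : V b => bern ((1 + θ) / 2)) (s := s) (t := A)
        (fun _ _ => MeasurableSet.of_discrete)
      have h7 := Measure.infinitePi_pi (μ := fun _ : V b => ρ) (s := s)
        (t := fun v => if v ∈ s then B v else Set.univ)
        (fun v hv => by rw [if_pos hv]; exact hBm v hv)
      rw [h6, h3, h7, ← Finset.prod_mul_distrib]
      apply Finset.prod_congr rfl
      intro v hv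
      rw [if_pos hv]
    have h4 : (⋂ v ∈ s, f v) = ⋂ v ∈ s, gco v ⁻¹' (A v ×ˢ B v) :=
      Set.iInter₂_congr (fun v hv => hfAB v hv)
    rw [h4, hprod s A B hBm]
    apply Finset.prod_congr rfl
    intro v hv
    have h5 := hprod {v} A B (by intro w hw; rw [Finset.mem_singleton] at hw; rw [hw]; exact hBm v hv)
    rw [hfAB v hv]
    simpa using h5.symm

/-- A measurable functional of the gauge variables in `S`. -/
lemma GM_measurable_of_dep {Y : Type*} [MeasurableSpace Y] {S : Set (V b)}
    {F : (V b → Bool) × (V b → ℝ) → Y} (hF : Measurable F)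
    (hdep : ∀ p p', (∀ v ∈ S, p.1 v = p'.1 v ∧ p.2 v = p'.2 v) → F p = F p') :
    Measurable[⨆ v ∈ S, MeasurableSpace.comap (gco v) inferInstance] F := by
  apply measurable_of_dep (gE b) hF
  intro p p' h
  apply hdep
  intro v hv
  have := h v hv
  exact ⟨congrArg Prod.fst this, congrArg Prod.snd this⟩

/-- Functionals of the gauge variables in disjoint sets are independent. -/
lemma GM_iIndepFun {θ : ℝ} (h0 : 0 ≤ θ) (h1 : θ < 1) (ρ : Measure ℝ) [IsProbabilityMeasure ρ]
    {κ : Type*} {Y : κ → Type*} [∀ k, MeasurableSpace (Y k)] (S : κ → Set (V b))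
    (hS : Pairwise (Function.onFun Disjoint S)) (F : ∀ k, (V b → Bool) × (V b → ℝ) → Y k)
    (hF : ∀ k, Measurable (F k))
    (hdep : ∀ k p p', (∀ v ∈ S k, p.1 v = p'.1 v ∧ p.2 v = p'.2 v) → F k p = F k p') :
    iIndepFun F (GM b θ ρ) := by
  have h2 := iIndep_grouped (fun v => (measurable_gco v).comap_le) (GM_iIndep (b := b) h0 h1 ρ) S hS
  rw [iIndepFun_iff_iIndep]
  apply iIndep_of_iIndep_of_le h2
  intro k
  exact (GM_measurable_of_dep (hF k) (hdep k)).comap_le

lemma GM_indepFun {θ : ℝ} (h0 : 0 ≤ θ) (h1 : θ < 1) (ρ : Measure ℝ) [IsProbabilityMeasure ρ]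
    {Y Z : Type*} [MeasurableSpace Y] [MeasurableSpace Z] {S T : Set (V b)} (hST : Disjoint S T)
    {F : (V b → Bool) × (V b → ℝ) → Y} {G : (V b → Bool) × (V b → ℝ) → Z}
    (hF : Measurable F) (hG : Measurable G)
    (hdF : ∀ p p', (∀ v ∈ S, p.1 v = p'.1 v ∧ p.2 v = p'.2 v) → F p = F p')
    (hdG : ∀ p p', (∀ v ∈ T, p.1 v = p'.1 v ∧ p.2 v = p'.2 v) → G p = G p') :
    IndepFun F G (GM b θ ρ) := by
  have h2 := indep_iSup_of_disjoint (fun v => (measurable_gco v).comap_le)
    (GM_iIndep (b := b) h0 h1 ρ) hST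
  rw [IndepFun_iff_Indep]
  exact indep_of_indep_of_le h2 (GM_measurable_of_dep hF hdF).comap_le
    (GM_measurable_of_dep hG hdG).comap_le

end Crest.Agent.Isg
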