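import Crest.Agent.IsgNS
import Crest.Agent.IsgIndep

set_option autoImplicit false

/-!
Module DECAY for S0241: exponential decay of the slope products.
-/

open MeasureTheory ProbabilityTheory Filter Topology

namespace Crest.Agent.IsgDecay

open Crest.Agent.Isg Crest.Agent.IsgNS

variable {b : ℕ}

/-! ### Channels are symmetric -/

lemma map_neg_chan {ρ : Measure ℝ} {H : ℝ} (h : Chan ρ H) :
    (ρ.withDensity (fun x => ENNReal.ofReal (1 - Real.tanh x))).map (fun x => -x) =
      ρ.withDensity (fun x => ENNReal.ofReal (1 - Real.tanh x)) := by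
  have hp := h.prob
  have mt := IsgNS.measurable_tanh
  ext s hs
  rw [Measure.map_apply measurable_neg hs, withDensity_apply _ (measurable_neg hs),
    withDensity_apply _ hs]
  have hs' : MeasurableSet ((fun x : ℝ => -x) ⁻¹' s) := measurable_neg hs
  rw [← lintegral_indicator hs', ← lintegral_indicator hs]
  have mf : Measurable (fun x => s.indicator (fun y => 1 + Real.tanh y) x) :=
    (measurable_const.add mt).indicator hs
  have hn := h.nish (s.indicator (fun y => 1 + Real.tanh y)) mf ⟨2, fun x => by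
    by_cases hx : x ∈ s
    · rw [Set.indicator_of_mem hx, abs_of_pos (opt_pos x)]
      linarith [t_lt x]
    · rw [Set.indicator_of_notMem hx, abs_zero]; norm_num⟩
  have e1 : ∀ x, ((fun x : ℝ => -x) ⁻¹' s).indicator
      (fun x => ENNReal.ofReal (1 - Real.tanh x)) x =
      ENNReal.ofReal (s.indicator (fun y => 1 + Real.tanh y) (-x)) := by
    intro x
    by_cases hx : -x ∈ s
    · rw [Set.indicator_of_mem hx, Set.indicator_of_mem (show x ∈ (fun x : ℝ => -x) ⁻¹' s from hx),
        Real.tanh_neg, sub_eq_add_neg]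
    · rw [Set.indicator_of_notMem hx,
        Set.indicator_of_notMem (show x ∉ (fun x : ℝ => -x) ⁻¹' s from hx), ENNReal.ofReal_zero]
  have e2 : ∀ x, s.indicator (fun x => ENNReal.ofReal (1 - Real.tanh x)) x =
      ENNReal.ofReal (s.indicator (fun y => 1 + Real.tanh y) x * Real.exp (-2 * x)) := by
    intro x
    by_cases hx : x ∈ s
    · rw [Set.indicator_of_mem hx, Set.indicator_of_mem hx]
      congr 1
      have hc := Real.cosh_pos x
      have h1 : Real.exp (-2 * x) = Real.exp (-x) * Real.exp (-x) := by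
        rw [← Real.exp_add]; congr 1; ring
      have h2 : 1 + Real.tanh x = Real.exp x / Real.cosh x := by
        rw [Real.tanh_eq_sinh_div_cosh, ← Real.cosh_add_sinh]; field_simp
      have h3 : 1 - Real.tanh x = Real.exp (-x) / Real.cosh x := by
        rw [Real.tanh_eq_sinh_div_cosh, ← Real.cosh_sub_sinh]; field_simp
      have h4 : Real.exp x * Real.exp (-x) = 1 := by rw [← Real.exp_add]; simp
      rw [h1, h2, h3, div_mul_eq_mul_div, ← mul_assoc, h4, one_mul]
    · rw [Set.indicator_of_notMem hx, Set.indicator_of_notMem hx, zero_mul, ENNReal.ofReal_zero]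
  simp only [e1, e2]
  have nn1 : ∀ x, 0 ≤ s.indicator (fun y => 1 + Real.tanh y) x := fun x =>
    Set.indicator_nonneg (fun y _ => (opt_pos y).le) x
  have i1 : Integrable (fun x => s.indicator (fun y => 1 + Real.tanh y) (-x)) ρ := by
    apply Integrable.of_bound (mf.comp measurable_neg).aestronglyMeasurable 2
    apply Filter.Eventually.of_forall
    intro x
    show ‖s.indicator (fun y => 1 + Real.tanh y) (-x)‖ ≤ 2
    rw [Real.norm_eq_abs, abs_of_nonneg (nn1 _)]
    by_cases hx : -x ∈ s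
    · rw [Set.indicator_of_mem hx]; linarith [t_lt (-x)]
    · rw [Set.indicator_of_notMem hx]; norm_num
  have i2 : Integrable (fun x => s.indicator (fun y => 1 + Real.tanh y) x * Real.exp (-2 * x)) ρ := by
    have hm : Measurable (fun x => s.indicator (fun y => 1 + Real.tanh y) x * Real.exp (-2 * x)) :=
      mf.mul (Real.measurable_exp.comp (measurable_id.const_mul (-2)))
    apply Integrable.of_bound hm.aestronglyMeasurable 2
    apply Filter.Eventually.of_forall
    intro x
    rw [Real.norm_eq_abs, abs_of_nonneg (mul_nonneg (nn1 _) (Real.exp_pos _).le)]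
    have h5 := e2 x
    by_cases hx : x ∈ s
    · rw [Set.indicator_of_mem hx, Set.indicator_of_mem hx] at h5
      rw [Set.indicator_of_mem hx]
      have h6 := (ENNReal.ofReal_eq_ofReal_iff (omt_pos x).le
        (mul_nonneg (opt_pos x).le (Real.exp_pos _).le)).1 h5
      rw [← h6]
      linarith [t_gt x]
    · rw [Set.indicator_of_notMem hx, zero_mul]; norm_num
  rw [← ofReal_integral_eq_lintegral_ofReal i1 (Filter.Eventually.of_forall (fun x => nn1 _)),
    ← ofReal_integral_eq_lintegral_ofReal i2 (Filter.Eventually.of_forall (fun x =>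
      mul_nonneg (nn1 _) (Real.exp_pos _).le)), hn]

lemma ns_of_map {Ω : Type*} [MeasurableSpace Ω] {P : Measure Ω} {ρ : Measure ℝ} {H : ℝ}
    (h : Chan ρ H) {T : Ω → ℝ} (mT : Measurable T) (hT : P.map T = ρ) :
    NS P T (fun _ => ()) := by
  intro φ hφ h0
  have mt := IsgNS.measurable_tanh
  have mφ : Measurable (fun x : ℝ => ENNReal.ofReal (φ (x, ()))) :=
    (hφ.comp (measurable_id.prodMk measurable_const)).ennreal_ofReal
  have mw : Measurable (fun x : ℝ => ENNReal.ofReal (1 - Real.tanh x)) :=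
    (measurable_const.sub mt).ennreal_ofReal
  have h1 : ∫⁻ x, ENNReal.ofReal (φ (x, ())) ∂(ρ.withDensity
      (fun x => ENNReal.ofReal (1 - Real.tanh x))) = ∫⁻ x, ENNReal.ofReal (φ (-x, ()))
      ∂(ρ.withDensity (fun x => ENNReal.ofReal (1 - Real.tanh x))) := by
    conv_lhs => rw [← map_neg_chan h]
    rw [lintegral_map mφ measurable_neg]
  have mφ' : Measurable (fun x : ℝ => ENNReal.ofReal (φ (-x, ()))) := mφ.comp measurable_neg
  rw [lintegral_withDensity_eq_lintegral_mul _ mw mφ,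
    lintegral_withDensity_eq_lintegral_mul _ mw mφ'] at h1
  have e1 : ∫⁻ ω, ENNReal.ofReal (φ (-T ω, ()) * (1 - Real.tanh (T ω))) ∂P =
      ∫⁻ x, ENNReal.ofReal (φ (-x, ()) * (1 - Real.tanh x)) ∂ρ := by
    rw [← hT, lintegral_map _ mT]
    exact ((hφ.comp (measurable_neg.prodMk measurable_const)).mul
      (measurable_const.sub mt)).ennreal_ofReal
  have e2 : ∫⁻ ω, ENNReal.ofReal (φ (T ω, ()) * (1 - Real.tanh (T ω))) ∂P =
      ∫⁻ x, ENNReal.ofReal (φ (x, ()) * (1 - Real.tanh x)) ∂ρ := by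
    rw [← hT, lintegral_map _ mT]
    exact ((hφ.comp (measurable_id.prodMk measurable_const)).mul
      (measurable_const.sub mt)).ennreal_ofReal
  rw [e1, e2]
  have e3 : ∀ x, ENNReal.ofReal (φ (-x, ()) * (1 - Real.tanh x)) =
      ENNReal.ofReal (1 - Real.tanh x) * ENNReal.ofReal (φ (-x, ())) := by
    intro x; rw [mul_comm, ENNReal.ofReal_mul (omt_pos x).le]
  have e4 : ∀ x, ENNReal.ofReal (φ (x, ()) * (1 - Real.tanh x)) =
      ENNReal.ofReal (1 - Real.tanh x) * ENNReal.ofReal (φ (x, ())) := by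
    intro x; rw [mul_comm, ENNReal.ofReal_mul (omt_pos x).le]
  simp only [e3, e4]
  exact h1.symm

/-! ### Independence of an edge variable -/

lemma indep_xi {θ : ℝ} (h0 : 0 ≤ θ) (h1 : θ < 1) (ρ : Measure ℝ) [IsProbabilityMeasure ρ]
    {Y : Type*} [MeasurableSpace Y] (y : V b) {F : (V b → Bool) × (V b → ℝ) → Y}
    (hF : Measurable F)
    (hdep : ∀ (ξ ξ' : V b → Bool) (z : V b → ℝ), (∀ w, w ≠ y → ξ w = ξ' w) → F (ξ, z) = F (ξ', z)) :
    IndepFun (fun p : (V b → Bool) × (V b → ℝ) => p.1 y) F (GM b θ ρ) := by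
  classical
  have hx := xiLaw_prob b h0 h1
  have hB : IsProbabilityMeasure (bern ((1 + θ) / 2)) := bern_prob (by linarith) (by linarith)
  have hG := GM_prob b h0 h1 ρ
  -- fixed fields
  have hz : ∀ z : V b → ℝ, IndepFun (fun ξ : V b → Bool => ξ y) (fun ξ => F (ξ, z)) (xiLaw b θ) := by
    intro z
    have hind : iIndep (fun v : V b => MeasurableSpace.comap (fun ξ : V b → Bool => ξ v)
        inferInstance) (xiLaw b θ) := by
      have := iIndepFun_infinitePi (P := fun _ : V b => bern ((1 + θ) / 2))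
        (X := fun _ ω => ω) (fun _ => measurable_id)
      exact this
    have h2 := indep_iSup_of_disjoint (fun v => (measurable_pi_apply v).comap_le) hind
      (S := ({y} : Set (V b))) (T := ({y} : Set (V b))ᶜ) disjoint_compl_right
    rw [IndepFun_iff_Indep]
    apply indep_of_indep_of_le h2
    · exact le_iSup₂_of_le y (Set.mem_singleton y) le_rfl
    · have hm : Measurable (fun ξ : V b → Bool => F (ξ, z)) :=
        hF.comp (measurable_id.prodMk measurable_const)
      have := measurable_of_dep (MeasurableEquiv.refl (V b → Bool)) (S := ({y} : Set (V b))ᶜ)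
        hm (fun ξ ξ' h => hdep ξ ξ' z (fun w hw => h w hw))
      exact this.comap_le
  rw [indepFun_iff_measure_inter_preimage_eq_mul]
  intro A B hA hBm
  have mA : MeasurableSet ((fun p : (V b → Bool) × (V b → ℝ) => p.1 y) ⁻¹' A) :=
    ((measurable_pi_apply y).comp measurable_fst) hA
  have mB : MeasurableSet (F ⁻¹' B) := hF hBm
  have c1 : GM b θ ρ ((fun p : (V b → Bool) × (V b → ℝ) => p.1 y) ⁻¹' A) =
      xiLaw b θ ((fun ξ => ξ y) ⁻¹' A) := by
    rw [GM, Measure.prod_apply_symm mA]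
    have : ∀ z : V b → ℝ, (fun ξ => (ξ, z)) ⁻¹' ((fun p : (V b → Bool) × (V b → ℝ) => p.1 y) ⁻¹' A)
        = (fun ξ : V b → Bool => ξ y) ⁻¹' A := fun z => rfl
    simp only [this]
    rw [lintegral_const, measure_univ, mul_one]
  rw [c1]
  unfold GM
  rw [Measure.prod_apply_symm (mA.inter mB), Measure.prod_apply_symm mB,
    ← lintegral_const_mul _ (measurable_measure_prodMk_right mB)]
  apply lintegral_congr
  intro z
  exact (indepFun_iff_measure_inter_preimage_eq_mul.1 (hz z)) A B hA hBm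

lemma xi_true {θ : ℝ} (h0 : 0 ≤ θ) (h1 : θ < 1) (ρ : Measure ℝ) [IsProbabilityMeasure ρ] (y : V b) :
    GM b θ ρ {p | p.1 y = true} = ENNReal.ofReal ((1 + θ) / 2) := by
  have hx := xiLaw_prob b h0 h1
  have hB : IsProbabilityMeasure (bern ((1 + θ) / 2)) := bern_prob (by linarith) (by linarith)
  have hm : Measurable (fun p : (V b → Bool) × (V b → ℝ) => p.1 y) :=
    (measurable_pi_apply y).comp measurable_fst
  have e1 : (GM b θ ρ).map (fun p : (V b → Bool) × (V b → ℝ) => p.1 y) = bern ((1 + θ) / 2) := by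
    have h2 : (GM b θ ρ).map Prod.fst = xiLaw b θ := by
      unfold GM; exact Measure.fst_prod
    have h3 : (xiLaw b θ).map (fun ξ => ξ y) = bern ((1 + θ) / 2) := by
      unfold xiLaw; exact Measure.infinitePi_map_eval _ y
    rw [← h3, ← h2, Measure.map_map (measurable_pi_apply y) measurable_fst]
    rfl
  have e2 : GM b θ ρ {p | p.1 y = true} = (GM b θ ρ).map
      (fun p : (V b → Bool) × (V b → ℝ) => p.1 y) {true} := by
    rw [Measure.map_apply hm (measurableSet_singleton _)]
    rfl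
  rw [e2, e1]
  unfold bern
  rw [Measure.add_apply, Measure.smul_apply, Measure.smul_apply]
  simp

lemma xi_false {θ : ℝ} (h0 : 0 ≤ θ) (h1 : θ < 1) (ρ : Measure ℝ) [IsProbabilityMeasure ρ]
    (y : V b) : GM b θ ρ {p | p.1 y = false} = ENNReal.ofReal ((1 - θ) / 2) := by
  have hx := xiLaw_prob b h0 h1
  have hB : IsProbabilityMeasure (bern ((1 + θ) / 2)) := bern_prob (by linarith) (by linarith)
  have hm : Measurable (fun p : (V b → Bool) × (V b → ℝ) => p.1 y) :=
    (measurable_pi_apply y).comp measurable_fst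
  have e1 : (GM b θ ρ).map (fun p : (V b → Bool) × (V b → ℝ) => p.1 y) = bern ((1 + θ) / 2) := by
    have h2 : (GM b θ ρ).map Prod.fst = xiLaw b θ := by
      unfold GM; exact Measure.fst_prod
    have h3 : (xiLaw b θ).map (fun ξ => ξ y) = bern ((1 + θ) / 2) := by
      unfold xiLaw; exact Measure.infinitePi_map_eval _ y
    rw [← h3, ← h2, Measure.map_map (measurable_pi_apply y) measurable_fst]
    rfl
  have e2 : GM b θ ρ {p | p.1 y = false} = (GM b θ ρ).map
      (fun p : (V b → Bool) × (V b → ℝ) => p.1 y) {false} := by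
    rw [Measure.map_apply hm (measurableSet_singleton _)]
    rfl
  rw [e2, e1]
  unfold bern
  rw [Measure.add_apply, Measure.smul_apply, Measure.smul_apply]
  simp
  congr 1
  ring

lemma map_z {θ : ℝ} (h0 : 0 ≤ θ) (h1 : θ < 1) (ρ : Measure ℝ) [IsProbabilityMeasure ρ] (y : V b) :
    (GM b θ ρ).map (fun p : (V b → Bool) × (V b → ℝ) => p.2 y) = ρ := by
  have hx := xiLaw_prob b h0 h1
  have h2 : (GM b θ ρ).map Prod.snd = Measure.infinitePi (fun _ : V b => ρ) := by
    unfold GM; exact Measure.snd_prod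
  have h3 : (Measure.infinitePi (fun _ : V b => ρ)).map (fun ξ => ξ y) = ρ :=
    Measure.infinitePi_map_eval _ y
  conv_rhs => rw [← h3, ← h2]
  rw [Measure.map_map (measurable_pi_apply y) measurable_snd]
  rfl

/-! ### Branches -/

/-- The branch below `y`. -/
def Br (y : V b) : Set (V b) := {w | y.l <:+ w.l}

lemma self_mem_Br (y : V b) : y ∈ Br y := List.suffix_refl _

lemma Br_follow {x : V b} {r : List (Fin (b + 1))} (h : (r ++ x.l).IsChain (· ≠ ·)) :
    follow x r ∈ Br x := by
  rw [follow_of_chain x r h]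
  exact List.suffix_append _ _

lemma Br_trans {x y : V b} (h : y ∈ Br x) : Br y ⊆ Br x := fun _ hw => List.IsSuffix.trans h hw

lemma Br_antisymm {x y : V b} (h : y ∈ Br x) (h' : x ∈ Br y) : x = y := by
  ext1
  exact List.IsSuffix.eq_of_length_le h (List.IsSuffix.length_le h')

lemma nb_ch_l {x : V b} {j : Fin (b + 1)} (hj : j ∈ ch x) : (nb j x).l = j :: x.l :=
  nb_l_of_not_head j x (mem_ch.1 hj)

lemma nb_mem_Br {x : V b} {j : Fin (b + 1)} (hj : j ∈ ch x) : nb j x ∈ Br x := by
  show x.l <:+ (nb j x).l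
  rw [nb_ch_l hj]
  exact List.suffix_cons _ _

lemma not_mem_Br_nb {x : V b} {j : Fin (b + 1)} (hj : j ∈ ch x) : x ∉ Br (nb j x) := by
  intro h
  have h2 : (nb j x).l <:+ x.l := h
  rw [nb_ch_l hj] at h2
  have := List.IsSuffix.length_le h2
  simp at this

lemma Br_disj {x : V b} {i j : Fin (b + 1)} (hi : i ∈ ch x) (hj : j ∈ ch x) (hij : i ≠ j) :
    Disjoint (Br (nb i x)) (Br (nb j x)) := by
  rw [Set.disjoint_left]
  intro w h1 h2
  have h1' : (nb i x).l <:+ w.l := h1
  have h2' : (nb j x).l <:+ w.l := h2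
  rw [nb_ch_l hi] at h1'
  rw [nb_ch_l hj] at h2'
  have := (List.suffix_of_suffix_length_le h1' h2' (by simp)).eq_of_length (by simp)
  exact hij (List.cons.inj this).1

lemma lh_dep {θ : ℝ} {N : ℕ} {ξ ξ' : V b → Bool} {z z' : V b → ℝ} {y : V b}
    (hz : ∀ w ∈ Br y, z w = z' w) (hξ : ∀ w ∈ Br y, w ≠ y → ξ w = ξ' w) :
    lh θ N ξ z y = lh θ N ξ' z' y := by
  apply lh_congr
  intro r hr _
  have hm : follow y r ∈ Br y := Br_follow hr
  refine ⟨fun hne => hξ _ hm ?_, hz _ hm⟩
  intro he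
  have h1 : (follow y r).l.length = y.l.length := by rw [he]
  rw [follow_of_chain y r hr] at h1
  simp at h1
  exact hne h1

lemma DMl_dep {θ : ℝ} {N : ℕ} {ξ ξ' : V b → Bool} {z z' : V b → ℝ} {x : V b}
    (hz : ∀ w ∈ Br x, z w = z' w) (hξ : ∀ w ∈ Br x, w ≠ x → ξ w = ξ' w)
    (r : List (Fin (b + 1))) (hr : (r ++ x.l).IsChain (· ≠ ·)) :
    DMl θ N ξ z x r = DMl θ N ξ' z' x r := by
  induction r with
  | nil => rfl
  | cons i r ih =>
    rw [DMl_cons, DMl_cons, ih hr.tail]
    congr 2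
    have hm := Br_follow hr
    apply lh_dep
    · intro w hw
      exact hz w (Br_trans hm hw)
    · intro w hw hne
      apply hξ w (Br_trans hm hw)
      intro he
      rw [he] at hw
      have h1 := Br_antisymm hm hw
      exact hne (he.trans h1)

/-! ### Messages -/

/-- The message transmitted from `y` to its parent. -/
noncomputable def msg (θ : ℝ) (N : ℕ) (y : V b) (p : (V b → Bool) × (V b → ℝ)) : ℝ :=
  (if p.1 y then (1 : ℝ) else -1) * psi θ (lh θ N p.1 p.2 y)

/-- Own field plus messages of some children. -/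
noncomputable def aS (θ : ℝ) (N : ℕ) (x : V b) (s : Finset (Fin (b + 1)))
    (p : (V b → Bool) × (V b → ℝ)) : ℝ := p.2 x + ∑ j ∈ s, msg θ N (nb j x) p

lemma lh_eq_aS (θ : ℝ) (N : ℕ) (x : V b) (p : (V b → Bool) × (V b → ℝ)) :
    lh θ (N + 1) p.1 p.2 x = aS θ N x (ch x) p := rfl

lemma measurable_lh' (θ : ℝ) (N : ℕ) (v : V b) :
    Measurable (fun p : (V b → Bool) × (V b → ℝ) => lh θ N p.1 p.2 v) := measurable_lh θ N v

lemma measurable_xi (y : V b) : Measurable (fun p : (V b → Bool) × (V b → ℝ) => p.1 y) :=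
  (measurable_pi_apply y).comp measurable_fst

lemma measurable_msg (θ : ℝ) (N : ℕ) (y : V b) : Measurable (msg (b := b) θ N y) := by
  unfold msg
  apply Measurable.mul
  · exact (measurable_of_finite (fun c : Bool => if c then (1 : ℝ) else -1)).comp (measurable_xi y)
  · exact (measurable_psi θ).comp (measurable_lh' θ N y)

lemma measurable_aS (θ : ℝ) (N : ℕ) (x : V b) (s : Finset (Fin (b + 1))) :
    Measurable (aS (b := b) θ N x s) := by
  unfold aS
  apply Measurable.add ((measurable_pi_apply x).comp measurable_snd)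
  exact Finset.measurable_sum _ (fun j _ => measurable_msg θ N (nb j x))

lemma msg_dep (θ : ℝ) (N : ℕ) (y : V b) (p p' : (V b → Bool) × (V b → ℝ))
    (h : ∀ w ∈ Br y, p.1 w = p'.1 w ∧ p.2 w = p'.2 w) : msg θ N y p = msg θ N y p' := by
  unfold msg
  rw [lh_dep (fun w hw => (h w hw).2) (fun w hw _ => (h w hw).1), (h y (self_mem_Br y)).1]

lemma aS_dep (θ : ℝ) (N : ℕ) (x : V b) (s : Finset (Fin (b + 1))) (p p' : (V b → Bool) × (V b → ℝ))
    (h : ∀ w ∈ ({x} ∪ ⋃ j ∈ s, Br (nb j x) : Set (V b)), p.1 w = p'.1 w ∧ p.2 w = p'.2 w) :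
    aS θ N x s p = aS θ N x s p' := by
  unfold aS
  rw [(h x (Or.inl rfl)).2]
  congr 1
  apply Finset.sum_congr rfl
  intro j hj
  apply msg_dep
  intro w hw
  exact h w (Or.inr (Set.mem_iUnion₂.2 ⟨j, hj, hw⟩))

lemma disj_aS {x : V b} {s : Finset (Fin (b + 1))} {j : Fin (b + 1)} (hs : s ⊆ ch x)
    (hj : j ∈ ch x) (hjs : j ∉ s) :
    Disjoint ({x} ∪ ⋃ i ∈ s, Br (nb i x) : Set (V b)) (Br (nb j x)) := by
  rw [Set.disjoint_union_left]
  constructor
  · rw [Set.disjoint_singleton_left]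
    exact not_mem_Br_nb hj
  · rw [Set.disjoint_iUnion₂_left]
    intro i hi
    exact Br_disj (hs hi) hj (fun h => hjs (h ▸ hi))

variable {θ : ℝ} {ρ : Measure ℝ} {H : ℝ}

lemma ns_edge (h0 : 0 ≤ θ) (h1 : θ < 1) [IsProbabilityMeasure ρ] {γ : Type*} [MeasurableSpace γ]
    (N : ℕ) (y : V b) {C : (V b → Bool) × (V b → ℝ) → γ} (mC : Measurable C)
    (hC : ∀ (ξ ξ' : V b → Bool) (z : V b → ℝ), (∀ w, w ≠ y → ξ w = ξ' w) → C (ξ, z) = C (ξ', z))
    (h : NS (GM b θ ρ) (fun p => lh θ N p.1 p.2 y) C) : NS (GM b θ ρ) (msg θ N y) C := by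
  have hG := GM_prob b h0 h1 ρ
  have hi : IndepFun (fun p : (V b → Bool) × (V b → ℝ) => p.1 y)
      (fun p => (lh θ N p.1 p.2 y, C p)) (GM b θ ρ) := by
    apply indep_xi h0 h1 ρ y ((measurable_lh' θ N y).prodMk mC)
    intro ξ ξ' z hξ
    show (lh θ N ξ z y, C (ξ, z)) = (lh θ N ξ' z y, C (ξ', z))
    rw [hC ξ ξ' z hξ, lh_dep (z' := z) (fun _ _ => rfl) (fun w _ hw => hξ w hw)]
  exact h.edge (measurable_lh' θ N y) mC h0 h1.le (measurable_xi y) (xi_true h0 h1 ρ y)
    (xi_false h0 h1 ρ y) hi (measurable_psi θ) (psi_neg θ) (tanh_psi h0 h1)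

lemma ns_aS_of (h0 : 0 ≤ θ) (h1 : θ < 1) (hρ : Chan ρ H) (N : ℕ) (x : V b)
    (hN : ∀ y : V b, NS (GM b θ ρ) (fun p => lh θ N p.1 p.2 y) (fun _ => ()))
    (s : Finset (Fin (b + 1))) (hs : s ⊆ ch x) :
    NS (GM b θ ρ) (aS θ N x s) (fun _ => ()) := by
  classical
  have hp := hρ.prob
  have hG := GM_prob b h0 h1 ρ
  induction s using Finset.induction_on with
  | empty =>
    have h2 := ns_of_map hρ (P := GM b θ ρ) (T := fun p => p.2 x)
      ((measurable_pi_apply x).comp measurable_snd) (map_z h0 h1 ρ x)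
    apply h2.congr
    · intro p; simp [aS]
    · intro p; rfl
  | insert j s hj ih =>
    have hs' : s ⊆ ch x := fun i hi => hs (Finset.mem_insert_of_mem hi)
    have hjx : j ∈ ch x := hs (Finset.mem_insert_self _ _)
    have h2 := ns_edge h0 h1 N (nb j x) (ρ := ρ) (C := fun _ => ()) measurable_const
      (fun _ _ _ _ => rfl) (hN _)
    have hi : IndepFun (fun p => (aS θ N x s p, ())) (fun p => (msg θ N (nb j x) p, ()))
        (GM b θ ρ) := by
      apply GM_indepFun h0 h1 ρ (disj_aS hs' hjx hj) ((measurable_aS θ N x s).prodMk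
        measurable_const) ((measurable_msg θ N (nb j x)).prodMk measurable_const)
      · intro p p' h
        rw [aS_dep θ N x s p p' h]
      · intro p p' h
        rw [msg_dep θ N (nb j x) p p' h]
    have h3 := NS.add (ih hs') h2 (measurable_aS θ N x s) (measurable_msg θ N (nb j x))
      measurable_const measurable_const hi (fun _ => ()) measurable_const (fun _ _ _ _ => rfl)
    apply h3.congr
    · intro p
      unfold aS
      rw [Finset.sum_insert hj]
      ring
    · intro p; rfl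

lemma ns_lh (h0 : 0 ≤ θ) (h1 : θ < 1) (hρ : Chan ρ H) (N : ℕ) (x : V b) :
    NS (GM b θ ρ) (fun p => lh θ N p.1 p.2 x) (fun _ => ()) := by
  induction N generalizing x with
  | zero =>
    intro φ hφ hn
    simp only [lh_zero, neg_zero]
  | succ N ih =>
    exact ns_aS_of h0 h1 hρ N x ih (ch x) (Finset.Subset.refl _)

lemma ns_aS (h0 : 0 ≤ θ) (h1 : θ < 1) (hρ : Chan ρ H) (N : ℕ) (x : V b)
    (s : Finset (Fin (b + 1))) (hs : s ⊆ ch x) : NS (GM b θ ρ) (aS θ N x s) (fun _ => ()) :=
  ns_aS_of h0 h1 hρ N x (ns_lh h0 h1 hρ N) s hs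

lemma tanh_msg_sq (h0 : 0 ≤ θ) (h1 : θ < 1) (N : ℕ) (y : V b) (p : (V b → Bool) × (V b → ℝ)) :
    Real.tanh (msg θ N y p) ^ 2 = θ ^ 2 * Real.tanh (lh θ N p.1 p.2 y) ^ 2 := by
  unfold msg
  cases p.1 y
  · simp only [Bool.false_eq_true, if_false]
    rw [neg_one_mul, Real.tanh_neg, tanh_psi h0 h1]; ring
  · simp only [if_true]
    rw [one_mul, tanh_psi h0 h1]; ring

/-- Information of a partial sum. -/
lemma info_aS (h0 : 0 ≤ θ) (h1 : θ < 1) (hρ : Chan ρ H) (N : ℕ) (x : V b)
    (s : Finset (Fin (b + 1))) (hs : s ⊆ ch x) {j : Fin (b + 1)} (hj : j ∈ s) {c : ℝ}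
    (hc : c ≤ ∫ p, Real.tanh (lh θ N p.1 p.2 (nb j x)) ^ 2 ∂(GM b θ ρ)) :
    ∫⁻ p, ENNReal.ofReal (1 - Real.tanh (aS θ N x s p) ^ 2) ∂(GM b θ ρ) ≤
      ENNReal.ofReal (1 - θ ^ 2 * c) := by
  classical
  have hp := hρ.prob
  have hG := GM_prob b h0 h1 ρ
  have hs' : s.erase j ⊆ ch x := fun i hi => hs (Finset.mem_of_mem_erase hi)
  have hjx : j ∈ ch x := hs hj
  have hA := ns_aS h0 h1 hρ N x (s.erase j) hs'
  have hB := ns_edge h0 h1 N (nb j x) (ρ := ρ) (C := fun _ => ()) measurable_const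
      (fun _ _ _ _ => rfl) (ns_lh h0 h1 hρ N _)
  have hi : IndepFun (fun p => (aS θ N x (s.erase j) p, ())) (fun p => (msg θ N (nb j x) p, ()))
      (GM b θ ρ) := by
    apply GM_indepFun h0 h1 ρ (disj_aS hs' hjx (Finset.notMem_erase j s))
      ((measurable_aS θ N x _).prodMk measurable_const)
      ((measurable_msg θ N (nb j x)).prodMk measurable_const)
    · intro p p' h
      rw [aS_dep θ N x _ p p' h]
    · intro p p' h
      rw [msg_dep θ N (nb j x) p p' h]
  have h3 := NS.info_add hA hB (measurable_aS θ N x _) (measurable_msg θ N (nb j x))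
    measurable_const measurable_const hi
  have e1 : ∀ p, aS θ N x (s.erase j) p + msg θ N (nb j x) p = aS θ N x s p := by
    intro p
    unfold aS
    rw [← Finset.sum_erase_add s _ hj]
    ring
  simp only [e1] at h3
  refine h3.trans ?_
  have mt := IsgNS.measurable_tanh
  have mlh := measurable_lh' (b := b) θ N (nb j x)
  have hint : Integrable (fun p : (V b → Bool) × (V b → ℝ) =>
      Real.tanh (lh θ N p.1 p.2 (nb j x)) ^ 2) (GM b θ ρ) := by
    apply Integrable.of_bound ((mt.comp mlh).pow_const 2).aestronglyMeasurable 1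
    apply Filter.Eventually.of_forall
    intro p
    rw [Real.norm_eq_abs, abs_of_nonneg (sq_nonneg _)]
    exact (Real.tanh_sq_lt_one _).le
  have hint2 : Integrable (fun p : (V b → Bool) × (V b → ℝ) =>
      1 - Real.tanh (msg θ N (nb j x) p) ^ 2) (GM b θ ρ) := by
    simp only [tanh_msg_sq h0 h1]
    exact (integrable_const _).sub (hint.const_mul _)
  rw [← ofReal_integral_eq_lintegral_ofReal hint2
    (Filter.Eventually.of_forall (fun p => (omt2_pos _).le))]
  apply ENNReal.ofReal_le_ofReal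
  simp only [tanh_msg_sq h0 h1]
  rw [integral_sub (integrable_const _) (hint.const_mul _), integral_const_mul]
  simp only [integral_const, probReal_univ, smul_eq_mul, one_mul]
  have := mul_le_mul_of_nonneg_left hc (sq_nonneg θ)
  linarith

lemma sqrt_aS (h0 : 0 ≤ θ) (h1 : θ < 1) (hρ : Chan ρ H) (N : ℕ) (x : V b)
    (s : Finset (Fin (b + 1))) (hs : s ⊆ ch x) {j : Fin (b + 1)} (hj : j ∈ s) {c : ℝ} (hc1 : c ≤ 1)
    (hc : c ≤ ∫ p, Real.tanh (lh θ N p.1 p.2 (nb j x)) ^ 2 ∂(GM b θ ρ)) :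
    ∫⁻ p, ENNReal.ofReal (Real.sqrt (1 - Real.tanh (aS θ N x s p) ^ 2)) ∂(GM b θ ρ) ≤
      ENNReal.ofReal (1 - θ ^ 2 * c / 2) := by
  have hp := hρ.prob
  have hG := GM_prob b h0 h1 ρ
  have h2 := info_aS h0 h1 hρ N x s hs hj hc
  have h3 : ∀ p, ENNReal.ofReal (Real.sqrt (1 - Real.tanh (aS θ N x s p) ^ 2)) ≤
      ENNReal.ofReal (1 / 2) + ENNReal.ofReal (1 / 2) *
        ENNReal.ofReal (1 - Real.tanh (aS θ N x s p) ^ 2) := by
    intro p
    rw [← ENNReal.ofReal_mul (by norm_num), ← ENNReal.ofReal_add (by norm_num)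
      (mul_nonneg (by norm_num) (omt2_pos _).le)]
    apply ENNReal.ofReal_le_ofReal
    have h4 := omt2_pos (aS θ N x s p)
    have h5 := Real.sq_sqrt h4.le
    nlinarith [sq_nonneg (Real.sqrt (1 - Real.tanh (aS θ N x s p) ^ 2) - 1)]
  calc ∫⁻ p, ENNReal.ofReal (Real.sqrt (1 - Real.tanh (aS θ N x s p) ^ 2)) ∂(GM b θ ρ)
      ≤ ∫⁻ p, (ENNReal.ofReal (1 / 2) + ENNReal.ofReal (1 / 2) *
        ENNReal.ofReal (1 - Real.tanh (aS θ N x s p) ^ 2)) ∂(GM b θ ρ) := lintegral_mono h3
    _ = ENNReal.ofReal (1 / 2) + ENNReal.ofReal (1 / 2) *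
        ∫⁻ p, ENNReal.ofReal (1 - Real.tanh (aS θ N x s p) ^ 2) ∂(GM b θ ρ) := by
        rw [lintegral_add_left measurable_const, lintegral_const, measure_univ, mul_one,
          lintegral_const_mul' _ _ ENNReal.ofReal_ne_top]
    _ ≤ ENNReal.ofReal (1 / 2) + ENNReal.ofReal (1 / 2) * ENNReal.ofReal (1 - θ ^ 2 * c) := by
        gcongr
    _ = ENNReal.ofReal (1 - θ ^ 2 * c / 2) := by
        have : θ ^ 2 * c ≤ 1 := by
          have h4 : θ ^ 2 ≤ 1 := by nlinarith
          nlinarith [sq_nonneg θ]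
        rw [← ENNReal.ofReal_mul (by norm_num), ← ENNReal.ofReal_add (by norm_num)
          (mul_nonneg (by norm_num) (by linarith))]
        congr 1; ring

/-! ### The chain -/

/-- The state at `x` for the forward path `p` below `x`. -/
noncomputable def SS (θ : ℝ) (N : ℕ) (x : V b) (l : List (Fin (b + 1)))
    (p : (V b → Bool) × (V b → ℝ)) : ℝ :=
  Real.sqrt (1 - Real.tanh (lh θ N p.1 p.2 x) ^ 2) *
    Real.sqrt (DMl θ (N - 1) p.1 p.2 x l.reverse)

lemma SS_nonneg (θ : ℝ) (N : ℕ) (x : V b) (l : List (Fin (b + 1)))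
    (p : (V b → Bool) × (V b → ℝ)) : 0 ≤ SS θ N x l p :=
  mul_nonneg (Real.sqrt_nonneg _) (Real.sqrt_nonneg _)

lemma measurable_SS (θ : ℝ) (N : ℕ) (x : V b) (l : List (Fin (b + 1))) :
    Measurable (SS (b := b) θ N x l) := by
  unfold SS
  apply Measurable.mul
  · exact (measurable_const.sub ((IsgNS.measurable_tanh.comp (measurable_lh' θ N x)).pow_const 2)).sqrt
  · exact (measurable_DMl θ (N - 1) x l.reverse).sqrt

lemma SS_dep {θ : ℝ} {N : ℕ} {x : V b} {l : List (Fin (b + 1))}
    (hl : (l.reverse ++ x.l).IsChain (· ≠ ·)) {ξ ξ' : V b → Bool} {z z' : V b → ℝ}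
    (hz : ∀ w ∈ Br x, z w = z' w) (hξ : ∀ w ∈ Br x, w ≠ x → ξ w = ξ' w) :
    SS θ N x l (ξ, z) = SS θ N x l (ξ', z') := by
  unfold SS
  show Real.sqrt (1 - Real.tanh (lh θ N ξ z x) ^ 2) * Real.sqrt (DMl θ (N - 1) ξ z x l.reverse) =
    Real.sqrt (1 - Real.tanh (lh θ N ξ' z' x) ^ 2) * Real.sqrt (DMl θ (N - 1) ξ' z' x l.reverse)
  rw [lh_dep hz hξ, DMl_dep hz hξ _ hl]

lemma DMl_concat (θ : ℝ) (M : ℕ) (ξ : V b → Bool) (z : V b → ℝ) (v : V b) (j : Fin (b + 1))
    (l : List (Fin (b + 1))) : DMl θ M ξ z v (l ++ [j]) =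
      kap θ (lh θ M ξ z (nb j v)) * DMl θ (M - 1) ξ z (nb j v) l := by
  induction l with
  | nil =>
    show 1 * kap θ (lh θ (M - 0) ξ z (nb j v)) = _
    rw [DMl_nil, one_mul, mul_one, Nat.sub_zero]
  | cons i l ih =>
    rw [List.cons_append, DMl_cons, ih, DMl_cons, ← List.cons_append, follow_concat, mul_assoc]
    congr 4
    simp only [List.length_append, List.length_cons, List.length_nil]
    omega

lemma sqrt_kap (x a s : ℝ) (hs : Real.tanh s ^ 2 = θ ^ 2 * Real.tanh x ^ 2) :
    Real.sqrt (1 - Real.tanh (a + s) ^ 2) * Real.sqrt (kap θ x) =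
      Real.sqrt (1 - Real.tanh x ^ 2) * (Real.sqrt (1 - Real.tanh a ^ 2) /
        (1 + Real.tanh a * Real.tanh s)) := by
  have p1 := omt2_pos x
  have p2 := omt2_pos a
  have p3 := omt2_pos s
  have p4 := optt_pos a s
  have p5 : 0 < 1 - θ ^ 2 * Real.tanh x ^ 2 := by rw [← hs]; exact p3
  have e1 : (1 - Real.tanh (a + s) ^ 2) * kap θ x =
      (1 - Real.tanh x ^ 2) * ((1 - Real.tanh a ^ 2) / (1 + Real.tanh a * Real.tanh s) ^ 2) := by
    unfold kap
    rw [one_sub_tanh_add_sq, hs]
    field_simp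
  rw [← Real.sqrt_mul (omt2_pos _).le, e1, Real.sqrt_mul p1.le, Real.sqrt_div p2.le,
    Real.sqrt_sq p4.le]

/-- One step of the chain. -/
lemma SS_cons (h0 : 0 ≤ θ) (h1 : θ < 1) (N : ℕ) (x : V b) (j : Fin (b + 1)) (hj : j ∈ ch x)
    (l : List (Fin (b + 1))) (p : (V b → Bool) × (V b → ℝ)) :
    SS θ (N + 1) x (j :: l) p = SS θ N (nb j x) l p *
      (Real.sqrt (1 - Real.tanh (aS θ N x ((ch x).erase j) p) ^ 2) /
        (1 + Real.tanh (aS θ N x ((ch x).erase j) p) * Real.tanh (msg θ N (nb j x) p))) := by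
  classical
  unfold SS
  rw [List.reverse_cons, DMl_concat, Nat.add_sub_cancel,
    Real.sqrt_mul (kap_pos h0 h1 _).le, lh_eq_aS]
  have e1 : aS θ N x (ch x) p = aS θ N x ((ch x).erase j) p + msg θ N (nb j x) p := by
    unfold aS
    rw [← Finset.sum_erase_add _ _ hj]
    ring
  rw [e1, ← mul_assoc, sqrt_kap (lh θ N p.1 p.2 (nb j x)) _ _ (tanh_msg_sq h0 h1 N _ p)]
  ring

/-- Sum of the exponents. -/
noncomputable def gs (I : ℝ) : ℕ → ℝ
  | 0 => 0
  | n + 1 => gs I n + min (((n + 1 : ℕ) : ℝ) * I / 10) (Real.sqrt I / 2)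

lemma gs_ge {I : ℝ} (hI : 0 ≤ I) (n : ℕ) : Real.sqrt I / 2 * n - 5 / 2 ≤ gs I n := by
  have hs := Real.sqrt_nonneg I
  have hnn : ∀ n, 0 ≤ gs I n := by
    intro n
    induction n with
    | zero => exact le_refl _
    | succ n ih =>
      have : 0 ≤ min (((n + 1 : ℕ) : ℝ) * I / 10) (Real.sqrt I / 2) :=
        le_min (by positivity) (by positivity)
      show 0 ≤ gs I n + _
      linarith
  induction n with
  | zero =>
    show _ ≤ (0 : ℝ)
    simp
    norm_num
  | succ n ih =>
    by_cases h : Real.sqrt I / 2 ≤ ((n + 1 : ℕ) : ℝ) * I / 10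
    · show _ ≤ gs I n + min _ _
      rw [min_eq_right h]
      push_cast
      linarith
    · push Not at h
      have h2 := hnn (n + 1)
      refine le_trans ?_ h2
      have h3 : I = Real.sqrt I * Real.sqrt I := (Real.mul_self_sqrt hI).symm
      rcases hs.eq_or_lt with h4 | h4
      · rw [← h4]; norm_num
      · have h5 : ((n + 1 : ℕ) : ℝ) * Real.sqrt I < 5 := by
          by_contra h6
          push Not at h6
          have h7 := mul_le_mul_of_nonneg_right h6 hs
          rw [mul_assoc, ← h3] at h7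
          linarith
        linarith

/-- The induction. -/
lemma chain (hb : 2 ≤ b) (h0 : 0 ≤ θ) (h1 : θ < 1) (hρ : Chan ρ H)
    (hlow : ∀ (N : ℕ) (v : V b), v ≠ rt b → min (N * info ρ / 10) (Real.sqrt (info ρ) / 2) ≤
      ∫ p, Real.tanh (lh θ N p.1 p.2 v) ^ 2 ∂(GM b θ ρ))
    (l : List (Fin (b + 1))) : ∀ (N : ℕ) (x : V b), l.length + 1 ≤ N →
      (l.reverse ++ x.l).IsChain (· ≠ ·) →
      NS (GM b θ ρ) (fun p => lh θ N p.1 p.2 x) (SS θ N x l) ∧
      ∫⁻ p, ENNReal.ofReal (SS θ N x l p) ∂(GM b θ ρ) ≤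
        ENNReal.ofReal (Real.exp (-(θ ^ 2 / 2 * gs (info ρ) l.length))) := by
  classical
  have hp := hρ.prob
  have hG := GM_prob b h0 h1 ρ
  have hI0 : 0 ≤ info ρ := integral_nonneg (fun _ => sq_nonneg _)
  have hI1 : info ρ ≤ 1 := by
    have h2 : info ρ ≤ ∫ _ : ℝ, (1 : ℝ) ∂ρ := by
      unfold info
      apply integral_mono_of_nonneg (Filter.Eventually.of_forall (fun _ => sq_nonneg _))
        (integrable_const _)
      exact Filter.Eventually.of_forall (fun x => (Real.tanh_sq_lt_one x).le)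
    simpa using h2
  have mt := IsgNS.measurable_tanh
  induction l with
  | nil =>
    intro N x _ _
    have e1 : ∀ p : (V b → Bool) × (V b → ℝ), SS θ N x [] p =
        Real.sqrt (1 - Real.tanh (lh θ N p.1 p.2 x) ^ 2) := by
      intro p
      unfold SS
      rw [List.reverse_nil, DMl_nil, Real.sqrt_one, mul_one]
    constructor
    · intro φ hφ hn
      have h2 := ns_lh h0 h1 hρ N x (fun y => φ (y.1, Real.sqrt (1 - Real.tanh y.1 ^ 2)))
        (hφ.comp (measurable_fst.prodMk (measurable_const.sub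
          ((mt.comp measurable_fst).pow_const 2)).sqrt)) (fun _ => hn _)
      simp only [e1]
      simp only [Real.tanh_neg, neg_sq] at h2
      exact h2
    · simp only [e1]
      calc ∫⁻ p, ENNReal.ofReal (Real.sqrt (1 - Real.tanh (lh θ N p.1 p.2 x) ^ 2)) ∂(GM b θ ρ)
          ≤ ∫⁻ _, 1 ∂(GM b θ ρ) := by
            apply lintegral_mono
            intro p
            rw [← ENNReal.ofReal_one]
            apply ENNReal.ofReal_le_ofReal
            apply Real.sqrt_le_one.2
            linarith [sq_nonneg (Real.tanh (lh θ N p.1 p.2 x))]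
        _ = 1 := by simp
        _ ≤ _ := by
            show (1 : ENNReal) ≤ ENNReal.ofReal (Real.exp (-(θ ^ 2 / 2 * 0)))
            simp
  | cons j l ih =>
    intro N x hN hc
    obtain ⟨N, rfl⟩ : ∃ N', N = N' + 1 := ⟨N - 1, by simp at hN; omega⟩
    rw [List.reverse_cons, List.append_assoc, List.singleton_append] at hc
    have hjc : (j :: x.l).IsChain (· ≠ ·) := List.IsChain.right_of_append hc
    have hj : j ∈ ch x := by
      rw [mem_ch]
      intro he
      cases hx : x.l with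
      | nil => rw [hx] at he; simp at he
      | cons k t =>
        rw [hx] at he hjc
        simp at he
        exact (List.isChain_cons_cons.1 hjc).1 he.symm
    have hl := nb_ch_l hj
    have hc' : (l.reverse ++ (nb j x).l).IsChain (· ≠ ·) := by rw [hl]; exact hc
    have hN' : l.length + 1 ≤ N := by simp at hN; omega
    obtain ⟨ih1, ih2⟩ := ih N (nb j x) hN' hc'
    set s := (ch x).erase j with hs
    have hsx : s ⊆ ch x := Finset.erase_subset _ _
    have hA := ns_aS h0 h1 hρ N x s hsx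
    have hB := ns_edge h0 h1 N (nb j x) (ρ := ρ) (measurable_SS θ N (nb j x) l)
      (fun ξ ξ' z h => SS_dep hc' (fun _ _ => rfl) (fun w _ hw => h w hw)) ih1
    have hi : IndepFun (fun p => (aS θ N x s p, ()))
        (fun p => (msg θ N (nb j x) p, SS θ N (nb j x) l p)) (GM b θ ρ) := by
      apply GM_indepFun h0 h1 ρ (disj_aS hsx hj (Finset.notMem_erase j _))
        ((measurable_aS θ N x _).prodMk measurable_const)
        ((measurable_msg θ N (nb j x)).prodMk (measurable_SS θ N (nb j x) l))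
      · intro p p' h
        rw [aS_dep θ N x _ p p' h]
      · intro p p' h
        rw [msg_dep θ N (nb j x) p p' h]
        have := SS_dep (θ := θ) (N := N) hc' (fun w hw => (h w hw).2) (fun w hw _ => (h w hw).1)
        exact Prod.ext rfl this
    have e1 : ∀ p : (V b → Bool) × (V b → ℝ),
        lh θ (N + 1) p.1 p.2 x = aS θ N x s p + msg θ N (nb j x) p := by
      intro p
      rw [lh_eq_aS]
      unfold aS
      rw [hs, ← Finset.sum_erase_add _ _ hj]
      ring
    constructor
    · have h3 := NS.add hA hB (measurable_aS θ N x s) (measurable_msg θ N (nb j x))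
        measurable_const (measurable_SS θ N (nb j x) l) hi
        (fun y => y.2.2 * (Real.sqrt (1 - Real.tanh y.1.1 ^ 2) /
          (1 + Real.tanh y.1.1 * Real.tanh y.2.1)))
        (by
          have m1 : Measurable (fun y : (ℝ × Unit) × (ℝ × ℝ) => Real.tanh y.1.1) :=
            mt.comp (by fun_prop)
          have m2 : Measurable (fun y : (ℝ × Unit) × (ℝ × ℝ) => Real.tanh y.2.1) :=
            mt.comp (by fun_prop)
          exact (measurable_snd.comp measurable_snd).mul
            ((measurable_const.sub (m1.pow_const 2)).sqrt.div (measurable_const.add (m1.mul m2))))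
        (fun a c b' d => by
          simp only [Real.tanh_neg, neg_sq, neg_mul_neg])
      apply h3.congr
      · exact e1
      · intro p
        exact SS_cons h0 h1 N x j hj l p
    · have h4 := NS.key hA hB (measurable_aS θ N x s) (measurable_msg θ N (nb j x))
        measurable_const (measurable_SS θ N (nb j x) l) hi (SS_nonneg θ N (nb j x) l)
      simp only [SS_cons h0 h1 N x j hj l]
      rw [h4]
      -- another child
      have hcard : 0 < s.card := by
        rw [hs, Finset.card_erase_of_mem hj]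
        by_cases hx : x = rt b
        · rw [hx, card_ch_rt]; omega
        · rw [card_ch hx]; omega
      obtain ⟨i, hi'⟩ := Finset.card_pos.1 hcard
      have hix : i ∈ ch x := hsx hi'
      have hne : nb i x ≠ rt b := by
        intro he
        have : (nb i x).l = (rt b).l := by rw [he]
        rw [nb_ch_l hix] at this
        exact List.cons_ne_nil _ _ this
      set c := min ((N : ℝ) * info ρ / 10) (Real.sqrt (info ρ) / 2) with hcdef
      have hc1 : c ≤ 1 := by
        refine (min_le_right _ _).trans ?_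
        have : Real.sqrt (info ρ) ≤ 1 := Real.sqrt_le_one.2 hI1
        linarith
      have h5 := sqrt_aS h0 h1 hρ N x s hsx hi' hc1 (hlow N (nb i x) hne)
      set d := min (((l.length + 1 : ℕ) : ℝ) * info ρ / 10) (Real.sqrt (info ρ) / 2) with hd
      have hdc : d ≤ c := by
        apply min_le_min _ le_rfl
        have : ((l.length + 1 : ℕ) : ℝ) ≤ (N : ℝ) := by exact_mod_cast hN'
        have := mul_le_mul_of_nonneg_right this hI0
        linarith
      calc (∫⁻ p, ENNReal.ofReal (Real.sqrt (1 - Real.tanh (aS θ N x s p) ^ 2)) ∂(GM b θ ρ)) *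
            ∫⁻ p, ENNReal.ofReal (SS θ N (nb j x) l p) ∂(GM b θ ρ)
          ≤ ENNReal.ofReal (1 - θ ^ 2 * c / 2) *
            ENNReal.ofReal (Real.exp (-(θ ^ 2 / 2 * gs (info ρ) l.length))) := by gcongr
        _ ≤ ENNReal.ofReal (Real.exp (-(θ ^ 2 / 2 * d))) *
            ENNReal.ofReal (Real.exp (-(θ ^ 2 / 2 * gs (info ρ) l.length))) := by
            gcongr
            have h6 := Real.add_one_le_exp (-(θ ^ 2 / 2 * d))
            have h7 : θ ^ 2 * d ≤ θ ^ 2 * c := mul_le_mul_of_nonneg_left hdc (sq_nonneg _)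
            linarith
        _ = ENNReal.ofReal (Real.exp (-(θ ^ 2 / 2 * gs (info ρ) (j :: l).length))) := by
            rw [← ENNReal.ofReal_mul (Real.exp_pos _).le, ← Real.exp_add]
            congr 2
            show _ = -(θ ^ 2 / 2 * (gs (info ρ) l.length + d))
            ring

/-- Module DECAY. -/
theorem main (hI : Spec.InfoLower) : Spec.Decay := by
  intro b θ hb h0 hcrit
  have h1 : θ < 1 := by
    by_contra h
    push Not at h
    have h2 : (2 : ℝ) ≤ b := by exact_mod_cast hb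
    nlinarith
  have hθ2 : θ ^ 2 < 1 := by nlinarith
  have hpos : 0 < 1 - θ ^ 2 := by linarith
  refine ⟨Real.exp (3 / 2) / Real.sqrt (1 - θ ^ 2), θ ^ 2 / 4, by positivity, ?_⟩
  intro ρ H hρ Mx v r hr hlen
  have hp := hρ.prob
  have hG := GM_prob b h0.le h1 ρ
  have hI0 : 0 ≤ info ρ := integral_nonneg (fun _ => sq_nonneg _)
  have hI1 : info ρ ≤ 1 := by
    have h2 : info ρ ≤ ∫ _ : ℝ, (1 : ℝ) ∂ρ := by
      unfold info
      apply integral_mono_of_nonneg (Filter.Eventually.of_forall (fun _ => sq_nonneg _))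
        (integrable_const _)
      exact Filter.Eventually.of_forall (fun x => (Real.tanh_sq_lt_one x).le)
    simpa using h2
  have hs0 := Real.sqrt_nonneg (info ρ)
  have hs1 : Real.sqrt (info ρ) ≤ 1 := Real.sqrt_le_one.2 hI1
  have hsp : 0 < Real.sqrt (1 - θ ^ 2) := Real.sqrt_pos.2 hpos
  have hsp1 : Real.sqrt (1 - θ ^ 2) ≤ 1 := Real.sqrt_le_one.2 (by linarith [sq_nonneg θ])
  rcases List.eq_nil_or_concat' r with rfl | ⟨l, j, rfl⟩
  · simp only [DMl_nil, integral_const, probReal_univ, smul_eq_mul, List.length_nil,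
      Nat.cast_zero, mul_zero, neg_zero, Real.exp_zero, mul_one]
    rw [le_div_iff₀ hsp, one_mul]
    exact hsp1.trans (Real.one_le_exp (by norm_num))
  · rw [List.append_assoc, List.singleton_append] at hr
    have hjc : (j :: v.l).IsChain (· ≠ ·) := List.IsChain.right_of_append hr
    have hj : j ∈ ch v := by
      rw [mem_ch]
      intro he
      cases hx : v.l with
      | nil => rw [hx] at he; simp at he
      | cons k t =>
        rw [hx] at he hjc
        simp at he
        exact (List.isChain_cons_cons.1 hjc).1 he.symm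
    have hl := nb_ch_l hj
    have hc' : (l.reverse.reverse ++ (nb j v).l).IsChain (· ≠ ·) := by
      rw [hl, List.reverse_reverse]; exact hr
    have hlen' : l.reverse.length + 1 ≤ Mx := by simpa using hlen
    obtain ⟨_, h2⟩ := chain hb h0.le h1 hρ (fun N v hv => hI b θ hb h0 hcrit ρ H hρ N v hv)
      l.reverse Mx (nb j v) hlen' hc'
    have hpt : ∀ p : (V b → Bool) × (V b → ℝ), DMl θ Mx p.1 p.2 v (l ++ [j]) ≤
        (Real.sqrt (1 - θ ^ 2))⁻¹ * SS θ Mx (nb j v) l.reverse p := by
      intro p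
      rw [DMl_concat]
      unfold SS
      rw [List.reverse_reverse]
      set k := kap θ (lh θ Mx p.1 p.2 (nb j v)) with hk
      set D := DMl θ (Mx - 1) p.1 p.2 (nb j v) l with hD
      have k0 : 0 < k := kap_pos h0.le h1 _
      have k1 : k ≤ 1 := kap_le_one h0.le h1 _
      have D0 : 0 < D := DMl_pos h0.le h1 _ _ _ _ _
      have D1 : D ≤ 1 := DMl_le_one h0.le h1 _ _ _ _ _
      have k2 : k ≤ (1 - Real.tanh (lh θ Mx p.1 p.2 (nb j v)) ^ 2) / (1 - θ ^ 2) := by
        rw [hk]
        unfold kap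
        apply div_le_div_of_nonneg_left (omt2_pos _).le hpos
        have := Real.tanh_sq_lt_one (lh θ Mx p.1 p.2 (nb j v))
        nlinarith [sq_nonneg θ]
      have k3 : k ≤ Real.sqrt k := by
        apply Real.le_sqrt_of_sq_le; nlinarith
      have D3 : D ≤ Real.sqrt D := by
        apply Real.le_sqrt_of_sq_le; nlinarith
      calc k * D ≤ Real.sqrt k * Real.sqrt D := mul_le_mul k3 D3 D0.le (Real.sqrt_nonneg _)
        _ ≤ Real.sqrt ((1 - Real.tanh (lh θ Mx p.1 p.2 (nb j v)) ^ 2) / (1 - θ ^ 2)) *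
            Real.sqrt D := by gcongr
        _ = _ := by
            rw [Real.sqrt_div (omt2_pos _).le]
            ring
    have h3 : ENNReal.ofReal (∫ p, DMl θ Mx p.1 p.2 v (l ++ [j]) ∂(GM b θ ρ)) ≤
        ENNReal.ofReal ((Real.sqrt (1 - θ ^ 2))⁻¹ *
          Real.exp (-(θ ^ 2 / 2 * gs (info ρ) l.reverse.length))) := by
      rw [ofReal_integral_eq_lintegral_ofReal]
      · calc ∫⁻ p, ENNReal.ofReal (DMl θ Mx p.1 p.2 v (l ++ [j])) ∂(GM b θ ρ)
            ≤ ∫⁻ p, ENNReal.ofReal ((Real.sqrt (1 - θ ^ 2))⁻¹) *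
              ENNReal.ofReal (SS θ Mx (nb j v) l.reverse p) ∂(GM b θ ρ) := by
              apply lintegral_mono
              intro p
              show _ ≤ ENNReal.ofReal ((Real.sqrt (1 - θ ^ 2))⁻¹) *
                ENNReal.ofReal (SS θ Mx (nb j v) l.reverse p)
              rw [← ENNReal.ofReal_mul (inv_nonneg.2 hsp.le)]
              exact ENNReal.ofReal_le_ofReal (hpt p)
          _ = ENNReal.ofReal ((Real.sqrt (1 - θ ^ 2))⁻¹) *
              ∫⁻ p, ENNReal.ofReal (SS θ Mx (nb j v) l.reverse p) ∂(GM b θ ρ) :=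
              lintegral_const_mul' _ _ ENNReal.ofReal_ne_top
          _ ≤ _ := by
              rw [ENNReal.ofReal_mul (inv_nonneg.2 hsp.le)]
              gcongr
      · apply Integrable.of_bound (measurable_DMl θ Mx v _).aestronglyMeasurable 1
        apply Filter.Eventually.of_forall
        intro p
        rw [Real.norm_eq_abs, abs_of_pos (DMl_pos h0.le h1 _ _ _ _ _)]
        exact DMl_le_one h0.le h1 _ _ _ _ _
      · exact Filter.Eventually.of_forall (fun p => (DMl_pos h0.le h1 _ _ _ _ _).le)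
    have h4 := (ENNReal.ofReal_le_ofReal_iff (by positivity)).1 h3
    refine h4.trans ?_
    have h5 := gs_ge hI0 l.reverse.length
    rw [List.length_reverse] at h5 ⊢
    rw [div_eq_mul_inv (Real.exp (3 / 2)), mul_comm (Real.exp (3 / 2)), mul_assoc, ← Real.exp_add]
    apply mul_le_mul_of_nonneg_left _ (inv_nonneg.2 hsp.le)
    apply Real.exp_le_exp.2
    have h6 : ((l ++ [j]).length : ℝ) = l.length + 1 := by simp
    rw [h6]
    have h7 := mul_le_mul_of_nonneg_left h5 (show 0 ≤ θ ^ 2 / 2 by positivity)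
    have h8 : θ ^ 2 * Real.sqrt (info ρ) ≤ 1 := by nlinarith [sq_nonneg θ]
    nlinarith

end Crest.Agent.IsgDecay
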