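import Crest.Agent.IsgSpec

set_option autoImplicit false

/-!
Module DET of S0241: deterministic facts about messages (DetBounds, MsgLip, DDcomp).
-/

open MeasureTheory ProbabilityTheory Filter Topology

namespace Crest.Agent.IsgDet

open Crest.Agent.Isg

variable {b : ℕ}

/-! ### tanh -/

lemma tanh_le_tanh {x y : ℝ} (h : x ≤ y) : Real.tanh x ≤ Real.tanh y := by
  have := (Real.artanh_le_artanh_iff (x := Real.tanh x) (y := Real.tanh y)
    ⟨Real.neg_one_lt_tanh x, Real.tanh_lt_one x⟩ ⟨Real.neg_one_lt_tanh y, Real.tanh_lt_one y⟩).1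
  rw [Real.artanh_tanh, Real.artanh_tanh] at this
  exact this h

lemma tanh_nonneg {x : ℝ} (h : 0 ≤ x) : 0 ≤ Real.tanh x := by
  have := tanh_le_tanh h
  rwa [Real.tanh_zero] at this

lemma abs_tanh (x : ℝ) : |Real.tanh x| = Real.tanh |x| := by
  rcases abs_cases x with ⟨h1, h2⟩ | ⟨h1, h2⟩
  · rw [h1, abs_of_nonneg (tanh_nonneg h2)]
  · rw [h1, Real.tanh_neg, abs_of_nonpos]
    have := tanh_nonneg (x := -x) (by linarith)
    rw [Real.tanh_neg] at this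
    linarith

lemma tanh_sq_le {x m : ℝ} (h : |x| ≤ m) : Real.tanh x ^ 2 ≤ Real.tanh m ^ 2 := by
  rw [← sq_abs (Real.tanh x), abs_tanh]
  exact pow_le_pow_left₀ (tanh_nonneg (abs_nonneg x)) (tanh_le_tanh h) 2

lemma hasDerivAt_tanh (x : ℝ) : HasDerivAt Real.tanh (1 - Real.tanh x ^ 2) x := by
  have h1 : HasDerivAt (fun y => Real.sinh y / Real.cosh y)
      ((Real.cosh x * Real.cosh x - Real.sinh x * Real.sinh x) / Real.cosh x ^ 2) x :=
    (Real.hasDerivAt_sinh x).div (Real.hasDerivAt_cosh x) (Real.cosh_pos x).ne'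
  have h2 : (fun y => Real.sinh y / Real.cosh y) = Real.tanh := by
    funext y; rw [Real.tanh_eq_sinh_div_cosh]
  rw [h2] at h1
  convert h1 using 1
  have hc : Real.cosh x ≠ 0 := (Real.cosh_pos x).ne'
  rw [Real.tanh_eq_sinh_div_cosh]
  field_simp

lemma one_sub_tanh_sq_pos (x : ℝ) : 0 < 1 - Real.tanh x ^ 2 := by
  have := Real.tanh_sq_lt_one x
  linarith

lemma artanh_eq {y : ℝ} (h1 : -1 < y) (h2 : y < 1) :
    Real.artanh y = 1 / 2 * (Real.log (1 + y) - Real.log (1 - y)) := by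
  rw [Real.artanh_eq_half_log ⟨h1.le, h2.le⟩, Real.log_div (by linarith) (by linarith)]

lemma hasDerivAt_artanh {y : ℝ} (h1 : -1 < y) (h2 : y < 1) :
    HasDerivAt Real.artanh (1 / (1 - y ^ 2)) y := by
  have h3 : HasDerivAt (fun z => 1 / 2 * (Real.log (1 + z) - Real.log (1 - z)))
      (1 / 2 * (1 / (1 + y) - (-1) / (1 - y))) y := by
    apply HasDerivAt.const_mul
    apply HasDerivAt.sub
    · exact ((hasDerivAt_id y).const_add 1).log (by simp only [id]; linarith)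
    · exact ((hasDerivAt_id y).const_sub 1).log (by simp only [id]; linarith)
  have h4 : Real.artanh =ᶠ[𝓝 y] fun z => 1 / 2 * (Real.log (1 + z) - Real.log (1 - z)) := by
    filter_upwards [Ioo_mem_nhds h1 h2] with z hz
    exact artanh_eq hz.1 hz.2
  have h5 := h3.congr_of_eventuallyEq h4
  apply h5.congr_deriv
  have a1 : 1 + y ≠ 0 := by linarith
  have a2 : 1 - y ≠ 0 := by linarith
  have e : 1 - y ^ 2 = (1 + y) * (1 - y) := by ring
  rw [e]
  field_simp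
  ring

/-! ### psi and kap -/

lemma theta_tanh_lt {θ : ℝ} (h0 : 0 ≤ θ) (h1 : θ < 1) (x : ℝ) :
    -1 < θ * Real.tanh x ∧ θ * Real.tanh x < 1 := by
  have h2 := Real.tanh_lt_one x
  have h3 := Real.neg_one_lt_tanh x
  constructor <;> nlinarith

lemma den_pos {θ : ℝ} (h0 : 0 ≤ θ) (h1 : θ < 1) (x : ℝ) : 0 < 1 - θ ^ 2 * Real.tanh x ^ 2 := by
  obtain ⟨h2, h3⟩ := theta_tanh_lt h0 h1 x
  have : (θ * Real.tanh x) ^ 2 < 1 := by
    rw [sq_lt_one_iff_abs_lt_one, abs_lt]; exact ⟨h2, h3⟩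
  nlinarith

lemma kap_pos {θ : ℝ} (h0 : 0 ≤ θ) (h1 : θ < 1) (x : ℝ) : 0 < kap θ x :=
  div_pos (one_sub_tanh_sq_pos x) (den_pos h0 h1 x)

lemma theta_sq_le {θ : ℝ} (h0 : 0 ≤ θ) (h1 : θ < 1) : θ ^ 2 ≤ 1 := by nlinarith

lemma kap_le_one {θ : ℝ} (h0 : 0 ≤ θ) (h1 : θ < 1) (x : ℝ) : kap θ x ≤ 1 := by
  rw [kap, div_le_one (den_pos h0 h1 x)]
  have := theta_sq_le h0 h1
  nlinarith [sq_nonneg (Real.tanh x)]

lemma kap_ge {θ : ℝ} (h0 : 0 ≤ θ) (h1 : θ < 1) (x : ℝ) : 1 - Real.tanh x ^ 2 ≤ kap θ x := by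
  rw [kap, le_div_iff₀ (den_pos h0 h1 x)]
  have h2 := one_sub_tanh_sq_pos x
  have h3 : 0 ≤ θ ^ 2 * Real.tanh x ^ 2 := by positivity
  nlinarith

lemma one_sub_kap {θ : ℝ} (h0 : 0 ≤ θ) (h1 : θ < 1) (x : ℝ) :
    (1 - θ ^ 2) * Real.tanh x ^ 2 ≤ 1 - kap θ x := by
  have hd := den_pos h0 h1 x
  have h2 : 1 - kap θ x = ((1 - θ ^ 2) * Real.tanh x ^ 2) / (1 - θ ^ 2 * Real.tanh x ^ 2) := by
    rw [kap, eq_div_iff hd.ne', sub_mul, div_mul_cancel₀ _ hd.ne']; ring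
  rw [h2, le_div_iff₀ hd]
  have h3 : 0 ≤ (1 - θ ^ 2) * Real.tanh x ^ 2 :=
    mul_nonneg (by have := theta_sq_le h0 h1; linarith) (sq_nonneg _)
  have h4 : 0 ≤ θ ^ 2 * Real.tanh x ^ 2 := by positivity
  nlinarith

lemma hasDerivAt_psi {θ : ℝ} (h0 : 0 ≤ θ) (h1 : θ < 1) (x : ℝ) :
    HasDerivAt (psi θ) (θ * kap θ x) x := by
  obtain ⟨h2, h3⟩ := theta_tanh_lt h0 h1 x
  have h4 := (hasDerivAt_artanh h2 h3).comp x ((hasDerivAt_tanh x).const_mul θ)
  have h5 : (Real.artanh ∘ fun y => θ * Real.tanh y) = psi θ := by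
    funext y; rfl
  rw [h5] at h4
  have h6 : θ * kap θ x = 1 / (1 - (θ * Real.tanh x) ^ 2) * (θ * (1 - Real.tanh x ^ 2)) := by
    unfold kap
    rw [mul_pow]
    ring
  rw [h6]
  exact h4

lemma psi_lip {θ : ℝ} (h0 : 0 ≤ θ) (h1 : θ < 1) (x y : ℝ) :
    |psi θ x - psi θ y| ≤ θ * |x - y| := by
  have := Convex.norm_image_sub_le_of_norm_hasDerivWithin_le (f := psi θ)
    (f' := fun x => θ * kap θ x) (C := θ) (s := Set.univ) (x := y) (y := x)
    (fun z _ => (hasDerivAt_psi h0 h1 z).hasDerivWithinAt)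
    (fun z _ => by
      rw [Real.norm_eq_abs, abs_of_nonneg (mul_nonneg h0 (kap_pos h0 h1 z).le)]
      have := kap_le_one h0 h1 z
      nlinarith) convex_univ (Set.mem_univ _) (Set.mem_univ _)
  simpa [Real.norm_eq_abs] using this

lemma psi_continuous {θ : ℝ} (h0 : 0 ≤ θ) (h1 : θ < 1) : Continuous (psi θ) :=
  continuous_iff_continuousAt.2 (fun x => (hasDerivAt_psi h0 h1 x).continuousAt)

lemma artanh_neg' {x : ℝ} (h1 : -1 < x) (h2 : x < 1) : Real.artanh (-x) = -Real.artanh x := by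
  rw [artanh_eq h1 h2, artanh_eq (by linarith) (by linarith)]
  rw [show (1 : ℝ) + -x = 1 - x by ring, show (1 : ℝ) - -x = 1 + x by ring]
  ring

lemma abs_psi_le {θ : ℝ} (h0 : 0 ≤ θ) (h1 : θ < 1) (x : ℝ) : |psi θ x| ≤ Real.artanh θ := by
  obtain ⟨h2, h3⟩ := theta_tanh_lt h0 h1 x
  have h4 := Real.tanh_lt_one x
  have h5 := Real.neg_one_lt_tanh x
  rw [abs_le]
  constructor
  · rw [← artanh_neg' (by linarith) h1]
    apply Real.artanh_le_artanh (by linarith) h3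
    nlinarith
  · apply Real.artanh_le_artanh h2 h1
    nlinarith

/-! ### limits -/

lemma lm_tendsto {θ : ℝ} {h : V b → ℝ} (hg : Good θ h) (u : V b) (i : Fin (b + 1)) :
    Tendsto (fun N => lm θ N h u i) atTop (𝓝 (lmI θ h u i)) := by
  obtain ⟨ℓ, hℓ⟩ := hg u i
  have : lmI θ h u i = ℓ := hℓ.limsup_eq
  rw [this]; exact hℓ

lemma lmI_rec {θ : ℝ} (h0 : 0 ≤ θ) (h1 : θ < 1) {h : V b → ℝ} (hg : Good θ h) (u : V b)
    (i : Fin (b + 1)) :
    lmI θ h u i = h u + ∑ j ∈ Finset.univ.erase i, psi θ (lmI θ h (nb j u) j) := by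
  have h2 : Tendsto (fun N => lm θ (N + 1) h u i) atTop (𝓝 (lmI θ h u i)) :=
    (lm_tendsto hg u i).comp (tendsto_add_atTop_nat 1)
  have h3 : Tendsto (fun N => lm θ (N + 1) h u i) atTop
      (𝓝 (h u + ∑ j ∈ Finset.univ.erase i, psi θ (lmI θ h (nb j u) j))) := by
    simp only [lm]
    apply Tendsto.const_add
    apply tendsto_finsetSum
    intro j _
    exact ((psi_continuous h0 h1).tendsto _).comp (lm_tendsto hg (nb j u) j)
  exact tendsto_nhds_unique h2 h3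

lemma lgI_eq {θ : ℝ} (h0 : 0 ≤ θ) (h1 : θ < 1) {h : V b → ℝ} (hg : Good θ h) (u : V b)
    (i : Fin (b + 1)) :
    lgI θ h u = lmI θ h u i + psi θ (lmI θ h (nb i u) i) := by
  rw [lgI, lmI_rec h0 h1 hg u i, ← Finset.sum_erase_add _ _ (Finset.mem_univ i)]
  ring

/-- the uniform bound. -/
noncomputable def CB (b : ℕ) (θ H : ℝ) : ℝ := |H| + (b + 1) * Real.artanh θ

lemma CB_nonneg (b : ℕ) {θ : ℝ} (h0 : 0 ≤ θ) (H : ℝ) : 0 ≤ CB b θ H := by
  have := Real.artanh_nonneg h0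
  rw [CB]; positivity

lemma abs_lmI_le {θ : ℝ} (h0 : 0 ≤ θ) (h1 : θ < 1) {H : ℝ} {h : V b → ℝ} (hg : GoodH θ H h)
    (u : V b) (i : Fin (b + 1)) : |lmI θ h u i| ≤ CB b θ H := by
  rw [lmI_rec h0 h1 hg.1 u i]
  have h2 : |∑ j ∈ Finset.univ.erase i, psi θ (lmI θ h (nb j u) j)| ≤
      ∑ j ∈ Finset.univ.erase i, |psi θ (lmI θ h (nb j u) j)| := Finset.abs_sum_le_sum_abs _ _
  have h3 : ∑ j ∈ Finset.univ.erase i, |psi θ (lmI θ h (nb j u) j)| ≤
      ∑ j ∈ (Finset.univ.erase i : Finset (Fin (b + 1))), Real.artanh θ :=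
    Finset.sum_le_sum (fun j _ => abs_psi_le h0 h1 _)
  rw [Finset.sum_const, nsmul_eq_mul, Finset.card_erase_of_mem (Finset.mem_univ i),
    Finset.card_univ, Fintype.card_fin] at h3
  have h4 := hg.2 u
  have h5 := le_abs_self H
  have h6 := Real.artanh_nonneg h0
  have h7 := abs_add_le (h u) (∑ j ∈ Finset.univ.erase i, psi θ (lmI θ h (nb j u) j))
  rw [CB]
  simp only [Nat.add_sub_cancel] at h3
  nlinarith

lemma abs_lgI_le {θ : ℝ} (h0 : 0 ≤ θ) (h1 : θ < 1) {H : ℝ} {h : V b → ℝ} (hg : GoodH θ H h)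
    (u : V b) : |lgI θ h u| ≤ CB b θ H := by
  rw [lgI]
  have h2 : |∑ j, psi θ (lmI θ h (nb j u) j)| ≤
      ∑ j, |psi θ (lmI θ h (nb j u) j)| := Finset.abs_sum_le_sum_abs _ _
  have h3 : ∑ j, |psi θ (lmI θ h (nb j u) j)| ≤
      ∑ j : Fin (b + 1), Real.artanh θ :=
    Finset.sum_le_sum (fun j _ => abs_psi_le h0 h1 _)
  rw [Finset.sum_const, nsmul_eq_mul, Finset.card_univ, Fintype.card_fin] at h3
  have h4 := hg.2 u
  have h5 := le_abs_self H
  have h7 := abs_add_le (h u) (∑ j, psi θ (lmI θ h (nb j u) j))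
  rw [CB]
  push_cast at h3
  linarith

theorem detBounds : Spec.DetBounds := by
  intro b θ h0 h1 H
  refine ⟨1 - Real.tanh (CB b θ H) ^ 2, CB b θ H, one_sub_tanh_sq_pos _, CB_nonneg b h0 H, ?_⟩
  intro h hg
  refine ⟨fun u i => abs_lmI_le h0 h1 hg u i, fun u i => ⟨?_, kap_le_one h0 h1 _⟩, fun u => ?_⟩
  · have h2 := tanh_sq_le (abs_lmI_le h0 h1 hg u i)
    have h3 := kap_ge h0 h1 (lmI θ h u i)
    linarith
  · have h2 := tanh_sq_le (abs_lgI_le h0 h1 hg u)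
    rw [M]
    linarith

/-- lower Lipschitz bound for tanh. -/
lemma tanh_lower {C x y : ℝ} (hx : |x| ≤ C) (hy : |y| ≤ C) :
    (1 - Real.tanh C ^ 2) * |x - y| ≤ |Real.tanh x - Real.tanh y| := by
  wlog hxy : y < x generalizing x y
  · rcases (not_lt.1 hxy).lt_or_eq with h | h
    · have := this hy hx h
      rwa [abs_sub_comm x y, abs_sub_comm (Real.tanh x)]
    · subst h; simp
  obtain ⟨ξ, hξ, hξ2⟩ := exists_hasDerivAt_eq_slope Real.tanh (fun z => 1 - Real.tanh z ^ 2) hxy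
    (fun z _ => (hasDerivAt_tanh z).continuousAt.continuousWithinAt)
    (fun z _ => hasDerivAt_tanh z)
  have h1 : |ξ| ≤ C := by
    rw [abs_le] at *
    constructor <;> linarith [hξ.1, hξ.2]
  have h2 := tanh_sq_le h1
  have h3 : 0 < x - y := by linarith
  have h4 : Real.tanh x - Real.tanh y = (1 - Real.tanh ξ ^ 2) * (x - y) := by
    rw [hξ2]; field_simp
  rw [h4, abs_mul, abs_of_pos (one_sub_tanh_sq_pos ξ)]
  apply mul_le_mul_of_nonneg_right _ (abs_nonneg _)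
  linarith

theorem msgLip : Spec.MsgLip := by
  intro b θ h0 h1 H
  set c := 1 - Real.tanh (CB b θ H) ^ 2 with hc
  have hcpos : 0 < c := one_sub_tanh_sq_pos _
  have hθ : 0 < 1 - θ ^ 2 := by nlinarith
  refine ⟨1 / ((1 - θ ^ 2) * c), by positivity, ?_⟩
  intro h h' hg hg' u i
  set τ := lmI θ h u i
  set τ' := lmI θ h' u i
  set σ := lmI θ h (nb i u) i with hσ
  set σ' := lmI θ h' (nb i u) i with hσ'
  have e1 : lgI θ h u = τ + psi θ σ := lgI_eq h0 h1 hg.1 u i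
  have e2 : lgI θ h' u = τ' + psi θ σ' := lgI_eq h0 h1 hg'.1 u i
  have e3 : lgI θ h (nb i u) = σ + psi θ τ := by
    have := lgI_eq h0 h1 hg.1 (nb i u) i
    rwa [nb_nb] at this
  have e4 : lgI θ h' (nb i u) = σ' + psi θ τ' := by
    have := lgI_eq h0 h1 hg'.1 (nb i u) i
    rwa [nb_nb] at this
  have l1 := psi_lip h0 h1 σ σ'
  have l2 := psi_lip h0 h1 τ τ'
  have a1 : |τ - τ'| ≤ |lgI θ h u - lgI θ h' u| + θ * |σ - σ'| := by
    have : τ - τ' = (lgI θ h u - lgI θ h' u) - (psi θ σ - psi θ σ') := by rw [e1, e2]; ring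
    rw [this]
    exact (abs_sub _ _).trans (by linarith)
  have a2 : |σ - σ'| ≤ |lgI θ h (nb i u) - lgI θ h' (nb i u)| + θ * |τ - τ'| := by
    have : σ - σ' = (lgI θ h (nb i u) - lgI θ h' (nb i u)) - (psi θ τ - psi θ τ') := by
      rw [e3, e4]; ring
    rw [this]
    exact (abs_sub _ _).trans (by linarith)
  have b1 := tanh_lower (abs_lgI_le h0 h1 hg u) (abs_lgI_le h0 h1 hg' u)
  have b2 := tanh_lower (abs_lgI_le h0 h1 hg (nb i u)) (abs_lgI_le h0 h1 hg' (nb i u))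
  rw [← hc] at b1 b2
  change c * |lgI θ h u - lgI θ h' u| ≤ |M θ h u - M θ h' u| at b1
  change c * |lgI θ h (nb i u) - lgI θ h' (nb i u)| ≤ |M θ h (nb i u) - M θ h' (nb i u)| at b2
  rw [one_div, inv_mul_eq_div, le_div_iff₀ (by positivity)]
  have a3 : |τ - τ'| * (1 - θ ^ 2) ≤
      |lgI θ h u - lgI θ h' u| + |lgI θ h (nb i u) - lgI θ h' (nb i u)| := by
    have := mul_le_mul_of_nonneg_left a2 h0
    have h5 := abs_nonneg (lgI θ h (nb i u) - lgI θ h' (nb i u))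
    nlinarith
  have a4 := mul_le_mul_of_nonneg_right a3 hcpos.le
  nlinarith

/-! ### comparison of slope products -/

/-- minus the logarithm of the slope factor. -/
noncomputable def g0 (θ x : ℝ) : ℝ := -Real.log (kap θ x)

lemma g0_ge {θ : ℝ} (h0 : 0 ≤ θ) (h1 : θ < 1) (x : ℝ) :
    (1 - θ ^ 2) * Real.tanh x ^ 2 ≤ g0 θ x := by
  have h2 := one_sub_kap h0 h1 x
  have h3 := Real.log_le_sub_one_of_pos (kap_pos h0 h1 x)
  rw [g0]; linarith

lemma g0_nonneg {θ : ℝ} (h0 : 0 ≤ θ) (h1 : θ < 1) (x : ℝ) : 0 ≤ g0 θ x := by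
  have h2 := g0_ge h0 h1 x
  have h3 : 0 ≤ (1 - θ ^ 2) * Real.tanh x ^ 2 :=
    mul_nonneg (by have := theta_sq_le h0 h1; linarith) (sq_nonneg _)
  linarith

lemma hasDerivAt_g0 {θ : ℝ} (h0 : 0 ≤ θ) (h1 : θ < 1) (x : ℝ) :
    HasDerivAt (g0 θ) (2 * Real.tanh x * (1 - θ ^ 2) / (1 - θ ^ 2 * Real.tanh x ^ 2)) x := by
  have hT := hasDerivAt_tanh x
  have hT2 := hT.pow 2
  have hA : HasDerivAt (fun y => 1 - θ ^ 2 * Real.tanh y ^ 2)
      (-(θ ^ 2 * ((2 : ℕ) * Real.tanh x ^ (2 - 1) * (1 - Real.tanh x ^ 2)))) x := by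
    exact (hT2.const_mul (θ ^ 2)).const_sub 1
  have hB : HasDerivAt (fun y => 1 - Real.tanh y ^ 2)
      (-((2 : ℕ) * Real.tanh x ^ (2 - 1) * (1 - Real.tanh x ^ 2))) x := by
    exact hT2.const_sub 1
  have hA' := hA.log (den_pos h0 h1 x).ne'
  have hB' := hB.log (one_sub_tanh_sq_pos x).ne'
  have hC := hA'.sub hB'
  have heq : (fun y => Real.log (1 - θ ^ 2 * Real.tanh y ^ 2) - Real.log (1 - Real.tanh y ^ 2))
      = g0 θ := by
    funext y
    rw [g0, kap, Real.log_div (one_sub_tanh_sq_pos y).ne' (den_pos h0 h1 y).ne']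
    ring
  rw [← heq]
  apply HasDerivAt.congr_deriv (f' := _) hC
  have a1 := (den_pos h0 h1 x).ne'
  have a2 := (one_sub_tanh_sq_pos x).ne'
  rw [div_sub_div _ _ a1 a2, div_eq_div_iff (mul_ne_zero a1 a2) a1]
  push_cast
  ring

lemma g0_deriv_le {θ : ℝ} (h0 : 0 ≤ θ) (h1 : θ < 1) (x : ℝ) :
    |2 * Real.tanh x * (1 - θ ^ 2) / (1 - θ ^ 2 * Real.tanh x ^ 2)| ≤ 2 * |Real.tanh x| := by
  have hd := den_pos h0 h1 x
  have hθ : 0 < 1 - θ ^ 2 := by nlinarith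
  rw [abs_div, abs_of_pos hd, div_le_iff₀ hd, abs_mul, abs_mul, abs_of_pos hθ,
    abs_of_pos (show (0 : ℝ) < 2 by norm_num)]
  apply mul_le_mul_of_nonneg_left _ (by positivity)
  have := Real.tanh_sq_lt_one x
  nlinarith [sq_nonneg θ]

lemma g0_diff {θ : ℝ} (h0 : 0 ≤ θ) (h1 : θ < 1) (x y : ℝ) :
    (g0 θ x - g0 θ y) ^ 2 ≤ 4 / (1 - θ ^ 2) * ((x - y) ^ 2 * (g0 θ x + g0 θ y)) := by
  set m := max |x| |y| with hm
  have key := Convex.norm_image_sub_le_of_norm_hasDerivWithin_le (f := g0 θ)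
    (f' := fun x => 2 * Real.tanh x * (1 - θ ^ 2) / (1 - θ ^ 2 * Real.tanh x ^ 2))
    (C := 2 * Real.tanh m) (s := Set.Icc (-m) m) (x := y) (y := x)
    (fun z _ => (hasDerivAt_g0 h0 h1 z).hasDerivWithinAt)
    (fun z hz => by
      rw [Real.norm_eq_abs]
      refine (g0_deriv_le h0 h1 z).trans ?_
      rw [abs_tanh]
      have := tanh_le_tanh (abs_le.2 hz)
      linarith) (convex_Icc _ _)
    (abs_le.1 (le_max_right |x| |y|)) (abs_le.1 (le_max_left |x| |y|))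
  rw [Real.norm_eq_abs, Real.norm_eq_abs] at key
  have h2 : Real.tanh m ^ 2 ≤ Real.tanh x ^ 2 + Real.tanh y ^ 2 := by
    rcases max_cases |x| |y| with ⟨h, _⟩ | ⟨h, _⟩
    · rw [hm, h, ← abs_tanh, sq_abs]; nlinarith [sq_nonneg (Real.tanh y)]
    · rw [hm, h, ← abs_tanh, sq_abs]; nlinarith [sq_nonneg (Real.tanh x)]
  have h3 : (g0 θ x - g0 θ y) ^ 2 ≤ (2 * Real.tanh m * |x - y|) ^ 2 := by
    rw [← sq_abs (g0 θ x - g0 θ y)]
    exact pow_le_pow_left₀ (abs_nonneg _) key 2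
  have h4 : (2 * Real.tanh m * |x - y|) ^ 2 = 4 * Real.tanh m ^ 2 * (x - y) ^ 2 := by
    rw [mul_pow, sq_abs]; ring
  have hθ : 0 < 1 - θ ^ 2 := by nlinarith
  have h5 := g0_ge h0 h1 x
  have h6 := g0_ge h0 h1 y
  have h7 : Real.tanh m ^ 2 ≤ (g0 θ x + g0 θ y) / (1 - θ ^ 2) := by
    rw [le_div_iff₀ hθ]; nlinarith
  calc (g0 θ x - g0 θ y) ^ 2 ≤ 4 * Real.tanh m ^ 2 * (x - y) ^ 2 := by rw [← h4]; exact h3
    _ ≤ 4 * ((g0 θ x + g0 θ y) / (1 - θ ^ 2)) * (x - y) ^ 2 := by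
        apply mul_le_mul_of_nonneg_right _ (sq_nonneg _)
        linarith
    _ = 4 / (1 - θ ^ 2) * ((x - y) ^ 2 * (g0 θ x + g0 θ y)) := by ring

lemma g0_diff' {θ : ℝ} (h0 : 0 ≤ θ) (h1 : θ < 1) (x y : ℝ) :
    (g0 θ x - g0 θ y) ^ 2 ≤ 4 * (x - y) ^ 2 := by
  have key := Convex.norm_image_sub_le_of_norm_hasDerivWithin_le (f := g0 θ)
    (f' := fun x => 2 * Real.tanh x * (1 - θ ^ 2) / (1 - θ ^ 2 * Real.tanh x ^ 2))
    (C := 2) (s := Set.univ) (x := y) (y := x)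
    (fun z _ => (hasDerivAt_g0 h0 h1 z).hasDerivWithinAt)
    (fun z hz => by
      rw [Real.norm_eq_abs]
      refine (g0_deriv_le h0 h1 z).trans ?_
      have := Real.abs_tanh_lt_one z
      linarith) convex_univ (Set.mem_univ _) (Set.mem_univ _)
  rw [Real.norm_eq_abs, Real.norm_eq_abs] at key
  calc (g0 θ x - g0 θ y) ^ 2 = |g0 θ x - g0 θ y| ^ 2 := (sq_abs _).symm
    _ ≤ (2 * |x - y|) ^ 2 := pow_le_pow_left₀ (abs_nonneg _) key 2
    _ = 4 * (x - y) ^ 2 := by rw [mul_pow, sq_abs]; norm_num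

lemma cs_step {a1 a2 q1 q2 s1 s2 : ℝ} (hq1 : 0 ≤ q1) (hq2 : 0 ≤ q2) (hs1 : 0 ≤ s1) (hs2 : 0 ≤ s2)
    (h1 : a1 ^ 2 ≤ q1 * s1) (h2 : a2 ^ 2 ≤ q2 * s2) :
    (a1 + a2) ^ 2 ≤ (q1 + q2) * (s1 + s2) := by
  have h3 : (2 * (a1 * a2)) ^ 2 ≤ (q1 * s2 + q2 * s1) ^ 2 := by
    have h4 : a1 ^ 2 * a2 ^ 2 ≤ (q1 * s1) * (q2 * s2) :=
      mul_le_mul h1 h2 (sq_nonneg _) (by positivity)
    nlinarith [sq_nonneg (q1 * s2 - q2 * s1)]
  have h5 : 2 * (a1 * a2) ≤ q1 * s2 + q2 * s1 :=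
    le_trans (le_abs_self _) (abs_le_of_sq_le_sq h3 (by positivity))
  nlinarith

/-- Sum of the `g0` along a path. -/
noncomputable def Sg (θ : ℝ) (h : V b → ℝ) (u : V b) : List (Fin (b + 1)) → ℝ
  | [] => 0
  | i :: l => Sg θ h u l + g0 θ (lmI θ h (follow u (i :: l)) i)

lemma Sg_nonneg {θ : ℝ} (h0 : 0 ≤ θ) (h1 : θ < 1) (h : V b → ℝ) (u : V b)
    (l : List (Fin (b + 1))) : 0 ≤ Sg θ h u l := by
  induction l with
  | nil => simp [Sg]
  | cons i l ih => rw [Sg]; exact add_nonneg ih (g0_nonneg h0 h1 _)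

lemma DDl_eq {θ : ℝ} (h0 : 0 ≤ θ) (h1 : θ < 1) (h : V b → ℝ) (u : V b)
    (l : List (Fin (b + 1))) : DDl θ h u l = Real.exp (-Sg θ h u l) := by
  induction l with
  | nil => simp [Sg, DDl]
  | cons i l ih =>
    rw [Sg, DDl, ih, neg_add, Real.exp_add, g0, neg_neg, Real.exp_log (kap_pos h0 h1 _)]

lemma SQl_nonneg (θ : ℝ) (h h' : V b → ℝ) (u : V b)
    (l : List (Fin (b + 1))) : 0 ≤ SQl θ h h' u l := by
  induction l with
  | nil => simp [SQl]
  | cons i l ih => rw [SQl]; exact add_nonneg ih (sq_nonneg _)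

lemma Sg_diff {θ : ℝ} (h0 : 0 ≤ θ) (h1 : θ < 1) (h h' : V b → ℝ) (u : V b)
    (l : List (Fin (b + 1))) :
    (Sg θ h u l - Sg θ h' u l) ^ 2 ≤
      (4 / (1 - θ ^ 2) * SQl θ h h' u l) * (Sg θ h u l + Sg θ h' u l) := by
  have hθ : 0 < 1 - θ ^ 2 := by nlinarith
  induction l with
  | nil => simp [Sg, SQl]
  | cons i l ih =>
    have h2 := g0_diff h0 h1 (lmI θ h (follow u (i :: l)) i) (lmI θ h' (follow u (i :: l)) i)
    rw [← mul_assoc] at h2
    have h3 := cs_step (mul_nonneg (by positivity) (SQl_nonneg θ h h' u l))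
      (mul_nonneg (by positivity) (sq_nonneg _))
      (add_nonneg (Sg_nonneg h0 h1 h u l) (Sg_nonneg h0 h1 h' u l))
      (add_nonneg (g0_nonneg h0 h1 _) (g0_nonneg h0 h1 _)) ih h2
    rw [Sg, Sg, SQl]
    convert h3 using 1
    · ring
    · ring

lemma Sg_diff' {θ : ℝ} (h0 : 0 ≤ θ) (h1 : θ < 1) (h h' : V b → ℝ) (u : V b)
    (l : List (Fin (b + 1))) :
    (Sg θ h u l - Sg θ h' u l) ^ 2 ≤ (4 * SQl θ h h' u l) * l.length := by
  induction l with
  | nil => simp [Sg, SQl]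
  | cons i l ih =>
    have h2 := g0_diff' h0 h1 (lmI θ h (follow u (i :: l)) i) (lmI θ h' (follow u (i :: l)) i)
    rw [← mul_one (4 * _)] at h2
    have h3 := cs_step (mul_nonneg (by positivity) (SQl_nonneg θ h h' u l))
      (mul_nonneg (by positivity) (sq_nonneg _)) (Nat.cast_nonneg _) zero_le_one ih h2
    rw [Sg, Sg, SQl, List.length_cons]
    push_cast
    convert h3 using 1
    · ring
    · ring

/-- the numerical comparison. -/
lemma exp_comp {S S' Q : ℝ} (hS : 0 ≤ S) (hSS : S ≤ S') (hQ : 0 ≤ Q)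
    (h : (S - S') ^ 2 ≤ Q * (S + S')) :
    (Real.exp (-S) - Real.exp (-S')) ^ 2 ≤ 6 * Q * (Real.exp (-S) + Real.exp (-S')) := by
  have hD : 0 < Real.exp (-S) := Real.exp_pos _
  have hD' : 0 < Real.exp (-S') := Real.exp_pos _
  have hle : Real.exp (-S') ≤ Real.exp (-S) := Real.exp_le_exp.2 (by linarith)
  have h1 : Real.exp (-S) ≤ 1 := Real.exp_le_one_iff.2 (by linarith)
  have h2 : (Real.exp (-S) - Real.exp (-S')) ≤ Real.exp (-S) * (S' - S) := by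
    have h3 : Real.exp (-S') = Real.exp (-S) * Real.exp (-(S' - S)) := by
      rw [← Real.exp_add]; ring_nf
    have h4 := Real.add_one_le_exp (-(S' - S))
    rw [h3]
    nlinarith
  by_cases hc : S' ≤ 4 * S + 1
  · have h5 : (Real.exp (-S) - Real.exp (-S')) ^ 2 ≤ (Real.exp (-S) * (S' - S)) ^ 2 :=
      pow_le_pow_left₀ (by linarith) h2 2
    have h6 : (Real.exp (-S) * (S' - S)) ^ 2 = Real.exp (-S) * (Real.exp (-S) * (S - S') ^ 2) := by
      ring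
    have h7 : Real.exp (-S) * (5 * S + 1) ≤ 6 := by
      have h8 : S * Real.exp (-S) ≤ 1 := by
        have h9 := Real.add_one_le_exp S
        have h10 : Real.exp S * Real.exp (-S) = 1 := by rw [← Real.exp_add]; simp
        nlinarith
      nlinarith
    have h8 : Real.exp (-S) * (S - S') ^ 2 ≤ 6 * Q := by
      have h9 : (S - S') ^ 2 ≤ Q * (5 * S + 1) := by nlinarith
      calc Real.exp (-S) * (S - S') ^ 2 ≤ Real.exp (-S) * (Q * (5 * S + 1)) :=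
            mul_le_mul_of_nonneg_left h9 hD.le
        _ = (Real.exp (-S) * (5 * S + 1)) * Q := by ring
        _ ≤ 6 * Q := mul_le_mul_of_nonneg_right h7 hQ
    calc (Real.exp (-S) - Real.exp (-S')) ^ 2 ≤ Real.exp (-S) * (Real.exp (-S) * (S - S') ^ 2) := by
          rw [← h6]; exact h5
      _ ≤ Real.exp (-S) * (6 * Q) := mul_le_mul_of_nonneg_left h8 hD.le
      _ ≤ 6 * Q * (Real.exp (-S) + Real.exp (-S')) := by nlinarith
  · push Not at hc
    have h5 : 1 ≤ 6 * Q := by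
      have h6 : (3 / 4 * S') ^ 2 ≤ (S - S') ^ 2 := by
        rw [← sq_abs (S - S'), abs_of_nonpos (by linarith)]
        exact pow_le_pow_left₀ (by linarith) (by linarith) 2
      have h7 : (S - S') ^ 2 ≤ Q * (5 / 4 * S') := by nlinarith
      have h8 : 9 / 16 * S' ≤ 5 / 4 * Q := by
        by_contra hcon
        push Not at hcon
        have hS' : 0 < S' := by linarith
        nlinarith
      nlinarith
    have h6 : (Real.exp (-S) - Real.exp (-S')) ^ 2 ≤ Real.exp (-S) := by nlinarith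
    nlinarith

lemma exp_comp' {S S' Q : ℝ} (hS : 0 ≤ S) (hS' : 0 ≤ S') (hQ : 0 ≤ Q)
    (h : (S - S') ^ 2 ≤ Q * (S + S')) :
    (Real.exp (-S) - Real.exp (-S')) ^ 2 ≤ 6 * Q * (Real.exp (-S) + Real.exp (-S')) := by
  rcases le_total S S' with h1 | h1
  · exact exp_comp hS h1 hQ h
  · have h2 := exp_comp hS' h1 hQ (by rw [add_comm S' S]; nlinarith)
    rw [add_comm (Real.exp (-S))]
    nlinarith

lemma exp_lip {S S' : ℝ} (hS : 0 ≤ S) (hS' : 0 ≤ S') :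
    (Real.exp (-S) - Real.exp (-S')) ^ 2 ≤ (S - S') ^ 2 := by
  wlog hSS : S ≤ S' generalizing S S'
  · have := this hS' hS (le_of_not_ge hSS)
    nlinarith
  have hle : Real.exp (-S') ≤ Real.exp (-S) := Real.exp_le_exp.2 (by linarith)
  have h1 : Real.exp (-S) ≤ 1 := Real.exp_le_one_iff.2 (by linarith)
  have h2 : (Real.exp (-S) - Real.exp (-S')) ≤ S' - S := by
    have h3 : Real.exp (-S') = Real.exp (-S) * Real.exp (-(S' - S)) := by
      rw [← Real.exp_add]; ring_nf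
    have h4 := Real.add_one_le_exp (-(S' - S))
    have hD : 0 < Real.exp (-S) := Real.exp_pos _
    rw [h3]
    nlinarith
  nlinarith

theorem ddComp : Spec.DDcomp := by
  intro b θ h0 h1 H
  have hθ : 0 < 1 - θ ^ 2 := by nlinarith
  refine ⟨24 / (1 - θ ^ 2), by positivity, ?_⟩
  intro h h' _ _ u l
  have hQ := SQl_nonneg θ h h' u l
  rw [DDl_eq h0 h1, DDl_eq h0 h1]
  constructor
  · have h2 := exp_comp' (Sg_nonneg h0 h1 h u l) (Sg_nonneg h0 h1 h' u l)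
      (mul_nonneg (by positivity) hQ) (Sg_diff h0 h1 h h' u l)
    calc _ ≤ _ := h2
      _ = _ := by ring
  · have h2 := exp_lip (Sg_nonneg h0 h1 h u l) (Sg_nonneg h0 h1 h' u l)
    have h3 := Sg_diff' h0 h1 h h' u l
    have h4 : (4 : ℝ) ≤ 24 / (1 - θ ^ 2) := by
      rw [le_div_iff₀ hθ]; nlinarith [sq_nonneg θ]
    have h5 : 0 ≤ SQl θ h h' u l * (l.length : ℝ) := by positivity
    calc _ ≤ (Sg θ h u l - Sg θ h' u l) ^ 2 := h2
      _ ≤ 4 * (SQl θ h h' u l * l.length) := by linarith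
      _ ≤ 24 / (1 - θ ^ 2) * (SQl θ h h' u l * l.length) := mul_le_mul_of_nonneg_right h4 h5
      _ = _ := by ring

end Crest.Agent.IsgDet
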