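import Crest.Agent.IsgTree

set_option autoImplicit false

/-!
Shared library for S0241 (module EQV, part A): analysis of `psi` and `kap`, bounds and limits of the
messages, locality, measurability of the functionals of the field.
-/

open MeasureTheory ProbabilityTheory Filter Topology

namespace Crest.Agent.Isg

variable {b : ℕ}

/-! ### tanh and artanh -/

lemma one_sub_tanh_sq_pos (x : ℝ) : 0 < 1 - Real.tanh x ^ 2 := by
  have := Real.tanh_sq_lt_one x
  linarith

lemma one_sub_tanh_sq (x : ℝ) : 1 - Real.tanh x ^ 2 = 1 / Real.cosh x ^ 2 := by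
  have hc : Real.cosh x ≠ 0 := (Real.cosh_pos x).ne'
  rw [Real.tanh_eq_sinh_div_cosh, div_pow, eq_div_iff (pow_ne_zero 2 hc)]
  field_simp
  have := Real.cosh_sq x
  linarith

lemma hasDerivAt_tanh (x : ℝ) : HasDerivAt Real.tanh (1 - Real.tanh x ^ 2) x := by
  have hc : Real.cosh x ≠ 0 := (Real.cosh_pos x).ne'
  have h := (Real.hasDerivAt_sinh x).div (Real.hasDerivAt_cosh x) hc
  have h2 : Real.tanh = fun y => Real.sinh y / Real.cosh y := by
    funext y; exact Real.tanh_eq_sinh_div_cosh y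
  have h3 : (Real.cosh x * Real.cosh x - Real.sinh x * Real.sinh x) / Real.cosh x ^ 2 =
      1 - Real.tanh x ^ 2 := by
    rw [Real.tanh_eq_sinh_div_cosh]
    field_simp
  rw [← h3, h2]
  exact h

lemma continuous_tanh : Continuous Real.tanh :=
  continuous_iff_continuousAt.2 (fun x => (hasDerivAt_tanh x).continuousAt)

@[fun_prop]
lemma measurable_tanh : Measurable Real.tanh := continuous_tanh.measurable

lemma tanh_strictMono : StrictMono Real.tanh := by
  apply strictMono_of_deriv_pos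
  intro x
  rw [(hasDerivAt_tanh x).deriv]
  exact one_sub_tanh_sq_pos x

lemma tanh_mem (x : ℝ) : Real.tanh x ∈ Set.Ioo (-1 : ℝ) 1 :=
  ⟨Real.neg_one_lt_tanh x, Real.tanh_lt_one x⟩

lemma tanh_add_eq (x y : ℝ) :
    Real.tanh (x + y) = (Real.tanh x + Real.tanh y) / (1 + Real.tanh x * Real.tanh y) := by
  have hx : Real.cosh x ≠ 0 := (Real.cosh_pos x).ne'
  have hy : Real.cosh y ≠ 0 := (Real.cosh_pos y).ne'
  have hxy : Real.cosh x * Real.cosh y + Real.sinh x * Real.sinh y ≠ 0 := by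
    rw [← Real.cosh_add]; exact (Real.cosh_pos _).ne'
  rw [Real.tanh_eq_sinh_div_cosh, Real.tanh_eq_sinh_div_cosh, Real.tanh_eq_sinh_div_cosh,
    Real.sinh_add, Real.cosh_add]
  have h1 : 1 + Real.sinh x / Real.cosh x * (Real.sinh y / Real.cosh y) =
    (Real.cosh x * Real.cosh y + Real.sinh x * Real.sinh y) / (Real.cosh x * Real.cosh y) := by
    field_simp
  rw [h1]
  field_simp

lemma one_add_tanh_mul_tanh_pos (x y : ℝ) : 0 < 1 + Real.tanh x * Real.tanh y := by
  have h1 := Real.abs_tanh_lt_one x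
  have h2 := Real.abs_tanh_lt_one y
  have h3 : |Real.tanh x * Real.tanh y| < 1 := by
    rw [abs_mul]
    nlinarith [abs_nonneg (Real.tanh x), abs_nonneg (Real.tanh y)]
  have := neg_abs_le (Real.tanh x * Real.tanh y)
  linarith

@[fun_prop]
lemma measurable_artanh : Measurable Real.artanh := by
  unfold Real.artanh
  exact Real.measurable_log.comp (((measurable_const.add measurable_id).div
    (measurable_const.sub measurable_id)).sqrt)

lemma artanh_odd (x : ℝ) : Real.artanh (-x) = -Real.artanh x := by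
  unfold Real.artanh
  rw [← Real.log_inv, ← Real.sqrt_inv, inv_div]
  congr 3
  ring

lemma hasDerivAt_artanh {x : ℝ} (hx : x ∈ Set.Ioo (-1 : ℝ) 1) :
    HasDerivAt Real.artanh (1 - x ^ 2)⁻¹ x := by
  obtain ⟨h1, h2⟩ := hx
  have h3 : ∀ᶠ y in 𝓝 x, Real.artanh y = 1 / 2 * (Real.log (1 + y) - Real.log (1 - y)) := by
    filter_upwards [Ioo_mem_nhds h1 h2] with y hy
    rw [Real.artanh_eq_half_log ⟨hy.1.le, hy.2.le⟩, Real.log_div (by linarith [hy.1])
      (by linarith [hy.2])]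
  have h4 : HasDerivAt (fun y => 1 / 2 * (Real.log (1 + y) - Real.log (1 - y)))
      (1 / 2 * (1 / (1 + x) - (-1) / (1 - x))) x := by
    have ha : HasDerivAt (fun y : ℝ => 1 + y) 1 x := by
      simpa using (hasDerivAt_id x).const_add 1
    have hb : HasDerivAt (fun y : ℝ => 1 - y) (-1) x := by
      simpa using (hasDerivAt_id x).const_sub 1
    exact ((ha.log (by linarith)).sub (hb.log (by linarith))).const_mul _
  have h5 : (1 - x ^ 2)⁻¹ = 1 / 2 * (1 / (1 + x) - (-1) / (1 - x)) := by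
    have e1 : 1 + x ≠ 0 := by linarith
    have e2 : 1 - x ≠ 0 := by linarith
    have e3 : 1 - x ^ 2 ≠ 0 := by
      have : 1 - x ^ 2 = (1 + x) * (1 - x) := by ring
      rw [this]; exact mul_ne_zero e1 e2
    field_simp
    ring
  rw [h5]
  exact h4.congr_of_eventuallyEq h3

lemma continuousAt_artanh {x : ℝ} (hx : x ∈ Set.Ioo (-1 : ℝ) 1) : ContinuousAt Real.artanh x :=
  (hasDerivAt_artanh hx).continuousAt

/-! ### psi and kap -/

lemma abs_mul_tanh_lt {θ : ℝ} (h0 : 0 ≤ θ) (h1 : θ < 1) (x : ℝ) : |θ * Real.tanh x| < 1 := by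
  rw [abs_mul, abs_of_nonneg h0]
  have := Real.abs_tanh_lt_one x
  nlinarith [abs_nonneg (Real.tanh x)]

lemma mul_tanh_mem {θ : ℝ} (h0 : 0 ≤ θ) (h1 : θ < 1) (x : ℝ) :
    θ * Real.tanh x ∈ Set.Ioo (-1 : ℝ) 1 := abs_lt.1 (abs_mul_tanh_lt h0 h1 x)

lemma tanh_psi {θ : ℝ} (h0 : 0 ≤ θ) (h1 : θ < 1) (x : ℝ) :
    Real.tanh (psi θ x) = θ * Real.tanh x :=
  Real.tanh_artanh (mul_tanh_mem h0 h1 x)

lemma psi_neg (θ x : ℝ) : psi θ (-x) = -psi θ x := by
  unfold psi
  rw [Real.tanh_neg, mul_neg, artanh_odd]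

@[simp] lemma psi_zero (θ : ℝ) : psi θ 0 = 0 := by
  unfold psi; simp

lemma abs_psi_le {θ : ℝ} (h0 : 0 ≤ θ) (h1 : θ < 1) (x : ℝ) : |psi θ x| ≤ Real.artanh θ := by
  have hm := mul_tanh_mem h0 h1 x
  have h3 : θ * Real.tanh x ≤ θ := by
    have := (Real.tanh_lt_one x).le
    nlinarith
  have h4 : -θ ≤ θ * Real.tanh x := by
    have := (Real.neg_one_lt_tanh x).le
    nlinarith
  rw [abs_le]
  constructor
  · rw [← artanh_odd]
    exact Real.artanh_le_artanh (by linarith) (by linarith [hm.2]) h4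
  · exact Real.artanh_le_artanh hm.1 h1 h3

@[fun_prop]
lemma measurable_psi (θ : ℝ) : Measurable (psi θ) :=
  measurable_artanh.comp (measurable_const.mul measurable_tanh)

@[fun_prop]
lemma measurable_kap (θ : ℝ) : Measurable (kap θ) :=
  (measurable_const.sub (measurable_tanh.pow_const 2)).div
    (measurable_const.sub (measurable_const.mul (measurable_tanh.pow_const 2)))

lemma one_sub_sq_mul_pos {θ : ℝ} (h0 : 0 ≤ θ) (h1 : θ < 1) (x : ℝ) :
    0 < 1 - θ ^ 2 * Real.tanh x ^ 2 := by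
  have h2 := Real.tanh_sq_lt_one x
  have h3 : θ ^ 2 ≤ 1 := by nlinarith
  nlinarith [sq_nonneg (Real.tanh x), sq_nonneg θ]

lemma kap_pos {θ : ℝ} (h0 : 0 ≤ θ) (h1 : θ < 1) (x : ℝ) : 0 < kap θ x :=
  div_pos (one_sub_tanh_sq_pos x) (one_sub_sq_mul_pos h0 h1 x)

lemma kap_le_one {θ : ℝ} (h0 : 0 ≤ θ) (h1 : θ < 1) (x : ℝ) : kap θ x ≤ 1 := by
  unfold kap
  rw [div_le_one (one_sub_sq_mul_pos h0 h1 x)]
  have h3 : θ ^ 2 ≤ 1 := by nlinarith
  nlinarith [sq_nonneg (Real.tanh x)]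

lemma kap_ge {θ : ℝ} (h0 : 0 ≤ θ) (h1 : θ < 1) (x : ℝ) : 1 - Real.tanh x ^ 2 ≤ kap θ x := by
  unfold kap
  rw [le_div_iff₀ (one_sub_sq_mul_pos h0 h1 x)]
  have h2 := one_sub_tanh_sq_pos x
  have h3 : 0 ≤ θ ^ 2 * Real.tanh x ^ 2 := by positivity
  nlinarith

lemma kap_neg (θ x : ℝ) : kap θ (-x) = kap θ x := by
  unfold kap; rw [Real.tanh_neg]; simp

@[simp] lemma kap_zero (θ : ℝ) : kap θ 0 = 1 := by
  unfold kap; simp

lemma continuous_kap {θ : ℝ} (h0 : 0 ≤ θ) (h1 : θ < 1) : Continuous (kap θ) := by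
  unfold kap
  apply Continuous.div
  · exact continuous_const.sub (continuous_tanh.pow 2)
  · exact continuous_const.sub (continuous_const.mul (continuous_tanh.pow 2))
  · intro x; exact (one_sub_sq_mul_pos h0 h1 x).ne'

lemma hasDerivAt_psi {θ : ℝ} (h0 : 0 ≤ θ) (h1 : θ < 1) (x : ℝ) :
    HasDerivAt (psi θ) (θ * kap θ x) x := by
  have h := (hasDerivAt_artanh (mul_tanh_mem h0 h1 x)).comp x ((hasDerivAt_tanh x).const_mul θ)
  have h2 : (1 - (θ * Real.tanh x) ^ 2)⁻¹ * (θ * (1 - Real.tanh x ^ 2)) = θ * kap θ x := by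
    unfold kap
    rw [mul_pow]
    ring
  rw [← h2]
  exact h

lemma continuous_psi {θ : ℝ} (h0 : 0 ≤ θ) (h1 : θ < 1) : Continuous (psi θ) :=
  continuous_iff_continuousAt.2 (fun x => (hasDerivAt_psi h0 h1 x).continuousAt)

lemma abs_psi_sub_le {θ : ℝ} (h0 : 0 ≤ θ) (h1 : θ < 1) (x y : ℝ) :
    |psi θ x - psi θ y| ≤ θ * |x - y| := by
  have h := Convex.norm_image_sub_le_of_norm_hasDerivWithin_le (f := psi θ)
    (f' := fun x => θ * kap θ x) (C := θ) (s := Set.univ) (x := y) (y := x)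
    (fun z _ => (hasDerivAt_psi h0 h1 z).hasDerivWithinAt)
    (fun z _ => by
      rw [Real.norm_eq_abs, abs_mul, abs_of_nonneg h0, abs_of_pos (kap_pos h0 h1 z)]
      have := kap_le_one h0 h1 z
      nlinarith)
    convex_univ (Set.mem_univ _) (Set.mem_univ _)
  simpa [Real.norm_eq_abs] using h

lemma abs_psi_le_mul {θ : ℝ} (h0 : 0 ≤ θ) (h1 : θ < 1) (x : ℝ) : |psi θ x| ≤ θ * |x| := by
  simpa using abs_psi_sub_le h0 h1 x 0

lemma psi_strictMono {θ : ℝ} (h0 : 0 < θ) (h1 : θ < 1) : StrictMono (psi θ) := by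
  apply strictMono_of_deriv_pos
  intro x
  rw [(hasDerivAt_psi h0.le h1 x).deriv]
  exact mul_pos h0 (kap_pos h0.le h1 x)

lemma psi_mono {θ : ℝ} (h0 : 0 ≤ θ) (h1 : θ < 1) : Monotone (psi θ) := by
  apply monotone_of_deriv_nonneg
  · exact fun x => (hasDerivAt_psi h0 h1 x).differentiableAt
  · intro x
    rw [(hasDerivAt_psi h0 h1 x).deriv]
    exact mul_nonneg h0 (kap_pos h0 h1 x).le

lemma artanh_nonneg_of {θ : ℝ} (h0 : 0 ≤ θ) : 0 ≤ Real.artanh θ := Real.artanh_nonneg h0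

/-! ### Elementary facts on messages -/

@[simp] lemma lm_zero (θ : ℝ) (h : V b → ℝ) (u : V b) (i : Fin (b + 1)) : lm θ 0 h u i = 0 := rfl

lemma lm_succ (θ : ℝ) (N : ℕ) (h : V b → ℝ) (u : V b) (i : Fin (b + 1)) :
    lm θ (N + 1) h u i = h u + ∑ j ∈ Finset.univ.erase i, psi θ (lm θ N h (nb j u) j) := rfl

lemma lg_eq_lm_add (θ : ℝ) (N : ℕ) (h : V b → ℝ) (u : V b) (i : Fin (b + 1)) :
    lg θ N h u = lm θ (N + 1) h u i + psi θ (lm θ N h (nb i u) i) := by
  unfold lg
  rw [lm_succ, ← Finset.sum_erase_add Finset.univ _ (Finset.mem_univ i)]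
  ring

lemma abs_sum_psi_le {θ : ℝ} (h0 : 0 ≤ θ) (h1 : θ < 1) (s : Finset (Fin (b + 1)))
    (f : Fin (b + 1) → ℝ) : |∑ j ∈ s, psi θ (f j)| ≤ s.card * Real.artanh θ := by
  calc |∑ j ∈ s, psi θ (f j)| ≤ ∑ j ∈ s, |psi θ (f j)| := Finset.abs_sum_le_sum_abs _ _
    _ ≤ ∑ j ∈ s, Real.artanh θ := Finset.sum_le_sum (fun j _ => abs_psi_le h0 h1 _)
    _ = s.card * Real.artanh θ := by rw [Finset.sum_const, nsmul_eq_mul]

lemma card_univ_erase (i : Fin (b + 1)) : (Finset.univ.erase i).card = b := by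
  rw [Finset.card_erase_of_mem (Finset.mem_univ _)]; simp

lemma abs_lm_sub_le {θ : ℝ} (h0 : 0 ≤ θ) (h1 : θ < 1) (N : ℕ) (h : V b → ℝ) (u : V b)
    (i : Fin (b + 1)) : |lm θ (N + 1) h u i - h u| ≤ b * Real.artanh θ := by
  rw [lm_succ]
  have := abs_sum_psi_le h0 h1 (Finset.univ.erase i) (fun j => lm θ N h (nb j u) j)
  rw [card_univ_erase] at this
  simpa using this

lemma abs_lm_le {θ : ℝ} (h0 : 0 ≤ θ) (h1 : θ < 1) (N : ℕ) (h : V b → ℝ) (u : V b)
    (i : Fin (b + 1)) : |lm θ N h u i| ≤ |h u| + b * Real.artanh θ := by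
  have ha := artanh_nonneg_of h0
  cases N with
  | zero => simp only [lm_zero, abs_zero]; positivity
  | succ N =>
    have h2 := abs_lm_sub_le h0 h1 N h u i
    have h3 : lm θ (N + 1) h u i = h u + (lm θ (N + 1) h u i - h u) := by ring
    rw [h3]
    exact (abs_add_le _ _).trans (by linarith)

lemma abs_lg_le {θ : ℝ} (h0 : 0 ≤ θ) (h1 : θ < 1) (N : ℕ) (h : V b → ℝ) (u : V b) :
    |lg θ N h u| ≤ |h u| + (b + 1) * Real.artanh θ := by
  unfold lg
  have := abs_sum_psi_le h0 h1 Finset.univ (fun j => lm θ N h (nb j u) j)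
  rw [Finset.card_univ, Fintype.card_fin] at this
  push_cast at this
  exact (abs_add_le _ _).trans (by linarith)

/-! ### Locality -/

lemma lm_congr {θ : ℝ} {N : ℕ} {h h' : V b → ℝ} {u : V b} {i : Fin (b + 1)}
    (H : ∀ v ∈ Sub N u i, h v = h' v) : lm θ N h u i = lm θ N h' u i := by
  induction N generalizing u i with
  | zero => rfl
  | succ N ih =>
    rw [lm_succ, lm_succ]
    have h1 : h u = h' u := H u (Finset.mem_insert_self _ _)
    rw [h1]
    congr 1
    apply Finset.sum_congr rfl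
    intro j hj
    rw [ih]
    intro v hv
    apply H
    exact Finset.mem_insert_of_mem (Finset.mem_biUnion.2 ⟨j, hj, hv⟩)

lemma lg_congr {θ : ℝ} {N : ℕ} {h h' : V b → ℝ} {u : V b}
    (H : ∀ v ∈ Bl N u, h v = h' v) : lg θ N h u = lg θ N h' u := by
  unfold lg
  have h1 : h u = h' u := H u (Finset.mem_insert_self _ _)
  rw [h1]
  congr 1
  apply Finset.sum_congr rfl
  intro j hj
  rw [lm_congr]
  intro v hv
  apply H
  exact Finset.mem_insert_of_mem (Finset.mem_biUnion.2 ⟨j, hj, hv⟩)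

/-! ### Limits on good configurations -/

lemma Good.tendsto_lm {θ : ℝ} {h : V b → ℝ} (hg : Good θ h) (u : V b) (i : Fin (b + 1)) :
    Tendsto (fun N => lm θ N h u i) atTop (𝓝 (lmI θ h u i)) := by
  obtain ⟨ℓ, hℓ⟩ := hg u i
  have : lmI θ h u i = ℓ := hℓ.limsup_eq
  rw [this]; exact hℓ

lemma lmI_eq_of_tendsto {θ : ℝ} {h : V b → ℝ} {u : V b} {i : Fin (b + 1)} {ℓ : ℝ}
    (hℓ : Tendsto (fun N => lm θ N h u i) atTop (𝓝 ℓ)) : lmI θ h u i = ℓ := hℓ.limsup_eq

lemma Good.lmI_eq {θ : ℝ} (h0 : 0 ≤ θ) (h1 : θ < 1) {h : V b → ℝ} (hg : Good θ h) (u : V b)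
    (i : Fin (b + 1)) :
    lmI θ h u i = h u + ∑ j ∈ Finset.univ.erase i, psi θ (lmI θ h (nb j u) j) := by
  have h2 : Tendsto (fun N => lm θ (N + 1) h u i) atTop (𝓝 (lmI θ h u i)) :=
    (hg.tendsto_lm u i).comp (tendsto_add_atTop_nat 1)
  have h3 : Tendsto (fun N => lm θ (N + 1) h u i) atTop
      (𝓝 (h u + ∑ j ∈ Finset.univ.erase i, psi θ (lmI θ h (nb j u) j))) := by
    simp only [lm_succ]
    apply Tendsto.const_add
    apply tendsto_finset_sum
    intro j _
    exact ((continuous_psi h0 h1).tendsto _).comp (hg.tendsto_lm _ _)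
  exact tendsto_nhds_unique h2 h3

lemma lgI_eq_add {θ : ℝ} (h0 : 0 ≤ θ) (h1 : θ < 1) {h : V b → ℝ} (hg : Good θ h) (u : V b)
    (i : Fin (b + 1)) : lgI θ h u = lmI θ h u i + psi θ (lmI θ h (nb i u) i) := by
  unfold lgI
  rw [hg.lmI_eq h0 h1 u i, ← Finset.sum_erase_add Finset.univ _ (Finset.mem_univ i)]
  ring

lemma lgI_nb_eq_add {θ : ℝ} (h0 : 0 ≤ θ) (h1 : θ < 1) {h : V b → ℝ} (hg : Good θ h) (u : V b)
    (i : Fin (b + 1)) : lgI θ h (nb i u) = lmI θ h (nb i u) i + psi θ (lmI θ h u i) := by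
  have := lgI_eq_add h0 h1 hg (nb i u) i
  rwa [nb_nb] at this

lemma Good.tendsto_lg {θ : ℝ} (h0 : 0 ≤ θ) (h1 : θ < 1) {h : V b → ℝ} (hg : Good θ h) (u : V b) :
    Tendsto (fun N => lg θ N h u) atTop (𝓝 (lgI θ h u)) := by
  unfold lg lgI
  apply Tendsto.const_add
  apply tendsto_finset_sum
  intro j _
  exact ((continuous_psi h0 h1).tendsto _).comp (hg.tendsto_lm _ _)

lemma Good.tendsto_tanh_lg {θ : ℝ} (h0 : 0 ≤ θ) (h1 : θ < 1) {h : V b → ℝ} (hg : Good θ h)
    (u : V b) : Tendsto (fun N => Real.tanh (lg θ N h u)) atTop (𝓝 (M θ h u)) :=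
  (continuous_tanh.tendsto _).comp (hg.tendsto_lg h0 h1 u)

lemma Good.tendsto_kap {θ : ℝ} (h0 : 0 ≤ θ) (h1 : θ < 1) {h : V b → ℝ} (hg : Good θ h)
    (u : V b) (i : Fin (b + 1)) :
    Tendsto (fun N => kap θ (lm θ N h u i)) atTop (𝓝 (kap θ (lmI θ h u i))) :=
  ((continuous_kap h0 h1).tendsto _).comp (hg.tendsto_lm u i)

lemma Good.abs_lmI_sub_le {θ : ℝ} (h0 : 0 ≤ θ) (h1 : θ < 1) {h : V b → ℝ} (hg : Good θ h)
    (u : V b) (i : Fin (b + 1)) : |lmI θ h u i - h u| ≤ b * Real.artanh θ := by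
  rw [hg.lmI_eq h0 h1 u i]
  have := abs_sum_psi_le h0 h1 (Finset.univ.erase i) (fun j => lmI θ h (nb j u) j)
  rw [card_univ_erase] at this
  simpa using this

lemma Good.abs_lmI_le {θ : ℝ} (h0 : 0 ≤ θ) (h1 : θ < 1) {h : V b → ℝ} (hg : Good θ h)
    (u : V b) (i : Fin (b + 1)) : |lmI θ h u i| ≤ |h u| + b * Real.artanh θ := by
  have h2 := hg.abs_lmI_sub_le h0 h1 u i
  have h3 : lmI θ h u i = h u + (lmI θ h u i - h u) := by ring
  rw [h3]
  exact (abs_add_le _ _).trans (by linarith)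

lemma abs_lgI_le {θ : ℝ} (h0 : 0 ≤ θ) (h1 : θ < 1) (h : V b → ℝ) (u : V b) :
    |lgI θ h u| ≤ |h u| + (b + 1) * Real.artanh θ := by
  unfold lgI
  have := abs_sum_psi_le h0 h1 Finset.univ (fun j => lmI θ h (nb j u) j)
  rw [Finset.card_univ, Fintype.card_fin] at this
  push_cast at this
  exact (abs_add_le _ _).trans (by linarith)

lemma abs_M_lt_one (θ : ℝ) (h : V b → ℝ) (u : V b) : |M θ h u| < 1 := Real.abs_tanh_lt_one _

lemma M_sq_lt_one (θ : ℝ) (h : V b → ℝ) (u : V b) : M θ h u ^ 2 < 1 := Real.tanh_sq_lt_one _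

lemma one_sub_M_sq_pos (θ : ℝ) (h : V b → ℝ) (u : V b) : 0 < 1 - M θ h u ^ 2 :=
  one_sub_tanh_sq_pos _

/-- A criterion for `Good`: bounded by the field, so it is enough that `tanh` of the messages
converges. -/
lemma exists_tendsto_lm_of_tanh {θ : ℝ} (h0 : 0 ≤ θ) (h1 : θ < 1) {h : V b → ℝ} {u : V b}
    {i : Fin (b + 1)} (H : ∃ t, Tendsto (fun N => Real.tanh (lm θ N h u i)) atTop (𝓝 t)) :
    ∃ ℓ, Tendsto (fun N => lm θ N h u i) atTop (𝓝 ℓ) := by
  obtain ⟨t, ht⟩ := H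
  set C := |h u| + b * Real.artanh θ with hC
  have hb : ∀ N, |lm θ N h u i| ≤ C := fun N => abs_lm_le h0 h1 N h u i
  have ht1 : t ∈ Set.Icc (-Real.tanh C) (Real.tanh C) := by
    apply isClosed_Icc.mem_of_tendsto ht
    filter_upwards with N
    have h3 := abs_le.1 (hb N)
    refine ⟨?_, tanh_strictMono.monotone h3.2⟩
    rw [← Real.tanh_neg]
    exact tanh_strictMono.monotone h3.1
  have ht2 : t ∈ Set.Ioo (-1 : ℝ) 1 :=
    ⟨by have := Real.tanh_lt_one C; linarith [ht1.1], by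
      have := Real.tanh_lt_one C; linarith [ht1.2]⟩
  refine ⟨Real.artanh t, ?_⟩
  have h4 := (continuousAt_artanh ht2).tendsto.comp ht
  refine h4.congr (fun N => ?_)
  exact Real.artanh_tanh _

/-! ### Slope products -/

@[simp] lemma DDl_nil (θ : ℝ) (h : V b → ℝ) (u : V b) : DDl θ h u [] = 1 := rfl

lemma DDl_cons (θ : ℝ) (h : V b → ℝ) (u : V b) (i : Fin (b + 1)) (l : List (Fin (b + 1))) :
    DDl θ h u (i :: l) = DDl θ h u l * kap θ (lmI θ h (follow u (i :: l)) i) := rfl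

lemma DDl_append (θ : ℝ) (h : V b → ℝ) (u : V b) (l l' : List (Fin (b + 1))) :
    DDl θ h u (l ++ l') = DDl θ h u l' * DDl θ h (follow u l') l := by
  induction l with
  | nil => simp
  | cons i l ih =>
    rw [List.cons_append, DDl_cons, DDl_cons, ih, ← List.cons_append, follow_append]
    ring

lemma DDl_concat (θ : ℝ) (h : V b → ℝ) (u : V b) (l : List (Fin (b + 1))) (i : Fin (b + 1)) :
    DDl θ h u (l ++ [i]) = kap θ (lmI θ h (nb i u) i) * DDl θ h (nb i u) l := by
  rw [DDl_append, DDl_cons, DDl_nil, one_mul]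
  rfl

@[simp] lemma SQl_nil (θ : ℝ) (h h' : V b → ℝ) (u : V b) : SQl θ h h' u [] = 0 := rfl

lemma SQl_cons (θ : ℝ) (h h' : V b → ℝ) (u : V b) (i : Fin (b + 1)) (l : List (Fin (b + 1))) :
    SQl θ h h' u (i :: l) = SQl θ h h' u l +
      (lmI θ h (follow u (i :: l)) i - lmI θ h' (follow u (i :: l)) i) ^ 2 := rfl

lemma SQl_nonneg (θ : ℝ) (h h' : V b → ℝ) (u : V b) (l : List (Fin (b + 1))) :
    0 ≤ SQl θ h h' u l := by
  induction l with
  | nil => simp
  | cons i l ih => rw [SQl_cons]; positivity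

lemma SQl_comm (θ : ℝ) (h h' : V b → ℝ) (u : V b) (l : List (Fin (b + 1))) :
    SQl θ h h' u l = SQl θ h' h u l := by
  induction l with
  | nil => simp
  | cons i l ih => rw [SQl_cons, SQl_cons, ih]; ring

lemma DDl_pos {θ : ℝ} (h0 : 0 ≤ θ) (h1 : θ < 1) (h : V b → ℝ) (u : V b)
    (l : List (Fin (b + 1))) : 0 < DDl θ h u l := by
  induction l with
  | nil => simp
  | cons i l ih => rw [DDl_cons]; exact mul_pos ih (kap_pos h0 h1 _)

lemma DDl_le_one {θ : ℝ} (h0 : 0 ≤ θ) (h1 : θ < 1) (h : V b → ℝ) (u : V b)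
    (l : List (Fin (b + 1))) : DDl θ h u l ≤ 1 := by
  induction l with
  | nil => simp
  | cons i l ih =>
    rw [DDl_cons]
    exact mul_le_one₀ ih (kap_pos h0 h1 _).le (kap_le_one h0 h1 _)

lemma DD_pos {θ : ℝ} (h0 : 0 ≤ θ) (h1 : θ < 1) (h : V b → ℝ) (u w : V b) : 0 < DD θ h u w :=
  DDl_pos h0 h1 h u w.l

lemma DD_le_one {θ : ℝ} (h0 : 0 ≤ θ) (h1 : θ < 1) (h : V b → ℝ) (u w : V b) :
    DD θ h u w ≤ 1 := DDl_le_one h0 h1 h u w.l

@[simp] lemma DD_rt (θ : ℝ) (h : V b → ℝ) (u : V b) : DD θ h u (rt b) = 1 := rfl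

lemma abs_CC_le {θ : ℝ} (h0 : 0 ≤ θ) (h1 : θ < 1) (h : V b → ℝ) (u w : V b) :
    |CC θ h u w| ≤ θ ^ len w * DD θ h u w := by
  unfold CC
  have ha := one_sub_M_sq_pos θ h u
  have hb : 1 - M θ h u ^ 2 ≤ 1 := by nlinarith [sq_nonneg (M θ h u)]
  have hc := DD_pos h0 h1 h u w
  rw [abs_of_nonneg (by positivity)]
  have hd : 0 ≤ θ ^ len w * DD θ h u w := by positivity
  nlinarith

/-! ### Measurability of the functionals of the field -/

@[fun_prop]
lemma measurable_lm (θ : ℝ) (N : ℕ) (u : V b) (i : Fin (b + 1)) :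
    Measurable (fun h : V b → ℝ => lm θ N h u i) := by
  induction N generalizing u i with
  | zero => simp only [lm_zero]; exact measurable_const
  | succ N ih =>
    simp only [lm_succ]
    apply Measurable.add (measurable_pi_apply u)
    apply Finset.measurable_sum
    intro j _
    exact (measurable_psi θ).comp (ih _ _)

@[fun_prop]
lemma measurable_lg (θ : ℝ) (N : ℕ) (u : V b) : Measurable (fun h : V b → ℝ => lg θ N h u) := by
  unfold lg
  apply Measurable.add (measurable_pi_apply u)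
  apply Finset.measurable_sum
  intro j _
  exact (measurable_psi θ).comp (measurable_lm _ _ _ _)

@[fun_prop]
lemma measurable_lmI (θ : ℝ) (u : V b) (i : Fin (b + 1)) :
    Measurable (fun h : V b → ℝ => lmI θ h u i) := by
  unfold lmI
  exact Measurable.limsup (fun N => measurable_lm θ N u i)

@[fun_prop]
lemma measurable_lgI (θ : ℝ) (u : V b) : Measurable (fun h : V b → ℝ => lgI θ h u) := by
  unfold lgI
  apply Measurable.add (measurable_pi_apply u)
  apply Finset.measurable_sum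
  intro j _
  exact (measurable_psi θ).comp (measurable_lmI _ _ _)

@[fun_prop]
lemma measurable_M (θ : ℝ) (u : V b) : Measurable (fun h : V b → ℝ => M θ h u) :=
  measurable_tanh.comp (measurable_lgI θ u)

@[fun_prop]
lemma measurable_DDl (θ : ℝ) (u : V b) (l : List (Fin (b + 1))) :
    Measurable (fun h : V b → ℝ => DDl θ h u l) := by
  induction l with
  | nil => exact measurable_const
  | cons i l ih =>
    simp only [DDl_cons]
    exact ih.mul ((measurable_kap θ).comp (measurable_lmI _ _ _))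

@[fun_prop]
lemma measurable_DD (θ : ℝ) (u w : V b) : Measurable (fun h : V b → ℝ => DD θ h u w) :=
  measurable_DDl θ u w.l

@[fun_prop]
lemma measurable_CC (θ : ℝ) (u w : V b) : Measurable (fun h : V b → ℝ => CC θ h u w) := by
  unfold CC
  exact ((measurable_const.sub ((measurable_M θ u).pow_const 2)).mul_const _).mul
    (measurable_DD θ u w)

@[fun_prop]
lemma measurable_gg (θ : ℝ) (u : V b) (i : Fin (b + 1)) :
    Measurable (fun h : V b → ℝ => gg θ h u i) := by
  unfold gg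
  exact (Real.measurable_log.comp ((measurable_kap θ).comp (measurable_lmI _ _ _))).neg

@[fun_prop]
lemma measurable_SQl (θ : ℝ) (u : V b) (l : List (Fin (b + 1))) :
    Measurable (fun p : (V b → ℝ) × (V b → ℝ) => SQl θ p.1 p.2 u l) := by
  induction l with
  | nil => exact measurable_const
  | cons i l ih =>
    simp only [SQl_cons]
    exact ih.add ((((measurable_lmI θ _ _).comp measurable_fst).sub
      ((measurable_lmI θ _ _).comp measurable_snd)).pow_const 2)

@[fun_prop]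
lemma measurable_Gl (θ lam : ℝ) : Measurable (fun h : V b → ℝ => Gl θ lam h) := by
  unfold Gl
  apply Measurable.ennreal_tsum
  intro w
  exact ((measurable_DD θ _ _).const_mul _).ennreal_ofReal

@[fun_prop]
lemma measurable_KK (θ : ℝ) (R : Set ℕ) :
    Measurable (fun p : (V b → ℝ) × (V b → ℝ) => KK θ R p.1 p.2) := by
  unfold KK
  apply Measurable.ennreal_tsum
  intro w
  apply Measurable.const_mul
  apply Measurable.ennreal_ofReal
  have h1 : Measurable (fun p : (V b → ℝ) × (V b → ℝ) => CC θ p.1 (rt b) w) :=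
    (measurable_CC θ _ _).comp measurable_fst
  have h2 : Measurable (fun p : (V b → ℝ) × (V b → ℝ) => CC θ p.2 (rt b) w) :=
    (measurable_CC θ _ _).comp measurable_snd
  have h3 : Measurable (fun p : (V b → ℝ) × (V b → ℝ) => M θ p.1 w) :=
    (measurable_M θ _).comp measurable_fst
  have h4 : Measurable (fun p : (V b → ℝ) × (V b → ℝ) => M θ p.2 w) :=
    (measurable_M θ _).comp measurable_snd
  exact (((h1.sub h2).pow_const 2).const_mul 8).add
    (((h2.pow_const 2).const_mul 32).mul ((h3.sub h4).pow_const 2))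

lemma measurableSet_Good (θ : ℝ) : MeasurableSet {h : V b → ℝ | Good θ h} := by
  have : {h : V b → ℝ | Good θ h} = ⋂ u : V b, ⋂ i : Fin (b + 1),
      {h : V b → ℝ | ∃ ℓ, Tendsto (fun N => lm θ N h u i) atTop (𝓝 ℓ)} := by
    ext h
    simp only [Good, Set.mem_setOf_eq, Set.mem_iInter]
  rw [this]
  apply MeasurableSet.iInter
  intro u
  apply MeasurableSet.iInter
  intro i
  exact MeasureTheory.measurableSet_exists_tendsto (fun N => measurable_lm θ N u i)

lemma measurableSet_GoodH (θ H : ℝ) : MeasurableSet {h : V b → ℝ | GoodH θ H h} := by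
  have : {h : V b → ℝ | GoodH θ H h} = {h : V b → ℝ | Good θ h} ∩ ⋂ v : V b,
      {h : V b → ℝ | |h v| ≤ H} := by
    ext h
    simp only [GoodH, Set.mem_setOf_eq, Set.mem_inter_iff, Set.mem_iInter]
  rw [this]
  apply (measurableSet_Good θ).inter
  apply MeasurableSet.iInter
  intro v
  exact measurableSet_le (measurable_pi_apply v).abs measurable_const

/-! ### Gauged messages -/

@[simp] lemma lh_zero (θ : ℝ) (ξ : V b → Bool) (z : V b → ℝ) (v : V b) : lh θ 0 ξ z v = 0 := rfl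

lemma lh_succ (θ : ℝ) (N : ℕ) (ξ : V b → Bool) (z : V b → ℝ) (v : V b) :
    lh θ (N + 1) ξ z v = z v + ∑ j ∈ ch v, sg (ξ (nb j v)) * psi θ (lh θ N ξ z (nb j v)) := rfl

lemma sg_true : sg true = 1 := rfl
lemma sg_false : sg false = -1 := rfl

@[simp] lemma abs_sg (s : Bool) : |sg s| = 1 := by cases s <;> simp [sg]

@[simp] lemma sg_sq (s : Bool) : sg s ^ 2 = 1 := by cases s <;> simp [sg]

lemma sg_mul_self (s : Bool) : sg s * sg s = 1 := by cases s <;> simp [sg]

lemma sg_not (s : Bool) : sg (!s) = -sg s := by cases s <;> simp [sg]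

lemma sg_ne_zero (s : Bool) : sg s ≠ 0 := by cases s <;> simp [sg]

@[fun_prop]
lemma measurable_sg : Measurable sg := measurable_of_countable _

lemma psi_sg_mul (θ : ℝ) (s : Bool) (x : ℝ) : psi θ (sg s * x) = sg s * psi θ x := by
  cases s
  · rw [sg_false, neg_one_mul, neg_one_mul, psi_neg]
  · rw [sg_true, one_mul, one_mul]

lemma tanh_sg_mul (s : Bool) (x : ℝ) : Real.tanh (sg s * x) = sg s * Real.tanh x := by
  cases s
  · rw [sg_false, neg_one_mul, neg_one_mul, Real.tanh_neg]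
  · rw [sg_true, one_mul, one_mul]

lemma kap_sg_mul (θ : ℝ) (s : Bool) (x : ℝ) : kap θ (sg s * x) = kap θ x := by
  cases s
  · rw [sg_false, neg_one_mul, kap_neg]
  · rw [sg_true, one_mul]

lemma abs_lh_le {θ : ℝ} (h0 : 0 ≤ θ) (h1 : θ < 1) (N : ℕ) (ξ : V b → Bool) (z : V b → ℝ)
    (v : V b) : |lh θ N ξ z v| ≤ |z v| + (b + 1) * Real.artanh θ := by
  have ha := artanh_nonneg_of h0
  cases N with
  | zero => simp only [lh_zero, abs_zero]; positivity
  | succ N =>
    rw [lh_succ]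
    refine (abs_add_le _ _).trans ?_
    gcongr
    calc |∑ j ∈ ch v, sg (ξ (nb j v)) * psi θ (lh θ N ξ z (nb j v))|
        ≤ ∑ j ∈ ch v, |sg (ξ (nb j v)) * psi θ (lh θ N ξ z (nb j v))| :=
          Finset.abs_sum_le_sum_abs _ _
      _ ≤ ∑ j ∈ ch v, Real.artanh θ := by
          apply Finset.sum_le_sum
          intro j _
          rw [abs_mul, abs_sg, one_mul]
          exact abs_psi_le h0 h1 _
      _ = (ch v).card * Real.artanh θ := by rw [Finset.sum_const, nsmul_eq_mul]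
      _ ≤ (b + 1) * Real.artanh θ := by
          apply mul_le_mul_of_nonneg_right _ ha
          have : (ch v).card ≤ b + 1 := by
            calc (ch v).card ≤ (Finset.univ : Finset (Fin (b + 1))).card := Finset.card_le_univ _
              _ = b + 1 := by simp
          exact_mod_cast this

@[fun_prop]
lemma measurable_lh (θ : ℝ) (N : ℕ) (v : V b) :
    Measurable (fun p : (V b → Bool) × (V b → ℝ) => lh θ N p.1 p.2 v) := by
  induction N generalizing v with
  | zero => exact measurable_const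
  | succ N ih =>
    simp only [lh_succ]
    apply Measurable.add ((measurable_pi_apply v).comp measurable_snd)
    apply Finset.measurable_sum
    intro j _
    apply Measurable.mul
    · exact measurable_sg.comp ((measurable_pi_apply _).comp measurable_fst)
    · exact (measurable_psi θ).comp (ih _)

@[simp] lemma DMl_nil (θ : ℝ) (Mx : ℕ) (ξ : V b → Bool) (z : V b → ℝ) (v : V b) :
    DMl θ Mx ξ z v [] = 1 := rfl

lemma DMl_cons (θ : ℝ) (Mx : ℕ) (ξ : V b → Bool) (z : V b → ℝ) (v : V b) (i : Fin (b + 1))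
    (r : List (Fin (b + 1))) : DMl θ Mx ξ z v (i :: r) =
      DMl θ Mx ξ z v r * kap θ (lh θ (Mx - r.length) ξ z (follow v (i :: r))) := rfl

lemma DMl_pos {θ : ℝ} (h0 : 0 ≤ θ) (h1 : θ < 1) (Mx : ℕ) (ξ : V b → Bool) (z : V b → ℝ)
    (v : V b) (r : List (Fin (b + 1))) : 0 < DMl θ Mx ξ z v r := by
  induction r with
  | nil => simp
  | cons i l ih => rw [DMl_cons]; exact mul_pos ih (kap_pos h0 h1 _)

lemma DMl_le_one {θ : ℝ} (h0 : 0 ≤ θ) (h1 : θ < 1) (Mx : ℕ) (ξ : V b → Bool) (z : V b → ℝ)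
    (v : V b) (r : List (Fin (b + 1))) : DMl θ Mx ξ z v r ≤ 1 := by
  induction r with
  | nil => simp
  | cons i l ih =>
    rw [DMl_cons]
    exact mul_le_one₀ ih (kap_pos h0 h1 _).le (kap_le_one h0 h1 _)

@[fun_prop]
lemma measurable_DMl (θ : ℝ) (Mx : ℕ) (v : V b) (r : List (Fin (b + 1))) :
    Measurable (fun p : (V b → Bool) × (V b → ℝ) => DMl θ Mx p.1 p.2 v r) := by
  induction r with
  | nil => exact measurable_const
  | cons i l ih =>
    simp only [DMl_cons]
    exact ih.mul ((measurable_kap θ).comp (measurable_lh _ _ _))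

/-- `lh` depends only on the coordinates of the branch below `v`. -/
lemma lh_congr {θ : ℝ} {N : ℕ} {ξ ξ' : V b → Bool} {z z' : V b → ℝ} {v : V b}
    (H : ∀ r : List (Fin (b + 1)), (r ++ v.l).IsChain (· ≠ ·) → r.length < N →
      (r ≠ [] → ξ (follow v r) = ξ' (follow v r)) ∧ z (follow v r) = z' (follow v r)) :
    lh θ N ξ z v = lh θ N ξ' z' v := by
  induction N generalizing v with
  | zero => rfl
  | succ N ih =>
    rw [lh_succ, lh_succ]
    have h1 : z v = z' v := (H [] (by simpa using v.h) (by simp)).2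
    rw [h1]
    congr 1
    apply Finset.sum_congr rfl
    intro j hj
    have hl : (nb j v).l = j :: v.l := nb_l_of_not_head j v (mem_ch.1 hj)
    rcases N with _ | N
    · simp
    · have h2 : ξ (nb j v) = ξ' (nb j v) :=
        (H [j] (by
          rw [List.singleton_append, ← hl]; exact (nb j v).h) (by simp)).1 (by simp)
      rw [h2, ih]
      intro r hr hlen
      have h3 := H (r ++ [j]) (by
        rw [List.append_assoc, List.singleton_append, ← hl]; exact hr) (by simp; omega)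
      rw [follow_concat] at h3
      refine ⟨fun _ => h3.1 (by simp), h3.2⟩

end Crest.Agent.Isg
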