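import Crest.Agent.IsgEqv
import Crest.Agent.IsgSpec

set_option autoImplicit false

/-!
Shared library for S0241 (module EQV, part B): equivariance, probability instances, measurability
of the dynamics.
-/

open MeasureTheory ProbabilityTheory Filter Topology

namespace Crest.Agent.Isg

variable {b : ℕ}

/-! ### Left multiplication -/

lemma lm_mul (θ : ℝ) (N : ℕ) (h : V b → ℝ) (g u : V b) (i : Fin (b + 1)) :
    lm θ N (fun v => h (mul g v)) u i = lm θ N h (mul g u) i := by
  induction N generalizing u i with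
  | zero => rfl
  | succ N ih =>
    rw [lm_succ, lm_succ]
    congr 1
    apply Finset.sum_congr rfl
    intro j _
    rw [ih, nb_mul]

lemma lg_mul (θ : ℝ) (N : ℕ) (h : V b → ℝ) (g u : V b) :
    lg θ N (fun v => h (mul g v)) u = lg θ N h (mul g u) := by
  unfold lg
  congr 1
  apply Finset.sum_congr rfl
  intro j _
  rw [lm_mul, nb_mul]

lemma lmI_mul (θ : ℝ) (h : V b → ℝ) (g u : V b) (i : Fin (b + 1)) :
    lmI θ (fun v => h (mul g v)) u i = lmI θ h (mul g u) i := by
  unfold lmI
  simp only [lm_mul]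

lemma lgI_mul (θ : ℝ) (h : V b → ℝ) (g u : V b) :
    lgI θ (fun v => h (mul g v)) u = lgI θ h (mul g u) := by
  unfold lgI
  congr 1
  apply Finset.sum_congr rfl
  intro j _
  rw [lmI_mul, nb_mul]

lemma M_mul (θ : ℝ) (h : V b → ℝ) (g u : V b) :
    M θ (fun v => h (mul g v)) u = M θ h (mul g u) := by
  unfold M; rw [lgI_mul]

lemma Good_mul {θ : ℝ} {h : V b → ℝ} (g : V b) :
    Good θ (fun v => h (mul g v)) ↔ Good θ h := by
  unfold Good
  simp only [lm_mul]
  constructor
  · intro H u i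
    have := H (mul (inv g) u) i
    rwa [mul_inv_cancel_left'] at this
  · intro H u i
    exact H _ i

lemma GoodH_mul {θ H : ℝ} {h : V b → ℝ} (g : V b) :
    GoodH θ H (fun v => h (mul g v)) ↔ GoodH θ H h := by
  unfold GoodH
  rw [Good_mul]
  apply and_congr Iff.rfl
  constructor
  · intro hh v
    have h2 : |h (mul g (mul (inv g) v))| ≤ H := hh (mul (inv g) v)
    rwa [mul_inv_cancel_left'] at h2
  · intro hh v
    exact hh _

lemma DDl_mul (θ : ℝ) (h : V b → ℝ) (g u : V b) (l : List (Fin (b + 1))) :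
    DDl θ (fun v => h (mul g v)) u l = DDl θ h (mul g u) l := by
  induction l with
  | nil => rfl
  | cons i l ih => rw [DDl_cons, DDl_cons, ih, lmI_mul, follow_mul]

lemma DD_mul (θ : ℝ) (h : V b → ℝ) (g u w : V b) :
    DD θ (fun v => h (mul g v)) u w = DD θ h (mul g u) w := DDl_mul θ h g u w.l

lemma CC_mul (θ : ℝ) (h : V b → ℝ) (g u w : V b) :
    CC θ (fun v => h (mul g v)) u w = CC θ h (mul g u) w := by
  unfold CC
  rw [M_mul, DD_mul]

lemma SQl_mul (θ : ℝ) (h h' : V b → ℝ) (g u : V b) (l : List (Fin (b + 1))) :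
    SQl θ (fun v => h (mul g v)) (fun v => h' (mul g v)) u l = SQl θ h h' (mul g u) l := by
  induction l with
  | nil => rfl
  | cons i l ih => rw [SQl_cons, SQl_cons, ih, lmI_mul, lmI_mul, follow_mul]

lemma gg_mul (θ : ℝ) (h : V b → ℝ) (g u : V b) (i : Fin (b + 1)) :
    gg θ (fun v => h (mul g v)) u i = gg θ h (mul g u) i := by
  unfold gg; rw [lmI_mul]

/-! ### General automorphisms -/

lemma sum_erase_colE (φ : GG b ≃g GG b) (u : V b) (i : Fin (b + 1)) (f : Fin (b + 1) → ℝ) :
    ∑ j ∈ Finset.univ.erase i, f (colE φ u j) =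
      ∑ j ∈ Finset.univ.erase (colE φ u i), f j := by
  have h1 := Equiv.sum_comp (colE φ u) f
  rw [← Finset.sum_erase_add Finset.univ _ (Finset.mem_univ i),
    ← Finset.sum_erase_add Finset.univ _ (Finset.mem_univ (colE φ u i))] at h1
  linarith

lemma lm_iso (θ : ℝ) (N : ℕ) (h : V b → ℝ) (φ : GG b ≃g GG b) (u : V b) (i : Fin (b + 1)) :
    lm θ N (fun v => h (φ v)) u i = lm θ N h (φ u) (colE φ u i) := by
  induction N generalizing u i with
  | zero => rfl
  | succ N ih =>
    rw [lm_succ, lm_succ]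
    congr 1
    rw [← sum_erase_colE φ u i (fun j => psi θ (lm θ N h (nb j (φ u)) j))]
    apply Finset.sum_congr rfl
    intro j _
    rw [ih, colE_nb, colE_spec]

lemma sum_colE (φ : GG b ≃g GG b) (u : V b) (f : Fin (b + 1) → ℝ) :
    ∑ j, f (colE φ u j) = ∑ j, f j := Equiv.sum_comp (colE φ u) f

lemma lg_iso (θ : ℝ) (N : ℕ) (h : V b → ℝ) (φ : GG b ≃g GG b) (u : V b) :
    lg θ N (fun v => h (φ v)) u = lg θ N h (φ u) := by
  unfold lg
  congr 1
  rw [← sum_colE φ u (fun j => psi θ (lm θ N h (nb j (φ u)) j))]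
  apply Finset.sum_congr rfl
  intro j _
  rw [lm_iso, colE_nb, colE_spec]

lemma lmI_iso (θ : ℝ) (h : V b → ℝ) (φ : GG b ≃g GG b) (u : V b) (i : Fin (b + 1)) :
    lmI θ (fun v => h (φ v)) u i = lmI θ h (φ u) (colE φ u i) := by
  unfold lmI
  simp only [lm_iso]

lemma lgI_iso (θ : ℝ) (h : V b → ℝ) (φ : GG b ≃g GG b) (u : V b) :
    lgI θ (fun v => h (φ v)) u = lgI θ h (φ u) := by
  unfold lgI
  congr 1
  rw [← sum_colE φ u (fun j => psi θ (lmI θ h (nb j (φ u)) j))]
  apply Finset.sum_congr rfl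
  intro j _
  rw [lmI_iso, colE_nb, colE_spec]

lemma M_iso (θ : ℝ) (h : V b → ℝ) (φ : GG b ≃g GG b) (u : V b) :
    M θ (fun v => h (φ v)) u = M θ h (φ u) := by
  unfold M; rw [lgI_iso]

lemma Good_iso {θ : ℝ} {h : V b → ℝ} (φ : GG b ≃g GG b) (hg : Good θ h) :
    Good θ (fun v => h (φ v)) := by
  intro u i
  simp only [lm_iso]
  exact hg _ _

lemma GoodH_iso {θ H : ℝ} {h : V b → ℝ} (φ : GG b ≃g GG b) (hg : GoodH θ H h) :
    GoodH θ H (fun v => h (φ v)) := ⟨Good_iso φ hg.1, fun _ => hg.2 _⟩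

/-! ### The dynamics: equivariance -/

lemma tm_comp (U : ℕ × V b → UI) (f : V b → V b) (α : ℕ × V b) :
    tm (fun α => U (α.1, f α.2)) α = tm U (α.1, f α.2) := rfl

lemma zz_comp (U Y : ℕ × V b → UI) (f : V b → V b) (α : ℕ × V b) :
    zz (fun α => U (α.1, f α.2)) (fun α => Y (α.1, f α.2)) α = zz U Y (α.1, f α.2) := rfl

lemma fld_comp (U Y : ℕ × V b → UI) (f : V b → V b) (τ : ℝ) (v : V b) :
    fld (fun α => U (α.1, f α.2)) (fun α => Y (α.1, f α.2)) τ v = fld U Y τ (f v) := rfl

lemma fld_comp' (U Y : ℕ × V b → UI) (f : V b → V b) (τ : ℝ) :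
    fld (fun α => U (α.1, f α.2)) (fun α => Y (α.1, f α.2)) τ = fun v => fld U Y τ (f v) := rfl

lemma pm_iso (θ : ℝ) (U Y : ℕ × V b → UI) (φ : GG b ≃g GG b) (α : ℕ × V b) :
    pm θ (fun α => U (α.1, φ α.2)) (fun α => Y (α.1, φ α.2)) α = pm θ U Y (α.1, φ α.2) := by
  unfold pm
  rw [fld_comp', tm_comp, M_iso]

lemma TT_iso (θ : ℝ) (U Y : ℕ × V b → UI) (φ : GG b ≃g GG b) :
    TT θ (fun α => U (α.1, φ α.2)) (fun α => Y (α.1, φ α.2)) =
      fun α => TT θ U Y (α.1, φ α.2) := by
  funext α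
  unfold TT
  rw [pm_iso]

lemma pm_mul (θ : ℝ) (U Y : ℕ × V b → UI) (g : V b) (α : ℕ × V b) :
    pm θ (fun α => U (α.1, mul g α.2)) (fun α => Y (α.1, mul g α.2)) α =
      pm θ U Y (α.1, mul g α.2) := pm_iso θ U Y (lmulIso g) α

lemma TT_mul (θ : ℝ) (U Y : ℕ × V b → UI) (g : V b) :
    TT θ (fun α => U (α.1, mul g α.2)) (fun α => Y (α.1, mul g α.2)) =
      fun α => TT θ U Y (α.1, mul g α.2) := TT_iso θ U Y (lmulIso g)

lemma Yf_comp (U : ℕ × V b → UI) (σ : V b → Bool) (η : ℕ × V b → UI) (f : V b → V b) :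
    Yf (fun α => U (α.1, f α.2)) (fun v => σ (f v)) (fun α => η (α.1, f α.2)) =
      fun α => Yf U σ η (α.1, f α.2) := rfl

/-! ### Measurability of the dynamics -/

@[fun_prop]
lemma measurable_str : Measurable str := by
  unfold str
  exact (measurable_id.mul (measurable_const.sub measurable_id)).sqrt

lemma continuous_str : Continuous str := by
  unfold str
  exact (continuous_id.mul (continuous_const.sub continuous_id)).sqrt

lemma str_nonneg (u : ℝ) : 0 ≤ str u := Real.sqrt_nonneg _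

lemma str_le_half (u : ℝ) : str u ≤ 1 / 2 := by
  unfold str
  rw [Real.sqrt_le_left (by norm_num)]
  nlinarith [sq_nonneg (u - 1 / 2)]

lemma str_sq (u : UI) : str u ^ 2 = (u : ℝ) * (1 - u) := by
  unfold str
  rw [Real.sq_sqrt]
  exact mul_nonneg u.2.1 (by linarith [u.2.2])

lemma abs_two_mul_sub_one_le (y : UI) : |2 * (y : ℝ) - 1| ≤ 1 := by
  rw [abs_le]; constructor <;> linarith [y.2.1, y.2.2]

lemma abs_zz_le (U Y : ℕ × V b → UI) (α : ℕ × V b) : |zz U Y α| ≤ 1 / 2 := by
  unfold zz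
  rw [abs_mul, abs_of_nonneg (str_nonneg _)]
  have h1 := str_le_half (U α)
  have h2 := abs_two_mul_sub_one_le (Y α)
  nlinarith [str_nonneg (U α), abs_nonneg (2 * (Y α : ℝ) - 1)]

lemma measurable_coeUI : Measurable (fun y : UI => (y : ℝ)) := measurable_subtype_coe

lemma measurable_projIccUI : Measurable (fun x : ℝ => (Set.projIcc (0 : ℝ) 1 zero_le_one x : UI)) :=
  continuous_projIcc.measurable

section
variable {Ω : Type*} [MeasurableSpace Ω]

@[fun_prop]
lemma Measurable.coeUI {f : Ω → UI} (hf : Measurable f) : Measurable (fun ω => (f ω : ℝ)) :=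
  measurable_coeUI.comp hf

@[fun_prop]
lemma Measurable.Fc {a : Ω → ℝ} {y : Ω → UI} (ha : Measurable a) (hy : Measurable y) :
    Measurable (fun ω => Fc (a ω) (y ω)) := by
  unfold Isg.Fc
  apply measurable_projIccUI.comp
  have hy' := Measurable.coeUI hy
  exact hy'.sub (ha.mul (hy'.mul (measurable_const.sub hy')))

@[fun_prop]
lemma Measurable.Gc {a : Ω → ℝ} {y : Ω → UI} (ha : Measurable a) (hy : Measurable y) :
    Measurable (fun ω => Gc (a ω) (y ω)) := by
  unfold Isg.Gc
  apply measurable_projIccUI.comp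
  have hy' := Measurable.coeUI hy
  exact (measurable_const.mul hy').div ((measurable_const.sub ha).add
    ((((measurable_const.sub ha).pow_const 2).add ((measurable_const.mul ha).mul hy')).sqrt))

lemma measurable_symmUI : Measurable unitInterval.symm := unitInterval.continuous_symm.measurable

@[fun_prop]
lemma Measurable.obs {e : Ω → ℝ} {s : Ω → Bool} {w : Ω → UI} (he : Measurable e)
    (hs : Measurable s) (hw : Measurable w) :
    Measurable (fun ω => obs (e ω) (s ω) (w ω)) := by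
  unfold Isg.obs
  apply Measurable.ite
  · exact hs (measurableSet_singleton true)
  · exact Measurable.Gc he hw
  · exact measurable_symmUI.comp (Measurable.Gc he hw)

@[fun_prop]
lemma Measurable.pw {e m : Ω → ℝ} {w : Ω → UI} (he : Measurable e) (hm : Measurable m)
    (hw : Measurable w) : Measurable (fun ω => pw (e ω) (m ω) (w ω)) := by
  unfold Isg.pw
  have h1 : Measurable (fun ω => (Isg.Gc (e ω * m ω) (w ω) : ℝ)) :=
    Measurable.coeUI (Measurable.Gc (he.mul hm) hw)
  have h2 : Measurable (fun ω => e ω * (2 * (Isg.Gc (e ω * m ω) (w ω) : ℝ) - 1)) :=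
    he.mul ((h1.const_mul 2).sub_const 1)
  exact h2.div ((h2.mul hm).const_add 1)

@[fun_prop]
lemma Measurable.str {u : Ω → ℝ} (hu : Measurable u) : Measurable (fun ω => str (u ω)) :=
  measurable_str.comp hu

@[fun_prop]
lemma Measurable.tm {U : Ω → (ℕ × V b → UI)} (hU : Measurable U) (α : ℕ × V b) :
    Measurable (fun ω => tm (U ω) α) := by
  unfold Isg.tm
  exact measurable_const.add (Measurable.coeUI ((measurable_pi_apply α).comp hU))

@[fun_prop]
lemma Measurable.zz {U Y : Ω → (ℕ × V b → UI)} (hU : Measurable U) (hY : Measurable Y)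
    (α : ℕ × V b) : Measurable (fun ω => zz (U ω) (Y ω) α) := by
  unfold Isg.zz
  exact (Measurable.str (Measurable.coeUI ((measurable_pi_apply α).comp hU))).mul
    (((Measurable.coeUI ((measurable_pi_apply α).comp hY)).const_mul 2).sub_const 1)

lemma measurable_sum_range {f : ℕ → Ω → ℝ} (hf : ∀ j, Measurable (f j)) {n : Ω → ℕ}
    (hn : Measurable n) : Measurable (fun ω => ∑ j ∈ Finset.range (n ω), f j ω) := by
  have h1 : Measurable (fun p : ℕ × Ω => ∑ j ∈ Finset.range p.1, f j p.2) := by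
    apply measurable_from_prod_countable_right
    intro k
    show Measurable (fun y => ∑ j ∈ Finset.range k, f j y)
    exact Finset.measurable_sum _ (fun j _ => hf j)
  exact h1.comp (hn.prodMk measurable_id)

@[fun_prop]
lemma Measurable.fldv {U Y : Ω → (ℕ × V b → UI)} {τ : Ω → ℝ} (hU : Measurable U)
    (hY : Measurable Y) (hτ : Measurable τ) (v : V b) :
    Measurable (fun ω => fld (U ω) (Y ω) (τ ω) v) := by
  unfold fld
  apply measurable_sum_range
  · intro j
    apply Measurable.ite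
    · exact measurableSet_lt (Measurable.tm hU _) hτ
    · exact measurable_artanh.comp (Measurable.zz hU hY _)
    · exact measurable_const
  · exact (Nat.measurable_floor.comp hτ).add_const 1

@[fun_prop]
lemma Measurable.fld {U Y : Ω → (ℕ × V b → UI)} {τ : Ω → ℝ} (hU : Measurable U)
    (hY : Measurable Y) (hτ : Measurable τ) :
    Measurable (fun ω => fld (U ω) (Y ω) (τ ω)) :=
  measurable_pi_lambda _ (fun v => Measurable.fldv hU hY hτ v)

@[fun_prop]
lemma Measurable.Mf {h : Ω → (V b → ℝ)} (θ : ℝ) (hh : Measurable h) (v : V b) :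
    Measurable (fun ω => M θ (h ω) v) := (measurable_M θ v).comp hh

@[fun_prop]
lemma Measurable.pm {U Y : Ω → (ℕ × V b → UI)} (θ : ℝ) (hU : Measurable U) (hY : Measurable Y)
    (α : ℕ × V b) : Measurable (fun ω => pm θ (U ω) (Y ω) α) := by
  unfold Isg.pm
  exact Measurable.Mf θ (Measurable.fld hU hY (Measurable.tm hU α)) _

@[fun_prop]
lemma Measurable.TTv {U Y : Ω → (ℕ × V b → UI)} (θ : ℝ) (hU : Measurable U) (hY : Measurable Y)
    (α : ℕ × V b) : Measurable (fun ω => TT θ (U ω) (Y ω) α) := by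
  unfold Isg.TT
  exact Measurable.Fc ((Measurable.str (Measurable.coeUI ((measurable_pi_apply α).comp hU))).mul
    (Measurable.pm θ hU hY α)) ((measurable_pi_apply α).comp hY)

@[fun_prop]
lemma Measurable.TT {U Y : Ω → (ℕ × V b → UI)} (θ : ℝ) (hU : Measurable U) (hY : Measurable Y) :
    Measurable (fun ω => TT θ (U ω) (Y ω)) :=
  measurable_pi_lambda _ (fun α => Measurable.TTv θ hU hY α)

@[fun_prop]
lemma Measurable.Yf {U η : Ω → (ℕ × V b → UI)} {σ : Ω → (V b → Bool)} (hU : Measurable U)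
    (hσ : Measurable σ) (hη : Measurable η) :
    Measurable (fun ω => Yf (U ω) (σ ω) (η ω)) := by
  apply measurable_pi_lambda
  intro α
  unfold Isg.Yf
  exact Measurable.obs (Measurable.str (Measurable.coeUI ((measurable_pi_apply α).comp hU)))
    ((measurable_pi_apply _).comp hσ) ((measurable_pi_apply _).comp hη)

@[fun_prop]
lemma Measurable.updf {h : Ω → (V b → ℝ)} {x : Ω → ℝ} (hh : Measurable h) (hx : Measurable x)
    (v : V b) : Measurable (fun ω => Function.update (h ω) v (x ω)) := by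
  apply measurable_pi_lambda
  intro w
  by_cases hw : w = v
  · subst hw
    simpa using hx
  · simp only [Function.update_of_ne hw]
    exact (measurable_pi_apply w).comp hh

@[fun_prop]
lemma Measurable.incr {U Y : Ω → (ℕ × V b → UI)} (θ : ℝ) (hU : Measurable U) (hY : Measurable Y)
    (α : ℕ × V b) : Measurable (fun ω => Spec.incr θ (U ω) (Y ω) α) := by
  unfold Spec.incr
  apply Measurable.sub
  · apply Measurable.Mf
    apply Measurable.updf
    · exact Measurable.fld hU hY (Measurable.tm hU α)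
    · exact (Measurable.fldv hU hY (Measurable.tm hU α) _).add
        (measurable_artanh.comp (Measurable.zz hU hY α))
  · exact Measurable.Mf θ (Measurable.fld hU hY (Measurable.tm hU α)) _

end

/-! ### Spins -/

lemma measurable_spinL (l : List (Fin (b + 1))) (hl : l.IsChain (· ≠ ·)) :
    Measurable (fun p : Bool × (V b → Bool) => spinL p.1 p.2 l hl) := by
  induction l with
  | nil => exact measurable_fst
  | cons i l ih =>
    simp only [spinL]
    have h1 : Measurable (fun p : Bool × (V b → Bool) => p.2 (⟨i :: l, hl⟩ : V b)) :=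
      (measurable_pi_apply (⟨i :: l, hl⟩ : V b)).comp measurable_snd
    apply Measurable.ite
    · exact h1 (measurableSet_singleton true)
    · exact ih hl.tail
    · exact (measurable_of_countable (fun s : Bool => !s)).comp (ih hl.tail)

@[fun_prop]
lemma measurable_spin : Measurable (fun p : Bool × (V b → Bool) => spin p.1 p.2) :=
  measurable_pi_lambda _ (fun v => measurable_spinL v.l v.h)

@[simp] lemma spin_rt (s : Bool) (ξ : V b → Bool) : spin s ξ (rt b) = s := rfl

lemma spin_nb_of_ch (s : Bool) (ξ : V b → Bool) {v : V b} {j : Fin (b + 1)} (hj : j ∈ ch v) :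
    spin s ξ (nb j v) = if ξ (nb j v) then spin s ξ v else !(spin s ξ v) := by
  have hl : (nb j v).l = j :: v.l := nb_l_of_not_head j v (mem_ch.1 hj)
  have hv : nb j v = ⟨j :: v.l, by rw [← hl]; exact (nb j v).h⟩ := by ext1; exact hl
  rw [hv]
  rfl

lemma sg_spin_nb_of_ch (s : Bool) (ξ : V b → Bool) {v : V b} {j : Fin (b + 1)} (hj : j ∈ ch v) :
    sg (spin s ξ (nb j v)) = sg (spin s ξ v) * sg (ξ (nb j v)) := by
  rw [spin_nb_of_ch s ξ hj]
  cases ξ (nb j v)
  · rw [sg_false]
    simp [sg_not]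
  · simp [sg_true]

lemma spin_not (s : Bool) (ξ : V b → Bool) (v : V b) : spin (!s) ξ v = !(spin s ξ v) := by
  obtain ⟨l, hl⟩ := v
  show spinL (!s) ξ l hl = !(spinL s ξ l hl)
  induction l with
  | nil => rfl
  | cons i l ih =>
    simp only [spinL]
    rw [ih hl.tail]
    split <;> rfl

/-! ### Probability measures -/

lemma isProb_bern {p : ℝ} (h0 : 0 ≤ p) (h1 : p ≤ 1) : IsProbabilityMeasure (bern p) := by
  constructor
  unfold bern
  simp only [Measure.coe_add, Measure.coe_smul, Pi.add_apply, Pi.smul_apply, measure_univ,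
    smul_eq_mul, mul_one]
  rw [← ENNReal.ofReal_add h0 (by linarith)]
  simp

instance isProb_bern_half : IsProbabilityMeasure (bern (1 / 2)) :=
  isProb_bern (by norm_num) (by norm_num)

lemma isProb_bern_theta {θ : ℝ} (h0 : 0 ≤ θ) (h1 : θ < 1) :
    IsProbabilityMeasure (bern ((1 + θ) / 2)) := isProb_bern (by linarith) (by linarith)

lemma isProb_xiLaw {θ : ℝ} (h0 : 0 ≤ θ) (h1 : θ < 1) : IsProbabilityMeasure (xiLaw b θ) := by
  have := isProb_bern_theta h0 h1
  unfold xiLaw
  infer_instance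

lemma isProb_mu {θ : ℝ} (h0 : 0 ≤ θ) (h1 : θ < 1) : IsProbabilityMeasure (mu b θ) := by
  have := isProb_xiLaw (b := b) h0 h1
  unfold mu
  exact Measure.isProbabilityMeasure_map measurable_spin.aemeasurable

lemma isProb_GM {θ : ℝ} (h0 : 0 ≤ θ) (h1 : θ < 1) (ρ : Measure ℝ) [IsProbabilityMeasure ρ] :
    IsProbabilityMeasure (GM b θ ρ) := by
  have := isProb_xiLaw (b := b) h0 h1
  unfold GM
  infer_instance

lemma measurable_plant :
    Measurable (fun (p : (V b → Bool) × (V b → ℝ)) v => sg (p.1 v) * p.2 v) := by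
  apply measurable_pi_lambda
  intro v
  exact (measurable_sg.comp ((measurable_pi_apply v).comp measurable_fst)).mul
    ((measurable_pi_apply v).comp measurable_snd)

lemma isProb_PL {θ : ℝ} (h0 : 0 ≤ θ) (h1 : θ < 1) (ρ : Measure ℝ) [IsProbabilityMeasure ρ] :
    IsProbabilityMeasure (PL b θ ρ) := by
  have := isProb_mu (b := b) h0 h1
  unfold PL
  exact Measure.isProbabilityMeasure_map measurable_plant.aemeasurable

instance isProb_noise (O : Type*) : IsProbabilityMeasure (noise O) := by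
  unfold noise
  infer_instance

lemma isProb_JJ {θ : ℝ} (h0 : 0 ≤ θ) (h1 : θ < 1) : IsProbabilityMeasure (JJ b θ) := by
  have := isProb_mu (b := b) h0 h1
  unfold JJ
  infer_instance

@[fun_prop]
lemma measurable_obsMap : Measurable
    (fun p : (ℕ × V b → UI) × ((V b → Bool) × (ℕ × V b → UI)) => (p.1, Yf p.1 p.2.1 p.2.2)) :=
  measurable_fst.prodMk (Measurable.Yf measurable_fst (measurable_fst.comp measurable_snd)
    (measurable_snd.comp measurable_snd))

lemma isProb_PP {θ : ℝ} (h0 : 0 ≤ θ) (h1 : θ < 1) : IsProbabilityMeasure (PP b θ) := by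
  have := isProb_JJ (b := b) h0 h1
  unfold PP
  exact Measure.isProbabilityMeasure_map measurable_obsMap.aemeasurable

lemma lintegral_PP {θ : ℝ} {F : (ℕ × V b → UI) × (ℕ × V b → UI) → ENNReal} (hF : Measurable F) :
    ∫⁻ p, F p ∂(PP b θ) = ∫⁻ p, F (p.1, Yf p.1 p.2.1 p.2.2) ∂(JJ b θ) := by
  unfold PP
  rw [lintegral_map hF measurable_obsMap]

lemma integral_PP {θ : ℝ} {F : (ℕ × V b → UI) × (ℕ × V b → UI) → ℝ} (hF : Measurable F) :
    ∫ p, F p ∂(PP b θ) = ∫ p, F (p.1, Yf p.1 p.2.1 p.2.2) ∂(JJ b θ) := by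
  unfold PP
  rw [integral_map measurable_obsMap.aemeasurable hF.aestronglyMeasurable]

lemma ae_PP {θ : ℝ} {P : (ℕ × V b → UI) × (ℕ × V b → UI) → Prop}
    (hP : MeasurableSet {p | P p}) :
    (∀ᵐ p ∂(PP b θ), P p) ↔ ∀ᵐ p ∂(JJ b θ), P (p.1, Yf p.1 p.2.1 p.2.2) := by
  unfold PP
  rw [ae_map_iff measurable_obsMap.aemeasurable hP]

/-! ### Reindexing product measures -/

lemma infinitePi_map_reindex {O X : Type*} [MeasurableSpace X] (ν : Measure X)
    [IsProbabilityMeasure ν] (e : O ≃ O) :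
    (Measure.infinitePi (fun _ : O => ν)).map (fun x o => x (e o)) =
      Measure.infinitePi (fun _ : O => ν) := by
  have h := Measure.infinitePi_map_piCongrLeft (X := fun _ : O => X) (fun _ : O => ν) e.symm
  have h2 : (⇑(MeasurableEquiv.piCongrLeft (fun _ : O => X) e.symm) : (O → X) → (O → X)) =
      fun x o => x (e o) := by
    funext x o
    have := MeasurableEquiv.piCongrLeft_apply_apply (β := fun _ : O => X) e.symm x (e o)
    simpa using this
  rw [h2] at h
  exact h

lemma noise_map_reindex {O : Type*} (e : O ≃ O) :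
    (noise O).map (fun x o => x (e o)) = noise O := infinitePi_map_reindex _ e

/-- The equivalence of `ℕ × V b` induced by an automorphism. -/
def liftE (φ : GG b ≃g GG b) : ℕ × V b ≃ ℕ × V b where
  toFun α := (α.1, φ α.2)
  invFun α := (α.1, φ.symm α.2)
  left_inv α := by simp
  right_inv α := by simp

@[simp] lemma liftE_apply (φ : GG b ≃g GG b) (α : ℕ × V b) : liftE φ α = (α.1, φ α.2) := rfl

lemma noise_map_iso (φ : GG b ≃g GG b) :
    (noise (ℕ × V b)).map (fun U (α : ℕ × V b) => U (α.1, φ α.2)) = noise (ℕ × V b) :=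
  noise_map_reindex (liftE φ)

lemma measurable_reindex {O X : Type*} [MeasurableSpace X] (f : O → O) :
    Measurable (fun (x : O → X) o => x (f o)) :=
  measurable_pi_lambda _ (fun o => measurable_pi_apply (f o))

/-- Invariance of the planted law (from the invariance of `mu`). -/
lemma PL_map_iso {θ : ℝ} (h0 : 0 ≤ θ) (h1 : θ < 1) (ρ : Measure ℝ) [IsProbabilityMeasure ρ]
    (φ : GG b ≃g GG b) (hmu : (mu b θ).map (fun σ v => σ (φ v)) = mu b θ) :
    (PL b θ ρ).map (fun h v => h (φ v)) = PL b θ ρ := by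
  have := isProb_mu (b := b) h0 h1
  have e1 : (Measure.infinitePi (fun _ : V b => ρ)).map (fun x v => x (φ v)) =
      Measure.infinitePi (fun _ : V b => ρ) := infinitePi_map_reindex ρ φ.toEquiv
  have e2 : ((mu b θ).prod (Measure.infinitePi (fun _ : V b => ρ))).map
      (Prod.map (fun σ v => σ (φ v)) (fun x v => x (φ v))) =
      (mu b θ).prod (Measure.infinitePi (fun _ : V b => ρ)) := by
    rw [← Measure.map_prod_map _ _ (measurable_reindex (fun v => φ v))
      (measurable_reindex (fun v => φ v)), hmu, e1]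
  unfold PL
  rw [Measure.map_map (measurable_reindex (fun v => φ v)) measurable_plant]
  conv_rhs => rw [← e2]
  rw [Measure.map_map measurable_plant (by
    exact (measurable_reindex (fun v => φ v)).prodMap (measurable_reindex (fun v => φ v)))]
  rfl

lemma PL_map_mul {θ : ℝ} (h0 : 0 ≤ θ) (h1 : θ < 1) (ρ : Measure ℝ) [IsProbabilityMeasure ρ]
    (hb : 1 ≤ b) (hmu : Spec.MuInv) (g : V b) :
    (PL b θ ρ).map (fun h v => h (mul g v)) = PL b θ ρ :=
  PL_map_iso h0 h1 ρ (lmulIso g) ((hmu b θ hb h0 h1).2 (lmulIso g))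

/-- Invariance of `JJ` and `PP` (from the invariance of `mu`). -/
lemma JJ_map_iso {θ : ℝ} (h0 : 0 ≤ θ) (h1 : θ < 1) (φ : GG b ≃g GG b)
    (hmu : (mu b θ).map (fun σ v => σ (φ v)) = mu b θ) :
    (JJ b θ).map (fun p => ((fun α : ℕ × V b => p.1 (α.1, φ α.2)),
      ((fun v : V b => p.2.1 (φ v)), (fun α : ℕ × V b => p.2.2 (α.1, φ α.2))))) = JJ b θ := by
  have := isProb_mu (b := b) h0 h1
  have m1 : Measurable (fun (U : ℕ × V b → UI) (α : ℕ × V b) => U (α.1, φ α.2)) :=
    measurable_reindex (liftE φ)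
  have m2 : Measurable (fun (σ : V b → Bool) v => σ (φ v)) := measurable_reindex (fun v => φ v)
  have e2 : ((mu b θ).prod (noise (ℕ × V b))).map
      (Prod.map (fun σ v => σ (φ v)) (fun U (α : ℕ × V b) => U (α.1, φ α.2))) =
      (mu b θ).prod (noise (ℕ × V b)) := by
    rw [← Measure.map_prod_map _ _ m2 m1, hmu, noise_map_iso]
  unfold JJ
  have e3 : ((noise (ℕ × V b)).prod ((mu b θ).prod (noise (ℕ × V b)))).map
      (Prod.map (fun U (α : ℕ × V b) => U (α.1, φ α.2))
        (Prod.map (fun σ v => σ (φ v)) (fun U (α : ℕ × V b) => U (α.1, φ α.2)))) =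
      (noise (ℕ × V b)).prod ((mu b θ).prod (noise (ℕ × V b))) := by
    rw [← Measure.map_prod_map _ _ m1 (m2.prodMap m1), e2, noise_map_iso]
  exact e3

lemma PP_map_iso {θ : ℝ} (h0 : 0 ≤ θ) (h1 : θ < 1) (φ : GG b ≃g GG b)
    (hmu : (mu b θ).map (fun σ v => σ (φ v)) = mu b θ) :
    (PP b θ).map (fun p => ((fun α : ℕ × V b => p.1 (α.1, φ α.2)),
      (fun α : ℕ × V b => p.2 (α.1, φ α.2)))) = PP b θ := by
  have m1 : Measurable (fun (U : ℕ × V b → UI) (α : ℕ × V b) => U (α.1, φ α.2)) :=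
    measurable_reindex (liftE φ)
  have m2 : Measurable (fun (σ : V b → Bool) v => σ (φ v)) := measurable_reindex (fun v => φ v)
  have e := JJ_map_iso h0 h1 φ hmu
  have m3 : Measurable (fun p : (ℕ × V b → UI) × (ℕ × V b → UI) =>
      ((fun α : ℕ × V b => p.1 (α.1, φ α.2)), (fun α : ℕ × V b => p.2 (α.1, φ α.2)))) :=
    (m1.comp measurable_fst).prodMk (m1.comp measurable_snd)
  have m4 : Measurable (fun p : (ℕ × V b → UI) × ((V b → Bool) × (ℕ × V b → UI)) =>
      ((fun α : ℕ × V b => p.1 (α.1, φ α.2)),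
      ((fun v : V b => p.2.1 (φ v)), (fun α : ℕ × V b => p.2.2 (α.1, φ α.2))))) :=
    (m1.comp measurable_fst).prodMk ((m2.comp (measurable_fst.comp measurable_snd)).prodMk
      (m1.comp (measurable_snd.comp measurable_snd)))
  unfold PP
  rw [Measure.map_map m3 measurable_obsMap]
  conv_rhs => rw [← e]
  rw [Measure.map_map measurable_obsMap m4]
  rfl

lemma PP_map_mul {θ : ℝ} (h0 : 0 ≤ θ) (h1 : θ < 1) (hb : 1 ≤ b) (hmu : Spec.MuInv) (g : V b) :
    (PP b θ).map (fun p => ((fun α : ℕ × V b => p.1 (α.1, mul g α.2)),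
      (fun α : ℕ × V b => p.2 (α.1, mul g α.2)))) = PP b θ :=
  PP_map_iso h0 h1 (lmulIso g) ((hmu b θ hb h0 h1).2 (lmulIso g))

/-- Marginal of the labels. -/
lemma PP_map_fst {θ : ℝ} (h0 : 0 ≤ θ) (h1 : θ < 1) :
    (PP b θ).map Prod.fst = noise (ℕ × V b) := by
  have := isProb_mu (b := b) h0 h1
  unfold PP
  rw [Measure.map_map measurable_fst measurable_obsMap]
  have : (Prod.fst ∘ fun p : (ℕ × V b → UI) × ((V b → Bool) × (ℕ × V b → UI)) =>
      (p.1, Yf p.1 p.2.1 p.2.2)) = Prod.fst := rfl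
  rw [this]
  unfold JJ
  rw [Measure.map_fst_prod]
  simp

end Crest.Agent.Isg
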