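import Crest.Agent.IsgTree
import Crest.Agent.IsgSpec

set_option autoImplicit false

/-!
S0241, module EXACT: exactly equivariant version of an almost surely equivariant map.
-/

open MeasureTheory ProbabilityTheory Filter Topology

namespace Crest.Agent.IsgExact

open Crest.Agent.Isg

variable {b : ℕ}

/-- automorphisms fixing the root -/
abbrev KK (b : ℕ) : Type := {g : GG b ≃g GG b // g (rt b) = rt b}

/-- the inverse -/
def kinv (g : KK b) : KK b := ⟨g.1.symm, by
  have h : g.1.symm (g.1 (rt b)) = rt b := g.1.symm_apply_apply _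
  rw [g.2] at h
  exact h⟩

lemma kinv_apply (g : KK b) (v : V b) : (kinv g).1 (g.1 v) = v := g.1.symm_apply_apply v
lemma apply_kinv (g : KK b) (v : V b) : g.1 ((kinv g).1 v) = v := g.1.apply_symm_apply v

lemma len_KK_le (g : KK b) : ∀ (l : List (Fin (b + 1))) (h : l.IsChain (· ≠ ·)),
    len (g.1 ⟨l, h⟩) ≤ l.length := by
  intro l
  induction l with
  | nil =>
    intro h
    have : g.1 ⟨[], h⟩ = rt b := g.2
    rw [this]; simp
  | cons i l ih =>
    intro h
    have h1 := ih h.tail
    have h2 : (GG b).Adj ⟨l, h.tail⟩ (nb i ⟨l, h.tail⟩) := (adj_iff _ _).2 ⟨i, rfl⟩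
    have h3 := (g.1.map_rel_iff (a := ⟨l, h.tail⟩) (b := nb i ⟨l, h.tail⟩)).2 h2
    obtain ⟨j, hj⟩ := (adj_iff _ _).1 h3
    rw [nb_cons_chain i l h] at hj
    have h4 : len (g.1 ⟨i :: l, h⟩) ≤ len (g.1 ⟨l, h.tail⟩) + 1 := by
      have h5 : g.1 ⟨i :: l, h⟩ = nb j (g.1 ⟨l, h.tail⟩) := hj
      rw [h5]
      rcases len_nb j (g.1 ⟨l, h.tail⟩) with h6 | h6 <;> omega
    rw [List.length_cons]
    exact h4.trans (Nat.succ_le_succ h1)

lemma len_KK (g : KK b) (v : V b) : len (g.1 v) = len v := by
  apply le_antisymm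
  · exact len_KK_le g v.l v.h
  · have h := len_KK_le (kinv g) (g.1 v).l (g.1 v).h
    have h2 : (kinv g).1 ⟨(g.1 v).l, (g.1 v).h⟩ = v := kinv_apply g v
    rw [h2] at h
    exact h

/-- points of the ball -/
abbrev BB (b N : ℕ) : Type := {v : V b // v ∈ Bl N (rt b)}

/-- restriction to the ball -/
def res (N : ℕ) (g : KK b) (v : BB b N) : BB b N := ⟨g.1 v.1, by
  have := v.2
  rw [mem_Bl_rt] at this ⊢
  rw [len_KK]; exact this⟩

open Classical in
/-- all restrictions -/
noncomputable def II (b N : ℕ) : Finset (BB b N → BB b N) :=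
  Finset.univ.filter (fun r => ∃ g : KK b, res N g = r)

open Classical in
/-- representatives -/
noncomputable def rep (N : ℕ) (r : BB b N → BB b N) : KK b :=
  if h : ∃ g : KK b, res N g = r then h.choose else ⟨RelIso.refl _, rfl⟩

lemma res_rep {N : ℕ} {r : BB b N → BB b N} (h : r ∈ II b N) : res N (rep N r) = r := by
  classical
  simp only [II, Finset.mem_filter, Finset.mem_univ, true_and] at h
  unfold rep
  rw [dif_pos h]
  exact h.choose_spec

lemma res_mem (N : ℕ) (g : KK b) : res N g ∈ II b N := by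
  classical
  simp only [II, Finset.mem_filter, Finset.mem_univ, true_and]
  exact ⟨g, rfl⟩

/-- the composition with an automorphism -/
def cmp (g : KK b) (x : V b → UI) : V b → UI := fun v => x (g.1 v)

open Classical in
/-- number of representatives moving `x` into `C` -/
noncomputable def cnt (N : ℕ) (C : Set (V b → UI)) (x : V b → UI) : ℕ :=
  ((II b N).filter (fun r => cmp (rep N r) x ∈ C)).card

lemma II_card_pos (b N : ℕ) : 0 < (II b N).card :=
  Finset.card_pos.2 ⟨_, res_mem N ⟨RelIso.refl _, rfl⟩⟩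

/-- `C` depends on the coordinates of the ball only -/
def LocC (N : ℕ) (C : Set (V b → UI)) : Prop :=
  ∀ x y : V b → UI, (∀ v ∈ Bl N (rt b), x v = y v) → (x ∈ C ↔ y ∈ C)

lemma comp_mem_II {N : ℕ} {r : BB b N → BB b N} (hr : r ∈ II b N) (t : KK b) :
    res N t ∘ r ∈ II b N := by
  classical
  simp only [II, Finset.mem_filter, Finset.mem_univ, true_and] at hr ⊢
  obtain ⟨g, rfl⟩ := hr
  refine ⟨⟨g.1.trans t.1, ?_⟩, ?_⟩
  · show t.1 (g.1 (rt b)) = rt b
    rw [g.2, t.2]
  · funext v
    rfl

lemma cnt_inv {N : ℕ} {C : Set (V b → UI)} (hC : LocC N C) (t : KK b) (x : V b → UI) :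
    cnt N C (cmp t x) = cnt N C x := by
  classical
  unfold cnt
  have key : ∀ r ∈ II b N, (cmp (rep N r) (cmp t x) ∈ C ↔ cmp (rep N (res N t ∘ r)) x ∈ C) := by
    intro r hr
    apply hC
    intro v hv
    show x (t.1 ((rep N r).1 v)) = x ((rep N (res N t ∘ r)).1 v)
    have h1 : ((rep N r).1 v) = (r ⟨v, hv⟩).1 := by
      have := congrFun (res_rep hr) ⟨v, hv⟩
      exact congrArg Subtype.val this
    have h2 : ((rep N (res N t ∘ r)).1 v) = ((res N t ∘ r) ⟨v, hv⟩).1 := by
      have := congrFun (res_rep (comp_mem_II hr t)) ⟨v, hv⟩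
      exact congrArg Subtype.val this
    rw [h1, h2]
    rfl
  have hinv1 : ∀ r : BB b N → BB b N, res N (kinv t) ∘ (res N t ∘ r) = r := by
    intro r
    funext v
    exact Subtype.ext (kinv_apply t _)
  have hinv2 : ∀ r : BB b N → BB b N, res N t ∘ (res N (kinv t) ∘ r) = r := by
    intro r
    funext v
    exact Subtype.ext (apply_kinv t _)
  refine Finset.card_bij' (fun r _ => res N t ∘ r) (fun r _ => res N (kinv t) ∘ r) ?_ ?_ ?_ ?_
  · intro r hr
    rw [Finset.mem_filter] at hr ⊢
    exact ⟨comp_mem_II hr.1 t, (key r hr.1).1 hr.2⟩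
  · intro r hr
    rw [Finset.mem_filter] at hr ⊢
    refine ⟨comp_mem_II hr.1 (kinv t), ?_⟩
    rw [key _ (comp_mem_II hr.1 (kinv t)), hinv2]
    exact hr.2
  · intro r _
    exact hinv1 r
  · intro r _
    exact hinv2 r

lemma measurable_cmp (g : KK b) : Measurable (cmp g) :=
  measurable_pi_lambda _ (fun i => measurable_pi_apply _)

lemma measurable_cnt (N : ℕ) {C : Set (V b → UI)} (hC : MeasurableSet C) :
    Measurable (fun x => cnt N C x) := by
  classical
  unfold cnt
  simp_rw [Finset.card_filter]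
  refine Finset.measurable_sum _ (fun r _ => ?_)
  exact Measurable.ite (measurable_cmp _ hC) measurable_const measurable_const

lemma noise_comp (e : V b ≃ V b) :
    (noise (V b)).map (fun x v => x (e v)) = noise (V b) := by
  classical
  apply Measure.eq_infinitePi
  intro s t ht
  have hm : Measurable (fun (z : V b → UI) i => z (e i)) :=
    measurable_pi_lambda _ (fun i => measurable_pi_apply _)
  rw [Measure.map_apply hm (MeasurableSet.pi s.countable_toSet (fun i _ => ht i))]
  have h1 : (fun (z : V b → UI) i => z (e i)) ⁻¹' (Set.pi (s : Set (V b)) t) =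
      Set.pi ((s.image e : Finset (V b)) : Set (V b)) (fun i => t (e.symm i)) := by
    ext z
    simp only [Set.mem_preimage, Set.mem_pi, Finset.coe_image, Set.mem_image, Finset.mem_coe,
      forall_exists_index, and_imp, forall_apply_eq_imp_iff₂]
    constructor
    · intro h a ha
      have h3 := h a ha
      have h4 : e.symm (e a) = a := e.symm_apply_apply a
      rw [h4]; exact h3
    · intro h a ha
      have h3 := h a ha
      have h4 : e.symm (e a) = a := e.symm_apply_apply a
      rw [h4] at h3; exact h3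
  rw [h1, Measure.infinitePi_pi _ (fun i _ => ht _)]
  rw [Finset.prod_image (fun x _ y _ h => e.injective h)]
  refine Finset.prod_congr rfl (fun i _ => ?_)
  rw [e.symm_apply_apply]

lemma noise_cmp (g : KK b) : (noise (V b)).map (cmp g) = noise (V b) := noise_comp g.1.toEquiv

lemma lintegral_cnt (N : ℕ) {D : Set (V b → UI)} (hD : MeasurableSet D) :
    ∫⁻ x, (cnt N D x : ENNReal) ∂(noise (V b)) = (II b N).card * noise (V b) D := by
  classical
  have h1 : ∀ x : V b → UI, (cnt N D x : ENNReal) =
      ∑ r ∈ II b N, (cmp (rep N r) ⁻¹' D).indicator 1 x := by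
    intro x
    unfold cnt
    rw [Finset.card_filter]
    push_cast
    refine Finset.sum_congr rfl (fun r _ => ?_)
    simp only [Set.indicator, Set.mem_preimage, Pi.one_apply]
  simp_rw [h1]
  rw [lintegral_finsetSum _ (fun r _ => measurable_one.indicator (measurable_cmp _ hD))]
  have h2 : ∀ r ∈ II b N, ∫⁻ x, (cmp (rep N r) ⁻¹' D).indicator (1 : (V b → UI) → ENNReal) x
      ∂(noise (V b)) = noise (V b) D := by
    intro r _
    rw [lintegral_indicator_one (measurable_cmp _ hD), ← Measure.map_apply (measurable_cmp _) hD,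
      noise_cmp]
  rw [Finset.sum_congr rfl h2, Finset.sum_const, nsmul_eq_mul]

lemma bad_le (N : ℕ) {D : Set (V b → UI)} (hD : MeasurableSet D) :
    noise (V b) {x | (II b N).card ≤ 2 * cnt N D x} ≤ 2 * noise (V b) D := by
  have h0 : ((II b N).card : ENNReal) ≠ 0 := by
    exact_mod_cast (II_card_pos b N).ne'
  have h0' : ((II b N).card : ENNReal) ≠ ⊤ := ENNReal.natCast_ne_top _
  have h1 := mul_meas_ge_le_lintegral (μ := noise (V b)) (f := fun x => ((2 * cnt N D x : ℕ) : ENNReal))
    ((measurable_from_top (f := fun n : ℕ => ((2 * n : ℕ) : ENNReal))).comp (measurable_cnt N hD))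
    ((II b N).card : ENNReal)
  have h2 : {x | ((II b N).card : ENNReal) ≤ ((2 * cnt N D x : ℕ) : ENNReal)} =
      {x : V b → UI | (II b N).card ≤ 2 * cnt N D x} := by
    ext x
    simp only [Set.mem_ofPred_eq, Nat.cast_le]
  rw [h2] at h1
  have h3 : ∫⁻ x, ((2 * cnt N D x : ℕ) : ENNReal) ∂(noise (V b)) =
      (II b N).card * (2 * noise (V b) D) := by
    have : ∀ x : V b → UI, ((2 * cnt N D x : ℕ) : ENNReal) = 2 * (cnt N D x : ENNReal) := by
      intro x; push_cast; ring
    simp_rw [this]
    rw [lintegral_const_mul' _ _ (by norm_num), lintegral_cnt N hD]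
    ring
  rw [h3] at h1
  exact (ENNReal.mul_le_mul_iff_right h0 h0').1 h1

/-- approximation of a measurable set by local sets -/
lemma exists_local (A : Set (V b → UI)) (hA : MeasurableSet A) (ε : ENNReal) (hε : 0 < ε) :
    ∃ (N : ℕ) (C : Set (V b → UI)), MeasurableSet C ∧ LocC N C ∧
      noise (V b) (symmDiff C A) < ε := by
  classical
  obtain ⟨C, hC, h⟩ := exists_measure_symmDiff_lt_of_generateFrom_isSetRing
    (μ := noise (V b)) (C := measurableCylinders (fun _ : V b => UI))
    isSetRing_measurableCylinders ⟨{Set.univ}, Set.countable_singleton _, by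
      rw [Set.singleton_subset_iff]; exact univ_mem_measurableCylinders _, by simp⟩
    generateFrom_measurableCylinders.symm hA hε
  obtain ⟨s, S, hS, rfl⟩ := (mem_measurableCylinders C).1 hC
  refine ⟨s.sup len, cylinder s S, hS.cylinder s, ?_, h⟩
  intro x y hxy
  have : s.restrict x = s.restrict y := by
    funext v
    exact hxy v.1 (mem_Bl_rt.2 (Finset.le_sup v.2))
  rw [mem_cylinder, mem_cylinder, this]

open Classical in
theorem main : Spec.ExactEquiv := by
  intro b X hX hequiv
  set ν := noise (V b) with hν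
  set A : Set (V b → UI) := {x | X x (rt b) = true} with hA
  have hAm : MeasurableSet A := by
    have h1 : Measurable (fun x => X x (rt b)) := (measurable_pi_apply _).comp hX
    exact h1 (measurableSet_singleton true)
  have happ : ∀ n : ℕ, ∃ (N : ℕ) (C : Set (V b → UI)), MeasurableSet C ∧ LocC N C ∧
      ν (symmDiff C A) < (1 / 2 : ENNReal) ^ n := fun n =>
    exists_local A hAm _ (ENNReal.pow_pos (by norm_num) n)
  choose NN CC hCm hCl hCν using happ
  -- the invariant function
  let E : ℕ → Set (V b → UI) := fun n =>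
    {x | (II b (NN n)).card < 2 * cnt (NN n) (CC n) x}
  have hEm : ∀ n, MeasurableSet (E n) := fun n =>
    measurableSet_lt measurable_const ((measurable_from_top (f := fun k : ℕ => 2 * k)).comp
      (measurable_cnt (NN n) (hCm n)))
  let P : Set (V b → UI) := {x | ∀ᶠ n in atTop, x ∈ E n}
  have hPm : MeasurableSet P := by
    have : P = ⋃ n, ⋂ k, ⋂ (_ : n ≤ k), E k := by
      ext x
      simp only [P, Set.mem_iUnion, Set.mem_iInter]
      exact eventually_atTop
    rw [this]
    exact MeasurableSet.iUnion (fun n => MeasurableSet.iInter (fun k =>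
      MeasurableSet.iInter (fun _ => hEm k)))
  have hPinv : ∀ (t : KK b) (x : V b → UI), (cmp t x ∈ P ↔ x ∈ P) := by
    intro t x
    show (∀ᶠ n in atTop, cmp t x ∈ E n) ↔ (∀ᶠ n in atTop, x ∈ E n)
    refine eventually_congr (Eventually.of_forall (fun n => ?_))
    show (II b (NN n)).card < 2 * cnt (NN n) (CC n) (cmp t x) ↔
      (II b (NN n)).card < 2 * cnt (NN n) (CC n) x
    rw [cnt_inv (hCl n)]
  -- almost surely `x ∈ P ↔ x ∈ A`
  have hgood : ∀ᵐ x ∂ν, ∀ n : ℕ, ∀ r ∈ II b (NN n), (cmp (rep (NN n) r) x ∈ A ↔ x ∈ A) := by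
    rw [ae_all_iff]
    intro n
    rw [Finset.eventually_all]
    intro r _
    filter_upwards [hequiv (rep (NN n) r).1] with x hx
    have h1 := congrFun hx (rt b)
    have h2 : (rep (NN n) r).1 (rt b) = rt b := (rep (NN n) r).2
    rw [h2] at h1
    show X (cmp (rep (NN n) r) x) (rt b) = true ↔ X x (rt b) = true
    have h3 : X (cmp (rep (NN n) r) x) (rt b) = X x (rt b) := h1
    rw [h3]
  have hbad : ∀ᵐ x ∂ν, ∀ᶠ n in atTop,
      x ∉ {x : V b → UI | (II b (NN n)).card ≤ 2 * cnt (NN n) (symmDiff (CC n) A) x} := by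
    apply ae_eventually_notMem
    have h1 : ∀ n, ν {x : V b → UI | (II b (NN n)).card ≤ 2 * cnt (NN n) (symmDiff (CC n) A) x} ≤
        2 * (1 / 2 : ENNReal) ^ n := by
      intro n
      refine (bad_le (NN n) ((hCm n).symmDiff hAm)).trans ?_
      gcongr
      exact (hCν n).le
    refine ne_top_of_le_ne_top ?_ (ENNReal.tsum_le_tsum h1)
    rw [ENNReal.tsum_mul_left]
    refine ENNReal.mul_ne_top (by norm_num) ?_
    have h2 : ∑' n : ℕ, (1 / 2 : ENNReal) ^ n = (1 - 1 / 2)⁻¹ := ENNReal.tsum_geometric _
    rw [h2]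
    simp
  have hPA : ∀ᵐ x ∂ν, (x ∈ P ↔ x ∈ A) := by
    filter_upwards [hgood, hbad] with x hg hb
    have key : ∀ᶠ n in atTop, (x ∈ E n ↔ x ∈ A) := by
      filter_upwards [hb] with n hn
      have hn' : 2 * cnt (NN n) (symmDiff (CC n) A) x < (II b (NN n)).card := by
        simpa using hn
      by_cases hxA : x ∈ A
      · refine iff_of_true ?_ hxA
        show (II b (NN n)).card < 2 * cnt (NN n) (CC n) x
        have h1 : (II b (NN n)).card ≤ cnt (NN n) (CC n) x + cnt (NN n) (symmDiff (CC n) A) x := by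
          unfold cnt
          rw [← Finset.card_filter_add_card_filter_not (s := II b (NN n))
            (fun r => cmp (rep (NN n) r) x ∈ CC n)]
          refine Nat.add_le_add_left (Finset.card_le_card ?_) _
          intro r hr
          rw [Finset.mem_filter] at hr ⊢
          refine ⟨hr.1, Or.inr ⟨?_, hr.2⟩⟩
          exact (hg n r hr.1).2 hxA
        omega
      · refine iff_of_false ?_ hxA
        show ¬ ((II b (NN n)).card < 2 * cnt (NN n) (CC n) x)
        have h1 : cnt (NN n) (CC n) x ≤ cnt (NN n) (symmDiff (CC n) A) x := by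
          unfold cnt
          refine Finset.card_le_card ?_
          intro r hr
          rw [Finset.mem_filter] at hr ⊢
          refine ⟨hr.1, Or.inl ⟨hr.2, ?_⟩⟩
          intro h
          exact hxA ((hg n r hr.1).1 h)
        omega
    show (∀ᶠ n in atTop, x ∈ E n) ↔ x ∈ A
    rw [eventually_congr key]
    exact eventually_const
  -- the map
  let S : V b → (V b → UI) → (V b → UI) := fun v x w => x (mul v w)
  have hSm : ∀ v, Measurable (S v) := fun v => measurable_pi_lambda _ (fun i => measurable_pi_apply _)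
  have hSν : ∀ v, ν.map (S v) = ν := fun v => noise_comp (lmulE v)
  refine ⟨fun x v => decide (S v x ∈ P), ?_, ?_, ?_⟩
  · refine measurable_pi_lambda _ (fun v => ?_)
    have h1 : MeasurableSet {x | S v x ∈ P} := hSm v hPm
    refine measurable_to_bool ?_
    have h2 : (fun x => decide (S v x ∈ P)) ⁻¹' {true} = {x | S v x ∈ P} := by
      ext x
      simp
    rw [h2]
    exact h1
  · intro g x
    funext v
    -- `g ∘ mul v = mul (g v) ∘ s`
    let s : KK b := ⟨((lmulIso v).trans g).trans (lmulIso (inv (g v))), by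
      show mul (inv (g v)) (g (mul v (rt b))) = rt b
      rw [mul_rt, inv_mul']⟩
    have h1 : S v (fun w => x (g w)) = cmp s (S (g v) x) := by
      funext w
      show x (g (mul v w)) = x (mul (g v) (mul (inv (g v)) (g (mul v w))))
      rw [mul_inv_cancel_left']
    show decide (S v (fun w => x (g w)) ∈ P) = decide (S (g v) x ∈ P)
    rw [h1]
    exact decide_eq_decide.2 (hPinv s _)
  · have h1 : ∀ v, ∀ᵐ x ∂ν, (S v x ∈ P ↔ X x v = true) := by
      intro v
      have h2 : ∀ᵐ x ∂ν, (S v x ∈ P ↔ S v x ∈ A) := by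
        rw [← hSν v] at hPA
        exact ae_of_ae_map (hSm v).aemeasurable hPA
      filter_upwards [h2, hequiv (lmulIso v)] with x hx1 hx2
      rw [hx1]
      show X (S v x) (rt b) = true ↔ X x v = true
      have h3 : X (S v x) = fun w => X x (mul v w) := hx2
      rw [h3]
      show X x (mul v (rt b)) = true ↔ _
      rw [mul_rt]
    filter_upwards [ae_all_iff.2 h1] with x hx
    funext v
    show decide (S v x ∈ P) = X x v
    by_cases h : X x v = true
    · rw [h]; exact decide_eq_true ((hx v).2 h)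
    · have h2 : ¬ (S v x ∈ P) := fun h3 => h ((hx v).1 h3)
      rw [decide_eq_false h2]
      exact (Bool.eq_false_iff.2 h).symm

end Crest.Agent.IsgExact
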