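import Mathlib

set_option autoImplicit false

/-!
Shared library for S0241: two independent iid families form an iid family of pairs.
-/

open MeasureTheory ProbabilityTheory Filter Topology

namespace Crest.Agent.Isg

variable {ι X Y : Type*} [mX : MeasurableSpace X] [mY : MeasurableSpace Y]

lemma measurable_pairAt (i : ι) :
    Measurable (fun p : (ι → X) × (ι → Y) => (p.1 i, p.2 i)) :=
  ((measurable_pi_apply i).comp measurable_fst).prodMk
    ((measurable_pi_apply i).comp measurable_snd)

lemma prod_infinitePi_iIndepFun (μ : Measure X) (ν : Measure Y) [IsProbabilityMeasure μ]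
    [IsProbabilityMeasure ν] :
    iIndepFun (fun (i : ι) (p : (ι → X) × (ι → Y)) => (p.1 i, p.2 i))
      ((Measure.infinitePi (fun _ : ι => μ)).prod (Measure.infinitePi (fun _ : ι => ν))) := by
  classical
  rw [iIndepFun_iff_iIndep]
  set π : ι → Set (Set ((ι → X) × (ι → Y))) := fun v =>
    Set.preimage (fun p : (ι → X) × (ι → Y) => (p.1 v, p.2 v)) ''
      (Set.image2 (· ×ˢ ·) {s : Set X | MeasurableSet s} {t : Set Y | MeasurableSet t}) with hπ
  apply iIndepSets.iIndep (π := π)
  · intro v
    exact (measurable_pairAt v).comap_le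
  · intro v
    have := isPiSystem_prod (α := X) (β := Y)
    exact this.comap (fun p : (ι → X) × (ι → Y) => (p.1 v, p.2 v))
  · intro v
    rw [hπ]
    simp only
    rw [← MeasurableSpace.comap_generateFrom, generateFrom_prod]
  · rw [iIndepSets_iff]
    intro s f hf
    have hf' : ∀ v ∈ s, ∃ A : Set X, ∃ B : Set Y, MeasurableSet A ∧ MeasurableSet B ∧
        f v = (fun p : (ι → X) × (ι → Y) => (p.1 v, p.2 v)) ⁻¹' (A ×ˢ B) := by
      intro v hv
      obtain ⟨t, ⟨A, hA, B, hB, rfl⟩, ht⟩ := hf v hv
      exact ⟨A, B, hA, hB, ht.symm⟩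
    choose! A B hAm hBm hfAB using hf'
    have hprod : ∀ (s : Finset ι) (A : ι → Set X) (B : ι → Set Y),
        (∀ v ∈ s, MeasurableSet (A v)) → (∀ v ∈ s, MeasurableSet (B v)) →
        ((Measure.infinitePi (fun _ : ι => μ)).prod (Measure.infinitePi (fun _ : ι => ν)))
          (⋂ v ∈ s, (fun p : (ι → X) × (ι → Y) => (p.1 v, p.2 v)) ⁻¹' (A v ×ˢ B v)) =
          ∏ v ∈ s, (μ (A v) * ν (B v)) := by
      intro s A B hAm hBm
      have h2 : (⋂ v ∈ s, (fun p : (ι → X) × (ι → Y) => (p.1 v, p.2 v)) ⁻¹' (A v ×ˢ B v)) =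
          (Set.pi (s : Set ι) A) ×ˢ (Set.pi (s : Set ι) B) := by
        ext p
        simp only [Set.mem_iInter, Set.mem_preimage, Set.mem_prod, Set.mem_pi, Finset.mem_coe]
        exact ⟨fun h => ⟨fun v hv => (h v hv).1, fun v hv => (h v hv).2⟩,
          fun h v hv => ⟨h.1 v hv, h.2 v hv⟩⟩
      rw [h2, Measure.prod_prod]
      have h3 : Set.pi (s : Set ι) A = Set.pi (s : Set ι)
          (fun v => if v ∈ s then A v else Set.univ) := by
        apply Set.pi_congr rfl
        intro v hv
        rw [if_pos (Finset.mem_coe.1 hv)]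
      have h4 : Set.pi (s : Set ι) B = Set.pi (s : Set ι)
          (fun v => if v ∈ s then B v else Set.univ) := by
        apply Set.pi_congr rfl
        intro v hv
        rw [if_pos (Finset.mem_coe.1 hv)]
      have h6 := Measure.infinitePi_pi (μ := fun _ : ι => μ) (s := s)
        (t := fun v => if v ∈ s then A v else Set.univ)
        (fun v hv => by rw [if_pos hv]; exact hAm v hv)
      have h7 := Measure.infinitePi_pi (μ := fun _ : ι => ν) (s := s)
        (t := fun v => if v ∈ s then B v else Set.univ)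
        (fun v hv => by rw [if_pos hv]; exact hBm v hv)
      rw [h3, h4, h6, h7, ← Finset.prod_mul_distrib]
      apply Finset.prod_congr rfl
      intro v hv
      rw [if_pos hv, if_pos hv]
    have h4 : (⋂ v ∈ s, f v) =
        ⋂ v ∈ s, (fun p : (ι → X) × (ι → Y) => (p.1 v, p.2 v)) ⁻¹' (A v ×ˢ B v) :=
      Set.iInter₂_congr (fun v hv => hfAB v hv)
    rw [h4, hprod s A B hAm hBm]
    apply Finset.prod_congr rfl
    intro v hv
    have h5 := hprod {v} A B
      (by intro w hw; rw [Finset.mem_singleton] at hw; rw [hw]; exact hAm v hv)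
      (by intro w hw; rw [Finset.mem_singleton] at hw; rw [hw]; exact hBm v hv)
    rw [hfAB v hv]
    simpa using h5.symm

/-- Law of one pair. -/
lemma prod_infinitePi_map_pairAt (μ : Measure X) (ν : Measure Y) [IsProbabilityMeasure μ]
    [IsProbabilityMeasure ν] (i : ι) :
    ((Measure.infinitePi (fun _ : ι => μ)).prod (Measure.infinitePi (fun _ : ι => ν))).map
      (fun p : (ι → X) × (ι → Y) => (p.1 i, p.2 i)) = μ.prod ν := by
  have h := Measure.map_prod_map (Measure.infinitePi (fun _ : ι => μ))
    (Measure.infinitePi (fun _ : ι => ν)) (f := fun x : ι → X => x i) (g := fun y : ι → Y => y i)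
    (measurable_pi_apply i) (measurable_pi_apply i)
  rw [Measure.infinitePi_map_eval (fun _ : ι => μ) i,
    Measure.infinitePi_map_eval (fun _ : ι => ν) i] at h
  exact h.symm

/-- The pairs are iid. -/
lemma prod_infinitePi_map_pair (μ : Measure X) (ν : Measure Y) [IsProbabilityMeasure μ]
    [IsProbabilityMeasure ν] :
    ((Measure.infinitePi (fun _ : ι => μ)).prod (Measure.infinitePi (fun _ : ι => ν))).map
      (fun (p : (ι → X) × (ι → Y)) i => (p.1 i, p.2 i)) =
      Measure.infinitePi (fun _ : ι => μ.prod ν) := by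
  rw [(prod_infinitePi_iIndepFun μ ν).map_fun_eq_infinitePi_map (fun i => measurable_pairAt i)]
  congr 1
  funext i
  exact prod_infinitePi_map_pairAt μ ν i

end Crest.Agent.Isg
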