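import Crest.Agent.IsgSpec

set_option autoImplicit false

/-!
Module REAL1 of rid 160: real analysis of the observation channel.
-/

open MeasureTheory ProbabilityTheory Filter Topology

namespace Crest.Agent.IsgReal1

open Crest.Agent.Isg

theorem measurable_Gc : Measurable (fun p : ℝ × UI => Gc p.1 p.2) := by
  unfold Gc
  refine (continuous_projIcc (h := zero_le_one)).measurable.comp ?_
  have h1 : Measurable (fun p : ℝ × UI => (p.2 : ℝ)) := measurable_subtype_coe.comp measurable_snd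
  have h2 : Measurable (fun p : ℝ × UI => p.1) := measurable_fst
  fun_prop

theorem measurable_Fc : Measurable (fun p : ℝ × UI => Fc p.1 p.2) := by
  unfold Fc
  refine (continuous_projIcc (h := zero_le_one)).measurable.comp ?_
  have h1 : Measurable (fun p : ℝ × UI => (p.2 : ℝ)) := measurable_subtype_coe.comp measurable_snd
  have h2 : Measurable (fun p : ℝ × UI => p.1) := measurable_fst
  fun_prop

theorem coe_Fc {a : ℝ} (ha : |a| ≤ 1 / 2) (y : UI) :
    ((Fc a y : UI) : ℝ) = (y : ℝ) - a * ((y : ℝ) * (1 - y)) := by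
  obtain ⟨h1, h2⟩ := abs_le.1 ha
  have hy0 : (0 : ℝ) ≤ y := y.2.1
  have hy1 : (y : ℝ) ≤ 1 := y.2.2
  unfold Fc
  rw [Set.coe_projIcc, max_eq_right, min_eq_right]
  · nlinarith [mul_nonneg hy0 (sub_nonneg.2 hy1)]
  · refine le_min zero_le_one ?_
    nlinarith [mul_nonneg hy0 (sub_nonneg.2 hy1)]

theorem disc_pos {a : ℝ} (ha : |a| ≤ 1 / 2) (w : UI) : 0 < (1 - a) ^ 2 + 4 * a * w := by
  obtain ⟨h1, h2⟩ := abs_le.1 ha
  have hy0 : (0 : ℝ) ≤ w := w.2.1
  have hy1 : (w : ℝ) ≤ 1 := w.2.2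
  rcases le_total 0 a with h | h
  · have : 0 < 1 - a := by linarith
    positivity
  · nlinarith

theorem coe_Gc {a : ℝ} (ha : |a| ≤ 1 / 2) (w : UI) :
    ((Gc a w : UI) : ℝ) = 2 * (w : ℝ) / ((1 - a) + Real.sqrt ((1 - a) ^ 2 + 4 * a * w)) := by
  obtain ⟨h1, h2⟩ := abs_le.1 ha
  have hy0 : (0 : ℝ) ≤ w := w.2.1
  have hy1 : (w : ℝ) ≤ 1 := w.2.2
  have hd := disc_pos ha w
  have hs : 0 < Real.sqrt ((1 - a) ^ 2 + 4 * a * w) := Real.sqrt_pos.2 hd
  have hden : 0 < (1 - a) + Real.sqrt ((1 - a) ^ 2 + 4 * a * w) := by linarith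
  unfold Gc
  rw [Set.coe_projIcc, max_eq_right, min_eq_right]
  · rw [div_le_one hden]
    have : 2 * (w : ℝ) - (1 - a) ≤ Real.sqrt ((1 - a) ^ 2 + 4 * a * w) := by
      apply Real.le_sqrt_of_sq_le
      nlinarith [mul_nonneg hy0 (sub_nonneg.2 hy1)]
    linarith
  · refine le_min zero_le_one ?_
    positivity

theorem Gc_quad {a : ℝ} (ha : |a| ≤ 1 / 2) (w : UI) :
    ((Gc a w : UI) : ℝ) - a * (((Gc a w : UI) : ℝ) * (1 - (Gc a w : UI))) = w := by
  obtain ⟨h1, h2⟩ := abs_le.1 ha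
  have hd := disc_pos ha w
  have hs : 0 < Real.sqrt ((1 - a) ^ 2 + 4 * a * w) := Real.sqrt_pos.2 hd
  have hden : (1 - a) + Real.sqrt ((1 - a) ^ 2 + 4 * a * w) ≠ 0 := by
    have : 0 < (1 - a) + Real.sqrt ((1 - a) ^ 2 + 4 * a * w) := by linarith
    exact this.ne'
  have hsq := Real.sq_sqrt hd.le
  rw [coe_Gc ha]
  set s := Real.sqrt ((1 - a) ^ 2 + 4 * a * w) with hsdef
  field_simp
  linear_combination (-(w : ℝ)) * hsq

theorem Fc_Gc {a : ℝ} (ha : |a| ≤ 1 / 2) (w : UI) : Fc a (Gc a w) = w := by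
  apply Subtype.ext
  rw [coe_Fc ha, Gc_quad ha]

theorem Fc_strictMono {a : ℝ} (ha : |a| ≤ 1 / 2) : StrictMono (Fc a) := by
  intro x y hxy
  obtain ⟨h1, h2⟩ := abs_le.1 ha
  have hx0 : (0 : ℝ) ≤ x := x.2.1
  have hy1 : (y : ℝ) ≤ 1 := y.2.2
  have hxy' : (x : ℝ) < y := hxy
  rw [← Subtype.coe_lt_coe, coe_Fc ha, coe_Fc ha]
  have h3 : (y : ℝ) - a * (y * (1 - y)) - (x - a * (x * (1 - x))) =
      (y - x) * (1 - a * (1 - x - y)) := by ring
  have h4 : 0 < 1 - a * (1 - x - y) := by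
    have h5 : |a * (1 - (x : ℝ) - y)| ≤ 1 / 2 * 1 := by
      rw [abs_mul]
      apply mul_le_mul ha _ (abs_nonneg _) (by norm_num)
      rw [abs_le]; constructor <;> linarith
    have := (abs_le.1 h5).2
    linarith
  nlinarith [mul_pos (sub_pos.2 hxy') h4]

theorem Gc_Fc {a : ℝ} (ha : |a| ≤ 1 / 2) (y : UI) : Gc a (Fc a y) = y :=
  (Fc_strictMono ha).injective (Fc_Gc ha _)

theorem lint_Iic {a : ℝ} (ha : |a| ≤ 1 / 2) (g : UI) :
    ∫⁻ y in Set.Iic g, ENNReal.ofReal (1 + a * (2 * (y : ℝ) - 1)) =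
      ENNReal.ofReal ((g : ℝ) - a * (g * (1 - g))) := by
  obtain ⟨h1, h2⟩ := abs_le.1 ha
  have hg0 : (0 : ℝ) ≤ g := g.2.1
  have hg1 : (g : ℝ) ≤ 1 := g.2.2
  have h3 := unitInterval.measurePreserving_coe.setLIntegral_comp_preimage_emb
    unitInterval.measurableEmbedding_coe (fun x => ENNReal.ofReal (1 + a * (2 * x - 1)))
    (Set.Iic (g : ℝ))
  have h4 : ((↑) : UI → ℝ) ⁻¹' Set.Iic (g : ℝ) = Set.Iic g := by
    ext x; simp
  rw [h4] at h3
  rw [h3, Measure.restrict_restrict measurableSet_Iic]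
  have h5 : Set.Iic (g : ℝ) ∩ Set.Icc 0 1 = Set.Icc 0 (g : ℝ) := by
    ext x
    simp only [Set.mem_inter_iff, Set.mem_Iic, Set.mem_Icc]
    constructor
    · rintro ⟨h6, h7, h8⟩; exact ⟨h7, h6⟩
    · rintro ⟨h6, h7⟩; exact ⟨h7, h6, h7.trans hg1⟩
  have h5' : Set.Iic (g : ℝ) ∩ unitInterval = Set.Icc 0 (g : ℝ) := h5
  rw [h5', ← ofReal_integral_eq_lintegral_ofReal]
  · congr 1
    rw [integral_Icc_eq_integral_Ioc, ← intervalIntegral.integral_of_le hg0]
    rw [intervalIntegral.integral_eq_sub_of_hasDerivAt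
      (f := fun x => x + a * (x ^ 2 - x))]
    · ring
    · intro x _
      have h6 : HasDerivAt (fun x : ℝ => x + a * (x ^ 2 - x)) (1 + a * (2 * x ^ 1 * 1 - 1)) x := by
        exact ((hasDerivAt_id x).add ((((hasDerivAt_id x).pow 2).sub (hasDerivAt_id x)).const_mul a))
      have h7 : 1 + a * (2 * x - 1) = 1 + a * (2 * x ^ 1 * 1 - 1) := by ring
      rw [h7]
      exact h6
    · apply Continuous.intervalIntegrable
      fun_prop
  · apply Continuous.integrableOn_Icc
    fun_prop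
  · rw [Filter.EventuallyLE, ae_restrict_iff' measurableSet_Icc]
    refine Filter.Eventually.of_forall ?_
    intro x hx
    simp only [Pi.zero_apply]
    have hx0 := hx.1
    have hx1 := hx.2.trans hg1
    nlinarith

theorem map_Fc {a : ℝ} (ha : |a| ≤ 1 / 2) :
    ((volume : Measure UI).withDensity
      (fun y => ENNReal.ofReal (1 + a * (2 * (y : ℝ) - 1)))).map (Fc a) = volume := by
  have hmF : Measurable (Fc a) := measurable_Fc.comp (measurable_const.prodMk measurable_id)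
  symm
  refine Measure.ext_of_Iic _ _ ?_
  intro t
  rw [Measure.map_apply hmF measurableSet_Iic]
  have h1 : Fc a ⁻¹' Set.Iic t = Set.Iic (Gc a t) := by
    ext y
    simp only [Set.mem_preimage, Set.mem_Iic]
    conv_lhs => rw [← Fc_Gc ha t]
    exact (Fc_strictMono ha).le_iff_le
  rw [h1, withDensity_apply _ measurableSet_Iic, lint_Iic ha, Gc_quad ha]
  have h2 := lint_Iic (a := 0) (by norm_num) t
  simp only [zero_mul, add_zero, ENNReal.ofReal_one, sub_zero] at h2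
  rw [← h2]
  simp

theorem volume_map_Gc {a : ℝ} (ha : |a| ≤ 1 / 2) :
    (volume : Measure UI).map (Gc a) = (volume : Measure UI).withDensity
      (fun y => ENNReal.ofReal (1 + a * (2 * (y : ℝ) - 1))) := by
  have hmF : Measurable (Fc a) := measurable_Fc.comp (measurable_const.prodMk measurable_id)
  have hmG : Measurable (Gc a) := measurable_Gc.comp (measurable_const.prodMk measurable_id)
  conv_lhs => rw [← map_Fc ha]
  rw [Measure.map_map hmG hmF]
  have : Gc a ∘ Fc a = id := by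
    ext y
    simp [Gc_Fc ha]
  rw [this, Measure.map_id]

theorem measurable_dens (a : ℝ) :
    Measurable (fun y : UI => ENNReal.ofReal (1 + a * (2 * (y : ℝ) - 1))) := by
  have h1 : Measurable (fun y : UI => (y : ℝ)) := measurable_subtype_coe
  fun_prop

theorem volume_map_obs {e : ℝ} (he0 : 0 ≤ e) (he : e ≤ 1 / 2) (s : Bool) :
    (volume : Measure UI).map (obs e s) =
      (volume : Measure UI).withDensity
        (fun y => ENNReal.ofReal (1 + e * sg s * (2 * (y : ℝ) - 1))) := by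
  have hea : |e| ≤ 1 / 2 := by rw [abs_of_nonneg he0]; exact he
  have hmG : Measurable (Gc e) := measurable_Gc.comp (measurable_const.prodMk measurable_id)
  cases s with
  | true =>
    have h1 : obs e true = Gc e := by
      funext w; simp [obs]
    rw [h1, volume_map_Gc hea]
    simp [sg]
  | false =>
    have h1 : obs e false = unitInterval.symm ∘ Gc e := by
      funext w; simp [obs]
    rw [h1, ← Measure.map_map unitInterval.measurable_symm hmG, volume_map_Gc hea]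
    ext s hs
    rw [Measure.map_apply unitInterval.measurable_symm hs,
      withDensity_apply _ (unitInterval.measurable_symm hs), withDensity_apply _ hs]
    have h2 := unitInterval.measurePreserving_symm.setLIntegral_comp_preimage hs
      (measurable_dens (e * sg false))
    rw [← h2]
    congr 1
    funext y
    simp only [sg, unitInterval.coe_symm_eq]
    congr 1
    simp
    ring

theorem den_pos {z m : ℝ} {e : ℝ} (he : e ≤ 1 / 2) (hz : |z| ≤ e) (hm : |m| ≤ 1) :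
    1 / 2 ≤ 1 + z * m := by
  have h1 : |z * m| ≤ 1 / 2 * 1 := by
    rw [abs_mul]
    exact mul_le_mul (hz.trans he) hm (abs_nonneg _) (by norm_num)
  have := (abs_le.1 h1).1
  linarith

theorem abs_z_le {e : ℝ} (he0 : 0 ≤ e) (g : UI) : |e * (2 * (g : ℝ) - 1)| ≤ e := by
  have hg0 : (0 : ℝ) ≤ g := g.2.1
  have hg1 : (g : ℝ) ≤ 1 := g.2.2
  rw [abs_mul, abs_of_nonneg he0]
  have : |2 * (g : ℝ) - 1| ≤ 1 := by rw [abs_le]; constructor <;> linarith
  calc e * |2 * (g : ℝ) - 1| ≤ e * 1 := mul_le_mul_of_nonneg_left this he0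
    _ = e := mul_one e

theorem abs_em {e m : ℝ} (he0 : 0 ≤ e) (he : e ≤ 1 / 2) (hm : |m| ≤ 1) : |e * m| ≤ 1 / 2 := by
  rw [abs_mul, abs_of_nonneg he0]
  calc e * |m| ≤ 1 / 2 * 1 := mul_le_mul he hm (abs_nonneg _) (by norm_num)
    _ = 1 / 2 := by norm_num

theorem Gc_lip {a a' : ℝ} (ha : |a| ≤ 1 / 2) (ha' : |a'| ≤ 1 / 2) (w : UI) :
    |((Gc a w : UI) : ℝ) - (Gc a' w : UI)| ≤ |a - a'| / 2 := by
  have h1 := Gc_quad ha w
  have h2 := Gc_quad ha' w
  set g : ℝ := ((Gc a w : UI) : ℝ) with hg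
  set g' : ℝ := ((Gc a' w : UI) : ℝ) with hg'
  have hg0 : 0 ≤ g := (Gc a w).2.1
  have hg1 : g ≤ 1 := (Gc a w).2.2
  have hg0' : 0 ≤ g' := (Gc a' w).2.1
  have hg1' : g' ≤ 1 := (Gc a' w).2.2
  have h3 : (g - g') * (1 - a * (1 - g - g')) = (a - a') * (g' * (1 - g')) := by
    linear_combination h1 - h2
  have h4 : 1 / 2 ≤ 1 - a * (1 - g - g') := by
    have h5 : |a * (1 - g - g')| ≤ 1 / 2 * 1 := by
      rw [abs_mul]
      apply mul_le_mul ha _ (abs_nonneg _) (by norm_num)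
      rw [abs_le]; constructor <;> linarith
    have := (abs_le.1 h5).2
    linarith
  have h5 : |g - g'| * (1 - a * (1 - g - g')) = |a - a'| * (g' * (1 - g')) := by
    have h6 := congrArg abs h3
    rw [abs_mul, abs_mul, abs_of_nonneg (by linarith : (0 : ℝ) ≤ 1 - a * (1 - g - g')),
      abs_of_nonneg (mul_nonneg hg0' (by linarith : (0 : ℝ) ≤ 1 - g'))] at h6
    exact h6
  have h6 : g' * (1 - g') ≤ 1 / 4 := by nlinarith [sq_nonneg (g' - 1 / 2)]
  have h7 : |g - g'| * (1 / 2) ≤ |g - g'| * (1 - a * (1 - g - g')) :=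
    mul_le_mul_of_nonneg_left h4 (abs_nonneg _)
  have h8 : |a - a'| * (g' * (1 - g')) ≤ |a - a'| * (1 / 4) :=
    mul_le_mul_of_nonneg_left h6 (abs_nonneg _)
  linarith

theorem pw_bound {e m : ℝ} (he0 : 0 ≤ e) (he : e ≤ 1 / 2) (hm : |m| ≤ 1) (w : UI) :
    |pw e m w| ≤ 2 * e := by
  unfold pw
  have h1 := abs_z_le he0 (Gc (e * m) w)
  have h2 := den_pos he h1 hm
  rw [abs_div, abs_of_pos (by linarith : (0 : ℝ) < 1 + e * (2 * ((Gc (e * m) w : UI) : ℝ) - 1) * m),
    div_le_iff₀ (by linarith)]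
  nlinarith

theorem pw_lip {e m m' : ℝ} (he0 : 0 ≤ e) (he : e ≤ 1 / 2) (hm : |m| ≤ 1) (hm' : |m'| ≤ 1)
    (w : UI) : |pw e m w - pw e m' w| ≤ 8 * e ^ 2 * |m - m'| := by
  unfold pw
  have h1 := abs_z_le he0 (Gc (e * m) w)
  have h2 := den_pos he h1 hm
  have h1' := abs_z_le he0 (Gc (e * m') w)
  have h2' := den_pos he h1' hm'
  have h3 := Gc_lip (abs_em he0 he hm) (abs_em he0 he hm') w
  set g : ℝ := ((Gc (e * m) w : UI) : ℝ) with hg
  set g' : ℝ := ((Gc (e * m') w : UI) : ℝ) with hg'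
  set z : ℝ := e * (2 * g - 1) with hz
  set z' : ℝ := e * (2 * g' - 1) with hz'
  have h4 : |e * m - e * m'| = e * |m - m'| := by
    rw [← mul_sub, abs_mul, abs_of_nonneg he0]
  rw [h4] at h3
  have h5 : |z - z'| ≤ e ^ 2 * |m - m'| := by
    have h6 : z - z' = 2 * e * (g - g') := by rw [hz, hz']; ring
    rw [h6, abs_mul, abs_of_nonneg (by positivity : (0 : ℝ) ≤ 2 * e)]
    calc 2 * e * |g - g'| ≤ 2 * e * (e * |m - m'| / 2) :=
          mul_le_mul_of_nonneg_left h3 (by positivity)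
      _ = e ^ 2 * |m - m'| := by ring
  have hd : (1 + z * m) ≠ 0 := by linarith
  have hd' : (1 + z' * m') ≠ 0 := by linarith
  have h6 : z / (1 + z * m) - z' / (1 + z' * m') =
      ((z - z') + z * z' * (m' - m)) / ((1 + z * m) * (1 + z' * m')) := by
    rw [div_sub_div _ _ hd hd']
    congr 1
    ring
  rw [h6, abs_div]
  have hpos : 0 < (1 + z * m) * (1 + z' * m') := mul_pos (by linarith) (by linarith)
  rw [abs_of_pos hpos, div_le_iff₀ hpos]
  have h7 : |z - z' + z * z' * (m' - m)| ≤ 2 * e ^ 2 * |m - m'| := by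
    have h8 : |z * z' * (m' - m)| ≤ e ^ 2 * |m - m'| := by
      rw [abs_mul, abs_mul, abs_sub_comm m' m]
      have : |z| * |z'| ≤ e * e := mul_le_mul h1 h1' (abs_nonneg _) he0
      calc |z| * |z'| * |m - m'| ≤ e * e * |m - m'| :=
            mul_le_mul_of_nonneg_right this (abs_nonneg _)
        _ = e ^ 2 * |m - m'| := by ring
    calc |z - z' + z * z' * (m' - m)| ≤ |z - z'| + |z * z' * (m' - m)| := abs_add_le _ _
      _ ≤ 2 * e ^ 2 * |m - m'| := by linarith
  have h9 : 1 / 4 ≤ (1 + z * m) * (1 + z' * m') := by nlinarith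
  have h10 : 0 ≤ 8 * e ^ 2 * |m - m'| := by positivity
  calc |z - z' + z * z' * (m' - m)| ≤ 2 * e ^ 2 * |m - m'| := h7
    _ = 8 * e ^ 2 * |m - m'| * (1 / 4) := by ring
    _ ≤ 8 * e ^ 2 * |m - m'| * ((1 + z * m) * (1 + z' * m')) :=
      mul_le_mul_of_nonneg_left h9 h10

theorem pw_Fc {e m : ℝ} (he0 : 0 ≤ e) (he : e ≤ 1 / 2) (hm : |m| ≤ 1) (y : UI) :
    pw e m (Fc (e * m) y) =
      (e * (2 * (y : ℝ) - 1)) / (1 + (e * (2 * (y : ℝ) - 1)) * m) := by
  unfold pw
  rw [Gc_Fc (abs_em he0 he hm)]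

theorem measurable_pw (e m : ℝ) : Measurable (pw e m) := by
  unfold pw
  have hmG : Measurable (Gc (e * m)) := measurable_Gc.comp (measurable_const.prodMk measurable_id)
  have h1 : Measurable (fun w : UI => ((Gc (e * m) w : UI) : ℝ)) :=
    measurable_subtype_coe.comp hmG
  fun_prop

theorem integral_lin : ∫ y : UI, (2 * (y : ℝ) - 1) = 0 := by
  have h1 : ∫ y : UI, (2 * ((unitInterval.symm y : UI) : ℝ) - 1) = ∫ y : UI, (2 * (y : ℝ) - 1) := by
    have h2 := unitInterval.measurePreserving_symm.integral_comp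
      unitInterval.symmMeasurableEquiv.measurableEmbedding (fun y : UI => (2 * (y : ℝ) - 1))
    exact h2
  have h3 : ∫ y : UI, (2 * ((unitInterval.symm y : UI) : ℝ) - 1) = -∫ y : UI, (2 * (y : ℝ) - 1) := by
    rw [← integral_neg]
    congr 1
    funext y
    rw [unitInterval.coe_symm_eq]
    ring
  linarith

theorem integral_pw {e m : ℝ} (he0 : 0 ≤ e) (he : e ≤ 1 / 2) (hm : |m| ≤ 1) :
    ∫ w, pw e m w = 0 := by
  have ha := abs_em he0 he hm
  have hmF : Measurable (Fc (e * m)) := measurable_Fc.comp (measurable_const.prodMk measurable_id)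
  conv_lhs => rw [← map_Fc ha]
  rw [integral_map hmF.aemeasurable (measurable_pw e m).aestronglyMeasurable]
  rw [integral_withDensity_eq_integral_toReal_smul (measurable_dens (e * m))
    (Filter.Eventually.of_forall fun _ => ENNReal.ofReal_lt_top)]
  have h1 : (fun y : UI => (ENNReal.ofReal (1 + e * m * (2 * (y : ℝ) - 1))).toReal •
      pw e m (Fc (e * m) y)) = fun y : UI => e * (2 * (y : ℝ) - 1) := by
    funext y
    have h2 := den_pos he (abs_z_le he0 y) hm
    have h3 : 1 + e * m * (2 * (y : ℝ) - 1) = 1 + e * (2 * (y : ℝ) - 1) * m := by ring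
    rw [pw_Fc he0 he hm, h3, ENNReal.toReal_ofReal (by linarith), smul_eq_mul]
    have h4 : 1 + e * (2 * (y : ℝ) - 1) * m ≠ 0 := by linarith
    field_simp
  rw [h1, integral_const_mul, integral_lin, mul_zero]

theorem main : Spec.Real1 := by
  refine ⟨measurable_Gc, measurable_Fc, fun a ha y => ⟨Gc_Fc ha y, Fc_Gc ha y⟩,
    fun a ha => map_Fc ha, fun e he0 he s => volume_map_obs he0 he s, ?_⟩
  intro e m m' he0 he hm hm'
  exact ⟨fun w => ⟨pw_bound he0 he hm w, pw_lip he0 he hm hm' w⟩, integral_pw he0 he hm,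
    fun y => pw_Fc he0 he hm y⟩

end Crest.Agent.IsgReal1
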