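import Crest.Agent.IsgEqvB
import Crest.Agent.IsgReal1
import Crest.Agent.IsgIndep2
import Crest.Agent.H14Read

set_option autoImplicit false

/-!
Module FINAL for S0241: from the reconstruction of the observations to the factor map.
-/

open MeasureTheory ProbabilityTheory Filter Topology

namespace Crest.Agent.IsgFinal

open Crest.Agent.Isg

variable {b : ℕ}

/-! ### Law of large numbers -/

lemma measurable_G : Measurable (fun q : UI × UI => ((Gc (str q.1) q.2 : UI) : ℝ) - 1 / 2) := by
  have h1 : Measurable (fun q : UI × UI => str (q.1 : ℝ)) :=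
    measurable_str.comp (measurable_subtype_coe.comp measurable_fst)
  exact (measurable_subtype_coe.comp (IsgReal1.measurable_Gc.comp
    (h1.prodMk measurable_snd))).sub_const _

lemma abs_sub_half (y : UI) : |(y : ℝ) - 1 / 2| ≤ 1 := by
  have h1 := y.2.1
  have h2 := y.2.2
  rw [abs_le]; constructor <;> linarith

lemma inner_integral {e : ℝ} (he0 : 0 ≤ e) (he : e ≤ 1 / 2) :
    ∫ w : UI, ((Gc e w : UI) : ℝ) - 1 / 2 = e / 6 := by
  have hea : |e| ≤ 1 / 2 := by rw [abs_of_nonneg he0]; exact he
  have hmG : Measurable (Gc e) :=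
    IsgReal1.measurable_Gc.comp (measurable_const.prodMk measurable_id)
  have hm : Measurable (fun t : UI => (t : ℝ) - 1 / 2) := measurable_subtype_coe.sub_const _
  have h1 : ∫ w : UI, ((Gc e w : UI) : ℝ) - 1 / 2 =
      ∫ t : UI, (t : ℝ) - 1 / 2 ∂((volume : Measure UI).map (Gc e)) := by
    rw [integral_map hmG.aemeasurable hm.aestronglyMeasurable]
  rw [h1, IsgReal1.volume_map_Gc hea]
  rw [integral_withDensity_eq_integral_toReal_smul (IsgReal1.measurable_dens e)
    (Filter.Eventually.of_forall fun _ => ENNReal.ofReal_lt_top)]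
  have h2 : ∫ t : UI, (ENNReal.ofReal (1 + e * (2 * (t : ℝ) - 1))).toReal • ((t:ℝ) - 1 / 2) =
      ∫ t : UI, (1 + e * (2 * (t:ℝ) - 1)) * ((t:ℝ) - 1 / 2) := by
    congr 1
    funext t
    have ht0 := t.2.1
    have ht1 := t.2.2
    rw [ENNReal.toReal_ofReal (by nlinarith), smul_eq_mul]
  rw [h2]
  have hmp := unitInterval.measurePreserving_coe
  have h3 : ∫ t : UI, (1 + e * (2 * (t:ℝ) - 1)) * ((t:ℝ) - 1 / 2) =
      ∫ t in unitInterval, (1 + e * (2 * t - 1)) * (t - 1 / 2) :=
    hmp.integral_comp unitInterval.measurableEmbedding_coe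
      (fun t : ℝ => (1 + e * (2 * t - 1)) * (t - 1 / 2))
  rw [h3]
  have h4 : ∫ t in unitInterval, (1 + e * (2 * t - 1)) * (t - 1 / 2) =
      ∫ t in (0:ℝ)..1, (1 + e * (2 * t - 1)) * (t - 1 / 2) := by
    rw [intervalIntegral.integral_of_le zero_le_one, ← integral_Icc_eq_integral_Ioc]
  rw [h4]
  have hd : ∀ t ∈ Set.uIcc (0:ℝ) 1, HasDerivAt
      (fun t : ℝ => (t - 1 / 2) ^ 2 / 2 + e * 2 * ((t - 1 / 2) ^ 3 / 3))
      ((1 + e * (2 * t - 1)) * (t - 1 / 2)) t := by
    intro t _
    have a1 : HasDerivAt (fun t : ℝ => t - 1 / 2) 1 t := (hasDerivAt_id t).sub_const _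
    have a2 := ((a1.pow 2).div_const 2).add (((a1.pow 3).div_const 3).const_mul (e * 2))
    refine a2.congr_deriv ?_
    simp
    ring
  rw [intervalIntegral.integral_eq_sub_of_hasDerivAt hd]
  · ring
  · apply Continuous.intervalIntegrable; fun_prop

lemma integrable_G : Integrable (fun q : UI × UI => ((Gc (str q.1) q.2 : UI) : ℝ) - 1 / 2)
    ((volume : Measure UI).prod (volume : Measure UI)) := by
  apply Integrable.of_bound measurable_G.aestronglyMeasurable 1
  exact Filter.Eventually.of_forall (fun q => by rw [Real.norm_eq_abs]; exact abs_sub_half _)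

/-- The mean. -/
noncomputable def cbar : ℝ := ∫ q, ((Gc (str q.1) q.2 : UI) : ℝ) - 1 / 2
  ∂((volume : Measure UI).prod (volume : Measure UI))

lemma cbar_pos : 0 < cbar := by
  unfold cbar
  rw [integral_prod _ integrable_G]
  have h1 : ∀ u : UI, ∫ w : UI, ((Gc (str u) w : UI) : ℝ) - 1 / 2 = str u / 6 := fun u =>
    inner_integral (str_nonneg _) (str_le_half _)
  simp_rw [h1]
  rw [integral_pos_iff_support_of_nonneg]
  · have h2 : Function.support (fun u : UI => str (u : ℝ) / 6) = {x : UI | x = 0 ∨ x = 1}ᶜ := by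
      ext u
      simp only [Function.mem_support, Set.mem_compl_iff, Set.mem_ofPred_eq]
      have hsq := str_sq u
      have hnn := str_nonneg (u : ℝ)
      have hu0 := u.2.1
      have hu1 := u.2.2
      constructor
      · rintro h (rfl | rfl)
        · apply h
          have : str ((0 : UI) : ℝ) ^ 2 = 0 := by rw [hsq]; simp
          have := pow_eq_zero_iff (n := 2) (by norm_num) |>.1 this
          rw [this]; simp
        · apply h
          have : str ((1 : UI) : ℝ) ^ 2 = 0 := by rw [hsq]; simp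
          have := pow_eq_zero_iff (n := 2) (by norm_num) |>.1 this
          rw [this]; simp
      · intro h h3
        apply h
        have h4 : str (u : ℝ) = 0 := by linarith
        rw [h4] at hsq
        have h5 : (u : ℝ) * (1 - u) = 0 := by rw [← hsq]; ring
        rcases mul_eq_zero.1 h5 with h6 | h6
        · left; exact Subtype.ext h6
        · right; exact Subtype.ext (by show (u : ℝ) = 1; linarith)
    rw [h2]
    have h3 : (volume : Measure UI) {x : UI | x = 0 ∨ x = 1} = 0 := by
      have : {x : UI | x = 0 ∨ x = 1} = {0} ∪ {1} := by ext x; simp [or_comm]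
      rw [this]
      exact le_antisymm ((measure_union_le _ _).trans (by simp)) bot_le
    rw [prob_compl_eq_one_sub₀ (NullMeasurableSet.of_null h3), h3]
    simp
  · intro u
    exact div_nonneg (str_nonneg _) (by norm_num)
  · apply Integrable.of_bound (measurable_str.comp measurable_subtype_coe |>.div_const 6).aestronglyMeasurable 1
    apply Filter.Eventually.of_forall
    intro u
    rw [Real.norm_eq_abs, Function.comp_apply, abs_of_nonneg (div_nonneg (str_nonneg _) (by norm_num))]
    have := str_le_half (u : ℝ)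
    linarith

lemma lln_gen {Ω : Type*} [MeasurableSpace Ω] (P : Measure Ω) [IsProbabilityMeasure P]
    (ν : Measure (UI × UI)) (X : ℕ → Ω → UI × UI) (hX : ∀ k, Measurable (X k))
    (hlaw : ∀ k, P.map (X k) = ν) (hind : Pairwise (Function.onFun (fun f g => IndepFun f g P) X))
    (G : UI × UI → ℝ) (hG : Measurable G) (hb : ∀ q, |G q| ≤ 1) :
    ∀ᵐ p ∂P, Tendsto (fun n : ℕ => (∑ k ∈ Finset.range n, G (X k p)) / n) atTop
      (𝓝 (∫ q, G q ∂ν)) := by
  have h := strong_law_ae_real (μ := P) (fun (k : ℕ) (p : Ω) => G (X k p)) ?_ ?_ ?_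
  · have e : ∫ p, (fun (k : ℕ) (p : Ω) => G (X k p)) 0 p ∂P = ∫ q, G q ∂ν := by
      rw [← hlaw 0, integral_map (hX 0).aemeasurable hG.aestronglyMeasurable]
    rw [e] at h
    exact h
  · apply Integrable.of_bound (hG.comp (hX 0)).aestronglyMeasurable 1
    exact Filter.Eventually.of_forall (fun q => by rw [Real.norm_eq_abs]; exact hb _)
  · intro k l hkl
    exact (hind hkl).comp hG hG
  · intro k
    refine ⟨(hG.comp (hX k)).aemeasurable, (hG.comp (hX 0)).aemeasurable, ?_⟩
    have e : ∀ k : ℕ, P.map (fun p : Ω => G (X k p)) = ν.map G := by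
      intro k
      rw [← hlaw k, Measure.map_map hG (hX k)]
      rfl
    exact (e k).trans (e 0).symm

lemma lln (v : V b) : ∀ᵐ p ∂((noise (ℕ × V b)).prod (noise (ℕ × V b))),
    Tendsto (fun n : ℕ => (∑ k ∈ Finset.range n,
      (((Gc (str (p.1 (k, v))) (p.2 (k, v)) : UI) : ℝ) - 1 / 2)) / n) atTop (𝓝 cbar) := by
  apply lln_gen ((noise (ℕ × V b)).prod (noise (ℕ × V b)))
    ((volume : Measure UI).prod (volume : Measure UI))
    (fun (k : ℕ) (p : (ℕ × V b → UI) × (ℕ × V b → UI)) => (p.1 (k, v), p.2 (k, v)))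
    (fun k => measurable_pairAt (k, v))
    (fun k => prod_infinitePi_map_pairAt (volume : Measure UI) (volume : Measure UI) (k, v)) ?_
    (fun q : UI × UI => ((Gc (str q.1) q.2 : UI) : ℝ) - 1 / 2) measurable_G
    (fun q => abs_sub_half _)
  intro k l hkl
  have hi := prod_infinitePi_iIndepFun (ι := ℕ × V b) (volume : Measure UI) (volume : Measure UI)
  exact hi.indepFun (i := (k, v)) (j := (l, v)) (by
    intro h
    exact hkl (Prod.ext_iff.1 h).1)

/-- The hidden configuration is read off almost surely. -/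
lemma readout_Yf {θ : ℝ} (h0 : 0 ≤ θ) (h1 : θ < 1) :
    ∀ᵐ p ∂(JJ b θ), H14.readout (Yf p.1 p.2.1 p.2.2) = p.2.1 := by
  have := isProb_mu (b := b) h0 h1
  have h2 : ∀ᵐ p ∂((noise (ℕ × V b)).prod (noise (ℕ × V b))), ∀ v : V b,
      Tendsto (fun n : ℕ => (∑ k ∈ Finset.range n,
      (((Gc (str (p.1 (k, v))) (p.2 (k, v)) : UI) : ℝ) - 1 / 2)) / n) atTop (𝓝 cbar) := by
    rw [ae_all_iff]
    exact fun v => lln v
  have hmap : (JJ b θ).map (fun p => (p.1, p.2.2)) =
      (noise (ℕ × V b)).prod (noise (ℕ × V b)) := by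
    unfold JJ
    have h3 := Measure.map_prod_map (noise (ℕ × V b)) ((mu b θ).prod (noise (ℕ × V b)))
      (f := id) (g := Prod.snd) measurable_id measurable_snd
    rw [Measure.map_id, Measure.map_snd_prod, measure_univ, one_smul] at h3
    exact h3.symm
  rw [← hmap] at h2
  have h4 := ae_of_ae_map (by fun_prop) h2
  filter_upwards [h4] with p hp
  ext1 v
  have e : (fun n : ℕ => (∑ k ∈ Finset.range n, ((Yf p.1 p.2.1 p.2.2 (k, v) : ℝ) - 1 / 2)) / n) =
      (fun n : ℕ => sg (p.2.1 v) * ((∑ k ∈ Finset.range n,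
        (((Gc (str (p.1 (k, v))) (p.2.2 (k, v)) : UI) : ℝ) - 1 / 2)) / n)) := by
    funext n
    rw [← mul_div_assoc, Finset.mul_sum]
    congr 1
    apply Finset.sum_congr rfl
    intro k _
    unfold Yf obs
    simp only
    cases p.2.1 v
    · simp [sg, unitInterval.coe_symm_eq]
      ring
    · simp [sg]
  have h5 := ((hp v).const_mul (sg (p.2.1 v))).limsup_eq
  unfold H14.readout
  rw [e, h5]
  have hc := cbar_pos
  cases p.2.1 v
  · simp [sg]; linarith
  · simp [sg]; exact hc

/-! ### Noise splitting -/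

/-- Labels from a single uniform variable per vertex. -/
noncomputable def lab (b : ℕ) (x : V b → UI) : (ℕ × V b → UI) × (ℕ × V b → UI) :=
  (fun α => H14.tau (x α.2) (2 * α.1), fun α => H14.tau (x α.2) (2 * α.1 + 1))

lemma measurable_lab : Measurable (lab b) := by
  unfold lab
  have h : ∀ (f : ℕ → ℕ), Measurable (fun (x : V b → UI) (α : ℕ × V b) =>
      H14.tau (x α.2) (f α.1)) := by
    intro f
    apply measurable_pi_lambda
    intro α
    exact (measurable_pi_apply (f α.1)).comp (H14.measurable_tau.comp (measurable_pi_apply α.2))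
  exact (h (fun j => 2 * j)).prodMk (h (fun j => 2 * j + 1))

lemma lab_law : (noise (V b)).map (lab b) = (noise (ℕ × V b)).prod (noise (ℕ × V b)) := by
  have h1 := H14.noise_tau (V b)
  have h2 := H14.noise_split (A := ℕ × V b) (B := ℕ × V b) (O := V b × ℕ)
    (fun α => (α.2, 2 * α.1)) (fun α => (α.2, 2 * α.1 + 1)) (by
      rintro (⟨j, v⟩ | ⟨j, v⟩) (⟨k, w⟩ | ⟨k, w⟩) h
      · simp only [Sum.elim_inl, Prod.mk.injEq] at h
        obtain ⟨rfl, h⟩ := h
        have : j = k := by omega
        rw [this]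
      · simp only [Sum.elim_inl, Sum.elim_inr, Prod.mk.injEq] at h
        omega
      · simp only [Sum.elim_inl, Sum.elim_inr, Prod.mk.injEq] at h
        omega
      · simp only [Sum.elim_inr, Prod.mk.injEq] at h
        obtain ⟨rfl, h⟩ := h
        have : j = k := by omega
        rw [this])
  have hm1 : Measurable (fun (u : V b → UI) (p : V b × ℕ) => H14.tau (u p.1) p.2) := by
    apply measurable_pi_lambda
    intro p
    exact (measurable_pi_apply p.2).comp (H14.measurable_tau.comp (measurable_pi_apply p.1))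
  have hm2 : Measurable (fun z : V b × ℕ → UI => ((fun α : ℕ × V b => z (α.2, 2 * α.1)),
      (fun α : ℕ × V b => z (α.2, 2 * α.1 + 1)))) :=
    (measurable_pi_lambda _ (fun α => measurable_pi_apply _)).prodMk
      (measurable_pi_lambda _ (fun α => measurable_pi_apply _))
  have h3 : lab b = (fun z : V b × ℕ → UI => ((fun α : ℕ × V b => z (α.2, 2 * α.1)),
      (fun α : ℕ × V b => z (α.2, 2 * α.1 + 1)))) ∘
      (fun (u : V b → UI) (p : V b × ℕ) => H14.tau (u p.1) p.2) := rfl
  rw [h3, ← Measure.map_map hm2 hm1]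
  exact (congrArg (Measure.map _) h1).trans h2

/-- The readout of a reindexed field. -/
lemma readout_comp (y : ℕ × V b → UI) (f : V b → V b) :
    H14.readout (fun α : ℕ × V b => y (α.1, f α.2)) = fun v => H14.readout y (f v) := rfl

theorem main (hMu : Spec.MuInv) (hIn : Spec.Innov) (hE : Spec.ExactEquiv) : Spec.Final := by
  intro b θ hb h0 h1 ⟨Φ0, hΦm, hΦ⟩
  have hmu := isProb_mu (b := b) h0 h1
  have hb1 : 1 ≤ b := by omega
  obtain ⟨hmup, hinv⟩ := hMu b θ hb1 h0 h1
  have hlaw := (hIn b θ hb1 h0 h1).1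
  have hTm : Measurable (fun p : (ℕ × V b → UI) × (ℕ × V b → UI) => (p.1, TT θ p.1 p.2)) :=
    measurable_fst.prodMk (Measurable.TT θ measurable_fst measurable_snd)
  set X : (V b → UI) → (V b → Bool) := fun x => H14.readout (Φ0 (lab b x)) with hX
  have hXm : Measurable X := H14.measurable_readout.comp (hΦm.comp measurable_lab)
  -- the law of the output
  have hrΦ : Measurable (fun q : (ℕ × V b → UI) × (ℕ × V b → UI) => H14.readout (Φ0 q)) :=
    H14.measurable_readout.comp hΦm
  have hXlaw : (noise (V b)).map X = mu b θ := by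
    have e1 : (noise (V b)).map X = ((noise (V b)).map (lab b)).map
        (fun q => H14.readout (Φ0 q)) := by
      rw [Measure.map_map hrΦ measurable_lab]; rfl
    rw [e1, lab_law, ← hlaw, Measure.map_map hrΦ hTm]
    have e2 : (PP b θ).map ((fun q => H14.readout (Φ0 q)) ∘
        fun p : (ℕ × V b → UI) × (ℕ × V b → UI) => (p.1, TT θ p.1 p.2)) =
        (PP b θ).map (fun p => H14.readout p.2) := by
      apply Measure.map_congr
      filter_upwards [hΦ] with p hp
      simp only [Function.comp_apply]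
      rw [← hp]
    rw [e2]
    unfold PP
    have hr2 : Measurable (fun p : (ℕ × V b → UI) × (ℕ × V b → UI) => H14.readout p.2) :=
      H14.measurable_readout.comp measurable_snd
    rw [Measure.map_map hr2 measurable_obsMap]
    have e3 : (JJ b θ).map ((fun p : (ℕ × V b → UI) × (ℕ × V b → UI) => H14.readout p.2) ∘
        fun p : (ℕ × V b → UI) × ((V b → Bool) × (ℕ × V b → UI)) =>
          (p.1, Yf p.1 p.2.1 p.2.2)) = (JJ b θ).map (fun p => p.2.1) := by
      apply Measure.map_congr
      filter_upwards [readout_Yf (b := b) h0 h1] with p hp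
      exact hp
    rw [e3]
    unfold JJ
    have e4 : (fun p : (ℕ × V b → UI) × ((V b → Bool) × (ℕ × V b → UI)) => p.2.1) =
        Prod.fst ∘ Prod.snd := rfl
    rw [e4, ← Measure.map_map measurable_fst measurable_snd, Measure.map_snd_prod, measure_univ,
      one_smul, Measure.map_fst_prod, measure_univ, one_smul]
  -- almost sure equivariance
  have hXeq : ∀ g : GG b ≃g GG b, ∀ᵐ x ∂(noise (V b)), X (fun v => x (g v)) = fun v => X x (g v) := by
    intro g
    set sh : (ℕ × V b → UI) → (ℕ × V b → UI) := fun y α => y (α.1, g α.2) with hsh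
    have hshm : Measurable sh := measurable_pi_lambda _ (fun α => measurable_pi_apply _)
    have h2 : ∀ᵐ p ∂(PP b θ), Φ0 (sh p.1, sh (TT θ p.1 p.2)) = sh (Φ0 (p.1, TT θ p.1 p.2)) := by
      have hPP := PP_map_iso (b := b) h0 h1 g (hinv g)
      have h3 : ∀ᵐ p ∂(PP b θ), sh p.2 = Φ0 (sh p.1, TT θ (sh p.1) (sh p.2)) := by
        rw [← hPP] at hΦ
        exact ae_of_ae_map (by fun_prop) hΦ
      filter_upwards [hΦ, h3] with p hp hp3
      have h4 : TT θ (sh p.1) (sh p.2) = sh (TT θ p.1 p.2) := TT_iso θ p.1 p.2 g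
      rw [h4] at hp3
      rw [← hp3, ← hp]
    have h5 : ∀ᵐ q ∂((noise (ℕ × V b)).prod (noise (ℕ × V b))),
        Φ0 (sh q.1, sh q.2) = sh (Φ0 q) := by
      rw [← hlaw]
      rw [ae_map_iff hTm.aemeasurable]
      · exact h2
      · apply measurableSet_eq_fun
        · exact hΦm.comp ((hshm.comp measurable_fst).prodMk (hshm.comp measurable_snd))
        · exact hshm.comp hΦm
    rw [← lab_law] at h5
    have h6 := ae_of_ae_map measurable_lab.aemeasurable h5
    filter_upwards [h6] with x hx
    show H14.readout (Φ0 (lab b (fun v => x (g v)))) = fun v => H14.readout (Φ0 (lab b x)) (g v)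
    have h7 : lab b (fun v => x (g v)) = (sh (lab b x).1, sh (lab b x).2) := rfl
    rw [h7, hx]
    rfl
  obtain ⟨Φ, hm, heq, hae⟩ := hE b X hXm hXeq
  refine ⟨Φ, hm, heq, ?_⟩
  rw [Measure.map_congr hae, hXlaw]

end Crest.Agent.IsgFinal
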