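import Crest.Agent.IsgEqvB
import Crest.Agent.IsgSpec

set_option autoImplicit false

/-!
Shared library for S0241: gauge transformation.
-/

open MeasureTheory ProbabilityTheory Filter Topology

namespace Crest.Agent.Isg

variable {b : ℕ}

/-- The field with root spin `s`, edge variables `ξ` and gauged own fields `z`. -/
def hf (s : Bool) (ξ : V b → Bool) (z : V b → ℝ) (v : V b) : ℝ := sg (spin s ξ v) * z v

lemma sg_cases (s : Bool) : sg s = 1 ∨ sg s = -1 := by cases s <;> simp [sg]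

/-! ### Oddness -/

namespace Gauge

lemma artanh_neg' (x : ℝ) : Real.artanh (-x) = - Real.artanh x := by
  unfold Real.artanh
  rw [← Real.log_inv, ← Real.sqrt_inv, inv_div]
  congr 2
  ring_nf

lemma psi_neg' (θ x : ℝ) : psi θ (-x) = - psi θ x := by
  unfold psi
  rw [Real.tanh_neg, mul_neg, artanh_neg']

lemma psi_zero' (θ : ℝ) : psi θ 0 = 0 := by
  have := psi_neg' θ 0
  rw [neg_zero] at this
  linarith

lemma kap_neg' (θ x : ℝ) : kap θ (-x) = kap θ x := by
  unfold kap
  rw [Real.tanh_neg, neg_sq]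

lemma psi_sg (θ : ℝ) (s : Bool) (x : ℝ) : psi θ (sg s * x) = sg s * psi θ x := by
  cases s
  · simp [sg, psi_neg']
  · simp [sg]

lemma kap_sg (θ : ℝ) (s : Bool) (x : ℝ) : kap θ (sg s * x) = kap θ x := by
  cases s
  · simp [sg, kap_neg']
  · simp [sg]

end Gauge

open Gauge

/-! ### Spins -/

lemma spin_cons (s : Bool) (ξ : V b → Bool) (i : Fin (b + 1)) (l : List (Fin (b + 1)))
    (h : (i :: l).IsChain (· ≠ ·)) :
    spin s ξ ⟨i :: l, h⟩ = if ξ ⟨i :: l, h⟩ then spin s ξ ⟨l, h.tail⟩ else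
      !(spin s ξ ⟨l, h.tail⟩) := rfl

lemma sg_spin_cons (s : Bool) (ξ : V b → Bool) (i : Fin (b + 1)) (l : List (Fin (b + 1)))
    (h : (i :: l).IsChain (· ≠ ·)) :
    sg (spin s ξ ⟨i :: l, h⟩) = sg (ξ ⟨i :: l, h⟩) * sg (spin s ξ ⟨l, h.tail⟩) := by
  rw [spin_cons]
  cases ξ ⟨i :: l, h⟩ <;> cases spin s ξ ⟨l, h.tail⟩ <;> simp [sg]

lemma sg_spin_nb_ch (s : Bool) (ξ : V b → Bool) {v : V b} {j : Fin (b + 1)} (hj : j ∈ ch v) :
    sg (spin s ξ (nb j v)) = sg (ξ (nb j v)) * sg (spin s ξ v) := by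
  have h1 : nb j v = ⟨j :: v.l, by
      rw [← nb_l_of_not_head j v (mem_ch.1 hj)]; exact (nb j v).h⟩ := by
    ext1
    exact nb_l_of_not_head j v (mem_ch.1 hj)
  rw [h1, sg_spin_cons]

/-- The edge variable of the edge between `u` and `nb j u`. -/
def ev (ξ : V b → Bool) (u : V b) (j : Fin (b + 1)) : Bool :=
  if len u < len (nb j u) then ξ (nb j u) else ξ u

lemma sg_spin_nb (s : Bool) (ξ : V b → Bool) (u : V b) (j : Fin (b + 1)) :
    sg (spin s ξ (nb j u)) = sg (ev ξ u j) * sg (spin s ξ u) := by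
  unfold ev
  by_cases h : len u < len (nb j u)
  · rw [if_pos h]
    exact sg_spin_nb_ch s ξ (Finset.mem_filter.2 ⟨Finset.mem_univ _, h⟩)
  · rw [if_neg h]
    have h1 : len (nb j u) < len (nb j (nb j u)) := by
      rw [nb_nb]
      rcases len_nb j u with h2 | h2 <;> omega
    have h2 := sg_spin_nb_ch s ξ (v := nb j u) (j := j) (Finset.mem_filter.2 ⟨Finset.mem_univ _, h1⟩)
    rw [nb_nb] at h2
    rw [h2, ← mul_assoc, sg_mul_self, one_mul]

lemma hf_not (s : Bool) (ξ : V b → Bool) (z : V b → ℝ) : hf (!s) ξ z = fun v => - hf s ξ z v := by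
  ext v
  unfold hf
  rw [spin_not, sg_not, neg_mul]

/-! ### Gauged messages -/

/-- Gauged messages in all directions. -/
noncomputable def loc (θ : ℝ) : ℕ → (V b → Bool) → (V b → ℝ) → V b → Fin (b + 1) → ℝ
  | 0, _, _, _, _ => 0
  | N + 1, ξ, z, u, i => z u + ∑ j ∈ Finset.univ.erase i, sg (ev ξ u j) *
      psi θ (loc θ N ξ z (nb j u) j)

/-- (G7) -/
lemma lm_hf (θ : ℝ) (N : ℕ) (s : Bool) (ξ : V b → Bool) (z : V b → ℝ) (u : V b) (i : Fin (b + 1)) :
    lm θ N (hf s ξ z) u i = sg (spin s ξ u) * loc θ N ξ z u i := by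
  induction N generalizing u i with
  | zero => simp [lm, loc]
  | succ N ih =>
    rw [lm, loc, mul_add, Finset.mul_sum]
    congr 1
    apply Finset.sum_congr rfl
    intro j _
    rw [ih, sg_spin_nb, mul_assoc, psi_sg, psi_sg]
    ring

lemma loc_congr (θ : ℝ) (N : ℕ) (ξ ξ' : V b → Bool) (z z' : V b → ℝ) (u : V b) (i : Fin (b + 1))
    (hξ : ∀ v ∈ Sub N u i, ξ v = ξ' v) (hz : ∀ v ∈ Sub N u i, z v = z' v) :
    loc θ N ξ z u i = loc θ N ξ' z' u i := by
  induction N generalizing u i with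
  | zero => rfl
  | succ N ih =>
    rw [loc, loc]
    have hu : u ∈ Sub (N + 1) u i := Finset.mem_insert_self _ _
    rw [hz u hu]
    congr 1
    apply Finset.sum_congr rfl
    intro j hj
    have hsub : Sub N (nb j u) j ⊆ Sub (N + 1) u i := by
      intro v hv
      exact Finset.mem_insert_of_mem (Finset.mem_biUnion.2 ⟨j, hj, hv⟩)
    rw [ih (nb j u) j (fun v hv => hξ v (hsub hv)) (fun v hv => hz v (hsub hv))]
    cases N with
    | zero => simp [loc, psi_zero']
    | succ N =>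
      congr 2
      unfold ev
      have hnb : nb j u ∈ Sub (N + 1 + 1) u i := hsub (Finset.mem_insert_self _ _)
      rw [hξ u hu, hξ _ hnb]

lemma ev_ch (ξ : V b → Bool) {u : V b} {j : Fin (b + 1)} (hj : j ∈ ch u) :
    ev ξ u j = ξ (nb j u) := by
  unfold ev
  rw [if_pos (Finset.mem_filter.1 hj).2]

lemma head_nb_ch {u : V b} {j : Fin (b + 1)} (hj : j ∈ ch u) : (nb j u).l.head? = some j := by
  rw [nb_l_of_not_head j u (mem_ch.1 hj)]; rfl

lemma loc_eq_lh (θ : ℝ) (N : ℕ) (ξ : V b → Bool) (z : V b → ℝ) (u : V b) (i : Fin (b + 1))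
    (h : u.l.head? = some i) : loc θ N ξ z u i = lh θ N ξ z u := by
  induction N generalizing u i with
  | zero => rfl
  | succ N ih =>
    rw [loc, lh_succ, ch_eq_erase h]
    congr 1
    apply Finset.sum_congr rfl
    intro j hj
    have hj' : j ∈ ch u := by rw [ch_eq_erase h]; exact hj
    rw [ih (nb j u) j (head_nb_ch hj'), ev_ch ξ hj']

/-- (G1) -/
lemma lm_hf_head (θ : ℝ) (N : ℕ) (s : Bool) (ξ : V b → Bool) (z : V b → ℝ) (u : V b)
    (i : Fin (b + 1)) (h : u.l.head? = some i) :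
    lm θ N (hf s ξ z) u i = sg (spin s ξ u) * lh θ N ξ z u := by
  rw [lm_hf, loc_eq_lh θ N ξ z u i h]

/-- (G2) -/
lemma lg_hf_rt (θ : ℝ) (N : ℕ) (s : Bool) (ξ : V b → Bool) (z : V b → ℝ) :
    lg θ N (hf s ξ z) (rt b) = sg s * lh θ (N + 1) ξ z (rt b) := by
  rw [lg, lh_succ, ch_rt, mul_add, Finset.mul_sum]
  congr 1
  apply Finset.sum_congr rfl
  intro j _
  have hj : j ∈ ch (rt b) := by rw [ch_rt]; exact Finset.mem_univ _
  rw [lm_hf_head θ N s ξ z _ j (head_nb_ch hj), sg_spin_nb_ch s ξ hj, mul_assoc, psi_sg, psi_sg,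
    spin_rt]
  ring

/-- Finite depth product of the slope factors along a path, for an arbitrary field. -/
noncomputable def DNl (θ : ℝ) (Mx : ℕ) (h : V b → ℝ) (v : V b) : List (Fin (b + 1)) → ℝ
  | [] => 1
  | i :: r => DNl θ Mx h v r * kap θ (lm θ (Mx - r.length) h (follow v (i :: r)) i)

/-- (G3) -/
lemma DNl_hf (θ : ℝ) (Mx : ℕ) (s : Bool) (ξ : V b → Bool) (z : V b → ℝ) (v : V b)
    (r : List (Fin (b + 1))) (hr : (r ++ v.l).IsChain (· ≠ ·)) :
    DNl θ Mx (hf s ξ z) v r = DMl θ Mx ξ z v r := by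
  induction r with
  | nil => rfl
  | cons i r ih =>
    have hr' : (r ++ v.l).IsChain (· ≠ ·) := hr.tail
    rw [DNl, DMl, ih hr']
    congr 1
    have h1 : (follow v (i :: r)).l.head? = some i := by
      rw [follow_of_chain v (i :: r) hr]; rfl
    rw [lm_hf_head θ _ s ξ z _ i h1, kap_sg]

lemma DNl_nonneg_le (θ : ℝ) (hk : ∀ x, 0 ≤ kap θ x ∧ kap θ x ≤ 1) (Mx : ℕ) (h : V b → ℝ) (v : V b)
    (r : List (Fin (b + 1))) : 0 ≤ DNl θ Mx h v r ∧ DNl θ Mx h v r ≤ 1 := by
  induction r with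
  | nil => exact ⟨zero_le_one, le_refl _⟩
  | cons i r ih =>
    rw [DNl]
    exact ⟨mul_nonneg ih.1 (hk _).1, mul_le_one₀ ih.2 (hk _).1 (hk _).2⟩

/-! ### Measures -/

lemma bern_univ (p : ℝ) : bern p Set.univ = ENNReal.ofReal p + ENNReal.ofReal (1 - p) := by
  unfold bern
  rw [Measure.add_apply, Measure.smul_apply, Measure.smul_apply, measure_univ, measure_univ,
    smul_eq_mul, smul_eq_mul, mul_one, mul_one]

instance instFiniteBern (p : ℝ) : IsFiniteMeasure (bern p) := by
  constructor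
  rw [bern_univ]
  exact ENNReal.add_lt_top.2 ⟨ENNReal.ofReal_lt_top, ENNReal.ofReal_lt_top⟩

lemma bern_prob {p : ℝ} (h0 : 0 ≤ p) (h1 : p ≤ 1) : IsProbabilityMeasure (bern p) := by
  constructor
  rw [bern_univ, ← ENNReal.ofReal_add h0 (by linarith)]
  norm_num

instance instProbBernHalf : IsProbabilityMeasure (bern (1 / 2)) :=
  bern_prob (by norm_num) (by norm_num)

lemma xiLaw_prob (b : ℕ) {θ : ℝ} (h0 : 0 ≤ θ) (h1 : θ < 1) : IsProbabilityMeasure (xiLaw b θ) := by
  unfold xiLaw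
  have : ∀ _ : V b, IsProbabilityMeasure (bern ((1 + θ) / 2)) := fun _ =>
    bern_prob (by linarith) (by linarith)
  infer_instance

lemma bern_half_map_not : (bern (1 / 2)).map (fun s => !s) = bern (1 / 2) := by
  unfold bern
  rw [Measure.map_add _ _ (measurable_of_finite _), Measure.map_smul, Measure.map_smul,
    Measure.map_dirac' (measurable_of_finite _), Measure.map_dirac' (measurable_of_finite _)]
  simp only [Bool.not_true, Bool.not_false]
  rw [add_comm]
  norm_num

lemma bern_half_ae_iff (P : Bool → Prop) : (∀ᵐ s ∂(bern (1 / 2)), P s) ↔ ∀ s, P s := by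
  constructor
  · intro h s
    by_contra hs
    rw [ae_iff] at h
    have h1 : bern (1 / 2) {s} ≤ 0 := by
      rw [← h]
      apply measure_mono
      intro x hx
      rw [Set.mem_singleton_iff] at hx
      rw [hx]; exact hs
    have h2 : 0 < bern (1 / 2) {s} := by
      unfold bern
      rw [Measure.add_apply, Measure.smul_apply, Measure.smul_apply, smul_eq_mul, smul_eq_mul]
      cases s <;> norm_num
    exact absurd h1 (not_le.2 h2)
  · intro h
    exact Filter.Eventually.of_forall h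

namespace Gauge

lemma measurable_spin' (v : V b) : Measurable (fun p : Bool × (V b → Bool) => spin p.1 p.2 v) := by
  obtain ⟨l, h⟩ := v
  induction l with
  | nil => exact measurable_fst
  | cons i l ih =>
    simp only [spin_cons]
    exact (measurable_of_finite (fun q : Bool × Bool => if q.1 then q.2 else !q.2)).comp
      (((measurable_pi_apply _).comp measurable_snd).prodMk (ih h.tail))

end Gauge

lemma measurable_hf : Measurable (fun p : Bool × ((V b → Bool) × (V b → ℝ)) =>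
    hf p.1 p.2.1 p.2.2) := by
  apply measurable_pi_lambda
  intro v
  unfold hf
  apply Measurable.mul
  · exact measurable_sg.comp ((measurable_spin' v).comp
      (measurable_fst.prodMk (measurable_fst.comp measurable_snd)))
  · exact (measurable_pi_apply v).comp (measurable_snd.comp measurable_snd)

lemma measurable_hf_s (s : Bool) : Measurable (fun p : (V b → Bool) × (V b → ℝ) =>
    hf s p.1 p.2) := measurable_hf.comp (measurable_const.prodMk measurable_id)

/-- (G4) -/
lemma PL_eq (b : ℕ) {θ : ℝ} (h0 : 0 ≤ θ) (h1 : θ < 1) (ρ : Measure ℝ) [IsProbabilityMeasure ρ] :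
    PL b θ ρ = ((bern (1 / 2)).prod (GM b θ ρ)).map (fun p => hf p.1 p.2.1 p.2.2) := by
  have := xiLaw_prob b h0 h1
  have hS : Measurable (fun p : Bool × (V b → Bool) => spin p.1 p.2) :=
    measurable_spin
  have hf' : Measurable (fun (p : (V b → Bool) × (V b → ℝ)) (v : V b) => sg (p.1 v) * p.2 v) := by
    apply measurable_pi_lambda
    intro v
    exact (measurable_sg.comp ((measurable_pi_apply v).comp measurable_fst)).mul
      ((measurable_pi_apply v).comp measurable_snd)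
  unfold PL mu GM
  have h2 := Measure.map_prod_map ((bern (1 / 2)).prod (xiLaw b θ))
    (Measure.infinitePi (fun _ : V b => ρ)) hS measurable_id
  rw [Measure.map_id] at h2
  rw [h2, Measure.map_map hf' (hS.prodMap measurable_id)]
  have h3 := (measurePreserving_prodAssoc (bern (1 / 2)) (xiLaw b θ)
    (Measure.infinitePi (fun _ : V b => ρ))).map_eq
  rw [← h3, Measure.map_map measurable_hf (MeasurableEquiv.measurable _)]
  rfl

lemma GM_prob (b : ℕ) {θ : ℝ} (h0 : 0 ≤ θ) (h1 : θ < 1) (ρ : Measure ℝ) [IsProbabilityMeasure ρ] :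
    IsProbabilityMeasure (GM b θ ρ) := by
  have := xiLaw_prob b h0 h1
  unfold GM
  infer_instance

lemma PL_prob (b : ℕ) {θ : ℝ} (h0 : 0 ≤ θ) (h1 : θ < 1) (ρ : Measure ℝ) [IsProbabilityMeasure ρ] :
    IsProbabilityMeasure (PL b θ ρ) := by
  have := GM_prob b h0 h1 ρ
  rw [PL_eq b h0 h1 ρ]
  exact Measure.isProbabilityMeasure_map measurable_hf.aemeasurable

/-- Transfer of almost sure statements. -/
lemma ae_hf_of_ae_PL {θ : ℝ} (h0 : 0 ≤ θ) (h1 : θ < 1) (ρ : Measure ℝ) [IsProbabilityMeasure ρ]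
    {P : (V b → ℝ) → Prop} (h : ∀ᵐ h ∂(PL b θ ρ), P h) (s : Bool) :
    ∀ᵐ p ∂(GM b θ ρ), P (hf s p.1 p.2) := by
  have := GM_prob b h0 h1 ρ
  rw [PL_eq b h0 h1 ρ] at h
  have h2 := ae_of_ae_map measurable_hf.aemeasurable h
  have h3 := Measure.ae_ae_of_ae_prod h2
  exact (bern_half_ae_iff _).1 h3 s

/-- Lower integrals of functionals which are a.s. even. -/
lemma lintegral_PL_of_ae_even {θ : ℝ} (h0 : 0 ≤ θ) (h1 : θ < 1) (ρ : Measure ℝ)
    [IsProbabilityMeasure ρ] {F : (V b → ℝ) → ENNReal} (hF : Measurable F)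
    (he : ∀ᵐ p ∂(GM b θ ρ), F (hf false p.1 p.2) = F (hf true p.1 p.2)) :
    ∫⁻ h, F h ∂(PL b θ ρ) = ∫⁻ p, F (hf true p.1 p.2) ∂(GM b θ ρ) := by
  have := GM_prob b h0 h1 ρ
  rw [PL_eq b h0 h1 ρ, lintegral_map hF measurable_hf,
    lintegral_prod (fun a : Bool × ((V b → Bool) × (V b → ℝ)) => F (hf a.1 a.2.1 a.2.2))
      (hF.comp measurable_hf).aemeasurable]
  have h2 : ∀ s : Bool, ∫⁻ p, F (hf s p.1 p.2) ∂(GM b θ ρ) =
      ∫⁻ p, F (hf true p.1 p.2) ∂(GM b θ ρ) := by
    intro s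
    cases s
    · exact lintegral_congr_ae he
    · rfl
  simp only [h2]
  rw [lintegral_const, measure_univ, mul_one]

lemma lintegral_PL_even {θ : ℝ} (h0 : 0 ≤ θ) (h1 : θ < 1) (ρ : Measure ℝ)
    [IsProbabilityMeasure ρ] {F : (V b → ℝ) → ENNReal} (hF : Measurable F)
    (he : ∀ h, F (fun v => - h v) = F h) :
    ∫⁻ h, F h ∂(PL b θ ρ) = ∫⁻ p, F (hf true p.1 p.2) ∂(GM b θ ρ) := by
  apply lintegral_PL_of_ae_even h0 h1 ρ hF
  apply Filter.Eventually.of_forall
  intro p
  have := hf_not true p.1 p.2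
  rw [Bool.not_true] at this
  rw [this, he]

/-- The planted law in terms of both signs. -/
lemma lintegral_PL {θ : ℝ} (h0 : 0 ≤ θ) (h1 : θ < 1) (ρ : Measure ℝ)
    [IsProbabilityMeasure ρ] {F : (V b → ℝ) → ENNReal} (hF : Measurable F) :
    ∫⁻ h, F h ∂(PL b θ ρ) = ENNReal.ofReal (1 / 2) *
      (∫⁻ p, F (hf true p.1 p.2) ∂(GM b θ ρ) + ∫⁻ p, F (hf false p.1 p.2) ∂(GM b θ ρ)) := by
  have := GM_prob b h0 h1 ρ
  rw [PL_eq b h0 h1 ρ, lintegral_map hF measurable_hf,
    lintegral_prod (fun a : Bool × ((V b → Bool) × (V b → ℝ)) => F (hf a.1 a.2.1 a.2.2))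
      (hF.comp measurable_hf).aemeasurable]
  have h2 : ∀ G : Bool → ENNReal, ∫⁻ s, G s ∂(bern (1 / 2)) =
      ENNReal.ofReal (1 / 2) * (G true + G false) := by
    intro G
    unfold bern
    rw [lintegral_add_measure, lintegral_smul_measure, lintegral_smul_measure, lintegral_dirac,
      lintegral_dirac, mul_add]
    norm_num
  rw [h2]

/-! ### Invariance -/

lemma infinitePi_comp_equiv {ι X : Type*} [MeasurableSpace X] (ρ : Measure X)
    [IsProbabilityMeasure ρ] (e : ι ≃ ι) :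
    (Measure.infinitePi (fun _ : ι => ρ)).map (fun z i => z (e i)) =
      Measure.infinitePi (fun _ : ι => ρ) := by
  classical
  apply Measure.eq_infinitePi
  intro s t ht
  have hm : Measurable (fun (z : ι → X) i => z (e i)) :=
    measurable_pi_lambda _ (fun i => measurable_pi_apply _)
  rw [Measure.map_apply hm (MeasurableSet.pi s.countable_toSet (fun i _ => ht i))]
  have h1 : (fun (z : ι → X) i => z (e i)) ⁻¹' (Set.pi (s : Set ι) t) =
      Set.pi ((s.image e : Finset ι) : Set ι) (fun i => t (e.symm i)) := by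
    ext z
    simp only [Set.mem_preimage, Set.mem_pi, Finset.coe_image, Set.mem_image, Finset.mem_coe,
      forall_exists_index, and_imp, forall_apply_eq_imp_iff₂]
    constructor
    · intro h a ha
      have h3 := h a ha
      have h4 : e.symm (e a) = a := e.symm_apply_apply a
      rw [h4]; exact h3
    · intro h a ha
      have h3 := h a ha
      have h4 : e.symm (e a) = a := e.symm_apply_apply a
      rw [h4] at h3; exact h3
  rw [h1, Measure.infinitePi_pi _ (fun i _ => ht _)]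
  rw [Finset.prod_image (fun x _ y _ h => e.injective h)]
  apply Finset.prod_congr rfl
  intro a _
  have h4 : e.symm (e a) = a := e.symm_apply_apply a
  rw [h4]

lemma PL_map_neg {θ : ℝ} (h0 : 0 ≤ θ) (h1 : θ < 1) (ρ : Measure ℝ) [IsProbabilityMeasure ρ] :
    (PL b θ ρ).map (fun h v => - h v) = PL b θ ρ := by
  have := GM_prob b h0 h1 ρ
  have hn : Measurable (fun (h : V b → ℝ) (v : V b) => - h v) :=
    measurable_pi_lambda _ (fun i => (measurable_pi_apply i).neg)
  rw [PL_eq b h0 h1 ρ, Measure.map_map hn measurable_hf]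
  have h2 := Measure.map_prod_map (bern (1 / 2)) (GM b θ ρ) (f := fun s => !s) (g := id)
    (measurable_of_finite _) measurable_id
  rw [bern_half_map_not, Measure.map_id] at h2
  conv_rhs => rw [h2]
  rw [Measure.map_map measurable_hf ((measurable_of_finite _).prodMap measurable_id)]
  congr 1
  ext p v
  show - hf p.1 p.2.1 p.2.2 v = hf (!p.1) p.2.1 p.2.2 v
  rw [hf_not]

end Crest.Agent.Isg
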