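import Crest.Agent.IsgBP

set_option autoImplicit false

/-!
Module GOOD for S0241: the messages converge almost surely under the planted law.
-/

open MeasureTheory ProbabilityTheory Filter Topology

namespace Crest.Agent.Isg

variable {b : ℕ}

/-! ### Bounded measurable functions -/

/-- Bounded measurable functions. -/
def Bm {Ω : Type*} [MeasurableSpace Ω] (F : Ω → ℝ) : Prop :=
  Measurable F ∧ ∃ C : ℝ, ∀ x, |F x| ≤ C

section
variable {Ω Ω' : Type*} [MeasurableSpace Ω] [MeasurableSpace Ω']

lemma Bm.mul {F G : Ω → ℝ} (h : Bm F) (h' : Bm G) : Bm (fun x => F x * G x) := by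
  obtain ⟨m, C, hC⟩ := h
  obtain ⟨m', C', hC'⟩ := h'
  refine ⟨m.mul m', C * C', fun σ => ?_⟩
  rw [abs_mul]
  have := abs_nonneg (F σ)
  have := abs_nonneg (G σ)
  have := hC σ
  have := hC' σ
  nlinarith

lemma Bm.const (c : ℝ) : Bm (fun _ : Ω => c) :=
  ⟨measurable_const, |c|, fun _ => le_refl _⟩

lemma Bm.comp {F : Ω → ℝ} (h : Bm F) {g : Ω' → Ω} (hg : Measurable g) : Bm (fun x => F (g x)) := by
  obtain ⟨m, C, hC⟩ := h
  exact ⟨m.comp hg, C, fun x => hC _⟩

lemma Bm.prod {ι : Type*} (s : Finset ι) (G : ι → Ω → ℝ) (h : ∀ i ∈ s, Bm (G i)) :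
    Bm (fun x => ∏ i ∈ s, G i x) := by
  classical
  induction s using Finset.induction_on with
  | empty => simpa using Bm.const 1
  | insert a s ha ih =>
    have h1 : (fun x => ∏ i ∈ insert a s, G i x) = fun x => G a x * ∏ i ∈ s, G i x := by
      funext x; rw [Finset.prod_insert ha]
    rw [h1]
    exact (h a (Finset.mem_insert_self _ _)).mul
      (ih (fun i hi => h i (Finset.mem_insert_of_mem hi)))

lemma Bm.integrable {F : Ω → ℝ} (h : Bm F) (μ : Measure Ω) [IsFiniteMeasure μ] :
    Integrable F μ := by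
  obtain ⟨m, C, hC⟩ := h
  exact Integrable.of_bound m.aestronglyMeasurable C (ae_of_all _ hC)

end

/-! ### Change of measure for symmetric channels -/

/-- Truncated likelihood ratio. -/
noncomputable def wt (H : ℝ) (s : Bool) (x : ℝ) : ℝ :=
  if s then 1 else Real.exp (-2 * max (-H) (min x H))

lemma Bm_wt (H : ℝ) (s : Bool) : Bm (wt H s) := by
  cases s
  · refine ⟨?_, Real.exp (2 * H), fun x => ?_⟩
    · have : wt H false = fun x => Real.exp (-2 * max (-H) (min x H)) := by
        funext x; simp [wt]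
      rw [this]
      exact Real.measurable_exp.comp
        (measurable_const.mul (measurable_const.max (measurable_id.min measurable_const)))
    · simp only [wt, Bool.false_eq_true, if_false]
      rw [abs_of_pos (Real.exp_pos _)]
      apply Real.exp_le_exp.2
      have := le_max_left (-H) (min x H)
      linarith
  · refine ⟨?_, 1, fun x => ?_⟩
    · have : wt H true = fun _ => 1 := by
        funext x; simp [wt]
      rw [this]
      exact measurable_const
    · simp [wt]

lemma wt_false_of_abs_le {H x : ℝ} (hx : |x| ≤ H) : wt H false x = Real.exp (-2 * x) := by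
  have h1 := abs_le.1 hx
  simp only [wt, Bool.false_eq_true, if_false]
  rw [min_eq_left h1.2, max_eq_right h1.1]

lemma Chan.integral_flip {ρ : Measure ℝ} {H : ℝ} (hρ : Chan ρ H) {φ : ℝ → ℝ} (hφ : Bm φ)
    (s : Bool) : ∫ x, φ (sg s * x) ∂ρ = ∫ x, φ x * wt H s x ∂ρ := by
  cases s
  · rw [sg_false]
    simp only [neg_one_mul]
    rw [hρ.nish φ hφ.1 hφ.2]
    apply integral_congr_ae
    filter_upwards [hρ.bdd] with x hx
    rw [wt_false_of_abs_le hx]
  · simp [sg_true, wt]

/-- Truncated reference density. -/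
noncomputable def qd (H x : ℝ) : ℝ := (1 + wt H false x) / 2

lemma Bm_qd (H : ℝ) : Bm (qd H) := by
  obtain ⟨m, C, hC⟩ := Bm_wt H false
  refine ⟨(measurable_const.add m).div_const 2, (1 + C) / 2, fun x => ?_⟩
  unfold qd
  rw [abs_div, abs_two]
  have h1 := abs_add_le 1 (wt H false x)
  rw [abs_one] at h1
  have h2 := hC x
  linarith

lemma wt_eq {H x : ℝ} (hx : |x| ≤ H) (s : Bool) :
    wt H s x = (1 + sg s * Real.tanh x) * qd H x := by
  unfold qd
  rw [wt_false_of_abs_le hx]
  have h1 : Real.tanh x = (1 - Real.exp (-2 * x)) / (1 + Real.exp (-2 * x)) := by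
    rw [Real.tanh_eq]
    have h2 : Real.exp (-2 * x) = Real.exp (-x) / Real.exp x := by
      rw [← Real.exp_sub]; congr 1; ring
    rw [h2]
    have h3 := Real.exp_pos x
    field_simp
  have h4 : (0 : ℝ) < 1 + Real.exp (-2 * x) := by positivity
  cases s
  · rw [wt_false_of_abs_le hx, sg_false, h1]
    field_simp
    ring
  · rw [sg_true, h1]
    simp only [wt, if_true]
    field_simp
    ring

/-- Flipping one coordinate. -/
lemma integral_update_flip {ρ : Measure ℝ} {H : ℝ} (hρ : Chan ρ H)
    {Ψ : (V b → ℝ) → ℝ} (hΨ : Bm Ψ) (v : V b) (s : Bool) :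
    ∫ z, Ψ (Function.update z v (sg s * z v)) ∂(Measure.infinitePi (fun _ : V b => ρ)) =
      ∫ z, Ψ z * wt H s (z v) ∂(Measure.infinitePi (fun _ : V b => ρ)) := by
  have := hρ.prob
  have e := infinitePi_resample ρ v
  have hm : Measurable (fun p : ℝ × (V b → ℝ) => Function.update p.2 v p.1) :=
    Measurable.updf measurable_snd measurable_fst v
  have hm2 : Measurable (fun z : V b → ℝ => Function.update z v (sg s * z v)) :=
    Measurable.updf measurable_id ((measurable_pi_apply v).const_mul _) v
  have B1 : Bm (fun z : V b → ℝ => Ψ (Function.update z v (sg s * z v))) := hΨ.comp hm2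
  have B2 : Bm (fun z : V b → ℝ => Ψ z * wt H s (z v)) :=
    hΨ.mul ((Bm_wt H s).comp (measurable_pi_apply v))
  have hm3 : Measurable (fun p : ℝ × (V b → ℝ) => Function.update p.2 v (sg s * p.1)) :=
    Measurable.updf measurable_snd (measurable_fst.const_mul _) v
  calc ∫ z, Ψ (Function.update z v (sg s * z v)) ∂(Measure.infinitePi (fun _ : V b => ρ))
      = ∫ p, Ψ (Function.update p.2 v (sg s * p.1))
          ∂(ρ.prod (Measure.infinitePi (fun _ : V b => ρ))) := by
        conv_lhs => rw [← e]
        rw [integral_map hm.aemeasurable B1.1.aestronglyMeasurable]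
        congr 1
        funext p
        simp
    _ = ∫ z, ∫ x, Ψ (Function.update z v (sg s * x)) ∂ρ
          ∂(Measure.infinitePi (fun _ : V b => ρ)) := by
        rw [integral_prod_symm _ ((hΨ.comp hm3).integrable _)]
    _ = ∫ z, ∫ x, Ψ (Function.update z v x) * wt H s x ∂ρ
          ∂(Measure.infinitePi (fun _ : V b => ρ)) := by
        congr 1
        funext z
        have B3 : Bm (fun x : ℝ => Ψ (Function.update z v x)) :=
          hΨ.comp (Measurable.updf measurable_const measurable_id v)
        exact hρ.integral_flip B3 s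
    _ = ∫ p, Ψ (Function.update p.2 v p.1) * wt H s p.1
          ∂(ρ.prod (Measure.infinitePi (fun _ : V b => ρ))) := by
        have B4 : Bm (fun p : ℝ × (V b → ℝ) =>
            Ψ (Function.update p.2 v p.1) * wt H s p.1) :=
          (hΨ.comp hm).mul ((Bm_wt H s).comp measurable_fst)
        rw [integral_prod_symm _ (B4.integrable _)]
    _ = ∫ z, Ψ z * wt H s (z v) ∂(Measure.infinitePi (fun _ : V b => ρ)) := by
        conv_rhs => rw [← e]
        rw [integral_map hm.aemeasurable B2.1.aestronglyMeasurable]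
        congr 1
        funext p
        simp

/-- Flipping finitely many coordinates. -/
lemma integral_flip_finset {ρ : Measure ℝ} {H : ℝ} (hρ : Chan ρ H) (σ : V b → Bool)
    (S : Finset (V b)) : ∀ {Ψ : (V b → ℝ) → ℝ}, Bm Ψ →
    ∫ z, Ψ (fun v => if v ∈ S then sg (σ v) * z v else z v)
        ∂(Measure.infinitePi (fun _ : V b => ρ)) =
      ∫ z, Ψ z * ∏ v ∈ S, wt H (σ v) (z v) ∂(Measure.infinitePi (fun _ : V b => ρ)) := by
  induction S using Finset.induction_on with
  | empty => intro Ψ _; simp
  | insert w S hw ih =>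
    intro Ψ hΨ
    have hmS : Measurable (fun (z : V b → ℝ) v => if v ∈ S then sg (σ v) * z v else z v) := by
      apply measurable_pi_lambda
      intro v
      by_cases hv : v ∈ S
      · simp only [hv, if_true]; exact (measurable_pi_apply v).const_mul _
      · simp only [hv, if_false]; exact measurable_pi_apply v
    have h1 : ∀ z : V b → ℝ,
        (fun v => if v ∈ insert w S then sg (σ v) * z v else z v) =
        fun v => if v ∈ S then sg (σ v) * (Function.update z w (sg (σ w) * z w)) v
          else (Function.update z w (sg (σ w) * z w)) v := by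
      intro z
      funext v
      by_cases hvw : v = w
      · subst hvw
        simp [hw]
      · simp [hvw]
    simp only [h1]
    have h2 := integral_update_flip hρ (hΨ.comp hmS) w (σ w)
    rw [h2]
    have h3 : ∀ z : V b → ℝ,
        Ψ (fun v => if v ∈ S then sg (σ v) * z v else z v) * wt H (σ w) (z w) =
        (fun z : V b → ℝ => Ψ z * wt H (σ w) (z w))
          (fun v => if v ∈ S then sg (σ v) * z v else z v) := by
      intro z
      simp [hw]
    simp only [h3]
    rw [ih (hΨ.mul ((Bm_wt H (σ w)).comp (measurable_pi_apply w)))]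
    congr 1
    funext z
    rw [Finset.prod_insert hw]
    ring

lemma ae_abs_le {ρ : Measure ℝ} {H : ℝ} (hρ : Chan ρ H) :
    ∀ᵐ z ∂(Measure.infinitePi (fun _ : V b => ρ)), ∀ v, |z v| ≤ H := by
  have := hρ.prob
  rw [ae_all_iff]
  intro v
  have e := measurePreserving_eval_infinitePi (fun _ : V b => ρ) v
  exact e.quasiMeasurePreserving.ae hρ.bdd

/-- Bayes formula in finite volume: the joint law of the spins and of the fields on `S`. -/
lemma integral_planted {θ : ℝ} (h0 : 0 ≤ θ) (h1 : θ < 1) {ρ : Measure ℝ} {H : ℝ}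
    (hρ : Chan ρ H) (S : Finset (V b)) {φ : (V b → Bool) → ℝ} (hφ : Bm φ)
    {Φ : (V b → ℝ) → ℝ} (hΦ : Bm Φ) (hd : DependsOn Φ (S : Set (V b))) :
    ∫ p, φ p.1 * Φ (fun v => sg (p.1 v) * p.2 v)
        ∂((mu b θ).prod (Measure.infinitePi (fun _ : V b => ρ))) =
      ∫ z, Φ z * (∏ v ∈ S, qd H (z v)) *
        (∫ σ, φ σ * ∏ v ∈ S, (1 + sg (σ v) * Real.tanh (z v)) ∂(mu b θ))
        ∂(Measure.infinitePi (fun _ : V b => ρ)) := by
  have := hρ.prob
  have := isProb_mu (b := b) h0 h1
  have Btanh : ∀ v : V b, Bm (fun p : (V b → Bool) × (V b → ℝ) =>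
      (1 + sg (p.1 v) * Real.tanh (p.2 v))) := by
    intro v
    refine ⟨?_, 2, fun p => ?_⟩
    · exact measurable_const.add ((measurable_sg.comp ((measurable_pi_apply v).comp
        measurable_fst)).mul (measurable_tanh.comp ((measurable_pi_apply v).comp measurable_snd)))
    · have h2 := abs_add_le 1 (sg (p.1 v) * Real.tanh (p.2 v))
      rw [abs_mul, abs_sg, one_mul, abs_one] at h2
      have h3 := Real.abs_tanh_lt_one (p.2 v)
      linarith
  have B1 : Bm (fun p : (V b → Bool) × (V b → ℝ) =>
      φ p.1 * Φ (fun v => sg (p.1 v) * p.2 v)) :=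
    (hφ.comp measurable_fst).mul (hΦ.comp measurable_plant)
  have BQ : Bm (fun p : (V b → Bool) × (V b → ℝ) => ∏ v ∈ S, qd H (p.2 v)) :=
    Bm.prod _ _ (fun v _ => (Bm_qd H).comp ((measurable_pi_apply v).comp measurable_snd))
  have B2 : Bm (fun p : (V b → Bool) × (V b → ℝ) =>
      (Φ p.2 * (∏ v ∈ S, qd H (p.2 v))) *
        (φ p.1 * ∏ v ∈ S, (1 + sg (p.1 v) * Real.tanh (p.2 v)))) :=
    ((hΦ.comp measurable_snd).mul BQ).mul ((hφ.comp measurable_fst).mul
      (Bm.prod _ _ (fun v _ => Btanh v)))
  rw [integral_prod _ (B1.integrable _)]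
  calc ∫ σ, ∫ z, φ σ * Φ (fun v => sg (σ v) * z v)
          ∂(Measure.infinitePi (fun _ : V b => ρ)) ∂(mu b θ)
      = ∫ σ, ∫ z, (Φ z * (∏ v ∈ S, qd H (z v))) *
          (φ σ * ∏ v ∈ S, (1 + sg (σ v) * Real.tanh (z v)))
          ∂(Measure.infinitePi (fun _ : V b => ρ)) ∂(mu b θ) := by
        congr 1
        funext σ
        rw [integral_const_mul]
        have h2 : ∀ z : V b → ℝ, Φ (fun v => sg (σ v) * z v) =
            Φ (fun v => if v ∈ S then sg (σ v) * z v else z v) := by
          intro z
          apply hd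
          intro v hv
          have hv' : v ∈ S := hv
          simp [hv']
        simp only [h2]
        rw [integral_flip_finset hρ σ S hΦ, ← integral_const_mul]
        apply integral_congr_ae
        filter_upwards [ae_abs_le (b := b) hρ] with z hz
        have h3 : ∏ v ∈ S, wt H (σ v) (z v) =
            (∏ v ∈ S, (1 + sg (σ v) * Real.tanh (z v))) * ∏ v ∈ S, qd H (z v) := by
          rw [← Finset.prod_mul_distrib]
          exact Finset.prod_congr rfl (fun v _ => wt_eq (hz v) (σ v))
        rw [h3]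
        ring
    _ = ∫ z, ∫ σ, (Φ z * (∏ v ∈ S, qd H (z v))) *
          (φ σ * ∏ v ∈ S, (1 + sg (σ v) * Real.tanh (z v)))
          ∂(mu b θ) ∂(Measure.infinitePi (fun _ : V b => ρ)) := by
        rw [← integral_prod (f := fun p : (V b → Bool) × (V b → ℝ) =>
          (Φ p.2 * (∏ v ∈ S, qd H (p.2 v))) *
            (φ p.1 * ∏ v ∈ S, (1 + sg (p.1 v) * Real.tanh (p.2 v)))) (B2.integrable _),
          integral_prod_symm _ (B2.integrable _)]
    _ = _ := by
        congr 1
        funext z
        rw [integral_const_mul]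

/-- Posterior mean in finite volume (branches). -/
lemma integral_planted_lm (hBP : Spec.BPsub) (hb : 1 ≤ b) {θ : ℝ} (h0 : 0 ≤ θ) (h1 : θ < 1)
    {ρ : Measure ℝ} {H : ℝ} (hρ : Chan ρ H) (N : ℕ) (u : V b) (i : Fin (b + 1))
    {Φ : (V b → ℝ) → ℝ} (hΦ : Bm Φ) (hd : DependsOn Φ (Sub N u i : Set (V b))) :
    ∫ p, sg (p.1 u) * Φ (fun v => sg (p.1 v) * p.2 v)
        ∂((mu b θ).prod (Measure.infinitePi (fun _ : V b => ρ))) =
      ∫ p, Real.tanh (lm θ N (fun v => sg (p.1 v) * p.2 v) u i) *
        Φ (fun v => sg (p.1 v) * p.2 v)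
        ∂((mu b θ).prod (Measure.infinitePi (fun _ : V b => ρ))) := by
  have B1 : Bm (fun σ : V b → Bool => sg (σ u)) :=
    ⟨measurable_sg.comp (measurable_pi_apply u), 1, fun σ => by rw [abs_sg]⟩
  have Bl : Bm (fun h : V b → ℝ => Real.tanh (lm θ N h u i)) :=
    ⟨measurable_tanh.comp (measurable_lm θ N u i), 1, fun h => (Real.abs_tanh_lt_one _).le⟩
  rw [integral_planted h0 h1 hρ (Sub N u i) B1 hΦ hd]
  have e2 := integral_planted h0 h1 hρ (Sub N u i) (φ := fun _ => 1) (Bm.const 1)
    (Φ := fun h => Real.tanh (lm θ N h u i) * Φ h) (Bl.mul hΦ) (by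
      intro h h' hh
      show Real.tanh (lm θ N h u i) * Φ h = Real.tanh (lm θ N h' u i) * Φ h'
      rw [hd hh, lm_congr (fun v hv => hh v hv)])
  simp only [one_mul] at e2
  rw [e2]
  congr 1
  funext z
  rw [hBP b θ hb h0 h1 N z u i]
  ring

/-- Posterior mean in finite volume (balls). -/
lemma integral_planted_lg (hBP : Spec.BPball) (hb : 1 ≤ b) {θ : ℝ} (h0 : 0 ≤ θ) (h1 : θ < 1)
    {ρ : Measure ℝ} {H : ℝ} (hρ : Chan ρ H) (N : ℕ) (u : V b)
    {Φ : (V b → ℝ) → ℝ} (hΦ : Bm Φ) (hd : DependsOn Φ (Bl N u : Set (V b))) :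
    ∫ p, sg (p.1 u) * Φ (fun v => sg (p.1 v) * p.2 v)
        ∂((mu b θ).prod (Measure.infinitePi (fun _ : V b => ρ))) =
      ∫ p, Real.tanh (lg θ N (fun v => sg (p.1 v) * p.2 v) u) *
        Φ (fun v => sg (p.1 v) * p.2 v)
        ∂((mu b θ).prod (Measure.infinitePi (fun _ : V b => ρ))) := by
  have B1 : Bm (fun σ : V b → Bool => sg (σ u)) :=
    ⟨measurable_sg.comp (measurable_pi_apply u), 1, fun σ => by rw [abs_sg]⟩
  have Bl' : Bm (fun h : V b → ℝ => Real.tanh (lg θ N h u)) :=
    ⟨measurable_tanh.comp (measurable_lg θ N u), 1, fun h => (Real.abs_tanh_lt_one _).le⟩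
  rw [integral_planted h0 h1 hρ (Bl N u) B1 hΦ hd]
  have e2 := integral_planted h0 h1 hρ (Bl N u) (φ := fun _ => 1) (Bm.const 1)
    (Φ := fun h => Real.tanh (lg θ N h u) * Φ h) (Bl'.mul hΦ) (by
      intro h h' hh
      show Real.tanh (lg θ N h u) * Φ h = Real.tanh (lg θ N h' u) * Φ h'
      rw [hd hh, lg_congr (fun v hv => hh v hv)])
  simp only [one_mul] at e2
  rw [e2]
  congr 1
  funext z
  rw [hBP b θ hb h0 h1 N z u]
  ring

/-- The filtration generated by the fields in the growing branches. -/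
def filSub (b : ℕ) (u : V b) (i : Fin (b + 1)) :
    Filtration ℕ (inferInstance : MeasurableSpace ((V b → Bool) × (V b → ℝ))) where
  seq N := MeasurableSpace.comap
    (fun p : (V b → Bool) × (V b → ℝ) => (Sub N u i).restrict (fun v => sg (p.1 v) * p.2 v))
    inferInstance
  mono' := by
    intro N N' h
    show MeasurableSpace.comap _ _ ≤ MeasurableSpace.comap _ _
    have h1 : (fun p : (V b → Bool) × (V b → ℝ) =>
        (Sub N u i).restrict (fun v => sg (p.1 v) * p.2 v)) =
        (Finset.restrict₂ (π := fun _ : V b => ℝ) (Sub_mono h u i)) ∘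
        (fun p : (V b → Bool) × (V b → ℝ) =>
        (Sub N' u i).restrict (fun v => sg (p.1 v) * p.2 v)) := by
      funext p; rfl
    rw [h1, ← MeasurableSpace.comap_comp]
    exact MeasurableSpace.comap_mono (Finset.measurable_restrict₂ _).comap_le
  le' := by
    intro N
    exact ((Finset.measurable_restrict _).comp measurable_plant).comap_le

lemma tanh_lm_ae_eq_condExp (hBP : Spec.BPsub) (hb : 1 ≤ b) {θ : ℝ} (h0 : 0 ≤ θ) (h1 : θ < 1)
    {ρ : Measure ℝ} {H : ℝ} (hρ : Chan ρ H) (N : ℕ) (u : V b) (i : Fin (b + 1)) :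
    (fun p : (V b → Bool) × (V b → ℝ) =>
      Real.tanh (lm θ N (fun v => sg (p.1 v) * p.2 v) u i)) =ᵐ[
        (mu b θ).prod (Measure.infinitePi (fun _ : V b => ρ))]
      ((mu b θ).prod (Measure.infinitePi (fun _ : V b => ρ)))[fun p => sg (p.1 u) |
        filSub b u i N] := by
  have := hρ.prob
  have := isProb_mu (b := b) h0 h1
  have Bl : Bm (fun h : V b → ℝ => Real.tanh (lm θ N h u i)) :=
    ⟨measurable_tanh.comp (measurable_lm θ N u i), 1, fun h => (Real.abs_tanh_lt_one _).le⟩
  have Bs : Bm (fun p : (V b → Bool) × (V b → ℝ) => sg (p.1 u)) :=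
    ⟨measurable_sg.comp ((measurable_pi_apply u).comp measurable_fst), 1,
      fun σ => by rw [abs_sg]⟩
  apply ae_eq_condExp_of_forall_setIntegral_eq ((filSub b u i).le N)
  · exact Bs.integrable _
  · intro s _ _
    exact ((Bl.comp measurable_plant).integrable _).integrableOn
  · rintro s ⟨B, hB, rfl⟩ _
    have hBm : MeasurableSet ((fun p : (V b → Bool) × (V b → ℝ) =>
        (Sub N u i).restrict (fun v => sg (p.1 v) * p.2 v)) ⁻¹' B) :=
      ((Finset.measurable_restrict _).comp measurable_plant) hB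
    rw [← integral_indicator hBm, ← integral_indicator hBm]
    have hΦ : Bm (fun h : V b → ℝ => B.indicator (fun _ => (1 : ℝ)) ((Sub N u i).restrict h)) := by
      refine ⟨(measurable_const.indicator hB).comp (Finset.measurable_restrict _), 1,
        fun h => ?_⟩
      by_cases hh : (Sub N u i).restrict h ∈ B
      · simp [hh]
      · simp [hh]
    have hd : DependsOn (fun h : V b → ℝ =>
        B.indicator (fun _ => (1 : ℝ)) ((Sub N u i).restrict h)) (Sub N u i : Set (V b)) := by
      intro h h' hh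
      have : (Sub N u i).restrict h = (Sub N u i).restrict h' := by
        funext v
        exact hh v.1 v.2
      show B.indicator (fun _ => (1 : ℝ)) ((Sub N u i).restrict h) = _
      rw [this]
    have e := integral_planted_lm hBP hb h0 h1 hρ N u i hΦ hd
    have q1 : ∀ p : (V b → Bool) × (V b → ℝ), ((fun p : (V b → Bool) × (V b → ℝ) =>
        (Sub N u i).restrict (fun v => sg (p.1 v) * p.2 v)) ⁻¹' B).indicator
        (fun p => Real.tanh (lm θ N (fun v => sg (p.1 v) * p.2 v) u i)) p =
        Real.tanh (lm θ N (fun v => sg (p.1 v) * p.2 v) u i) *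
        B.indicator (fun _ => (1 : ℝ)) ((Sub N u i).restrict (fun v => sg (p.1 v) * p.2 v)) := by
      intro p
      by_cases hp : (Sub N u i).restrict (fun v => sg (p.1 v) * p.2 v) ∈ B
      · rw [Set.indicator_of_mem hp, Set.indicator_of_mem (by exact hp), mul_one]
      · rw [Set.indicator_of_notMem hp, Set.indicator_of_notMem (by exact hp), mul_zero]
    have q2 : ∀ p : (V b → Bool) × (V b → ℝ), ((fun p : (V b → Bool) × (V b → ℝ) =>
        (Sub N u i).restrict (fun v => sg (p.1 v) * p.2 v)) ⁻¹' B).indicator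
        (fun p => sg (p.1 u)) p =
        sg (p.1 u) *
        B.indicator (fun _ => (1 : ℝ)) ((Sub N u i).restrict (fun v => sg (p.1 v) * p.2 v)) := by
      intro p
      by_cases hp : (Sub N u i).restrict (fun v => sg (p.1 v) * p.2 v) ∈ B
      · rw [Set.indicator_of_mem hp, Set.indicator_of_mem (by exact hp), mul_one]
      · rw [Set.indicator_of_notMem hp, Set.indicator_of_notMem (by exact hp), mul_zero]
    simp only [q1, q2]
    exact e.symm
  · -- measurability with respect to the branch
    let ext : (↥(Sub N u i) → ℝ) → (V b → ℝ) := fun y v =>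
      if hv : v ∈ Sub N u i then y ⟨v, hv⟩ else 0
    have hext : Measurable ext := by
      apply measurable_pi_lambda
      intro v
      by_cases hv : v ∈ Sub N u i
      · simp only [ext, hv, dite_true]
        exact measurable_pi_apply _
      · simp only [ext, hv, dite_false]
        exact measurable_const
    have h2 : (fun p : (V b → Bool) × (V b → ℝ) =>
        Real.tanh (lm θ N (fun v => sg (p.1 v) * p.2 v) u i)) =
        (fun y => Real.tanh (lm θ N (ext y) u i)) ∘
        (fun p : (V b → Bool) × (V b → ℝ) =>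
          (Sub N u i).restrict (fun v => sg (p.1 v) * p.2 v)) := by
      funext p
      show Real.tanh _ = Real.tanh _
      congr 1
      apply lm_congr
      intro v hv
      simp [ext, hv]
    rw [h2]
    apply StronglyMeasurable.aestronglyMeasurable
    apply Measurable.stronglyMeasurable
    exact ((measurable_tanh.comp (measurable_lm θ N u i)).comp hext).comp
      (comap_measurable _)

end Crest.Agent.Isg

namespace Crest.Agent.IsgGood

open Crest.Agent.Isg

/-- S1 (from belief propagation). -/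
theorem main (hBP : Spec.BPsub) : Spec.GoodPL := by
  intro b θ hb h0 h1 ρ H hρ
  have := hρ.prob
  have := isProb_mu (b := b) h0 h1
  unfold PL
  rw [ae_map_iff measurable_plant.aemeasurable (measurableSet_GoodH θ H)]
  have hA : ∀ᵐ p ∂((mu b θ).prod (Measure.infinitePi (fun _ : V b => ρ))),
      ∀ u i, ∃ t, Tendsto (fun N => Real.tanh
        (lm θ N (fun v => sg (p.1 v) * p.2 v) u i)) atTop (𝓝 t) := by
    rw [ae_all_iff]
    intro u
    rw [ae_all_iff]
    intro i
    have e1 := tendsto_ae_condExp (μ := (mu b θ).prod (Measure.infinitePi (fun _ : V b => ρ)))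
      (ℱ := filSub b u i) (fun p => sg (p.1 u))
    have e2 : ∀ᵐ p ∂((mu b θ).prod (Measure.infinitePi (fun _ : V b => ρ))), ∀ N,
        Real.tanh (lm θ N (fun v => sg (p.1 v) * p.2 v) u i) =
        (((mu b θ).prod (Measure.infinitePi (fun _ : V b => ρ)))[fun p => sg (p.1 u) |
        filSub b u i N]) p := by
      rw [ae_all_iff]
      intro N
      exact tanh_lm_ae_eq_condExp hBP hb h0 h1 hρ N u i
    filter_upwards [e1, e2] with p hp1 hp2
    exact ⟨_, hp1.congr (fun N => (hp2 N).symm)⟩
  have hB : ∀ᵐ p ∂((mu b θ).prod (Measure.infinitePi (fun _ : V b => ρ))),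
      ∀ v, |p.2 v| ≤ H := by
    have := ae_abs_le (b := b) hρ
    exact Measure.quasiMeasurePreserving_snd.ae this
  filter_upwards [hA, hB] with p hp1 hp2
  refine ⟨fun u i => exists_tendsto_lm_of_tanh h0 h1 (hp1 u i), fun v => ?_⟩
  rw [abs_mul, abs_sg, one_mul]
  exact hp2 v

end Crest.Agent.IsgGood
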