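import Crest.Agent.IsgEqv
import Crest.Agent.IsgSpec

set_option autoImplicit false

/-!
Module UPD of S0241: symmetry of the posterior covariance and the effect of one more signal.
-/

open MeasureTheory ProbabilityTheory Filter Topology

namespace Crest.Agent.IsgUpd

open Crest.Agent.Isg

variable {b : ℕ}

/-- second edge identity. -/
lemma E2 {θ : ℝ} (h0 : 0 ≤ θ) (h1 : θ < 1) (a f : ℝ) :
    (1 - Real.tanh (a + psi θ f) ^ 2) * kap θ f = (1 - Real.tanh (f + psi θ a) ^ 2) * kap θ a := by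
  have d1 := one_add_tanh_mul_tanh_pos a (psi θ f)
  have d2 := one_add_tanh_mul_tanh_pos f (psi θ a)
  have d3 := one_sub_sq_mul_pos h0 h1 a
  have d4 := one_sub_sq_mul_pos h0 h1 f
  rw [tanh_add_eq, tanh_add_eq, tanh_psi h0 h1, tanh_psi h0 h1]
  rw [tanh_psi h0 h1] at d1 d2
  unfold kap
  set A := Real.tanh a
  set F := Real.tanh f
  have d1' := d1.ne'
  have d2' := d2.ne'
  have d3' := d3.ne'
  have d4' := d4.ne'
  rw [show 1 - ((A + θ * F) / (1 + A * (θ * F))) ^ 2 =
    ((1 - A ^ 2) * (1 - θ ^ 2 * F ^ 2)) / (1 + A * (θ * F)) ^ 2 by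
      rw [div_pow, eq_div_iff (pow_ne_zero 2 d1'), sub_mul, div_mul_cancel₀ _ (pow_ne_zero 2 d1')]
      ring]
  rw [show 1 - ((F + θ * A) / (1 + F * (θ * A))) ^ 2 =
    ((1 - F ^ 2) * (1 - θ ^ 2 * A ^ 2)) / (1 + F * (θ * A)) ^ 2 by
      rw [div_pow, eq_div_iff (pow_ne_zero 2 d2'), sub_mul, div_mul_cancel₀ _ (pow_ne_zero 2 d2')]
      ring]
  rw [div_mul_div_comm, div_mul_div_comm, show 1 + F * (θ * A) = 1 + A * (θ * F) by ring,
    div_eq_div_iff (mul_ne_zero (pow_ne_zero 2 d1') d4') (mul_ne_zero (pow_ne_zero 2 d1') d3')]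
  ring

/-- first edge identity. -/
lemma E1 {θ : ℝ} (h0 : 0 ≤ θ) (h1 : θ < 1) (a f : ℝ) :
    Real.tanh (a + psi θ f) = Real.tanh a * (1 - θ ^ 2) / (1 - θ ^ 2 * Real.tanh a ^ 2) +
      θ * kap θ a * Real.tanh (f + psi θ a) := by
  have d1 := one_add_tanh_mul_tanh_pos a (psi θ f)
  have d3 := one_sub_sq_mul_pos h0 h1 a
  rw [tanh_add_eq, tanh_add_eq, tanh_psi h0 h1, tanh_psi h0 h1]
  rw [tanh_psi h0 h1] at d1
  unfold kap
  set A := Real.tanh a
  set F := Real.tanh f
  have d1' := d1.ne'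
  have d3' := d3.ne'
  rw [show 1 + F * (θ * A) = 1 + A * (θ * F) by ring]
  obtain ⟨κ, hκ⟩ : ∃ κ, κ = (1 - A ^ 2) / (1 - θ ^ 2 * A ^ 2) := ⟨_, rfl⟩
  obtain ⟨α, hα⟩ : ∃ α, α = A * (1 - θ ^ 2) / (1 - θ ^ 2 * A ^ 2) := ⟨_, rfl⟩
  rw [← hκ, ← hα]
  rw [eq_div_iff d3'] at hκ hα
  rw [div_eq_iff d1', add_mul, mul_assoc (θ * κ), div_mul_cancel₀ _ d1']
  apply mul_right_cancel₀ d3'
  linear_combination (-(1 + A * (θ * F))) * hα - θ * (F + θ * A) * hκ

lemma ddlSymm {θ : ℝ} (h0 : 0 ≤ θ) (h1 : θ < 1) {h : V b → ℝ} (hg : Good θ h) (u : V b)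
    (l : List (Fin (b + 1))) :
    (1 - M θ h u ^ 2) * DDl θ h u l =
      (1 - M θ h (follow u l) ^ 2) * DDl θ h (follow u l) l.reverse := by
  induction l with
  | nil => simp
  | cons i l ih =>
    rw [DDl_cons, ← mul_assoc, ih, List.reverse_cons, DDl_concat]
    rw [follow_cons, nb_nb]
    set y := follow u l
    have h2 := E2 h0 h1 (lmI θ h y i) (lmI θ h (nb i y) i)
    rw [← lgI_eq_add h0 h1 hg y i, ← lgI_nb_eq_add h0 h1 hg y i] at h2
    change (1 - M θ h y ^ 2) * _ = (1 - M θ h (nb i y) ^ 2) * _ at h2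
    calc (1 - M θ h y ^ 2) * DDl θ h y l.reverse * kap θ (lmI θ h (nb i y) i)
        = ((1 - M θ h y ^ 2) * kap θ (lmI θ h (nb i y) i)) * DDl θ h y l.reverse := by ring
      _ = ((1 - M θ h (nb i y) ^ 2) * kap θ (lmI θ h y i)) * DDl θ h y l.reverse := by rw [h2]
      _ = _ := by ring

theorem ddSymm : Spec.DDsymm := by
  intro b θ h0 h1 h hg u w
  exact ddlSymm h0 h1 hg u w.l

lemma not_mem_Sub_of_fs {N : ℕ} {u v : V b} {i : Fin (b + 1)} (h : fs (mul (inv u) v) = some i) :
    v ∉ Sub N u i := fun h2 => (mem_Sub.1 h2).2 h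

lemma not_mem_Sub_nb_of_fs {N : ℕ} {u v : V b} {j : Fin (b + 1)}
    (h : fs (mul (inv u) v) ≠ some j) : v ∉ Sub N (nb j u) j :=
  fun h2 => h (fs_of_mem_Sub_nb h2)

lemma lm_update {θ : ℝ} {N : ℕ} {h : V b → ℝ} {u v : V b} {i : Fin (b + 1)} (c : ℝ)
    (hv : v ∉ Sub N u i) : lm θ N (Function.update h v c) u i = lm θ N h u i := by
  apply lm_congr
  intro w hw
  rw [Function.update_of_ne]
  rintro rfl
  exact hv hw

lemma good_update {θ : ℝ} (h0 : 0 ≤ θ) (h1 : θ < 1) {h : V b → ℝ} (hg : Good θ h) (v : V b)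
    (c : ℝ) : Good θ (Function.update h v c) := by
  have key : ∀ n : ℕ, ∀ u : V b, dst u v = n → ∀ i, ∃ ℓ, Tendsto
      (fun N => lm θ N (Function.update h v c) u i) atTop (𝓝 ℓ) := by
    intro n
    induction n using Nat.strong_induction_on with
    | _ n ih =>
      intro u hu i
      have h2 : ∀ j, ∃ ℓ, Tendsto (fun N => lm θ N (Function.update h v c) (nb j u) j)
          atTop (𝓝 ℓ) := by
        intro j
        by_cases hj : fs (mul (inv u) v) = some j
        · have h3 := dst_nb_of_fs j u v hj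
          exact ih (dst (nb j u) v) (by omega) (nb j u) rfl j
        · obtain ⟨ℓ, hℓ⟩ := hg (nb j u) j
          refine ⟨ℓ, ?_⟩
          have h3 : (fun N => lm θ N (Function.update h v c) (nb j u) j)
              = fun N => lm θ N h (nb j u) j := by
            funext N
            exact lm_update c (not_mem_Sub_nb_of_fs hj)
          rw [h3]; exact hℓ
      choose ℓ hℓ using h2
      refine ⟨Function.update h v c u + ∑ j ∈ Finset.univ.erase i, psi θ (ℓ j), ?_⟩
      rw [← tendsto_add_atTop_iff_nat 1]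
      simp only [lm_succ]
      apply Tendsto.const_add
      apply tendsto_finsetSum
      intro j _
      exact ((continuous_psi h0 h1).tendsto _).comp (hℓ j)
  intro u i
  exact key _ u rfl i

lemma lmI_update {θ : ℝ} {h : V b → ℝ} (hg : Good θ h) {u v : V b} {i : Fin (b + 1)} (c : ℝ)
    (hv : ∀ N, v ∉ Sub N u i) : lmI θ (Function.update h v c) u i = lmI θ h u i := by
  apply lmI_eq_of_tendsto
  have h3 : (fun N => lm θ N (Function.update h v c) u i) = fun N => lm θ N h u i := by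
    funext N
    exact lm_update c (hv N)
  rw [h3]
  exact hg.tendsto_lm u i

lemma fs_follow (u : V b) (l : List (Fin (b + 1))) (i : Fin (b + 1))
    (hl : (l ++ [i]).IsChain (· ≠ ·)) :
    fs (mul (inv u) (follow u (l ++ [i]))) = some i := by
  have h1 : follow u (l ++ [i]) = mul u ⟨l ++ [i], hl⟩ := rfl
  rw [h1, inv_mul_cancel_left']
  simp [fs]

lemma update_main {θ : ℝ} (h0 : 0 ≤ θ) (h1 : θ < 1) {h : V b → ℝ} (hg : Good θ h) (z : ℝ)
    (hz : |z| < 1) (v : V b) (l : List (Fin (b + 1))) :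
    ∀ u : V b, l.IsChain (· ≠ ·) → follow u l = v →
      M θ (Function.update h v (h v + Real.artanh z)) u - M θ h u =
        (1 - M θ h u ^ 2) * θ ^ l.length * DDl θ h u l * z / (1 + z * M θ h v) := by
  set h' := Function.update h v (h v + Real.artanh z) with hh'
  have hg' : Good θ h' := good_update h0 h1 hg v _
  have hz' : Real.tanh (Real.artanh z) = z := Real.tanh_artanh (abs_lt.1 hz)
  induction l using List.reverseRecOn with
  | nil =>
    intro u _ hu
    rw [follow_nil] at hu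
    subst hu
    have h2 : lgI θ h' u = lgI θ h u + Real.artanh z := by
      unfold lgI
      rw [hh', Function.update_self]
      have h3 : ∀ j, lmI θ (Function.update h u (h u + Real.artanh z)) (nb j u) j
          = lmI θ h (nb j u) j := fun j => lmI_update hg _ (fun N => not_mem_Sub_nb N u j)
      simp only [h3]
      ring
    have h4 : M θ h' u = (M θ h u + z) / (1 + M θ h u * z) := by
      unfold M
      rw [h2, tanh_add_eq, hz']
    have h5 : 0 < 1 + M θ h u * z := by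
      have := one_add_tanh_mul_tanh_pos (lgI θ h u) (Real.artanh z)
      rwa [hz'] at this
    rw [h4, mul_comm z (M θ h u), List.length_nil, pow_zero, DDl_nil, eq_div_iff h5.ne', sub_mul,
      div_mul_cancel₀ _ h5.ne']
    ring
  | append_singleton l i ih =>
    intro u hl hu
    have hl' : l.IsChain (· ≠ ·) := hl.left_of_append
    rw [follow_concat] at hu
    have hfs : fs (mul (inv u) v) = some i := by
      have := fs_follow u l i hl
      rwa [follow_concat, hu] at this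
    have ih' := ih (nb i u) hl' hu
    have e1 : lmI θ h' u i = lmI θ h u i := lmI_update hg _ (fun N => not_mem_Sub_of_fs hfs)
    have e2 := E1 h0 h1 (lmI θ h u i) (lmI θ h (nb i u) i)
    have e3 := E1 h0 h1 (lmI θ h' u i) (lmI θ h' (nb i u) i)
    rw [← lgI_eq_add h0 h1 hg u i, ← lgI_nb_eq_add h0 h1 hg u i] at e2
    rw [← lgI_eq_add h0 h1 hg' u i, ← lgI_nb_eq_add h0 h1 hg' u i, e1] at e3
    have e4 : M θ h' u - M θ h u = θ * kap θ (lmI θ h u i) * (M θ h' (nb i u) - M θ h (nb i u)) := by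
      change Real.tanh (lgI θ h' u) - Real.tanh (lgI θ h u) =
        θ * kap θ (lmI θ h u i) * (Real.tanh (lgI θ h' (nb i u)) - Real.tanh (lgI θ h (nb i u)))
      rw [e2, e3]; ring
    have e5 := E2 h0 h1 (lmI θ h u i) (lmI θ h (nb i u) i)
    rw [← lgI_eq_add h0 h1 hg u i, ← lgI_nb_eq_add h0 h1 hg u i] at e5
    change (1 - M θ h u ^ 2) * _ = (1 - M θ h (nb i u) ^ 2) * _ at e5
    rw [e4, ih', DDl_concat, List.length_append, List.length_singleton, pow_succ]
    calc θ * kap θ (lmI θ h u i) * ((1 - M θ h (nb i u) ^ 2) * θ ^ l.length *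
          DDl θ h (nb i u) l * z / (1 + z * M θ h v))
        = ((1 - M θ h (nb i u) ^ 2) * kap θ (lmI θ h u i)) * (θ * θ ^ l.length *
          DDl θ h (nb i u) l * z / (1 + z * M θ h v)) := by ring
      _ = ((1 - M θ h u ^ 2) * kap θ (lmI θ h (nb i u) i)) * (θ * θ ^ l.length *
          DDl θ h (nb i u) l * z / (1 + z * M θ h v)) := by rw [e5]
      _ = _ := by ring

theorem update : Spec.Update := by
  intro b θ h0 h1 h hg u w z hz
  refine ⟨good_update h0 h1 hg _ _, ?_⟩
  exact update_main h0 h1 hg z hz (mul u w) w.l u w.h rfl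

end Crest.Agent.IsgUpd
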