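import Crest.Agent.IsgEqvB
import Crest.Agent.IsgReal1
import Crest.Agent.IsgUpd

set_option autoImplicit false

/-!
S0241, module INEQ: the integral inequality for the mean square difference of the magnetisations.
-/

open MeasureTheory ProbabilityTheory Filter Topology
open scoped ENNReal

namespace Crest.Agent.IsgIneq

open Crest.Agent.Isg

variable {b : ℕ}

/-- The space of triples. -/
abbrev Om (b : ℕ) := (ℕ × V b → UI) × ((ℕ × V b → UI) × (ℕ × V b → UI))

/-- truncation to the past of `α` -/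
noncomputable def tr (α : ℕ × V b) (U Y : ℕ × V b → UI) : ℕ × V b → UI :=
  fun β => if tm U β < tm U α then Y β else 0

noncomputable def TR (α : ℕ × V b) (p : Om b) : Om b := (p.1, (tr α p.1 p.2.1, tr α p.1 p.2.2))

lemma measurable_tr {Ω : Type*} [MeasurableSpace Ω] {U Y : Ω → (ℕ × V b → UI)} (α : ℕ × V b)
    (hU : Measurable U) (hY : Measurable Y) : Measurable (fun ω => tr α (U ω) (Y ω)) := by
  apply measurable_pi_lambda
  intro β
  unfold tr
  exact Measurable.ite (measurableSet_lt (Measurable.tm hU β) (Measurable.tm hU α))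
    ((measurable_pi_apply β).comp hY) measurable_const

lemma measurable_TR (α : ℕ × V b) : Measurable (TR α) :=
  measurable_fst.prodMk ((measurable_tr α measurable_fst (measurable_fst.comp measurable_snd)).prodMk
    (measurable_tr α measurable_fst (measurable_snd.comp measurable_snd)))

lemma fld_past {U Y Y' : ℕ × V b → UI} {τ : ℝ} (h : ∀ γ, tm U γ < τ → Y γ = Y' γ) :
    fld U Y τ = fld U Y' τ := by
  funext v
  unfold fld
  apply Finset.sum_congr rfl
  intro j _
  by_cases hj : tm U (j, v) < τ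
  · rw [if_pos hj, if_pos hj]
    unfold zz
    rw [h _ hj]
  · rw [if_neg hj, if_neg hj]

lemma fld_tr {U Y : ℕ × V b → UI} {α β : ℕ × V b} (h : tm U β ≤ tm U α) :
    fld U (tr α U Y) (tm U β) = fld U Y (tm U β) := by
  apply fld_past
  intro γ hγ
  unfold tr
  rw [if_pos (lt_of_lt_of_le hγ h)]

lemma incr_tr {θ : ℝ} {U Y : ℕ × V b → UI} {α β : ℕ × V b} (h : tm U β < tm U α) :
    Spec.incr θ U (tr α U Y) β = Spec.incr θ U Y β := by
  unfold Spec.incr
  rw [fld_tr h.le]
  have h2 : zz U (tr α U Y) β = zz U Y β := by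
    unfold zz tr
    rw [if_pos h]
  rw [h2]

lemma abs_pm_le (θ : ℝ) (U Y : ℕ × V b → UI) (α : ℕ × V b) : |pm θ U Y α| ≤ 1 :=
  (abs_M_lt_one θ (fld U Y (tm U α)) α.2).le

/-- `a.s.` formula for the increment. -/
lemma incr_eq {θ : ℝ} (h0 : 0 ≤ θ) (h1 : θ < 1) (hU : Spec.Update) {U Y : ℕ × V b → UI}
    {α : ℕ × V b} (hg : Good θ (fld U Y (tm U α))) :
    Spec.incr θ U Y α = CC θ (fld U Y (tm U α)) (rt b) α.2 *
      pw (str (U α)) (pm θ U Y α) (TT θ U Y α) := by
  have hz : |zz U Y α| < 1 := lt_of_le_of_lt (abs_zz_le U Y α) (by norm_num)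
  have h2 := (hU b θ h0 h1 _ hg (rt b) α.2 (zz U Y α) hz).2
  rw [rt_mul] at h2
  unfold Spec.incr
  rw [h2, TT, IsgReal1.pw_Fc (str_nonneg _) (str_le_half _) (abs_pm_le _ _ _ _), mul_div_assoc]
  rfl

/-- The difference of the increments. -/
noncomputable def Gd (θ τ : ℝ) (α : ℕ × V b) (p : Om b) : ℝ :=
  if tm p.1 α < τ then Spec.incr θ p.1 p.2.1 α - Spec.incr θ p.1 p.2.2 α else 0

/-- The same as a function of past and innovation. -/
noncomputable def Ps (θ τ : ℝ) (α : ℕ × V b) (x : Om b) (w : UI) : ℝ :=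
  if tm x.1 α < τ then
    CC θ (fld x.1 x.2.1 (tm x.1 α)) (rt b) α.2 * pw (str (x.1 α)) (pm θ x.1 x.2.1 α) w -
    CC θ (fld x.1 x.2.2 (tm x.1 α)) (rt b) α.2 * pw (str (x.1 α)) (pm θ x.1 x.2.2 α) w else 0

lemma measurable_Gd (θ τ : ℝ) (α : ℕ × V b) : Measurable (Gd θ τ α) := by
  unfold Gd
  refine Measurable.ite (measurableSet_lt (Measurable.tm measurable_fst α) measurable_const)
    ?_ measurable_const
  exact (Measurable.incr θ measurable_fst (measurable_fst.comp measurable_snd) α).sub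
    (Measurable.incr θ measurable_fst (measurable_snd.comp measurable_snd) α)

lemma measurable_CCf {Ω : Type*} [MeasurableSpace Ω] {h : Ω → (V b → ℝ)} (θ : ℝ)
    (hh : Measurable h) (u w : V b) : Measurable (fun ω => CC θ (h ω) u w) :=
  (measurable_CC θ u w).comp hh

lemma measurable_Ps (θ τ : ℝ) (α : ℕ × V b) :
    Measurable (fun q : Om b × UI => Ps θ τ α q.1 q.2) := by
  unfold Ps
  have hU : Measurable (fun q : Om b × UI => q.1.1) := measurable_fst.comp measurable_fst
  have hY : Measurable (fun q : Om b × UI => q.1.2.1) :=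
    measurable_fst.comp (measurable_snd.comp measurable_fst)
  have hY' : Measurable (fun q : Om b × UI => q.1.2.2) :=
    measurable_snd.comp (measurable_snd.comp measurable_fst)
  have ht := Measurable.tm hU α
  have hs : Measurable (fun q : Om b × UI => str (q.1.1 α)) :=
    Measurable.str (Measurable.coeUI ((measurable_pi_apply α).comp hU))
  refine Measurable.ite (measurableSet_lt ht measurable_const) ?_ measurable_const
  apply Measurable.sub
  · exact (measurable_CCf θ (Measurable.fld hU hY ht) _ _).mul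
      (Measurable.pw hs (Measurable.pm θ hU hY α) measurable_snd)
  · exact (measurable_CCf θ (Measurable.fld hU hY' ht) _ _).mul
      (Measurable.pw hs (Measurable.pm θ hU hY' α) measurable_snd)

lemma pm_tr {θ : ℝ} {U Y : ℕ × V b → UI} {α : ℕ × V b} : pm θ U (tr α U Y) α = pm θ U Y α := by
  unfold pm
  rw [fld_tr le_rfl]

lemma Ps_TR (θ τ : ℝ) (α : ℕ × V b) (p : Om b) (w : UI) :
    Ps θ τ α (TR α p) w = Ps θ τ α p w := by
  unfold Ps TR
  simp only [fld_tr le_rfl, pm_tr]

lemma abs_pw_le_one {e m : ℝ} (he0 : 0 ≤ e) (he : e ≤ 1 / 2) (hm : |m| ≤ 1) (w : UI) :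
    |pw e m w| ≤ 1 := (IsgReal1.pw_bound he0 he hm w).trans (by linarith)

lemma abs_CC_le_one {θ : ℝ} (h0 : 0 ≤ θ) (h1 : θ < 1) (h : V b → ℝ) (u w : V b) :
    |CC θ h u w| ≤ 1 := (abs_CC_le h0 h1 h u w).trans
  (mul_le_one₀ (pow_le_one₀ h0 h1.le) (DD_pos h0 h1 h u w).le (DD_le_one h0 h1 h u w))

lemma abs_incr_le (θ : ℝ) (U Y : ℕ × V b → UI) (α : ℕ × V b) : |Spec.incr θ U Y α| ≤ 2 := by
  unfold Spec.incr
  refine (abs_sub _ _).trans ?_
  have h1 := (abs_M_lt_one θ (Function.update (fld U Y (tm U α)) α.2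
    (fld U Y (tm U α) α.2 + Real.artanh (zz U Y α))) (rt b)).le
  have h2 := (abs_M_lt_one θ (fld U Y (tm U α)) (rt b)).le
  linarith

lemma abs_Gd_le (θ τ : ℝ) (α : ℕ × V b) (p : Om b) : |Gd θ τ α p| ≤ 4 := by
  unfold Gd
  split_ifs
  · refine (abs_sub _ _).trans ?_
    have h1 := abs_incr_le θ p.1 p.2.1 α
    have h2 := abs_incr_le θ p.1 p.2.2 α
    linarith
  · simp

lemma abs_Ps_le {θ : ℝ} (h0 : 0 ≤ θ) (h1 : θ < 1) (τ : ℝ) (α : ℕ × V b) (p : Om b) (w : UI) :
    |Ps θ τ α p w| ≤ 2 := by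
  unfold Ps
  split_ifs
  · refine (abs_sub _ _).trans ?_
    rw [abs_mul, abs_mul]
    have a1 := abs_CC_le_one h0 h1 (fld p.1 p.2.1 (tm p.1 α)) (rt b) α.2
    have a2 := abs_CC_le_one h0 h1 (fld p.1 p.2.2 (tm p.1 α)) (rt b) α.2
    have a3 := abs_pw_le_one (str_nonneg (p.1 α)) (str_le_half (p.1 α))
      (abs_pm_le θ p.1 p.2.1 α) w
    have a4 := abs_pw_le_one (str_nonneg (p.1 α)) (str_le_half (p.1 α))
      (abs_pm_le θ p.1 p.2.2 α) w
    have a5 : |CC θ (fld p.1 p.2.1 (tm p.1 α)) (rt b) α.2| *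
      |pw (str (p.1 α)) (pm θ p.1 p.2.1 α) w| ≤ 1 * 1 :=
      mul_le_mul a1 a3 (abs_nonneg _) zero_le_one
    have a6 : |CC θ (fld p.1 p.2.2 (tm p.1 α)) (rt b) α.2| *
      |pw (str (p.1 α)) (pm θ p.1 p.2.2 α) w| ≤ 1 * 1 :=
      mul_le_mul a2 a4 (abs_nonneg _) zero_le_one
    linarith
  · simp

lemma integral_Ps {θ : ℝ} (τ : ℝ) (α : ℕ × V b) (p : Om b) :
    ∫ w, Ps θ τ α p w = 0 := by
  unfold Ps
  split_ifs
  · have hi : ∀ m : ℝ, |m| ≤ 1 → Integrable (pw (str (p.1 α)) m) (volume : Measure UI) := by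
      intro m hm
      refine Integrable.mono' (integrable_const (1 : ℝ))
        (IsgReal1.measurable_pw _ _).aestronglyMeasurable ?_
      filter_upwards with w
      rw [Real.norm_eq_abs]
      exact abs_pw_le_one (str_nonneg _) (str_le_half _) hm w
    have hm1 := abs_pm_le θ p.1 p.2.1 α
    have hm2 := abs_pm_le θ p.1 p.2.2 α
    rw [integral_sub ((hi _ hm1).const_mul _) ((hi _ hm2).const_mul _), integral_const_mul,
      integral_const_mul, IsgReal1.integral_pw (str_nonneg _) (str_le_half _) hm1,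
      IsgReal1.integral_pw (str_nonneg _) (str_le_half _) hm2]
    simp
  · simp

/-! ### Freshness of the innovation -/

section
variable {θ : ℝ} {L : Measure (Om b)} [IsProbabilityMeasure L]

lemma fresh_map (hL : Trip b θ L) (α : ℕ × V b) :
    L.map (fun p => (TR α p, TT θ p.1 p.2.1 α)) = (L.map (TR α)).prod (volume : Measure UI) := by
  have hTT : Measurable (fun p : Om b => TT θ p.1 p.2.1 α) :=
    Measurable.TTv θ measurable_fst (measurable_fst.comp measurable_snd) α
  have : IsProbabilityMeasure (L.map (TR α)) :=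
    Measure.isProbabilityMeasure_map (measurable_TR α).aemeasurable
  symm
  apply Measure.prod_eq
  intro s t hs ht
  rw [Measure.map_apply ((measurable_TR α).prodMk hTT) (hs.prod ht),
    Measure.map_apply (measurable_TR α) hs]
  have h := hL.fresh α (fun U Y Y' => s.indicator (fun _ => (1 : ℝ)) (TR α (U, (Y, Y'))))
    ((measurable_const.indicator hs).comp (measurable_TR α))
    ⟨1, fun U Y Y' => by
      by_cases hx : TR α (U, (Y, Y')) ∈ s
      · rw [Set.indicator_of_mem hx]; simp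
      · rw [Set.indicator_of_notMem hx]; simp⟩
    (by
      intro Y' U Y Y2 hY
      have h1 : tr α U Y = tr α U Y2 := by
        funext β
        unfold tr
        split_ifs with hβ
        · exact hY β hβ
        · rfl
      simp only [TR, h1])
    (by
      intro Y U Y' Y2 hY
      have h1 : tr α U Y' = tr α U Y2 := by
        funext β
        unfold tr
        split_ifs with hβ
        · exact hY β hβ
        · rfl
      simp only [TR, h1])
    (t.indicator (fun _ => (1 : ℝ))) (measurable_const.indicator ht)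
    ⟨1, fun x => by
      by_cases hx : x ∈ t
      · rw [Set.indicator_of_mem hx]; simp
      · rw [Set.indicator_of_notMem hx]; simp⟩
  have e1 : (fun p : Om b => s.indicator (fun _ => (1 : ℝ)) (TR α (p.1, (p.2.1, p.2.2))) *
      t.indicator (fun _ => (1 : ℝ)) (TT θ p.1 p.2.1 α)) =
      ((fun p => (TR α p, TT θ p.1 p.2.1 α)) ⁻¹' (s ×ˢ t)).indicator (fun _ => (1 : ℝ)) := by
    funext p
    by_cases h1 : TR α p ∈ s <;> by_cases h2 : TT θ p.1 p.2.1 α ∈ t <;>
      simp [Set.indicator, h1, h2]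
  have e2 : (fun p : Om b => s.indicator (fun _ => (1 : ℝ)) (TR α (p.1, (p.2.1, p.2.2)))) =
      ((TR α) ⁻¹' s).indicator (fun _ => (1 : ℝ)) := by
    funext p
    by_cases h1 : TR α p ∈ s <;> simp [Set.indicator, h1]
  rw [e1, e2, integral_indicator_const _ (((measurable_TR α).prodMk hTT) (hs.prod ht)),
    integral_indicator_const _ ((measurable_TR α) hs), integral_indicator_const _ ht] at h
  simp only [smul_eq_mul, mul_one] at h
  rw [← ENNReal.toReal_eq_toReal_iff' (measure_ne_top _ _)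
    (ENNReal.mul_ne_top (measure_ne_top _ _) (measure_ne_top _ _)), ENNReal.toReal_mul]
  exact h

/-- Past times mean-zero function of the innovation. -/
lemma integral_past_mul_Ps (hL : Trip b θ L) (h0 : 0 ≤ θ) (h1 : θ < 1) (τ : ℝ) (α : ℕ × V b)
    (F : Om b → ℝ) (hF : Measurable F) (C : ℝ) (hC : ∀ p, |F p| ≤ C) :
    ∫ p, F (TR α p) * Ps θ τ α p (TT θ p.1 p.2.1 α) ∂L = 0 := by
  have hTT : Measurable (fun p : Om b => TT θ p.1 p.2.1 α) :=
    Measurable.TTv θ measurable_fst (measurable_fst.comp measurable_snd) α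
  have hpr : IsProbabilityMeasure (L.map (TR α)) :=
    Measure.isProbabilityMeasure_map (measurable_TR α).aemeasurable
  have hK : Measurable (fun q : Om b × UI => F q.1 * Ps θ τ α q.1 q.2) :=
    (hF.comp measurable_fst).mul (measurable_Ps θ τ α)
  have h2 : ∫ p, F (TR α p) * Ps θ τ α p (TT θ p.1 p.2.1 α) ∂L =
      ∫ q, F q.1 * Ps θ τ α q.1 q.2 ∂((L.map (TR α)).prod (volume : Measure UI)) := by
    rw [← fresh_map hL α, integral_map ((measurable_TR α).prodMk hTT).aemeasurable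
      hK.aestronglyMeasurable]
    apply integral_congr_ae
    filter_upwards with p
    rw [Ps_TR]
  rw [h2, integral_prod]
  · simp only [integral_const_mul, integral_Ps, mul_zero, integral_zero]
  · refine Integrable.mono' (integrable_const (C * 2)) hK.aestronglyMeasurable ?_
    filter_upwards with q
    rw [Real.norm_eq_abs, abs_mul]
    exact mul_le_mul (hC _) (abs_Ps_le h0 h1 τ α _ _) (abs_nonneg _) ((abs_nonneg _).trans (hC q.1))

lemma map_fst_PP (h0 : 0 ≤ θ) (h1 : θ < 1) : (PP b θ).map Prod.fst = noise (ℕ × V b) := by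
  have := isProb_mu (b := b) h0 h1
  unfold PP JJ
  rw [Measure.map_map measurable_fst measurable_obsMap]
  have h2 : (Prod.fst ∘ fun p : (ℕ × V b → UI) × ((V b → Bool) × (ℕ × V b → UI)) =>
      (p.1, Yf p.1 p.2.1 p.2.2)) = Prod.fst := rfl
  rw [h2, Measure.map_fst_prod, measure_univ, one_smul]

omit [IsProbabilityMeasure L] in
lemma map_fst_L (hL : Trip b θ L) (h0 : 0 ≤ θ) (h1 : θ < 1) :
    L.map Prod.fst = noise (ℕ × V b) := by
  rw [← map_fst_PP (b := b) h0 h1, ← hL.fst, Measure.map_map measurable_fst]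
  · rfl
  · exact measurable_fst.prodMk (measurable_fst.comp measurable_snd)

lemma noise_tie {α β : ℕ × V b} (hαβ : α ≠ β) :
    noise (ℕ × V b) {U | tm U α = tm U β} = 0 := by
  have hind : iIndepFun (fun (i : ℕ × V b) (U : ℕ × V b → UI) => U i) (noise (ℕ × V b)) := by
    apply iIndepFun_infinitePi (P := fun _ => (volume : Measure UI)) (X := fun _ => id)
    intro i
    exact measurable_id
  have h1 := hind.indepFun hαβ
  rw [indepFun_iff_map_prod_eq_prod_map_map (measurable_pi_apply α).aemeasurable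
    (measurable_pi_apply β).aemeasurable] at h1
  have h2 : ∀ i : ℕ × V b, (noise (ℕ × V b)).map (fun U => U i) = (volume : Measure UI) := by
    intro i
    exact (measurePreserving_eval_infinitePi (fun _ : ℕ × V b => (volume : Measure UI)) i).map_eq
  rw [h2, h2] at h1
  have hm : MeasurableSet {q : UI × UI | (α.1 : ℝ) + (q.1 : ℝ) = β.1 + (q.2 : ℝ)} :=
    measurableSet_eq_fun (measurable_const.add (Measurable.coeUI measurable_fst))
      (measurable_const.add (Measurable.coeUI measurable_snd))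
  have h3 : noise (ℕ × V b) {U | tm U α = tm U β} =
      ((noise (ℕ × V b)).map (fun U => (U α, U β)))
        {q : UI × UI | (α.1 : ℝ) + (q.1 : ℝ) = β.1 + (q.2 : ℝ)} := by
    rw [Measure.map_apply ((measurable_pi_apply α).prodMk (measurable_pi_apply β)) hm]
    rfl
  rw [h3, h1, Measure.prod_apply hm]
  rw [lintegral_eq_zero_iff' (by
    exact (measurable_measure_prodMk_left hm).aemeasurable)]
  filter_upwards with x
  apply Set.Subsingleton.measure_zero
  intro y hy z hz
  simp only [Set.mem_preimage, Set.mem_ofPred_eq] at hy hz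
  apply Subtype.ext
  linarith

omit [IsProbabilityMeasure L] in
lemma L_tie (hL : Trip b θ L) (h0 : 0 ≤ θ) (h1 : θ < 1) {α β : ℕ × V b} (hαβ : α ≠ β) :
    ∀ᵐ p ∂L, tm p.1 α ≠ tm p.1 β := by
  have h2 : ∀ᵐ U ∂(L.map Prod.fst), tm U α ≠ tm U β := by
    rw [map_fst_L hL h0 h1, ae_iff]
    simpa using noise_tie hαβ
  exact ae_of_ae_map measurable_fst.aemeasurable h2

omit [IsProbabilityMeasure L] in
lemma good_L (hP : Spec.Post) (hb : 1 ≤ b) (hL : Trip b θ L) (h0 : 0 ≤ θ) (h1 : θ < 1)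
    (α : ℕ × V b) : (∀ᵐ p ∂L, Good θ (fld p.1 p.2.1 (tm p.1 α))) ∧
      (∀ᵐ p ∂L, Good θ (fld p.1 p.2.2 (tm p.1 α))) := by
  have h2 := (hP b θ hb h0 h1 (fun U => tm U α) (Measurable.tm measurable_id α)).1
  have h3 : ∀ᵐ p ∂(PP b θ), Good θ (fld p.1 p.2 (tm p.1 α)) := by
    rw [ae_PP]
    · exact h2
    · exact (Measurable.fld measurable_fst measurable_snd (Measurable.tm measurable_fst α))
        (measurableSet_Good θ)
  constructor
  · rw [← hL.fst] at h3
    exact ae_of_ae_map (measurable_fst.prodMk (measurable_fst.comp measurable_snd)).aemeasurable h3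
  · rw [← hL.snd] at h3
    exact ae_of_ae_map (measurable_fst.prodMk (measurable_snd.comp measurable_snd)).aemeasurable h3

omit [IsProbabilityMeasure L] in
lemma Gd_ae (hUp : Spec.Update) (hP : Spec.Post) (hb : 1 ≤ b) (hL : Trip b θ L) (h0 : 0 ≤ θ)
    (h1 : θ < 1) (τ : ℝ) (α : ℕ × V b) :
    ∀ᵐ p ∂L, Gd θ τ α p = Ps θ τ α p (TT θ p.1 p.2.1 α) := by
  obtain ⟨g1, g2⟩ := good_L hP hb hL h0 h1 α
  filter_upwards [g1, g2, hL.innov] with p hg1 hg2 hin
  unfold Gd Ps
  rw [incr_eq h0 h1 hUp hg1, incr_eq h0 h1 hUp hg2, ← hin]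

/-- past part of the other factor -/
noncomputable def Fp (θ τ : ℝ) (α β : ℕ × V b) (x : Om b) : ℝ :=
  if tm x.1 β < tm x.1 α then Gd θ τ β x else 0

lemma Fp_TR (τ : ℝ) (α β : ℕ × V b) (p : Om b) : Fp θ τ α β (TR α p) = Fp θ τ α β p := by
  unfold Fp
  show (if tm p.1 β < tm p.1 α then Gd θ τ β (TR α p) else 0) = _
  split_ifs with h
  · unfold Gd
    show (if tm p.1 β < τ then Spec.incr θ p.1 (tr α p.1 p.2.1) β -
      Spec.incr θ p.1 (tr α p.1 p.2.2) β else 0) = _
    rw [incr_tr h, incr_tr h]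
  · rfl

lemma measurable_Fp (τ : ℝ) (α β : ℕ × V b) : Measurable (Fp θ τ α β) := by
  unfold Fp
  exact Measurable.ite (measurableSet_lt (Measurable.tm measurable_fst β)
    (Measurable.tm measurable_fst α)) (measurable_Gd θ τ β) measurable_const

lemma abs_Fp_le (τ : ℝ) (α β : ℕ × V b) (p : Om b) : |Fp θ τ α β p| ≤ 4 := by
  unfold Fp
  split_ifs
  · exact abs_Gd_le θ τ β p
  · simp

lemma cross_half (hUp : Spec.Update) (hP : Spec.Post) (hb : 1 ≤ b) (hL : Trip b θ L) (h0 : 0 ≤ θ)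
    (h1 : θ < 1) (τ : ℝ) (α β : ℕ × V b) :
    ∫ p, Fp θ τ α β p * Gd θ τ α p ∂L = 0 := by
  rw [← integral_past_mul_Ps hL h0 h1 τ α (Fp θ τ α β) (measurable_Fp τ α β) 4 (abs_Fp_le τ α β)]
  apply integral_congr_ae
  filter_upwards [Gd_ae hUp hP hb hL h0 h1 τ α] with p hp
  rw [hp, Fp_TR]

lemma integrable_bdd {f : Om b → ℝ} (hf : Measurable f) (C : ℝ) (hC : ∀ p, |f p| ≤ C) :
    Integrable f L := by
  refine Integrable.mono' (integrable_const C) hf.aestronglyMeasurable ?_
  filter_upwards with p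
  rw [Real.norm_eq_abs]
  exact hC p

lemma cross (hUp : Spec.Update) (hP : Spec.Post) (hb : 1 ≤ b) (hL : Trip b θ L) (h0 : 0 ≤ θ)
    (h1 : θ < 1) (τ : ℝ) {α β : ℕ × V b} (hαβ : α ≠ β) :
    ∫ p, Gd θ τ α p * Gd θ τ β p ∂L = 0 := by
  have e : ∀ᵐ p ∂L, Gd θ τ α p * Gd θ τ β p =
      Fp θ τ α β p * Gd θ τ α p + Fp θ τ β α p * Gd θ τ β p := by
    filter_upwards [L_tie hL h0 h1 hαβ] with p hp
    unfold Fp
    rcases lt_trichotomy (tm p.1 α) (tm p.1 β) with h | h | h
    · rw [if_neg (not_lt.2 h.le), if_pos h]; ring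
    · exact absurd h hp
    · rw [if_pos h, if_neg (not_lt.2 h.le)]; ring
  have hi : ∀ α β : ℕ × V b, Integrable (fun p => Fp θ τ α β p * Gd θ τ α p) L := by
    intro α β
    apply integrable_bdd ((measurable_Fp τ α β).mul (measurable_Gd θ τ α)) (4 * 4)
    intro p
    rw [Pi.mul_apply, abs_mul]
    exact mul_le_mul (abs_Fp_le τ α β p) (abs_Gd_le θ τ α p) (abs_nonneg _) (by norm_num)
  rw [integral_congr_ae e, integral_add (hi α β) (hi β α), cross_half hUp hP hb hL h0 h1,
    cross_half hUp hP hb hL h0 h1, add_zero]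

lemma sq_sum (hUp : Spec.Update) (hP : Spec.Post) (hb : 1 ≤ b) (hL : Trip b θ L) (h0 : 0 ≤ θ)
    (h1 : θ < 1) (τ : ℝ) (S : Finset (ℕ × V b)) :
    ∫ p, (∑ α ∈ S, Gd θ τ α p) ^ 2 ∂L = ∑ α ∈ S, ∫ p, Gd θ τ α p ^ 2 ∂L := by
  have hi : ∀ α β : ℕ × V b, Integrable (fun p => Gd θ τ α p * Gd θ τ β p) L := by
    intro α β
    apply integrable_bdd ((measurable_Gd θ τ α).mul (measurable_Gd θ τ β)) (4 * 4)
    intro p
    rw [Pi.mul_apply, abs_mul]
    exact mul_le_mul (abs_Gd_le θ τ α p) (abs_Gd_le θ τ β p) (abs_nonneg _) (by norm_num)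
  have h2 : ∀ p : Om b, (∑ α ∈ S, Gd θ τ α p) ^ 2 =
      ∑ α ∈ S, ∑ β ∈ S, Gd θ τ α p * Gd θ τ β p := by
    intro p
    rw [sq, Finset.sum_mul_sum]
  simp only [h2]
  rw [integral_finsetSum _ (fun α _ => integrable_finsetSum _ (fun β _ => hi α β))]
  apply Finset.sum_congr rfl
  intro α hα
  rw [integral_finsetSum _ (fun β _ => hi α β), Finset.sum_eq_single α]
  · simp only [sq]
  · intro β _ hβ
    exact cross hUp hP hb hL h0 h1 τ hβ.symm
  · intro h; exact absurd hα h

/-! ### Second moments -/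

/-- kernel term -/
noncomputable def kw (θ : ℝ) (w : V b) (q : (V b → ℝ) × (V b → ℝ)) : ENNReal :=
  ENNReal.ofReal (8 * (CC θ q.1 (rt b) w - CC θ q.2 (rt b) w) ^ 2 +
      32 * CC θ q.2 (rt b) w ^ 2 * (M θ q.1 w - M θ q.2 w) ^ 2)

omit [IsProbabilityMeasure L] in
lemma measurable_kw (w : V b) : Measurable (kw θ w) := by
  unfold kw
  apply Measurable.ennreal_ofReal
  have c1 : Measurable (fun q : (V b → ℝ) × (V b → ℝ) => CC θ q.1 (rt b) w) :=
    measurable_CCf θ measurable_fst _ _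
  have c2 : Measurable (fun q : (V b → ℝ) × (V b → ℝ) => CC θ q.2 (rt b) w) :=
    measurable_CCf θ measurable_snd _ _
  have m1 : Measurable (fun q : (V b → ℝ) × (V b → ℝ) => M θ q.1 w) :=
    Measurable.Mf θ measurable_fst _
  have m2 : Measurable (fun q : (V b → ℝ) × (V b → ℝ) => M θ q.2 w) :=
    Measurable.Mf θ measurable_snd _
  exact (((c1.sub c2).pow_const 2).const_mul 8).add
    (((c2.pow_const 2).const_mul 32).mul ((m1.sub m2).pow_const 2))

omit [IsProbabilityMeasure L] in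
lemma KK_eq (q : (V b → ℝ) × (V b → ℝ)) : KK θ Set.univ q.1 q.2 = ∑' w, kw θ w q := by
  unfold KK kw
  simp

omit [IsProbabilityMeasure L] in
lemma Ps_sq_le (τ : ℝ) (α : ℕ × V b) (p : Om b) (w : UI) :
    Ps θ τ α p w ^ 2 ≤ if tm p.1 α < τ then str (p.1 α) ^ 2 *
      (8 * (CC θ (fld p.1 p.2.1 (tm p.1 α)) (rt b) α.2 -
        CC θ (fld p.1 p.2.2 (tm p.1 α)) (rt b) α.2) ^ 2 +
      32 * CC θ (fld p.1 p.2.2 (tm p.1 α)) (rt b) α.2 ^ 2 *
        (M θ (fld p.1 p.2.1 (tm p.1 α)) α.2 - M θ (fld p.1 p.2.2 (tm p.1 α)) α.2) ^ 2) else 0 := by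
  unfold Ps
  split_ifs
  · have he0 := str_nonneg (p.1 α)
    have he := str_le_half (p.1 α)
    have b1 := IsgReal1.pw_bound he0 he (abs_pm_le θ p.1 p.2.1 α) w
    have b2 := IsgReal1.pw_lip he0 he (abs_pm_le θ p.1 p.2.1 α) (abs_pm_le θ p.1 p.2.2 α) w
    have hm1 : pm θ p.1 p.2.1 α = M θ (fld p.1 p.2.1 (tm p.1 α)) α.2 := rfl
    have hm2 : pm θ p.1 p.2.2 α = M θ (fld p.1 p.2.2 (tm p.1 α)) α.2 := rfl
    rw [← hm1, ← hm2]
    set e := str (p.1 α)
    set a := pw e (pm θ p.1 p.2.1 α) w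
    set a' := pw e (pm θ p.1 p.2.2 α) w
    set c := CC θ (fld p.1 p.2.1 (tm p.1 α)) (rt b) α.2
    set c' := CC θ (fld p.1 p.2.2 (tm p.1 α)) (rt b) α.2
    set m := pm θ p.1 p.2.1 α
    set m' := pm θ p.1 p.2.2 α
    have h1 : a ^ 2 ≤ 4 * e ^ 2 := by
      have := pow_le_pow_left₀ (abs_nonneg a) b1 2
      rw [sq_abs] at this
      linarith [this]
    have h2 : (a - a') ^ 2 ≤ 16 * e ^ 2 * (m - m') ^ 2 := by
      have := pow_le_pow_left₀ (abs_nonneg (a - a')) b2 2
      rw [sq_abs, mul_pow, mul_pow, sq_abs] at this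
      have he2 : e ^ 2 ≤ 1 / 4 := by nlinarith
      have h3 : (8 : ℝ) ^ 2 * (e ^ 2) ^ 2 * (m - m') ^ 2 ≤ 16 * e ^ 2 * (m - m') ^ 2 := by
        apply mul_le_mul_of_nonneg_right _ (sq_nonneg _)
        nlinarith [sq_nonneg e]
      linarith
    have h3 : (c * a - c' * a') ^ 2 ≤ 2 * ((c - c') ^ 2 * a ^ 2) + 2 * (c' ^ 2 * (a - a') ^ 2) := by
      nlinarith [sq_nonneg ((c - c') * a - c' * (a - a'))]
    have h4 : (c - c') ^ 2 * a ^ 2 ≤ (c - c') ^ 2 * (4 * e ^ 2) :=
      mul_le_mul_of_nonneg_left h1 (sq_nonneg _)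
    have h5 : c' ^ 2 * (a - a') ^ 2 ≤ c' ^ 2 * (16 * e ^ 2 * (m - m') ^ 2) :=
      mul_le_mul_of_nonneg_left h2 (sq_nonneg _)
    calc (c * a - c' * a') ^ 2
        ≤ 2 * ((c - c') ^ 2 * a ^ 2) + 2 * (c' ^ 2 * (a - a') ^ 2) := h3
      _ ≤ 2 * ((c - c') ^ 2 * (4 * e ^ 2)) + 2 * (c' ^ 2 * (16 * e ^ 2 * (m - m') ^ 2)) := by
        linarith
      _ = _ := by ring
  · simp

/-- length of the time window of level `j` -/
noncomputable def sj (τ : ℝ) (j : ℕ) : ℝ := max 0 (min 1 (τ - j))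

omit [IsProbabilityMeasure L] in
lemma sj_nonneg (τ : ℝ) (j : ℕ) : 0 ≤ sj τ j := le_max_left _ _

omit [IsProbabilityMeasure L] in
lemma sj_le_one (τ : ℝ) (j : ℕ) : sj τ j ≤ 1 := max_le zero_le_one (min_le_left _ _)

lemma second_moment (hUp : Spec.Update) (hP : Spec.Post) (hOwn : Spec.OwnTime) (hb : 1 ≤ b)
    (hL : Trip b θ L) (h0 : 0 ≤ θ) (h1 : θ < 1) (τ : ℝ) (α : ℕ × V b) :
    ∫⁻ p, ENNReal.ofReal (Gd θ τ α p ^ 2) ∂L ≤
      ∫⁻ u in Set.Ioo 0 (sj τ α.1), ENNReal.ofReal u * ∫⁻ q, kw θ α.2 q ∂(LT L (α.1 + u)) := by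
  refine le_trans ?_ ((hOwn b θ hb h0 h1 L inferInstance hL α).1 (sj τ α.1) (sj_nonneg _ _)
    (sj_le_one _ _) (kw θ α.2) (measurable_kw α.2))
  apply lintegral_mono_ae
  filter_upwards [Gd_ae hUp hP hb hL h0 h1 τ α] with p hp
  rw [hp]
  have h2 := Ps_sq_le (θ := θ) τ α p (TT θ p.1 p.2.1 α)
  by_cases ht : tm p.1 α < τ
  · rw [if_pos ht] at h2
    by_cases hU : (p.1 α : ℝ) < 1
    · have hs : (p.1 α : ℝ) < sj τ α.1 := by
        unfold sj
        refine lt_of_lt_of_le ?_ (le_max_right _ _)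
        rw [lt_min_iff]
        refine ⟨hU, ?_⟩
        unfold tm at ht
        linarith
      rw [if_pos hs]
      refine le_trans (ENNReal.ofReal_le_ofReal h2) ?_
      rw [ENNReal.ofReal_mul (sq_nonneg _)]
      rfl
    · have hU1 : (p.1 α : ℝ) = 1 := le_antisymm (p.1 α).2.2 (not_lt.1 hU)
      have hs0 : str (p.1 α) = 0 := by
        unfold str
        rw [hU1]; simp
      rw [hs0] at h2
      have h3 : Ps θ τ α p (TT θ p.1 p.2.1 α) ^ 2 ≤ 0 := by
        refine h2.trans ?_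
        simp
      rw [ENNReal.ofReal_of_nonpos h3]
      exact zero_le
  · rw [if_neg ht] at h2
    rw [ENNReal.ofReal_of_nonpos h2]
    exact zero_le

end

/-! ### Summation over the windows -/

lemma sum_lintegral_le {Ω ι : Type*} [MeasurableSpace Ω] (μ : Measure Ω) (s : Finset ι)
    (f : ι → Ω → ENNReal) : ∑ i ∈ s, ∫⁻ a, f i a ∂μ ≤ ∫⁻ a, ∑ i ∈ s, f i a ∂μ := by
  classical
  induction s using Finset.induction_on with
  | empty => simp
  | insert i s hi ih =>
    rw [Finset.sum_insert hi]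
    simp only [Finset.sum_insert hi]
    exact le_trans (add_le_add le_rfl ih) (le_lintegral_add _ _)

lemma window (s : ℝ) (hs : s ≤ 1) (j : ℕ) (I : ℝ → ENNReal) :
    ∫⁻ u in Set.Ioo 0 s, ENNReal.ofReal u * I (j + u) =
      ∫⁻ t, (Set.Ioo (j : ℝ) (j + s)).indicator (fun t => ENNReal.ofReal (Int.fract t) * I t) t := by
  rw [← lintegral_indicator measurableSet_Ioo, ← lintegral_add_left_eq_self (fun t =>
    (Set.Ioo (j : ℝ) (j + s)).indicator (fun t => ENNReal.ofReal (Int.fract t) * I t) t) (j : ℝ)]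
  apply lintegral_congr
  intro u
  by_cases hu : u ∈ Set.Ioo 0 s
  · rw [Set.indicator_of_mem hu, Set.indicator_of_mem]
    · have h1 : Int.fract ((j : ℝ) + u) = u := by
        rw [Int.fract_natCast_add, Int.fract_eq_self.2 ⟨hu.1.le, lt_of_lt_of_le hu.2 hs⟩]
      rw [h1]
    · exact ⟨by linarith [hu.1], by linarith [hu.2]⟩
  · rw [Set.indicator_of_notMem hu, Set.indicator_of_notMem]
    intro h
    exact hu ⟨by linarith [h.1], by linarith [h.2]⟩

lemma windows (τ : ℝ) (J : ℕ) (I : ℝ → ENNReal) :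
    ∑ j ∈ Finset.range J, ∫⁻ u in Set.Ioo 0 (sj τ j), ENNReal.ofReal u * I (j + u) ≤
      ∫⁻ t in Set.Ioo 0 τ, ENNReal.ofReal (Int.fract t) * I t := by
  have h1 : ∀ j ∈ Finset.range J, ∫⁻ u in Set.Ioo 0 (sj τ j), ENNReal.ofReal u * I (j + u) =
      ∫⁻ t, (Set.Ioo (j : ℝ) (j + sj τ j)).indicator
        (fun t => ENNReal.ofReal (Int.fract t) * I t) t := fun j _ =>
    window (sj τ j) (sj_le_one τ j) j I
  rw [Finset.sum_congr rfl h1]
  refine (sum_lintegral_le _ _ _).trans ?_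
  rw [← lintegral_indicator measurableSet_Ioo]
  apply lintegral_mono
  intro t
  show ∑ j ∈ Finset.range J, (Set.Ioo (j : ℝ) (j + sj τ j)).indicator
        (fun t => ENNReal.ofReal (Int.fract t) * I t) t ≤ (Set.Ioo 0 τ).indicator
        (fun t => ENNReal.ofReal (Int.fract t) * I t) t
  by_cases hex : ∃ j ∈ Finset.range J, t ∈ Set.Ioo (j : ℝ) (j + sj τ j)
  · obtain ⟨j, hj, ht⟩ := hex
    have htτ : t ∈ Set.Ioo 0 τ := by
      refine ⟨lt_of_le_of_lt (Nat.cast_nonneg j) ht.1, ?_⟩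
      have h2 : 0 < sj τ j := by linarith [ht.1, ht.2]
      have h3 : sj τ j ≤ τ - j := by
        unfold sj at h2 ⊢
        rcases le_total 0 (min 1 (τ - j)) with h | h
        · rw [max_eq_right h]; exact min_le_right _ _
        · rw [max_eq_left h] at h2; exact absurd h2 (lt_irrefl _)
      linarith [ht.2]
    rw [Set.indicator_of_mem htτ, Finset.sum_eq_single j, Set.indicator_of_mem ht]
    · intro i _ hij
      apply Set.indicator_of_notMem
      intro hi
      apply hij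
      have a1 := sj_le_one τ i
      have a2 := sj_le_one τ j
      have b1 : (i : ℝ) < j + 1 := by linarith [hi.1, ht.2]
      have b2 : (j : ℝ) < i + 1 := by linarith [hi.2, ht.1]
      have c1 : i < j + 1 := by exact_mod_cast b1
      have c2 : j < i + 1 := by exact_mod_cast b2
      omega
    · intro h; exact absurd hj h
  · rw [Finset.sum_eq_zero]
    · exact zero_le
    · intro j hj
      apply Set.indicator_of_notMem
      intro h
      exact hex ⟨j, hj, h⟩

/-! ### Main theorem -/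

theorem main (hPars : Spec.Parseval) (hOwn : Spec.OwnTime) (hP : Spec.Post) : Spec.Ineq := by
  intro b θ hb2 h0 h1 hTail L hLp hL τ hτ
  have hb : 1 ≤ b := by omega
  have hUp : Spec.Update := IsgUpd.update
  set R := ∫⁻ t in Set.Ioo 0 τ, ENNReal.ofReal (Int.fract t) *
        ∫⁻ p, KK θ Set.univ p.1 p.2 ∂(LT L t) with hR
  -- finite sums
  have hsum : ∀ (J : ℕ) (W : Finset (V b)),
      ∫⁻ p, ENNReal.ofReal ((∑ α ∈ Finset.range J ×ˢ W, Gd θ τ α p) ^ 2) ∂L ≤ R := by
    intro J W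
    have e1 : ∫⁻ p, ENNReal.ofReal ((∑ α ∈ Finset.range J ×ˢ W, Gd θ τ α p) ^ 2) ∂L =
        ∑ α ∈ Finset.range J ×ˢ W, ∫⁻ p, ENNReal.ofReal (Gd θ τ α p ^ 2) ∂L := by
      have hm : ∀ S : Finset (ℕ × V b), Measurable (fun p : Om b => ∑ α ∈ S, Gd θ τ α p) :=
        fun S => Finset.measurable_sum S (fun α _ => measurable_Gd θ τ α)
      have hbd : ∀ (S : Finset (ℕ × V b)) (p : Om b), |∑ α ∈ S, Gd θ τ α p| ≤ S.card * 4 := by
        intro S p
        refine (Finset.abs_sum_le_sum_abs _ _).trans ?_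
        refine (Finset.sum_le_card_nsmul S _ 4 (fun α _ => abs_Gd_le θ τ α p)).trans ?_
        rw [nsmul_eq_mul]
      rw [← ofReal_integral_eq_lintegral_ofReal, sq_sum hUp hP hb hL h0 h1,
        ENNReal.ofReal_sum_of_nonneg (fun α _ => integral_nonneg (fun p => sq_nonneg _))]
      · apply Finset.sum_congr rfl
        intro α _
        rw [ofReal_integral_eq_lintegral_ofReal]
        · refine integrable_bdd (b := b) (L := L) (f := fun p => Gd θ τ α p ^ 2)
            ((measurable_Gd θ τ α).pow_const 2) (4 ^ 2) ?_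
          intro p
          rw [abs_pow]
          exact pow_le_pow_left₀ (abs_nonneg _) (abs_Gd_le θ τ α p) 2
        · exact Eventually.of_forall (fun p => sq_nonneg _)
      · refine integrable_bdd (b := b) (L := L)
          (f := fun p => (∑ α ∈ Finset.range J ×ˢ W, Gd θ τ α p) ^ 2)
          ((hm _).pow_const 2) (((Finset.range J ×ˢ W).card * 4) ^ 2) ?_
        intro p
        rw [abs_pow]
        exact pow_le_pow_left₀ (abs_nonneg _) (hbd _ p) 2
      · exact Eventually.of_forall (fun p => sq_nonneg _)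
    rw [e1]
    refine (Finset.sum_le_sum (fun α _ => second_moment hUp hP hOwn hb hL h0 h1 τ α)).trans ?_
    rw [Finset.sum_product]
    refine le_trans ?_ (windows τ J (fun t => ∫⁻ p, KK θ Set.univ p.1 p.2 ∂(LT L t)))
    apply Finset.sum_le_sum
    intro j _
    refine le_trans (sum_lintegral_le (Ω := ℝ) (volume.restrict (Set.Ioo 0 (sj τ j))) W
      (fun w u => ENNReal.ofReal u * ∫⁻ q, kw θ w q ∂(LT L (j + u)))) ?_
    apply lintegral_mono
    intro u
    show ∑ w ∈ W, ENNReal.ofReal u * ∫⁻ q, kw θ w q ∂(LT L (j + u)) ≤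
      ENNReal.ofReal u * ∫⁻ p, KK θ Set.univ p.1 p.2 ∂(LT L (j + u))
    rw [← Finset.mul_sum]
    apply mul_le_mul_right
    rw [← lintegral_finsetSum _ (fun w _ => measurable_kw w)]
    apply lintegral_mono
    intro q
    show ∑ w ∈ W, kw θ w q ≤ KK θ Set.univ q.1 q.2
    rw [KK_eq]
    exact ENNReal.sum_le_tsum _
  -- the estimate with errors
  have hkey : ∀ δ : ℝ, 0 < δ → AA θ (LT L τ) ≤ ENNReal.ofReal (1 + δ) * R + ENNReal.ofReal δ := by
    intro δ hδ
    set ε : ℝ := δ ^ 2 / (4 * (1 + δ)) with hε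
    have hε0 : 0 < ε := by positivity
    obtain ⟨S, hS⟩ := hPars b θ hb2 h0 h1 hTail τ hτ ε hε0
    set J : ℕ := S.sup Prod.fst + 1 with hJ
    set W : Finset (V b) := S.image Prod.snd with hW
    have hSS : S ⊆ Finset.range J ×ˢ W := by
      intro α hα
      rw [Finset.mem_product, Finset.mem_range]
      refine ⟨?_, Finset.mem_image_of_mem _ hα⟩
      have : α.1 ≤ S.sup Prod.fst := Finset.le_sup (f := Prod.fst) hα
      omega
    have hS' := hS _ hSS
    set A : (ℕ × V b → UI) × (ℕ × V b → UI) → ℝ := fun p => M θ (fld p.1 p.2 τ) (rt b) -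
      ∑ α ∈ Finset.range J ×ˢ W, if tm p.1 α < τ then Spec.incr θ p.1 p.2 α else 0 with hA
    have hAm : Measurable A := by
      apply Measurable.sub
      · exact Measurable.Mf θ (Measurable.fld measurable_fst measurable_snd measurable_const) _
      · apply Finset.measurable_sum
        intro α _
        exact Measurable.ite (measurableSet_lt (Measurable.tm measurable_fst α) measurable_const)
          (Measurable.incr θ measurable_fst measurable_snd α) measurable_const
    have hp1 : Measurable (fun p : Om b => (p.1, p.2.1)) :=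
      measurable_fst.prodMk (measurable_fst.comp measurable_snd)
    have hp2 : Measurable (fun p : Om b => (p.1, p.2.2)) :=
      measurable_fst.prodMk (measurable_snd.comp measurable_snd)
    have hA1 : ∫⁻ p : Om b, ENNReal.ofReal (A (p.1, p.2.1) ^ 2) ∂L ≤ ENNReal.ofReal ε := by
      refine le_trans (le_of_eq ?_) hS'
      rw [← hL.fst, lintegral_map (hAm.pow_const 2).ennreal_ofReal hp1]
    have hA2 : ∫⁻ p : Om b, ENNReal.ofReal (A (p.1, p.2.2) ^ 2) ∂L ≤ ENNReal.ofReal ε := by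
      refine le_trans (le_of_eq ?_) hS'
      rw [← hL.snd, lintegral_map (hAm.pow_const 2).ennreal_ofReal hp2]
    have hGm : Measurable (fun p : Om b => ∑ α ∈ Finset.range J ×ˢ W, Gd θ τ α p) :=
      Finset.measurable_sum _ (fun α _ => measurable_Gd θ τ α)
    have hMeq : ∀ p : Om b, M θ (fld p.1 p.2.1 τ) (rt b) - M θ (fld p.1 p.2.2 τ) (rt b) =
        A (p.1, p.2.1) - A (p.1, p.2.2) + ∑ α ∈ Finset.range J ×ˢ W, Gd θ τ α p := by
      intro p
      have : ∑ α ∈ Finset.range J ×ˢ W, Gd θ τ α p =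
          (∑ α ∈ Finset.range J ×ˢ W, if tm p.1 α < τ then Spec.incr θ p.1 p.2.1 α else 0) -
          ∑ α ∈ Finset.range J ×ˢ W, if tm p.1 α < τ then Spec.incr θ p.1 p.2.2 α else 0 := by
        rw [← Finset.sum_sub_distrib]
        apply Finset.sum_congr rfl
        intro α _
        unfold Gd
        split_ifs <;> simp
      rw [this]
      simp only [hA]
      ring
    have hpt : ∀ p : Om b, ENNReal.ofReal ((M θ (fld p.1 p.2.1 τ) (rt b) -
        M θ (fld p.1 p.2.2 τ) (rt b)) ^ 2) ≤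
        ENNReal.ofReal (1 + δ) *
          ENNReal.ofReal ((∑ α ∈ Finset.range J ×ˢ W, Gd θ τ α p) ^ 2) +
        ENNReal.ofReal (2 * (1 + 1 / δ)) * (ENNReal.ofReal (A (p.1, p.2.1) ^ 2) +
          ENNReal.ofReal (A (p.1, p.2.2) ^ 2)) := by
      intro p
      rw [hMeq p, ← ENNReal.ofReal_mul (by positivity), ← ENNReal.ofReal_add (sq_nonneg _)
        (sq_nonneg _), ← ENNReal.ofReal_mul (by positivity), ← ENNReal.ofReal_add (by positivity)
        (by positivity)]
      apply ENNReal.ofReal_le_ofReal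
      set x := ∑ α ∈ Finset.range J ×ˢ W, Gd θ τ α p
      set y := A (p.1, p.2.1)
      set z := A (p.1, p.2.2)
      have q1 : (y - z + x) ^ 2 ≤ (1 + δ) * x ^ 2 + (1 + 1 / δ) * (y - z) ^ 2 := by
        have h2 : 0 ≤ (δ * x - (y - z)) ^ 2 / δ := by positivity
        have h3 : (δ * x - (y - z)) ^ 2 / δ = δ * x ^ 2 - 2 * x * (y - z) +
            1 / δ * (y - z) ^ 2 := by
          field_simp
          ring
        rw [h3] at h2
        nlinarith
      have q2 : (y - z) ^ 2 ≤ 2 * (y ^ 2 + z ^ 2) := by nlinarith [sq_nonneg (y + z)]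
      have q3 : (1 + 1 / δ) * (y - z) ^ 2 ≤ (1 + 1 / δ) * (2 * (y ^ 2 + z ^ 2)) :=
        mul_le_mul_of_nonneg_left q2 (by positivity)
      linarith
    have hAA : AA θ (LT L τ) = ∫⁻ p : Om b, ENNReal.ofReal ((M θ (fld p.1 p.2.1 τ) (rt b) -
        M θ (fld p.1 p.2.2 τ) (rt b)) ^ 2) ∂L := by
      unfold AA Isg.LT
      rw [lintegral_map]
      · exact (((Measurable.Mf θ measurable_fst _).sub
          (Measurable.Mf θ measurable_snd _)).pow_const 2).ennreal_ofReal
      · exact (Measurable.fld measurable_fst (measurable_fst.comp measurable_snd)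
          measurable_const).prodMk (Measurable.fld measurable_fst
            (measurable_snd.comp measurable_snd) measurable_const)
    rw [hAA]
    refine (lintegral_mono hpt).trans ?_
    have mA1 : Measurable (fun p : Om b => ENNReal.ofReal (A (p.1, p.2.1) ^ 2)) :=
      ((hAm.comp hp1).pow_const 2).ennreal_ofReal
    have mA2 : Measurable (fun p : Om b => ENNReal.ofReal (A (p.1, p.2.2) ^ 2)) :=
      ((hAm.comp hp2).pow_const 2).ennreal_ofReal
    have mA12 : Measurable (fun p : Om b => ENNReal.ofReal (A (p.1, p.2.1) ^ 2) +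
        ENNReal.ofReal (A (p.1, p.2.2) ^ 2)) := mA1.add mA2
    rw [lintegral_add_left ((hGm.pow_const 2).ennreal_ofReal.const_mul _),
      lintegral_const_mul _ (hGm.pow_const 2).ennreal_ofReal,
      lintegral_const_mul _ mA12, lintegral_add_left mA1]
    apply add_le_add
    · exact mul_le_mul_right (hsum J W) _
    · refine (mul_le_mul_right (add_le_add hA1 hA2) _).trans ?_
      rw [← ENNReal.ofReal_add hε0.le hε0.le, ← ENNReal.ofReal_mul (by positivity)]
      apply ENNReal.ofReal_le_ofReal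
      apply le_of_eq
      rw [hε]
      field_simp
      ring
  -- conclusion
  by_cases hRt : R = ⊤
  · rw [hRt]; exact le_top
  apply ENNReal.le_of_forall_pos_le_add
  intro ε hε _
  set r := R.toReal with hr
  have hr0 : 0 ≤ r := ENNReal.toReal_nonneg
  have hRr : R = ENNReal.ofReal r := (ENNReal.ofReal_toReal hRt).symm
  have hδ : 0 < (ε : ℝ) / (r + 1) := by positivity
  refine (hkey _ hδ).trans (le_of_eq ?_)
  rw [hRr, ← ENNReal.ofReal_mul (by positivity), ← ENNReal.ofReal_add (by positivity) hδ.le,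
    ← ENNReal.ofReal_coe_nnreal, ← ENNReal.ofReal_add hr0 (NNReal.coe_nonneg ε)]
  congr 1
  field_simp
  ring

end Crest.Agent.IsgIneq
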