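import Crest.Agent.IsgEqvB

set_option autoImplicit false

/-!
S0241, module OWN: from the own time of an observation to fixed times.
-/

open MeasureTheory ProbabilityTheory Filter Topology

namespace Crest.Agent.IsgOwn

open Crest.Agent.Isg

variable {b : ℕ}

/-- the space of triples -/
abbrev Om (b : ℕ) : Type := (ℕ × V b → UI) × ((ℕ × V b → UI) × (ℕ × V b → UI))

/-- the pair of fields at time `t` -/
noncomputable def flds (t : ℝ) (p : Om b) : (V b → ℝ) × (V b → ℝ) :=
  (fld p.1 p.2.1 t, fld p.1 p.2.2 t)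

/-- the dyadic approximation -/
noncomputable def rn (n : ℕ) (u : ℝ) : ℝ := (⌊u * 2 ^ n⌋₊ : ℝ) / 2 ^ n

lemma rn_nonneg (n : ℕ) (u : ℝ) : 0 ≤ rn n u := by unfold rn; positivity

lemma rn_le (n : ℕ) {u : ℝ} (hu : 0 ≤ u) : rn n u ≤ u := by
  unfold rn
  rw [div_le_iff₀ (by positivity)]
  exact Nat.floor_le (by positivity)

lemma lt_rn (n : ℕ) (u : ℝ) : u - 1 / 2 ^ n < rn n u := by
  unfold rn
  rw [lt_div_iff₀ (by positivity), sub_mul]
  have := Nat.lt_floor_add_one (u * 2 ^ n)
  have h2 : (1 : ℝ) / 2 ^ n * 2 ^ n = 1 := by field_simp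
  linarith

lemma tendsto_rn {u : ℝ} (hu : 0 ≤ u) : Tendsto (fun n => rn n u) atTop (𝓝 u) := by
  have h1 : Tendsto (fun n : ℕ => u - 1 / 2 ^ n) atTop (𝓝 (u - 0)) := by
    refine tendsto_const_nhds.sub ?_
    have := tendsto_pow_atTop_nhds_zero_of_lt_one (r := (1 / 2 : ℝ)) (by norm_num) (by norm_num)
    refine this.congr (fun n => ?_)
    rw [div_pow, one_pow]
  rw [sub_zero] at h1
  exact tendsto_of_tendsto_of_tendsto_of_le_of_le h1 tendsto_const_nhds
    (fun n => (lt_rn n u).le) (fun n => rn_le n hu)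

lemma measurable_rn (n : ℕ) : Measurable (rn n) := by
  unfold rn
  exact ((measurable_from_top (f := fun k : ℕ => (k : ℝ))).comp
    (Nat.measurable_floor.comp (measurable_id.mul_const _))).div_const _

@[fun_prop]
lemma measurable_flds {Ω : Type*} [MeasurableSpace Ω] {τ : Ω → ℝ} {p : Ω → Om b}
    (hτ : Measurable τ) (hp : Measurable p) : Measurable (fun ω => flds (τ ω) (p ω)) := by
  unfold flds
  exact (Measurable.fld (measurable_fst.comp hp)
    (measurable_fst.comp (measurable_snd.comp hp)) hτ).prodMk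
    (Measurable.fld (measurable_fst.comp hp)
    (measurable_snd.comp (measurable_snd.comp hp)) hτ)

lemma fld_eq (U Y : ℕ × V b → UI) {τ : ℝ} (v : V b) {N : ℕ} (hN : ⌊τ⌋₊ + 1 ≤ N) :
    fld U Y τ v = ∑ j ∈ Finset.range N,
      if tm U (j, v) < τ then Real.artanh (zz U Y (j, v)) else 0 := by
  unfold fld
  refine Finset.sum_subset (Finset.range_subset_range.2 hN) (fun j _ hj => ?_)
  rw [Finset.mem_range, not_lt] at hj
  rw [if_neg]
  rw [not_lt]
  have h1 : τ < ⌊τ⌋₊ + 1 := Nat.lt_floor_add_one τ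
  have h2 : ((⌊τ⌋₊ + 1 : ℕ) : ℝ) ≤ j := by exact_mod_cast hj
  have h3 : 0 ≤ (U (j, v) : ℝ) := (U (j, v)).2.1
  unfold tm
  push_cast at h2
  show τ ≤ (j : ℝ) + _
  linarith

lemma fld_congr (U U' Y Y' : ℕ × V b → UI) (τ : ℝ) (h1 : ∀ β, tm U β < τ ↔ tm U' β < τ)
    (h2 : ∀ β, tm U β < τ → U β = U' β ∧ Y β = Y' β) : fld U Y τ = fld U' Y' τ := by
  funext v
  unfold fld
  refine Finset.sum_congr rfl (fun j _ => ?_)
  by_cases h : tm U (j, v) < τ
  · rw [if_pos h, if_pos ((h1 _).1 h)]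
    obtain ⟨h3, h4⟩ := h2 _ h
    unfold zz
    rw [h3, h4]
  · rw [if_neg h, if_neg (fun h' => h ((h1 _).2 h'))]

lemma eventually_fld (U Y : ℕ × V b → UI) {τ : ℝ} {t : ℕ → ℝ} (ht : Tendsto t atTop (𝓝 τ))
    (hle : ∀ n, t n ≤ τ) (v : V b) : ∀ᶠ n in atTop, fld U Y (t n) v = fld U Y τ v := by
  have h1 : ∀ᶠ n in atTop, ∀ j ∈ Finset.range (⌊τ⌋₊ + 1), (tm U (j, v) < t n ↔ tm U (j, v) < τ) := by
    rw [Finset.eventually_all]
    intro j _
    by_cases h : tm U (j, v) < τ
    · filter_upwards [ht.eventually (lt_mem_nhds h)] with n hn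
      exact iff_of_true hn h
    · refine Eventually.of_forall (fun n => iff_of_false (fun h2 => h (h2.trans_le (hle n))) h)
  filter_upwards [h1] with n hn
  rw [fld_eq U Y v (N := ⌊τ⌋₊ + 1) (τ := t n) (by
    have := Nat.floor_le_floor (hle n); omega), fld_eq U Y v (N := ⌊τ⌋₊ + 1) (τ := τ) le_rfl]
  refine Finset.sum_congr rfl (fun j hj => ?_)
  simp only [hn j hj]

/-- a cylinder set -/
def Cyl (C : Set (V b → ℝ)) : Prop := ∃ s : Finset (V b), ∀ x y : V b → ℝ,
  (∀ v ∈ s, x v = y v) → (x ∈ C ↔ y ∈ C)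

lemma eventually_mem (U Y : ℕ × V b → UI) {τ : ℝ} {t : ℕ → ℝ} (ht : Tendsto t atTop (𝓝 τ))
    (hle : ∀ n, t n ≤ τ) {C : Set (V b → ℝ)} (hC : Cyl C) :
    ∀ᶠ n in atTop, (fld U Y (t n) ∈ C ↔ fld U Y τ ∈ C) := by
  obtain ⟨s, hs⟩ := hC
  have h1 : ∀ᶠ n in atTop, ∀ v ∈ s, fld U Y (t n) v = fld U Y τ v := by
    rw [Finset.eventually_all]
    intro v _
    exact eventually_fld U Y ht hle v
  filter_upwards [h1] with n hn
  exact hs _ _ hn

lemma cyl_of_mem {C : Set (V b → ℝ)} (hC : C ∈ measurableCylinders (fun _ : V b => ℝ)) :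
    Cyl C := by
  obtain ⟨s, S, -, rfl⟩ := (mem_measurableCylinders C).1 hC
  refine ⟨s, fun x y hxy => ?_⟩
  have : s.restrict x = s.restrict y := by
    funext v
    exact hxy v.1 v.2
  rw [mem_cylinder, mem_cylinder, this]

/-- the indicator of a set, at the fields of time `t` -/
noncomputable def ind (C : Set ((V b → ℝ) × (V b → ℝ))) (t : ℝ) (p : Om b) : ENNReal :=
  C.indicator 1 (flds t p)

lemma ind_le_one (C : Set ((V b → ℝ) × (V b → ℝ))) (t : ℝ) (p : Om b) : ind C t p ≤ 1 :=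
  by
  classical
  unfold ind
  rw [Set.indicator_apply]
  split_ifs
  · exact le_rfl
  · exact bot_le

lemma measurable_ind {C : Set ((V b → ℝ) × (V b → ℝ))} (hC : MeasurableSet C) {Ω : Type*}
    [MeasurableSpace Ω] {τ : Ω → ℝ} {p : Ω → Om b}
    (hτ : Measurable τ) (hp : Measurable p) : Measurable (fun ω => ind C (τ ω) (p ω)) :=
  (measurable_one.indicator hC).comp (measurable_flds hτ hp)

lemma eventually_ind (p : Om b) {τ : ℝ} {t : ℕ → ℝ} (ht : Tendsto t atTop (𝓝 τ))
    (hle : ∀ n, t n ≤ τ) {C₁ C₂ : Set (V b → ℝ)} (h₁ : Cyl C₁) (h₂ : Cyl C₂) :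
    ∀ᶠ n in atTop, ind (C₁ ×ˢ C₂) (t n) p = ind (C₁ ×ˢ C₂) τ p := by
  classical
  filter_upwards [eventually_mem p.1 p.2.1 ht hle h₁, eventually_mem p.1 p.2.2 ht hle h₂] with
    n hn1 hn2
  unfold ind
  simp only [Set.indicator_apply, flds, Set.mem_prod, hn1, hn2, Pi.one_apply]

/-- the weight -/
noncomputable def gw (s : ℝ) (x : UI) : ENNReal := if (x : ℝ) < s then ENNReal.ofReal x else 0

lemma measurable_gw (s : ℝ) : Measurable (gw s) :=
  Measurable.ite (measurableSet_lt measurable_subtype_coe measurable_const)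
    (ENNReal.measurable_ofReal.comp measurable_subtype_coe) measurable_const

lemma gw_le_one (s : ℝ) (x : UI) : gw s x ≤ 1 := by
  unfold gw
  split_ifs
  · rw [← ENNReal.ofReal_one]
    exact ENNReal.ofReal_le_ofReal x.2.2
  · exact bot_le

/-- the weight of a dyadic interval -/
noncomputable def gk (s : ℝ) (n k : ℕ) (x : UI) : ENNReal :=
  if ⌊(x : ℝ) * 2 ^ n⌋₊ = k then gw s x else 0

lemma measurable_gk (s : ℝ) (n k : ℕ) : Measurable (gk s n k) :=
  Measurable.ite ((Nat.measurable_floor.comp (measurable_subtype_coe.mul_const _))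
    (measurableSet_singleton k)) (measurable_gw s) measurable_const

lemma gk_supp (s : ℝ) (n k : ℕ) (x : UI) (hx : ¬ ((k : ℝ) / 2 ^ n ≤ (x : ℝ))) : gk s n k x = 0 := by
  unfold gk
  rw [if_neg]
  intro h
  apply hx
  rw [← h]
  exact rn_le n x.2.1

lemma gk_indicator (s : ℝ) (n k : ℕ) :
    ({x : UI | (k : ℝ) / 2 ^ n ≤ (x : ℝ)}.indicator (gk s n k)) = gk s n k := by
  classical
  funext x
  rw [Set.indicator_apply]
  split_ifs with h
  · rfl
  · exact (gk_supp s n k x h).symm

lemma sum_gk (s : ℝ) (hs : s ≤ 1) (n : ℕ) (x : UI) (f : ℝ → ENNReal) :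
    ∑ k ∈ Finset.range (2 ^ n), gk s n k x * f ((k : ℝ) / 2 ^ n) = gw s x * f (rn n x) := by
  classical
  by_cases hx : (x : ℝ) < s
  · have h1 : ⌊(x : ℝ) * 2 ^ n⌋₊ ∈ Finset.range (2 ^ n) := by
      rw [Finset.mem_range, Nat.floor_lt (by have := x.2.1; positivity)]
      push_cast
      have h2 : (x : ℝ) < 1 := hx.trans_le hs
      have h3 : (0 : ℝ) < 2 ^ n := by positivity
      nlinarith
    rw [Finset.sum_eq_single_of_mem _ h1]
    · unfold gk rn
      rw [if_pos rfl]
    · intro k _ hk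
      unfold gk
      rw [if_neg (fun h => hk h.symm), zero_mul]
  · have h1 : gw s x = 0 := by unfold gw; rw [if_neg hx]
    rw [h1, zero_mul]
    refine Finset.sum_eq_zero (fun k _ => ?_)
    unfold gk
    rw [h1, ite_self, zero_mul]

/-- the past expectation -/
noncomputable def HH (L : Measure (Om b)) (α : ℕ × V b) (C : Set ((V b → ℝ) × (V b → ℝ)))
    (r : ℝ) : ENNReal :=
  ∫⁻ p, ind C (α.1 + r) p * ({x : UI | r ≤ (x : ℝ)}.indicator 1 (p.1 α)) ∂L

lemma disc {θ : ℝ} {L : Measure (Om b)} (hL : Trip b θ L) (α : ℕ × V b) (s : ℝ) (hs : s ≤ 1)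
    (n : ℕ) (C : Set ((V b → ℝ) × (V b → ℝ))) (hC : MeasurableSet C) :
    ∫⁻ p, gw s (p.1 α) * (ENNReal.ofReal (1 - rn n (p.1 α)) *
      ind C (α.1 + rn n (p.1 α)) p) ∂L = ∫⁻ u : UI, gw s u * HH L α C (rn n u) := by
  classical
  have hα : Measurable (fun p : Om b => p.1 α) := (measurable_pi_apply α).comp measurable_fst
  have h1 : ∀ k ∈ Finset.range (2 ^ n),
      ∫⁻ p, gk s n k (p.1 α) * (ENNReal.ofReal (1 - (k : ℝ) / 2 ^ n) *
        ind C (α.1 + (k : ℝ) / 2 ^ n) p) ∂L =
      ∫⁻ u : UI, gk s n k u * HH L α C ((k : ℝ) / 2 ^ n) := by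
    intro k hk
    rw [Finset.mem_range] at hk
    have hk1 : (k : ℝ) / 2 ^ n < 1 := by
      rw [div_lt_one (by positivity)]
      exact_mod_cast hk
    have h2 := hL.label α ((k : ℝ) / 2 ^ n) (by positivity) hk1
      (fun U Y Y' => ind C (α.1 + (k : ℝ) / 2 ^ n) (U, (Y, Y')))
      (measurable_ind hC measurable_const measurable_id)
      (by
        intro U U' Y1 Y1' Y2 Y2' h3 h4
        unfold ind flds
        rw [fld_congr U U' Y1 Y1' _ h3 (fun β hβ => ⟨(h4 β hβ).1, (h4 β hβ).2.1⟩),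
          fld_congr U U' Y2 Y2' _ h3 (fun β hβ => ⟨(h4 β hβ).1, (h4 β hβ).2.2⟩)])
      (gk s n k) (measurable_gk s n k)
    have h5 : ∫⁻ x in {x : UI | (k : ℝ) / 2 ^ n ≤ (x : ℝ)}, gk s n k x = ∫⁻ x : UI, gk s n k x := by
      rw [← lintegral_indicator (measurableSet_le measurable_const measurable_subtype_coe),
        gk_indicator]
    rw [gk_indicator, h5] at h2
    rw [lintegral_mul_const _ (measurable_gk s n k), mul_comm (∫⁻ x : UI, gk s n k x)]
    unfold HH
    refine Eq.trans ?_ h2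
    have hm : Measurable (fun p : Om b => ind C (α.1 + (k : ℝ) / 2 ^ n) (p.1, p.2.1, p.2.2) *
        gk s n k (p.1 α)) :=
      (measurable_ind hC measurable_const measurable_id).mul ((measurable_gk s n k).comp hα)
    rw [← lintegral_mul_const _ hm]
    refine lintegral_congr (fun p => ?_)
    show gk s n k (p.1 α) * (ENNReal.ofReal (1 - (k : ℝ) / 2 ^ n) *
        ind C (α.1 + (k : ℝ) / 2 ^ n) p) = ind C (α.1 + (k : ℝ) / 2 ^ n) p * gk s n k (p.1 α) *
        ENNReal.ofReal (1 - (k : ℝ) / 2 ^ n)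
    ring
  have h2 := Finset.sum_congr rfl h1
  rw [← lintegral_finsetSum _ (fun k _ => ?_), ← lintegral_finsetSum _ (fun k _ => ?_)] at h2
  · refine Eq.trans ?_ (h2.trans ?_)
    · refine lintegral_congr (fun p => ?_)
      exact (sum_gk s hs n (p.1 α) (fun r => ENNReal.ofReal (1 - r) * ind C (α.1 + r) p)).symm
    · refine lintegral_congr (fun u => ?_)
      exact sum_gk s hs n u (fun r => HH L α C r)
  · exact (measurable_gk s n k).mul_const _
  · exact ((measurable_gk s n k).comp hα).mul (measurable_const.mul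
      (measurable_ind hC measurable_const measurable_id))


lemma HH_eq (L : Measure (Om b)) (α : ℕ × V b) (C : Set ((V b → ℝ) × (V b → ℝ))) (r : ℝ) :
    HH L α C r = ∫⁻ p, ind C (α.1 + r) p * (if r ≤ (p.1 α : ℝ) then 1 else 0) ∂L := by
  classical
  unfold HH
  refine lintegral_congr (fun p => ?_)
  rw [Set.indicator_apply]
  rfl

lemma HH_le_one (L : Measure (Om b)) [IsProbabilityMeasure L] (α : ℕ × V b)
    (C : Set ((V b → ℝ) × (V b → ℝ))) (r : ℝ) : HH L α C r ≤ 1 := by
  rw [HH_eq]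
  calc ∫⁻ p, ind C (α.1 + r) p * (if r ≤ (p.1 α : ℝ) then 1 else 0) ∂L
      ≤ ∫⁻ _, 1 ∂L := lintegral_mono (fun p => by
        refine mul_le_one' (ind_le_one _ _ _) ?_
        split_ifs
        · exact le_rfl
        · exact bot_le)
    _ = 1 := by simp

lemma measurable_HHint {C : Set ((V b → ℝ) × (V b → ℝ))} (hC : MeasurableSet C) (α : ℕ × V b)
    {f : UI → ℝ} (hf : Measurable f) : Measurable (fun q : UI × Om b =>
      ind C (α.1 + f q.1) q.2 * (if f q.1 ≤ (q.2.1 α : ℝ) then (1 : ENNReal) else 0)) := by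
  have h1 : Measurable (fun q : UI × Om b => f q.1) := hf.comp measurable_fst
  have h2 : Measurable (fun q : UI × Om b => (q.2.1 α : ℝ)) :=
    measurable_subtype_coe.comp ((measurable_pi_apply α).comp (measurable_fst.comp measurable_snd))
  exact (measurable_ind hC (measurable_const.add h1) measurable_snd).mul
    (Measurable.ite (measurableSet_le h1 h2) measurable_const measurable_const)

lemma measurable_HH (L : Measure (Om b)) [IsProbabilityMeasure L]
    {C : Set ((V b → ℝ) × (V b → ℝ))} (hC : MeasurableSet C) (α : ℕ × V b)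
    {f : UI → ℝ} (hf : Measurable f) : Measurable (fun u : UI => HH L α C (f u)) := by
  simp_rw [HH_eq]
  exact (measurable_HHint hC α hf).lintegral_prod_right'

lemma tendsto_HH (L : Measure (Om b)) [IsProbabilityMeasure L] (α : ℕ × V b)
    {C₁ C₂ : Set (V b → ℝ)} (h₁ : Cyl C₁) (h₂ : Cyl C₂) (hC : MeasurableSet (C₁ ×ˢ C₂))
    (u : UI) : Tendsto (fun n => HH L α (C₁ ×ˢ C₂) (rn n u)) atTop (𝓝 (HH L α (C₁ ×ˢ C₂) u)) := by
  simp_rw [HH_eq]
  have hu : Tendsto (fun n => rn n (u : ℝ)) atTop (𝓝 (u : ℝ)) := tendsto_rn u.2.1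
  have hule : ∀ n, rn n (u : ℝ) ≤ u := fun n => rn_le n u.2.1
  refine tendsto_lintegral_of_dominated_convergence (fun _ => 1) (fun n => ?_) (fun n => ?_)
    (by simp) ?_
  · refine (measurable_ind hC measurable_const measurable_id).mul
      (Measurable.ite (measurableSet_le measurable_const ?_) measurable_const measurable_const)
    exact measurable_subtype_coe.comp ((measurable_pi_apply α).comp measurable_fst)
  · refine Eventually.of_forall (fun p => ?_)
    refine mul_le_one' (ind_le_one _ _ _) ?_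
    split_ifs
    · exact le_rfl
    · exact bot_le
  · refine Eventually.of_forall (fun p => ?_)
    have h3 := eventually_ind p (τ := α.1 + (u : ℝ)) (t := fun n => α.1 + rn n u)
      (tendsto_const_nhds.add hu) (fun n => by
        have := hule n
        show (α.1 : ℝ) + rn n u ≤ α.1 + u
        linarith) h₁ h₂
    have h4 : ∀ᶠ n in atTop, (rn n (u : ℝ) ≤ (p.1 α : ℝ) ↔ (u : ℝ) ≤ (p.1 α : ℝ)) := by
      by_cases h : (u : ℝ) ≤ (p.1 α : ℝ)
      · exact Eventually.of_forall (fun n => iff_of_true ((hule n).trans h) h)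
      · rw [not_le] at h
        filter_upwards [hu.eventually (lt_mem_nhds h)] with n hn
        exact iff_of_false (not_le.2 hn) (not_le.2 h)
    refine tendsto_const_nhds.congr' ?_
    filter_upwards [h3, h4] with n hn3 hn4
    simp only [hn3, hn4]

lemma cyl_eq {θ : ℝ} {L : Measure (Om b)} [IsProbabilityMeasure L] (hL : Trip b θ L)
    (α : ℕ × V b) (s : ℝ) (hs : s ≤ 1) {C₁ C₂ : Set (V b → ℝ)} (h₁ : Cyl C₁) (h₂ : Cyl C₂)
    (hC : MeasurableSet (C₁ ×ˢ C₂)) :
    ∫⁻ p, gw s (p.1 α) * (ENNReal.ofReal (1 - (p.1 α : ℝ)) *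
      ind (C₁ ×ˢ C₂) (tm p.1 α) p) ∂L = ∫⁻ u : UI, gw s u * HH L α (C₁ ×ˢ C₂) u := by
  have hα : Measurable (fun p : Om b => p.1 α) := (measurable_pi_apply α).comp measurable_fst
  have hα' : Measurable (fun p : Om b => (p.1 α : ℝ)) := measurable_subtype_coe.comp hα
  refine tendsto_nhds_unique (f := fun n => ∫⁻ p, gw s (p.1 α) * (ENNReal.ofReal
    (1 - rn n (p.1 α)) * ind (C₁ ×ˢ C₂) (α.1 + rn n (p.1 α)) p) ∂L) (l := atTop) ?_ ?_
  · refine tendsto_lintegral_of_dominated_convergence (fun _ => 1) (fun n => ?_) (fun n => ?_)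
      (by simp) ?_
    · have hr : Measurable (fun p : Om b => rn n (p.1 α)) := (measurable_rn n).comp hα'
      exact ((measurable_gw s).comp hα).mul ((ENNReal.measurable_ofReal.comp
        (measurable_const.sub hr)).mul (measurable_ind hC (measurable_const.add hr) measurable_id))
    · refine Eventually.of_forall (fun p => ?_)
      refine mul_le_one' (gw_le_one _ _) (mul_le_one' ?_ (ind_le_one _ _ _))
      rw [← ENNReal.ofReal_one]
      apply ENNReal.ofReal_le_ofReal
      linarith [rn_nonneg n (p.1 α)]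
    · refine Eventually.of_forall (fun p => ?_)
      have hu : Tendsto (fun n => rn n (p.1 α : ℝ)) atTop (𝓝 (p.1 α : ℝ)) := tendsto_rn (p.1 α).2.1
      have h3 := eventually_ind p (τ := tm p.1 α) (t := fun n => α.1 + rn n (p.1 α))
        (tendsto_const_nhds.add hu) (fun n => by
          have := rn_le n (p.1 α).2.1
          unfold tm
          linarith) h₁ h₂
      have h4 : Tendsto (fun n => gw s (p.1 α) * (ENNReal.ofReal (1 - rn n (p.1 α)) *
          ind (C₁ ×ˢ C₂) (tm p.1 α) p)) atTop (𝓝 (gw s (p.1 α) * (ENNReal.ofReal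
          (1 - (p.1 α : ℝ)) * ind (C₁ ×ˢ C₂) (tm p.1 α) p))) := by
        apply ENNReal.Tendsto.const_mul
        · apply ENNReal.Tendsto.mul_const
          · exact ENNReal.tendsto_ofReal (tendsto_const_nhds.sub hu)
          · exact Or.inr (ne_top_of_le_ne_top ENNReal.one_ne_top (ind_le_one _ _ _))
        · exact Or.inr (ne_top_of_le_ne_top ENNReal.one_ne_top (gw_le_one _ _))
      refine h4.congr' ?_
      filter_upwards [h3] with n hn
      rw [hn]
  · simp_rw [disc hL α s hs _ _ hC]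
    refine tendsto_lintegral_of_dominated_convergence (fun _ => 1) (fun n => ?_) (fun n => ?_)
      (by simp) ?_
    · exact (measurable_gw s).mul (measurable_HH L hC α ((measurable_rn n).comp
        measurable_subtype_coe))
    · exact Eventually.of_forall (fun u => mul_le_one' (gw_le_one _ _) (HH_le_one _ _ _ _))
    · refine Eventually.of_forall (fun u => ?_)
      apply ENNReal.Tendsto.const_mul (tendsto_HH L α h₁ h₂ hC u)
      exact Or.inr (ne_top_of_le_ne_top ENNReal.one_ne_top (gw_le_one _ _))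

/-- the measure of the own time -/
noncomputable def M1 (L : Measure (Om b)) (α : ℕ × V b) (s : ℝ) :
    Measure ((V b → ℝ) × (V b → ℝ)) :=
  (L.withDensity (fun p => gw s (p.1 α) * ENNReal.ofReal (1 - (p.1 α : ℝ)))).map
    (fun p => flds (tm p.1 α) p)

/-- the measure of the fixed times -/
noncomputable def M2 (L : Measure (Om b)) (α : ℕ × V b) (s : ℝ) :
    Measure ((V b → ℝ) × (V b → ℝ)) :=
  (((volume : Measure UI).prod L).withDensity
    (fun q => gw s q.1 * (if (q.1 : ℝ) ≤ (q.2.1 α : ℝ) then 1 else 0))).map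
    (fun q => flds (α.1 + (q.1 : ℝ)) q.2)

lemma measurable_own (α : ℕ × V b) : Measurable (fun p : Om b => flds (tm p.1 α) p) :=
  measurable_flds (Measurable.tm measurable_fst α) measurable_id

lemma measurable_fix (α : ℕ × V b) : Measurable (fun q : UI × Om b =>
    flds (α.1 + (q.1 : ℝ)) q.2) :=
  measurable_flds (measurable_const.add (measurable_subtype_coe.comp measurable_fst)) measurable_snd

lemma lintegral_M1 (L : Measure (Om b)) (α : ℕ × V b) (s : ℝ)
    {ξ : (V b → ℝ) × (V b → ℝ) → ENNReal} (hξ : Measurable ξ) :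
    ∫⁻ x, ξ x ∂(M1 L α s) = ∫⁻ p, gw s (p.1 α) * (ENNReal.ofReal (1 - (p.1 α : ℝ)) *
      ξ (flds (tm p.1 α) p)) ∂L := by
  have hα : Measurable (fun p : Om b => p.1 α) := (measurable_pi_apply α).comp measurable_fst
  have hα' : Measurable (fun p : Om b => (p.1 α : ℝ)) := measurable_subtype_coe.comp hα
  have hd : Measurable (fun p : Om b => gw s (p.1 α) * ENNReal.ofReal (1 - (p.1 α : ℝ))) :=
    ((measurable_gw s).comp hα).mul (ENNReal.measurable_ofReal.comp (measurable_const.sub hα'))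
  have hg : Measurable (fun p : Om b => ξ (flds (tm p.1 α) p)) := hξ.comp (measurable_own α)
  unfold M1
  rw [lintegral_map hξ (measurable_own α), lintegral_withDensity_eq_lintegral_mul _ hd hg]
  refine lintegral_congr (fun p => ?_)
  exact mul_assoc _ _ _

lemma lintegral_M2 (L : Measure (Om b)) [IsProbabilityMeasure L] (α : ℕ × V b) (s : ℝ)
    {ξ : (V b → ℝ) × (V b → ℝ) → ENNReal} (hξ : Measurable ξ) :
    ∫⁻ x, ξ x ∂(M2 L α s) = ∫⁻ u : UI, gw s u * ∫⁻ p, ξ (flds (α.1 + (u : ℝ)) p) *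
      (if (u : ℝ) ≤ (p.1 α : ℝ) then 1 else 0) ∂L := by
  have h1 : Measurable (fun q : UI × Om b => (q.1 : ℝ)) := measurable_subtype_coe.comp measurable_fst
  have h2 : Measurable (fun q : UI × Om b => (q.2.1 α : ℝ)) :=
    measurable_subtype_coe.comp ((measurable_pi_apply α).comp (measurable_fst.comp measurable_snd))
  have hd : Measurable (fun q : UI × Om b => gw s q.1 *
      (if (q.1 : ℝ) ≤ (q.2.1 α : ℝ) then (1 : ENNReal) else 0)) :=
    ((measurable_gw s).comp measurable_fst).mul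
      (Measurable.ite (measurableSet_le h1 h2) measurable_const measurable_const)
  have hg : Measurable (fun q : UI × Om b => ξ (flds (α.1 + (q.1 : ℝ)) q.2)) :=
    hξ.comp (measurable_fix α)
  unfold M2
  rw [lintegral_map hξ (measurable_fix α), lintegral_withDensity_eq_lintegral_mul _ hd hg,
    lintegral_prod _ (hd.mul hg).aemeasurable]
  refine lintegral_congr (fun u => ?_)
  rw [← lintegral_const_mul]
  · refine lintegral_congr (fun p => ?_)
    show gw s u * (if (u : ℝ) ≤ (p.1 α : ℝ) then 1 else 0) * ξ (flds (α.1 + (u : ℝ)) p) =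
      gw s u * (ξ (flds (α.1 + (u : ℝ)) p) * (if (u : ℝ) ≤ (p.1 α : ℝ) then 1 else 0))
    ring
  · have hα' : Measurable (fun p : Om b => (p.1 α : ℝ)) :=
      measurable_subtype_coe.comp ((measurable_pi_apply α).comp measurable_fst)
    exact (hξ.comp (measurable_flds measurable_const measurable_id)).mul
      (Measurable.ite (measurableSet_le measurable_const hα') measurable_const measurable_const)

lemma M1_eq_M2 {θ : ℝ} {L : Measure (Om b)} [IsProbabilityMeasure L] (hL : Trip b θ L)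
    (α : ℕ × V b) (s : ℝ) (hs : s ≤ 1) : M1 L α s = M2 L α s := by
  have key : ∀ C₁ C₂ : Set (V b → ℝ), MeasurableSet C₁ → MeasurableSet C₂ → Cyl C₁ → Cyl C₂ →
      M1 L α s (C₁ ×ˢ C₂) = M2 L α s (C₁ ×ˢ C₂) := by
    intro C₁ C₂ hm₁ hm₂ h₁ h₂
    have hC : MeasurableSet (C₁ ×ˢ C₂) := hm₁.prod hm₂
    rw [← lintegral_indicator_one hC, ← lintegral_indicator_one hC,
      lintegral_M1 L α s (measurable_one.indicator hC),
      lintegral_M2 L α s (measurable_one.indicator hC)]
    have h3 := cyl_eq hL α s hs h₁ h₂ hC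
    simp_rw [HH_eq] at h3
    exact h3
  have huniv : Cyl (Set.univ : Set (V b → ℝ)) := ⟨∅, fun _ _ _ => by simp⟩
  have hfin : IsFiniteMeasure (M1 L α s) := by
    refine ⟨?_⟩
    rw [← lintegral_one, lintegral_M1 L α s (ξ := fun _ => 1) measurable_const]
    refine lt_of_le_of_lt (lintegral_mono (g := fun _ => 1) (fun p => ?_)) (by simp)
    refine mul_le_one' (gw_le_one _ _) (mul_le_one' ?_ le_rfl)
    rw [← ENNReal.ofReal_one]
    apply ENNReal.ofReal_le_ofReal
    linarith [(p.1 α).2.1]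
  have hspan : IsCountablySpanning (measurableCylinders (fun _ : V b => ℝ)) :=
    ⟨fun _ => Set.univ, fun _ => univ_mem_measurableCylinders _, Set.iUnion_const _⟩
  refine ext_of_generate_finite (Set.image2 (· ×ˢ ·) (measurableCylinders (fun _ : V b => ℝ))
    (measurableCylinders (fun _ : V b => ℝ))) ?_ ?_ ?_ ?_
  · exact (generateFrom_eq_prod generateFrom_measurableCylinders generateFrom_measurableCylinders
      hspan hspan).symm
  · exact isPiSystem_measurableCylinders.prod isPiSystem_measurableCylinders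
  · rintro _ ⟨C₁, h₁, C₂, h₂, rfl⟩
    exact key C₁ C₂ (measurableCylinders.measurableSet h₁ |> fun _ => MeasurableSet.of_mem_measurableCylinders h₁) (MeasurableSet.of_mem_measurableCylinders h₂)
      (cyl_of_mem h₁) (cyl_of_mem h₂)
  · rw [← Set.univ_prod_univ]
    exact key _ _ MeasurableSet.univ MeasurableSet.univ huniv huniv

lemma gw_mul (s : ℝ) (x : UI) : gw s x * ENNReal.ofReal (1 - (x : ℝ)) =
    if (x : ℝ) < s then ENNReal.ofReal (str x ^ 2) else 0 := by
  unfold gw
  split_ifs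
  · rw [str_sq, ENNReal.ofReal_mul x.2.1]
  · rw [zero_mul]

lemma ae_label {θ : ℝ} (h0 : 0 ≤ θ) (h1 : θ < 1) {L : Measure (Om b)} (hL : Trip b θ L)
    (α : ℕ × V b) : ∀ᵐ p ∂L, 0 < (p.1 α : ℝ) ∧ (p.1 α : ℝ) < 1 := by
  have h2 : L.map Prod.fst = noise (ℕ × V b) := by
    have hm : Measurable (fun p : Om b => (p.1, p.2.1)) :=
      measurable_fst.prodMk (measurable_fst.comp measurable_snd)
    rw [← PP_map_fst h0 h1, ← hL.fst, Measure.map_map measurable_fst hm]
    rfl
  have h3 : ∀ᵐ x ∂(noise (ℕ × V b)), 0 < (x α : ℝ) ∧ (x α : ℝ) < 1 := by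
    have h4 := (measurePreserving_eval_infinitePi (fun _ : ℕ × V b => (volume : Measure UI)) α)
    have h5 : ∀ᵐ (y : UI) ∂(volume : Measure UI), 0 < (y : ℝ) ∧ (y : ℝ) < 1 := by
      have h6 : ∀ᵐ y ∂(volume : Measure UI), y ≠ (0 : UI) := by
        have h8 : (volume : Measure UI) {(0 : UI)} = 0 := measure_singleton _
        filter_upwards [compl_mem_ae_iff.2 h8] with y hy
        exact hy
      have h7 : ∀ᵐ y ∂(volume : Measure UI), y ≠ (1 : UI) := by
        have h8 : (volume : Measure UI) {(1 : UI)} = 0 := measure_singleton _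
        filter_upwards [compl_mem_ae_iff.2 h8] with y hy
        exact hy
      filter_upwards [h6, h7] with y hy0 hy1
      exact ⟨unitInterval.pos_iff_ne_zero.2 hy0, unitInterval.lt_one_iff_ne_one.2 hy1⟩
    exact h4.quasiMeasurePreserving.ae h5
  rw [← h2] at h3
  exact ae_of_ae_map measurable_fst.aemeasurable h3

theorem main : Spec.OwnTime := by
  intro b θ hb h0 h1 L hLp hL α
  have hα : Measurable (fun p : Om b => p.1 α) := (measurable_pi_apply α).comp measurable_fst
  have part1 : ∀ s : ℝ, 0 ≤ s → s ≤ 1 → ∀ ξ : (V b → ℝ) × (V b → ℝ) → ENNReal, Measurable ξ →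
      ∫⁻ p, (if (p.1 α : ℝ) < s then ENNReal.ofReal (str (p.1 α) ^ 2) *
          ξ (fld p.1 p.2.1 (tm p.1 α), fld p.1 p.2.2 (tm p.1 α)) else 0) ∂L ≤
        ∫⁻ u in Set.Ioo 0 s, ENNReal.ofReal u * ∫⁻ q, ξ q ∂(LT L (α.1 + u)) := by
    intro s hs0 hs1 ξ hξ
    have e1 : ∫⁻ p, (if (p.1 α : ℝ) < s then ENNReal.ofReal (str (p.1 α) ^ 2) *
          ξ (fld p.1 p.2.1 (tm p.1 α), fld p.1 p.2.2 (tm p.1 α)) else 0) ∂L =
        ∫⁻ x, ξ x ∂(M1 L α s) := by
      rw [lintegral_M1 L α s hξ]
      refine lintegral_congr (fun p => ?_)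
      rw [← mul_assoc, gw_mul]
      split_ifs
      · rfl
      · rw [zero_mul]
    rw [e1, M1_eq_M2 hL α s hs1, lintegral_M2 L α s hξ]
    have e2 : ∀ t : ℝ, ∫⁻ q, ξ q ∂(LT L t) = ∫⁻ p, ξ (flds t p) ∂L := by
      intro t
      exact lintegral_map hξ (measurable_flds measurable_const measurable_id)
    let f : ℝ → ENNReal := fun u => (if u < s then ENNReal.ofReal u else 0) *
      ∫⁻ q, ξ q ∂(LT L (α.1 + u))
    calc ∫⁻ u : UI, gw s u * ∫⁻ p, ξ (flds (α.1 + (u : ℝ)) p) *
        (if (u : ℝ) ≤ (p.1 α : ℝ) then 1 else 0) ∂L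
        ≤ ∫⁻ u : UI, f u := by
          refine lintegral_mono (fun u => ?_)
          show gw s u * _ ≤ gw s u * _
          rw [e2]
          gcongr with p
          split_ifs
          · rw [mul_one]
          · rw [mul_zero]; exact bot_le
      _ = ∫⁻ u in Set.Icc (0 : ℝ) 1, f u := lintegral_subtype_comap measurableSet_Icc f
      _ ≤ ∫⁻ u in Set.Icc (0 : ℝ) 1, (Set.Ioo 0 s).indicator
            (fun u => ENNReal.ofReal u * ∫⁻ q, ξ q ∂(LT L (α.1 + u))) u := by
          refine setLIntegral_mono' measurableSet_Icc (fun u hu => ?_)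
          show (if u < s then ENNReal.ofReal u else 0) * _ ≤ _
          by_cases hus : u < s
          · rw [if_pos hus]
            rcases hu.1.eq_or_lt with h | h
            · rw [← h]; simp
            · have hmem : u ∈ Set.Ioo 0 s := ⟨h, hus⟩
              rw [Set.indicator_of_mem hmem]
          · rw [if_neg hus, zero_mul]; exact bot_le
      _ ≤ ∫⁻ u, (Set.Ioo 0 s).indicator
            (fun u => ENNReal.ofReal u * ∫⁻ q, ξ q ∂(LT L (α.1 + u))) u :=
          setLIntegral_le_lintegral _ _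
      _ = _ := lintegral_indicator measurableSet_Ioo _
  refine ⟨part1, ?_⟩
  intro B hB hLT
  have h2 := part1 1 zero_le_one le_rfl (B.indicator 1) (measurable_one.indicator hB)
  have h3 : ∫⁻ u in Set.Ioo (0 : ℝ) 1, ENNReal.ofReal u *
      ∫⁻ q, B.indicator 1 q ∂(LT L (α.1 + u)) = 0 := by
    have h4 : ∫⁻ u in Set.Ioo (0 : ℝ) 1, ENNReal.ofReal u *
      ∫⁻ q, B.indicator 1 q ∂(LT L (α.1 + u)) = ∫⁻ u in Set.Ioo (0 : ℝ) 1, 0 := by
      refine setLIntegral_congr_fun measurableSet_Ioo (fun u hu => ?_)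
      have h5 : (0 : ℝ) < (α.1 : ℝ) + u := by
        have := hu.1
        positivity
      rw [lintegral_indicator_one hB, hLT _ h5, mul_zero]
    rw [h4]; simp
  rw [h3] at h2
  have h4 := le_antisymm h2 bot_le
  have hstr : Measurable (fun p : Om b => ENNReal.ofReal (str (p.1 α) ^ 2)) :=
    ENNReal.measurable_ofReal.comp ((measurable_str.comp (measurable_subtype_coe.comp hα)).pow_const 2)
  have hmm : Measurable (fun p : Om b => if (p.1 α : ℝ) < 1 then ENNReal.ofReal (str (p.1 α) ^ 2) *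
      B.indicator (1 : (V b → ℝ) × (V b → ℝ) → ENNReal)
        (fld p.1 p.2.1 (tm p.1 α), fld p.1 p.2.2 (tm p.1 α)) else 0) :=
    Measurable.ite (measurableSet_lt (measurable_subtype_coe.comp hα)
      measurable_const) (hstr.mul ((measurable_one.indicator hB).comp (measurable_own α)))
      measurable_const
  rw [lintegral_eq_zero_iff hmm] at h4
  have h5 : ∀ᵐ p ∂L, ¬ ((fld p.1 p.2.1 (tm p.1 α), fld p.1 p.2.2 (tm p.1 α)) ∈ B) := by
    filter_upwards [h4, ae_label h0 h1 hL α] with p hp hp2 hmem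
    have h6 : (if (p.1 α : ℝ) < 1 then ENNReal.ofReal (str (p.1 α) ^ 2) *
      B.indicator 1 (fld p.1 p.2.1 (tm p.1 α), fld p.1 p.2.2 (tm p.1 α)) else 0) = (0 : ENNReal) := hp
    rw [if_pos hp2.2, Set.indicator_of_mem hmem, Pi.one_apply, mul_one,
      ENNReal.ofReal_eq_zero, str_sq] at h6
    have : 0 < (p.1 α : ℝ) * (1 - (p.1 α : ℝ)) := mul_pos hp2.1 (by linarith [hp2.2])
    linarith
  have h6 := ae_iff.1 h5
  simpa using h6

end Crest.Agent.IsgOwn
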