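import Crest.Agent.IsgEqvB
import Crest.Agent.IsgReal1
import Crest.Agent.IsgOwn

set_option autoImplicit false

/-!
S0241, module INNOV: the innovations are iid uniform and independent of the past.
-/

open MeasureTheory ProbabilityTheory Filter Topology

namespace Crest.Agent.IsgInnov

open Crest.Agent.Isg

variable {b : ℕ}

/-! ### Resampling one coordinate -/

lemma measurable_upd {O : Type*} [DecidableEq O] (α : O) :
    Measurable (fun q : (O → UI) × UI => Function.update q.1 α q.2) := by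
  apply measurable_pi_lambda
  intro β
  by_cases h : β = α
  · subst h
    simpa using measurable_snd
  · simp only [Function.update_of_ne h]
    exact (measurable_pi_apply β).comp measurable_fst

lemma resample {O : Type*} [DecidableEq O] (α : O) :
    ((noise O).prod (volume : Measure UI)).map (fun q => Function.update q.1 α q.2) = noise O := by
  apply Measure.eq_infinitePi
  intro s t ht
  rw [Measure.map_apply (measurable_upd α) (MeasurableSet.pi s.countable_toSet (fun i _ => ht i))]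
  by_cases hα : α ∈ s
  · have h1 : (fun q : (O → UI) × UI => Function.update q.1 α q.2) ⁻¹' (Set.pi s t) =
        (Set.pi (s.erase α : Finset O) t) ×ˢ (t α) := by
      ext q
      simp only [Set.mem_preimage, Set.mem_pi, Finset.mem_coe, Set.mem_prod, Finset.mem_erase]
      constructor
      · intro h
        refine ⟨fun i hi => ?_, ?_⟩
        · have := h i hi.2
          rwa [Function.update_of_ne hi.1] at this
        · have := h α hα
          rwa [Function.update_self] at this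
      · rintro ⟨h2, h3⟩ i hi
        by_cases hia : i = α
        · subst hia
          rwa [Function.update_self]
        · rw [Function.update_of_ne hia]
          exact h2 i ⟨hia, hi⟩
    rw [h1, Measure.prod_prod, Measure.infinitePi_pi _ (fun i _ => ht i),
      Finset.prod_erase_mul _ _ hα]
  · have h1 : (fun q : (O → UI) × UI => Function.update q.1 α q.2) ⁻¹' (Set.pi s t) =
        (Set.pi s t) ×ˢ Set.univ := by
      ext q
      simp only [Set.mem_preimage, Set.mem_pi, Finset.mem_coe, Set.mem_prod, Set.mem_univ, and_true]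
      refine forall₂_congr (fun i hi => ?_)
      have hne : i ≠ α := by
        rintro rfl
        exact hα hi
      rw [Function.update_of_ne hne]
    rw [h1, Measure.prod_prod, Measure.infinitePi_pi _ (fun i _ => ht i), measure_univ, mul_one]

lemma measurable_updJ (α : ℕ × V b) :
    Measurable (fun q : ((ℕ × V b → UI) × ((V b → Bool) × (ℕ × V b → UI))) × UI =>
      (q.1.1, (q.1.2.1, Function.update q.1.2.2 α q.2))) := by
  refine (measurable_fst.comp measurable_fst).prodMk
    ((measurable_fst.comp (measurable_snd.comp measurable_fst)).prodMk ?_)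
  exact (measurable_upd α).comp
    ((measurable_snd.comp (measurable_snd.comp measurable_fst)).prodMk measurable_snd)

lemma resampleJ {θ : ℝ} (h0 : 0 ≤ θ) (h1 : θ < 1) (α : ℕ × V b) :
    ((JJ b θ).prod (volume : Measure UI)).map
      (fun q => (q.1.1, (q.1.2.1, Function.update q.1.2.2 α q.2))) = JJ b θ := by
  have := isProb_mu (b := b) h0 h1
  have := isProb_JJ (b := b) h0 h1
  refine Measure.ext_of_lintegral _ (fun f hf => ?_)
  have hfu : Measurable (fun q : ((ℕ × V b → UI) × ((V b → Bool) × (ℕ × V b → UI))) × UI =>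
      f (q.1.1, (q.1.2.1, Function.update q.1.2.2 α q.2))) := hf.comp (measurable_updJ (b := b) α)
  rw [lintegral_map hf (measurable_updJ α), lintegral_prod _ hfu.aemeasurable]
  have hm : Measurable (fun p : (ℕ × V b → UI) × ((V b → Bool) × (ℕ × V b → UI)) =>
      ∫⁻ w : UI, f (p.1, (p.2.1, Function.update p.2.2 α w))) :=
    Measurable.lintegral_prod_right' (f := fun q : ((ℕ × V b → UI) ×
      ((V b → Bool) × (ℕ × V b → UI))) × UI =>
      f (q.1.1, (q.1.2.1, Function.update q.1.2.2 α q.2))) hfu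
  unfold JJ
  rw [lintegral_prod _ hm.aemeasurable, lintegral_prod _ hf.aemeasurable]
  refine lintegral_congr (fun U => ?_)
  have hm2 : Measurable (fun p : (V b → Bool) × (ℕ × V b → UI) =>
      ∫⁻ w : UI, f (U, (p.1, Function.update p.2 α w))) := hm.comp measurable_prodMk_left
  have hf2 : Measurable (fun p : (V b → Bool) × (ℕ × V b → UI) => f (U, p)) :=
    hf.comp measurable_prodMk_left
  rw [lintegral_prod _ hm2.aemeasurable, lintegral_prod _ hf2.aemeasurable]
  refine lintegral_congr (fun σ => ?_)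
  have hf3 : Measurable (fun η : ℕ × V b → UI => f (U, (σ, η))) :=
    hf2.comp measurable_prodMk_left
  have hf4 : Measurable (fun q : (ℕ × V b → UI) × UI => f (U, (σ, Function.update q.1 α q.2))) :=
    hf3.comp (measurable_upd α)
  conv_rhs => rw [← resample α]
  rw [lintegral_map hf3 (measurable_upd α), lintegral_prod _ hf4.aemeasurable]

lemma integrable_of_bdd {Ω : Type*} [MeasurableSpace Ω] {μ : Measure Ω} [IsProbabilityMeasure μ]
    {f : Ω → ℝ} (hf : Measurable f) {C : ℝ} (hC : ∀ x, |f x| ≤ C) : Integrable f μ :=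
  Integrable.of_bound hf.aestronglyMeasurable C (Eventually.of_forall hC)

lemma integral_resampleJ {θ : ℝ} (h0 : 0 ≤ θ) (h1 : θ < 1) (α : ℕ × V b)
    {f : (ℕ × V b → UI) × ((V b → Bool) × (ℕ × V b → UI)) → ℝ} (hf : Measurable f) {C : ℝ}
    (hC : ∀ x, |f x| ≤ C) :
    ∫ p, f p ∂(JJ b θ) =
      ∫ p, (∫ w : UI, f (p.1, (p.2.1, Function.update p.2.2 α w))) ∂(JJ b θ) := by
  have := isProb_JJ (b := b) h0 h1
  conv_lhs => rw [← resampleJ h0 h1 α]
  rw [integral_map (measurable_updJ α).aemeasurable hf.aestronglyMeasurable]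
  rw [integral_prod]
  exact integrable_of_bdd (hf.comp (measurable_updJ α)) (fun x => hC _)

/-! ### Effect of an update -/

lemma Yf_update (U : ℕ × V b → UI) (σ : V b → Bool) (η : ℕ × V b → UI) (α : ℕ × V b) (w : UI) :
    Yf U σ (Function.update η α w) =
      Function.update (Yf U σ η) α (obs (str (U α)) (σ α.2) w) := by
  funext β
  by_cases h : β = α
  · subst h
    simp [Yf]
  · simp [Yf, Function.update_of_ne h]

lemma pastY_update {X : Type*} {α : ℕ × V b} {G : (ℕ × V b → UI) → (ℕ × V b → UI) → X}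
    (hG : PastY (fun U => tm U α) G) (U Y : ℕ × V b → UI) (y : UI) :
    G U (Function.update Y α y) = G U Y := by
  apply hG
  intro β hβ
  have : β ≠ α := by
    rintro rfl
    exact lt_irrefl _ hβ
  rw [Function.update_of_ne this]

lemma fld_congrY (U Y Y' : ℕ × V b → UI) (τ : ℝ) (h : ∀ β, tm U β < τ → Y β = Y' β) :
    fld U Y τ = fld U Y' τ :=
  IsgOwn.fld_congr U U Y Y' τ (fun _ => Iff.rfl) (fun β hβ => ⟨rfl, h β hβ⟩)

lemma pastY_pm (θ : ℝ) (α : ℕ × V b) : PastY (fun U => tm U α) (fun U Y => pm θ U Y α) := by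
  intro U Y Y' h
  show pm θ U Y α = pm θ U Y' α
  unfold pm
  rw [fld_congrY U Y Y' _ h]

lemma TT_update (θ : ℝ) (U Y : ℕ × V b → UI) (α : ℕ × V b) (y : UI) :
    TT θ U (Function.update Y α y) α = Fc (str (U α) * pm θ U Y α) y := by
  unfold TT
  rw [pastY_update (pastY_pm θ α), Function.update_self]

lemma abs_pm_le (θ : ℝ) (U Y : ℕ × V b → UI) (α : ℕ × V b) : |pm θ U Y α| ≤ 1 :=
  (abs_M_lt_one θ _ _).le

lemma abs_str_pm_le (θ : ℝ) (U Y : ℕ × V b → UI) (α : ℕ × V b) :
    |str (U α) * pm θ U Y α| ≤ 1 / 2 := by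
  rw [abs_mul, abs_of_nonneg (str_nonneg _)]
  have h1 := str_le_half (U α)
  have h2 := abs_pm_le θ U Y α
  nlinarith [str_nonneg (U α), abs_nonneg (pm θ U Y α)]

/-! ### The one step identity -/

/-- the mean of the test function -/
noncomputable def IA (φ : UI → ℝ) (a : ℝ) : ℝ := ∫ y : UI, φ (Fc a y)

/-- the first moment of the test function -/
noncomputable def IB (φ : UI → ℝ) (a : ℝ) : ℝ := ∫ y : UI, φ (Fc a y) * (2 * (y : ℝ) - 1)

lemma measurable_phiFc {φ : UI → ℝ} (hφ : Measurable φ) (a : ℝ) :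
    Measurable (fun y : UI => φ (Fc a y)) := hφ.comp (Measurable.Fc measurable_const measurable_id)

lemma measurable_two : Measurable (fun y : UI => 2 * (y : ℝ) - 1) :=
  (measurable_coeUI.const_mul 2).sub_const 1

lemma measurable_IA {φ : UI → ℝ} (hφ : Measurable φ) : Measurable (IA φ) := by
  have h : Measurable (fun p : ℝ × UI => φ (Fc p.1 p.2)) :=
    hφ.comp (Measurable.Fc measurable_fst measurable_snd)
  exact (h.stronglyMeasurable.integral_prod_right' (ν := (volume : Measure UI))).measurable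

lemma measurable_IB {φ : UI → ℝ} (hφ : Measurable φ) : Measurable (IB φ) := by
  have h : Measurable (fun p : ℝ × UI => φ (Fc p.1 p.2) * (2 * (p.2 : ℝ) - 1)) :=
    (hφ.comp (Measurable.Fc measurable_fst measurable_snd)).mul (measurable_two.comp measurable_snd)
  exact (h.stronglyMeasurable.integral_prod_right' (ν := (volume : Measure UI))).measurable

lemma abs_int_le {f : UI → ℝ} {C : ℝ} (hC : ∀ x, |f x| ≤ C) : |∫ y : UI, f y| ≤ C := by
  have h := norm_integral_le_of_norm_le_const (μ := (volume : Measure UI)) (f := f) (C := C)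
    (Eventually.of_forall hC)
  simpa using h

lemma abs_IA_le {φ : UI → ℝ} {C : ℝ} (hC : ∀ x, |φ x| ≤ C) (a : ℝ) : |IA φ a| ≤ C :=
  abs_int_le (fun _ => hC _)

lemma abs_IB_le {φ : UI → ℝ} {C : ℝ} (hC : ∀ x, |φ x| ≤ C) (a : ℝ) : |IB φ a| ≤ C := by
  refine abs_int_le (fun y => ?_)
  rw [abs_mul]
  have h1 := hC (Fc a y)
  have h2 := abs_two_mul_sub_one_le y
  nlinarith [abs_nonneg (φ (Fc a y)), abs_nonneg (2 * (y : ℝ) - 1)]

lemma int_density {φ : UI → ℝ} (hφ : Measurable φ) {C : ℝ} (hC : ∀ x, |φ x| ≤ C)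
    (a c : ℝ) (hc : |c| ≤ 1) :
    ∫ y, φ (Fc a y) ∂((volume : Measure UI).withDensity
      (fun y => ENNReal.ofReal (1 + c * (2 * (y : ℝ) - 1)))) = IA φ a + c * IB φ a := by
  have hpos : ∀ y : UI, 0 ≤ 1 + c * (2 * (y : ℝ) - 1) := by
    intro y
    have h1 := abs_two_mul_sub_one_le y
    have h2 : |c * (2 * (y : ℝ) - 1)| ≤ 1 := by
      rw [abs_mul]
      exact mul_le_one₀ hc (abs_nonneg _) h1
    linarith [(abs_le.1 h2).1]
  rw [integral_withDensity_eq_integral_toReal_smul₀]
  · unfold IA IB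
    rw [← integral_const_mul, ← integral_add]
    · refine integral_congr_ae (Eventually.of_forall (fun y => ?_))
      show (ENNReal.ofReal (1 + c * (2 * (y : ℝ) - 1))).toReal • φ (Fc a y) = _
      rw [ENNReal.toReal_ofReal (hpos y), smul_eq_mul]
      ring
    · exact integrable_of_bdd (measurable_phiFc hφ a) (fun x => hC _)
    · refine Integrable.const_mul ?_ c
      refine integrable_of_bdd (C := C) ((measurable_phiFc hφ a).mul measurable_two) (fun y => ?_)
      rw [abs_mul]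
      have h1 := hC (Fc a y)
      have h2 := abs_two_mul_sub_one_le y
      nlinarith [abs_nonneg (φ (Fc a y)), abs_nonneg (2 * (y : ℝ) - 1)]
  · exact (ENNReal.measurable_ofReal.comp
      ((measurable_two.const_mul c).const_add 1)).aemeasurable
  · exact Eventually.of_forall (fun y => ENNReal.ofReal_lt_top)

lemma int_obs (hR : Spec.Real1) {φ : UI → ℝ} (hφ : Measurable φ) {C : ℝ} (hC : ∀ x, |φ x| ≤ C)
    (a : ℝ) {e : ℝ} (he0 : 0 ≤ e) (he : e ≤ 1 / 2) (s : Bool) :
    ∫ w : UI, φ (Fc a (obs e s w)) = IA φ a + (e * sg s) * IB φ a := by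
  have h5 := hR.2.2.2.2.1 e he0 he s
  have hobs : Measurable (obs e s) := Measurable.obs measurable_const measurable_const measurable_id
  have h6 : ∫ w : UI, φ (Fc a (obs e s w)) = ∫ y, φ (Fc a y) ∂((volume : Measure UI).map (obs e s)) :=
    (integral_map hobs.aemeasurable (measurable_phiFc hφ a).aestronglyMeasurable).symm
  rw [h6, h5, int_density hφ hC]
  rw [abs_mul, abs_sg, mul_one, abs_of_nonneg he0]
  linarith

lemma int_mean (hR : Spec.Real1) {φ : UI → ℝ} (hφ : Measurable φ) {C : ℝ} (hC : ∀ x, |φ x| ≤ C)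
    {a : ℝ} (ha : |a| ≤ 1 / 2) : IA φ a + a * IB φ a = ∫ w : UI, φ w := by
  have h4 := hR.2.2.2.1 a ha
  rw [← int_density hφ hC a a (by linarith)]
  conv_rhs => rw [← h4]
  rw [integral_map]
  · exact (Measurable.Fc measurable_const measurable_id).aemeasurable
  · exact hφ.aestronglyMeasurable

/-- The innovation at `α` is uniform and independent of the past of `α`. -/
lemma one_step (hP : Spec.Post) (hR : Spec.Real1) {θ : ℝ} (hb : 1 ≤ b) (h0 : 0 ≤ θ) (h1 : θ < 1)
    (α : ℕ × V b) {G : (ℕ × V b → UI) → (ℕ × V b → UI) → ℝ}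
    (hG : Measurable (fun p : (ℕ × V b → UI) × (ℕ × V b → UI) => G p.1 p.2))
    (hGb : ∃ C, ∀ U Y, |G U Y| ≤ C) (hGp : PastY (fun U => tm U α) G)
    {φ : UI → ℝ} (hφ : Measurable φ) (hφb : ∃ C, ∀ x, |φ x| ≤ C) :
    ∫ p, G p.1 p.2 * φ (TT θ p.1 p.2 α) ∂(PP b θ) =
      (∫ p, G p.1 p.2 ∂(PP b θ)) * ∫ w, φ w := by
  have := isProb_JJ (b := b) h0 h1
  obtain ⟨C, hC⟩ := hGb
  obtain ⟨D, hD⟩ := hφb
  have hC0 : 0 ≤ C := (abs_nonneg _).trans (hC (fun _ => 0) (fun _ => 0))
  have hD0 : 0 ≤ D := (abs_nonneg _).trans (hD 0)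
  have hGp' : ∀ U Y y, G U (Function.update Y α y) = G U Y := fun U Y y => pastY_update hGp U Y y
  have hstr : Measurable (fun p : (ℕ × V b → UI) × (ℕ × V b → UI) => str (p.1 α)) :=
    Measurable.str (Measurable.coeUI ((measurable_pi_apply α).comp measurable_fst))
  have ha : Measurable (fun p : (ℕ × V b → UI) × (ℕ × V b → UI) =>
      str (p.1 α) * pm θ p.1 p.2 α) :=
    hstr.mul (Measurable.pm θ measurable_fst measurable_snd α)
  have hfull : Measurable (fun p : (ℕ × V b → UI) × (ℕ × V b → UI) =>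
      G p.1 p.2 * φ (TT θ p.1 p.2 α)) :=
    hG.mul (hφ.comp (Measurable.TTv θ measurable_fst measurable_snd α))
  have hGA : Measurable (fun p : (ℕ × V b → UI) × (ℕ × V b → UI) =>
      G p.1 p.2 * IA φ (str (p.1 α) * pm θ p.1 p.2 α)) := hG.mul ((measurable_IA hφ).comp ha)
  have hGB : Measurable (fun p : (ℕ × V b → UI) × (ℕ × V b → UI) =>
      G p.1 p.2 * (str (p.1 α) * IB φ (str (p.1 α) * pm θ p.1 p.2 α))) :=
    hG.mul (hstr.mul ((measurable_IB hφ).comp ha))
  have bGA : ∀ U Y, |G U Y * IA φ (str (U α) * pm θ U Y α)| ≤ C * D := by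
    intro U Y
    rw [abs_mul]
    exact mul_le_mul (hC _ _) (abs_IA_le hD _) (abs_nonneg _) hC0
  have bGB : ∀ U Y, |G U Y * (str (U α) * IB φ (str (U α) * pm θ U Y α))| ≤ C * D := by
    intro U Y
    rw [abs_mul]
    refine mul_le_mul (hC _ _) ?_ (abs_nonneg _) hC0
    rw [abs_mul, abs_of_nonneg (str_nonneg _)]
    have h2 := str_le_half (U α)
    have h3 := abs_IB_le hD (str (U α) * pm θ U Y α)
    nlinarith [str_nonneg (U α), abs_nonneg (IB φ (str (U α) * pm θ U Y α))]
  have step1 : ∫ p, G p.1 p.2 * φ (TT θ p.1 p.2 α) ∂(PP b θ) =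
      ∫ p, (G p.1 (Yf p.1 p.2.1 p.2.2) *
        IA φ (str (p.1 α) * pm θ p.1 (Yf p.1 p.2.1 p.2.2) α) +
        (G p.1 (Yf p.1 p.2.1 p.2.2) * (str (p.1 α) *
          IB φ (str (p.1 α) * pm θ p.1 (Yf p.1 p.2.1 p.2.2) α))) * sg (p.2.1 α.2)) ∂(JJ b θ) := by
    have hfJ : Measurable (fun p : (ℕ × V b → UI) × ((V b → Bool) × (ℕ × V b → UI)) =>
        G p.1 (Yf p.1 p.2.1 p.2.2) * φ (TT θ p.1 (Yf p.1 p.2.1 p.2.2) α)) :=
      hfull.comp measurable_obsMap
    rw [integral_PP hfull]
    show ∫ p, G p.1 (Yf p.1 p.2.1 p.2.2) * φ (TT θ p.1 (Yf p.1 p.2.1 p.2.2) α) ∂(JJ b θ) = _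
    rw [integral_resampleJ h0 h1 α (C := C * D) hfJ]
    · refine integral_congr_ae (Eventually.of_forall (fun p => ?_))
      show ∫ w : UI, G p.1 (Yf p.1 p.2.1 (Function.update p.2.2 α w)) *
        φ (TT θ p.1 (Yf p.1 p.2.1 (Function.update p.2.2 α w)) α) = _
      simp only [Yf_update, hGp', TT_update]
      rw [integral_const_mul, int_obs hR hφ hD _ (str_nonneg _) (str_le_half _)]
      ring
    · intro p
      show |G p.1 (Yf p.1 p.2.1 p.2.2) * φ (TT θ p.1 (Yf p.1 p.2.1 p.2.2) α)| ≤ C * D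
      rw [abs_mul]
      exact mul_le_mul (hC _ _) (hD _) (abs_nonneg _) hC0
  have hpastB : PastY (fun U => tm U α) (fun U Y => G U Y * (str (U α) *
      IB φ (str (U α) * pm θ U Y α))) := by
    intro U Y Y' h
    have e1 : G U Y = G U Y' := hGp U Y Y' h
    have e2 : pm θ U Y α = pm θ U Y' α := pastY_pm θ α U Y Y' h
    show G U Y * (str (U α) * IB φ (str (U α) * pm θ U Y α)) =
      G U Y' * (str (U α) * IB φ (str (U α) * pm θ U Y' α))
    rw [e1, e2]
  have hpost := (hP b θ hb h0 h1 (fun U => tm U α) (Measurable.tm measurable_id α)).2.1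
    (fun U Y => G U Y * (str (U α) * IB φ (str (U α) * pm θ U Y α))) hGB ⟨C * D, bGB⟩ hpastB α.2
  have i1 : Integrable (fun p : (ℕ × V b → UI) × ((V b → Bool) × (ℕ × V b → UI)) =>
      G p.1 (Yf p.1 p.2.1 p.2.2) *
        IA φ (str (p.1 α) * pm θ p.1 (Yf p.1 p.2.1 p.2.2) α)) (JJ b θ) :=
    integrable_of_bdd (hGA.comp measurable_obsMap) (fun p => bGA _ _)
  have i2 : Integrable (fun p : (ℕ × V b → UI) × ((V b → Bool) × (ℕ × V b → UI)) =>
      (G p.1 (Yf p.1 p.2.1 p.2.2) * (str (p.1 α) *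
          IB φ (str (p.1 α) * pm θ p.1 (Yf p.1 p.2.1 p.2.2) α))) * sg (p.2.1 α.2)) (JJ b θ) := by
    refine integrable_of_bdd (C := C * D) ((hGB.comp measurable_obsMap).mul
      (measurable_sg.comp ((measurable_pi_apply α.2).comp
        (measurable_fst.comp measurable_snd)))) (fun p => ?_)
    rw [abs_mul, abs_sg, mul_one]
    exact bGB _ _
  have i3 : Integrable (fun p : (ℕ × V b → UI) × ((V b → Bool) × (ℕ × V b → UI)) =>
      (G p.1 (Yf p.1 p.2.1 p.2.2) * (str (p.1 α) *
          IB φ (str (p.1 α) * pm θ p.1 (Yf p.1 p.2.1 p.2.2) α))) *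
        M θ (fld p.1 (Yf p.1 p.2.1 p.2.2) (tm p.1 α)) α.2) (JJ b θ) := by
    have hYm : Measurable (fun p : (ℕ × V b → UI) × ((V b → Bool) × (ℕ × V b → UI)) =>
        Yf p.1 p.2.1 p.2.2) := Measurable.Yf measurable_fst (measurable_fst.comp measurable_snd)
      (measurable_snd.comp measurable_snd)
    have hMm : Measurable (fun p : (ℕ × V b → UI) × ((V b → Bool) × (ℕ × V b → UI)) =>
        M θ (fld p.1 (Yf p.1 p.2.1 p.2.2) (tm p.1 α)) α.2) :=
      Measurable.Mf θ (Measurable.fld measurable_fst hYm (Measurable.tm measurable_fst α)) α.2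
    have hBm : Measurable (fun p : (ℕ × V b → UI) × ((V b → Bool) × (ℕ × V b → UI)) =>
        G p.1 (Yf p.1 p.2.1 p.2.2) * (str (p.1 α) *
          IB φ (str (p.1 α) * pm θ p.1 (Yf p.1 p.2.1 p.2.2) α))) := hGB.comp measurable_obsMap
    refine integrable_of_bdd (C := C * D) (hBm.mul hMm) (fun p => ?_)
    rw [abs_mul, ← mul_one (C * D)]
    exact mul_le_mul (bGB p.1 (Yf p.1 p.2.1 p.2.2)) (abs_M_lt_one θ _ _).le (abs_nonneg _)
      (mul_nonneg hC0 hD0)
  rw [step1, integral_add i1 i2]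
  refine (congrArg (fun x => _ + x) hpost).trans ?_
  refine (integral_add i1 i3).symm.trans ?_
  rw [integral_PP hG, ← integral_mul_const]
  refine integral_congr_ae (Eventually.of_forall (fun p => ?_))
  have h4 := int_mean hR hφ hD (abs_str_pm_le θ p.1 (Yf p.1 p.2.1 p.2.2) α)
  show G p.1 (Yf p.1 p.2.1 p.2.2) * IA φ (str (p.1 α) * pm θ p.1 (Yf p.1 p.2.1 p.2.2) α) +
    (G p.1 (Yf p.1 p.2.1 p.2.2) * (str (p.1 α) *
      IB φ (str (p.1 α) * pm θ p.1 (Yf p.1 p.2.1 p.2.2) α))) * pm θ p.1 (Yf p.1 p.2.1 p.2.2) α =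
    G p.1 (Yf p.1 p.2.1 p.2.2) * ∫ w : UI, φ w
  rw [← h4]
  ring

/-! ### No ties -/

lemma no_tie {α β : ℕ × V b} (h : α ≠ β) : ∀ᵐ U ∂(noise (ℕ × V b)), tm U α ≠ tm U β := by
  have hs : MeasurableSet {U : ℕ × V b → UI | tm U α = tm U β} :=
    measurableSet_eq_fun (Measurable.tm measurable_id α) (Measurable.tm measurable_id β)
  rw [ae_iff]
  have e : {U : ℕ × V b → UI | ¬ tm U α ≠ tm U β} = {U : ℕ × V b → UI | tm U α = tm U β} := by
    ext U; simp
  rw [e, ← resample α, Measure.map_apply (measurable_upd α) hs,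
    Measure.measure_prod_null ((measurable_upd α) hs)]
  refine Eventually.of_forall (fun U => ?_)
  have hsub : (Prod.mk U ⁻¹' ((fun q : (ℕ × V b → UI) × UI => Function.update q.1 α q.2) ⁻¹'
      {U : ℕ × V b → UI | tm U α = tm U β})).Subsingleton := by
    intro w hw w' hw'
    have h1 : tm (Function.update U α w) α = tm (Function.update U α w) β := hw
    have h2 : tm (Function.update U α w') α = tm (Function.update U α w') β := hw'
    unfold tm at h1 h2
    rw [Function.update_self, Function.update_of_ne h.symm] at h1 h2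
    apply Subtype.ext
    linarith
  exact hsub.measure_zero _

lemma no_ties : ∀ᵐ U ∂(noise (ℕ × V b)), ∀ α β : ℕ × V b, α ≠ β → tm U α ≠ tm U β := by
  rw [ae_all_iff]
  intro α
  rw [ae_all_iff]
  intro β
  by_cases h : α = β
  · exact Eventually.of_forall (fun U h' => absurd h h')
  · filter_upwards [no_tie h] with U hU _
    exact hU

lemma no_ties_PP {θ : ℝ} (h0 : 0 ≤ θ) (h1 : θ < 1) :
    ∀ᵐ p ∂(PP b θ), ∀ α β : ℕ × V b, α ≠ β → tm p.1 α ≠ tm p.1 β := by
  have h := no_ties (b := b)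
  rw [← PP_map_fst h0 h1] at h
  exact ae_of_ae_map measurable_fst.aemeasurable h

/-! ### The product formula -/

/-- the factor of `β` -/
noncomputable def fac (θ : ℝ) (τ : (ℕ × V b → UI) → ℝ) (φ : ℕ × V b → UI → ℝ)
    (U Y : ℕ × V b → UI) (β : ℕ × V b) : ℝ :=
  if tm U β < τ U then 1 else φ β (TT θ U Y β)

/-- the mean of the factor of `β` -/
noncomputable def cfac (τ : (ℕ × V b → UI) → ℝ) (φ : ℕ × V b → UI → ℝ)
    (U : ℕ × V b → UI) (β : ℕ × V b) : ℝ :=
  if tm U β < τ U then 1 else ∫ x, φ β x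

lemma measurable_fac (θ : ℝ) {τ : (ℕ × V b → UI) → ℝ} (hτ : Measurable τ)
    {φ : ℕ × V b → UI → ℝ} (hφ : ∀ β, Measurable (φ β)) (β : ℕ × V b) :
    Measurable (fun p : (ℕ × V b → UI) × (ℕ × V b → UI) => fac θ τ φ p.1 p.2 β) := by
  unfold fac
  exact Measurable.ite (measurableSet_lt (Measurable.tm measurable_fst β) (hτ.comp measurable_fst))
    measurable_const ((hφ β).comp (Measurable.TTv θ measurable_fst measurable_snd β))

lemma measurable_cfac {τ : (ℕ × V b → UI) → ℝ} (hτ : Measurable τ)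
    (φ : ℕ × V b → UI → ℝ) (β : ℕ × V b) :
    Measurable (fun p : (ℕ × V b → UI) × (ℕ × V b → UI) => cfac τ φ p.1 β) := by
  unfold cfac
  exact Measurable.ite (measurableSet_lt (Measurable.tm measurable_fst β) (hτ.comp measurable_fst))
    measurable_const measurable_const

/-- a common bound -/
lemma exists_bound {φ : ℕ × V b → UI → ℝ} (hφ : ∀ β, ∃ C, ∀ x, |φ β x| ≤ C) :
    ∃ D : ℕ × V b → ℝ, (∀ β, 1 ≤ D β) ∧ ∀ β x, |φ β x| ≤ D β := by
  choose D hD using hφ
  exact ⟨fun β => max 1 (D β), fun β => le_max_left _ _, fun β x => (hD β x).trans (le_max_right _ _)⟩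

lemma abs_fac_le {φ : ℕ × V b → UI → ℝ} {D : ℕ × V b → ℝ} (h1 : ∀ β, 1 ≤ D β)
    (h2 : ∀ β x, |φ β x| ≤ D β) (θ : ℝ) (τ : (ℕ × V b → UI) → ℝ) (U Y : ℕ × V b → UI)
    (β : ℕ × V b) : |fac θ τ φ U Y β| ≤ D β := by
  unfold fac
  split_ifs
  · rw [abs_one]; exact h1 β
  · exact h2 _ _

lemma abs_cfac_le {φ : ℕ × V b → UI → ℝ} {D : ℕ × V b → ℝ} (h1 : ∀ β, 1 ≤ D β)
    (h2 : ∀ β x, |φ β x| ≤ D β) (τ : (ℕ × V b → UI) → ℝ) (U : ℕ × V b → UI)
    (β : ℕ × V b) : |cfac τ φ U β| ≤ D β := by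
  unfold cfac
  split_ifs
  · rw [abs_one]; exact h1 β
  · exact abs_int_le (h2 β)

/-- `α` is the last element of `S`, and is not in the past -/
def lastEv (τ : (ℕ × V b → UI) → ℝ) (S : Finset (ℕ × V b)) (α : ℕ × V b) : Set (ℕ × V b → UI) :=
  {U | ¬ tm U α < τ U ∧ ∀ β ∈ S.erase α, tm U β < tm U α}

/-- all the elements of `S` are in the past -/
def noneEv (τ : (ℕ × V b → UI) → ℝ) (S : Finset (ℕ × V b)) : Set (ℕ × V b → UI) :=
  {U | ∀ β ∈ S, tm U β < τ U}

lemma measurableSet_lastEv {τ : (ℕ × V b → UI) → ℝ} (hτ : Measurable τ) (S : Finset (ℕ × V b))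
    (α : ℕ × V b) : MeasurableSet (lastEv τ S α) := by
  have : lastEv τ S α = {U : ℕ × V b → UI | tm U α < τ U}ᶜ ∩
      ⋂ β ∈ S.erase α, {U | tm U β < tm U α} := by
    ext U
    simp [lastEv]
  rw [this]
  refine MeasurableSet.inter (measurableSet_lt (Measurable.tm measurable_id α) hτ).compl ?_
  exact Finset.measurableSet_biInter _ (fun β _ =>
    measurableSet_lt (Measurable.tm measurable_id β) (Measurable.tm measurable_id α))

lemma measurableSet_noneEv {τ : (ℕ × V b → UI) → ℝ} (hτ : Measurable τ) (S : Finset (ℕ × V b)) :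
    MeasurableSet (noneEv τ S) := by
  unfold noneEv
  have : {U : ℕ × V b → UI | ∀ β ∈ S, tm U β < τ U} =
      ⋂ β ∈ S, {U | tm U β < τ U} := by ext U; simp
  rw [this]
  exact Finset.measurableSet_biInter _ (fun β _ =>
    measurableSet_lt (Measurable.tm measurable_id β) hτ)

lemma decomp (τ : (ℕ × V b → UI) → ℝ) (S : Finset (ℕ × V b)) (U : ℕ × V b → UI)
    (hU : ∀ α β : ℕ × V b, α ≠ β → tm U α ≠ tm U β) :
    (noneEv τ S).indicator (fun _ => (1 : ℝ)) U +
      ∑ α ∈ S, (lastEv τ S α).indicator (fun _ => (1 : ℝ)) U = 1 := by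
  classical
  by_cases hn : U ∈ noneEv τ S
  · rw [Set.indicator_of_mem hn, Finset.sum_eq_zero, add_zero]
    intro α hα
    apply Set.indicator_of_notMem
    intro h
    exact h.1 (hn α hα)
  · rw [Set.indicator_of_notMem hn, zero_add]
    have hn' : ∃ β ∈ S, ¬ tm U β < τ U := by
      by_contra hcon
      push Not at hcon
      exact hn (fun β hβ => hcon β hβ)
    obtain ⟨β, hβ, hβτ⟩ := hn'
    obtain ⟨α, hα, hmax⟩ := S.exists_max_image (fun γ => tm U γ) ⟨β, hβ⟩
    have hαl : U ∈ lastEv τ S α := by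
      refine ⟨fun h => hβτ ((hmax β hβ).trans_lt h), fun γ hγ => ?_⟩
      rw [Finset.mem_erase] at hγ
      exact lt_of_le_of_ne (hmax γ hγ.2) (hU γ α hγ.1)
    rw [Finset.sum_eq_single_of_mem α hα, Set.indicator_of_mem hαl]
    intro γ hγ hne
    apply Set.indicator_of_notMem
    intro h
    have h1 := h.2 α (Finset.mem_erase.2 ⟨hne.symm, hα⟩)
    have h2 := hαl.2 γ (Finset.mem_erase.2 ⟨hne, hγ⟩)
    exact lt_asymm h1 h2

lemma pastY_fac (θ : ℝ) (τ : (ℕ × V b → UI) → ℝ) (φ : ℕ × V b → UI → ℝ) {U Y Y' : ℕ × V b → UI}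
    {t : ℝ} (h : ∀ β, tm U β < t → Y β = Y' β) {β : ℕ × V b} (hβ : tm U β < t) :
    fac θ τ φ U Y β = fac θ τ φ U Y' β := by
  unfold fac
  have e1 : TT θ U Y β = TT θ U Y' β := by
    unfold TT
    have e2 : pm θ U Y β = pm θ U Y' β := pastY_pm θ β U Y Y' (fun γ hγ => h γ (hγ.trans hβ))
    rw [h β hβ, e2]
  rw [e1]

lemma prod_formula (hP : Spec.Post) (hR : Spec.Real1) {θ : ℝ} (hb : 1 ≤ b) (h0 : 0 ≤ θ)
    (h1 : θ < 1) {τ : (ℕ × V b → UI) → ℝ} (hτ : Measurable τ)
    {φ : ℕ × V b → UI → ℝ} (hφ : ∀ β, Measurable (φ β)) {D : ℕ × V b → ℝ} (hD1 : ∀ β, 1 ≤ D β)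
    (hD2 : ∀ β x, |φ β x| ≤ D β) :
    ∀ (n : ℕ) (S : Finset (ℕ × V b)), S.card = n →
      ∀ F : (ℕ × V b → UI) → (ℕ × V b → UI) → ℝ, Measurable (fun p : (ℕ × V b → UI) ×
        (ℕ × V b → UI) => F p.1 p.2) → (∃ C, ∀ U Y, |F U Y| ≤ C) → PastY τ F →
      ∫ p, F p.1 p.2 * ∏ β ∈ S, fac θ τ φ p.1 p.2 β ∂(PP b θ) =
      ∫ p, F p.1 p.2 * ∏ β ∈ S, cfac τ φ p.1 β ∂(PP b θ) := by
  classical
  have := isProb_PP (b := b) h0 h1
  intro n
  induction n with
  | zero =>
    intro S hS F _ _ _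
    rw [Finset.card_eq_zero] at hS
    subst hS
    simp
  | succ n ih =>
    intro S hS F hF hFb hFp
    obtain ⟨C, hC⟩ := hFb
    have hC0 : 0 ≤ C := (abs_nonneg _).trans (hC (fun _ => 0) (fun _ => 0))
    -- bounds
    have hfacb : ∀ (S' : Finset (ℕ × V b)) U Y, |∏ β ∈ S', fac θ τ φ U Y β| ≤ ∏ β ∈ S', D β := by
      intro S' U Y
      rw [Finset.abs_prod]
      exact Finset.prod_le_prod (fun β _ => abs_nonneg _) (fun β _ => abs_fac_le hD1 hD2 θ τ U Y β)
    have hcfacb : ∀ (S' : Finset (ℕ × V b)) U, |∏ β ∈ S', cfac τ φ U β| ≤ ∏ β ∈ S', D β := by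
      intro S' U
      rw [Finset.abs_prod]
      exact Finset.prod_le_prod (fun β _ => abs_nonneg _) (fun β _ => abs_cfac_le hD1 hD2 τ U β)
    have hfacm : ∀ (S' : Finset (ℕ × V b)), Measurable (fun p : (ℕ × V b → UI) × (ℕ × V b → UI) =>
        ∏ β ∈ S', fac θ τ φ p.1 p.2 β) := fun S' =>
      Finset.measurable_prod _ (fun β _ => measurable_fac θ hτ hφ β)
    have hcfacm : ∀ (S' : Finset (ℕ × V b)), Measurable (fun p : (ℕ × V b → UI) × (ℕ × V b → UI) =>
        ∏ β ∈ S', cfac τ φ p.1 β) := fun S' =>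
      Finset.measurable_prod _ (fun β _ => measurable_cfac hτ φ β)
    have hindm : ∀ {A : Set (ℕ × V b → UI)}, MeasurableSet A → Measurable
        (fun p : (ℕ × V b → UI) × (ℕ × V b → UI) => A.indicator (fun _ => (1 : ℝ)) p.1) :=
      fun hA => (measurable_const.indicator hA).comp measurable_fst
    have hindb : ∀ (A : Set (ℕ × V b → UI)) U, |A.indicator (fun _ => (1 : ℝ)) U| ≤ 1 := by
      intro A U
      rw [Set.indicator_apply]
      split_ifs <;> simp
    -- decomposition of an integral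
    have hdec : ∀ (g : (ℕ × V b → UI) × (ℕ × V b → UI) → ℝ), Measurable g → ∀ K : ℝ,
        (∀ p, |g p| ≤ K) → ∫ p, g p ∂(PP b θ) =
          ∫ p, (noneEv τ S).indicator (fun _ => (1 : ℝ)) p.1 * g p ∂(PP b θ) +
          ∑ α ∈ S, ∫ p, (lastEv τ S α).indicator (fun _ => (1 : ℝ)) p.1 * g p ∂(PP b θ) := by
      intro g hg K hK
      have hi : ∀ {A : Set (ℕ × V b → UI)}, MeasurableSet A → Integrable
          (fun p => A.indicator (fun _ => (1 : ℝ)) p.1 * g p) (PP b θ) := by
        intro A hA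
        refine integrable_of_bdd (C := K) ((hindm hA).mul hg) (fun p => ?_)
        rw [abs_mul]
        have h2 := hindb A p.1
        have h3 := hK p
        nlinarith [abs_nonneg (A.indicator (fun _ => (1 : ℝ)) p.1), abs_nonneg (g p)]
      rw [← integral_finsetSum _ (fun α _ => hi (measurableSet_lastEv hτ S α)),
        ← integral_add (hi (measurableSet_noneEv hτ S))
          (integrable_finsetSum _ (fun α _ => hi (measurableSet_lastEv hτ S α)))]
      refine integral_congr_ae ?_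
      filter_upwards [no_ties_PP (b := b) h0 h1] with p hp
      have h2 := decomp τ S p.1 hp
      rw [← Finset.sum_mul, ← add_mul, h2, one_mul]
    rw [hdec (fun p => F p.1 p.2 * ∏ β ∈ S, fac θ τ φ p.1 p.2 β) (hF.mul (hfacm S))
        (C * ∏ β ∈ S, D β) (fun p => by
          rw [abs_mul]; exact mul_le_mul (hC _ _) (hfacb S _ _) (abs_nonneg _) hC0),
      hdec (fun p => F p.1 p.2 * ∏ β ∈ S, cfac τ φ p.1 β) (hF.mul (hcfacm S))
        (C * ∏ β ∈ S, D β) (fun p => by
          rw [abs_mul]; exact mul_le_mul (hC _ _) (hcfacb S _) (abs_nonneg _) hC0)]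
    congr 1
    · refine integral_congr_ae (Eventually.of_forall (fun p => ?_))
      show (noneEv τ S).indicator (fun _ => (1 : ℝ)) p.1 *
        (F p.1 p.2 * ∏ β ∈ S, fac θ τ φ p.1 p.2 β) =
        (noneEv τ S).indicator (fun _ => (1 : ℝ)) p.1 *
        (F p.1 p.2 * ∏ β ∈ S, cfac τ φ p.1 β)
      by_cases hp : p.1 ∈ noneEv τ S
      · have e1 : ∏ β ∈ S, fac θ τ φ p.1 p.2 β = 1 :=
          Finset.prod_eq_one (fun β hβ => if_pos (hp β hβ))
        have e2 : ∏ β ∈ S, cfac τ φ p.1 β = 1 :=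
          Finset.prod_eq_one (fun β hβ => if_pos (hp β hβ))
        rw [e1, e2]
      · rw [Set.indicator_of_notMem hp, zero_mul, zero_mul]
    · refine Finset.sum_congr rfl (fun α hα => ?_)
      have hcard : (S.erase α).card = n := by
        rw [Finset.card_erase_of_mem hα, hS]; rfl
      have hA := measurableSet_lastEv hτ S α
      have e1 : ∫ p, (lastEv τ S α).indicator (fun _ => (1 : ℝ)) p.1 *
          (F p.1 p.2 * ∏ β ∈ S, fac θ τ φ p.1 p.2 β) ∂(PP b θ) =
          ∫ p, ((lastEv τ S α).indicator (fun _ => (1 : ℝ)) p.1 * F p.1 p.2 *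
            ∏ β ∈ S.erase α, fac θ τ φ p.1 p.2 β) * φ α (TT θ p.1 p.2 α) ∂(PP b θ) := by
        refine integral_congr_ae (Eventually.of_forall (fun p => ?_))
        show (lastEv τ S α).indicator (fun _ => (1 : ℝ)) p.1 *
          (F p.1 p.2 * ∏ β ∈ S, fac θ τ φ p.1 p.2 β) =
          ((lastEv τ S α).indicator (fun _ => (1 : ℝ)) p.1 * F p.1 p.2 *
            ∏ β ∈ S.erase α, fac θ τ φ p.1 p.2 β) * φ α (TT θ p.1 p.2 α)
        by_cases hp : p.1 ∈ lastEv τ S α
        · have e2 : fac θ τ φ p.1 p.2 α = φ α (TT θ p.1 p.2 α) := if_neg hp.1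
          rw [← Finset.prod_erase_mul _ _ hα, e2]
          ring
        · rw [Set.indicator_of_notMem hp]
          ring
      have e3 : ∫ p, (lastEv τ S α).indicator (fun _ => (1 : ℝ)) p.1 *
          (F p.1 p.2 * ∏ β ∈ S, cfac τ φ p.1 β) ∂(PP b θ) =
          (∫ p, ((lastEv τ S α).indicator (fun _ => (1 : ℝ)) p.1 * F p.1 p.2) *
            ∏ β ∈ S.erase α, cfac τ φ p.1 β ∂(PP b θ)) * ∫ x, φ α x := by
        rw [← integral_mul_const]
        refine integral_congr_ae (Eventually.of_forall (fun p => ?_))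
        show (lastEv τ S α).indicator (fun _ => (1 : ℝ)) p.1 *
          (F p.1 p.2 * ∏ β ∈ S, cfac τ φ p.1 β) =
          ((lastEv τ S α).indicator (fun _ => (1 : ℝ)) p.1 * F p.1 p.2 *
            ∏ β ∈ S.erase α, cfac τ φ p.1 β) * ∫ x, φ α x
        by_cases hp : p.1 ∈ lastEv τ S α
        · have e2 : cfac τ φ p.1 α = ∫ x, φ α x := if_neg hp.1
          rw [← Finset.prod_erase_mul _ _ hα, e2]
          ring
        · rw [Set.indicator_of_notMem hp]
          ring
      have hF'm : Measurable (fun p : (ℕ × V b → UI) × (ℕ × V b → UI) =>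
          (lastEv τ S α).indicator (fun _ => (1 : ℝ)) p.1 * F p.1 p.2) := (hindm hA).mul hF
      have hF'b : ∀ U Y, |(lastEv τ S α).indicator (fun _ => (1 : ℝ)) U * F U Y| ≤ C := by
        intro U Y
        rw [abs_mul]
        have h2 := hindb (lastEv τ S α) U
        have h3 := hC U Y
        nlinarith [abs_nonneg ((lastEv τ S α).indicator (fun _ => (1 : ℝ)) U), abs_nonneg (F U Y)]
      have hF'p : PastY τ (fun U Y => (lastEv τ S α).indicator (fun _ => (1 : ℝ)) U * F U Y) := by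
        intro U Y Y' h
        show (lastEv τ S α).indicator (fun _ => (1 : ℝ)) U * F U Y =
          (lastEv τ S α).indicator (fun _ => (1 : ℝ)) U * F U Y'
        rw [hFp U Y Y' h]
      have hIH := ih (S.erase α) hcard
        (fun U Y => (lastEv τ S α).indicator (fun _ => (1 : ℝ)) U * F U Y) hF'm ⟨C, hF'b⟩ hF'p
      have hstep := one_step hP hR hb h0 h1 α
        (G := fun U Y => (lastEv τ S α).indicator (fun _ => (1 : ℝ)) U * F U Y *
            ∏ β ∈ S.erase α, fac θ τ φ U Y β) (hF'm.mul (hfacm (S.erase α)))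
        ⟨C * ∏ β ∈ S.erase α, D β, fun U Y => by
          rw [abs_mul]
          exact mul_le_mul (hF'b U Y) (hfacb (S.erase α) _ _) (abs_nonneg _) hC0⟩
        (by
          intro U Y Y' h
          show (lastEv τ S α).indicator (fun _ => (1 : ℝ)) U * F U Y *
            ∏ β ∈ S.erase α, fac θ τ φ U Y β =
            (lastEv τ S α).indicator (fun _ => (1 : ℝ)) U * F U Y' *
            ∏ β ∈ S.erase α, fac θ τ φ U Y' β
          by_cases hp : U ∈ lastEv τ S α
          · rw [hFp U Y Y' (fun β hβ => h β (hβ.trans_le (not_lt.1 hp.1))),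
              Finset.prod_congr rfl (fun β hβ => pastY_fac θ τ φ h (hp.2 β hβ))]
          · rw [Set.indicator_of_notMem hp]
            ring)
        (hφ α) ⟨D α, hD2 α⟩
      rw [e1, e3]
      exact hstep.trans (congrArg (fun x => x * ∫ w, φ α w) hIH)

theorem main (hP : Spec.Post) (hR : Spec.Real1) : Spec.Innov := by
  classical
  intro b θ hb h0 h1
  have hprob := isProb_PP (b := b) h0 h1
  have part2 : ∀ τ : (ℕ × V b → UI) → ℝ, Measurable τ →
    ∀ F : (ℕ × V b → UI) → (ℕ × V b → UI) → ℝ, Measurable (fun p : (ℕ × V b → UI) ×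
        (ℕ × V b → UI) => F p.1 p.2) → (∃ C, ∀ U Y, |F U Y| ≤ C) → PastY τ F →
    ∀ (S : Finset (ℕ × V b)) (φ : ℕ × V b → UI → ℝ), (∀ β, Measurable (φ β)) →
      (∀ β, ∃ C, ∀ x, |φ β x| ≤ C) →
      ∫ p, F p.1 p.2 * ∏ β ∈ S, (if tm p.1 β < τ p.1 then 1 else φ β (TT θ p.1 p.2 β)) ∂(PP b θ) =
      ∫ p, F p.1 p.2 * ∏ β ∈ S, (if tm p.1 β < τ p.1 then 1 else ∫ x, φ β x) ∂(PP b θ) := by
    intro τ hτ F hF hFb hFp S φ hφ hφb
    obtain ⟨D, hD1, hD2⟩ := exists_bound hφb
    exact prod_formula hP hR hb h0 h1 hτ hφ hD1 hD2 S.card S rfl F hF hFb hFp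
  refine ⟨?_, part2⟩
  -- the law of labels and innovations
  have hTm : Measurable (fun p : (ℕ × V b → UI) × (ℕ × V b → UI) => (p.1, TT θ p.1 p.2)) :=
    measurable_fst.prodMk (Measurable.TT θ measurable_fst measurable_snd)
  set μ := (PP b θ).map (fun p => (p.1, TT θ p.1 p.2)) with hμ
  have hμp : IsProbabilityMeasure μ := Measure.isProbabilityMeasure_map hTm.aemeasurable
  have hfst : μ.map Prod.fst = noise (ℕ × V b) := by
    rw [← PP_map_fst h0 h1, hμ, Measure.map_map measurable_fst hTm]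
    rfl
  have key : ∀ (s : Set (ℕ × V b → UI)), MeasurableSet s → ∀ (S : Finset (ℕ × V b))
      (t : ℕ × V b → Set UI), (∀ β, MeasurableSet (t β)) →
      μ (s ×ˢ (Set.pi S t)) = noise (ℕ × V b) s * ∏ β ∈ S, (volume : Measure UI) (t β) := by
    intro s hs S t ht
    have hpi : MeasurableSet (Set.pi (S : Set (ℕ × V b)) t) :=
      MeasurableSet.pi S.countable_toSet (fun β _ => ht β)
    have h2 := part2 (fun _ => -1) measurable_const (fun U _ => s.indicator (fun _ => (1 : ℝ)) U)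
      ((measurable_const.indicator hs).comp measurable_fst)
      ⟨1, fun U Y => by
        rw [Set.indicator_apply]
        split_ifs <;> simp⟩ (fun U Y Y' _ => rfl) S
      (fun β => (t β).indicator (fun _ => (1 : ℝ))) (fun β => measurable_const.indicator (ht β))
      (fun β => ⟨1, fun x => by
        rw [Set.indicator_apply]
        split_ifs <;> simp⟩)
    have hneg : ∀ (U : ℕ × V b → UI) β, ¬ tm U β < -1 := by
      intro U β
      rw [not_lt]
      unfold tm
      have := (U β).2.1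
      have h3 : (0 : ℝ) ≤ (β.1 : ℝ) := Nat.cast_nonneg _
      linarith
    simp only [hneg, if_false] at h2
    have e1 : ∀ p : (ℕ × V b → UI) × (ℕ × V b → UI),
        s.indicator (fun _ => (1 : ℝ)) p.1 * ∏ β ∈ S,
          (t β).indicator (fun _ => (1 : ℝ)) (TT θ p.1 p.2 β) =
        ((fun p : (ℕ × V b → UI) × (ℕ × V b → UI) => (p.1, TT θ p.1 p.2)) ⁻¹'
          (s ×ˢ (Set.pi S t))).indicator (fun _ => (1 : ℝ)) p := by
      intro p
      by_cases hp : p ∈ ((fun p : (ℕ × V b → UI) × (ℕ × V b → UI) => (p.1, TT θ p.1 p.2)) ⁻¹'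
          (s ×ˢ (Set.pi S t)))
      · rw [Set.indicator_of_mem hp]
        have hp1 : p.1 ∈ s := hp.1
        rw [Set.indicator_of_mem hp1, one_mul]
        exact Finset.prod_eq_one (fun β hβ => Set.indicator_of_mem (hp.2 β hβ) _)
      · rw [Set.indicator_of_notMem hp]
        by_cases hp1 : p.1 ∈ s
        · have : ∃ β ∈ S, TT θ p.1 p.2 β ∉ t β := by
            by_contra hcon
            push Not at hcon
            exact hp ⟨hp1, fun β hβ => hcon β hβ⟩
          obtain ⟨β, hβ, hβt⟩ := this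
          rw [Finset.prod_eq_zero hβ (Set.indicator_of_notMem hβt _), mul_zero]
        · rw [Set.indicator_of_notMem hp1, zero_mul]
    simp only [e1] at h2
    rw [integral_indicator_const _ (hTm (hs.prod hpi))] at h2
    have e2 : ∀ β, ∫ x, (t β).indicator (fun _ => (1 : ℝ)) x ∂(volume : Measure UI) =
        (volume : Measure UI).real (t β) := by
      intro β
      rw [integral_indicator_const _ (ht β), smul_eq_mul, mul_one]
    simp only [e2] at h2
    rw [integral_mul_const] at h2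
    have e3 : ∫ p, s.indicator (fun _ => (1 : ℝ)) p.1 ∂(PP b θ) = (noise (ℕ × V b)).real s := by
      have hm : Measurable (s.indicator (fun _ => (1 : ℝ))) := measurable_const.indicator hs
      have h4 : ∫ U, s.indicator (fun _ => (1 : ℝ)) U ∂((PP b θ).map Prod.fst) =
          ∫ p, s.indicator (fun _ => (1 : ℝ)) p.1 ∂(PP b θ) :=
        integral_map measurable_fst.aemeasurable hm.aestronglyMeasurable
      rw [← h4, PP_map_fst h0 h1, integral_indicator_const _ hs, smul_eq_mul, mul_one]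
    rw [e3, smul_eq_mul, mul_one] at h2
    have e4 : μ (s ×ˢ (Set.pi S t)) = (PP b θ)
        ((fun p : (ℕ × V b → UI) × (ℕ × V b → UI) => (p.1, TT θ p.1 p.2)) ⁻¹'
          (s ×ˢ (Set.pi S t))) := by
      rw [hμ, Measure.map_apply hTm (hs.prod hpi)]
    rw [e4]
    have h5 := congrArg ENNReal.ofReal h2
    rw [ofReal_measureReal (measure_ne_top _ _), ENNReal.ofReal_mul measureReal_nonneg,
      ofReal_measureReal (measure_ne_top _ _),
      ENNReal.ofReal_prod_of_nonneg (fun β _ => measureReal_nonneg)] at h5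
    rw [h5]
    congr 1
    exact Finset.prod_congr rfl (fun β _ => ofReal_measureReal (measure_ne_top _ _))
  symm
  refine Measure.prod_eq (fun s t hs ht => ?_)
  by_cases hs0 : noise (ℕ × V b) s = 0
  · rw [hs0, zero_mul]
    refine measure_mono_null (t := s ×ˢ Set.univ) (Set.prod_mono_right (Set.subset_univ _)) ?_
    rw [← hfst, Measure.map_apply measurable_fst hs] at hs0
    rwa [Set.prod_univ]
  · have hst : noise (ℕ × V b) s ≠ ⊤ := measure_ne_top _ _
    let ν : Measure (ℕ × V b → UI) :=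
      (noise (ℕ × V b) s)⁻¹ • (μ.restrict (s ×ˢ Set.univ)).map Prod.snd
    have hν : ∀ t', MeasurableSet t' → ν t' = (noise (ℕ × V b) s)⁻¹ * μ (s ×ˢ t') := by
      intro t' ht'
      show (noise (ℕ × V b) s)⁻¹ * ((μ.restrict (s ×ˢ Set.univ)).map Prod.snd) t' = _
      rw [Measure.map_apply measurable_snd ht', Measure.restrict_apply (measurable_snd ht')]
      congr 2
      ext p
      simp [and_comm]
    have hνe : ν = noise (ℕ × V b) := by
      apply Measure.eq_infinitePi
      intro S t' ht'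
      rw [hν _ (MeasurableSet.pi S.countable_toSet (fun β _ => ht' β)), key s hs S t' ht',
        ← mul_assoc, ENNReal.inv_mul_cancel hs0 hst, one_mul]
    have h6 := hν t ht
    rw [hνe] at h6
    rw [h6, ← mul_assoc, ENNReal.mul_inv_cancel hs0 hst, one_mul]

end Crest.Agent.IsgInnov
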