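import Crest.Agent.IsgGauge

set_option autoImplicit false

/-!
S0241: the free Ising measure has the Ising weights and is invariant under automorphisms.
-/

open MeasureTheory ProbabilityTheory Filter Topology

namespace Crest.Agent.IsgMu

open Crest.Agent.Isg Crest.ProbabilityR.TreeIsing

variable {b : ℕ}

/-- one-edge factor -/
noncomputable def ef (θ : ℝ) (s t : Bool) : ℝ := if s = t then (1 + θ) / 2 else (1 - θ) / 2

/-- cylinder -/
def cyl (S : Finset (V b)) (η : V b → Bool) : Set (V b → Bool) := {σ | ∀ v ∈ S, σ v = η v}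

lemma measurableSet_cyl (S : Finset (V b)) (η : V b → Bool) : MeasurableSet (cyl S η) := by
  have : cyl S η = ⋂ v ∈ S, (fun σ : V b → Bool => σ v) ⁻¹' {η v} := by
    ext σ; simp [cyl]
  rw [this]
  exact Finset.measurableSet_biInter _ (fun v _ => measurable_pi_apply v (measurableSet_singleton _))

lemma ef_nonneg {θ : ℝ} (h0 : 0 ≤ θ) (h1 : θ < 1) (s t : Bool) : 0 ≤ ef θ s t := by
  unfold ef; split_ifs <;> linarith

lemma isingWeight_insert (θ : ℝ) (S : Finset (V b)) (η : V b → Bool) (v w : V b) (hv : v ∉ S)
    (hw : w ∈ S) (hadj : (GG b).Adj v w) (huniq : ∀ x ∈ S, (GG b).Adj v x → x = w) :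
    isingWeight (GG b) θ (insert v S) η = isingWeight (GG b) θ S η * ef θ (η v) (η w) := by
  classical
  unfold isingWeight
  have hset : ((insert v S).sym2.filter (fun e => e ∈ (GG b).edgeSet)) =
      insert s(v, w) (S.sym2.filter (fun e => e ∈ (GG b).edgeSet)) := by
    ext e
    induction e using Sym2.ind with
    | _ x y =>
      simp only [Finset.mem_filter, Finset.mk_mem_sym2_iff, Finset.mem_insert,
        SimpleGraph.mem_edgeSet]
      constructor
      · rintro ⟨⟨hx, hy⟩, hxy⟩
        rcases hx with rfl | hx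
        · rcases hy with rfl | hy
          · exact absurd hxy ((GG b).loopless.irrefl _)
          · left
            rw [huniq y hy hxy]
        · rcases hy with rfl | hy
          · left
            rw [huniq x hx hxy.symm, Sym2.eq_swap]
          · right
            exact ⟨⟨hx, hy⟩, hxy⟩
      · rintro (h | ⟨⟨hx, hy⟩, hxy⟩)
        · rw [Sym2.eq_iff] at h
          rcases h with ⟨rfl, rfl⟩ | ⟨rfl, rfl⟩
          · exact ⟨⟨Or.inl rfl, Or.inr hw⟩, hadj⟩
          · exact ⟨⟨Or.inr hw, Or.inl rfl⟩, hadj.symm⟩
        · exact ⟨⟨Or.inr hx, Or.inr hy⟩, hxy⟩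
  have hnot : s(v, w) ∉ (S.sym2.filter (fun e => e ∈ (GG b).edgeSet)) := by
    simp only [Finset.mem_filter, Finset.mk_mem_sym2_iff]
    rintro ⟨⟨h, -⟩, -⟩
    exact hv h
  have key : ∏ e ∈ (insert v S).sym2 with e ∈ (GG b).edgeSet,
      (if (Sym2.map η e).IsDiag then (1 + θ) / 2 else (1 - θ) / 2) =
      ef θ (η v) (η w) * ∏ e ∈ S.sym2 with e ∈ (GG b).edgeSet,
      (if (Sym2.map η e).IsDiag then (1 + θ) / 2 else (1 - θ) / 2) := by
    rw [hset, Finset.prod_insert hnot]
    congr 1
    simp only [Sym2.map_mk, Sym2.mk_isDiag_iff, ef]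
  simp only [mul_assoc]
  congr 1
  rw [mul_comm _ (ef θ (η v) (η w))]
  convert key using 2

/-! ### Down-closed sets -/

/-- Down-closed sets. -/
def DC (B : Finset (V b)) : Prop := rt b ∈ B ∧ ∀ v ∈ B, par v ∈ B

lemma nb_head_par {i : Fin (b + 1)} {v : V b} (h : v.l.head? = some i) : nb i v = par v := by
  ext1
  rw [nb_l_of_head i v h]; rfl

lemma par_rt : par (rt b) = rt b := rfl

lemma len_par {v : V b} (hv : v ≠ rt b) : len (par v) + 1 = len v := by
  obtain ⟨i, hi⟩ := exists_head hv
  rw [← nb_head_par hi, len_nb_of_head i v hi]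

lemma adj_par {v : V b} (hv : v ≠ rt b) : (GG b).Adj v (par v) := by
  obtain ⟨i, hi⟩ := exists_head hv
  rw [adj_iff]
  exact ⟨i, (nb_head_par hi).symm⟩

lemma adj_len {v x : V b} (h : (GG b).Adj v x) : (len x = len v + 1 ∧ v = par x) ∨
    (len v = len x + 1 ∧ x = par v) := by
  obtain ⟨i, rfl⟩ := (adj_iff _ _).1 h
  by_cases hi : v.l.head? = some i
  · right
    exact ⟨(len_nb_of_head i v hi).symm, nb_head_par hi⟩
  · left
    refine ⟨len_nb_of_not_head i v hi, ?_⟩
    rw [par_nb (mem_ch.2 hi)]

lemma spin_ne (s : Bool) (ξ : V b → Bool) {v : V b} (hv : v ≠ rt b) :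
    spin s ξ v = if ξ v then spin s ξ (par v) else !(spin s ξ (par v)) := by
  obtain ⟨l, h⟩ := v
  cases l with
  | nil => exact absurd rfl hv
  | cons i l => exact spin_cons s ξ i l h

lemma isingWeight_DC (θ : ℝ) (η : V b → Bool) (n : ℕ) : ∀ (B : Finset (V b)), B.card = n → DC B →
    isingWeight (GG b) θ B η = 1 / 2 * ∏ v ∈ B.erase (rt b), ef θ (η v) (η (par v)) := by
  induction n with
  | zero =>
    intro B hB hDC
    rw [Finset.card_eq_zero] at hB
    subst hB
    exact absurd hDC.1 (Finset.notMem_empty _)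
  | succ n ih =>
    intro B hB hDC
    by_cases hBr : B = {rt b}
    · subst hBr
      unfold isingWeight
      rw [Finset.erase_singleton, Finset.prod_empty, Finset.prod_eq_one]
      intro e he
      exfalso
      simp only [Finset.mem_filter] at he
      obtain ⟨h1, h2⟩ := he
      induction e using Sym2.ind with
      | _ x y =>
        rw [Finset.mk_mem_sym2_iff, Finset.mem_singleton, Finset.mem_singleton] at h1
        rw [h1.1, h1.2, SimpleGraph.mem_edgeSet] at h2
        exact (GG b).loopless.irrefl _ h2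
    · obtain ⟨v, hvB, hvmax⟩ := Finset.exists_max_image B len ⟨_, hDC.1⟩
      have hvr : v ≠ rt b := by
        rintro rfl
        apply hBr
        ext x
        rw [Finset.mem_singleton]
        constructor
        · intro hx
          have := hvmax x hx
          rw [len_rt] at this
          exact (len_eq_zero_iff x).1 (by omega)
        · rintro rfl; exact hDC.1
      have hDC' : DC (B.erase v) := by
        refine ⟨Finset.mem_erase.2 ⟨hvr.symm, hDC.1⟩, ?_⟩
        intro u hu
        rw [Finset.mem_erase] at hu ⊢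
        refine ⟨?_, hDC.2 u hu.2⟩
        intro h
        by_cases hur : u = rt b
        · rw [hur, par_rt] at h
          exact hvr h.symm
        · have h1 := len_par hur
          rw [h] at h1
          have h2 := hvmax u hu.2
          omega
      have hcard : (B.erase v).card = n := by
        rw [Finset.card_erase_of_mem hvB, hB]; rfl
      have hins : B = insert v (B.erase v) := (Finset.insert_erase hvB).symm
      have hparB : par v ∈ B.erase v := by
        rw [Finset.mem_erase]
        refine ⟨?_, hDC.2 v hvB⟩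
        intro h
        have := len_par hvr
        rw [h] at this
        omega
      have h1 := isingWeight_insert θ (B.erase v) η v (par v) (Finset.notMem_erase v B) hparB
        (adj_par hvr) (by
          intro x hx hadj
          rcases adj_len hadj with h | h
          · have := hvmax x (Finset.mem_of_mem_erase hx)
            omega
          · exact h.2)
      rw [← hins] at h1
      rw [h1, ih _ hcard hDC', mul_assoc]
      congr 1
      have h2 : B.erase (rt b) = insert v ((B.erase v).erase (rt b)) := by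
        rw [Finset.erase_right_comm, Finset.insert_erase]
        exact Finset.mem_erase.2 ⟨hvr, hvB⟩
      rw [h2, Finset.prod_insert, mul_comm]
      intro h3
      exact Finset.notMem_erase v B (Finset.mem_of_mem_erase h3)

lemma spin_cyl (B : Finset (V b)) (hDC : DC B) (η : V b → Bool) (s : Bool) (ξ : V b → Bool) :
    spin s ξ ∈ cyl B η ↔ s = η (rt b) ∧ ∀ v ∈ B.erase (rt b), ξ v = decide (η v = η (par v)) := by
  constructor
  · intro h
    refine ⟨h (rt b) hDC.1, ?_⟩
    intro v hv
    rw [Finset.mem_erase] at hv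
    have h1 := h v hv.2
    have h2 := h (par v) (hDC.2 v hv.2)
    rw [spin_ne s ξ hv.1, h2] at h1
    rw [← h1]
    cases ξ v <;> cases η (par v) <;> simp
  · rintro ⟨hs, hξ⟩ v
    induction hn : len v using Nat.strong_induction_on generalizing v with
    | _ n ih =>
      intro hv
      by_cases hvr : v = rt b
      · subst hvr
        rw [spin_rt, hs]
      · have h1 := ih (len (par v)) (by have := len_par hvr; omega) (par v) rfl (hDC.2 v hv)
        rw [spin_ne s ξ hvr, h1, hξ v (Finset.mem_erase.2 ⟨hvr, hv⟩)]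
        cases η v <;> cases η (par v) <;> simp

lemma measurable_spin' : Measurable (fun p : Bool × (V b → Bool) => spin p.1 p.2) :=
  measurable_pi_lambda _ Gauge.measurable_spin'

lemma bern_singleton {p : ℝ} (t : Bool) : bern p {t} = ENNReal.ofReal (if t then p else 1 - p) := by
  unfold bern
  rw [Measure.add_apply, Measure.smul_apply, Measure.smul_apply, smul_eq_mul, smul_eq_mul]
  cases t <;> simp

lemma mu_cyl_DC {θ : ℝ} (h0 : 0 ≤ θ) (h1 : θ < 1) (B : Finset (V b)) (hDC : DC B)
    (η : V b → Bool) : mu b θ (cyl B η) = ENNReal.ofReal (isingWeight (GG b) θ B η) := by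
  have hp : IsProbabilityMeasure (bern ((1 + θ) / 2)) := bern_prob (by linarith) (by linarith)
  have := xiLaw_prob b h0 h1
  unfold mu
  rw [Measure.map_apply measurable_spin' (measurableSet_cyl B η)]
  have h2 : (fun p : Bool × (V b → Bool) => spin p.1 p.2) ⁻¹' (cyl B η) =
      ({η (rt b)} : Set Bool) ×ˢ (Set.pi ((B.erase (rt b) : Finset (V b)) : Set (V b))
        (fun v => {decide (η v = η (par v))})) := by
    ext ⟨s, ξ⟩
    rw [Set.mem_preimage, spin_cyl B hDC]
    simp only [Set.mem_prod, Set.mem_singleton_iff, Set.mem_pi, Finset.mem_coe]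
  rw [h2, Measure.prod_prod]
  unfold xiLaw
  rw [Measure.infinitePi_pi _ (fun i _ => measurableSet_singleton _),
    isingWeight_DC θ η _ B rfl hDC, ENNReal.ofReal_mul (by norm_num),
    ENNReal.ofReal_prod_of_nonneg (fun v _ => ef_nonneg h0 h1 _ _)]
  congr 1
  · rw [bern_singleton]
    cases η (rt b) <;> norm_num
  · apply Finset.prod_congr rfl
    intro v _
    rw [bern_singleton]
    unfold ef
    by_cases h : η v = η (par v)
    · simp [h]
    · simp only [h, decide_false, if_false, Bool.false_eq_true]
      congr 1; ring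

/-! ### Connected sets -/

/-- Connectedness, tested by locally constant functions. -/
def Conn (S : Finset (V b)) : Prop := S.Nonempty ∧ ∀ f : V b → Option (Fin (b + 1)),
  (∀ x ∈ S, ∀ i, nb i x ∈ S → f (nb i x) = f x) → ∀ x ∈ S, ∀ y ∈ S, f x = f y

lemma Conn.of_connected {S : Finset (V b)} (h : ((GG b).induce (S : Set (V b))).Connected) :
    Conn S := by
  have hpre := h.preconnected
  refine ⟨?_, ?_⟩
  · obtain ⟨x, hx⟩ := h.nonempty
    exact ⟨x, hx⟩
  · intro f hf x hx y hy
    obtain ⟨p⟩ := hpre ⟨x, hx⟩ ⟨y, hy⟩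
    have key : ∀ (u w : (S : Set (V b))) (_ : ((GG b).induce (S : Set (V b))).Walk u w),
        f u = f w := by
      intro u w p
      induction p with
      | nil => rfl
      | @cons u v w h p ih =>
        rw [← ih]
        have hadj : (GG b).Adj u.1 v.1 := h
        obtain ⟨i, hi⟩ := (adj_iff _ _).1 hadj
        rw [hi]
        exact (hf u.1 u.2 i (by rw [← hi]; exact v.2)).symm
    exact key _ _ p

lemma Conn.insert {S : Finset (V b)} (h : Conn S) {v w : V b} (hw : w ∈ S)
    (hadj : (GG b).Adj v w) : Conn (insert v S) := by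
  refine ⟨Finset.insert_nonempty _ _, ?_⟩
  intro f hf
  have h1 := h.2 f (fun x hx i hi => hf x (Finset.mem_insert_of_mem hx) i
    (Finset.mem_insert_of_mem hi))
  have h2 : f v = f w := by
    obtain ⟨i, rfl⟩ := (adj_iff _ _).1 hadj
    exact (hf v (Finset.mem_insert_self _ _) i (Finset.mem_insert_of_mem hw)).symm
  have h3 : ∀ x ∈ Insert.insert v S, f x = f w := by
    intro x hx
    rcases Finset.mem_insert.1 hx with rfl | hx
    · exact h2
    · exact h1 x hx w hw
  intro x hx y hy
  rw [h3 x hx, h3 y hy]

lemma fs_nb_of_ne {z : V b} {k : Fin (b + 1)} (hz : z ≠ rt b) (hz' : nb k z ≠ rt b) :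
    fs (nb k z) = fs z := by
  obtain ⟨l, h⟩ := z
  cases l with
  | nil => exact absurd rfl hz
  | cons i l =>
    by_cases hki : k = i
    · subst hki
      rw [nb_cons_self] at hz' ⊢
      unfold fs
      cases l with
      | nil => exact absurd rfl hz'
      | cons j l => simp [List.getLast?_cons]
    · rw [nb_cons_ne l h hki]
      unfold fs
      simp [List.getLast?_cons]

lemma Conn.unique {S : Finset (V b)} (h : Conn S) {v w x : V b} (hv : v ∉ S) (hw : w ∈ S)
    (hx : x ∈ S) (hvw : (GG b).Adj v w) (hvx : (GG b).Adj v x) : x = w := by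
  obtain ⟨i, rfl⟩ := (adj_iff _ _).1 hvw
  obtain ⟨j, rfl⟩ := (adj_iff _ _).1 hvx
  have h1 := h.2 (fun y => fs (mul (inv v) y)) (by
    intro y hy k hk
    have hyv : mul (inv v) y ≠ rt b := by
      intro h2
      have := mul_inv_cancel_left' v y
      rw [h2, mul_rt] at this
      exact hv (this ▸ hy)
    have hyv' : nb k (mul (inv v) y) ≠ rt b := by
      intro h2
      rw [nb_mul] at h2
      have := mul_inv_cancel_left' v (nb k y)
      rw [h2, mul_rt] at this
      exact hv (this ▸ hk)
    show fs (mul (inv v) (nb k y)) = fs (mul (inv v) y)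
    rw [← nb_mul]
    exact fs_nb_of_ne hyv hyv')
  have h2 : fs (mul (inv v) (nb i v)) = fs (mul (inv v) (nb j v)) := h1 _ hw _ hx
  rw [← nb_mul, ← nb_mul, inv_mul'] at h2
  have h3 : ∀ k : Fin (b + 1), fs (nb k (rt b)) = some k := fun k => rfl
  rw [h3, h3] at h2
  rw [Option.some.inj h2]

lemma mu_cyl_split {θ : ℝ} (S : Finset (V b)) (η : V b → Bool) {v : V b} (hv : v ∉ S) :
    mu b θ (cyl S η) = mu b θ (cyl (insert v S) (Function.update η v true)) +
      mu b θ (cyl (insert v S) (Function.update η v false)) := by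
  have h1 : cyl S η = cyl (insert v S) (Function.update η v true) ∪
      cyl (insert v S) (Function.update η v false) := by
    ext σ
    simp only [cyl, Set.mem_union, Set.mem_ofPred_eq, Finset.forall_mem_insert,
      Function.update_self]
    have h2 : ∀ t : Bool, (∀ x ∈ S, σ x = Function.update η v t x) ↔ (∀ x ∈ S, σ x = η x) := by
      intro t
      apply forall₂_congr
      intro x hx
      rw [Function.update_of_ne (show x ≠ v from fun h => hv (h ▸ hx))]
    rw [h2, h2]
    cases σ v <;> simp
  rw [h1, measure_union _ (measurableSet_cyl _ _)]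
  rw [Set.disjoint_left]
  intro σ h2 h3
  have h4 := h2 v (Finset.mem_insert_self _ _)
  have h5 := h3 v (Finset.mem_insert_self _ _)
  rw [Function.update_self] at h4 h5
  rw [h4] at h5
  exact absurd h5 (by decide)

lemma isingWeight_congr (θ : ℝ) (S : Finset (V b)) (η η' : V b → Bool) (h : ∀ v ∈ S, η v = η' v) :
    isingWeight (GG b) θ S η = isingWeight (GG b) θ S η' := by
  unfold isingWeight
  congr 1
  apply Finset.prod_congr rfl
  intro e he
  simp only [Finset.mem_filter] at he
  obtain ⟨h1, -⟩ := he
  induction e using Sym2.ind with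
  | _ x y =>
    rw [Finset.mk_mem_sym2_iff] at h1
    simp only [Sym2.map_mk, Sym2.mk_isDiag_iff]
    rw [h x h1.1, h y h1.2]

lemma isingWeight_nonneg {θ : ℝ} (h0 : 0 ≤ θ) (h1 : θ < 1) (S : Finset (V b)) (η : V b → Bool) :
    0 ≤ isingWeight (GG b) θ S η := by
  unfold isingWeight
  apply mul_nonneg (by norm_num)
  apply Finset.prod_nonneg
  intro e _
  split_ifs <;> linarith

lemma mu_cyl_aux {θ : ℝ} (h0 : 0 ≤ θ) (h1 : θ < 1) (B : Finset (V b)) (hDC : DC B) (n : ℕ) :
    ∀ (S : Finset (V b)), (B \ S).card = n → S ⊆ B → Conn S → ∀ η : V b → Bool,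
      mu b θ (cyl S η) = ENNReal.ofReal (isingWeight (GG b) θ S η) := by
  induction n with
  | zero =>
    intro S hcard hSB hS η
    rw [Finset.card_eq_zero, Finset.sdiff_eq_empty_iff_subset] at hcard
    have : S = B := Finset.Subset.antisymm hSB hcard
    subst this
    exact mu_cyl_DC h0 h1 S hDC η
  | succ n ih =>
    intro S hcard hSB hS η
    have hne : (B \ S).Nonempty := by
      rw [← Finset.card_pos]; omega
    -- a vertex of `B \ S` adjacent to `S`
    obtain ⟨v, hvB, hvS, w, hwS, hvw⟩ : ∃ v ∈ B, v ∉ S ∧ ∃ w ∈ S, (GG b).Adj v w := by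
      by_cases hrS : rt b ∈ S
      · obtain ⟨v, hv, hvmin⟩ := Finset.exists_min_image (B \ S) len hne
        rw [Finset.mem_sdiff] at hv
        have hvr : v ≠ rt b := by rintro rfl; exact hv.2 hrS
        refine ⟨v, hv.1, hv.2, par v, ?_, adj_par hvr⟩
        by_contra hpS
        have h2 := hvmin (par v) (Finset.mem_sdiff.2 ⟨hDC.2 v hv.1, hpS⟩)
        have h3 := len_par hvr
        omega
      · obtain ⟨w, hw, hwmin⟩ := Finset.exists_min_image S len hS.1
        have hwr : w ≠ rt b := by rintro rfl; exact hrS hw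
        refine ⟨par w, hDC.2 w (hSB hw), ?_, w, hw, (adj_par hwr).symm⟩
        intro hpS
        have h2 := hwmin (par w) hpS
        have h3 := len_par hwr
        omega
    have hcard' : (B \ insert v S).card = n := by
      have h2 : B \ insert v S = (B \ S).erase v := by
        ext x
        simp only [Finset.mem_sdiff, Finset.mem_insert, Finset.mem_erase]
        tauto
      rw [h2, Finset.card_erase_of_mem (Finset.mem_sdiff.2 ⟨hvB, hvS⟩), hcard]
      rfl
    have hsub : insert v S ⊆ B := Finset.insert_subset hvB hSB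
    have hP := ih (insert v S) hcard' hsub (hS.insert hwS hvw)
    rw [mu_cyl_split S η hvS, hP, hP]
    have hI : ∀ t : Bool, isingWeight (GG b) θ (insert v S) (Function.update η v t) =
        isingWeight (GG b) θ S η * ef θ t (η w) := by
      intro t
      rw [isingWeight_insert θ S _ v w hvS hwS hvw (fun x hx hvx => hS.unique hvS hwS hx hvw hvx),
        Function.update_self, Function.update_of_ne (show w ≠ v from fun h => hvS (h ▸ hwS)),
        isingWeight_congr θ S _ η]
      intro x hx
      rw [Function.update_of_ne (show x ≠ v from fun h => hvS (h ▸ hx))]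
    rw [hI, hI, ← ENNReal.ofReal_add]
    · congr 1
      have : ef θ true (η w) + ef θ false (η w) = 1 := by
        unfold ef
        cases η w <;> simp <;> ring
      rw [← mul_add, this, mul_one]
    · exact mul_nonneg (isingWeight_nonneg h0 h1 _ _) (ef_nonneg h0 h1 _ _)
    · exact mul_nonneg (isingWeight_nonneg h0 h1 _ _) (ef_nonneg h0 h1 _ _)

lemma DC_Bl (N : ℕ) : DC (Bl N (rt b)) := by
  refine ⟨mem_Bl_rt.2 (by simp), ?_⟩
  intro v hv
  rw [mem_Bl_rt] at hv ⊢
  by_cases hvr : v = rt b
  · subst hvr; rw [par_rt]; simp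
  · have := len_par hvr
    omega

lemma exists_Bl (S : Finset (V b)) : ∃ N, S ⊆ Bl N (rt b) := by
  refine ⟨S.sup len, ?_⟩
  intro v hv
  rw [mem_Bl_rt]
  exact Finset.le_sup hv

theorem mu_cyl {θ : ℝ} (h0 : 0 ≤ θ) (h1 : θ < 1) (S : Finset (V b)) (hS : Conn S)
    (η : V b → Bool) : mu b θ (cyl S η) = ENNReal.ofReal (isingWeight (GG b) θ S η) := by
  obtain ⟨N, hN⟩ := exists_Bl S
  exact mu_cyl_aux h0 h1 (Bl N (rt b)) (DC_Bl N) _ S rfl hN hS η

theorem muWeight : Spec.MuWeight := by
  intro b θ _ h0 h1 S η hS
  exact mu_cyl h0 h1 S (Conn.of_connected hS) η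

/-! ### Invariance -/

lemma Conn.Bl (N : ℕ) : Conn (Bl N (rt b)) := by
  refine ⟨⟨_, (DC_Bl N).1⟩, ?_⟩
  intro f hf
  have key : ∀ v ∈ Isg.Bl N (rt b), f v = f (rt b) := by
    intro v
    induction hn : len v using Nat.strong_induction_on generalizing v with
    | _ n ih =>
      intro hv
      by_cases hvr : v = rt b
      · rw [hvr]
      · have h1 := ih (len (par v)) (by have := len_par hvr; omega) (par v) rfl
          ((DC_Bl N).2 v hv)
        obtain ⟨i, hi⟩ := exists_head hvr
        rw [← h1, ← nb_head_par hi]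
        exact (hf v hv i (by rw [nb_head_par hi]; exact (DC_Bl N).2 v hv)).symm
  intro x hx y hy
  rw [key x hx, key y hy]

lemma Conn.map {S : Finset (V b)} (h : Conn S) (g : GG b ≃g GG b) :
    Conn (S.map g.toEquiv.toEmbedding) := by
  refine ⟨h.1.map, ?_⟩
  intro f hf
  have h1 := h.2 (fun x => f (g x)) (by
    intro x hx i hi
    have h2 := colE_spec g x i
    rw [h2]
    apply hf
    · exact Finset.mem_map_of_mem _ hx
    · rw [← h2]
      exact Finset.mem_map_of_mem _ hi)
  intro x hx y hy
  rw [Finset.mem_map] at hx hy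
  obtain ⟨x', hx', rfl⟩ := hx
  obtain ⟨y', hy', rfl⟩ := hy
  exact h1 x' hx' y' hy'

lemma isingWeight_map (θ : ℝ) (S : Finset (V b)) (η : V b → Bool) (g : GG b ≃g GG b) :
    isingWeight (GG b) θ (S.map g.toEquiv.toEmbedding) (fun v => η (g.symm v)) =
      isingWeight (GG b) θ S η := by
  classical
  unfold isingWeight
  congr 1
  symm
  apply Finset.prod_bij (fun e _ => Sym2.map g e)
  · intro e he
    rw [Finset.mem_filter] at he ⊢
    induction e using Sym2.ind with
    | _ x y =>
      rw [Finset.mk_mem_sym2_iff, SimpleGraph.mem_edgeSet] at he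
      rw [Sym2.map_mk, Finset.mk_mem_sym2_iff, SimpleGraph.mem_edgeSet]
      refine ⟨⟨Finset.mem_map_of_mem _ he.1.1, Finset.mem_map_of_mem _ he.1.2⟩, ?_⟩
      exact g.map_rel_iff.2 he.2
  · intro e _ e' _ h
    exact Sym2.map.injective g.injective h
  · intro e he
    rw [Finset.mem_filter] at he
    induction e using Sym2.ind with
    | _ x y =>
      rw [Finset.mk_mem_sym2_iff, SimpleGraph.mem_edgeSet, Finset.mem_map, Finset.mem_map] at he
      obtain ⟨⟨⟨x', hx', rfl⟩, ⟨y', hy', rfl⟩⟩, hadj⟩ := he
      refine ⟨s(x', y'), ?_, rfl⟩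
      rw [Finset.mem_filter, Finset.mk_mem_sym2_iff, SimpleGraph.mem_edgeSet]
      exact ⟨⟨hx', hy'⟩, g.map_rel_iff.1 hadj⟩
  · intro e _
    induction e using Sym2.ind with
    | _ x y =>
      simp only [Sym2.map_mk, Sym2.mk_isDiag_iff, RelIso.symm_apply_apply]

theorem muInv : Spec.MuInv := by
  intro b θ _ h0 h1
  have hx := xiLaw_prob b h0 h1
  have hprob : IsProbabilityMeasure (mu b θ) := by
    unfold mu
    exact Measure.isProbabilityMeasure_map measurable_spin'.aemeasurable
  refine ⟨hprob, ?_⟩
  intro g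
  have hgm : Measurable (fun (σ : V b → Bool) (v : V b) => σ (g v)) :=
    measurable_pi_lambda _ (fun i => measurable_pi_apply _)
  have hcyl : ∀ (N : ℕ) (η : V b → Bool),
      ((mu b θ).map (fun σ v => σ (g v))) (cyl (Isg.Bl N (rt b)) η) =
        mu b θ (cyl (Isg.Bl N (rt b)) η) := by
    intro N η
    rw [Measure.map_apply hgm (measurableSet_cyl _ _)]
    have h2 : (fun (σ : V b → Bool) (v : V b) => σ (g v)) ⁻¹' (cyl (Isg.Bl N (rt b)) η) =
        cyl ((Isg.Bl N (rt b)).map g.toEquiv.toEmbedding) (fun v => η (g.symm v)) := by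
      ext σ
      simp only [cyl, Set.mem_preimage, Set.mem_ofPred_eq, Finset.mem_map, forall_exists_index,
        and_imp, forall_apply_eq_imp_iff₂]
      constructor
      · intro h v hv
        have := h v hv
        simp only [Equiv.coe_toEmbedding, RelIso.coe_fn_toEquiv, RelIso.symm_apply_apply]
        exact this
      · intro h v hv
        have := h v hv
        simp only [Equiv.coe_toEmbedding, RelIso.coe_fn_toEquiv, RelIso.symm_apply_apply] at this
        exact this
    rw [h2, mu_cyl h0 h1 _ ((Conn.Bl N).map g), mu_cyl h0 h1 _ (Conn.Bl N), isingWeight_map]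
  have hfin : IsProbabilityMeasure ((mu b θ).map (fun σ v => σ (g v))) :=
    Measure.isProbabilityMeasure_map hgm.aemeasurable
  have hproj : ∀ μ : Measure (V b → Bool), IsProjectiveLimit μ (fun I => μ.map I.restrict) :=
    fun μ I => rfl
  have hBl : ∀ N : ℕ, ((mu b θ).map (fun σ v => σ (g v))).map (Isg.Bl N (rt b)).restrict =
      (mu b θ).map (Isg.Bl N (rt b)).restrict := by
    intro N
    apply Measure.ext_of_singleton
    intro η
    rw [Measure.map_apply (Finset.measurable_restrict _) (measurableSet_singleton _),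
      Measure.map_apply (Finset.measurable_restrict _) (measurableSet_singleton _)]
    have h2 : (Finset.restrict (π := fun _ => Bool) (Isg.Bl N (rt b))) ⁻¹' {η} = cyl (Isg.Bl N (rt b))
        (fun v => if h : v ∈ Isg.Bl N (rt b) then η ⟨v, h⟩ else false) := by
      ext σ
      simp only [Set.mem_preimage, Set.mem_singleton_iff, cyl, Set.mem_ofPred_eq]
      constructor
      · rintro rfl v hv
        simp [hv]
      · intro h
        funext v
        have := h v.1 v.2
        simp only [v.2, dif_pos] at this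
        exact this
    rw [h2, hcyl]
  apply IsProjectiveLimit.unique (P := fun I => (mu b θ).map I.restrict) _ (hproj _)
  intro I
  obtain ⟨N, hN⟩ := exists_Bl I
  have h3 : (I.restrict : (V b → Bool) → (I → Bool)) =
      (Finset.restrict₂ hN) ∘ (Isg.Bl N (rt b)).restrict := by
    rfl
  rw [h3, ← Measure.map_map (Finset.measurable_restrict₂ hN) (Finset.measurable_restrict _),
    hBl N, Measure.map_map (Finset.measurable_restrict₂ hN) (Finset.measurable_restrict _)]
  rfl

end Crest.Agent.IsgMu
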