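import Mathlib

set_option autoImplicit false

/-!
Shared library for S0241: Nishimori symmetric random variables (abstract calculus, nonnegative
integrals).  `NS P T C`: the law of `(T, C)` weighted by `1 - tanh T` is invariant under
`(T, C) ↦ (-T, C)`.
-/

open MeasureTheory ProbabilityTheory Filter Topology

namespace Crest.Agent.IsgNS

variable {Ω : Type*} [MeasurableSpace Ω] {γ δ ε : Type*} [MeasurableSpace γ] [MeasurableSpace δ]
  [MeasurableSpace ε]

/-! ### Hyperbolic tangent -/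

lemma measurable_tanh : Measurable Real.tanh := by
  have : Real.tanh = fun x => Real.sinh x / Real.cosh x := by
    ext x; exact Real.tanh_eq_sinh_div_cosh x
  rw [this]
  exact Real.measurable_sinh.div Real.measurable_cosh

lemma t_lt (x : ℝ) : Real.tanh x < 1 := Real.tanh_lt_one x

lemma t_gt (x : ℝ) : -1 < Real.tanh x := Real.neg_one_lt_tanh x

lemma omt_pos (x : ℝ) : 0 < 1 - Real.tanh x := by linarith [t_lt x]

lemma opt_pos (x : ℝ) : 0 < 1 + Real.tanh x := by linarith [t_gt x]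

lemma optt_pos (x y : ℝ) : 0 < 1 + Real.tanh x * Real.tanh y := by
  nlinarith [mul_pos (omt_pos x) (omt_pos y), mul_pos (opt_pos x) (opt_pos y)]

lemma omt2_pos (x : ℝ) : 0 < 1 - Real.tanh x ^ 2 := by
  nlinarith [mul_pos (omt_pos x) (opt_pos x)]

lemma tanh_add (x y : ℝ) :
    Real.tanh (x + y) = (Real.tanh x + Real.tanh y) / (1 + Real.tanh x * Real.tanh y) := by
  have hx : 0 < Real.cosh x := Real.cosh_pos x
  have hy : 0 < Real.cosh y := Real.cosh_pos y
  have hxy : 0 < Real.cosh (x + y) := Real.cosh_pos _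
  have h2 := optt_pos x y
  have h3 : 1 + Real.tanh x * Real.tanh y = Real.cosh (x + y) / (Real.cosh x * Real.cosh y) := by
    rw [Real.tanh_eq_sinh_div_cosh, Real.tanh_eq_sinh_div_cosh, Real.cosh_add]
    field_simp
  have h4 : Real.tanh x + Real.tanh y = Real.sinh (x + y) / (Real.cosh x * Real.cosh y) := by
    rw [Real.tanh_eq_sinh_div_cosh, Real.tanh_eq_sinh_div_cosh, Real.sinh_add]
    field_simp
  rw [h3, h4, Real.tanh_eq_sinh_div_cosh]
  field_simp

/-! ### The definition -/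

/-- Nishimori symmetry. -/
def NS (P : Measure Ω) (T : Ω → ℝ) (C : Ω → γ) : Prop :=
  ∀ φ : ℝ × γ → ℝ, Measurable φ → (∀ x, 0 ≤ φ x) →
    ∫⁻ ω, ENNReal.ofReal (φ (-T ω, C ω) * (1 - Real.tanh (T ω))) ∂P =
    ∫⁻ ω, ENNReal.ofReal (φ (T ω, C ω) * (1 - Real.tanh (T ω))) ∂P

lemma NS.congr {P : Measure Ω} {T : Ω → ℝ} {C : Ω → γ} (h : NS P T C) {T' : Ω → ℝ} {C' : Ω → γ}
    (hT : ∀ ω, T' ω = T ω) (hC : ∀ ω, C' ω = C ω) : NS P T' C' := by
  have h1 : T' = T := funext hT
  have h2 : C' = C := funext hC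
  rw [h1, h2]; exact h

lemma NS.comp {P : Measure Ω} {T : Ω → ℝ} {C : Ω → γ} (h : NS P T C) {g : γ → δ}
    (hg : Measurable g) : NS P T (fun ω => g (C ω)) := by
  intro φ hφ h0
  exact h (fun x => φ (x.1, g x.2)) (hφ.comp (measurable_fst.prodMk (hg.comp measurable_snd)))
    (fun x => h0 _)

/-- Symmetrisation. -/
lemma NS.sym {P : Measure Ω} {T : Ω → ℝ} {C : Ω → γ} (h : NS P T C) (hT : Measurable T)
    (hC : Measurable C) (φ : ℝ × γ → ℝ) (hφ : Measurable φ) (h0 : ∀ x, 0 ≤ φ x) :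
    2 * ∫⁻ ω, ENNReal.ofReal (φ (T ω, C ω) * (1 - Real.tanh (T ω))) ∂P =
      ∫⁻ ω, ENNReal.ofReal ((φ (T ω, C ω) + φ (-T ω, C ω)) * (1 - Real.tanh (T ω))) ∂P := by
  have h1 : ∀ ω, ENNReal.ofReal ((φ (T ω, C ω) + φ (-T ω, C ω)) * (1 - Real.tanh (T ω))) =
      ENNReal.ofReal (φ (T ω, C ω) * (1 - Real.tanh (T ω))) +
      ENNReal.ofReal (φ (-T ω, C ω) * (1 - Real.tanh (T ω))) := by
    intro ω
    rw [← ENNReal.ofReal_add, add_mul]
    · exact mul_nonneg (h0 _) (omt_pos _).le
    · exact mul_nonneg (h0 _) (omt_pos _).le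
  simp only [h1]
  have hm : Measurable (fun ω => ENNReal.ofReal (φ (T ω, C ω) * (1 - Real.tanh (T ω)))) :=
    ((hφ.comp (hT.prodMk hC)).mul (measurable_const.sub (measurable_tanh.comp hT))).ennreal_ofReal
  rw [lintegral_add_left hm, h φ hφ h0, two_mul]

/-- Even functions. -/
lemma NS.even {P : Measure Ω} {T : Ω → ℝ} {C : Ω → γ} (h : NS P T C) (hT : Measurable T)
    (hC : Measurable C) (f : ℝ × γ → ℝ) (hf : Measurable f) (h0 : ∀ x, 0 ≤ f x)
    (he : ∀ x c, f (-x, c) = f (x, c)) :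
    ∫⁻ ω, ENNReal.ofReal (f (T ω, C ω)) ∂P =
      ∫⁻ ω, ENNReal.ofReal (f (T ω, C ω) / (1 + Real.tanh (T ω))) ∂P := by
  have hm : Measurable (fun x : ℝ × γ => 1 - Real.tanh x.1) :=
    measurable_const.sub (measurable_tanh.comp measurable_fst)
  have h1 := h.sym hT hC (fun x => f x / (1 - Real.tanh x.1)) (hf.div hm)
    (fun x => div_nonneg (h0 x) (omt_pos _).le)
  have h2 : ∀ ω, f (T ω, C ω) / (1 - Real.tanh (T ω)) * (1 - Real.tanh (T ω)) = f (T ω, C ω) :=
    fun ω => div_mul_cancel₀ _ (omt_pos _).ne'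
  have h3 : ∀ ω, (f (T ω, C ω) / (1 - Real.tanh (T ω)) +
      f (-T ω, C ω) / (1 - Real.tanh (-T ω))) * (1 - Real.tanh (T ω)) =
      2 * (f (T ω, C ω) / (1 + Real.tanh (T ω))) := by
    intro ω
    rw [he, Real.tanh_neg, sub_neg_eq_add]
    have := omt_pos (T ω)
    have := opt_pos (T ω)
    field_simp
    ring
  simp only [h2, h3] at h1
  have h4 : ∀ ω, ENNReal.ofReal (2 * (f (T ω, C ω) / (1 + Real.tanh (T ω)))) =
      2 * ENNReal.ofReal (f (T ω, C ω) / (1 + Real.tanh (T ω))) := by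
    intro ω
    rw [ENNReal.ofReal_mul (by norm_num)]
    norm_num
  simp only [h4] at h1
  rw [lintegral_const_mul' _ _ (by norm_num)] at h1
  exact (ENNReal.mul_right_inj (by norm_num) (by norm_num)).1 h1

/-- Adding an independent parameter. -/
lemma NS.of_indep {P : Measure Ω} [IsProbabilityMeasure P] {T : Ω → ℝ} {C : Ω → γ} (h : NS P T C)
    (hT : Measurable T) (hC : Measurable C) {D : Ω → δ} (hD : Measurable D)
    (hi : IndepFun (fun ω => (T ω, C ω)) D P) : NS P T (fun ω => (C ω, D ω)) := by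
  intro φ hφ h0
  have hTC : Measurable (fun ω => (T ω, C ω)) := hT.prodMk hC
  have hmap := (indepFun_iff_map_prod_eq_prod_map_map hTC.aemeasurable hD.aemeasurable).1 hi
  have hα : IsProbabilityMeasure (P.map (fun ω => (T ω, C ω))) :=
    Measure.isProbabilityMeasure_map hTC.aemeasurable
  have hδ : IsProbabilityMeasure (P.map D) := Measure.isProbabilityMeasure_map hD.aemeasurable
  have key : ∀ g : (ℝ × γ) × δ → ENNReal, Measurable g → ∫⁻ ω, g ((T ω, C ω), D ω) ∂P =
      ∫⁻ d, ∫⁻ ω, g ((T ω, C ω), d) ∂P ∂(P.map D) := by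
    intro g hg
    have h1 : ∫⁻ ω, g ((T ω, C ω), D ω) ∂P = ∫⁻ x, g x ∂(P.map (fun ω => ((T ω, C ω), D ω))) :=
      (lintegral_map hg (hTC.prodMk hD)).symm
    rw [h1, hmap, lintegral_prod_symm' _ hg]
    apply lintegral_congr
    intro d
    exact lintegral_map (hg.comp (measurable_id.prodMk measurable_const)) hTC
  have hm : Measurable (fun x : (ℝ × γ) × δ => 1 - Real.tanh x.1.1) :=
    measurable_const.sub (measurable_tanh.comp (measurable_fst.comp measurable_fst))
  have h1 := key (fun x => ENNReal.ofReal (φ (-x.1.1, (x.1.2, x.2)) * (1 - Real.tanh x.1.1)))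
    (by
      apply Measurable.ennreal_ofReal
      apply Measurable.mul _ hm
      exact hφ.comp ((measurable_fst.comp measurable_fst).neg.prodMk
        ((measurable_snd.comp measurable_fst).prodMk measurable_snd)))
  have h2 := key (fun x => ENNReal.ofReal (φ (x.1.1, (x.1.2, x.2)) * (1 - Real.tanh x.1.1)))
    (by
      apply Measurable.ennreal_ofReal
      apply Measurable.mul _ hm
      exact hφ.comp ((measurable_fst.comp measurable_fst).prodMk
        ((measurable_snd.comp measurable_fst).prodMk measurable_snd)))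
  simp only at h1 h2
  rw [h1, h2]
  apply lintegral_congr
  intro d
  exact h (fun x => φ (x.1, (x.2, d)))
    (hφ.comp (measurable_fst.prodMk (measurable_snd.prodMk measurable_const))) (fun x => h0 _)

/-- Joint symmetry of two independent symmetric variables. -/
lemma NS.joint {P : Measure Ω} [IsProbabilityMeasure P] {A B : Ω → ℝ} {C : Ω → γ} {D : Ω → δ}
    (hA : NS P A C) (hB : NS P B D) (mA : Measurable A) (mB : Measurable B) (mC : Measurable C)
    (mD : Measurable D) (hi : IndepFun (fun ω => (A ω, C ω)) (fun ω => (B ω, D ω)) P)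
    (Φ : (ℝ × γ) × (ℝ × δ) → ℝ) (hΦ : Measurable Φ) (h0 : ∀ x, 0 ≤ Φ x) :
    ∫⁻ ω, ENNReal.ofReal (Φ ((-A ω, C ω), (-B ω, D ω)) *
      ((1 - Real.tanh (A ω)) * (1 - Real.tanh (B ω)))) ∂P =
    ∫⁻ ω, ENNReal.ofReal (Φ ((A ω, C ω), (B ω, D ω)) *
      ((1 - Real.tanh (A ω)) * (1 - Real.tanh (B ω)))) ∂P := by
  have hA' : NS P A (fun ω => (C ω, (B ω, D ω))) := hA.of_indep mA mC (mB.prodMk mD) hi
  have hB' : NS P B (fun ω => (D ω, (A ω, C ω))) := hB.of_indep mB mD (mA.prodMk mC) hi.symm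
  have h1 := hA' (fun x => Φ ((x.1, x.2.1), (-x.2.2.1, x.2.2.2)) * (1 - Real.tanh x.2.2.1))
    (by
      apply Measurable.mul
      · exact hΦ.comp (by fun_prop)
      · exact measurable_const.sub (measurable_tanh.comp (by fun_prop)))
    (fun x => mul_nonneg (h0 _) (omt_pos _).le)
  have h2 := hB' (fun x => Φ ((x.2.2.1, x.2.2.2), (x.1, x.2.1)) * (1 - Real.tanh x.2.2.1))
    (by
      apply Measurable.mul
      · exact hΦ.comp (by fun_prop)
      · exact measurable_const.sub (measurable_tanh.comp (by fun_prop)))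
    (fun x => mul_nonneg (h0 _) (omt_pos _).le)
  simp only at h1 h2
  calc _ = ∫⁻ ω, ENNReal.ofReal (Φ ((-A ω, C ω), (-B ω, D ω)) * (1 - Real.tanh (B ω)) *
        (1 - Real.tanh (A ω))) ∂P := by
        apply lintegral_congr; intro ω; congr 1; ring
    _ = _ := h1
    _ = ∫⁻ ω, ENNReal.ofReal (Φ ((A ω, C ω), (-B ω, D ω)) * (1 - Real.tanh (A ω)) *
        (1 - Real.tanh (B ω))) ∂P := by
        apply lintegral_congr; intro ω; congr 1; ring
    _ = _ := h2
    _ = _ := by
        apply lintegral_congr; intro ω; congr 1; ring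

lemma one_sub_tanh_add (x y : ℝ) : 1 - Real.tanh (x + y) =
    (1 - Real.tanh x) * (1 - Real.tanh y) / (1 + Real.tanh x * Real.tanh y) := by
  rw [tanh_add]
  have := optt_pos x y
  field_simp
  ring

lemma one_sub_tanh_add_sq (x y : ℝ) : 1 - Real.tanh (x + y) ^ 2 =
    (1 - Real.tanh x ^ 2) * (1 - Real.tanh y ^ 2) / (1 + Real.tanh x * Real.tanh y) ^ 2 := by
  rw [tanh_add]
  have := optt_pos x y
  field_simp
  ring

/-- Sums of independent symmetric variables, with an even parameter. -/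
lemma NS.add {P : Measure Ω} [IsProbabilityMeasure P] {A B : Ω → ℝ} {C : Ω → γ} {D : Ω → δ}
    (hA : NS P A C) (hB : NS P B D) (mA : Measurable A) (mB : Measurable B) (mC : Measurable C)
    (mD : Measurable D) (hi : IndepFun (fun ω => (A ω, C ω)) (fun ω => (B ω, D ω)) P)
    (G : (ℝ × γ) × (ℝ × δ) → ε) (hG : Measurable G)
    (he : ∀ a c b d, G ((-a, c), (-b, d)) = G ((a, c), (b, d))) :
    NS P (fun ω => A ω + B ω) (fun ω => G ((A ω, C ω), (B ω, D ω))) := by
  intro φ hφ h0
  have h1 := NS.joint hA hB mA mB mC mD hi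
    (fun x => φ (x.1.1 + x.2.1, G x) / (1 + Real.tanh x.1.1 * Real.tanh x.2.1))
    (by
      apply Measurable.div
      · exact hφ.comp (Measurable.prodMk (by fun_prop) hG)
      · apply measurable_const.add
        exact (measurable_tanh.comp (by fun_prop)).mul (measurable_tanh.comp (by fun_prop)))
    (fun x => div_nonneg (h0 _) (optt_pos _ _).le)
  simp only at h1
  calc _ = _ := by
        apply lintegral_congr
        intro ω
        congr 1
        rw [one_sub_tanh_add]
        have h2 : -(A ω + B ω) = -A ω + -B ω := by ring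
        have h3 : Real.tanh (-A ω) * Real.tanh (-B ω) = Real.tanh (A ω) * Real.tanh (B ω) := by
          rw [Real.tanh_neg, Real.tanh_neg]; ring
        show φ (-(A ω + B ω), G ((A ω, C ω), B ω, D ω)) * _ = _
        rw [h2, ← he (A ω) (C ω) (B ω) (D ω), ← h3]
        ring
    _ = _ := h1
    _ = _ := by
        apply lintegral_congr
        intro ω
        congr 1
        rw [one_sub_tanh_add]
        ring

/-- The passage of a random edge. `psiT` is the (odd) transmission function. -/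
lemma NS.edge {P : Measure Ω} [IsProbabilityMeasure P] {T : Ω → ℝ} {C : Ω → γ} (h : NS P T C)
    (mT : Measurable T) (mC : Measurable C) {θ : ℝ} (t0 : 0 ≤ θ) (t1 : θ ≤ 1) {ξ : Ω → Bool}
    (mξ : Measurable ξ) (hξ1 : P {ω | ξ ω = true} = ENNReal.ofReal ((1 + θ) / 2))
    (hξ0 : P {ω | ξ ω = false} = ENNReal.ofReal ((1 - θ) / 2))
    (hi : IndepFun ξ (fun ω => (T ω, C ω)) P) {ψ : ℝ → ℝ} (mψ : Measurable ψ)
    (oψ : ∀ x, ψ (-x) = - ψ x) (tψ : ∀ x, Real.tanh (ψ x) = θ * Real.tanh x) :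
    NS P (fun ω => (if ξ ω then (1 : ℝ) else -1) * ψ (T ω)) C := by
  classical
  intro φ hφ h0
  -- splitting according to the edge
  have split : ∀ (F : ℝ × (ℝ × γ) → ℝ), Measurable F → (∀ x, 0 ≤ F x) →
      ∫⁻ ω, ENNReal.ofReal (F ((if ξ ω then (1 : ℝ) else -1), (T ω, C ω))) ∂P =
      ∫⁻ ω, ENNReal.ofReal ((1 + θ) / 2 * F (1, (T ω, C ω)) +
        (1 - θ) / 2 * F (-1, (T ω, C ω))) ∂P := by
    intro F hF hF0
    have m1 : Measurable (fun ω => ENNReal.ofReal (F (1, (T ω, C ω)))) :=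
      (hF.comp (measurable_const.prodMk (mT.prodMk mC))).ennreal_ofReal
    have m2 : Measurable (fun ω => ENNReal.ofReal (F (-1, (T ω, C ω)))) :=
      (hF.comp (measurable_const.prodMk (mT.prodMk mC))).ennreal_ofReal
    have m3 : Measurable (fun b : Bool => (if b then (1 : ENNReal) else 0)) :=
      measurable_of_finite _
    have m4 : Measurable (fun b : Bool => (if b then (0 : ENNReal) else 1)) :=
      measurable_of_finite _
    have e1 : ∀ ω, ENNReal.ofReal (F ((if ξ ω then (1 : ℝ) else -1), (T ω, C ω))) =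
        (if ξ ω then (1 : ENNReal) else 0) * ENNReal.ofReal (F (1, (T ω, C ω))) +
        (if ξ ω then (0 : ENNReal) else 1) * ENNReal.ofReal (F (-1, (T ω, C ω))) := by
      intro ω
      cases ξ ω <;> simp
    simp only [e1]
    have m5 : Measurable (fun ω => (if ξ ω then (1 : ENNReal) else 0) *
        ENNReal.ofReal (F (1, (T ω, C ω)))) := (m3.comp mξ).mul m1
    rw [lintegral_add_left m5]
    have i1 : IndepFun (fun ω => (if ξ ω then (1 : ENNReal) else 0))
        (fun ω => ENNReal.ofReal (F (1, (T ω, C ω)))) P :=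
      hi.comp m3 (φ := fun b : Bool => (if b then (1 : ENNReal) else 0))
        (ψ := fun x : ℝ × γ => ENNReal.ofReal (F (1, x)))
        ((hF.comp (measurable_const.prodMk measurable_id)).ennreal_ofReal)
    have i2 : IndepFun (fun ω => (if ξ ω then (0 : ENNReal) else 1))
        (fun ω => ENNReal.ofReal (F (-1, (T ω, C ω)))) P :=
      hi.comp m4 (φ := fun b : Bool => (if b then (0 : ENNReal) else 1))
        (ψ := fun x : ℝ × γ => ENNReal.ofReal (F (-1, x)))
        ((hF.comp (measurable_const.prodMk measurable_id)).ennreal_ofReal)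
    have p1 : ∫⁻ ω, (if ξ ω then (1 : ENNReal) else 0) * ENNReal.ofReal (F (1, (T ω, C ω))) ∂P =
        _ := lintegral_mul_eq_lintegral_mul_lintegral_of_indepFun (m3.comp mξ) m1 i1
    have p2 : ∫⁻ ω, (if ξ ω then (0 : ENNReal) else 1) * ENNReal.ofReal (F (-1, (T ω, C ω))) ∂P =
        _ := lintegral_mul_eq_lintegral_mul_lintegral_of_indepFun (m4.comp mξ) m2 i2
    rw [p1, p2]
    have q1 : ∫⁻ ω, (if ξ ω then (1 : ENNReal) else 0) ∂P = ENNReal.ofReal ((1 + θ) / 2) := by
      rw [← hξ1]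
      have : ∀ ω, (if ξ ω then (1 : ENNReal) else 0) =
          ({ω | ξ ω = true} : Set Ω).indicator (fun _ => (1 : ENNReal)) ω := by
        intro ω
        simp only [Set.indicator, Set.mem_ofPred_eq]
      simp only [this]
      have hms : MeasurableSet {ω | ξ ω = true} := mξ (measurableSet_singleton true)
      rw [lintegral_indicator hms]
      simp
    have q2 : ∫⁻ ω, (if ξ ω then (0 : ENNReal) else 1) ∂P = ENNReal.ofReal ((1 - θ) / 2) := by
      rw [← hξ0]
      have : ∀ ω, (if ξ ω then (0 : ENNReal) else 1) =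
          ({ω | ξ ω = false} : Set Ω).indicator (fun _ => (1 : ENNReal)) ω := by
        intro ω
        simp only [Set.indicator, Set.mem_ofPred_eq]
        cases ξ ω <;> simp
      simp only [this]
      have hms : MeasurableSet {ω | ξ ω = false} := mξ (measurableSet_singleton false)
      rw [lintegral_indicator hms]
      simp
    rw [q1, q2, ← lintegral_const_mul _ m1, ← lintegral_const_mul _ m2,
      ← lintegral_add_left (m1.const_mul _)]
    apply lintegral_congr
    intro ω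
    rw [← ENNReal.ofReal_mul (by linarith), ← ENNReal.ofReal_mul (by linarith),
      ← ENNReal.ofReal_add]
    · exact mul_nonneg (by linarith) (hF0 _)
    · exact mul_nonneg (by linarith) (hF0 _)
  have mt : Measurable (fun x : ℝ × (ℝ × γ) => Real.tanh (x.1 * ψ x.2.1)) :=
    measurable_tanh.comp (measurable_fst.mul (mψ.comp (measurable_fst.comp measurable_snd)))
  have s1 := split (fun x => φ (-(x.1 * ψ x.2.1), x.2.2) * (1 - Real.tanh (x.1 * ψ x.2.1)))
    ((hφ.comp ((measurable_fst.mul (mψ.comp (measurable_fst.comp measurable_snd))).neg.prodMk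
      (measurable_snd.comp measurable_snd))).mul (measurable_const.sub mt))
    (fun x => mul_nonneg (h0 _) (omt_pos _).le)
  have s2 := split (fun x => φ (x.1 * ψ x.2.1, x.2.2) * (1 - Real.tanh (x.1 * ψ x.2.1)))
    ((hφ.comp ((measurable_fst.mul (mψ.comp (measurable_fst.comp measurable_snd))).prodMk
      (measurable_snd.comp measurable_snd))).mul (measurable_const.sub mt))
    (fun x => mul_nonneg (h0 _) (omt_pos _).le)
  simp only at s1 s2
  rw [s1, s2]
  -- common part and symmetric part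
  have mg : Measurable (fun ω => φ (ψ (T ω), C ω)) := hφ.comp ((mψ.comp mT).prodMk mC)
  have mg' : Measurable (fun ω => φ (-ψ (T ω), C ω)) := hφ.comp ((mψ.comp mT).neg.prodMk mC)
  have mτ : Measurable (fun ω => Real.tanh (T ω)) := measurable_tanh.comp mT
  have hc0 : ∀ ω, 0 ≤ (1 - θ) / 2 * (1 + θ * Real.tanh (T ω)) *
      (φ (ψ (T ω), C ω) + φ (-ψ (T ω), C ω)) := by
    intro ω
    apply mul_nonneg _ (add_nonneg (h0 _) (h0 _))
    apply mul_nonneg (by linarith)
    nlinarith [t_gt (T ω), opt_pos (T ω)]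
  have mc : Measurable (fun ω => ENNReal.ofReal ((1 - θ) / 2 * (1 + θ * Real.tanh (T ω)) *
      (φ (ψ (T ω), C ω) + φ (-ψ (T ω), C ω)))) :=
    (((mτ.const_mul θ).const_add 1).const_mul _ |>.mul (mg.add mg')).ennreal_ofReal
  have key := h (fun x => θ * φ (ψ x.1, x.2)) ((hφ.comp ((mψ.comp measurable_fst).prodMk
    measurable_snd)).const_mul θ) (fun x => mul_nonneg t0 (h0 _))
  simp only at key
  have e1 : ∀ ω, ENNReal.ofReal ((1 + θ) / 2 * (φ (-(1 * ψ (T ω)), C ω) *
      (1 - Real.tanh (1 * ψ (T ω)))) + (1 - θ) / 2 * (φ (-(-1 * ψ (T ω)), C ω) *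
      (1 - Real.tanh (-1 * ψ (T ω))))) =
      ENNReal.ofReal ((1 - θ) / 2 * (1 + θ * Real.tanh (T ω)) *
        (φ (ψ (T ω), C ω) + φ (-ψ (T ω), C ω))) +
      ENNReal.ofReal (θ * φ (ψ (-T ω), C ω) * (1 - Real.tanh (T ω))) := by
    intro ω
    rw [← ENNReal.ofReal_add (hc0 ω) (mul_nonneg (mul_nonneg t0 (h0 _)) (omt_pos _).le)]
    congr 1
    rw [one_mul, neg_one_mul, neg_neg, Real.tanh_neg, tψ, oψ]
    ring
  have e2 : ∀ ω, ENNReal.ofReal ((1 + θ) / 2 * (φ (1 * ψ (T ω), C ω) *
      (1 - Real.tanh (1 * ψ (T ω)))) + (1 - θ) / 2 * (φ (-1 * ψ (T ω), C ω) *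
      (1 - Real.tanh (-1 * ψ (T ω))))) =
      ENNReal.ofReal ((1 - θ) / 2 * (1 + θ * Real.tanh (T ω)) *
        (φ (ψ (T ω), C ω) + φ (-ψ (T ω), C ω))) +
      ENNReal.ofReal (θ * φ (ψ (T ω), C ω) * (1 - Real.tanh (T ω))) := by
    intro ω
    rw [← ENNReal.ofReal_add (hc0 ω) (mul_nonneg (mul_nonneg t0 (h0 _)) (omt_pos _).le)]
    congr 1
    rw [one_mul, neg_one_mul, Real.tanh_neg, tψ]
    ring
  simp only [e1, e2]
  rw [lintegral_add_left mc, lintegral_add_left mc, key]

/-- The key identity. -/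
lemma NS.key {P : Measure Ω} [IsProbabilityMeasure P] {A B : Ω → ℝ} {C : Ω → γ} {D : Ω → ℝ}
    (hA : NS P A C) (hB : NS P B D) (mA : Measurable A) (mB : Measurable B) (mC : Measurable C)
    (mD : Measurable D) (hi : IndepFun (fun ω => (A ω, C ω)) (fun ω => (B ω, D ω)) P)
    (hD : ∀ ω, 0 ≤ D ω) :
    ∫⁻ ω, ENNReal.ofReal (D ω * (Real.sqrt (1 - Real.tanh (A ω) ^ 2) /
      (1 + Real.tanh (A ω) * Real.tanh (B ω)))) ∂P =
    (∫⁻ ω, ENNReal.ofReal (Real.sqrt (1 - Real.tanh (A ω) ^ 2)) ∂P) *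
      ∫⁻ ω, ENNReal.ofReal (D ω) ∂P := by
  have mt : Measurable (fun x : (ℝ × γ) × (ℝ × ℝ) => Real.tanh x.1.1) :=
    measurable_tanh.comp (by fun_prop)
  have mt' : Measurable (fun x : (ℝ × γ) × (ℝ × ℝ) => Real.tanh x.2.1) :=
    measurable_tanh.comp (by fun_prop)
  have mtA : Measurable (fun ω => Real.tanh (A ω)) := measurable_tanh.comp mA
  have mtB : Measurable (fun ω => Real.tanh (B ω)) := measurable_tanh.comp mB
  -- the function
  set Φ : (ℝ × γ) × (ℝ × ℝ) → ℝ := fun x => |x.2.2| * Real.sqrt (1 - Real.tanh x.1.1 ^ 2) /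
    ((1 + Real.tanh x.1.1 * Real.tanh x.2.1) * ((1 - Real.tanh x.1.1) * (1 - Real.tanh x.2.1)))
    with hΦ
  have mΦ : Measurable Φ := by
    apply Measurable.div
    · exact (measurable_snd.comp measurable_snd).abs.mul (measurable_const.sub (mt.pow_const 2)).sqrt
    · exact (measurable_const.add (mt.mul mt')).mul
        ((measurable_const.sub mt).mul (measurable_const.sub mt'))
  have h0 : ∀ x, 0 ≤ Φ x := by
    intro x
    apply div_nonneg
    · positivity
    · exact (mul_pos (optt_pos _ _) (mul_pos (omt_pos _) (omt_pos _))).le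
  have hj := NS.joint hA hB mA mB mC mD hi Φ mΦ h0
  have e1 : ∀ ω, Φ ((A ω, C ω), (B ω, D ω)) * ((1 - Real.tanh (A ω)) * (1 - Real.tanh (B ω))) =
      D ω * (Real.sqrt (1 - Real.tanh (A ω) ^ 2) / (1 + Real.tanh (A ω) * Real.tanh (B ω))) := by
    intro ω
    simp only [hΦ]
    rw [abs_of_nonneg (hD ω)]
    have a1 := optt_pos (A ω) (B ω)
    have a2 := omt_pos (A ω)
    have a3 := omt_pos (B ω)
    field_simp
  have e2 : ∀ ω, Φ ((A ω, C ω), (B ω, D ω)) * ((1 - Real.tanh (A ω)) * (1 - Real.tanh (B ω))) +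
      Φ ((-A ω, C ω), (-B ω, D ω)) * ((1 - Real.tanh (A ω)) * (1 - Real.tanh (B ω))) =
      2 * ((Real.sqrt (1 - Real.tanh (A ω) ^ 2) / (1 + Real.tanh (A ω))) *
        (D ω / (1 + Real.tanh (B ω)))) := by
    intro ω
    simp only [hΦ]
    rw [abs_of_nonneg (hD ω), Real.tanh_neg, Real.tanh_neg, neg_sq]
    have a1 := optt_pos (A ω) (B ω)
    have a2 := omt_pos (A ω)
    have a3 := omt_pos (B ω)
    have a4 := opt_pos (A ω)
    have a5 := opt_pos (B ω)
    have a6 : 0 < 1 + -Real.tanh (A ω) * -Real.tanh (B ω) := by rw [neg_mul_neg]; exact a1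
    have a7 : 0 < 1 - -Real.tanh (A ω) := by linarith
    have a8 : 0 < 1 - -Real.tanh (B ω) := by linarith
    rw [neg_mul_neg, sub_neg_eq_add, sub_neg_eq_add]
    field_simp
    ring
  simp only [e1] at hj
  set L := ∫⁻ ω, ENNReal.ofReal (D ω * (Real.sqrt (1 - Real.tanh (A ω) ^ 2) /
      (1 + Real.tanh (A ω) * Real.tanh (B ω)))) ∂P with hL
  have e3 : 2 * L = 2 * ∫⁻ ω, ENNReal.ofReal ((Real.sqrt (1 - Real.tanh (A ω) ^ 2) /
      (1 + Real.tanh (A ω))) * (D ω / (1 + Real.tanh (B ω)))) ∂P := by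
    rw [two_mul]
    nth_rewrite 2 [← hj]
    rw [hL, ← lintegral_add_left (by
        apply Measurable.ennreal_ofReal
        exact mD.mul ((measurable_const.sub (mtA.pow_const 2)).sqrt.div
          (measurable_const.add (mtA.mul mtB)))), ← lintegral_const_mul' _ _ (by norm_num)]
    apply lintegral_congr
    intro ω
    rw [← ENNReal.ofReal_add, ← e1, e2, ENNReal.ofReal_mul (by norm_num)]
    · norm_num
    · exact mul_nonneg (hD ω) (div_nonneg (Real.sqrt_nonneg _) (optt_pos _ _).le)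
    · exact mul_nonneg (h0 _) (mul_pos (omt_pos _) (omt_pos _)).le
  have e4 := (ENNReal.mul_right_inj (a := 2) (by norm_num) (by norm_num)).1 e3
  rw [e4]
  have e5 : ∀ ω, ENNReal.ofReal ((Real.sqrt (1 - Real.tanh (A ω) ^ 2) /
      (1 + Real.tanh (A ω))) * (D ω / (1 + Real.tanh (B ω)))) =
      ENNReal.ofReal (Real.sqrt (1 - Real.tanh (A ω) ^ 2) / (1 + Real.tanh (A ω))) *
        ENNReal.ofReal (D ω / (1 + Real.tanh (B ω))) := by
    intro ω
    rw [ENNReal.ofReal_mul]
    exact div_nonneg (Real.sqrt_nonneg _) (opt_pos _).le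
  simp only [e5]
  have hind : IndepFun (fun ω => ENNReal.ofReal (Real.sqrt (1 - Real.tanh (A ω) ^ 2) /
      (1 + Real.tanh (A ω)))) (fun ω => ENNReal.ofReal (D ω / (1 + Real.tanh (B ω)))) P := by
    have m1 : Measurable (fun x : ℝ × γ => ENNReal.ofReal (Real.sqrt (1 - Real.tanh x.1 ^ 2) /
        (1 + Real.tanh x.1))) := by
      have : Measurable (fun x : ℝ × γ => Real.tanh x.1) := measurable_tanh.comp measurable_fst
      exact ((measurable_const.sub (this.pow_const 2)).sqrt.div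
        (measurable_const.add this)).ennreal_ofReal
    have m2 : Measurable (fun x : ℝ × ℝ => ENNReal.ofReal (x.2 / (1 + Real.tanh x.1))) := by
      have : Measurable (fun x : ℝ × ℝ => Real.tanh x.1) := measurable_tanh.comp measurable_fst
      exact (measurable_snd.div (measurable_const.add this)).ennreal_ofReal
    exact hi.comp m1 m2
  have hprod := lintegral_mul_eq_lintegral_mul_lintegral_of_indepFun
    (μ := P) (f := fun ω => ENNReal.ofReal (Real.sqrt (1 - Real.tanh (A ω) ^ 2) /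
      (1 + Real.tanh (A ω)))) (g := fun ω => ENNReal.ofReal (D ω / (1 + Real.tanh (B ω))))
    ((measurable_const.sub (mtA.pow_const 2)).sqrt.div
      (measurable_const.add mtA)).ennreal_ofReal
    (mD.div (measurable_const.add mtB)).ennreal_ofReal hind
  have hprod' : ∫⁻ ω, ENNReal.ofReal (Real.sqrt (1 - Real.tanh (A ω) ^ 2) / (1 + Real.tanh (A ω))) *
        ENNReal.ofReal (D ω / (1 + Real.tanh (B ω))) ∂P = _ := hprod
  rw [hprod']
  congr 1
  · refine (hA.even mA mC (fun x => Real.sqrt (1 - Real.tanh x.1 ^ 2)) ?_ (fun x => Real.sqrt_nonneg _)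
      ?_).symm
    · have : Measurable (fun x : ℝ × γ => Real.tanh x.1) := measurable_tanh.comp measurable_fst
      exact (measurable_const.sub (this.pow_const 2)).sqrt
    · intro x c
      simp only
      rw [Real.tanh_neg, neg_sq]
  · have h5 := hB.even mB mD (fun x => |x.2|) (measurable_snd.abs) (fun x => abs_nonneg _)
      (fun x c => rfl)
    simp only [abs_of_nonneg (hD _)] at h5
    exact h5.symm

/-- Monotonicity of the information. -/
lemma NS.info_add {P : Measure Ω} [IsProbabilityMeasure P] {A B : Ω → ℝ} {C : Ω → γ} {D : Ω → δ}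
    (hA : NS P A C) (hB : NS P B D) (mA : Measurable A) (mB : Measurable B) (mC : Measurable C)
    (mD : Measurable D) (hi : IndepFun (fun ω => (A ω, C ω)) (fun ω => (B ω, D ω)) P) :
    ∫⁻ ω, ENNReal.ofReal (1 - Real.tanh (A ω + B ω) ^ 2) ∂P ≤
      ∫⁻ ω, ENNReal.ofReal (1 - Real.tanh (B ω) ^ 2) ∂P := by
  have mtA : Measurable (fun ω => Real.tanh (A ω)) := measurable_tanh.comp mA
  have mtB : Measurable (fun ω => Real.tanh (B ω)) := measurable_tanh.comp mB
  have m1 : Measurable (fun x : ℝ × Unit => 1 - Real.tanh x.1 ^ 2) :=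
    measurable_const.sub ((measurable_tanh.comp measurable_fst).pow_const 2)
  have hAB : NS P (fun ω => A ω + B ω) (fun _ => ()) :=
    NS.add hA hB mA mB mC mD hi (fun _ => ()) measurable_const (fun _ _ _ _ => rfl)
  have hB' : NS P B (fun _ => ()) := hB.comp (g := fun _ => ()) measurable_const
  have hev : ∀ (T : Ω → ℝ), Measurable T → NS P T (fun _ => ()) →
      ∫⁻ ω, ENNReal.ofReal (1 - Real.tanh (T ω) ^ 2) ∂P =
        ∫⁻ ω, ENNReal.ofReal (1 - Real.tanh (T ω)) ∂P := by
    intro T mT hT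
    have := hT.even mT measurable_const (fun x => 1 - Real.tanh x.1 ^ 2) m1
      (fun x => (omt2_pos _).le) (fun x c => by simp only [Real.tanh_neg, neg_sq])
    simp only at this
    rw [this]
    apply lintegral_congr
    intro ω
    congr 1
    have := opt_pos (T ω)
    field_simp
    ring
  have hs := hev (fun ω => A ω + B ω) (mA.add mB) hAB
  rw [hs, hev _ mB hB']
  have hA' : NS P A (fun ω => (C ω, B ω)) := hA.of_indep mA mC mB
    (hi.comp measurable_id measurable_fst)
  -- symmetrise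
  have m2 : Measurable (fun x : ℝ × (γ × ℝ) => Real.tanh x.1) :=
    measurable_tanh.comp measurable_fst
  have m3 : Measurable (fun x : ℝ × (γ × ℝ) => Real.tanh x.2.2) :=
    measurable_tanh.comp (by fun_prop)
  have h1 := hA'.sym mA (mC.prodMk mB)
    (fun x => (1 - Real.tanh x.2.2) / (1 + Real.tanh x.1 * Real.tanh x.2.2))
    ((measurable_const.sub m3).div (measurable_const.add (m2.mul m3)))
    (fun x => div_nonneg (omt_pos _).le (optt_pos _ _).le)
  have pos2 : ∀ x y : ℝ, 0 < 1 - Real.tanh x ^ 2 * Real.tanh y ^ 2 := by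
    intro x y
    have a1 := optt_pos x y
    have a2 := optt_pos x (-y)
    rw [Real.tanh_neg] at a2
    nlinarith [mul_pos a1 a2]
  have h2 := hA'.even mA (mC.prodMk mB)
    (fun x => (1 - Real.tanh x.1 ^ 2) * (1 - Real.tanh x.2.2) /
      (1 - Real.tanh x.1 ^ 2 * Real.tanh x.2.2 ^ 2))
    (((measurable_const.sub (m2.pow_const 2)).mul (measurable_const.sub m3)).div
      (measurable_const.sub ((m2.pow_const 2).mul (m3.pow_const 2))))
    (fun x => div_nonneg (mul_nonneg (omt2_pos _).le (omt_pos _).le) (pos2 _ _).le)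
    (fun x c => by simp only [Real.tanh_neg, neg_sq])
  simp only at h1 h2
  have e1 : ∀ ω, (1 - Real.tanh (B ω)) / (1 + Real.tanh (A ω) * Real.tanh (B ω)) *
      (1 - Real.tanh (A ω)) = 1 - Real.tanh (A ω + B ω) := by
    intro ω
    rw [one_sub_tanh_add]
    ring
  have e2 : ∀ ω, ((1 - Real.tanh (B ω)) / (1 + Real.tanh (A ω) * Real.tanh (B ω)) +
      (1 - Real.tanh (B ω)) / (1 + Real.tanh (-A ω) * Real.tanh (B ω))) *
      (1 - Real.tanh (A ω)) = 2 * ((1 - Real.tanh (A ω) ^ 2) * (1 - Real.tanh (B ω)) /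
      (1 - Real.tanh (A ω) ^ 2 * Real.tanh (B ω) ^ 2) / (1 + Real.tanh (A ω))) := by
    intro ω
    have a1 := optt_pos (A ω) (B ω)
    have a2 := optt_pos (-A ω) (B ω)
    have a3 := pos2 (A ω) (B ω)
    have a4 := opt_pos (A ω)
    rw [Real.tanh_neg] at a2 ⊢
    rw [div_add_div _ _ a1.ne' a2.ne', div_mul_eq_mul_div, div_div, mul_div_assoc', div_eq_div_iff
      (mul_pos a1 a2).ne' (mul_pos a3 a4).ne']
    ring
  simp only [e1, e2] at h1
  have e3 : ∀ ω, ENNReal.ofReal (2 * ((1 - Real.tanh (A ω) ^ 2) * (1 - Real.tanh (B ω)) /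
      (1 - Real.tanh (A ω) ^ 2 * Real.tanh (B ω) ^ 2) / (1 + Real.tanh (A ω)))) =
      2 * ENNReal.ofReal ((1 - Real.tanh (A ω) ^ 2) * (1 - Real.tanh (B ω)) /
      (1 - Real.tanh (A ω) ^ 2 * Real.tanh (B ω) ^ 2) / (1 + Real.tanh (A ω))) := by
    intro ω
    rw [ENNReal.ofReal_mul (by norm_num)]
    norm_num
  simp only [e3] at h1
  rw [lintegral_const_mul' _ _ (by norm_num)] at h1
  rw [(ENNReal.mul_right_inj (a := 2) (by norm_num) (by norm_num)).1 h1, ← h2]
  apply lintegral_mono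
  intro ω
  apply ENNReal.ofReal_le_ofReal
  have a3 := pos2 (A ω) (B ω)
  rw [div_le_iff₀ a3, mul_comm]
  apply mul_le_mul_of_nonneg_left _ (omt_pos _).le
  have a5 := omt2_pos (B ω)
  nlinarith [sq_nonneg (Real.tanh (A ω))]

end Crest.Agent.IsgNS
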