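import Crest.Agent.IsgPair

set_option autoImplicit false

/-!
Module NEAR of S0241: near bound of the kernel from temperedness, and the strictly subcritical case.
-/

open MeasureTheory ProbabilityTheory Filter Topology

namespace Crest.Agent.IsgNear

open Crest.Agent.Isg Crest.Agent.IsgPair

variable {b : ℕ}

lemma tanh_le_self {x : ℝ} (hx : 0 ≤ x) : Real.tanh x ≤ x := by
  have := Convex.norm_image_sub_le_of_norm_hasDerivWithin_le (f := Real.tanh)
    (f' := fun x => 1 - Real.tanh x ^ 2) (C := 1) (s := Set.univ) (x := 0) (y := x)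
    (fun z _ => (IsgDet.hasDerivAt_tanh z).hasDerivWithinAt)
    (fun z _ => by
      rw [Real.norm_eq_abs, abs_of_pos (IsgDet.one_sub_tanh_sq_pos z)]
      nlinarith [sq_nonneg (Real.tanh z)]) convex_univ (Set.mem_univ _) (Set.mem_univ _)
  rw [Real.tanh_zero, sub_zero, sub_zero, one_mul, Real.norm_eq_abs, Real.norm_eq_abs,
    abs_of_nonneg hx] at this
  exact (le_abs_self _).trans this

lemma g0_diff_small {θ : ℝ} (h0 : 0 ≤ θ) (h1 : θ < 1) {x y η : ℝ} (hη : 0 ≤ η) (hx : |x| ≤ η)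
    (hy : |y| ≤ η) : (IsgDet.g0 θ x - IsgDet.g0 θ y) ^ 2 ≤ 4 * η ^ 2 * (x - y) ^ 2 := by
  have key := Convex.norm_image_sub_le_of_norm_hasDerivWithin_le (f := IsgDet.g0 θ)
    (f' := fun x => 2 * Real.tanh x * (1 - θ ^ 2) / (1 - θ ^ 2 * Real.tanh x ^ 2))
    (C := 2 * Real.tanh η) (s := Set.Icc (-η) η) (x := y) (y := x)
    (fun z _ => (IsgDet.hasDerivAt_g0 h0 h1 z).hasDerivWithinAt)
    (fun z hz => by
      rw [Real.norm_eq_abs]
      refine (IsgDet.g0_deriv_le h0 h1 z).trans ?_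
      rw [IsgDet.abs_tanh]
      have := IsgDet.tanh_le_tanh (abs_le.2 hz)
      linarith) (convex_Icc _ _) (abs_le.1 hy) (abs_le.1 hx)
  rw [Real.norm_eq_abs, Real.norm_eq_abs] at key
  have h2 : 0 ≤ Real.tanh η := IsgDet.tanh_nonneg hη
  have h3 := tanh_le_self hη
  calc (IsgDet.g0 θ x - IsgDet.g0 θ y) ^ 2 = |IsgDet.g0 θ x - IsgDet.g0 θ y| ^ 2 := (sq_abs _).symm
    _ ≤ (2 * Real.tanh η * |x - y|) ^ 2 := pow_le_pow_left₀ (abs_nonneg _) key 2
    _ = 4 * Real.tanh η ^ 2 * (x - y) ^ 2 := by rw [mul_pow, sq_abs]; ring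
    _ ≤ 4 * η ^ 2 * (x - y) ^ 2 := by
        apply mul_le_mul_of_nonneg_right _ (sq_nonneg _)
        have := pow_le_pow_left₀ h2 h3 2
        linarith

lemma tsum_sphere (m : ℕ) (F : V b → ENNReal) :
    ∑' w : V b, (if len w = m then F w else 0) = ∑ w ∈ Sph b m, F w := by
  rw [tsum_eq_sum (s := Sph b m)]
  · apply Finset.sum_congr rfl
    intro w hw
    rw [if_pos (mem_Sph.1 hw)]
  · intro w hw
    rw [mem_Sph] at hw
    rw [if_neg hw]

lemma card_Sph_le (hb : 1 ≤ b) (m : ℕ) : (Sph b m).card ≤ 2 * b ^ m := by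
  cases m with
  | zero => rw [Sph_zero]; simp
  | succ m =>
    rw [card_Sph_succ, pow_succ]
    have : 0 < b ^ m := by positivity
    nlinarith

/-- `(x - y)^2 ≤ (log x - log y)^2` on `(0, 1]`. -/
lemma sub_sq_le_log {x y : ℝ} (hx : 0 < x) (hx1 : x ≤ 1) (hy : 0 < y) (hy1 : y ≤ 1) :
    (x - y) ^ 2 ≤ (Real.log x - Real.log y) ^ 2 := by
  have h := IsgDet.exp_lip (S := -Real.log x) (S' := -Real.log y)
    (by linarith [Real.log_nonpos hx.le hx1]) (by linarith [Real.log_nonpos hy.le hy1])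
  rw [neg_neg, neg_neg, Real.exp_log hx, Real.exp_log hy] at h
  nlinarith

section law

variable {θ H : ℝ} {ρ : Measure ℝ} {L : Measure ((V b → ℝ) × (V b → ℝ))}

lemma lintegral_KK (hL : PairLaw b θ ρ L) (R : Set ℕ) : ∫⁻ p, KK θ R p.1 p.2 ∂L =
    ∑' w : V b, (R.indicator (fun _ => (1 : ENNReal)) (len w)) *
      ∫⁻ p, ENNReal.ofReal (8 * (CC θ p.1 (rt b) w - CC θ p.2 (rt b) w) ^ 2 +
      32 * CC θ p.2 (rt b) w ^ 2 * (M θ p.1 w - M θ p.2 w) ^ 2) ∂L := by
  have hm : ∀ w : V b, Measurable (fun p : (V b → ℝ) × (V b → ℝ) =>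
      ENNReal.ofReal (8 * (CC θ p.1 (rt b) w - CC θ p.2 (rt b) w) ^ 2 +
      32 * CC θ p.2 (rt b) w ^ 2 * (M θ p.1 w - M θ p.2 w) ^ 2)) := by
    intro w
    apply Measurable.ennreal_ofReal
    have h1 : Measurable (fun p : (V b → ℝ) × (V b → ℝ) => CC θ p.1 (rt b) w) :=
      (measurable_CC θ _ _).comp measurable_fst
    have h2 : Measurable (fun p : (V b → ℝ) × (V b → ℝ) => CC θ p.2 (rt b) w) :=
      (measurable_CC θ _ _).comp measurable_snd
    have h3 : Measurable (fun p : (V b → ℝ) × (V b → ℝ) => M θ p.1 w) :=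
      (measurable_M θ _).comp measurable_fst
    have h4 : Measurable (fun p : (V b → ℝ) × (V b → ℝ) => M θ p.2 w) :=
      (measurable_M θ _).comp measurable_snd
    exact (((h1.sub h2).pow_const 2).const_mul 8).add
      (((h2.pow_const 2).const_mul 32).mul ((h3.sub h4).pow_const 2))
  unfold KK
  rw [lintegral_tsum (fun w => ((hm w).const_mul _).aemeasurable)]
  congr 1
  ext w
  rw [lintegral_const_mul _ (hm w)]

/-- the second moment of the message difference. -/
lemma lintegral_msg {L1 : ℝ} (hL : PairLaw b θ ρ L)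
    (hmsg : ∀ᵐ p ∂L, ∀ (u : V b) (i : Fin (b + 1)), |lmI θ p.1 u i - lmI θ p.2 u i| ≤
      L1 * (|M θ p.1 u - M θ p.2 u| + |M θ p.1 (nb i u) - M θ p.2 (nb i u)|))
    (u : V b) (i : Fin (b + 1)) :
    ∫⁻ p, ENNReal.ofReal ((lmI θ p.1 u i - lmI θ p.2 u i) ^ 2) ∂L ≤
      ENNReal.ofReal (4 * L1 ^ 2) * AA θ L := by
  have h1 : ∀ᵐ p ∂L, ENNReal.ofReal ((lmI θ p.1 u i - lmI θ p.2 u i) ^ 2) ≤
      ENNReal.ofReal (2 * L1 ^ 2) * (ENNReal.ofReal (del θ p.1 p.2 u ^ 2) +
        ENNReal.ofReal (del θ p.1 p.2 (nb i u) ^ 2)) := by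
    filter_upwards [hmsg] with p hp
    rw [← ENNReal.ofReal_add (sq_nonneg _) (sq_nonneg _), ← ENNReal.ofReal_mul (by positivity)]
    apply ENNReal.ofReal_le_ofReal
    have h2 := hp u i
    change |lmI θ p.1 u i - lmI θ p.2 u i| ≤ L1 * (|del θ p.1 p.2 u| + |del θ p.1 p.2 (nb i u)|)
      at h2
    set A := |del θ p.1 p.2 u| with hA
    set B := |del θ p.1 p.2 (nb i u)| with hB
    have h4 : (lmI θ p.1 u i - lmI θ p.2 u i) ^ 2 ≤ (L1 * (A + B)) ^ 2 := by
      rw [← sq_abs]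
      exact pow_le_pow_left₀ (abs_nonneg _) h2 2
    have h5 : del θ p.1 p.2 u ^ 2 = A ^ 2 := by rw [hA, sq_abs]
    have h6 : del θ p.1 p.2 (nb i u) ^ 2 = B ^ 2 := by rw [hB, sq_abs]
    rw [h5, h6]
    calc _ ≤ (L1 * (A + B)) ^ 2 := h4
      _ = L1 ^ 2 * (A + B) ^ 2 := by ring
      _ ≤ L1 ^ 2 * (2 * (A ^ 2 + B ^ 2)) := by
          apply mul_le_mul_of_nonneg_left _ (sq_nonneg L1)
          nlinarith [sq_nonneg (A - B)]
      _ = _ := by ring
  refine (lintegral_mono_ae h1).trans ?_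
  have hsum : Measurable (fun p : (V b → ℝ) × (V b → ℝ) =>
      ENNReal.ofReal (del θ p.1 p.2 u ^ 2) + ENNReal.ofReal (del θ p.1 p.2 (nb i u) ^ 2)) :=
    (((measurable_del θ u).pow_const 2).ennreal_ofReal).add
      (((measurable_del θ (nb i u)).pow_const 2).ennreal_ofReal)
  rw [lintegral_const_mul _ hsum,
    lintegral_add_left ((measurable_del θ u).pow_const 2).ennreal_ofReal, AA_eq hL, AA_eq hL]
  rw [← two_mul, ← mul_assoc]
  apply le_of_eq
  congr 1
  rw [show (4 : ℝ) * L1 ^ 2 = (2 * L1 ^ 2) * 2 by ring,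
    ENNReal.ofReal_mul (show (0 : ℝ) ≤ 2 * L1 ^ 2 by positivity), ENNReal.ofReal_ofNat]

end law

theorem strictKK (hG : Spec.GoodPL) : Spec.StrictKK := by
  intro b θ hb h0 hlt H
  have hb1 : (2 : ℝ) ≤ b := by exact_mod_cast hb
  have h1 : θ < 1 := by
    by_contra hcon
    push Not at hcon
    have : 1 ≤ θ ^ 2 := one_le_pow₀ hcon
    nlinarith
  obtain ⟨L1, hL1, hmsg⟩ := IsgDet.msgLip b θ h0 h1 H
  obtain ⟨C1, hC1, hcomp⟩ := IsgDet.ddComp b θ h0 h1 H
  set K : ℝ := 64 * C1 * L1 ^ 2 + 96 with hK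
  have hKpos : 0 ≤ K := by positivity
  set f : ℕ → ENNReal := fun m => ENNReal.ofReal (θ ^ (2 * m) * (K * (m + 1) ^ 2)) with hf
  -- finiteness
  have hfin : ∑' w : V b, f (len w) ≠ ⊤ := by
    rw [tsum_len]
    apply ENNReal.add_ne_top.2
    refine ⟨ENNReal.ofReal_ne_top, ?_⟩
    have e1 : ∀ n : ℕ, (((b + 1) * b ^ n : ℕ) : ENNReal) * f (n + 1) =
        ENNReal.ofReal (((b : ℝ) + 1) * θ ^ 2 * K * (((n : ℝ) ^ 2 * (b * θ ^ 2) ^ n) +
          4 * ((n : ℝ) ^ 1 * (b * θ ^ 2) ^ n) + 4 * (b * θ ^ 2) ^ n)) := by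
      intro n
      rw [hf]
      simp only
      rw [← ENNReal.ofReal_natCast, ← ENNReal.ofReal_mul (by positivity)]
      congr 1
      push_cast
      rw [mul_pow]
      ring
    simp only [e1]
    have hr : ‖(b : ℝ) * θ ^ 2‖ < 1 := by
      rw [Real.norm_eq_abs, abs_of_nonneg (by positivity)]
      exact hlt
    have hs : Summable (fun n : ℕ => ((b : ℝ) + 1) * θ ^ 2 * K * (((n : ℝ) ^ 2 *
        (b * θ ^ 2) ^ n) + 4 * ((n : ℝ) ^ 1 * (b * θ ^ 2) ^ n) + 4 * (b * θ ^ 2) ^ n)) := by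
      apply Summable.mul_left
      exact ((summable_pow_mul_geometric_of_norm_lt_one 2 hr).add
        ((summable_pow_mul_geometric_of_norm_lt_one 1 hr).mul_left 4)).add
        ((summable_geometric_of_norm_lt_one hr).mul_left 4)
    rw [← ENNReal.ofReal_tsum_of_nonneg (fun n => by positivity) hs]
    exact ENNReal.ofReal_ne_top
  refine ⟨(∑' w : V b, f (len w)).toReal, ENNReal.toReal_nonneg, ?_⟩
  intro ρ L hρ hL
  rw [ENNReal.ofReal_toReal hfin, lintegral_KK hL, ← ENNReal.tsum_mul_right]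
  apply ENNReal.tsum_le_tsum
  intro w
  rw [Set.indicator_of_mem (Set.mem_univ _), one_mul]
  have hgood := ae_good hG (by omega) h0 h1 hρ hL
  have hPSm := (measurable_PS θ (rt b) w.l).ennreal_ofReal
  have key : ∀ᵐ p ∂L, ENNReal.ofReal (8 * (CC θ p.1 (rt b) w - CC θ p.2 (rt b) w) ^ 2 +
      32 * CC θ p.2 (rt b) w ^ 2 * (M θ p.1 w - M θ p.2 w) ^ 2) ≤
      ENNReal.ofReal (θ ^ (2 * len w) * (K * (len w + 1))) *
        ENNReal.ofReal (PS θ p.1 p.2 (rt b) w.l) := by
    filter_upwards [hgood] with p hp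
    obtain ⟨hp1, hp2⟩ := hp
    rw [← ENNReal.ofReal_mul (by positivity)]
    apply ENNReal.ofReal_le_ofReal
    refine (KKterm_le h0 h1 p.1 p.2 w).trans ?_
    rw [mul_assoc (θ ^ (2 * len w))]
    apply mul_le_mul_of_nonneg_left _ (by positivity)
    have h2 := (hcomp p.1 p.2 hp1 hp2 (rt b) w.l).2
    change (DD θ p.1 (rt b) w - DD θ p.2 (rt b) w) ^ 2 ≤
        C1 * len w * SQl θ p.1 p.2 (rt b) w.l at h2
    have h3 := SQl_le_PS (hmsg p.1 p.2 hp1 hp2) (rt b) w.l
    have h4 := del_start_le_PS θ p.1 p.2 (rt b) w.l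
    have h5 := del_end_le_PS θ p.1 p.2 (rt b) w.l
    have hwf : follow (rt b) w.l = w := follow_rt w.l w.h
    rw [hwf] at h3 h5
    have hPS := PS_nonneg θ p.1 p.2 (rt b) w.l
    have hD' := DD_pos h0 h1 p.2 (rt b) w
    have hD'1 := DD_le_one h0 h1 p.2 (rt b) w
    set D := DD θ p.1 (rt b) w
    set D' := DD θ p.2 (rt b) w
    set P := PS θ p.1 p.2 (rt b) w.l
    set S := SQl θ p.1 p.2 (rt b) w.l
    have h6 : 0 ≤ 2 * L1 ^ 2 * del θ p.1 p.2 w ^ 2 := by positivity
    have h7 : S ≤ 4 * L1 ^ 2 * P := by linarith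
    have hn : (0 : ℝ) ≤ len w := Nat.cast_nonneg _
    have h8 : (D - D') ^ 2 ≤ C1 * len w * (4 * L1 ^ 2 * P) :=
      h2.trans (mul_le_mul_of_nonneg_left h7 (by positivity))
    have a1 : del θ p.1 p.2 (rt b) ^ 2 * D' ≤ P * 1 := mul_le_mul h4 hD'1 hD'.le hPS
    have a2 : del θ p.1 p.2 w ^ 2 * D' ≤ P * 1 := mul_le_mul h5 hD'1 hD'.le hPS
    have a3 : K * (len w + 1) * P = 16 * (C1 * len w * (4 * L1 ^ 2 * P)) +
        96 * P + 64 * C1 * L1 ^ 2 * P + 96 * (len w * P) := by rw [hK]; ring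
    have a4 : 0 ≤ 64 * C1 * L1 ^ 2 * P := by positivity
    have a5 : 0 ≤ (len w : ℝ) * P := by positivity
    rw [a3]
    linarith
  refine (lintegral_mono_ae key).trans ?_
  rw [lintegral_const_mul _ hPSm, lintegral_PS hL, ← mul_assoc]
  gcongr
  rw [hf]
  simp only
  rw [← ENNReal.ofReal_natCast, ← ENNReal.ofReal_mul (by positivity)]
  apply le_of_eq
  congr 1
  change _ * (((len w + 1 : ℕ)) : ℝ) = _
  push_cast
  ring

theorem near (hT : Spec.Temper) (hG : Spec.GoodPL) : Spec.Near := by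
  intro b θ hb hθ hcrit H
  have h0 : 0 ≤ θ := hθ.le
  have hb1 : (1 : ℝ) < b := by exact_mod_cast (show 1 < b by omega)
  have hb0 : (0 : ℝ) < b := by linarith
  have h1 : θ < 1 := by
    by_contra hcon
    push Not at hcon
    have : 1 ≤ θ ^ 2 := one_le_pow₀ hcon
    nlinarith
  have hθb : θ ^ 2 = (b : ℝ)⁻¹ := by
    rw [← one_div, eq_div_iff (by positivity)]
    linarith
  obtain ⟨c, _, hc, _, hdet⟩ := IsgDet.detBounds b θ h0 h1 H
  obtain ⟨L1, hL1, hmsg⟩ := IsgDet.msgLip b θ h0 h1 H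
  obtain ⟨CT, hCT, htemp⟩ := hT b θ hb h0 h1
  set K : ℝ := Real.log c ^ 2 with hK
  have hK0 : 0 ≤ K := sq_nonneg _
  set C : ℝ := 256 * CT * (b + 1) * L1 ^ 2 + 192 + 32 * CT * K with hC
  refine ⟨C, by positivity, ?_⟩
  intro ρ L hρ hL η n hη hη1
  have hgood := ae_good hG (by omega) h0 h1 hρ hL
  -- the sum of the squared differences of `gg`
  set S : ENNReal := ∑ i, ∫⁻ p, ENNReal.ofReal ((gg θ p.1 (rt b) i - gg θ p.2 (rt b) i) ^ 2) ∂L
    with hS
  have hmeasLM : ∀ i : Fin (b + 1), MeasurableSet {h : V b → ℝ | η < |lmI θ h (rt b) i|} := by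
    intro i
    exact measurableSet_lt measurable_const (measurable_norm.comp (measurable_lmI θ (rt b) i))
  have hSi : ∀ i : Fin (b + 1),
      ∫⁻ p, ENNReal.ofReal ((gg θ p.1 (rt b) i - gg θ p.2 (rt b) i) ^ 2) ∂L ≤
        ENNReal.ofReal (16 * L1 ^ 2 * η ^ 2) * AA θ L +
          ENNReal.ofReal (2 * K) * PL b θ ρ {h | η < |lmI θ h (rt b) i|} := by
    intro i
    have k1 : ∀ᵐ p ∂L, ENNReal.ofReal ((gg θ p.1 (rt b) i - gg θ p.2 (rt b) i) ^ 2) ≤
        ENNReal.ofReal (4 * η ^ 2) * ENNReal.ofReal ((lmI θ p.1 (rt b) i -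
            lmI θ p.2 (rt b) i) ^ 2) +
          (ENNReal.ofReal K * Set.indicator {q : (V b → ℝ) × (V b → ℝ) |
              η < |lmI θ q.1 (rt b) i|} (fun _ => 1) p +
            ENNReal.ofReal K * Set.indicator {q : (V b → ℝ) × (V b → ℝ) |
              η < |lmI θ q.2 (rt b) i|} (fun _ => 1) p) := by
      filter_upwards [hgood] with p hp
      obtain ⟨hp1, hp2⟩ := hp
      change ENNReal.ofReal ((IsgDet.g0 θ (lmI θ p.1 (rt b) i) -
        IsgDet.g0 θ (lmI θ p.2 (rt b) i)) ^ 2) ≤ _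
      have hbd : (IsgDet.g0 θ (lmI θ p.1 (rt b) i) - IsgDet.g0 θ (lmI θ p.2 (rt b) i)) ^ 2
          ≤ K := by
        have c1 := (hdet p.1 hp1).2.1 (rt b) i
        have c2 := (hdet p.2 hp2).2.1 (rt b) i
        have d1 := IsgDet.g0_nonneg h0 h1 (lmI θ p.1 (rt b) i)
        have d2 := IsgDet.g0_nonneg h0 h1 (lmI θ p.2 (rt b) i)
        have d3 : IsgDet.g0 θ (lmI θ p.1 (rt b) i) ≤ -Real.log c := by
          unfold IsgDet.g0
          have := Real.log_le_log hc c1.1
          linarith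
        have d4 : IsgDet.g0 θ (lmI θ p.2 (rt b) i) ≤ -Real.log c := by
          unfold IsgDet.g0
          have := Real.log_le_log hc c2.1
          linarith
        rw [hK]
        nlinarith
      by_cases hx : η < |lmI θ p.1 (rt b) i|
      · have e1 : Set.indicator {q : (V b → ℝ) × (V b → ℝ) |
              η < |lmI θ q.1 (rt b) i|} (fun _ => (1 : ENNReal)) p = 1 :=
          Set.indicator_of_mem (by exact hx) _
        rw [e1, mul_one]
        refine (ENNReal.ofReal_le_ofReal hbd).trans ?_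
        rw [← add_assoc]
        refine le_trans ?_ le_self_add
        exact le_add_self
      · by_cases hy : η < |lmI θ p.2 (rt b) i|
        · have e1 : Set.indicator {q : (V b → ℝ) × (V b → ℝ) |
              η < |lmI θ q.2 (rt b) i|} (fun _ => (1 : ENNReal)) p = 1 :=
            Set.indicator_of_mem (by exact hy) _
          rw [e1, mul_one]
          refine (ENNReal.ofReal_le_ofReal hbd).trans ?_
          rw [← add_assoc]
          exact le_add_self
        · push Not at hx hy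
          have h2 := g0_diff_small h0 h1 hη.le hx hy
          rw [← ENNReal.ofReal_mul (by positivity)]
          exact (ENNReal.ofReal_le_ofReal h2).trans le_self_add
    refine (lintegral_mono_ae k1).trans ?_
    have m1 : Measurable (fun p : (V b → ℝ) × (V b → ℝ) =>
        ENNReal.ofReal ((lmI θ p.1 (rt b) i - lmI θ p.2 (rt b) i) ^ 2)) :=
      ((((measurable_lmI θ (rt b) i).comp measurable_fst).sub
        ((measurable_lmI θ (rt b) i).comp measurable_snd)).pow_const 2).ennreal_ofReal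
    have s1 : MeasurableSet {q : (V b → ℝ) × (V b → ℝ) | η < |lmI θ q.1 (rt b) i|} :=
      measurable_fst (hmeasLM i)
    have s2 : MeasurableSet {q : (V b → ℝ) × (V b → ℝ) | η < |lmI θ q.2 (rt b) i|} :=
      measurable_snd (hmeasLM i)
    have i1 : Measurable (Set.indicator {q : (V b → ℝ) × (V b → ℝ) |
              η < |lmI θ q.1 (rt b) i|} (fun _ => (1 : ENNReal))) := measurable_const.indicator s1
    have i2 : Measurable (Set.indicator {q : (V b → ℝ) × (V b → ℝ) |
              η < |lmI θ q.2 (rt b) i|} (fun _ => (1 : ENNReal))) := measurable_const.indicator s2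
    rw [lintegral_add_left (m1.const_mul _), lintegral_add_left (i1.const_mul _),
      lintegral_const_mul _ m1, lintegral_const_mul _ i1, lintegral_const_mul _ i2,
      lintegral_indicator_const s1, lintegral_indicator_const s2, one_mul, one_mul]
    have q1 : L {q : (V b → ℝ) × (V b → ℝ) | η < |lmI θ q.1 (rt b) i|} =
        PL b θ ρ {h | η < |lmI θ h (rt b) i|} := by
      rw [← hL.fst, Measure.map_apply measurable_fst (hmeasLM i)]
      rfl
    have q2 : L {q : (V b → ℝ) × (V b → ℝ) | η < |lmI θ q.2 (rt b) i|} =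
        PL b θ ρ {h | η < |lmI θ h (rt b) i|} := by
      rw [← hL.snd, Measure.map_apply measurable_snd (hmeasLM i)]
      rfl
    rw [q1, q2]
    have hmsg' : ∀ᵐ p ∂L, ∀ (u : V b) (i : Fin (b + 1)), |lmI θ p.1 u i - lmI θ p.2 u i| ≤
        L1 * (|M θ p.1 u - M θ p.2 u| + |M θ p.1 (nb i u) - M θ p.2 (nb i u)|) := by
      filter_upwards [hgood] with p hp
      exact hmsg p.1 p.2 hp.1 hp.2
    have r1 := lintegral_msg hL hmsg' (rt b) i
    have r2 : ENNReal.ofReal (4 * η ^ 2) * ∫⁻ p, ENNReal.ofReal ((lmI θ p.1 (rt b) i -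
            lmI θ p.2 (rt b) i) ^ 2) ∂L ≤ ENNReal.ofReal (16 * L1 ^ 2 * η ^ 2) * AA θ L := by
      calc _ ≤ ENNReal.ofReal (4 * η ^ 2) * (ENNReal.ofReal (4 * L1 ^ 2) * AA θ L) := by gcongr
        _ = _ := by
          rw [← mul_assoc, ← ENNReal.ofReal_mul (by positivity)]
          congr 2
          ring
    have r3 : ENNReal.ofReal (2 * K) = ENNReal.ofReal K + ENNReal.ofReal K := by
      rw [← ENNReal.ofReal_add hK0 hK0]; congr 1; ring
    rw [r3, add_mul]
    gcongr
  have hSle : S ≤ ENNReal.ofReal (16 * (b + 1) * L1 ^ 2 * η ^ 2) * AA θ L +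
      ENNReal.ofReal (2 * K) * ∑ i, PL b θ ρ {h | η < |lmI θ h (rt b) i|} := by
    rw [hS]
    refine (Finset.sum_le_sum (fun i _ => hSi i)).trans ?_
    rw [Finset.sum_add_distrib, Finset.mul_sum, Finset.sum_const, Finset.card_univ,
      Fintype.card_fin, nsmul_eq_mul]
    have e : ((b + 1 : ℕ) : ENNReal) * (ENNReal.ofReal (16 * L1 ^ 2 * η ^ 2) * AA θ L) =
        ENNReal.ofReal (16 * (b + 1) * L1 ^ 2 * η ^ 2) * AA θ L := by
      rw [← mul_assoc, ← ENNReal.ofReal_natCast, ← ENNReal.ofReal_mul (by positivity)]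
      congr 2
      push_cast
      ring
    rw [e]
  -- one word
  have hterm : ∀ w : V b, ∫⁻ p, ENNReal.ofReal (8 * (CC θ p.1 (rt b) w - CC θ p.2 (rt b) w) ^ 2 +
      32 * CC θ p.2 (rt b) w ^ 2 * (M θ p.1 w - M θ p.2 w) ^ 2) ∂L ≤
      ENNReal.ofReal (((b : ℝ)⁻¹) ^ len w) * (16 * ∫⁻ p, ENNReal.ofReal ((Real.log
        (DD θ p.1 (rt b) w) - Real.log (DD θ p.2 (rt b) w)) ^ 2) ∂L + 96 * AA θ L) := by
    intro w
    have mlog : Measurable (fun p : (V b → ℝ) × (V b → ℝ) => ENNReal.ofReal ((Real.log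
        (DD θ p.1 (rt b) w) - Real.log (DD θ p.2 (rt b) w)) ^ 2)) := by
      apply Measurable.ennreal_ofReal
      apply Measurable.pow_const
      exact (((measurable_DD θ (rt b) w).comp measurable_fst).log).sub
        (((measurable_DD θ (rt b) w).comp measurable_snd).log)
    have md1 := ((measurable_del (b := b) θ (rt b)).pow_const 2).ennreal_ofReal
    have md2 := ((measurable_del (b := b) θ w).pow_const 2).ennreal_ofReal
    have key : ∀ p : (V b → ℝ) × (V b → ℝ),
        ENNReal.ofReal (8 * (CC θ p.1 (rt b) w - CC θ p.2 (rt b) w) ^ 2 +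
      32 * CC θ p.2 (rt b) w ^ 2 * (M θ p.1 w - M θ p.2 w) ^ 2) ≤
        ENNReal.ofReal (((b : ℝ)⁻¹) ^ len w) * ((16 * ENNReal.ofReal ((Real.log
        (DD θ p.1 (rt b) w) - Real.log (DD θ p.2 (rt b) w)) ^ 2) +
          64 * ENNReal.ofReal (del θ p.1 p.2 (rt b) ^ 2)) +
          32 * ENNReal.ofReal (del θ p.1 p.2 w ^ 2)) := by
      intro p
      have hD := DD_pos h0 h1 p.1 (rt b) w
      have hD1 := DD_le_one h0 h1 p.1 (rt b) w
      have hD' := DD_pos h0 h1 p.2 (rt b) w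
      have hD'1 := DD_le_one h0 h1 p.2 (rt b) w
      have hlog := sub_sq_le_log hD hD1 hD' hD'1
      rw [show (16 : ENNReal) = ENNReal.ofReal 16 by simp,
        show (64 : ENNReal) = ENNReal.ofReal 64 by simp,
        show (32 : ENNReal) = ENNReal.ofReal 32 by simp,
        ← ENNReal.ofReal_mul (by norm_num), ← ENNReal.ofReal_mul (by norm_num),
        ← ENNReal.ofReal_mul (by norm_num), ← ENNReal.ofReal_add (by positivity) (by positivity),
        ← ENNReal.ofReal_add (by positivity) (by positivity), ← ENNReal.ofReal_mul (by positivity)]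
      apply ENNReal.ofReal_le_ofReal
      refine (KKterm_le h0 h1 p.1 p.2 w).trans ?_
      rw [pow_mul, hθb]
      apply mul_le_mul_of_nonneg_left _ (by positivity)
      have a1 : del θ p.1 p.2 (rt b) ^ 2 * DD θ p.2 (rt b) w ≤ del θ p.1 p.2 (rt b) ^ 2 := by
        have := mul_le_mul_of_nonneg_left hD'1 (sq_nonneg (del θ p.1 p.2 (rt b)))
        rwa [mul_one] at this
      have a2 : del θ p.1 p.2 w ^ 2 * DD θ p.2 (rt b) w ≤ del θ p.1 p.2 w ^ 2 := by
        have := mul_le_mul_of_nonneg_left hD'1 (sq_nonneg (del θ p.1 p.2 w))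
        rwa [mul_one] at this
      linarith
    refine (lintegral_mono key).trans ?_
    have ms1 : Measurable (fun p : (V b → ℝ) × (V b → ℝ) =>
        (16 : ENNReal) * ENNReal.ofReal ((Real.log
        (DD θ p.1 (rt b) w) - Real.log (DD θ p.2 (rt b) w)) ^ 2) +
          64 * ENNReal.ofReal (del θ p.1 p.2 (rt b) ^ 2)) :=
      (mlog.const_mul _).add (md1.const_mul _)
    have ms2 : Measurable (fun p : (V b → ℝ) × (V b → ℝ) =>
        ((16 : ENNReal) * ENNReal.ofReal ((Real.log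
        (DD θ p.1 (rt b) w) - Real.log (DD θ p.2 (rt b) w)) ^ 2) +
          64 * ENNReal.ofReal (del θ p.1 p.2 (rt b) ^ 2)) +
          32 * ENNReal.ofReal (del θ p.1 p.2 w ^ 2)) :=
      ms1.add (md2.const_mul _)
    rw [lintegral_const_mul _ ms2, lintegral_add_left ms1,
      lintegral_add_left (mlog.const_mul _), lintegral_const_mul _ mlog,
      lintegral_const_mul _ md1, lintegral_const_mul _ md2, AA_eq hL, AA_eq hL, add_assoc,
      ← add_mul]
    apply le_of_eq
    congr 4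
    norm_num
  -- the sum over a sphere
  have hsph : ∀ m : ℕ, ∑' w : V b, (if len w = m then
      ENNReal.ofReal (((b : ℝ)⁻¹) ^ len w) * (16 * ∫⁻ p, ENNReal.ofReal ((Real.log
        (DD θ p.1 (rt b) w) - Real.log (DD θ p.2 (rt b) w)) ^ 2) ∂L + 96 * AA θ L) else 0) ≤
      ENNReal.ofReal (16 * CT * m) * S + 192 * AA θ L := by
    intro m
    have t1 := htemp ρ H L hρ hL m
    rw [tsum_sphere] at t1 ⊢
    have t2 : ∑ w ∈ Sph b m, ENNReal.ofReal (((b : ℝ)⁻¹) ^ len w) *
        (16 * ∫⁻ p, ENNReal.ofReal ((Real.log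
        (DD θ p.1 (rt b) w) - Real.log (DD θ p.2 (rt b) w)) ^ 2) ∂L + 96 * AA θ L) =
        ENNReal.ofReal (((b : ℝ)⁻¹) ^ m) * (16 * (∑ w ∈ Sph b m, ∫⁻ p, ENNReal.ofReal ((Real.log
        (DD θ p.1 (rt b) w) - Real.log (DD θ p.2 (rt b) w)) ^ 2) ∂L) +
          ((Sph b m).card : ENNReal) * (96 * AA θ L)) := by
      rw [Finset.mul_sum, ← nsmul_eq_mul, ← Finset.sum_const, ← Finset.sum_add_distrib,
        Finset.mul_sum]
      apply Finset.sum_congr rfl
      intro w hw
      rw [mem_Sph.1 hw]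
    rw [t2]
    have t3 : ((Sph b m).card : ENNReal) ≤ ENNReal.ofReal (2 * (b : ℝ) ^ m) := by
      have := card_Sph_le (b := b) (by omega) m
      rw [← ENNReal.ofReal_natCast]
      apply ENNReal.ofReal_le_ofReal
      exact_mod_cast this
    have hbm : ((b : ℝ)⁻¹) ^ m * (b : ℝ) ^ m = 1 := by
      rw [← mul_pow, inv_mul_cancel₀ hb0.ne', one_pow]
    calc _ ≤ ENNReal.ofReal (((b : ℝ)⁻¹) ^ m) * (16 * (ENNReal.ofReal (CT * m * (b : ℝ) ^ m) * S) +
          ENNReal.ofReal (2 * (b : ℝ) ^ m) * (96 * AA θ L)) := by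
          gcongr
      _ = (ENNReal.ofReal (((b : ℝ)⁻¹) ^ m) * (ENNReal.ofReal 16 *
            ENNReal.ofReal (CT * m * (b : ℝ) ^ m))) * S +
          (ENNReal.ofReal (((b : ℝ)⁻¹) ^ m) * ENNReal.ofReal (2 * (b : ℝ) ^ m)) * (96 * AA θ L) := by
          rw [show (16 : ENNReal) = ENNReal.ofReal 16 by simp]
          ring
      _ = _ := by
          rw [← ENNReal.ofReal_mul (by norm_num), ← ENNReal.ofReal_mul (by positivity),
            ← ENNReal.ofReal_mul (by positivity)]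
          rw [show ((b : ℝ)⁻¹) ^ m * (16 * (CT * m * (b : ℝ) ^ m)) =
            16 * CT * m * (((b : ℝ)⁻¹) ^ m * (b : ℝ) ^ m) by ring,
            show ((b : ℝ)⁻¹) ^ m * (2 * (b : ℝ) ^ m) = 2 * (((b : ℝ)⁻¹) ^ m * (b : ℝ) ^ m) by ring,
            hbm, mul_one, mul_one, ← mul_assoc]
          congr 2
          rw [ENNReal.ofReal_ofNat]
          norm_num
  -- the sum over the ball
  have htot : ∫⁻ p, KK θ {m | m ≤ n} p.1 p.2 ∂L ≤
      ENNReal.ofReal (16 * CT * n ^ 2) * S + ENNReal.ofReal (192 * (n + 1)) * AA θ L := by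
    rw [lintegral_KK hL]
    calc _ ≤ ∑' w : V b, ∑ m ∈ Finset.range (n + 1), (if len w = m then
      ENNReal.ofReal (((b : ℝ)⁻¹) ^ len w) * (16 * ∫⁻ p, ENNReal.ofReal ((Real.log
        (DD θ p.1 (rt b) w) - Real.log (DD θ p.2 (rt b) w)) ^ 2) ∂L + 96 * AA θ L) else 0) := by
          apply ENNReal.tsum_le_tsum
          intro w
          rw [Finset.sum_ite_eq]
          by_cases hw : len w ≤ n
          · rw [Set.indicator_of_mem (show len w ∈ {m | m ≤ n} from hw), one_mul,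
              if_pos (Finset.mem_range.2 (by omega))]
            exact hterm w
          · rw [Set.indicator_of_notMem (show len w ∉ {m | m ≤ n} from hw), zero_mul]
            exact zero_le
      _ = ∑ m ∈ Finset.range (n + 1), ∑' w : V b, (if len w = m then
      ENNReal.ofReal (((b : ℝ)⁻¹) ^ len w) * (16 * ∫⁻ p, ENNReal.ofReal ((Real.log
        (DD θ p.1 (rt b) w) - Real.log (DD θ p.2 (rt b) w)) ^ 2) ∂L + 96 * AA θ L) else 0) :=
          Summable.tsum_finsetSum (fun _ _ => ENNReal.summable)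
      _ ≤ ∑ m ∈ Finset.range (n + 1), (ENNReal.ofReal (16 * CT * m) * S + 192 * AA θ L) :=
          Finset.sum_le_sum (fun m _ => hsph m)
      _ ≤ _ := by
          rw [Finset.sum_add_distrib, ← Finset.sum_mul, Finset.sum_const, Finset.card_range,
            nsmul_eq_mul, ← mul_assoc]
          have t1 : ∑ m ∈ Finset.range (n + 1), ENNReal.ofReal (16 * CT * m) ≤
              ENNReal.ofReal (16 * CT * n ^ 2) := by
            rw [← ENNReal.ofReal_sum_of_nonneg (fun m _ => by positivity), ← Finset.mul_sum]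
            apply ENNReal.ofReal_le_ofReal
            apply mul_le_mul_of_nonneg_left _ (by positivity)
            have t2 : ∑ m ∈ Finset.range (n + 1), m ≤ n ^ 2 := by
              rw [Finset.sum_range_id, Nat.add_sub_cancel]
              rw [Nat.div_le_iff_le_mul_add_pred (by norm_num)]
              nlinarith
            have t3 : ((∑ m ∈ Finset.range (n + 1), m : ℕ) : ℝ) ≤ ((n ^ 2 : ℕ) : ℝ) := by
              exact_mod_cast t2
            push_cast at t3
            exact t3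
          have t2 : ((n + 1 : ℕ) : ENNReal) * 192 = ENNReal.ofReal (192 * (n + 1)) := by
            rw [ENNReal.ofReal_mul (by norm_num), ENNReal.ofReal_ofNat,
              show ((n : ℝ) + 1) = ((n + 1 : ℕ) : ℝ) by push_cast; ring, ENNReal.ofReal_natCast]
            ring
          rw [t2]
          gcongr
  refine htot.trans ?_
  calc ENNReal.ofReal (16 * CT * n ^ 2) * S + ENNReal.ofReal (192 * (n + 1)) * AA θ L
      ≤ ENNReal.ofReal (16 * CT * n ^ 2) * (ENNReal.ofReal (16 * (b + 1) * L1 ^ 2 * η ^ 2) *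
        AA θ L + ENNReal.ofReal (2 * K) * ∑ i, PL b θ ρ {h | η < |lmI θ h (rt b) i|}) +
        ENNReal.ofReal (192 * (n + 1)) * AA θ L := by gcongr
    _ = (ENNReal.ofReal (16 * CT * n ^ 2) * ENNReal.ofReal (16 * (b + 1) * L1 ^ 2 * η ^ 2) +
          ENNReal.ofReal (192 * (n + 1))) * AA θ L +
        (ENNReal.ofReal (16 * CT * n ^ 2) * ENNReal.ofReal (2 * K)) *
          ∑ i, PL b θ ρ {h | η < |lmI θ h (rt b) i|} := by ring
    _ ≤ _ := by
        rw [← ENNReal.ofReal_mul (by positivity), ← ENNReal.ofReal_mul (by positivity),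
          ← ENNReal.ofReal_add (by positivity) (by positivity)]
        refine add_le_add (mul_le_mul_left (ENNReal.ofReal_le_ofReal ?_) _)
          (mul_le_mul_left (ENNReal.ofReal_le_ofReal ?_) _)
        · rw [hC]
          have p1 : 0 ≤ 256 * CT * (b + 1) * L1 ^ 2 * (1 + n) := by positivity
          have p2 : 0 ≤ 192 * ((n : ℝ) ^ 2 * η ^ 2) := by positivity
          have p3 : 0 ≤ 32 * CT * K * (1 + n + n ^ 2 * η ^ 2) := by positivity
          nlinarith
        · rw [hC]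
          have p1 : 0 ≤ 256 * CT * (b + 1) * L1 ^ 2 * (n : ℝ) ^ 2 := by positivity
          have p2 : 0 ≤ 192 * ((n : ℝ) ^ 2) := by positivity
          nlinarith

end Crest.Agent.IsgNear
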