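import Mathlib
import Crest.Agent.IsgNish

/-!
Shared library for S0241: symmetric channels, part B: edges, independence under the gauge measure.
-/

set_option autoImplicit false
set_option linter.unusedSectionVars false

open MeasureTheory ProbabilityTheory Filter Topology

namespace Crest.Agent.Isg

/-! ### Random signs -/

/-- the law on `ℝ` of a sign with mean `θ` -/
noncomputable def sgL (θ : ℝ) : Measure ℝ := (bern ((1 + θ) / 2)).map sg

lemma measurable_sgN : Measurable sg := measurable_from_top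

lemma sgL_eq (θ : ℝ) : sgL θ = ENNReal.ofReal ((1 + θ) / 2) • Measure.dirac 1 +
    ENNReal.ofReal ((1 - θ) / 2) • Measure.dirac (-1) := by
  unfold sgL bern
  rw [Measure.map_add _ _ measurable_sgN, Measure.map_smul, Measure.map_smul,
    Measure.map_dirac' measurable_sgN, Measure.map_dirac' measurable_sgN]
  have : 1 - (1 + θ) / 2 = (1 - θ) / 2 := by ring
  rw [this]
  simp [sg]

lemma sgL_prob {θ : ℝ} (h0 : -1 ≤ θ) (h1 : θ ≤ 1) : IsProbabilityMeasure (sgL θ) := by
  constructor
  rw [sgL_eq]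
  simp only [Measure.coe_add, Measure.coe_smul, Pi.add_apply, Pi.smul_apply, smul_eq_mul,
    measure_univ, mul_one]
  rw [← ENNReal.ofReal_add (by linarith) (by linarith)]
  simp
  ring

lemma integral_sgL {θ : ℝ} (h0 : -1 ≤ θ) (h1 : θ ≤ 1) (f : ℝ → ℝ) :
    ∫ s, f s ∂(sgL θ) = (1 + θ) / 2 * f 1 + (1 - θ) / 2 * f (-1) := by
  rw [sgL_eq, integral_add_measure]
  · rw [integral_smul_measure, integral_smul_measure, integral_dirac, integral_dirac,
      ENNReal.toReal_ofReal (by linarith), ENNReal.toReal_ofReal (by linarith)]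
    simp
  · exact (integrable_dirac (by simp)).smul_measure ENNReal.ofReal_ne_top
  · exact (integrable_dirac (by simp)).smul_measure ENNReal.ofReal_ne_top

lemma ae_sgL (θ : ℝ) : ∀ᵐ s ∂(sgL θ), s = 1 ∨ s = -1 := by
  unfold sgL
  rw [ae_map_iff measurable_sgN.aemeasurable]
  · refine Filter.Eventually.of_forall (fun s => ?_)
    cases s <;> simp [sg]
  · exact (measurableSet_singleton (1 : ℝ)).union (measurableSet_singleton (-1 : ℝ))

section Sign

variable {ρ : Measure ℝ} {H θ : ℝ}

lemma exp_psi_mul (h0 : 0 ≤ θ) (h1 : θ < 1) (x : ℝ) :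
    (1 + θ * Real.tanh x) * Real.exp (-2 * psi θ x) = 1 - θ * Real.tanh x := by
  rw [← tanh_psiN h0 h1, one_add_tanh_mul_exp]

lemma exp_psi_mul' (h0 : 0 ≤ θ) (h1 : θ < 1) (x : ℝ) :
    (1 - θ * Real.tanh x) * Real.exp (2 * psi θ x) = 1 + θ * Real.tanh x := by
  have := exp_psi_mul h0 h1 (-x)
  rw [psi_negN h0 h1, Real.tanh_neg] at this
  have e : -2 * -psi θ x = 2 * psi θ x := by ring
  rw [e] at this
  linarith [this]

lemma measurable_psi' (θ : ℝ) : Measurable (psi θ) := H23Isg.measurable_psi θ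

/-- transmission of a channel through a noisy edge -/
lemma Chan.edge (h : Chan ρ H) (h0 : 0 ≤ θ) (h1 : θ < 1) :
    Chan (((sgL θ).prod ρ).map (fun p => p.1 * psi θ p.2)) (Real.artanh θ) := by
  have := h.prob
  have := sgL_prob (by linarith : -1 ≤ θ) h1.le
  have mψ := measurable_psi' θ
  have hm : Measurable (fun p : ℝ × ℝ => p.1 * psi θ p.2) :=
    measurable_fst.mul (mψ.comp measurable_snd)
  have hae : ∀ᵐ p ∂((sgL θ).prod ρ), p.1 = 1 ∨ p.1 = -1 :=
    Measure.quasiMeasurePreserving_fst.ae (ae_sgL θ)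
  have hbd : ∀ᵐ p ∂((sgL θ).prod ρ), |p.1 * psi θ p.2| ≤ Real.artanh θ := by
    filter_upwards [hae] with p hp
    rw [abs_mul]
    have : |p.1| = 1 := by rcases hp with h | h <;> rw [h] <;> simp
    rw [this, one_mul]
    exact abs_psi_leN h0 h1 _
  refine ⟨Measure.isProbabilityMeasure_map hm.aemeasurable, ?_, ?_⟩
  · rw [ae_map_iff hm.aemeasurable (measurableSet_le (by fun_prop) measurable_const)]
    exact hbd
  · rintro φ hφ ⟨C, hC⟩
    have hC0 : 0 ≤ C := (abs_nonneg _).trans (hC 0)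
    have hφn : Measurable (fun x => φ (-x)) := hφ.comp measurable_neg
    have hφe : Measurable (fun x => φ x * Real.exp (-2 * x)) :=
      hφ.mul (Real.measurable_exp.comp (measurable_id.const_mul _))
    rw [integral_map hm.aemeasurable hφn.aestronglyMeasurable,
      integral_map hm.aemeasurable hφe.aestronglyMeasurable]
    have i1 : Integrable (fun p : ℝ × ℝ => φ (-(p.1 * psi θ p.2))) ((sgL θ).prod ρ) :=
      integrable_of_bdd' (hφn.comp hm) (fun p => hC _)
    have i2 : Integrable (fun p : ℝ × ℝ => φ (p.1 * psi θ p.2) *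
        Real.exp (-2 * (p.1 * psi θ p.2))) ((sgL θ).prod ρ) := by
      refine integrable_of_bdd (C := C * Real.exp (2 * Real.artanh θ)) (hφe.comp hm) ?_
      filter_upwards [hbd] with p hp
      rw [abs_mul, abs_of_pos (Real.exp_pos _)]
      refine mul_le_mul (hC _) (Real.exp_le_exp.mpr ?_) (Real.exp_pos _).le hC0
      linarith [(abs_le.mp hp).1]
    rw [integral_prod_symm _ i1, integral_prod_symm _ i2]
    simp only [integral_sgL (by linarith : -1 ≤ θ) h1.le]
    have mψn : Measurable (fun x => -psi θ x) := mψ.neg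
    have mA : Measurable (fun x => φ (psi θ x)) := hφ.comp mψ
    have mB : Measurable (fun x => φ (-psi θ x)) := hφ.comp mψn
    have mE : Measurable (fun x => Real.exp (-2 * psi θ x)) :=
      Real.measurable_exp.comp (mψ.const_mul _)
    have mE' : Measurable (fun x => Real.exp (2 * psi θ x)) :=
      Real.measurable_exp.comp (mψ.const_mul _)
    have eL : ∀ x, (1 + θ) / 2 * φ (-(1 * psi θ x)) + (1 - θ) / 2 * φ (-(-1 * psi θ x)) =
        (1 + θ) / 2 * φ (-psi θ x) + (1 - θ) / 2 * φ (psi θ x) := by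
      intro x
      have e1 : -(1 * psi θ x) = -psi θ x := by ring
      have e2 : -(-1 * psi θ x) = psi θ x := by ring
      rw [e1, e2]
    have eR : ∀ x, (1 + θ) / 2 * (φ (1 * psi θ x) * Real.exp (-2 * (1 * psi θ x))) +
        (1 - θ) / 2 * (φ (-1 * psi θ x) * Real.exp (-2 * (-1 * psi θ x))) =
        (1 + θ) / 2 * (φ (psi θ x) * Real.exp (-2 * psi θ x)) +
        (1 - θ) / 2 * (φ (-psi θ x) * Real.exp (2 * psi θ x)) := by
      intro x
      have e1 : 1 * psi θ x = psi θ x := by ring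
      have e2 : -1 * psi θ x = -psi θ x := by ring
      have e3 : -2 * -psi θ x = 2 * psi θ x := by ring
      rw [e1, e2, e3]
    simp only [eL, eR]
    have bE : ∀ x, Real.exp (-2 * psi θ x) ≤ Real.exp (2 * Real.artanh θ) := fun x =>
      Real.exp_le_exp.mpr (by linarith [(abs_le.mp (abs_psi_leN h0 h1 x)).1])
    have bE' : ∀ x, Real.exp (2 * psi θ x) ≤ Real.exp (2 * Real.artanh θ) := fun x =>
      Real.exp_le_exp.mpr (by linarith [(abs_le.mp (abs_psi_leN h0 h1 x)).2])
    rw [h.symm1 (f := fun x => (1 + θ) / 2 * φ (-psi θ x) + (1 - θ) / 2 * φ (psi θ x))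
      ((mB.const_mul _).add (mA.const_mul _)) (C := C) ?_,
      h.symm1 (f := fun x => (1 + θ) / 2 * (φ (psi θ x) * Real.exp (-2 * psi θ x)) +
        (1 - θ) / 2 * (φ (-psi θ x) * Real.exp (2 * psi θ x)))
      (((mA.mul mE).const_mul _).add ((mB.mul mE').const_mul _))
        (C := C * Real.exp (2 * Real.artanh θ)) ?_]
    · congr 1
      funext x
      simp only [psi_negN h0 h1, neg_neg, mul_neg]
      have e1 := exp_psi_mul h0 h1 x
      have e2 := exp_psi_mul' h0 h1 x
      have e3 : Real.exp (-(2 * psi θ x)) = Real.exp (-2 * psi θ x) := by congr 1; ring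
      have e4 : Real.exp (-(-2 * psi θ x)) = Real.exp (2 * psi θ x) := by congr 1; ring
      try rw [e3]
      try rw [e4]
      set A := φ (psi θ x)
      set B := φ (-psi θ x)
      set t := Real.tanh x
      set e := Real.exp (-2 * psi θ x)
      set e' := Real.exp (2 * psi θ x)
      linear_combination (-A / 2) * e1 + (-B / 2) * e2
    · intro x
      have a1 : |φ (psi θ x) * Real.exp (-2 * psi θ x)| ≤ C * Real.exp (2 * Real.artanh θ) := by
        rw [abs_mul, abs_of_pos (Real.exp_pos _)]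
        exact mul_le_mul (hC _) (bE x) (Real.exp_pos _).le hC0
      have a2 : |φ (-psi θ x) * Real.exp (2 * psi θ x)| ≤ C * Real.exp (2 * Real.artanh θ) := by
        rw [abs_mul, abs_of_pos (Real.exp_pos _)]
        exact mul_le_mul (hC _) (bE' x) (Real.exp_pos _).le hC0
      rw [abs_le] at a1 a2 ⊢
      constructor <;> nlinarith
    · intro x
      have a1 := abs_le.mp (hC (psi θ x))
      have a2 := abs_le.mp (hC (-psi θ x))
      rw [abs_le]
      constructor <;> nlinarith

lemma Chan.info_edge (h : Chan ρ H) (h0 : 0 ≤ θ) (h1 : θ < 1) :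
    info (((sgL θ).prod ρ).map (fun p => p.1 * psi θ p.2)) = θ ^ 2 * info ρ := by
  have := h.prob
  have := sgL_prob (by linarith : -1 ≤ θ) h1.le
  have mψ := measurable_psi' θ
  have mt := H23Isg.measurable_tanh
  have hm : Measurable (fun p : ℝ × ℝ => p.1 * psi θ p.2) :=
    measurable_fst.mul (mψ.comp measurable_snd)
  unfold info
  have mth : Measurable (fun p : ℝ × ℝ => Real.tanh (p.1 * psi θ p.2)) := mt.comp hm
  rw [integral_map hm.aemeasurable (mt.pow_const 2).aestronglyMeasurable]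
  rw [integral_prod_symm _ (integrable_of_bdd' (C := 1) (mth.pow_const 2) (fun p => by
    rw [abs_of_nonneg (sq_nonneg _)]; exact tanh_sq_le_one _))]
  simp only [integral_sgL (by linarith : -1 ≤ θ) h1.le]
  rw [← integral_const_mul]
  congr 1
  funext x
  have e1 : 1 * psi θ x = psi θ x := by ring
  have e2 : -1 * psi θ x = -psi θ x := by ring
  rw [e1, e2, Real.tanh_neg, tanh_psiN h0 h1]
  ring

end Sign

/-! ### Independence -/

section Indep

variable {Ω : Type*} [MeasurableSpace Ω] {P : Measure Ω}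

lemma indep_of_dep {ι : Type*} [DecidableEq ι] {Y : ι → Ω → ℝ} (hY : ∀ i, Measurable (Y i))
    (hi : iIndepFun Y P) {S T : Finset ι} (hST : Disjoint S T) {A B : (ι → ℝ) → ℝ}
    (hA : Measurable A) (hB : Measurable B)
    (dA : DependsOn A (S : Set ι)) (dB : DependsOn B (T : Set ι)) :
    IndepFun (fun ω => A (fun i => Y i ω)) (fun ω => B (fun i => Y i ω)) P := by
  have h := hi.indepFun_finset S T hST hY
  have ext_meas : ∀ S : Finset ι, Measurable (fun (x : S → ℝ) (i : ι) =>
      if h : i ∈ S then x ⟨i, h⟩ else (0 : ℝ)) := by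
    intro S
    refine measurable_pi_lambda _ (fun i => ?_)
    by_cases hi : i ∈ S
    · simp only [hi, dif_pos]; exact measurable_pi_apply _
    · simp only [hi, dif_neg, not_false_eq_true]; exact measurable_const
  have h2 := h.comp (hA.comp (ext_meas S)) (hB.comp (ext_meas T))
  have eA : (fun ω => A (fun i => Y i ω)) = (A ∘ (fun (x : S → ℝ) (i : ι) =>
      if h : i ∈ S then x ⟨i, h⟩ else (0 : ℝ))) ∘ (fun a (i : S) => Y i a) := by
    funext ω
    refine dA (fun i hi => ?_)
    have : i ∈ S := hi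
    simp [this]
  have eB : (fun ω => B (fun i => Y i ω)) = (B ∘ (fun (x : T → ℝ) (i : ι) =>
      if h : i ∈ T then x ⟨i, h⟩ else (0 : ℝ))) ∘ (fun a (i : T) => Y i a) := by
    funext ω
    refine dB (fun i hi => ?_)
    have : i ∈ T := hi
    simp [this]
  rw [eA, eB]
  exact h2

lemma iIndep_sum {α β Ω₁ Ω₂ : Type*} [MeasurableSpace Ω₁] [MeasurableSpace Ω₂]
    {P₁ : Measure Ω₁} {P₂ : Measure Ω₂} [IsProbabilityMeasure P₁] [IsProbabilityMeasure P₂]
    {X₁ : α → Ω₁ → ℝ} {X₂ : β → Ω₂ → ℝ} (h₁ : iIndepFun X₁ P₁) (h₂ : iIndepFun X₂ P₂) :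
    iIndepFun (Sum.elim (fun a (p : Ω₁ × Ω₂) => X₁ a p.1) (fun c (p : Ω₁ × Ω₂) => X₂ c p.2))
      (P₁.prod P₂) := by
  rw [iIndepFun_iff_measure_inter_preimage_eq_mul]
  intro S sets hS
  have e1 : (⋂ i ∈ S, (Sum.elim (fun a (p : Ω₁ × Ω₂) => X₁ a p.1)
      (fun c (p : Ω₁ × Ω₂) => X₂ c p.2)) i ⁻¹' sets i) =
      (⋂ a ∈ S.toLeft, X₁ a ⁻¹' sets (Sum.inl a)) ×ˢ
        (⋂ c ∈ S.toRight, X₂ c ⁻¹' sets (Sum.inr c)) := by
    ext p
    simp only [Set.mem_iInter, Set.mem_preimage, Set.mem_prod, Finset.mem_toLeft,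
      Finset.mem_toRight]
    constructor
    · intro h
      exact ⟨fun a ha => h (Sum.inl a) ha, fun c hc => h (Sum.inr c) hc⟩
    · rintro ⟨h1, h2⟩ (a | c) hi
      · exact h1 a hi
      · exact h2 c hi
  have m1 : P₁ (⋂ a ∈ S.toLeft, X₁ a ⁻¹' sets (Sum.inl a)) =
      ∏ a ∈ S.toLeft, P₁ (X₁ a ⁻¹' sets (Sum.inl a)) :=
    h₁.measure_inter_preimage_eq_mul S.toLeft (fun a ha => hS _ (Finset.mem_toLeft.mp ha))
  have m2 : P₂ (⋂ c ∈ S.toRight, X₂ c ⁻¹' sets (Sum.inr c)) =
      ∏ c ∈ S.toRight, P₂ (X₂ c ⁻¹' sets (Sum.inr c)) :=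
    h₂.measure_inter_preimage_eq_mul S.toRight (fun a ha => hS _ (Finset.mem_toRight.mp ha))
  rw [e1, Measure.prod_prod, m1, m2]
  conv_rhs => rw [← Finset.toLeft_disjSum_toRight (u := S), Finset.prod_disjSum]
  congr 1
  · refine Finset.prod_congr rfl (fun a _ => ?_)
    have : (Sum.elim (fun a (p : Ω₁ × Ω₂) => X₁ a p.1) (fun c (p : Ω₁ × Ω₂) => X₂ c p.2))
        (Sum.inl a) ⁻¹' sets (Sum.inl a) = (X₁ a ⁻¹' sets (Sum.inl a)) ×ˢ Set.univ := by
      ext p; simp
    rw [this, Measure.prod_prod, measure_univ, mul_one]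
  · refine Finset.prod_congr rfl (fun c _ => ?_)
    have : (Sum.elim (fun a (p : Ω₁ × Ω₂) => X₁ a p.1) (fun c (p : Ω₁ × Ω₂) => X₂ c p.2))
        (Sum.inr c) ⁻¹' sets (Sum.inr c) = Set.univ ×ˢ (X₂ c ⁻¹' sets (Sum.inr c)) := by
      ext p; simp
    rw [this, Measure.prod_prod, measure_univ, one_mul]

end Indep

/-! ### The gauge measure -/

section Gauge

variable {b : ℕ}

/-- the real coordinates of the gauge measure: signs (left) and gauged fields (right) -/
def Yc : V b ⊕ V b → ((V b → Bool) × (V b → ℝ)) → ℝ :=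
  Sum.elim (fun v p => sg (p.1 v)) (fun v p => p.2 v)

/-- `lh` as a function of the real coordinates -/
noncomputable def LH (θ : ℝ) : ℕ → (V b ⊕ V b → ℝ) → V b → ℝ
  | 0, _, _ => 0
  | N + 1, y, v => y (Sum.inr v) + ∑ j ∈ ch v, y (Sum.inl (nb j v)) * psi θ (LH θ N y (nb j v))

lemma lh_eq (θ : ℝ) (N : ℕ) (p : (V b → Bool) × (V b → ℝ)) (v : V b) :
    lh θ N p.1 p.2 v = LH θ N (fun i => Yc i p) v := by
  induction N generalizing v with
  | zero => rfl
  | succ N ih =>
    simp only [lh, LH, Yc, Sum.elim_inr, Sum.elim_inl]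
    congr 1
    refine Finset.sum_congr rfl (fun j _ => ?_)
    rw [ih]
    rfl

/-- the coordinates used by `LH θ N y v` -/
def CS : ℕ → V b → Finset (V b ⊕ V b)
  | 0, _ => ∅
  | N + 1, v => insert (Sum.inr v)
      ((ch v).biUnion (fun j => insert (Sum.inl (nb j v)) (CS N (nb j v))))

lemma mem_CS_inr {N : ℕ} {v w : V b} (h : Sum.inr w ∈ CS N v) : v.l <:+ w.l := by
  induction N generalizing v with
  | zero => simp [CS] at h
  | succ N ih =>
    simp only [CS, Finset.mem_insert, Finset.mem_biUnion, Sum.inr.injEq, reduceCtorEq,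
      false_or] at h
    rcases h with rfl | ⟨j, hj, h⟩
    · exact List.suffix_rfl
    · have h1 := ih h
      rw [nb_l_of_not_head j v (mem_ch.mp hj)] at h1
      exact (List.suffix_cons j v.l).trans h1

lemma mem_CS_inl {N : ℕ} {v w : V b} (h : Sum.inl w ∈ CS N v) : v.l <:+ w.l ∧ w ≠ v := by
  induction N generalizing v with
  | zero => simp [CS] at h
  | succ N ih =>
    simp only [CS, Finset.mem_insert, Finset.mem_biUnion, Sum.inl.injEq, reduceCtorEq,
      false_or] at h
    obtain ⟨j, hj, h⟩ := h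
    have hl := nb_l_of_not_head j v (mem_ch.mp hj)
    rcases h with rfl | h
    · exact ⟨by rw [hl]; exact List.suffix_cons j v.l, nb_ne j v⟩
    · have h1 := (ih h).1
      rw [hl] at h1
      refine ⟨(List.suffix_cons j v.l).trans h1, ?_⟩
      rintro rfl
      have := h1.length_le
      simp at this

/-- coordinates of the term of the child `j` -/
def CT (N : ℕ) (v : V b) (j : Fin (b + 1)) : Finset (V b ⊕ V b) :=
  insert (Sum.inl (nb j v)) (CS N (nb j v))

lemma mem_CT {N : ℕ} {v : V b} {j : Fin (b + 1)} (hj : j ∈ ch v) {w : V b}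
    (h : Sum.inl w ∈ CT N v j ∨ Sum.inr w ∈ CT N v j) : (j :: v.l) <:+ w.l := by
  have hl := nb_l_of_not_head j v (mem_ch.mp hj)
  rw [← hl]
  unfold CT at h
  simp only [Finset.mem_insert, Sum.inl.injEq, reduceCtorEq, false_or] at h
  rcases h with (rfl | h) | h
  · exact List.suffix_rfl
  · exact (mem_CS_inl h).1
  · exact mem_CS_inr h

lemma CT_disjoint {N : ℕ} {v : V b} {j k : Fin (b + 1)} (hj : j ∈ ch v) (hk : k ∈ ch v)
    (hjk : j ≠ k) : Disjoint (CT N v j) (CT N v k) := by
  rw [Finset.disjoint_left]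
  intro i h1 h2
  have key : ∀ w : V b, (j :: v.l) <:+ w.l → (k :: v.l) <:+ w.l → False := by
    intro w a1 a2
    have h3 := List.suffix_of_suffix_length_le a1 a2 (by simp)
    have h4 := h3.eq_of_length (by simp)
    exact hjk (List.cons.inj h4).1
  cases i with
  | inl w => exact key w (mem_CT hj (Or.inl h1)) (mem_CT hk (Or.inl h2))
  | inr w => exact key w (mem_CT hj (Or.inr h1)) (mem_CT hk (Or.inr h2))

lemma inr_notMem_CT {N : ℕ} {v : V b} {j : Fin (b + 1)} (hj : j ∈ ch v) :
    Sum.inr v ∉ CT N v j := by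
  intro h
  have := (mem_CT hj (Or.inr h)).length_le
  simp at this

lemma measurable_LH (θ : ℝ) (N : ℕ) (v : V b) :
    Measurable (fun y : V b ⊕ V b → ℝ => LH θ N y v) := by
  induction N generalizing v with
  | zero => exact measurable_const
  | succ N ih =>
    simp only [LH]
    refine (measurable_pi_apply _).add (Finset.measurable_sum _ (fun j _ => ?_))
    exact (measurable_pi_apply _).mul ((measurable_psi' θ).comp (ih _))

lemma dep_LH (θ : ℝ) (N : ℕ) (v : V b) :
    DependsOn (fun y : V b ⊕ V b → ℝ => LH θ N y v) (CS N v : Set (V b ⊕ V b)) := by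
  induction N generalizing v with
  | zero => intro y y' _; rfl
  | succ N ih =>
    intro y y' h
    simp only [LH]
    have h0 : y (Sum.inr v) = y' (Sum.inr v) := h _ (by simp [CS])
    rw [h0]
    congr 1
    refine Finset.sum_congr rfl (fun j hj => ?_)
    have hsub : ∀ i ∈ CT N v j, i ∈ CS (N + 1) v := by
      intro i hi
      simp only [CS, Finset.mem_insert, Finset.mem_biUnion]
      right
      refine ⟨j, hj, ?_⟩
      simpa [CT] using hi
    have h1 : y (Sum.inl (nb j v)) = y' (Sum.inl (nb j v)) :=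
      h _ (hsub _ (by simp [CT]))
    have h2 : LH θ N y (nb j v) = LH θ N y' (nb j v) :=
      ih (nb j v) (fun i hi => h i (hsub i (by simp only [CT, Finset.mem_insert]; right; exact hi)))
    rw [h1, h2]

/-- the term of the child `j` -/
noncomputable def LT1 (θ : ℝ) (N : ℕ) (y : V b ⊕ V b → ℝ) (v : V b) (j : Fin (b + 1)) : ℝ :=
  y (Sum.inl (nb j v)) * psi θ (LH θ N y (nb j v))

lemma measurable_LT1 (θ : ℝ) (N : ℕ) (v : V b) (j : Fin (b + 1)) :
    Measurable (fun y : V b ⊕ V b → ℝ => LT1 θ N y v j) :=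
  (measurable_pi_apply _).mul ((measurable_psi' θ).comp (measurable_LH θ N _))

lemma dep_LT1 (θ : ℝ) (N : ℕ) (v : V b) (j : Fin (b + 1)) :
    DependsOn (fun y : V b ⊕ V b → ℝ => LT1 θ N y v j) (CT N v j : Set (V b ⊕ V b)) := by
  intro y y' h
  simp only [LT1]
  have h1 : y (Sum.inl (nb j v)) = y' (Sum.inl (nb j v)) := h _ (by simp [CT])
  have h2 : LH θ N y (nb j v) = LH θ N y' (nb j v) :=
    dep_LH θ N (nb j v) (fun i hi => h i (by
      simp only [CT, Finset.coe_insert, Set.mem_insert_iff]; right; exact hi))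
  rw [h1, h2]

lemma measurable_Yc (i : V b ⊕ V b) : Measurable (Yc i) := by
  cases i with
  | inl v => exact measurable_sgN.comp ((measurable_pi_apply v).comp measurable_fst)
  | inr v => exact (measurable_pi_apply v).comp measurable_snd

lemma measurable_Yc' : Measurable (fun (p : (V b → Bool) × (V b → ℝ)) (i : V b ⊕ V b) => Yc i p) :=
  measurable_pi_lambda _ (fun i => measurable_Yc i)

variable {θ : ℝ} {ρ : Measure ℝ}

lemma GM_probN (h0 : 0 ≤ θ) (h1 : θ ≤ 1) [IsProbabilityMeasure ρ] :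
    IsProbabilityMeasure (GM b θ ρ) := by
  have := H23Isg.xiLaw_prob (b := b) h0 h1
  unfold GM
  infer_instance

lemma iIndep_Yc (h0 : 0 ≤ θ) (h1 : θ ≤ 1) [IsProbabilityMeasure ρ] :
    iIndepFun (Yc (b := b)) (GM b θ ρ) := by
  have hb : IsProbabilityMeasure (bern ((1 + θ) / 2)) :=
    H23Isg.bern_prob (by linarith) (by linarith)
  have := H23Isg.xiLaw_prob (b := b) h0 h1
  have e1 : iIndepFun (fun (v : V b) (ξ : V b → Bool) => sg (ξ v)) (xiLaw b θ) :=
    iIndepFun_infinitePi (P := fun _ : V b => bern ((1 + θ) / 2)) (X := fun _ s => sg s)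
      (fun _ => measurable_sgN)
  have e2 : iIndepFun (fun (v : V b) (z : V b → ℝ) => z v) (Measure.infinitePi (fun _ : V b => ρ)) :=
    iIndepFun_infinitePi (P := fun _ : V b => ρ) (X := fun _ s => s) (fun _ => measurable_id)
  exact iIndep_sum e1 e2

lemma map_Yc_inl (h0 : 0 ≤ θ) (h1 : θ ≤ 1) [IsProbabilityMeasure ρ] (v : V b) :
    (GM b θ ρ).map (Yc (Sum.inl v)) = sgL θ := by
  have hb : IsProbabilityMeasure (bern ((1 + θ) / 2)) :=
    H23Isg.bern_prob (by linarith) (by linarith)
  have := H23Isg.xiLaw_prob (b := b) h0 h1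
  have e : (Yc (b := b) (Sum.inl v)) = sg ∘ (fun ξ : V b → Bool => ξ v) ∘ Prod.fst := rfl
  rw [e, ← Measure.map_map measurable_sgN ((measurable_pi_apply v).comp measurable_fst),
    ← Measure.map_map (measurable_pi_apply v) measurable_fst]
  unfold GM
  rw [Measure.map_fst_prod, measure_univ, one_smul]
  unfold xiLaw sgL
  rw [Measure.infinitePi_map_eval]

lemma map_Yc_inr (h0 : 0 ≤ θ) (h1 : θ ≤ 1) [IsProbabilityMeasure ρ] (v : V b) :
    (GM b θ ρ).map (Yc (Sum.inr v)) = ρ := by
  have := H23Isg.xiLaw_prob (b := b) h0 h1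
  have e : (Yc (b := b) (Sum.inr v)) = (fun z : V b → ℝ => z v) ∘ Prod.snd := rfl
  rw [e, ← Measure.map_map (measurable_pi_apply v) measurable_snd]
  unfold GM
  rw [Measure.map_snd_prod, measure_univ, one_smul, Measure.infinitePi_map_eval]

/-- law of the depth `N` message at `v` -/
noncomputable def lawLH (b : ℕ) (θ : ℝ) (ρ : Measure ℝ) (N : ℕ) (v : V b) : Measure ℝ :=
  (GM b θ ρ).map (fun p => lh θ N p.1 p.2 v)

lemma measurable_lhN (θ : ℝ) (N : ℕ) (v : V b) :
    Measurable (fun p : (V b → Bool) × (V b → ℝ) => lh θ N p.1 p.2 v) := by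
  have : (fun p : (V b → Bool) × (V b → ℝ) => lh θ N p.1 p.2 v) =
      (fun y => LH θ N y v) ∘ (fun p i => Yc i p) := by
    funext p; exact lh_eq θ N p v
  rw [this]
  exact (measurable_LH θ N v).comp measurable_Yc'

lemma info_lawLH (θ : ℝ) (ρ : Measure ℝ) (N : ℕ) (v : V b) :
    info (lawLH b θ ρ N v) = ∫ p, Real.tanh (lh θ N p.1 p.2 v) ^ 2 ∂(GM b θ ρ) := by
  unfold info lawLH
  rw [integral_map (measurable_lhN θ N v).aemeasurable
    (H23Isg.measurable_tanh.pow_const 2).aestronglyMeasurable]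

/-- partial sums over the children in `F` -/
noncomputable def SF (θ : ℝ) (N : ℕ) (v : V b) (F : Finset (Fin (b + 1)))
    (y : V b ⊕ V b → ℝ) : ℝ := y (Sum.inr v) + ∑ j ∈ F, LT1 θ N y v j

lemma measurable_SF (θ : ℝ) (N : ℕ) (v : V b) (F : Finset (Fin (b + 1))) :
    Measurable (SF θ N v F) :=
  (measurable_pi_apply _).add (Finset.measurable_sum _ (fun j _ => measurable_LT1 θ N v j))

lemma dep_SF (θ : ℝ) (N : ℕ) (v : V b) (F : Finset (Fin (b + 1))) :
    DependsOn (SF θ N v F) ((insert (Sum.inr v) (F.biUnion (CT N v)) : Finset (V b ⊕ V b)) :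
      Set (V b ⊕ V b)) := by
  intro y y' h
  simp only [SF]
  rw [h (Sum.inr v) (by simp)]
  congr 1
  refine Finset.sum_congr rfl (fun j hj => ?_)
  refine dep_LT1 θ N v j (fun i hi => h i ?_)
  simp only [Finset.coe_insert, Finset.coe_biUnion, Set.mem_insert_iff, Set.mem_iUnion]
  right
  exact ⟨j, hj, hi⟩

lemma law_LT1 (h0 : 0 ≤ θ) (h1 : θ ≤ 1) [IsProbabilityMeasure ρ] (N : ℕ) (v : V b)
    (j : Fin (b + 1)) :
    (GM b θ ρ).map (fun p => LT1 θ N (fun i => Yc i p) v j) =
      ((sgL θ).prod (lawLH b θ ρ N (nb j v))).map (fun p => p.1 * psi θ p.2) := by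
  have := GM_probN (b := b) (ρ := ρ) h0 h1
  have hind : IndepFun (fun p => Yc (Sum.inl (nb j v)) p)
      (fun p : (V b → Bool) × (V b → ℝ) => lh θ N p.1 p.2 (nb j v)) (GM b θ ρ) := by
    have h := indep_of_dep (Y := Yc (b := b)) (fun i => measurable_Yc i) (iIndep_Yc h0 h1)
      (P := GM b θ ρ) (S := {Sum.inl (nb j v)}) (T := CS N (nb j v)) (by
        rw [Finset.disjoint_singleton_left]
        intro h
        exact (mem_CS_inl h).2 rfl)
      (A := fun y => y (Sum.inl (nb j v))) (B := fun y => LH θ N y (nb j v))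
      (measurable_pi_apply _) (measurable_LH θ N _) (fun y y' h => h _ (by simp))
      (dep_LH θ N _)
    have e : (fun p : (V b → Bool) × (V b → ℝ) => lh θ N p.1 p.2 (nb j v)) =
        (fun p => LH θ N (fun i => Yc i p) (nb j v)) := by
      funext p; exact lh_eq θ N p _
    rw [e]
    exact h
  have hm1 := measurable_Yc (Sum.inl (nb j v))
  have hm2 := measurable_lhN θ N (nb j v)
  have hmap := (indepFun_iff_map_prod_eq_prod_map_map hm1.aemeasurable hm2.aemeasurable).mp hind
  have hm3 : Measurable (fun p : ℝ × ℝ => p.1 * psi θ p.2) :=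
    measurable_fst.mul ((measurable_psi' θ).comp measurable_snd)
  have e1 : (GM b θ ρ).map (fun p => Yc (Sum.inl (nb j v)) p) = sgL θ := map_Yc_inl h0 h1 _
  rw [e1] at hmap
  unfold lawLH
  rw [← hmap, Measure.map_map hm3 (hm1.prodMk hm2)]
  congr 1
  funext p
  simp only [LT1, Function.comp, lh_eq]

/-- one step of the recursion, adding the children one by one -/
theorem step_SF {H : ℝ} (hρ : Chan ρ H) (h0 : 0 ≤ θ) (h1 : θ < 1) (N : ℕ) (v : V b)
    (F : Finset (Fin (b + 1))) (hF : F ⊆ ch v)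
    (hc : ∀ j ∈ F, ∃ H', Chan (lawLH b θ ρ N (nb j v)) H') (m X : ℝ)
    (hm : ∀ j ∈ F, m ≤ info (lawLH b θ ρ N (nb j v)))
    (hX : ∀ j ∈ F, info (lawLH b θ ρ N (nb j v)) ≤ X) (hm0 : 0 ≤ m) (hX1 : θ ^ 2 * X ≤ 1) :
    Chan ((GM b θ ρ).map (fun p => SF θ N v F (fun i => Yc i p))) (H + F.card * Real.artanh θ) ∧
    (info ρ + F.card * (θ ^ 2 * m)) *
      (1 - info ((GM b θ ρ).map (fun p => SF θ N v F (fun i => Yc i p)))) ≤
      info ((GM b θ ρ).map (fun p => SF θ N v F (fun i => Yc i p))) ∧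
    (1 - info ρ) * (1 - θ ^ 2 * X) ^ F.card ≤
      1 - info ((GM b θ ρ).map (fun p => SF θ N v F (fun i => Yc i p))) := by
  have := hρ.prob
  have := GM_probN (b := b) (ρ := ρ) h0 h1.le
  induction F using Finset.induction_on with
  | empty =>
    have e : (GM b θ ρ).map (fun p => SF θ N v ∅ (fun i => Yc i p)) = ρ := by
      simp only [SF, Finset.sum_empty, add_zero]
      exact map_Yc_inr h0 h1.le v
    rw [e]
    simp only [Finset.card_empty, Nat.cast_zero, zero_mul, add_zero, pow_zero, mul_one]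
    refine ⟨hρ, ?_, le_rfl⟩
    have := info_nonneg ρ
    nlinarith
  | insert k F hk ih =>
    have hkv : k ∈ ch v := hF (Finset.mem_insert_self k F)
    obtain ⟨i1, i2, i3⟩ := ih (fun j hj => hF (Finset.mem_insert_of_mem hj))
      (fun j hj => hc j (Finset.mem_insert_of_mem hj))
      (fun j hj => hm j (Finset.mem_insert_of_mem hj))
      (fun j hj => hX j (Finset.mem_insert_of_mem hj))
    obtain ⟨H', hH'⟩ := hc k (Finset.mem_insert_self k F)
    have hmk := hm k (Finset.mem_insert_self k F)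
    have hXk := hX k (Finset.mem_insert_self k F)
    set L1 := (GM b θ ρ).map (fun p => SF θ N v F (fun i => Yc i p)) with hL1
    set L2 := (GM b θ ρ).map (fun p => LT1 θ N (fun i => Yc i p) v k) with hL2
    have hm1 : Measurable (fun p => SF θ N v F (fun i => Yc i p)) :=
      (measurable_SF θ N v F).comp measurable_Yc'
    have hm2 : Measurable (fun p => LT1 θ N (fun i => Yc (b := b) i p) v k) :=
      (measurable_LT1 θ N v k).comp measurable_Yc'
    have hL2e : L2 = ((sgL θ).prod (lawLH b θ ρ N (nb k v))).map (fun p => p.1 * psi θ p.2) :=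
      law_LT1 h0 h1.le N v k
    have c2 : Chan L2 (Real.artanh θ) := by rw [hL2e]; exact hH'.edge h0 h1
    have f2 : info L2 = θ ^ 2 * info (lawLH b θ ρ N (nb k v)) := by
      rw [hL2e]; exact hH'.info_edge h0 h1
    have hind : IndepFun (fun p => SF θ N v F (fun i => Yc i p))
        (fun p => LT1 θ N (fun i => Yc (b := b) i p) v k) (GM b θ ρ) := by
      refine indep_of_dep (Y := Yc (b := b)) (fun i => measurable_Yc i) (iIndep_Yc h0 h1.le)
        (S := insert (Sum.inr v) (F.biUnion (CT N v))) (T := CT N v k) ?_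
        (measurable_SF θ N v F) (measurable_LT1 θ N v k) (dep_SF θ N v F) (dep_LT1 θ N v k)
      rw [Finset.disjoint_insert_left, Finset.disjoint_biUnion_left]
      refine ⟨inr_notMem_CT hkv, fun j hj => ?_⟩
      refine CT_disjoint (hF (Finset.mem_insert_of_mem hj)) hkv ?_
      rintro rfl
      exact hk hj
    have hsum : (GM b θ ρ).map (fun p => SF θ N v (insert k F) (fun i => Yc i p)) =
        (L1.prod L2).map (fun p => p.1 + p.2) := by
      have hmap := (indepFun_iff_map_prod_eq_prod_map_map hm1.aemeasurable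
        hm2.aemeasurable).mp hind
      have hadd : Measurable (fun p : ℝ × ℝ => p.1 + p.2) := measurable_fst.add measurable_snd
      rw [← hmap, Measure.map_map hadd (hm1.prodMk hm2)]
      congr 1
      funext p
      simp only [SF, Function.comp, Finset.sum_insert hk]
      ring
    rw [hsum]
    have hcard : ((insert k F).card : ℝ) = F.card + 1 := by
      rw [Finset.card_insert_of_notMem hk]; push_cast; ring
    have hmt : θ ^ 2 * m ≤ info L2 := by
      rw [f2]; exact mul_le_mul_of_nonneg_left hmk (sq_nonneg θ)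
    have hXt : info L2 ≤ θ ^ 2 * X := by
      rw [f2]; exact mul_le_mul_of_nonneg_left hXk (sq_nonneg θ)
    refine ⟨?_, ?_, ?_⟩
    · refine (i1.add c2).mono (le_of_eq ?_)
      rw [hcard]; ring
    · have := i1.info_add_lower c2 (α := info ρ + F.card * (θ ^ 2 * m)) (β := θ ^ 2 * m) i2 (by
        have h3 : 0 ≤ θ ^ 2 * m := by positivity
        have h4 := info_nonneg L2
        nlinarith)
      rw [hcard]
      have e : info ρ + (F.card + 1 : ℝ) * (θ ^ 2 * m) =
        info ρ + F.card * (θ ^ 2 * m) + θ ^ 2 * m := by ring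
      rw [e]
      exact this
    · have := i1.info_add_upper c2
      refine le_trans ?_ this
      rw [Finset.card_insert_of_notMem hk, pow_succ, ← mul_assoc]
      have h5 : 0 ≤ 1 - info L1 := by linarith [i1.info_lt_one]
      have h6 : 0 ≤ 1 - θ ^ 2 * X := by linarith
      calc (1 - info ρ) * (1 - θ ^ 2 * X) ^ F.card * (1 - θ ^ 2 * X)
          ≤ (1 - info L1) * (1 - θ ^ 2 * X) := mul_le_mul_of_nonneg_right i3 h6
        _ ≤ (1 - info L1) * (1 - info L2) := mul_le_mul_of_nonneg_left (by linarith) h5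

lemma lh_succ_eq (θ : ℝ) (N : ℕ) (v : V b) (p : (V b → Bool) × (V b → ℝ)) :
    lh θ (N + 1) p.1 p.2 v = SF θ N v (ch v) (fun i => Yc i p) := by
  rw [lh_eq]; rfl

/-- every depth `N` message is a channel -/
theorem lawLH_chan {H : ℝ} (hρ : Chan ρ H) (h0 : 0 ≤ θ) (h1 : θ < 1) (N : ℕ) (v : V b) :
    Chan (lawLH b θ ρ N v) (H + (b + 1) * Real.artanh θ) := by
  have := hρ.prob
  have := GM_probN (b := b) (ρ := ρ) h0 h1.le
  have ha : 0 ≤ Real.artanh θ := Real.artanh_nonneg h0
  have hb : (0 : ℝ) ≤ b := Nat.cast_nonneg b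
  induction N generalizing v with
  | zero =>
    unfold lawLH
    simp only [lh]
    rw [Measure.map_const, measure_univ, one_smul]
    refine ⟨Measure.dirac.isProbabilityMeasure, ?_, ?_⟩
    · rw [ae_dirac_eq]
      simp only [Filter.eventually_pure, abs_zero]
      have := hρ.nonneg
      positivity
    · intro φ _ _
      rw [integral_dirac, integral_dirac]
      simp
  | succ N ih =>
    have h := (step_SF (b := b) hρ h0 h1 N v (ch v) (Finset.Subset.refl _)
      (fun j _ => ⟨_, ih _⟩) 0 1 (fun j _ => info_nonneg _)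
      (fun j _ => (ih (nb j v)).info_lt_one.le) le_rfl (by nlinarith)).1
    have e : lawLH b θ ρ (N + 1) v =
        (GM b θ ρ).map (fun p => SF θ N v (ch v) (fun i => Yc i p)) := by
      unfold lawLH
      congr 1
      funext p
      exact lh_succ_eq θ N v p
    rw [e]
    refine h.mono ?_
    have : ((ch v).card : ℝ) ≤ b + 1 := by
      have := Finset.card_le_univ (ch v)
      rw [Fintype.card_fin] at this
      exact_mod_cast this
    have := mul_le_mul_of_nonneg_right this ha
    linarith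

/-- the recursive inequalities for the information -/
theorem info_step {H : ℝ} (hρ : Chan ρ H) (h0 : 0 ≤ θ) (h1 : θ < 1) (N : ℕ) (v : V b)
    (m X : ℝ) (hm : ∀ j ∈ ch v, m ≤ info (lawLH b θ ρ N (nb j v)))
    (hX : ∀ j ∈ ch v, info (lawLH b θ ρ N (nb j v)) ≤ X) (hm0 : 0 ≤ m) (hX1 : θ ^ 2 * X ≤ 1) :
    (info ρ + (ch v).card * (θ ^ 2 * m)) * (1 - info (lawLH b θ ρ (N + 1) v)) ≤
      info (lawLH b θ ρ (N + 1) v) ∧
    (1 - info ρ) * (1 - θ ^ 2 * X) ^ (ch v).card ≤ 1 - info (lawLH b θ ρ (N + 1) v) := by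
  have h := (step_SF (b := b) hρ h0 h1 N v (ch v) (Finset.Subset.refl _)
      (fun j _ => ⟨_, lawLH_chan hρ h0 h1 N _⟩) m X hm hX hm0 hX1).2
  have e : lawLH b θ ρ (N + 1) v =
      (GM b θ ρ).map (fun p => SF θ N v (ch v) (fun i => Yc i p)) := by
    unfold lawLH
    congr 1
    funext p
    exact lh_succ_eq θ N v p
  rw [e]
  exact h

end Gauge

end Crest.Agent.Isg
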