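import Mathlib
import Crest.Agent.IsgNishB

/-!
S0241, module NISH: `InfoLower` and `InfoUpper`.
-/

set_option autoImplicit false
set_option linter.unusedSectionVars false

open MeasureTheory ProbabilityTheory Filter Topology

namespace Crest.Agent.IsgNish

open Crest.Agent.Isg

variable {b : ℕ}

lemma nb_ne_rt {v : V b} {j : Fin (b + 1)} (hj : j ∈ ch v) : nb j v ≠ rt b := by
  intro h
  have h1 := nb_l_of_not_head j v (mem_ch.mp hj)
  rw [h] at h1
  simp at h1

lemma theta_lt_one {θ : ℝ} (hb : 2 ≤ b) (hθ : 0 < θ) (hc : b * θ ^ 2 = 1) : θ < 1 := by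
  have hb' : (2 : ℝ) ≤ b := by exact_mod_cast hb
  by_contra h
  push Not at h
  nlinarith

theorem lower_step {s m I : ℝ} (hs0 : 0 ≤ s) (hs1 : s ≤ 1) (hm0 : 0 ≤ m) (hm : m ≤ s / 2)
    (h : (s ^ 2 + m) * (1 - I) ≤ I) : m + s ^ 2 / 10 ≤ I := by
  have h1 : s ^ 2 ≤ s := by nlinarith
  have h2 : (m + s ^ 2 / 10) * (s ^ 2 + m) ≤ 9 / 10 * s ^ 2 := by
    have a1 : m + s ^ 2 / 10 ≤ 6 / 10 * s := by linarith
    have a2 : s ^ 2 + m ≤ 3 / 2 * s := by linarith
    have a3 : 0 ≤ s ^ 2 + m := by positivity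
    calc (m + s ^ 2 / 10) * (s ^ 2 + m) ≤ (6 / 10 * s) * (3 / 2 * s) :=
          mul_le_mul a1 a2 a3 (by positivity)
      _ = 9 / 10 * s ^ 2 := by ring
  have h3 : 0 < 1 + s ^ 2 + m := by positivity
  by_contra hcon
  push Not at hcon
  have h4 : I * (1 + s ^ 2 + m) < (m + s ^ 2 / 10) * (1 + s ^ 2 + m) :=
    mul_lt_mul_of_pos_right hcon h3
  nlinarith

/-- S3a -/
theorem mainLower : Spec.InfoLower := by
  intro b θ hb hθ hc ρ H hρ N v hv
  have hθ1 := theta_lt_one hb hθ hc
  rw [← info_lawLH]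
  have hp0 := info_nonneg ρ
  have hp1 := hρ.info_lt_one
  set p := info ρ with hp
  set s := √p with hs
  have hs0 : 0 ≤ s := Real.sqrt_nonneg _
  have hs2 : s ^ 2 = p := Real.sq_sqrt hp0
  have hs1 : s ≤ 1 := by
    by_contra h
    push Not at h
    nlinarith
  induction N generalizing v with
  | zero =>
    refine le_trans (min_le_left _ _) ?_
    simpa using info_nonneg _
  | succ N ih =>
    set m := min (N * p / 10) (s / 2) with hm
    have hm0 : 0 ≤ m := by
      rw [hm]
      exact le_min (by positivity) (by positivity)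
    have h := (info_step (b := b) hρ hθ.le hθ1 N v m 1 (fun j hj => ih (nb j v) (nb_ne_rt hj))
      (fun j _ => (lawLH_chan hρ hθ.le hθ1 N (nb j v)).info_lt_one.le) hm0 (by nlinarith)).1
    rw [card_ch hv] at h
    have e : (b : ℝ) * (θ ^ 2 * m) = m := by rw [← mul_assoc, hc, one_mul]
    rw [e, ← hp, ← hs2] at h
    have hk := lower_step hs0 hs1 hm0 (min_le_right _ _) h
    refine le_trans ?_ hk
    rw [hs2]
    rcases le_total (N * p / 10 : ℝ) (s / 2) with h1 | h1
    · have : m = N * p / 10 := by rw [hm, min_eq_left h1]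
      rw [this]
      refine (min_le_left _ _).trans (le_of_eq ?_)
      push_cast; ring
    · have : m = s / 2 := by rw [hm, min_eq_right h1]
      rw [this]
      refine (min_le_right _ _).trans ?_
      have : 0 ≤ p / 10 := by positivity
      linarith

lemma pow_bound {b : ℕ} (hb : 2 ≤ b) {X : ℝ} (hX0 : 0 ≤ X) (hX1 : X ≤ 1) :
    (1 - X / 2) ^ 2 ≤ (1 - X / b) ^ b := by
  have hb' : (2 : ℝ) ≤ b := by exact_mod_cast hb
  have hb0 : (0 : ℝ) < b := by linarith
  have h1 : X / b ≤ 1 := by rw [div_le_one hb0]; linarith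
  have h2 := one_add_mul_self_le_rpow_one_add (s := -(X / b)) (by linarith) (p := (b : ℝ) / 2)
    (by linarith)
  have e1 : 1 + (b : ℝ) / 2 * -(X / b) = 1 - X / 2 := by field_simp; ring
  have e2 : 1 + -(X / (b : ℝ)) = 1 - X / b := by ring
  rw [e1, e2] at h2
  have h3 : 0 ≤ 1 - X / (b : ℝ) := by linarith
  calc (1 - X / 2) ^ 2 ≤ ((1 - X / b) ^ ((b : ℝ) / 2)) ^ 2 :=
        pow_le_pow_left₀ (by linarith) h2 2
    _ = (1 - X / b) ^ b := by
        rw [← Real.rpow_natCast, ← Real.rpow_mul h3, ← Real.rpow_natCast]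
        congr 1
        push_cast; ring

/-- S3b -/
theorem mainUpper : Spec.InfoUpper := by
  intro b θ hb hθ hc
  refine ⟨5, ?_⟩
  intro ρ H hρ N v
  have hθ1 := theta_lt_one hb hθ hc
  have hb' : (2 : ℝ) ≤ b := by exact_mod_cast hb
  have hb0 : (0 : ℝ) < b := by linarith
  rw [← info_lawLH]
  have hp0 := info_nonneg ρ
  have hp1 := hρ.info_lt_one
  set p := info ρ with hp
  set s := √p with hs
  have hs0 : 0 ≤ s := Real.sqrt_nonneg _
  have hs2 : s ^ 2 = p := Real.sq_sqrt hp0
  have hθ2 : θ ^ 2 = 1 / b := by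
    rw [eq_div_iff hb0.ne']; linarith
  by_cases hs1 : 1 ≤ 2 * s
  · have := (lawLH_chan (b := b) hρ hθ.le hθ1 N v).info_lt_one
    linarith
  push Not at hs1
  have hXb : θ ^ 2 * (2 * s) = (2 * s) / b := by rw [hθ2]; ring
  have hXb1 : (2 * s) / b ≤ s := by
    rw [div_le_iff₀ hb0]; nlinarith
  have hlow := pow_bound hb (X := 2 * s) (by linarith) hs1.le
  have e1 : (1 - 2 * s / 2) ^ 2 = (1 - s) ^ 2 := by ring
  rw [e1] at hlow
  -- away from the root
  have key : ∀ (N : ℕ) (v : V b), v ≠ rt b → info (lawLH b θ ρ N v) ≤ 2 * s := by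
    intro N
    induction N with
    | zero =>
      intro v _
      rw [info_lawLH]
      simp only [lh, Real.tanh_zero]
      simp
      exact hs0
    | succ N ih =>
      intro v hv
      have h := (info_step (b := b) hρ hθ.le hθ1 N v 0 (2 * s) (fun j _ => info_nonneg _)
        (fun j hj => ih (nb j v) (nb_ne_rt hj)) le_rfl (by rw [hXb]; linarith)).2
      rw [card_ch hv, hXb, ← hp, ← hs2] at h
      have h2 : (1 - s ^ 2) * (1 - s) ^ 2 ≤ (1 - s ^ 2) * (1 - 2 * s / b) ^ b :=
        mul_le_mul_of_nonneg_left hlow (by nlinarith)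
      have h3 : 1 - 2 * s ≤ (1 - s ^ 2) * (1 - s) ^ 2 := by
        have : (1 - s ^ 2) * (1 - s) ^ 2 = 1 - 2 * s + s ^ 3 * (2 - s) := by ring
        rw [this]
        have : 0 ≤ s ^ 3 * (2 - s) := mul_nonneg (by positivity) (by linarith)
        linarith
      linarith
  by_cases hv : v = rt b
  · subst hv
    cases N with
    | zero =>
      rw [info_lawLH]
      simp only [lh, Real.tanh_zero]
      simp
      exact hs0
    | succ N =>
      have h := (info_step (b := b) hρ hθ.le hθ1 N (rt b) 0 (2 * s) (fun j _ => info_nonneg _)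
        (fun j hj => key N (nb j (rt b)) (nb_ne_rt hj)) le_rfl (by rw [hXb]; linarith)).2
      rw [card_ch_rt, hXb, ← hp, ← hs2, pow_succ (1 - 2 * s / (b : ℝ)) b] at h
      have h2 : (1 - s) ^ 2 * (1 - s) ≤ (1 - 2 * s / b) ^ b * (1 - 2 * s / b) :=
        mul_le_mul hlow (by linarith) (by linarith)
          (pow_nonneg (by linarith) _)
      have h3 : (1 - s ^ 2) * ((1 - s) ^ 2 * (1 - s)) ≤
          (1 - s ^ 2) * ((1 - 2 * s / b) ^ b * (1 - 2 * s / b)) :=
        mul_le_mul_of_nonneg_left h2 (by nlinarith)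
      have h4 : 1 - 5 * s ≤ (1 - s ^ 2) * ((1 - s) ^ 2 * (1 - s)) := by
        have a1 : 1 - 3 * s ≤ (1 - s) ^ 2 * (1 - s) := by nlinarith [sq_nonneg s]
        have a2 : 0 ≤ 1 - s ^ 2 := by nlinarith
        have a3 : (1 - s) ^ 2 * (1 - s) ≤ 1 := by
          have : 0 ≤ 1 - s := by linarith
          nlinarith [sq_nonneg (1 - s), mul_nonneg this hs0]
        nlinarith
      linarith
  · have := key N v hv
    linarith

end Crest.Agent.IsgNish
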