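import Crest.Agent.IsgEqvB
import Crest.Agent.IsgDet
import Crest.Agent.IsgUpd

set_option autoImplicit false

/-!
Shared facts on pair laws for S0241 (modules CRUDE and NEAR).
-/

open MeasureTheory ProbabilityTheory Filter Topology

namespace Crest.Agent.IsgPair

open Crest.Agent.Isg

variable {b : ℕ}

/-- difference of the magnetisations. -/
noncomputable def del (θ : ℝ) (h h' : V b → ℝ) (v : V b) : ℝ := M θ h v - M θ h' v

lemma del_sq_swap (θ : ℝ) (h h' : V b → ℝ) (v : V b) : del θ h h' v ^ 2 = del θ h' h v ^ 2 := by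
  unfold del; ring

@[fun_prop]
lemma measurable_del (θ : ℝ) (v : V b) :
    Measurable (fun p : (V b → ℝ) × (V b → ℝ) => del θ p.1 p.2 v) := by
  unfold del
  exact ((measurable_M θ v).comp measurable_fst).sub ((measurable_M θ v).comp measurable_snd)

lemma del_mul (θ : ℝ) (h h' : V b → ℝ) (g v : V b) :
    del θ (fun v => h (mul g v)) (fun v => h' (mul g v)) v = del θ h h' (mul g v) := by
  unfold del
  rw [M_mul, M_mul]

/-- the sum of the squared differences along a path. -/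
noncomputable def PS (θ : ℝ) (h h' : V b → ℝ) (u : V b) : List (Fin (b + 1)) → ℝ
  | [] => del θ h h' u ^ 2
  | i :: l => PS θ h h' u l + del θ h h' (follow u (i :: l)) ^ 2

lemma PS_nonneg (θ : ℝ) (h h' : V b → ℝ) (u : V b) (l : List (Fin (b + 1))) :
    0 ≤ PS θ h h' u l := by
  induction l with
  | nil => exact sq_nonneg _
  | cons i l ih => exact add_nonneg ih (sq_nonneg _)

lemma PS_swap (θ : ℝ) (h h' : V b → ℝ) (u : V b) (l : List (Fin (b + 1))) :
    PS θ h h' u l = PS θ h' h u l := by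
  induction l with
  | nil => exact del_sq_swap _ _ _ _
  | cons i l ih => rw [PS, PS, ih, del_sq_swap]

lemma del_start_le_PS (θ : ℝ) (h h' : V b → ℝ) (u : V b) (l : List (Fin (b + 1))) :
    del θ h h' u ^ 2 ≤ PS θ h h' u l := by
  induction l with
  | nil => exact le_rfl
  | cons i l ih => rw [PS]; nlinarith [sq_nonneg (del θ h h' (follow u (i :: l)))]

lemma del_end_le_PS (θ : ℝ) (h h' : V b → ℝ) (u : V b) (l : List (Fin (b + 1))) :
    del θ h h' (follow u l) ^ 2 ≤ PS θ h h' u l := by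
  cases l with
  | nil => exact le_rfl
  | cons i l => rw [PS]; linarith [PS_nonneg θ h h' u l]

lemma PS_eq_sum (θ : ℝ) (h h' : V b → ℝ) (u : V b) (l : List (Fin (b + 1))) :
    PS θ h h' u l = ∑ k ∈ Finset.range (l.length + 1), del θ h h' (follow u (l.drop k)) ^ 2 := by
  induction l with
  | nil => simp [PS]
  | cons i l ih =>
    rw [PS, Finset.sum_range_succ', ih, List.length_cons]
    simp

@[fun_prop]
lemma measurable_PS (θ : ℝ) (u : V b) (l : List (Fin (b + 1))) :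
    Measurable (fun p : (V b → ℝ) × (V b → ℝ) => PS θ p.1 p.2 u l) := by
  induction l with
  | nil => exact (measurable_del θ u).pow_const 2
  | cons i l ih => exact ih.add ((measurable_del θ _).pow_const 2)

/-- `SQl` is bounded by the path sum. -/
lemma SQl_le_PS {θ L : ℝ} {h h' : V b → ℝ}
    (hMsg : ∀ (u : V b) (i : Fin (b + 1)), |lmI θ h u i - lmI θ h' u i| ≤
      L * (|M θ h u - M θ h' u| + |M θ h (nb i u) - M θ h' (nb i u)|))
    (u : V b) (l : List (Fin (b + 1))) :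
    SQl θ h h' u l + 2 * L ^ 2 * del θ h h' (follow u l) ^ 2 ≤ 4 * L ^ 2 * PS θ h h' u l := by
  induction l with
  | nil =>
    rw [SQl_nil, PS, follow_nil]
    nlinarith [mul_nonneg (sq_nonneg L) (sq_nonneg (del θ h h' u))]
  | cons i l ih =>
    rw [SQl_cons, PS]
    have h2 := hMsg (follow u (i :: l)) i
    rw [follow_cons, nb_nb] at h2
    have h3 : (lmI θ h (follow u (i :: l)) i - lmI θ h' (follow u (i :: l)) i) ^ 2 ≤
        2 * L ^ 2 * (del θ h h' (follow u (i :: l)) ^ 2 + del θ h h' (follow u l) ^ 2) := by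
      rw [follow_cons]
      set A := |M θ h (nb i (follow u l)) - M θ h' (nb i (follow u l))| with hA
      set B := |M θ h (follow u l) - M θ h' (follow u l)| with hB
      have h4 : (lmI θ h (nb i (follow u l)) i - lmI θ h' (nb i (follow u l)) i) ^ 2 ≤
          (L * (A + B)) ^ 2 := by
        rw [← sq_abs]
        exact pow_le_pow_left₀ (abs_nonneg _) h2 2
      have h5 : del θ h h' (nb i (follow u l)) ^ 2 = A ^ 2 := by rw [hA, sq_abs]; rfl
      have h6 : del θ h h' (follow u l) ^ 2 = B ^ 2 := by rw [hB, sq_abs]; rfl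
      rw [h5, h6]
      calc _ ≤ (L * (A + B)) ^ 2 := h4
        _ = L ^ 2 * (A + B) ^ 2 := by ring
        _ ≤ L ^ 2 * (2 * (A ^ 2 + B ^ 2)) := by
            apply mul_le_mul_of_nonneg_left _ (sq_nonneg L)
            nlinarith [sq_nonneg (A - B)]
        _ = _ := by ring
    nlinarith

/-- bound of one term of the kernel. -/
lemma KKterm_le {θ : ℝ} (h0 : 0 ≤ θ) (h1 : θ < 1) (h h' : V b → ℝ) (w : V b) :
    8 * (CC θ h (rt b) w - CC θ h' (rt b) w) ^ 2 +
      32 * CC θ h' (rt b) w ^ 2 * (M θ h w - M θ h' w) ^ 2 ≤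
    θ ^ (2 * len w) * (16 * (DD θ h (rt b) w - DD θ h' (rt b) w) ^ 2 +
      64 * del θ h h' (rt b) ^ 2 * DD θ h' (rt b) w + 32 * del θ h h' w ^ 2 * DD θ h' (rt b) w) := by
  unfold CC
  change _ + 32 * _ * (del θ h h' w) ^ 2 ≤ _
  have hd : M θ h (rt b) - M θ h' (rt b) = del θ h h' (rt b) := rfl
  have hD := DD_pos h0 h1 h' (rt b) w
  have hD1 := DD_le_one h0 h1 h' (rt b) w
  have hE := DD_pos h0 h1 h (rt b) w
  have hE1 := DD_le_one h0 h1 h (rt b) w
  have hM := M_sq_lt_one θ h (rt b)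
  have hM' := M_sq_lt_one θ h' (rt b)
  set m := M θ h (rt b)
  set m' := M θ h' (rt b)
  set D := DD θ h (rt b) w
  set D' := DD θ h' (rt b) w
  set e := del θ h h' (rt b)
  set f := del θ h h' w
  have ht : 0 ≤ θ ^ (2 * len w) := by positivity
  have ht2 : θ ^ (2 * len w) = (θ ^ len w) ^ 2 := by rw [mul_comm, pow_mul]
  have k1 : ((1 - m ^ 2) * θ ^ len w * D - (1 - m' ^ 2) * θ ^ len w * D') ^ 2 ≤
      θ ^ (2 * len w) * (2 * (D - D') ^ 2 + 8 * e ^ 2 * D') := by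
    have e1 : ((1 - m ^ 2) * θ ^ len w * D - (1 - m' ^ 2) * θ ^ len w * D') ^ 2 =
        θ ^ (2 * len w) * ((1 - m ^ 2) * (D - D') + (m' ^ 2 - m ^ 2) * D') ^ 2 := by
      rw [ht2]; ring
    rw [e1]
    apply mul_le_mul_of_nonneg_left _ ht
    have e2 : ((1 - m ^ 2) * (D - D') + (m' ^ 2 - m ^ 2) * D') ^ 2 ≤
        2 * ((1 - m ^ 2) * (D - D')) ^ 2 + 2 * ((m' ^ 2 - m ^ 2) * D') ^ 2 := by
      nlinarith [sq_nonneg ((1 - m ^ 2) * (D - D') - (m' ^ 2 - m ^ 2) * D')]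
    have e3 : ((1 - m ^ 2) * (D - D')) ^ 2 ≤ (D - D') ^ 2 := by
      rw [mul_pow]
      have : (1 - m ^ 2) ^ 2 ≤ 1 := by nlinarith [sq_nonneg m]
      nlinarith [sq_nonneg (D - D')]
    have e4 : ((m' ^ 2 - m ^ 2) * D') ^ 2 ≤ 4 * e ^ 2 * D' := by
      have e5 : (m' ^ 2 - m ^ 2) ^ 2 ≤ 4 * e ^ 2 := by
        have e6 : (m' ^ 2 - m ^ 2) ^ 2 = (m' + m) ^ 2 * e ^ 2 := by rw [← hd]; ring
        rw [e6]
        apply mul_le_mul_of_nonneg_right _ (sq_nonneg e)
        nlinarith [sq_nonneg (m - m')]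
      have e7 : D' ^ 2 ≤ D' := by nlinarith
      rw [mul_pow]
      exact mul_le_mul e5 e7 (sq_nonneg _) (by positivity)
    nlinarith
  have k2 : ((1 - m' ^ 2) * θ ^ len w * D') ^ 2 * f ^ 2 ≤ θ ^ (2 * len w) * (f ^ 2 * D') := by
    have e1 : ((1 - m' ^ 2) * θ ^ len w * D') ^ 2 * f ^ 2 =
        θ ^ (2 * len w) * ((1 - m' ^ 2) ^ 2 * D' ^ 2 * f ^ 2) := by rw [ht2]; ring
    rw [e1]
    apply mul_le_mul_of_nonneg_left _ ht
    have e2 : (1 - m' ^ 2) ^ 2 ≤ 1 := by nlinarith [sq_nonneg m']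
    have e7 : D' ^ 2 ≤ D' := by nlinarith
    have e8 : (1 - m' ^ 2) ^ 2 * D' ^ 2 ≤ 1 * D' := mul_le_mul e2 e7 (sq_nonneg _) zero_le_one
    calc (1 - m' ^ 2) ^ 2 * D' ^ 2 * f ^ 2 ≤ (1 * D') * f ^ 2 :=
          mul_le_mul_of_nonneg_right e8 (sq_nonneg f)
      _ = f ^ 2 * D' := by ring
  nlinarith

/-! ### pair laws -/

section law

variable {θ H : ℝ} {ρ : Measure ℝ} {L : Measure ((V b → ℝ) × (V b → ℝ))}

lemma ae_fst (hL : PairLaw b θ ρ L) {P : (V b → ℝ) → Prop} (hP : ∀ᵐ h ∂(PL b θ ρ), P h) :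
    ∀ᵐ p ∂L, P p.1 := by
  rw [← hL.fst] at hP
  exact ae_of_ae_map measurable_fst.aemeasurable hP

lemma ae_snd (hL : PairLaw b θ ρ L) {P : (V b → ℝ) → Prop} (hP : ∀ᵐ h ∂(PL b θ ρ), P h) :
    ∀ᵐ p ∂L, P p.2 := by
  rw [← hL.snd] at hP
  exact ae_of_ae_map measurable_snd.aemeasurable hP

lemma ae_good (hG : Spec.GoodPL) (hb : 1 ≤ b) (h0 : 0 ≤ θ) (h1 : θ < 1) (hρ : Chan ρ H)
    (hL : PairLaw b θ ρ L) : ∀ᵐ p ∂L, GoodH θ H p.1 ∧ GoodH θ H p.2 := by
  have h2 := hG b θ hb h0 h1 ρ H hρ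
  filter_upwards [ae_fst hL h2, ae_snd hL h2] with p hp1 hp2
  exact ⟨hp1, hp2⟩

/-- the shift of a pair. -/
def sh (g : V b) (p : (V b → ℝ) × (V b → ℝ)) : (V b → ℝ) × (V b → ℝ) :=
  ((fun v => p.1 (mul g v)), (fun v => p.2 (mul g v)))

lemma measurable_sh (g : V b) : Measurable (sh (b := b) g) := by
  unfold sh
  apply Measurable.prodMk
  · exact measurable_pi_lambda _ (fun v => (measurable_pi_apply _).comp measurable_fst)
  · exact measurable_pi_lambda _ (fun v => (measurable_pi_apply _).comp measurable_snd)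

lemma lintegral_sh (hL : PairLaw b θ ρ L) (g : V b) {F : (V b → ℝ) × (V b → ℝ) → ENNReal}
    (hF : Measurable F) : ∫⁻ p, F (sh g p) ∂L = ∫⁻ p, F p ∂L := by
  have h2 : L.map (sh g) = L := hL.inv g
  conv_rhs => rw [← h2]
  rw [lintegral_map hF (measurable_sh g)]

lemma lintegral_swap (hL : PairLaw b θ ρ L) {F : (V b → ℝ) × (V b → ℝ) → ENNReal}
    (hF : Measurable F) : ∫⁻ p, F p.swap ∂L = ∫⁻ p, F p ∂L := by
  have h2 := hL.swap
  conv_rhs => rw [← h2]
  rw [lintegral_map hF measurable_swap]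

lemma AA_eq (hL : PairLaw b θ ρ L) (v : V b) :
    ∫⁻ p, ENNReal.ofReal (del θ p.1 p.2 v ^ 2) ∂L = AA θ L := by
  have h2 := lintegral_sh hL v (F := fun p => ENNReal.ofReal (del θ p.1 p.2 (rt b) ^ 2))
    ((measurable_del θ _).pow_const 2).ennreal_ofReal
  unfold AA
  change _ = ∫⁻ p, ENNReal.ofReal (del θ p.1 p.2 (rt b) ^ 2) ∂L
  rw [← h2]
  congr 1
  ext p
  unfold sh
  simp only
  rw [del_mul, mul_rt]

lemma lintegral_PS (hL : PairLaw b θ ρ L) (u : V b) (l : List (Fin (b + 1))) :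
    ∫⁻ p, ENNReal.ofReal (PS θ p.1 p.2 u l) ∂L = (l.length + 1 : ℕ) * AA θ L := by
  induction l with
  | nil => simp only [PS]; rw [AA_eq hL]; simp
  | cons i l ih =>
    simp only [PS]
    have h2 : ∀ p : (V b → ℝ) × (V b → ℝ), ENNReal.ofReal (PS θ p.1 p.2 u l +
        del θ p.1 p.2 (follow u (i :: l)) ^ 2) = ENNReal.ofReal (PS θ p.1 p.2 u l) +
        ENNReal.ofReal (del θ p.1 p.2 (follow u (i :: l)) ^ 2) := fun p =>
      ENNReal.ofReal_add (PS_nonneg θ p.1 p.2 u l) (sq_nonneg _)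
    simp only [h2]
    rw [lintegral_add_left (measurable_PS θ u l).ennreal_ofReal, ih, AA_eq hL, List.length_cons]
    push_cast
    ring

end law

end Crest.Agent.IsgPair
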