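import Crest.Agent.IsgSpec
import Crest.Agent.IsgEqvB
import Crest.Agent.H27Prod

set_option autoImplicit false

/-!
PAIRT for S0241: the fields at a fixed time have the planted law with channel `rhoT t`, and the
laws of pairs of fields of admissible triples are admissible pair laws.
-/

open MeasureTheory ProbabilityTheory Filter Topology

namespace Crest.Agent.IsgPairT

open Crest.Agent.Isg

variable {b : ℕ}

/-- The gauged own field as a function of the labels and noises at a vertex. -/
noncomputable def zt (t : ℝ) (w : ℕ → UI × UI) : ℝ :=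
  ∑ j ∈ Finset.range (⌊t⌋₊ + 1), if (j : ℝ) + ((w j).1 : ℝ) < t then
      Real.artanh (str (w j).1 * (2 * (Gc (str (w j).1) (w j).2 : ℝ) - 1)) else 0

lemma measurable_zt (t : ℝ) : Measurable (zt t) := by
  unfold zt
  apply Finset.measurable_sum
  intro j _
  have m1 : Measurable (fun w : ℕ → UI × UI => ((w j).1 : ℝ)) :=
    measurable_coeUI.comp (measurable_fst.comp (measurable_pi_apply j))
  have m2 : Measurable (fun w : ℕ → UI × UI => (w j).2) :=
    measurable_snd.comp (measurable_pi_apply j)
  apply Measurable.ite (measurableSet_lt (measurable_const.add m1) measurable_const) _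
    measurable_const
  exact measurable_artanh.comp ((Measurable.str m1).mul
    (((Measurable.coeUI (Measurable.Gc (Measurable.str m1) m2)).const_mul 2).sub_const 1))

lemma obs_signal (e : ℝ) (s : Bool) (w : UI) :
    Real.artanh (e * (2 * (obs e s w : ℝ) - 1)) =
      sg s * Real.artanh (e * (2 * (Gc e w : ℝ) - 1)) := by
  cases s
  · rw [obs, if_neg (by simp), sg_false, unitInterval.coe_symm_eq]
    have : e * (2 * (1 - (Gc e w : ℝ)) - 1) = -(e * (2 * (Gc e w : ℝ) - 1)) := by ring
    rw [this, artanh_odd]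
    ring
  · rw [obs, if_pos rfl, sg_true, one_mul]

lemma fld_Yf (U : ℕ × V b → UI) (σ : V b → Bool) (η : ℕ × V b → UI) (t : ℝ) (v : V b) :
    fld U (Yf U σ η) t v = sg (σ v) * zt t (fun j => (U (j, v), η (j, v))) := by
  unfold fld zt
  rw [Finset.mul_sum]
  apply Finset.sum_congr rfl
  intro j _
  have h1 : tm U (j, v) = (j : ℝ) + (U (j, v) : ℝ) := rfl
  rw [h1]
  by_cases h : (j : ℝ) + (U (j, v) : ℝ) < t
  · rw [if_pos h, if_pos h]
    have h2 : zz U (Yf U σ η) (j, v) = str (U (j, v)) *
        (2 * (obs (str (U (j, v))) (σ v) (η (j, v)) : ℝ) - 1) := rfl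
    rw [h2, obs_signal]
  · rw [if_neg h, if_neg h, mul_zero]

/-- The law of the labels and noises, arranged by vertices. -/
lemma map_arrange :
    ((noise (ℕ × V b)).prod (noise (ℕ × V b))).map
        (fun p (v : V b) (j : ℕ) => (p.1 (j, v), p.2 (j, v))) =
      Measure.infinitePi (fun _ : V b => Measure.infinitePi (fun _ : ℕ =>
        (volume : Measure UI).prod (volume : Measure UI))) := by
  have h1 := H27Prod.map_prod_infinitePi (ι := ℕ × V b) (fun _ => (volume : Measure UI))
    (fun _ => (volume : Measure UI))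
  have h2 := Measure.infinitePi_map_piCongrLeft (X := fun _ : V b × ℕ => UI × UI)
    (fun _ : V b × ℕ => (volume : Measure UI).prod (volume : Measure UI))
    (Equiv.prodComm ℕ (V b))
  have h3 := Measure.infinitePi_map_curry (ι := V b) (κ := ℕ) (X := UI × UI)
    (fun _ _ => (volume : Measure UI).prod (volume : Measure UI))
  have m0 : Measurable (fun (p : (ℕ × V b → UI) × (ℕ × V b → UI)) (α : ℕ × V b) =>
      (p.1 α, p.2 α)) :=
    measurable_pi_lambda _ (fun α => ((measurable_pi_apply α).comp measurable_fst).prodMk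
      ((measurable_pi_apply α).comp measurable_snd))
  rw [← h3, ← h2, ← h1, Measure.map_map (by fun_prop) m0,
    Measure.map_map (by fun_prop) (by fun_prop)]
  congr 1

lemma map_zt (t : ℝ) :
    (Measure.infinitePi (fun _ : ℕ => (volume : Measure UI).prod (volume : Measure UI))).map
      (zt t) = rhoT t := by
  have h1 := H27Prod.map_prod_infinitePi (ι := ℕ) (fun _ => (volume : Measure UI))
    (fun _ => (volume : Measure UI))
  rw [← h1, Measure.map_map (measurable_zt t)]
  · rfl
  · exact measurable_pi_lambda _ (fun α => ((measurable_pi_apply α).comp measurable_fst).prodMk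
      ((measurable_pi_apply α).comp measurable_snd))

/-- The gauged fields of all vertices. -/
noncomputable def Zf (t : ℝ) (p : (ℕ × V b → UI) × (ℕ × V b → UI)) (v : V b) : ℝ :=
  zt t (fun j => (p.1 (j, v), p.2 (j, v)))

lemma measurable_Zf (t : ℝ) : Measurable (Zf (b := b) t) := by
  apply measurable_pi_lambda
  intro v
  apply (measurable_zt t).comp
  exact measurable_pi_lambda _ (fun j => ((measurable_pi_apply (j, v)).comp measurable_fst).prodMk
      ((measurable_pi_apply (j, v)).comp measurable_snd))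

lemma map_Zf (t : ℝ) :
    ((noise (ℕ × V b)).prod (noise (ℕ × V b))).map (Zf t) =
      Measure.infinitePi (fun _ : V b => rhoT t) := by
  have h1 := Measure.infinitePi_map_pi (μ := fun _ : V b => Measure.infinitePi (fun _ : ℕ =>
    (volume : Measure UI).prod (volume : Measure UI))) (f := fun _ : V b => zt t)
    (fun _ => measurable_zt t)
  simp only [map_zt] at h1
  rw [← h1, ← map_arrange, Measure.map_map]
  · rfl
  · exact measurable_pi_lambda _ (fun v => (measurable_zt t).comp (measurable_pi_apply v))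
  · exact measurable_pi_lambda _ (fun v => measurable_pi_lambda _ (fun j =>
      ((measurable_pi_apply (j, v)).comp measurable_fst).prodMk
      ((measurable_pi_apply (j, v)).comp measurable_snd)))

/-- Rearranging a product of three measures. -/
lemma map_rot {X Y Z : Type*} [MeasurableSpace X] [MeasurableSpace Y] [MeasurableSpace Z]
    (μ : Measure X) (ν : Measure Y) (κ : Measure Z) [SFinite μ] [SFinite ν] [SFinite κ] :
    (μ.prod (ν.prod κ)).map (fun p => (p.2.1, (p.1, p.2.2))) = ν.prod (μ.prod κ) := by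
  have h1 : (fun p : X × (Y × Z) => (p.2.1, (p.1, p.2.2))) =
      (fun p : (Y × X) × Z => (p.1.1, (p.1.2, p.2))) ∘ (fun p : (X × Y) × Z => (p.1.swap, p.2)) ∘
        (fun p : X × (Y × Z) => ((p.1, p.2.1), p.2.2)) := by
    funext p; rfl
  have m1 : Measurable (fun p : X × (Y × Z) => ((p.1, p.2.1), p.2.2)) := by fun_prop
  have m2 : Measurable (fun p : (X × Y) × Z => (p.1.swap, p.2)) := by fun_prop
  have m3 : Measurable (fun p : (Y × X) × Z => (p.1.1, (p.1.2, p.2))) := by fun_prop
  rw [h1, ← Measure.map_map m3 (m2.comp m1), ← Measure.map_map m2 m1]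
  have e1 : (μ.prod (ν.prod κ)).map (fun p : X × (Y × Z) => ((p.1, p.2.1), p.2.2)) =
      (μ.prod ν).prod κ := by
    have := (MeasurePreserving.symm _ (measurePreserving_prodAssoc μ ν κ)).map_eq
    exact this
  have e2 : ((μ.prod ν).prod κ).map (fun p : (X × Y) × Z => (p.1.swap, p.2)) =
      (ν.prod μ).prod κ := by
    have := Measure.map_prod_map (μ.prod ν) κ (f := Prod.swap) (g := id) measurable_swap
      measurable_id
    rw [Measure.prod_swap, Measure.map_id] at this
    exact this.symm
  have e3 : ((ν.prod μ).prod κ).map (fun p : (Y × X) × Z => (p.1.1, (p.1.2, p.2))) =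
      ν.prod (μ.prod κ) := (measurePreserving_prodAssoc ν μ κ).map_eq
  rw [e1, e2, e3]

theorem map_fld {θ : ℝ} (h0 : 0 ≤ θ) (h1 : θ < 1) (t : ℝ) :
    (PP b θ).map (fun p => fld p.1 p.2 t) = PL b θ (rhoT t) := by
  have := isProb_mu (b := b) h0 h1
  have mfld : Measurable (fun p : (ℕ × V b → UI) × (ℕ × V b → UI) => fld p.1 p.2 t) :=
    Measurable.fld measurable_fst measurable_snd measurable_const
  unfold PP PL
  rw [Measure.map_map mfld measurable_obsMap]
  unfold JJ
  have e1 : ((fun p : (ℕ × V b → UI) × (ℕ × V b → UI) => fld p.1 p.2 t) ∘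
      fun p : (ℕ × V b → UI) × ((V b → Bool) × (ℕ × V b → UI)) =>
        (p.1, Yf p.1 p.2.1 p.2.2)) =
      (fun (p : (V b → Bool) × (V b → ℝ)) (v : V b) => sg (p.1 v) * p.2 v) ∘
      (Prod.map id (Zf t)) ∘
      (fun p : (ℕ × V b → UI) × ((V b → Bool) × (ℕ × V b → UI)) => (p.2.1, (p.1, p.2.2))) := by
    funext p v
    simp only [Function.comp]
    rw [fld_Yf]
    rfl
  have m1 : Measurable (fun p : (ℕ × V b → UI) × ((V b → Bool) × (ℕ × V b → UI)) =>
      (p.2.1, (p.1, p.2.2))) := by fun_prop
  have m2 : Measurable (Prod.map id (Zf t) : (V b → Bool) × ((ℕ × V b → UI) × (ℕ × V b → UI)) →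
      (V b → Bool) × (V b → ℝ)) := measurable_id.prodMap (measurable_Zf t)
  rw [e1, ← Measure.map_map measurable_plant (m2.comp m1), ← Measure.map_map m2 m1, map_rot,
    ← Measure.map_prod_map _ _ measurable_id (measurable_Zf t), map_Zf, Measure.map_id]

theorem main : Spec.PairT := by
  intro b θ hb h0 h1
  refine ⟨fun t _ => map_fld h0 h1 t, ?_⟩
  intro L hL hT t _
  have m1 : Measurable (fun p : (ℕ × V b → UI) × ((ℕ × V b → UI) × (ℕ × V b → UI)) =>
      (p.1, p.2.1)) := by fun_prop
  have m2 : Measurable (fun p : (ℕ × V b → UI) × ((ℕ × V b → UI) × (ℕ × V b → UI)) =>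
      (p.1, p.2.2)) := by fun_prop
  have mfld : Measurable (fun p : (ℕ × V b → UI) × (ℕ × V b → UI) => fld p.1 p.2 t) :=
    Measurable.fld measurable_fst measurable_snd measurable_const
  have m3 : Measurable (fun p : (ℕ × V b → UI) × ((ℕ × V b → UI) × (ℕ × V b → UI)) =>
      (fld p.1 p.2.1 t, fld p.1 p.2.2 t)) := (mfld.comp m1).prodMk (mfld.comp m2)
  refine ⟨?_, ?_, ?_, ?_⟩
  · unfold Isg.LT
    rw [Measure.map_map measurable_fst m3]
    have e : (Prod.fst ∘ fun p : (ℕ × V b → UI) × ((ℕ × V b → UI) × (ℕ × V b → UI)) =>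
      (fld p.1 p.2.1 t, fld p.1 p.2.2 t)) = (fun p => fld p.1 p.2 t) ∘
        (fun p : (ℕ × V b → UI) × ((ℕ × V b → UI) × (ℕ × V b → UI)) => (p.1, p.2.1)) := rfl
    rw [e, ← Measure.map_map mfld m1, hT.fst, map_fld h0 h1]
  · unfold Isg.LT
    rw [Measure.map_map measurable_snd m3]
    have e : (Prod.snd ∘ fun p : (ℕ × V b → UI) × ((ℕ × V b → UI) × (ℕ × V b → UI)) =>
      (fld p.1 p.2.1 t, fld p.1 p.2.2 t)) = (fun p => fld p.1 p.2 t) ∘
        (fun p : (ℕ × V b → UI) × ((ℕ × V b → UI) × (ℕ × V b → UI)) => (p.1, p.2.2)) := rfl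
    rw [e, ← Measure.map_map mfld m2, hT.snd, map_fld h0 h1]
  · unfold Isg.LT
    rw [Measure.map_map measurable_swap m3]
    have m4 : Measurable (fun p : (ℕ × V b → UI) × ((ℕ × V b → UI) × (ℕ × V b → UI)) =>
      (p.1, (p.2.2, p.2.1))) := by fun_prop
    conv_rhs => rw [← hT.swap]
    rw [Measure.map_map m3 m4]
    rfl
  · intro u
    unfold Isg.LT
    have m5 : Measurable (fun p : (V b → ℝ) × (V b → ℝ) =>
        ((fun v => p.1 (mul u v)), (fun v => p.2 (mul u v)))) :=
      ((measurable_reindex (fun v => mul u v)).comp measurable_fst).prodMk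
        ((measurable_reindex (fun v => mul u v)).comp measurable_snd)
    have m7 : Measurable (fun (U : ℕ × V b → UI) (α : ℕ × V b) => U (α.1, mul u α.2)) :=
      measurable_reindex (fun α : ℕ × V b => (α.1, mul u α.2))
    have m6 : Measurable (fun p : (ℕ × V b → UI) × ((ℕ × V b → UI) × (ℕ × V b → UI)) =>
        ((fun α : ℕ × V b => p.1 (α.1, mul u α.2)),
          ((fun α : ℕ × V b => p.2.1 (α.1, mul u α.2)),
            (fun α : ℕ × V b => p.2.2 (α.1, mul u α.2))))) :=
      (m7.comp measurable_fst).prodMk ((m7.comp (measurable_fst.comp measurable_snd)).prodMk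
        (m7.comp (measurable_snd.comp measurable_snd)))
    rw [Measure.map_map m5 m3]
    conv_rhs => rw [← hT.inv u]
    rw [Measure.map_map m3 m6]
    congr 1

end Crest.Agent.IsgPairT
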