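import Crest.Agent.IsgParsD

set_option autoImplicit false

/-!
S0241, module PARS: the magnetisation is the sum of its increments.
-/

open MeasureTheory ProbabilityTheory Filter Topology

set_option maxHeartbeats 400000

namespace Crest.Agent.IsgPars

open Crest.Agent.Isg

variable {b : ℕ}

lemma ae_good_PP (hPost : Spec.Post) {θ : ℝ} (hb : 1 ≤ b) (h0 : 0 ≤ θ) (h1 : θ < 1)
    (τ : (ℕ × V b → UI) → ℝ) (hτ : Measurable τ) :
    ∀ᵐ p ∂(PP b θ), Good θ (fld p.1 p.2 (τ p.1)) := by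
  have hs : MeasurableSet {p : (ℕ × V b → UI) × (ℕ × V b → UI) |
      Good θ (fld p.1 p.2 (τ p.1))} := by
    have hf : Measurable (fun p : (ℕ × V b → UI) × (ℕ × V b → UI) => fld p.1 p.2 (τ p.1)) :=
      Measurable.fld measurable_fst measurable_snd (hτ.comp measurable_fst)
    exact hf (measurableSet_Good θ)
  rw [ae_PP hs]
  exact (hPost b θ hb h0 h1 τ hτ).1

lemma tendsto_incrN (hU : Spec.Update) {θ : ℝ} (h0 : 0 ≤ θ) (h1 : θ < 1)
    (U Y : ℕ × V b → UI) (α : ℕ × V b) (hg : Good θ (fld U Y (tm U α))) :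
    Tendsto (fun N => incrN θ N U Y α) atTop (𝓝 (Spec.incr θ U Y α)) := by
  have hz : |zz U Y α| < 1 := lt_of_le_of_lt (abs_zz_le U Y α) (by norm_num)
  have hg2 := (hU b θ h0 h1 _ hg (rt b) α.2 (zz U Y α) hz).1
  rw [rt_mul] at hg2
  unfold incrN Spec.incr
  exact (hg2.tendsto_tanh_lg h0 h1 (rt b)).sub (hg.tendsto_tanh_lg h0 h1 (rt b))

theorem main (hPost : Spec.Post) (hU : Spec.Update) (hOwn : Spec.OwnTime)
    (hPair : Spec.PairT) (hTrip : Spec.Triple) : Spec.Parseval := by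
  classical
  intro b θ hb h0 h1 hTail τ hτ ε hε
  have hb1 : 1 ≤ b := by omega
  have hPP := isProb_PP (b := b) h0 h1
  obtain ⟨L, hLp, hL, -⟩ := hTrip b θ hb1 h0 h1
  obtain ⟨R, hR⟩ := hTail τ hτ (ε / 4) (by positivity)
  refine ⟨box b (⌊τ⌋₊ + 1) R, fun S' hS' => ?_⟩
  set N0 := S'.sup (fun α => len α.2) with hN0
  set D : ℕ → (ℕ × V b → UI) × (ℕ × V b → UI) → ℝ := fun N p =>
    Real.tanh (lg θ N (fld p.1 p.2 τ) (rt b)) - ∑ α ∈ S', ZN θ N τ p.1 p.2 α with hD
  have hDm : ∀ N, Measurable (D N) := by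
    intro N
    apply Measurable.sub
    · exact measurable_tanh.comp ((measurable_lg θ N (rt b)).comp
        (Measurable.fld measurable_fst measurable_snd measurable_const))
    · exact Finset.measurable_sum _ (fun α _ => measurable_ZN θ N τ α)
  -- finite volume
  have hfin : ∀ N, N0 ≤ N → ∫⁻ p, ENNReal.ofReal (D N p ^ 2) ∂(PP b θ) ≤ ENNReal.ofReal ε := by
    intro N hN
    have e : (fun p => ENNReal.ofReal (D N p ^ 2)) =ᵐ[PP b θ] fun p =>
        ENNReal.ofReal ((∑ α ∈ box b (⌊τ⌋₊ + 1) N \ S', ZN θ N τ p.1 p.2 α) ^ 2) := by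
      filter_upwards [ae_PP_of_noise h0 h1 ae_distinct] with p hp
      congr 2
      show Real.tanh (lg θ N (fld p.1 p.2 τ) (rt b)) - ∑ α ∈ S', ZN θ N τ p.1 p.2 α = _
      rw [tele θ N τ p.1 p.2 hp (⌊τ⌋₊ + 1) le_rfl]
      have e1 : ∑ α ∈ S', ZN θ N τ p.1 p.2 α =
          ∑ α ∈ box b (⌊τ⌋₊ + 1) N ∩ S', ZN θ N τ p.1 p.2 α := by
        symm
        apply Finset.sum_subset Finset.inter_subset_right
        intro α hα hα2
        apply if_neg
        intro h
        apply hα2
        rw [Finset.mem_inter, mem_box]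
        refine ⟨⟨fst_lt_of_tm_lt h le_rfl, ?_⟩, hα⟩
        exact (Finset.le_sup (f := fun α : ℕ × V b => len α.2) hα).trans hN
      have e2 := Finset.sum_inter_add_sum_sdiff (box b (⌊τ⌋₊ + 1) N) S'
        (fun α => ZN θ N τ p.1 p.2 α)
      rw [e1]
      linarith
    rw [lintegral_congr_ae e]
    have h2 := tail_le hPost hU hOwn hPair hb1 h0 h1 L hL N R τ hτ
      (box b (⌊τ⌋₊ + 1) N \ S') (by
        intro α hα
        rw [Finset.mem_sdiff, mem_box] at hα
        refine ⟨hα.1.1, hα.1.2, ?_⟩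
        by_contra hc
        push Not at hc
        exact hα.2 (hS' (mem_box.2 ⟨hα.1.1, hc⟩)))
    refine h2.trans ?_
    calc _ ≤ ENNReal.ofReal 4 * ENNReal.ofReal (ε / 4) := by
          gcongr
          exact hR N
      _ = ENNReal.ofReal ε := by
          rw [← ENNReal.ofReal_mul (by norm_num)]
          congr 1
          ring
  -- limit
  have hlim : ∀ᵐ p ∂(PP b θ), Tendsto (fun n => ENNReal.ofReal (D (n + N0) p ^ 2)) atTop
      (𝓝 (ENNReal.ofReal ((M θ (fld p.1 p.2 τ) (rt b) -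
      ∑ α ∈ S', if tm p.1 α < τ then Spec.incr θ p.1 p.2 α else 0) ^ 2))) := by
    have hga : ∀ᵐ p ∂(PP b θ), ∀ α : ℕ × V b, Good θ (fld p.1 p.2 (tm p.1 α)) := by
      rw [ae_all_iff]
      intro α
      exact ae_good_PP hPost hb1 h0 h1 (fun U => tm U α) (Measurable.tm measurable_id α)
    filter_upwards [hga, ae_good_PP hPost hb1 h0 h1 (fun _ => τ) measurable_const]
      with p hp1 hp2
    apply (ENNReal.continuous_ofReal.tendsto _).comp
    apply Tendsto.pow
    apply Tendsto.comp (g := fun N => D N p) _ (tendsto_add_atTop_nat N0)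
    apply Tendsto.sub
    · exact hp2.tendsto_tanh_lg h0 h1 (rt b)
    · apply tendsto_finsetSum
      intro α _
      unfold ZN
      split_ifs
      · exact tendsto_incrN hU h0 h1 p.1 p.2 α (hp1 α)
      · exact tendsto_const_nhds
  calc ∫⁻ p, ENNReal.ofReal ((M θ (fld p.1 p.2 τ) (rt b) -
      ∑ α ∈ S', if tm p.1 α < τ then Spec.incr θ p.1 p.2 α else 0) ^ 2) ∂(PP b θ)
      = ∫⁻ p, liminf (fun n => ENNReal.ofReal (D (n + N0) p ^ 2)) atTop ∂(PP b θ) := by
        apply lintegral_congr_ae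
        filter_upwards [hlim] with p hp
        exact hp.liminf_eq.symm
    _ ≤ liminf (fun n => ∫⁻ p, ENNReal.ofReal (D (n + N0) p ^ 2) ∂(PP b θ)) atTop := by
        apply lintegral_liminf_le
        intro n
        exact ((hDm (n + N0)).pow_const 2).ennreal_ofReal
    _ ≤ ENNReal.ofReal ε := by
        apply Filter.liminf_le_of_frequently_le'
        apply Eventually.frequently
        filter_upwards with n
        exact hfin (n + N0) (by omega)

end Crest.Agent.IsgPars
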