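import Crest.Agent.IsgEqv
import Crest.Agent.IsgGauge
import Crest.Agent.IsgSpec

set_option autoImplicit false

/-!
S0241, module PARS, part A: truncated fields and the finite volume update.
-/

open MeasureTheory ProbabilityTheory Filter Topology

namespace Crest.Agent.IsgPars

open Crest.Agent.Isg

variable {b : ℕ}

/-- The field cut off outside the ball of radius `N` around the root. -/
def trunc (N : ℕ) (h : V b → ℝ) (v : V b) : ℝ := if len v ≤ N then h v else 0

lemma lm_trunc (θ : ℝ) (N : ℕ) (h : V b → ℝ) (n : ℕ) (v : V b) (i : Fin (b + 1))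
    (hv : v.l.head? = some i) :
    lm θ n (trunc N h) v i = lm θ (min n (N + 1 - len v)) h v i := by
  induction n generalizing v i with
  | zero => simp
  | succ n ih =>
    have hch : ∀ j ∈ Finset.univ.erase i, v.l.head? ≠ some j := by
      intro j hj h2
      rw [hv] at h2
      exact (Finset.mem_erase.1 hj).1 (Option.some_injective _ h2).symm
    have hlen : ∀ j ∈ Finset.univ.erase i, len (nb j v) = len v + 1 := fun j hj =>
      len_nb_of_not_head j v (hch j hj)
    have hhead : ∀ j ∈ Finset.univ.erase i, (nb j v).l.head? = some j := fun j hj =>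
      head_nb_ch (mem_ch.2 (hch j hj))
    rw [lm_succ]
    by_cases hN : len v ≤ N
    · have e1 : min (n + 1) (N + 1 - len v) = min n (N - len v) + 1 := by omega
      rw [e1, lm_succ]
      have e2 : trunc N h v = h v := if_pos hN
      rw [e2]
      congr 1
      apply Finset.sum_congr rfl
      intro j hj
      rw [ih (nb j v) j (hhead j hj), hlen j hj]
      congr 2
      congr 1
      omega
    · have e1 : min (n + 1) (N + 1 - len v) = 0 := by omega
      rw [e1, lm_zero]
      have e2 : trunc N h v = 0 := if_neg hN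
      rw [e2, zero_add]
      apply Finset.sum_eq_zero
      intro j hj
      rw [ih (nb j v) j (hhead j hj), hlen j hj]
      have e3 : min n (N + 1 - (len v + 1)) = 0 := by omega
      rw [e3, lm_zero, psi_zero]

lemma tendsto_lm_trunc (θ : ℝ) (N : ℕ) (h : V b → ℝ) (v : V b) (i : Fin (b + 1))
    (hv : v.l.head? = some i) :
    Tendsto (fun n => lm θ n (trunc N h) v i) atTop (𝓝 (lm θ (N + 1 - len v) h v i)) := by
  apply tendsto_const_nhds.congr'
  filter_upwards [eventually_ge_atTop (N + 1 - len v)] with n hn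
  rw [lm_trunc θ N h n v i hv, min_eq_right hn]

lemma lmI_trunc (θ : ℝ) (N : ℕ) (h : V b → ℝ) (v : V b) (i : Fin (b + 1))
    (hv : v.l.head? = some i) :
    lmI θ (trunc N h) v i = lm θ (N + 1 - len v) h v i :=
  lmI_eq_of_tendsto (tendsto_lm_trunc θ N h v i hv)

lemma good_trunc {θ : ℝ} (h0 : 0 ≤ θ) (h1 : θ < 1) (N : ℕ) (h : V b → ℝ) :
    Good θ (trunc N h) := by
  have key : ∀ (n : ℕ) (v : V b) (i : Fin (b + 1)), len v = n →
      ∃ ℓ, Tendsto (fun N' => lm θ N' (trunc N h) v i) atTop (𝓝 ℓ) := by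
    intro n
    induction n with
    | zero =>
      intro v i hv
      rw [len_eq_zero_iff] at hv
      subst hv
      have hc : ∀ j : Fin (b + 1), (nb j (rt b)).l.head? = some j := fun j =>
        head_nb_ch (by rw [ch_rt]; exact Finset.mem_univ _)
      refine ⟨trunc N h (rt b) + ∑ j ∈ Finset.univ.erase i,
        psi θ (lm θ (N + 1 - len (nb j (rt b))) h (nb j (rt b)) j), ?_⟩
      rw [← tendsto_add_atTop_iff_nat 1]
      simp only [lm_succ]
      apply Tendsto.const_add
      apply tendsto_finset_sum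
      intro j _
      exact ((continuous_psi h0 h1).tendsto _).comp (tendsto_lm_trunc θ N h _ j (hc j))
    | succ n ih =>
      intro v i hv
      by_cases hi : v.l.head? = some i
      · exact ⟨_, tendsto_lm_trunc θ N h v i hi⟩
      · have hex : ∀ j : Fin (b + 1), ∃ ℓ, Tendsto (fun N' => lm θ N' (trunc N h) (nb j v) j) atTop
            (𝓝 ℓ) := by
          intro j
          by_cases hj : v.l.head? = some j
          · apply ih
            have := len_nb_of_head j v hj
            omega
          · exact ⟨_, tendsto_lm_trunc θ N h _ j (head_nb_ch (mem_ch.2 hj))⟩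
        choose ℓ hℓ using hex
        refine ⟨trunc N h v + ∑ j ∈ Finset.univ.erase i, psi θ (ℓ j), ?_⟩
        rw [← tendsto_add_atTop_iff_nat 1]
        simp only [lm_succ]
        apply Tendsto.const_add
        apply tendsto_finset_sum
        intro j _
        exact ((continuous_psi h0 h1).tendsto _).comp (hℓ j)
  exact fun v i => key (len v) v i rfl

lemma lgI_trunc (θ : ℝ) (N : ℕ) (h : V b → ℝ) : lgI θ (trunc N h) (rt b) = lg θ N h (rt b) := by
  unfold lgI lg
  have e : trunc N h (rt b) = h (rt b) := if_pos (Nat.zero_le _)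
  rw [e]
  congr 1
  apply Finset.sum_congr rfl
  intro j _
  have hj : j ∈ ch (rt b) := by rw [ch_rt]; exact Finset.mem_univ _
  rw [lmI_trunc θ N h _ j (head_nb_ch hj), len_nb_ch hj]
  congr 2

lemma M_trunc (θ : ℝ) (N : ℕ) (h : V b → ℝ) :
    M θ (trunc N h) (rt b) = Real.tanh (lg θ N h (rt b)) := by
  unfold M; rw [lgI_trunc]

lemma DDl_trunc (θ : ℝ) (N : ℕ) (h : V b → ℝ) (l : List (Fin (b + 1)))
    (hl : l.IsChain (· ≠ ·)) : DDl θ (trunc N h) (rt b) l = DNl θ N h (rt b) l := by
  induction l with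
  | nil => rfl
  | cons i r ih =>
    rw [DDl_cons, DNl, ih hl.tail]
    have hf : follow (rt b) (i :: r) = ⟨i :: r, hl⟩ := follow_rt (i :: r) hl
    rw [hf, lmI_trunc θ N h _ i rfl]
    have e : N + 1 - len (⟨i :: r, hl⟩ : V b) = N - r.length := by
      show N + 1 - (i :: r).length = N - r.length
      simp
    rw [e]

lemma trunc_update (N : ℕ) (h : V b → ℝ) (w : V b) (hw : len w ≤ N) (x : ℝ) :
    trunc N (Function.update h w x) = Function.update (trunc N h) w x := by
  classical
  ext v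
  by_cases hv : v = w
  · subst hv
    simp [trunc, hw]
  · rw [Function.update_of_ne hv]
    unfold trunc
    rw [Function.update_of_ne hv]

/-- Finite volume update. -/
lemma update_fin (hU : Spec.Update) {θ : ℝ} (h0 : 0 ≤ θ) (h1 : θ < 1) (N : ℕ) (h : V b → ℝ)
    (w : V b) (hw : len w ≤ N) (z : ℝ) (hz : |z| < 1) :
    Real.tanh (lg θ N (Function.update h w (h w + Real.artanh z)) (rt b)) -
      Real.tanh (lg θ N h (rt b)) =
      (1 - Real.tanh (lg θ N h (rt b)) ^ 2) * θ ^ len w * DNl θ N h (rt b) w.l * z /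
        (1 + z * M θ (trunc N h) w) := by
  have h2 := (hU b θ h0 h1 (trunc N h) (good_trunc h0 h1 N h) (rt b) w z hz).2
  rw [rt_mul] at h2
  have e : trunc N h w = h w := if_pos hw
  rw [e, ← trunc_update N h w hw, M_trunc, M_trunc] at h2
  rw [h2, CC, M_trunc, DD, DDl_trunc θ N h w.l w.h]

lemma DNl_bounds {θ : ℝ} (h0 : 0 ≤ θ) (h1 : θ < 1) (N : ℕ) (h : V b → ℝ)
    (r : List (Fin (b + 1))) : 0 ≤ DNl θ N h (rt b) r ∧ DNl θ N h (rt b) r ≤ 1 :=
  DNl_nonneg_le θ (fun x => ⟨(kap_pos h0 h1 x).le, kap_le_one h0 h1 x⟩) N h (rt b) r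

/-- The square of the finite volume increment. -/
lemma update_sq_le (hU : Spec.Update) {θ : ℝ} (h0 : 0 ≤ θ) (h1 : θ < 1) (N : ℕ) (h : V b → ℝ)
    (w : V b) (hw : len w ≤ N) (z : ℝ) (hz : |z| ≤ 1 / 2) :
    (Real.tanh (lg θ N (Function.update h w (h w + Real.artanh z)) (rt b)) -
      Real.tanh (lg θ N h (rt b))) ^ 2 ≤ 4 * θ ^ (2 * len w) * (z ^ 2 * DNl θ N h (rt b) w.l) := by
  rw [update_fin hU h0 h1 N h w hw z (by linarith)]
  set m := M θ (trunc N h) w with hm
  set A := 1 - Real.tanh (lg θ N h (rt b)) ^ 2 with hA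
  set D := DNl θ N h (rt b) w.l with hD
  have hA0 : 0 ≤ A := (one_sub_tanh_sq_pos _).le
  have hA1 : A ≤ 1 := by rw [hA]; nlinarith [sq_nonneg (Real.tanh (lg θ N h (rt b)))]
  obtain ⟨hD0, hD1⟩ := DNl_bounds h0 h1 N h w.l
  have hm1 : |m| ≤ 1 := (abs_M_lt_one θ _ w).le
  have hz0 := abs_nonneg z
  have hzm : |z * m| ≤ 1 / 2 := by
    rw [abs_mul]
    nlinarith [abs_nonneg m]
  have hden : 1 / 2 ≤ 1 + z * m := by
    have := neg_abs_le (z * m)
    linarith
  have hden0 : 0 < 1 + z * m := by linarith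
  have e : (A * θ ^ len w * D * z / (1 + z * m)) ^ 2 =
      (A ^ 2 * D) * (θ ^ (2 * len w) * (z ^ 2 * D)) / (1 + z * m) ^ 2 := by
    rw [div_pow]
    congr 1
    rw [pow_mul']
    ring
  rw [e]
  have h3 : (1 / 2 : ℝ) ^ 2 ≤ (1 + z * m) ^ 2 := by
    apply pow_le_pow_left₀ (by norm_num) hden
  rw [div_le_iff₀ (by positivity)]
  have h4 : A ^ 2 * D ≤ 1 := by
    have : A ^ 2 ≤ 1 := by nlinarith
    nlinarith [sq_nonneg A]
  have h5 : 0 ≤ θ ^ (2 * len w) * (z ^ 2 * D) := by positivity
  calc A ^ 2 * D * (θ ^ (2 * len w) * (z ^ 2 * D)) ≤ 1 * (θ ^ (2 * len w) * (z ^ 2 * D)) := by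
        apply mul_le_mul_of_nonneg_right h4 h5
    _ ≤ (4 * (1 + z * m) ^ 2) * (θ ^ (2 * len w) * (z ^ 2 * D)) := by
        apply mul_le_mul_of_nonneg_right _ h5
        linarith
    _ = _ := by ring

/-- Outside of the ball nothing happens. -/
lemma lg_update_out (θ : ℝ) (N : ℕ) (h : V b → ℝ) (w : V b) (hw : N < len w) (x : ℝ) :
    lg θ N (Function.update h w x) (rt b) = lg θ N h (rt b) := by
  classical
  apply lg_congr
  intro v hv
  rw [mem_Bl_rt] at hv
  apply Function.update_of_ne
  rintro rfl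
  omega

lemma lm_neg (θ : ℝ) (N : ℕ) (h : V b → ℝ) (u : V b) (i : Fin (b + 1)) :
    lm θ N (fun v => - h v) u i = - lm θ N h u i := by
  induction N generalizing u i with
  | zero => simp
  | succ N ih =>
    rw [lm_succ, lm_succ, neg_add, ← Finset.sum_neg_distrib]
    congr 1
    apply Finset.sum_congr rfl
    intro j _
    rw [ih, psi_neg]

lemma DNl_neg (θ : ℝ) (N : ℕ) (h : V b → ℝ) (v : V b) (r : List (Fin (b + 1))) :
    DNl θ N (fun v => - h v) v r = DNl θ N h v r := by
  induction r with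
  | nil => rfl
  | cons i r ih => rw [DNl, DNl, ih, lm_neg, kap_neg]

@[fun_prop]
lemma measurable_DNl (θ : ℝ) (N : ℕ) (v : V b) (r : List (Fin (b + 1))) :
    Measurable (fun h : V b → ℝ => DNl θ N h v r) := by
  induction r with
  | nil => exact measurable_const
  | cons i l ih =>
    simp only [DNl]
    exact ih.mul ((measurable_kap θ).comp (measurable_lm _ _ _ _))

end Crest.Agent.IsgPars
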