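import Crest.Agent.IsgParsA

set_option autoImplicit false

/-!
S0241, module PARS, part B: finite volume telescoping over the observations.
-/

open MeasureTheory ProbabilityTheory Filter Topology

namespace Crest.Agent.IsgPars

open Crest.Agent.Isg

variable {b : ℕ}

/-- Field of a finite set of observations. -/
noncomputable def FF (g : ℕ × V b → ℝ) (F : Finset (ℕ × V b)) (v : V b) : ℝ :=
  ∑ α ∈ F, if α.2 = v then g α else 0

lemma FF_insert (g : ℕ × V b → ℝ) {F : Finset (ℕ × V b)} {α : ℕ × V b} (h : α ∉ F) :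
    FF g (insert α F) = Function.update (FF g F) α.2 (FF g F α.2 + g α) := by
  classical
  ext v
  unfold FF
  rw [Finset.sum_insert h]
  by_cases hv : v = α.2
  · subst hv
    rw [Function.update_self, if_pos rfl]
    ring
  · rw [Function.update_of_ne hv, if_neg (fun h => hv h.symm), zero_add]

lemma telescope (g t : ℕ × V b → ℝ) (Φ : (V b → ℝ) → ℝ) (F : Finset (ℕ × V b))
    (ht : ∀ α β, α ≠ β → t α ≠ t β) :
    Φ (FF g F) - Φ (FF g ∅) = ∑ α ∈ F,
      (Φ (Function.update (FF g (F.filter (fun β => t β < t α))) α.2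
        (FF g (F.filter (fun β => t β < t α)) α.2 + g α)) -
        Φ (FF g (F.filter (fun β => t β < t α)))) := by
  classical
  induction F using Finset.induction_on_max_value t with
  | empty => simp
  | insert a s has hmax ih =>
    rw [Finset.sum_insert has]
    have hlt : ∀ x ∈ s, t x < t a := fun x hx => lt_of_le_of_ne (hmax x hx)
      (ht x a (fun h => has (h ▸ hx)))
    have e1 : (insert a s).filter (fun β => t β < t a) = s := by
      ext x
      simp only [Finset.mem_filter, Finset.mem_insert]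
      constructor
      · rintro ⟨h | h, h2⟩
        · subst h; exact absurd h2 (lt_irrefl _)
        · exact h
      · intro h; exact ⟨Or.inr h, hlt x h⟩
    have e2 : ∀ x ∈ s, (insert a s).filter (fun β => t β < t x) =
        s.filter (fun β => t β < t x) := by
      intro x hx
      rw [Finset.filter_insert, if_neg (not_lt.2 (hmax x hx))]
    rw [e1, ← FF_insert g has]
    have e3 : ∑ α ∈ s, (Φ (Function.update (FF g ((insert a s).filter (fun β => t β < t α))) α.2
        (FF g ((insert a s).filter (fun β => t β < t α)) α.2 + g α)) -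
        Φ (FF g ((insert a s).filter (fun β => t β < t α)))) = ∑ α ∈ s,
      (Φ (Function.update (FF g (s.filter (fun β => t β < t α))) α.2
        (FF g (s.filter (fun β => t β < t α)) α.2 + g α)) -
        Φ (FF g (s.filter (fun β => t β < t α)))) := by
      apply Finset.sum_congr rfl
      intro x hx
      rw [e2 x hx]
    rw [e3, ← ih]
    ring

lemma le_tm (U : ℕ × V b → UI) (α : ℕ × V b) : (α.1 : ℝ) ≤ tm U α := by
  unfold tm
  have := (U α).2.1
  linarith

lemma tm_le (U : ℕ × V b → UI) (α : ℕ × V b) : tm U α ≤ α.1 + 1 := by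
  unfold tm
  have := (U α).2.2
  linarith

lemma tm_nonneg (U : ℕ × V b → UI) (α : ℕ × V b) : 0 ≤ tm U α :=
  (Nat.cast_nonneg _).trans (le_tm U α)

lemma fst_lt_of_tm_lt {U : ℕ × V b → UI} {α : ℕ × V b} {τ : ℝ} (h : tm U α < τ) {K : ℕ}
    (hK : ⌊τ⌋₊ + 1 ≤ K) : α.1 < K := by
  have h1 : (α.1 : ℝ) < τ := (le_tm U α).trans_lt h
  have h2 : τ < ⌊τ⌋₊ + 1 := Nat.lt_floor_add_one τ
  have h3 : (α.1 : ℝ) < ((⌊τ⌋₊ + 1 : ℕ) : ℝ) := by push_cast; linarith
  have h4 : α.1 < ⌊τ⌋₊ + 1 := by exact_mod_cast h3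
  omega

lemma fld_eq_range (U Y : ℕ × V b → UI) (τ : ℝ) (v : V b) (K : ℕ) (hK : ⌊τ⌋₊ + 1 ≤ K) :
    fld U Y τ v = ∑ j ∈ Finset.range K,
      if tm U (j, v) < τ then Real.artanh (zz U Y (j, v)) else 0 := by
  unfold fld
  apply Finset.sum_subset (Finset.range_mono hK)
  intro j _ hj
  rw [if_neg]
  intro h
  exact hj (Finset.mem_range.2 (fst_lt_of_tm_lt h le_rfl))

/-- The observations in the ball of radius `N` with index less than `K`. -/
def box (b K N : ℕ) : Finset (ℕ × V b) := Finset.range K ×ˢ Bl N (rt b)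

lemma mem_box {K N : ℕ} {α : ℕ × V b} : α ∈ box b K N ↔ α.1 < K ∧ len α.2 ≤ N := by
  unfold box
  rw [Finset.mem_product, Finset.mem_range, mem_Bl_rt]

lemma fld_eq_FF (U Y : ℕ × V b → UI) (τ : ℝ) (K N : ℕ) (hK : ⌊τ⌋₊ + 1 ≤ K) {v : V b}
    (hv : v ∈ Bl N (rt b)) :
    fld U Y τ v = FF (fun α => Real.artanh (zz U Y α))
      ((box b K N).filter (fun α => tm U α < τ)) v := by
  classical
  unfold FF box
  rw [fld_eq_range U Y τ v K hK, Finset.sum_filter, Finset.sum_product]
  apply Finset.sum_congr rfl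
  intro j _
  rw [Finset.sum_eq_single v]
  · simp
  · intro w _ hw
    simp [hw]
  · intro h
    exact absurd hv h

/-- Increment of the finite volume magnetisation. -/
noncomputable def incrN (θ : ℝ) (N : ℕ) (U Y : ℕ × V b → UI) (α : ℕ × V b) : ℝ :=
  Real.tanh (lg θ N (Function.update (fld U Y (tm U α)) α.2
    (fld U Y (tm U α) α.2 + Real.artanh (zz U Y α))) (rt b)) -
    Real.tanh (lg θ N (fld U Y (tm U α)) (rt b))

/-- The increment made before `τ`. -/
noncomputable def ZN (θ : ℝ) (N : ℕ) (τ : ℝ) (U Y : ℕ × V b → UI) (α : ℕ × V b) : ℝ :=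
  if tm U α < τ then incrN θ N U Y α else 0

lemma lg_zero_field (θ : ℝ) (N : ℕ) (u : V b) : lg θ N (fun _ => 0) u = 0 := by
  have h : ∀ (n : ℕ) (v : V b) (i : Fin (b + 1)), lm θ n (fun _ => 0) v i = 0 := by
    intro n
    induction n with
    | zero => intro v i; rfl
    | succ n ih =>
      intro v i
      rw [lm_succ, zero_add]
      apply Finset.sum_eq_zero
      intro j _
      rw [ih, psi_zero]
  unfold lg
  rw [zero_add]
  apply Finset.sum_eq_zero
  intro j _
  rw [h, psi_zero]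

lemma update_congr {α : Type*} [DecidableEq α] {f g : α → ℝ} {S : Finset α}
    (h : ∀ v ∈ S, f v = g v) {w : α} (hw : w ∈ S) (x : ℝ) :
    ∀ v ∈ S, Function.update f w (f w + x) v = Function.update g w (g w + x) v := by
  intro v hv
  by_cases e : v = w
  · subst e
    rw [Function.update_self, Function.update_self, h v hv]
  · rw [Function.update_of_ne e, Function.update_of_ne e, h v hv]

/-- The finite volume magnetisation is the sum of its increments. -/
lemma tele (θ : ℝ) (N : ℕ) (τ : ℝ) (U Y : ℕ × V b → UI)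
    (hinj : ∀ α β, α ≠ β → tm U α ≠ tm U β) (K : ℕ) (hK : ⌊τ⌋₊ + 1 ≤ K) :
    Real.tanh (lg θ N (fld U Y τ) (rt b)) = ∑ α ∈ box b K N, ZN θ N τ U Y α := by
  classical
  set g : ℕ × V b → ℝ := fun α => Real.artanh (zz U Y α) with hg
  set F := (box b K N).filter (fun α => tm U α < τ) with hF
  have h1 := telescope g (tm U) (fun h => Real.tanh (lg θ N h (rt b))) F hinj
  have e0 : FF g (∅ : Finset (ℕ × V b)) = fun _ => 0 := by
    ext v; simp [FF]
  rw [e0, lg_zero_field, Real.tanh_zero, sub_zero] at h1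
  have e1 : lg θ N (fld U Y τ) (rt b) = lg θ N (FF g F) (rt b) :=
    lg_congr (fun v hv => fld_eq_FF U Y τ K N hK hv)
  rw [e1, h1]
  have e2 : ∑ α ∈ box b K N, ZN θ N τ U Y α = ∑ α ∈ F, incrN θ N U Y α := by
    rw [hF, Finset.sum_filter]
    rfl
  rw [e2]
  apply Finset.sum_congr rfl
  intro α hα
  rw [hF, Finset.mem_filter, mem_box] at hα
  obtain ⟨⟨hα1, hα2⟩, hα3⟩ := hα
  have e3 : F.filter (fun β => tm U β < tm U α) =
      (box b K N).filter (fun β => tm U β < tm U α) := by
    rw [hF, Finset.filter_filter]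
    apply Finset.filter_congr
    intro β _
    constructor
    · exact fun h => h.2
    · exact fun h => ⟨h.trans hα3, h⟩
  have hK' : ⌊tm U α⌋₊ + 1 ≤ K := by
    have : ⌊tm U α⌋₊ ≤ ⌊τ⌋₊ := Nat.floor_le_floor hα3.le
    omega
  have e4 : ∀ v ∈ Bl N (rt b), fld U Y (tm U α) v =
      FF g (F.filter (fun β => tm U β < tm U α)) v := by
    intro v hv
    rw [e3]
    exact fld_eq_FF U Y (tm U α) K N hK' hv
  have hw : α.2 ∈ Bl N (rt b) := mem_Bl_rt.2 hα2
  unfold incrN
  rw [lg_congr (update_congr e4 hw (Real.artanh (zz U Y α))), lg_congr e4]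

/-- Just after the time of `α` (generic labels). -/
lemma eventually_fld (U Y : ℕ × V b → UI) (hinj : ∀ α β, α ≠ β → tm U α ≠ tm U β) (N : ℕ)
    (α : ℕ × V b) (hα : α.2 ∈ Bl N (rt b)) :
    ∀ᶠ n : ℕ in atTop, ∀ v ∈ Bl N (rt b), fld U Y (tm U α + 1 / ((n : ℝ) + 1)) v =
      Function.update (fld U Y (tm U α)) α.2
        (fld U Y (tm U α) α.2 + Real.artanh (zz U Y α)) v := by
  classical
  set K := ⌊tm U α + 1⌋₊ + 1 with hKdef
  set g : ℕ × V b → ℝ := fun α => Real.artanh (zz U Y α) with hg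
  have h1 : ∀ β ∈ box b K N, ∀ᶠ n : ℕ in atTop,
      (tm U β < tm U α + 1 / ((n : ℝ) + 1) ↔ tm U β ≤ tm U α) := by
    intro β _
    by_cases hβ : tm U β ≤ tm U α
    · filter_upwards with n
      have : (0 : ℝ) < 1 / ((n : ℝ) + 1) := by positivity
      exact ⟨fun _ => hβ, fun _ => by linarith⟩
    · push Not at hβ
      have hpos : 0 < tm U β - tm U α := by linarith
      have h2 : Tendsto (fun n : ℕ => 1 / ((n : ℝ) + 1)) atTop (𝓝 0) :=
        tendsto_one_div_add_atTop_nhds_zero_nat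
      filter_upwards [h2.eventually (gt_mem_nhds hpos)] with n hn
      constructor
      · intro h; linarith
      · intro h; linarith
  have h2 := (Filter.eventually_all_finset (box b K N)).2 h1
  filter_upwards [h2] with n hn v hv
  have hn1 : 1 / ((n : ℝ) + 1) ≤ 1 := by
    rw [div_le_one (by positivity)]
    have : (0 : ℝ) ≤ n := Nat.cast_nonneg n
    linarith
  have hn0 : (0 : ℝ) < 1 / ((n : ℝ) + 1) := by positivity
  have hK1 : ⌊tm U α + 1 / ((n : ℝ) + 1)⌋₊ + 1 ≤ K := by
    have : ⌊tm U α + 1 / ((n : ℝ) + 1)⌋₊ ≤ ⌊tm U α + 1⌋₊ := Nat.floor_le_floor (by linarith)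
    omega
  have hK2 : ⌊tm U α⌋₊ + 1 ≤ K := by
    have : ⌊tm U α⌋₊ ≤ ⌊tm U α + 1⌋₊ := Nat.floor_le_floor (by linarith)
    omega
  have hαbox : α ∈ box b K N := by
    rw [mem_box]
    exact ⟨fst_lt_of_tm_lt (τ := tm U α + 1) (by linarith) le_rfl, mem_Bl_rt.1 hα⟩
  have e1 : (box b K N).filter (fun β => tm U β < tm U α + 1 / ((n : ℝ) + 1)) =
      insert α ((box b K N).filter (fun β => tm U β < tm U α)) := by
    ext β
    rw [Finset.mem_filter, Finset.mem_insert, Finset.mem_filter]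
    constructor
    · rintro ⟨hβ, h3⟩
      rw [hn β hβ] at h3
      by_cases e : β = α
      · exact Or.inl e
      · exact Or.inr ⟨hβ, lt_of_le_of_ne h3 (hinj β α e)⟩
    · rintro (h3 | ⟨hβ, h3⟩)
      · rw [h3]
        exact ⟨hαbox, (hn α hαbox).2 le_rfl⟩
      · exact ⟨hβ, (hn β hβ).2 h3.le⟩
  rw [fld_eq_FF U Y _ K N hK1 hv, e1, FF_insert _ (by simp)]
  have e2 : ∀ v ∈ Bl N (rt b), fld U Y (tm U α) v =
      FF g ((box b K N).filter (fun β => tm U β < tm U α)) v :=
    fun v hv => fld_eq_FF U Y _ K N hK2 hv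
  exact (update_congr e2 hα (Real.artanh (zz U Y α)) v hv).symm

/-- Dependence of the field on the observations. -/
lemma fld_congr (U Y Y' : ℕ × V b → UI) (τ : ℝ) (v : V b)
    (h : ∀ j, tm U (j, v) < τ → Y (j, v) = Y' (j, v)) : fld U Y τ v = fld U Y' τ v := by
  unfold fld
  apply Finset.sum_congr rfl
  intro j _
  split_ifs with h1
  · unfold zz
    rw [h j h1]
  · rfl

lemma incrN_congr (θ : ℝ) (N : ℕ) (U Y Y' : ℕ × V b → UI) (α : ℕ × V b)
    (h : ∀ β : ℕ × V b, tm U β ≤ tm U α → β.2 ∈ Bl N (rt b) → Y β = Y' β)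
    (hα : α.2 ∈ Bl N (rt b)) :
    incrN θ N U Y α = incrN θ N U Y' α := by
  classical
  have e1 : ∀ v ∈ Bl N (rt b), fld U Y (tm U α) v = fld U Y' (tm U α) v := by
    intro v hv
    apply fld_congr
    intro j hj
    exact h (j, v) hj.le hv
  have e2 : zz U Y α = zz U Y' α := by
    unfold zz
    rw [h α le_rfl hα]
  unfold incrN
  rw [e2, lg_congr (update_congr e1 hα (Real.artanh (zz U Y' α))), lg_congr e1]

lemma abs_incrN_le (θ : ℝ) (N : ℕ) (U Y : ℕ × V b → UI) (α : ℕ × V b) :
    |incrN θ N U Y α| ≤ 2 := by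
  unfold incrN
  have h1 := Real.abs_tanh_lt_one (lg θ N (Function.update (fld U Y (tm U α)) α.2
    (fld U Y (tm U α) α.2 + Real.artanh (zz U Y α))) (rt b))
  have h2 := Real.abs_tanh_lt_one (lg θ N (fld U Y (tm U α)) (rt b))
  exact (abs_sub _ _).trans (by linarith)

lemma abs_ZN_le (θ : ℝ) (N : ℕ) (τ : ℝ) (U Y : ℕ × V b → UI) (α : ℕ × V b) :
    |ZN θ N τ U Y α| ≤ 2 := by
  unfold ZN
  split_ifs
  · exact abs_incrN_le θ N U Y α
  · simp

lemma measurable_incrN (θ : ℝ) (N : ℕ) (α : ℕ × V b) :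
    Measurable (fun p : (ℕ × V b → UI) × (ℕ × V b → UI) => incrN θ N p.1 p.2 α) := by
  unfold incrN
  have h1 : Measurable (fun p : (ℕ × V b → UI) × (ℕ × V b → UI) => fld p.1 p.2 (tm p.1 α)) :=
    Measurable.fld measurable_fst measurable_snd (Measurable.tm measurable_fst α)
  apply Measurable.sub
  · apply measurable_tanh.comp
    apply (measurable_lg θ N (rt b)).comp
    apply Measurable.updf h1
    exact ((measurable_pi_apply α.2).comp h1).add
      (measurable_artanh.comp (Measurable.zz measurable_fst measurable_snd α))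
  · exact measurable_tanh.comp ((measurable_lg θ N (rt b)).comp h1)

lemma measurable_ZN (θ : ℝ) (N : ℕ) (τ : ℝ) (α : ℕ × V b) :
    Measurable (fun p : (ℕ × V b → UI) × (ℕ × V b → UI) => ZN θ N τ p.1 p.2 α) := by
  unfold ZN
  apply Measurable.ite _ (measurable_incrN θ N α) measurable_const
  exact measurableSet_lt (Measurable.tm measurable_fst α) measurable_const

end Crest.Agent.IsgPars
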