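import Crest.Agent.IsgParsB

set_option autoImplicit false

/-!
S0241, module PARS, part C: orthogonality of the finite volume increments.
-/

open MeasureTheory ProbabilityTheory Filter Topology

set_option maxHeartbeats 400000

namespace Crest.Agent.IsgPars

open Crest.Agent.Isg

variable {b : ℕ}

/-- Two labels at different observations differ by a prescribed amount with probability zero. -/
lemma ae_ne_add {O : Type*} (α β : O) (h : α ≠ β) (c : ℝ) :
    ∀ᵐ U ∂(noise O), (U α : ℝ) ≠ (U β : ℝ) + c := by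
  classical
  have hind : IndepFun (fun U : O → UI => U α) (fun U : O → UI => U β) (noise O) :=
    (iIndepFun_infinitePi (P := fun _ : O => (volume : Measure UI)) (X := fun _ ω => ω)
      (fun _ => measurable_id)).indepFun h
  have hm := (indepFun_iff_map_prod_eq_prod_map_map (μ := noise O)
    (measurable_pi_apply α).aemeasurable (measurable_pi_apply β).aemeasurable).1 hind
  have e1 : (noise O).map (fun U : O → UI => U α) = volume :=
    Measure.infinitePi_map_eval (fun _ : O => (volume : Measure UI)) α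
  have e2 : (noise O).map (fun U : O → UI => U β) = volume :=
    Measure.infinitePi_map_eval (fun _ : O => (volume : Measure UI)) β
  rw [e1, e2] at hm
  have hset : MeasurableSet {p : UI × UI | (p.1 : ℝ) ≠ (p.2 : ℝ) + c} :=
    (measurableSet_eq_fun (measurable_subtype_coe.comp measurable_fst)
      ((measurable_subtype_coe.comp measurable_snd).add_const c)).compl
  have h3 : ∀ᵐ p ∂((volume : Measure UI).prod (volume : Measure UI)),
      (p.1 : ℝ) ≠ (p.2 : ℝ) + c := by
    rw [Measure.ae_prod_iff_ae_ae hset]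
    filter_upwards with x
    rw [ae_iff]
    apply Set.Subsingleton.measure_zero
    intro y hy y' hy'
    simp only [not_not, Set.mem_setOf_eq, ne_eq] at hy hy'
    apply Subtype.ext
    linarith
  rw [← hm] at h3
  exact ae_of_ae_map ((measurable_pi_apply α).prodMk (measurable_pi_apply β)).aemeasurable h3

lemma ae_distinct : ∀ᵐ U ∂(noise (ℕ × V b)), ∀ α β : ℕ × V b, α ≠ β → tm U α ≠ tm U β := by
  rw [ae_all_iff]
  intro α
  rw [ae_all_iff]
  intro β
  by_cases h : α = β
  · filter_upwards with U hU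
    exact absurd h hU
  · filter_upwards [ae_ne_add α β h ((β.1 : ℝ) - α.1)] with U hU _ h2
    apply hU
    unfold tm at h2
    linarith

lemma ae_lt_one {O : Type*} : ∀ᵐ U ∂(noise O), ∀ α : O, (U α : ℝ) < 1 ∨ ¬ Countable O := by
  classical
  by_cases hO : Countable O
  · rw [ae_all_iff]
    intro α
    have e1 : (noise O).map (fun U : O → UI => U α) = volume :=
      Measure.infinitePi_map_eval (fun _ : O => (volume : Measure UI)) α
    have h1 : ∀ᵐ x : UI ∂(volume : Measure UI), (x : ℝ) < 1 := by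
      rw [ae_iff]
      apply Set.Subsingleton.measure_zero
      intro y hy y' hy'
      simp only [not_lt, Set.mem_setOf_eq] at hy hy'
      apply Subtype.ext
      have := y.2.2
      have := y'.2.2
      linarith
    rw [← e1] at h1
    filter_upwards [ae_of_ae_map (measurable_pi_apply α).aemeasurable h1] with U hU
    exact Or.inl hU
  · filter_upwards with U α
    exact Or.inr hO

/-- Facts on the labels hold a.s. under `PP`. -/
lemma ae_PP_of_noise {θ : ℝ} (h0 : 0 ≤ θ) (h1 : θ < 1) {P : (ℕ × V b → UI) → Prop}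
    (h : ∀ᵐ U ∂(noise (ℕ × V b)), P U) : ∀ᵐ p ∂(PP b θ), P p.1 := by
  rw [← PP_map_fst h0 h1] at h
  exact ae_of_ae_map measurable_fst.aemeasurable h

lemma integrable_of_bdd {Ω : Type*} [MeasurableSpace Ω] {μ : Measure Ω} [IsFiniteMeasure μ]
    {f : Ω → ℝ} (hf : Measurable f) {C : ℝ} (hC : ∀ x, |f x| ≤ C) : Integrable f μ :=
  Integrable.of_bound hf.aestronglyMeasurable C (Eventually.of_forall hC)

/-- The increment at `α` is orthogonal to the past of `α` in the ball. -/
lemma orth (hPost : Spec.Post) {θ : ℝ} (hb : 1 ≤ b) (h0 : 0 ≤ θ) (h1 : θ < 1) (N : ℕ)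
    (α : ℕ × V b) (hα : α.2 ∈ Bl N (rt b))
    (G : (ℕ × V b → UI) → (ℕ × V b → UI) → ℝ)
    (hG : Measurable (fun p : (ℕ × V b → UI) × (ℕ × V b → UI) => G p.1 p.2))
    (C : ℝ) (hGb : ∀ U Y, |G U Y| ≤ C)
    (hGd : ∀ U Y Y', (∀ β : ℕ × V b, tm U β < tm U α → β.2 ∈ Bl N (rt b) → Y β = Y' β) →
      G U Y = G U Y') :
    ∫ p, G p.1 p.2 * incrN θ N p.1 p.2 α ∂(PP b θ) = 0 := by
  have hPP := isProb_PP (b := b) h0 h1
  have hC0 : 0 ≤ C := (abs_nonneg _).trans (hGb (fun _ => 0) (fun _ => 0))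
  -- measurability
  have mlg : ∀ τ : (ℕ × V b → UI) → ℝ, Measurable τ →
      Measurable (fun p : (ℕ × V b → UI) × (ℕ × V b → UI) =>
        Real.tanh (lg θ N (fld p.1 p.2 (τ p.1)) (rt b))) := by
    intro τ hτ
    exact measurable_tanh.comp ((measurable_lg θ N (rt b)).comp
      (Measurable.fld measurable_fst measurable_snd (hτ.comp measurable_fst)))
  have mGlg : ∀ τ : (ℕ × V b → UI) → ℝ, Measurable τ →
      Measurable (fun p : (ℕ × V b → UI) × (ℕ × V b → UI) =>
        G p.1 p.2 * Real.tanh (lg θ N (fld p.1 p.2 (τ p.1)) (rt b))) := fun τ hτ =>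
    hG.mul (mlg τ hτ)
  -- the posterior mean at any time after `α`
  have key : ∀ τ : (ℕ × V b → UI) → ℝ, Measurable τ → (∀ U, tm U α ≤ τ U) →
      ∫ p, G p.1 p.2 * Real.tanh (lg θ N (fld p.1 p.2 (τ p.1)) (rt b)) ∂(PP b θ) =
        ∫ p, G p.1 (Yf p.1 p.2.1 p.2.2) * sg (p.2.1 (rt b)) ∂(JJ b θ) := by
    intro τ hτ hle
    rw [integral_PP (mGlg τ hτ)]
    symm
    apply (hPost b θ hb h0 h1 τ hτ).2.2 N (rt b) G hG ⟨C, hGb⟩
    intro U Y Y' h
    apply hGd U Y Y'
    intro β hβ hβ2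
    exact h β (hβ.trans_le (hle U)) hβ2
  have hτ0 : Measurable (fun U : ℕ × V b → UI => tm U α) := Measurable.tm measurable_id α
  have I1 := key (fun U => tm U α) hτ0 (fun U => le_rfl)
  have I2 : ∀ n : ℕ, _ := fun n : ℕ => key (fun U => tm U α + 1 / ((n : ℝ) + 1))
    (hτ0.add_const _) (fun U => by
      have : (0 : ℝ) < 1 / ((n : ℝ) + 1) := by positivity
      linarith)
  -- limit
  have hlim : Tendsto (fun n : ℕ => ∫ p, G p.1 p.2 *
      Real.tanh (lg θ N (fld p.1 p.2 (tm p.1 α + 1 / ((n : ℝ) + 1))) (rt b)) ∂(PP b θ)) atTop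
      (𝓝 (∫ p, G p.1 p.2 * Real.tanh (lg θ N (Function.update (fld p.1 p.2 (tm p.1 α)) α.2
        (fld p.1 p.2 (tm p.1 α) α.2 + Real.artanh (zz p.1 p.2 α))) (rt b)) ∂(PP b θ))) := by
    apply tendsto_integral_of_dominated_convergence (fun _ => C)
    · intro n
      exact (mGlg (fun U => tm U α + 1 / ((n : ℝ) + 1)) (hτ0.add_const _)).aestronglyMeasurable
    · exact integrable_const C
    · intro n
      filter_upwards with p
      rw [Real.norm_eq_abs, abs_mul]
      have := (Real.abs_tanh_lt_one (lg θ N (fld p.1 p.2 (tm p.1 α + 1 / ((n : ℝ) + 1)))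
        (rt b))).le
      calc |G p.1 p.2| * _ ≤ C * 1 := mul_le_mul (hGb _ _) this (abs_nonneg _) hC0
        _ = C := mul_one C
    · filter_upwards [ae_PP_of_noise h0 h1 ae_distinct] with p hp
      apply Tendsto.const_mul
      apply tendsto_const_nhds.congr'
      filter_upwards [eventually_fld p.1 p.2 hp N α hα] with n hn
      rw [lg_congr hn]
  have I3 : ∫ p, G p.1 p.2 * Real.tanh (lg θ N (Function.update (fld p.1 p.2 (tm p.1 α)) α.2
        (fld p.1 p.2 (tm p.1 α) α.2 + Real.artanh (zz p.1 p.2 α))) (rt b)) ∂(PP b θ) =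
      ∫ p, G p.1 (Yf p.1 p.2.1 p.2.2) * sg (p.2.1 (rt b)) ∂(JJ b θ) := by
    apply tendsto_nhds_unique hlim
    apply tendsto_const_nhds.congr
    intro n
    exact (I2 n).symm
  have mupd : Measurable (fun p : (ℕ × V b → UI) × (ℕ × V b → UI) =>
      Real.tanh (lg θ N (Function.update (fld p.1 p.2 (tm p.1 α)) α.2
        (fld p.1 p.2 (tm p.1 α) α.2 + Real.artanh (zz p.1 p.2 α))) (rt b))) := by
    have hf : Measurable (fun p : (ℕ × V b → UI) × (ℕ × V b → UI) => fld p.1 p.2 (tm p.1 α)) :=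
      Measurable.fld measurable_fst measurable_snd (Measurable.tm measurable_fst α)
    apply measurable_tanh.comp
    apply (measurable_lg θ N (rt b)).comp
    apply Measurable.updf hf
    exact ((measurable_pi_apply α.2).comp hf).add
      (measurable_artanh.comp (Measurable.zz measurable_fst measurable_snd α))
  have e : (fun p : (ℕ × V b → UI) × (ℕ × V b → UI) => G p.1 p.2 * incrN θ N p.1 p.2 α) =
      fun p => G p.1 p.2 * Real.tanh (lg θ N (Function.update (fld p.1 p.2 (tm p.1 α)) α.2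
        (fld p.1 p.2 (tm p.1 α) α.2 + Real.artanh (zz p.1 p.2 α))) (rt b)) -
        G p.1 p.2 * Real.tanh (lg θ N (fld p.1 p.2 (tm p.1 α)) (rt b)) := by
    ext p
    unfold incrN
    ring
  have bd : ∀ (p : (ℕ × V b → UI) × (ℕ × V b → UI)) (x : ℝ), |G p.1 p.2 * Real.tanh x| ≤ C := by
    intro p x
    rw [abs_mul]
    calc |G p.1 p.2| * _ ≤ C * 1 :=
          mul_le_mul (hGb _ _) (Real.abs_tanh_lt_one x).le (abs_nonneg _) hC0
      _ = C := mul_one C
  rw [e, integral_sub, I3, I1, sub_self]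
  · exact integrable_of_bdd (C := C) (hG.mul mupd) (fun p => bd p _)
  · exact integrable_of_bdd (C := C) (mGlg (fun U => tm U α) hτ0) (fun p => bd p _)

/-- Two different increments are orthogonal. -/
lemma orth_pair (hPost : Spec.Post) {θ : ℝ} (hb : 1 ≤ b) (h0 : 0 ≤ θ) (h1 : θ < 1) (N : ℕ)
    (τ : ℝ) (α β : ℕ × V b) (hα : α.2 ∈ Bl N (rt b)) (hβ : β.2 ∈ Bl N (rt b)) (hne : α ≠ β) :
    ∫ p, ZN θ N τ p.1 p.2 α * ZN θ N τ p.1 p.2 β ∂(PP b θ) = 0 := by
  have hPP := isProb_PP (b := b) h0 h1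
  -- the contribution of `β` before `α`
  have key : ∀ α β : ℕ × V b, α.2 ∈ Bl N (rt b) → β.2 ∈ Bl N (rt b) →
      ∫ p, (if tm p.1 β < tm p.1 α ∧ tm p.1 α < τ then ZN θ N τ p.1 p.2 β else 0) *
        incrN θ N p.1 p.2 α ∂(PP b θ) = 0 := by
    intro α β hα hβ
    apply orth hPost hb h0 h1 N α hα
      (fun U Y => if tm U β < tm U α ∧ tm U α < τ then ZN θ N τ U Y β else 0) _ 2
    · intro U Y
      split_ifs
      · exact abs_ZN_le θ N τ U Y β
      · simp
    · intro U Y Y' h
      by_cases hc : tm U β < tm U α ∧ tm U α < τ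
      · rw [if_pos hc, if_pos hc]
        unfold ZN
        split_ifs
        · apply incrN_congr θ N U Y Y' β _ hβ
          intro γ hγ hγ2
          exact h γ (hγ.trans_lt hc.1) hγ2
        · rfl
      · rw [if_neg hc, if_neg hc]
    · apply Measurable.ite _ (measurable_ZN θ N τ β) measurable_const
      exact (measurableSet_lt (Measurable.tm measurable_fst β)
        (Measurable.tm measurable_fst α)).inter
        (measurableSet_lt (Measurable.tm measurable_fst α) measurable_const)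
  have e : (fun p : (ℕ × V b → UI) × (ℕ × V b → UI) =>
      ZN θ N τ p.1 p.2 α * ZN θ N τ p.1 p.2 β) =ᵐ[PP b θ] fun p =>
      (if tm p.1 β < tm p.1 α ∧ tm p.1 α < τ then ZN θ N τ p.1 p.2 β else 0) *
        incrN θ N p.1 p.2 α +
      (if tm p.1 α < tm p.1 β ∧ tm p.1 β < τ then ZN θ N τ p.1 p.2 α else 0) *
        incrN θ N p.1 p.2 β := by
    filter_upwards [ae_PP_of_noise h0 h1 ae_distinct] with p hp
    have hd := hp α β hne
    rcases lt_or_gt_of_ne hd with h | h
    · -- α before β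
      rw [if_neg (fun hh => absurd hh.1 (not_lt.2 h.le)), zero_mul, zero_add]
      by_cases hb' : tm p.1 β < τ
      · rw [if_pos ⟨h, hb'⟩]
        congr 1
        exact if_pos hb'
      · rw [if_neg (fun hh => hb' hh.2)]
        have : ZN θ N τ p.1 p.2 β = 0 := if_neg hb'
        rw [this, mul_zero, zero_mul]
    · rw [if_neg (fun hh => absurd hh.1 (not_lt.2 (le_of_lt h))) (c := tm p.1 α < tm p.1 β ∧ _),
        zero_mul, add_zero]
      by_cases hb' : tm p.1 α < τ
      · rw [if_pos ⟨h, hb'⟩, mul_comm]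
        congr 1
        exact if_pos hb'
      · rw [if_neg (fun hh => hb' hh.2)]
        have : ZN θ N τ p.1 p.2 α = 0 := if_neg hb'
        rw [this, zero_mul, zero_mul]
  rw [integral_congr_ae e]
  have hm : ∀ α β : ℕ × V b, Measurable (fun p : (ℕ × V b → UI) × (ℕ × V b → UI) =>
      (if tm p.1 β < tm p.1 α ∧ tm p.1 α < τ then ZN θ N τ p.1 p.2 β else 0) *
        incrN θ N p.1 p.2 α) := by
    intro α β
    apply Measurable.mul _ (measurable_incrN θ N α)
    apply Measurable.ite _ (measurable_ZN θ N τ β) measurable_const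
    exact (measurableSet_lt (Measurable.tm measurable_fst β)
      (Measurable.tm measurable_fst α)).inter
      (measurableSet_lt (Measurable.tm measurable_fst α) measurable_const)
  have hbd : ∀ (α β : ℕ × V b) (p : (ℕ × V b → UI) × (ℕ × V b → UI)),
      |(if tm p.1 β < tm p.1 α ∧ tm p.1 α < τ then ZN θ N τ p.1 p.2 β else 0) *
        incrN θ N p.1 p.2 α| ≤ 4 := by
    intro α β p
    rw [abs_mul]
    have h1 : |(if tm p.1 β < tm p.1 α ∧ tm p.1 α < τ then ZN θ N τ p.1 p.2 β else 0)| ≤ 2 := by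
      split_ifs
      · exact abs_ZN_le θ N τ _ _ β
      · simp
    have h2 := abs_incrN_le θ N p.1 p.2 α
    nlinarith [abs_nonneg (incrN θ N p.1 p.2 α)]
  rw [integral_add (integrable_of_bdd (hm α β) (hbd α β)) (integrable_of_bdd (hm β α) (hbd β α)),
    key α β hα hβ, key β α hβ hα, add_zero]

/-- Second moment of a sum of increments. -/
lemma second_moment (hPost : Spec.Post) {θ : ℝ} (hb : 1 ≤ b) (h0 : 0 ≤ θ) (h1 : θ < 1) (N : ℕ)
    (τ : ℝ) (T : Finset (ℕ × V b)) (hT : ∀ α ∈ T, α.2 ∈ Bl N (rt b)) :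
    ∫ p, (∑ α ∈ T, ZN θ N τ p.1 p.2 α) ^ 2 ∂(PP b θ) =
      ∑ α ∈ T, ∫ p, ZN θ N τ p.1 p.2 α ^ 2 ∂(PP b θ) := by
  have hPP := isProb_PP (b := b) h0 h1
  have hm : ∀ α β : ℕ × V b, Measurable (fun p : (ℕ × V b → UI) × (ℕ × V b → UI) =>
      ZN θ N τ p.1 p.2 α * ZN θ N τ p.1 p.2 β) := fun α β =>
    (measurable_ZN θ N τ α).mul (measurable_ZN θ N τ β)
  have hbd : ∀ (α β : ℕ × V b) (p : (ℕ × V b → UI) × (ℕ × V b → UI)),
      |ZN θ N τ p.1 p.2 α * ZN θ N τ p.1 p.2 β| ≤ 4 := by
    intro α β p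
    rw [abs_mul]
    have h1 := abs_ZN_le θ N τ p.1 p.2 α
    have h2 := abs_ZN_le θ N τ p.1 p.2 β
    nlinarith [abs_nonneg (ZN θ N τ p.1 p.2 β)]
  have hI : ∀ α β : ℕ × V b, Integrable (fun p : (ℕ × V b → UI) × (ℕ × V b → UI) =>
      ZN θ N τ p.1 p.2 α * ZN θ N τ p.1 p.2 β) (PP b θ) := fun α β =>
    integrable_of_bdd (hm α β) (hbd α β)
  have e : ∀ p : (ℕ × V b → UI) × (ℕ × V b → UI), (∑ α ∈ T, ZN θ N τ p.1 p.2 α) ^ 2 =
      ∑ α ∈ T, ∑ β ∈ T, ZN θ N τ p.1 p.2 α * ZN θ N τ p.1 p.2 β := by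
    intro p
    rw [sq, Finset.sum_mul_sum]
  simp only [e]
  rw [integral_finsetSum _ (fun α _ => integrable_finsetSum _ (fun β _ => hI α β))]
  apply Finset.sum_congr rfl
  intro α hα
  rw [integral_finsetSum _ (fun β _ => hI α β), Finset.sum_eq_single α]
  · simp only [sq]
  · intro β hβ hne
    exact orth_pair hPost hb h0 h1 N τ α β (hT α hα) (hT β hβ) (fun h => hne h.symm)
  · intro h; exact absurd hα h

end Crest.Agent.IsgPars
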