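import Crest.Agent.IsgEqvB

set_option autoImplicit false

/-!
Module TAILS for S0241: uniform tail bounds for the finite volume covariances.
-/

open MeasureTheory ProbabilityTheory Filter Topology

namespace Crest.Agent.IsgTails

open Crest.Agent.Isg

variable {b : ℕ}

lemma isProb_rhoT (t : ℝ) : IsProbabilityMeasure (rhoT t) := by
  unfold rhoT
  apply Measure.isProbabilityMeasure_map
  apply Measurable.aemeasurable
  apply Finset.measurable_sum
  intro j _
  have h1 : Measurable (fun p : (ℕ → UI) × (ℕ → UI) => p.1 j) :=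
    (measurable_pi_apply j).comp measurable_fst
  have h2 : Measurable (fun p : (ℕ → UI) × (ℕ → UI) => p.2 j) :=
    (measurable_pi_apply j).comp measurable_snd
  apply Measurable.ite
  · exact measurableSet_lt (measurable_const.add (Measurable.coeUI h1)) measurable_const
  · exact measurable_artanh.comp ((Measurable.str (Measurable.coeUI h1)).mul
      (((Measurable.coeUI (Measurable.Gc (Measurable.str (Measurable.coeUI h1)) h2)).const_mul
        2).sub_const 1))
  · exact measurable_const

lemma theta_lt_one {θ : ℝ} (hb : 2 ≤ b) (h : (b : ℝ) * θ ^ 2 ≤ 1) : θ < 1 := by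
  by_contra h1
  have h2 : 1 ≤ θ := not_lt.1 h1
  have h3 : (2 : ℝ) ≤ b := by exact_mod_cast hb
  nlinarith

lemma lintegral_DMl_le_one {θ : ℝ} (h0 : 0 ≤ θ) (h1 : θ < 1) (ρ : Measure ℝ)
    [IsProbabilityMeasure ρ] (N : ℕ) (v : V b) (l : List (Fin (b + 1))) :
    ∫⁻ p, ENNReal.ofReal (DMl θ N p.1 p.2 v l) ∂(GM b θ ρ) ≤ 1 := by
  have := isProb_GM (b := b) h0 h1 ρ
  calc ∫⁻ p, ENNReal.ofReal (DMl θ N p.1 p.2 v l) ∂(GM b θ ρ)
      ≤ ∫⁻ _, 1 ∂(GM b θ ρ) := by
        apply lintegral_mono
        intro p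
        rw [← ENNReal.ofReal_one]
        exact ENNReal.ofReal_le_ofReal (DMl_le_one h0 h1 _ _ _ _ _)
    _ = 1 := by simp

/-- Reduction to a summable bound: if the term of `w` is at most `ofReal (a (len w))` and
`(b + 1) * b ^ n * a (n + 1)` is summable, the tail is small. -/
lemma tail_of_summable (T : ℕ → V b → ENNReal) (a : ℕ → ℝ) (ha : ∀ n, 0 ≤ a n)
    (hT : ∀ N w, 0 < len w → len w ≤ N → T N w ≤ ENNReal.ofReal (a (len w)))
    (hs : Summable (fun n => ((b + 1) * b ^ n : ℕ) * a (n + 1))) {ε : ℝ} (hε : 0 < ε) :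
    ∃ R : ℕ, ∀ N : ℕ, ∑' w : V b, (if R < len w ∧ len w ≤ N then T N w else 0) ≤
      ENNReal.ofReal ε := by
  have h1 := tendsto_sum_nat_add (fun n => (((b + 1) * b ^ n : ℕ) : ℝ) * a (n + 1))
  have h2 : ∀ᶠ R in atTop, ∑' n, ((((b + 1) * b ^ (n + R) : ℕ) : ℝ) * a (n + R + 1)) < ε :=
    h1.eventually (gt_mem_nhds hε)
  obtain ⟨R, hR⟩ := h2.exists
  refine ⟨R, fun N => ?_⟩
  calc ∑' w : V b, (if R < len w ∧ len w ≤ N then T N w else 0)
      ≤ ∑' w : V b, (fun n => if R < n then ENNReal.ofReal (a n) else 0) (len w) := by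
        apply ENNReal.tsum_le_tsum
        intro w
        by_cases h : R < len w
        · by_cases h' : len w ≤ N
          · simp only [h, h', and_self, if_true]
            exact hT N w (by omega) h'
          · simp [h']
        · simp [h]
    _ = ∑' n : ℕ, ((b + 1) * b ^ n : ℕ) * (if R < n + 1 then ENNReal.ofReal (a (n + 1)) else 0) := by
        rw [tsum_len (fun n => if R < n then ENNReal.ofReal (a n) else 0)]
        simp
    _ = ∑' n : ℕ, ((b + 1) * b ^ (n + R) : ℕ) * ENNReal.ofReal (a (n + R + 1)) := by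
        rw [← Summable.sum_add_tsum_nat_add' (f := fun n : ℕ => (((b + 1) * b ^ n : ℕ) : ENNReal) *
          (if R < n + 1 then ENNReal.ofReal (a (n + 1)) else 0)) (k := R) ENNReal.summable]
        rw [Finset.sum_eq_zero, zero_add]
        · congr 1
          funext n
          rw [if_pos (by omega)]
        · intro n hn
          rw [Finset.mem_range] at hn
          rw [if_neg (by omega), mul_zero]
    _ = ∑' n : ℕ, ENNReal.ofReal ((((b + 1) * b ^ (n + R) : ℕ) : ℝ) * a (n + R + 1)) := by
        congr 1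
        funext n
        rw [ENNReal.ofReal_mul (by positivity), ENNReal.ofReal_natCast]
    _ = ENNReal.ofReal (∑' n : ℕ, ((((b + 1) * b ^ (n + R) : ℕ) : ℝ) * a (n + R + 1))) := by
        rw [ENNReal.ofReal_tsum_of_nonneg]
        · intro n
          exact mul_nonneg (by positivity) (ha _)
        · exact (summable_nat_add_iff R).2 hs
    _ ≤ ENNReal.ofReal ε := ENNReal.ofReal_le_ofReal hR.le

lemma fract_lintegral_le (τ : ℝ) (F : ℝ → ENNReal) (B : ENNReal) (hF : ∀ t, F t ≤ B) :
    ∫⁻ t in Set.Ioo 0 τ, ENNReal.ofReal (Int.fract t) * F t ≤ ENNReal.ofReal τ * B := by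
  calc ∫⁻ t in Set.Ioo 0 τ, ENNReal.ofReal (Int.fract t) * F t
      ≤ ∫⁻ _ in Set.Ioo 0 τ, B := by
        apply lintegral_mono
        intro t
        calc ENNReal.ofReal (Int.fract t) * F t ≤ 1 * B := by
              apply mul_le_mul' _ (hF t)
              rw [← ENNReal.ofReal_one]
              exact ENNReal.ofReal_le_ofReal (Int.fract_lt_one t).le
          _ = B := one_mul B
    _ = ENNReal.ofReal τ * B := by
        rw [setLIntegral_const, Real.volume_Ioo, sub_zero, mul_comm]

/-- D6a. -/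
theorem strict : Spec.TailStrict := by
  intro b θ hb h0 hlt τ hτ ε hε
  have h1 : θ < 1 := theta_lt_one hb hlt.le
  have hb' : (0 : ℝ) < b := by
    have : 0 < b := by omega
    exact_mod_cast this
  refine tail_of_summable (b := b) (fun N w => ENNReal.ofReal (θ ^ (2 * len w)) *
      ∫⁻ t in Set.Ioo 0 τ, ENNReal.ofReal (Int.fract t) *
        ∫⁻ p, ENNReal.ofReal (DMl θ N p.1 p.2 (rt b) w.l) ∂(GM b θ (rhoT t)))
    (fun n => θ ^ (2 * n) * τ) (fun n => by positivity) ?_ ?_ hε
  · intro N w _ _
    rw [ENNReal.ofReal_mul (by positivity)]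
    gcongr
    refine (fract_lintegral_le τ _ 1 (fun t => ?_)).trans (by rw [mul_one])
    have := isProb_rhoT t
    exact lintegral_DMl_le_one h0 h1 (rhoT t) N _ _
  · have h2 : Summable (fun n : ℕ => ((b + 1) * θ ^ 2 * τ) * ((b : ℝ) * θ ^ 2) ^ n) :=
      (summable_geometric_of_lt_one (by positivity) hlt).mul_left _
    refine h2.congr (fun n => ?_)
    push_cast
    rw [mul_pow, ← pow_mul]
    ring

lemma integral_mul_exp {a τ : ℝ} (ha : 0 < a) (hτ : 0 < τ) :
    ∫ t in (0 : ℝ)..τ, t * Real.exp (-(a * t)) ≤ 1 / a ^ 2 := by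
  have hd : ∀ t ∈ Set.uIcc 0 τ, HasDerivAt (fun t => -(t / a + 1 / a ^ 2) * Real.exp (-(a * t)))
      (t * Real.exp (-(a * t))) t := by
    intro t _
    have h1 : HasDerivAt (fun t : ℝ => -(t / a + 1 / a ^ 2)) (-(1 / a)) t :=
      (((hasDerivAt_id t).div_const a).add_const _).neg
    have h2 : HasDerivAt (fun t : ℝ => Real.exp (-(a * t))) (Real.exp (-(a * t)) * -(a * 1)) t :=
      (((hasDerivAt_id t).const_mul a).neg).exp
    have h3 := h1.mul h2
    have e : -(1 / a) * Real.exp (-(a * t)) +
        -(t / a + 1 / a ^ 2) * (Real.exp (-(a * t)) * -(a * 1)) = t * Real.exp (-(a * t)) := by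
      field_simp
      ring
    rw [← e]
    exact h3
  rw [intervalIntegral.integral_eq_sub_of_hasDerivAt hd]
  · have h3 : 0 ≤ (τ / a + 1 / a ^ 2) * Real.exp (-(a * τ)) := by positivity
    simp only [zero_div, zero_add, mul_zero, neg_zero, Real.exp_zero, mul_one]
    linarith
  · apply Continuous.intervalIntegrable
    fun_prop

/-- D6b. -/
theorem crit : Spec.TailCrit := by
  intro hD hC b θ hb h0 heq τ hτ ε hε
  have h1 : θ < 1 := theta_lt_one hb heq.le
  have hb' : (0 : ℝ) < b := by
    have : 0 < b := by omega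
    exact_mod_cast this
  obtain ⟨C, c, hc, hDec⟩ := hD b θ hb h0 heq
  obtain ⟨c', hc', hl1, hl2⟩ := hC.lower
  obtain ⟨H, _, hch⟩ := hC.chan
  set κ : ℝ := c * Real.sqrt c' with hκdef
  have hκ : 0 < κ := by positivity
  set C₁ : ℝ := max C 0 with hC₁
  have hC₁0 : 0 ≤ C₁ := le_max_right _ _
  -- the bound for a fixed time
  have hterm : ∀ (N : ℕ) (w : V b), 0 < len w → len w ≤ N → ∀ t ∈ Set.Ioo 0 τ,
      ENNReal.ofReal (Int.fract t) *
        ∫⁻ p, ENNReal.ofReal (DMl θ N p.1 p.2 (rt b) w.l) ∂(GM b θ (rhoT t)) ≤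
      ENNReal.ofReal (C₁ * (t * Real.exp (-((κ * len w) * t))) +
        C₁ * Real.exp (-(κ * len w))) := by
    intro N w hw0 hw t ht
    have hch' := hch t ht.1
    have := hch'.prob
    have := isProb_GM (b := b) h0.le h1 (rhoT t)
    have hint : ∫⁻ p, ENNReal.ofReal (DMl θ N p.1 p.2 (rt b) w.l) ∂(GM b θ (rhoT t)) =
        ENNReal.ofReal (∫ p, DMl θ N p.1 p.2 (rt b) w.l ∂(GM b θ (rhoT t))) := by
      rw [ofReal_integral_eq_lintegral_ofReal]
      · exact Integrable.of_bound (measurable_DMl θ N _ _).aestronglyMeasurable 1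
          (ae_of_all _ (fun p => by
            rw [Real.norm_eq_abs, abs_of_pos (DMl_pos h0.le h1 _ _ _ _ _)]
            exact DMl_le_one h0.le h1 _ _ _ _ _))
      · exact ae_of_all _ (fun p => (DMl_pos h0.le h1 _ _ _ _ _).le)
    rw [hint, ← ENNReal.ofReal_mul (Int.fract_nonneg t)]
    apply ENNReal.ofReal_le_ofReal
    have hdec := hDec (rhoT t) (H t) hch' N (rt b) w.l (by
      rw [rt_l, List.append_nil]; exact w.h) hw
    have hdec2 : ∫ p, DMl θ N p.1 p.2 (rt b) w.l ∂(GM b θ (rhoT t)) ≤
        C₁ * Real.exp (-(c * Real.sqrt (info (rhoT t)) * len w)) := by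
      refine hdec.trans ?_
      exact mul_le_mul_of_nonneg_right (le_max_left _ _) (Real.exp_pos _).le
    have hfr : 0 ≤ Int.fract t := Int.fract_nonneg t
    refine (mul_le_mul_of_nonneg_left hdec2 hfr).trans ?_
    have hnn : (0 : ℝ) ≤ len w := by positivity
    rcases lt_or_ge t 1 with htlt | htge
    · have hft : Int.fract t = t := Int.fract_eq_self.2 ⟨ht.1.le, htlt⟩
      rw [hft]
      have hs : Real.sqrt c' * t ≤ Real.sqrt (info (rhoT t)) := by
        have h3 := hl1 t ht.1 htlt.le
        calc Real.sqrt c' * t = Real.sqrt (c' * t ^ 2) := by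
              rw [Real.sqrt_mul hc'.le, Real.sqrt_sq ht.1.le]
          _ ≤ _ := Real.sqrt_le_sqrt h3
      have he : Real.exp (-(c * Real.sqrt (info (rhoT t)) * len w)) ≤
          Real.exp (-((κ * len w) * t)) := by
        apply Real.exp_le_exp.2
        apply neg_le_neg
        calc κ * len w * t = c * (Real.sqrt c' * t) * len w := by rw [hκdef]; ring
          _ ≤ c * Real.sqrt (info (rhoT t)) * len w := by gcongr
      have h5 : 0 ≤ C₁ * Real.exp (-(κ * len w)) := by positivity
      calc t * (C₁ * Real.exp (-(c * Real.sqrt (info (rhoT t)) * len w)))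
          ≤ t * (C₁ * Real.exp (-((κ * len w) * t))) := by
            have := ht.1.le
            gcongr
        _ ≤ _ := by linarith
    · have hs : Real.sqrt c' ≤ Real.sqrt (info (rhoT t)) := Real.sqrt_le_sqrt (hl2 t htge)
      have he : Real.exp (-(c * Real.sqrt (info (rhoT t)) * len w)) ≤
          Real.exp (-(κ * len w)) := by
        apply Real.exp_le_exp.2
        apply neg_le_neg
        calc κ * len w = c * Real.sqrt c' * len w := by rw [hκdef]
          _ ≤ c * Real.sqrt (info (rhoT t)) * len w := by gcongr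
      have h5 : 0 ≤ C₁ * (t * Real.exp (-((κ * len w) * t))) := by
        have := ht.1.le
        positivity
      calc Int.fract t * (C₁ * Real.exp (-(c * Real.sqrt (info (rhoT t)) * len w)))
          ≤ 1 * (C₁ * Real.exp (-(κ * len w))) := by
            apply mul_le_mul (Int.fract_lt_one t).le _ (by positivity) zero_le_one
            gcongr
        _ ≤ _ := by linarith
  set a : ℕ → ℝ := fun n => θ ^ (2 * n) *
    (C₁ * (1 / (κ * n) ^ 2) + τ * (C₁ * Real.exp (-(κ * n)))) with hadef
  refine tail_of_summable (b := b) (fun N w => ENNReal.ofReal (θ ^ (2 * len w)) *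
      ∫⁻ t in Set.Ioo 0 τ, ENNReal.ofReal (Int.fract t) *
        ∫⁻ p, ENNReal.ofReal (DMl θ N p.1 p.2 (rt b) w.l) ∂(GM b θ (rhoT t)))
    a (fun n => by rw [hadef]; positivity) ?_ ?_ hε
  · intro N w hw0 hw
    rw [hadef]
    simp only
    rw [ENNReal.ofReal_mul (by positivity)]
    gcongr
    have hn0 : (0 : ℝ) < κ * len w := by
      have : (0 : ℝ) < len w := by exact_mod_cast hw0
      positivity
    calc ∫⁻ t in Set.Ioo 0 τ, ENNReal.ofReal (Int.fract t) *
          ∫⁻ p, ENNReal.ofReal (DMl θ N p.1 p.2 (rt b) w.l) ∂(GM b θ (rhoT t))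
        ≤ ∫⁻ t in Set.Ioo 0 τ, ENNReal.ofReal (C₁ * (t * Real.exp (-((κ * len w) * t))) +
            C₁ * Real.exp (-(κ * len w))) :=
          setLIntegral_mono' measurableSet_Ioo (fun t ht => hterm N w hw0 hw t ht)
      _ = ENNReal.ofReal (∫ t in Set.Ioo 0 τ, (C₁ * (t * Real.exp (-((κ * len w) * t))) +
            C₁ * Real.exp (-(κ * len w)))) := by
          rw [ofReal_integral_eq_lintegral_ofReal]
          · have : IntegrableOn (fun t : ℝ => C₁ * (t * Real.exp (-((κ * len w) * t))) +
                C₁ * Real.exp (-(κ * len w))) (Set.Icc 0 τ) :=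
              Continuous.integrableOn_Icc (by fun_prop)
            exact this.mono_set Set.Ioo_subset_Icc_self
          · rw [EventuallyLE, ae_restrict_iff' measurableSet_Ioo]
            refine ae_of_all _ (fun t ht => ?_)
            have := ht.1.le
            show 0 ≤ _
            positivity
      _ ≤ ENNReal.ofReal (C₁ * (1 / (κ * len w) ^ 2) + τ * (C₁ * Real.exp (-(κ * len w)))) := by
          apply ENNReal.ofReal_le_ofReal
          rw [← integral_Ioc_eq_integral_Ioo, ← intervalIntegral.integral_of_le hτ.le,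
            intervalIntegral.integral_add]
          · rw [intervalIntegral.integral_const_mul, intervalIntegral.integral_const, sub_zero,
              smul_eq_mul]
            have := integral_mul_exp hn0 hτ
            gcongr
          · apply Continuous.intervalIntegrable
            fun_prop
          · apply Continuous.intervalIntegrable
            fun_prop
  · -- summability
    have e1 : ∀ n : ℕ, (((b + 1) * b ^ n : ℕ) : ℝ) * a (n + 1) =
        ((b + 1) / b : ℝ) * (C₁ / κ ^ 2 * (1 / ((n + 1 : ℕ) : ℝ) ^ 2) +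
          τ * C₁ * Real.exp (-κ) ^ (n + 1)) := by
      intro n
      have e2 : (b : ℝ) ^ n * θ ^ (2 * (n + 1)) = 1 / b := by
        rw [eq_div_iff hb'.ne', pow_mul]
        calc (b : ℝ) ^ n * (θ ^ 2) ^ (n + 1) * b = ((b : ℝ) * θ ^ 2) ^ (n + 1) := by
              rw [mul_pow, pow_succ]; ring
          _ = 1 := by rw [heq, one_pow]
      have e3 : Real.exp (-κ) ^ (n + 1) = Real.exp (-(κ * ((n + 1 : ℕ) : ℝ))) := by
        rw [← Real.exp_nat_mul]; congr 1; ring
      rw [hadef, e3]
      simp only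
      push_cast
      rw [div_eq_mul_one_div ((b : ℝ) + 1) b, ← e2]
      field_simp
    have hs1 : Summable (fun n : ℕ => (1 : ℝ) / ((n + 1 : ℕ) : ℝ) ^ 2) :=
      (summable_nat_add_iff 1).2 (Real.summable_one_div_nat_pow.2 (by norm_num))
    have hs2 : Summable (fun n : ℕ => Real.exp (-κ) ^ (n + 1)) :=
      (summable_nat_add_iff 1).2 (summable_geometric_of_lt_one (Real.exp_pos _).le
        (by rw [Real.exp_lt_one_iff]; linarith))
    have hs3 := ((hs1.mul_left (C₁ / κ ^ 2)).add (hs2.mul_left (τ * C₁))).mul_left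
      ((b + 1) / b : ℝ)
    exact hs3.congr (fun n => (e1 n).symm)

end Crest.Agent.IsgTails
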