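import Crest.Agent.IsgParsC
import Crest.Agent.IsgTails

set_option autoImplicit false

/-!
S0241, module PARS, part D: tail estimate for the finite volume increments.
-/

open MeasureTheory ProbabilityTheory Filter Topology

set_option maxHeartbeats 400000

namespace Crest.Agent.IsgPars

open Crest.Agent.Isg

variable {b : ℕ}

/-- Mean of the finite depth slope product at time `t`. -/
noncomputable def fw (θ : ℝ) (N : ℕ) (w : V b) (t : ℝ) : ENNReal :=
  ∫⁻ p, ENNReal.ofReal (DMl θ N p.1 p.2 (rt b) w.l) ∂(GM b θ (rhoT t))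

lemma lintegral_LT (hPair : Spec.PairT) {θ : ℝ} (hb : 1 ≤ b) (h0 : 0 ≤ θ) (h1 : θ < 1)
    (L : Measure ((ℕ × V b → UI) × ((ℕ × V b → UI) × (ℕ × V b → UI))))
    [IsProbabilityMeasure L] (hL : Trip b θ L) (N : ℕ) (w : V b) (t : ℝ) (ht : 0 < t) :
    ∫⁻ q, ENNReal.ofReal (DNl θ N q.1 (rt b) w.l) ∂(LT L t) = fw θ N w t := by
  have hp := (hPair b θ hb h0 h1).2 L inferInstance hL t ht
  have hρ := IsgTails.isProb_rhoT t
  have hF : Measurable (fun h : V b → ℝ => ENNReal.ofReal (DNl θ N h (rt b) w.l)) :=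
    (measurable_DNl θ N (rt b) w.l).ennreal_ofReal
  have e1 : ∫⁻ q, ENNReal.ofReal (DNl θ N q.1 (rt b) w.l) ∂(LT L t) =
      ∫⁻ h, ENNReal.ofReal (DNl θ N h (rt b) w.l) ∂(PL b θ (rhoT t)) := by
    rw [← hp.fst, lintegral_map hF measurable_fst]
  rw [e1, lintegral_PL_even h0 h1 (rhoT t) hF (fun h => by rw [DNl_neg])]
  unfold fw
  congr 1
  ext p
  rw [DNl_hf θ N true p.1 p.2 (rt b) w.l (by
    have : (rt b).l = [] := rfl
    rw [this, List.append_nil]
    exact w.h)]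

/-- Second moment of one increment. -/
lemma lintegral_ZN_sq_le (hU : Spec.Update) (hOwn : Spec.OwnTime) (hPair : Spec.PairT)
    {θ : ℝ} (hb : 1 ≤ b) (h0 : 0 ≤ θ) (h1 : θ < 1)
    (L : Measure ((ℕ × V b → UI) × ((ℕ × V b → UI) × (ℕ × V b → UI))))
    [IsProbabilityMeasure L] (hL : Trip b θ L) (N : ℕ) (τ : ℝ) (α : ℕ × V b)
    (hα : len α.2 ≤ N) (hτ : (α.1 : ℝ) ≤ τ) :
    ∫⁻ p, ENNReal.ofReal (ZN θ N τ p.1 p.2 α ^ 2) ∂(PP b θ) ≤
      ENNReal.ofReal (4 * θ ^ (2 * len α.2)) *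
        ∫⁻ u in Set.Ioo 0 (min 1 (τ - α.1)), ENNReal.ofReal u * fw θ N α.2 (α.1 + u) := by
  set s : ℝ := min 1 (τ - α.1) with hs
  have hs0 : 0 ≤ s := le_min zero_le_one (by linarith)
  have hs1 : s ≤ 1 := min_le_left _ _
  -- pointwise bound
  have hpt : ∀ᵐ p ∂(PP b θ), ENNReal.ofReal (ZN θ N τ p.1 p.2 α ^ 2) ≤
      ENNReal.ofReal (4 * θ ^ (2 * len α.2)) *
        (if (p.1 α : ℝ) < s then ENNReal.ofReal (str (p.1 α) ^ 2) *
          ENNReal.ofReal (DNl θ N (fld p.1 p.2 (tm p.1 α)) (rt b) α.2.l) else 0) := by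
    filter_upwards [ae_PP_of_noise h0 h1 (ae_lt_one (O := ℕ × V b))] with p hp
    have hlt : (p.1 α : ℝ) < 1 := (hp α).resolve_right (fun h => h inferInstance)
    unfold ZN
    by_cases hc : tm p.1 α < τ
    · have hcs : (p.1 α : ℝ) < s := by
        rw [hs, lt_min_iff]
        refine ⟨hlt, ?_⟩
        unfold tm at hc
        linarith
      rw [if_pos hc, if_pos hcs, ← ENNReal.ofReal_mul (by positivity),
        ← ENNReal.ofReal_mul (by positivity)]
      apply ENNReal.ofReal_le_ofReal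
      have h2 := update_sq_le hU h0 h1 N (fld p.1 p.2 (tm p.1 α)) α.2 hα (zz p.1 p.2 α)
        (abs_zz_le p.1 p.2 α)
      unfold incrN
      refine h2.trans ?_
      have hD := (DNl_bounds h0 h1 N (fld p.1 p.2 (tm p.1 α)) α.2.l).1
      have hz : zz p.1 p.2 α ^ 2 ≤ str (p.1 α) ^ 2 := by
        unfold zz
        rw [mul_pow]
        have h3 := abs_two_mul_sub_one_le (p.2 α)
        have h4 : (2 * (p.2 α : ℝ) - 1) ^ 2 ≤ 1 := by
          rw [← sq_abs]
          nlinarith [abs_nonneg (2 * (p.2 α : ℝ) - 1)]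
        nlinarith [sq_nonneg (str (p.1 α))]
      have h5 : 0 ≤ 4 * θ ^ (2 * len α.2) := by positivity
      apply mul_le_mul_of_nonneg_left _ h5
      exact mul_le_mul_of_nonneg_right hz hD
    · rw [if_neg hc]
      simp
  refine (lintegral_mono_ae hpt).trans ?_
  have mS : MeasurableSet {p : (ℕ × V b → UI) × (ℕ × V b → UI) | (p.1 α : ℝ) < s} :=
    measurableSet_lt (Measurable.coeUI ((measurable_pi_apply α).comp measurable_fst))
      measurable_const
  have mf : Measurable (fun p : (ℕ × V b → UI) × (ℕ × V b → UI) =>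
      (if (p.1 α : ℝ) < s then ENNReal.ofReal (str (p.1 α) ^ 2) *
          ENNReal.ofReal (DNl θ N (fld p.1 p.2 (tm p.1 α)) (rt b) α.2.l) else 0)) := by
    apply Measurable.ite mS _ measurable_const
    have ma : Measurable (fun p : (ℕ × V b → UI) × (ℕ × V b → UI) =>
        ENNReal.ofReal (str (p.1 α) ^ 2)) :=
      ((Measurable.str (Measurable.coeUI
        ((measurable_pi_apply α).comp measurable_fst))).pow_const 2).ennreal_ofReal
    have mb : Measurable (fun p : (ℕ × V b → UI) × (ℕ × V b → UI) =>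
        ENNReal.ofReal (DNl θ N (fld p.1 p.2 (tm p.1 α)) (rt b) α.2.l)) :=
      ((measurable_DNl θ N (rt b) α.2.l).comp (Measurable.fld measurable_fst
        measurable_snd (Measurable.tm measurable_fst α))).ennreal_ofReal
    exact ma.mul mb
  rw [lintegral_const_mul _ mf]
  gcongr
  have mproj : Measurable (fun p : (ℕ × V b → UI) × ((ℕ × V b → UI) × (ℕ × V b → UI)) =>
      (p.1, p.2.1)) := measurable_fst.prodMk (measurable_fst.comp measurable_snd)
  rw [← hL.fst, lintegral_map mf mproj]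
  have hξ : Measurable (fun q : (V b → ℝ) × (V b → ℝ) =>
      ENNReal.ofReal (DNl θ N q.1 (rt b) α.2.l)) :=
    ((measurable_DNl θ N (rt b) α.2.l).comp measurable_fst).ennreal_ofReal
  have h3 := (hOwn b θ hb h0 h1 L inferInstance hL α).1 s hs0 hs1
    (fun q => ENNReal.ofReal (DNl θ N q.1 (rt b) α.2.l)) hξ
  refine h3.trans (le_of_eq ?_)
  apply setLIntegral_congr_fun measurableSet_Ioo
  intro u hu
  show ENNReal.ofReal u * ∫⁻ q, ENNReal.ofReal (DNl θ N q.1 (rt b) α.2.l) ∂(LT L (α.1 + u)) =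
    ENNReal.ofReal u * fw θ N α.2 (α.1 + u)
  rw [lintegral_LT hPair hb h0 h1 L hL N α.2 (α.1 + u) (by
    have : (0 : ℝ) ≤ α.1 := Nat.cast_nonneg _
    linarith [hu.1])]

/-- Summation over the layers. -/
lemma sum_layers (τ : ℝ) (hτ : 0 < τ) (f : ℝ → ENNReal) :
    ∑ j ∈ Finset.range (⌊τ⌋₊ + 1), ∫⁻ u in Set.Ioo 0 (min 1 (τ - j)),
      ENNReal.ofReal u * f (j + u) ≤
      ∫⁻ t in Set.Ioo 0 τ, ENNReal.ofReal (Int.fract t) * f t := by
  classical
  set A : ℕ → Set ℝ := fun j => Set.Ioo (j : ℝ) (j + min 1 (τ - j)) with hA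
  have h1 : ∀ j : ℕ, ∫⁻ u in Set.Ioo 0 (min 1 (τ - j)), ENNReal.ofReal u * f (j + u) =
      ∫⁻ t in A j, ENNReal.ofReal (Int.fract t) * f t := by
    intro j
    rw [← lintegral_indicator measurableSet_Ioo, ← lintegral_indicator measurableSet_Ioo]
    conv_rhs => rw [← lintegral_add_left_eq_self _ (j : ℝ)]
    congr 1
    ext u
    by_cases hu : u ∈ Set.Ioo 0 (min 1 (τ - j))
    · have hu2 : (j : ℝ) + u ∈ A j := ⟨by linarith [hu.1], by linarith [hu.2]⟩
      rw [Set.indicator_of_mem hu, Set.indicator_of_mem hu2]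
      have : Int.fract ((j : ℝ) + u) = u := by
        rw [Int.fract_eq_iff]
        refine ⟨hu.1.le, lt_of_lt_of_le hu.2 (min_le_left _ _), j, ?_⟩
        push_cast; ring
      rw [this]
    · have hu2 : (j : ℝ) + u ∉ A j := by
        intro h
        exact hu ⟨by linarith [h.1], by linarith [h.2]⟩
      rw [Set.indicator_of_notMem hu, Set.indicator_of_notMem hu2]
  simp only [h1]
  rw [← lintegral_biUnion_finset]
  · apply lintegral_mono_set
    intro t ht
    rw [Set.mem_iUnion₂] at ht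
    obtain ⟨j, hj, h2, h3⟩ := ht
    have h4 : (0 : ℝ) ≤ j := Nat.cast_nonneg j
    refine ⟨lt_of_le_of_lt h4 h2, ?_⟩
    have := min_le_right (1 : ℝ) (τ - j)
    linarith
  · intro i _ j _ hij
    rw [Function.onFun, Set.disjoint_left]
    rintro t ⟨h2, h3⟩ ⟨h4, h5⟩
    have h6 := min_le_left (1 : ℝ) (τ - i)
    have h7 := min_le_left (1 : ℝ) (τ - j)
    have h8 : (i : ℝ) < j + 1 := by linarith
    have h9 : (j : ℝ) < i + 1 := by linarith
    have h10 : i < j + 1 := by exact_mod_cast h8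
    have h11 : j < i + 1 := by exact_mod_cast h9
    exact hij (by omega)
  · intro j _
    exact measurableSet_Ioo

/-- The tail of the finite volume sum. -/
lemma tail_le (hPost : Spec.Post) (hU : Spec.Update) (hOwn : Spec.OwnTime) (hPair : Spec.PairT)
    {θ : ℝ} (hb : 1 ≤ b) (h0 : 0 ≤ θ) (h1 : θ < 1)
    (L : Measure ((ℕ × V b → UI) × ((ℕ × V b → UI) × (ℕ × V b → UI))))
    [IsProbabilityMeasure L] (hL : Trip b θ L) (N R : ℕ) (τ : ℝ) (hτ : 0 < τ)
    (T : Finset (ℕ × V b)) (hT : ∀ α ∈ T, α.1 < ⌊τ⌋₊ + 1 ∧ len α.2 ≤ N ∧ R < len α.2) :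
    ∫⁻ p, ENNReal.ofReal ((∑ α ∈ T, ZN θ N τ p.1 p.2 α) ^ 2) ∂(PP b θ) ≤
      ENNReal.ofReal 4 * ∑' w : V b, (if R < len w ∧ len w ≤ N then
        ENNReal.ofReal (θ ^ (2 * len w)) * ∫⁻ t in Set.Ioo 0 τ, ENNReal.ofReal (Int.fract t) *
          ∫⁻ p, ENNReal.ofReal (DMl θ N p.1 p.2 (rt b) w.l) ∂(GM b θ (rhoT t)) else 0) := by
  classical
  have hPP := isProb_PP (b := b) h0 h1
  have hbd : ∀ p : (ℕ × V b → UI) × (ℕ × V b → UI),
      |(∑ α ∈ T, ZN θ N τ p.1 p.2 α) ^ 2| ≤ (2 * T.card) ^ 2 := by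
    intro p
    rw [abs_of_nonneg (sq_nonneg _), ← sq_abs]
    apply pow_le_pow_left₀ (abs_nonneg _)
    calc |∑ α ∈ T, ZN θ N τ p.1 p.2 α| ≤ ∑ α ∈ T, |ZN θ N τ p.1 p.2 α| :=
          Finset.abs_sum_le_sum_abs _ _
      _ ≤ ∑ α ∈ T, 2 := Finset.sum_le_sum (fun α _ => abs_ZN_le θ N τ _ _ α)
      _ = 2 * T.card := by rw [Finset.sum_const, nsmul_eq_mul]; ring
  have hms : Measurable (fun p : (ℕ × V b → UI) × (ℕ × V b → UI) =>
      (∑ α ∈ T, ZN θ N τ p.1 p.2 α) ^ 2) :=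
    (Finset.measurable_sum _ (fun α _ => measurable_ZN θ N τ α)).pow_const 2
  rw [← ofReal_integral_eq_lintegral_ofReal (integrable_of_bdd hms hbd)
    (Eventually.of_forall (fun p => sq_nonneg _)),
    second_moment hPost hb h0 h1 N τ T (fun α hα => mem_Bl_rt.2 (hT α hα).2.1),
    ENNReal.ofReal_sum_of_nonneg (fun α _ => integral_nonneg (fun p => sq_nonneg _))]
  have hZ : ∀ α : ℕ × V b, ENNReal.ofReal (∫ p, ZN θ N τ p.1 p.2 α ^ 2 ∂(PP b θ)) =
      ∫⁻ p, ENNReal.ofReal (ZN θ N τ p.1 p.2 α ^ 2) ∂(PP b θ) := by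
    intro α
    apply ofReal_integral_eq_lintegral_ofReal
    · apply integrable_of_bdd (C := 4) ((measurable_ZN θ N τ α).pow_const 2)
      intro p
      have := abs_ZN_le θ N τ p.1 p.2 α
      rw [abs_of_nonneg (sq_nonneg _), ← sq_abs]
      nlinarith [abs_nonneg (ZN θ N τ p.1 p.2 α)]
    · exact Eventually.of_forall (fun p => sq_nonneg _)
  simp only [hZ]
  set B : Finset (V b) := (Bl N (rt b)).filter (fun w => R < len w) with hB
  have hsub : T ⊆ (B ×ˢ (Finset.range (⌊τ⌋₊ + 1))).image Prod.swap := by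
    intro α hα
    obtain ⟨h2, h3, h4⟩ := hT α hα
    rw [Finset.mem_image]
    refine ⟨(α.2, α.1), ?_, rfl⟩
    rw [Finset.mem_product, Finset.mem_range, hB, Finset.mem_filter, mem_Bl_rt]
    exact ⟨⟨h3, h4⟩, h2⟩
  refine (Finset.sum_le_sum_of_subset hsub).trans ?_
  rw [Finset.sum_image (fun x _ y _ h => Prod.swap_injective h), Finset.sum_product]
  have hw : ∀ w ∈ B, ∑ j ∈ Finset.range (⌊τ⌋₊ + 1),
      ∫⁻ p, ENNReal.ofReal (ZN θ N τ p.1 p.2 (Prod.swap (w, j)) ^ 2) ∂(PP b θ) ≤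
      ENNReal.ofReal 4 * (ENNReal.ofReal (θ ^ (2 * len w)) *
        ∫⁻ t in Set.Ioo 0 τ, ENNReal.ofReal (Int.fract t) * fw θ N w t) := by
    intro w hwB
    rw [hB, Finset.mem_filter, mem_Bl_rt] at hwB
    calc ∑ j ∈ Finset.range (⌊τ⌋₊ + 1),
        ∫⁻ p, ENNReal.ofReal (ZN θ N τ p.1 p.2 (Prod.swap (w, j)) ^ 2) ∂(PP b θ)
        ≤ ∑ j ∈ Finset.range (⌊τ⌋₊ + 1), ENNReal.ofReal (4 * θ ^ (2 * len w)) *
          ∫⁻ u in Set.Ioo 0 (min 1 (τ - j)), ENNReal.ofReal u * fw θ N w (j + u) := by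
          apply Finset.sum_le_sum
          intro j hj
          have hj2 : (j : ℝ) ≤ τ := by
            rw [Finset.mem_range] at hj
            have : j ≤ ⌊τ⌋₊ := by omega
            calc (j : ℝ) ≤ (⌊τ⌋₊ : ℝ) := by exact_mod_cast this
              _ ≤ τ := Nat.floor_le hτ.le
          exact lintegral_ZN_sq_le hU hOwn hPair hb h0 h1 L hL N τ (j, w) hwB.1 hj2
      _ = ENNReal.ofReal (4 * θ ^ (2 * len w)) * ∑ j ∈ Finset.range (⌊τ⌋₊ + 1),
          ∫⁻ u in Set.Ioo 0 (min 1 (τ - j)), ENNReal.ofReal u * fw θ N w (j + u) := by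
          rw [Finset.mul_sum]
      _ ≤ ENNReal.ofReal (4 * θ ^ (2 * len w)) *
          ∫⁻ t in Set.Ioo 0 τ, ENNReal.ofReal (Int.fract t) * fw θ N w t := by
          gcongr
          exact sum_layers τ hτ (fw θ N w)
      _ = _ := by
          rw [ENNReal.ofReal_mul (by norm_num), mul_assoc]
  refine (Finset.sum_le_sum hw).trans ?_
  rw [← Finset.mul_sum]
  gcongr
  have e : ∑ w ∈ B, ENNReal.ofReal (θ ^ (2 * len w)) *
        ∫⁻ t in Set.Ioo 0 τ, ENNReal.ofReal (Int.fract t) * fw θ N w t =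
      ∑ w ∈ B, (if R < len w ∧ len w ≤ N then
        ENNReal.ofReal (θ ^ (2 * len w)) * ∫⁻ t in Set.Ioo 0 τ, ENNReal.ofReal (Int.fract t) *
          ∫⁻ p, ENNReal.ofReal (DMl θ N p.1 p.2 (rt b) w.l) ∂(GM b θ (rhoT t)) else 0) := by
    apply Finset.sum_congr rfl
    intro w hw
    rw [hB, Finset.mem_filter, mem_Bl_rt] at hw
    rw [if_pos ⟨hw.2, hw.1⟩]
    rfl
  rw [e]
  exact ENNReal.sum_le_tsum B

end Crest.Agent.IsgPars
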