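import Crest.Agent.IsgGood
import Crest.Agent.IsgReal1
import Crest.Agent.IsgMu

set_option autoImplicit false

/-!
Module POST for S0241: posterior means under the dynamics.
-/

open MeasureTheory ProbabilityTheory Filter Topology

namespace Crest.Agent.Isg

variable {b : ℕ}

/-- Density of one observation. -/
noncomputable def dnP (e : ℝ) (s : Bool) (y : UI) : ℝ := 1 + e * sg s * (2 * (y : ℝ) - 1)

lemma Bm_dnP (e : ℝ) (s : Bool) : Bm (dnP e s) := by
  refine ⟨?_, 1 + |e|, fun y => ?_⟩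
  · unfold dnP
    exact measurable_const.add (measurable_const.mul ((measurable_coeUI.const_mul 2).sub_const 1))
  · unfold dnP
    refine (abs_add_le _ _).trans ?_
    rw [abs_one, abs_mul, abs_mul, abs_sg, mul_one]
    have := abs_two_mul_sub_one_le y
    have := abs_nonneg e
    nlinarith

lemma integral_obsP {e : ℝ} (he0 : 0 ≤ e) (he : e ≤ 1 / 2) (s : Bool) {φ : UI → ℝ} (hφ : Bm φ) :
    ∫ w, φ (obs e s w) = ∫ y, φ y * dnP e s y := by
  have hm : Measurable (obs e s) :=
    Measurable.obs measurable_const measurable_const measurable_id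
  have h1 : ∫ w, φ (obs e s w) = ∫ y, φ y ∂((volume : Measure UI).map (obs e s)) := by
    rw [integral_map hm.aemeasurable hφ.1.aestronglyMeasurable]
  rw [h1, IsgReal1.volume_map_obs he0 he s]
  rw [integral_withDensity_eq_integral_toReal_smul₀]
  · apply integral_congr_ae
    refine ae_of_all _ (fun y => ?_)
    show (ENNReal.ofReal _).toReal • φ y = φ y * dnP e s y
    rw [ENNReal.toReal_ofReal]
    · rw [smul_eq_mul, mul_comm]; rfl
    · have h2 := abs_two_mul_sub_one_le y
      have h3 : |e * sg s * (2 * (y : ℝ) - 1)| ≤ 1 / 2 := by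
        rw [abs_mul, abs_mul, abs_sg, mul_one, abs_of_nonneg he0]
        nlinarith [abs_nonneg (2 * (y : ℝ) - 1)]
      have := (abs_le.1 h3).1
      linarith
  · apply Measurable.aemeasurable
    apply Measurable.ennreal_ofReal
    exact (Bm_dnP e s).1
  · exact ae_of_all _ (fun y => ENNReal.ofReal_lt_top)

lemma Measurable.updP {Ω : Type*} [MeasurableSpace Ω] {h : Ω → (ℕ × V b → UI)} {x : Ω → UI}
    (hh : Measurable h) (hx : Measurable x) (β : ℕ × V b) :
    Measurable (fun ω => Function.update (h ω) β (x ω)) := by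
  apply measurable_pi_lambda
  intro w
  by_cases hw : w = β
  · subst hw
    simpa using hx
  · simp only [Function.update_of_ne hw]
    exact (measurable_pi_apply w).comp hh

/-- Changing one coordinate. -/
lemma integral_update_obsP {e : ℝ} (he0 : 0 ≤ e) (he : e ≤ 1 / 2) (s : Bool)
    {Ψ : (ℕ × V b → UI) → ℝ} (hΨ : Bm Ψ) (β : ℕ × V b) :
    ∫ z, Ψ (Function.update z β (obs e s (z β))) ∂(noise (ℕ × V b)) =
      ∫ z, Ψ z * dnP e s (z β) ∂(noise (ℕ × V b)) := by
  have er := infinitePi_resample (volume : Measure UI) β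
  have hm : Measurable (fun p : UI × (ℕ × V b → UI) => Function.update p.2 β p.1) :=
    Measurable.updP measurable_snd measurable_fst β
  have hobs : Measurable (obs e s) :=
    Measurable.obs measurable_const measurable_const measurable_id
  have hm2 : Measurable (fun z : ℕ × V b → UI => Function.update z β (obs e s (z β))) :=
    Measurable.updP measurable_id (hobs.comp (measurable_pi_apply β)) β
  have B1 : Bm (fun z : ℕ × V b → UI => Ψ (Function.update z β (obs e s (z β)))) := hΨ.comp hm2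
  have B2 : Bm (fun z : ℕ × V b → UI => Ψ z * dnP e s (z β)) :=
    hΨ.mul ((Bm_dnP e s).comp (measurable_pi_apply β))
  have hm3 : Measurable (fun p : UI × (ℕ × V b → UI) => Function.update p.2 β (obs e s p.1)) :=
    Measurable.updP measurable_snd (hobs.comp measurable_fst) β
  calc ∫ z, Ψ (Function.update z β (obs e s (z β))) ∂(noise (ℕ × V b))
      = ∫ p, Ψ (Function.update p.2 β (obs e s p.1))
          ∂((volume : Measure UI).prod (noise (ℕ × V b))) := by
        conv_lhs => rw [noise, ← er]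
        rw [integral_map hm.aemeasurable B1.1.aestronglyMeasurable]
        congr 1
        funext p
        simp
    _ = ∫ z, (∫ x : UI, Ψ (Function.update z β (obs e s x))) ∂(noise (ℕ × V b)) := by
        rw [integral_prod_symm _ ((hΨ.comp hm3).integrable _)]
    _ = ∫ z, (∫ x : UI, Ψ (Function.update z β x) * dnP e s x) ∂(noise (ℕ × V b)) := by
        congr 1
        funext z
        have B3 : Bm (fun x : UI => Ψ (Function.update z β x)) :=
          hΨ.comp (Measurable.updP measurable_const measurable_id β)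
        exact integral_obsP he0 he s B3
    _ = ∫ p, Ψ (Function.update p.2 β p.1) * dnP e s p.1
          ∂((volume : Measure UI).prod (noise (ℕ × V b))) := by
        have B4 : Bm (fun p : UI × (ℕ × V b → UI) =>
            Ψ (Function.update p.2 β p.1) * dnP e s p.1) :=
          (hΨ.comp hm).mul ((Bm_dnP e s).comp measurable_fst)
        rw [integral_prod_symm _ (B4.integrable _)]
    _ = ∫ z, Ψ z * dnP e s (z β) ∂(noise (ℕ × V b)) := by
        conv_rhs => rw [noise, ← er]
        rw [integral_map hm.aemeasurable B2.1.aestronglyMeasurable]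
        congr 1
        funext p
        simp

/-- Changing finitely many coordinates. -/
lemma integral_obs_finsetP {e : ℕ × V b → ℝ} (he0 : ∀ β, 0 ≤ e β) (he : ∀ β, e β ≤ 1 / 2)
    (s : ℕ × V b → Bool) (S : Finset (ℕ × V b)) : ∀ {Ψ : (ℕ × V b → UI) → ℝ}, Bm Ψ →
    ∫ z, Ψ (fun β => if β ∈ S then obs (e β) (s β) (z β) else z β) ∂(noise (ℕ × V b)) =
      ∫ z, Ψ z * ∏ β ∈ S, dnP (e β) (s β) (z β) ∂(noise (ℕ × V b)) := by
  induction S using Finset.induction_on with
  | empty => intro Ψ _; simp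
  | insert w S hw ih =>
    intro Ψ hΨ
    have hmS : Measurable (fun (z : ℕ × V b → UI) β =>
        if β ∈ S then obs (e β) (s β) (z β) else z β) := by
      apply measurable_pi_lambda
      intro v
      by_cases hv : v ∈ S
      · simp only [hv, if_true]
        exact Measurable.obs measurable_const measurable_const (measurable_pi_apply v)
      · simp only [hv, if_false]; exact measurable_pi_apply v
    have h1 : ∀ z : ℕ × V b → UI,
        (fun β => if β ∈ insert w S then obs (e β) (s β) (z β) else z β) =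
        fun β => if β ∈ S then obs (e β) (s β) ((Function.update z w (obs (e w) (s w) (z w))) β)
          else (Function.update z w (obs (e w) (s w) (z w))) β := by
      intro z
      funext v
      by_cases hvw : v = w
      · subst hvw
        simp [hw]
      · simp [hvw]
    simp only [h1]
    have h2 := integral_update_obsP (he0 w) (he w) (s w) (hΨ.comp hmS) w
    rw [h2]
    have h3 : ∀ z : ℕ × V b → UI,
        Ψ (fun β => if β ∈ S then obs (e β) (s β) (z β) else z β) * dnP (e w) (s w) (z w) =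
        (fun z : ℕ × V b → UI => Ψ z * dnP (e w) (s w) (z w))
          (fun β => if β ∈ S then obs (e β) (s β) (z β) else z β) := by
      intro z
      simp [hw]
    simp only [h3]
    rw [ih (hΨ.mul ((Bm_dnP (e w) (s w)).comp (measurable_pi_apply w)))]
    congr 1
    funext z
    rw [Finset.prod_insert hw]
    ring

/-- The observations made before the time `t` at the vertices of `S`. -/
noncomputable def obsB (U : ℕ × V b → UI) (t : ℝ) (S : Finset (V b)) : Finset (ℕ × V b) :=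
  (Finset.range (⌊t⌋₊ + 1) ×ˢ S).filter (fun β => tm U β < t)

lemma mem_obsB {U : ℕ × V b → UI} {t : ℝ} {S : Finset (V b)} {β : ℕ × V b} :
    β ∈ obsB U t S ↔ tm U β < t ∧ β.2 ∈ S := by
  unfold obsB
  rw [Finset.mem_filter, Finset.mem_product, Finset.mem_range]
  constructor
  · rintro ⟨⟨_, h2⟩, h3⟩; exact ⟨h3, h2⟩
  · rintro ⟨h1, h2⟩
    refine ⟨⟨?_, h2⟩, h1⟩
    have h3 : (β.1 : ℝ) ≤ t := by
      have : (β.1 : ℝ) ≤ tm U β := by
        unfold tm
        have := (U β).2.1
        linarith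
      linarith
    have := Nat.le_floor h3
    omega

lemma prod_dnP (U : ℕ × V b → UI) (t : ℝ) (S : Finset (V b)) (y : ℕ × V b → UI) :
    ∃ c : ℝ, ∀ σ : V b → Bool, ∏ β ∈ obsB U t S, dnP (str (U β)) (σ β.2) (y β) =
      c * ∏ v ∈ S, (1 + sg (σ v) * Real.tanh (fld U y t v)) := by
  classical
  have h1 : ∀ v : V b, ∃ c : ℝ, 0 < c ∧ ∀ s : Bool,
      ∏ j ∈ (Finset.range (⌊t⌋₊ + 1)).filter (fun j => tm U (j, v) < t),
        (1 + sg s * Real.tanh (Real.artanh (zz U y (j, v)))) =
      c * (1 + sg s * Real.tanh (∑ j ∈ (Finset.range (⌊t⌋₊ + 1)).filter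
        (fun j => tm U (j, v) < t), Real.artanh (zz U y (j, v)))) :=
    fun v => prod_one_add_tanh _ _
  choose c hc0 hc using h1
  refine ⟨∏ v ∈ S, c v, fun σ => ?_⟩
  unfold obsB
  rw [Finset.prod_filter, Finset.prod_product_right, ← Finset.prod_mul_distrib]
  apply Finset.prod_congr rfl
  intro v _
  rw [← Finset.prod_filter]
  have h2 : fld U y t v = ∑ j ∈ (Finset.range (⌊t⌋₊ + 1)).filter
        (fun j => tm U (j, v) < t), Real.artanh (zz U y (j, v)) := by
    unfold fld
    rw [Finset.sum_filter]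
  rw [h2, ← hc v (σ v)]
  apply Finset.prod_congr rfl
  intro j _
  have h3 : zz U y (j, v) ∈ Set.Ioo (-1 : ℝ) 1 := by
    have := abs_le.1 (abs_zz_le U y (j, v))
    constructor <;> linarith [this.1, this.2]
  rw [Real.tanh_artanh h3]
  unfold dnP zz
  ring

lemma fld_congrP {U y y' : ℕ × V b → UI} {t : ℝ} {v : V b}
    (h : ∀ β : ℕ × V b, tm U β < t → β.2 = v → y β = y' β) : fld U y t v = fld U y' t v := by
  unfold fld
  apply Finset.sum_congr rfl
  intro j _
  by_cases hj : tm U (j, v) < t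
  · rw [if_pos hj, if_pos hj]
    unfold zz
    rw [h (j, v) hj rfl]
  · rw [if_neg hj, if_neg hj]

/-- Quenched Bayes formula. -/
lemma quenchedP {θ : ℝ} (h0 : 0 ≤ θ) (h1 : θ < 1) (U : ℕ × V b → UI) (t : ℝ) (S : Finset (V b))
    {φ : (V b → Bool) → ℝ} (hφ : Bm φ) {F : (ℕ × V b → UI) → ℝ} (hF : Bm F)
    (hd : ∀ Y Y' : ℕ × V b → UI, (∀ β : ℕ × V b, tm U β < t → β.2 ∈ S → Y β = Y' β) → F Y = F Y') :
    ∫ q, φ q.1 * F (Yf U q.1 q.2) ∂((mu b θ).prod (noise (ℕ × V b))) =
      ∫ y, F y * (∫ σ, φ σ * ∏ β ∈ obsB U t S, dnP (str (U β)) (σ β.2) (y β) ∂(mu b θ))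
        ∂(noise (ℕ × V b)) := by
  have := isProb_mu (b := b) h0 h1
  have hY : Measurable (fun q : (V b → Bool) × (ℕ × V b → UI) => Yf U q.1 q.2) :=
    Measurable.Yf measurable_const measurable_fst measurable_snd
  have B1 : Bm (fun q : (V b → Bool) × (ℕ × V b → UI) => φ q.1 * F (Yf U q.1 q.2)) :=
    (hφ.comp measurable_fst).mul (hF.comp hY)
  have Bd : ∀ β : ℕ × V b, Bm (fun q : (V b → Bool) × (ℕ × V b → UI) =>
      dnP (str (U β)) (q.1 β.2) (q.2 β)) := by
    intro β
    refine ⟨?_, 1 + |str (U β)|, fun q => ?_⟩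
    · unfold dnP
      exact measurable_const.add ((measurable_const.mul (measurable_sg.comp
        ((measurable_pi_apply _).comp measurable_fst))).mul
        (((measurable_coeUI.comp ((measurable_pi_apply β).comp measurable_snd)).const_mul
          2).sub_const 1))
    · unfold dnP
      refine (abs_add_le _ _).trans ?_
      rw [abs_one, abs_mul, abs_mul, abs_sg, mul_one]
      have := abs_two_mul_sub_one_le (q.2 β)
      have := abs_nonneg (str (U β))
      nlinarith
  have B2 : Bm (fun q : (V b → Bool) × (ℕ × V b → UI) =>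
      F q.2 * (φ q.1 * ∏ β ∈ obsB U t S, dnP (str (U β)) (q.1 β.2) (q.2 β))) :=
    (hF.comp measurable_snd).mul ((hφ.comp measurable_fst).mul (Bm.prod _ _ (fun β _ => Bd β)))
  rw [integral_prod _ (B1.integrable _)]
  calc ∫ σ, ∫ η, φ σ * F (Yf U σ η) ∂(noise (ℕ × V b)) ∂(mu b θ)
      = ∫ σ, ∫ y, F y * (φ σ * ∏ β ∈ obsB U t S, dnP (str (U β)) (σ β.2) (y β))
          ∂(noise (ℕ × V b)) ∂(mu b θ) := by
        congr 1
        funext σ
        rw [integral_const_mul]
        have h2 : ∀ η : ℕ × V b → UI, F (Yf U σ η) =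
            F (fun β => if β ∈ obsB U t S then obs (str (U β)) (σ β.2) (η β) else η β) := by
          intro η
          apply hd
          intro β hβ hβ2
          rw [if_pos (mem_obsB.2 ⟨hβ, hβ2⟩)]
          rfl
        simp only [h2]
        have h3 := integral_obs_finsetP (e := fun β => str (U β)) (fun β => str_nonneg _)
          (fun β => str_le_half _) (fun β => σ β.2) (obsB U t S) hF
        rw [h3, ← integral_const_mul]
        congr 1
        funext y
        ring
    _ = ∫ y, ∫ σ, F y * (φ σ * ∏ β ∈ obsB U t S, dnP (str (U β)) (σ β.2) (y β))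
          ∂(mu b θ) ∂(noise (ℕ × V b)) := by
        rw [← integral_prod (f := fun q : (V b → Bool) × (ℕ × V b → UI) =>
          F q.2 * (φ q.1 * ∏ β ∈ obsB U t S, dnP (str (U β)) (q.1 β.2) (q.2 β)))
          (B2.integrable _), integral_prod_symm _ (B2.integrable _)]
    _ = _ := by
        congr 1
        funext y
        rw [integral_const_mul]

/-- Quenched posterior mean. -/
lemma quenched_postP {θ : ℝ} (h0 : 0 ≤ θ) (h1 : θ < 1) (U : ℕ × V b → UI) (t : ℝ)
    (S : Finset (V b)) (u : V b) {X : (V b → ℝ) → ℝ} (hX : Bm X)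
    (hXd : ∀ h h' : V b → ℝ, (∀ v ∈ S, h v = h' v) → X h = X h')
    (hBP : ∀ h : V b → ℝ, ∫ σ, sg (σ u) * ∏ v ∈ S, (1 + sg (σ v) * Real.tanh (h v)) ∂(mu b θ) =
      X h * ∫ σ, ∏ v ∈ S, (1 + sg (σ v) * Real.tanh (h v)) ∂(mu b θ))
    {F : (ℕ × V b → UI) → ℝ} (hF : Bm F)
    (hd : ∀ Y Y' : ℕ × V b → UI, (∀ β : ℕ × V b, tm U β < t → β.2 ∈ S → Y β = Y' β) → F Y = F Y') :
    ∫ q, F (Yf U q.1 q.2) * sg (q.1 u) ∂((mu b θ).prod (noise (ℕ × V b))) =
      ∫ q, F (Yf U q.1 q.2) * X (fld U (Yf U q.1 q.2) t) ∂((mu b θ).prod (noise (ℕ × V b))) := by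
  have Bs : Bm (fun σ : V b → Bool => sg (σ u)) :=
    ⟨measurable_sg.comp (measurable_pi_apply u), 1, fun σ => by rw [abs_sg]⟩
  have hfm : Measurable (fun y : ℕ × V b → UI => fld U y t) :=
    Measurable.fld measurable_const measurable_id measurable_const
  have BF' : Bm (fun y : ℕ × V b → UI => F y * X (fld U y t)) := hF.mul (hX.comp hfm)
  have e1 := quenchedP h0 h1 U t S Bs hF hd
  have e2 := quenchedP h0 h1 U t S (φ := fun _ => 1) (Bm.const 1) BF' (by
    intro Y Y' h
    have g1 : X (fld U Y t) = X (fld U Y' t) := by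
      apply hXd
      intro v hv
      apply fld_congrP
      intro β hβ hβv
      exact h β hβ (by rw [hβv]; exact hv)
    rw [hd Y Y' h, g1])
  simp only [one_mul] at e2
  rw [e2]
  have e3 : ∫ q, F (Yf U q.1 q.2) * sg (q.1 u) ∂((mu b θ).prod (noise (ℕ × V b))) =
      ∫ q, sg (q.1 u) * F (Yf U q.1 q.2) ∂((mu b θ).prod (noise (ℕ × V b))) := by
    congr 1
    funext q
    rw [mul_comm]
  rw [e3, e1]
  congr 1
  funext y
  obtain ⟨c, hc⟩ := prod_dnP U t S y
  simp only [hc]
  have e4 : ∀ σ : V b → Bool, sg (σ u) * (c * ∏ v ∈ S, (1 + sg (σ v) * Real.tanh (fld U y t v))) =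
      c * (sg (σ u) * ∏ v ∈ S, (1 + sg (σ v) * Real.tanh (fld U y t v))) := fun σ => by ring
  simp only [e4]
  rw [integral_const_mul, integral_const_mul, hBP]
  ring

/-- Annealed posterior mean. -/
lemma annealedP {θ : ℝ} (h0 : 0 ≤ θ) (h1 : θ < 1) {τ : (ℕ × V b → UI) → ℝ} (hτ : Measurable τ)
    (S : Finset (V b)) (u : V b) {X : (V b → ℝ) → ℝ} (hX : Bm X)
    (hXd : ∀ h h' : V b → ℝ, (∀ v ∈ S, h v = h' v) → X h = X h')
    (hBP : ∀ h : V b → ℝ, ∫ σ, sg (σ u) * ∏ v ∈ S, (1 + sg (σ v) * Real.tanh (h v)) ∂(mu b θ) =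
      X h * ∫ σ, ∏ v ∈ S, (1 + sg (σ v) * Real.tanh (h v)) ∂(mu b θ))
    {F : (ℕ × V b → UI) → (ℕ × V b → UI) → ℝ}
    (hF : Measurable (fun p : (ℕ × V b → UI) × (ℕ × V b → UI) => F p.1 p.2))
    (hFb : ∃ C, ∀ U Y, |F U Y| ≤ C)
    (hd : ∀ U Y Y', (∀ β : ℕ × V b, tm U β < τ U → β.2 ∈ S → Y β = Y' β) → F U Y = F U Y') :
    ∫ p, F p.1 (Yf p.1 p.2.1 p.2.2) * sg (p.2.1 u) ∂(JJ b θ) =
      ∫ p, F p.1 (Yf p.1 p.2.1 p.2.2) * X (fld p.1 (Yf p.1 p.2.1 p.2.2) (τ p.1)) ∂(JJ b θ) := by
  have := isProb_mu (b := b) h0 h1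
  have hYm : Measurable (fun p : (ℕ × V b → UI) × ((V b → Bool) × (ℕ × V b → UI)) =>
      Yf p.1 p.2.1 p.2.2) :=
    Measurable.Yf measurable_fst (measurable_fst.comp measurable_snd)
      (measurable_snd.comp measurable_snd)
  have BF : Bm (fun p : (ℕ × V b → UI) × (ℕ × V b → UI) => F p.1 p.2) := by
    obtain ⟨C, hC⟩ := hFb
    exact ⟨hF, C, fun p => hC _ _⟩
  have BF1 : Bm (fun p : (ℕ × V b → UI) × ((V b → Bool) × (ℕ × V b → UI)) =>
      F p.1 (Yf p.1 p.2.1 p.2.2)) := BF.comp (measurable_fst.prodMk hYm)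
  have Bs : Bm (fun p : (ℕ × V b → UI) × ((V b → Bool) × (ℕ × V b → UI)) => sg (p.2.1 u)) :=
    ⟨measurable_sg.comp ((measurable_pi_apply u).comp (measurable_fst.comp measurable_snd)), 1,
      fun σ => by rw [abs_sg]⟩
  have BX : Bm (fun p : (ℕ × V b → UI) × ((V b → Bool) × (ℕ × V b → UI)) =>
      X (fld p.1 (Yf p.1 p.2.1 p.2.2) (τ p.1))) :=
    hX.comp (Measurable.fld measurable_fst hYm (hτ.comp measurable_fst))
  unfold JJ
  rw [integral_prod _ ((BF1.mul Bs).integrable _), integral_prod _ ((BF1.mul BX).integrable _)]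
  congr 1
  funext U
  exact quenched_postP h0 h1 U (τ U) S u hX hXd hBP
    (BF.comp (measurable_const.prodMk measurable_id)) (hd U)

/-- The observations before `τ U` at the vertices of `A`, the others being replaced by `0`. -/
noncomputable def cutP (τ : (ℕ × V b → UI) → ℝ) (A : Finset (V b)) (U Y : ℕ × V b → UI) :
    ℕ × V b → UI :=
  fun β => if tm U β < τ U ∧ β.2 ∈ A then Y β else 0

lemma measurable_cutP {τ : (ℕ × V b → UI) → ℝ} (hτ : Measurable τ) (A : Finset (V b)) :
    Measurable (fun p : (ℕ × V b → UI) × (ℕ × V b → UI) => (p.1, cutP τ A p.1 p.2)) := by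
  apply measurable_fst.prodMk
  apply measurable_pi_lambda
  intro β
  unfold cutP
  apply Measurable.ite
  · exact (measurableSet_lt (Measurable.tm measurable_fst β) (hτ.comp measurable_fst)).inter
      (MeasurableSet.const _)
  · exact (measurable_pi_apply β).comp measurable_snd
  · exact measurable_const

lemma measurable_YfP : Measurable (fun p : (ℕ × V b → UI) × ((V b → Bool) × (ℕ × V b → UI)) =>
      Yf p.1 p.2.1 p.2.2) :=
  Measurable.Yf measurable_fst (measurable_fst.comp measurable_snd)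
      (measurable_snd.comp measurable_snd)

/-- The data at stage `A`. -/
noncomputable def GPm (τ : (ℕ × V b → UI) → ℝ) (A : Finset (V b))
    (p : (ℕ × V b → UI) × ((V b → Bool) × (ℕ × V b → UI))) :
    (ℕ × V b → UI) × (ℕ × V b → UI) :=
  (p.1, cutP τ A p.1 (Yf p.1 p.2.1 p.2.2))

lemma measurable_GPm {τ : (ℕ × V b → UI) → ℝ} (hτ : Measurable τ) (A : Finset (V b)) :
    Measurable (GPm τ A) :=
  (measurable_cutP hτ A).comp (measurable_fst.prodMk measurable_YfP)

lemma cutP_cutP (τ : (ℕ × V b → UI) → ℝ) {A A' : Finset (V b)} (h : A ⊆ A')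
    (U Y : ℕ × V b → UI) : cutP τ A U (cutP τ A' U Y) = cutP τ A U Y := by
  funext β
  unfold cutP
  by_cases h1 : tm U β < τ U ∧ β.2 ∈ A
  · rw [if_pos h1, if_pos ⟨h1.1, h h1.2⟩, if_pos h1]
  · rw [if_neg h1, if_neg h1]

/-- The filtration. -/
noncomputable def filP {τ : (ℕ × V b → UI) → ℝ} (hτ : Measurable τ) (A : ℕ → Finset (V b))
    (hA : Monotone A) :
    Filtration ℕ (inferInstance :
      MeasurableSpace ((ℕ × V b → UI) × ((V b → Bool) × (ℕ × V b → UI)))) where
  seq N := MeasurableSpace.comap (GPm τ (A N)) inferInstance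
  mono' := by
    intro N N' h
    show MeasurableSpace.comap _ _ ≤ MeasurableSpace.comap _ _
    have h1 : GPm τ (A N) = (fun q : (ℕ × V b → UI) × (ℕ × V b → UI) =>
        (q.1, cutP τ (A N) q.1 q.2)) ∘ GPm τ (A N') := by
      funext p
      show (p.1, _) = (p.1, _)
      rw [Prod.mk.injEq]
      exact ⟨rfl, (cutP_cutP τ (hA h) _ _).symm⟩
    rw [h1, ← MeasurableSpace.comap_comp]
    exact MeasurableSpace.comap_mono (measurable_cutP hτ (A N)).comap_le
  le' := by
    intro N
    exact (measurable_GPm hτ (A N)).comap_le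

lemma condExpP {θ : ℝ} (h0 : 0 ≤ θ) (h1 : θ < 1) {τ : (ℕ × V b → UI) → ℝ} (hτ : Measurable τ)
    (A : ℕ → Finset (V b)) (hA : Monotone A) (u : V b) {X : ℕ → (V b → ℝ) → ℝ}
    (hX : ∀ N, Bm (X N))
    (hXd : ∀ N, ∀ h h' : V b → ℝ, (∀ v ∈ A N, h v = h' v) → X N h = X N h')
    (hBP : ∀ N, ∀ h : V b → ℝ,
      ∫ σ, sg (σ u) * ∏ v ∈ A N, (1 + sg (σ v) * Real.tanh (h v)) ∂(mu b θ) =
      X N h * ∫ σ, ∏ v ∈ A N, (1 + sg (σ v) * Real.tanh (h v)) ∂(mu b θ)) (N : ℕ) :
    (fun p : (ℕ × V b → UI) × ((V b → Bool) × (ℕ × V b → UI)) =>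
      X N (fld p.1 (Yf p.1 p.2.1 p.2.2) (τ p.1))) =ᵐ[JJ b θ]
      (JJ b θ)[fun p => sg (p.2.1 u) | filP hτ A hA N] := by
  have := isProb_mu (b := b) h0 h1
  have hJ : IsProbabilityMeasure (JJ b θ) := by unfold JJ; infer_instance
  have Bs : Bm (fun p : (ℕ × V b → UI) × ((V b → Bool) × (ℕ × V b → UI)) => sg (p.2.1 u)) :=
    ⟨measurable_sg.comp ((measurable_pi_apply u).comp (measurable_fst.comp measurable_snd)), 1,
      fun σ => by rw [abs_sg]⟩
  have BX : Bm (fun p : (ℕ × V b → UI) × ((V b → Bool) × (ℕ × V b → UI)) =>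
      X N (fld p.1 (Yf p.1 p.2.1 p.2.2) (τ p.1))) :=
    (hX N).comp (Measurable.fld measurable_fst measurable_YfP (hτ.comp measurable_fst))
  apply ae_eq_condExp_of_forall_setIntegral_eq ((filP hτ A hA).le N)
  · exact Bs.integrable _
  · intro s _ _
    exact (BX.integrable _).integrableOn
  · rintro s ⟨B, hB, rfl⟩ _
    have hBm : MeasurableSet (GPm τ (A N) ⁻¹' B) := measurable_GPm hτ (A N) hB
    rw [← integral_indicator hBm, ← integral_indicator hBm]
    have e := annealedP h0 h1 hτ (A N) u (hX N) (hXd N) (hBP N)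
      (F := fun U Y => B.indicator (fun _ => (1 : ℝ)) (U, cutP τ (A N) U Y))
      ((measurable_const.indicator hB).comp (measurable_cutP hτ (A N)))
      ⟨1, fun U Y => by
        by_cases hh : (U, cutP τ (A N) U Y) ∈ B
        · simp [hh]
        · simp [hh]⟩
      (by
        intro U Y Y' h
        have : cutP τ (A N) U Y = cutP τ (A N) U Y' := by
          funext β
          unfold cutP
          by_cases h1 : tm U β < τ U ∧ β.2 ∈ A N
          · rw [if_pos h1, if_pos h1, h β h1.1 h1.2]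
          · rw [if_neg h1, if_neg h1]
        show B.indicator (fun _ => (1 : ℝ)) (U, cutP τ (A N) U Y) = _
        rw [this])
    have q1 : ∀ (f : (ℕ × V b → UI) × ((V b → Bool) × (ℕ × V b → UI)) → ℝ)
        (p : (ℕ × V b → UI) × ((V b → Bool) × (ℕ × V b → UI))),
        (GPm τ (A N) ⁻¹' B).indicator f p =
        B.indicator (fun _ => (1 : ℝ)) (p.1, cutP τ (A N) p.1 (Yf p.1 p.2.1 p.2.2)) * f p := by
      intro f p
      by_cases hp : GPm τ (A N) p ∈ B
      · rw [Set.indicator_of_mem (show p ∈ GPm τ (A N) ⁻¹' B from hp), Set.indicator_of_mem (by exact hp), one_mul]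
      · rw [Set.indicator_of_notMem (show p ∉ GPm τ (A N) ⁻¹' B from hp), Set.indicator_of_notMem (by exact hp), zero_mul]
    simp only [q1]
    exact e.symm
  · have h2 : (fun p : (ℕ × V b → UI) × ((V b → Bool) × (ℕ × V b → UI)) =>
        X N (fld p.1 (Yf p.1 p.2.1 p.2.2) (τ p.1))) =
        (fun q : (ℕ × V b → UI) × (ℕ × V b → UI) => X N (fld q.1 q.2 (τ q.1))) ∘
          GPm τ (A N) := by
      funext p
      show X N _ = X N _
      apply hXd
      intro v hv
      apply fld_congrP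
      intro β hβ hβv
      show _ = cutP τ (A N) p.1 _ β
      unfold cutP
      rw [if_pos ⟨hβ, by rw [hβv]; exact hv⟩]
    rw [h2]
    apply StronglyMeasurable.aestronglyMeasurable
    apply Measurable.stronglyMeasurable
    exact ((hX N).1.comp (Measurable.fld measurable_fst measurable_snd
      (hτ.comp measurable_fst))).comp (comap_measurable _)

lemma goodP (hBP : Spec.BPsub) (hb : 1 ≤ b) {θ : ℝ} (h0 : 0 ≤ θ) (h1 : θ < 1)
    {τ : (ℕ × V b → UI) → ℝ} (hτ : Measurable τ) :
    ∀ᵐ p ∂(JJ b θ), Good θ (fld p.1 (Yf p.1 p.2.1 p.2.2) (τ p.1)) := by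
  have := isProb_mu (b := b) h0 h1
  have hJ : IsProbabilityMeasure (JJ b θ) := by unfold JJ; infer_instance
  have hA : ∀ᵐ p ∂(JJ b θ), ∀ u i, ∃ t, Tendsto (fun N => Real.tanh
        (lm θ N (fld p.1 (Yf p.1 p.2.1 p.2.2) (τ p.1)) u i)) atTop (𝓝 t) := by
    rw [ae_all_iff]
    intro u
    rw [ae_all_iff]
    intro i
    have hmono : Monotone (fun N => Sub N u i) := fun N N' h => Sub_mono h u i
    have e1 := tendsto_ae_condExp (μ := JJ b θ)
      (ℱ := filP hτ (fun N => Sub N u i) hmono) (fun p => sg (p.2.1 u))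
    have e2 : ∀ᵐ p ∂(JJ b θ), ∀ N,
        Real.tanh (lm θ N (fld p.1 (Yf p.1 p.2.1 p.2.2) (τ p.1)) u i) =
        ((JJ b θ)[fun p => sg (p.2.1 u) | filP hτ (fun N => Sub N u i) hmono N]) p := by
      rw [ae_all_iff]
      intro N
      exact condExpP h0 h1 hτ (fun N => Sub N u i) hmono u
        (X := fun N h => Real.tanh (lm θ N h u i))
        (fun N => ⟨measurable_tanh.comp (measurable_lm θ N u i), 1,
          fun h => (Real.abs_tanh_lt_one _).le⟩)
        (fun N h h' hh => by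
          show Real.tanh (lm θ N h u i) = Real.tanh (lm θ N h' u i)
          rw [lm_congr (fun v hv => hh v hv)])
        (fun N h => hBP b θ hb h0 h1 N h u i) N
    filter_upwards [e1, e2] with p hp1 hp2
    exact ⟨_, hp1.congr (fun N => (hp2 N).symm)⟩
  filter_upwards [hA] with p hp1
  exact fun u i => exists_tendsto_lm_of_tanh h0 h1 (hp1 u i)

lemma exists_mem_BlP (v w : V b) : ∃ N, w ∈ Bl N v := ⟨dst v w, mem_Bl.2 le_rfl⟩

lemma pastMeasP {τ : (ℕ × V b → UI) → ℝ}
    (F : (ℕ × V b → UI) → (ℕ × V b → UI) → ℝ)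
    (hF : Measurable (fun p : (ℕ × V b → UI) × (ℕ × V b → UI) => F p.1 p.2))
    (hp : PastY τ F) (v : V b)
    {Ω : Type*} (m : MeasurableSpace Ω) (f : Ω → (ℕ × V b → UI) × ((V b → Bool) × (ℕ × V b → UI)))
    (h3 : ∀ N, Measurable (fun ω => GPm (b := b) τ (Bl N v) (f ω))) :
    Measurable (fun ω => F (f ω).1 (Yf (f ω).1 (f ω).2.1 (f ω).2.2)) := by
  have h2 : (fun ω => F (f ω).1 (Yf (f ω).1 (f ω).2.1 (f ω).2.2)) =
      fun ω => F (f ω).1 (fun β => if tm (f ω).1 β < τ (f ω).1 then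
        Yf (f ω).1 (f ω).2.1 (f ω).2.2 β else 0) := by
    funext ω
    apply hp
    intro β hβ
    rw [if_pos hβ]
  rw [h2]
  have h4 : Measurable (fun ω => (f ω).1) :=
    (measurable_fst.comp (h3 0) : Measurable (fun ω => (GPm (b := b) τ (Bl 0 v) (f ω)).1))
  have h5 : Measurable (fun ω => (fun β => if tm (f ω).1 β < τ (f ω).1 then
        Yf (f ω).1 (f ω).2.1 (f ω).2.2 β else 0)) := by
    apply measurable_pi_lambda
    intro β
    obtain ⟨N, hN⟩ := exists_mem_BlP v β.2
    have h6 : (fun ω => (if tm (f ω).1 β < τ (f ω).1 then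
        Yf (f ω).1 (f ω).2.1 (f ω).2.2 β else 0)) =
        (fun q : (ℕ × V b → UI) × (ℕ × V b → UI) => q.2 β) ∘
          (fun ω => GPm (b := b) τ (Bl N v) (f ω)) := by
      funext ω
      show _ = cutP τ (Bl N v) (f ω).1 _ β
      unfold cutP
      by_cases h7 : tm (f ω).1 β < τ (f ω).1
      · rw [if_pos h7, if_pos ⟨h7, hN⟩]
      · rw [if_neg h7, if_neg (fun h => h7 h.1)]
    rw [h6]
    exact ((measurable_pi_apply β).comp measurable_snd).comp (h3 N)
  exact hF.comp (h4.prodMk h5)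

lemma pastP (hBPs : Spec.BPsub) (hBP : Spec.BPball) (hb : 1 ≤ b) {θ : ℝ} (h0 : 0 ≤ θ) (h1 : θ < 1)
    {τ : (ℕ × V b → UI) → ℝ} (hτ : Measurable τ)
    (F : (ℕ × V b → UI) → (ℕ × V b → UI) → ℝ)
    (hF : Measurable (fun p : (ℕ × V b → UI) × (ℕ × V b → UI) => F p.1 p.2))
    (hFb : ∃ C, ∀ U Y, |F U Y| ≤ C) (hp : PastY τ F) (v : V b) :
      ∫ p, F p.1 (Yf p.1 p.2.1 p.2.2) * sg (p.2.1 v) ∂(JJ b θ) =
      ∫ p, F p.1 (Yf p.1 p.2.1 p.2.2) *
        M θ (fld p.1 (Yf p.1 p.2.1 p.2.2) (τ p.1)) v ∂(JJ b θ) := by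
  have := isProb_mu (b := b) h0 h1
  have hJ : IsProbabilityMeasure (JJ b θ) := by unfold JJ; infer_instance
  have hmono : Monotone (fun N => Bl N v) := fun N N' h => Bl_mono h v
  have e1 := tendsto_ae_condExp (μ := JJ b θ)
      (ℱ := filP hτ (fun N => Bl N v) hmono) (fun p => sg (p.2.1 v))
  have e2 : ∀ᵐ p ∂(JJ b θ), ∀ N,
        Real.tanh (lg θ N (fld p.1 (Yf p.1 p.2.1 p.2.2) (τ p.1)) v) =
        ((JJ b θ)[fun p => sg (p.2.1 v) | filP hτ (fun N => Bl N v) hmono N]) p := by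
    rw [ae_all_iff]
    intro N
    exact condExpP h0 h1 hτ (fun N => Bl N v) hmono v
        (X := fun N h => Real.tanh (lg θ N h v))
        (fun N => ⟨measurable_tanh.comp (measurable_lg θ N v), 1,
          fun h => (Real.abs_tanh_lt_one _).le⟩)
        (fun N h h' hh => by
          show Real.tanh (lg θ N h v) = Real.tanh (lg θ N h' v)
          rw [lg_congr (fun w hw => hh w hw)])
        (fun N h => hBP b θ hb h0 h1 N h v) N
  have Bs : Bm (fun p : (ℕ × V b → UI) × ((V b → Bool) × (ℕ × V b → UI)) => sg (p.2.1 v)) :=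
    ⟨measurable_sg.comp ((measurable_pi_apply v).comp (measurable_fst.comp measurable_snd)), 1,
      fun σ => by rw [abs_sg]⟩
  have BF : Bm (fun p : (ℕ × V b → UI) × ((V b → Bool) × (ℕ × V b → UI)) =>
      F p.1 (Yf p.1 p.2.1 p.2.2)) := by
    obtain ⟨C, hC⟩ := hFb
    exact ⟨hF.comp (measurable_fst.prodMk measurable_YfP), C, fun p => hC _ _⟩
  have hmle : (⨆ N, filP hτ (fun N => Bl N v) hmono N) ≤ (inferInstance :
      MeasurableSpace ((ℕ × V b → UI) × ((V b → Bool) × (ℕ × V b → UI)))) := iSup_le (fun N => (filP hτ (fun N => Bl N v) hmono).le N)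
  have e3 : (JJ b θ)[fun p => sg (p.2.1 v) | ⨆ N, filP hτ (fun N => Bl N v) hmono N] =ᵐ[JJ b θ]
      fun p => M θ (fld p.1 (Yf p.1 p.2.1 p.2.2) (τ p.1)) v := by
    filter_upwards [e1, e2, goodP hBPs hb h0 h1 hτ] with p hp1 hp2 hp3
    have t1 : Tendsto (fun N => Real.tanh (lg θ N (fld p.1 (Yf p.1 p.2.1 p.2.2) (τ p.1)) v)) atTop
        (𝓝 (((JJ b θ)[fun p => sg (p.2.1 v) | ⨆ N, filP hτ (fun N => Bl N v) hmono N]) p)) := hp1.congr (fun N => (hp2 N).symm)
    exact tendsto_nhds_unique t1 (hp3.tendsto_tanh_lg h0 h1 v)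
  have hmeas : StronglyMeasurable[⨆ N, filP hτ (fun N => Bl N v) hmono N] (fun p : (ℕ × V b → UI) × ((V b → Bool) × (ℕ × V b → UI)) =>
      F p.1 (Yf p.1 p.2.1 p.2.2)) := by
    apply Measurable.stronglyMeasurable
    exact pastMeasP F hF hp v _ id (fun N => (comap_measurable (GPm (b := b) τ (Bl N v))).mono
        (le_iSup (fun N => (filP hτ (fun N => Bl N v) hmono : ℕ → MeasurableSpace _) N) N) le_rfl)
  have e4 := condExp_mul_of_stronglyMeasurable_left (μ := JJ b θ) (m := ⨆ N, filP hτ (fun N => Bl N v) hmono N) hmeas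
    ((BF.mul Bs).integrable _) (Bs.integrable _)
  have e5 := integral_condExp (μ := JJ b θ) (m := ⨆ N, filP hτ (fun N => Bl N v) hmono N) hmle
    (f := (fun p : (ℕ × V b → UI) × ((V b → Bool) × (ℕ × V b → UI)) =>
      F p.1 (Yf p.1 p.2.1 p.2.2)) *
      fun p : (ℕ × V b → UI) × ((V b → Bool) × (ℕ × V b → UI)) => sg (p.2.1 v))
  have e6 : ∫ p, F p.1 (Yf p.1 p.2.1 p.2.2) * sg (p.2.1 v) ∂(JJ b θ) =
    ∫ p, ((fun p : (ℕ × V b → UI) × ((V b → Bool) × (ℕ × V b → UI)) =>
      F p.1 (Yf p.1 p.2.1 p.2.2)) *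
      fun p : (ℕ × V b → UI) × ((V b → Bool) × (ℕ × V b → UI)) => sg (p.2.1 v)) p ∂(JJ b θ) := rfl
  rw [e6, ← e5, integral_congr_ae e4]
  apply integral_congr_ae
  filter_upwards [e3] with p hp3
  show F p.1 (Yf p.1 p.2.1 p.2.2) * _ = F p.1 (Yf p.1 p.2.1 p.2.2) * _
  rw [hp3]

end Crest.Agent.Isg

namespace Crest.Agent.IsgPost

open Crest.Agent.Isg

/-- D2 from belief propagation. -/
theorem mainOf (hBPs : Spec.BPsub) (hBP : Spec.BPball) : Spec.Post := by
  intro b θ hb h0 h1 τ hτ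
  refine ⟨goodP hBPs hb h0 h1 hτ, fun F hF hFb hp v => pastP hBPs hBP hb h0 h1 hτ F hF hFb hp v,
    fun N v F hF hFb hp => ?_⟩
  exact annealedP h0 h1 hτ (Bl N v) v (X := fun h => Real.tanh (lg θ N h v))
    ⟨measurable_tanh.comp (measurable_lg θ N v), 1, fun h => (Real.abs_tanh_lt_one _).le⟩
    (fun h h' hh => by
          show Real.tanh (lg θ N h v) = Real.tanh (lg θ N h' v)
          rw [lg_congr (fun w hw => hh w hw)])
    (fun h => hBP b θ hb h0 h1 N h v) hF hFb hp

/-- D2. -/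
theorem main : Spec.Post := mainOf (IsgBP.BPsub IsgMu.muInv) (IsgBP.BPball IsgMu.muInv)

end Crest.Agent.IsgPost
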