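import Crest.Agent.IsgEqvB
import Crest.Agent.IsgReal1

set_option autoImplicit false

/-!
Module PAIRT, second half (SameY) for S0241: if all magnetisations agree at all fixed times then the
observations agree.
-/

open MeasureTheory ProbabilityTheory Filter Topology

namespace Crest.Agent.IsgSameY

open Crest.Agent.Isg

variable {b : ℕ}

lemma M_rt_mul (θ : ℝ) (h : V b → ℝ) (v : V b) :
    M θ (fun w => h (mul v w)) (rt b) = M θ h v := by
  rw [M_mul, mul_rt]

/-- Theorem SameY. -/
theorem main (hT : Spec.PairT) (hO : Spec.OwnTime) : Spec.SameY := by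
  intro b θ hb h0 h1 L hL hTr hAA
  have hb1 : 1 ≤ b := by omega
  -- equality of the magnetisations at all vertices and fixed times
  have hM : ∀ (v : V b) (t : ℝ), 0 < t → LT L t {q | M θ q.1 v ≠ M θ q.2 v} = 0 := by
    intro v t ht
    have hP := (hT b θ hb1 h0 h1).2 L hL hTr t ht
    have h2 := hAA t ht
    have hmeas : Measurable (fun q : (V b → ℝ) × (V b → ℝ) =>
        ENNReal.ofReal ((M θ q.1 (rt b) - M θ q.2 (rt b)) ^ 2)) :=
      ((((measurable_M θ (rt b)).comp measurable_fst).sub
        ((measurable_M θ (rt b)).comp measurable_snd)).pow_const 2).ennreal_ofReal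
    unfold AA at h2
    rw [lintegral_eq_zero_iff hmeas] at h2
    have hmul : Measurable (fun q : (V b → ℝ) × (V b → ℝ) =>
        ((fun w => q.1 (mul v w)), (fun w => q.2 (mul v w)))) := by
      apply Measurable.prodMk
      · exact measurable_pi_lambda _ (fun w => (measurable_pi_apply _).comp measurable_fst)
      · exact measurable_pi_lambda _ (fun w => (measurable_pi_apply _).comp measurable_snd)
    have h3 := hP.inv v
    rw [← h3] at h2
    have h4 := ae_of_ae_map hmul.aemeasurable h2
    rw [measure_eq_zero_iff_ae_notMem]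
    filter_upwards [h4] with q hq
    intro hne
    apply hne
    simp only [Pi.zero_apply, ENNReal.ofReal_eq_zero] at hq
    rw [M_rt_mul, M_rt_mul] at hq
    have h5 : (M θ q.1 v - M θ q.2 v) ^ 2 = 0 := le_antisymm hq (sq_nonneg _)
    have h6 := pow_eq_zero_iff (two_ne_zero) |>.1 h5
    linarith
  -- equality of the posterior means before the observations
  have hpm : ∀ α : ℕ × V b, ∀ᵐ p ∂L, pm θ p.1 p.2.1 α = pm θ p.1 p.2.2 α := by
    intro α
    have hB : MeasurableSet {q : (V b → ℝ) × (V b → ℝ) | M θ q.1 α.2 ≠ M θ q.2 α.2} :=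
      (measurableSet_eq_fun ((measurable_M θ α.2).comp measurable_fst)
        ((measurable_M θ α.2).comp measurable_snd)).compl
    have h2 := (hO b θ hb1 h0 h1 L hL hTr α).2 _ hB (hM α.2)
    rw [measure_eq_zero_iff_ae_notMem] at h2
    filter_upwards [h2] with p hp
    by_contra hne
    exact hp hne
  have hY : ∀ α : ℕ × V b, ∀ᵐ p ∂L, p.2.1 α = p.2.2 α := by
    intro α
    filter_upwards [hpm α, hTr.innov] with p hp hi
    have h2 := congrFun hi α
    unfold TT at h2
    rw [← hp] at h2
    have ha : |str (p.1 α) * pm θ p.1 p.2.1 α| ≤ 1 / 2 := by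
      rw [abs_mul, abs_of_nonneg (str_nonneg _)]
      have h3 : |pm θ p.1 p.2.1 α| ≤ 1 := (abs_M_lt_one θ _ _).le
      have h4 := str_le_half (p.1 α : ℝ)
      have h5 := str_nonneg (p.1 α : ℝ)
      calc str (p.1 α) * |pm θ p.1 p.2.1 α| ≤ 1 / 2 * 1 :=
            mul_le_mul h4 h3 (abs_nonneg _) (by norm_num)
        _ = 1 / 2 := by norm_num
    exact (IsgReal1.Fc_strictMono ha).injective h2
  rw [← ae_all_iff] at hY
  filter_upwards [hY] with p hp
  exact funext hp

end Crest.Agent.IsgSameY
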