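import Crest.Agent.IsgGood
import Crest.Agent.IsgDecay

set_option autoImplicit false

/-!
Module SMALL for S0241: the messages at small times are small with overwhelming probability.
-/

open MeasureTheory ProbabilityTheory Filter Topology

namespace Crest.Agent.IsgSmall

open Crest.Agent.Isg Crest.Agent.IsgDecay

variable {b : ℕ}

/-! ### Pointwise inequality -/

lemma exists_delta (n : ℕ) {η : ℝ} (hη : 0 < η) : ∃ δ : ℝ, 0 < δ ∧ (1 + δ) ^ n ≤ 1 + η := by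
  have hc : Continuous (fun δ : ℝ => (1 + δ) ^ n) := by fun_prop
  have h1 : Tendsto (fun δ : ℝ => (1 + δ) ^ n) (𝓝 0) (𝓝 1) := by
    have := hc.tendsto 0
    simpa using this
  have h2 : ∀ᶠ δ in 𝓝 (0 : ℝ), (1 + δ) ^ n < 1 + η := h1.eventually (gt_mem_nhds (by linarith))
  have h3 : ∀ᶠ δ in 𝓝[>] (0 : ℝ), (1 + δ) ^ n < 1 + η := h2.filter_mono nhdsWithin_le_nhds
  have h4 : ∀ᶠ δ in 𝓝[>] (0 : ℝ), 0 < δ := self_mem_nhdsWithin
  obtain ⟨δ, h5, h6⟩ := (h3.and h4).exists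
  exact ⟨δ, h6, h5.le⟩

lemma pow_even_abs (x : ℝ) (n : ℕ) : x ^ (2 * n) = |x| ^ (2 * n) := by
  rw [pow_mul, pow_mul, sq_abs]

lemma pow_ineq (q : ℕ) {η : ℝ} (hη : 0 < η) : ∃ C : ℝ, 0 ≤ C ∧ ∀ x y : ℝ,
    (x + y) ^ (2 * (q + 1)) ≤ (1 + η) * (x ^ (2 * (q + 1)) + y ^ (2 * (q + 1))) +
      C * (x ^ (2 * q) * y ^ 2 + x ^ 2 * y ^ (2 * q)) := by
  obtain ⟨δ, hδ, hδ2⟩ := exists_delta (2 * (q + 1)) hη
  refine ⟨2 ^ (2 * (q + 1)) / δ ^ 2, by positivity, ?_⟩
  have key : ∀ x y : ℝ, |y| ≤ |x| →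
      (x + y) ^ (2 * (q + 1)) ≤ (1 + η) * (x ^ (2 * (q + 1)) + y ^ (2 * (q + 1))) +
      2 ^ (2 * (q + 1)) / δ ^ 2 * (x ^ (2 * q) * y ^ 2 + x ^ 2 * y ^ (2 * q)) := by
    intro x y hxy
    have n1 : 0 ≤ x ^ (2 * (q + 1)) := (even_two_mul _).pow_nonneg x
    have n2 : 0 ≤ y ^ (2 * (q + 1)) := (even_two_mul _).pow_nonneg y
    have n3 : 0 ≤ x ^ (2 * q) := (even_two_mul _).pow_nonneg x
    have n4 : 0 ≤ y ^ (2 * q) := (even_two_mul _).pow_nonneg y
    have n5 : 0 ≤ x ^ 2 * y ^ (2 * q) := by positivity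
    have n6 : 0 ≤ x ^ (2 * q) * y ^ 2 := by positivity
    have n7 : (0 : ℝ) ≤ 2 ^ (2 * (q + 1)) / δ ^ 2 := by positivity
    by_cases h : |y| ≤ δ * |x|
    · have h1 : |x + y| ≤ (1 + δ) * |x| := (abs_add_le x y).trans (by linarith)
      have h2 : (x + y) ^ (2 * (q + 1)) ≤ (1 + δ) ^ (2 * (q + 1)) * x ^ (2 * (q + 1)) := by
        rw [pow_even_abs (x + y), pow_even_abs x (q + 1), ← mul_pow]
        exact pow_le_pow_left₀ (abs_nonneg _) h1 _
      have h3 : (1 + δ) ^ (2 * (q + 1)) * x ^ (2 * (q + 1)) ≤ (1 + η) * x ^ (2 * (q + 1)) :=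
        mul_le_mul_of_nonneg_right hδ2 n1
      have h4 : 0 ≤ (1 + η) * y ^ (2 * (q + 1)) := by positivity
      have h5 : 0 ≤ 2 ^ (2 * (q + 1)) / δ ^ 2 * (x ^ (2 * q) * y ^ 2 + x ^ 2 * y ^ (2 * q)) := by
        positivity
      linarith
    · have h' : δ * |x| < |y| := not_le.1 h
      have h1 : |x + y| ≤ 2 * |x| := (abs_add_le x y).trans (by linarith)
      have h2 : (x + y) ^ (2 * (q + 1)) ≤ 2 ^ (2 * (q + 1)) * x ^ (2 * (q + 1)) := by
        rw [pow_even_abs (x + y), pow_even_abs x (q + 1), ← mul_pow]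
        exact pow_le_pow_left₀ (abs_nonneg _) h1 _
      have h3 : δ ^ 2 * x ^ 2 ≤ y ^ 2 := by
        rw [← sq_abs x, ← sq_abs y, ← mul_pow]
        exact pow_le_pow_left₀ (by positivity) h'.le 2
      have h4 : x ^ (2 * (q + 1)) ≤ (x ^ (2 * q) * y ^ 2) / δ ^ 2 := by
        rw [le_div_iff₀ (by positivity)]
        have : x ^ (2 * (q + 1)) = x ^ (2 * q) * x ^ 2 := by rw [← pow_add]; congr 1
        rw [this]
        nlinarith
      have h5 : 2 ^ (2 * (q + 1)) * x ^ (2 * (q + 1)) ≤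
          2 ^ (2 * (q + 1)) / δ ^ 2 * (x ^ (2 * q) * y ^ 2) := by
        calc 2 ^ (2 * (q + 1)) * x ^ (2 * (q + 1))
            ≤ 2 ^ (2 * (q + 1)) * ((x ^ (2 * q) * y ^ 2) / δ ^ 2) := by gcongr
          _ = _ := by ring
      have h6 : 0 ≤ (1 + η) * (x ^ (2 * (q + 1)) + y ^ (2 * (q + 1))) := by positivity
      have h7 : 0 ≤ 2 ^ (2 * (q + 1)) / δ ^ 2 * (x ^ 2 * y ^ (2 * q)) := by positivity
      linarith
  intro x y
  rcases le_total |y| |x| with h | h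
  · exact key x y h
  · have := key y x h
    rw [add_comm x y]
    calc (y + x) ^ (2 * (q + 1)) ≤ _ := this
      _ = _ := by ring

/-! ### Bounds -/

variable {θ : ℝ} {ρ : Measure ℝ} {H : ℝ}

lemma ae_z (h0 : 0 ≤ θ) (h1 : θ < 1) (hρ : Chan ρ H) :
    ∀ᵐ p ∂(GM b θ ρ), ∀ v, |p.2 v| ≤ H := by
  have := hρ.prob
  have := isProb_xiLaw (b := b) h0 h1
  unfold GM
  exact Measure.quasiMeasurePreserving_snd.ae (ae_abs_le (b := b) hρ)

lemma msg_eq (N : ℕ) (y : V b) (p : (V b → Bool) × (V b → ℝ)) :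
    msg θ N y p = sg (p.1 y) * psi θ (lh θ N p.1 p.2 y) := rfl

lemma abs_msg_le (h0 : 0 ≤ θ) (h1 : θ < 1) (N : ℕ) (y : V b) (p : (V b → Bool) × (V b → ℝ)) :
    |msg θ N y p| ≤ Real.artanh θ := by
  rw [msg_eq, abs_mul, abs_sg, one_mul]
  exact abs_psi_le h0 h1 _

lemma abs_msg_le' (h0 : 0 ≤ θ) (h1 : θ < 1) (N : ℕ) (y : V b) (p : (V b → Bool) × (V b → ℝ)) :
    |msg θ N y p| ≤ θ * |lh θ N p.1 p.2 y| := by
  rw [msg_eq, abs_mul, abs_sg, one_mul]
  exact abs_psi_le_mul h0 h1 _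

lemma abs_aS_le (h0 : 0 ≤ θ) (h1 : θ < 1) (N : ℕ) (x : V b) (T : Finset (Fin (b + 1)))
    (p : (V b → Bool) × (V b → ℝ)) :
    |aS θ N x T p| ≤ |p.2 x| + (b + 1) * Real.artanh θ := by
  have ha := artanh_nonneg_of h0
  unfold aS
  refine (abs_add_le _ _).trans ?_
  gcongr
  calc |∑ j ∈ T, msg θ N (nb j x) p| ≤ ∑ j ∈ T, |msg θ N (nb j x) p| :=
        Finset.abs_sum_le_sum_abs _ _
    _ ≤ ∑ j ∈ T, Real.artanh θ := Finset.sum_le_sum (fun j _ => abs_msg_le h0 h1 _ _ _)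
    _ = T.card * Real.artanh θ := by rw [Finset.sum_const, nsmul_eq_mul]
    _ ≤ (b + 1) * Real.artanh θ := by
        apply mul_le_mul_of_nonneg_right _ ha
        have : T.card ≤ b + 1 := by
          calc T.card ≤ (Finset.univ : Finset (Fin (b + 1))).card := Finset.card_le_univ _
            _ = b + 1 := by simp
        exact_mod_cast this

lemma integrable_pow {Ω : Type*} [MeasurableSpace Ω] {μ : Measure Ω} [IsFiniteMeasure μ]
    {f : Ω → ℝ} (hf : Measurable f) {C : ℝ} (hC : ∀ᵐ p ∂μ, |f p| ≤ C) (n : ℕ) :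
    Integrable (fun p => f p ^ n) μ := by
  refine Integrable.of_bound (hf.pow_const n).aestronglyMeasurable (C ^ n) ?_
  filter_upwards [hC] with p hp
  rw [Real.norm_eq_abs, abs_pow]
  exact pow_le_pow_left₀ (abs_nonneg _) hp n

lemma integrable_aS (h0 : 0 ≤ θ) (h1 : θ < 1) (hρ : Chan ρ H) (N : ℕ) (x : V b)
    (T : Finset (Fin (b + 1))) (n : ℕ) :
    Integrable (fun p => aS θ N x T p ^ n) (GM b θ ρ) := by
  have := hρ.prob
  have := isProb_GM (b := b) h0 h1 ρ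
  refine integrable_pow (measurable_aS θ N x T) (C := H + (b + 1) * Real.artanh θ) ?_ n
  filter_upwards [ae_z (b := b) h0 h1 hρ] with p hp
  exact (abs_aS_le h0 h1 N x T p).trans (by linarith [hp x])

lemma integrable_msg (h0 : 0 ≤ θ) (h1 : θ < 1) (hρ : Chan ρ H) (N : ℕ) (y : V b) (n : ℕ) :
    Integrable (fun p => msg θ N y p ^ n) (GM b θ ρ) := by
  have := hρ.prob
  have := isProb_GM (b := b) h0 h1 ρ
  exact integrable_pow (measurable_msg θ N y) (C := Real.artanh θ)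
    (ae_of_all _ (fun p => abs_msg_le h0 h1 N y p)) n

lemma integrable_lh (h0 : 0 ≤ θ) (h1 : θ < 1) (hρ : Chan ρ H) (N : ℕ) (y : V b) (n : ℕ) :
    Integrable (fun p => lh θ N p.1 p.2 y ^ n) (GM b θ ρ) := by
  have := hρ.prob
  have := isProb_GM (b := b) h0 h1 ρ
  refine integrable_pow (measurable_lh θ N y) (C := H + (b + 1) * Real.artanh θ) ?_ n
  filter_upwards [ae_z (b := b) h0 h1 hρ] with p hp
  exact (abs_lh_le h0 h1 N p.1 p.2 y).trans (by linarith [hp y])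

lemma msg_pow_le (h0 : 0 ≤ θ) (h1 : θ < 1) (hρ : Chan ρ H) (N : ℕ) (y : V b) (r : ℕ) :
    ∫ p, msg θ N y p ^ (2 * r) ∂(GM b θ ρ) ≤
      θ ^ (2 * r) * ∫ p, lh θ N p.1 p.2 y ^ (2 * r) ∂(GM b θ ρ) := by
  rw [← integral_const_mul]
  apply integral_mono (integrable_msg h0 h1 hρ N y _) ((integrable_lh h0 h1 hρ N y _).const_mul _)
  intro p
  show msg θ N y p ^ (2 * r) ≤ θ ^ (2 * r) * lh θ N p.1 p.2 y ^ (2 * r)
  rw [pow_even_abs (msg θ N y p), pow_even_abs (lh θ N p.1 p.2 y), ← mul_pow]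
  exact pow_le_pow_left₀ (abs_nonneg _) (abs_msg_le' h0 h1 N y p) _

/-! ### Moment bounds -/

/-- Uniform bound for the moment of order `2 r`. -/
def Mom (b : ℕ) (θ C₀ : ℝ) (r : ℕ) (A : ℝ) : Prop :=
  ∀ s : ℝ, 0 < s → s ≤ 1 → ∀ ρ : Measure ℝ, Chan ρ (C₀ * Real.sqrt s) → info ρ ≤ C₀ * s ^ 2 →
    ∀ (N : ℕ) (v : V b), v ≠ rt b →
      ∫ p, lh θ N p.1 p.2 v ^ (2 * r) ∂(GM b θ ρ) ≤ A * s ^ r

lemma nb_ne_rt {v : V b} {j : Fin (b + 1)} (hj : j ∈ ch v) : nb j v ≠ rt b := by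
  intro h
  have := len_nb_ch hj
  rw [h] at this
  simp at this

lemma mom_msg {C₀ : ℝ} {r : ℕ} {A : ℝ} (hA : Mom b θ C₀ r A) (h0 : 0 ≤ θ) (h1 : θ < 1)
    {s : ℝ} (hs0 : 0 < s) (hs1 : s ≤ 1) (hρ : Chan ρ (C₀ * Real.sqrt s))
    (hi : info ρ ≤ C₀ * s ^ 2) (N : ℕ) {v : V b} {j : Fin (b + 1)} (hj : j ∈ ch v) :
    ∫ p, msg θ N (nb j v) p ^ (2 * r) ∂(GM b θ ρ) ≤ A * s ^ r := by
  refine (msg_pow_le h0 h1 hρ N (nb j v) r).trans ?_
  have h2 := hA s hs0 hs1 ρ hρ hi N (nb j v) (nb_ne_rt hj)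
  have h3 : 0 ≤ ∫ p, lh θ N p.1 p.2 (nb j v) ^ (2 * r) ∂(GM b θ ρ) :=
    integral_nonneg (fun p => (even_two_mul _).pow_nonneg _)
  have h4 : θ ^ (2 * r) ≤ 1 := pow_le_one₀ h0 h1.le
  nlinarith

lemma z_pow_le {C₀ : ℝ} (h0 : 0 ≤ θ) (h1 : θ < 1)
    {s : ℝ} (hs0 : 0 < s) (hρ : Chan ρ (C₀ * Real.sqrt s)) (v : V b) (r : ℕ) :
    ∫ p, (p.2 v) ^ (2 * r) ∂(GM b θ ρ) ≤ C₀ ^ (2 * r) * s ^ r := by
  have := hρ.prob
  have := isProb_GM (b := b) h0 h1 ρ
  have hm : Measurable (fun p : (V b → Bool) × (V b → ℝ) => p.2 v) :=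
    (measurable_pi_apply v).comp measurable_snd
  have hb : ∀ᵐ p ∂(GM b θ ρ), |p.2 v| ≤ C₀ * Real.sqrt s := by
    filter_upwards [ae_z (b := b) h0 h1 hρ] with p hp
    exact hp v
  have h3 : (C₀ * Real.sqrt s) ^ (2 * r) = C₀ ^ (2 * r) * s ^ r := by
    rw [mul_pow, pow_mul (Real.sqrt s), Real.sq_sqrt hs0.le]
  calc ∫ p, (p.2 v) ^ (2 * r) ∂(GM b θ ρ) ≤ ∫ _, (C₀ * Real.sqrt s) ^ (2 * r) ∂(GM b θ ρ) := by
        apply integral_mono_ae (integrable_pow hm hb _) (integrable_const _)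
        filter_upwards [hb] with p hp
        rw [pow_even_abs]
        exact pow_le_pow_left₀ (abs_nonneg _) hp _
    _ = C₀ ^ (2 * r) * s ^ r := by rw [integral_const, probReal_univ, one_smul, h3]

lemma aS_insert (N : ℕ) (x : V b) {T : Finset (Fin (b + 1))} {j : Fin (b + 1)} (hj : j ∉ T)
    (p : (V b → Bool) × (V b → ℝ)) :
    aS θ N x (insert j T) p = aS θ N x T p + msg θ N (nb j x) p := by
  unfold aS
  rw [Finset.sum_insert hj]
  ring

/-- Crude bound for the partial sums. -/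
lemma mom_aS {C₀ : ℝ} (hC₀ : 0 ≤ C₀) (h0 : 0 ≤ θ) (h1 : θ < 1) {r : ℕ} {A : ℝ} (hA0 : 0 ≤ A)
    (hA : Mom b θ C₀ r A) (m : ℕ) : ∃ D : ℝ, 0 ≤ D ∧ ∀ s : ℝ, 0 < s → s ≤ 1 →
      ∀ ρ : Measure ℝ, Chan ρ (C₀ * Real.sqrt s) → info ρ ≤ C₀ * s ^ 2 →
      ∀ (N : ℕ) (v : V b) (T : Finset (Fin (b + 1))), T ⊆ ch v → T.card ≤ m →
        ∫ p, aS θ N v T p ^ (2 * r) ∂(GM b θ ρ) ≤ D * s ^ r := by
  induction m with
  | zero =>
    refine ⟨C₀ ^ (2 * r), by positivity, ?_⟩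
    intro s hs0 hs1 ρ hρ hi N v T _ hc
    have hT : T = ∅ := Finset.card_eq_zero.1 (by omega)
    subst hT
    have h2 : ∀ p : (V b → Bool) × (V b → ℝ), aS θ N v ∅ p = p.2 v := by
      intro p; simp [aS]
    simp only [h2]
    exact z_pow_le h0 h1 hs0 hρ v r
  | succ m ih =>
    obtain ⟨D, hD0, hD⟩ := ih
    refine ⟨2 ^ (2 * r - 1) * (D + A) + D, by positivity, ?_⟩
    intro s hs0 hs1 ρ hρ hi N v T hT hc
    have hsr : 0 < s ^ r := by positivity
    by_cases hc' : T.card ≤ m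
    · refine (hD s hs0 hs1 ρ hρ hi N v T hT hc').trans ?_
      have : 0 ≤ 2 ^ (2 * r - 1) * (D + A) := by positivity
      nlinarith
    · have hne : T.Nonempty := by
        rw [← Finset.card_pos]; omega
      obtain ⟨j, hj⟩ := hne
      have hTe : insert j (T.erase j) = T := Finset.insert_erase hj
      have hjn : j ∉ T.erase j := Finset.notMem_erase j T
      have hjc : j ∈ ch v := hT hj
      have hcard : (T.erase j).card ≤ m := by
        rw [Finset.card_erase_of_mem hj]; omega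
      rw [← hTe]
      simp only [aS_insert N v hjn]
      have e1 := hD s hs0 hs1 ρ hρ hi N v (T.erase j) ((Finset.erase_subset j T).trans hT) hcard
      have e2 := mom_msg hA h0 h1 hs0 hs1 hρ hi N hjc
      have i1 := integrable_aS (b := b) h0 h1 hρ N v (T.erase j) (2 * r)
      have i2 := integrable_msg (b := b) h0 h1 hρ N (nb j v) (2 * r)
      calc ∫ p, (aS θ N v (T.erase j) p + msg θ N (nb j v) p) ^ (2 * r) ∂(GM b θ ρ)
          ≤ ∫ p, 2 ^ (2 * r - 1) * (aS θ N v (T.erase j) p ^ (2 * r) +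
              msg θ N (nb j v) p ^ (2 * r)) ∂(GM b θ ρ) := by
            apply integral_mono_of_nonneg
            · exact ae_of_all _ (fun p => (even_two_mul _).pow_nonneg _)
            · exact (i1.add i2).const_mul _
            · exact ae_of_all _ (fun p => (even_two_mul r).add_pow_le)
        _ = 2 ^ (2 * r - 1) * (∫ p, aS θ N v (T.erase j) p ^ (2 * r) ∂(GM b θ ρ) +
              ∫ p, msg θ N (nb j v) p ^ (2 * r) ∂(GM b θ ρ)) := by
            rw [integral_const_mul, integral_add i1 i2]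
        _ ≤ 2 ^ (2 * r - 1) * (D * s ^ r + A * s ^ r) := by gcongr
        _ ≤ _ := by nlinarith

/-- Refined bound for the partial sums. -/
lemma mom_aS' {C₀ : ℝ} (hC₀ : 0 ≤ C₀) (h0 : 0 ≤ θ) (h1 : θ < 1) {q : ℕ} {A1 Aq : ℝ}
    (hA10 : 0 ≤ A1) (hAq0 : 0 ≤ Aq) (hA1 : Mom b θ C₀ 1 A1) (hAq : Mom b θ C₀ q Aq)
    {η : ℝ} (hη : 0 < η) (m : ℕ) : ∃ K : ℝ, 0 ≤ K ∧ ∀ s : ℝ, 0 < s → s ≤ 1 →
      ∀ ρ : Measure ℝ, Chan ρ (C₀ * Real.sqrt s) → info ρ ≤ C₀ * s ^ 2 →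
      ∀ (N : ℕ) (v : V b) (T : Finset (Fin (b + 1))), T ⊆ ch v → T.card ≤ m →
        ∫ p, aS θ N v T p ^ (2 * (q + 1)) ∂(GM b θ ρ) ≤
          (1 + η) ^ m * ∑ j ∈ T, ∫ p, msg θ N (nb j v) p ^ (2 * (q + 1)) ∂(GM b θ ρ) +
            K * s ^ (q + 1) := by
  obtain ⟨C, hC0, hC⟩ := pow_ineq q hη
  obtain ⟨D1, hD10, hD1⟩ := mom_aS hC₀ h0 h1 hA10 hA1 (b + 1)
  obtain ⟨Dq, hDq0, hDq⟩ := mom_aS hC₀ h0 h1 hAq0 hAq (b + 1)
  induction m with
  | zero =>
    refine ⟨C₀ ^ (2 * (q + 1)), by positivity, ?_⟩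
    intro s hs0 hs1 ρ hρ hi N v T _ hc
    have hT : T = ∅ := Finset.card_eq_zero.1 (by omega)
    subst hT
    have h2 : ∀ p : (V b → Bool) × (V b → ℝ), aS θ N v ∅ p = p.2 v := by
      intro p; simp [aS]
    simp only [h2, Finset.sum_empty, mul_zero, zero_add]
    exact z_pow_le h0 h1 hs0 hρ v (q + 1)
  | succ m ih =>
    obtain ⟨K, hK0, hK⟩ := ih
    refine ⟨(1 + η) * K + C * (Dq * A1 + D1 * Aq), by positivity, ?_⟩
    intro s hs0 hs1 ρ hρ hi N v T hT hc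
    have hsr : 0 < s ^ (q + 1) := by positivity
    have hnn : ∀ j, 0 ≤ ∫ p, msg θ N (nb j v) p ^ (2 * (q + 1)) ∂(GM b θ ρ) := fun j =>
      integral_nonneg (fun p => (even_two_mul _).pow_nonneg _)
    have hη1 : 1 ≤ (1 + η) ^ m := one_le_pow₀ (by linarith)
    by_cases hc' : T.card ≤ m
    · refine (hK s hs0 hs1 ρ hρ hi N v T hT hc').trans ?_
      have h3 : 0 ≤ ∑ j ∈ T, ∫ p, msg θ N (nb j v) p ^ (2 * (q + 1)) ∂(GM b θ ρ) :=
        Finset.sum_nonneg (fun j _ => hnn j)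
      have h4 : (1 + η) ^ m ≤ (1 + η) ^ (m + 1) := pow_le_pow_right₀ (by linarith) (by omega)
      have h5 : 0 ≤ C * (Dq * A1 + D1 * Aq) := by positivity
      have h6 : K ≤ (1 + η) * K + C * (Dq * A1 + D1 * Aq) := by nlinarith
      have h7 := mul_le_mul_of_nonneg_right h4 h3
      have h8 := mul_le_mul_of_nonneg_right h6 hsr.le
      linarith
    · have hne : T.Nonempty := by
        rw [← Finset.card_pos]; omega
      obtain ⟨j, hj⟩ := hne
      have hTe : insert j (T.erase j) = T := Finset.insert_erase hj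
      have hjn : j ∉ T.erase j := Finset.notMem_erase j T
      have hjc : j ∈ ch v := hT hj
      have hT' : T.erase j ⊆ ch v := (Finset.erase_subset j T).trans hT
      have hcard : (T.erase j).card ≤ m := by
        rw [Finset.card_erase_of_mem hj]; omega
      have hcard' : (T.erase j).card ≤ b + 1 := by
        calc (T.erase j).card ≤ (Finset.univ : Finset (Fin (b + 1))).card :=
              Finset.card_le_univ _
          _ = b + 1 := by simp
      have hp := hρ.prob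
      have hGM := isProb_GM (b := b) h0 h1 ρ
      have e1 := hK s hs0 hs1 ρ hρ hi N v (T.erase j) hT' hcard
      have e2 := hD1 s hs0 hs1 ρ hρ hi N v (T.erase j) hT' hcard'
      have e3 := hDq s hs0 hs1 ρ hρ hi N v (T.erase j) hT' hcard'
      have e4 := mom_msg hA1 h0 h1 hs0 hs1 hρ hi N hjc
      have e5 := mom_msg hAq h0 h1 hs0 hs1 hρ hi N hjc
      have hind : IndepFun (aS θ N v (T.erase j)) (msg θ N (nb j v)) (GM b θ ρ) :=
        GM_indepFun h0 h1 ρ (disj_aS hT' hjc hjn) (measurable_aS θ N v _)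
          (measurable_msg θ N _) (aS_dep θ N v _) (msg_dep θ N _)
      have f1 : ∀ k l : ℕ, ∫ p, aS θ N v (T.erase j) p ^ k * msg θ N (nb j v) p ^ l
          ∂(GM b θ ρ) = (∫ p, aS θ N v (T.erase j) p ^ k ∂(GM b θ ρ)) *
            ∫ p, msg θ N (nb j v) p ^ l ∂(GM b θ ρ) := by
        intro k l
        exact hind.integral_fun_comp_mul_comp (f := fun x => x ^ k) (g := fun x => x ^ l)
          (measurable_aS θ N v _).aemeasurable (measurable_msg θ N _).aemeasurable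
          (measurable_id.pow_const k).aestronglyMeasurable
          (measurable_id.pow_const l).aestronglyMeasurable
      have ia : ∀ k, Integrable (fun p => aS θ N v (T.erase j) p ^ k) (GM b θ ρ) :=
        fun k => integrable_aS (b := b) h0 h1 hρ N v (T.erase j) k
      have im : ∀ k, Integrable (fun p => msg θ N (nb j v) p ^ k) (GM b θ ρ) :=
        fun k => integrable_msg (b := b) h0 h1 hρ N (nb j v) k
      have iam : ∀ k l, Integrable (fun p => aS θ N v (T.erase j) p ^ k *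
          msg θ N (nb j v) p ^ l) (GM b θ ρ) := by
        intro k l
        have h3 : IndepFun (fun p => aS θ N v (T.erase j) p ^ k)
            (fun p => msg θ N (nb j v) p ^ l) (GM b θ ρ) :=
          hind.comp (φ := fun x => x ^ k) (ψ := fun x => x ^ l)
            (measurable_id.pow_const k) (measurable_id.pow_const l)
        exact h3.integrable_mul (ia k) (im l)
      have main : ∫ p, aS θ N v T p ^ (2 * (q + 1)) ∂(GM b θ ρ) ≤
          (1 + η) * (∫ p, aS θ N v (T.erase j) p ^ (2 * (q + 1)) ∂(GM b θ ρ) +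
            ∫ p, msg θ N (nb j v) p ^ (2 * (q + 1)) ∂(GM b θ ρ)) +
          C * ((∫ p, aS θ N v (T.erase j) p ^ (2 * q) ∂(GM b θ ρ)) *
              (∫ p, msg θ N (nb j v) p ^ 2 ∂(GM b θ ρ)) +
            (∫ p, aS θ N v (T.erase j) p ^ 2 ∂(GM b θ ρ)) *
              ∫ p, msg θ N (nb j v) p ^ (2 * q) ∂(GM b θ ρ)) := by
        have iJ1 : Integrable (fun p => (1 + η) * (aS θ N v (T.erase j) p ^ (2 * (q + 1)) +
            msg θ N (nb j v) p ^ (2 * (q + 1)))) (GM b θ ρ) :=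
          ((ia (2 * (q + 1))).add (im (2 * (q + 1)))).const_mul _
        have iJ2 : Integrable (fun p => C * (aS θ N v (T.erase j) p ^ (2 * q) *
            msg θ N (nb j v) p ^ 2 + aS θ N v (T.erase j) p ^ 2 *
            msg θ N (nb j v) p ^ (2 * q))) (GM b θ ρ) :=
          ((iam (2 * q) 2).add (iam 2 (2 * q))).const_mul _
        have eJ1 : ∫ p, (1 + η) * (aS θ N v (T.erase j) p ^ (2 * (q + 1)) +
            msg θ N (nb j v) p ^ (2 * (q + 1))) ∂(GM b θ ρ) =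
            (1 + η) * (∫ p, aS θ N v (T.erase j) p ^ (2 * (q + 1)) ∂(GM b θ ρ) +
            ∫ p, msg θ N (nb j v) p ^ (2 * (q + 1)) ∂(GM b θ ρ)) := by
          rw [integral_const_mul, integral_add (ia _) (im _)]
        have eJ2 : ∫ p, C * (aS θ N v (T.erase j) p ^ (2 * q) *
            msg θ N (nb j v) p ^ 2 + aS θ N v (T.erase j) p ^ 2 *
            msg θ N (nb j v) p ^ (2 * q)) ∂(GM b θ ρ) =
            C * ((∫ p, aS θ N v (T.erase j) p ^ (2 * q) ∂(GM b θ ρ)) *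
              (∫ p, msg θ N (nb j v) p ^ 2 ∂(GM b θ ρ)) +
            (∫ p, aS θ N v (T.erase j) p ^ 2 ∂(GM b θ ρ)) *
              ∫ p, msg θ N (nb j v) p ^ (2 * q) ∂(GM b θ ρ)) := by
          rw [integral_const_mul, integral_add (iam _ _) (iam _ _), f1, f1]
        rw [← eJ1, ← eJ2, ← integral_add iJ1 iJ2]
        apply integral_mono (integrable_aS (b := b) h0 h1 hρ N v T _) (iJ1.add iJ2)
        intro p
        have hins : aS θ N v T p = aS θ N v (T.erase j) p + msg θ N (nb j v) p := by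
          rw [← aS_insert N v hjn, hTe]
        show aS θ N v T p ^ (2 * (q + 1)) ≤ _
        rw [hins]
        exact hC _ _
      have hsum : ∑ i ∈ T, ∫ p, msg θ N (nb i v) p ^ (2 * (q + 1)) ∂(GM b θ ρ) =
          ∫ p, msg θ N (nb j v) p ^ (2 * (q + 1)) ∂(GM b θ ρ) +
          ∑ i ∈ T.erase j, ∫ p, msg θ N (nb i v) p ^ (2 * (q + 1)) ∂(GM b θ ρ) :=
        (Finset.add_sum_erase T _ hj).symm
      have e2' : ∫ p, aS θ N v (T.erase j) p ^ 2 ∂(GM b θ ρ) ≤ D1 * s := by simpa using e2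
      have e4' : ∫ p, msg θ N (nb j v) p ^ 2 ∂(GM b θ ρ) ≤ A1 * s := by simpa using e4
      have g1 : (∫ p, aS θ N v (T.erase j) p ^ (2 * q) ∂(GM b θ ρ)) *
          (∫ p, msg θ N (nb j v) p ^ 2 ∂(GM b θ ρ)) ≤ (Dq * s ^ q) * (A1 * s) := by
        apply mul_le_mul e3 e4' (integral_nonneg (fun p => sq_nonneg _)) (by positivity)
      have g2 : (∫ p, aS θ N v (T.erase j) p ^ 2 ∂(GM b θ ρ)) *
          (∫ p, msg θ N (nb j v) p ^ (2 * q) ∂(GM b θ ρ)) ≤ (D1 * s) * (Aq * s ^ q) := by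
        apply mul_le_mul e2' e5 (integral_nonneg (fun p => (even_two_mul _).pow_nonneg _))
          (by positivity)
      have hmj := hnn j
      have g3 : (1 + η) * (∫ p, aS θ N v (T.erase j) p ^ (2 * (q + 1)) ∂(GM b θ ρ) +
            ∫ p, msg θ N (nb j v) p ^ (2 * (q + 1)) ∂(GM b θ ρ)) ≤
          (1 + η) * (((1 + η) ^ m * ∑ i ∈ T.erase j,
            ∫ p, msg θ N (nb i v) p ^ (2 * (q + 1)) ∂(GM b θ ρ) + K * s ^ (q + 1)) +
            (1 + η) ^ m * ∫ p, msg θ N (nb j v) p ^ (2 * (q + 1)) ∂(GM b θ ρ)) := by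
        apply mul_le_mul_of_nonneg_left _ (by linarith)
        have : ∫ p, msg θ N (nb j v) p ^ (2 * (q + 1)) ∂(GM b θ ρ) ≤
            (1 + η) ^ m * ∫ p, msg θ N (nb j v) p ^ (2 * (q + 1)) ∂(GM b θ ρ) :=
          le_mul_of_one_le_left hmj hη1
        linarith
      have g4 : C * ((∫ p, aS θ N v (T.erase j) p ^ (2 * q) ∂(GM b θ ρ)) *
              (∫ p, msg θ N (nb j v) p ^ 2 ∂(GM b θ ρ)) +
            (∫ p, aS θ N v (T.erase j) p ^ 2 ∂(GM b θ ρ)) *
              ∫ p, msg θ N (nb j v) p ^ (2 * q) ∂(GM b θ ρ)) ≤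
          C * ((Dq * s ^ q) * (A1 * s) + (D1 * s) * (Aq * s ^ q)) :=
        mul_le_mul_of_nonneg_left (add_le_add g1 g2) hC0
      refine main.trans ((add_le_add g3 g4).trans (le_of_eq ?_))
      rw [hsum]
      ring

/-- Induction step for the moments. -/
lemma mom_succ (hb : 2 ≤ b) (h0 : 0 < θ) (hc : (b : ℝ) * θ ^ 2 = 1) {C₀ : ℝ} (hC₀ : 0 ≤ C₀)
    {q : ℕ} (hq : 1 ≤ q) {A1 Aq : ℝ} (hA10 : 0 ≤ A1) (hAq0 : 0 ≤ Aq)
    (hA1 : Mom b θ C₀ 1 A1) (hAq : Mom b θ C₀ q Aq) :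
    ∃ A : ℝ, 0 ≤ A ∧ Mom b θ C₀ (q + 1) A := by
  have hb2 : (2 : ℝ) ≤ b := by exact_mod_cast hb
  have h1 : θ < 1 := by
    by_contra h
    have : 1 ≤ θ := not_lt.1 h
    nlinarith
  obtain ⟨η, hη, hη2⟩ := exists_delta b (η := 1 / 2) (by norm_num)
  obtain ⟨K, hK0, hK⟩ := mom_aS' hC₀ h0.le h1 hA10 hAq0 hA1 hAq hη b
  refine ⟨4 * K, by positivity, ?_⟩
  intro s hs0 hs1 ρ hρ hi N
  have hsr : 0 < s ^ (q + 1) := by positivity
  have hbθ : (b : ℝ) * θ ^ (2 * (q + 1)) ≤ 1 / 2 := by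
    have h2 : θ ^ 2 ≤ 1 / 2 := by nlinarith [sq_nonneg θ]
    have h3 : (b : ℝ) * θ ^ (2 * (q + 1)) = θ ^ (2 * q) := by
      calc (b : ℝ) * θ ^ (2 * (q + 1)) = (b * θ ^ 2) * θ ^ (2 * q) := by ring
        _ = θ ^ (2 * q) := by rw [hc, one_mul]
    rw [h3, pow_mul]
    calc (θ ^ 2) ^ q ≤ (θ ^ 2) ^ 1 :=
          pow_le_pow_of_le_one (sq_nonneg θ) (by linarith) hq
      _ ≤ 1 / 2 := by rw [pow_one]; exact h2
  induction N with
  | zero =>
    intro v _
    simp only [lh_zero]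
    rw [zero_pow (by omega)]
    simp only [integral_zero]
    positivity
  | succ N ih =>
    intro v hv
    have e := hK s hs0 hs1 ρ hρ hi N v (ch v) (le_refl _) (by rw [card_ch hv])
    have h3 : ∀ p : (V b → Bool) × (V b → ℝ), lh θ (N + 1) p.1 p.2 v = aS θ N v (ch v) p :=
      fun p => rfl
    simp only [h3]
    refine e.trans ?_
    have h4 : ∑ j ∈ ch v, ∫ p, msg θ N (nb j v) p ^ (2 * (q + 1)) ∂(GM b θ ρ) ≤
        b * (θ ^ (2 * (q + 1)) * (4 * K * s ^ (q + 1))) := by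
      calc ∑ j ∈ ch v, ∫ p, msg θ N (nb j v) p ^ (2 * (q + 1)) ∂(GM b θ ρ)
          ≤ ∑ j ∈ ch v, (θ ^ (2 * (q + 1)) * (4 * K * s ^ (q + 1))) := by
            apply Finset.sum_le_sum
            intro j hj
            refine (msg_pow_le h0.le h1 hρ N (nb j v) (q + 1)).trans ?_
            exact mul_le_mul_of_nonneg_left (ih (nb j v) (nb_ne_rt hj)) (by positivity)
        _ = b * (θ ^ (2 * (q + 1)) * (4 * K * s ^ (q + 1))) := by
            rw [Finset.sum_const, card_ch hv, nsmul_eq_mul]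
    have h5 : b * (θ ^ (2 * (q + 1)) * (4 * K * s ^ (q + 1))) ≤ 2 * K * s ^ (q + 1) := by
      have : b * (θ ^ (2 * (q + 1)) * (4 * K * s ^ (q + 1))) =
          ((b : ℝ) * θ ^ (2 * (q + 1))) * (4 * K * s ^ (q + 1)) := by ring
      rw [this]
      calc ((b : ℝ) * θ ^ (2 * (q + 1))) * (4 * K * s ^ (q + 1))
          ≤ (1 / 2) * (4 * K * s ^ (q + 1)) := by gcongr
        _ = 2 * K * s ^ (q + 1) := by ring
    have h6 : 0 ≤ ∑ j ∈ ch v, ∫ p, msg θ N (nb j v) p ^ (2 * (q + 1)) ∂(GM b θ ρ) :=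
      Finset.sum_nonneg (fun j _ => integral_nonneg (fun p => (even_two_mul _).pow_nonneg _))
    calc (1 + η) ^ b * ∑ j ∈ ch v, ∫ p, msg θ N (nb j v) p ^ (2 * (q + 1)) ∂(GM b θ ρ) +
          K * s ^ (q + 1)
        ≤ (1 + 1 / 2) * (2 * K * s ^ (q + 1)) + K * s ^ (q + 1) := by
          gcongr
          exact h4.trans h5
      _ = 4 * K * s ^ (q + 1) := by ring

/-! ### Second moment -/

lemma abs_le_mul_abs_tanh {B x : ℝ} (hx : |x| ≤ B) :
    |x| ≤ (1 - Real.tanh B ^ 2)⁻¹ * |Real.tanh x| := by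
  set T := Real.tanh B with hT
  have hB : 0 ≤ B := (abs_nonneg x).trans hx
  have hT0 : 0 ≤ T := by
    have := tanh_strictMono.monotone hB
    simpa using this
  have hT1 : T < 1 := Real.tanh_lt_one B
  have hm : ∀ y ∈ Set.Icc (-T) T, y ∈ Set.Ioo (-1 : ℝ) 1 := fun y hy =>
    ⟨by linarith [hy.1], by linarith [hy.2]⟩
  have hpos : 0 < 1 - T ^ 2 := by nlinarith
  have htx : Real.tanh x ∈ Set.Icc (-T) T := by
    have h2 := abs_le.1 hx
    refine ⟨?_, tanh_strictMono.monotone h2.2⟩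
    rw [hT, ← Real.tanh_neg]
    exact tanh_strictMono.monotone h2.1
  have h := Convex.norm_image_sub_le_of_norm_hasDerivWithin_le (f := Real.artanh)
    (f' := fun y => (1 - y ^ 2)⁻¹) (C := (1 - T ^ 2)⁻¹) (s := Set.Icc (-T) T)
    (x := 0) (y := Real.tanh x)
    (fun y hy => (hasDerivAt_artanh (hm y hy)).hasDerivWithinAt)
    (fun y hy => by
      have hy2 : y ^ 2 ≤ T ^ 2 := sq_le_sq' hy.1 hy.2
      have hpos' : 0 < 1 - y ^ 2 := by linarith
      rw [Real.norm_eq_abs, abs_of_pos (inv_pos.2 hpos')]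
      exact inv_anti₀ hpos (by linarith))
    (convex_Icc _ _) ⟨by linarith, hT0⟩ htx
  rw [Real.artanh_tanh, Real.artanh_zero, sub_zero, sub_zero, Real.norm_eq_abs,
    Real.norm_eq_abs] at h
  exact h

lemma mom_one (hIU : Spec.InfoUpper) (hb : 2 ≤ b) (h0 : 0 < θ) (hc : (b : ℝ) * θ ^ 2 = 1)
    {C₀ : ℝ} (hC₀ : 0 < C₀) : ∃ A : ℝ, 0 ≤ A ∧ Mom b θ C₀ 1 A := by
  have hb2 : (2 : ℝ) ≤ b := by exact_mod_cast hb
  have h1 : θ < 1 := by
    by_contra h
    have : 1 ≤ θ := not_lt.1 h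
    nlinarith
  obtain ⟨C, hC⟩ := hIU b θ hb h0 hc
  set B := C₀ + (b + 1) * Real.artanh θ with hB
  set κ := (1 - Real.tanh B ^ 2)⁻¹ with hκ
  have hκ0 : 0 < κ := inv_pos.2 (one_sub_tanh_sq_pos B)
  refine ⟨κ ^ 2 * (max C 0 * Real.sqrt C₀), by positivity, ?_⟩
  intro s hs0 hs1 ρ hρ hi N v _
  have hp := hρ.prob
  have hGM := isProb_GM (b := b) h0.le h1 ρ
  have hsq : Real.sqrt s ≤ 1 := Real.sqrt_le_one.2 hs1
  have hint : Integrable (fun p : (V b → Bool) × (V b → ℝ) =>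
      Real.tanh (lh θ N p.1 p.2 v) ^ 2) (GM b θ ρ) :=
    integrable_pow (measurable_tanh.comp (measurable_lh θ N v)) (C := 1)
      (ae_of_all _ (fun p => (Real.abs_tanh_lt_one _).le)) 2
  have h2 : ∫ p, lh θ N p.1 p.2 v ^ (2 * 1) ∂(GM b θ ρ) ≤
      κ ^ 2 * ∫ p, Real.tanh (lh θ N p.1 p.2 v) ^ 2 ∂(GM b θ ρ) := by
    rw [← integral_const_mul]
    apply integral_mono_ae (integrable_lh h0.le h1 hρ N v _) (hint.const_mul _)
    filter_upwards [ae_z (b := b) h0.le h1 hρ] with p hp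
    have h3 : |lh θ N p.1 p.2 v| ≤ B := by
      refine (abs_lh_le h0.le h1 N p.1 p.2 v).trans ?_
      have h5 := hp v
      have h6 : C₀ * Real.sqrt s ≤ C₀ := by nlinarith
      rw [hB]
      linarith
    have h4 := abs_le_mul_abs_tanh h3
    rw [mul_one, ← sq_abs, ← sq_abs (Real.tanh _), ← mul_pow]
    exact pow_le_pow_left₀ (abs_nonneg _) h4 2
  refine h2.trans ?_
  rw [pow_one, mul_assoc]
  apply mul_le_mul_of_nonneg_left _ (sq_nonneg κ)
  refine (hC ρ _ hρ N v).trans ?_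
  have h7 : Real.sqrt (info ρ) ≤ Real.sqrt C₀ * s := by
    calc Real.sqrt (info ρ) ≤ Real.sqrt (C₀ * s ^ 2) := Real.sqrt_le_sqrt hi
      _ = Real.sqrt C₀ * s := by rw [Real.sqrt_mul hC₀.le, Real.sqrt_sq hs0.le]
  calc C * Real.sqrt (info ρ) ≤ max C 0 * Real.sqrt (info ρ) :=
        mul_le_mul_of_nonneg_right (le_max_left _ _) (Real.sqrt_nonneg _)
    _ ≤ max C 0 * (Real.sqrt C₀ * s) :=
        mul_le_mul_of_nonneg_left h7 (le_max_right _ _)
    _ = max C 0 * Real.sqrt C₀ * s := by ring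

lemma mom_all (hIU : Spec.InfoUpper) (hb : 2 ≤ b) (h0 : 0 < θ) (hc : (b : ℝ) * θ ^ 2 = 1)
    {C₀ : ℝ} (hC₀ : 0 < C₀) (q : ℕ) : ∃ A : ℝ, 0 ≤ A ∧ Mom b θ C₀ (q + 1) A := by
  obtain ⟨A1, hA10, hA1⟩ := mom_one hIU hb h0 hc hC₀
  induction q with
  | zero => exact ⟨A1, hA10, hA1⟩
  | succ q ih =>
    obtain ⟨Aq, hAq0, hAq⟩ := ih
    exact mom_succ hb h0 hc hC₀.le (by omega) hA10 hAq0 hA1 hAq

/-! ### Conclusion -/

/-- S5. -/
theorem main (hIU : Spec.InfoUpper) (hG : Spec.GoodPL) (hmu : Spec.MuInv) : Spec.SmallMsg := by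
  intro b θ hb h0 hc C₀ η n hC₀ hη
  have hb2 : (2 : ℝ) ≤ b := by exact_mod_cast hb
  have h1 : θ < 1 := by
    by_contra h
    have : 1 ≤ θ := not_lt.1 h
    nlinarith
  rcases Nat.eq_zero_or_pos n with hn | hn
  · subst hn
    refine ⟨1, zero_le_one, ?_⟩
    intro s _ _ ρ hρ _ u i
    have := hρ.prob
    have := isProb_PL (b := b) h0.le h1 ρ
    simp only [pow_zero, mul_one, ENNReal.ofReal_one]
    exact prob_le_one
  obtain ⟨q, rfl⟩ : ∃ q, n = q + 1 := ⟨n - 1, by omega⟩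
  obtain ⟨A, hA0, hA⟩ := mom_all hIU hb h0 hc hC₀ q
  refine ⟨A / η ^ (2 * (q + 1)), by positivity, ?_⟩
  intro s hs0 hs1 ρ hρ hi u i
  have hp := hρ.prob
  have hGM := isProb_GM (b := b) h0.le h1 ρ
  have hPL := isProb_PL (b := b) h0.le h1 ρ
  set v : V b := nb i (rt b) with hv
  have hvl : v.l.head? = some i := rfl
  have hvne : v ≠ rt b := by
    rw [hv]
    intro h
    exact nb_ne i (rt b) h
  -- the moments under the planted law
  have hmom : ∀ N, ∫⁻ h, ENNReal.ofReal (lm θ N h v i ^ (2 * (q + 1))) ∂(PL b θ ρ) ≤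
      ENNReal.ofReal (A * s ^ (q + 1)) := by
    intro N
    have hm : Measurable (fun h : V b → ℝ => ENNReal.ofReal (lm θ N h v i ^ (2 * (q + 1)))) :=
      ENNReal.measurable_ofReal.comp ((measurable_lm θ N v i).pow_const _)
    have hval : ∀ (t : Bool) (p : (V b → Bool) × (V b → ℝ)),
        lm θ N (hf t p.1 p.2) v i ^ (2 * (q + 1)) = lh θ N p.1 p.2 v ^ (2 * (q + 1)) := by
      intro t p
      rw [lm_hf_head θ N t p.1 p.2 v i hvl, mul_pow, pow_mul (sg _), sg_sq, one_pow, one_mul]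
    rw [lintegral_PL_of_ae_even h0.le h1 ρ hm]
    · simp only [hval]
      rw [← ofReal_integral_eq_lintegral_ofReal (integrable_lh h0.le h1 hρ N v _)
        (ae_of_all _ (fun p => (even_two_mul _).pow_nonneg _))]
      exact ENNReal.ofReal_le_ofReal (hA s hs0 hs1 ρ hρ hi N v hvne)
    · apply Filter.Eventually.of_forall
      intro p
      simp only [hval]
  have hlim : ∫⁻ h, ENNReal.ofReal (lmI θ h v i ^ (2 * (q + 1))) ∂(PL b θ ρ) ≤
      ENNReal.ofReal (A * s ^ (q + 1)) := by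
    calc ∫⁻ h, ENNReal.ofReal (lmI θ h v i ^ (2 * (q + 1))) ∂(PL b θ ρ)
        ≤ ∫⁻ h, liminf (fun N => ENNReal.ofReal (lm θ N h v i ^ (2 * (q + 1)))) atTop
          ∂(PL b θ ρ) := by
          apply lintegral_mono_ae
          filter_upwards [hG b θ (by omega) h0.le h1 ρ _ hρ] with h hh
          have h3 := (hh.1.tendsto_lm v i).pow (2 * (q + 1))
          have h4 := (ENNReal.continuous_ofReal.tendsto _).comp h3
          exact (Tendsto.liminf_eq h4).symm.le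
      _ ≤ liminf (fun N => ∫⁻ h, ENNReal.ofReal (lm θ N h v i ^ (2 * (q + 1))) ∂(PL b θ ρ))
          atTop := by
          apply lintegral_liminf_le
          intro N
          exact ENNReal.measurable_ofReal.comp ((measurable_lm θ N v i).pow_const _)
      _ ≤ ENNReal.ofReal (A * s ^ (q + 1)) := by
          apply liminf_le_of_frequently_le'
          exact Filter.Frequently.of_forall hmom
  -- reduction to the vertex `v`
  have hset : MeasurableSet {h : V b → ℝ | η < |lmI θ h v i|} :=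
    measurableSet_lt measurable_const (measurable_lmI θ v i).abs
  have hinv : PL b θ ρ {h | η < |lmI θ h u i|} = PL b θ ρ {h | η < |lmI θ h v i|} := by
    set g : V b := mul u (inv v) with hg
    have hgu : mul g v = u := by
      rw [hg, mul_asc, inv_mul', mul_rt]
    have e := PL_map_mul (b := b) h0.le h1 ρ (by omega) hmu g
    conv_rhs => rw [← e]
    rw [Measure.map_apply (measurable_reindex _) hset]
    congr 1
    ext h
    show η < |lmI θ h u i| ↔ η < |lmI θ (fun v => h (mul g v)) v i|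
    rw [lmI_mul, hgu]
  rw [hinv]
  have hmark : ENNReal.ofReal (η ^ (2 * (q + 1))) * PL b θ ρ {h | η < |lmI θ h v i|} ≤
      ENNReal.ofReal (A * s ^ (q + 1)) := by
    refine le_trans ?_ hlim
    have hm2 : AEMeasurable (fun h : V b → ℝ =>
        ENNReal.ofReal (lmI θ h v i ^ (2 * (q + 1)))) (PL b θ ρ) :=
      (ENNReal.measurable_ofReal.comp ((measurable_lmI θ v i).pow_const _)).aemeasurable
    have := mul_meas_ge_le_lintegral₀ hm2 (ENNReal.ofReal (η ^ (2 * (q + 1))))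
    refine le_trans ?_ this
    refine mul_le_mul' le_rfl (measure_mono ?_)
    intro h hh
    have hh' : η < |lmI θ h v i| := hh
    show ENNReal.ofReal (η ^ (2 * (q + 1))) ≤ ENNReal.ofReal (lmI θ h v i ^ (2 * (q + 1)))
    apply ENNReal.ofReal_le_ofReal
    rw [pow_even_abs (lmI θ h v i)]
    exact pow_le_pow_left₀ hη.le hh'.le _
  have hηp : 0 < η ^ (2 * (q + 1)) := by positivity
  have hne : ENNReal.ofReal (η ^ (2 * (q + 1))) ≠ 0 := by
    rw [ne_eq, ENNReal.ofReal_eq_zero, not_le]; exact hηp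
  calc PL b θ ρ {h | η < |lmI θ h v i|}
      ≤ ENNReal.ofReal (A * s ^ (q + 1)) / ENNReal.ofReal (η ^ (2 * (q + 1))) := by
        rw [ENNReal.le_div_iff_mul_le (Or.inl hne) (Or.inl ENNReal.ofReal_ne_top), mul_comm]
        exact hmark
    _ = ENNReal.ofReal (A / η ^ (2 * (q + 1)) * s ^ (q + 1)) := by
        rw [← ENNReal.ofReal_div_of_pos hηp]
        congr 1
        ring

end Crest.Agent.IsgSmall
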