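import Crest.Agent.IsgIndep

set_option autoImplicit false

/-!
Module GAUGE for S0241, second part: second moment of the magnetisation.
-/

open MeasureTheory ProbabilityTheory Filter Topology

namespace Crest.Agent.Isg

variable {b : ℕ}

lemma theta_lt_one_of_crit {b : ℕ} {θ : ℝ} (hb : 2 ≤ b) (h0 : 0 < θ) (hc : b * θ ^ 2 = 1) :
    θ < 1 := by
  by_contra h
  push Not at h
  have h2 : (2 : ℝ) ≤ b := by exact_mod_cast hb
  nlinarith

/-- Convergence of the squared magnetisations in the mean: upper bound for the lower integral. -/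
lemma lintegral_M_sq_le {θ : ℝ} (h0 : 0 ≤ θ) (h1 : θ < 1) (ρ : Measure ℝ) {H : ℝ} (hC : Chan ρ H)
    (hgood : ∀ᵐ h ∂(PL b θ ρ), GoodH θ H h) {c : ℝ}
    (hc : ∀ N, ∫ p, Real.tanh (lh θ N p.1 p.2 (rt b)) ^ 2 ∂(GM b θ ρ) ≤ c) :
    ∫⁻ h, ENNReal.ofReal (M θ h (rt b) ^ 2) ∂(PL b θ ρ) ≤ ENNReal.ofReal c := by
  have := hC.prob
  have hGM := GM_prob b h0 h1 ρ
  have h2 : ∀ N, ∫⁻ h, ENNReal.ofReal (Real.tanh (lg θ N h (rt b)) ^ 2) ∂(PL b θ ρ) ≤
      ENNReal.ofReal c := by
    intro N
    have hm : Measurable (fun h : V b → ℝ => ENNReal.ofReal (Real.tanh (lg θ N h (rt b)) ^ 2)) :=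
      ENNReal.measurable_ofReal.comp ((measurable_tanh.comp (measurable_lg θ N (rt b))).pow_const 2)
    rw [lintegral_PL_of_ae_even h0 h1 ρ hm]
    · have h3 : ∀ p : (V b → Bool) × (V b → ℝ), ENNReal.ofReal
          (Real.tanh (lg θ N (hf true p.1 p.2) (rt b)) ^ 2) =
          ENNReal.ofReal (Real.tanh (lh θ (N + 1) p.1 p.2 (rt b)) ^ 2) := by
        intro p
        rw [lg_hf_rt, sg_true, one_mul]
      simp_rw [h3]
      rw [← ofReal_integral_eq_lintegral_ofReal]
      · exact ENNReal.ofReal_le_ofReal (hc (N + 1))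
      · apply Integrable.of_bound
          ((measurable_tanh.comp (measurable_lh θ (N + 1) (rt b))).pow_const 2).aestronglyMeasurable 1
        apply Filter.Eventually.of_forall
        intro p
        rw [Real.norm_eq_abs, abs_of_nonneg (sq_nonneg _)]
        exact (Real.tanh_sq_lt_one _).le
      · exact Filter.Eventually.of_forall (fun p => sq_nonneg _)
    · apply Filter.Eventually.of_forall
      intro p
      rw [lg_hf_rt, lg_hf_rt, tanh_sg_mul, tanh_sg_mul, mul_pow, mul_pow, sg_sq, sg_sq]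
  calc ∫⁻ h, ENNReal.ofReal (M θ h (rt b) ^ 2) ∂(PL b θ ρ)
      ≤ ∫⁻ h, liminf (fun N => ENNReal.ofReal (Real.tanh (lg θ N h (rt b)) ^ 2)) atTop
        ∂(PL b θ ρ) := by
        apply lintegral_mono_ae
        filter_upwards [hgood] with h hh
        have h3 := (hh.1.tendsto_tanh_lg h0 h1 (rt b)).pow 2
        have h4 := (ENNReal.continuous_ofReal.tendsto _).comp h3
        exact (Tendsto.liminf_eq h4).symm.le
    _ ≤ liminf (fun N => ∫⁻ h, ENNReal.ofReal (Real.tanh (lg θ N h (rt b)) ^ 2) ∂(PL b θ ρ))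
        atTop := by
        apply lintegral_liminf_le
        intro N
        exact ENNReal.measurable_ofReal.comp
          ((measurable_tanh.comp (measurable_lg θ N (rt b))).pow_const 2)
    _ ≤ ENNReal.ofReal c := by
        apply liminf_le_of_le
        · isBoundedDefault
        · intro x hx
          obtain ⟨N, hN⟩ := hx.exists
          exact hN.trans (h2 N)

end Crest.Agent.Isg

namespace Crest.Agent.IsgSmallMag

open Crest.Agent.Isg

theorem main (hIU : Spec.InfoUpper) (hG : Spec.GoodPL) : Spec.SmallMag := by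
  intro b θ hb h0 hc
  have h1 := theta_lt_one_of_crit hb h0 hc
  obtain ⟨C, hC⟩ := hIU b θ hb h0 hc
  refine ⟨C, ?_⟩
  intro ρ H hρ
  apply lintegral_M_sq_le h0.le h1 ρ hρ (hG b θ (by omega) h0.le h1 ρ H hρ)
  intro N
  exact hC ρ H hρ N (rt b)

end Crest.Agent.IsgSmallMag
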