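import Crest.Agent.IsgIndep

set_option autoImplicit false

/-!
Module TAIL for S0241: doubly exponential tails of the weighted sum of the slope products.
-/

open MeasureTheory ProbabilityTheory Filter Topology

namespace Crest.Agent.IsgTail

open Crest.Agent.Isg

variable {b : ℕ}

/-- Truncated weighted sum of the slope products below `v`. -/
noncomputable def TG (θ a : ℝ) : ℕ → (V b → Bool) → (V b → ℝ) → V b → ℝ
  | 0, _, _, _ => 1
  | n + 1, ξ, z, v => 1 + a * ∑ j ∈ ch v,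
      kap θ (lh θ (n + 1) ξ z (nb j v)) * TG θ a n ξ z (nb j v)

lemma TG_zero (θ a : ℝ) (ξ : V b → Bool) (z : V b → ℝ) (v : V b) : TG θ a 0 ξ z v = 1 := rfl

lemma TG_succ (θ a : ℝ) (n : ℕ) (ξ : V b → Bool) (z : V b → ℝ) (v : V b) :
    TG θ a (n + 1) ξ z v = 1 + a * ∑ j ∈ ch v,
      kap θ (lh θ (n + 1) ξ z (nb j v)) * TG θ a n ξ z (nb j v) := rfl

lemma measurable_TG (θ a : ℝ) (n : ℕ) (v : V b) :
    Measurable (fun p : (V b → Bool) × (V b → ℝ) => TG θ a n p.1 p.2 v) := by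
  induction n generalizing v with
  | zero => exact measurable_const
  | succ n ih =>
    simp only [TG_succ]
    apply Measurable.const_add
    apply Measurable.const_mul
    apply Finset.measurable_sum
    intro j _
    exact ((measurable_kap θ).comp (measurable_lh θ _ _)).mul (ih _)

lemma TG_ge_one {θ a : ℝ} (h0 : 0 ≤ θ) (h1 : θ < 1) (ha : 0 ≤ a) (n : ℕ) (ξ : V b → Bool)
    (z : V b → ℝ) (v : V b) : 1 ≤ TG θ a n ξ z v := by
  induction n generalizing v with
  | zero => exact le_refl _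
  | succ n ih =>
    rw [TG_succ]
    have : 0 ≤ ∑ j ∈ ch v, kap θ (lh θ (n + 1) ξ z (nb j v)) * TG θ a n ξ z (nb j v) := by
      apply Finset.sum_nonneg
      intro j _
      exact mul_nonneg (kap_pos h0 h1 _).le (by linarith [ih (nb j v)])
    have := mul_nonneg ha this
    linarith

lemma TG_le {θ a : ℝ} (h0 : 0 ≤ θ) (h1 : θ < 1) (ha : 0 ≤ a) (n : ℕ) :
    ∃ B : ℝ, ∀ (ξ : V b → Bool) (z : V b → ℝ) (v : V b), TG θ a n ξ z v ≤ B := by
  induction n with
  | zero => exact ⟨1, fun _ _ _ => le_refl _⟩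
  | succ n ih =>
    obtain ⟨B, hB⟩ := ih
    refine ⟨1 + a * ((b + 1) * B), fun ξ z v => ?_⟩
    rw [TG_succ]
    have hB0 : 0 ≤ B := by
      have := TG_ge_one h0 h1 ha n ξ z v
      linarith [hB ξ z v]
    gcongr
    calc ∑ j ∈ ch v, kap θ (lh θ (n + 1) ξ z (nb j v)) * TG θ a n ξ z (nb j v)
        ≤ ∑ j ∈ ch v, B := by
          apply Finset.sum_le_sum
          intro j _
          have h2 := kap_le_one h0 h1 (lh θ (n + 1) ξ z (nb j v))
          have h3 := kap_pos h0 h1 (lh θ (n + 1) ξ z (nb j v))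
          have h4 := TG_ge_one h0 h1 ha n ξ z (nb j v)
          nlinarith [hB ξ z (nb j v)]
      _ = (ch v).card * B := by rw [Finset.sum_const, nsmul_eq_mul]
      _ ≤ (b + 1) * B := by
          apply mul_le_mul_of_nonneg_right _ hB0
          have : (ch v).card ≤ b + 1 := by
            calc (ch v).card ≤ (Finset.univ : Finset (Fin (b + 1))).card := Finset.card_le_univ _
              _ = b + 1 := by simp
          exact_mod_cast this

/-- Expansion of the truncated sum at the root up to level `j`. -/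
lemma TG_expand (θ a : ℝ) (ξ : V b → Bool) (z : V b → ℝ) (n : ℕ) (j m : ℕ) (hn : j + m = n) :
    TG θ a n ξ z (rt b) = ∑ k ∈ Finset.range j, a ^ k * ∑ w ∈ Sph b k, DMl θ n ξ z (rt b) w.l +
      a ^ j * ∑ w ∈ Sph b j, DMl θ n ξ z (rt b) w.l * TG θ a m ξ z w := by
  induction j generalizing m with
  | zero =>
    simp only [zero_add] at hn
    subst hn
    simp [Sph_zero]
  | succ j ih =>
    rw [ih (m + 1) (by omega), Finset.sum_range_succ, sum_Sph_succ]
    rw [add_assoc]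
    congr 1
    rw [pow_succ, mul_assoc, ← mul_add]
    congr 1
    rw [Finset.mul_sum, ← Finset.sum_add_distrib]
    apply Finset.sum_congr rfl
    intro w hw
    rw [TG_succ, mul_add, mul_one]
    congr 1
    rw [mul_left_comm, Finset.mul_sum]
    congr 1
    apply Finset.sum_congr rfl
    intro i hi
    have hl : (nb i w).l = i :: w.l := nb_l_of_not_head i w (mem_ch.1 hi)
    rw [hl, DMl_cons]
    have h3 : follow (rt b) (i :: w.l) = nb i w := by
      rw [follow_cons, follow_rt w.l w.h]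
    have h4 : n - w.l.length = m + 1 := by
      have : w.l.length = j := mem_Sph.1 hw
      omega
    rw [h3, h4, mul_assoc]

/-! ### Elementary inequalities -/

lemma exp_mul_le {a y : ℝ} (ha0 : 0 ≤ a) (ha1 : a ≤ 1) (hy : 0 ≤ y) :
    Real.exp (a * y) ≤ 1 + a * y + a ^ 2 * (Real.exp y - 1 - y) := by
  set f : ℝ → ℝ := fun y => 1 + a * y + a ^ 2 * (Real.exp y - 1 - y) - Real.exp (a * y) with hf
  have hder : ∀ x : ℝ, HasDerivAt f (a * 1 + a ^ 2 * (Real.exp x - 1) -
      Real.exp (a * x) * (a * 1)) x := by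
    intro x
    have h1 : HasDerivAt (fun y : ℝ => 1 + a * y) (a * 1) x :=
      ((hasDerivAt_id x).const_mul a).const_add 1
    have h2 : HasDerivAt (fun y : ℝ => a ^ 2 * (Real.exp y - 1 - y))
        (a ^ 2 * (Real.exp x - 1)) x :=
      (((Real.hasDerivAt_exp x).sub_const 1).sub (hasDerivAt_id x)).const_mul (a ^ 2)
    have h3 : HasDerivAt (fun y : ℝ => Real.exp (a * y)) (Real.exp (a * x) * (a * 1)) x :=
      ((hasDerivAt_id x).const_mul a).exp
    exact (h1.add h2).sub h3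
  have hmono : MonotoneOn f (Set.Ici 0) := by
    apply monotoneOn_of_deriv_nonneg (convex_Ici 0)
    · exact fun x _ => (hder x).continuousAt.continuousWithinAt
    · exact fun x _ => (hder x).differentiableAt.differentiableWithinAt
    · intro x _
      rw [(hder x).deriv]
      have hconv : Real.exp (a * x) ≤ 1 - a + a * Real.exp x := by
        have h := convexOn_exp.2 (Set.mem_univ (0 : ℝ)) (Set.mem_univ x)
          (show (0 : ℝ) ≤ 1 - a by linarith) ha0 (by ring)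
        simpa [smul_eq_mul] using h
      nlinarith [Real.exp_pos (a * x)]
  have h := hmono (Set.mem_Ici.2 le_rfl) (Set.mem_Ici.2 hy) hy
  simp only [hf, mul_zero, Real.exp_zero, add_zero, sub_self] at h
  linarith

lemma exp_kap_le {a κ x : ℝ} (ha0 : 0 ≤ a) (ha1 : a ≤ 1) (hκ1 : κ ≤ 1) (hx : 0 ≤ x) :
    Real.exp (a * (κ * x)) ≤ 1 + a * x + a ^ 2 * (Real.exp x - 1) := by
  have h1 : Real.exp (a * (κ * x)) ≤ Real.exp (a * x) := by
    apply Real.exp_le_exp.2
    have : κ * x ≤ x := by nlinarith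
    nlinarith
  have h2 := exp_mul_le ha0 ha1 hx
  have h3 : 0 ≤ a ^ 2 * x := by positivity
  nlinarith

/-! ### Dependence -/

/-- Descendants of `v`. -/
def Dsc (v : V b) : Set (V b) := {u | v.l <:+ u.l}

lemma Dsc_nb {v : V b} {j : Fin (b + 1)} (hj : j ∈ ch v) : Dsc (nb j v) ⊆ Dsc v := by
  intro u hu
  have hl : (nb j v).l = j :: v.l := nb_l_of_not_head j v (mem_ch.1 hj)
  unfold Dsc at hu ⊢
  simp only [Set.mem_ofPred_eq] at hu ⊢
  rw [hl] at hu
  exact (List.suffix_cons j v.l).trans hu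

lemma mem_Dsc_self (v : V b) : v ∈ Dsc v := List.suffix_refl _

lemma mem_Dsc_nb {v : V b} {j : Fin (b + 1)} (hj : j ∈ ch v) : nb j v ∈ Dsc v :=
  Dsc_nb hj (mem_Dsc_self _)

lemma Dsc_disjoint {v w : V b} (hl : len v = len w) (h : v ≠ w) : Disjoint (Dsc v) (Dsc w) := by
  rw [Set.disjoint_left]
  intro u h1 h2
  apply h
  ext1
  unfold Dsc at h1 h2
  simp only [Set.mem_ofPred_eq] at h1 h2
  exact List.IsSuffix.eq_of_length (List.suffix_of_suffix_length_le h1 h2 (le_of_eq hl)) hl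

lemma lh_dep (θ : ℝ) (N : ℕ) (v : V b) (p p' : (V b → Bool) × (V b → ℝ))
    (h : ∀ u ∈ Dsc v, p.1 u = p'.1 u ∧ p.2 u = p'.2 u) :
    lh θ N p.1 p.2 v = lh θ N p'.1 p'.2 v := by
  induction N generalizing v with
  | zero => rfl
  | succ N ih =>
    rw [lh_succ, lh_succ, (h v (mem_Dsc_self v)).2]
    congr 1
    apply Finset.sum_congr rfl
    intro j hj
    rw [(h (nb j v) (mem_Dsc_nb hj)).1, ih (nb j v) (fun u hu => h u (Dsc_nb hj hu))]

lemma TG_dep (θ a : ℝ) (N : ℕ) (v : V b) (p p' : (V b → Bool) × (V b → ℝ))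
    (h : ∀ u ∈ Dsc v, p.1 u = p'.1 u ∧ p.2 u = p'.2 u) :
    TG θ a N p.1 p.2 v = TG θ a N p'.1 p'.2 v := by
  induction N generalizing v with
  | zero => rfl
  | succ N ih =>
    rw [TG_succ, TG_succ]
    congr 2
    apply Finset.sum_congr rfl
    intro j hj
    rw [lh_dep θ (N + 1) (nb j v) p p' (fun u hu => h u (Dsc_nb hj hu)),
      ih (nb j v) (fun u hu => h u (Dsc_nb hj hu))]

/-! ### The exponential moments -/

lemma abs_TG_le {θ a : ℝ} (h0 : 0 ≤ θ) (h1 : θ < 1) (ha : 0 ≤ a) (n : ℕ) :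
    ∃ B : ℝ, ∀ (ξ : V b → Bool) (z : V b → ℝ) (v : V b), |TG θ a n ξ z v| ≤ B := by
  obtain ⟨B, hB⟩ := TG_le (b := b) h0 h1 ha n
  refine ⟨B, fun ξ z v => ?_⟩
  rw [abs_of_nonneg (by linarith [TG_ge_one h0 h1 ha n ξ z v])]
  exact hB ξ z v

lemma integrable_of_bdd {Ω : Type*} [MeasurableSpace Ω] {μ : Measure Ω} [IsFiniteMeasure μ]
    {f : Ω → ℝ} (hf : Measurable f) {C : ℝ} (hC : ∀ x, |f x| ≤ C) : Integrable f μ := by
  apply Integrable.mono' (integrable_const C) hf.aestronglyMeasurable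
  exact Filter.Eventually.of_forall hC

lemma integrable_TG {θ a : ℝ} (h0 : 0 ≤ θ) (h1 : θ < 1) (ha : 0 ≤ a) (n : ℕ) (v : V b)
    (ρ : Measure ℝ) [IsProbabilityMeasure ρ] :
    Integrable (fun p : (V b → Bool) × (V b → ℝ) => TG θ a n p.1 p.2 v) (GM b θ ρ) := by
  have := GM_prob b h0 h1 ρ
  obtain ⟨B, hB⟩ := abs_TG_le (b := b) h0 h1 ha n
  exact integrable_of_bdd (measurable_TG θ a n v) (fun p => hB p.1 p.2 v)

lemma integrable_exp_TG {θ a : ℝ} (h0 : 0 ≤ θ) (h1 : θ < 1) (ha : 0 ≤ a) (n : ℕ) (v : V b)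
    (ρ : Measure ℝ) [IsProbabilityMeasure ρ] (ε : ℝ) :
    Integrable (fun p : (V b → Bool) × (V b → ℝ) => Real.exp (ε * TG θ a n p.1 p.2 v))
      (GM b θ ρ) := by
  have := GM_prob b h0 h1 ρ
  obtain ⟨B, hB⟩ := abs_TG_le (b := b) h0 h1 ha n
  apply integrable_of_bdd (C := Real.exp (|ε| * B))
  · exact ((measurable_TG θ a n v).const_mul ε).exp
  · intro p
    rw [abs_of_pos (Real.exp_pos _)]
    apply Real.exp_le_exp.2
    calc ε * TG θ a n p.1 p.2 v ≤ |ε * TG θ a n p.1 p.2 v| := le_abs_self _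
      _ = |ε| * |TG θ a n p.1 p.2 v| := abs_mul _ _
      _ ≤ |ε| * B := by gcongr; exact hB p.1 p.2 v

/-- One step of the recursion for the exponential moments. -/
lemma mgf_step {θ a : ℝ} (h0 : 0 ≤ θ) (h1 : θ < 1) (ha : 0 ≤ a) (ha1 : a ≤ 1) (n : ℕ) (v : V b)
    (ρ : Measure ℝ) [IsProbabilityMeasure ρ] {ε : ℝ} (hε : 0 ≤ ε) :
    ∫ p, Real.exp (ε * TG θ a (n + 1) p.1 p.2 v) ∂(GM b θ ρ) ≤
      Real.exp ε * ∏ j ∈ ch v, (1 + ε * a * ∫ p, TG θ a n p.1 p.2 (nb j v) ∂(GM b θ ρ) +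
        a ^ 2 * (∫ p, Real.exp (ε * TG θ a n p.1 p.2 (nb j v)) ∂(GM b θ ρ) - 1)) := by
  have hG := GM_prob b h0 h1 ρ
  set X : {j // j ∈ ch v} → (V b → Bool) × (V b → ℝ) → ℝ := fun j p =>
    kap θ (lh θ (n + 1) p.1 p.2 (nb j.1 v)) * TG θ a n p.1 p.2 (nb j.1 v) with hX
  have hXm : ∀ j, Measurable (X j) := fun j =>
    ((measurable_kap θ).comp (measurable_lh θ _ _)).mul (measurable_TG θ a n _)
  have hind : iIndepFun X (GM b θ ρ) := by
    apply GM_iIndepFun h0 h1 ρ (fun j : {j // j ∈ ch v} => Dsc (nb j.1 v))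
    · intro i j hij
      apply Dsc_disjoint
      · rw [len_nb_ch i.2, len_nb_ch j.2]
      · intro h
        exact hij (Subtype.ext (nb_inj_color _ _ _ h))
    · exact hXm
    · intro j p p' h
      simp only [hX]
      rw [lh_dep θ (n + 1) _ p p' h, TG_dep θ a n _ p p' h]
  have h2 : ∫ p, Real.exp (ε * TG θ a (n + 1) p.1 p.2 v) ∂(GM b θ ρ) =
      Real.exp ε * mgf (∑ j ∈ (Finset.univ : Finset {j // j ∈ ch v}), X j) (GM b θ ρ) (ε * a) := by
    unfold mgf
    rw [← integral_const_mul]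
    congr 1
    ext p
    rw [← Real.exp_add, TG_succ, Finset.sum_apply]
    congr 1
    have h3 : ∑ j ∈ ch v, kap θ (lh θ (n + 1) p.1 p.2 (nb j v)) * TG θ a n p.1 p.2 (nb j v) =
        ∑ j : {j // j ∈ ch v}, X j p := by
      rw [Finset.univ_eq_attach, Finset.sum_attach (ch v)
        (fun j => kap θ (lh θ (n + 1) p.1 p.2 (nb j v)) * TG θ a n p.1 p.2 (nb j v))]
    rw [h3]
    ring
  rw [h2, hind.mgf_sum hXm]
  apply mul_le_mul_of_nonneg_left _ (Real.exp_pos _).le
  rw [Finset.univ_eq_attach, ← Finset.prod_attach (ch v)]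
  apply Finset.prod_le_prod
  · intro j _
    exact mgf_nonneg
  · intro j _
    have hi1 : Integrable (fun p : (V b → Bool) × (V b → ℝ) =>
        a * ε * TG θ a n p.1 p.2 (nb j.1 v)) (GM b θ ρ) :=
      (integrable_TG h0 h1 ha n (nb j.1 v) ρ).const_mul (a * ε)
    have hi2 : Integrable (fun p : (V b → Bool) × (V b → ℝ) =>
        a ^ 2 * (Real.exp (ε * TG θ a n p.1 p.2 (nb j.1 v)) - 1)) (GM b θ ρ) :=
      ((integrable_exp_TG h0 h1 ha n (nb j.1 v) ρ ε).sub (integrable_const 1)).const_mul (a ^ 2)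
    have hi0 : Integrable (fun p : (V b → Bool) × (V b → ℝ) =>
        1 + a * ε * TG θ a n p.1 p.2 (nb j.1 v)) (GM b θ ρ) := (integrable_const 1).add hi1
    have hb : mgf (X j) (GM b θ ρ) (ε * a) ≤ ∫ p, (1 + a * ε * TG θ a n p.1 p.2 (nb j.1 v) +
        a ^ 2 * (Real.exp (ε * TG θ a n p.1 p.2 (nb j.1 v)) - 1)) ∂(GM b θ ρ) := by
      unfold mgf
      apply integral_mono_of_nonneg
      · exact Filter.Eventually.of_forall (fun p => (Real.exp_pos _).le)
      · exact hi0.add hi2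
      · apply Filter.Eventually.of_forall
        intro p
        have h4 := TG_ge_one h0 h1 ha n p.1 p.2 (nb j.1 v)
        have h5 := exp_kap_le (κ := kap θ (lh θ (n + 1) p.1 p.2 (nb j.1 v)))
          (x := ε * TG θ a n p.1 p.2 (nb j.1 v)) ha ha1 (kap_le_one h0 h1 _) (by positivity)
        simp only [hX]
        calc Real.exp (ε * a * (kap θ (lh θ (n + 1) p.1 p.2 (nb j.1 v)) *
              TG θ a n p.1 p.2 (nb j.1 v)))
            = Real.exp (a * (kap θ (lh θ (n + 1) p.1 p.2 (nb j.1 v)) *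
              (ε * TG θ a n p.1 p.2 (nb j.1 v)))) := by ring_nf
          _ ≤ _ := h5
          _ = _ := by ring
    refine hb.trans (le_of_eq ?_)
    rw [integral_add hi0 hi2, integral_add (integrable_const 1) hi1,
      integral_const_mul, integral_const_mul, integral_sub
        (integrable_exp_TG h0 h1 ha n (nb j.1 v) ρ ε) (integrable_const 1), integral_const,
      probReal_univ, one_smul]
    ring

/-! ### First moments -/

lemma mean_path {θ a : ℝ} (h0 : 0 ≤ θ) (h1 : θ < 1) (ha : 0 ≤ a)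
    (ρ : Measure ℝ) [IsProbabilityMeasure ρ] {C q : ℝ}
    (hD : ∀ (Mx : ℕ) (v : V b) (r : List (Fin (b + 1))), (r ++ v.l).IsChain (· ≠ ·) →
      r.length ≤ Mx → ∫ p, DMl θ Mx p.1 p.2 v r ∂(GM b θ ρ) ≤ C * Real.exp (-(q * r.length)))
    (n m : ℕ) (v : V b) (r : List (Fin (b + 1))) (hr : (r ++ v.l).IsChain (· ≠ ·))
    (hn : r.length + m = n) (hv : follow v r ≠ rt b) :
    ∫ p, DMl θ n p.1 p.2 v r * TG θ a m p.1 p.2 (follow v r) ∂(GM b θ ρ) ≤
      C * ∑ i ∈ Finset.range (m + 1), (a * b) ^ i * Real.exp (-(q * (r.length + i))) := by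
  have hG := GM_prob b h0 h1 ρ
  induction m generalizing r with
  | zero =>
    have h2 := hD n v r hr (by omega)
    simpa [TG_zero] using h2
  | succ m ih =>
    have hint : ∀ j ∈ ch (follow v r), Integrable (fun p : (V b → Bool) × (V b → ℝ) =>
        DMl θ n p.1 p.2 v (j :: r) * TG θ a m p.1 p.2 (follow v (j :: r))) (GM b θ ρ) := by
      intro j _
      obtain ⟨B, hB⟩ := abs_TG_le (b := b) h0 h1 ha m
      apply integrable_of_bdd (C := B)
      · exact (measurable_DMl θ _ _ _).mul (measurable_TG θ a m _)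
      · intro p
        rw [abs_mul, abs_of_pos (DMl_pos h0 h1 _ _ _ _ _)]
        have h3 := DMl_le_one h0 h1 n p.1 p.2 v (j :: r)
        have h4 := DMl_pos h0 h1 n p.1 p.2 v (j :: r)
        have h5 := hB p.1 p.2 (follow v (j :: r))
        have h6 := abs_nonneg (TG θ a m p.1 p.2 (follow v (j :: r)))
        nlinarith
    have hint0 : Integrable (fun p : (V b → Bool) × (V b → ℝ) => DMl θ n p.1 p.2 v r)
        (GM b θ ρ) := by
      apply integrable_of_bdd (C := 1) (measurable_DMl θ _ _ _)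
      intro p
      rw [abs_of_pos (DMl_pos h0 h1 _ _ _ _ _)]
      exact DMl_le_one h0 h1 _ _ _ _ _
    have h2 : ∫ p, DMl θ n p.1 p.2 v r * TG θ a (m + 1) p.1 p.2 (follow v r) ∂(GM b θ ρ) =
        ∫ p, DMl θ n p.1 p.2 v r ∂(GM b θ ρ) + a * ∑ j ∈ ch (follow v r),
          ∫ p, DMl θ n p.1 p.2 v (j :: r) * TG θ a m p.1 p.2 (follow v (j :: r)) ∂(GM b θ ρ) := by
      rw [← integral_finsetSum _ hint, ← integral_const_mul, ← integral_add hint0
        ((integrable_finsetSum _ hint).const_mul a)]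
      congr 1
      ext p
      rw [TG_succ, mul_add, mul_one]
      congr 1
      rw [mul_left_comm, Finset.mul_sum]
      congr 1
      apply Finset.sum_congr rfl
      intro j _
      rw [DMl_cons, follow_cons]
      have h4 : n - r.length = m + 1 := by omega
      rw [h4, mul_assoc]
    rw [h2]
    have hcard : (ch (follow v r)).card = b := card_ch hv
    have h3 : ∀ j ∈ ch (follow v r),
        ∫ p, DMl θ n p.1 p.2 v (j :: r) * TG θ a m p.1 p.2 (follow v (j :: r)) ∂(GM b θ ρ) ≤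
        C * ∑ i ∈ Finset.range (m + 1), (a * b) ^ i *
          Real.exp (-(q * ((r.length + 1 : ℕ) + i))) := by
      intro j hj
      have hf : follow v r = ⟨r ++ v.l, hr⟩ := follow_of_chain v r hr
      have hl : (nb j (follow v r)).l = j :: (r ++ v.l) := by
        rw [nb_l_of_not_head j _ (mem_ch.1 hj), hf]
      have h5 := ih (j :: r) (by
          have := (nb j (follow v r)).h
          rw [hl] at this
          exact this) (by rw [List.length_cons]; omega) (by
          rw [follow_cons]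
          intro h
          have := len_nb_ch hj
          rw [h] at this
          simp at this)
      rw [List.length_cons] at h5
      exact h5
    have h4 := Finset.sum_le_sum h3
    rw [Finset.sum_const, hcard, nsmul_eq_mul] at h4
    have h5 := hD n v r hr (by omega)
    rw [Finset.sum_range_succ' _ (m + 1)]
    have h6 : ∑ k ∈ Finset.range (m + 1), (a * b) ^ (k + 1) *
        Real.exp (-(q * (r.length + (k + 1 : ℕ)))) = a * b * ∑ i ∈ Finset.range (m + 1),
          (a * b) ^ i * Real.exp (-(q * ((r.length + 1 : ℕ) + i))) := by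
      rw [Finset.mul_sum]
      apply Finset.sum_congr rfl
      intro k _
      push_cast
      rw [pow_succ]
      ring_nf
    rw [h6]
    have h7 := mul_le_mul_of_nonneg_left h4 ha
    simp only [pow_zero, one_mul, Nat.cast_zero, add_zero]
    rw [mul_add]
    calc _ ≤ C * Real.exp (-(q * r.length)) + a * ((b : ℝ) * (C * ∑ i ∈ Finset.range (m + 1),
          (a * b) ^ i * Real.exp (-(q * ((r.length + 1 : ℕ) + i))))) := add_le_add h5 h7
      _ = _ := by ring

/-- Uniform bound for the first moments. -/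
lemma mean_le {θ a : ℝ} (h0 : 0 ≤ θ) (h1 : θ < 1) (ha : 0 ≤ a)
    (ρ : Measure ℝ) [IsProbabilityMeasure ρ] {C q q' : ℝ} (hC : 0 ≤ C) (hq : 0 < q')
    (hab : a * b ≤ Real.exp (q - q'))
    (hD : ∀ (Mx : ℕ) (v : V b) (r : List (Fin (b + 1))), (r ++ v.l).IsChain (· ≠ ·) →
      r.length ≤ Mx → ∫ p, DMl θ Mx p.1 p.2 v r ∂(GM b θ ρ) ≤ C * Real.exp (-(q * r.length)))
    (m : ℕ) (v : V b) (hv : v ≠ rt b) :
    ∫ p, TG θ a m p.1 p.2 v ∂(GM b θ ρ) ≤ C * ((1 + q') / q') := by
  have h2 := mean_path h0 h1 ha ρ hD m m v [] (by simpa using v.h) (by simp) (by simpa using hv)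
  simp only [DMl_nil, one_mul, follow_nil, List.length_nil, Nat.cast_zero, zero_add] at h2
  refine h2.trans ?_
  apply mul_le_mul_of_nonneg_left _ hC
  have h3 : ∀ i ∈ Finset.range (m + 1), (a * b) ^ i * Real.exp (-(q * i)) ≤
      (Real.exp (-q')) ^ i := by
    intro i _
    have hab0 : 0 ≤ a * b := by positivity
    calc (a * b) ^ i * Real.exp (-(q * i)) ≤ (Real.exp (q - q')) ^ i * Real.exp (-(q * i)) := by
          gcongr
      _ = (Real.exp (-q')) ^ i := by
          rw [← Real.exp_nat_mul, ← Real.exp_nat_mul, ← Real.exp_add]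
          congr 1
          ring
  refine (Finset.sum_le_sum h3).trans ?_
  have h4 : Real.exp (-q') < 1 := by
    rw [Real.exp_lt_one_iff]; linarith
  have h5 : ∑ i ∈ Finset.range (m + 1), (Real.exp (-q')) ^ i ≤ (1 - Real.exp (-q'))⁻¹ := by
    have := Summable.sum_le_tsum (Finset.range (m + 1))
      (fun i _ => pow_nonneg (Real.exp_pos (-q')).le i)
      (summable_geometric_of_lt_one (Real.exp_pos _).le h4)
    rwa [tsum_geometric_of_lt_one (Real.exp_pos _).le h4] at this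
  refine h5.trans ?_
  have h6 : q' / (1 + q') ≤ 1 - Real.exp (-q') := by
    have h7 : Real.exp (-q') ≤ 1 / (1 + q') := by
      rw [Real.exp_neg, ← one_div]
      apply one_div_le_one_div_of_le (by linarith)
      linarith [Real.add_one_le_exp q']
    have h8 : q' / (1 + q') = 1 - 1 / (1 + q') := by
      field_simp
      ring
    linarith
  have h9 : 0 < q' / (1 + q') := by positivity
  calc (1 - Real.exp (-q'))⁻¹ ≤ (q' / (1 + q'))⁻¹ := by
        apply inv_anti₀ h9 h6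
    _ = (1 + q') / q' := by rw [inv_div]

/-! ### Uniform exponential moments -/

/-- Bound for the right side of `mgf_step`. -/
lemma mgf_step' {θ a : ℝ} (h0 : 0 ≤ θ) (h1 : θ < 1) (ha : 0 ≤ a) (ha1 : a ≤ 1) (n : ℕ) (v : V b)
    (ρ : Measure ℝ) [IsProbabilityMeasure ρ] {ε m1 y : ℝ} (hε : 0 ≤ ε)
    (hm1 : ∀ u : V b, u ≠ rt b → ∫ p, TG θ a n p.1 p.2 u ∂(GM b θ ρ) ≤ m1)
    (hy : ∀ u : V b, u ≠ rt b → ∫ p, Real.exp (ε * TG θ a n p.1 p.2 u) ∂(GM b θ ρ) ≤ y) :
    ∫ p, Real.exp (ε * TG θ a (n + 1) p.1 p.2 v) ∂(GM b θ ρ) ≤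
      Real.exp (ε + (ch v).card * (ε * a * m1 + a ^ 2 * (y - 1))) := by
  have hG := GM_prob b h0 h1 ρ
  refine (mgf_step h0 h1 ha ha1 n v ρ hε).trans ?_
  rw [Real.exp_add]
  apply mul_le_mul_of_nonneg_left _ (Real.exp_pos _).le
  have h2 : ∀ j ∈ ch v, 1 + ε * a * ∫ p, TG θ a n p.1 p.2 (nb j v) ∂(GM b θ ρ) +
        a ^ 2 * (∫ p, Real.exp (ε * TG θ a n p.1 p.2 (nb j v)) ∂(GM b θ ρ) - 1) ≤
      Real.exp (ε * a * m1 + a ^ 2 * (y - 1)) := by
    intro j hj
    have hne : nb j v ≠ rt b := by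
      intro h
      have := len_nb_ch hj
      rw [h] at this
      simp at this
    have h3 := Real.add_one_le_exp (ε * a * m1 + a ^ 2 * (y - 1))
    have h4 : ε * a * ∫ p, TG θ a n p.1 p.2 (nb j v) ∂(GM b θ ρ) ≤ ε * a * m1 :=
      mul_le_mul_of_nonneg_left (hm1 _ hne) (by positivity)
    have h5 : a ^ 2 * (∫ p, Real.exp (ε * TG θ a n p.1 p.2 (nb j v)) ∂(GM b θ ρ) - 1) ≤
        a ^ 2 * (y - 1) := mul_le_mul_of_nonneg_left (by linarith [hy _ hne]) (by positivity)
    linarith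
  have h3 : ∀ j ∈ ch v, 0 ≤ 1 + ε * a * ∫ p, TG θ a n p.1 p.2 (nb j v) ∂(GM b θ ρ) +
        a ^ 2 * (∫ p, Real.exp (ε * TG θ a n p.1 p.2 (nb j v)) ∂(GM b θ ρ) - 1) := by
    intro j _
    have h4 : 0 ≤ ∫ p, TG θ a n p.1 p.2 (nb j v) ∂(GM b θ ρ) := by
      apply integral_nonneg
      intro p
      have := TG_ge_one h0 h1 ha n p.1 p.2 (nb j v)
      show (0 : ℝ) ≤ TG θ a n p.1 p.2 (nb j v)
      linarith
    have h5 : 1 ≤ ∫ p, Real.exp (ε * TG θ a n p.1 p.2 (nb j v)) ∂(GM b θ ρ) := by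
      have h6 : ∫ _p, (1 : ℝ) ∂(GM b θ ρ) ≤
          ∫ p, Real.exp (ε * TG θ a n p.1 p.2 (nb j v)) ∂(GM b θ ρ) := by
        apply integral_mono (integrable_const 1) (integrable_exp_TG h0 h1 ha n _ ρ ε)
        intro p
        apply Real.one_le_exp
        exact mul_nonneg hε (by linarith [TG_ge_one h0 h1 ha n p.1 p.2 (nb j v)])
      simpa using h6
    have h6 : 0 ≤ a ^ 2 * (∫ p, Real.exp (ε * TG θ a n p.1 p.2 (nb j v)) ∂(GM b θ ρ) - 1) :=
      mul_nonneg (by positivity) (by linarith)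
    have h7 : 0 ≤ ε * a * ∫ p, TG θ a n p.1 p.2 (nb j v) ∂(GM b θ ρ) := by positivity
    linarith
  calc _ ≤ ∏ _j ∈ ch v, Real.exp (ε * a * m1 + a ^ 2 * (y - 1)) := Finset.prod_le_prod h3 h2
    _ = _ := by rw [Finset.prod_const, ← Real.exp_nat_mul]

lemma exp_fifth : Real.exp (1 / 5) ≤ 5 / 4 := by
  have h := Real.add_one_le_exp (-(1 / 5 : ℝ))
  have h2 : Real.exp (1 / 5) * Real.exp (-(1 / 5)) = 1 := by
    rw [← Real.exp_add]; simp
  nlinarith [Real.exp_pos (1 / 5), Real.exp_pos (-(1 / 5 : ℝ))]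

/-- The uniform bound away from the root. -/
lemma mgf_le {θ a : ℝ} (h0 : 0 ≤ θ) (h1 : θ < 1) (ha : 0 ≤ a) (ha1 : a ≤ 1)
    (ρ : Measure ℝ) [IsProbabilityMeasure ρ] {ε m1 : ℝ} (hε : 0 ≤ ε)
    (hm1 : ∀ (n : ℕ) (u : V b), u ≠ rt b → ∫ p, TG θ a n p.1 p.2 u ∂(GM b θ ρ) ≤ m1)
    (hsum : ε + b * (ε * a * m1 + a ^ 2 * (1 / 4)) ≤ 1 / 5)
    (n : ℕ) (v : V b) (hv : v ≠ rt b) :
    ∫ p, Real.exp (ε * TG θ a n p.1 p.2 v) ∂(GM b θ ρ) ≤ 5 / 4 := by
  have hG := GM_prob b h0 h1 ρ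
  have hm0 : 0 ≤ m1 := by
    have h2 := hm1 0 v hv
    simp only [TG_zero, integral_const, probReal_univ, one_smul] at h2
    linarith
  induction n generalizing v with
  | zero =>
    simp only [TG_zero, integral_const, probReal_univ, one_smul, mul_one]
    refine le_trans (Real.exp_le_exp.2 ?_) exp_fifth
    have : 0 ≤ (b : ℝ) * (ε * a * m1 + a ^ 2 * (1 / 4)) := by positivity
    linarith
  | succ n ih =>
    refine (mgf_step' h0 h1 ha ha1 n v ρ hε (hm1 n) (fun u hu => ih u hu)).trans ?_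
    rw [card_ch hv]
    refine le_trans (Real.exp_le_exp.2 ?_) exp_fifth
    norm_num at hsum ⊢
    linarith

/-- A bound at every vertex. -/
lemma mgf_le_all {θ a : ℝ} (hb : 1 ≤ b) (h0 : 0 ≤ θ) (h1 : θ < 1) (ha : 0 ≤ a) (ha1 : a ≤ 1)
    (ρ : Measure ℝ) [IsProbabilityMeasure ρ] {ε m1 : ℝ} (hε : 0 ≤ ε)
    (hm1 : ∀ (n : ℕ) (u : V b), u ≠ rt b → ∫ p, TG θ a n p.1 p.2 u ∂(GM b θ ρ) ≤ m1)
    (hsum : ε + b * (ε * a * m1 + a ^ 2 * (1 / 4)) ≤ 1 / 5)
    (n : ℕ) (v : V b) :
    ∫ p, Real.exp (ε * TG θ a n p.1 p.2 v) ∂(GM b θ ρ) ≤ Real.exp 1 := by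
  have hG := GM_prob b h0 h1 ρ
  obtain ⟨u0, hu0⟩ : ∃ u : V b, u ≠ rt b := ⟨nb 0 (rt b), nb_ne 0 (rt b)⟩
  have hm0 : 0 ≤ m1 := by
    have h2 := hm1 0 u0 hu0
    simp only [TG_zero, integral_const, probReal_univ, one_smul] at h2
    linarith
  have hpos : 0 ≤ ε * a * m1 + a ^ 2 * (1 / 4) := by positivity
  cases n with
  | zero =>
    simp only [TG_zero, integral_const, probReal_univ, one_smul, mul_one]
    apply Real.exp_le_exp.2
    have : 0 ≤ (b : ℝ) * (ε * a * m1 + a ^ 2 * (1 / 4)) := by positivity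
    linarith
  | succ n =>
    refine (mgf_step' h0 h1 ha ha1 n v ρ hε (hm1 n)
      (fun u hu => mgf_le h0 h1 ha ha1 ρ hε hm1 hsum n u hu)).trans ?_
    apply Real.exp_le_exp.2
    have hcard : ((ch v).card : ℝ) ≤ 2 * b := by
      have h2 : (ch v).card ≤ b + 1 := by
        calc (ch v).card ≤ (Finset.univ : Finset (Fin (b + 1))).card := Finset.card_le_univ _
          _ = b + 1 := by simp
      have h3 : (ch v).card ≤ 2 * b := by omega
      exact_mod_cast h3
    have h4 : ε * a * m1 + a ^ 2 * ((5 : ℝ) / 4 - 1) = ε * a * m1 + a ^ 2 * (1 / 4) := by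
      norm_num
    rw [h4]
    have h5 := mul_le_mul_of_nonneg_right hcard hpos
    linarith

/-! ### Chernoff at level `j` -/

lemma level_bound {θ a : ℝ} (hb : 1 ≤ b) (h0 : 0 ≤ θ) (h1 : θ < 1) (ha : 0 ≤ a) (ha1 : a ≤ 1)
    (ρ : Measure ℝ) [IsProbabilityMeasure ρ] {ε m1 : ℝ} (hε : 0 < ε)
    (hm1 : ∀ (n : ℕ) (u : V b), u ≠ rt b → ∫ p, TG θ a n p.1 p.2 u ∂(GM b θ ρ) ≤ m1)
    (hsum : ε + b * (ε * a * m1 + a ^ 2 * (1 / 4)) ≤ 1 / 5)
    (m j : ℕ) :
    GM b θ ρ {p | 3 / ε * b ^ j ≤ ∑ w ∈ Sph b j, TG θ a m p.1 p.2 w} ≤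
      ENNReal.ofReal (Real.exp (-(b : ℝ) ^ j)) := by
  have hG := GM_prob b h0 h1 ρ
  set X : {w // w ∈ Sph b j} → (V b → Bool) × (V b → ℝ) → ℝ := fun w p =>
    TG θ a m p.1 p.2 w.1 with hX
  have hXm : ∀ w, Measurable (X w) := fun w => measurable_TG θ a m _
  have hind : iIndepFun X (GM b θ ρ) := by
    apply GM_iIndepFun h0 h1 ρ (fun w : {w // w ∈ Sph b j} => Dsc w.1)
    · intro v w hvw
      apply Dsc_disjoint
      · rw [mem_Sph.1 v.2, mem_Sph.1 w.2]
      · intro h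
        exact hvw (Subtype.ext h)
    · exact hXm
    · intro w p p' h
      exact TG_dep θ a m _ p p' h
  have hsumX : ∀ p, ∑ w ∈ Sph b j, TG θ a m p.1 p.2 w =
      (∑ w ∈ (Finset.univ : Finset {w // w ∈ Sph b j}), X w) p := by
    intro p
    rw [Finset.sum_apply, Finset.univ_eq_attach, Finset.sum_attach (Sph b j)
      (fun w => TG θ a m p.1 p.2 w)]
  simp only [hsumX]
  have hint : Integrable (fun p => Real.exp (ε * (∑ w ∈ (Finset.univ :
      Finset {w // w ∈ Sph b j}), X w) p)) (GM b θ ρ) := by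
    obtain ⟨B, hB⟩ := abs_TG_le (b := b) h0 h1 ha m
    have hm : Measurable (∑ w ∈ (Finset.univ : Finset {w // w ∈ Sph b j}), X w) := by
      have h := Finset.measurable_sum (Finset.univ : Finset {w // w ∈ Sph b j})
        (fun w _ => hXm w)
      convert h using 1
      ext p
      rw [Finset.sum_apply]
    apply integrable_of_bdd (C := Real.exp (ε * ((Finset.univ :
      Finset {w // w ∈ Sph b j}).card * B)))
    · exact (hm.const_mul ε).exp
    · intro p
      rw [abs_of_pos (Real.exp_pos _)]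
      apply Real.exp_le_exp.2
      apply mul_le_mul_of_nonneg_left _ hε.le
      rw [Finset.sum_apply]
      calc ∑ w, X w p ≤ ∑ _w : {w // w ∈ Sph b j}, B :=
            Finset.sum_le_sum (fun w _ => (le_abs_self _).trans (hB p.1 p.2 w.1))
        _ = _ := by rw [Finset.sum_const, nsmul_eq_mul]
  have hch := measure_ge_le_exp_mul_mgf (μ := GM b θ ρ)
    (X := ∑ w ∈ (Finset.univ : Finset {w // w ∈ Sph b j}), X w) (3 / ε * b ^ j) hε.le hint
  rw [hind.mgf_sum hXm] at hch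
  have hprod : ∏ w ∈ (Finset.univ : Finset {w // w ∈ Sph b j}), mgf (X w) (GM b θ ρ) ε ≤
      Real.exp (2 * (b : ℝ) ^ j) := by
    calc ∏ w ∈ (Finset.univ : Finset {w // w ∈ Sph b j}), mgf (X w) (GM b θ ρ) ε
        ≤ ∏ _w ∈ (Finset.univ : Finset {w // w ∈ Sph b j}), Real.exp 1 := by
          apply Finset.prod_le_prod (fun _ _ => mgf_nonneg)
          intro w _
          exact mgf_le_all hb h0 h1 ha ha1 ρ hε.le hm1 hsum m w.1
      _ = Real.exp ((Sph b j).card) := by
          rw [Finset.prod_const, ← Real.exp_nat_mul, mul_one, Finset.card_univ,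
            Fintype.card_coe]
      _ ≤ Real.exp (2 * (b : ℝ) ^ j) := by
          apply Real.exp_le_exp.2
          have : (Sph b j).card ≤ 2 * b ^ j := by
            cases j with
            | zero => rw [Sph_zero]; simp
            | succ j =>
              rw [card_Sph_succ, pow_succ]
              have : (b + 1) * b ^ j ≤ 2 * b * b ^ j := Nat.mul_le_mul_right _ (by omega)
              linarith
          exact_mod_cast this
  have h5 : (GM b θ ρ).real {p | 3 / ε * b ^ j ≤ (∑ w ∈ (Finset.univ :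
      Finset {w // w ∈ Sph b j}), X w) p} ≤ Real.exp (-(b : ℝ) ^ j) := by
    refine hch.trans ?_
    calc Real.exp (-ε * (3 / ε * b ^ j)) * ∏ w ∈ (Finset.univ : Finset {w // w ∈ Sph b j}),
          mgf (X w) (GM b θ ρ) ε ≤ Real.exp (-ε * (3 / ε * b ^ j)) * Real.exp (2 * (b : ℝ) ^ j) :=
          mul_le_mul_of_nonneg_left hprod (Real.exp_pos _).le
      _ = Real.exp (-(b : ℝ) ^ j) := by
          rw [← Real.exp_add]
          congr 1
          field_simp
          ring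
  rw [← ofReal_measureReal]
  exact ENNReal.ofReal_le_ofReal h5

/-- The tail bound for the truncated sums at the root. -/
lemma trunc_bound {θ lam : ℝ} (hb : 2 ≤ b) (h0 : 0 ≤ θ) (h1 : θ < 1) (hlam : 0 ≤ lam)
    {a : ℝ} (haeq : a = Real.exp lam * (b : ℝ)⁻¹) (ha1 : a ≤ 1)
    (ρ : Measure ℝ) [IsProbabilityMeasure ρ] {ε m1 : ℝ} (hε : 0 < ε)
    (hm1 : ∀ (n : ℕ) (u : V b), u ≠ rt b → ∫ p, TG θ a n p.1 p.2 u ∂(GM b θ ρ) ≤ m1)
    (hsum : ε + b * (ε * a * m1 + a ^ 2 * (1 / 4)) ≤ 1 / 5)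
    (n j : ℕ) (hjn : j ≤ n) :
    GM b θ ρ {p | Real.exp (lam * j) * (2 * j + 3 / ε) < TG θ a n p.1 p.2 (rt b)} ≤
      ENNReal.ofReal (Real.exp (-(b : ℝ) ^ j)) := by
  have hbpos : (0 : ℝ) < b := by
    have : 0 < b := by omega
    exact_mod_cast this
  have hb2 : (2 : ℝ) ≤ b := by exact_mod_cast hb
  have ha : 0 ≤ a := by rw [haeq]; positivity
  obtain ⟨m, rfl⟩ := Nat.exists_eq_add_of_le hjn
  refine le_trans (measure_mono ?_) (level_bound (by omega) h0 h1 ha ha1 ρ hε hm1 hsum m j)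
  intro p hp
  simp only [Set.mem_ofPred_eq] at hp ⊢
  rw [TG_expand θ a p.1 p.2 (j + m) j m rfl] at hp
  have hcardS : ∀ k, ((Sph b k).card : ℝ) ≤ 2 * (b : ℝ) ^ k := by
    intro k
    have : (Sph b k).card ≤ 2 * b ^ k := by
      cases k with
      | zero => rw [Sph_zero]; simp
      | succ k =>
        rw [card_Sph_succ, pow_succ]
        have : (b + 1) * b ^ k ≤ 2 * b * b ^ k := Nat.mul_le_mul_right _ (by omega)
        linarith
    exact_mod_cast this
  have hak : ∀ k : ℕ, a ^ k * (b : ℝ) ^ k = Real.exp (lam * k) := by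
    intro k
    rw [← mul_pow, haeq, mul_assoc, inv_mul_cancel₀ hbpos.ne', mul_one, ← Real.exp_nat_mul]
    ring_nf
  have h2 : ∑ k ∈ Finset.range j, a ^ k * ∑ w ∈ Sph b k, DMl θ (j + m) p.1 p.2 (rt b) w.l ≤
      Real.exp (lam * j) * (2 * j) := by
    calc ∑ k ∈ Finset.range j, a ^ k * ∑ w ∈ Sph b k, DMl θ (j + m) p.1 p.2 (rt b) w.l
        ≤ ∑ k ∈ Finset.range j, Real.exp (lam * j) * 2 := by
          apply Finset.sum_le_sum
          intro k hk
          have hkj : k < j := Finset.mem_range.1 hk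
          have h3 : ∑ w ∈ Sph b k, DMl θ (j + m) p.1 p.2 (rt b) w.l ≤ (Sph b k).card := by
            calc _ ≤ ∑ _w ∈ Sph b k, (1 : ℝ) :=
                  Finset.sum_le_sum (fun w _ => DMl_le_one h0 h1 _ _ _ _ _)
              _ = _ := by simp
          calc a ^ k * ∑ w ∈ Sph b k, DMl θ (j + m) p.1 p.2 (rt b) w.l
              ≤ a ^ k * (2 * (b : ℝ) ^ k) := by
                apply mul_le_mul_of_nonneg_left _ (by positivity)
                exact h3.trans (hcardS k)
            _ = Real.exp (lam * k) * 2 := by rw [← hak k]; ring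
            _ ≤ Real.exp (lam * j) * 2 := by
                apply mul_le_mul_of_nonneg_right _ (by norm_num)
                apply Real.exp_le_exp.2
                apply mul_le_mul_of_nonneg_left _ hlam
                exact_mod_cast hkj.le
      _ = Real.exp (lam * j) * (2 * j) := by
          rw [Finset.sum_const, Finset.card_range, nsmul_eq_mul]; ring
  have h3 : a ^ j * ∑ w ∈ Sph b j, DMl θ (j + m) p.1 p.2 (rt b) w.l * TG θ a m p.1 p.2 w ≤
      a ^ j * ∑ w ∈ Sph b j, TG θ a m p.1 p.2 w := by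
    apply mul_le_mul_of_nonneg_left _ (by positivity)
    apply Finset.sum_le_sum
    intro w _
    have h4 := DMl_le_one h0 h1 (j + m) p.1 p.2 (rt b) w.l
    have h5 := TG_ge_one h0 h1 ha m p.1 p.2 w
    nlinarith
  have h4 : Real.exp (lam * j) * (3 / ε) < a ^ j * ∑ w ∈ Sph b j, TG θ a m p.1 p.2 w := by
    linarith
  rw [← hak j] at h4
  have h5 : 0 < a ^ j := by
    have : 0 < a := by rw [haeq]; positivity
    positivity
  have h6 : a ^ j * (3 / ε * (b : ℝ) ^ j) < a ^ j * ∑ w ∈ Sph b j, TG θ a m p.1 p.2 w := by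
    linarith
  exact (lt_of_mul_lt_mul_left h6 h5.le).le

/-! ### The limit -/

lemma tendsto_DMl {θ : ℝ} (h0 : 0 ≤ θ) (h1 : θ < 1) (s : Bool) (ξ : V b → Bool) (z : V b → ℝ)
    (hg : Good θ (hf s ξ z)) (w : V b) :
    Tendsto (fun n => DMl θ n ξ z (rt b) w.l) atTop (𝓝 (DD θ (hf s ξ z) (rt b) w)) := by
  have h2 : ∀ (l : List (Fin (b + 1))), l.IsChain (· ≠ ·) →
      Tendsto (fun n => DMl θ n ξ z (rt b) l) atTop (𝓝 (DDl θ (hf s ξ z) (rt b) l)) := by
    intro l
    induction l with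
    | nil => intro _; exact tendsto_const_nhds
    | cons i l ih =>
      intro hl
      simp only [DMl_cons, DDl_cons]
      apply (ih hl.tail).mul
      have h3 : follow (rt b) (i :: l) = ⟨i :: l, hl⟩ := follow_rt _ hl
      have h4 : ∀ n, kap θ (lh θ (n - l.length) ξ z (follow (rt b) (i :: l))) =
          kap θ (lm θ (n - l.length) (hf s ξ z) (follow (rt b) (i :: l)) i) := by
        intro n
        rw [lm_hf_head θ _ s ξ z _ i (by rw [h3]; rfl), kap_sg_mul]
      simp only [h4]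
      exact (hg.tendsto_kap h0 h1 _ i).comp (tendsto_sub_atTop_nat _)
  exact h2 w.l w.h

lemma Gl_lt_imp {θ lam : ℝ} (h0 : 0 ≤ θ) (h1 : θ < 1) (s : Bool) (ξ : V b → Bool) (z : V b → ℝ)
    (hg : Good θ (hf s ξ z)) {a : ℝ} (haeq : a = Real.exp lam * (b : ℝ)⁻¹) {A : ℝ} (hA : 0 ≤ A)
    (h : ENNReal.ofReal A < Gl θ lam (hf s ξ z)) :
    ∀ᶠ n in atTop, A < TG θ a n ξ z (rt b) := by
  have ha : 0 ≤ a := by rw [haeq]; positivity
  unfold Gl at h
  rw [tsum_eq_tsum_Sph] at h
  have hterm : ∀ k, ∑ w ∈ Sph b k, ENNReal.ofReal (Real.exp (lam * len w) * ((b : ℝ)⁻¹) ^ len w *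
      DD θ (hf s ξ z) (rt b) w) =
      ENNReal.ofReal (a ^ k * ∑ w ∈ Sph b k, DD θ (hf s ξ z) (rt b) w) := by
    intro k
    rw [Finset.mul_sum, ENNReal.ofReal_sum_of_nonneg]
    · apply Finset.sum_congr rfl
      intro w hw
      rw [mem_Sph.1 hw]
      congr 2
      rw [haeq, mul_pow, ← Real.exp_nat_mul]
      ring_nf
    · intro w _
      exact mul_nonneg (by positivity) (DD_pos h0 h1 _ _ _).le
  simp only [hterm] at h
  rw [ENNReal.tsum_eq_iSup_nat] at h
  obtain ⟨m, hm⟩ := lt_iSup_iff.1 h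
  have hnn : ∀ k ∈ Finset.range m, 0 ≤ a ^ k * ∑ w ∈ Sph b k, DD θ (hf s ξ z) (rt b) w := by
    intro k _
    exact mul_nonneg (by positivity) (Finset.sum_nonneg (fun w _ => (DD_pos h0 h1 _ _ _).le))
  rw [← ENNReal.ofReal_sum_of_nonneg hnn] at hm
  have hm2 := (ENNReal.ofReal_lt_ofReal_iff_of_nonneg hA).1 hm
  have hlim : Tendsto (fun n => ∑ k ∈ Finset.range m, a ^ k * ∑ w ∈ Sph b k,
      DMl θ n ξ z (rt b) w.l) atTop
      (𝓝 (∑ k ∈ Finset.range m, a ^ k * ∑ w ∈ Sph b k, DD θ (hf s ξ z) (rt b) w)) := by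
    apply tendsto_finsetSum
    intro k _
    apply Tendsto.const_mul
    apply tendsto_finsetSum
    intro w _
    exact tendsto_DMl h0 h1 s ξ z hg w
  filter_upwards [hlim.eventually (eventually_gt_nhds hm2), eventually_ge_atTop m] with n hn hmn
  refine lt_of_lt_of_le hn ?_
  obtain ⟨r, rfl⟩ := Nat.exists_eq_add_of_le hmn
  rw [TG_expand θ a ξ z (m + r) m r rfl]
  have : 0 ≤ a ^ m * ∑ w ∈ Sph b m, DMl θ (m + r) ξ z (rt b) w.l * TG θ a r ξ z w := by
    apply mul_nonneg (by positivity)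
    apply Finset.sum_nonneg
    intro w _
    apply mul_nonneg (DMl_pos h0 h1 _ _ _ _ _).le
    linarith [TG_ge_one h0 h1 ha r ξ z w]
  linarith

lemma info_le_one {ρ : Measure ℝ} [IsProbabilityMeasure ρ] : info ρ ≤ 1 := by
  unfold info
  calc ∫ x, Real.tanh x ^ 2 ∂ρ ≤ ∫ _x, (1 : ℝ) ∂ρ := by
        apply integral_mono_of_nonneg
        · exact Filter.Eventually.of_forall (fun x => sq_nonneg _)
        · exact integrable_const 1
        · exact Filter.Eventually.of_forall (fun x => (Real.tanh_sq_lt_one x).le)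
    _ = 1 := by simp

theorem main (hDecay : Spec.Decay) (hGood : Spec.GoodPL) : Spec.Tail := by
  intro b θ hb hθ hbθ
  have hb2 : (2 : ℝ) ≤ b := by exact_mod_cast hb
  have h0 : 0 ≤ θ := hθ.le
  have h1 : θ < 1 := by
    by_contra h
    push Not at h
    nlinarith
  obtain ⟨C, c, hc, hD⟩ := hDecay b θ hb hθ hbθ
  set C' := max C 0 with hC'
  have hC'0 : 0 ≤ C' := le_max_right _ _
  set K1 := C' * (2 / c + 1) with hK1
  have hK10 : 0 ≤ K1 := by positivity
  set c1 : ℝ := 1 / (40 * (1 + K1)) with hc1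
  have hc10 : 0 < c1 := by positivity
  set c0 : ℝ := min (c / 2) (1 / 20) with hc0
  have hc00 : 0 < c0 := by positivity
  refine ⟨c0, 3 / c1, hc00, by positivity, ?_⟩
  intro ρ H hρ hinfo lam hlam hlam2 j
  have hprob := hρ.prob
  have hG := GM_prob b h0 h1 ρ
  set s := Real.sqrt (info ρ) with hs
  have hs0 : 0 < s := Real.sqrt_pos.2 hinfo
  have hs1 : s ≤ 1 := by
    rw [hs]
    exact Real.sqrt_le_one.2 info_le_one
  have hlamc : lam ≤ c / 2 * s := hlam2.trans (mul_le_mul_of_nonneg_right (min_le_left _ _) hs0.le)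
  have hlam20 : lam ≤ 1 / 20 := by
    calc lam ≤ c0 * s := hlam2
      _ ≤ 1 / 20 * 1 := by
          apply mul_le_mul (min_le_right _ _) hs1 hs0.le (by norm_num)
      _ = 1 / 20 := by norm_num
  have hexp2 : Real.exp (2 * lam) ≤ 6 / 5 := by
    have h2 := Real.add_one_le_exp (-(2 * lam))
    have h3 : Real.exp (2 * lam) * Real.exp (-(2 * lam)) = 1 := by
      rw [← Real.exp_add]; simp
    have h4 : 9 / 10 ≤ Real.exp (-(2 * lam)) := by linarith
    nlinarith [Real.exp_pos (2 * lam)]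
  have hexp1 : Real.exp lam ≤ 6 / 5 := by
    refine le_trans (Real.exp_le_exp.2 ?_) hexp2
    linarith
  have hbpos : (0 : ℝ) < b := by linarith
  obtain ⟨a, haeq⟩ : ∃ a, a = Real.exp lam * (b : ℝ)⁻¹ := ⟨_, rfl⟩
  have ha : 0 ≤ a := by rw [haeq]; positivity
  have hab : a * b = Real.exp lam := by
    rw [haeq, mul_assoc, inv_mul_cancel₀ hbpos.ne', mul_one]
  have ha1 : a ≤ 1 := by
    have : a * 2 ≤ a * b := mul_le_mul_of_nonneg_left hb2 ha
    linarith
  have hD' : ∀ (Mx : ℕ) (v : V b) (r : List (Fin (b + 1))), (r ++ v.l).IsChain (· ≠ ·) →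
      r.length ≤ Mx → ∫ p, DMl θ Mx p.1 p.2 v r ∂(GM b θ ρ) ≤
        C' * Real.exp (-((c * s) * r.length)) := by
    intro Mx v r hr hl
    refine (hD ρ H hρ Mx v r hr hl).trans ?_
    rw [hs]
    exact mul_le_mul_of_nonneg_right (le_max_left _ _) (Real.exp_pos _).le
  have hm1 : ∀ (n : ℕ) (u : V b), u ≠ rt b → ∫ p, TG θ a n p.1 p.2 u ∂(GM b θ ρ) ≤ K1 / s := by
    intro n u hu
    have h2 := mean_le h0 h1 ha ρ hC'0 (q' := c / 2 * s) (by positivity) (by
      rw [hab]
      apply Real.exp_le_exp.2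
      linarith) hD' n u hu
    refine h2.trans ?_
    rw [hK1, mul_div_assoc]
    apply mul_le_mul_of_nonneg_left _ hC'0
    rw [div_le_div_iff₀ (by positivity) hs0]
    have h3 : (2 / c + 1) * (c / 2 * s) = s + c / 2 * s := by
      field_simp
    rw [h3]
    have h4 : c / 2 * s * s ≤ c / 2 * s * 1 := mul_le_mul_of_nonneg_left hs1 (by positivity)
    linarith
  set ε := c1 * s with hε
  have hε0 : 0 < ε := by positivity
  have hεc : ε ≤ c1 := by
    have := mul_le_mul_of_nonneg_left hs1 hc10.le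
    linarith
  have hsum : ε + b * (ε * a * (K1 / s) + a ^ 2 * (1 / 4)) ≤ 1 / 5 := by
    have e1 : b * (ε * a * (K1 / s)) = c1 * K1 * Real.exp lam := by
      rw [← hab, hε]
      field_simp
    have e2 : (b : ℝ) * (a ^ 2 * (1 / 4)) ≤ 3 / 20 := by
      have e3 : (b : ℝ) * (a ^ 2 * (1 / 4)) = (a * b) ^ 2 / (4 * b) := by
        field_simp
      rw [e3, hab, ← Real.exp_nat_mul]
      push_cast
      rw [div_le_iff₀ (by positivity)]
      linarith
    rw [mul_add, e1]
    have e4 : c1 * K1 * Real.exp lam ≤ c1 * K1 * (6 / 5) :=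
      mul_le_mul_of_nonneg_left hexp1 (by positivity)
    have e5 : c1 * (1 + K1) = 1 / 40 := by
      rw [hc1]; field_simp
    have e6 : c1 + c1 * K1 * (6 / 5) ≤ (6 / 5) * (c1 * (1 + K1)) := by nlinarith
    rw [e5] at e6
    linarith
  have hA0 : 0 ≤ Real.exp (lam * j) * (2 * j + 3 / ε) := by positivity
  have hAeq : Real.exp (lam * j) * (2 * j + 3 / c1 / s) =
      Real.exp (lam * j) * (2 * j + 3 / ε) := by
    rw [hε, div_div]
  rw [hAeq]
  set A := Real.exp (lam * j) * (2 * j + 3 / ε) with hA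
  set S : Set (V b → ℝ) := {h | ENNReal.ofReal A < Gl θ lam h} with hS
  have hSm : MeasurableSet S := measurableSet_lt measurable_const (measurable_Gl θ lam)
  -- the bound for both signs
  have hsgn : ∀ t : Bool, GM b θ ρ {p | hf t p.1 p.2 ∈ S} ≤
      ENNReal.ofReal (Real.exp (-(b : ℝ) ^ j)) := by
    intro t
    have hgood := ae_hf_of_ae_PL h0 h1 ρ (hGood b θ (by omega) h0 h1 ρ H hρ) t
    have h2 : GM b θ ρ {p | hf t p.1 p.2 ∈ S} ≤
        GM b θ ρ (⋃ N : ℕ, ⋂ n ∈ Set.Ici N, {p | A < TG θ a n p.1 p.2 (rt b)}) := by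
      apply measure_mono_ae
      filter_upwards [hgood] with p hp hpS
      have h3 := Gl_lt_imp h0 h1 t p.1 p.2 hp.1 haeq hA0 hpS
      obtain ⟨N, hN⟩ := eventually_atTop.1 h3
      exact Set.mem_iUnion.2 ⟨N, Set.mem_iInter₂.2 (fun n hn => hN n hn)⟩
    refine h2.trans ?_
    rw [Monotone.measure_iUnion]
    · apply iSup_le
      intro N
      refine le_trans (measure_mono ?_) (trunc_bound hb h0 h1 hlam haeq ha1 ρ hε0 hm1 hsum
        (max N j) j (le_max_right _ _))
      exact Set.iInter₂_subset (max N j) (Set.mem_Ici.2 (le_max_left _ _))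
    · intro N N' hNN'
      apply Set.biInter_subset_biInter_left
      exact Set.Ici_subset_Ici.2 hNN'
  have h4 := lintegral_PL (b := b) h0 h1 ρ (F := S.indicator 1) (measurable_one.indicator hSm)
  rw [lintegral_indicator_one hSm] at h4
  have h5 : ∀ t : Bool, ∫⁻ p, S.indicator 1 (hf t p.1 p.2) ∂(GM b θ ρ) =
      GM b θ ρ {p | hf t p.1 p.2 ∈ S} := by
    intro t
    have h6 : MeasurableSet {p : (V b → Bool) × (V b → ℝ) | hf t p.1 p.2 ∈ S} :=
      (measurable_hf_s t) hSm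
    rw [← lintegral_indicator_one h6]
    rfl
  rw [h5, h5] at h4
  rw [h4]
  calc ENNReal.ofReal (1 / 2) * (GM b θ ρ {p | hf true p.1 p.2 ∈ S} +
        GM b θ ρ {p | hf false p.1 p.2 ∈ S})
      ≤ ENNReal.ofReal (1 / 2) * (ENNReal.ofReal (Real.exp (-(b : ℝ) ^ j)) +
        ENNReal.ofReal (Real.exp (-(b : ℝ) ^ j))) := by
        gcongr
        · exact hsgn true
        · exact hsgn false
    _ = ENNReal.ofReal (Real.exp (-(b : ℝ) ^ j)) := by
        rw [← ENNReal.ofReal_add (Real.exp_pos _).le (Real.exp_pos _).le,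
          ← ENNReal.ofReal_mul (by norm_num)]
        congr 1
        ring

end Crest.Agent.IsgTail
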