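import Crest.Agent.IsgIndep

set_option autoImplicit false

/-!
Module TEMPERA for S0241: variance bound for sums of even local functionals.
-/

open MeasureTheory ProbabilityTheory Filter Topology

namespace Crest.Agent.IsgTemperA

open Crest.Agent.Isg

variable {b : ℕ}

/-- Truncation. -/
noncomputable def clp (H x : ℝ) : ℝ := max (-H) (min H x)

lemma clp_neg {H : ℝ} (hH : 0 ≤ H) (x : ℝ) : clp H (-x) = - clp H x := by
  unfold clp
  rcases le_total x (-H) with h | h
  · rw [min_eq_left (by linarith : H ≤ -x), max_eq_right (by linarith), min_eq_right (by linarith),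
      max_eq_left h, neg_neg]
  · rcases le_total x H with h' | h'
    · rw [min_eq_right (by linarith : -x ≤ H), max_eq_right (by linarith), min_eq_right h',
        max_eq_right h]
    · rw [min_eq_right (by linarith : -x ≤ H), max_eq_left (by linarith), min_eq_left h',
        max_eq_right (by linarith)]

lemma abs_clp {H : ℝ} (hH : 0 ≤ H) (x : ℝ) : |clp H x| ≤ H := by
  unfold clp
  rw [abs_le]
  exact ⟨le_max_left _ _, max_le (by linarith) (min_le_left _ _)⟩

lemma clp_eq {H x : ℝ} (h : |x| ≤ H) : clp H x = x := by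
  rw [abs_le] at h
  unfold clp
  rw [min_eq_right h.2, max_eq_right h.1]

lemma measurable_clp (H : ℝ) : Measurable (clp H) := by
  unfold clp
  exact measurable_const.max (measurable_const.min measurable_id)

/-- The truncated even local functional. -/
noncomputable def FF (θ H : ℝ) (N : ℕ) (e : V b × Fin (b + 1)) (h : V b → ℝ) : ℝ :=
  -Real.log (kap θ (lm θ N (fun v => clp H (h v)) e.1 e.2))

lemma measurable_FF (θ H : ℝ) (N : ℕ) (e : V b × Fin (b + 1)) : Measurable (FF θ H N e) := by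
  unfold FF
  have h1 : Measurable (fun (h : V b → ℝ) (v : V b) => clp H (h v)) :=
    measurable_pi_lambda _ (fun v => (measurable_clp H).comp (measurable_pi_apply v))
  exact (Real.measurable_log.comp ((measurable_kap θ).comp
    ((measurable_lm θ N e.1 e.2).comp h1))).neg

lemma clp_hf {H : ℝ} (hH : 0 ≤ H) (s : Bool) (ξ : V b → Bool) (z : V b → ℝ) :
    (fun v => clp H (hf s ξ z v)) = hf s ξ (fun v => clp H (z v)) := by
  ext v
  unfold hf
  rcases sg_cases (spin s ξ v) with h | h <;> rw [h]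
  · simp
  · simp [clp_neg hH]

lemma FF_hf {θ H : ℝ} (hH : 0 ≤ H) (N : ℕ) (e : V b × Fin (b + 1)) (s : Bool) (ξ : V b → Bool)
    (z : V b → ℝ) : FF θ H N e (hf s ξ z) =
      -Real.log (kap θ (loc θ N ξ (fun v => clp H (z v)) e.1 e.2)) := by
  unfold FF
  rw [clp_hf hH, lm_hf, kap_sg_mul]

lemma FF_local {θ H : ℝ} (hH : 0 ≤ H) (N : ℕ) (e : V b × Fin (b + 1)) (s : Bool)
    (p p' : (V b → Bool) × (V b → ℝ))
    (h : ∀ v ∈ (Sub N e.1 e.2 : Set (V b)), p.1 v = p'.1 v ∧ p.2 v = p'.2 v) :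
    FF θ H N e (hf s p.1 p.2) = FF θ H N e (hf s p'.1 p'.2) := by
  rw [FF_hf hH, FF_hf hH]
  rw [loc_congr θ N p.1 p'.1 (fun v => clp H (p.2 v)) (fun v => clp H (p'.2 v)) e.1 e.2
    (fun v hv => (h v hv).1) (fun v hv => by rw [(h v hv).2])]

/-- Uniform bound. -/
lemma FF_bound {θ : ℝ} (h0 : 0 ≤ θ) (h1 : θ < 1) {H : ℝ} (hH : 0 ≤ H) :
    ∃ B : ℝ, 0 ≤ B ∧ ∀ (N : ℕ) (e : V b × Fin (b + 1)) (h : V b → ℝ), |FF θ H N e h| ≤ B := by
  set K := H + b * Real.artanh θ with hK
  refine ⟨-Real.log (1 - Real.tanh K ^ 2), ?_, ?_⟩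
  · have := Real.log_nonpos (one_sub_tanh_sq_pos K).le (by nlinarith [sq_nonneg (Real.tanh K)])
    linarith
  · intro N e h
    unfold FF
    set x := lm θ N (fun v => clp H (h v)) e.1 e.2 with hx
    have hxK : |x| ≤ K := by
      have := abs_lm_le h0 h1 N (fun v => clp H (h v)) e.1 e.2
      have h2 := abs_clp hH (h e.1)
      linarith
    have hk1 := kap_le_one h0 h1 x
    have hk0 := kap_pos h0 h1 x
    have hk2 := kap_ge h0 h1 x
    have h3 : Real.tanh x ^ 2 ≤ Real.tanh K ^ 2 := by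
      rw [sq_le_sq]
      have hK0 : 0 ≤ K := le_trans (abs_nonneg _) hxK
      have h4 : |Real.tanh x| = Real.tanh |x| := by
        rcases abs_cases x with ⟨h, h'⟩ | ⟨h, h'⟩
        · rw [h, abs_of_nonneg]
          have := tanh_strictMono.monotone h'
          rwa [Real.tanh_zero] at this
        · rw [h, Real.tanh_neg, abs_of_nonpos]
          have := tanh_strictMono.monotone h'.le
          rwa [Real.tanh_zero] at this
      rw [h4]
      exact (tanh_strictMono.monotone hxK).trans (le_abs_self _)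
    have h5 : Real.log (1 - Real.tanh K ^ 2) ≤ Real.log (kap θ x) :=
      Real.log_le_log (one_sub_tanh_sq_pos K) (by linarith)
    have h6 : Real.log (kap θ x) ≤ 0 := Real.log_nonpos hk0.le hk1
    rw [abs_le]
    constructor <;> linarith

/-- Real integrals of even functionals. -/
lemma integral_PL_even {θ : ℝ} (h0 : 0 ≤ θ) (h1 : θ < 1) (ρ : Measure ℝ)
    [IsProbabilityMeasure ρ] {F : (V b → ℝ) → ℝ} (hF : Measurable F)
    (he : ∀ (ξ : V b → Bool) (z : V b → ℝ), F (hf false ξ z) = F (hf true ξ z)) :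
    ∫ h, F h ∂(PL b θ ρ) = ∫ p, F (hf true p.1 p.2) ∂(GM b θ ρ) := by
  have := GM_prob b h0 h1 ρ
  rw [PL_eq b h0 h1 ρ, integral_map measurable_hf.aemeasurable hF.aestronglyMeasurable]
  have h2 : ∀ q : Bool × ((V b → Bool) × (V b → ℝ)), F (hf q.1 q.2.1 q.2.2) =
      (fun p : (V b → Bool) × (V b → ℝ) => F (hf true p.1 p.2)) (Prod.snd q) := by
    rintro ⟨s, ξ, z⟩
    cases s
    · exact he ξ z
    · rfl
  simp_rw [h2]
  have h3 : (((bern (1 / 2)).prod (GM b θ ρ)).map Prod.snd) = GM b θ ρ := by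
    have := measurePreserving_snd (μ := bern (1 / 2)) (ν := GM b θ ρ)
    exact this.map_eq
  conv_rhs => rw [← h3]
  rw [integral_map (f := fun p : (V b → Bool) × (V b → ℝ) => F (hf true p.1 p.2))
    measurable_snd.aemeasurable (hF.comp (measurable_hf_s true)).aestronglyMeasurable]

lemma card_Bl (N : ℕ) (u : V b) : (Bl N u).card = (Bl N (rt b)).card := by
  have h : Bl N u = (Bl N (rt b)).map (lmulE u).toEmbedding := by
    ext v
    rw [Finset.mem_map]
    constructor
    · intro hv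
      refine ⟨mul (inv u) v, ?_, ?_⟩
      · have := (mem_Bl_mul (g := u) (u := rt b) (v := mul (inv u) v) (N := N)).1
        rw [mul_inv_cancel_left', mul_rt] at this
        exact this hv
      · exact mul_inv_cancel_left' u v
    · rintro ⟨w, hw, rfl⟩
      have := (mem_Bl_mul (g := u) (u := rt b) (v := w) (N := N)).2 hw
      rwa [mul_rt] at this
  rw [h, Finset.card_map]

/-- The elementary quadratic form estimate. -/
lemma quad_bound {E : Type*} (S : Finset E) (a : E → ℝ) (R : E → E → Prop) [DecidableRel R]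
    (hsymm : ∀ e f, R e f → R f e) (K : ℕ) (hK : ∀ e, (S.filter (fun f => R e f)).card ≤ K)
    (c : E → E → ℝ) (B : ℝ) (hB : 0 ≤ B) (hc : ∀ e f, |c e f| ≤ B)
    (hc0 : ∀ e f, ¬ R e f → c e f = 0) :
    ∑ e ∈ S, ∑ f ∈ S, a e * a f * c e f ≤ B * K * ∑ e ∈ S, a e ^ 2 := by
  have h1 : ∀ e f, a e * a f * c e f ≤ if R e f then B * (a e ^ 2 / 2) + B * (a f ^ 2 / 2) else 0 := by
    intro e f
    by_cases h : R e f
    · rw [if_pos h]
      have h2 : a e * a f * c e f ≤ |a e * a f| * B := by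
        calc a e * a f * c e f ≤ |a e * a f * c e f| := le_abs_self _
          _ = |a e * a f| * |c e f| := abs_mul _ _
          _ ≤ |a e * a f| * B := mul_le_mul_of_nonneg_left (hc e f) (abs_nonneg _)
      have h3 : |a e * a f| ≤ a e ^ 2 / 2 + a f ^ 2 / 2 := by
        rw [abs_le]
        constructor <;> nlinarith [sq_nonneg (a e + a f), sq_nonneg (a e - a f)]
      nlinarith
    · rw [if_neg h, hc0 e f h, mul_zero]
  calc ∑ e ∈ S, ∑ f ∈ S, a e * a f * c e f
      ≤ ∑ e ∈ S, ∑ f ∈ S, (if R e f then B * (a e ^ 2 / 2) + B * (a f ^ 2 / 2) else 0) :=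
        Finset.sum_le_sum (fun e _ => Finset.sum_le_sum (fun f _ => h1 e f))
    _ = ∑ e ∈ S, ∑ f ∈ S, (if R e f then B * (a e ^ 2 / 2) else 0) +
        ∑ e ∈ S, ∑ f ∈ S, (if R e f then B * (a f ^ 2 / 2) else 0) := by
        rw [← Finset.sum_add_distrib]
        apply Finset.sum_congr rfl
        intro e _
        rw [← Finset.sum_add_distrib]
        apply Finset.sum_congr rfl
        intro f _
        split_ifs <;> simp
    _ = ∑ e ∈ S, ∑ f ∈ S, (if R e f then B * (a e ^ 2 / 2) else 0) +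
        ∑ e ∈ S, ∑ f ∈ S, (if R e f then B * (a e ^ 2 / 2) else 0) := by
        congr 1
        rw [Finset.sum_comm]
        apply Finset.sum_congr rfl
        intro e _
        apply Finset.sum_congr rfl
        intro f _
        by_cases h : R e f
        · rw [if_pos h, if_pos (hsymm _ _ h)]
        · rw [if_neg h, if_neg (fun h' => h (hsymm _ _ h'))]
    _ = ∑ e ∈ S, ((S.filter (fun f => R e f)).card : ℝ) * (B * a e ^ 2) := by
        rw [← Finset.sum_add_distrib]
        apply Finset.sum_congr rfl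
        intro e _
        rw [← Finset.sum_filter, Finset.sum_const, nsmul_eq_mul]
        ring
    _ ≤ ∑ e ∈ S, (K : ℝ) * (B * a e ^ 2) := by
        apply Finset.sum_le_sum
        intro e _
        apply mul_le_mul_of_nonneg_right
        · exact_mod_cast hK e
        · positivity
    _ = B * K * ∑ e ∈ S, a e ^ 2 := by
        rw [Finset.mul_sum]
        apply Finset.sum_congr rfl
        intro e _
        ring

/-- Variance bound under the planted law. -/
theorem var_PL {θ : ℝ} (h0 : 0 ≤ θ) (h1 : θ < 1) {H : ℝ} (hH : 0 ≤ H) (N : ℕ) :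
    ∃ C : ℝ, 0 ≤ C ∧ ∀ (ρ : Measure ℝ) [IsProbabilityMeasure ρ],
      ∀ (S : Finset (V b × Fin (b + 1))) (a : V b × Fin (b + 1) → ℝ),
        ∫ h, (∑ e ∈ S, a e * (FF θ H N e h - ∫ h', FF θ H N e h' ∂(PL b θ ρ))) ^ 2 ∂(PL b θ ρ) ≤
          C * ∑ e ∈ S, a e ^ 2 := by
  classical
  obtain ⟨B, hB0, hB⟩ := FF_bound (b := b) h0 h1 hH
  refine ⟨(4 * B ^ 2) * ((Bl (2 * N) (rt b)).card * (b + 1) : ℕ), by positivity, ?_⟩
  intro ρ _ S a
  have hPL := PL_prob b h0 h1 ρ
  have hGM := GM_prob b h0 h1 ρ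
  set m : V b × Fin (b + 1) → ℝ := fun e => ∫ h', FF θ H N e h' ∂(PL b θ ρ) with hm
  have hmB : ∀ e, |m e| ≤ B := by
    intro e
    have := norm_integral_le_of_norm_le_const (μ := PL b θ ρ) (f := FF θ H N e) (C := B)
      (Filter.Eventually.of_forall (fun h => by rw [Real.norm_eq_abs]; exact hB N e h))
    simpa using this
  have hev : ∀ e (ξ : V b → Bool) (z : V b → ℝ),
      FF θ H N e (hf false ξ z) = FF θ H N e (hf true ξ z) := by
    intro e ξ z
    rw [FF_hf hH, FF_hf hH]
  set c : V b × Fin (b + 1) → V b × Fin (b + 1) → ℝ := fun e f =>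
    ∫ h, (FF θ H N e h - m e) * (FF θ H N f h - m f) ∂(PL b θ ρ) with hc
  have hX : ∀ e h, |FF θ H N e h - m e| ≤ 2 * B := by
    intro e h
    have h2 := hB N e h
    have h3 := hmB e
    rw [abs_le] at h2 h3 ⊢
    constructor <;> linarith [h2.1, h2.2, h3.1, h3.2]
  have hXm : ∀ e, Measurable (fun h => FF θ H N e h - m e) := fun e =>
    (measurable_FF θ H N e).sub measurable_const
  have hprod : ∀ e f h, |(FF θ H N e h - m e) * (FF θ H N f h - m f)| ≤ 4 * B ^ 2 := by
    intro e f h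
    rw [abs_mul]
    calc |FF θ H N e h - m e| * |FF θ H N f h - m f| ≤ (2 * B) * (2 * B) :=
          mul_le_mul (hX e h) (hX f h) (abs_nonneg _) (by linarith)
      _ = 4 * B ^ 2 := by ring
  have hint : ∀ e f, Integrable (fun h => (FF θ H N e h - m e) * (FF θ H N f h - m f))
      (PL b θ ρ) := by
    intro e f
    apply Integrable.of_bound ((hXm e).mul (hXm f)).aestronglyMeasurable (4 * B ^ 2)
    exact Filter.Eventually.of_forall (fun h => by rw [Real.norm_eq_abs]; exact hprod e f h)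
  have hexp : ∫ h, (∑ e ∈ S, a e * (FF θ H N e h - m e)) ^ 2 ∂(PL b θ ρ) =
      ∑ e ∈ S, ∑ f ∈ S, a e * a f * c e f := by
    have h2 : ∀ h, (∑ e ∈ S, a e * (FF θ H N e h - m e)) ^ 2 =
        ∑ e ∈ S, ∑ f ∈ S, a e * a f * ((FF θ H N e h - m e) * (FF θ H N f h - m f)) := by
      intro h
      rw [sq, Finset.sum_mul_sum]
      apply Finset.sum_congr rfl
      intro e _
      apply Finset.sum_congr rfl
      intro f _
      ring
    simp_rw [h2]
    rw [integral_finsetSum]
    · apply Finset.sum_congr rfl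
      intro e _
      rw [integral_finsetSum]
      · apply Finset.sum_congr rfl
        intro f _
        rw [integral_const_mul]
      · intro f _
        exact (hint e f).const_mul _
    · intro e _
      apply integrable_finsetSum
      intro f _
      exact (hint e f).const_mul _
  rw [hexp]
  apply quad_bound S a (fun e f => ¬ Disjoint (Sub N e.1 e.2) (Sub N f.1 f.2))
  · intro e f h h'
    exact h h'.symm
  · intro e
    have hsub : S.filter (fun f => ¬ Disjoint (Sub N e.1 e.2) (Sub N f.1 f.2)) ⊆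
        (Bl (2 * N) e.1) ×ˢ (Finset.univ : Finset (Fin (b + 1))) := by
      intro f hf
      rw [Finset.mem_filter] at hf
      rw [Finset.mem_product]
      refine ⟨?_, Finset.mem_univ _⟩
      obtain ⟨v, hv1, hv2⟩ := Finset.not_disjoint_iff.1 hf.2
      rw [mem_Sub] at hv1 hv2
      rw [mem_Bl]
      have h3 := dst_triangle e.1 v f.1
      rw [dst_comm v f.1] at h3
      omega
    have := Finset.card_le_card hsub
    rw [Finset.card_product, card_Bl] at this
    simpa using this
  · positivity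
  · intro e f
    have := norm_integral_le_of_norm_le_const (μ := PL b θ ρ)
      (f := fun h => (FF θ H N e h - m e) * (FF θ H N f h - m f)) (C := 4 * B ^ 2)
      (Filter.Eventually.of_forall (fun h => by rw [Real.norm_eq_abs]; exact hprod e f h))
    simpa using this
  · intro e f hef
    rw [not_not] at hef
    have h2 : c e f = ∫ p, (FF θ H N e (hf true p.1 p.2) - m e) *
        (FF θ H N f (hf true p.1 p.2) - m f) ∂(GM b θ ρ) := by
      rw [hc]
      apply integral_PL_even h0 h1 ρ ((hXm e).mul (hXm f))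
      intro ξ z
      simp only [Pi.mul_apply]
      rw [hev e, hev f]
    have hind : IndepFun (fun p : (V b → Bool) × (V b → ℝ) => FF θ H N e (hf true p.1 p.2) - m e)
        (fun p => FF θ H N f (hf true p.1 p.2) - m f) (GM b θ ρ) := by
      apply GM_indepFun h0 h1 ρ (S := (Sub N e.1 e.2 : Set (V b)))
        (T := (Sub N f.1 f.2 : Set (V b))) (Finset.disjoint_coe.2 hef)
      · exact (hXm e).comp (measurable_hf_s true)
      · exact (hXm f).comp (measurable_hf_s true)
      · intro p p' h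
        rw [FF_local hH N e true p p' h]
      · intro p p' h
        rw [FF_local hH N f true p p' h]
    rw [h2]
    have h3 := hind.integral_mul_eq_mul_integral
      ((hXm e).comp (measurable_hf_s true)).aestronglyMeasurable
      ((hXm f).comp (measurable_hf_s true)).aestronglyMeasurable
    have h4 : ∫ p, (FF θ H N e (hf true p.1 p.2) - m e) ∂(GM b θ ρ) = 0 := by
      rw [← integral_PL_even h0 h1 ρ (hXm e) (fun ξ z => by rw [hev e])]
      rw [integral_sub]
      · simp [hm]
      · apply Integrable.of_bound (measurable_FF θ H N e).aestronglyMeasurable B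
        exact Filter.Eventually.of_forall (fun h => by rw [Real.norm_eq_abs]; exact hB N e h)
      · exact integrable_const _
    have h5 : ∫ p, (FF θ H N e (hf true p.1 p.2) - m e) *
        (FF θ H N f (hf true p.1 p.2) - m f) ∂(GM b θ ρ) =
        (∫ p, (FF θ H N e (hf true p.1 p.2) - m e) ∂(GM b θ ρ)) *
        (∫ p, (FF θ H N f (hf true p.1 p.2) - m f) ∂(GM b θ ρ)) := h3
    rw [h5, h4, zero_mul]

lemma GoodH_PL_bdd {θ : ℝ} (h0 : 0 ≤ θ) (h1 : θ < 1) (ρ : Measure ℝ) (H : ℝ) (hC : Chan ρ H) :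
    ∀ᵐ h ∂(PL b θ ρ), ∀ v, |h v| ≤ H := by
  have := hC.prob
  have hμ := isProb_mu (b := b) h0 h1
  rw [ae_all_iff]
  intro v
  have hms : MeasurableSet {h : V b → ℝ | |h v| ≤ H} :=
    measurableSet_le (measurable_pi_apply v).abs measurable_const
  unfold PL
  rw [ae_map_iff measurable_plant.aemeasurable hms]
  have h2 : ∀ᵐ z ∂(Measure.infinitePi (fun _ : V b => ρ)), |z v| ≤ H := by
    have h3 := Measure.infinitePi_map_eval (fun _ : V b => ρ) v
    have h4 := hC.bdd
    rw [← h3] at h4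
    exact ae_of_ae_map (measurable_pi_apply v).aemeasurable h4
  have h5 := Measure.quasiMeasurePreserving_snd (μ := mu b θ)
    (ν := Measure.infinitePi (fun _ : V b => ρ))
  have h6 := h5.ae h2
  filter_upwards [h6] with p hp
  rw [abs_mul, abs_sg, one_mul]
  exact hp

/-- The variance bound for pair laws, in the form used by TEMPERB. -/
theorem main (b : ℕ) (θ : ℝ) (h0 : 0 ≤ θ) (h1 : θ < 1) (ρ : Measure ℝ) (H : ℝ) (hC : Chan ρ H)
    (N : ℕ) (L : Measure ((V b → ℝ) × (V b → ℝ))) (hL : PairLaw b θ ρ L) :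
    ∃ C : ℝ, 0 ≤ C ∧ ∀ (S : Finset (V b × Fin (b + 1))) (a : V b × Fin (b + 1) → ℝ),
      ∫ p, (∑ e ∈ S, a e * (-Real.log (kap θ (lm θ N p.1 e.1 e.2)) +
        Real.log (kap θ (lm θ N p.2 e.1 e.2)))) ^ 2 ∂L ≤ C * ∑ e ∈ S, a e ^ 2 := by
  have := hC.prob
  have hPL := PL_prob b h0 h1 ρ
  obtain ⟨B, hB0, hB⟩ := FF_bound (b := b) h0 h1 (abs_nonneg H)
  obtain ⟨C, hC0, hvar⟩ := var_PL (b := b) h0 h1 (abs_nonneg H) N
  refine ⟨4 * C, by positivity, ?_⟩
  intro S a
  have hLp : IsProbabilityMeasure L := by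
    constructor
    have h2 : (L.map Prod.fst) Set.univ = 1 := by rw [hL.fst]; exact measure_univ
    rwa [Measure.map_apply measurable_fst MeasurableSet.univ, Set.preimage_univ] at h2
  set m : V b × Fin (b + 1) → ℝ := fun e => ∫ h', FF θ |H| N e h' ∂(PL b θ ρ) with hm
  set X : (V b → ℝ) → ℝ := fun h => ∑ e ∈ S, a e * (FF θ |H| N e h - m e) with hX
  have hXm : Measurable X := by
    rw [hX]
    apply Finset.measurable_fun_sum
    intro e _
    exact ((measurable_FF θ |H| N e).sub measurable_const).const_mul _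
  have hXb : ∀ h, |X h| ≤ ∑ e ∈ S, |a e| * (B + |m e|) := by
    intro h
    refine (Finset.abs_sum_le_sum_abs _ _).trans (Finset.sum_le_sum (fun e _ => ?_))
    rw [abs_mul]
    apply mul_le_mul_of_nonneg_left _ (abs_nonneg _)
    refine (abs_sub _ _).trans ?_
    linarith [hB N e h]
  set BX := ∑ e ∈ S, |a e| * (B + |m e|) with hBX
  have hint2 : ∀ (g : (V b → ℝ) × (V b → ℝ) → (V b → ℝ)), Measurable g →
      Integrable (fun p => X (g p) ^ 2) L := by
    intro g hg
    apply Integrable.of_bound ((hXm.comp hg).pow_const 2).aestronglyMeasurable (BX ^ 2)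
    apply Filter.Eventually.of_forall
    intro p
    rw [Real.norm_eq_abs, abs_of_nonneg (sq_nonneg _)]
    have h3 := hXb (g p)
    have h4 := abs_nonneg (X (g p))
    show X (g p) ^ 2 ≤ BX ^ 2
    rw [← sq_abs]
    exact pow_le_pow_left₀ h4 h3 2
  have hbd1 : ∀ᵐ p ∂L, ∀ v, |p.1 v| ≤ H := by
    have h2 := GoodH_PL_bdd (b := b) h0 h1 ρ H hC
    rw [← hL.fst] at h2
    exact ae_of_ae_map measurable_fst.aemeasurable h2
  have hbd2 : ∀ᵐ p ∂L, ∀ v, |p.2 v| ≤ H := by
    have h2 := GoodH_PL_bdd (b := b) h0 h1 ρ H hC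
    rw [← hL.snd] at h2
    exact ae_of_ae_map measurable_snd.aemeasurable h2
  have hFF : ∀ (h : V b → ℝ), (∀ v, |h v| ≤ H) → ∀ e : V b × Fin (b + 1),
      FF θ |H| N e h = -Real.log (kap θ (lm θ N h e.1 e.2)) := by
    intro h hh e
    unfold FF
    have h2 : (fun v => clp |H| (h v)) = h := by
      ext v
      exact clp_eq ((hh v).trans (le_abs_self _))
    rw [h2]
  have hae : ∀ᵐ p ∂L, (∑ e ∈ S, a e * (-Real.log (kap θ (lm θ N p.1 e.1 e.2)) +
        Real.log (kap θ (lm θ N p.2 e.1 e.2)))) ^ 2 = (X p.1 - X p.2) ^ 2 := by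
    filter_upwards [hbd1, hbd2] with p hp1 hp2
    congr 1
    rw [hX]
    simp only
    rw [← Finset.sum_sub_distrib]
    apply Finset.sum_congr rfl
    intro e _
    rw [hFF p.1 hp1 e, hFF p.2 hp2 e]
    ring
  rw [integral_congr_ae hae]
  have h3 : ∫ p, (X p.1 - X p.2) ^ 2 ∂L ≤ ∫ p, (2 * X p.1 ^ 2 + 2 * X p.2 ^ 2) ∂L := by
    apply integral_mono_of_nonneg
    · exact Filter.Eventually.of_forall (fun p => sq_nonneg _)
    · exact ((hint2 _ measurable_fst).const_mul 2).add ((hint2 _ measurable_snd).const_mul 2)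
    · apply Filter.Eventually.of_forall
      intro p
      simp only
      nlinarith [sq_nonneg (X p.1 + X p.2)]
  have h4 : ∫ p, X p.1 ^ 2 ∂L = ∫ h, X h ^ 2 ∂(PL b θ ρ) := by
    rw [← hL.fst, integral_map measurable_fst.aemeasurable (hXm.pow_const 2).aestronglyMeasurable]
  have h5 : ∫ p, X p.2 ^ 2 ∂L = ∫ h, X h ^ 2 ∂(PL b θ ρ) := by
    rw [← hL.snd, integral_map measurable_snd.aemeasurable (hXm.pow_const 2).aestronglyMeasurable]
  have h6 := hvar ρ S a
  calc ∫ p, (X p.1 - X p.2) ^ 2 ∂L ≤ ∫ p, (2 * X p.1 ^ 2 + 2 * X p.2 ^ 2) ∂L := h3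
    _ = 2 * ∫ p, X p.1 ^ 2 ∂L + 2 * ∫ p, X p.2 ^ 2 ∂L := by
        rw [integral_add ((hint2 _ measurable_fst).const_mul 2)
          ((hint2 _ measurable_snd).const_mul 2), integral_const_mul, integral_const_mul]
    _ = 4 * ∫ h, X h ^ 2 ∂(PL b θ ρ) := by rw [h4, h5]; ring
    _ ≤ 4 * (C * ∑ e ∈ S, a e ^ 2) := by
        apply mul_le_mul_of_nonneg_left h6 (by norm_num)
    _ = 4 * C * ∑ e ∈ S, a e ^ 2 := by ring

end Crest.Agent.IsgTemperA
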