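import Crest.Agent.IsgTree

set_option autoImplicit false

/-!
Module TEMPERB of rid 160: operator norm bound for the non-backtracking kernels on equivariant
`L²` families satisfying an `ℓ²` bound.
-/

open MeasureTheory Filter Topology

namespace Crest.Agent.IsgTemperB

open Crest.Agent.Isg

variable {b : ℕ}

/-- Real functions of directed edges. -/
abbrev F (b : ℕ) : Type := V b → Fin (b + 1) → ℝ

/-- Directed edges. -/
abbrev E (b : ℕ) : Type := V b × Fin (b + 1)

/-- Sum over the other colours at the same vertex. -/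
def K0 (f : F b) : F b := fun v i => ∑ j ∈ Finset.univ.erase i, f v j

/-- Reversal of the edge. -/
def Rv (f : F b) : F b := fun v i => f (nb i v) i

/-- Non-backtracking operator. -/
def NB (f : F b) : F b := K0 (Rv f)

/-- The kernels. -/
def Kn (n : ℕ) (f : F b) : F b := NB^[n] (K0 f)

lemma Rv_Rv (f : F b) : Rv (Rv f) = f := by
  funext v i; simp [Rv, nb_nb]

lemma K0_add (f g : F b) : K0 (f + g) = K0 f + K0 g := by
  funext v i; simp [K0, Finset.sum_add_distrib]

lemma Rv_add (f g : F b) : Rv (f + g) = Rv f + Rv g := by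
  funext v i; simp [Rv]

lemma NB_add (f g : F b) : NB (f + g) = NB f + NB g := by
  rw [NB, Rv_add, K0_add]; rfl

lemma K0_smul (c : ℝ) (f : F b) : K0 (c • f) = c • K0 f := by
  funext v i; simp only [K0, Pi.smul_apply, smul_eq_mul, Finset.mul_sum]

lemma Rv_smul (c : ℝ) (f : F b) : Rv (c • f) = c • Rv f := by
  funext v i; simp [Rv]

lemma NB_smul (c : ℝ) (f : F b) : NB (c • f) = c • NB f := by
  rw [NB, Rv_smul, K0_smul]; rfl

lemma NB_iter_add (n : ℕ) (f g : F b) : NB^[n] (f + g) = NB^[n] f + NB^[n] g := by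
  induction n with
  | zero => rfl
  | succ n ih => simp only [Function.iterate_succ_apply', ih, NB_add]

lemma NB_iter_smul (n : ℕ) (c : ℝ) (f : F b) : NB^[n] (c • f) = c • NB^[n] f := by
  induction n with
  | zero => rfl
  | succ n ih => simp only [Function.iterate_succ_apply', ih, NB_smul]

lemma Kn_smul (n : ℕ) (c : ℝ) (f : F b) : Kn n (c • f) = c • Kn n f := by
  rw [Kn, K0_smul, NB_iter_smul]; rfl

lemma K0_mono {f g : F b} (h : f ≤ g) : K0 f ≤ K0 g := fun v i =>
  Finset.sum_le_sum fun j _ => h v j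

lemma Rv_mono {f g : F b} (h : f ≤ g) : Rv f ≤ Rv g := fun v i => h (nb i v) i

lemma NB_mono {f g : F b} (h : f ≤ g) : NB f ≤ NB g := K0_mono (Rv_mono h)

lemma NB_iter_mono (n : ℕ) {f g : F b} (h : f ≤ g) : NB^[n] f ≤ NB^[n] g := by
  induction n with
  | zero => exact h
  | succ n ih => simp only [Function.iterate_succ_apply']; exact NB_mono ih

lemma Kn_mono (n : ℕ) {f g : F b} (h : f ≤ g) : Kn n f ≤ Kn n g := NB_iter_mono n (K0_mono h)

/-! ### The weight -/

/-- The weight `b^{-len/2}`. -/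
noncomputable def wt (b : ℕ) : F b := fun v _ => (Real.sqrt b)⁻¹ ^ len v

lemma sqrt_pos (hb : 1 ≤ b) : 0 < Real.sqrt b := Real.sqrt_pos.2 (by exact_mod_cast hb)

lemma card_erase (i : Fin (b + 1)) : (Finset.univ.erase i).card = b := by
  rw [Finset.card_erase_of_mem (Finset.mem_univ i), Finset.card_univ, Fintype.card_fin]
  rfl

lemma NB_wt (hb : 1 ≤ b) (n : ℕ) :
    (∀ (v : V b) (i : Fin (b + 1)), v.l.head? = some i →
      NB^[n] (wt b) v i ≤ Real.sqrt b ^ n * wt b v i) ∧
    (∀ (v : V b) (i : Fin (b + 1)), NB^[n] (wt b) v i ≤ (n + 1) * Real.sqrt b ^ n * wt b v i) := by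
  have ht := sqrt_pos hb
  have htt : Real.sqrt b * Real.sqrt b = b := Real.mul_self_sqrt (Nat.cast_nonneg b)
  induction n with
  | zero => exact ⟨fun v i _ => by simp, fun v i => by simp⟩
  | succ n ih =>
    obtain ⟨ih1, ih2⟩ := ih
    -- estimate for a child
    have hchild : ∀ (v : V b) (j : Fin (b + 1)) (i : Fin (b + 1)), v.l.head? ≠ some j →
        NB^[n] (wt b) (nb j v) j ≤ Real.sqrt b ^ n * (Real.sqrt b)⁻¹ * wt b v i := by
      intro v j i hj
      refine (ih1 (nb j v) j ((nb_head_iff j v).2 hj)).trans (le_of_eq ?_)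
      simp only [wt]
      rw [len_nb_of_not_head j v hj, pow_succ]
      ring
    constructor
    · intro v i hvi
      rw [Function.iterate_succ_apply']
      show ∑ j ∈ Finset.univ.erase i, NB^[n] (wt b) (nb j v) j ≤ _
      calc ∑ j ∈ Finset.univ.erase i, NB^[n] (wt b) (nb j v) j
          ≤ ∑ j ∈ Finset.univ.erase i, Real.sqrt b ^ n * (Real.sqrt b)⁻¹ * wt b v i := by
            refine Finset.sum_le_sum fun j hj => hchild v j i ?_
            rw [hvi]
            intro h
            exact (Finset.mem_erase.1 hj).1 (Option.some.inj h).symm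
        _ = b * (Real.sqrt b ^ n * (Real.sqrt b)⁻¹ * wt b v i) := by
            rw [Finset.sum_const, card_erase, nsmul_eq_mul]
        _ = Real.sqrt b ^ (n + 1) * wt b v i := by
            rw [pow_succ]
            field_simp
            linear_combination (-(wt b v i)) * htt
    · intro v i
      rw [Function.iterate_succ_apply']
      show ∑ j ∈ Finset.univ.erase i, NB^[n] (wt b) (nb j v) j ≤ _
      have hwt : 0 ≤ wt b v i := by unfold wt; positivity
      have hterm : ∀ j ∈ Finset.univ.erase i, NB^[n] (wt b) (nb j v) j ≤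
          Real.sqrt b ^ n * (Real.sqrt b)⁻¹ * wt b v i +
            (if v.l.head? = some j then (n + 1) * Real.sqrt b ^ (n + 1) * wt b v i else 0) := by
        intro j _
        by_cases hj : v.l.head? = some j
        · rw [if_pos hj]
          have h1 := ih2 (nb j v) j
          have h2 : wt b (nb j v) j = Real.sqrt b * wt b v i := by
            simp only [wt]
            rw [← len_nb_of_head j v hj, pow_succ]
            field_simp
          rw [h2] at h1
          have h3 : 0 ≤ Real.sqrt b ^ n * (Real.sqrt b)⁻¹ * wt b v i := by positivity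
          calc NB^[n] (wt b) (nb j v) j ≤ (n + 1) * Real.sqrt b ^ n * (Real.sqrt b * wt b v i) := h1
            _ = (n + 1) * Real.sqrt b ^ (n + 1) * wt b v i := by rw [pow_succ]; ring
            _ ≤ _ := by linarith
        · rw [if_neg hj, add_zero]
          exact hchild v j i hj
      refine (Finset.sum_le_sum hterm).trans ?_
      rw [Finset.sum_add_distrib, Finset.sum_const, card_erase, nsmul_eq_mul]
      have h4 : ∑ j ∈ Finset.univ.erase i, (if v.l.head? = some j then
          ((n : ℝ) + 1) * Real.sqrt b ^ (n + 1) * wt b v i else 0) ≤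
          ((n : ℝ) + 1) * Real.sqrt b ^ (n + 1) * wt b v i := by
        have h5 : 0 ≤ ((n : ℝ) + 1) * Real.sqrt b ^ (n + 1) * wt b v i := by positivity
        cases hh : v.l.head? with
        | none => simpa using h5
        | some k =>
          refine (Finset.sum_le_sum_of_subset_of_nonneg (Finset.erase_subset i Finset.univ)
            (fun j _ _ => ?_)).trans ?_
          · split_ifs
            · exact h5
            · exact le_rfl
          · simp only [Option.some.injEq]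
            rw [Finset.sum_ite_eq]
            simp
      have h6 : (b : ℝ) * (Real.sqrt b ^ n * (Real.sqrt b)⁻¹ * wt b v i) =
          Real.sqrt b ^ (n + 1) * wt b v i := by
        rw [pow_succ]
        field_simp
        linear_combination (-(wt b v i)) * htt
      rw [h6]
      push_cast
      calc Real.sqrt b ^ (n + 1) * wt b v i + _
          ≤ Real.sqrt b ^ (n + 1) * wt b v i +
            ((n : ℝ) + 1) * Real.sqrt b ^ (n + 1) * wt b v i := by gcongr
        _ = ((n : ℝ) + 1 + 1) * Real.sqrt b ^ (n + 1) * wt b v i := by ring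

/-- The norm bound. -/
noncomputable def Lam (b n : ℕ) : ℝ := b * (n + 1) * Real.sqrt b ^ n

lemma Lam_pos (hb : 1 ≤ b) (n : ℕ) : 0 < Lam b n := by
  have h1 := sqrt_pos hb
  have h2 : (0 : ℝ) < b := by exact_mod_cast hb
  unfold Lam
  positivity

lemma Kn_wt (hb : 1 ≤ b) (n : ℕ) : Kn n (wt b) ≤ Lam b n • wt b := by
  have h1 : K0 (wt b) = (b : ℝ) • wt b := by
    funext v i
    simp only [K0, wt, Pi.smul_apply, smul_eq_mul]
    rw [Finset.sum_const, card_erase, nsmul_eq_mul]
  rw [Kn, h1, NB_iter_smul]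
  intro v i
  have h2 := (NB_wt hb n).2 v i
  simp only [Pi.smul_apply, smul_eq_mul]
  have h3 : (0 : ℝ) ≤ b := Nat.cast_nonneg b
  calc (b : ℝ) * NB^[n] (wt b) v i ≤ b * ((n + 1) * Real.sqrt b ^ n * wt b v i) :=
        mul_le_mul_of_nonneg_left h2 h3
    _ = Lam b n * wt b v i := by unfold Lam; ring

lemma Kn_iter_wt (hb : 1 ≤ b) (n M : ℕ) : (Kn n)^[M] (wt b) ≤ Lam b n ^ M • wt b := by
  induction M with
  | zero => simp
  | succ M ih =>
    rw [Function.iterate_succ_apply']
    refine (Kn_mono n ih).trans ?_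
    rw [Kn_smul]
    intro v i
    have h1 := Kn_wt hb n v i
    simp only [Pi.smul_apply, smul_eq_mul] at h1 ⊢
    have h2 : 0 ≤ Lam b n ^ M := pow_nonneg (Lam_pos hb n).le M
    calc Lam b n ^ M * Kn n (wt b) v i ≤ Lam b n ^ M * (Lam b n * wt b v i) :=
          mul_le_mul_of_nonneg_left h1 h2
      _ = Lam b n ^ (M + 1) * wt b v i := by rw [pow_succ]; ring

/-! ### Duality with finitely supported functions -/

/-- Pairing. -/
noncomputable def pr (f : F b) : (E b →₀ ℝ) →ₗ[ℝ] ℝ :=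
  Finsupp.linearCombination ℝ (fun e : E b => f e.1 e.2)

/-- The underlying function. -/
def fn (a : E b →₀ ℝ) : F b := fun v i => a (v, i)

lemma pr_apply (f : F b) (a : E b →₀ ℝ) : pr f a = ∑ e ∈ a.support, a e * f e.1 e.2 := by
  simp [pr, Finsupp.linearCombination_apply, Finsupp.sum]

lemma pr_single (f : F b) (e : E b) (x : ℝ) : pr f (Finsupp.single e x) = x * f e.1 e.2 := by
  simp [pr]

/-- Transposed pair of operators. -/
def Dual (U U' : F b → F b) : Prop := ∃ Us : (E b →₀ ℝ) → (E b →₀ ℝ),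
  (∀ a f, pr f (Us a) = pr (U f) a) ∧ ∀ a, fn (Us a) = U' (fn a)

lemma Dual.comp {U U' W W' : F b → F b} (h1 : Dual U U') (h2 : Dual W W') :
    Dual (U ∘ W) (W' ∘ U') := by
  obtain ⟨Us, hU1, hU2⟩ := h1
  obtain ⟨Ws, hW1, hW2⟩ := h2
  refine ⟨Ws ∘ Us, fun a f => ?_, fun a => ?_⟩
  · simp only [Function.comp_apply]; rw [hW1, hU1]
  · simp only [Function.comp_apply]; rw [hW2, hU2]

lemma Dual.id : Dual (id : F b → F b) id := ⟨fun a => a, fun _ _ => rfl, fun _ => rfl⟩

lemma Dual.iter {U U' : F b → F b} (h : Dual U U') (n : ℕ) : Dual (U^[n]) (U'^[n]) := by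
  induction n with
  | zero => exact Dual.id
  | succ n ih =>
    have h1 := h.comp ih
    rw [← Function.iterate_succ] at h1
    rw [Function.iterate_succ']
    exact h1

/-- Transpose of `K0`. -/
noncomputable def K0s : (E b →₀ ℝ) →ₗ[ℝ] (E b →₀ ℝ) :=
  Finsupp.linearCombination ℝ
    (fun e : E b => ∑ j ∈ Finset.univ.erase e.2, Finsupp.single (e.1, j) (1 : ℝ))

/-- Transpose of `Rv`. -/
noncomputable def Rvs : (E b →₀ ℝ) →ₗ[ℝ] (E b →₀ ℝ) :=
  Finsupp.linearCombination ℝ (fun e : E b => Finsupp.single (nb e.2 e.1, e.2) (1 : ℝ))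

lemma pr_K0s (f : F b) : (pr f).comp K0s = pr (K0 f) := by
  apply Finsupp.lhom_ext
  intro e x
  rw [LinearMap.comp_apply, pr_single]
  simp only [K0s, Finsupp.linearCombination_single, map_smul, map_sum, pr_single, K0]
  simp

lemma pr_Rvs (f : F b) : (pr f).comp Rvs = pr (Rv f) := by
  apply Finsupp.lhom_ext
  intro e x
  rw [LinearMap.comp_apply, pr_single]
  simp only [Rvs, Finsupp.linearCombination_single, map_smul, pr_single, Rv]
  simp

lemma fn_K0s (a : E b →₀ ℝ) : fn (K0s a) = K0 (fn a) := by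
  funext w j
  -- both sides are linear in `a`
  have h : (Finsupp.lapply (w, j) : (E b →₀ ℝ) →ₗ[ℝ] ℝ).comp K0s =
      ∑ k ∈ Finset.univ.erase j, (Finsupp.lapply (w, k) : (E b →₀ ℝ) →ₗ[ℝ] ℝ) := by
    apply Finsupp.lhom_ext
    intro e x
    rw [LinearMap.comp_apply, LinearMap.sum_apply]
    simp only [K0s, Finsupp.linearCombination_single, map_smul, map_sum, Finsupp.lapply_apply,
      Finsupp.single_apply, smul_eq_mul]
    obtain ⟨v, i⟩ := e
    by_cases hvw : v = w
    · subst hvw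
      simp only [Prod.mk.injEq, true_and]
      rw [Finset.sum_ite_eq' (Finset.univ.erase i) j, Finset.sum_ite_eq (Finset.univ.erase j) i]
      by_cases hij : i = j
      · subst hij; simp
      · simp [hij, Ne.symm hij]
    · simp [hvw]
  have h2 := LinearMap.congr_fun h a
  rw [LinearMap.comp_apply, LinearMap.sum_apply] at h2
  exact h2

lemma fn_Rvs (a : E b →₀ ℝ) : fn (Rvs a) = Rv (fn a) := by
  funext w j
  have h : (Finsupp.lapply (w, j) : (E b →₀ ℝ) →ₗ[ℝ] ℝ).comp Rvs =
      (Finsupp.lapply (nb j w, j) : (E b →₀ ℝ) →ₗ[ℝ] ℝ) := by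
    apply Finsupp.lhom_ext
    intro e x
    rw [LinearMap.comp_apply]
    simp only [Rvs, Finsupp.linearCombination_single, map_smul, Finsupp.lapply_apply,
      Finsupp.single_apply, smul_eq_mul]
    obtain ⟨v, i⟩ := e
    simp only [Prod.mk.injEq]
    by_cases hij : i = j
    · subst hij
      by_cases hv : nb i v = w
      · subst hv; simp [nb_nb]
      · have : v ≠ nb i w := fun h => hv (by rw [h, nb_nb])
        simp [hv, this]
    · simp [hij]
  exact LinearMap.congr_fun h a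

lemma dual_K0 : Dual (K0 : F b → F b) K0 :=
  ⟨K0s, fun a f => LinearMap.congr_fun (pr_K0s f) a, fn_K0s⟩

lemma dual_Rv : Dual (Rv : F b → F b) Rv :=
  ⟨Rvs, fun a f => LinearMap.congr_fun (pr_Rvs f) a, fn_Rvs⟩

/-! ### Equivariant square-integrable families -/

section L2

variable {Ω : Type*} [MeasurableSpace Ω]

/-- Equivariance. -/
def Eqv (T : V b → Ω → Ω) (X : Ω → F b) : Prop :=
  ∀ (g v : V b) (i : Fin (b + 1)) (ω : Ω), X ω (mul g v) i = X (T g ω) v i

/-- Bounded measurable families. -/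
def Bdd (X : Ω → F b) : Prop :=
  (∀ v i, Measurable (fun ω => X ω v i)) ∧ ∃ C : ℝ, ∀ ω v i, |X ω v i| ≤ C

/-- Inner product. -/
noncomputable def ip (P : Measure Ω) (X Y : Ω → F b) : ℝ :=
  ∑ i, ∫ ω, X ω (rt b) i * Y ω (rt b) i ∂P

variable {P : Measure Ω} [IsProbabilityMeasure P] {T : V b → Ω → Ω}

lemma Bdd.integrable_mul {X Y : Ω → F b} (hX : Bdd X) (hY : Bdd Y) (v w : V b)
    (i j : Fin (b + 1)) : Integrable (fun ω => X ω v i * Y ω w j) P := by
  obtain ⟨hX1, C, hC⟩ := hX
  obtain ⟨hY1, D, hD⟩ := hY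
  refine Integrable.of_bound ((hX1 v i).mul (hY1 w j)).aestronglyMeasurable (C * D)
    (Eventually.of_forall fun ω => ?_)
  rw [Real.norm_eq_abs, abs_mul]
  exact mul_le_mul (hC ω v i) (hD ω w j) (abs_nonneg _) ((abs_nonneg _).trans (hC ω v i))

lemma Bdd.K0 {X : Ω → F b} (hX : Bdd X) : Bdd (fun ω => K0 (X ω)) := by
  obtain ⟨hX1, C, hC⟩ := hX
  refine ⟨fun v i => ?_, b * C, fun ω v i => ?_⟩
  · unfold IsgTemperB.K0
    exact Finset.measurable_sum _ fun j _ => hX1 v j
  · unfold IsgTemperB.K0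
    refine (Finset.abs_sum_le_sum_abs _ _).trans ?_
    refine (Finset.sum_le_sum fun j _ => hC ω v j).trans ?_
    rw [Finset.sum_const, card_erase, nsmul_eq_mul]

lemma Bdd.Rv {X : Ω → F b} (hX : Bdd X) : Bdd (fun ω => Rv (X ω)) := by
  obtain ⟨hX1, C, hC⟩ := hX
  exact ⟨fun v i => hX1 (nb i v) i, C, fun ω v i => hC ω (nb i v) i⟩

omit [MeasurableSpace Ω] in
lemma Eqv.K0 {X : Ω → F b} (hX : Eqv T X) : Eqv T (fun ω => K0 (X ω)) := by
  intro g v i ω
  unfold IsgTemperB.K0
  exact Finset.sum_congr rfl fun j _ => hX g v j ω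

omit [MeasurableSpace Ω] in
lemma Eqv.Rv {X : Ω → F b} (hX : Eqv T X) : Eqv T (fun ω => Rv (X ω)) := by
  intro g v i ω
  show X ω (nb i (mul g v)) i = X (T g ω) (nb i v) i
  rw [nb_mul]
  exact hX g (nb i v) i ω

omit [IsProbabilityMeasure P] in
lemma ip_comm (X Y : Ω → F b) : ip P X Y = ip P Y X := by
  unfold ip
  refine Finset.sum_congr rfl fun i _ => ?_
  congr 1; funext ω; ring

lemma ip_K0 {X Y : Ω → F b} (hX : Bdd X) (hY : Bdd Y) :
    ip P (fun ω => K0 (X ω)) Y = ip P X (fun ω => K0 (Y ω)) := by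
  have h1 : ∀ i, ∫ ω, K0 (X ω) (rt b) i * Y ω (rt b) i ∂P =
      ∑ j, if j ≠ i then ∫ ω, X ω (rt b) j * Y ω (rt b) i ∂P else 0 := by
    intro i
    unfold K0
    simp only [Finset.sum_mul]
    rw [integral_finsetSum _ fun j _ => hX.integrable_mul hY _ _ _ _, ← Finset.sum_filter]
    refine Finset.sum_congr ?_ fun _ _ => rfl
    ext j; simp
  have h2 : ∀ i, ∫ ω, X ω (rt b) i * K0 (Y ω) (rt b) i ∂P =
      ∑ j, if j ≠ i then ∫ ω, X ω (rt b) i * Y ω (rt b) j ∂P else 0 := by
    intro i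
    unfold K0
    simp only [Finset.mul_sum]
    rw [integral_finsetSum _ fun j _ => hX.integrable_mul hY _ _ _ _, ← Finset.sum_filter]
    refine Finset.sum_congr ?_ fun _ _ => rfl
    ext j; simp
  unfold ip
  simp only [h1, h2]
  rw [Finset.sum_comm]
  refine Finset.sum_congr rfl fun i _ => Finset.sum_congr rfl fun j _ => ?_
  simp only [ne_comm]

lemma ip_Rv (hT : ∀ g, MeasurePreserving (T g) P P) {X Y : Ω → F b} (hX : Bdd X) (hY : Bdd Y)
    (hX' : Eqv T X) (hY' : Eqv T Y) :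
    ip P (fun ω => Rv (X ω)) Y = ip P X (fun ω => Rv (Y ω)) := by
  unfold ip
  refine Finset.sum_congr rfl fun i _ => ?_
  unfold Rv
  have h1 : ∀ ω, X ω (nb i (rt b)) i * Y ω (rt b) i =
      (fun ω => X ω (rt b) i * Y ω (nb i (rt b)) i) (T (nb i (rt b)) ω) := by
    intro ω
    have h2 := hX' (nb i (rt b)) (rt b) i ω
    have h3 := hY' (nb i (rt b)) (nb i (rt b)) i ω
    have h4 : mul (nb i (rt b)) (nb i (rt b)) = rt b := by
      have := mul_inv' (nb i (rt b))
      rwa [inv_gen] at this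
    rw [mul_rt] at h2
    rw [h4] at h3
    simp only
    rw [h2, h3]
  have h2 : ∫ ω, X ω (rt b) i * Y ω (nb i (rt b)) i ∂P =
      ∫ ω, (fun ω => X ω (rt b) i * Y ω (nb i (rt b)) i) (T (nb i (rt b)) ω) ∂P := by
    have h3 : AEStronglyMeasurable (fun ω => X ω (rt b) i * Y ω (nb i (rt b)) i)
        (P.map (T (nb i (rt b)))) := ((hX.1 _ _).mul (hY.1 _ _)).aestronglyMeasurable
    rw [← integral_map (hT (nb i (rt b))).measurable.aemeasurable h3,
      (hT (nb i (rt b))).map_eq]
  rw [h2]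
  exact integral_congr_ae (Eventually.of_forall h1)

/-- Admissible pairs of adjoint operators. -/
structure Adm (P : Measure Ω) (T : V b → Ω → Ω) (U U' : F b → F b) : Prop where
  bdd : ∀ X : Ω → F b, Bdd X → Bdd (fun ω => U (X ω))
  bdd' : ∀ X : Ω → F b, Bdd X → Bdd (fun ω => U' (X ω))
  eqv : ∀ X : Ω → F b, Eqv T X → Eqv T (fun ω => U (X ω))
  eqv' : ∀ X : Ω → F b, Eqv T X → Eqv T (fun ω => U' (X ω))
  adj : ∀ X Y : Ω → F b, Bdd X → Bdd Y → Eqv T X → Eqv T Y →
    ip P (fun ω => U (X ω)) Y = ip P X (fun ω => U' (Y ω))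
  dual : Dual U U'

lemma adm_K0 : Adm P T (K0 : F b → F b) K0 :=
  ⟨fun _ h => h.K0, fun _ h => h.K0, fun _ h => h.K0, fun _ h => h.K0,
    fun _ _ h1 h2 _ _ => ip_K0 h1 h2, dual_K0⟩

lemma adm_Rv (hT : ∀ g, MeasurePreserving (T g) P P) : Adm P T (Rv : F b → F b) Rv :=
  ⟨fun _ h => h.Rv, fun _ h => h.Rv, fun _ h => h.Rv, fun _ h => h.Rv,
    fun _ _ h1 h2 h3 h4 => ip_Rv hT h1 h2 h3 h4, dual_Rv⟩

omit [IsProbabilityMeasure P] in
lemma Adm.comp {U U' W W' : F b → F b} (h1 : Adm P T U U') (h2 : Adm P T W W') :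
    Adm P T (U ∘ W) (W' ∘ U') := by
  refine ⟨fun X h => h1.bdd _ (h2.bdd _ h), fun X h => h2.bdd' _ (h1.bdd' _ h),
    fun X h => h1.eqv _ (h2.eqv _ h), fun X h => h2.eqv' _ (h1.eqv' _ h), ?_,
    h1.dual.comp h2.dual⟩
  intro X Y hX hY hX' hY'
  have h3 := h1.adj (fun ω => W (X ω)) Y (h2.bdd _ hX) hY (h2.eqv _ hX') hY'
  have h4 := h2.adj X (fun ω => U' (Y ω)) hX (h1.bdd' _ hY) hX' (h1.eqv' _ hY')
  simp only [Function.comp_apply]
  rw [h3, h4]

omit [IsProbabilityMeasure P] in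
lemma Adm.id : Adm P T (id : F b → F b) id :=
  ⟨fun _ h => h, fun _ h => h, fun _ h => h, fun _ h => h, fun _ _ _ _ _ _ => rfl, Dual.id⟩

omit [IsProbabilityMeasure P] in
lemma Adm.iter {U U' : F b → F b} (h : Adm P T U U') (n : ℕ) : Adm P T (U^[n]) (U'^[n]) := by
  induction n with
  | zero => exact Adm.id
  | succ n ih =>
    have h1 := h.comp ih
    rw [← Function.iterate_succ] at h1
    rw [Function.iterate_succ']
    exact h1

lemma Kn_eq (n : ℕ) : (Kn n : F b → F b) = (K0 ∘ Rv)^[n] ∘ K0 := rfl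

lemma Kn_eq' (n : ℕ) : (Kn n : F b → F b) = K0 ∘ (Rv ∘ K0)^[n] := by
  rw [Kn_eq]
  induction n with
  | zero => rfl
  | succ n ih =>
    rw [Function.iterate_succ', Function.comp_assoc, ih, Function.iterate_succ']
    rfl

lemma adm_Kn (hT : ∀ g, MeasurePreserving (T g) P P) (n : ℕ) :
    Adm P T (Kn n : F b → F b) (Kn n) := by
  have h1 : Adm P T ((K0 ∘ Rv)^[n] ∘ K0 : F b → F b) (K0 ∘ (Rv ∘ K0)^[n]) :=
    ((adm_K0.comp (adm_Rv hT)).iter n).comp adm_K0
  rw [← Kn_eq, ← Kn_eq'] at h1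
  exact h1

omit [IsProbabilityMeasure P] in
lemma ip_nonneg (X : Ω → F b) : 0 ≤ ip P X X :=
  Finset.sum_nonneg fun _ _ => integral_nonneg fun _ => mul_self_nonneg _

lemma ip_cs {X Y : Ω → F b} (hX : Bdd X) (hY : Bdd Y) :
    ip P X Y ^ 2 ≤ ip P X X * ip P Y Y := by
  have h1 : ∀ t : ℝ, 0 ≤ ip P Y Y * (t * t) + 2 * ip P X Y * t + ip P X X := by
    intro t
    have h2 : ip P Y Y * (t * t) + 2 * ip P X Y * t + ip P X X =
        ∑ i, ∫ ω, (X ω (rt b) i + t * Y ω (rt b) i) ^ 2 ∂P := by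
      unfold ip
      rw [Finset.sum_mul, Finset.mul_sum, Finset.sum_mul, ← Finset.sum_add_distrib,
        ← Finset.sum_add_distrib]
      refine Finset.sum_congr rfl fun i _ => ?_
      have h3 : (fun ω => (X ω (rt b) i + t * Y ω (rt b) i) ^ 2) = fun ω =>
          Y ω (rt b) i * Y ω (rt b) i * (t * t) + X ω (rt b) i * Y ω (rt b) i * (2 * t) +
            X ω (rt b) i * X ω (rt b) i := by
        funext ω; ring
      rw [h3, integral_add, integral_add, integral_mul_const, integral_mul_const]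
      · ring
      · exact (hY.integrable_mul hY _ _ _ _).mul_const _
      · exact (hX.integrable_mul hY _ _ _ _).mul_const _
      · exact ((hY.integrable_mul hY _ _ _ _).mul_const _).add
          ((hX.integrable_mul hY _ _ _ _).mul_const _)
      · exact hX.integrable_mul hX _ _ _ _
    rw [h2]
    exact Finset.sum_nonneg fun _ _ => integral_nonneg fun _ => sq_nonneg _
  have h3 := discrim_le_zero h1
  unfold discrim at h3
  nlinarith

/-- A log-convex sequence with at most geometric growth. -/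
lemma logconvex (d : ℕ → ℝ) (hd : ∀ M, 0 ≤ d M) (hc : ∀ M, d (M + 1) ^ 2 ≤ d M * d (M + 2))
    (C L : ℝ) (hL : 0 < L) (hb : ∀ M, d M ≤ C * L ^ M) : d 1 ≤ L * d 0 := by
  rcases (hd 0).eq_or_lt with h0 | h0
  · have h1 := hc 0
    rw [← h0, zero_mul] at h1
    have h2 : d 1 = 0 := by
      have := sq_nonneg (d (0 + 1))
      have h3 : d (0 + 1) ^ 2 = 0 := le_antisymm h1 this
      exact pow_eq_zero_iff (two_ne_zero) |>.1 h3
    rw [h2, ← h0, mul_zero]
  by_contra hcon
  rw [not_le] at hcon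
  set r := d 1 / d 0 with hr
  have hrL : L < r := by rw [hr, lt_div_iff₀ h0]; exact hcon
  have hr0 : 0 < r := hL.trans hrL
  have hpos : ∀ M, 0 < d M ∧ r * d M ≤ d (M + 1) := by
    intro M
    induction M with
    | zero => exact ⟨h0, le_of_eq (by rw [hr]; field_simp)⟩
    | succ M ih =>
      obtain ⟨ih1, ih2⟩ := ih
      have h1 : 0 < d (M + 1) := lt_of_lt_of_le (mul_pos hr0 ih1) ih2
      refine ⟨h1, ?_⟩
      have h2 := hc M
      have h3 : r * d M * d (M + 1) ≤ d (M + 1) * d (M + 1) :=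
        mul_le_mul_of_nonneg_right ih2 h1.le
      have h4 : d M * (r * d (M + 1)) ≤ d M * d (M + 2) := by nlinarith
      exact le_of_mul_le_mul_left h4 ih1
  have hgrow : ∀ M, r ^ M * d 0 ≤ d M := by
    intro M
    induction M with
    | zero => simp
    | succ M ih =>
      calc r ^ (M + 1) * d 0 = r * (r ^ M * d 0) := by rw [pow_succ]; ring
        _ ≤ r * d M := mul_le_mul_of_nonneg_left ih hr0.le
        _ ≤ d (M + 1) := (hpos M).2
  obtain ⟨M, hM⟩ := pow_unbounded_of_one_lt (C / d 0) ((one_lt_div hL).2 hrL)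
  have h1 : r ^ M * d 0 ≤ C * L ^ M := (hgrow M).trans (hb M)
  have hLM : 0 < L ^ M := pow_pos hL M
  have h2 : C / d 0 < r ^ M / L ^ M := by rwa [div_pow] at hM
  rw [div_lt_div_iff₀ h0 hLM] at h2
  linarith

/-- Main estimate. -/
theorem norm_bound (hb : 1 ≤ b) (hT : ∀ g, MeasurePreserving (T g) P P) {X : Ω → F b}
    (hX : Bdd X) (hE : Eqv T X) (C : ℝ)
    (hC : ∀ (S : Finset (E b)) (a : E b → ℝ),
      ∫ ω, (∑ e ∈ S, a e * X ω e.1 e.2) ^ 2 ∂P ≤ C * ∑ e ∈ S, a e ^ 2) (n : ℕ) :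
    ip P (fun ω => Kn n (X ω)) (fun ω => Kn n (X ω)) ≤ Lam b n ^ 2 * ip P X X := by
  have hL := Lam_pos hb n
  have hadm : ∀ M, Adm P T ((Kn n)^[M] : F b → F b) ((Kn n)^[M]) := fun M => (adm_Kn hT n).iter M
  set Y : ℕ → Ω → F b := fun M ω => (Kn n)^[M] (X ω) with hY
  have hYb : ∀ M, Bdd (Y M) := fun M => (hadm M).bdd X hX
  have hYe : ∀ M, Eqv T (Y M) := fun M => (hadm M).eqv X hE
  set d : ℕ → ℝ := fun M => ip P (Y M) (Y M) with hd
  have hshift : ∀ M, ip P (Y (M + 1)) (Y (M + 1)) = ip P (Y M) (Y (M + 2)) := by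
    intro M
    have h1 : Y (M + 1) = fun ω => Kn n (Y M ω) := by
      funext ω; simp only [hY, Function.iterate_succ_apply']
    have h2 : Y (M + 2) = fun ω => Kn n (Y (M + 1) ω) := by
      funext ω; simp only [hY, Function.iterate_succ_apply']
    rw [h2]
    conv_lhs => rw [h1]
    rw [← h1]
    have h3 := (adm_Kn (P := P) hT n).adj (Y M) (Y (M + 1)) (hYb M) (hYb (M + 1)) (hYe M)
      (hYe (M + 1))
    rw [← h1] at h3
    exact h3
  have hconv : ∀ M, d (M + 1) ^ 2 ≤ d M * d (M + 2) := by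
    intro M
    simp only [hd]
    rw [hshift M]
    exact ip_cs (hYb M) (hYb (M + 2))
  have hC0 : 0 ≤ C := by
    have h1 := hC {(rt b, 0)} (fun _ => 1)
    have h2 : 0 ≤ ∫ ω, (∑ e ∈ ({(rt b, 0)} : Finset (E b)), (1 : ℝ) * X ω e.1 e.2) ^ 2 ∂P :=
      integral_nonneg fun _ => sq_nonneg _
    simp only [Finset.sum_singleton, one_pow, mul_one] at h1 h2
    linarith
  have hbound : ∀ M, d M ≤ ((b + 1 : ℕ) * C) * (Lam b n ^ 2) ^ M := by
    intro M
    simp only [hd, ip]
    have h1 : ∀ i : Fin (b + 1), ∫ ω, Y M ω (rt b) i * Y M ω (rt b) i ∂P ≤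
        C * (Lam b n ^ 2) ^ M := by
      intro i
      obtain ⟨Us, hU1, hU2⟩ := (hadm M).dual
      set δ : E b →₀ ℝ := Finsupp.single (rt b, i) 1 with hδ
      set a := Us δ with ha
      have h2 : ∀ ω, Y M ω (rt b) i = ∑ e ∈ a.support, a e * X ω e.1 e.2 := by
        intro ω
        rw [← pr_apply, ha, hU1, hδ, pr_single, one_mul]
      have h3 : ∫ ω, Y M ω (rt b) i * Y M ω (rt b) i ∂P ≤ C * ∑ e ∈ a.support, a e ^ 2 := by
        have h4 := hC a.support a
        have h5 : (fun ω => Y M ω (rt b) i * Y M ω (rt b) i) =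
            fun ω => (∑ e ∈ a.support, a e * X ω e.1 e.2) ^ 2 := by
          funext ω; rw [h2 ω, sq]
        rw [h5]; exact h4
      refine h3.trans (mul_le_mul_of_nonneg_left ?_ hC0)
      have h6 : ∑ e ∈ a.support, a e ^ 2 = (Kn n)^[M] ((Kn n)^[M] (fn δ)) (rt b) i := by
        have h7 : ∑ e ∈ a.support, a e ^ 2 = pr (fn a) a := by
          rw [pr_apply]
          refine Finset.sum_congr rfl fun e _ => ?_
          simp only [fn, sq]
        rw [h7]
        conv_lhs => rw [ha]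
        rw [hU1, hδ, pr_single, one_mul, ← hδ, hU2]
      rw [h6, ← Function.iterate_add_apply]
      have h8 : fn δ ≤ wt b := by
        intro v j
        simp only [fn, hδ, Finsupp.single_apply, wt]
        split_ifs with h9
        · have h10 : rt b = v := (Prod.mk.injEq _ _ _ _ ▸ h9).1
          rw [← h10]
          simp [len, rt]
        · have := sqrt_pos hb
          positivity
      have h9 : (Kn n)^[M + M] (fn δ) ≤ (Kn n)^[M + M] (wt b) := by
        have h10 : ∀ k : ℕ, (Kn n)^[k] (fn δ) ≤ (Kn n)^[k] (wt b) := by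
          intro k
          induction k with
          | zero => exact h8
          | succ k ih => simp only [Function.iterate_succ_apply']; exact Kn_mono n ih
        exact h10 _
      have h10 := (h9 (rt b) i).trans (Kn_iter_wt hb n (M + M) (rt b) i)
      refine h10.trans (le_of_eq ?_)
      simp only [Pi.smul_apply, smul_eq_mul, wt]
      have h11 : len (rt b) = 0 := rfl
      rw [h11, pow_zero, mul_one, ← pow_mul, two_mul]
    refine (Finset.sum_le_sum fun i _ => h1 i).trans (le_of_eq ?_)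
    rw [Finset.sum_const, Finset.card_univ, Fintype.card_fin, nsmul_eq_mul]
    ring
  have := logconvex d (fun M => ip_nonneg _) hconv ((b + 1 : ℕ) * C) (Lam b n ^ 2)
    (by positivity) hbound
  simpa [hd, hY] using this

/-- Bilinear form of the estimate. -/
theorem bilin_bound (hb : 1 ≤ b) (hT : ∀ g, MeasurePreserving (T g) P P) {X Z : Ω → F b}
    (hX : Bdd X) (hE : Eqv T X) (hZ : Bdd Z) (C : ℝ)
    (hC : ∀ (S : Finset (E b)) (a : E b → ℝ),
      ∫ ω, (∑ e ∈ S, a e * X ω e.1 e.2) ^ 2 ∂P ≤ C * ∑ e ∈ S, a e ^ 2) (n : ℕ)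
    (B : ℝ) (hXB : ip P X X ≤ B) (hZB : ip P Z Z ≤ B) :
    |ip P Z (fun ω => Kn n (X ω))| ≤ Lam b n * B := by
  have hL := (Lam_pos hb n).le
  have hB : 0 ≤ B := (ip_nonneg X).trans hXB
  apply abs_le_of_sq_le_sq _ (mul_nonneg hL hB)
  refine (ip_cs hZ ((adm_Kn (P := P) hT n).bdd X hX)).trans ?_
  have h1 := norm_bound hb hT hX hE C hC n
  have h2 : ip P (fun ω => Kn n (X ω)) (fun ω => Kn n (X ω)) ≤ Lam b n ^ 2 * B :=
    h1.trans (mul_le_mul_of_nonneg_left hXB (sq_nonneg _))
  calc ip P Z Z * ip P (fun ω => Kn n (X ω)) (fun ω => Kn n (X ω))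
      ≤ B * (Lam b n ^ 2 * B) := mul_le_mul hZB h2 (ip_nonneg _) hB
    _ = (Lam b n * B) ^ 2 := by ring

end L2

end Crest.Agent.IsgTemperB
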