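import Crest.Agent.IsgTemperB

set_option autoImplicit false

/-!
Module TEMPERC (part 1) of rid 160: second moments of path sums of equivariant families.
-/

open MeasureTheory Filter Topology

namespace Crest.Agent.IsgTemperC

open Crest.Agent.Isg Crest.Agent.IsgTemperB

variable {b : ℕ}

/-- Path sum (same conventions as `DDl`, `SQl`). -/
def SL (f : F b) (u : V b) : List (Fin (b + 1)) → ℝ
  | [] => 0
  | i :: l => SL f u l + f (follow u (i :: l)) i

@[simp] lemma SL_nil (f : F b) (u : V b) : SL f u [] = 0 := rfl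

lemma SL_cons (f : F b) (u : V b) (i : Fin (b + 1)) (l : List (Fin (b + 1))) :
    SL f u (i :: l) = SL f u l + f (follow u (i :: l)) i := rfl

lemma SL_concat (f : F b) (u : V b) (l : List (Fin (b + 1))) (i : Fin (b + 1)) :
    SL f u (l ++ [i]) = f (nb i u) i + SL f (nb i u) l := by
  induction l with
  | nil => simp [SL_cons, follow]
  | cons j l ih =>
    rw [List.cons_append, SL_cons, ih, SL_cons, ← List.cons_append, follow_concat]
    ring

/-- Sum over the reduced words of length `n` whose first step is not `i`. -/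
def PS : ℕ → (List (Fin (b + 1)) → ℝ) → Fin (b + 1) → ℝ
  | 0, g, _ => g []
  | n + 1, g, i => ∑ j ∈ Finset.univ.erase i, PS n (fun l => g (l ++ [j])) j

/-- Linear path functional. -/
noncomputable def Ln : ℕ → F b → F b
  | 0, _ => 0
  | n + 1, f => NB ((b : ℝ) ^ n • f + Ln n f)

/-- Quadratic path functional. -/
noncomputable def Qn : ℕ → F b → F b
  | 0, _ => 0
  | n + 1, f => NB ((b : ℝ) ^ n • (f * f) + (2 : ℝ) • (f * Ln n f) + Qn n f)

lemma PS_sq (n : ℕ) (f : F b) (v : V b) (i : Fin (b + 1)) (c : ℝ) :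
    PS n (fun l => (c + SL f v l) ^ 2) i =
      (b : ℝ) ^ n * c ^ 2 + 2 * c * Ln n f v i + Qn n f v i := by
  induction n generalizing v i c with
  | zero => simp [PS, Ln, Qn]
  | succ n ih =>
    have h1 : ∀ j, PS n (fun l => (c + SL f v (l ++ [j])) ^ 2) j =
        (b : ℝ) ^ n * (c + f (nb j v) j) ^ 2 + 2 * (c + f (nb j v) j) * Ln n f (nb j v) j +
          Qn n f (nb j v) j := by
      intro j
      rw [← ih]
      congr 1
      funext l
      rw [SL_concat]
      ring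
    simp only [PS, h1, Ln, Qn, NB, K0, Rv, Pi.add_apply, Pi.smul_apply, Pi.mul_apply, smul_eq_mul]
    rw [Finset.mul_sum]
    have h2 : (b : ℝ) ^ (n + 1) * c ^ 2 =
        ∑ j ∈ Finset.univ.erase i, (b : ℝ) ^ n * c ^ 2 := by
      rw [Finset.sum_const, card_erase, nsmul_eq_mul, pow_succ]
      ring
    rw [h2, ← Finset.sum_add_distrib, ← Finset.sum_add_distrib]
    exact Finset.sum_congr rfl fun j _ => by ring

lemma l_nb_of_ch {w : V b} {j : Fin (b + 1)} (hj : j ∈ ch w) : (nb j w).l = j :: w.l :=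
  nb_l_of_not_head j w (mem_ch.1 hj)

lemma PS_eq (n : ℕ) (g : List (Fin (b + 1)) → ℝ) (i : Fin (b + 1)) :
    PS n g i = ∑ w ∈ Sph b n, if w.l.head? ≠ some i then g w.l.reverse else 0 := by
  induction n generalizing g i with
  | zero =>
    rw [Sph_zero, Finset.sum_singleton]
    simp [PS, rt]
  | succ n ih =>
    rw [sum_Sph_succ]
    simp only [PS, ih]
    rw [Finset.sum_comm]
    refine Finset.sum_congr rfl fun w _ => ?_
    have h1 : ∀ j ∈ ch w, (if (nb j w).l.head? ≠ some i then g (nb j w).l.reverse else 0) =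
        if j ≠ i then g (w.l.reverse ++ [j]) else 0 := by
      intro j hj
      rw [l_nb_of_ch hj]
      simp
    rw [Finset.sum_congr rfl h1, ← Finset.sum_filter, ← Finset.sum_filter]
    refine Finset.sum_congr ?_ fun _ _ => rfl
    ext j
    simp [mem_ch, and_comm]

lemma sum_PS_concat (n : ℕ) (g : List (Fin (b + 1)) → ℝ) :
    ∑ j, PS n (fun l => g (l ++ [j])) j = ∑ w ∈ Sph b (n + 1), g w.l := by
  have h0 : ∑ w ∈ Sph b (n + 1), g w.l = ∑ w ∈ Sph b (n + 1), g w.l.reverse := by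
    refine Finset.sum_bij' (fun w _ => inv w) (fun w _ => inv w) ?_ ?_ ?_ ?_ ?_
    · intro w hw
      rw [mem_Sph] at hw ⊢
      rw [len_inv, hw]
    · intro w hw
      rw [mem_Sph] at hw ⊢
      rw [len_inv, hw]
    · intro w _; exact inv_inv' w
    · intro w _; exact inv_inv' w
    · intro w _
      simp [inv]
  rw [h0, sum_Sph_succ]
  simp only [PS_eq]
  rw [Finset.sum_comm]
  refine Finset.sum_congr rfl fun w _ => ?_
  have h1 : ∀ j ∈ ch w, g (nb j w).l.reverse = g (w.l.reverse ++ [j]) := by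
    intro j hj
    rw [l_nb_of_ch hj]
    simp
  rw [Finset.sum_congr rfl h1, ← Finset.sum_filter]
  refine Finset.sum_congr ?_ fun _ _ => rfl
  ext j
  simp [mem_ch]

lemma sum_PS (n : ℕ) (g : List (Fin (b + 1)) → ℝ) :
    ∑ i, PS (n + 1) g i = b * ∑ w ∈ Sph b (n + 1), g w.l := by
  rw [← sum_PS_concat]
  simp only [PS]
  have h1 : ∀ i : Fin (b + 1), ∑ j ∈ Finset.univ.erase i, PS n (fun l => g (l ++ [j])) j =
      (∑ j, PS n (fun l => g (l ++ [j])) j) - PS n (fun l => g (l ++ [i])) i := by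
    intro i
    rw [← Finset.sum_erase_add _ _ (Finset.mem_univ i)]
    ring
  simp only [h1, Finset.sum_sub_distrib, Finset.sum_const, Finset.card_univ, Fintype.card_fin,
    nsmul_eq_mul]
  push_cast
  ring

/-- The pathwise identity. -/
lemma sum_Sph_sq (n : ℕ) (f : F b) :
    (b : ℝ) * ∑ w ∈ Sph b (n + 1), SL f (rt b) w.l ^ 2 = ∑ i, Qn (n + 1) f (rt b) i := by
  rw [← sum_PS n (fun l => SL f (rt b) l ^ 2)]
  refine Finset.sum_congr rfl fun i _ => ?_
  have := PS_sq (n + 1) f (rt b) i 0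
  simp only [zero_add] at this
  rw [this]
  simp

lemma Ln_eq (n : ℕ) (f : F b) :
    Ln n f = ∑ m ∈ Finset.range n, (b : ℝ) ^ (n - 1 - m) • Kn m (Rv f) := by
  have hK : ∀ m, NB^[m + 1] f = Kn m (Rv f) := fun m => by
    rw [Function.iterate_succ_apply]; rfl
  have h : Ln n f = ∑ m ∈ Finset.range n, (b : ℝ) ^ (n - 1 - m) • NB^[m + 1] f := by
    induction n with
    | zero => rfl
    | succ n ih =>
      have hsum : ∀ (s : Finset ℕ) (G : ℕ → F b), NB (∑ m ∈ s, G m) = ∑ m ∈ s, NB (G m) := by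
        intro s G
        classical
        induction s using Finset.induction_on with
        | empty =>
          funext v i
          simp [NB, K0, Rv]
        | insert a s ha ihs => rw [Finset.sum_insert ha, Finset.sum_insert ha, NB_add, ihs]
      rw [Finset.sum_range_succ']
      simp only [Ln, NB_add, NB_smul, ih, hsum]
      rw [add_comm]
      congr 1
      refine Finset.sum_congr rfl fun m hm => ?_
      rw [Finset.mem_range] at hm
      rw [Function.iterate_succ_apply' NB (m + 1)]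
      congr 2
      omega
  rw [h]
  exact Finset.sum_congr rfl fun m _ => by rw [hK]

section L2

variable {Ω : Type*} [MeasurableSpace Ω] {P : Measure Ω} [IsProbabilityMeasure P]
  {T : V b → Ω → Ω}

/-- Total expectation at the root. -/
noncomputable def ev (P : Measure Ω) (X : Ω → F b) : ℝ := ∑ i, ∫ ω, X ω (rt b) i ∂P

lemma Bdd.integrable {X : Ω → F b} (hX : Bdd X) (v : V b) (i : Fin (b + 1)) :
    Integrable (fun ω => X ω v i) P := by
  obtain ⟨hX1, C, hC⟩ := hX
  exact Integrable.of_bound (hX1 v i).aestronglyMeasurable C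
    (Eventually.of_forall fun ω => by rw [Real.norm_eq_abs]; exact hC ω v i)

lemma Bdd.add {X Y : Ω → F b} (hX : Bdd X) (hY : Bdd Y) : Bdd (fun ω => X ω + Y ω) := by
  obtain ⟨hX1, C, hC⟩ := hX
  obtain ⟨hY1, D, hD⟩ := hY
  exact ⟨fun v i => (hX1 v i).add (hY1 v i), C + D, fun ω v i =>
    (abs_add_le _ _).trans (add_le_add (hC ω v i) (hD ω v i))⟩

lemma Bdd.mul {X Y : Ω → F b} (hX : Bdd X) (hY : Bdd Y) : Bdd (fun ω => X ω * Y ω) := by
  obtain ⟨hX1, C, hC⟩ := hX
  obtain ⟨hY1, D, hD⟩ := hY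
  refine ⟨fun v i => (hX1 v i).mul (hY1 v i), C * D, fun ω v i => ?_⟩
  show |X ω v i * Y ω v i| ≤ _
  rw [abs_mul]
  exact mul_le_mul (hC ω v i) (hD ω v i) (abs_nonneg _) ((abs_nonneg _).trans (hC ω v i))

lemma Bdd.smul {X : Ω → F b} (hX : Bdd X) (c : ℝ) : Bdd (fun ω => c • X ω) := by
  obtain ⟨hX1, C, hC⟩ := hX
  refine ⟨fun v i => (hX1 v i).const_mul c, |c| * C, fun ω v i => ?_⟩
  show |c * X ω v i| ≤ _
  rw [abs_mul]
  exact mul_le_mul_of_nonneg_left (hC ω v i) (abs_nonneg _)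

lemma Bdd.zero : Bdd (fun _ : Ω => (0 : F b)) :=
  ⟨fun _ _ => measurable_const, 0, fun _ _ _ => by simp⟩

lemma Bdd.NB {X : Ω → F b} (hX : Bdd X) : Bdd (fun ω => NB (X ω)) := hX.Rv.K0

omit [MeasurableSpace Ω] in
lemma Eqv.add {X Y : Ω → F b} (hX : Eqv T X) (hY : Eqv T Y) : Eqv T (fun ω => X ω + Y ω) := by
  intro g v i ω
  show X ω (mul g v) i + Y ω (mul g v) i = X (T g ω) v i + Y (T g ω) v i
  rw [hX g v i ω, hY g v i ω]

omit [MeasurableSpace Ω] in
lemma Eqv.mul {X Y : Ω → F b} (hX : Eqv T X) (hY : Eqv T Y) : Eqv T (fun ω => X ω * Y ω) := by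
  intro g v i ω
  show X ω (Isg.mul g v) i * Y ω (Isg.mul g v) i = X (T g ω) v i * Y (T g ω) v i
  rw [hX g v i ω, hY g v i ω]

omit [MeasurableSpace Ω] in
lemma Eqv.smul {X : Ω → F b} (hX : Eqv T X) (c : ℝ) : Eqv T (fun ω => c • X ω) := by
  intro g v i ω
  show c * X ω (Isg.mul g v) i = c * X (T g ω) v i
  rw [hX g v i ω]

omit [MeasurableSpace Ω] in
lemma Eqv.zero : Eqv T (fun _ : Ω => (0 : F b)) := fun _ _ _ _ => rfl

omit [MeasurableSpace Ω] in
lemma Eqv.NB {X : Ω → F b} (hX : Eqv T X) : Eqv T (fun ω => NB (X ω)) :=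
  IsgTemperB.Eqv.K0 (IsgTemperB.Eqv.Rv hX)

lemma Ln_bdd {X : Ω → F b} (hX : Bdd X) (n : ℕ) : Bdd (fun ω => Ln n (X ω)) := by
  induction n with
  | zero => exact Bdd.zero
  | succ n ih => exact Bdd.NB (Bdd.add (Bdd.smul hX _) ih)

omit [MeasurableSpace Ω] in
lemma Ln_eqv {X : Ω → F b} (hX : Eqv T X) (n : ℕ) : Eqv T (fun ω => Ln n (X ω)) := by
  induction n with
  | zero => exact Eqv.zero
  | succ n ih => exact Eqv.NB (Eqv.add (Eqv.smul hX _) ih)

lemma Qn_bdd {X : Ω → F b} (hX : Bdd X) (n : ℕ) : Bdd (fun ω => Qn n (X ω)) := by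
  induction n with
  | zero => exact Bdd.zero
  | succ n ih =>
    exact Bdd.NB (Bdd.add (Bdd.add (Bdd.smul (Bdd.mul hX hX) _)
      (Bdd.smul (Bdd.mul hX (Ln_bdd hX n)) _)) ih)

omit [MeasurableSpace Ω] in
lemma Qn_eqv {X : Ω → F b} (hX : Eqv T X) (n : ℕ) : Eqv T (fun ω => Qn n (X ω)) := by
  induction n with
  | zero => exact Eqv.zero
  | succ n ih =>
    exact Eqv.NB (Eqv.add (Eqv.add (Eqv.smul (Eqv.mul hX hX) _)
      (Eqv.smul (Eqv.mul hX (Ln_eqv hX n)) _)) ih)

lemma ev_add {X Y : Ω → F b} (hX : Bdd X) (hY : Bdd Y) :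
    ev P (fun ω => X ω + Y ω) = ev P X + ev P Y := by
  unfold ev
  rw [← Finset.sum_add_distrib]
  exact Finset.sum_congr rfl fun i _ => integral_add (Bdd.integrable hX _ _)
    (Bdd.integrable hY _ _)

omit [IsProbabilityMeasure P] in
lemma ev_smul (X : Ω → F b) (c : ℝ) : ev P (fun ω => c • X ω) = c * ev P X := by
  unfold ev
  rw [Finset.mul_sum]
  exact Finset.sum_congr rfl fun i _ => integral_const_mul _ _

omit [IsProbabilityMeasure P] in
lemma ev_mul (X Y : Ω → F b) : ev P (fun ω => X ω * Y ω) = ip P X Y := rfl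

lemma ev_NB (hT : ∀ g, MeasurePreserving (T g) P P) {X : Ω → F b} (hX : Bdd X)
    (hE : Eqv T X) : ev P (fun ω => NB (X ω)) = b * ev P X := by
  have h1 : ∀ i : Fin (b + 1), ∫ ω, X ω (nb i (rt b)) i ∂P = ∫ ω, X ω (rt b) i ∂P := by
    intro i
    have h2 : ∀ ω, X ω (nb i (rt b)) i = X (T (nb i (rt b)) ω) (rt b) i := by
      intro ω
      have := hE (nb i (rt b)) (rt b) i ω
      rwa [mul_rt] at this
    simp only [h2]
    have h3 : AEStronglyMeasurable (fun ω => X ω (rt b) i) (P.map (T (nb i (rt b)))) :=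
      (hX.1 _ _).aestronglyMeasurable
    have h4 := integral_map (hT (nb i (rt b))).measurable.aemeasurable h3
    rw [(hT (nb i (rt b))).map_eq] at h4
    exact h4.symm
  unfold ev NB K0 Rv
  have h2 : ∀ i : Fin (b + 1), ∫ ω, ∑ j ∈ Finset.univ.erase i, X ω (nb j (rt b)) j ∂P =
      (∑ j, ∫ ω, X ω (rt b) j ∂P) - ∫ ω, X ω (rt b) i ∂P := by
    intro i
    rw [integral_finsetSum _ fun j _ => Bdd.integrable hX _ _]
    simp only [h1]
    rw [← Finset.sum_erase_add _ _ (Finset.mem_univ i)]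
    ring
  simp only [h2, Finset.sum_sub_distrib, Finset.sum_const, Finset.card_univ, Fintype.card_fin,
    nsmul_eq_mul]
  push_cast
  ring

/-- The constant. -/
noncomputable def C1 (b : ℕ) : ℝ := ∑' m : ℕ, ((m : ℝ) + 1) * (Real.sqrt b)⁻¹ ^ m

lemma summable_C1 (hb : 2 ≤ b) : Summable (fun m : ℕ => ((m : ℝ) + 1) * (Real.sqrt b)⁻¹ ^ m) := by
  have h1 : ‖(Real.sqrt b)⁻¹‖ < 1 := by
    rw [Real.norm_eq_abs, abs_of_nonneg (by positivity)]
    apply inv_lt_one_of_one_lt₀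
    rw [Real.lt_sqrt (by norm_num)]
    have : (2 : ℝ) ≤ b := by exact_mod_cast hb
    linarith
  have h2 := summable_pow_mul_geometric_of_norm_lt_one 1 h1
  have h3 := summable_geometric_of_norm_lt_one h1
  refine (h2.add h3).congr fun m => ?_
  rw [pow_one]; ring

lemma C1_nonneg (b : ℕ) : 0 ≤ C1 b := tsum_nonneg fun m => by positivity

omit [MeasurableSpace Ω] in
lemma sum_fn {n : ℕ} (G : ℕ → Ω → F b) (ω : Ω) (v : V b) (i : Fin (b + 1)) :
    (∑ m ∈ Finset.range n, G m ω) v i = ∑ m ∈ Finset.range n, G m ω v i := by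
  rw [Finset.sum_apply, Finset.sum_apply]

/-- Second moment of the path sums. -/
theorem path_bound (hb : 2 ≤ b) (hT : ∀ g, MeasurePreserving (T g) P P) {Z : Ω → F b}
    (hZ : Bdd Z) (hE : Eqv T Z) (C : ℝ)
    (hC : ∀ (S : Finset (E b)) (a : E b → ℝ),
      ∫ ω, (∑ e ∈ S, a e * Z ω e.1 e.2) ^ 2 ∂P ≤ C * ∑ e ∈ S, a e ^ 2) (n : ℕ) :
    ∑ w ∈ Sph b n, ∫ ω, SL (Z ω) (rt b) w.l ^ 2 ∂P ≤
      (1 + 2 * C1 b) * n * (b : ℝ) ^ n * ip P Z Z := by
  have hb1 : 1 ≤ b := by omega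
  have hb0 : (0 : ℝ) < b := by exact_mod_cast hb1
  have hsb := sqrt_pos hb1
  have hB := ip_nonneg (P := P) Z
  -- the reversed family
  have hX : Bdd (fun ω => Rv (Z ω)) := IsgTemperB.Bdd.Rv hZ
  have hXE : Eqv T (fun ω => Rv (Z ω)) := IsgTemperB.Eqv.Rv hE
  have hXip : ip P (fun ω => Rv (Z ω)) (fun ω => Rv (Z ω)) = ip P Z Z := by
    have h1 := ip_Rv hT hZ hX hE hXE
    rw [h1]
    congr 1
    funext ω
    exact Rv_Rv (Z ω)
  have hXC : ∀ (S : Finset (E b)) (a : E b → ℝ),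
      ∫ ω, (∑ e ∈ S, a e * Rv (Z ω) e.1 e.2) ^ 2 ∂P ≤ C * ∑ e ∈ S, a e ^ 2 := by
    intro S a
    let r : E b → E b := fun e => (nb e.2 e.1, e.2)
    have hr : ∀ e, r (r e) = e := fun e => by simp [r, nb_nb]
    have hinj : Function.Injective r := fun e e' h => by rw [← hr e, h, hr e']
    have h1 := hC (S.image r) (fun e => a (r e))
    rw [Finset.sum_image fun e _ e' _ h => hinj h] at h1
    simp only [hr] at h1
    refine le_trans (le_of_eq ?_) h1
    congr 1
    funext ω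
    congr 1
    rw [Finset.sum_image fun e _ e' _ h => hinj h]
    refine Finset.sum_congr rfl fun e _ => ?_
    rw [hr e]
    rfl
  -- estimate of the cross term
  have hcross : ∀ n : ℕ, ip P Z (fun ω => Ln n (Z ω)) ≤ C1 b * (b : ℝ) ^ n * ip P Z Z := by
    intro n
    have h1 : ip P Z (fun ω => Ln n (Z ω)) =
        ∑ m ∈ Finset.range n, (b : ℝ) ^ (n - 1 - m) * ip P Z (fun ω => Kn m (Rv (Z ω))) := by
      unfold ip
      simp only [Ln_eq]
      have h2 : ∀ i : Fin (b + 1), ∫ ω, Z ω (rt b) i *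
          (∑ m ∈ Finset.range n, (b : ℝ) ^ (n - 1 - m) • Kn m (Rv (Z ω))) (rt b) i ∂P =
          ∑ m ∈ Finset.range n, (b : ℝ) ^ (n - 1 - m) *
            ∫ ω, Z ω (rt b) i * Kn m (Rv (Z ω)) (rt b) i ∂P := by
        intro i
        have h3 : (fun ω => Z ω (rt b) i *
            (∑ m ∈ Finset.range n, (b : ℝ) ^ (n - 1 - m) • Kn m (Rv (Z ω))) (rt b) i) =
            fun ω => ∑ m ∈ Finset.range n, (b : ℝ) ^ (n - 1 - m) *
              (Z ω (rt b) i * Kn m (Rv (Z ω)) (rt b) i) := by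
          funext ω
          rw [Finset.sum_apply, Finset.sum_apply, Finset.mul_sum]
          refine Finset.sum_congr rfl fun m _ => ?_
          simp only [Pi.smul_apply, smul_eq_mul]
          ring
        rw [h3, integral_finsetSum]
        · exact Finset.sum_congr rfl fun m _ => integral_const_mul _ _
        · intro m _
          exact (hZ.integrable_mul ((adm_Kn (P := P) hT m).bdd _ hX) _ _ _ _).const_mul _
      simp only [h2]
      rw [Finset.sum_comm]
      exact Finset.sum_congr rfl fun m _ => by rw [Finset.mul_sum]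
    rw [h1]
    have h2 : ∀ m ∈ Finset.range n, (b : ℝ) ^ (n - 1 - m) * ip P Z (fun ω => Kn m (Rv (Z ω))) ≤
        (b : ℝ) ^ n * ip P Z Z * (((m : ℝ) + 1) * (Real.sqrt b)⁻¹ ^ m) := by
      intro m hm
      rw [Finset.mem_range] at hm
      have h3 := le_of_abs_le (bilin_bound hb1 hT hX hXE hZ C hXC m (ip P Z Z) hXip.le le_rfl)
      have h4 : (0 : ℝ) ≤ (b : ℝ) ^ (n - 1 - m) := by positivity
      refine (mul_le_mul_of_nonneg_left h3 h4).trans (le_of_eq ?_)
      unfold Lam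
      have h5 : (b : ℝ) ^ n = (b : ℝ) ^ (n - 1 - m) * b * (b : ℝ) ^ m := by
        rw [← pow_succ, ← pow_add]
        congr 1
        omega
      have h6 : (b : ℝ) ^ m = Real.sqrt b ^ m * Real.sqrt b ^ m := by
        rw [← mul_pow, Real.mul_self_sqrt hb0.le]
      rw [h5, h6]
      have h7 : Real.sqrt b ^ m * (Real.sqrt b)⁻¹ ^ m = 1 := by
        rw [← mul_pow, mul_inv_cancel₀ hsb.ne', one_pow]
      linear_combination (-((b : ℝ) ^ (n - 1 - m) * b * (m + 1) * Real.sqrt b ^ m * ip P Z Z)) * h7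
    refine (Finset.sum_le_sum h2).trans ?_
    rw [← Finset.mul_sum]
    have h3 : ∑ m ∈ Finset.range n, ((m : ℝ) + 1) * (Real.sqrt b)⁻¹ ^ m ≤ C1 b :=
      (summable_C1 hb).sum_le_tsum _ fun m _ => by positivity
    calc (b : ℝ) ^ n * ip P Z Z * ∑ m ∈ Finset.range n, ((m : ℝ) + 1) * (Real.sqrt b)⁻¹ ^ m
        ≤ (b : ℝ) ^ n * ip P Z Z * C1 b := mul_le_mul_of_nonneg_left h3 (by positivity)
      _ = C1 b * (b : ℝ) ^ n * ip P Z Z := by ring
  -- recursion for the quadratic functional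
  have hq : ∀ n : ℕ, ev P (fun ω => Qn n (Z ω)) ≤
      (1 + 2 * C1 b) * n * (b : ℝ) ^ n * ip P Z Z := by
    intro n
    induction n with
    | zero => simp [Qn, ev]
    | succ n ih =>
      have hb1' : Bdd (fun ω => (b : ℝ) ^ n • (Z ω * Z ω)) := Bdd.smul (Bdd.mul hZ hZ) _
      have hb2' : Bdd (fun ω => (2 : ℝ) • (Z ω * Ln n (Z ω))) :=
        Bdd.smul (Bdd.mul hZ (Ln_bdd hZ n)) _
      have he1' : Eqv T (fun ω => (b : ℝ) ^ n • (Z ω * Z ω)) := Eqv.smul (Eqv.mul hE hE) _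
      have he2' : Eqv T (fun ω => (2 : ℝ) • (Z ω * Ln n (Z ω))) :=
        Eqv.smul (Eqv.mul hE (Ln_eqv hE n)) _
      have h1 : ev P (fun ω => Qn (n + 1) (Z ω)) = b * ((b : ℝ) ^ n * ip P Z Z +
          2 * ip P Z (fun ω => Ln n (Z ω)) + ev P (fun ω => Qn n (Z ω))) := by
        have h2 := ev_NB (P := P) hT (Bdd.add (Bdd.add hb1' hb2') (Qn_bdd hZ n))
          (Eqv.add (Eqv.add he1' he2') (Qn_eqv hE n))
        have h3 : (fun ω => Qn (n + 1) (Z ω)) = fun ω => NB ((b : ℝ) ^ n • (Z ω * Z ω) +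
          (2 : ℝ) • (Z ω * Ln n (Z ω)) + Qn n (Z ω)) := rfl
        rw [h3, h2, ev_add (Bdd.add hb1' hb2') (Qn_bdd hZ n), ev_add hb1' hb2',
          ev_smul (fun ω => Z ω * Z ω), ev_smul (fun ω => Z ω * Ln n (Z ω)), ev_mul, ev_mul]
      rw [h1]
      have h2 := hcross n
      have h3 : (b : ℝ) * ((b : ℝ) ^ n * ip P Z Z + 2 * ip P Z (fun ω => Ln n (Z ω)) +
          ev P (fun ω => Qn n (Z ω))) ≤ b * ((b : ℝ) ^ n * ip P Z Z +
          2 * (C1 b * (b : ℝ) ^ n * ip P Z Z) +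
          (1 + 2 * C1 b) * n * (b : ℝ) ^ n * ip P Z Z) := by
        apply mul_le_mul_of_nonneg_left _ hb0.le
        linarith
      refine h3.trans (le_of_eq ?_)
      push_cast
      ring
  cases n with
  | zero =>
    rw [Sph_zero, Finset.sum_singleton]
    simp [rt]
  | succ n =>
    have h1 : (b : ℝ) * ∑ w ∈ Sph b (n + 1), ∫ ω, SL (Z ω) (rt b) w.l ^ 2 ∂P =
        ev P (fun ω => Qn (n + 1) (Z ω)) := by
      have hSLb : ∀ l : List (Fin (b + 1)), Integrable (fun ω => SL (Z ω) (rt b) l ^ 2) P := by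
        intro l
        have h2 : (Measurable (fun ω => SL (Z ω) (rt b) l)) ∧
            ∃ D, ∀ ω, |SL (Z ω) (rt b) l| ≤ D := by
          induction l with
          | nil => exact ⟨measurable_const, 0, fun ω => by simp⟩
          | cons i l ih =>
            obtain ⟨ih1, D, hD⟩ := ih
            obtain ⟨hZ1, C', hC'⟩ := hZ
            refine ⟨ih1.add (hZ1 _ _), D + C', fun ω => ?_⟩
            rw [SL_cons]
            exact (abs_add_le _ _).trans (add_le_add (hD ω) (hC' ω _ _))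
        obtain ⟨h3, D, hD⟩ := h2
        refine Integrable.of_bound (h3.pow_const 2).aestronglyMeasurable (D ^ 2)
          (Eventually.of_forall fun ω => ?_)
        rw [Real.norm_eq_abs, abs_pow]
        exact pow_le_pow_left₀ (abs_nonneg _) (hD ω) 2
      rw [← integral_finsetSum _ fun w _ => hSLb w.l, ← integral_const_mul]
      simp only [sum_Sph_sq]
      unfold ev
      rw [integral_finsetSum]
      intro i _
      exact Bdd.integrable (Qn_bdd hZ (n + 1)) _ _
    have h2 := hq (n + 1)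
    rw [← h1] at h2
    have h3 : 0 ≤ ∑ w ∈ Sph b (n + 1), ∫ ω, SL (Z ω) (rt b) w.l ^ 2 ∂P :=
      Finset.sum_nonneg fun w _ => integral_nonneg fun ω => sq_nonneg _
    have h4 : (1 : ℝ) ≤ b := by exact_mod_cast hb1
    have h5 : ∑ w ∈ Sph b (n + 1), ∫ ω, SL (Z ω) (rt b) w.l ^ 2 ∂P ≤
        (b : ℝ) * ∑ w ∈ Sph b (n + 1), ∫ ω, SL (Z ω) (rt b) w.l ^ 2 ∂P :=
      le_mul_of_one_le_left h3 h4
    exact h5.trans h2

end L2

end Crest.Agent.IsgTemperC
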