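import Crest.Agent.IsgSpec
import Crest.Agent.IsgEqvB
import Crest.Agent.IsgTemperP

set_option autoImplicit false

/-!
Module TEMPERC of rid 160: temperedness of pair laws, from the variance bound `TemperA` and `GoodPL`.
-/

open MeasureTheory Filter Topology

namespace Crest.Agent.IsgTemperC

open Crest.Agent.Isg Crest.Agent.IsgTemperB

variable {b : ℕ}

/-- The variance bound (module TEMPERA). -/
def TemperA : Prop := ∀ (b : ℕ) (θ : ℝ), 2 ≤ b → 0 ≤ θ → θ < 1 →
  ∀ (ρ : Measure ℝ) (H : ℝ) (L : Measure ((V b → ℝ) × (V b → ℝ))),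
    Chan ρ H → PairLaw b θ ρ L → ∀ N : ℕ, ∃ C : ℝ,
      ∀ (S : Finset (V b × Fin (b + 1))) (a : V b × Fin (b + 1) → ℝ),
        ∫ p, (∑ e ∈ S, a e * (-Real.log (kap θ (lm θ N p.1 e.1 e.2)) +
          Real.log (kap θ (lm θ N p.2 e.1 e.2)))) ^ 2 ∂L ≤ C * ∑ e ∈ S, a e ^ 2

/-- Truncated logarithm of the slope factor. -/
noncomputable def gc (θ K x : ℝ) : ℝ := -Real.log (kap θ (max (-K) (min x K)))

lemma clip_eq {K x : ℝ} (h : |x| ≤ K) : max (-K) (min x K) = x := by
  obtain ⟨h1, h2⟩ := abs_le.1 h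
  rw [min_eq_left h2, max_eq_right h1]

lemma gc_eq {θ K x : ℝ} (h : |x| ≤ K) : gc θ K x = -Real.log (kap θ x) := by
  rw [gc, clip_eq h]

lemma continuous_gc {θ : ℝ} (h0 : 0 ≤ θ) (h1 : θ < 1) (K : ℝ) : Continuous (gc θ K) := by
  unfold gc
  refine (Continuous.log ((continuous_kap h0 h1).comp (by fun_prop)) fun x => ?_).neg
  exact (kap_pos h0 h1 _).ne'

lemma gc_bdd {θ : ℝ} (h0 : 0 ≤ θ) (h1 : θ < 1) (K : ℝ) (hK : 0 ≤ K) :
    ∃ G : ℝ, ∀ x, |gc θ K x| ≤ G := by
  have h2 : ContinuousOn (fun x => -Real.log (kap θ x)) (Set.Icc (-K) K) :=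
    ((continuous_kap h0 h1).log fun x => (kap_pos h0 h1 x).ne').neg.continuousOn
  obtain ⟨G, hG⟩ := isCompact_Icc.exists_bound_of_continuousOn h2
  refine ⟨G, fun x => ?_⟩
  have h3 := hG (max (-K) (min x K)) ⟨le_max_left _ _, max_le (by linarith) (min_le_right _ _)⟩
  rwa [Real.norm_eq_abs] at h3

/-- The truncated finite depth family. -/
noncomputable def ZN (θ K : ℝ) (N : ℕ) (p : (V b → ℝ) × (V b → ℝ)) : F b := fun v i =>
  gc θ K (lm θ N p.1 v i) - gc θ K (lm θ N p.2 v i)

/-- The truncated infinite depth family. -/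
noncomputable def ZI (θ K : ℝ) (p : (V b → ℝ) × (V b → ℝ)) : F b := fun v i =>
  gc θ K (lmI θ p.1 v i) - gc θ K (lmI θ p.2 v i)

/-- Translations. -/
def tr (g : V b) (p : (V b → ℝ) × (V b → ℝ)) : (V b → ℝ) × (V b → ℝ) :=
  ((fun v => p.1 (mul g v)), (fun v => p.2 (mul g v)))

lemma measurable_tr (g : V b) : Measurable (tr g) := by
  unfold tr
  refine Measurable.prodMk ?_ ?_
  · exact measurable_pi_iff.2 fun v => (measurable_pi_apply _).comp measurable_fst
  · exact measurable_pi_iff.2 fun v => (measurable_pi_apply _).comp measurable_snd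

lemma ZN_eqv (θ K : ℝ) (N : ℕ) : Eqv (tr (b := b)) (ZN θ K N) := by
  intro g v i p
  simp only [ZN, tr, lm_mul]

lemma ZN_bdd {θ : ℝ} (h0 : 0 ≤ θ) (h1 : θ < 1) {K : ℝ} (hK : 0 ≤ K) (N : ℕ) :
    Bdd (ZN (b := b) θ K N) := by
  obtain ⟨G, hG⟩ := gc_bdd h0 h1 K hK
  refine ⟨fun v i => ?_, G + G, fun p v i => ?_⟩
  · have h2 := (continuous_gc h0 h1 K).measurable
    exact (h2.comp ((measurable_lm θ N v i).comp measurable_fst)).sub
      (h2.comp ((measurable_lm θ N v i).comp measurable_snd))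
  · unfold ZN
    exact (abs_sub _ _).trans (add_le_add (hG _) (hG _))

lemma ZI_bdd {θ : ℝ} (h0 : 0 ≤ θ) (h1 : θ < 1) {K : ℝ} (hK : 0 ≤ K) :
    Bdd (ZI (b := b) θ K) := by
  obtain ⟨G, hG⟩ := gc_bdd h0 h1 K hK
  refine ⟨fun v i => ?_, G + G, fun p v i => ?_⟩
  · have h2 := (continuous_gc h0 h1 K).measurable
    exact (h2.comp ((measurable_lmI θ v i).comp measurable_fst)).sub
      (h2.comp ((measurable_lmI θ v i).comp measurable_snd))
  · unfold ZI
    exact (abs_sub _ _).trans (add_le_add (hG _) (hG _))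

lemma SL_abs_le {f : F b} {D : ℝ} (hf : ∀ v i, |f v i| ≤ D) (u : V b)
    (l : List (Fin (b + 1))) : |SL f u l| ≤ l.length * D := by
  induction l with
  | nil => simp
  | cons i l ih =>
    rw [SL_cons, List.length_cons]
    push_cast
    refine (abs_add_le _ _).trans ?_
    have := hf (follow u (i :: l)) i
    linarith

lemma SL_sub (f g : F b) (u : V b) (l : List (Fin (b + 1))) :
    SL (fun v i => f v i - g v i) u l = SL f u l - SL g u l := by
  induction l with
  | nil => simp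
  | cons i l ih => rw [SL_cons, SL_cons, SL_cons, ih]; ring

lemma SL_measurable {Ω : Type*} [MeasurableSpace Ω] {X : Ω → F b}
    (hX : ∀ v i, Measurable (fun ω => X ω v i)) (u : V b) (l : List (Fin (b + 1))) :
    Measurable (fun ω => SL (X ω) u l) := by
  induction l with
  | nil => exact measurable_const
  | cons i l ih => exact ih.add (hX _ _)

lemma SL_tendsto {X : ℕ → F b} {Y : F b} (h : ∀ v i, Tendsto (fun N => X N v i) atTop (𝓝 (Y v i)))
    (u : V b) (l : List (Fin (b + 1))) :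
    Tendsto (fun N => SL (X N) u l) atTop (𝓝 (SL Y u l)) := by
  induction l with
  | nil => exact tendsto_const_nhds
  | cons i l ih => exact ih.add (h _ _)

lemma log_DDl {θ : ℝ} (h0 : 0 ≤ θ) (h1 : θ < 1) (h : V b → ℝ) (u : V b)
    (l : List (Fin (b + 1))) : Real.log (DDl θ h u l) = -SL (gg θ h) u l := by
  induction l with
  | nil => simp
  | cons i l ih =>
    rw [DDl_cons, Real.log_mul (DDl_pos h0 h1 h u l).ne' (kap_pos h0 h1 _).ne', ih, SL_cons]
    unfold gg
    ring

theorem main (hA : TemperA) (hG : Spec.GoodPL) : Spec.Temper := by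
  intro b θ hb h0 h1
  refine ⟨1 + 2 * C1 b, by have := C1_nonneg b; positivity, ?_⟩
  intro ρ H L hρ hL n
  haveI := hρ.prob
  haveI hPL : IsProbabilityMeasure (PL b θ ρ) := isProb_PL h0 h1 ρ
  haveI hLp : IsProbabilityMeasure L := by
    constructor
    have h2 := hL.fst
    have h3 : (L.map Prod.fst) Set.univ = 1 := by rw [h2]; exact measure_univ
    rwa [Measure.map_apply measurable_fst MeasurableSet.univ, Set.preimage_univ] at h3
  have hT : ∀ g : V b, MeasurePreserving (tr g) L L := fun g => ⟨measurable_tr g, hL.inv g⟩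
  -- almost sure facts
  have hgood : ∀ᵐ p ∂L, GoodH θ H p.1 ∧ GoodH θ H p.2 := by
    have h2 := hG b θ (by omega) h0 h1 ρ H hρ
    have h3 : ∀ᵐ p ∂L, GoodH θ H p.1 := by
      rw [← hL.fst] at h2
      exact ae_of_ae_map measurable_fst.aemeasurable h2
    have h4 : ∀ᵐ p ∂L, GoodH θ H p.2 := by
      rw [← hL.snd] at h2
      exact ae_of_ae_map measurable_snd.aemeasurable h2
    filter_upwards [h3, h4] with p h5 h6 using ⟨h5, h6⟩
  have hH0 : 0 ≤ H := by
    obtain ⟨p, hp⟩ := hgood.exists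
    exact (abs_nonneg _).trans (hp.1.2 (rt b))
  have hat := artanh_nonneg_of h0
  obtain ⟨K, hKdef⟩ : ∃ K : ℝ, K = H + b * Real.artanh θ := ⟨_, rfl⟩
  have hK : 0 ≤ K := by rw [hKdef]; positivity
  have hlm : ∀ (h : V b → ℝ), GoodH θ H h → ∀ N v i, |lm θ N h v i| ≤ K := by
    intro h hh N v i
    have h2 := abs_lm_le h0 h1 N h v i
    have h3 := hh.2 v
    rw [hKdef]; linarith
  have hlmI : ∀ (h : V b → ℝ), GoodH θ H h → ∀ v i, |lmI θ h v i| ≤ K := by
    intro h hh v i
    have h2 := hh.1.abs_lmI_le h0 h1 v i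
    have h3 := hh.2 v
    rw [hKdef]; linarith
  obtain ⟨G, hGc⟩ := gc_bdd h0 h1 K hK
  have hG0 : 0 ≤ G := (abs_nonneg _).trans (hGc 0)
  have hZNb : ∀ N (p : (V b → ℝ) × (V b → ℝ)) v i, |ZN θ K N p v i| ≤ G + G := by
    intro N p v i
    unfold ZN
    exact (abs_sub _ _).trans (add_le_add (hGc _) (hGc _))
  have hZIb : ∀ (p : (V b → ℝ) × (V b → ℝ)) v i, |ZI θ K p v i| ≤ G + G := by
    intro p v i
    unfold ZI
    exact (abs_sub _ _).trans (add_le_add (hGc _) (hGc _))
  -- finite depth inequality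
  have hfin : ∀ N, ∑ w ∈ Sph b n, ∫ p, SL (ZN θ K N p) (rt b) w.l ^ 2 ∂L ≤
      (1 + 2 * C1 b) * n * (b : ℝ) ^ n * ip L (ZN θ K N) (ZN θ K N) := by
    intro N
    obtain ⟨C, hC⟩ := hA b θ hb h0 h1 ρ H L hρ hL N
    refine path_bound hb hT (ZN_bdd h0 h1 hK N) (ZN_eqv θ K N) C ?_ n
    intro S a
    refine le_trans (le_of_eq ?_) (hC S a)
    apply integral_congr_ae
    filter_upwards [hgood] with p hp
    congr 1
    refine Finset.sum_congr rfl fun e _ => ?_
    congr 1
    unfold ZN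
    rw [gc_eq (hlm _ hp.1 _ _ _), gc_eq (hlm _ hp.2 _ _ _)]
    ring
  -- limits
  have hlim : ∀ᵐ p ∂L, ∀ v i, Tendsto (fun N => ZN θ K N p v i) atTop (𝓝 (ZI θ K p v i)) := by
    filter_upwards [hgood] with p hp v i
    have h2 := ((continuous_gc h0 h1 K).tendsto _).comp (hp.1.1.tendsto_lm v i)
    have h3 := ((continuous_gc h0 h1 K).tendsto _).comp (hp.2.1.tendsto_lm v i)
    exact h2.sub h3
  have hlimSL : ∀ l : List (Fin (b + 1)), Tendsto (fun N => ∫ p, SL (ZN θ K N p) (rt b) l ^ 2 ∂L)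
      atTop (𝓝 (∫ p, SL (ZI θ K p) (rt b) l ^ 2 ∂L)) := by
    intro l
    refine tendsto_integral_of_dominated_convergence (fun _ => (l.length * (G + G)) ^ 2) ?_ ?_ ?_ ?_
    · intro N
      exact ((SL_measurable (ZN_bdd h0 h1 hK N).1 _ _).pow_const 2).aestronglyMeasurable
    · exact integrable_const _
    · intro N
      refine Eventually.of_forall fun p => ?_
      rw [Real.norm_eq_abs, abs_pow]
      exact pow_le_pow_left₀ (abs_nonneg _) (SL_abs_le (hZNb N p) _ _) 2
    · filter_upwards [hlim] with p hp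
      exact (SL_tendsto (fun v i => hp v i) _ _).pow 2
  have hlimip : Tendsto (fun N => ip L (ZN θ K N) (ZN θ K N)) atTop
      (𝓝 (ip L (ZI (b := b) θ K) (ZI θ K))) := by
    unfold ip
    refine tendsto_finsetSum _ fun i _ => ?_
    refine tendsto_integral_of_dominated_convergence (fun _ => (G + G) * (G + G)) ?_ ?_ ?_ ?_
    · intro N
      have h2 := (ZN_bdd (b := b) h0 h1 hK N).1 (rt b) i
      exact (h2.mul h2).aestronglyMeasurable
    · exact integrable_const _
    · intro N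
      refine Eventually.of_forall fun p => ?_
      rw [Real.norm_eq_abs, abs_mul]
      exact mul_le_mul (hZNb N p _ _) (hZNb N p _ _) (abs_nonneg _) (by positivity)
    · filter_upwards [hlim] with p hp
      exact (hp _ _).mul (hp _ _)
  have hinf : ∑ w ∈ Sph b n, ∫ p, SL (ZI θ K p) (rt b) w.l ^ 2 ∂L ≤
      (1 + 2 * C1 b) * n * (b : ℝ) ^ n * ip L (ZI (b := b) θ K) (ZI θ K) :=
    le_of_tendsto_of_tendsto' (tendsto_finsetSum _ fun w _ => hlimSL w.l)
      (hlimip.const_mul _) hfin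
  -- rewriting of both sides
  have hleft : ∑' w : V b, (if len w = n then
      ∫⁻ p, ENNReal.ofReal ((Real.log (DD θ p.1 (rt b) w) -
        Real.log (DD θ p.2 (rt b) w)) ^ 2) ∂L else 0) =
      ENNReal.ofReal (∑ w ∈ Sph b n, ∫ p, SL (ZI θ K p) (rt b) w.l ^ 2 ∂L) := by
    rw [tsum_eq_sum (s := Sph b n)]
    · rw [ENNReal.ofReal_sum_of_nonneg fun w _ => integral_nonneg fun p => sq_nonneg _]
      refine Finset.sum_congr rfl fun w hw => ?_
      rw [if_pos (mem_Sph.1 hw), ofReal_integral_eq_lintegral_ofReal]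
      · apply lintegral_congr_ae
        filter_upwards [hgood] with p hp
        congr 1
        have h2 : SL (ZI θ K p) (rt b) w.l = SL (gg θ p.1) (rt b) w.l - SL (gg θ p.2) (rt b) w.l := by
          rw [← SL_sub]
          congr 1
          funext v i
          unfold ZI gg
          rw [gc_eq (hlmI _ hp.1 _ _), gc_eq (hlmI _ hp.2 _ _)]
        rw [h2]
        unfold DD
        rw [log_DDl h0 h1, log_DDl h0 h1]
        ring
      · refine Integrable.of_bound
          ((SL_measurable (ZI_bdd h0 h1 hK).1 _ _).pow_const 2).aestronglyMeasurable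
          ((w.l.length * (G + G)) ^ 2) (Eventually.of_forall fun p => ?_)
        rw [Real.norm_eq_abs, abs_pow]
        exact pow_le_pow_left₀ (abs_nonneg _) (SL_abs_le (hZIb p) _ _) 2
      · exact Eventually.of_forall fun p => sq_nonneg _
    · intro w hw
      rw [if_neg]
      intro h2
      exact hw (mem_Sph.2 h2)
  have hright : ENNReal.ofReal (ip L (ZI (b := b) θ K) (ZI θ K)) =
      ∑ i, ∫⁻ p, ENNReal.ofReal ((gg θ p.1 (rt b) i - gg θ p.2 (rt b) i) ^ 2) ∂L := by
    unfold ip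
    rw [ENNReal.ofReal_sum_of_nonneg fun w _ => integral_nonneg fun p => mul_self_nonneg _]
    refine Finset.sum_congr rfl fun i _ => ?_
    rw [ofReal_integral_eq_lintegral_ofReal]
    · apply lintegral_congr_ae
      filter_upwards [hgood] with p hp
      congr 1
      unfold ZI gg
      rw [gc_eq (hlmI _ hp.1 _ _), gc_eq (hlmI _ hp.2 _ _)]
      ring
    · exact (ZI_bdd h0 h1 hK).integrable_mul (ZI_bdd h0 h1 hK) _ _ _ _
    · exact Eventually.of_forall fun p => mul_self_nonneg _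
  rw [hleft, ← hright, ← ENNReal.ofReal_mul]
  · exact ENNReal.ofReal_le_ofReal hinf
  · have := C1_nonneg b
    positivity

end Crest.Agent.IsgTemperC
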