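import Crest.Agent.IsgTree
import Crest.Agent.IsgSpec

set_option autoImplicit false

/-!
S0241, module TREEISO: every `(b+1)`-regular tree is isomorphic to the word model.
-/

namespace Crest.Agent.IsgTreeIso

open Crest.Agent.Isg SimpleGraph

universe u
variable {b : ℕ} {W : Type u} {G : SimpleGraph W}

/-- in a tree a vertex has at most one neighbour closer to the root -/
lemma unique_closer (hG : G.IsTree) {r v x y : W} (hx : G.Adj x v) (hy : G.Adj y v)
    (dx : G.dist r x + 1 = G.dist r v) (dy : G.dist r y + 1 = G.dist r v) : x = y := by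
  obtain ⟨p, -, hpl⟩ := (hG.connected r x).exists_path_of_dist
  obtain ⟨q, -, hql⟩ := (hG.connected r y).exists_path_of_dist
  have h1 : (p.concat hx).IsPath :=
    Walk.isPath_of_length_eq_dist _ (by rw [Walk.length_concat, hpl, dx])
  have h2 : (q.concat hy).IsPath :=
    Walk.isPath_of_length_eq_dist _ (by rw [Walk.length_concat, hql, dy])
  have h3 := (hG.existsUnique_path r v).unique h1 h2
  have h4 := congrArg Walk.penultimate h3
  simpa using h4

/-- A vertex with a labelling of its neighbours. -/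
structure St (b : ℕ) (G : SimpleGraph W) where
  w : W
  e : Fin (b + 1) ≃ G.neighborSet w

/-- all neighbour sets have `b+1` elements -/
def Reg (b : ℕ) (G : SimpleGraph W) : Prop := ∀ w : W, Nonempty (Fin (b + 1) ≃ G.neighborSet w)

/-- the next state -/
noncomputable def next (hR : Reg b G) (s : St b G) (i : Fin (b + 1)) : St b G where
  w := s.e i
  e := (Equiv.swap i ((hR (s.e i)).some.symm ⟨s.w, (s.e i).2.symm⟩)).trans (hR (s.e i)).some

lemma next_w (hR : Reg b G) (s : St b G) (i : Fin (b + 1)) : (next hR s i).w = s.e i := rfl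

lemma next_e (hR : Reg b G) (s : St b G) (i : Fin (b + 1)) : ((next hR s i).e i : W) = s.w := by
  show (((hR (s.e i)).some
      (Equiv.swap i ((hR (s.e i)).some.symm ⟨s.w, (s.e i).2.symm⟩) i)) : W) = _
  rw [Equiv.swap_apply_left, Equiv.apply_symm_apply]

/-- the state reached by a list of colours (the head is the last step) -/
noncomputable def run (hR : Reg b G) (s₀ : St b G) : List (Fin (b + 1)) → St b G
  | [] => s₀
  | i :: l => next hR (run hR s₀ l) i

/-- the map -/
noncomputable def ff (hR : Reg b G) (s₀ : St b G) (v : V b) : W := (run hR s₀ v.l).w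

lemma ff_nb (hR : Reg b G) (s₀ : St b G) (i : Fin (b + 1)) (v : V b) :
    ff hR s₀ (nb i v) = (run hR s₀ v.l).e i := by
  obtain ⟨l, hl⟩ := v
  cases l with
  | nil => rfl
  | cons j l =>
    by_cases hij : i = j
    · subst hij
      rw [nb_cons_self]
      exact (next_e hR (run hR s₀ l) i).symm
    · rw [nb_cons_ne l hl hij]
      rfl

lemma adj_ff (hR : Reg b G) (s₀ : St b G) (i : Fin (b + 1)) (v : V b) :
    G.Adj (ff hR s₀ v) (ff hR s₀ (nb i v)) := by
  rw [ff_nb]
  exact ((run hR s₀ v.l).e i).2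

lemma ff_nb_inj (hR : Reg b G) (s₀ : St b G) {i j : Fin (b + 1)} {v : V b}
    (h : ff hR s₀ (nb i v) = ff hR s₀ (nb j v)) : i = j := by
  rw [ff_nb, ff_nb] at h
  exact (run hR s₀ v.l).e.injective (Subtype.ext h)

lemma exists_ff_nb (hR : Reg b G) (s₀ : St b G) {v : V b} {w : W} (h : G.Adj (ff hR s₀ v) w) :
    ∃ i, ff hR s₀ (nb i v) = w := by
  refine ⟨(run hR s₀ v.l).e.symm ⟨w, h⟩, ?_⟩
  rw [ff_nb]
  simp

lemma dist_ff_le (hG : G.IsTree) (hR : Reg b G) (s₀ : St b G) :
    ∀ (l : List (Fin (b + 1))) (h : l.IsChain (· ≠ ·)), G.dist s₀.w (ff hR s₀ ⟨l, h⟩) ≤ l.length := by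
  intro l
  induction l with
  | nil => intro h; exact (G.dist_self).le
  | cons i l ih =>
    intro h
    have h4 := ih h.tail
    have h5 := adj_ff hR s₀ i ⟨l, h.tail⟩
    rw [nb_cons_chain i l h] at h5
    have h6 := hG.dist_eq_dist_add_one_of_adj s₀.w h5
    rw [List.length_cons]
    omega

lemma dist_ff (hG : G.IsTree) (hR : Reg b G) (s₀ : St b G) :
    ∀ (l : List (Fin (b + 1))) (h : l.IsChain (· ≠ ·)), G.dist s₀.w (ff hR s₀ ⟨l, h⟩) = l.length := by
  intro l
  induction l with
  | nil => intro h; exact G.dist_self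
  | cons i l ih =>
    intro h
    have ih' := ih h.tail
    have hadj := adj_ff hR s₀ i ⟨l, h.tail⟩
    rw [nb_cons_chain i l h] at hadj
    rw [List.length_cons]
    rcases hG.dist_eq_dist_add_one_of_adj s₀.w hadj with h1 | h1
    · exfalso
      rw [ih'] at h1
      cases l with
      | nil => simp at h1
      | cons j l =>
        have ih2 : G.dist s₀.w (ff hR s₀ ⟨l, h.tail.tail⟩) = l.length := by
          have h5 := adj_ff hR s₀ j ⟨l, h.tail.tail⟩
          rw [nb_cons_chain j l h.tail] at h5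
          have h2 := hG.dist_eq_dist_add_one_of_adj s₀.w h5
          have h3 := dist_ff_le hG hR s₀ l h.tail.tail
          rw [ih', List.length_cons] at h2
          omega
        have h7 : ff hR s₀ (nb j ⟨j :: l, h.tail⟩) = ff hR s₀ (nb i ⟨j :: l, h.tail⟩) := by
          apply unique_closer hG (r := s₀.w) (v := ff hR s₀ ⟨j :: l, h.tail⟩)
          · exact (adj_ff hR s₀ j _).symm
          · exact (adj_ff hR s₀ i _).symm
          · rw [nb_cons_self j l h.tail, ih2, ih', List.length_cons]
          · rw [nb_cons_chain i (j :: l) h, ih', h1]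
        exact (List.isChain_cons_cons.1 h).1 (ff_nb_inj hR s₀ h7).symm
    · rw [h1, ih']

lemma ff_inj (hG : G.IsTree) (hR : Reg b G) (s₀ : St b G) :
    ∀ (l l' : List (Fin (b + 1))) (h : l.IsChain (· ≠ ·)) (h' : l'.IsChain (· ≠ ·)),
      ff hR s₀ ⟨l, h⟩ = ff hR s₀ ⟨l', h'⟩ → l = l' := by
  intro l
  induction l with
  | nil =>
    intro l' h h' he
    have h1 := dist_ff hG hR s₀ [] h
    have h2 := dist_ff hG hR s₀ l' h'
    rw [he, h2, List.length_nil] at h1
    exact (List.length_eq_zero_iff.1 h1).symm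
  | cons i l ih =>
    intro l' h h' he
    have h1 := dist_ff hG hR s₀ (i :: l) h
    have h2 := dist_ff hG hR s₀ l' h'
    rw [he, h2] at h1
    cases l' with
    | nil => simp at h1
    | cons j l' =>
      rw [List.length_cons, List.length_cons] at h1
      have h3 : ff hR s₀ ⟨l, h.tail⟩ = ff hR s₀ ⟨l', h'.tail⟩ := by
        apply unique_closer hG (r := s₀.w) (v := ff hR s₀ ⟨i :: l, h⟩)
        · rw [← nb_cons_chain i l h]
          exact adj_ff hR s₀ i ⟨l, h.tail⟩
        · rw [he, ← nb_cons_chain j l' h']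
          exact adj_ff hR s₀ j ⟨l', h'.tail⟩
        · have e1 := dist_ff hG hR s₀ l h.tail
          have e2 := dist_ff hG hR s₀ (i :: l) h
          rw [List.length_cons] at e2
          exact (congrArg (· + 1) e1).trans e2.symm
        · have e1 := dist_ff hG hR s₀ l' h'.tail
          have e2 := dist_ff hG hR s₀ (i :: l) h
          rw [List.length_cons] at e2
          exact (congrArg (· + 1) e1).trans (h1.trans e2.symm)
      have h4 := ih l' h.tail h'.tail h3
      subst h4
      have h5 : i = j := by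
        apply ff_nb_inj hR s₀ (v := ⟨l, h.tail⟩)
        rw [nb_cons_chain i l h, nb_cons_chain j l h']
        exact he
      rw [h5]

lemma ff_surj (hG : G.IsTree) (hR : Reg b G) (s₀ : St b G) : Function.Surjective (ff hR s₀) := by
  have key : ∀ (x y : W) (p : G.Walk x y), (∃ v, ff hR s₀ v = x) → ∃ v, ff hR s₀ v = y := by
    intro x y p
    induction p with
    | nil => exact id
    | cons hadj p ih =>
      rintro ⟨v, rfl⟩
      apply ih
      obtain ⟨i, hi⟩ := exists_ff_nb hR s₀ hadj
      exact ⟨_, hi⟩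
  intro y
  obtain ⟨p⟩ := hG.connected s₀.w y
  exact key _ _ p ⟨rt b, rfl⟩

theorem main : Spec.TreeIso.{u} := by
  intro b _ W G _ hG hreg
  classical
  have hR : Reg b G := by
    intro w
    have h1 := hreg w
    rw [← SimpleGraph.card_neighborSet_eq_degree] at h1
    exact ⟨(Fintype.equivFinOfCardEq h1).symm⟩
  obtain ⟨w₀⟩ := hG.connected.nonempty
  let s₀ : St b G := ⟨w₀, (hR w₀).some⟩
  let E : V b ≃ W := Equiv.ofBijective (ff hR s₀)
    ⟨fun u v h => V.ext (ff_inj hG hR s₀ u.l v.l u.h v.h h), ff_surj hG hR s₀⟩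
  refine ⟨(RelIso.symm (⟨E, ?_⟩ : GG b ≃g G))⟩
  intro u v
  show G.Adj (ff hR s₀ u) (ff hR s₀ v) ↔ (GG b).Adj u v
  rw [adj_iff]
  constructor
  · intro h
    obtain ⟨i, hi⟩ := exists_ff_nb hR s₀ h
    exact ⟨i, V.ext (ff_inj hG hR s₀ _ _ v.h (nb i u).h hi.symm)⟩
  · rintro ⟨i, rfl⟩
    exact adj_ff hR s₀ i u

end Crest.Agent.IsgTreeIso
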