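import Mathlib
import Crest.Agent.IsgSpec
import Crest.Agent.H12IsgCopy

/-!
S0241, module TRIPLE, part A: past maps, the factorisation of conditional laws, the property `fresh`.
-/

set_option autoImplicit false

open MeasureTheory ProbabilityTheory Filter Topology

namespace Crest.Agent.IsgTriple

open Crest.Agent.Isg Crest.Agent.H12IsgCopy

/-! ### Rectangles -/

/-- Rectangles: a measurable set times a finite box. -/
def rects (X O : Type*) [MeasurableSpace X] : Set (Set (X × (O → UI))) :=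
  Set.image2 (· ×ˢ ·) {A : Set X | MeasurableSet A}
    (squareCylinders (fun _ : O => {s : Set UI | MeasurableSet s}))

lemma generateFrom_rects (X O : Type*) [MeasurableSpace X] :
    (inferInstance : MeasurableSpace (X × (O → UI))) =
      MeasurableSpace.generateFrom (rects X O) := by
  unfold rects
  rw [← generateFrom_prod_eq isCountablySpanning_measurableSet]
  · rw [generateFrom_squareCylinders, MeasurableSpace.generateFrom_measurableSet]
  · refine ⟨fun _ => Set.univ, fun _ => ?_, Set.iUnion_const _⟩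
    exact ⟨∅, fun _ => Set.univ, by simp, by simp⟩

lemma isPiSystem_rects (X O : Type*) [MeasurableSpace X] : IsPiSystem (rects X O) := by
  unfold rects
  exact MeasurableSpace.isPiSystem_measurableSet.prod
    (isPiSystem_squareCylinders (fun _ => MeasurableSpace.isPiSystem_measurableSet)
      (fun _ => by simp))

lemma univ_mem_rects (X O : Type*) [MeasurableSpace X] : Set.univ ∈ rects X O := by
  refine ⟨Set.univ, MeasurableSet.univ, Set.univ, ⟨∅, fun _ => Set.univ, by simp, by simp⟩, ?_⟩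
  simp

/-! ### The past -/

variable {b : ℕ}

/-- Configurations of labels or observations. -/
abbrev Om (b : ℕ) : Type := ℕ × V b → UI

/-- Keep the coordinates in the past of `τ`. -/
noncomputable def past (τ : ℝ) (U y : Om b) : Om b := fun β => if tm U β < τ then y β else 0

lemma past_apply (τ : ℝ) (U y : Om b) (β : ℕ × V b) :
    past τ U y β = if tm U β < τ then y β else 0 := rfl

lemma measurable_tm (β : ℕ × V b) : Measurable (fun U : Om b => tm U β) := by
  unfold tm
  fun_prop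

lemma measurable_past {τ : Om b → ℝ} (hτ : Measurable τ) :
    Measurable (fun p : Om b × Om b => past (τ p.1) p.1 p.2) := by
  refine measurable_pi_lambda _ (fun β => ?_)
  refine Measurable.ite ?_ (by fun_prop) measurable_const
  exact measurableSet_lt ((measurable_tm β).comp measurable_fst) (hτ.comp measurable_fst)

lemma past_congr {τ : ℝ} {U Y Y' : Om b} (h : ∀ β, tm U β < τ → Y β = Y' β) :
    past τ U Y = past τ U Y' := by
  funext β
  simp only [past_apply]
  split_ifs with hβ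
  · exact h β hβ
  · rfl

lemma past_past (τ : ℝ) (U Y : Om b) : past τ U (past τ U Y) = past τ U Y := by
  refine past_congr (fun β hβ => ?_)
  rw [past_apply, if_pos hβ]

/-- The field just before `T` depends only on the past of `T`. -/
lemma fld_congr {U U' Y Y' : Om b} {T : ℝ}
    (h1 : ∀ γ, tm U γ < T ↔ tm U' γ < T)
    (h2 : ∀ γ, tm U γ < T → U γ = U' γ ∧ Y γ = Y' γ) : fld U Y T = fld U' Y' T := by
  funext v
  unfold fld
  refine Finset.sum_congr rfl (fun j _ => ?_)
  by_cases hj : tm U (j, v) < T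
  · rw [if_pos hj, if_pos ((h1 _).mp hj)]
    obtain ⟨e1, e2⟩ := h2 _ hj
    unfold zz
    rw [e1, e2]
  · rw [if_neg hj, if_neg (fun h => hj ((h1 _).mpr h))]

lemma TT_congr {θ : ℝ} {U U' Y Y' : Om b} {T : ℝ}
    (h1 : ∀ γ, tm U γ < T ↔ tm U' γ < T)
    (h2 : ∀ γ, tm U γ < T → U γ = U' γ ∧ Y γ = Y' γ) {β : ℕ × V b} (hβ : tm U β < T) :
    TT θ U Y β = TT θ U' Y' β := by
  obtain ⟨e1, e2⟩ := h2 β hβ
  have et : tm U β = tm U' β := by unfold tm; rw [e1]
  have hf : fld U Y (tm U β) = fld U' Y' (tm U' β) := by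
    rw [← et]
    refine fld_congr (fun γ => ⟨fun hγ => ?_, fun hγ => ?_⟩) (fun γ hγ => h2 γ (hγ.trans hβ))
    · have := (h2 γ (hγ.trans hβ)).1
      have e : tm U γ = tm U' γ := by unfold tm; rw [this]
      rwa [← e]
    · have h3 : tm U γ < T := (h1 γ).mpr (hγ.trans hβ)
      have := (h2 γ h3).1
      have e : tm U γ = tm U' γ := by unfold tm; rw [this]
      rwa [e]
  unfold TT pm
  rw [hf, e1, e2]

lemma TT_congr_same {θ : ℝ} {U Y Y' : Om b} {T : ℝ}
    (h2 : ∀ γ, tm U γ < T → Y γ = Y' γ) {β : ℕ × V b} (hβ : tm U β < T) :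
    TT θ U Y β = TT θ U Y' β :=
  TT_congr (fun _ => Iff.rfl) (fun γ hγ => ⟨rfl, h2 γ hγ⟩) hβ

/-! ### Consequences of `Innov` -/

/-- The pair (labels, innovations). -/
noncomputable def Wm (θ : ℝ) (p : Om b × Om b) : Om b × Om b := (p.1, TT θ p.1 p.2)

/-- Indicator of a set as a real function. -/
noncomputable def ind {X : Type*} (A : Set X) : X → ℝ := A.indicator (fun _ => (1 : ℝ))

lemma ind_nonneg {X : Type*} (A : Set X) (x : X) : 0 ≤ ind A x :=
  Set.indicator_nonneg (fun _ _ => zero_le_one) x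

lemma ind_le_one {X : Type*} (A : Set X) (x : X) : ind A x ≤ 1 := by
  classical
  unfold ind
  rw [Set.indicator_apply]
  split_ifs <;> norm_num

lemma abs_ind_le_one {X : Type*} (A : Set X) (x : X) : |ind A x| ≤ 1 := by
  rw [abs_of_nonneg (ind_nonneg A x)]; exact ind_le_one A x

lemma measurable_ind {X : Type*} [MeasurableSpace X] {A : Set X} (hA : MeasurableSet A) :
    Measurable (ind A) := measurable_const.indicator hA

lemma ind_prod_box (A : Set (Om b)) (S : Finset (ℕ × V b)) (t : ℕ × V b → Set UI)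
    (e : Om b × Om b) :
    ind (A ×ˢ ((S : Set (ℕ × V b)).pi t)) e = ind A e.1 * ∏ β ∈ S, ind (t β) (e.2 β) := by
  classical
  unfold ind
  simp only [Set.indicator_apply]
  by_cases h : e ∈ A ×ˢ ((S : Set (ℕ × V b)).pi t)
  · rw [if_pos h]
    obtain ⟨h1, h2⟩ := h
    rw [if_pos h1]
    have : ∏ β ∈ S, (if e.2 β ∈ t β then (1 : ℝ) else 0) = 1 := by
      refine Finset.prod_eq_one (fun β hβ => ?_)
      rw [if_pos (h2 β hβ)]
    rw [this, mul_one]
  · rw [if_neg h]
    by_cases h1 : e.1 ∈ A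
    · have h2 : ¬ (∀ β ∈ S, e.2 β ∈ t β) := by
        intro h3
        exact h ⟨h1, fun β hβ => h3 β hβ⟩
      push Not at h2
      obtain ⟨β, hβ, hβ'⟩ := h2
      rw [Finset.prod_eq_zero hβ (by rw [if_neg hβ']), mul_zero]
    · rw [if_neg h1, zero_mul]

/-- The replacement kernel for a box. -/
noncomputable def kbox (τ : Om b → ℝ) (a : Om b → ℝ) (S : Finset (ℕ × V b))
    (t : ℕ × V b → Set UI) (x : Om b × Om b) : ℝ :=
  a x.1 * ∏ β ∈ S, (if tm x.1 β < τ x.1 then ind (t β) (x.2 β) else (volume (t β)).toReal)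

lemma measurable_kbox {τ : Om b → ℝ} (hτ : Measurable τ) {a : Om b → ℝ} (ha : Measurable a)
    (S : Finset (ℕ × V b)) {t : ℕ × V b → Set UI} (ht : ∀ β, MeasurableSet (t β)) :
    Measurable (kbox τ a S t) := by
  unfold kbox
  refine (ha.comp measurable_fst).mul (Finset.measurable_prod _ (fun β _ => ?_))
  refine Measurable.ite ?_ ((measurable_ind (ht β)).comp (by fun_prop)) measurable_const
  exact measurableSet_lt ((measurable_tm β).comp measurable_fst) (hτ.comp measurable_fst)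

lemma vol_toReal_le_one (s : Set UI) : (volume s).toReal ≤ 1 := by
  have : (volume : Measure UI) s ≤ 1 := prob_le_one
  exact ENNReal.toReal_le_of_le_ofReal zero_le_one (by simpa using this)

lemma abs_kbox_le {τ : Om b → ℝ} {a : Om b → ℝ} {C : ℝ} (ha : ∀ U, |a U| ≤ C)
    (S : Finset (ℕ × V b)) (t : ℕ × V b → Set UI) (x : Om b × Om b) :
    |kbox τ a S t x| ≤ C := by
  unfold kbox
  rw [abs_mul, Finset.abs_prod]
  have h1 : ∏ β ∈ S, |(if tm x.1 β < τ x.1 then ind (t β) (x.2 β) else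
      (volume (t β)).toReal)| ≤ 1 := by
    refine Finset.prod_le_one (fun _ _ => abs_nonneg _) (fun β _ => ?_)
    split_ifs
    · exact abs_ind_le_one _ _
    · rw [abs_of_nonneg ENNReal.toReal_nonneg]
      exact vol_toReal_le_one _
  have h2 := ha x.1
  have h3 : 0 ≤ |a x.1| := abs_nonneg _
  have h4 : 0 ≤ ∏ β ∈ S, |(if tm x.1 β < τ x.1 then ind (t β) (x.2 β) else
      (volume (t β)).toReal)| := Finset.prod_nonneg (fun _ _ => abs_nonneg _)
  calc |a x.1| * _ ≤ |a x.1| * 1 := mul_le_mul_of_nonneg_left h1 h3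
    _ ≤ C := by rw [mul_one]; exact h2

/-- `Innov` on rectangles, with the future innovations integrated out. -/
lemma innov_rect (hI : Spec.Innov) {θ : ℝ} (hb : 1 ≤ b) (h0 : 0 ≤ θ) (h1 : θ < 1)
    (hTT : Measurable (fun p : Om b × Om b => TT θ p.1 p.2))
    {τ : Om b → ℝ} (hτ : Measurable τ) {G : Om b → Om b → ℝ}
    (hG : Measurable (fun p : Om b × Om b => G p.1 p.2)) {C : ℝ} (hC : ∀ U Y, |G U Y| ≤ C)
    (hP : PastY τ G) {a : Om b → ℝ} (ha : Measurable a) {C' : ℝ} (hC' : ∀ U, |a U| ≤ C')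
    (S : Finset (ℕ × V b)) (t : ℕ × V b → Set UI) (ht : ∀ β, MeasurableSet (t β)) :
    ∫ p, G p.1 p.2 * (a p.1 * ∏ β ∈ S, ind (t β) (TT θ p.1 p.2 β)) ∂(PP b θ) =
      ∫ p, G p.1 p.2 * kbox τ a S t (p.1, past (τ p.1) p.1 (TT θ p.1 p.2)) ∂(PP b θ) := by
  obtain ⟨-, hI2⟩ := hI b θ hb h0 h1
  have hTTβ : ∀ β, Measurable (fun p : Om b × Om b => TT θ p.1 p.2 β) := fun β =>
    (measurable_pi_apply β).comp hTT
  set F : Om b → Om b → ℝ := fun U Y => G U Y * (a U * ∏ β ∈ S,
    (if tm U β < τ U then ind (t β) (TT θ U Y β) else 1)) with hF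
  have hFm : Measurable (fun p : Om b × Om b => F p.1 p.2) := by
    refine hG.mul ((ha.comp measurable_fst).mul (Finset.measurable_prod _ (fun β _ => ?_)))
    refine Measurable.ite ?_ ((measurable_ind (ht β)).comp (hTTβ β)) measurable_const
    exact measurableSet_lt ((measurable_tm β).comp measurable_fst) (hτ.comp measurable_fst)
  have hC'0 : 0 ≤ C' := (abs_nonneg _).trans (hC' (fun _ => 0))
  have hFb : ∃ C, ∀ U Y, |F U Y| ≤ C := by
    refine ⟨C * C', fun U Y => ?_⟩
    rw [hF]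
    simp only
    rw [abs_mul, abs_mul, Finset.abs_prod]
    have h5 : ∏ β ∈ S, |(if tm U β < τ U then ind (t β) (TT θ U Y β) else 1)| ≤ 1 := by
      refine Finset.prod_le_one (fun _ _ => abs_nonneg _) (fun β _ => ?_)
      split_ifs
      · exact abs_ind_le_one _ _
      · simp
    have h6 : |a U| * ∏ β ∈ S, |(if tm U β < τ U then ind (t β) (TT θ U Y β) else 1)| ≤ C' := by
      calc |a U| * _ ≤ |a U| * 1 := mul_le_mul_of_nonneg_left h5 (abs_nonneg _)
        _ ≤ C' := by rw [mul_one]; exact hC' U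
    exact mul_le_mul (hC U Y) h6 (mul_nonneg (abs_nonneg _)
      (Finset.prod_nonneg (fun _ _ => abs_nonneg _))) ((abs_nonneg _).trans (hC U Y))
  have hFP : PastY τ F := by
    intro U Y Y' hYY
    rw [hF]
    simp only
    rw [hP U Y Y' hYY]
    congr 2
    refine Finset.prod_congr rfl (fun β _ => ?_)
    split_ifs with hβ
    · rw [TT_congr_same hYY hβ]
    · rfl
  have key := hI2 τ hτ F hFm hFb hFP S (fun β => ind (t β)) (fun β => measurable_ind (ht β))
    (fun β => ⟨1, abs_ind_le_one _⟩)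
  have hl : ∀ p : Om b × Om b, G p.1 p.2 * (a p.1 * ∏ β ∈ S, ind (t β) (TT θ p.1 p.2 β)) =
      F p.1 p.2 * ∏ β ∈ S, (if tm p.1 β < τ p.1 then 1 else ind (t β) (TT θ p.1 p.2 β)) := by
    intro p
    rw [hF]
    simp only
    rw [mul_assoc, mul_assoc, ← Finset.prod_mul_distrib]
    congr 2
    refine Finset.prod_congr rfl (fun β _ => ?_)
    split_ifs <;> ring
  have hr : ∀ p : Om b × Om b, G p.1 p.2 *
      kbox τ a S t (p.1, past (τ p.1) p.1 (TT θ p.1 p.2)) =
      F p.1 p.2 * ∏ β ∈ S, (if tm p.1 β < τ p.1 then 1 else ∫ x, ind (t β) x) := by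
    intro p
    rw [hF]
    simp only [kbox]
    rw [mul_assoc, mul_assoc, ← Finset.prod_mul_distrib]
    congr 2
    refine Finset.prod_congr rfl (fun β _ => ?_)
    split_ifs with hβ
    · rw [past_apply, if_pos hβ, mul_one]
    · rw [one_mul]
      unfold ind
      rw [integral_indicator (ht β)]
      simp [Measure.real]
  calc _ = ∫ p, F p.1 p.2 * ∏ β ∈ S, (if tm p.1 β < τ p.1 then 1 else
        ind (t β) (TT θ p.1 p.2 β)) ∂(PP b θ) := integral_congr_ae (ae_of_all _ hl)
    _ = ∫ p, F p.1 p.2 * ∏ β ∈ S, (if tm p.1 β < τ p.1 then 1 else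
        ∫ x, ind (t β) x) ∂(PP b θ) := key
    _ = _ := (integral_congr_ae (ae_of_all _ hr)).symm

/-! ### Factorisation of the conditional laws -/

/-- Joint law of ((labels, innovations), observations). -/
noncomputable def mm (b : ℕ) (θ : ℝ) : Measure ((Om b × Om b) × Om b) :=
  (PP b θ).map (fun p => (Wm θ p, p.2))

lemma measurable_Wm {θ : ℝ} (hTT : Measurable (fun p : Om b × Om b => TT θ p.1 p.2)) :
    Measurable (Wm θ : Om b × Om b → Om b × Om b) := measurable_fst.prodMk hTT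

lemma mm_fst {θ : ℝ} (hTT : Measurable (fun p : Om b × Om b => TT θ p.1 p.2)) :
    (mm b θ).fst = (PP b θ).map (Wm θ) := by
  unfold mm Measure.fst
  rw [Measure.map_map measurable_fst ((measurable_Wm hTT).prodMk measurable_snd)]
  rfl

lemma mm_prob {θ : ℝ} (hTT : Measurable (fun p : Om b × Om b => TT θ p.1 p.2))
    [IsProbabilityMeasure (PP b θ)] : IsProbabilityMeasure (mm b θ) :=
  Measure.isProbabilityMeasure_map ((measurable_Wm hTT).prodMk measurable_snd).aemeasurable

/-- Adapted functions. -/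
def Ad (ρ : Om b → Om b) (τ : Om b → ℝ) (F : Om b → Om b → ℝ) : Prop :=
  ∀ U U' Y Y', ρ U = ρ U' → past (τ U) U Y = past (τ U') U' Y' → F U Y = F U' Y'

/-- Compatibility of the label map with the past. -/
def Comp (ρ : Om b → Om b) (τ : Om b → ℝ) : Prop :=
  ∀ U U', ρ U = ρ U' → τ U = τ U' ∧ (∀ β, tm U β < τ U ↔ tm U' β < τ U') ∧
    ∀ β, tm U β < τ U → U β = U' β

/-- Test functions can be replaced by past test functions. -/
def Repl (b : ℕ) (θ : ℝ) (ρ : Om b → Om b) (τ : Om b → ℝ) : Prop :=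
  ∀ A0 : Set (Om b), MeasurableSet A0 → ∀ (S : Finset (ℕ × V b)) (t : ℕ × V b → Set UI),
    (∀ β, MeasurableSet (t β)) → ∃ k : Om b × Om b → ℝ, Measurable k ∧ (∃ C, ∀ x, |k x| ≤ C) ∧
      ∀ F : Om b → Om b → ℝ, Measurable (fun p : Om b × Om b => F p.1 p.2) →
        (∀ U Y, |F U Y| ≤ 1) → Ad ρ τ F →
        ∫ p, F p.1 p.2 * (ind A0 p.1 * ∏ β ∈ S, ind (t β) (TT θ p.1 p.2 β)) ∂(PP b θ) =
          ∫ p, F p.1 p.2 * k (ρ p.1, past (τ p.1) p.1 (TT θ p.1 p.2)) ∂(PP b θ)

lemma past_TT_congr {θ : ℝ} {ρ : Om b → Om b} {τ : Om b → ℝ} (hc : Comp ρ τ) {U U' Y Y' : Om b}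
    (h1 : ρ U = ρ U') (h2 : past (τ U) U Y = past (τ U') U' Y') :
    past (τ U) U (TT θ U Y) = past (τ U') U' (TT θ U' Y') := by
  obtain ⟨e1, e2, e3⟩ := hc U U' h1
  have e4 : ∀ γ, tm U γ < τ U → Y γ = Y' γ := by
    intro γ hγ
    have := congrFun h2 γ
    rwa [past_apply, past_apply, if_pos hγ, if_pos ((e2 γ).mp hγ)] at this
  funext β
  rw [past_apply, past_apply]
  by_cases hβ : tm U β < τ U
  · rw [if_pos hβ, if_pos ((e2 β).mp hβ)]
    refine TT_congr (T := τ U) (fun γ => ?_) (fun γ hγ => ⟨e3 γ hγ, e4 γ hγ⟩) hβ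
    rw [e2 γ, e1]
  · rw [if_neg hβ, if_neg (fun h => hβ ((e2 β).mpr h))]

/-- The conditional probability that the past observations lie in `B`. -/
noncomputable def gB (b : ℕ) (θ : ℝ) [IsFiniteMeasure (mm b θ)] (τ : Om b → ℝ) (B : Set (Om b))
    (e : Om b × Om b) : ℝ :=
  ((mm b θ).condKernel e {y | past (τ e.1) e.1 y ∈ B}).toReal

lemma measurableSet_pastB {τ : Om b → ℝ} (hτ : Measurable τ) {B : Set (Om b)}
    (hB : MeasurableSet B) :
    MeasurableSet {q : (Om b × Om b) × Om b | past (τ q.1.1) q.1.1 q.2 ∈ B} := by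
  have : Measurable (fun q : (Om b × Om b) × Om b => past (τ q.1.1) q.1.1 q.2) :=
    (measurable_past hτ).comp ((measurable_fst.comp measurable_fst).prodMk measurable_snd)
  exact this hB

section
variable {θ : ℝ} [IsFiniteMeasure (mm b θ)]

lemma measurable_gB {τ : Om b → ℝ} (hτ : Measurable τ) {B : Set (Om b)}
    (hB : MeasurableSet B) : Measurable (gB b θ τ B) := by
  unfold gB
  exact (Kernel.measurable_kernel_prodMk_left (measurableSet_pastB hτ hB)).ennreal_toReal

lemma gB_nonneg (τ : Om b → ℝ) (B : Set (Om b)) (e : Om b × Om b) : 0 ≤ gB b θ τ B e :=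
  ENNReal.toReal_nonneg

lemma gB_le_one (τ : Om b → ℝ) (B : Set (Om b)) (e : Om b × Om b) : gB b θ τ B e ≤ 1 := by
  unfold gB
  have : (mm b θ).condKernel e {y | past (τ e.1) e.1 y ∈ B} ≤ 1 := prob_le_one
  exact ENNReal.toReal_le_of_le_ofReal zero_le_one (by simpa using this)

/-- Disintegration identity. -/
lemma integral_gB [IsProbabilityMeasure (PP b θ)]
    (hTT : Measurable (fun p : Om b × Om b => TT θ p.1 p.2))
    {τ : Om b → ℝ} (hτ : Measurable τ) {B : Set (Om b)}
    (hB : MeasurableSet B) {f : Om b × Om b → ℝ} (hf : Measurable f) {C : ℝ}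
    (hC : ∀ e, |f e| ≤ C) :
    ∫ e, f e * gB b θ τ B e ∂(mm b θ).fst =
      ∫ p, f (Wm θ p) * ind B (past (τ p.1) p.1 p.2) ∂(PP b θ) := by
  have hmeas : Measurable (fun q : (Om b × Om b) × Om b =>
      f q.1 * ind B (past (τ q.1.1) q.1.1 q.2)) := by
    refine (hf.comp measurable_fst).mul ((measurable_ind hB).comp ?_)
    exact (measurable_past hτ).comp ((measurable_fst.comp measurable_fst).prodMk measurable_snd)
  have hbd : ∀ q : (Om b × Om b) × Om b,
      ‖f q.1 * ind B (past (τ q.1.1) q.1.1 q.2)‖ ≤ C := by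
    intro q
    rw [Real.norm_eq_abs, abs_mul]
    calc |f q.1| * |ind B (past (τ q.1.1) q.1.1 q.2)| ≤ |f q.1| * 1 :=
          mul_le_mul_of_nonneg_left (abs_ind_le_one _ _) (abs_nonneg _)
      _ ≤ C := by rw [mul_one]; exact hC _
  have h1 : ∫ p, f (Wm θ p) * ind B (past (τ p.1) p.1 p.2) ∂(PP b θ) =
      ∫ q, f q.1 * ind B (past (τ q.1.1) q.1.1 q.2) ∂(mm b θ) := by
    unfold mm
    rw [integral_map ((measurable_Wm hTT).prodMk measurable_snd).aemeasurable
      hmeas.aestronglyMeasurable]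
    rfl
  have h2 : Integrable (fun q : (Om b × Om b) × Om b =>
      f q.1 * ind B (past (τ q.1.1) q.1.1 q.2)) (mm b θ) :=
    Integrable.of_bound hmeas.aestronglyMeasurable C (ae_of_all _ hbd)
  rw [h1]
  conv_rhs => rw [← (mm b θ).disintegrate (mm b θ).condKernel]
  rw [Measure.integral_compProd (by rwa [(mm b θ).disintegrate (mm b θ).condKernel])]
  refine integral_congr_ae (ae_of_all _ (fun e => ?_))
  simp only
  rw [integral_const_mul]
  congr 1
  unfold gB ind
  have hs : MeasurableSet {y : Om b | past (τ e.1) e.1 y ∈ B} :=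
    measurable_prodMk_left (measurableSet_pastB hτ hB)
  have : (fun y : Om b => B.indicator (fun _ => (1 : ℝ)) (past (τ e.1) e.1 y)) =
      ({y : Om b | past (τ e.1) e.1 y ∈ B}).indicator (fun _ => (1 : ℝ)) := by
    funext y
    rfl
  rw [this, integral_indicator hs]
  simp [Measure.real]

/-- The conditional law of the past observations is a function of the past. -/
theorem factor [IsProbabilityMeasure (PP b θ)] [IsProbabilityMeasure (mm b θ)]
    (hTT : Measurable (fun p : Om b × Om b => TT θ p.1 p.2))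
    {ρ : Om b → Om b} {τ : Om b → ℝ} (hρ : Measurable ρ) (hτ : Measurable τ)
    (hc : Comp ρ τ) (hR : Repl b θ ρ τ) {B : Set (Om b)} (hB : MeasurableSet B) :
    ∃ H : Om b × Om b → ℝ, Measurable H ∧ (∀ x, 0 ≤ H x) ∧ (∀ x, H x ≤ 1) ∧
      gB b θ τ B =ᵐ[(mm b θ).fst] fun e => H (ρ e.1, past (τ e.1) e.1 e.2) := by
  have hπ : Measurable (fun e : Om b × Om b => (ρ e.1, past (τ e.1) e.1 e.2)) :=
    (hρ.comp measurable_fst).prodMk (measurable_past hτ)
  refine exists_factor (mm b θ).fst (fun e => (ρ e.1, past (τ e.1) e.1 e.2)) hπ (gB b θ τ B)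
    (measurable_gB hτ hB) (gB_nonneg τ B) (gB_le_one τ B) (rects (Om b) (ℕ × V b))
    (generateFrom_rects _ _) (isPiSystem_rects _ _) (univ_mem_rects _ _) ?_
  rintro A ⟨A0, hA0, _, ⟨S, t, ht, rfl⟩, rfl⟩
  have ht' : ∀ β, MeasurableSet (t β) := fun β => ht β (Set.mem_univ β)
  have hA0' : MeasurableSet A0 := hA0
  obtain ⟨k, hk, ⟨C, hC⟩, hkF⟩ := hR A0 hA0' S t ht'
  have hbox : MeasurableSet (A0 ×ˢ ((S : Set (ℕ × V b)).pi t)) :=
    hA0'.prod (MeasurableSet.pi S.countable_toSet (fun β _ => ht' β))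
  have hind : Measurable (ind (A0 ×ˢ ((S : Set (ℕ × V b)).pi t))) := measurable_ind hbox
  refine ⟨k, hk, ⟨C, hC⟩, ?_, ?_⟩
  · have h1 : ∫ e in A0 ×ˢ ((S : Set (ℕ × V b)).pi t), gB b θ τ B e ∂(mm b θ).fst =
        ∫ e, ind (A0 ×ˢ ((S : Set (ℕ × V b)).pi t)) e * gB b θ τ B e ∂(mm b θ).fst := by
      rw [← integral_indicator hbox]
      refine integral_congr_ae (ae_of_all _ (fun e => ?_))
      unfold ind
      by_cases he : e ∈ A0 ×ˢ ((S : Set (ℕ × V b)).pi t)
      · simp [Set.indicator_of_mem he]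
      · simp [Set.indicator_of_notMem he]
    rw [h1, integral_gB hTT hτ hB hind (abs_ind_le_one _)]
    have h2 := hkF (fun U Y => ind B (past (τ U) U Y)) ((measurable_ind hB).comp (measurable_past hτ))
      (fun U Y => abs_ind_le_one _ _) (fun U U' Y Y' _ h => by simp only [h])
    have h3 : ∫ p, ind (A0 ×ˢ ((S : Set (ℕ × V b)).pi t)) (Wm θ p) *
        ind B (past (τ p.1) p.1 p.2) ∂(PP b θ) = ∫ p, ind B (past (τ p.1) p.1 p.2) *
          (ind A0 p.1 * ∏ β ∈ S, ind (t β) (TT θ p.1 p.2 β)) ∂(PP b θ) := by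
      refine integral_congr_ae (ae_of_all _ (fun p => ?_))
      simp only
      rw [ind_prod_box]
      unfold Wm
      ring
    rw [h3, h2]
    have h4 := integral_gB hTT hτ hB (f := fun e => k (ρ e.1, past (τ e.1) e.1 e.2))
      (hk.comp hπ) (C := C) (fun e => hC _)
    calc ∫ p, ind B (past (τ p.1) p.1 p.2) * k (ρ p.1, past (τ p.1) p.1 (TT θ p.1 p.2)) ∂(PP b θ)
        = ∫ p, k (ρ (Wm θ p).1, past (τ (Wm θ p).1) (Wm θ p).1 (Wm θ p).2) *
          ind B (past (τ p.1) p.1 p.2) ∂(PP b θ) := by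
          refine integral_congr_ae (ae_of_all _ (fun p => ?_))
          simp only [Wm]
          ring
      _ = ∫ e, k (ρ e.1, past (τ e.1) e.1 e.2) * gB b θ τ B e ∂(mm b θ).fst := h4.symm
      _ = _ := by
          refine integral_congr_ae (ae_of_all _ (fun e => ?_))
          simp only
          ring
  · intro H hH hH0 hH1
    have hHπ : Measurable (fun e : Om b × Om b => H (ρ e.1, past (τ e.1) e.1 e.2)) := hH.comp hπ
    have h1 : ∫ e in A0 ×ˢ ((S : Set (ℕ × V b)).pi t), H (ρ e.1, past (τ e.1) e.1 e.2)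
        ∂(mm b θ).fst = ∫ e, H (ρ e.1, past (τ e.1) e.1 e.2) *
          ind (A0 ×ˢ ((S : Set (ℕ × V b)).pi t)) e ∂(mm b θ).fst := by
      rw [← integral_indicator hbox]
      refine integral_congr_ae (ae_of_all _ (fun e => ?_))
      unfold ind
      by_cases he : e ∈ A0 ×ˢ ((S : Set (ℕ × V b)).pi t)
      · simp [Set.indicator_of_mem he]
      · simp [Set.indicator_of_notMem he]
    rw [h1, mm_fst hTT, integral_map (f := fun e => H (ρ e.1, past (τ e.1) e.1 e.2) *
        ind (A0 ×ˢ ((S : Set (ℕ × V b)).pi t)) e) (measurable_Wm hTT).aemeasurable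
      (hHπ.mul hind).aestronglyMeasurable, integral_map (f := fun e =>
        H (ρ e.1, past (τ e.1) e.1 e.2) * k (ρ e.1, past (τ e.1) e.1 e.2))
      (measurable_Wm hTT).aemeasurable
      (hHπ.mul (hk.comp hπ)).aestronglyMeasurable]
    have h2 := hkF (fun U Y => H (ρ U, past (τ U) U (TT θ U Y)))
      (hHπ.comp (measurable_Wm hTT)) (fun U Y => by
        rw [abs_of_nonneg (hH0 _)]; exact hH1 _)
      (fun U U' Y Y' hU hY => by
        simp only [hU, past_TT_congr hc hU hY])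
    simp only [ind_prod_box]
    exact h2

/-- Masses of rectangles under the doubled law. -/
lemma dbl_rect [IsProbabilityMeasure (PP b θ)] [IsProbabilityMeasure (mm b θ)]
    (hTT : Measurable (fun p : Om b × Om b => TT θ p.1 p.2))
    {ρ : Om b → Om b} {τ : Om b → ℝ} (hρ : Measurable ρ) (hτ : Measurable τ)
    {B C : Set (Om b)} (hB : MeasurableSet B) (hC : MeasurableSet C)
    {HB HC : Om b × Om b → ℝ} (hHB : Measurable HB) (hHC : Measurable HC)
    (hHB0 : ∀ x, 0 ≤ HB x) (hHB1 : ∀ x, HB x ≤ 1) (hHC0 : ∀ x, 0 ≤ HC x) (hHC1 : ∀ x, HC x ≤ 1)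
    (h1 : gB b θ τ B =ᵐ[(mm b θ).fst] fun e => HB (ρ e.1, past (τ e.1) e.1 e.2))
    (h2 : gB b θ τ C =ᵐ[(mm b θ).fst] fun e => HC (ρ e.1, past (τ e.1) e.1 e.2))
    {h : Om b × Om b → ℝ} (hh : Measurable h) (hh0 : ∀ e, 0 ≤ h e) {K : ℝ} (hhK : ∀ e, h e ≤ K) :
    ∫⁻ q, ENNReal.ofReal (h q.1) *
        (B.indicator 1 (past (τ q.1.1) q.1.1 q.2.1) *
          C.indicator 1 (past (τ q.1.1) q.1.1 q.2.2)) ∂(dbl (mm b θ)) =
      ENNReal.ofReal (∫ p, h (Wm θ p) *
        (HB (ρ p.1, past (τ p.1) p.1 (TT θ p.1 p.2)) *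
          HC (ρ p.1, past (τ p.1) p.1 (TT θ p.1 p.2))) ∂(PP b θ)) := by
  have hπ : Measurable (fun e : Om b × Om b => (ρ e.1, past (τ e.1) e.1 e.2)) :=
    (hρ.comp measurable_fst).prodMk (measurable_past hτ)
  have hpq : Measurable (fun q : (Om b × Om b) × Om b => past (τ q.1.1) q.1.1 q.2) :=
    (measurable_past hτ).comp ((measurable_fst.comp measurable_fst).prodMk measurable_snd)
  have hB1 : Measurable (fun q : (Om b × Om b) × Om b =>
      B.indicator (1 : Om b → ENNReal) (past (τ q.1.1) q.1.1 q.2)) :=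
    (measurable_one.indicator hB).comp hpq
  have hC1 : Measurable (fun q : (Om b × Om b) × Om b =>
      C.indicator (1 : Om b → ENNReal) (past (τ q.1.1) q.1.1 q.2)) :=
    (measurable_one.indicator hC).comp hpq
  have key := lintegral_dbl_mul (mm b θ) (h := fun e => ENNReal.ofReal (h e)) hh.ennreal_ofReal
    hB1 hC1
  have hl : ∀ q : (Om b × Om b) × (Om b × Om b), ENNReal.ofReal (h q.1) *
        (B.indicator 1 (past (τ q.1.1) q.1.1 q.2.1) *
          C.indicator 1 (past (τ q.1.1) q.1.1 q.2.2)) =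
      ENNReal.ofReal (h q.1) * B.indicator (1 : Om b → ENNReal) (past (τ q.1.1) q.1.1 q.2.1) *
          C.indicator (1 : Om b → ENNReal) (past (τ q.1.1) q.1.1 q.2.2) := by
    intro q
    rw [mul_assoc]
  simp_rw [hl]
  rw [key]
  have hk : ∀ (D : Set (Om b)), MeasurableSet D → ∀ e : Om b × Om b,
      ∫⁻ y, D.indicator (1 : Om b → ENNReal) (past (τ e.1) e.1 y) ∂((mm b θ).condKernel e) =
        ENNReal.ofReal (gB b θ τ D e) := by
    intro D hD e
    have hs : MeasurableSet {y : Om b | past (τ e.1) e.1 y ∈ D} :=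
      measurable_prodMk_left (measurableSet_pastB hτ hD)
    have : (fun y : Om b => D.indicator (1 : Om b → ENNReal) (past (τ e.1) e.1 y)) =
        ({y : Om b | past (τ e.1) e.1 y ∈ D}).indicator 1 := by
      funext y
      rfl
    rw [this, lintegral_indicator_one hs]
    unfold gB
    rw [ENNReal.ofReal_toReal (measure_ne_top _ _)]
  have h3 : ∫⁻ e, ENNReal.ofReal (h e) *
      (∫⁻ y, B.indicator (1 : Om b → ENNReal) (past (τ e.1) e.1 y) ∂((mm b θ).condKernel e)) *
      (∫⁻ y, C.indicator (1 : Om b → ENNReal) (past (τ e.1) e.1 y) ∂((mm b θ).condKernel e))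
        ∂(mm b θ).fst =
      ∫⁻ e, ENNReal.ofReal (h e * (HB (ρ e.1, past (τ e.1) e.1 e.2) *
        HC (ρ e.1, past (τ e.1) e.1 e.2))) ∂(mm b θ).fst := by
    refine lintegral_congr_ae ?_
    filter_upwards [h1, h2] with e e1 e2
    rw [hk B hB, hk C hC, e1, e2, mul_assoc, ← ENNReal.ofReal_mul (hHB0 _),
      ← ENNReal.ofReal_mul (hh0 _)]
  simp only at h3 ⊢
  rw [h3]
  have hfm : Measurable (fun e : Om b × Om b => h e * (HB (ρ e.1, past (τ e.1) e.1 e.2) *
        HC (ρ e.1, past (τ e.1) e.1 e.2))) :=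
    hh.mul ((hHB.comp hπ).mul (hHC.comp hπ))
  have hf0 : ∀ e : Om b × Om b, 0 ≤ h e * (HB (ρ e.1, past (τ e.1) e.1 e.2) *
        HC (ρ e.1, past (τ e.1) e.1 e.2)) :=
    fun e => mul_nonneg (hh0 e) (mul_nonneg (hHB0 _) (hHC0 _))
  have hK0 : 0 ≤ K := (hh0 (0, 0)).trans (hhK (0, 0))
  have hfi : Integrable (fun e : Om b × Om b => h e * (HB (ρ e.1, past (τ e.1) e.1 e.2) *
        HC (ρ e.1, past (τ e.1) e.1 e.2))) (mm b θ).fst := by
    refine Integrable.of_bound hfm.aestronglyMeasurable K (ae_of_all _ (fun e => ?_))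
    rw [Real.norm_eq_abs, abs_of_nonneg (hf0 e)]
    have h5 : HB (ρ e.1, past (τ e.1) e.1 e.2) * HC (ρ e.1, past (τ e.1) e.1 e.2) ≤ 1 :=
      mul_le_one₀ (hHB1 _) (hHC0 _) (hHC1 _)
    calc h e * _ ≤ h e * 1 := mul_le_mul_of_nonneg_left h5 (hh0 e)
      _ ≤ K := by rw [mul_one]; exact hhK e
  rw [← ofReal_integral_eq_lintegral_ofReal hfi (ae_of_all _ hf0), mm_fst hTT,
    integral_map (measurable_Wm hTT).aemeasurable hfm.aestronglyMeasurable]
  rfl

end

end Crest.Agent.IsgTriple
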