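import Mathlib
import Crest.Agent.IsgTripleA

/-!
S0241, module TRIPLE, part B: the property `fresh`.
-/

set_option autoImplicit false

open MeasureTheory ProbabilityTheory Filter Topology

namespace Crest.Agent.IsgTriple

open Crest.Agent.Isg Crest.Agent.H12IsgCopy

variable {b : ℕ} {θ : ℝ}

lemma Ad.pastY {τ : Om b → ℝ} {F : Om b → Om b → ℝ} (h : Ad id τ F) : PastY τ F := by
  intro U Y Y' hY
  exact h U U Y Y' rfl (past_congr hY)

lemma comp_id (τ : Om b → ℝ) : Comp id τ := by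
  intro U U' h
  have h' : U = U' := h
  subst h'
  exact ⟨rfl, fun _ => Iff.rfl, fun _ _ => rfl⟩

lemma repl_id (hI : Spec.Innov) (hb : 1 ≤ b) (h0 : 0 ≤ θ) (h1 : θ < 1)
    (hTT : Measurable (fun p : Om b × Om b => TT θ p.1 p.2))
    {τ : Om b → ℝ} (hτ : Measurable τ) : Repl b θ id τ := by
  intro A0 hA0 S t ht
  refine ⟨kbox τ (ind A0) S t, measurable_kbox hτ (measurable_ind hA0) S ht,
    ⟨1, abs_kbox_le (abs_ind_le_one A0) S t⟩, ?_⟩
  intro F hF hFb hAd
  exact innov_rect hI hb h0 h1 hTT hτ hF hFb hAd.pastY (measurable_ind hA0) (abs_ind_le_one A0)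
    S t ht

lemma integral_ind {D : Set UI} (hD : MeasurableSet D) :
    ∫ x, ind D x = (volume D).toReal := by
  unfold ind
  rw [integral_indicator hD]
  simp [Measure.real]

/-- One fresh innovation. -/
lemma innov_one (hI : Spec.Innov) (hb : 1 ≤ b) (h0 : 0 ≤ θ) (h1 : θ < 1) (α : ℕ × V b)
    {G : Om b → Om b → ℝ} (hG : Measurable (fun p : Om b × Om b => G p.1 p.2))
    (hC : ∃ C, ∀ U Y, |G U Y| ≤ C) (hP : PastY (fun U => tm U α) G) {D : Set UI}
    (hD : MeasurableSet D) :
    ∫ p, G p.1 p.2 * ind D (TT θ p.1 p.2 α) ∂(PP b θ) =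
      (∫ p, G p.1 p.2 ∂(PP b θ)) * (volume D).toReal := by
  obtain ⟨-, hI2⟩ := hI b θ hb h0 h1
  have key := hI2 (fun U => tm U α) (measurable_tm α) G hG hC hP {α} (fun _ => ind D)
    (fun _ => measurable_ind hD) (fun _ => ⟨1, abs_ind_le_one D⟩)
  simp only [Finset.prod_singleton, lt_irrefl, if_false] at key
  rw [key, integral_ind hD, integral_mul_const]

/-- The innovation coordinate of the doubled law. -/
lemma dbl_innov [IsProbabilityMeasure (PP b θ)] [IsProbabilityMeasure (mm b θ)]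
    (hTT : Measurable (fun p : Om b × Om b => TT θ p.1 p.2)) :
    (∀ᵐ q ∂(dbl (mm b θ)), TT θ q.1.1 q.2.1 = q.1.2) ∧
      (∀ᵐ q ∂(dbl (mm b θ)), TT θ q.1.1 q.2.2 = q.1.2) := by
  have hset : MeasurableSet {q : (Om b × Om b) × Om b | TT θ q.1.1 q.2 = q.1.2} :=
    measurableSet_eq_fun (hTT.comp ((measurable_fst.comp measurable_fst).prodMk measurable_snd))
      (measurable_snd.comp measurable_fst)
  have hm : ∀ᵐ q ∂(mm b θ), TT θ q.1.1 q.2 = q.1.2 := by
    unfold mm
    rw [ae_map_iff ((measurable_Wm hTT).prodMk measurable_snd).aemeasurable hset]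
    exact ae_of_all _ (fun p => rfl)
  constructor
  · have h := hm
    rw [← dbl_fst (mm b θ)] at h
    exact ae_of_ae_map (by fun_prop) h
  · have h := hm
    rw [← dbl_snd (mm b θ)] at h
    exact ae_of_ae_map (by fun_prop) h

/-- The past part of a triple. -/
noncomputable def Psi (ρ : Om b → Om b) (τ : Om b → ℝ) (q : (Om b × Om b) × (Om b × Om b)) :
    Om b × (Om b × Om b) :=
  (ρ q.1.1, (past (τ q.1.1) q.1.1 q.2.1, past (τ q.1.1) q.1.1 q.2.2))

lemma measurable_Psi {ρ : Om b → Om b} {τ : Om b → ℝ} (hρ : Measurable ρ) (hτ : Measurable τ) :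
    Measurable (Psi ρ τ) := by
  refine (hρ.comp (measurable_fst.comp measurable_fst)).prodMk (Measurable.prodMk ?_ ?_)
  · exact (measurable_past hτ).comp ((measurable_fst.comp measurable_fst).prodMk
      (measurable_fst.comp measurable_snd))
  · exact (measurable_past hτ).comp ((measurable_fst.comp measurable_fst).prodMk
      (measurable_snd.comp measurable_snd))

/-- Mass of a product set as an integral. -/
lemma dbl_Psi_apply {ρ : Om b → Om b} {τ : Om b → ℝ} (hρ : Measurable ρ) (hτ : Measurable τ)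
    [IsFiniteMeasure (mm b θ)]
    {A B C : Set (Om b)} (hA : MeasurableSet A) (hB : MeasurableSet B) (hC : MeasurableSet C)
    {Q : Set (Om b × Om b)} (hQ : MeasurableSet Q) :
    (((dbl (mm b θ)).restrict {q | q.1 ∈ Q}).map (Psi ρ τ)) (A ×ˢ B ×ˢ C) =
      ∫⁻ q, ENNReal.ofReal (ind A (ρ q.1.1) * ind Q q.1) *
        (B.indicator 1 (past (τ q.1.1) q.1.1 q.2.1) *
          C.indicator 1 (past (τ q.1.1) q.1.1 q.2.2)) ∂(dbl (mm b θ)) := by
  classical
  have hQ' : MeasurableSet {q : (Om b × Om b) × (Om b × Om b) | q.1 ∈ Q} := measurable_fst hQ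
  rw [Measure.map_apply (measurable_Psi hρ hτ) (hA.prod (hB.prod hC)),
    Measure.restrict_apply (measurable_Psi hρ hτ (hA.prod (hB.prod hC))),
    ← lintegral_indicator_one ((measurable_Psi hρ hτ (hA.prod (hB.prod hC))).inter hQ')]
  refine lintegral_congr (fun q => ?_)
  unfold ind
  simp only [Set.indicator_apply, Pi.one_apply]
  by_cases h1 : ρ q.1.1 ∈ A
  · by_cases h2 : q.1 ∈ Q
    · by_cases h3 : past (τ q.1.1) q.1.1 q.2.1 ∈ B
      · by_cases h4 : past (τ q.1.1) q.1.1 q.2.2 ∈ C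
        · rw [if_pos, if_pos h1, if_pos h2, if_pos h3, if_pos h4]
          · simp
          · exact ⟨⟨h1, h3, h4⟩, h2⟩
        · rw [if_neg, if_neg h4]
          · simp
          · exact fun h => h4 h.1.2.2
      · rw [if_neg, if_neg h3]
        · simp
        · exact fun h => h3 h.1.2.1
    · rw [if_neg, if_neg h2]
      · simp
      · exact fun h => h2 h.2
  · rw [if_neg, if_neg h1]
    · simp
    · exact fun h => h1 h.1.1

/-- Independence of the fresh innovation. -/
lemma fresh_law (hI : Spec.Innov) (hb : 1 ≤ b) (h0 : 0 ≤ θ) (h1 : θ < 1)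
    [IsProbabilityMeasure (PP b θ)] [IsProbabilityMeasure (mm b θ)]
    (hTT : Measurable (fun p : Om b × Om b => TT θ p.1 p.2)) (α : ℕ × V b) :
    (dbl (mm b θ)).map (fun q => (Psi id (fun U => tm U α) q, q.1.2 α)) =
      ((dbl (mm b θ)).map (Psi id (fun U => tm U α))).prod volume := by
  have hτ : Measurable (fun U : Om b => tm U α) := measurable_tm α
  have hPsi : Measurable (Psi (b := b) id (fun U => tm U α)) := measurable_Psi measurable_id hτ
  have hα : Measurable (fun q : (Om b × Om b) × (Om b × Om b) => q.1.2 α) := by fun_prop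
  symm
  refine Measure.prod_eq (fun s D hs hD => ?_)
  have hQ : MeasurableSet {e : Om b × Om b | e.2 α ∈ D} := by
    have : Measurable (fun e : Om b × Om b => e.2 α) := by fun_prop
    exact this hD
  have hM : ((dbl (mm b θ)).restrict {q | q.1 ∈ {e : Om b × Om b | e.2 α ∈ D}}).map
      (Psi id (fun U => tm U α)) = (volume D) • ((dbl (mm b θ)).map (Psi id (fun U => tm U α))) := by
    refine Measure.ext_prod₃ (fun {A B C} hA hB hC => ?_)
    obtain ⟨HB, hHB, hHB0, hHB1, hgB⟩ := factor hTT measurable_id hτ (comp_id _)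
      (repl_id hI hb h0 h1 hTT hτ) hB
    obtain ⟨HC, hHC, hHC0, hHC1, hgC⟩ := factor hTT measurable_id hτ (comp_id _)
      (repl_id hI hb h0 h1 hTT hτ) hC
    have hπ : Measurable (fun e : Om b × Om b => (id e.1, past (tm e.1 α) e.1 e.2)) :=
      (measurable_id.comp measurable_fst).prodMk (measurable_past hτ)
    have hG : Measurable (fun p : Om b × Om b => ind A p.1 *
        (HB (id p.1, past (tm p.1 α) p.1 (TT θ p.1 p.2)) *
          HC (id p.1, past (tm p.1 α) p.1 (TT θ p.1 p.2)))) := by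
      refine ((measurable_ind hA).comp measurable_fst).mul (Measurable.mul ?_ ?_)
      · exact (hHB.comp hπ).comp (measurable_Wm hTT)
      · exact (hHC.comp hπ).comp (measurable_Wm hTT)
    have hGb : ∀ U Y : Om b, |ind A U * (HB (id U, past (tm U α) U (TT θ U Y)) *
          HC (id U, past (tm U α) U (TT θ U Y)))| ≤ 1 := by
      intro U Y
      rw [abs_mul, abs_mul, abs_of_nonneg (hHB0 _), abs_of_nonneg (hHC0 _)]
      exact mul_le_one₀ (abs_ind_le_one _ _) (mul_nonneg (hHB0 _) (hHC0 _))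
        (mul_le_one₀ (hHB1 _) (hHC0 _) (hHC1 _))
    have hGP : PastY (fun U => tm U α) (fun U Y : Om b => ind A U *
        (HB (id U, past (tm U α) U (TT θ U Y)) * HC (id U, past (tm U α) U (TT θ U Y)))) := by
      intro U Y Y' hY
      have e : past (tm U α) U (TT θ U Y) = past (tm U α) U (TT θ U Y') :=
        past_TT_congr (ρ := id) (τ := fun U => tm U α) (comp_id _) rfl (past_congr hY)
      simp only [e]
    have key := innov_one hI hb h0 h1 α hG ⟨1, hGb⟩ hGP hD
    have e1 := dbl_Psi_apply (θ := θ) (ρ := id) (τ := fun U : Om b => tm U α) measurable_id hτ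
      hA hB hC hQ
    have e2 := dbl_Psi_apply (θ := θ) (ρ := id) (τ := fun U : Om b => tm U α) measurable_id hτ
      hA hB hC (MeasurableSet.univ : MeasurableSet (Set.univ : Set (Om b × Om b)))
    have r1 := dbl_rect hTT (ρ := id) (τ := fun U : Om b => tm U α) measurable_id hτ hB hC hHB hHC
      hHB0 hHB1 hHC0 hHC1 hgB hgC
      (h := fun e => ind A (id e.1) * ind {e : Om b × Om b | e.2 α ∈ D} e)
      (((measurable_ind hA).comp measurable_fst).mul (measurable_ind hQ))
      (fun e => mul_nonneg (ind_nonneg _ _) (ind_nonneg _ _)) (K := 1)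
      (fun e => mul_le_one₀ (ind_le_one _ _) (ind_nonneg _ _) (ind_le_one _ _))
    have r2 := dbl_rect hTT (ρ := id) (τ := fun U : Om b => tm U α) measurable_id hτ hB hC hHB hHC
      hHB0 hHB1 hHC0 hHC1 hgB hgC
      (h := fun e => ind A (id e.1) * ind (Set.univ : Set (Om b × Om b)) e)
      (((measurable_ind hA).comp measurable_fst).mul (measurable_ind MeasurableSet.univ))
      (fun e => mul_nonneg (ind_nonneg _ _) (ind_nonneg _ _)) (K := 1)
      (fun e => mul_le_one₀ (ind_le_one _ _) (ind_nonneg _ _) (ind_le_one _ _))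
    have e2' : ((dbl (mm b θ)).map (Psi id (fun U => tm U α))) (A ×ˢ B ×ˢ C) =
        (((dbl (mm b θ)).restrict {q | q.1 ∈ (Set.univ : Set (Om b × Om b))}).map
          (Psi id (fun U => tm U α))) (A ×ˢ B ×ˢ C) := by
      have : {q : (Om b × Om b) × (Om b × Om b) | q.1 ∈ (Set.univ : Set (Om b × Om b))} =
          Set.univ := by
        ext q; simp
      rw [this, Measure.restrict_univ]
    rw [Measure.smul_apply, smul_eq_mul, e2', e1, e2, r1, r2]
    have i1 : ∫ p, (ind A (id (Wm θ p).1) * ind {e : Om b × Om b | e.2 α ∈ D} (Wm θ p)) *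
        (HB (id p.1, past (tm p.1 α) p.1 (TT θ p.1 p.2)) *
          HC (id p.1, past (tm p.1 α) p.1 (TT θ p.1 p.2))) ∂(PP b θ) =
        ∫ p, (ind A p.1 * (HB (id p.1, past (tm p.1 α) p.1 (TT θ p.1 p.2)) *
          HC (id p.1, past (tm p.1 α) p.1 (TT θ p.1 p.2)))) * ind D (TT θ p.1 p.2 α)
          ∂(PP b θ) := by
      refine integral_congr_ae (ae_of_all _ (fun p => ?_))
      change (ind A p.1 * ind D (TT θ p.1 p.2 α)) *
        (HB (p.1, past (tm p.1 α) p.1 (TT θ p.1 p.2)) *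
          HC (p.1, past (tm p.1 α) p.1 (TT θ p.1 p.2))) =
        (ind A p.1 * (HB (p.1, past (tm p.1 α) p.1 (TT θ p.1 p.2)) *
          HC (p.1, past (tm p.1 α) p.1 (TT θ p.1 p.2)))) * ind D (TT θ p.1 p.2 α)
      ring
    have i2 : ∫ p, (ind A (id (Wm θ p).1) * ind (Set.univ : Set (Om b × Om b)) (Wm θ p)) *
        (HB (id p.1, past (tm p.1 α) p.1 (TT θ p.1 p.2)) *
          HC (id p.1, past (tm p.1 α) p.1 (TT θ p.1 p.2))) ∂(PP b θ) =
        ∫ p, (ind A p.1 * (HB (id p.1, past (tm p.1 α) p.1 (TT θ p.1 p.2)) *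
          HC (id p.1, past (tm p.1 α) p.1 (TT θ p.1 p.2)))) ∂(PP b θ) := by
      refine integral_congr_ae (ae_of_all _ (fun p => ?_))
      have : ind (Set.univ : Set (Om b × Om b)) (Wm θ p) = 1 := by
        unfold ind; simp
      change (ind A p.1 * ind (Set.univ : Set (Om b × Om b)) (Wm θ p)) *
        (HB (p.1, past (tm p.1 α) p.1 (TT θ p.1 p.2)) *
          HC (p.1, past (tm p.1 α) p.1 (TT θ p.1 p.2))) =
        ind A p.1 * (HB (p.1, past (tm p.1 α) p.1 (TT θ p.1 p.2)) *
          HC (p.1, past (tm p.1 α) p.1 (TT θ p.1 p.2)))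
      rw [this, mul_one]
    rw [i1, i2, key, ENNReal.ofReal_mul' ENNReal.toReal_nonneg,
      ENNReal.ofReal_toReal (measure_ne_top _ _), mul_comm]
  have hM' := congrArg (fun μ : Measure (Om b × (Om b × Om b)) => μ s) hM
  simp only [Measure.smul_apply, smul_eq_mul] at hM'
  rw [Measure.map_apply hPsi hs, Measure.restrict_apply (hPsi hs)] at hM'
  rw [Measure.map_apply (hPsi.prodMk hα) (hs.prod hD), mul_comm, ← hM']
  rfl

/-- The law of triples. -/
noncomputable def LL (b : ℕ) (θ : ℝ) [IsFiniteMeasure (mm b θ)] :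
    Measure (Om b × (Om b × Om b)) :=
  (dbl (mm b θ)).map (fun q => (q.1.1, q.2))

theorem fresh (hI : Spec.Innov) (hb : 1 ≤ b) (h0 : 0 ≤ θ) (h1 : θ < 1)
    [IsProbabilityMeasure (PP b θ)] [IsProbabilityMeasure (mm b θ)]
    (hTT : Measurable (fun p : Om b × Om b => TT θ p.1 p.2)) (α : ℕ × V b)
    (F : Om b → Om b → Om b → ℝ)
    (hF : Measurable (fun p : Om b × (Om b × Om b) => F p.1 p.2.1 p.2.2))
    (hFb : ∃ C, ∀ U Y Y', |F U Y Y'| ≤ C)
    (hP1 : ∀ Y', PastY (fun U => tm U α) (fun U Y => F U Y Y'))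
    (hP2 : ∀ Y, PastY (fun U => tm U α) (fun U Y' => F U Y Y'))
    (φ : UI → ℝ) (hφ : Measurable φ) (hφb : ∃ C, ∀ x, |φ x| ≤ C) :
    ∫ p, F p.1 p.2.1 p.2.2 * φ (TT θ p.1 p.2.1 α) ∂(LL b θ) =
      (∫ p, F p.1 p.2.1 p.2.2 ∂(LL b θ)) * ∫ w, φ w := by
  have hτ : Measurable (fun U : Om b => tm U α) := measurable_tm α
  have hPsi : Measurable (Psi (b := b) id (fun U => tm U α)) := measurable_Psi measurable_id hτ
  have hα : Measurable (fun q : (Om b × Om b) × (Om b × Om b) => q.1.2 α) := by fun_prop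
  have hpr : Measurable (fun q : (Om b × Om b) × (Om b × Om b) => (q.1.1, q.2)) := by fun_prop
  have hTα : Measurable (fun p : Om b × (Om b × Om b) => TT θ p.1 p.2.1 α) :=
    (measurable_pi_apply α).comp (hTT.comp (measurable_fst.prodMk
      (measurable_fst.comp measurable_snd)))
  have hFPsi : ∀ q : (Om b × Om b) × (Om b × Om b), F q.1.1 q.2.1 q.2.2 =
      F (Psi id (fun U => tm U α) q).1 (Psi id (fun U => tm U α) q).2.1
        (Psi id (fun U => tm U α) q).2.2 := by
    intro q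
    simp only [Psi, id]
    have e1 : F q.1.1 q.2.1 q.2.2 = F q.1.1 (past (tm q.1.1 α) q.1.1 q.2.1) q.2.2 := by
      refine hP1 q.2.2 q.1.1 _ _ (fun β hβ => ?_)
      rw [past_apply, if_pos hβ]
    have e2 : F q.1.1 (past (tm q.1.1 α) q.1.1 q.2.1) q.2.2 =
        F q.1.1 (past (tm q.1.1 α) q.1.1 q.2.1) (past (tm q.1.1 α) q.1.1 q.2.2) := by
      refine hP2 _ q.1.1 _ _ (fun β hβ => ?_)
      rw [past_apply, if_pos hβ]
    rw [e1, e2]
  unfold LL
  rw [integral_map (f := fun p : Om b × (Om b × Om b) => F p.1 p.2.1 p.2.2 *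
      φ (TT θ p.1 p.2.1 α)) hpr.aemeasurable (hF.mul (hφ.comp hTα)).aestronglyMeasurable,
    integral_map hpr.aemeasurable hF.aestronglyMeasurable]
  have s1 : ∫ q : (Om b × Om b) × (Om b × Om b), F q.1.1 q.2.1 q.2.2 *
      φ (TT θ q.1.1 q.2.1 α) ∂(dbl (mm b θ)) =
      ∫ q : (Om b × Om b) × (Om b × Om b), (fun x : (Om b × (Om b × Om b)) × UI =>
        F x.1.1 x.1.2.1 x.1.2.2 * φ x.2) (Psi id (fun U => tm U α) q, q.1.2 α)
        ∂(dbl (mm b θ)) := by
    refine integral_congr_ae ?_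
    filter_upwards [(dbl_innov (θ := θ) hTT).1] with q hq
    rw [hq, hFPsi q]
  have s2 : ∫ q : (Om b × Om b) × (Om b × Om b), F q.1.1 q.2.1 q.2.2 ∂(dbl (mm b θ)) =
      ∫ x, F x.1 x.2.1 x.2.2 ∂((dbl (mm b θ)).map (Psi id (fun U => tm U α))) := by
    rw [integral_map hPsi.aemeasurable hF.aestronglyMeasurable]
    exact integral_congr_ae (ae_of_all _ hFPsi)
  have hFx : Measurable (fun x : (Om b × (Om b × Om b)) × UI =>
        F x.1.1 x.1.2.1 x.1.2.2 * φ x.2) :=
    (hF.comp measurable_fst).mul (hφ.comp measurable_snd)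
  calc ∫ q : (Om b × Om b) × (Om b × Om b), F q.1.1 q.2.1 q.2.2 *
      φ (TT θ q.1.1 q.2.1 α) ∂(dbl (mm b θ))
      = ∫ x, F x.1.1 x.1.2.1 x.1.2.2 * φ x.2 ∂((dbl (mm b θ)).map
          (fun q => (Psi id (fun U => tm U α) q, q.1.2 α))) := by
        rw [s1, integral_map (hPsi.prodMk hα).aemeasurable hFx.aestronglyMeasurable]
    _ = ∫ x, F x.1.1 x.1.2.1 x.1.2.2 * φ x.2 ∂(((dbl (mm b θ)).map
          (Psi id (fun U => tm U α))).prod volume) := by
        rw [fresh_law hI hb h0 h1 hTT α]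
    _ = (∫ x, F x.1 x.2.1 x.2.2 ∂((dbl (mm b θ)).map (Psi id (fun U => tm U α)))) *
          ∫ w, φ w :=
        integral_prod_mul (fun x : Om b × (Om b × Om b) => F x.1 x.2.1 x.2.2) φ
    _ = _ := by rw [s2]

end Crest.Agent.IsgTriple
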