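import Mathlib
import Crest.Agent.IsgTripleB

/-!
S0241, module TRIPLE, part C: the property `label`.
-/

set_option autoImplicit false

open MeasureTheory ProbabilityTheory Filter Topology

namespace Crest.Agent.IsgTriple

open Crest.Agent.Isg Crest.Agent.H12IsgCopy

/-! ### Resampling one coordinate -/

lemma measurable_upd {O : Type*} [DecidableEq O] (α : O) :
    Measurable (fun q : UI × (O → UI) => Function.update q.2 α q.1) := by
  refine measurable_pi_lambda _ (fun β => ?_)
  by_cases h : β = α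
  · subst h
    simp only [Function.update_self]
    exact measurable_fst
  · simp only [Function.update_of_ne h]
    exact (measurable_pi_apply β).comp measurable_snd

lemma noise_update {O : Type*} [DecidableEq O] (α : O) :
    ((volume : Measure UI).prod (noise O)).map (fun q => Function.update q.2 α q.1) =
      noise O := by
  refine Measure.eq_infinitePi _ (fun s t ht => ?_)
  have hpi : MeasurableSet ((s : Set O).pi t) :=
    MeasurableSet.pi s.countable_toSet (fun i _ => ht i)
  rw [Measure.map_apply (measurable_upd α) hpi]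
  by_cases hα : α ∈ s
  · have hpre : (fun q : UI × (O → UI) => Function.update q.2 α q.1) ⁻¹' ((s : Set O).pi t) =
        (t α) ×ˢ (((s.erase α : Finset O) : Set O).pi t) := by
      ext q
      simp only [Set.mem_preimage, Set.mem_pi, Finset.mem_coe, Set.mem_prod, Finset.mem_erase]
      constructor
      · intro h
        refine ⟨by simpa using h α hα, ?_⟩
        rintro β ⟨hβ1, hβ2⟩
        simpa [Function.update_of_ne hβ1] using h β hβ2
      · rintro ⟨h1, h2⟩ β hβ
        by_cases hβα : β = α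
        · subst hβα; simpa using h1
        · simpa [Function.update_of_ne hβα] using h2 β ⟨hβα, hβ⟩
    rw [hpre, Measure.prod_prod, Measure.infinitePi_pi _ (fun i _ => ht i),
      ← Finset.mul_prod_erase s (fun i => (volume : Measure UI) (t i)) hα]
  · have hpre : (fun q : UI × (O → UI) => Function.update q.2 α q.1) ⁻¹' ((s : Set O).pi t) =
        Set.univ ×ˢ ((s : Set O).pi t) := by
      ext q
      simp only [Set.mem_preimage, Set.mem_pi, Finset.mem_coe, Set.mem_prod, Set.mem_univ,
        true_and]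
      refine forall₂_congr (fun β hβ => ?_)
      have : β ≠ α := fun h => hα (h ▸ hβ)
      rw [Function.update_of_ne this]
    rw [hpre, Measure.prod_prod, Measure.infinitePi_pi _ (fun i _ => ht i), measure_univ, one_mul]

lemma vol_ge {r : ℝ} (h0 : 0 ≤ r) (h1 : r ≤ 1) :
    (volume : Measure UI) {x : UI | r ≤ (x : ℝ)} = ENNReal.ofReal (1 - r) := by
  have : {x : UI | r ≤ (x : ℝ)} = Set.Ici (⟨r, h0, h1⟩ : UI) := by
    ext x
    rw [Set.mem_ofPred_eq, Set.mem_Ici]
    exact Iff.rfl
  rw [this, unitInterval.volume_Ici]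

/-! ### Censoring a label -/

variable {b : ℕ} {θ : ℝ}

/-- Forget the value of the label `α` if it is at least `r`. -/
noncomputable def cens (α : ℕ × V b) (r : ℝ) (U : Om b) : Om b :=
  if r ≤ (U α : ℝ) then Function.update U α 1 else U

/-- The labels which are at least `r`. -/
def Sr (r : ℝ) : Set UI := {x : UI | r ≤ (x : ℝ)}

lemma measurableSet_Sr (r : ℝ) : MeasurableSet (Sr r) :=
  measurableSet_le measurable_const measurable_subtype_coe

lemma measurableSet_lab (α : ℕ × V b) (r : ℝ) : MeasurableSet {U : Om b | r ≤ (U α : ℝ)} :=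
  measurableSet_le measurable_const (by fun_prop)

lemma measurable_cens (α : ℕ × V b) (r : ℝ) : Measurable (cens α r) := by
  refine Measurable.ite (measurableSet_lab α r) ?_ measurable_id
  have : Measurable (fun U : Om b => ((1 : UI), U)) := measurable_const.prodMk measurable_id
  exact (measurable_upd α).comp this

lemma cens_of_ge {α : ℕ × V b} {r : ℝ} {U : Om b} (h : r ≤ (U α : ℝ)) :
    cens α r U = Function.update U α 1 := if_pos h

lemma cens_of_lt {α : ℕ × V b} {r : ℝ} {U : Om b} (h : ¬ r ≤ (U α : ℝ)) :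
    cens α r U = U := if_neg h

lemma cens_cens (α : ℕ × V b) {r : ℝ} (hr : r ≤ 1) (U : Om b) :
    cens α r (cens α r U) = cens α r U := by
  by_cases h : r ≤ (U α : ℝ)
  · rw [cens_of_ge h, cens_of_ge (by simpa using hr)]
    simp
  · rw [cens_of_lt h, cens_of_lt h]

lemma comp_cens (α : ℕ × V b) {r : ℝ} (hr : r < 1) :
    Comp (cens α r) (fun _ => (α.1 : ℝ) + r) := by
  intro U U' h
  have key : ∀ β, β ≠ α → U β = U' β := by
    intro β hβ
    have h1 := congrFun h β
    by_cases hU : r ≤ (U α : ℝ)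
    · by_cases hU' : r ≤ (U' α : ℝ)
      · rwa [cens_of_ge hU, cens_of_ge hU', Function.update_of_ne hβ,
          Function.update_of_ne hβ] at h1
      · rwa [cens_of_ge hU, cens_of_lt hU', Function.update_of_ne hβ] at h1
    · by_cases hU' : r ≤ (U' α : ℝ)
      · rwa [cens_of_lt hU, cens_of_ge hU', Function.update_of_ne hβ] at h1
      · rwa [cens_of_lt hU, cens_of_lt hU'] at h1
  have hα := congrFun h α
  have keyα : (U α = U' α) ∨ (r ≤ (U α : ℝ) ∧ r ≤ (U' α : ℝ)) := by
    by_cases hU : r ≤ (U α : ℝ)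
    · by_cases hU' : r ≤ (U' α : ℝ)
      · exact Or.inr ⟨hU, hU'⟩
      · exfalso
        rw [cens_of_ge hU, cens_of_lt hU', Function.update_self] at hα
        apply hU'
        rw [← hα]
        simpa using hr.le
    · by_cases hU' : r ≤ (U' α : ℝ)
      · exfalso
        rw [cens_of_lt hU, cens_of_ge hU', Function.update_self] at hα
        apply hU
        rw [hα]
        simpa using hr.le
      · left
        rwa [cens_of_lt hU, cens_of_lt hU'] at hα
  refine ⟨rfl, fun β => ?_, fun β hβ => ?_⟩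
  · by_cases hβ : β = α
    · subst hβ
      rcases keyα with h1 | ⟨h1, h2⟩
      · unfold tm; rw [h1]
      · unfold tm
        constructor
        · intro h3; linarith
        · intro h3; linarith
    · unfold tm; rw [key β hβ]
  · by_cases hβα : β = α
    · subst hβα
      rcases keyα with h1 | ⟨h1, h2⟩
      · exact h1
      · exfalso
        simp only [tm] at hβ
        linarith
    · exact key β hβα

/-- Average over the label `α` above `r`. -/
noncomputable def avg (α : ℕ × V b) (r : ℝ) (a : Om b → ℝ) (U : Om b) : ℝ :=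
  if r ≤ (U α : ℝ) then (1 - r)⁻¹ * ∫ x in Sr r, a (Function.update U α x) else a U

lemma measurable_avg (α : ℕ × V b) (r : ℝ) {a : Om b → ℝ} (ha : Measurable a) :
    Measurable (avg α r a) := by
  refine Measurable.ite (measurableSet_lab α r) (measurable_const.mul ?_) ha
  have h1 : StronglyMeasurable (fun q : Om b × UI => a (Function.update q.1 α q.2)) := by
    refine Measurable.stronglyMeasurable (ha.comp ?_)
    exact (measurable_upd α).comp measurable_swap
  exact (h1.integral_prod_right (ν := (volume : Measure UI).restrict (Sr r))).measurable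

lemma vol_Sr {r : ℝ} (h0 : 0 ≤ r) (h1 : r ≤ 1) :
    (volume : Measure UI) (Sr r) = ENNReal.ofReal (1 - r) := vol_ge h0 h1

lemma abs_avg_le (α : ℕ × V b) {r : ℝ} (h0 : 0 ≤ r) (h1 : r < 1) {a : Om b → ℝ} {C : ℝ}
    (hC : ∀ U, |a U| ≤ C) (U : Om b) : |avg α r a U| ≤ C := by
  unfold avg
  have hr : 0 < 1 - r := by linarith
  split_ifs
  · rw [abs_mul, abs_of_pos (inv_pos.mpr hr)]
    have h2 : |∫ x in Sr r, a (Function.update U α x)| ≤ C * (1 - r) := by
      have h3 := norm_setIntegral_le_of_norm_le_const (μ := (volume : Measure UI)) (s := Sr r)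
        (f := fun x => a (Function.update U α x)) (C := C) (measure_lt_top _ _)
        (fun x _ => by rw [Real.norm_eq_abs]; exact hC _)
      rw [Real.norm_eq_abs, Measure.real, vol_Sr h0 h1.le, ENNReal.toReal_ofReal hr.le] at h3
      exact h3
    calc (1 - r)⁻¹ * |∫ x in Sr r, a (Function.update U α x)| ≤ (1 - r)⁻¹ * (C * (1 - r)) :=
          mul_le_mul_of_nonneg_left h2 (inv_nonneg.mpr hr.le)
      _ = C := by field_simp
  · exact hC U

lemma avg_cens (α : ℕ × V b) {r : ℝ} (hr : r ≤ 1) (a : Om b → ℝ) (U : Om b) :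
    avg α r a (cens α r U) = avg α r a U := by
  by_cases h : r ≤ (U α : ℝ)
  · have h2 : r ≤ ((Function.update U α 1) α : ℝ) := by simpa using hr
    rw [cens_of_ge h]
    unfold avg
    rw [if_pos h2, if_pos h]
    simp
  · rw [cens_of_lt h]

/-- Resampling the label `α` above `r` does not affect adapted functions. -/
lemma lab_avg [IsProbabilityMeasure (mu b θ)]
    (hYf : Measurable (fun p : Om b × ((V b → Bool) × Om b) => Yf p.1 p.2.1 p.2.2))
    (α : ℕ × V b) {r : ℝ} (h0 : 0 ≤ r) (h1 : r < 1)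
    {F : Om b → Om b → ℝ} (hF : Measurable (fun p : Om b × Om b => F p.1 p.2)) {K : ℝ}
    (hFK : ∀ U Y, |F U Y| ≤ K) (hAd : Ad (cens α r) (fun _ => (α.1 : ℝ) + r) F)
    {a : Om b → ℝ} (ha : Measurable a) {C : ℝ} (hC : ∀ U, |a U| ≤ C) :
    ∫ p, F p.1 p.2 * a p.1 ∂(PP b θ) = ∫ p, F p.1 p.2 * avg α r a p.1 ∂(PP b θ) := by
  have hr : 0 < 1 - r := by linarith
  have hK0 : 0 ≤ K := (abs_nonneg _).trans (hFK 0 0)
  -- reduce to a fixed spin configuration and noise
  have hgen : ∀ a' : Om b → ℝ, Measurable a' → (∀ U, |a' U| ≤ C) →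
      ∫ p, F p.1 p.2 * a' p.1 ∂(PP b θ) =
        ∫ ω, (∫ U, (∫ x : UI,
          F (Function.update U α x) (Yf (Function.update U α x) ω.1 ω.2) *
            a' (Function.update U α x)) ∂(noise (ℕ × V b)))
              ∂((mu b θ).prod (noise (ℕ × V b))) := by
    intro a' ha' hC'
    have hm1 : Measurable (fun p : Om b × Om b => F p.1 p.2 * a' p.1) :=
      hF.mul (ha'.comp measurable_fst)
    have hm2 : Measurable (fun p : Om b × ((V b → Bool) × Om b) => (p.1, Yf p.1 p.2.1 p.2.2)) :=
      measurable_fst.prodMk hYf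
    have hb1 : ∀ p : Om b × Om b, ‖F p.1 p.2 * a' p.1‖ ≤ K * C := by
      intro p
      rw [Real.norm_eq_abs, abs_mul]
      exact mul_le_mul (hFK _ _) (hC' _) (abs_nonneg _) hK0
    unfold PP
    rw [integral_map hm2.aemeasurable hm1.aestronglyMeasurable]
    unfold JJ
    rw [integral_prod_symm]
    · refine integral_congr_ae (ae_of_all _ (fun ω => ?_))
      have hmω : Measurable (fun U : Om b => F U (Yf U ω.1 ω.2) * a' U) :=
        (hm1.comp hm2).comp (measurable_id.prodMk measurable_const)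
      have e1 : ∫ U, F U (Yf U ω.1 ω.2) * a' U ∂(noise (ℕ × V b)) =
          ∫ q : UI × Om b, F (Function.update q.2 α q.1) (Yf (Function.update q.2 α q.1) ω.1 ω.2) *
            a' (Function.update q.2 α q.1) ∂((volume : Measure UI).prod (noise (ℕ × V b))) := by
        conv_lhs => rw [← noise_update α]
        rw [integral_map (measurable_upd α).aemeasurable hmω.aestronglyMeasurable]
      change ∫ U, F U (Yf U ω.1 ω.2) * a' U ∂(noise (ℕ × V b)) = _
      rw [e1, integral_prod_symm]
      exact Integrable.of_bound (hmω.comp (measurable_upd α)).aestronglyMeasurable (K * C)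
        (ae_of_all _ (fun q => hb1 (_, _)))
    · exact Integrable.of_bound (hm1.comp hm2).aestronglyMeasurable (K * C)
        (ae_of_all _ (fun q => hb1 (_, _)))
  rw [hgen a ha hC, hgen (avg α r a) (measurable_avg α r ha) (abs_avg_le α h0 h1 hC)]
  refine integral_congr_ae (ae_of_all _ (fun ω => ?_))
  refine integral_congr_ae (ae_of_all _ (fun U => ?_))
  -- the one-dimensional statement
  set Θ : UI → ℝ := fun x => F (Function.update U α x) (Yf (Function.update U α x) ω.1 ω.2)
    with hΘ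
  have hΘc : ∀ x ∈ Sr r, Θ x = Θ 1 := by
    intro x hx
    have hx' : r ≤ (x : ℝ) := hx
    refine hAd _ _ _ _ ?_ ?_
    · rw [cens_of_ge (by simpa using hx'), cens_of_ge (by simpa using h1.le)]
      simp
    · funext β
      rw [past_apply, past_apply]
      by_cases hβ : β = α
      · subst hβ
        rw [if_neg, if_neg]
        · simp only [tm, Function.update_self, not_lt]
          have : ((1 : UI) : ℝ) = 1 := rfl
          rw [this]; linarith
        · simp only [tm, Function.update_self, not_lt]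
          linarith
      · simp only [tm, Yf, Function.update_of_ne hβ]
  have hmx : Measurable (fun x : UI => Function.update U α x) :=
    (measurable_upd α).comp (measurable_id.prodMk measurable_const)
  have hmΘ : Measurable Θ := by
    have : Measurable (fun x : UI => (Function.update U α x,
        Yf (Function.update U α x) ω.1 ω.2)) :=
      hmx.prodMk (hYf.comp (hmx.prodMk measurable_const))
    exact hF.comp this
  have hi : ∀ a' : Om b → ℝ, Measurable a' → (∀ U, |a' U| ≤ C) →
      Integrable (fun x : UI => Θ x * a' (Function.update U α x)) (volume : Measure UI) := by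
    intro a' ha' hC'
    refine Integrable.of_bound (hmΘ.mul (ha'.comp hmx)).aestronglyMeasurable (K * C)
      (ae_of_all _ (fun x => ?_))
    rw [Real.norm_eq_abs, abs_mul]
    exact mul_le_mul (hFK _ _) (hC' _) (abs_nonneg _) hK0
  change ∫ x : UI, Θ x * a (Function.update U α x) =
    ∫ x : UI, Θ x * avg α r a (Function.update U α x)
  rw [← integral_add_compl (measurableSet_Sr r) (hi a ha hC),
    ← integral_add_compl (measurableSet_Sr r) (hi (avg α r a) (measurable_avg α r ha)
      (abs_avg_le α h0 h1 hC))]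
  congr 1
  · have e1 : ∫ x in Sr r, Θ x * a (Function.update U α x) =
        ∫ x in Sr r, Θ 1 * a (Function.update U α x) := by
      refine setIntegral_congr_fun (measurableSet_Sr r) (fun x hx => ?_)
      rw [hΘc x hx]
    have e2 : ∫ x in Sr r, Θ x * avg α r a (Function.update U α x) =
        ∫ x in Sr r, Θ 1 * ((1 - r)⁻¹ * ∫ x' in Sr r, a (Function.update U α x')) := by
      refine setIntegral_congr_fun (measurableSet_Sr r) (fun x hx => ?_)
      have hx' : r ≤ ((Function.update U α x) α : ℝ) := by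
        rw [Function.update_self]; exact hx
      rw [hΘc x hx]
      unfold avg
      rw [if_pos hx']
      simp
    rw [e1, e2, integral_const_mul, setIntegral_const, Measure.real, vol_Sr h0 h1.le,
      ENNReal.toReal_ofReal hr.le, smul_eq_mul]
    field_simp
  · refine setIntegral_congr_fun (measurableSet_Sr r).compl (fun x hx => ?_)
    have hx' : ¬ r ≤ ((Function.update U α x) α : ℝ) := by
      rw [Function.update_self]; exact hx
    unfold avg
    rw [if_neg hx']

lemma repl_cens (hI : Spec.Innov) (hb : 1 ≤ b) (hθ0 : 0 ≤ θ) (hθ1 : θ < 1)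
    [IsProbabilityMeasure (mu b θ)]
    (hTT : Measurable (fun p : Om b × Om b => TT θ p.1 p.2))
    (hYf : Measurable (fun p : Om b × ((V b → Bool) × Om b) => Yf p.1 p.2.1 p.2.2))
    (α : ℕ × V b) {r : ℝ} (h0 : 0 ≤ r) (h1 : r < 1) :
    Repl b θ (cens α r) (fun _ => (α.1 : ℝ) + r) := by
  intro A0 hA0 S t ht
  have hτ : Measurable (fun _ : Om b => (α.1 : ℝ) + r) := measurable_const
  have hc := comp_cens α h1
  refine ⟨kbox (fun _ => (α.1 : ℝ) + r) (avg α r (ind A0)) S t,
    measurable_kbox hτ (measurable_avg α r (measurable_ind hA0)) S ht,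
    ⟨1, abs_kbox_le (abs_avg_le α h0 h1 (abs_ind_le_one A0)) S t⟩, ?_⟩
  intro F hF hFb hAd
  have hPY : PastY (fun _ : Om b => (α.1 : ℝ) + r) F := by
    intro U Y Y' hY
    exact hAd U U Y Y' rfl (past_congr hY)
  rw [innov_rect hI hb hθ0 hθ1 hTT hτ hF hFb hPY (measurable_ind hA0) (abs_ind_le_one A0) S t ht]
  set F2 : Om b → Om b → ℝ := fun U Y => F U Y * ∏ β ∈ S,
    (if tm U β < (α.1 : ℝ) + r then ind (t β) (past ((α.1 : ℝ) + r) U (TT θ U Y) β)
      else (volume (t β)).toReal) with hF2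
  have hpm : Measurable (fun p : Om b × Om b => past ((α.1 : ℝ) + r) p.1 (TT θ p.1 p.2)) :=
    (measurable_past hτ).comp (measurable_Wm hTT)
  have hF2m : Measurable (fun p : Om b × Om b => F2 p.1 p.2) := by
    refine hF.mul (Finset.measurable_prod _ (fun β _ => ?_))
    refine Measurable.ite ?_ ((measurable_ind (ht β)).comp
      ((measurable_pi_apply β).comp hpm)) measurable_const
    exact measurableSet_lt ((measurable_tm β).comp measurable_fst) measurable_const
  have hF2b : ∀ U Y, |F2 U Y| ≤ 1 := by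
    intro U Y
    rw [hF2]
    simp only
    rw [abs_mul, Finset.abs_prod]
    refine mul_le_one₀ (hFb U Y) (Finset.prod_nonneg (fun _ _ => abs_nonneg _)) ?_
    refine Finset.prod_le_one (fun _ _ => abs_nonneg _) (fun β _ => ?_)
    split_ifs
    · exact abs_ind_le_one _ _
    · rw [abs_of_nonneg ENNReal.toReal_nonneg]
      exact vol_toReal_le_one _
  have hF2Ad : Ad (cens α r) (fun _ => (α.1 : ℝ) + r) F2 := by
    intro U U' Y Y' hU hY
    have e1 := hAd U U' Y Y' hU hY
    have e2 := past_TT_congr (θ := θ) hc hU hY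
    obtain ⟨-, e3, -⟩ := hc U U' hU
    rw [hF2]
    simp only
    rw [e1]
    congr 1
    refine Finset.prod_congr rfl (fun β _ => ?_)
    have e4 : past ((α.1 : ℝ) + r) U (TT θ U Y) = past ((α.1 : ℝ) + r) U' (TT θ U' Y') := e2
    rw [e4]
    by_cases hβ : tm U β < (α.1 : ℝ) + r
    · rw [if_pos hβ, if_pos ((e3 β).mp hβ)]
    · rw [if_neg hβ, if_neg (fun h => hβ ((e3 β).mpr h))]
  have key := lab_avg (θ := θ) hYf α h0 h1 hF2m hF2b hF2Ad (measurable_ind hA0)
    (abs_ind_le_one A0)
  have hl : ∫ p, F p.1 p.2 * kbox (fun _ => (α.1 : ℝ) + r) (ind A0) S t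
      (p.1, past ((α.1 : ℝ) + r) p.1 (TT θ p.1 p.2)) ∂(PP b θ) =
      ∫ p, F2 p.1 p.2 * ind A0 p.1 ∂(PP b θ) := by
    refine integral_congr_ae (ae_of_all _ (fun p => ?_))
    rw [hF2]
    simp only [kbox]
    ring
  have hr' : ∫ p, F2 p.1 p.2 * avg α r (ind A0) p.1 ∂(PP b θ) =
      ∫ p, F p.1 p.2 * kbox (fun _ => (α.1 : ℝ) + r) (avg α r (ind A0)) S t
        (cens α r p.1, past ((α.1 : ℝ) + r) p.1 (TT θ p.1 p.2)) ∂(PP b θ) := by
    refine integral_congr_ae (ae_of_all _ (fun p => ?_))
    obtain ⟨-, e3, -⟩ := hc (cens α r p.1) p.1 (cens_cens α h1.le p.1)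
    rw [hF2]
    simp only [kbox]
    rw [avg_cens α h1.le]
    have : ∀ β ∈ S, (if tm (cens α r p.1) β < (α.1 : ℝ) + r then
        ind (t β) (past ((α.1 : ℝ) + r) p.1 (TT θ p.1 p.2) β) else (volume (t β)).toReal) =
        (if tm p.1 β < (α.1 : ℝ) + r then
        ind (t β) (past ((α.1 : ℝ) + r) p.1 (TT θ p.1 p.2) β) else (volume (t β)).toReal) := by
      intro β _
      by_cases hβ : tm p.1 β < (α.1 : ℝ) + r
      · rw [if_pos hβ, if_pos ((e3 β).mpr hβ)]
      · rw [if_neg hβ, if_neg (fun h => hβ ((e3 β).mp h))]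
    rw [Finset.prod_congr rfl this]
    ring
  calc _ = ∫ p, F2 p.1 p.2 * ind A0 p.1 ∂(PP b θ) := hl
    _ = ∫ p, F2 p.1 p.2 * avg α r (ind A0) p.1 ∂(PP b θ) := key
    _ = _ := hr'

lemma avg_ind_lab (α : ℕ × V b) {r : ℝ} {D : Set UI} (hD : MeasurableSet D) (U : Om b) :
    avg α r (fun U => ind (D ∩ Sr r) (U α)) U =
      ((1 - r)⁻¹ * (volume (D ∩ Sr r)).toReal) * ind (Sr r) (U α) := by
  unfold avg
  by_cases h : r ≤ (U α : ℝ)
  · have h' : U α ∈ Sr r := h
    rw [if_pos h]
    have e1 : ind (Sr r) (U α) = 1 := by unfold ind; rw [Set.indicator_of_mem h']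
    rw [e1, mul_one]
    congr 1
    simp only [Function.update_self]
    have e2 : ∫ x in Sr r, ind (D ∩ Sr r) x = ∫ x, ind (D ∩ Sr r) x := by
      rw [← integral_indicator (measurableSet_Sr r)]
      refine integral_congr_ae (ae_of_all _ (fun x => ?_))
      by_cases hx : x ∈ Sr r
      · simp [Set.indicator_of_mem hx]
      · have : x ∉ D ∩ Sr r := fun h => hx h.2
        simp only [Set.indicator_of_notMem hx]
        unfold ind
        rw [Set.indicator_of_notMem this]
    rw [e2, integral_ind (hD.inter (measurableSet_Sr r))]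
  · have h' : U α ∉ Sr r := h
    have h'' : U α ∉ D ∩ Sr r := fun h => h' h.2
    rw [if_neg h]
    change ind (D ∩ Sr r) (U α) = _
    unfold ind
    rw [Set.indicator_of_notMem h', Set.indicator_of_notMem h'', mul_zero]

/-- The label law on rectangles. -/
lemma label_law (hI : Spec.Innov) (hb : 1 ≤ b) (hθ0 : 0 ≤ θ) (hθ1 : θ < 1)
    [IsProbabilityMeasure (mu b θ)] [IsProbabilityMeasure (PP b θ)]
    [IsProbabilityMeasure (mm b θ)]
    (hTT : Measurable (fun p : Om b × Om b => TT θ p.1 p.2))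
    (hYf : Measurable (fun p : Om b × ((V b → Bool) × Om b) => Yf p.1 p.2.1 p.2.2))
    (α : ℕ × V b) {r : ℝ} (h0 : 0 ≤ r) (h1 : r < 1) :
    (ENNReal.ofReal (1 - r)) • (((dbl (mm b θ)).restrict {q | q.1.1 α ∈ Sr r}).map
        (fun q => (Psi (cens α r) (fun _ => (α.1 : ℝ) + r) q, q.1.1 α))) =
      (((dbl (mm b θ)).restrict {q | q.1.1 α ∈ Sr r}).map
        (Psi (cens α r) (fun _ => (α.1 : ℝ) + r))).prod
          ((volume : Measure UI).restrict (Sr r)) := by
  have hr : 0 < 1 - r := by linarith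
  have hρ : Measurable (cens (b := b) α r) := measurable_cens α r
  have hτ : Measurable (fun _ : Om b => (α.1 : ℝ) + r) := measurable_const
  have hc := comp_cens α h1
  have hRep := repl_cens hI hb hθ0 hθ1 hTT hYf α h0 h1
  have hPsi : Measurable (Psi (cens α r) (fun _ => (α.1 : ℝ) + r)) := measurable_Psi hρ hτ
  have hα : Measurable (fun q : (Om b × Om b) × (Om b × Om b) => q.1.1 α) := by fun_prop
  have hα' : Measurable (fun e : Om b × Om b => e.1 α) := by fun_prop
  symm
  refine Measure.prod_eq (fun s D hs hD => ?_)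
  have hQ : ∀ D : Set UI, MeasurableSet D → MeasurableSet {e : Om b × Om b | e.1 α ∈ D ∩ Sr r} :=
    fun D hD => hα' (hD.inter (measurableSet_Sr r))
  -- the rectangle identity
  have hM : (ENNReal.ofReal (1 - r)) •
      (((dbl (mm b θ)).restrict {q | q.1 ∈ {e : Om b × Om b | e.1 α ∈ D ∩ Sr r}}).map
        (Psi (cens α r) (fun _ => (α.1 : ℝ) + r))) =
      (volume (D ∩ Sr r)) •
      (((dbl (mm b θ)).restrict {q | q.1 ∈ {e : Om b × Om b | e.1 α ∈ Set.univ ∩ Sr r}}).map
        (Psi (cens α r) (fun _ => (α.1 : ℝ) + r))) := by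
    haveI : IsFiniteMeasure ((ENNReal.ofReal (1 - r)) •
      (((dbl (mm b θ)).restrict {q | q.1 ∈ {e : Om b × Om b | e.1 α ∈ D ∩ Sr r}}).map
        (Psi (cens α r) (fun _ => (α.1 : ℝ) + r)))) := Measure.smul_finite _ ENNReal.ofReal_ne_top
    haveI : IsFiniteMeasure ((volume (D ∩ Sr r)) •
      (((dbl (mm b θ)).restrict {q | q.1 ∈ {e : Om b × Om b | e.1 α ∈ Set.univ ∩ Sr r}}).map
        (Psi (cens α r) (fun _ => (α.1 : ℝ) + r)))) := Measure.smul_finite _ (measure_ne_top _ _)
    refine Measure.ext_prod₃ (fun {A B C} hA hB hC => ?_)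
    obtain ⟨HB, hHB, hHB0, hHB1, hgB⟩ := factor hTT hρ hτ hc hRep hB
    obtain ⟨HC, hHC, hHC0, hHC1, hgC⟩ := factor hTT hρ hτ hc hRep hC
    have hπ : Measurable (fun e : Om b × Om b =>
        (cens α r e.1, past ((α.1 : ℝ) + r) e.1 e.2)) :=
      (hρ.comp measurable_fst).prodMk (measurable_past hτ)
    set G : Om b → Om b → ℝ := fun U Y => ind A (cens α r U) *
      (HB (cens α r U, past ((α.1 : ℝ) + r) U (TT θ U Y)) *
        HC (cens α r U, past ((α.1 : ℝ) + r) U (TT θ U Y))) with hGdef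
    have hG : Measurable (fun p : Om b × Om b => G p.1 p.2) := by
      refine ((measurable_ind hA).comp (hρ.comp measurable_fst)).mul (Measurable.mul ?_ ?_)
      · exact (hHB.comp hπ).comp (measurable_Wm hTT)
      · exact (hHC.comp hπ).comp (measurable_Wm hTT)
    have hGb : ∀ U Y : Om b, |G U Y| ≤ 1 := by
      intro U Y
      rw [hGdef]
      simp only
      rw [abs_mul, abs_mul, abs_of_nonneg (hHB0 _), abs_of_nonneg (hHC0 _)]
      exact mul_le_one₀ (abs_ind_le_one _ _) (mul_nonneg (hHB0 _) (hHC0 _))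
        (mul_le_one₀ (hHB1 _) (hHC0 _) (hHC1 _))
    have hGAd : Ad (cens α r) (fun _ => (α.1 : ℝ) + r) G := by
      intro U U' Y Y' hU hY
      have e : past ((α.1 : ℝ) + r) U (TT θ U Y) = past ((α.1 : ℝ) + r) U' (TT θ U' Y') :=
        past_TT_congr (ρ := cens α r) (τ := fun _ => (α.1 : ℝ) + r) hc hU hY
      rw [hGdef]
      simp only [e, hU]
    have key : ∀ D : Set UI, MeasurableSet D →
        (((dbl (mm b θ)).restrict {q | q.1 ∈ {e : Om b × Om b | e.1 α ∈ D ∩ Sr r}}).map
          (Psi (cens α r) (fun _ => (α.1 : ℝ) + r))) (A ×ˢ B ×ˢ C) =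
        ENNReal.ofReal ((1 - r)⁻¹ * (volume (D ∩ Sr r)).toReal *
          ∫ p, G p.1 p.2 * ind (Sr r) (p.1 α) ∂(PP b θ)) := by
      intro D hD
      have e1 := dbl_Psi_apply (θ := θ) (ρ := cens α r) (τ := fun _ : Om b => (α.1 : ℝ) + r) hρ hτ
        hA hB hC (hQ D hD)
      have r1 := dbl_rect hTT (ρ := cens α r) (τ := fun _ : Om b => (α.1 : ℝ) + r) hρ hτ hB hC
        hHB hHC hHB0 hHB1 hHC0 hHC1 hgB hgC
        (h := fun e => ind A (cens α r e.1) * ind {e : Om b × Om b | e.1 α ∈ D ∩ Sr r} e)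
        (((measurable_ind hA).comp (hρ.comp measurable_fst)).mul (measurable_ind (hQ D hD)))
        (fun e => mul_nonneg (ind_nonneg _ _) (ind_nonneg _ _)) (K := 1)
        (fun e => mul_le_one₀ (ind_le_one _ _) (ind_nonneg _ _) (ind_le_one _ _))
      rw [e1, r1]
      congr 1
      have l1 := lab_avg (θ := θ) hYf α h0 h1 hG hGb hGAd
        (a := fun U => ind (D ∩ Sr r) (U α))
        ((measurable_ind (hD.inter (measurableSet_Sr r))).comp (measurable_pi_apply α))
        (C := 1) (fun U => abs_ind_le_one _ _)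
      calc ∫ p, (ind A (cens α r (Wm θ p).1) *
            ind {e : Om b × Om b | e.1 α ∈ D ∩ Sr r} (Wm θ p)) *
            (HB (cens α r p.1, past ((α.1 : ℝ) + r) p.1 (TT θ p.1 p.2)) *
              HC (cens α r p.1, past ((α.1 : ℝ) + r) p.1 (TT θ p.1 p.2))) ∂(PP b θ)
          = ∫ p, G p.1 p.2 * ind (D ∩ Sr r) (p.1 α) ∂(PP b θ) := by
            refine integral_congr_ae (ae_of_all _ (fun p => ?_))
            change (ind A (cens α r p.1) * ind (D ∩ Sr r) (p.1 α)) *
              (HB (cens α r p.1, past ((α.1 : ℝ) + r) p.1 (TT θ p.1 p.2)) *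
                HC (cens α r p.1, past ((α.1 : ℝ) + r) p.1 (TT θ p.1 p.2))) =
              (ind A (cens α r p.1) *
              (HB (cens α r p.1, past ((α.1 : ℝ) + r) p.1 (TT θ p.1 p.2)) *
                HC (cens α r p.1, past ((α.1 : ℝ) + r) p.1 (TT θ p.1 p.2)))) *
                ind (D ∩ Sr r) (p.1 α)
            ring
        _ = ∫ p, G p.1 p.2 * avg α r (fun U => ind (D ∩ Sr r) (U α)) p.1 ∂(PP b θ) := l1
        _ = ∫ p, ((1 - r)⁻¹ * (volume (D ∩ Sr r)).toReal) *
              (G p.1 p.2 * ind (Sr r) (p.1 α)) ∂(PP b θ) := by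
            refine integral_congr_ae (ae_of_all _ (fun p => ?_))
            simp only
            rw [avg_ind_lab α hD]
            ring
        _ = _ := by rw [integral_const_mul]
    rw [Measure.smul_apply, Measure.smul_apply, smul_eq_mul, smul_eq_mul, key D hD,
      key Set.univ MeasurableSet.univ, Set.univ_inter, vol_Sr h0 h1.le,
      ENNReal.toReal_ofReal hr.le, inv_mul_cancel₀ hr.ne', one_mul, ← ENNReal.ofReal_mul hr.le]
    conv_rhs => rw [← ENNReal.ofReal_toReal (measure_ne_top (volume : Measure UI) (D ∩ Sr r)),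
      ← ENNReal.ofReal_mul ENNReal.toReal_nonneg]
    congr 1
    field_simp
  have hM' := congrArg (fun μ : Measure (Om b × (Om b × Om b)) => μ s) hM
  simp only [Measure.smul_apply, smul_eq_mul] at hM'
  have hset1 : {q : (Om b × Om b) × (Om b × Om b) | q.1 ∈ {e : Om b × Om b | e.1 α ∈
      Set.univ ∩ Sr r}} = {q | q.1.1 α ∈ Sr r} := by
    ext q; simp
  rw [hset1, Measure.map_apply hPsi hs, Measure.restrict_apply (hPsi hs)] at hM'
  rw [Measure.smul_apply, smul_eq_mul, Measure.map_apply (hPsi.prodMk hα) (hs.prod hD),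
    Measure.restrict_apply ((hPsi.prodMk hα) (hs.prod hD)),
    Measure.restrict_apply hD, mul_comm _ ((volume : Measure UI) (D ∩ Sr r)), ← hM']
  congr 2
  ext q
  constructor
  · rintro ⟨⟨h2, h3⟩, h4⟩
    exact ⟨h2, h3, h4⟩
  · rintro ⟨h2, h3, h4⟩
    exact ⟨⟨h2, h3⟩, h4⟩

theorem label (hI : Spec.Innov) (hb : 1 ≤ b) (hθ0 : 0 ≤ θ) (hθ1 : θ < 1)
    [IsProbabilityMeasure (mu b θ)] [IsProbabilityMeasure (PP b θ)]
    [IsProbabilityMeasure (mm b θ)]
    (hTT : Measurable (fun p : Om b × Om b => TT θ p.1 p.2))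
    (hYf : Measurable (fun p : Om b × ((V b → Bool) × Om b) => Yf p.1 p.2.1 p.2.2))
    (α : ℕ × V b) (r : ℝ) (h0 : 0 ≤ r) (h1 : r < 1)
    (F : Om b → Om b → Om b → ENNReal)
    (hF : Measurable (fun p : Om b × (Om b × Om b) => F p.1 p.2.1 p.2.2))
    (hFP : ∀ U U' Y1 Y1' Y2 Y2', (∀ β, tm U β < α.1 + r ↔ tm U' β < α.1 + r) →
      (∀ β, tm U β < α.1 + r → U β = U' β ∧ Y1 β = Y1' β ∧ Y2 β = Y2' β) →
      F U Y1 Y2 = F U' Y1' Y2')
    (φ : UI → ENNReal) (hφ : Measurable φ) :
    (∫⁻ p, F p.1 p.2.1 p.2.2 * ({x : UI | r ≤ (x : ℝ)}.indicator φ (p.1 α)) ∂(LL b θ)) *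
        ENNReal.ofReal (1 - r) =
      (∫⁻ p, F p.1 p.2.1 p.2.2 * ({x : UI | r ≤ (x : ℝ)}.indicator 1 (p.1 α)) ∂(LL b θ)) *
        ∫⁻ x in {x : UI | r ≤ (x : ℝ)}, φ x := by
  have hρ : Measurable (cens (b := b) α r) := measurable_cens α r
  have hτ : Measurable (fun _ : Om b => (α.1 : ℝ) + r) := measurable_const
  have hPsi : Measurable (Psi (cens α r) (fun _ => (α.1 : ℝ) + r)) := measurable_Psi hρ hτ
  have hα : Measurable (fun q : (Om b × Om b) × (Om b × Om b) => q.1.1 α) := by fun_prop
  have hα2 : Measurable (fun p : Om b × (Om b × Om b) => p.1 α) := by fun_prop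
  have hpr : Measurable (fun q : (Om b × Om b) × (Om b × Om b) => (q.1.1, q.2)) := by fun_prop
  have hFPsi : ∀ q : (Om b × Om b) × (Om b × Om b), F q.1.1 q.2.1 q.2.2 =
      F (Psi (cens α r) (fun _ => (α.1 : ℝ) + r) q).1
        (Psi (cens α r) (fun _ => (α.1 : ℝ) + r) q).2.1
        (Psi (cens α r) (fun _ => (α.1 : ℝ) + r) q).2.2 := by
    intro q
    obtain ⟨-, e3, e4⟩ := comp_cens α h1 q.1.1 (cens α r q.1.1) (cens_cens α h1.le q.1.1).symm
    refine hFP _ _ _ _ _ _ e3 (fun β hβ => ⟨e4 β hβ, ?_, ?_⟩)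
    · simp only [Psi]
      rw [past_apply, if_pos hβ]
    · simp only [Psi]
      rw [past_apply, if_pos hβ]
  have hS : {x : UI | r ≤ (x : ℝ)} = Sr r := rfl
  rw [hS]
  have hSq : MeasurableSet {q : (Om b × Om b) × (Om b × Om b) | q.1.1 α ∈ Sr r} :=
    hα (measurableSet_Sr r)
  -- transfer
  have tr : ∀ ψ : UI → ENNReal, Measurable ψ →
      ∫⁻ p, F p.1 p.2.1 p.2.2 * ((Sr r).indicator ψ (p.1 α)) ∂(LL b θ) =
        ∫⁻ x, F x.1.1 x.1.2.1 x.1.2.2 * ψ x.2 ∂(((dbl (mm b θ)).restrict
          {q | q.1.1 α ∈ Sr r}).map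
            (fun q => (Psi (cens α r) (fun _ => (α.1 : ℝ) + r) q, q.1.1 α))) := by
    intro ψ hψ
    unfold LL
    have hm1 : Measurable (fun p : Om b × (Om b × Om b) =>
        F p.1 p.2.1 p.2.2 * ((Sr r).indicator ψ (p.1 α))) :=
      hF.mul ((hψ.indicator (measurableSet_Sr r)).comp hα2)
    have hm2 : Measurable (fun x : (Om b × (Om b × Om b)) × UI =>
        F x.1.1 x.1.2.1 x.1.2.2 * ψ x.2) := (hF.comp measurable_fst).mul (hψ.comp measurable_snd)
    rw [lintegral_map hm1 hpr, lintegral_map hm2 (hPsi.prodMk hα), ← lintegral_indicator hSq]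
    refine lintegral_congr (fun q => ?_)
    simp only
    rw [hFPsi q]
    by_cases hq : q.1.1 α ∈ Sr r
    · have hq' : q ∈ {q : (Om b × Om b) × (Om b × Om b) | q.1.1 α ∈ Sr r} := hq
      rw [Set.indicator_of_mem hq, Set.indicator_of_mem hq']
    · have hq' : q ∉ {q : (Om b × Om b) × (Om b × Om b) | q.1.1 α ∈ Sr r} := hq
      rw [Set.indicator_of_notMem hq, Set.indicator_of_notMem hq', mul_zero]
  have hone : ∫⁻ p, F p.1 p.2.1 p.2.2 * ((Sr r).indicator 1 (p.1 α)) ∂(LL b θ) =
      ∫⁻ x, F x.1 x.2.1 x.2.2 ∂(((dbl (mm b θ)).restrict {q | q.1.1 α ∈ Sr r}).map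
        (Psi (cens α r) (fun _ => (α.1 : ℝ) + r))) := by
    rw [tr 1 measurable_one]
    rw [lintegral_map (by
      exact (hF.comp measurable_fst).mul (measurable_one.comp measurable_snd)) (hPsi.prodMk hα),
      lintegral_map hF hPsi]
    simp
  rw [tr φ hφ, hone, mul_comm _ (ENNReal.ofReal (1 - r)), ← smul_eq_mul (ENNReal.ofReal (1 - r)),
    ← lintegral_smul_measure, label_law hI hb hθ0 hθ1 hTT hYf α h0 h1]
  exact lintegral_prod_mul hF.aemeasurable hφ.aemeasurable

end Crest.Agent.IsgTriple
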