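import Mathlib
import Crest.Agent.IsgTripleC
import Crest.Agent.IsgEqvB

/-!
S0241, module TRIPLE (D4): two conditionally independent copies of the observations given the
labels and the innovations.
-/

set_option autoImplicit false

open MeasureTheory ProbabilityTheory Filter Topology

namespace Crest.Agent.IsgTriple

open Crest.Agent.Isg Crest.Agent.H12IsgCopy

variable {b : ℕ} {θ : ℝ}

/-- Reindexing by a left multiplication. -/
noncomputable def reE (u : V b) : Om b ≃ᵐ Om b where
  toFun := fun Y α => Y (α.1, mul u α.2)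
  invFun := fun Y α => Y (α.1, mul (inv u) α.2)
  left_inv := fun Y => by
    funext α
    simp only [mul_inv_cancel_left']
  right_inv := fun Y => by
    funext α
    simp only [inv_mul_cancel_left']
  measurable_toFun := measurable_pi_lambda _ (fun α => measurable_pi_apply (α.1, mul u α.2))
  measurable_invFun := measurable_pi_lambda _ (fun α => measurable_pi_apply (α.1, mul (inv u) α.2))

lemma reE_apply (u : V b) (Y : Om b) : reE u Y = fun α => Y (α.1, mul u α.2) := rfl

lemma mm_map (hM : Spec.MuInv) (hb : 1 ≤ b) (h0 : 0 ≤ θ) (h1 : θ < 1)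
    (hTT : Measurable (fun p : Om b × Om b => TT θ p.1 p.2)) (u : V b) :
    (mm b θ).map (fun q => (((reE u).prodCongr (reE u)) q.1, (reE u) q.2)) = mm b θ := by
  have hre : Measurable (reE u : Om b → Om b) := (reE u).measurable
  have hW : Measurable (fun p : Om b × Om b => (Wm θ p, p.2)) :=
    (measurable_Wm hTT).prodMk measurable_snd
  have hT : Measurable (fun p : Om b × Om b => (reE u p.1, reE u p.2)) :=
    (hre.comp measurable_fst).prodMk (hre.comp measurable_snd)
  have hS : Measurable (fun q : (Om b × Om b) × Om b =>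
      (((reE u).prodCongr (reE u)) q.1, (reE u) q.2)) :=
    (((reE u).prodCongr (reE u)).measurable.comp measurable_fst).prodMk (hre.comp measurable_snd)
  have hPP : (PP b θ).map (fun p => (reE u p.1, reE u p.2)) = PP b θ :=
    PP_map_mul h0 h1 hb hM u
  unfold mm
  rw [Measure.map_map hS hW]
  conv_rhs => rw [← hPP, Measure.map_map hW hT]
  congr 1
  funext p
  have e : TT θ (reE u p.1) (reE u p.2) = reE u (TT θ p.1 p.2) := TT_mul θ p.1 p.2 u
  change ((reE u p.1, reE u (TT θ p.1 p.2)), reE u p.2) =
    ((reE u p.1, TT θ (reE u p.1) (reE u p.2)), reE u p.2)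
  rw [e]

lemma LL_inv (hM : Spec.MuInv) (hb : 1 ≤ b) (h0 : 0 ≤ θ) (h1 : θ < 1)
    [IsProbabilityMeasure (mm b θ)]
    (hTT : Measurable (fun p : Om b × Om b => TT θ p.1 p.2)) (u : V b) :
    (LL b θ).map (fun p => ((fun α => p.1 (α.1, mul u α.2)),
      ((fun α => p.2.1 (α.1, mul u α.2)), (fun α => p.2.2 (α.1, mul u α.2))))) = LL b θ := by
  have hre : Measurable (reE u : Om b → Om b) := (reE u).measurable
  have hpr : Measurable (fun q : (Om b × Om b) × (Om b × Om b) => (q.1.1, q.2)) := by fun_prop
  have hR : Measurable (fun p : Om b × (Om b × Om b) =>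
      (reE u p.1, (reE u p.2.1, reE u p.2.2))) :=
    (hre.comp measurable_fst).prodMk ((hre.comp (measurable_fst.comp measurable_snd)).prodMk
      (hre.comp (measurable_snd.comp measurable_snd)))
  have hS : Measurable (fun q : (Om b × Om b) × (Om b × Om b) =>
      (((reE u).prodCongr (reE u)) q.1, ((reE u) q.2.1, (reE u) q.2.2))) :=
    (((reE u).prodCongr (reE u)).measurable.comp measurable_fst).prodMk
      ((hre.comp (measurable_fst.comp measurable_snd)).prodMk
      (hre.comp (measurable_snd.comp measurable_snd)))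
  have hd := dbl_map (mm b θ) ((reE u).prodCongr (reE u)) (reE u) (mm_map hM hb h0 h1 hTT u)
  change (LL b θ).map (fun p => (reE u p.1, (reE u p.2.1, reE u p.2.2))) = LL b θ
  unfold LL
  rw [Measure.map_map hR hpr]
  conv_rhs => rw [← hd, Measure.map_map hpr hS]
  rfl

theorem main (hI : Spec.Innov) (hM : Spec.MuInv) : Spec.Triple := by
  intro b θ hb h0 h1
  have hTT : Measurable (fun p : Om b × Om b => TT θ p.1 p.2) :=
    Measurable.TT θ measurable_fst measurable_snd
  have hYf : Measurable (fun p : Om b × ((V b → Bool) × Om b) => Yf p.1 p.2.1 p.2.2) :=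
    Measurable.Yf measurable_fst (measurable_fst.comp measurable_snd)
      (measurable_snd.comp measurable_snd)
  have i1 : IsProbabilityMeasure (mu b θ) := isProb_mu h0 h1
  have i2 : IsProbabilityMeasure (PP b θ) := isProb_PP h0 h1
  have i3 : IsProbabilityMeasure (mm b θ) := mm_prob hTT
  have hpr : Measurable (fun q : (Om b × Om b) × (Om b × Om b) => (q.1.1, q.2)) := by fun_prop
  have hW : Measurable (fun p : Om b × Om b => (Wm θ p, p.2)) :=
    (measurable_Wm hTT).prodMk measurable_snd
  have hmP : (mm b θ).map (fun q => (q.1.1, q.2)) = PP b θ := by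
    unfold mm
    rw [Measure.map_map (by fun_prop) hW]
    conv_rhs => rw [← Measure.map_id (μ := PP b θ)]
    rfl
  refine ⟨LL b θ, ?_, ?_, ?_⟩
  · exact Measure.isProbabilityMeasure_map hpr.aemeasurable
  · refine
      { fst := ?_
        snd := ?_
        swap := ?_
        innov := ?_
        inv := fun u => LL_inv hM hb h0 h1 hTT u
        fresh := fun α F hF hFb hP1 hP2 φ hφ hφb =>
          fresh hI hb h0 h1 hTT α F hF hFb hP1 hP2 φ hφ hφb
        label := fun α r hr0 hr1 F hF hFP φ hφ =>
          label hI hb h0 h1 hTT hYf α r hr0 hr1 F hF hFP φ hφ }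
    · conv_rhs => rw [← hmP, ← dbl_fst (mm b θ), Measure.map_map (by fun_prop) (by fun_prop)]
      unfold LL
      rw [Measure.map_map (by fun_prop) hpr]
      rfl
    · conv_rhs => rw [← hmP, ← dbl_snd (mm b θ), Measure.map_map (by fun_prop) (by fun_prop)]
      unfold LL
      rw [Measure.map_map (by fun_prop) hpr]
      rfl
    · conv_rhs => unfold LL; rw [← dbl_swap (mm b θ), Measure.map_map hpr (by fun_prop)]
      unfold LL
      rw [Measure.map_map (by fun_prop) hpr]
      rfl
    · have hset : MeasurableSet {p : Om b × (Om b × Om b) | TT θ p.1 p.2.1 = TT θ p.1 p.2.2} :=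
        measurableSet_eq_fun
          (Measurable.TT θ measurable_fst (measurable_fst.comp measurable_snd))
          (Measurable.TT θ measurable_fst (measurable_snd.comp measurable_snd))
      unfold LL
      rw [ae_map_iff hpr.aemeasurable hset]
      filter_upwards [(dbl_innov (θ := θ) hTT).1, (dbl_innov (θ := θ) hTT).2] with q h2 h3
      change TT θ q.1.1 q.2.1 = TT θ q.1.1 q.2.2
      rw [h2, h3]
  · intro h
    have h2 : ∀ᵐ q ∂(dbl (mm b θ)), q.2.1 = q.2.2 := by
      unfold LL at h
      exact ae_of_ae_map hpr.aemeasurable h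
    obtain ⟨Φ, hΦ, hΦ2⟩ := exists_of_diag (mm b θ) h2
    refine ⟨Φ, hΦ, ?_⟩
    unfold mm at hΦ2
    exact ae_of_ae_map hW.aemeasurable hΦ2

end Crest.Agent.IsgTriple
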