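import Crest.Agent.H23IsgBase

/-!
Module UNIQS of S0241: the strictly subcritical uniqueness argument.
-/

set_option autoImplicit false
set_option linter.style.haveILetI false

open MeasureTheory ProbabilityTheory Filter Topology

namespace Crest.Agent.IsgUniqS

open Crest.Agent.Isg Crest.Agent.H23Isg

theorem gron0 (A : ℝ → ENNReal) (K T : ℝ) (hK : 0 ≤ K) (hA : ∀ t, 0 < t → t ≤ T → A t ≤ 4)
    (h : ∀ τ, 0 < τ → τ ≤ T → A τ ≤ ∫⁻ t in Set.Ioo 0 τ, ENNReal.ofReal K * A t) (k : ℕ) :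
    ∀ τ, 0 < τ → τ ≤ T → A τ ≤ ENNReal.ofReal (4 * ((K * τ) ^ k / k.factorial)) := by
  induction k with
  | zero =>
    intro τ h0 hT
    refine (hA τ h0 hT).trans ?_
    simp
  | succ k ih =>
    intro τ h0 hT
    refine (h τ h0 hT).trans ?_
    have h1 : ∫⁻ t in Set.Ioo 0 τ, ENNReal.ofReal K * A t ≤
        ∫⁻ t in Set.Ioo 0 τ, ENNReal.ofReal ((K * (4 * (K ^ k / k.factorial))) * t ^ k) := by
      refine setLIntegral_mono' measurableSet_Ioo (fun t ht => ?_)
      calc ENNReal.ofReal K * A t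
          ≤ ENNReal.ofReal K * ENNReal.ofReal (4 * ((K * t) ^ k / k.factorial)) := by
            gcongr
            exact ih t ht.1 (ht.2.le.trans hT)
        _ = ENNReal.ofReal ((K * (4 * (K ^ k / k.factorial))) * t ^ k) := by
            rw [← ENNReal.ofReal_mul hK]
            congr 1
            rw [mul_pow]; ring
    refine h1.trans (le_of_eq ?_)
    rw [lint_pow _ (by positivity) k h0.le]
    congr 1
    rw [Nat.factorial_succ, mul_pow]
    push_cast
    field_simp
    ring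

theorem gron0_zero (A : ℝ → ENNReal) (K T : ℝ) (hK : 0 ≤ K) (hA : ∀ t, 0 < t → t ≤ T → A t ≤ 4)
    (h : ∀ τ, 0 < τ → τ ≤ T → A τ ≤ ∫⁻ t in Set.Ioo 0 τ, ENNReal.ofReal K * A t) (hT : 0 < T) :
    A T = 0 := by
  have h1 : ∀ k : ℕ, A T ≤ ENNReal.ofReal (4 * ((K * T) ^ k / k.factorial)) :=
    fun k => gron0 A K T hK hA h k T hT le_rfl
  have h2 : Tendsto (fun k : ℕ => ENNReal.ofReal (4 * ((K * T) ^ k / k.factorial))) atTop
      (𝓝 (ENNReal.ofReal (4 * 0))) :=
    ENNReal.tendsto_ofReal ((FloorSemiring.tendsto_pow_div_factorial_atTop (K * T)).const_mul 4)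
  have h3 := ge_of_tendsto' h2 h1
  simpa using h3

theorem main : Spec.UniqStrict := by
  intro hS b θ hb hθ hbθ ρ L hρ hL hineq T hT
  obtain ⟨H, hmono, hch⟩ := hρ.chan
  obtain ⟨C, hC0, hC⟩ := hS b θ hb hθ hbθ (H T)
  have hθ1 : θ ≤ 1 := by
    have hb' : (2 : ℝ) ≤ b := by exact_mod_cast hb
    by_contra hcon
    push Not at hcon
    nlinarith
  have hchT : ∀ t, 0 < t → t ≤ T → Chan (ρ t) (H T) := by
    intro t h0 h1
    have h2 := hch t h0
    refine ⟨h2.prob, ?_, h2.nish⟩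
    filter_upwards [h2.bdd] with x hx
    exact hx.trans (hmono h1)
  apply gron0_zero (fun t => AA θ (L t)) C T hC0
  · intro t h0 h1
    exact AA_le_four hθ hθ1 (hch t h0).prob (hL t h0)
  · intro τ h0 h1
    refine (hineq τ h0).trans ?_
    refine setLIntegral_mono' measurableSet_Ioo (fun t ht => ?_)
    have h2 := hC (ρ t) (L t) (hchT t ht.1 (ht.2.le.trans h1)) (hL t ht.1)
    calc ENNReal.ofReal (Int.fract t) * ∫⁻ p, KK θ Set.univ p.1 p.2 ∂(L t)
        ≤ 1 * (ENNReal.ofReal C * AA θ (L t)) := by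
          gcongr
          · rw [← ENNReal.ofReal_one]
            exact ENNReal.ofReal_le_ofReal (Int.fract_lt_one t).le
      _ = ENNReal.ofReal C * AA θ (L t) := one_mul _
  · exact hT

end Crest.Agent.IsgUniqS
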