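import Crest.Agent.IsgAsm
import Crest.Agent.IsgMu
import Crest.Agent.IsgTreeIso
import Crest.Agent.IsgBP
import Crest.Agent.IsgGood
import Crest.Agent.IsgDet
import Crest.Agent.IsgUpd
import Crest.Agent.IsgNishC
import Crest.Agent.IsgDecay
import Crest.Agent.IsgSmall
import Crest.Agent.IsgSmallMag
import Crest.Agent.IsgTail
import Crest.Agent.IsgTails
import Crest.Agent.IsgTemperA
import Crest.Agent.IsgTemperC
import Crest.Agent.IsgCrude
import Crest.Agent.IsgNear
import Crest.Agent.IsgUniqS
import Crest.Agent.IsgUniqC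
import Crest.Agent.IsgReal1
import Crest.Agent.IsgOwn
import Crest.Agent.IsgPars
import Crest.Agent.IsgIneq
import Crest.Agent.IsgChanT
import Crest.Agent.IsgPairT
import Crest.Agent.IsgExact
import Crest.Agent.IsgFinal
import Crest.Agent.IsgPost
import Crest.Agent.IsgInnov
import Crest.Agent.IsgTriple
import Crest.Agent.IsgSameY

set_option autoImplicit false

/-!
Top level assembly for S0241: all modules together.
-/

namespace Crest.Agent.IsgTop

open Crest.Agent.Isg

theorem temperA : IsgTemperC.TemperA := by
  intro b θ _ h0 h1 ρ H L hC hL N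
  obtain ⟨C, _, h⟩ := IsgTemperA.main b θ h0 h1 ρ H hC N L hL
  exact ⟨C, h⟩

theorem treeFactor (hPost : Spec.Post) (hInnov : Spec.Innov) (hTriple : Spec.Triple)
    (hSame : Spec.SameY) : IsgAsm.TreeFactor := by
  have hMu := IsgMu.muInv
  have hBP := IsgBP.BPsub hMu
  have hGood := IsgGood.main hBP
  have hDecay := IsgDecay.main IsgNish.mainLower
  have hTemper := IsgTemperC.main temperA hGood
  have hPars := IsgPars.main hPost IsgUpd.update IsgOwn.main IsgPairT.main hTriple
  exact IsgAsm.treeFactor hTriple IsgTails.strict IsgTails.crit hDecay IsgChanT.main IsgPairT.main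
    (IsgIneq.main hPars IsgOwn.main hPost) IsgUniqS.main IsgUniqC.main (IsgNear.strictKK hGood)
    (IsgCrude.main hGood) (IsgNear.near hTemper hGood) (IsgSmall.main IsgNish.mainUpper hGood hMu)
    (IsgSmallMag.main IsgNish.mainUpper hGood) (IsgTail.main hDecay hGood) hSame
    (IsgFinal.main hMu hInnov IsgExact.main)

theorem treeFactorOf (hPost : Spec.Post) : IsgAsm.TreeFactor := by
  have hInnov : Spec.Innov := IsgInnov.main hPost IsgReal1.main
  exact treeFactor hPost hInnov (IsgTriple.main hInnov IsgMu.muInv)
    (IsgSameY.main IsgPairT.main IsgOwn.main)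

theorem treeFactorFinal : IsgAsm.TreeFactor := treeFactorOf IsgPost.main

end Crest.Agent.IsgTop
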