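import Crest.Agent.H23IsgCtx
import Crest.Agent.H23IsgGron

/-!
Module UNIQC of S0241: the uniqueness argument in the critical case.
-/

set_option autoImplicit false
set_option linter.style.haveILetI false

open MeasureTheory ProbabilityTheory Filter Topology

namespace Crest.Agent.IsgUniqC

open Crest.Agent.Isg Crest.Agent.H23Isg

variable {b : ℕ} {θ : ℝ} {ρ : ℝ → Measure ℝ} {L : ℝ → Measure ((V b → ℝ) × (V b → ℝ))}
  {H : ℝ → ℝ} {C₀ c : ℝ}

theorem Ctx.final (X : Ctx b θ ρ L H C₀ c) (hCr : Spec.Crude) (hNr : Spec.Near)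
    (hSm : Spec.SmallMsg) (hSM : Spec.SmallMag) (hTl : Spec.Tail) {τ : ℝ} (hτ : 0 < τ) :
    AA θ (L τ) = 0 := by
  set T : ℝ := max τ 1 with hT
  have hT1 : 1 ≤ T := le_max_right _ _
  have hτT : τ ≤ T := le_max_left _ _
  have hT0 : 0 < T := by linarith
  obtain ⟨B, C₁, D, hB0, hD0, hBb⟩ := X.stepB hCr hTl hT1
  obtain ⟨Ca, hCa0, hCa⟩ := X.stepA hCr hNr hSm hTl
  obtain ⟨Cb, hCb0, hCb⟩ := hCa C₁
  obtain ⟨CM, hCM0, hCM⟩ := X.start hSM
  set s₀ : ℝ := 1 / (4 * (Ca + 1)) with hs₀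
  have hs₀0 : 0 < s₀ := by positivity
  have hs₀1 : s₀ ≤ 1 := by
    rw [hs₀, div_le_one (by positivity)]; linarith
  have hCas₀ : Ca * s₀ ≤ 1 / 4 := by
    rw [hs₀, mul_one_div, div_le_iff₀ (by positivity)]; linarith
  set g : ℝ → ENNReal := fun t => ENNReal.ofReal (Int.fract t) *
    ∫⁻ p, KK θ Set.univ p.1 p.2 ∂(L t) with hg
  have hsmall := iter_lim (fun t => AA θ (L t)) g CM Ca Cb s₀ C₁ hCM0 hCa0 hCb0 hs₀1 hCas₀
    (fun σ h0 => X.ineq σ h0) hCM hCb
  -- for every index `j` with small starting point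
  have key : ∀ j : ℕ, Real.exp (-(j : ℝ) ^ 3) ≤ s₀ → Real.exp (-(j : ℝ) ^ 3) < τ →
      AA θ (L τ) ≤ ENNReal.ofReal ((2 * Cb * Real.exp (-(j : ℝ) ^ 3) ^ (C₁ + 1) +
      D * T / Real.exp (-(j : ℝ) ^ 3) * Real.exp (-((2 : ℝ) ^ j / 2))) *
      Real.exp (B * T * j ^ 2) * (T / Real.exp (-(j : ℝ) ^ 3)) ^ C₁) := by
    intro j hj1 hj2
    set s : ℝ := Real.exp (-(j : ℝ) ^ 3) with hs
    have hs0 : 0 < s := Real.exp_pos _
    set e : ℝ := Real.exp (-((2 : ℝ) ^ j / 2)) with he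
    have he0 : 0 < e := Real.exp_pos _
    set E : ℝ := 2 * Cb * s ^ (C₁ + 1) + D * T / s * e with hE
    have hE0 : 0 ≤ E := by positivity
    have hgr := gronF_lim (fun t => AA θ (L t)) E (B * j ^ 2) T s C₁ hE0 (by positivity) hs0
      (fun t ht => X.A4 ht) ?_ τ hj2 hτT
    · refine hgr.trans (ENNReal.ofReal_le_ofReal ?_)
      unfold VV
      have e1 : B * (j : ℝ) ^ 2 * (τ - s) ≤ B * T * j ^ 2 := by
        have : τ - s ≤ T := by linarith
        calc B * (j : ℝ) ^ 2 * (τ - s) ≤ B * (j : ℝ) ^ 2 * T := by gcongr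
          _ = _ := by ring
      have e2 : 0 ≤ τ / s := by positivity
      gcongr
    · intro σ hσ1 hσ2
      have hσ0 : 0 < σ := hs0.trans hσ1
      have hunion : Set.Ioo 0 σ = Set.Ioo 0 s ∪ Set.Ico s σ :=
        (Set.Ioo_union_Ico_eq_Ioo hs0 hσ1.le).symm
      have hdisj : Disjoint (Set.Ioo 0 s) (Set.Ico s σ) := by
        rw [Set.disjoint_left]
        intro x hx hx2
        exact absurd hx.2 (not_lt.2 hx2.1)
      have hpt : ∀ u ∈ Set.Ioo s σ, g u ≤ ENNReal.ofReal (B * j ^ 2 + C₁ / u) * AA θ (L u) +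
          ENNReal.ofReal (D / s * e) := by
        intro u hu
        have hu0 : 0 < u := hs0.trans hu.1
        refine (hBb j u hu0 (hu.2.le.trans hσ2)).trans ?_
        gcongr _ + ENNReal.ofReal (?_ * _)
        exact div_le_div_of_nonneg_left hD0 hs0 hu.1.le
      calc AA θ (L σ) ≤ ∫⁻ t in Set.Ioo 0 σ, g t := X.ineq σ hσ0
        _ = (∫⁻ t in Set.Ioo 0 s, g t) + ∫⁻ t in Set.Ico s σ, g t := by
            rw [hunion, lintegral_union measurableSet_Ico hdisj]
        _ = (∫⁻ t in Set.Ioo 0 s, g t) + ∫⁻ t in Set.Ioo s σ, g t := by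
            congr 1
            exact (setLIntegral_congr Ioo_ae_eq_Ico).symm
        _ ≤ ENNReal.ofReal (2 * Cb * s ^ (C₁ + 1)) + ∫⁻ u in Set.Ioo s σ,
              (ENNReal.ofReal (B * j ^ 2 + C₁ / u) * AA θ (L u) + ENNReal.ofReal (D / s * e)) :=
            add_le_add (hsmall s hs0 hj1) (setLIntegral_mono' measurableSet_Ioo hpt)
        _ = ENNReal.ofReal (2 * Cb * s ^ (C₁ + 1)) +
              ((∫⁻ u in Set.Ioo s σ, ENNReal.ofReal (B * j ^ 2 + C₁ / u) * AA θ (L u)) +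
              ENNReal.ofReal (D / s * e) * ENNReal.ofReal (σ - s)) := by
            rw [lintegral_add_right _ measurable_const, setLIntegral_const, Real.volume_Ioo]
        _ ≤ ENNReal.ofReal (2 * Cb * s ^ (C₁ + 1)) +
              ((∫⁻ u in Set.Ioo s σ, ENNReal.ofReal (B * j ^ 2 + C₁ / u) * AA θ (L u)) +
              ENNReal.ofReal (D / s * e) * ENNReal.ofReal T) := by
            gcongr
            linarith
        _ = _ := by
            rw [hE, ENNReal.ofReal_add (by positivity) (by positivity),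
              ← ENNReal.ofReal_mul (by positivity)]
            have e3 : D / s * e * T = D * T / s * e := by ring
            rw [e3]
            ring
  have hlim := limW (B * T) Cb D T C₁ (by positivity) hCb0 hD0 hT0.le
  have hexp0 : Tendsto (fun j : ℕ => Real.exp (-(j : ℝ) ^ 3)) atTop (𝓝 0) := by
    have h1 : Tendsto (fun j : ℕ => (j : ℝ) ^ 3) atTop atTop :=
      (tendsto_pow_atTop (by norm_num)).comp tendsto_natCast_atTop_atTop
    exact Real.tendsto_exp_atBot.comp (tendsto_neg_atTop_atBot.comp h1)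
  have hev1 := hexp0.eventually_lt_const hs₀0
  have hev2 := hexp0.eventually_lt_const hτ
  have hlim' := ENNReal.tendsto_ofReal hlim
  have hle : ∀ᶠ j : ℕ in atTop, AA θ (L τ) ≤
      ENNReal.ofReal ((2 * Cb * Real.exp (-(j : ℝ) ^ 3) ^ (C₁ + 1) +
      D * T / Real.exp (-(j : ℝ) ^ 3) * Real.exp (-((2 : ℝ) ^ j / 2))) *
      Real.exp (B * T * j ^ 2) * (T / Real.exp (-(j : ℝ) ^ 3)) ^ C₁) := by
    filter_upwards [hev1, hev2] with j h1 h2
    exact key j h1.le h2
  have h0 := ge_of_tendsto hlim' hle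
  simpa using h0

theorem main : Spec.UniqCrit := by
  rintro ⟨hCr, hNr, hSm, hSM, hTl⟩ b θ hb hθ hbθ ρ L hρ hL hineq τ hτ
  obtain ⟨H, hmono, hch⟩ := hρ.chan
  obtain ⟨C₀, hC₀, hsm⟩ := hρ.small
  obtain ⟨c, hc, hlow1, hlow2⟩ := hρ.lower
  have hθ0 : 0 < θ := by
    rcases hθ.lt_or_eq with h | h
    · exact h
    · exfalso
      have h' : (b : ℝ) * θ ^ 2 = 1 := hbθ
      rw [← h] at h'
      norm_num at h'
  have X : Ctx b θ ρ L H C₀ c :=
    { hb := hb, hθ := hθ0, hc := hbθ, Hm := hmono, hch := hch, hC₀ := hC₀, hsm := hsm,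
      hc0 := hc, low1 := hlow1, low2 := hlow2, pl := hL, ineq := hineq }
  exact X.final hCr hNr hSm hSM hTl hτ

end Crest.Agent.IsgUniqC
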