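import Crest.Agent.LPCore2
set_option autoImplicit false
set_option linter.unusedSectionVars false
open Set Filter Topology

namespace Crest.LP

section
variable {G : Type*} [NormedAddCommGroup G] [InnerProductSpace ℝ G]
variable {F : Type*} [NormedAddCommGroup F] [InnerProductSpace ℝ F]

theorem dev_nonneg (f : PT G → F) (V : F) (γ : ℕ → G) (p q : ℕ) : 0 ≤ dev f V γ p q :=
  Finset.sum_nonneg fun _ _ => by positivity

theorem KE_nonneg (γ : ℕ → G) (p q : ℕ) : 0 ≤ KE γ p q :=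
  Finset.sum_nonneg fun _ _ => by positivity

theorem dev_add (f : PT G → F) (V : F) (γ : ℕ → G) {p q r : ℕ} (h1 : p ≤ q) (h2 : q ≤ r) :
    dev f V γ p r = dev f V γ p q + dev f V γ q r := by
  unfold dev
  exact (Finset.sum_Ico_consecutive _ h1 h2).symm

theorem KE_add (γ : ℕ → G) {p q r : ℕ} (h1 : p ≤ q) (h2 : q ≤ r) :
    KE γ p r = KE γ p q + KE γ q r := by
  unfold KE
  exact (Finset.sum_Ico_consecutive _ h1 h2).symm

theorem dev_sub (f : PT G → F) (V : F) (γ : ℕ → G) {p p' q' q : ℕ} (h1 : p ≤ p')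
    (h3 : q' ≤ q) : dev f V γ p' q' ≤ dev f V γ p q := by
  unfold dev
  apply Finset.sum_le_sum_of_subset_of_nonneg
  · exact Finset.Ico_subset_Ico h1 h3
  · intros; positivity

theorem KE_sub (γ : ℕ → G) {p p' q' q : ℕ} (h1 : p ≤ p')
    (h3 : q' ≤ q) : KE γ p' q' ≤ KE γ p q := by
  unfold KE
  apply Finset.sum_le_sum_of_subset_of_nonneg
  · exact Finset.Ico_subset_Ico h1 h3
  · intros; positivity

/-- telescoping along a path -/
theorem tele (f : PT G → F) (V : F) (γ : ℕ → G) {p q : ℕ} (h : p ≤ q) :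
    ∑ j ∈ Finset.Ico p q, (f (pt ((j : ℝ) + 1) (γ (j + 1))) - f (pt (j : ℝ) (γ j)) - V) =
      f (pt (q : ℝ) (γ q)) - f (pt (p : ℝ) (γ p)) - ((q : ℝ) - p) • V := by
  induction q, h using Nat.le_induction with
  | base => simp
  | succ n hn ih =>
    rw [Finset.sum_Ico_succ_top hn, ih]
    push_cast
    have : ((n : ℝ) + 1 - p) • V = ((n : ℝ) - p) • V + V := by
      rw [show ((n : ℝ) + 1 - p) = ((n : ℝ) - p) + 1 by ring, add_smul, one_smul]
    rw [this]
    abel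

theorem drift_path (f : PT G → F) (V : F) (γ : ℕ → G) {p q : ℕ} (h : p ≤ q) :
    ‖f (pt (q : ℝ) (γ q)) - f (pt (p : ℝ) (γ p)) - ((q : ℝ) - p) • V‖ ^ 2 ≤
      ((q : ℝ) - p) * dev f V γ p q := by
  rw [← tele f V γ h]
  have h1 : ‖∑ j ∈ Finset.Ico p q,
      (f (pt ((j : ℝ) + 1) (γ (j + 1))) - f (pt (j : ℝ) (γ j)) - V)‖ ≤
      ∑ j ∈ Finset.Ico p q,
        ‖f (pt ((j : ℝ) + 1) (γ (j + 1))) - f (pt (j : ℝ) (γ j)) - V‖ := norm_sum_le _ _
  have h2 := sq_sum_le_card_mul_sum_sq (s := Finset.Ico p q)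
    (f := fun j => ‖f (pt ((j : ℝ) + 1) (γ (j + 1))) - f (pt (j : ℝ) (γ j)) - V‖)
  have h3 : ((Finset.Ico p q).card : ℝ) = (q : ℝ) - p := by
    rw [Nat.card_Ico, Nat.cast_sub h]
  rw [h3] at h2
  calc _ ≤ (∑ j ∈ Finset.Ico p q,
        ‖f (pt ((j : ℝ) + 1) (γ (j + 1))) - f (pt (j : ℝ) (γ j)) - V‖) ^ 2 := by
        gcongr
    _ ≤ _ := h2

/-- drift of a resting particle -/
theorem drift (f : PT G → F) (V : F) (γ : ℕ → G) (x : G) {p q : ℕ} (h : p ≤ q)
    (hp : γ p = x) (hq : γ q = x) :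
    ‖f (pt (q : ℝ) x) - f (pt (p : ℝ) x) - ((q : ℝ) - p) • V‖ ^ 2 ≤
      ((q : ℝ) - p) * dev f V γ p q := by
  have := drift_path f V γ h
  rwa [hp, hq] at this

theorem dev_congr (f : PT G → F) (V : F) (γ γ' : ℕ → G) {p q : ℕ}
    (h : ∀ j, p ≤ j → j ≤ q → γ j = γ' j) : dev f V γ p q = dev f V γ' p q := by
  unfold dev
  apply Finset.sum_congr rfl
  intro j hj
  rw [Finset.mem_Ico] at hj
  rw [h j (by omega) (by omega), h (j + 1) (by omega) (by omega)]

theorem KE_congr (γ γ' : ℕ → G) {p q : ℕ}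
    (h : ∀ j, p ≤ j → j ≤ q → γ j = γ' j) : KE γ p q = KE γ' p q := by
  unfold KE
  apply Finset.sum_congr rfl
  intro j hj
  rw [Finset.mem_Ico] at hj
  rw [h j (by omega) (by omega), h (j + 1) (by omega) (by omega)]

theorem KE_rest (γ : ℕ → G) {p q : ℕ} (x : G)
    (h : ∀ j, p ≤ j → j ≤ q → γ j = x) : KE γ p q = 0 := by
  unfold KE
  apply Finset.sum_eq_zero
  intro j hj
  rw [Finset.mem_Ico] at hj
  rw [h j (by omega) (by omega), h (j + 1) (by omega) (by omega)]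
  simp

/-- kinetic energy of uniform motion from `x` to `y` in `m` steps starting at time `p` -/
theorem KE_move (γ : ℕ → G) (p m : ℕ) (x y : G) (hm : 1 ≤ m)
    (h : ∀ i, i ≤ m → γ (p + i) = x + ((i : ℝ) / m) • (y - x)) :
    KE γ p (p + m) = ‖y - x‖ ^ 2 / m := by
  have hm' : (0 : ℝ) < m := by exact_mod_cast hm
  unfold KE
  rw [Finset.sum_Ico_eq_sum_range]
  have : ∀ i ∈ Finset.range (p + m - p), ‖γ (p + i + 1) - γ (p + i)‖ ^ 2 =
      ‖y - x‖ ^ 2 / m ^ 2 := by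
    intro i hi
    rw [Finset.mem_range] at hi
    have hi' : i < m := by omega
    rw [show p + i + 1 = p + (i + 1) by ring, h (i + 1) (by omega), h i (by omega)]
    have e : x + (((i + 1 : ℕ) : ℝ) / m) • (y - x) - (x + ((i : ℝ) / m) • (y - x)) =
        ((1 : ℝ) / m) • (y - x) := by
      rw [add_sub_add_left_eq_sub, ← sub_smul]
      congr 1
      push_cast
      ring
    rw [e, norm_smul, Real.norm_of_nonneg (by positivity)]
    field_simp
  rw [Finset.sum_congr rfl this, Finset.sum_const, Finset.card_range, nsmul_eq_mul,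
    show p + m - p = m by omega]
  field_simp

theorem KE_shift (γ : ℕ → G) (σ p q : ℕ) :
    KE (fun j => γ (j + σ)) p q = KE γ (p + σ) (q + σ) := by
  unfold KE
  rw [← Finset.sum_Ico_add' (fun j : ℕ => ‖γ (j + 1) - γ j‖ ^ 2) p q σ]
  apply Finset.sum_congr rfl
  intro j _
  show ‖γ (j + 1 + σ) - γ (j + σ)‖ ^ 2 = _
  rw [show j + 1 + σ = j + σ + 1 by ring]

theorem dev_shift (f : PT G → F) (V : F) (γ : ℕ → G) (σ p q : ℕ) :
    dev (fun x => f (x + pt (σ : ℝ) 0)) V (fun j => γ (j + σ)) p q =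
      dev f V γ (p + σ) (q + σ) := by
  unfold dev
  rw [← Finset.sum_Ico_add' (fun j : ℕ => ‖f (pt ((j : ℝ) + 1) (γ (j + 1))) - f (pt (j : ℝ) (γ j))
    - V‖ ^ 2) p q σ]
  apply Finset.sum_congr rfl
  intro j _
  have e1 : (pt ((j : ℝ) + 1) (γ (j + 1 + σ)) + pt (σ : ℝ) 0 : PT G) =
      pt (((j + σ : ℕ) : ℝ) + 1) (γ (j + σ + 1)) := by
    unfold pt
    rw [← WithLp.toLp_add, Prod.mk_add_mk, add_zero, show j + 1 + σ = j + σ + 1 by ring]
    push_cast
    ring_nf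
  have e2 : (pt ((j : ℝ)) (γ (j + σ)) + pt (σ : ℝ) 0 : PT G) =
      pt (((j + σ : ℕ) : ℝ)) (γ (j + σ)) := by
    unfold pt
    rw [← WithLp.toLp_add, Prod.mk_add_mk, add_zero]
    push_cast
    ring_nf
  show ‖f (pt ((j : ℝ) + 1) (γ (j + 1 + σ)) + pt (σ : ℝ) 0) - f (pt ((j : ℝ)) (γ (j + σ)) + pt (σ : ℝ) 0) - V‖ ^ 2 = _
  rw [e1, e2]

end

/-- concatenation of finitely many `T`-movies -/
theorem multi (hcat : CAT) (G : Type) [NormedAddCommGroup G] [InnerProductSpace ℝ G] (K : ℕ)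
    (T : Set G) (L : List (ℕ × Edges G)) (hL : ∀ e ∈ L, Movie K T e.1 e.2) (hne : L ≠ []) :
    ∃ (N : ℕ) (Ed : Edges G), Movie K T N Ed ∧
      ∀ e ∈ L, ∃ n, n + e.1 ≤ N ∧ shiftE n e.2 ⊆ Ed := by
  induction L with
  | nil => exact absurd rfl hne
  | cons a L ih =>
    by_cases hLn : L = []
    · subst hLn
      refine ⟨a.1, a.2, hL a (by simp), ?_⟩
      intro e he
      rw [List.mem_singleton] at he
      subst he
      refine ⟨0, by omega, ?_⟩
      rintro x ⟨j, z, w, h, rfl⟩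
      simpa using h
    · obtain ⟨N, Ed, hM, hsub⟩ := ih (fun e he => hL e (List.mem_cons_of_mem _ he)) hLn
      refine ⟨a.1 + N, a.2 ∪ shiftE a.1 Ed, hcat G K T a.1 N a.2 Ed (hL a (by simp)) hM, ?_⟩
      intro e he
      rcases List.mem_cons.1 he with rfl | he
      · refine ⟨0, by omega, ?_⟩
        rintro x ⟨j, z, w, h, rfl⟩
        left
        simpa using h
      · obtain ⟨n, hn, hs⟩ := hsub e he
        refine ⟨a.1 + n, by omega, ?_⟩
        rintro x ⟨j, z, w, h, rfl⟩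
        right
        exact ⟨j + n, z, w, hs ⟨j, z, w, h, rfl⟩, by rw [show j + (a.1 + n) = j + n + a.1 by ring]⟩

end Crest.LP
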