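import Crest.Agent.LPCore

/-! rid 254 (S0392), module PACK, case of small radii. -/

set_option autoImplicit false
open Set Filter Topology

namespace Crest.LP.PackSmall

variable {G : Type*} [NormedAddCommGroup G] [InnerProductSpace ℝ G]

lemma om_eq (τ : ℝ) : om τ = τ / 250000 := by
  unfold om cc; ring

omit [InnerProductSpace ℝ G] in
lemma dist_pt_sq (t t' : ℝ) (z z' : G) :
    dist (pt t z) (pt t' z') ^ 2 = (t - t') ^ 2 + dist z z' ^ 2 := by
  rw [pt, pt, WithLp.prod_dist_eq_of_L2]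
  rw [Real.sq_sqrt (by positivity)]
  simp [Real.dist_eq, sq_abs]

omit [InnerProductSpace ℝ G] in
lemma time_le (t t' : ℝ) (z z' : G) : |t - t'| ≤ dist (pt t z) (pt t' z') := by
  apply abs_le_of_sq_le_sq _ dist_nonneg
  rw [dist_pt_sq]
  nlinarith [sq_nonneg (dist z z')]

omit [InnerProductSpace ℝ G] in
lemma space_le (t t' : ℝ) (z z' : G) : dist z z' ≤ dist (pt t z) (pt t' z') := by
  apply le_of_sq_le_sq _ dist_nonneg
  rw [dist_pt_sq]
  nlinarith [sq_nonneg (t - t')]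

omit [InnerProductSpace ℝ G] in
lemma le_add (t t' : ℝ) (z z' : G) : dist (pt t z) (pt t' z') ≤ |t - t'| + dist z z' := by
  apply le_of_sq_le_sq _ (by positivity)
  rw [dist_pt_sq]
  nlinarith [sq_abs (t - t'), abs_nonneg (t - t'), dist_nonneg (x := z) (y := z')]

omit [InnerProductSpace ℝ G] in
lemma eq_time (t : ℝ) (z z' : G) : dist (pt t z) (pt t z') = dist z z' := by
  apply le_antisymm
  · have := le_add t t z z'
    simpa using this
  · exact space_le _ _ _ _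

/-- point of the edge -/
noncomputable def Ept (e : ℕ × G × G) (s : ℝ) : PT G :=
  pt ((e.1 : ℝ) + s) (e.2.1 + s • (e.2.2 - e.2.1))

lemma line_eq (e : ℕ × G × G) (s : ℝ) :
    pt (e.1 : ℝ) e.2.1 + s • (pt ((e.1 : ℝ) + 1) e.2.2 - pt (e.1 : ℝ) e.2.1) = Ept e s := by
  have : pt (e.1 : ℝ) e.2.1 + s • (pt ((e.1 : ℝ) + 1) e.2.2 - pt (e.1 : ℝ) e.2.1)
      = pt ((e.1 : ℝ) + s * ((e.1 : ℝ) + 1 - e.1)) (e.2.1 + s • (e.2.2 - e.2.1)) := rfl
  rw [this, Ept]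
  congr 1
  ring

lemma Ept_zero (e : ℕ × G × G) : Ept e 0 = pt (e.1 : ℝ) e.2.1 := by
  simp [Ept]

lemma Ept_one (e : ℕ × G × G) : Ept e 1 = pt ((e.1 : ℝ) + 1) e.2.2 := by
  simp [Ept]

lemma Ept_dist_ge (e : ℕ × G × G) (s s' : ℝ) : |s - s'| ≤ dist (Ept e s) (Ept e s') := by
  have := time_le ((e.1 : ℝ) + s) ((e.1 : ℝ) + s') (e.2.1 + s • (e.2.2 - e.2.1))
    (e.2.1 + s' • (e.2.2 - e.2.1))
  have h : (e.1 : ℝ) + s - ((e.1 : ℝ) + s') = s - s' := by ring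
  rw [h] at this
  exact this

lemma Ept_dist_le (e : ℕ × G × G) (he : ‖e.2.2 - e.2.1‖ ≤ 1 / 100) (s s' : ℝ) :
    dist (Ept e s) (Ept e s') ≤ 101 / 100 * |s - s'| := by
  have := le_add ((e.1 : ℝ) + s) ((e.1 : ℝ) + s') (e.2.1 + s • (e.2.2 - e.2.1))
    (e.2.1 + s' • (e.2.2 - e.2.1))
  have h : (e.1 : ℝ) + s - ((e.1 : ℝ) + s') = s - s' := by ring
  have h3 : dist (s • (e.2.2 - e.2.1)) (s' • (e.2.2 - e.2.1)) = |s - s'| * ‖e.2.2 - e.2.1‖ := by
    rw [dist_eq_norm, ← sub_smul, norm_smul, Real.norm_eq_abs]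
  rw [h, dist_add_left, h3] at this
  have h2 : |s - s'| * ‖e.2.2 - e.2.1‖ ≤ |s - s'| * (1 / 100) :=
    mul_le_mul_of_nonneg_left he (abs_nonneg _)
  unfold Ept
  linarith

/-- `p` lies in the cone of the edge `e` near parameter `s` -/
def Near (τ : ℝ) (p : PT G) (e : ℕ × G × G) (s : ℝ) : Prop :=
  s ∈ Icc (0 : ℝ) 1 ∧ dist p (Ept e s) ≤ τ / 200000 * min s (1 - s)

lemma near_of {K N : ℕ} {τ : ℝ} {Ed : Edges G} (hH : Honest K τ N Ed) {e : ℕ × G × G}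
    (he : e ∈ Ed) {p : PT G}
    (hp : p ∈ Cone (om τ) (pt (e.1 : ℝ) e.2.1) (pt ((e.1 : ℝ) + 1) e.2.2)) :
    ∃ s, Near τ p e s := by
  obtain ⟨s, hs, h⟩ := hp
  refine ⟨s, hs, ?_⟩
  rw [line_eq, om_eq] at h
  have hl : dist (pt (e.1 : ℝ) e.2.1) (pt ((e.1 : ℝ) + 1) e.2.2) ≤ 101 / 100 := by
    have := Ept_dist_le e (hH.tilt e.1 e.2.1 e.2.2 he) 0 1
    rw [Ept_zero, Ept_one] at this
    simpa using this
  have hm : 0 ≤ min s (1 - s) := le_min hs.1 (by linarith [hs.2])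
  have hτ := hH.τpos
  have h1 : τ / 250000 * min s (1 - s) * dist (pt (e.1 : ℝ) e.2.1) (pt ((e.1 : ℝ) + 1) e.2.2)
      ≤ τ / 250000 * min s (1 - s) * (101 / 100) :=
    mul_le_mul_of_nonneg_left hl (by positivity)
  have h2 : 0 ≤ τ * min s (1 - s) := by positivity
  nlinarith

/-- `(J, a)` is an end point of the edge `e` -/
def IsEnd (e : ℕ × G × G) (J : ℕ) (a : G) : Prop :=
  (e.1 = J ∧ e.2.1 = a) ∨ (e.1 + 1 = J ∧ e.2.2 = a)

lemma pair_aux {K N : ℕ} {τ r : ℝ} {Ed : Edges G} (hH : Honest K τ N Ed) (hr : 0 < r)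
    (hr2 : r < τ / 2500) {e₁ e₂ : ℕ × G × G} (h₁ : e₁ ∈ Ed) (h₂ : e₂ ∈ Ed) (hne : e₁ ≠ e₂)
    {p q : PT G} {s t : ℝ} (hp : Near τ p e₁ s) (hq : Near τ q e₂ t) (hpq : dist p q ≤ 8 * r)
    (hle : e₁.1 ≤ e₂.1) :
    ∃ (J : ℕ) (a : G), IsEnd e₁ J a ∧ IsEnd e₂ J a ∧ dist p (pt (J : ℝ) a) ≤ 25 * (r / τ) ∧
      dist q (pt (J : ℝ) a) ≤ 25 * (r / τ) := by
  obtain ⟨⟨hs0, hs1⟩, hps⟩ := hp
  obtain ⟨⟨ht0, ht1⟩, hqt⟩ := hq
  have hτ := hH.τpos
  have hτ' := hH.τle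
  have hrτ : 0 < r / τ := by positivity
  have hrr : r ≤ 1 / 100 * (r / τ) := by
    rw [← mul_div_assoc, le_div_iff₀ hτ]
    nlinarith
  have ht₁ := hH.tilt e₁.1 e₁.2.1 e₁.2.2 h₁
  have ht₂ := hH.tilt e₂.1 e₂.2.1 e₂.2.2 h₂
  set ms := min s (1 - s) with hms
  set mt := min t (1 - t) with hmt
  have hms0 : 0 ≤ ms := le_min hs0 (by linarith)
  have hmt0 : 0 ≤ mt := le_min ht0 (by linarith)
  have hms1 : ms ≤ s := min_le_left _ _
  have hms2 : ms ≤ 1 - s := min_le_right _ _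
  have hmt1 : mt ≤ t := min_le_left _ _
  have hmt2 : mt ≤ 1 - t := min_le_right _ _
  have f1 : τ / 200000 * ms ≤ 1 / 20000000 * ms :=
    mul_le_mul_of_nonneg_right (by linarith) hms0
  have f2 : τ / 200000 * mt ≤ 1 / 20000000 * mt :=
    mul_le_mul_of_nonneg_right (by linarith) hmt0
  have f1' : 0 ≤ τ / 200000 * ms := by positivity
  have f2' : 0 ≤ τ / 200000 * mt := by positivity
  set d := dist (Ept e₁ s) (Ept e₂ t) with hd
  have hd0 : 0 ≤ d := dist_nonneg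
  have hd1 : d ≤ 8 * r + τ / 200000 * ms + τ / 200000 * mt := by
    have h2 : dist (Ept e₁ s) (Ept e₂ t) ≤ dist (Ept e₁ s) p + dist p q + dist q (Ept e₂ t) :=
      dist_triangle4 _ _ _ _
    rw [dist_comm (Ept e₁ s) p] at h2
    linarith
  have htime : |((e₁.1 : ℝ) + s) - ((e₂.1 : ℝ) + t)| ≤ d := time_le _ _ _ _
  rcases Nat.lt_or_ge (e₁.1 + 1) e₂.1 with hlt | hge
  · -- far in time
    exfalso
    have h1 : (e₁.1 : ℝ) + 2 ≤ e₂.1 := by exact_mod_cast hlt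
    have h2 := (abs_le.1 htime).1
    linarith
  rcases Nat.lt_or_ge e₁.1 e₂.1 with hlt | hge2
  · -- consecutive
    have hj : e₂.1 = e₁.1 + 1 := by omega
    have hjr : (e₂.1 : ℝ) = e₁.1 + 1 := by rw [hj]; push_cast; ring
    have h2 := (abs_le.1 htime).1
    rw [hjr] at h2
    have h3 : (1 - s) + t ≤ 81 / 10 * r := by linarith
    have h4 : d ≤ 81 / 10 * r := by linarith
    have h5 := Ept_dist_le e₁ ht₁ s 1
    have h6 := Ept_dist_le e₂ ht₂ t 0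
    rw [Ept_one, abs_of_nonpos (by linarith)] at h5
    rw [Ept_zero, sub_zero, abs_of_nonneg ht0] at h6
    have h7 : dist (pt ((e₁.1 : ℝ) + 1) e₁.2.2) (pt (e₂.1 : ℝ) e₂.2.1) < τ := by
      have h8 := dist_triangle4 (pt ((e₁.1 : ℝ) + 1) e₁.2.2) (Ept e₁ s) (Ept e₂ t)
        (pt (e₂.1 : ℝ) e₂.2.1)
      rw [dist_comm (pt ((e₁.1 : ℝ) + 1) e₁.2.2) (Ept e₁ s)] at h8
      linarith
    have h9 : e₁.2.2 = e₂.2.1 := by
      by_contra hcon
      have h10 := hH.vsep e₂.1 e₁.2.2 e₂.2.1 (Or.inr ⟨e₁.1, e₁.2.1, hj, h₁⟩)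
        (Or.inl ⟨e₂.2.2, h₂⟩) hcon
      have h11 := space_le ((e₁.1 : ℝ) + 1) (e₂.1 : ℝ) e₁.2.2 e₂.2.1
      linarith
    refine ⟨e₂.1, e₂.2.1, Or.inr ⟨hj.symm, h9⟩, Or.inl ⟨rfl, rfl⟩, ?_, ?_⟩
    · have h10 := dist_triangle p (Ept e₁ s) (pt ((e₁.1 : ℝ) + 1) e₁.2.2)
      rw [h9, ← hjr] at h10
      rw [h9, ← hjr] at h5
      linarith
    · have h10 := dist_triangle q (Ept e₂ t) (pt (e₂.1 : ℝ) e₂.2.1)
      linarith
  -- same time
  have hj : e₁.1 = e₂.1 := by omega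
  have hjr : (e₁.1 : ℝ) = e₂.1 := by rw [hj]
  have hst : |s - t| ≤ d := by
    have h : ((e₁.1 : ℝ) + s) - ((e₂.1 : ℝ) + t) = s - t := by rw [hjr]; ring
    rwa [h] at htime
  have hst1 := (abs_le.1 hst).1
  have hst2 := (abs_le.1 hst).2
  have hmm : mt ≤ ms + d := by
    rcases min_choice s (1 - s) with h | h
    · rw [hms, h]; linarith
    · rw [hms, h]; linarith
  have g1 : τ / 200000 * mt ≤ τ / 200000 * ms + 1 / 20000000 * d := by
    have g2 : τ / 200000 * mt ≤ τ / 200000 * (ms + d) :=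
      mul_le_mul_of_nonneg_left hmm (by positivity)
    have g3 : τ / 200000 * d ≤ 1 / 20000000 * d :=
      mul_le_mul_of_nonneg_right (by linarith) hd0
    linarith
  have hd2 : d ≤ 81 / 10 * r + τ / 90000 * ms := by linarith
  have hslide : dist (Ept e₁ s) (Ept e₂ s) ≤ 163 / 10 * r + τ / 40000 * ms := by
    have h1 := Ept_dist_le e₂ ht₂ t s
    rw [abs_sub_comm] at h1
    have h2 := dist_triangle (Ept e₁ s) (Ept e₂ t) (Ept e₂ s)
    linarith
  have heq : dist (Ept e₁ s) (Ept e₂ s) =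
      dist (e₁.2.1 + s • (e₁.2.2 - e₁.2.1)) (e₂.2.1 + s • (e₂.2.2 - e₂.2.1)) := by
    unfold Ept
    rw [hjr]
    exact eq_time _ _ _
  rw [heq] at hslide
  have hm₂ : (e₁.1, e₂.2.1, e₂.2.2) ∈ Ed := by rw [hj]; exact h₂
  by_cases hz : e₁.2.1 = e₂.2.1
  · by_cases hw : e₁.2.2 = e₂.2.2
    · exact absurd (Prod.ext hj (Prod.ext hz hw)) hne
    · have h1 := hH.vsep (e₁.1 + 1) e₁.2.2 e₂.2.2 (Or.inr ⟨e₁.1, e₁.2.1, rfl, h₁⟩)
        (Or.inr ⟨e₁.1, e₂.2.1, rfl, hm₂⟩) hw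
      have h2 : dist (e₁.2.1 + s • (e₁.2.2 - e₁.2.1)) (e₂.2.1 + s • (e₂.2.2 - e₂.2.1)) =
          s * dist e₁.2.2 e₂.2.2 := by
        rw [hz, dist_add_left, dist_smul₀, dist_sub_right, Real.norm_of_nonneg hs0]
      rw [h2] at hslide
      have h3 : s * τ ≤ s * dist e₁.2.2 e₂.2.2 := mul_le_mul_of_nonneg_left h1 hs0
      have k1 : τ * ms ≤ τ * s := mul_le_mul_of_nonneg_left hms1 hτ.le
      have h4 : s * τ ≤ 165 / 10 * r := by linarith
      have h5 : s ≤ 165 / 10 * (r / τ) := by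
        rw [← mul_div_assoc, le_div_iff₀ hτ]; exact h4
      have h6 := Ept_dist_le e₁ ht₁ s 0
      rw [Ept_zero, sub_zero, abs_of_nonneg hs0] at h6
      have h7 := dist_triangle p (Ept e₁ s) (pt (e₁.1 : ℝ) e₁.2.1)
      have h8 : dist p (pt (e₁.1 : ℝ) e₁.2.1) ≤ 17 * (r / τ) := by linarith
      refine ⟨e₁.1, e₁.2.1, Or.inl ⟨rfl, rfl⟩, Or.inl ⟨hj.symm, hz.symm⟩, ?_, ?_⟩
      · linarith
      · have h9 := dist_triangle q p (pt (e₁.1 : ℝ) e₁.2.1)
        rw [dist_comm q p] at h9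
        linarith
  · by_cases hw : e₁.2.2 = e₂.2.2
    · have h1 := hH.vsep e₁.1 e₁.2.1 e₂.2.1 (Or.inl ⟨e₁.2.2, h₁⟩) (Or.inl ⟨e₂.2.2, hm₂⟩) hz
      have h2 : dist (e₁.2.1 + s • (e₁.2.2 - e₁.2.1)) (e₂.2.1 + s • (e₂.2.2 - e₂.2.1)) =
          (1 - s) * dist e₁.2.1 e₂.2.1 := by
        have ha : e₁.2.1 + s • (e₁.2.2 - e₁.2.1) = s • e₂.2.2 + (1 - s) • e₁.2.1 := by
          rw [hw]; module
        have hb : e₂.2.1 + s • (e₂.2.2 - e₂.2.1) = s • e₂.2.2 + (1 - s) • e₂.2.1 := by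
          module
        rw [ha, hb, dist_add_left, dist_smul₀, Real.norm_of_nonneg (by linarith)]
      rw [h2] at hslide
      have h3 : (1 - s) * τ ≤ (1 - s) * dist e₁.2.1 e₂.2.1 :=
        mul_le_mul_of_nonneg_left h1 (by linarith)
      have k1 : τ * ms ≤ τ * (1 - s) := mul_le_mul_of_nonneg_left hms2 hτ.le
      have h4 : (1 - s) * τ ≤ 165 / 10 * r := by linarith
      have h5 : 1 - s ≤ 165 / 10 * (r / τ) := by
        rw [← mul_div_assoc, le_div_iff₀ hτ]; exact h4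
      have h6 := Ept_dist_le e₁ ht₁ s 1
      rw [Ept_one, abs_of_nonpos (by linarith)] at h6
      have h7 := dist_triangle p (Ept e₁ s) (pt ((e₁.1 : ℝ) + 1) e₁.2.2)
      have h8 : dist p (pt ((e₁.1 : ℝ) + 1) e₁.2.2) ≤ 17 * (r / τ) := by linarith
      refine ⟨e₁.1 + 1, e₁.2.2, Or.inr ⟨rfl, rfl⟩, Or.inr ⟨by omega, hw.symm⟩, ?_, ?_⟩
      · push_cast
        linarith
      · push_cast
        have h9 := dist_triangle q p (pt ((e₁.1 : ℝ) + 1) e₁.2.2)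
        rw [dist_comm q p] at h9
        linarith
    · exfalso
      have h1 := hH.esep e₁.1 e₁.2.1 e₁.2.2 e₂.2.1 e₂.2.2 h₁ hm₂ hz hw s ⟨hs0, hs1⟩
      have k1 : τ * ms ≤ τ * 1 := mul_le_mul_of_nonneg_left (hms1.trans hs1) hτ.le
      linarith

lemma pair {K N : ℕ} {τ r : ℝ} {Ed : Edges G} (hH : Honest K τ N Ed) (hr : 0 < r)
    (hr2 : r < τ / 2500) {e₁ e₂ : ℕ × G × G} (h₁ : e₁ ∈ Ed) (h₂ : e₂ ∈ Ed) (hne : e₁ ≠ e₂)
    {p q : PT G} {s t : ℝ} (hp : Near τ p e₁ s) (hq : Near τ q e₂ t) (hpq : dist p q ≤ 8 * r) :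
    ∃ (J : ℕ) (a : G), IsEnd e₁ J a ∧ IsEnd e₂ J a ∧ dist p (pt (J : ℝ) a) ≤ 25 * (r / τ) ∧
      dist q (pt (J : ℝ) a) ≤ 25 * (r / τ) := by
  rcases le_total e₁.1 e₂.1 with h | h
  · exact pair_aux hH hr hr2 h₁ h₂ hne hp hq hpq h
  · obtain ⟨J, a, a1, a2, a3, a4⟩ := pair_aux hH hr hr2 h₂ h₁ hne.symm hq hp
      (by rwa [dist_comm]) h
    exact ⟨J, a, a2, a1, a4, a3⟩

/-- separated points on a line -/
lemma card_line {α : Type*} (A : Finset α) (s : α → ℝ) (δ : ℝ) (hδ : 0 < δ) (n : ℕ)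
    (hsep : ∀ x ∈ A, ∀ y ∈ A, x ≠ y → δ ≤ |s x - s y|)
    (hd : ∀ x ∈ A, ∀ y ∈ A, |s x - s y| < n * δ) : A.card ≤ n := by
  classical
  rcases A.eq_empty_or_nonempty with rfl | hne
  · simp
  obtain ⟨x0, hx0, hmin⟩ := A.exists_min_image s hne
  have hnn : ∀ x ∈ A, 0 ≤ (s x - s x0) / δ := fun x hx =>
    div_nonneg (sub_nonneg.2 (hmin x hx)) hδ.le
  have : A.card ≤ (Finset.range n).card := by
    apply Finset.card_le_card_of_injOn (fun x => ⌊(s x - s x0) / δ⌋₊)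
    · intro x hx
      have hx' : x ∈ A := hx
      simp only [Finset.coe_range, Set.mem_Iio]
      rw [Nat.floor_lt (hnn x hx'), div_lt_iff₀ hδ]
      exact lt_of_le_of_lt (le_abs_self _) (hd x hx' x0 hx0)
    · intro x hx y hy hxy
      by_contra hcon
      have h1 := hsep x hx y hy hcon
      simp only at hxy
      have a1 := Nat.floor_le (hnn x hx)
      have a2 := Nat.lt_floor_add_one ((s x - s x0) / δ)
      have a3 := Nat.floor_le (hnn y hy)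
      have a4 := Nat.lt_floor_add_one ((s y - s x0) / δ)
      rw [hxy] at a1 a2
      have h2 : |(s x - s x0) / δ - (s y - s x0) / δ| < 1 := by
        rw [abs_lt]; constructor <;> linarith
      have h3 : (s x - s x0) / δ - (s y - s x0) / δ = (s x - s y) / δ := by ring
      rw [h3, abs_div, abs_of_pos hδ, div_lt_one hδ] at h2
      linarith
  simpa using this

/-- PACK for `r < 100 * om τ` -/
theorem pack_small {K N : ℕ} {τ : ℝ} {Ed : Edges G} {X : ℕ × G × G → Set (PT G)}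
    (hH : Honest K τ N Ed)
    (hX : ∀ e ∈ Ed, X e ⊆ Cone (om τ) (pt (e.1 : ℝ) e.2.1) (pt ((e.1 : ℝ) + 1) e.2.2))
    (hpk : ∀ e ∈ Ed, Pk 8 (Psi K) (X e)) (A : Finset (PT G)) (r : ℝ)
    (hA : (A : Set (PT G)) ⊆ ⋃ e ∈ Ed, X e) (hr : 0 < r) (hr1 : r < 100 * om τ)
    (hsep : ∀ x ∈ A, ∀ y ∈ A, x ≠ y → r ≤ dist x y)
    (hdiam : ∀ x ∈ A, ∀ y ∈ A, dist x y ≤ 8 * r) : A.card ≤ Psi K := by
  classical
  have hτ := hH.τpos
  have hτ' := hH.τle
  have hr2 : r < τ / 2500 := by rw [om_eq] at hr1; linarith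
  have hex : ∀ p : PT G, ∃ (e : ℕ × G × G) (s : ℝ), p ∈ A → e ∈ Ed ∧ p ∈ X e ∧ Near τ p e s := by
    intro p
    by_cases hp : p ∈ A
    · obtain ⟨e, he, hpe⟩ := mem_iUnion₂.1 (hA hp)
      obtain ⟨s, hs⟩ := near_of hH he (hX e he hpe)
      exact ⟨e, s, fun _ => ⟨he, hpe, hs⟩⟩
    · exact ⟨(0, 0, 0), 0, fun h => absurd h hp⟩
  choose e s hes using hex
  by_cases hone : ∃ e0 ∈ Ed, ∀ p ∈ A, e p = e0
  · obtain ⟨e0, he0, h⟩ := hone
    apply hpk e0 he0 A r _ hr hsep hdiam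
    intro p hp
    have := (hes p hp).2.1
    rwa [h p hp] at this
  rcases A.eq_empty_or_nonempty with rfl | ⟨p0, hp0⟩
  · simp
  have hex2 : ∃ q0 ∈ A, e q0 ≠ e p0 := by
    by_contra hcon
    push Not at hcon
    exact hone ⟨e p0, (hes p0 hp0).1, hcon⟩
  obtain ⟨q0, hq0, hne⟩ := hex2
  have hrτ : 0 < r / τ := by positivity
  have hrτ2 : r / τ < 1 / 2500 := by
    rw [div_lt_iff₀ hτ]; linarith
  obtain ⟨J, a, hp0e, hq0e, hp0d, hq0d⟩ := pair hH hr hr2 (hes p0 hp0).1 (hes q0 hq0).1 hne.symm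
    (hes p0 hp0).2.2 (hes q0 hq0).2.2 (hdiam _ hp0 _ hq0)
  have hkey : ∀ (p1 : PT G) (hp1 : p1 ∈ A), IsEnd (e p1) J a →
      dist p1 (pt (J : ℝ) a) ≤ 25 * (r / τ) → ∀ p ∈ A, e p ≠ e p1 →
      IsEnd (e p) J a ∧ dist p (pt (J : ℝ) a) ≤ 25 * (r / τ) := by
    intro p1 hp1 h1 h2 p hp hpne
    obtain ⟨J', a', b1, b2, b3, b4⟩ := pair hH hr hr2 (hes p hp).1 (hes p1 hp1).1 hpne
      (hes p hp).2.2 (hes p1 hp1).2.2 (hdiam _ hp _ hp1)
    have h3 : dist (pt (J : ℝ) a) (pt (J' : ℝ) a') < 1 := by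
      have := dist_triangle_left (pt (J : ℝ) a) (pt (J' : ℝ) a') p1
      linarith
    have h4 := time_le (J : ℝ) (J' : ℝ) a a'
    have h5 : |(J : ℝ) - J'| < 1 := lt_of_le_of_lt h4 h3
    have h6 : J = J' := by
      rw [abs_lt] at h5
      have c1 : (J : ℝ) < J' + 1 := by linarith
      have c2 : (J' : ℝ) < J + 1 := by linarith
      have c3 : J < J' + 1 := by exact_mod_cast c1
      have c4 : J' < J + 1 := by exact_mod_cast c2
      omega
    subst h6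
    have h7 : a = a' := by
      rcases h1 with ⟨c1, c2⟩ | ⟨c1, c2⟩ <;> rcases b2 with ⟨d1, d2⟩ | ⟨d1, d2⟩
      · rw [← c2, ← d2]
      · omega
      · omega
      · rw [← c2, ← d2]
    subst h7
    exact ⟨b1, b3⟩
  have hall : ∀ p ∈ A, IsEnd (e p) J a ∧ dist p (pt (J : ℝ) a) ≤ 25 * (r / τ) := by
    intro p hp
    by_cases h : e p = e p0
    · apply hkey q0 hq0 hq0e hq0d p hp
      rw [h]; exact hne.symm
    · exact hkey p0 hp0 hp0e hp0d p hp h
  -- number of edges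
  have hedge : (A.image e).card ≤ 4 := by
    have hsub : A.image e ⊆ (A.image e).filter (fun f => f.1 = J ∧ f.2.1 = a) ∪
        (A.image e).filter (fun f => f.1 + 1 = J ∧ f.2.2 = a) := by
      intro f hf
      obtain ⟨p, hp, rfl⟩ := Finset.mem_image.1 hf
      rcases (hall p hp).1 with h | h
      · exact Finset.mem_union_left _ (Finset.mem_filter.2 ⟨hf, h⟩)
      · exact Finset.mem_union_right _ (Finset.mem_filter.2 ⟨hf, h⟩)
    have hin : ∀ f ∈ A.image e, f ∈ Ed := by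
      intro f hf
      obtain ⟨p, hp, rfl⟩ := Finset.mem_image.1 hf
      exact (hes p hp).1
    have h1 : ((A.image e).filter (fun f => f.1 = J ∧ f.2.1 = a)).card ≤ 2 := by
      by_contra hcon
      push Not at hcon
      obtain ⟨f₁, hf₁, f₂, hf₂, f₃, hf₃, n12, n13, n23⟩ := Finset.two_lt_card.1 hcon
      rw [Finset.mem_filter] at hf₁ hf₂ hf₃
      obtain ⟨g1, c1, d1⟩ := hf₁
      obtain ⟨g2, c2, d2⟩ := hf₂
      obtain ⟨g3, c3, d3⟩ := hf₃
      have k1 : (J, a, f₁.2.2) ∈ Ed := by rw [← c1, ← d1]; exact hin _ g1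
      have k2 : (J, a, f₂.2.2) ∈ Ed := by rw [← c2, ← d2]; exact hin _ g2
      have k3 : (J, a, f₃.2.2) ∈ Ed := by rw [← c3, ← d3]; exact hin _ g3
      rcases hH.outdeg J a _ _ _ k1 k2 k3 with h | h | h
      · exact n12 (Prod.ext (c1.trans c2.symm) (Prod.ext (d1.trans d2.symm) h))
      · exact n13 (Prod.ext (c1.trans c3.symm) (Prod.ext (d1.trans d3.symm) h))
      · exact n23 (Prod.ext (c2.trans c3.symm) (Prod.ext (d2.trans d3.symm) h))
    have h2 : ((A.image e).filter (fun f => f.1 + 1 = J ∧ f.2.2 = a)).card ≤ 2 := by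
      by_contra hcon
      push Not at hcon
      obtain ⟨f₁, hf₁, f₂, hf₂, f₃, hf₃, n12, n13, n23⟩ := Finset.two_lt_card.1 hcon
      rw [Finset.mem_filter] at hf₁ hf₂ hf₃
      obtain ⟨g1, c1, d1⟩ := hf₁
      obtain ⟨g2, c2, d2⟩ := hf₂
      obtain ⟨g3, c3, d3⟩ := hf₃
      have e12 : f₁.1 = f₂.1 := by omega
      have e13 : f₁.1 = f₃.1 := by omega
      have k1 : (f₁.1, f₁.2.1, a) ∈ Ed := by rw [← d1]; exact hin _ g1
      have k2 : (f₁.1, f₂.2.1, a) ∈ Ed := by rw [e12, ← d2]; exact hin _ g2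
      have k3 : (f₁.1, f₃.2.1, a) ∈ Ed := by rw [e13, ← d3]; exact hin _ g3
      rcases hH.indeg f₁.1 _ _ _ a k1 k2 k3 with h | h | h
      · exact n12 (Prod.ext e12 (Prod.ext h (d1.trans d2.symm)))
      · exact n13 (Prod.ext e13 (Prod.ext h (d1.trans d3.symm)))
      · exact n23 (Prod.ext (e12.symm.trans e13) (Prod.ext h (d2.trans d3.symm)))
    calc (A.image e).card ≤ _ := Finset.card_le_card hsub
      _ ≤ _ := Finset.card_union_le _ _
      _ ≤ 4 := by omega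
  -- fibres
  have hfib : ∀ f ∈ A.image e, (A.filter (fun p => e p = f)).card ≤ 10 := by
    intro f hf
    have hfEd : f ∈ Ed := by
      obtain ⟨p, hp, rfl⟩ := Finset.mem_image.1 hf
      exact (hes p hp).1
    have htf := hH.tilt f.1 f.2.1 f.2.2 hfEd
    have hnear : ∀ p ∈ A.filter (fun p => e p = f), dist p (Ept f (s p)) ≤ r / 1000 := by
      intro p hp
      obtain ⟨hpA, hpf⟩ := Finset.mem_filter.1 hp
      obtain ⟨hend, hdist⟩ := hall p hpA
      obtain ⟨_, _, hs, hn⟩ := hes p hpA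
      rw [hpf] at hend hn
      have hm0 : 0 ≤ min (s p) (1 - s p) := le_min hs.1 (by linarith [hs.2])
      have hm1 : min (s p) (1 - s p) ≤ 26 * (r / τ) := by
        rcases hend with ⟨c1, c2⟩ | ⟨c1, c2⟩
        · have h1 := Ept_dist_ge f (s p) 0
          rw [Ept_zero, c1, c2, sub_zero, abs_of_nonneg hs.1] at h1
          have h2 := dist_triangle_left (Ept f (s p)) (pt (J : ℝ) a) p
          have h3 : min (s p) (1 - s p) ≤ s p := min_le_left _ _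
          nlinarith
        · have h1 := Ept_dist_ge f (s p) 1
          have hJ : (f.1 : ℝ) + 1 = J := by rw [← c1]; push_cast; ring
          rw [Ept_one, hJ, c2, abs_of_nonpos (by linarith [hs.2])] at h1
          have h2 := dist_triangle_left (Ept f (s p)) (pt (J : ℝ) a) p
          have h3 : min (s p) (1 - s p) ≤ 1 - s p := min_le_right _ _
          nlinarith
      have h4 : τ / 200000 * min (s p) (1 - s p) ≤ τ / 200000 * (26 * (r / τ)) :=
        mul_le_mul_of_nonneg_left hm1 (by positivity)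
      have h5 : τ / 200000 * (26 * (r / τ)) = 26 / 200000 * r := by field_simp
      linarith
    apply card_line _ s (98 / 100 * r) (by positivity) 10
    · intro x hx y hy hxy
      have h1 := hnear x hx
      have h2 := hnear y hy
      have h3 := hsep x (Finset.mem_filter.1 hx).1 y (Finset.mem_filter.1 hy).1 hxy
      have h4 := Ept_dist_le f htf (s x) (s y)
      have h5 := dist_triangle4 x (Ept f (s x)) (Ept f (s y)) y
      rw [dist_comm (Ept f (s y)) y] at h5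
      linarith
    · intro x hx y hy
      have h1 := hnear x hx
      have h2 := hnear y hy
      have h3 := hdiam x (Finset.mem_filter.1 hx).1 y (Finset.mem_filter.1 hy).1
      have h4 := Ept_dist_ge f (s x) (s y)
      have h5 := dist_triangle4 (Ept f (s x)) x y (Ept f (s y))
      rw [dist_comm (Ept f (s x)) x] at h5
      push_cast
      linarith
  have := Finset.card_le_mul_card_image (f := e) A 10 hfib
  have h2 : Psi K = 4000 * (K + 1) := rfl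
  omega

end Crest.LP.PackSmall
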