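import Crest.Agent.LPCore2

set_option autoImplicit false
open Set Filter Topology

namespace Crest.LP

/-- realisability of a configuration up to precision `th` -/
def Real0 {G F : Type} [NormedAddCommGroup G] [InnerProductSpace ℝ G]
    [NormedAddCommGroup F] [InnerProductSpace ℝ F] (D : ℝ) (A : Set (PT G) → (PT G → F) → Prop)
    (th : ℝ) (k : ℕ) (s : Fin k → G × F) : Prop :=
  ∃ (τ : ℝ) (N : ℕ) (M : Set (PT G)) (a b : PT G) (lam : ℝ) (U : PT G ≃ₗᵢ[ℝ] PT G)
    (Ed : Edges G) (φ : PT G → F) (η : ℝ) (t : ℕ),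
    Laid D A τ N M a b lam U Ed φ η ∧ τ ≤ th ∧ η ≤ th ∧ 1 / th ≤ cc * τ * N ∧ N < 3 * t ∧
    (3 * (t : ℝ) + 3 / th ≤ 2 * N) ∧
    (∀ j z w, (j, z, w) ∈ Ed → t ≤ j → z = 0 ∧ w = 0) ∧
    (∀ i, ∃ γ : ℕ → G, IsPath Ed t γ ∧ γ t = (s i).1 ∧ KE γ 0 t ≤ th) ∧
    ∃ w : F, ∀ i, ‖(1 / lam) • φ (a + lam • U (pt (t : ℝ) (s i).1)) - w - (s i).2‖ ≤ th

section aux
variable {G F : Type} [NormedAddCommGroup G] [InnerProductSpace ℝ G]
    [NormedAddCommGroup F] [InnerProductSpace ℝ F]

lemma rb_dev_nonneg (f : PT G → F) (V : F) (γ : ℕ → G) (p q : ℕ) : 0 ≤ dev f V γ p q :=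
  Finset.sum_nonneg (fun _ _ => by positivity)

lemma rb_dev_mono (f : PT G → F) (V : F) (γ : ℕ → G) {p q : ℕ} (h : p ≤ q) :
    dev f V γ p q ≤ dev f V γ 0 q := by
  unfold dev
  apply Finset.sum_le_sum_of_subset_of_nonneg
  · intro j hj
    simp only [Finset.mem_Ico] at hj ⊢
    omega
  · intro _ _ _; positivity

/-- drift of a resting particle -/
lemma rb_drift (f : PT G → F) (V : F) (γ : ℕ → G) (x : G) (p q : ℕ) (h : p ≤ q)
    (hγ : ∀ j, p ≤ j → j ≤ q → γ j = x) :
    ‖f (pt (q : ℝ) x) - f (pt (p : ℝ) x) - ((q : ℝ) - p) • V‖ ^ 2 ≤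
      ((q : ℝ) - p) * dev f V γ p q := by
  have htel : f (pt (q : ℝ) x) - f (pt (p : ℝ) x) - ((q : ℝ) - p) • V =
      ∑ j ∈ Finset.Ico p q, (f (pt ((j : ℝ) + 1) (γ (j + 1))) - f (pt (j : ℝ) (γ j)) - V) := by
    induction q, h using Nat.le_induction with
    | base => simp
    | succ q hq ih =>
      rw [Finset.sum_Ico_succ_top hq, ← ih (fun j h1 h2 => hγ j h1 (by omega)),
        hγ (q + 1) (by omega) le_rfl, hγ q hq (by omega)]
      push_cast
      have : ((q : ℝ) + 1 - p) • V = ((q : ℝ) - p) • V + V := by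
        rw [show ((q : ℝ) + 1 - p) = ((q : ℝ) - p) + 1 by ring, add_smul, one_smul]
      rw [this]
      abel
  rw [htel]
  have h1 : ‖∑ j ∈ Finset.Ico p q, (f (pt ((j : ℝ) + 1) (γ (j + 1))) - f (pt (j : ℝ) (γ j)) - V)‖
      ≤ ∑ j ∈ Finset.Ico p q, ‖f (pt ((j : ℝ) + 1) (γ (j + 1))) - f (pt (j : ℝ) (γ j)) - V‖ :=
    norm_sum_le _ _
  have h2 : (∑ j ∈ Finset.Ico p q,
      ‖f (pt ((j : ℝ) + 1) (γ (j + 1))) - f (pt (j : ℝ) (γ j)) - V‖) ^ 2 ≤
      ((Finset.Ico p q).card : ℝ) * ∑ j ∈ Finset.Ico p q,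
      ‖f (pt ((j : ℝ) + 1) (γ (j + 1))) - f (pt (j : ℝ) (γ j)) - V‖ ^ 2 :=
    sq_sum_le_card_mul_sum_sq
  have h3 : ((Finset.Ico p q).card : ℝ) = (q : ℝ) - p := by
    rw [Nat.card_Ico, Nat.cast_sub h]
  rw [h3] at h2
  have h4 := pow_le_pow_left₀ (norm_nonneg _) h1 2
  unfold dev
  linarith

lemma rb_KE_add (γ : ℕ → G) (p q : ℕ) (h : p ≤ q) : KE γ 0 q = KE γ 0 p + KE γ p q := by
  unfold KE
  rw [Finset.sum_Ico_consecutive _ (Nat.zero_le p) h]

lemma rb_KE_congr (γ γ' : ℕ → G) (p q : ℕ) (h : ∀ j, p ≤ j → j ≤ q → γ j = γ' j) :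
    KE γ p q = KE γ' p q := by
  unfold KE
  apply Finset.sum_congr rfl
  intro j hj
  simp only [Finset.mem_Ico] at hj
  rw [h j (by omega) (by omega), h (j + 1) (by omega) (by omega)]

lemma rb_pk_insert {X : Type*} [PseudoMetricSpace X] {ρ : ℝ} {K : ℕ} {T : Set X} (x : X)
    (h : Pk ρ K T) : Pk ρ (K + 1) (insert x T) := by
  classical
  intro A r hA hr hsep hd
  have h1 := h (A.erase x) r (by
    intro y hy
    simp only [Finset.coe_erase, Set.mem_sdiff, Finset.mem_coe, Set.mem_singleton_iff] at hy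
    rcases hA hy.1 with h | h
    · exact absurd h hy.2
    · exact h) hr
    (fun y hy z hz => hsep y (Finset.mem_of_mem_erase hy) z (Finset.mem_of_mem_erase hz))
    (fun y hy z hz => hd y (Finset.mem_of_mem_erase hy) z (Finset.mem_of_mem_erase hz))
  have h2 := Finset.pred_card_le_card_erase (s := A) (a := x)
  omega

lemma rb_pk_mono {X : Type*} [PseudoMetricSpace X] {ρ : ℝ} {K : ℕ} {S T : Set X} (hST : S ⊆ T)
    (h : Pk ρ K T) : Pk ρ K S := fun A r hA => h A r (hA.trans hST)

lemma rb_min_dist {X : Type*} [MetricSpace X] (T : Set X) (hT : T.Finite) :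
    ∃ δ : ℝ, 0 < δ ∧ ∀ y ∈ T, ∀ z ∈ T, y ≠ z → δ ≤ dist y z := by
  classical
  have hfin : ((T ×ˢ T) ∩ {p : X × X | p.1 ≠ p.2}).Finite := (hT.prod hT).subset inter_subset_left
  by_cases hne : ((T ×ˢ T) ∩ {p : X × X | p.1 ≠ p.2}).Nonempty
  · obtain ⟨p, hp, hmin⟩ := Set.exists_min_image _ (fun p : X × X => dist p.1 p.2) hfin hne
    refine ⟨dist p.1 p.2, dist_pos.2 hp.2, ?_⟩
    intro y hy z hz hyz
    exact hmin (y, z) ⟨⟨hy, hz⟩, hyz⟩
  · refine ⟨1, one_pos, ?_⟩
    intro y hy z hz hyz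
    exact absurd ⟨(y, z), ⟨hy, hz⟩, hyz⟩ hne

end aux

/-- the main case of the extension property: `x` is a new point, different from `0`. -/
theorem real_birth (hLS : LAYSCR) (hAP : APPEND) (hBL : BLOCKS) (hNA : NAPRE)
    (G F : Type) [NormedAddCommGroup G] [InnerProductSpace ℝ G]
    [NormedAddCommGroup F] [InnerProductSpace ℝ F] (D : ℝ)
    (A : Set (PT G) → (PT G → F) → Prop) (hD : 1 ≤ D) (hA : Online ((Psi 5) ^ 2) D A)
    (k : ℕ) (s : Fin k → G × F) (x : G)
    (hpk : Pk 10 3 (insert x (range fun i => (s i).1)))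
    (hx : x ∉ range fun i => (s i).1) (hx0 : x ≠ 0) (th' : ℝ) (hth' : 0 < th') :
    ∃ th : ℝ, 0 < th ∧ th ≤ th' ∧
      (Real0 D A th k s → ∃ y : F, Real0 D A th' (k + 1) (Fin.cons (x, y) s)) := by
  classical
  set T : Set G := insert 0 (range fun i => (s i).1) with hT
  have hTfin : T.Finite := (finite_range _).insert 0
  have h0T : (0 : G) ∈ T := mem_insert _ _
  have hxT : x ∉ T := by
    rintro (h | h)
    · exact hx0 h
    · exact hx h
  have hTpk : Pk 10 4 T := rb_pk_insert 0 (rb_pk_mono (subset_insert _ _) hpk)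
  obtain ⟨x₀, hx₀T, hx₀min⟩ := Set.exists_min_image T (fun y => dist x y) hTfin ⟨0, h0T⟩
  set d := dist x x₀ with hd
  have hdpos : 0 < d := dist_pos.2 (fun h => hxT (h ▸ hx₀T))
  obtain ⟨δ, hδpos, hδ⟩ := rb_min_dist T hTfin
  -- bound of the positions
  obtain ⟨R, hRpos, hR, hRx⟩ : ∃ R : ℝ, 1 ≤ R ∧ (∀ y ∈ T, ‖y‖ ≤ R) ∧ ‖x‖ ≤ R := by
    obtain ⟨R, hR⟩ := (hTfin.insert x).isBounded.exists_norm_le
    refine ⟨max R 1, le_max_right _ _, fun y hy => ?_, ?_⟩
    · exact (hR y (mem_insert_of_mem _ hy)).trans (le_max_left _ _)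
    · exact (hR x (mem_insert _ _)).trans (le_max_left _ _)
  -- choice of `m`
  obtain ⟨m, hm⟩ := exists_nat_ge (max (max 1 (100 * d)) (d ^ 2 / (th' / 2)))
  have hm1 : (1 : ℝ) ≤ m := ((le_max_left _ _).trans (le_max_left _ _)).trans hm
  have hm100 : 100 * d ≤ m := ((le_max_right _ _).trans (le_max_left _ _)).trans hm
  have hmd : d ^ 2 / m ≤ th' / 2 := by
    have h := (le_max_right _ _).trans hm
    rw [div_le_iff₀ (by positivity)] at h
    rw [div_le_iff₀ (by linarith)]
    linarith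
  have hmpos : (0 : ℝ) < m := by linarith
  have hm1' : 1 ≤ m := by exact_mod_cast hm1
  -- choice of `ρ`
  obtain ⟨ρ, hρ⟩ := exists_nat_ge (max (max 1 (100 * R)) (m * D ^ 2 * R ^ 2 / (th' / 8) ^ 2))
  have hρ1 : (1 : ℝ) ≤ ρ := ((le_max_left _ _).trans (le_max_left _ _)).trans hρ
  have hρ100 : 100 * R ≤ ρ := ((le_max_right _ _).trans (le_max_left _ _)).trans hρ
  have hρpos : (0 : ℝ) < ρ := by linarith
  have hρd : m * (D ^ 2 * (R ^ 2 / ρ)) ≤ (th' / 8) ^ 2 := by
    have h := (le_max_right _ _).trans hρ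
    rw [div_le_iff₀ (by positivity)] at h
    have : m * (D ^ 2 * (R ^ 2 / ρ)) = (m * D ^ 2 * R ^ 2) / ρ := by ring
    rw [this, div_le_iff₀ hρpos]
    linarith
  have hρ1' : 1 ≤ ρ := by exact_mod_cast hρ1
  -- choice of `th`
  obtain ⟨th, hthpos, t1, t2, t3, t4, t5, t6⟩ : ∃ th : ℝ, 0 < th ∧ th ≤ th' / 4 ∧
      m * (th + D ^ 2 * th) ≤ (th' / 8) ^ 2 ∧ th ≤ d / m ∧ th ≤ δ / ρ ∧ th ≤ δ ∧
      th * (R + m + ρ + 1 / th' + 1) ≤ 1 := by
    have hP : (0 : ℝ) < R + m + ρ + 1 / th' + 1 := by positivity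
    have hQ : (0 : ℝ) < m * (1 + D ^ 2) := by positivity
    refine ⟨min (min (min (th' / 4) ((th' / 8) ^ 2 / (m * (1 + D ^ 2)))) (min (d / m) (δ / ρ)))
      (min δ (1 / (R + m + ρ + 1 / th' + 1))), ?_, ?_, ?_, ?_, ?_, ?_, ?_⟩
    · positivity
    · exact (min_le_left _ _).trans ((min_le_left _ _).trans (min_le_left _ _))
    · set q := min (min (min (th' / 4) ((th' / 8) ^ 2 / (m * (1 + D ^ 2)))) (min (d / m) (δ / ρ)))
        (min δ (1 / (R + m + ρ + 1 / th' + 1)))
      have hq : q ≤ (th' / 8) ^ 2 / (m * (1 + D ^ 2)) :=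
        (min_le_left _ _).trans ((min_le_left _ _).trans (min_le_right _ _))
      rw [le_div_iff₀ hQ] at hq
      linarith
    · exact (min_le_left _ _).trans ((min_le_right _ _).trans (min_le_left _ _))
    · exact (min_le_left _ _).trans ((min_le_right _ _).trans (min_le_right _ _))
    · exact (min_le_right _ _).trans (min_le_left _ _)
    · have hq : min (min (min (th' / 4) ((th' / 8) ^ 2 / (m * (1 + D ^ 2)))) (min (d / m) (δ / ρ)))
        (min δ (1 / (R + m + ρ + 1 / th' + 1))) ≤ 1 / (R + m + ρ + 1 / th' + 1) :=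
        (min_le_right _ _).trans (min_le_right _ _)
      rwa [le_div_iff₀ hP] at hq
  have hth1 : R + m + ρ + 1 / th' + 1 ≤ 1 / th := by
    rw [le_div_iff₀ hthpos]; linarith
  have hth'inv : 0 < 1 / th' := by positivity
  refine ⟨th, hthpos, by linarith, ?_⟩
  rintro ⟨τ, N, M, a, b, lam, U, Ed, φ, η, t, hL, hτth, hηth, hthN, hNt, htN, hmain, hpath, w, hw⟩
  have hon := hL.hon
  have hτ := hon.τpos
  have ht1 : 1 ≤ t := by omega
  -- numeric facts
  have hbig : (3 * (t : ℝ)) + 3 * (R + m + ρ + 1 / th' + 1) ≤ 2 * N := by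
    have : 3 / th = 3 * (1 / th) := by ring
    rw [this] at htN
    linarith
  have htN' : 3 * (t + m) < 2 * N := by
    have : (3 * ((t : ℝ) + m)) < 2 * N := by linarith
    exact_mod_cast this
  have htN'' : 3 * ((t + m) + ρ) < 2 * N := by
    have : (3 * (((t : ℝ) + m) + ρ)) < 2 * N := by linarith
    exact_mod_cast this
  have htltN : t < N := by omega
  -- vertices at time t
  have hvert : ∀ y ∈ T, (t, y) ∈ Verts Ed := by
    rintro y (hy | ⟨i, hy⟩)
    · left
      exact ⟨0, by rw [hy]; exact hon.main t htltN⟩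
    · right
      obtain ⟨γ, hγ, hγt, _⟩ := hpath i
      refine ⟨t - 1, γ (t - 1), by simp; omega, ?_⟩
      have := hγ (t - 1) (by omega)
      rw [Nat.sub_add_cancel ht1, hγt] at this
      simpa using hy ▸ this
  -- thinness
  have hthin : ∀ y : G, ‖y‖ ≤ R → ‖y‖ ≤ cc * τ * N := by
    intro y hy
    linarith
  have hseg : ∀ c : ℝ, 0 ≤ c → c ≤ 1 → ‖x₀ + c • (x - x₀)‖ ≤ R := by
    intro c h0 h1
    have : x₀ + c • (x - x₀) = (1 - c) • x₀ + c • x := by
      rw [smul_sub, sub_smul, one_smul]; abel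
    rw [this]
    calc ‖(1 - c) • x₀ + c • x‖ ≤ ‖(1 - c) • x₀‖ + ‖c • x‖ := norm_add_le _ _
      _ = (1 - c) * ‖x₀‖ + c * ‖x‖ := by
        rw [norm_smul, norm_smul, Real.norm_eq_abs, Real.norm_eq_abs, abs_of_nonneg h0,
          abs_of_nonneg (by linarith)]
      _ ≤ (1 - c) * R + c * R := by
        have e1 := mul_le_mul_of_nonneg_left (hR x₀ hx₀T) (by linarith : 0 ≤ 1 - c)
        have e2 := mul_le_mul_of_nonneg_left hRx h0
        linarith
      _ = R := by ring
  -- the block
  have hblock : Block 5 τ m (birthE T x₀ x m) := by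
    refine (hBL G τ m hτ hm1').1 T x₀ x hTfin h0T hTpk hxT hx₀T hx₀min ?_ ?_ ?_
    · intro y hy z hz hyz
      exact (hτth.trans t5).trans (hδ y hy z hz hyz)
    · rw [le_div_iff₀ (by norm_num)]
      linarith
    · exact hτth.trans t3
  set Ed' : Edges G := Ed ∪ shiftE t (birthE T x₀ x m) with hEd'
  have hon' : Honest 5 τ N Ed' := by
    refine hAP G 5 τ N m t Ed _ hon hblock hmain ?_ hNt htN' ?_
    · rintro z w' (⟨j, y, hj, hy, he⟩ | ⟨j, hj, he⟩)
      · simp only [Prod.mk.injEq] at he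
        rw [he.2.1]
        exact hvert y hy
      · simp only [Prod.mk.injEq] at he
        obtain ⟨e1, e2, e3⟩ := he
        subst e1
        rw [e2]
        simp only [Nat.cast_zero, zero_div, zero_smul, add_zero]
        exact hvert x₀ hx₀T
    · rintro j z w' (⟨j', y, hj, hy, he⟩ | ⟨j', hj, he⟩)
      · simp only [Prod.mk.injEq] at he
        rw [he.2.1, he.2.2]
        exact ⟨hthin y (hR y hy), hthin y (hR y hy)⟩
      · simp only [Prod.mk.injEq] at he
        obtain ⟨e1, e2, e3⟩ := he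
        have hj' : ((j' : ℝ) + 1) ≤ m := by exact_mod_cast hj
        rw [e2, e3]
        refine ⟨hthin _ (hseg _ (by positivity) ?_), hthin _ (hseg _ (by positivity) ?_)⟩
        · rw [div_le_one hmpos]; linarith
        · rw [div_le_one hmpos]; linarith
  obtain ⟨φ', hL', hEq⟩ := hLS G F D A hD hA τ N M a b lam U Ed Ed' φ η hL hon' subset_union_left
  have hmain' : ∀ j z w, (j, z, w) ∈ Ed' → t + m ≤ j → z = 0 ∧ w = 0 := by
    rintro j z w' (he | he) hj
    · exact hmain j z w' he (by omega)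
    · obtain ⟨j', z', w'', he', heq⟩ := he
      simp only [Prod.mk.injEq] at heq
      have := hblock.lt _ _ _ he'
      omega
  -- extended paths: rest
  have hrest : ∀ y ∈ T, ∀ γ : ℕ → G, IsPath Ed t γ → γ t = y →
      IsPath Ed' (t + m) (fun j => if j ≤ t then γ j else y) := by
    intro y hy γ hγ hγt j hj
    by_cases h1 : j < t
    · have h2 : j + 1 ≤ t := h1
      simp only [h1.le, h2, if_true]
      exact Or.inl (hγ j h1)
    · right
      refine ⟨j - t, y, y, Or.inl ⟨j - t, y, by omega, hy, rfl⟩, ?_⟩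
      have h3 : ¬ (j + 1 ≤ t) := by omega
      simp only [h3, if_false]
      by_cases h4 : j ≤ t
      · have : j = t := by omega
        subst this
        simp [hγt]
      · simp only [h4, if_false, Prod.mk.injEq, and_true]
        omega
  have hrestKE : ∀ y : G, ∀ γ : ℕ → G, γ t = y →
      KE (fun j => if j ≤ t then γ j else y) 0 (t + m) = KE γ 0 t := by
    intro y γ hγt
    rw [rb_KE_add _ t (t + m) (by omega)]
    have e1 : KE (fun j => if j ≤ t then γ j else y) 0 t = KE γ 0 t := by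
      apply rb_KE_congr
      intro j _ hj
      simp [hj]
    have e2 : KE (fun j => if j ≤ t then γ j else y) t (t + m) = 0 := by
      unfold KE
      apply Finset.sum_eq_zero
      intro j hj
      simp only [Finset.mem_Ico] at hj
      have h3 : ¬ (j + 1 ≤ t) := by omega
      simp only [h3, if_false]
      by_cases h4 : j ≤ t
      · have : j = t := by omega
        subst this
        simp [hγt]
      · simp [h4]
    rw [e1, e2, add_zero]
  -- path to x₀
  obtain ⟨γ₀, hγ₀, hγ₀t, hγ₀KE⟩ : ∃ γ : ℕ → G, IsPath Ed t γ ∧ γ t = x₀ ∧ KE γ 0 t ≤ th := by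
    rcases hx₀T with h | ⟨i, h⟩
    · refine ⟨fun _ => 0, fun j hj => hon.main j (by omega), h.symm, ?_⟩
      unfold KE
      simp only [sub_self, norm_zero]
      simp [hthpos.le]
    · obtain ⟨γ, h1, h2, h3⟩ := hpath i
      exact ⟨γ, h1, h2.trans h, h3⟩
  set g : PT G → F := fun p => (1 / lam) • φ' (a + lam • U p) with hg
  set V : F := (1 / (N * lam)) • (φ' b - φ' a) with hV
  refine ⟨g (pt ((t + m : ℕ) : ℝ) x) - (w + (m : ℝ) • V), τ, N, M, a, b, lam, U, Ed', φ', η,
    t + m, hL', by linarith, by linarith, ?_, by omega, ?_, hmain', ?_, w + (m : ℝ) • V, ?_⟩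
  · linarith
  · push_cast
    have : 3 / th' = 3 * (1 / th') := by ring
    rw [this]
    linarith
  · -- paths
    intro i
    refine Fin.cases ?_ (fun i => ?_) i
    · -- the new particle
      refine ⟨fun j => if j ≤ t then γ₀ j else x₀ + (((j : ℝ) - t) / m) • (x - x₀), ?_, ?_, ?_⟩
      · intro j hj
        by_cases h1 : j < t
        · have h2 : j + 1 ≤ t := h1
          simp only [h1.le, h2, if_true]
          exact Or.inl (hγ₀ j h1)
        · right
          have hjt : t ≤ j := by omega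
          refine ⟨j - t, x₀ + (((j - t : ℕ) : ℝ) / m) • (x - x₀),
            x₀ + ((((j - t : ℕ) : ℝ) + 1) / m) • (x - x₀), Or.inr ⟨j - t, by omega, rfl⟩, ?_⟩
          have h3 : ¬ (j + 1 ≤ t) := by omega
          simp only [h3, if_false, Prod.mk.injEq]
          refine ⟨by omega, ?_, ?_⟩
          · by_cases h4 : j ≤ t
            · have : j = t := by omega
              subst this
              simp [hγ₀t]
            · simp only [h4, if_false, Nat.cast_sub hjt]
          · rw [Nat.cast_sub hjt]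
            push_cast
            congr 3
            ring
      · have h1 : ¬ (t + m ≤ t) := by omega
        simp only [h1, if_false, Fin.cons_zero]
        have : (((t + m : ℕ) : ℝ) - t) / m = 1 := by
          push_cast
          field_simp
          ring
        rw [this, one_smul]
        abel
      · rw [rb_KE_add _ t (t + m) (by omega)]
        have e1 : KE (fun j => if j ≤ t then γ₀ j else x₀ + (((j : ℝ) - t) / m) • (x - x₀)) 0 t
            = KE γ₀ 0 t := by
          apply rb_KE_congr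
          intro j _ hj
          simp [hj]
        have e2 : KE (fun j => if j ≤ t then γ₀ j else x₀ + (((j : ℝ) - t) / m) • (x - x₀)) t (t + m)
            = d ^ 2 / m := by
          unfold KE
          have hval : ∀ j, t ≤ j → (if j ≤ t then γ₀ j else x₀ + (((j : ℝ) - t) / m) • (x - x₀))
              = x₀ + (((j : ℝ) - t) / m) • (x - x₀) := by
            intro j hj
            by_cases h4 : j ≤ t
            · have : j = t := by omega
              subst this
              simp [hγ₀t]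
            · simp [h4]
          have : ∀ j ∈ Finset.Ico t (t + m),
              ‖(if j + 1 ≤ t then γ₀ (j + 1) else x₀ + ((((j + 1 : ℕ) : ℝ) - t) / m) • (x - x₀)) -
                (if j ≤ t then γ₀ j else x₀ + (((j : ℝ) - t) / m) • (x - x₀))‖ ^ 2 = (d / m) ^ 2 := by
            intro j hj
            simp only [Finset.mem_Ico] at hj
            rw [hval j hj.1, hval (j + 1) (by omega)]
            have : x₀ + ((((j + 1 : ℕ) : ℝ) - t) / m) • (x - x₀) -
                (x₀ + (((j : ℝ) - t) / m) • (x - x₀)) = (1 / (m : ℝ)) • (x - x₀) := by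
              push_cast
              rw [add_sub_add_left_eq_sub, ← sub_smul]
              congr 1
              field_simp
              ring
            rw [this, norm_smul, hd, dist_eq_norm, Real.norm_eq_abs, abs_of_pos (by positivity)]
            congr 1
            ring
          rw [Finset.sum_congr rfl this, Finset.sum_const, Nat.card_Ico]
          have : t + m - t = m := by omega
          rw [this, nsmul_eq_mul]
          field_simp
        rw [e1, e2]
        linarith
    · obtain ⟨γ, hγ, hγt, hγK⟩ := hpath i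
      refine ⟨fun j => if j ≤ t then γ j else (s i).1, ?_, ?_, ?_⟩
      · exact hrest _ (mem_insert_of_mem _ ⟨i, rfl⟩) γ hγ hγt
      · have h1 : ¬ (t + m ≤ t) := by omega
        simp only [h1, if_false, Fin.cons_succ]
      · rw [hrestKE _ γ hγt]
        linarith
  · intro i
    refine Fin.cases ?_ (fun i => ?_) i
    · simp only [Fin.cons_zero]
      have : (1 / lam) • φ' (a + lam • U (pt ((t + m : ℕ) : ℝ) x)) = g (pt ((t + m : ℕ) : ℝ) x) := rfl
      rw [this]
      have : g (pt ((t + m : ℕ) : ℝ) x) - (w + (m : ℝ) • V) -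
          (g (pt ((t + m : ℕ) : ℝ) x) - (w + (m : ℝ) • V)) = 0 := by abel
      rw [this, norm_zero]
      exact hth'.le
    · simp only [Fin.cons_succ]
      set z := (s i).1 with hz
      have hzT : z ∈ T := mem_insert_of_mem _ ⟨i, rfl⟩
      obtain ⟨γ, hγ, hγt, hγK⟩ := hpath i
      set γ' : ℕ → G := fun j => if j ≤ t then γ j else z with hγ'
      have hγ'path : IsPath Ed' (t + m) γ' := hrest z hzT γ hγ hγt
      have hγ'end : γ' (t + m) = z := by
        have h1 : ¬ (t + m ≤ t) := by omega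
        simp only [hγ', h1, if_false]
      have hna := hNA G F D A hD hA τ N M a b lam U Ed' φ' η hL' (t + m) ρ γ' hγ'path hmain'
        (by omega) htN'' hρ1' (by
          rw [hγ'end, le_div_iff₀ (by norm_num)]
          have := hR z hzT
          linarith) (by
          rw [hγ'end]
          by_cases hz0 : z = 0
          · exact Or.inl hz0
          · right
            have h1 := hδ z hzT 0 h0T hz0
            rw [dist_zero_right] at h1
            have h2 : δ / ρ ≤ ‖z‖ / ρ := div_le_div_of_nonneg_right h1 hρpos.le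
            linarith)
      rw [hγ'end, hrestKE z γ hγt] at hna
      have hdr := rb_drift g V γ' z t (t + m) (by omega) (by
        intro j h1 h2
        simp only [hγ']
        by_cases h4 : j ≤ t
        · have : j = t := by omega
          subst this
          simp [hγt, hz]
        · simp [h4])
      have hdm := rb_dev_mono g V γ' (p := t) (q := t + m) (by omega)
      have hzR : ‖z‖ ^ 2 ≤ R ^ 2 := pow_le_pow_left₀ (norm_nonneg _) (hR z hzT) 2
      have hmcast : (((t + m : ℕ) : ℝ) - (t : ℝ)) = m := by push_cast; ring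
      rw [hmcast] at hdr
      have hdev : dev g V γ' 0 (t + m) ≤ th + D ^ 2 * (th + R ^ 2 / ρ) := by
        refine hna.trans ?_
        have h1 : ‖z‖ ^ 2 / ρ ≤ R ^ 2 / ρ := div_le_div_of_nonneg_right hzR hρpos.le
        have h2 : KE γ 0 t + ‖z‖ ^ 2 / ρ ≤ th + R ^ 2 / ρ := add_le_add hγK h1
        have h3 := mul_le_mul_of_nonneg_left h2 (sq_nonneg D)
        linarith
      have hsq : ‖g (pt ((t + m : ℕ) : ℝ) z) - g (pt (t : ℝ) z) - (m : ℝ) • V‖ ^ 2 ≤ (th' / 2) ^ 2 := by
        refine hdr.trans ?_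
        have h1 : (m : ℝ) * dev g V γ' t (t + m) ≤ m * (th + D ^ 2 * (th + R ^ 2 / ρ)) :=
          mul_le_mul_of_nonneg_left (hdm.trans hdev) hmpos.le
        have h2 : m * (th + D ^ 2 * (th + R ^ 2 / ρ)) =
            m * (th + D ^ 2 * th) + m * (D ^ 2 * (R ^ 2 / ρ)) := by ring
        nlinarith [sq_nonneg th']
      have hn : ‖g (pt ((t + m : ℕ) : ℝ) z) - g (pt (t : ℝ) z) - (m : ℝ) • V‖ ≤ th' / 2 :=
        le_of_sq_le_sq hsq (by positivity)
      have hold : g (pt (t : ℝ) z) = (1 / lam) • φ (a + lam • U (pt (t : ℝ) z)) := by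
        simp only [hg]
        rw [hEq (Or.inr ⟨pt (t : ℝ) z, ⟨(t, z), hvert z hzT, rfl⟩, rfl⟩)]
      have hwi := hw i
      rw [← hz, ← hold] at hwi
      have hfin : (1 / lam) • φ' (a + lam • U (pt ((t + m : ℕ) : ℝ) z)) - (w + (m : ℝ) • V) - (s i).2
          = (g (pt ((t + m : ℕ) : ℝ) z) - g (pt (t : ℝ) z) - (m : ℝ) • V) +
            (g (pt (t : ℝ) z) - w - (s i).2) := by
        simp only [hg]; abel
      rw [hfin]
      calc _ ≤ ‖g (pt ((t + m : ℕ) : ℝ) z) - g (pt (t : ℝ) z) - (m : ℝ) • V‖ +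
            ‖g (pt (t : ℝ) z) - w - (s i).2‖ := norm_add_le _ _
        _ ≤ th' / 2 + th := add_le_add hn hwi
        _ ≤ th' := by linarith

end Crest.LP
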