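import Crest.Agent.LP_RFINA

/-! rid 254 (S0392), module RFIN: the main case of the R-step. -/

set_option autoImplicit false
open Set Filter Topology

namespace Crest.LP
namespace RFin

section
variable {G F : Type} [NormedAddCommGroup G] [InnerProductSpace ℝ G]
  [NormedAddCommGroup F] [InnerProductSpace ℝ F]

theorem pk_insert {X : Type*} [PseudoMetricSpace X] {ρ : ℝ} {K : ℕ} {T : Set X} (h : Pk ρ K T)
    (x : X) : Pk ρ (K + 1) (insert x T) := by
  classical
  intro A r hA hr hsep hdiam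
  have h1 := h (A.erase x) r (by
    intro y hy
    rw [Finset.coe_erase] at hy
    rcases hA hy.1 with h2 | h2
    · exact absurd h2 hy.2
    · exact h2) hr (fun y hy z hz => hsep y (Finset.mem_of_mem_erase hy) z (Finset.mem_of_mem_erase hz))
    (fun y hy z hz => hdiam y (Finset.mem_of_mem_erase hy) z (Finset.mem_of_mem_erase hz))
  have h2 := Finset.pred_card_le_card_erase (s := A) (a := x)
  omega

theorem pk_mono {X : Type*} [PseudoMetricSpace X] {ρ : ℝ} {K : ℕ} {T T' : Set X} (h : Pk ρ K T)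
    (hT : T' ⊆ T) : Pk ρ K T' := fun A r hA hr hs hd => h A r (hA.trans hT) hr hs hd

theorem exists_bound (T : Set G) (hT : T.Finite) : ∃ C : ℝ, 0 ≤ C ∧ ∀ z ∈ T, ‖z‖ ≤ C := by
  obtain ⟨C, hC⟩ := (hT.image (fun z => ‖z‖)).bddAbove
  exact ⟨max C 0, le_max_right _ _, fun z hz => le_trans (hC ⟨z, hz, rfl⟩) (le_max_left _ _)⟩

theorem exists_sep (T : Set G) (hT : T.Finite) :
    ∃ d : ℝ, 0 < d ∧ ∀ y ∈ T, ∀ z ∈ T, y ≠ z → d ≤ dist y z := by
  classical
  have hP : ((T ×ˢ T) \ {p | p.1 = p.2}).Finite := (hT.prod hT).subset sdiff_subset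
  rcases ((T ×ˢ T) \ {p : G × G | p.1 = p.2}).eq_empty_or_nonempty with h | h
  · refine ⟨1, one_pos, fun y hy z hz hyz => ?_⟩
    exfalso
    have : (y, z) ∈ ((T ×ˢ T) \ {p : G × G | p.1 = p.2}) := ⟨⟨hy, hz⟩, hyz⟩
    rw [h] at this
    exact this
  · obtain ⟨p, hp, hmin⟩ := Set.exists_min_image _ (fun p : G × G => dist p.1 p.2) hP h
    refine ⟨dist p.1 p.2, dist_pos.2 hp.2, fun y hy z hz hyz => ?_⟩
    exact hmin (y, z) ⟨⟨hy, hz⟩, hyz⟩

/-- edges of the birth block -/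
theorem birth_mem {T : Set G} {x₀ x : G} {m j : ℕ} {z w : G} (h : (j, z, w) ∈ birthE T x₀ x m) :
    (j < m ∧ z ∈ T ∧ w = z) ∨ (j < m ∧ z = x₀ + ((j : ℝ) / m) • (x - x₀) ∧
      w = x₀ + (((j : ℝ) + 1) / m) • (x - x₀)) := by
  rcases h with ⟨j', y, hj, hy, he⟩ | ⟨j', hj, he⟩
  · left
    simp only [Prod.mk.injEq] at he
    obtain ⟨rfl, rfl, rfl⟩ := he
    exact ⟨hj, hy, rfl⟩
  · right
    simp only [Prod.mk.injEq] at he
    obtain ⟨rfl, rfl, rfl⟩ := he
    exact ⟨hj, rfl, rfl⟩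

theorem conv_norm {x₀ x : G} {C c : ℝ} (h0 : ‖x₀‖ ≤ C) (h1 : ‖x‖ ≤ C) (hc0 : 0 ≤ c) (hc1 : c ≤ 1) :
    ‖x₀ + c • (x - x₀)‖ ≤ C := by
  have : x₀ + c • (x - x₀) = (1 - c) • x₀ + c • x := by
    rw [smul_sub, sub_smul, one_smul]; abel
  rw [this]
  calc ‖(1 - c) • x₀ + c • x‖ ≤ ‖(1 - c) • x₀‖ + ‖c • x‖ := norm_add_le _ _
    _ = (1 - c) * ‖x₀‖ + c * ‖x‖ := by
        rw [norm_smul, norm_smul, Real.norm_eq_abs, Real.norm_eq_abs, abs_of_nonneg (by linarith),
          abs_of_nonneg hc0]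
    _ ≤ (1 - c) * C + c * C := by
        have : 0 ≤ 1 - c := by linarith
        gcongr
    _ = C := by ring

theorem stepP (D : ℝ) (A : Set (PT G) → (PT G → F) → Prop) (hD : 1 ≤ D)
    (hA : Online ((Psi 5) ^ 2) D A) (hLS : LAYSCR) (hAP : APPEND) (hBL : BLOCKS) (hNA : NAPRE)
    (hnum : NumP) : StepP D A := by
  classical
  intro L k s x hx0 hxr hpk
  set pos : Fin k → G := fun i => (s i).1 with hpos
  set T : Set G := insert 0 (range pos) with hT
  have hTfin : T.Finite := (finite_range pos).insert 0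
  have h0T : (0 : G) ∈ T := mem_insert _ _
  have hxT : x ∉ T := by
    rintro (h | h)
    · exact hx0 h
    · exact hxr h
  have hT4 : Pk 10 4 T := pk_insert (pk_mono hpk (subset_insert _ _)) 0
  obtain ⟨C, hC0, hC⟩ := exists_bound (insert x T) (hTfin.insert x)
  obtain ⟨d, hd0, hd⟩ := exists_sep (insert x T) (hTfin.insert x)
  obtain ⟨x₀, hx₀T, hnear⟩ := Set.exists_min_image T (dist x) hTfin ⟨0, h0T⟩
  obtain ⟨I, hI⟩ := hnum D C d L hD hC0 hd0
  set B0 : ℝ := 1 + D ^ 2 * (1 + C ^ 2) with hB0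
  have hB0pos : 0 < B0 := by positivity
  refine ⟨fun i => 2 * Real.sqrt (B0 / ((i : ℝ) + 1)), ?_, I, ?_⟩
  · have h1 : Tendsto (fun i : ℕ => B0 / ((i : ℝ) + 1)) atTop (𝓝 0) := by
      have := (tendsto_one_div_add_atTop_nhds_zero_nat (𝕜 := ℝ)).const_mul B0
      simpa [div_eq_mul_inv] using this
    have h2 := (Real.continuous_sqrt.tendsto 0).comp h1
    rw [Real.sqrt_zero] at h2
    simpa using h2.const_mul 2
  intro i hi θ hθ hR
  obtain ⟨n1, n2, n3, n4, n5, n6, n7, n8, n9, n10⟩ := hI i hi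
  obtain ⟨M, a, b, lam, U, Ed, φ, t, hLaid, htriv, ht1, ht2, hpaths⟩ := hR
  set m := mm i (L + 1) with hm
  set ρ := mm i 0 with hρ
  have hm1 : 1 ≤ m := mm_pos _ _
  have hρ1 : 1 ≤ ρ := mm_pos _ _
  have hmpos : (0 : ℝ) < m := by exact_mod_cast hm1
  have hρpos : (0 : ℝ) < ρ := by exact_mod_cast hρ1
  have hon := hLaid.hon
  have hx₀C : ‖x₀‖ ≤ C := hC _ (mem_insert_of_mem _ hx₀T)
  have hxC : ‖x‖ ≤ C := hC _ (mem_insert _ _)
  have hdist : dist x x₀ ≤ 2 * C := by
    rw [dist_eq_norm]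
    calc ‖x - x₀‖ ≤ ‖x‖ + ‖x₀‖ := norm_sub_le _ _
      _ ≤ 2 * C := by linarith
  have hxx₀ : x ≠ x₀ := fun h => hxT (h ▸ hx₀T)
  have hdx : d ≤ dist x x₀ := hd _ (mem_insert _ _) _ (mem_insert_of_mem _ hx₀T) hxx₀
  set B : Edges G := birthE T x₀ x m with hB
  have hBlk : Block 5 (tau i) m B :=
    (hBL G (tau i) m (tau_pos i) hm1).1 T x₀ x hTfin h0T hT4 hxT hx₀T hnear
      (fun y hy z hz hyz => n2.trans (hd _ (mem_insert_of_mem _ hy) _ (mem_insert_of_mem _ hz) hyz))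
      (hdist.trans n4) (by rw [le_div_iff₀ hmpos]; exact n3.trans hdx)
  have h7 := n7 t ht2
  have htN : t ≤ NN i := by omega
  have ht1' : 1 ≤ t := by omega
  have hN3t : NN i < 3 * t := by unfold NN; omega
  -- paths
  have hpath : ∀ z ∈ T, ∃ γ : ℕ → G, IsPath Ed t γ ∧ γ t = z ∧ KE γ 0 t ≤ ((i : ℝ) + 1) / mm i L := by
    rintro z (hz | ⟨j, hj⟩)
    · subst hz
      refine ⟨fun _ => 0, main_path hon t htN, rfl, ?_⟩
      rw [KE_zero]; positivity
    · obtain ⟨γ, g1, g2, g3, g4⟩ := hpaths j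
      exact ⟨γ, g1, by rw [g2]; exact hj, g3⟩
  have hvert : ∀ z ∈ T, (t, z) ∈ Verts Ed := by
    intro z hz
    obtain ⟨γ, g1, g2, _⟩ := hpath z hz
    have := path_vert g1 ht1'
    rwa [g2] at this
  have hverts : ∀ z w, (0, z, w) ∈ B → (t, z) ∈ Verts Ed := by
    intro z w h
    rcases birth_mem h with ⟨_, hz, _⟩ | ⟨_, hz, _⟩
    · exact hvert z hz
    · have : z = x₀ := by rw [hz]; simp
      rw [this]; exact hvert _ hx₀T
  have hthin : ∀ j z w, (j, z, w) ∈ B →
      ‖z‖ ≤ cc * tau i * (NN i : ℝ) ∧ ‖w‖ ≤ cc * tau i * (NN i : ℝ) := by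
    intro j z w h
    rcases birth_mem h with ⟨_, hz, hw⟩ | ⟨hj, hz, hw⟩
    · have := hC z (mem_insert_of_mem _ hz)
      rw [hw]
      exact ⟨this.trans n8, this.trans n8⟩
    · have hjr : (j : ℝ) + 1 ≤ m := by exact_mod_cast hj
      have hj0 : (0 : ℝ) ≤ j := Nat.cast_nonneg j
      rw [hz, hw]
      constructor
      · exact (conv_norm hx₀C hxC (by positivity) (by rw [div_le_one hmpos]; linarith)).trans n8
      · exact (conv_norm hx₀C hxC (by positivity) (by rw [div_le_one hmpos]; linarith)).trans n8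
  set Ed' : Edges G := Ed ∪ shiftE t B with hEd'
  have hHon' : Honest 5 (tau i) (NN i) Ed' :=
    hAP G 5 (tau i) (NN i) m t Ed B hon hBlk htriv hverts hN3t (by omega) hthin
  obtain ⟨φ', hLaid', hEq⟩ := hLS G F D A hD hA (tau i) (NN i) M a b lam U Ed Ed' φ (eta i) hLaid
    hHon' subset_union_left
  have htriv' : ∀ j z w, (j, z, w) ∈ Ed' → t + m ≤ j → z = 0 ∧ w = 0 := by
    intro j z w h hj
    rcases h with h | h
    · exact htriv j z w h (by omega)
    · obtain ⟨j', z', w', hB', he⟩ := h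
      simp only [Prod.mk.injEq] at he
      have := hBlk.lt j' z' w' hB'
      omega
  -- drift of resting particles
  set V : F := (1 / ((NN i : ℝ) * lam)) • (φ' b - φ' a) with hV
  have hdrift : ∀ z ∈ T, ‖ff a lam U φ' (pt ((t : ℝ) + m) z) - ff a lam U φ' (pt (t : ℝ) z)
      - (m : ℝ) • V‖ ≤ Real.sqrt (B0 / ((i : ℝ) + 1)) := by
    intro z hz
    obtain ⟨γ, g1, g2, g3⟩ := hpath z hz
    have hc0 : (fun _ : ℕ => z) 0 = γ t := g2.symm
    have hp' : IsPath Ed' (t + m) (extp t γ (fun _ => z)) :=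
      extp_path g1 hc0 (fun r hr => Or.inl ⟨r, z, hr, hz, rfl⟩)
    have hend : extp t γ (fun _ => z) (t + m) = z := extp_add hc0 m
    have hzC : ‖z‖ ≤ C := hC z (mem_insert_of_mem _ hz)
    have hdev := hNA G F D A hD hA (tau i) (NN i) M a b lam U Ed' φ' (eta i) hLaid' (t + m) ρ
      (extp t γ (fun _ => z)) hp' htriv' (by omega) (by omega) hρ1
      (by rw [hend]; exact hzC.trans n5) (by
        rw [hend]
        by_cases hz0 : z = 0
        · exact Or.inl hz0
        · right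
          rw [le_div_iff₀ hρpos]
          have := hd z (mem_insert_of_mem _ hz) 0 (mem_insert_of_mem _ h0T) hz0
          rw [dist_zero_right] at this
          exact n6.trans this)
    rw [hend, extp_KE hc0] at hdev
    have h1 := (extp_dev (m := m) hc0 (ff a lam U φ') V).trans hdev
    have h2 : ∑ r ∈ Finset.range m, ‖(fun _ : ℕ => z) (r + 1) - (fun _ : ℕ => z) r‖ ^ 2 = 0 := by
      simp
    rw [h2, add_zero] at h1
    have h3 : eta i + D ^ 2 * (KE γ 0 t + ‖z‖ ^ 2 / ρ) ≤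
        eta i + D ^ 2 * (((i : ℝ) + 1) / mm i L + C ^ 2 / ρ) := by
      gcongr
    have h4 := rest_bound z (ff a lam U φ') V _ (h1.trans h3)
    have h5 := h4.trans n10
    exact Real.le_sqrt_of_sq_le h5
  -- old values are kept
  have hkeep : ∀ z ∈ T, ff a lam U φ' (pt (t : ℝ) z) = ff a lam U φ (pt (t : ℝ) z) := by
    intro z hz
    unfold ff
    rw [hEq (Or.inr ⟨pt (t : ℝ) z, ⟨(t, z), hvert z hz, rfl⟩, rfl⟩)]
  have hprof : ∀ z ∈ T, dist (prof a lam U φ' (t + m) z) (prof a lam U φ t z) ≤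
      2 * Real.sqrt (B0 / ((i : ℝ) + 1)) := by
    intro z hz
    have h1 := hdrift z hz
    have h2 := hdrift 0 h0T
    rw [dist_eq_norm]
    unfold prof
    rw [← hkeep z hz, ← hkeep 0 h0T]
    push_cast
    have : ff a lam U φ' (pt ((t : ℝ) + m) z) - ff a lam U φ' (pt ((t : ℝ) + m) 0) -
        (ff a lam U φ' (pt (t : ℝ) z) - ff a lam U φ' (pt (t : ℝ) 0)) =
        (ff a lam U φ' (pt ((t : ℝ) + m) z) - ff a lam U φ' (pt (t : ℝ) z) - (m : ℝ) • V) -
        (ff a lam U φ' (pt ((t : ℝ) + m) 0) - ff a lam U φ' (pt (t : ℝ) 0) - (m : ℝ) • V) := by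
      abel
    rw [this]
    calc _ ≤ _ := norm_sub_le _ _
      _ ≤ _ := by linarith
  -- the new particle
  obtain ⟨γ₀, g1, g2, g3⟩ := hpath x₀ hx₀T
  set c : ℕ → G := fun r => x₀ + ((r : ℝ) / m) • (x - x₀) with hc
  have hc0 : c 0 = γ₀ t := by rw [g2]; simp [hc]
  have hcm : c m = x := by
    simp only [hc]
    rw [div_self hmpos.ne', one_smul]; abel
  have hpx : IsPath Ed' (t + m) (extp t γ₀ c) := by
    apply extp_path g1 hc0
    intro r hr
    right
    refine ⟨r, hr, ?_⟩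
    simp only [hc]
    push_cast
    rfl
  have hxend : extp t γ₀ c (t + m) = x := by rw [extp_add hc0, hcm]
  have hKEx : KE (extp t γ₀ c) 0 (t + m) ≤ ((i : ℝ) + 1) / mm i (L + 1) := by
    rw [extp_KE hc0]
    have h1 : ∀ r ∈ Finset.range m, ‖c (r + 1) - c r‖ ^ 2 = (dist x x₀) ^ 2 / (m : ℝ) ^ 2 := by
      intro r _
      have h2 : c (r + 1) - c r = (1 / (m : ℝ)) • (x - x₀) := by
        simp only [hc]
        push_cast
        rw [add_sub_add_left_eq_sub, ← sub_smul]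
        congr 1
        field_simp
        ring
      rw [h2, norm_smul, Real.norm_eq_abs, abs_of_pos (by positivity), dist_eq_norm]
      field_simp
    rw [Finset.sum_congr rfl h1, Finset.sum_const, Finset.card_range, nsmul_eq_mul]
    have h3 : (m : ℝ) * ((dist x x₀) ^ 2 / (m : ℝ) ^ 2) = (dist x x₀) ^ 2 / m := by
      field_simp
    rw [h3]
    have h4 : (dist x x₀) ^ 2 / (m : ℝ) ≤ (2 * C) ^ 2 / m := by
      gcongr
    linarith
  -- bi-Lipschitz bound for the new value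
  have hmain' : IsPath Ed' (t + m) (fun _ => (0 : G)) := main_path hHon' (t + m) (by omega)
  have hV0 : pt ((t : ℝ) + m) (0 : G) ∈ VPt Ed' := by
    refine ⟨(t + m, 0), path_vert hmain' (by omega), ?_⟩
    push_cast
    rfl
  have hVx : pt ((t : ℝ) + m) x ∈ VPt Ed' := by
    have := path_vert hpx (by omega)
    rw [hxend] at this
    refine ⟨(t + m, x), this, ?_⟩
    push_cast
    rfl
  refine ⟨prof a lam U φ' (t + m) x, ?_, ?_⟩
  · have h1 := (ff_dbl hA hLaid' _ _ hVx hV0).2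
    rw [dist_pt, dist_zero_right, dist_eq_norm] at h1
    unfold prof
    push_cast
    exact h1
  · refine ⟨M, a, b, lam, U, Ed', φ', t + m, hLaid', htriv', by omega, ?_, ?_⟩
    · have h1 : m ≤ ρ := mm_le i (L + 1)
      have h2 : (L + 1) * ρ = L * ρ + ρ := by ring
      show t + m ≤ N3 i + 1 + (L + 1) * ρ
      rw [h2]
      omega
    · intro j
      refine Fin.cases ?_ ?_ j
      · refine ⟨extp t γ₀ c, hpx, by simpa using hxend, hKEx, ?_⟩
        simp only [Fin.cons_zero, dist_self]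
        positivity
      · intro j
        obtain ⟨γ, q1, q2, q3, q4⟩ := hpaths j
        have hzT : (s j).1 ∈ T := mem_insert_of_mem _ ⟨j, rfl⟩
        have hc0' : (fun _ : ℕ => (s j).1) 0 = γ t := q2.symm
        refine ⟨extp t γ (fun _ => (s j).1),
          extp_path q1 hc0' (fun r hr => Or.inl ⟨r, (s j).1, hr, hzT, rfl⟩), ?_, ?_, ?_⟩
        · simpa using extp_add hc0' m
        · rw [extp_KE hc0']
          have h2 : ∑ r ∈ Finset.range m,
              ‖(fun _ : ℕ => (s j).1) (r + 1) - (fun _ : ℕ => (s j).1) r‖ ^ 2 = 0 := by simp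
          rw [h2, add_zero]
          have h4 : 0 ≤ (2 * C) ^ 2 / (m : ℝ) := by positivity
          linarith
        · simp only [Fin.cons_succ]
          have h1 := hprof _ hzT
          calc dist (prof a lam U φ' (t + m) (s j).1) (s j).2
              ≤ dist (prof a lam U φ' (t + m) (s j).1) (prof a lam U φ t (s j).1) +
                dist (prof a lam U φ t (s j).1) (s j).2 := dist_triangle _ _ _
            _ ≤ _ := by linarith

end

end RFin
end Crest.LP
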