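import Crest.Agent.LPCore2

/-! rid 254 (S0392), module RFIN: the final part of the R-step. -/

set_option autoImplicit false
open Set Filter Topology

namespace Crest.LP
namespace RFin

/-- block lengths -/
def mm (i l : ℕ) : ℕ := (i + 1) ^ (3 * (i - l))

noncomputable def eta (i : ℕ) : ℝ := 1 / (((i : ℝ) + 1) * (mm i 0 : ℝ))

noncomputable def tau (i : ℕ) : ℝ := 1 / (100 * ((i : ℝ) + 1) * (mm i 0 : ℝ))

def N3 (i : ℕ) : ℕ := 10 ^ 8 * (i + 1) ^ 2 * mm i 0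

def NN (i : ℕ) : ℕ := 3 * N3 i

theorem mm_pos (i l : ℕ) : 1 ≤ mm i l := Nat.one_le_pow _ _ (Nat.succ_pos _)

theorem mm_posR (i l : ℕ) : (1 : ℝ) ≤ (mm i l : ℝ) := by exact_mod_cast mm_pos i l

theorem mm_le (i l : ℕ) : mm i l ≤ mm i 0 := by
  unfold mm
  exact Nat.pow_le_pow_right (Nat.succ_pos _) (by omega)

theorem mm_succ (i l : ℕ) (h : l < i) : mm i l = (i + 1) ^ 3 * mm i (l + 1) := by
  unfold mm
  rw [← pow_add]
  congr 1
  omega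

theorem mm_zero (i l : ℕ) (h : l < i) : (i + 1) ^ 3 * mm i (l + 1) ≤ mm i 0 := by
  rw [← mm_succ i l h]; exact mm_le i l

theorem eta_pos (i : ℕ) : 0 < eta i := by
  have := mm_posR i 0
  unfold eta; positivity

theorem tau_pos (i : ℕ) : 0 < tau i := by
  have := mm_posR i 0
  unfold tau; positivity

theorem tau_le (i : ℕ) : tau i ≤ 1 / 100 := by
  have h := mm_posR i 0
  unfold tau
  apply one_div_le_one_div_of_le (by norm_num)
  have hi : (0 : ℝ) ≤ i := Nat.cast_nonneg i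
  nlinarith [mul_nonneg hi (le_trans zero_le_one h)]

theorem NN_ge (i : ℕ) : 100 ≤ NN i := by
  have h := mm_pos i 0
  have h2 : 1 ≤ (i + 1) ^ 2 := Nat.one_le_pow _ _ (Nat.succ_pos _)
  have h3 : 1 ≤ (i + 1) ^ 2 * mm i 0 := Nat.one_le_iff_ne_zero.2 (by positivity)
  unfold NN N3
  nlinarith

theorem cc_tau_NN (i : ℕ) : cc * tau i * (NN i : ℝ) = 3 * ((i : ℝ) + 1) := by
  have h : (mm i 0 : ℝ) ≠ 0 := by have := mm_posR i 0; positivity
  have h2 : ((i : ℝ) + 1) ≠ 0 := by positivity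
  unfold cc tau NN N3
  push_cast
  field_simp
  norm_num

section
variable {G F : Type} [NormedAddCommGroup G] [InnerProductSpace ℝ G]
  [NormedAddCommGroup F] [InnerProductSpace ℝ F]

/-- the rescaled map -/
noncomputable def ff (a : PT G) (lam : ℝ) (U : PT G ≃ₗᵢ[ℝ] PT G) (φ : PT G → F) : PT G → F :=
  fun p => (1 / lam) • φ (a + lam • U p)

/-- profile at time `t` -/
noncomputable def prof (a : PT G) (lam : ℝ) (U : PT G ≃ₗᵢ[ℝ] PT G) (φ : PT G → F) (t : ℕ) (x : G) : F :=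
  ff a lam U φ (pt (t : ℝ) x) - ff a lam U φ (pt (t : ℝ) 0)

/-- realised configurations -/
def Rz (D : ℝ) (A : Set (PT G) → (PT G → F) → Prop) (i L : ℕ) (θ : ℝ) {k : ℕ}
    (s : Fin k → G × F) : Prop :=
  ∃ (M : Set (PT G)) (a b : PT G) (lam : ℝ) (U : PT G ≃ₗᵢ[ℝ] PT G) (Ed : Edges G)
    (φ : PT G → F) (t : ℕ),
    Laid D A (tau i) (NN i) M a b lam U Ed φ (eta i) ∧
    (∀ j z w, (j, z, w) ∈ Ed → t ≤ j → z = 0 ∧ w = 0) ∧
    N3 i + 1 ≤ t ∧ t ≤ N3 i + 1 + L * mm i 0 ∧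
    ∀ j : Fin k, ∃ γ : ℕ → G, IsPath Ed t γ ∧ γ t = (s j).1 ∧
      KE γ 0 t ≤ ((i : ℝ) + 1) / mm i L ∧ dist (prof a lam U φ t (s j).1) (s j).2 ≤ θ

theorem Rz.mono {D : ℝ} {A : Set (PT G) → (PT G → F) → Prop} {i L : ℕ} {θ θ' : ℝ} {k : ℕ}
    {s : Fin k → G × F} (h : Rz D A i L θ s) (hθ : θ ≤ θ') : Rz D A i L θ' s := by
  obtain ⟨M, a, b, lam, U, Ed, φ, t, h1, h2, h3, h4, h5⟩ := h
  refine ⟨M, a, b, lam, U, Ed, φ, t, h1, h2, h3, h4, fun j => ?_⟩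
  obtain ⟨γ, g1, g2, g3, g4⟩ := h5 j
  exact ⟨γ, g1, g2, g3, g4.trans hθ⟩

theorem Rz.comp {D : ℝ} {A : Set (PT G) → (PT G → F) → Prop} {i L : ℕ} {θ : ℝ} {k j : ℕ}
    {s : Fin k → G × F} (h : Rz D A i L θ s) (g : Fin j → Fin k) : Rz D A i L θ (s ∘ g) := by
  obtain ⟨M, a, b, lam, U, Ed, φ, t, h1, h2, h3, h4, h5⟩ := h
  exact ⟨M, a, b, lam, U, Ed, φ, t, h1, h2, h3, h4, fun j => h5 (g j)⟩

/-- the main line is a path -/
theorem main_path {K : ℕ} {τ : ℝ} {N : ℕ} {Ed : Edges G} (h : Honest K τ N Ed) (t : ℕ) (ht : t ≤ N) :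
    IsPath Ed t (fun _ => (0 : G)) := fun j hj => h.main j (lt_of_lt_of_le hj ht)

theorem KE_zero (p q : ℕ) : KE (fun _ => (0 : G)) p q = 0 := by simp [KE]

/-- vertices on a path -/
theorem path_vert {Ed : Edges G} {t : ℕ} {γ : ℕ → G} (h : IsPath Ed t γ) (ht : 1 ≤ t) :
    (t, γ t) ∈ Verts Ed := by
  obtain ⟨t, rfl⟩ : ∃ t', t = t' + 1 := ⟨t - 1, by omega⟩
  exact Or.inr ⟨t, γ t, rfl, h t (Nat.lt_succ_self t)⟩

/-- distances of placed points -/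
theorem dist_placed (a : PT G) (lam : ℝ) (hlam : 0 < lam) (U : PT G ≃ₗᵢ[ℝ] PT G) (p q : PT G) :
    dist (a + lam • U p) (a + lam • U q) = lam * dist p q := by
  rw [dist_add_left, dist_eq_norm, ← smul_sub, ← map_sub, norm_smul, U.norm_map, Real.norm_eq_abs,
    abs_of_pos hlam, dist_eq_norm]

theorem dist_pt (t : ℝ) (x y : G) : dist (pt t x) (pt t y) = dist x y := by
  rw [dist_eq_norm, dist_eq_norm]
  have : (pt t x - pt t y : PT G) = WithLp.toLp 2 ((0 : ℝ), x - y) := by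
    simp [pt, ← WithLp.toLp_sub]
  rw [this]
  simp [WithLp.prod_norm_eq_of_L2]

/-- bi-Lipschitz property of the rescaled map on the vertices -/
theorem ff_dbl {D : ℝ} {A : Set (PT G) → (PT G → F) → Prop} {K₂ : ℕ} (hA : Online K₂ D A) {τ : ℝ}
    {N : ℕ} {M : Set (PT G)} {a b : PT G} {lam : ℝ} {U : PT G ≃ₗᵢ[ℝ] PT G} {Ed : Edges G}
    {φ : PT G → F} {η : ℝ} (h : Laid D A τ N M a b lam U Ed φ η) (p q : PT G)
    (hp : p ∈ VPt Ed) (hq : q ∈ VPt Ed) :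
    dist p q ≤ dist (ff a lam U φ p) (ff a lam U φ q) ∧
      dist (ff a lam U φ p) (ff a lam U φ q) ≤ D * dist p q := by
  have hlam := h.lampos
  have h1 := hA.dbl _ _ h.alive (a + lam • U p) (Or.inr ⟨p, hp, rfl⟩) (a + lam • U q)
    (Or.inr ⟨q, hq, rfl⟩)
  rw [dist_placed a lam hlam U] at h1
  have h2 : dist (ff a lam U φ p) (ff a lam U φ q) =
      (1 / lam) * dist (φ (a + lam • U p)) (φ (a + lam • U q)) := by
    unfold ff
    rw [dist_smul₀, Real.norm_eq_abs, abs_of_pos (by positivity)]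
  rw [h2]
  constructor
  · rw [one_div, ← div_eq_inv_mul, le_div_iff₀ hlam, mul_comm]; exact h1.1
  · rw [one_div, ← div_eq_inv_mul, div_le_iff₀ hlam]
    calc _ ≤ _ := h1.2
      _ = _ := by ring

/-! ### extension of paths -/

/-- follow `γ` until time `t`, then `c` -/
def extp (t : ℕ) (γ c : ℕ → G) : ℕ → G := fun q => if q ≤ t then γ q else c (q - t)

theorem extp_le {t : ℕ} {γ c : ℕ → G} {q : ℕ} (h : q ≤ t) : extp t γ c q = γ q := by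
  simp [extp, h]

theorem extp_add {t : ℕ} {γ c : ℕ → G} (hc : c 0 = γ t) (r : ℕ) : extp t γ c (t + r) = c r := by
  rcases Nat.eq_zero_or_pos r with h | h
  · subst h; simp [extp, hc]
  · have : ¬ (t + r ≤ t) := by omega
    simp [extp, this]

theorem extp_path {Ed B : Edges G} {t m : ℕ} {γ c : ℕ → G} (h : IsPath Ed t γ) (hc0 : c 0 = γ t)
    (hc : ∀ r, r < m → (r, c r, c (r + 1)) ∈ B) :
    IsPath (Ed ∪ shiftE t B) (t + m) (extp t γ c) := by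
  intro j hj
  by_cases hjt : j < t
  · left
    rw [extp_le hjt.le, extp_le (by omega)]
    exact h j hjt
  · right
    obtain ⟨r, rfl⟩ : ∃ r, j = t + r := ⟨j - t, by omega⟩
    refine ⟨r, c r, c (r + 1), hc r (by omega), ?_⟩
    rw [extp_add hc0, show t + r + 1 = t + (r + 1) by ring, extp_add hc0, add_comm t r]

theorem extp_KE {t m : ℕ} {γ c : ℕ → G} (hc0 : c 0 = γ t) :
    KE (extp t γ c) 0 (t + m) = KE γ 0 t + ∑ r ∈ Finset.range m, ‖c (r + 1) - c r‖ ^ 2 := by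
  unfold KE
  rw [← Finset.sum_Ico_consecutive _ (Nat.zero_le t) (Nat.le_add_right t m)]
  congr 1
  · apply Finset.sum_congr rfl
    intro j hj
    rw [Finset.mem_Ico] at hj
    rw [extp_le (by omega), extp_le hj.2.le]
  · rw [Finset.sum_Ico_eq_sum_range, Nat.add_sub_cancel_left]
    apply Finset.sum_congr rfl
    intro r _
    rw [show t + r + 1 = t + (r + 1) by ring, extp_add hc0, extp_add hc0]

theorem extp_dev {t m : ℕ} {γ c : ℕ → G} (hc0 : c 0 = γ t) (f : PT G → F) (V : F) :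
    ∑ r ∈ Finset.range m, ‖f (pt ((t : ℝ) + r + 1) (c (r + 1))) - f (pt ((t : ℝ) + r) (c r)) - V‖ ^ 2
      ≤ dev f V (extp t γ c) 0 (t + m) := by
  unfold dev
  rw [← Finset.sum_Ico_consecutive _ (Nat.zero_le t) (Nat.le_add_right t m)]
  have h1 : ∑ j ∈ Finset.Ico t (t + m),
      ‖f (pt ((j : ℝ) + 1) (extp t γ c (j + 1))) - f (pt (j : ℝ) (extp t γ c j)) - V‖ ^ 2 =
      ∑ r ∈ Finset.range m,
        ‖f (pt ((t : ℝ) + r + 1) (c (r + 1))) - f (pt ((t : ℝ) + r) (c r)) - V‖ ^ 2 := by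
    rw [Finset.sum_Ico_eq_sum_range, Nat.add_sub_cancel_left]
    apply Finset.sum_congr rfl
    intro r _
    rw [show t + r + 1 = t + (r + 1) by ring, extp_add hc0, extp_add hc0]
    push_cast
    rfl
  rw [h1]
  have h2 : 0 ≤ ∑ j ∈ Finset.Ico 0 t,
      ‖f (pt ((j : ℝ) + 1) (extp t γ c (j + 1))) - f (pt (j : ℝ) (extp t γ c j)) - V‖ ^ 2 :=
    Finset.sum_nonneg fun _ _ => by positivity
  linarith

/-- resting particle: displacement is uniform up to the deviation -/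
theorem rest_bound {t m : ℕ} (z : G) (f : PT G → F) (V : F) (e : ℝ)
    (h : ∑ r ∈ Finset.range m, ‖f (pt ((t : ℝ) + r + 1) z) - f (pt ((t : ℝ) + r) z) - V‖ ^ 2 ≤ e) :
    ‖f (pt ((t : ℝ) + m) z) - f (pt (t : ℝ) z) - (m : ℝ) • V‖ ^ 2 ≤ m * e := by
  have h1 : ∀ m : ℕ, f (pt ((t : ℝ) + m) z) - f (pt (t : ℝ) z) - (m : ℝ) • V =
      ∑ r ∈ Finset.range m, (f (pt ((t : ℝ) + r + 1) z) - f (pt ((t : ℝ) + r) z) - V) := by
    intro m
    induction m with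
    | zero => simp
    | succ m ih =>
      rw [Finset.sum_range_succ, ← ih]
      push_cast
      rw [add_smul, one_smul, ← add_assoc]
      abel
  rw [h1]
  calc ‖∑ r ∈ Finset.range m, (f (pt ((t : ℝ) + r + 1) z) - f (pt ((t : ℝ) + r) z) - V)‖ ^ 2
      ≤ (∑ r ∈ Finset.range m, ‖f (pt ((t : ℝ) + r + 1) z) - f (pt ((t : ℝ) + r) z) - V‖) ^ 2 := by
        gcongr
        exact norm_sum_le _ _
    _ ≤ (Finset.range m).card * ∑ r ∈ Finset.range m,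
        ‖f (pt ((t : ℝ) + r + 1) z) - f (pt ((t : ℝ) + r) z) - V‖ ^ 2 := sq_sum_le_card_mul_sum_sq
    _ ≤ m * e := by
        rw [Finset.card_range]
        gcongr

/-- BASE: the empty configuration is realised -/
def BaseP (D : ℝ) (A : Set (PT G) → (PT G → F) → Prop) : Prop :=
  ∀ (i : ℕ) (θ : ℝ), Rz D A i 0 θ (Fin.elim0 : Fin 0 → G × F)

/-- STEP: birth of a new particle -/
def StepP (D : ℝ) (A : Set (PT G) → (PT G → F) → Prop) : Prop :=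
  ∀ (L k : ℕ) (s : Fin k → G × F) (x : G), x ≠ 0 → x ∉ range (fun i => (s i).1) →
    Pk 10 3 (insert x (range fun i => (s i).1)) →
    ∃ (err : ℕ → ℝ), Tendsto err atTop (𝓝 0) ∧ ∃ I : ℕ, ∀ i, I ≤ i → ∀ θ : ℝ, 0 ≤ θ →
      Rz D A i L θ s → ∃ y : F, ‖y‖ ≤ D * ‖x‖ ∧
        Rz D A i (L + 1) (θ + err i) (Fin.cons (x, y) s : Fin (k + 1) → G × F)

/-- the family -/
def SS (D : ℝ) (A : Set (PT G) → (PT G → F) → Prop) (k : ℕ) : Set (Fin k → G × F) :=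
  {s | ∃ L : ℕ, ∀ θ : ℝ, 0 < θ → ∃ᶠ i in atTop, Rz D A i L θ s}

end

/-- NUM: all numerical facts -/
def NumP : Prop := ∀ (D C d : ℝ) (L : ℕ), 1 ≤ D → 0 ≤ C → 0 < d → ∃ I : ℕ, ∀ i, I ≤ i →
  L + 1 < i ∧ tau i ≤ d ∧ tau i * (mm i (L + 1) : ℝ) ≤ d ∧ 2 * C ≤ (mm i (L + 1) : ℝ) / 100 ∧
  C ≤ (mm i 0 : ℝ) / 100 ∧ tau i * (mm i 0 : ℝ) ≤ d ∧
  (∀ t : ℕ, t ≤ N3 i + 1 + L * mm i 0 → 3 * (t + mm i (L + 1) + mm i 0) < 2 * NN i) ∧
  C ≤ cc * tau i * (NN i : ℝ) ∧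
  ((i : ℝ) + 1) / mm i L + (2 * C) ^ 2 / mm i (L + 1) ≤ ((i : ℝ) + 1) / mm i (L + 1) ∧
  (mm i (L + 1) : ℝ) * (eta i + D ^ 2 * (((i : ℝ) + 1) / mm i L + C ^ 2 / mm i 0)) ≤
    (1 + D ^ 2 * (1 + C ^ 2)) / ((i : ℝ) + 1)

end RFin
end Crest.LP
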