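import Crest.Agent.LP_RFINA

/-! rid 254 (S0392), module RFIN: the family of realised configurations. -/

set_option autoImplicit false
open Set Filter Topology

namespace Crest.LP
namespace RFin

section
variable {G F : Type} [NormedAddCommGroup G] [InnerProductSpace ℝ G]
  [NormedAddCommGroup F] [InnerProductSpace ℝ F]

theorem Rz.close {D : ℝ} {A : Set (PT G) → (PT G → F) → Prop} {i L : ℕ} {θ δ : ℝ} {k : ℕ}
    {s s' : Fin k → G × F} (h : Rz D A i L θ s)
    (hs : ∀ j, (s' j).1 = (s j).1 ∧ dist (s j).2 (s' j).2 ≤ δ) : Rz D A i L (θ + δ) s' := by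
  obtain ⟨M, a, b, lam, U, Ed, φ, t, h1, h2, h3, h4, h5⟩ := h
  refine ⟨M, a, b, lam, U, Ed, φ, t, h1, h2, h3, h4, fun j => ?_⟩
  obtain ⟨γ, g1, g2, g3, g4⟩ := h5 j
  obtain ⟨e1, e2⟩ := hs j
  refine ⟨γ, g1, by rw [g2, e1], g3, ?_⟩
  rw [e1]
  exact (dist_triangle _ _ _).trans (add_le_add g4 e2)

theorem prof_dist (a : PT G) (lam : ℝ) (U : PT G ≃ₗᵢ[ℝ] PT G) (φ : PT G → F) (t : ℕ) (x y : G) :
    dist (prof a lam U φ t x) (prof a lam U φ t y) =
      dist (ff a lam U φ (pt (t : ℝ) x)) (ff a lam U φ (pt (t : ℝ) y)) := by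
  unfold prof
  rw [dist_sub_right]

theorem Rz.dbl {D : ℝ} {A : Set (PT G) → (PT G → F) → Prop} {K₂ : ℕ} (hA : Online K₂ D A)
    {i L : ℕ} {θ : ℝ} {k : ℕ} {s : Fin k → G × F} (h : Rz D A i L θ s) (p q : Fin k) :
    dist (s p).1 (s q).1 ≤ dist (s p).2 (s q).2 + 2 * θ ∧
    dist (s p).2 (s q).2 ≤ D * dist (s p).1 (s q).1 + 2 * θ := by
  obtain ⟨M, a, b, lam, U, Ed, φ, t, h1, h2, h3, h4, h5⟩ := h
  have hv : ∀ j : Fin k, pt (t : ℝ) (s j).1 ∈ VPt Ed := by
    intro j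
    obtain ⟨γ, g1, g2, g3, g4⟩ := h5 j
    have := path_vert g1 (by omega)
    rw [g2] at this
    exact ⟨(t, (s j).1), this, rfl⟩
  have h6 := ff_dbl hA h1 _ _ (hv p) (hv q)
  rw [dist_pt, ← prof_dist] at h6
  obtain ⟨γ, _, _, _, g4⟩ := h5 p
  obtain ⟨γ', _, _, _, g4'⟩ := h5 q
  have e1 : dist (prof a lam U φ t (s p).1) (prof a lam U φ t (s q).1) ≤
      dist (s p).2 (s q).2 + 2 * θ := by
    have := dist_triangle4 (prof a lam U φ t (s p).1) (s p).2 (s q).2 (prof a lam U φ t (s q).1)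
    rw [dist_comm (s q).2 (prof a lam U φ t (s q).1)] at this
    linarith
  have e2 : dist (s p).2 (s q).2 ≤
      dist (prof a lam U φ t (s p).1) (prof a lam U φ t (s q).1) + 2 * θ := by
    have := dist_triangle4 (s p).2 (prof a lam U φ t (s p).1) (prof a lam U φ t (s q).1) (s q).2
    rw [dist_comm (s p).2 (prof a lam U φ t (s p).1)] at this
    linarith
  exact ⟨h6.1.trans e1, e2.trans (by linarith [h6.2])⟩

/-- adding a point that has a path -/
theorem Rz.cons_old {D : ℝ} {A : Set (PT G) → (PT G → F) → Prop}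
    {i L : ℕ} {θ : ℝ} {k : ℕ} {s : Fin k → G × F} (h : Rz D A i L θ s) (j : Fin k) :
    Rz D A i L θ (Fin.cons ((s j).1, (s j).2) s : Fin (k + 1) → G × F) := by
  obtain ⟨M, a, b, lam, U, Ed, φ, t, h1, h2, h3, h4, h5⟩ := h
  refine ⟨M, a, b, lam, U, Ed, φ, t, h1, h2, h3, h4, fun q => ?_⟩
  refine Fin.cases ?_ ?_ q
  · simpa using h5 j
  · intro q; simpa using h5 q

theorem Rz.cons_zero {D : ℝ} {A : Set (PT G) → (PT G → F) → Prop}
    {i L : ℕ} {θ : ℝ} (hθ : 0 ≤ θ) (hLi : L ≤ i) {k : ℕ} {s : Fin k → G × F} (h : Rz D A i L θ s) :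
    Rz D A i L θ (Fin.cons ((0 : G), (0 : F)) s : Fin (k + 1) → G × F) := by
  obtain ⟨M, a, b, lam, U, Ed, φ, t, h1, h2, h3, h4, h5⟩ := h
  refine ⟨M, a, b, lam, U, Ed, φ, t, h1, h2, h3, h4, fun q => ?_⟩
  refine Fin.cases ?_ ?_ q
  · have ht : t ≤ NN i := by
      have e1 : L * mm i 0 ≤ i * mm i 0 := Nat.mul_le_mul_right _ hLi
      have e2 : i * mm i 0 ≤ (i + 1) ^ 2 * mm i 0 := Nat.mul_le_mul_right _ (by nlinarith)
      have e3 : 1 ≤ (i + 1) ^ 2 * mm i 0 := Nat.one_le_iff_ne_zero.2 (by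
        have := mm_pos i 0
        positivity)
      have e4 : N3 i = 10 ^ 8 * ((i + 1) ^ 2 * mm i 0) := by unfold N3; ring
      unfold NN
      omega
    refine ⟨fun _ => 0, main_path h1.hon t ht, by simp, ?_, ?_⟩
    · rw [KE_zero]; positivity
    · simp only [Fin.cons_zero, prof, sub_self, dist_self]
      exact hθ
  · intro q; simpa using h5 q

theorem fam_of [FiniteDimensional ℝ F] (D : ℝ) (A : Set (PT G) → (PT G → F) → Prop)
    (hA : Online ((Psi 5) ^ 2) D A) (hB : BaseP D A) (hS : StepP D A) :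
    Fam0 G F D (SS D A) where
  empty := ⟨0, fun θ _ => (Eventually.of_forall fun i => hB i θ).frequently⟩
  restr := by
    rintro k j g s ⟨L, hL⟩
    exact ⟨L, fun θ hθ => (hL θ hθ).mono fun i h => h.comp g⟩
  dbl := by
    rintro k s ⟨L, hL⟩ p q
    constructor
    · apply le_of_forall_pos_le_add
      intro ε hε
      obtain ⟨i, hi⟩ := (hL (ε / 2) (by positivity)).exists
      have := (hi.dbl hA p q).1
      linarith
    · apply le_of_forall_pos_le_add
      intro ε hε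
      obtain ⟨i, hi⟩ := (hL (ε / 2) (by positivity)).exists
      have := (hi.dbl hA p q).2
      linarith
  ext := by
    rintro k s x ⟨L, hL⟩ hpk
    by_cases hxr : x ∈ range (fun i => (s i).1)
    · obtain ⟨j, hj⟩ := hxr
      simp only at hj
      subst hj
      exact ⟨(s j).2, L, fun θ hθ => (hL θ hθ).mono fun i h => h.cons_old j⟩
    by_cases hx0 : x = 0
    · subst hx0
      exact ⟨0, L, fun θ hθ => ((hL θ hθ).and_eventually (eventually_ge_atTop L)).mono
        fun i h => h.1.cons_zero hθ.le h.2⟩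
    obtain ⟨err, herr, I, hI⟩ := hS L k s x hx0 hxr hpk
    have hex : ∀ n : ℕ, ∃ i : ℕ, ∃ y : F, n ≤ i ∧ ‖y‖ ≤ D * ‖x‖ ∧
        Rz D A i (L + 1) (1 / ((n : ℝ) + 1) + err i) (Fin.cons (x, y) s : Fin (k + 1) → G × F) := by
      intro n
      have hpos : (0 : ℝ) < 1 / ((n : ℝ) + 1) := by positivity
      obtain ⟨i, hi, hR⟩ := (frequently_atTop.1 (hL _ hpos)) (max n I)
      obtain ⟨y, hy, hR'⟩ := hI i ((le_max_right _ _).trans hi) _ hpos.le hR
      exact ⟨i, y, (le_max_left _ _).trans hi, hy, hR'⟩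
    choose iN yN h1 h2 h3 using hex
    haveI : ProperSpace F := FiniteDimensional.proper_real F
    obtain ⟨y, _, φ, hφ, hlim⟩ := (isCompact_closedBall (0 : F) (D * ‖x‖)).tendsto_subseq
      (x := yN) (fun n => by simpa using h2 n)
    refine ⟨y, L + 1, fun θ hθ => ?_⟩
    rw [frequently_atTop]
    intro a
    have t1 : Tendsto (fun n => (1 : ℝ) / ((φ n : ℝ) + 1)) atTop (𝓝 0) :=
      (tendsto_one_div_add_atTop_nhds_zero_nat (𝕜 := ℝ)).comp hφ.tendsto_atTop
    have hiN : Tendsto iN atTop atTop := tendsto_atTop_mono h1 tendsto_id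
    have t2 : Tendsto (fun n => err (iN (φ n))) atTop (𝓝 0) :=
      herr.comp (hiN.comp hφ.tendsto_atTop)
    have t3 : Tendsto (fun n => dist (yN (φ n)) y) atTop (𝓝 0) := tendsto_iff_dist_tendsto_zero.1 hlim
    have t4 := (t1.add t2).add t3
    simp only [add_zero] at t4
    obtain ⟨n, hn1, hn2⟩ := ((t4.eventually (gt_mem_nhds hθ)).and
      ((hiN.comp hφ.tendsto_atTop).eventually (eventually_ge_atTop a))).exists
    refine ⟨iN (φ n), hn2, ?_⟩
    refine ((h3 (φ n)).close (δ := dist (yN (φ n)) y) ?_).mono hn1.le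
    intro j
    refine Fin.cases ?_ ?_ j
    · simp
    · intro j; simp

end

end RFin
end Crest.LP
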