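import Crest.Agent.LP_RFINA

/-! rid 254 (S0392), module RFIN: the base case. -/

set_option autoImplicit false
set_option linter.all false
open Set Filter Topology

namespace Crest.LP
namespace RFin

theorem base {G F : Type} [NormedAddCommGroup G] [InnerProductSpace ℝ G]
    [NormedAddCommGroup F] [InnerProductSpace ℝ F] (D : ℝ)
    (A : Set (PT G) → (PT G → F) → Prop) (hD : 1 ≤ D) (hA : Online ((Psi 5) ^ 2) D A)
    (hStart : START) : BaseP D A := by
  intro i θ
  obtain ⟨M, a, b, lam, U, φ, h⟩ := hStart G F D A hD hA (tau i) (eta i) (NN i) (tau_pos i)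
    (tau_le i) (eta_pos i) (NN_ge i)
  refine ⟨M, a, b, lam, U, mainE (NN i), φ, N3 i + 1, h, ?_, le_rfl, by omega, fun j => j.elim0⟩
  rintro j z w ⟨j', hj', he⟩ -
  simp only [Prod.mk.injEq] at he
  exact ⟨he.2.1, he.2.2⟩

end RFin
end Crest.LP
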