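import Crest.Agent.LP_RFINA

/-! rid 254 (S0392), module RFIN: numerical facts. -/

set_option autoImplicit false
open Set Filter Topology

namespace Crest.LP
namespace RFin

theorem num : NumP := by
  intro D C d L hD hC hd
  obtain ⟨I0, hI0⟩ := exists_nat_ge (1 / d + 200 * C + 4 * C ^ 2 + 1)
  refine ⟨I0 + L + 2, ?_⟩
  intro i hi
  have hLi : L + 1 < i := by omega
  have hi0 : (I0 : ℝ) + L + 2 ≤ i := by exact_mod_cast hi
  have hL0 : (0 : ℝ) ≤ L := Nat.cast_nonneg L
  have hd1 : 0 < 1 / d := by positivity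
  have hC2 : 0 ≤ C ^ 2 := sq_nonneg C
  -- n
  obtain ⟨n, hn⟩ : ∃ n : ℝ, n = (i : ℝ) + 1 := ⟨_, rfl⟩
  have hn1 : 1 ≤ n := by rw [hn]; linarith
  have hn0 : 0 < n := by linarith
  have hnd : 1 / d ≤ n := by rw [hn]; linarith
  have hnC : 200 * C ≤ n := by rw [hn]; linarith
  have hnC2 : 4 * C ^ 2 + 1 ≤ n := by rw [hn]; linarith
  obtain ⟨b, hb⟩ : ∃ b : ℝ, b = (mm i (L + 1) : ℝ) := ⟨_, rfl⟩
  obtain ⟨M0, hM0⟩ : ∃ M0 : ℝ, M0 = (mm i 0 : ℝ) := ⟨_, rfl⟩
  have hb1 : 1 ≤ b := by rw [hb]; exact mm_posR _ _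
  have hb0 : 0 < b := by linarith
  have hbn : n ≤ b := by
    have h1 : i + 1 ≤ mm i (L + 1) := by
      unfold mm
      calc i + 1 = (i + 1) ^ 1 := (pow_one _).symm
        _ ≤ (i + 1) ^ (3 * (i - (L + 1))) := Nat.pow_le_pow_right (Nat.succ_pos _) (by omega)
    rw [hn, hb]
    exact_mod_cast h1
  have hmL : (mm i L : ℝ) = n ^ 3 * b := by
    rw [mm_succ i L (by omega), hn, hb]
    push_cast
    ring
  have hM1 : n ^ 3 * b ≤ M0 := by
    rw [hn, hb, hM0]
    exact_mod_cast mm_zero i L (by omega)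
  have hn3 : n ≤ n ^ 3 := by
    calc n = n ^ 1 := (pow_one n).symm
      _ ≤ n ^ 3 := pow_le_pow_right₀ hn1 (by norm_num)
  have hn31 : 1 ≤ n ^ 3 := by linarith
  have hbM : b ≤ M0 := by
    calc b = 1 * b := (one_mul b).symm
      _ ≤ n ^ 3 * b := mul_le_mul_of_nonneg_right hn31 hb0.le
      _ ≤ M0 := hM1
  have hM00 : 0 < M0 := by linarith
  have htau : tau i = 1 / (100 * n * M0) := by unfold tau; rw [hn, hM0]
  have heta : eta i = 1 / (n * M0) := by unfold eta; rw [hn, hM0]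
  have h1n : 1 / n ≤ d := by
    rw [div_le_iff₀ hn0]
    have := mul_le_mul_of_nonneg_left hnd hd.le
    rw [mul_one_div_cancel hd.ne'] at this
    exact this
  have h6 : tau i * M0 ≤ d := by
    rw [htau]
    have : 1 / (100 * n * M0) * M0 = 1 / n / 100 := by field_simp
    rw [this]
    linarith
  have htp := (tau_pos i).le
  refine ⟨hLi, ?_, ?_, ?_, ?_, ?_, ?_, ?_, ?_, ?_⟩
  · calc tau i = tau i * 1 := (mul_one _).symm
      _ ≤ tau i * M0 := mul_le_mul_of_nonneg_left (by linarith) htp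
      _ ≤ d := h6
  · rw [← hb]
    exact (mul_le_mul_of_nonneg_left hbM htp).trans h6
  · rw [← hb]; linarith
  · rw [← hM0]; linarith
  · rw [← hM0]; exact h6
  · intro t ht
    have h1 : mm i (L + 1) ≤ mm i 0 := mm_le i (L + 1)
    have h2 : 1 ≤ mm i 0 := mm_pos i 0
    have h3 : 1 + L * mm i 0 + mm i (L + 1) + mm i 0 < N3 i := by
      have h4 : 1 + L * mm i 0 + mm i (L + 1) + mm i 0 ≤ (L + 3) * mm i 0 := by nlinarith
      have h5 : (L + 3) * mm i 0 < N3 i := by
        have h6 : L + 3 ≤ i + 1 := by omega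
        have h7 : i + 1 ≤ (i + 1) ^ 2 := by
          rw [pow_two]
          exact Nat.le_mul_of_pos_left _ (Nat.succ_pos _)
        have h8 : (i + 1) ^ 2 * mm i 0 < N3 i := by
          unfold N3
          rw [mul_assoc]
          have h9 : 0 < (i + 1) ^ 2 * mm i 0 := by positivity
          exact lt_mul_left h9 (by norm_num)
        calc (L + 3) * mm i 0 ≤ (i + 1) ^ 2 * mm i 0 :=
              Nat.mul_le_mul_right _ (h6.trans h7)
          _ < N3 i := h8
      exact lt_of_le_of_lt h4 h5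
    unfold NN
    omega
  · rw [cc_tau_NN, ← hn]; linarith
  · rw [← hb, hmL, ← hn]
    have h1 : n / (n ^ 3 * b) + (2 * C) ^ 2 / b = (1 / n ^ 2 + 4 * C ^ 2) / b := by
      field_simp
      ring
    rw [h1]
    apply div_le_div_of_nonneg_right _ hb0.le
    have h2 : 1 / n ^ 2 ≤ 1 := by
      rw [div_le_one (by positivity)]
      exact one_le_pow₀ hn1
    linarith
  · rw [← hb, hmL, ← hn, ← hM0, heta]
    have h1 : b / M0 ≤ 1 / n ^ 3 := by
      rw [div_le_div_iff₀ hM00 (by positivity)]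
      linarith
    have h2 : 1 / n ^ 3 ≤ 1 / n := one_div_le_one_div_of_le hn0 hn3
    have h3 : 1 / n ≤ 1 := by rw [div_le_one hn0]; exact hn1
    have h4 : b * (1 / (n * M0) + D ^ 2 * (n / (n ^ 3 * b) + C ^ 2 / M0)) =
        (b / M0) * (1 / n) + D ^ 2 * ((1 / n) * (1 / n) + C ^ 2 * (b / M0)) := by
      field_simp
    rw [h4]
    have h5 : (1 + D ^ 2 * (1 + C ^ 2)) / n = 1 / n + D ^ 2 * (1 / n + C ^ 2 * (1 / n)) := by
      field_simp
    rw [h5]
    have h6 : b / M0 ≤ 1 / n := h1.trans h2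
    have h7 : 0 < 1 / n := by positivity
    have h8 : (b / M0) * (1 / n) ≤ 1 / n := by
      calc (b / M0) * (1 / n) ≤ 1 * (1 / n) := by
            apply mul_le_mul_of_nonneg_right (by linarith) h7.le
        _ = 1 / n := one_mul _
    have h9 : (1 / n) * (1 / n) ≤ 1 / n := by
      calc (1 / n) * (1 / n) ≤ 1 * (1 / n) := by
            apply mul_le_mul_of_nonneg_right (by linarith) h7.le
        _ = 1 / n := one_mul _
    have h10 : C ^ 2 * (b / M0) ≤ C ^ 2 * (1 / n) := mul_le_mul_of_nonneg_left h6 hC2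
    have h11 : D ^ 2 * ((1 / n) * (1 / n) + C ^ 2 * (b / M0)) ≤
        D ^ 2 * (1 / n + C ^ 2 * (1 / n)) :=
      mul_le_mul_of_nonneg_left (by linarith) (sq_nonneg D)
    linarith

end RFin
end Crest.LP
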