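import Mathlib

set_option autoImplicit false
set_option linter.all false
open Finset

/-!
A (weak) Poincare inequality on the Johnson graph (used for S0453).
-/

namespace Crest.Agent.LSwJPP

variable {α : Type} [DecidableEq α]

/-- Johnson energy, ordered edges -/
noncomputable def EE (T : Finset α) (x : ℕ) (g : Finset α → ℝ) : ℝ :=
  ∑ X ∈ T.powersetCard x, ∑ c ∈ X, ∑ e ∈ T \ X, (g X - g (insert e (X.erase c))) ^ 2

/-- double counting -/
lemma dc (T : Finset α) (x : ℕ) (F : Finset α → α → ℝ) :
    ∑ X ∈ T.powersetCard x, ∑ c ∈ T \ X, F (insert c X) c =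
      ∑ Y ∈ T.powersetCard (x + 1), ∑ c ∈ Y, F Y c := by
  rw [Finset.sum_sigma', Finset.sum_sigma']
  refine Finset.sum_bij' (fun a _ => ⟨insert a.2 a.1, a.2⟩) (fun a _ => ⟨a.1.erase a.2, a.2⟩)
    ?_ ?_ ?_ ?_ ?_
  · rintro ⟨X, c⟩ h
    simp only [Finset.mem_sigma, Finset.mem_powersetCard, Finset.mem_sdiff] at h ⊢
    obtain ⟨⟨h1, h2⟩, h3, h4⟩ := h
    refine ⟨⟨Finset.insert_subset h3 h1, ?_⟩, Finset.mem_insert_self _ _⟩
    rw [Finset.card_insert_of_notMem h4, h2]
  · rintro ⟨Y, c⟩ h
    simp only [Finset.mem_sigma, Finset.mem_powersetCard, Finset.mem_sdiff] at h ⊢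
    obtain ⟨⟨h1, h2⟩, h3⟩ := h
    refine ⟨⟨(Finset.erase_subset _ _).trans h1, ?_⟩, h1 h3, Finset.notMem_erase _ _⟩
    rw [Finset.card_erase_of_mem h3, h2]; rfl
  · rintro ⟨X, c⟩ h
    simp only [Finset.mem_sigma, Finset.mem_powersetCard, Finset.mem_sdiff] at h
    simp only [Finset.erase_insert h.2.2]
  · rintro ⟨Y, c⟩ h
    simp only [Finset.mem_sigma, Finset.mem_powersetCard] at h
    simp only [Finset.insert_erase h.2]
  · rintro ⟨X, c⟩ h
    rfl

lemma sum_insert_powersetCard (T : Finset α) {e0 : α} (he : e0 ∉ T) (x : ℕ) (h : Finset α → ℝ) :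
    ∑ X ∈ (insert e0 T).powersetCard (x + 1), h X =
      ∑ X ∈ T.powersetCard (x + 1), h X + ∑ X ∈ T.powersetCard x, h (insert e0 X) := by
  rw [Finset.powersetCard_succ_insert he, Finset.sum_union]
  · congr 1
    rw [Finset.sum_image]
    intro X hX Y hY hXY
    have hX' : e0 ∉ X := fun h' => he ((Finset.mem_powersetCard.1 hX).1 h')
    have hY' : e0 ∉ Y := fun h' => he ((Finset.mem_powersetCard.1 hY).1 h')
    have := congrArg (fun Z => Z.erase e0) hXY
    simpa [Finset.erase_insert hX', Finset.erase_insert hY'] using this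
  · rw [Finset.disjoint_left]
    intro X hX hX'
    rw [Finset.mem_image] at hX'
    obtain ⟨Y, _, rfl⟩ := hX'
    exact he ((Finset.mem_powersetCard.1 hX).1 (Finset.mem_insert_self _ _))

/-- energy between the two parts -/
noncomputable def BT (T : Finset α) (x : ℕ) (e0 : α) (g : Finset α → ℝ) : ℝ :=
  ∑ X ∈ T.powersetCard x, ∑ c ∈ T \ X, (g (insert e0 X) - g (insert c X)) ^ 2

lemma EE_insert (T : Finset α) {e0 : α} (he : e0 ∉ T) (x : ℕ) (g : Finset α → ℝ) :
    EE (insert e0 T) (x + 1) g =
      EE T (x + 1) g + EE T x (fun X => g (insert e0 X)) + 2 * BT T x e0 g := by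
  unfold EE
  rw [sum_insert_powersetCard T he]
  -- the part not containing e0
  have h1 : ∑ X ∈ T.powersetCard (x + 1), ∑ c ∈ X, ∑ e ∈ insert e0 T \ X,
      (g X - g (insert e (X.erase c))) ^ 2 =
      ∑ X ∈ T.powersetCard (x + 1), ∑ c ∈ X, ∑ e ∈ T \ X, (g X - g (insert e (X.erase c))) ^ 2
      + BT T x e0 g := by
    have h2 : ∀ X ∈ T.powersetCard (x + 1), ∑ c ∈ X, ∑ e ∈ insert e0 T \ X,
        (g X - g (insert e (X.erase c))) ^ 2 =
        ∑ c ∈ X, ∑ e ∈ T \ X, (g X - g (insert e (X.erase c))) ^ 2 +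
        ∑ c ∈ X, (g X - g (insert e0 (X.erase c))) ^ 2 := by
      intro X hX
      have hX' : e0 ∉ X := fun h' => he ((Finset.mem_powersetCard.1 hX).1 h')
      rw [← Finset.sum_add_distrib]
      refine Finset.sum_congr rfl fun c _ => ?_
      rw [Finset.insert_sdiff_of_notMem _ hX', Finset.sum_insert, add_comm]
      intro h'
      exact he (Finset.mem_sdiff.1 h').1
    rw [Finset.sum_congr rfl h2, Finset.sum_add_distrib]
    congr 1
    rw [← dc T x (fun Y c => (g Y - g (insert e0 (Y.erase c))) ^ 2)]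
    unfold BT
    refine Finset.sum_congr rfl fun X hX => Finset.sum_congr rfl fun c hc => ?_
    rw [Finset.erase_insert (Finset.mem_sdiff.1 hc).2]
    ring
  have h3 : ∑ X ∈ T.powersetCard x, ∑ c ∈ insert e0 X, ∑ e ∈ insert e0 T \ insert e0 X,
      (g (insert e0 X) - g (insert e ((insert e0 X).erase c))) ^ 2 =
      ∑ X ∈ T.powersetCard x, ∑ c ∈ X, ∑ e ∈ T \ X,
        (g (insert e0 X) - g (insert e0 (insert e (X.erase c)))) ^ 2 + BT T x e0 g := by
    unfold BT
    rw [← Finset.sum_add_distrib]
    refine Finset.sum_congr rfl fun X hX => ?_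
    have hX' : e0 ∉ X := fun h' => he ((Finset.mem_powersetCard.1 hX).1 h')
    have hs : insert e0 T \ insert e0 X = T \ X := by
      ext a
      simp only [Finset.mem_sdiff, Finset.mem_insert]
      constructor
      · rintro ⟨h1 | h1, h2⟩
        · exact absurd (Or.inl h1) h2
        · exact ⟨h1, fun h => h2 (Or.inr h)⟩
      · rintro ⟨h1, h2⟩
        refine ⟨Or.inr h1, ?_⟩
        rintro (h | h)
        · rw [h] at h1; exact he h1
        · exact h2 h
    rw [Finset.sum_insert hX', hs, add_comm]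
    congr 1
    · refine Finset.sum_congr rfl fun c hc => Finset.sum_congr rfl fun e he' => ?_
      have hce : c ≠ e0 := by rintro rfl; exact hX' hc
      have : insert e ((insert e0 X).erase c) = insert e0 (insert e (X.erase c)) := by
        rw [Finset.erase_insert_of_ne hce.symm, Finset.insert_comm]
      rw [this]
    · refine Finset.sum_congr rfl fun e he' => ?_
      rw [Finset.erase_insert hX']
  rw [h1, h3]
  ring

lemma BT_nonneg (T : Finset α) (x : ℕ) (e0 : α) (g : Finset α → ℝ) : 0 ≤ BT T x e0 g :=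
  Finset.sum_nonneg fun _ _ => Finset.sum_nonneg fun _ _ => sq_nonneg _

lemma EE_nonneg (T : Finset α) (x : ℕ) (g : Finset α → ℝ) : 0 ≤ EE T x g :=
  Finset.sum_nonneg fun _ _ => Finset.sum_nonneg fun _ _ => Finset.sum_nonneg fun _ _ =>
    sq_nonneg _

/-- the coupling estimate -/
lemma coup (T : Finset α) (x : ℕ) (hx : x + 1 ≤ T.card) (e0 : α) (g : Finset α → ℝ) :
    ((T.card - x : ℕ) * ∑ X ∈ T.powersetCard x, g (insert e0 X)
      - (x + 1 : ℕ) * ∑ Y ∈ T.powersetCard (x + 1), g Y) ^ 2 ≤
    ((T.card.choose x : ℝ) * (T.card - x : ℕ)) * BT T x e0 g := by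
  have h1 : ∑ X ∈ T.powersetCard x, ∑ c ∈ T \ X, (g (insert e0 X) - g (insert c X)) =
      (T.card - x : ℕ) * ∑ X ∈ T.powersetCard x, g (insert e0 X)
      - (x + 1 : ℕ) * ∑ Y ∈ T.powersetCard (x + 1), g Y := by
    simp_rw [Finset.sum_sub_distrib]
    congr 1
    · rw [Finset.mul_sum]
      refine Finset.sum_congr rfl fun X hX => ?_
      obtain ⟨hX1, hX2⟩ := Finset.mem_powersetCard.1 hX
      rw [Finset.sum_const, Finset.card_sdiff_of_subset hX1, hX2, nsmul_eq_mul]
    · rw [dc T x (fun Y _ => g Y), Finset.mul_sum]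
      refine Finset.sum_congr rfl fun Y hY => ?_
      rw [Finset.sum_const, (Finset.mem_powersetCard.1 hY).2, nsmul_eq_mul]
  rw [← h1]
  unfold BT
  rw [Finset.sum_sigma', Finset.sum_sigma']
  have h2 := sq_sum_le_card_mul_sum_sq (s := (T.powersetCard x).sigma fun X => T \ X)
    (f := fun a => (g (insert e0 a.1) - g (insert a.2 a.1)))
  have h3 : (((T.powersetCard x).sigma fun X => T \ X).card : ℝ) =
      (T.card.choose x : ℝ) * (T.card - x : ℕ) := by
    rw [Finset.card_sigma]
    rw [Finset.sum_congr rfl (g := fun _ => T.card - x)]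
    · rw [Finset.sum_const, Finset.card_powersetCard, smul_eq_mul]
      push_cast; rfl
    · intro X hX
      obtain ⟨hX1, hX2⟩ := Finset.mem_powersetCard.1 hX
      rw [Finset.card_sdiff_of_subset hX1, hX2]
  rw [h3] at h2
  exact h2

/-- the inequality for general `g` -/
theorem gen (T : Finset α) : ∀ (x : ℕ) (g : Finset α → ℝ),
    (T.card.choose x : ℝ) * ∑ X ∈ T.powersetCard x, (g X) ^ 2
      - (∑ X ∈ T.powersetCard x, g X) ^ 2 ≤ (T.card.choose x : ℝ) * (EE T x g / 4) := by
  induction T using Finset.induction_on with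
  | empty =>
    intro x g
    rcases Nat.eq_zero_or_pos x with rfl | hx
    · simp [EE]
    · rw [Finset.powersetCard_eq_empty.2 (by simpa using hx)]
      have : ((∅ : Finset α).card.choose x : ℝ) = 0 := by
        rw [Finset.card_empty, Nat.choose_eq_zero_of_lt hx]; simp
      rw [this]; simp
  | insert e0 T he ih =>
    intro x g
    rcases x with _ | x
    · simp [EE]
    rw [Finset.card_insert_of_notMem he, sum_insert_powersetCard T he,
      sum_insert_powersetCard T he, EE_insert T he, Nat.choose_succ_succ]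
    have i1 := ih (x + 1) g
    have i2 := ih x (fun X => g (insert e0 X))
    set a : ℝ := (T.card.choose x : ℝ) with ha
    set b : ℝ := (T.card.choose (x + 1) : ℝ) with hb
    set Si := ∑ X ∈ T.powersetCard x, g (insert e0 X) with hSi
    set Qi := ∑ X ∈ T.powersetCard x, g (insert e0 X) ^ 2 with hQi
    set So := ∑ X ∈ T.powersetCard (x + 1), g X with hSo
    set Qo := ∑ X ∈ T.powersetCard (x + 1), g X ^ 2 with hQo
    set Ei := EE T x (fun X => g (insert e0 X)) with hEi
    set Eo := EE T (x + 1) g with hEo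
    have hEi0 : 0 ≤ Ei := EE_nonneg _ _ _
    have hEo0 : 0 ≤ Eo := EE_nonneg _ _ _
    have hB0 : 0 ≤ BT T x e0 g := BT_nonneg _ _ _ _
    push_cast
    rw [← ha, ← hb]
    by_cases hx : x + 1 ≤ T.card
    · have hc := coup T x hx e0 g
      have ha0 : 0 < a := by
        rw [ha]; exact_mod_cast Nat.choose_pos (by omega)
      have hb0 : 0 < b := by
        rw [hb]; exact_mod_cast Nat.choose_pos hx
      -- K = a (t - x) = b (x+1)
      have hK : a * ((T.card - x : ℕ) : ℝ) = b * ((x + 1 : ℕ) : ℝ) := by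
        rw [ha, hb]
        have := Nat.choose_succ_right_eq T.card x
        exact_mod_cast this.symm
      set u : ℝ := ((T.card - x : ℕ) : ℝ) with hu
      set v : ℝ := ((x + 1 : ℕ) : ℝ) with hv
      have hu1 : 1 ≤ u := by
        rw [hu]; exact_mod_cast (by omega : 1 ≤ T.card - x)
      have hv1 : 1 ≤ v := by
        rw [hv]; exact_mod_cast (by omega : 1 ≤ x + 1)
      rw [← ha] at hc
      -- (b Si - a So)^2 ≤ (a+b) /2 * a b BT... 
      have key : (b * Si - a * So) ^ 2 ≤ a * b * ((a + b) * (BT T x e0 g / 2)) := by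
        -- u Si - v So = (K/(ab)) (b Si - a So)
        have e1 : (u * Si - v * So) * a * b = (a * u) * (b * Si - a * So) := by
          have : v * b = a * u := by linarith
          calc (u * Si - v * So) * a * b = (a * u) * (b * Si) - (v * b) * (a * So) := by ring
            _ = _ := by rw [this]; ring
        have e2 : (a * u) ^ 2 * (b * Si - a * So) ^ 2 ≤ (a * b) ^ 2 * ((a * u) * BT T x e0 g) := by
          have : ((u * Si - v * So) * a * b) ^ 2 ≤ (a * b) ^ 2 * ((a * u) * BT T x e0 g) := by
            have := mul_le_mul_of_nonneg_left hc (by positivity : (0:ℝ) ≤ (a * b) ^ 2)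
            calc _ = (a * b) ^ 2 * (u * Si - v * So) ^ 2 := by ring
              _ ≤ _ := this
          calc _ = ((a * u) * (b * Si - a * So)) ^ 2 := by ring
            _ = ((u * Si - v * So) * a * b) ^ 2 := by rw [e1]
            _ ≤ _ := this
        have hau : 0 < a * u := by positivity
        have e3 : (a * u) * (b * Si - a * So) ^ 2 ≤ (a * b) ^ 2 * BT T x e0 g := by
          have : (a * u) * ((a * u) * (b * Si - a * So) ^ 2) ≤
              (a * u) * ((a * b) ^ 2 * BT T x e0 g) := by
            calc _ = (a * u) ^ 2 * (b * Si - a * So) ^ 2 := by ring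
              _ ≤ _ := e2
              _ = _ := by ring
          exact le_of_mul_le_mul_left this hau
        -- ab/(au) ≤ (a+b)/2 : 2 a b ≤ (a + b) a u ; a u = b v, so 2 b ≤ a u + b u = b v + b u
        have e4 : 2 * (a * b) ≤ (a + b) * (a * u) := by
          have : (a + b) * (a * u) = a * (b * (v + u)) := by
            calc (a + b) * (a * u) = a * (a * u) + a * (b * u) := by ring
              _ = a * (b * v) + a * (b * u) := by rw [hK]
              _ = _ := by ring
          rw [this]
          have hab : 0 < a * b := by positivity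
          nlinarith
        have e5 : (a * u) * (b * Si - a * So) ^ 2 ≤
            (a * u) * (a * b * ((a + b) * (BT T x e0 g / 2))) := by
          refine e3.trans ?_
          have hab : 0 ≤ a * b := by positivity
          have := mul_le_mul_of_nonneg_right e4 (by positivity : 0 ≤ a * b * BT T x e0 g)
          nlinarith
        exact le_of_mul_le_mul_left e5 hau
      have key2 : (a * b) * ((a + b) * (Qo + Qi) - (So + Si) ^ 2) ≤
          (a * b) * ((a + b) * ((Eo + Ei + 2 * BT T x e0 g) / 4)) := by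
        have j1 := mul_le_mul_of_nonneg_left i1 (by positivity : 0 ≤ a * (a + b))
        have j2 := mul_le_mul_of_nonneg_left i2 (by positivity : 0 ≤ b * (a + b))
        linarith
      exact le_of_mul_le_mul_left key2 (by positivity)
    · -- then b = 0
      have hb0 : b = 0 := by
        rw [hb, Nat.choose_eq_zero_of_lt (by omega)]; simp
      have hemp : T.powersetCard (x + 1) = ∅ := Finset.powersetCard_eq_empty.2 (by omega)
      have hSo0 : So = 0 := by rw [hSo, hemp, Finset.sum_empty]
      have hQo0 : Qo = 0 := by rw [hQo, hemp, Finset.sum_empty]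
      rw [hb0, hSo0, hQo0]
      have ha0 : 0 ≤ a := by rw [ha]; positivity
      have hm : 0 ≤ a * (Eo / 4 + BT T x e0 g / 2) := by positivity
      linarith

/-- the energy in the form of the specification -/
lemma EE_eq (T : Finset α) (x : ℕ) (g : Finset α → ℝ) :
    ∑ c ∈ T, ∑ e ∈ T.erase c, ∑ X ∈ (T.powersetCard x).filter (fun X => c ∈ X ∧ e ∉ X),
      (g X - g (insert e (X.erase c))) ^ 2 = EE T x g := by
  unfold EE
  have h1 : ∀ X ∈ T.powersetCard x, ∑ c ∈ X, ∑ e ∈ T \ X, (g X - g (insert e (X.erase c))) ^ 2 =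
      ∑ c ∈ T, ∑ e ∈ T.erase c, if (c ∈ X ∧ e ∉ X) then (g X - g (insert e (X.erase c))) ^ 2
        else 0 := by
    intro X hX
    have hX1 := (Finset.mem_powersetCard.1 hX).1
    rw [← Finset.sum_subset hX1]
    · refine Finset.sum_congr rfl fun c hc => ?_
      have hs : T \ X = (T.erase c).filter fun e => e ∉ X := by
        ext e
        simp only [Finset.mem_sdiff, Finset.mem_filter, Finset.mem_erase]
        constructor
        · rintro ⟨a1, a2⟩
          exact ⟨⟨fun h => a2 (h ▸ hc), a1⟩, a2⟩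
        · rintro ⟨⟨_, a1⟩, a2⟩
          exact ⟨a1, a2⟩
      rw [hs, Finset.sum_filter]
      refine Finset.sum_congr rfl fun e _ => ?_
      by_cases he : e ∉ X
      · rw [if_pos he, if_pos ⟨hc, he⟩]
      · rw [if_neg he, if_neg (fun h => he h.2)]
    · intro c _ hc
      refine Finset.sum_eq_zero fun e _ => ?_
      rw [if_neg (fun h => hc h.1)]
  rw [Finset.sum_congr rfl h1, Finset.sum_comm]
  refine Finset.sum_congr rfl fun c _ => ?_
  rw [Finset.sum_comm]
  refine Finset.sum_congr rfl fun e _ => ?_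
  rw [Finset.sum_filter]

theorem main (T : Finset α) (x : ℕ) (g : Finset α → ℝ)
    (hx : x ≤ T.card) (hg : ∑ X ∈ T.powersetCard x, g X = 0) :
    ∑ X ∈ T.powersetCard x, (g X) ^ 2 ≤ (∑ c ∈ T, ∑ e ∈ T.erase c,
      ∑ X ∈ (T.powersetCard x).filter (fun X => c ∈ X ∧ e ∉ X),
        (g X - g (insert e (X.erase c))) ^ 2) / 4 := by
  rw [EE_eq]
  have h := gen T x g
  rw [hg] at h
  have hc : (0:ℝ) < (T.card.choose x : ℝ) := by exact_mod_cast Nat.choose_pos hx
  have h' : (T.card.choose x : ℝ) * ∑ X ∈ T.powersetCard x, (g X) ^ 2 ≤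
      (T.card.choose x : ℝ) * (EE T x g / 4) := by simpa using h
  exact le_of_mul_le_mul_left h' hc

end Crest.Agent.LSwJPP
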