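import Mathlib

set_option autoImplicit false
set_option linter.all false
open Finset

/-!
Abstract partitions of a finite type and their conditional expectations (used for S0453).
-/

namespace Crest.Agent.LSwPart

variable {Ω : Type} [Fintype Ω] [DecidableEq Ω]

/-- a partition, given by its class function -/
structure Prt (c : Ω → Finset Ω) : Prop where
  refl : ∀ x, x ∈ c x
  eq : ∀ x y, y ∈ c x → c y = c x

lemma Prt.symm {c : Ω → Finset Ω} (h : Prt c) {x y : Ω} (hy : y ∈ c x) : x ∈ c y := by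
  rw [h.eq x y hy]; exact h.refl x

lemma Prt.trans {c : Ω → Finset Ω} (h : Prt c) {x y z : Ω} (hy : y ∈ c x) (hz : z ∈ c y) :
    z ∈ c x := by
  rw [← h.eq x y hy]; exact hz

lemma Prt.card_pos {c : Ω → Finset Ω} (h : Prt c) (x : Ω) : (0:ℝ) < ((c x).card : ℝ) := by
  have : 0 < (c x).card := Finset.card_pos.2 ⟨x, h.refl x⟩
  exact_mod_cast this

/-- conditional expectation -/
noncomputable def A (c : Ω → Finset Ω) : (Ω → ℝ) →ₗ[ℝ] (Ω → ℝ) where
  toFun f x := (∑ y ∈ c x, f y) / ((c x).card : ℝ)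
  map_add' f g := by
    funext x
    simp only [Pi.add_apply, Finset.sum_add_distrib, add_div]
  map_smul' a f := by
    funext x
    simp only [Pi.smul_apply, smul_eq_mul, RingHom.id_apply, ← Finset.mul_sum, mul_div_assoc]

lemma A_apply (c : Ω → Finset Ω) (f : Ω → ℝ) (x : Ω) :
    A c f x = (∑ y ∈ c x, f y) / ((c x).card : ℝ) := rfl

/-- inner product -/
noncomputable def ip (f g : Ω → ℝ) : ℝ := ∑ x, f x * g x

lemma ip_comm (f g : Ω → ℝ) : ip f g = ip g f := by
  unfold ip; exact Finset.sum_congr rfl fun x _ => mul_comm _ _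

lemma ip_add_left (f g h : Ω → ℝ) : ip (f + g) h = ip f h + ip g h := by
  unfold ip; rw [← Finset.sum_add_distrib]
  exact Finset.sum_congr rfl fun x _ => by simp only [Pi.add_apply]; ring

lemma ip_add_right (f g h : Ω → ℝ) : ip f (g + h) = ip f g + ip f h := by
  rw [ip_comm, ip_add_left, ip_comm g, ip_comm h]

lemma ip_sub_left (f g h : Ω → ℝ) : ip (f - g) h = ip f h - ip g h := by
  unfold ip; rw [← Finset.sum_sub_distrib]
  exact Finset.sum_congr rfl fun x _ => by simp only [Pi.sub_apply]; ring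

lemma ip_sub_right (f g h : Ω → ℝ) : ip f (g - h) = ip f g - ip f h := by
  rw [ip_comm, ip_sub_left, ip_comm g, ip_comm h]

lemma ip_self_nonneg (f : Ω → ℝ) : 0 ≤ ip f f :=
  Finset.sum_nonneg fun x _ => mul_self_nonneg _

lemma A_of_const {c : Ω → Finset Ω} (h : Prt c) {g : Ω → ℝ} {x : Ω}
    (hg : ∀ y ∈ c x, g y = g x) : A c g x = g x := by
  rw [A_apply, Finset.sum_congr rfl hg, Finset.sum_const, nsmul_eq_mul]
  field_simp [(h.card_pos x).ne']

lemma A_inv {c : Ω → Finset Ω} (h : Prt c) (f : Ω → ℝ) {x y : Ω} (hy : y ∈ c x) :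
    A c f y = A c f x := by
  rw [A_apply, A_apply, h.eq x y hy]

lemma A_symm {c : Ω → Finset Ω} (h : Prt c) (f g : Ω → ℝ) : ip (A c f) g = ip f (A c g) := by
  unfold ip
  have h1 : ∀ x, A c f x * g x = ∑ y, (if y ∈ c x then f y * g x / ((c x).card : ℝ) else 0) := by
    intro x
    rw [A_apply, ← Finset.sum_filter, Finset.filter_mem_eq_inter, Finset.univ_inter,
      div_mul_eq_mul_div, Finset.sum_mul, Finset.sum_div]
  have h2 : ∀ x, f x * A c g x = ∑ y, (if y ∈ c x then f x * g y / ((c x).card : ℝ) else 0) := by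
    intro x
    rw [A_apply, ← Finset.sum_filter, Finset.filter_mem_eq_inter, Finset.univ_inter,
      mul_div_assoc', Finset.mul_sum, Finset.sum_div]
  simp_rw [h1, h2]
  rw [Finset.sum_comm]
  refine Finset.sum_congr rfl fun x _ => Finset.sum_congr rfl fun y _ => ?_
  by_cases hxy : x ∈ c y
  · rw [if_pos hxy, if_pos (h.symm hxy), h.eq y x hxy]
  · rw [if_neg hxy, if_neg (fun h' => hxy (h.symm h'))]

lemma A_nest_left {c c' : Ω → Finset Ω} (h : Prt c) (h' : Prt c') (hs : ∀ x, c x ⊆ c' x)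
    (f : Ω → ℝ) : A c (A c' f) = A c' f := by
  funext x
  exact A_of_const h fun y hy => A_inv h' f (hs x hy)

lemma A_nest_right {c c' : Ω → Finset Ω} (h : Prt c) (h' : Prt c') (hs : ∀ x, c x ⊆ c' x)
    (f : Ω → ℝ) : A c' (A c f) = A c' f := by
  -- use self-adjointness against delta functions
  funext x
  have key : ∀ g : Ω → ℝ, ip (A c' (A c f)) g = ip (A c' f) g := by
    intro g
    rw [A_symm h', A_symm h, A_nest_left h h' hs, A_symm h']
  have := key (fun y => if y = x then 1 else 0)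
  simpa [ip] using this

lemma A_idem {c : Ω → Finset Ω} (h : Prt c) (f : Ω → ℝ) : A c (A c f) = A c f :=
  A_nest_left h h (fun _ => Finset.Subset.refl _) f

section comm

variable {c c' : Ω → Finset Ω} (h : Prt c) (h' : Prt c')
  (hT : ∀ x y, y ∈ c x → y ∈ c' x → y = x)
  (hD : ∀ x y z, y ∈ c x → z ∈ c' y → ∃ w ∈ c' x, z ∈ c w)

include h h' hT hD

lemma card_le {x y : Ω} (hy : y ∈ c x) : (c' y).card ≤ (c' x).card := by
  classical
  have hex : ∀ z, z ∈ c' y → ∃ w ∈ c' x, z ∈ c w := fun z hz => hD x y z hy hz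
  choose! F hF1 hF2 using hex
  refine Finset.card_le_card_of_injOn F (fun z hz => hF1 z hz) ?_
  intro z hz w hw hzw
  have hz' : z ∈ c' y := hz
  have hw' : w ∈ c' y := hw
  have h1 := hF2 z hz'
  have h2 := hF2 w hw'
  rw [hzw] at h1
  have h3 : z ∈ c w := h.trans (h.symm h2) h1
  have h4 : z ∈ c' w := h'.trans (h'.symm hw') hz'
  exact hT w z h3 h4

lemma card_eq {x y : Ω} (hy : y ∈ c x) : (c' y).card = (c' x).card :=
  le_antisymm (card_le h h' hT hD hy) (card_le h h' hT hD (h.symm hy))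

lemma comp_disj (x : Ω) : (↑(c x) : Set Ω).PairwiseDisjoint c' := by
  intro y hy z hz hyz
  have hy' : y ∈ c x := hy
  have hz' : z ∈ c x := hz
  rw [Function.onFun, Finset.disjoint_left]
  intro w hw hw'
  apply hyz
  have h1 : y ∈ c z := h.trans (h.symm hz') hy'
  have h2 : y ∈ c' z := h'.trans hw' (h'.symm hw)
  exact hT z y h1 h2

/-- the composite average -/
lemma comp_avg (f : Ω → ℝ) (x : Ω) :
    A c (A c' f) x = (∑ z ∈ (c x).biUnion c', f z) / (((c x).biUnion c').card : ℝ) := by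
  have hdis := comp_disj h h' hT hD x
  rw [Finset.sum_biUnion hdis, Finset.card_biUnion hdis]
  have h1 : ∑ y ∈ c x, (c' y).card = (c x).card * (c' x).card := by
    rw [Finset.sum_congr rfl fun y hy => card_eq h h' hT hD hy, Finset.sum_const, smul_eq_mul]
  rw [h1, A_apply]
  have h2 : ∀ y ∈ c x, A c' f y = (∑ z ∈ c' y, f z) / ((c' x).card : ℝ) := by
    intro y hy
    rw [A_apply, card_eq h h' hT hD hy]
  rw [Finset.sum_congr rfl h2, ← Finset.sum_div, div_div]
  push_cast
  rw [mul_comm]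

lemma comp_eq (x : Ω) : (c x).biUnion c' = (c' x).biUnion c := by
  ext z
  simp only [Finset.mem_biUnion]
  constructor
  · rintro ⟨y, hy, hz⟩
    obtain ⟨w, hw, hw'⟩ := hD x y z hy hz
    exact ⟨w, hw, hw'⟩
  · rintro ⟨y, hy, hz⟩
    obtain ⟨w, hw, hw'⟩ := hD z y x (h.symm hz) (h'.symm hy)
    exact ⟨w, h.symm hw', h'.symm hw⟩

theorem A_comm (f : Ω → ℝ) : A c (A c' f) = A c' (A c f) := by
  funext x
  rw [comp_avg h h' hT hD f x, comp_eq h h' hT hD x]
  refine (comp_avg h' h (fun x y hy hy' => hT x y hy' hy) ?_ f x).symm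
  intro x y z hy hz
  obtain ⟨w, hw, hw'⟩ := hD z y x (h.symm hz) (h'.symm hy)
  exact ⟨w, h.symm hw', h'.symm hw⟩

end comm

/-- commuting projections: `⟨(1-A)f,(1-A')f⟩ ≥ 0` -/
lemma comm_nonneg {c c' : Ω → Finset Ω} (h : Prt c) (h' : Prt c')
    (hc : ∀ f, A c (A c' f) = A c' (A c f)) (f : Ω → ℝ) :
    0 ≤ ip (f - A c f) (f - A c' f) := by
  have e : ip (f - A c f) (f - A c' f) =
      ip (f - A c f - A c' f + A c (A c' f)) (f - A c f - A c' f + A c (A c' f)) := by
    have i1 : A c (A c f) = A c f := A_idem h f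
    have i2 : A c' (A c' f) = A c' f := A_idem h' f
    have i3 := hc f
    have s1 : ∀ u v, ip (A c u) v = ip u (A c v) := A_symm h
    have s2 : ∀ u v, ip (A c' u) v = ip u (A c' v) := A_symm h'
    simp only [ip_add_left, ip_add_right, ip_sub_left, ip_sub_right]
    simp only [s1, s2, i1, i2, i3, A_idem h, A_idem h', hc]
    ring
  rw [e]
  exact ip_self_nonneg _

end Crest.Agent.LSwPart
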