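import Crest.Agent.LSwDefs
import Crest.Agent.LSwPart

set_option autoImplicit false
set_option linter.all false
open Finset

/-!
Structure of the blocks of `Om d` (used for S0453): row sums, orbits, merging.
-/

namespace Crest.Agent.LSwOrb

open Crest.Agent.LSw Crest.Agent.LSwPart

variable {n : ℕ} {d : Fin n → ℕ}

/-- number of neighbours of `i` in `S` -/
def sm (x : Om d) (i : Fin n) (S : Finset (Fin n)) : ℕ := ∑ j ∈ S, (x.1 i j).toNat

lemma sm_eq_card (x : Om d) (i : Fin n) (S : Finset (Fin n)) :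
    sm x i S = (S.filter fun j => x.1 i j = true).card := by
  unfold sm
  rw [Finset.card_filter]
  refine Finset.sum_congr rfl fun j _ => ?_
  cases x.1 i j <;> simp

lemma sm_univ (x : Om d) (i : Fin n) : sm x i univ = d i := by
  rw [sm_eq_card]; exact x.2.2.2 i

lemma symm (x : Om d) (i j : Fin n) : x.1 i j = x.1 j i := x.2.2.1 i j

lemma diag (x : Om d) (i : Fin n) : x.1 i i = false := x.2.1 i

lemma sm_add_compl (x : Om d) (i : Fin n) (S : Finset (Fin n)) :
    sm x i S + sm x i Sᶜ = d i := by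
  rw [← sm_univ x i]; unfold sm
  exact Finset.sum_add_sum_compl S _

lemma prt_cls (S : Finset (Fin n)) : Prt (cls (d := d) S) :=
  ⟨fun x => self_mem_cls S x, fun x y hy => cls_eq hy⟩

/-- (a) -/
lemma sm_p {p : Finset (Fin n)} {x y : Om d} (hy : y ∈ cls p x) {v : Fin n} (hv : v ∉ p) :
    sm y v p = sm x v p := by
  have h1 := sm_add_compl x v p
  have h2 := sm_add_compl y v p
  have h3 : sm x v pᶜ = sm y v pᶜ := by
    unfold sm
    refine Finset.sum_congr rfl fun j hj => ?_
    rw [mem_cls.1 hy v j hv (by simpa using hj)]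
  omega

/-- (b) -/
lemma pp_sum {p : Finset (Fin n)} {x y : Om d} (hy : y ∈ cls p x) :
    ∑ i ∈ p, sm y i p = ∑ i ∈ p, sm x i p := by
  have e : ∀ z : Om d, ∑ i ∈ p, sm z i p + ∑ v ∈ pᶜ, sm z v p = ∑ i ∈ p, d i := by
    intro z
    have : ∑ v ∈ pᶜ, sm z v p = ∑ i ∈ p, sm z i pᶜ := by
      unfold sm
      rw [Finset.sum_comm]
      exact Finset.sum_congr rfl fun i _ => Finset.sum_congr rfl fun j _ => by rw [symm z j i]
    rw [this, ← Finset.sum_add_distrib]
    exact Finset.sum_congr rfl fun i _ => sm_add_compl z i p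
  have h3 : ∑ v ∈ pᶜ, sm y v p = ∑ v ∈ pᶜ, sm x v p :=
    Finset.sum_congr rfl fun v hv => sm_p hy (by simpa using hv)
  have := e x
  have := e y
  omega

lemma pp {p : Finset (Fin n)} (hp : p.card = 2) {x y : Om d} (hy : y ∈ cls p x) :
    ∀ i ∈ p, ∀ j ∈ p, y.1 i j = x.1 i j := by
  obtain ⟨a, b, hab, rfl⟩ := Finset.card_eq_two.1 hp
  have h := pp_sum hy
  unfold sm at h
  simp only [Finset.sum_pair hab, diag, Bool.toNat_false, symm y b a, symm x b a] at h
  have h' : (y.1 a b).toNat = (x.1 a b).toNat := by omega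
  have h'' : y.1 a b = x.1 a b := by
    revert h'; cases y.1 a b <;> cases x.1 a b <;> simp
  intro i hi j hj
  simp only [Finset.mem_insert, Finset.mem_singleton] at hi hj
  rcases hi with rfl | rfl <;> rcases hj with rfl | rfl
  · rw [diag, diag]
  · exact h''
  · rw [symm y, symm x]; exact h''
  · rw [diag, diag]

/-- the orbit relation of a pair `(p,q)` of disjoint sets -/
structure Orb (p q : Finset (Fin n)) (x z : Om d) : Prop where
  out : ∀ i j, i ∉ p → i ∉ q → j ∉ p → j ∉ q → x.1 i j = z.1 i j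
  pp : ∀ i ∈ p, ∀ j ∈ p, x.1 i j = z.1 i j
  qq : ∀ i ∈ q, ∀ j ∈ q, x.1 i j = z.1 i j
  sp : ∀ v, v ∉ p → v ∉ q → sm x v p = sm z v p
  sq : ∀ v, v ∉ p → v ∉ q → sm x v q = sm z v q

lemma Orb.refl (p q : Finset (Fin n)) (x : Om d) : Orb p q x x :=
  ⟨fun _ _ _ _ _ _ => rfl, fun _ _ _ _ => rfl, fun _ _ _ _ => rfl, fun _ _ _ => rfl,
    fun _ _ _ => rfl⟩

lemma Orb.symm {p q : Finset (Fin n)} {x z : Om d} (h : Orb p q x z) : Orb p q z x :=
  ⟨fun i j a b c e => (h.out i j a b c e).symm, fun i hi j hj => (h.pp i hi j hj).symm,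
    fun i hi j hj => (h.qq i hi j hj).symm, fun v a b => (h.sp v a b).symm,
    fun v a b => (h.sq v a b).symm⟩

lemma Orb.trans {p q : Finset (Fin n)} {x y z : Om d} (h : Orb p q x y) (h' : Orb p q y z) :
    Orb p q x z :=
  ⟨fun i j a b c e => (h.out i j a b c e).trans (h'.out i j a b c e),
    fun i hi j hj => (h.pp i hi j hj).trans (h'.pp i hi j hj),
    fun i hi j hj => (h.qq i hi j hj).trans (h'.qq i hi j hj),
    fun v a b => (h.sp v a b).trans (h'.sp v a b),
    fun v a b => (h.sq v a b).trans (h'.sq v a b)⟩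

lemma Orb.swap {p q : Finset (Fin n)} {x z : Om d} (h : Orb p q x z) : Orb q p x z :=
  ⟨fun i j a b c e => h.out i j b a e c, h.qq, h.pp, fun v a b => h.sq v b a,
    fun v a b => h.sp v b a⟩

lemma orb_p {p q : Finset (Fin n)} (hp : p.card = 2) (hpq : Disjoint p q) {x y : Om d}
    (hy : y ∈ cls p x) : Orb p q x y := by
  have h := mem_cls.1 hy
  have hq : ∀ i ∈ q, i ∉ p := fun i hi hi' => (Finset.disjoint_left.1 hpq hi') hi
  refine ⟨fun i j a _ c _ => h i j a c, fun i hi j hj => (pp hp hy i hi j hj).symm,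
    fun i hi j hj => h i j (hq i hi) (hq j hj), fun v a _ => (sm_p hy a).symm, fun v a _ => ?_⟩
  unfold sm
  exact Finset.sum_congr rfl fun j hj => by rw [h v j a (hq j hj)]

lemma orb_q {p q : Finset (Fin n)} (hq : q.card = 2) (hpq : Disjoint p q) {x y : Om d}
    (hy : y ∈ cls q x) : Orb p q x y := (orb_p hq hpq.symm hy).swap

/-- total of the cross matrix -/
def tot (p q : Finset (Fin n)) (x : Om d) : ℕ := ∑ i ∈ p, sm x i q

lemma tot_swap (p q : Finset (Fin n)) (x : Om d) : tot p q x = tot q p x := by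
  unfold tot sm
  rw [Finset.sum_comm]
  exact Finset.sum_congr rfl fun i _ => Finset.sum_congr rfl fun j _ => by rw [symm x j i]

/-- merging two states of an orbit -/
lemma merge {p q : Finset (Fin n)} (hpq : Disjoint p q) {x z : Om d} (h : Orb p q x z)
    (m : Fin n → Fin n → Bool)
    (hr : ∀ i ∈ p, ∑ j ∈ q, (m i j).toNat = sm z i q)
    (hc : ∀ j ∈ q, ∑ i ∈ p, (m i j).toNat = sm x j p) :
    ∃ w : Om d, w ∈ cls p x ∧ z ∈ cls q w ∧ ∀ i ∈ p, ∀ j ∈ q, w.1 i j = m i j := by
  classical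
  have hp' : ∀ i ∈ p, i ∉ q := fun i hi hi' => (Finset.disjoint_left.1 hpq hi) hi'
  have hq' : ∀ i ∈ q, i ∉ p := fun i hi hi' => (Finset.disjoint_left.1 hpq hi') hi
  let w : Fin n → Fin n → Bool := fun i j =>
    if i ∈ p then (if j ∈ q then m i j else z.1 i j)
    else if j ∈ p then (if i ∈ q then m j i else z.1 i j) else x.1 i j
  have hw1 : ∀ a, w a a = false := by
    intro a
    by_cases ha : a ∈ p
    · simp only [w, if_pos ha, if_neg (hp' a ha), diag]
    · simp only [w, if_neg ha, diag]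
  have hw2 : ∀ a b, w a b = w b a := by
    intro a b
    by_cases ha : a ∈ p
    · by_cases hb : b ∈ p
      · simp only [w, if_pos ha, if_pos hb, if_neg (hp' a ha), if_neg (hp' b hb), symm z a b]
      · by_cases hb' : b ∈ q
        · simp only [w, if_pos ha, if_neg hb, if_pos hb']
        · simp only [w, if_pos ha, if_neg hb, if_neg hb', symm z a b]
    · by_cases hb : b ∈ p
      · by_cases ha' : a ∈ q
        · simp only [w, if_neg ha, if_pos hb, if_pos ha']
        · simp only [w, if_neg ha, if_pos hb, if_neg ha', symm z a b]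
      · simp only [w, if_neg ha, if_neg hb, symm x a b]
  have hw3 : ∀ a, (univ.filter fun b => w a b = true).card = d a := by
    intro a
    have hcard : (univ.filter fun b => w a b = true).card = ∑ b, (w a b).toNat := by
      rw [Finset.card_filter]
      refine Finset.sum_congr rfl fun j _ => ?_
      cases w a j <;> simp
    rw [hcard]
    by_cases ha : a ∈ p
    · rw [← Finset.sum_add_sum_compl q, ← sm_add_compl z a q]
      congr 1
      · rw [← hr a ha]
        refine Finset.sum_congr rfl fun j hj => ?_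
        simp only [w, if_pos ha, if_pos hj]
      · unfold sm
        refine Finset.sum_congr rfl fun j hj => ?_
        have hj' : j ∉ q := by simpa using hj
        simp only [w, if_pos ha, if_neg hj']
    · rw [← Finset.sum_add_sum_compl p, ← sm_add_compl x a p]
      congr 1
      · by_cases ha' : a ∈ q
        · rw [← hc a ha']
          refine Finset.sum_congr rfl fun j hj => ?_
          simp only [w, if_neg ha, if_pos hj, if_pos ha']
        · rw [h.sp a ha ha']
          unfold sm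
          refine Finset.sum_congr rfl fun j hj => ?_
          simp only [w, if_neg ha, if_pos hj, if_neg ha']
      · unfold sm
        refine Finset.sum_congr rfl fun j hj => ?_
        have hj' : j ∉ p := by simpa using hj
        simp only [w, if_neg ha, if_neg hj']
  refine ⟨⟨w, hw1, hw2, hw3⟩, ?_, ?_, ?_⟩
  · rw [mem_cls]
    intro a b ha hb
    simp only [w, if_neg ha, if_neg hb]
  · rw [mem_cls]
    intro a b ha hb
    by_cases ha' : a ∈ p
    · simp only [w, if_pos ha', if_neg hb]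
    · by_cases hb' : b ∈ p
      · simp only [w, if_neg ha', if_pos hb', if_neg ha]
      · simp only [w, if_neg ha', if_neg hb']
        exact h.out a b ha' ha hb' hb
  · intro i hi j hj
    simp only [w, if_pos hi, if_pos hj]

/-- the block of `x` with the cross matrix `p × q` frozen -/
def V (p q : Finset (Fin n)) (x : Om d) : Finset (Om d) :=
  (cls p x).filter fun y => ∀ i ∈ p, ∀ j ∈ q, y.1 i j = x.1 i j

lemma mem_V {p q : Finset (Fin n)} {x y : Om d} :
    y ∈ V p q x ↔ y ∈ cls p x ∧ ∀ i ∈ p, ∀ j ∈ q, y.1 i j = x.1 i j := by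
  unfold V; rw [Finset.mem_filter]

lemma prt_V (p q : Finset (Fin n)) : Prt (V (d := d) p q) := by
  refine ⟨fun x => mem_V.2 ⟨self_mem_cls p x, fun _ _ _ _ => rfl⟩, fun x y hy => ?_⟩
  obtain ⟨h1, h2⟩ := mem_V.1 hy
  ext z
  rw [mem_V, mem_V, cls_eq h1]
  refine and_congr_right fun _ => forall_congr' fun i => forall_congr' fun hi =>
    forall_congr' fun j => forall_congr' fun hj => ?_
  rw [h2 i hi j hj]

lemma cross_symm {p q : Finset (Fin n)} {x y : Om d}
    (h : ∀ i ∈ p, ∀ j ∈ q, y.1 i j = x.1 i j) : ∀ i ∈ q, ∀ j ∈ p, y.1 i j = x.1 i j := by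
  intro i hi j hj
  rw [symm y, symm x]; exact h j hj i hi

/-- a state of both blocks with the same cross matrix is the same -/
lemma triv {p q : Finset (Fin n)} (hpq : Disjoint p q) {x y : Om d} (h1 : y ∈ cls p x)
    (h2 : y ∈ cls q x) (h : ∀ i ∈ p, ∀ j ∈ q, y.1 i j = x.1 i j) : y = x := by
  have hp' : ∀ i ∈ p, i ∉ q := fun i hi hi' => (Finset.disjoint_left.1 hpq hi) hi'
  apply Subtype.ext
  funext a b
  by_cases ha : a ∈ p
  · by_cases hb : b ∈ q
    · exact h a ha b hb
    · exact (mem_cls.1 h2 a b (hp' a ha) hb).symm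
  · by_cases hb : b ∈ p
    · by_cases ha' : a ∈ q
      · exact cross_symm h a ha' b hb
      · exact (mem_cls.1 h2 a b ha' (hp' b hb)).symm
    · exact (mem_cls.1 h1 a b ha hb).symm

section diam

variable {p q : Finset (Fin n)} (hp : p.card = 2) (hq : q.card = 2) (hpq : Disjoint p q)

include hp hq hpq

/-- diamond for `(cls q, V p q)` -/
lemma diam {x y z : Om d} (hy : y ∈ cls q x) (hz : z ∈ V p q y) :
    ∃ w ∈ V p q x, z ∈ cls q w := by
  have hp' : ∀ i ∈ p, i ∉ q := fun i hi hi' => (Finset.disjoint_left.1 hpq hi) hi'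
  obtain ⟨hz1, hz2⟩ := mem_V.1 hz
  have ho : Orb p q x z := (orb_q hq hpq hy).trans (orb_p hp hpq hz1)
  obtain ⟨w, hw1, hw2, hw3⟩ := merge hpq ho x.1 (by
    intro i hi
    have h1 : sm y i q = sm x i q := sm_p hy (hp' i hi)
    have h2 : sm z i q = sm y i q := by
      unfold sm
      exact Finset.sum_congr rfl fun j hj => by rw [hz2 i hi j hj]
    rw [h2, h1]
    rfl) (by
    intro j hj
    unfold sm
    exact Finset.sum_congr rfl fun i _ => by rw [symm x j i])
  exact ⟨w, mem_V.2 ⟨hw1, hw3⟩, hw2⟩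

lemma V_cls_comm (f : Om d → ℝ) : A (V p q) (A (cls q) f) = A (cls q) (A (V p q) f) := by
  symm
  refine A_comm (prt_cls q) (prt_V p q) ?_ ?_ f
  · intro x y hy hy'
    obtain ⟨h1, h2⟩ := mem_V.1 hy'
    exact triv hpq h1 hy h2
  · intro x y z hy hz
    exact diam hp hq hpq hy hz

lemma V_V_comm (f : Om d → ℝ) : A (V p q) (A (V q p) f) = A (V q p) (A (V p q) f) := by
  symm
  refine A_comm (prt_V q p) (prt_V p q) ?_ ?_ f
  · intro x y hy hy'
    obtain ⟨h1, h2⟩ := mem_V.1 hy'
    obtain ⟨h3, h4⟩ := mem_V.1 hy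
    exact triv hpq h1 h3 h2
  · intro x y z hy hz
    obtain ⟨h3, h4⟩ := mem_V.1 hy
    obtain ⟨w, hw, hw'⟩ := diam hp hq hpq h3 hz
    refine ⟨w, hw, mem_V.2 ⟨hw', ?_⟩⟩
    obtain ⟨h5, h6⟩ := mem_V.1 hw
    obtain ⟨h7, h8⟩ := mem_V.1 hz
    intro i hi j hj
    rw [cross_symm h8 i hi j hj, h4 i hi j hj, cross_symm h6 i hi j hj]

/-- the switch classes -/
def M (p q : Finset (Fin n)) (x : Om d) : Finset (Om d) := cls p x ∩ cls q x

omit hp hq hpq in
lemma mem_M {x y : Om d} : y ∈ M p q x ↔ y ∈ cls p x ∧ y ∈ cls q x := by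
  unfold M; rw [Finset.mem_inter]

omit hp hq hpq in
lemma prt_M (p q : Finset (Fin n)) : Prt (M (d := d) p q) := by
  refine ⟨fun x => mem_M.2 ⟨self_mem_cls p x, self_mem_cls q x⟩, fun x y hy => ?_⟩
  obtain ⟨h1, h2⟩ := mem_M.1 hy
  unfold M
  rw [cls_eq h1, cls_eq h2]

lemma V_M_comm (f : Om d → ℝ) : A (V p q) (A (M p q) f) = A (M p q) (A (V p q) f) := by
  symm
  refine A_comm (prt_M p q) (prt_V p q) ?_ ?_ f
  · intro x y hy hy'
    obtain ⟨h1, h2⟩ := mem_V.1 hy'
    obtain ⟨h3, h4⟩ := mem_M.1 hy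
    exact triv hpq h1 h4 h2
  · intro x y z hy hz
    obtain ⟨h3, h4⟩ := mem_M.1 hy
    obtain ⟨w, hw, hw'⟩ := diam hp hq hpq h4 hz
    refine ⟨w, hw, mem_M.2 ⟨?_, hw'⟩⟩
    obtain ⟨h5, h6⟩ := mem_V.1 hw
    obtain ⟨h7, h8⟩ := mem_V.1 hz
    exact mem_cls_trans (mem_cls_symm h5) (mem_cls_trans h3 h7)

end diam

end Crest.Agent.LSwOrb
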