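import Crest.Agent.LSwPart

set_option autoImplicit false
set_option linter.all false
open Finset

/-!
Abstract form of the disjoint-pair inequality (used for S0453).
-/

namespace Crest.Agent.LSwPairAbs

open Crest.Agent.LSwPart

variable {Ω : Type} [Fintype Ω] [DecidableEq Ω]

lemma contr {c : Ω → Finset Ω} (h : Prt c) (g : Ω → ℝ) : ip (A c g) (A c g) ≤ ip g g := by
  have h1 : 0 ≤ ip (g - A c g) (g - A c g) := ip_self_nonneg _
  have h2 : ip (A c g) (A c g) = ip g (A c g) := by rw [A_symm h, A_idem h]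
  have h3 : ip (A c g) g = ip g (A c g) := ip_comm _ _
  rw [ip_sub_left, ip_sub_right, ip_sub_right] at h1
  linarith

lemma nest_mono {c c' : Ω → Finset Ω} (h : Prt c) (h' : Prt c') (hs : ∀ x, c x ⊆ c' x)
    (f : Ω → ℝ) : ip (A c' f) (A c' f) ≤ ip (A c f) (A c f) := by
  rw [← A_nest_right h h' hs f]
  exact contr h' _

lemma D_sq {c : Ω → Finset Ω} (h : Prt c) (f : Ω → ℝ) :
    ip (f - A c f) (f - A c f) = ip f f - ip (A c f) (A c f) := by
  have h2 : ip (A c f) (A c f) = ip f (A c f) := by rw [A_symm h, A_idem h]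
  have h3 : ip (A c f) f = ip f (A c f) := ip_comm _ _
  rw [ip_sub_left, ip_sub_right, ip_sub_right]
  linarith

lemma D_left {c : Ω → Finset Ω} (h : Prt c) (f : Ω → ℝ) :
    ip (f - A c f) f = ip f f - ip (A c f) (A c f) := by
  have h2 : ip (A c f) (A c f) = ip f (A c f) := by rw [A_symm h, A_idem h]
  have h3 : ip (A c f) f = ip f (A c f) := ip_comm _ _
  rw [ip_sub_left]
  linarith

/-- splitting along a projection commuting with both -/
lemma split {u c c' : Ω → Finset Ω} (hu : Prt u)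
    (h1 : ∀ f, A u (A c f) = A c (A u f)) (h2 : ∀ f, A u (A c' f) = A c' (A u f)) (f : Ω → ℝ) :
    ip (f - A c f) (f - A c' f) =
      ip (A u f - A c (A u f)) (A u f - A c' (A u f)) +
      ip ((f - A u f) - A c (f - A u f)) ((f - A u f) - A c' (f - A u f)) := by
  have s : ∀ a b, ip (A u a) b = ip a (A u b) := A_symm hu
  have i : ∀ a, A u (A u a) = A u a := A_idem hu
  simp only [map_sub, ip_sub_left, ip_sub_right]
  simp only [← h1, ← h2, s, i]
  ring

variable {cp cq vp vq cm : Ω → Finset Ω} {PM Z : Ω → Prop} [DecidablePred PM] [DecidablePred Z]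

/-- the combinatorial data -/
structure Data (cp cq vp vq cm : Ω → Finset Ω) (PM Z : Ω → Prop) [DecidablePred PM] : Prop where
  hcp : Prt cp
  hcq : Prt cq
  hvp : Prt vp
  hvq : Prt vq
  hcm : Prt cm
  vp_sub : ∀ x, vp x ⊆ cp x
  vq_sub : ∀ x, vq x ⊆ cq x
  cm_sub_p : ∀ x, cm x ⊆ cp x
  cm_sub_q : ∀ x, cm x ⊆ cq x
  vp_cq : ∀ f, A vp (A cq f) = A cq (A vp f)
  vq_cp : ∀ f, A vq (A cp f) = A cp (A vq f)
  vp_vq : ∀ f, A vp (A vq f) = A vq (A vp f)
  vp_cm : ∀ f, A vp (A cm f) = A cm (A vp f)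
  vq_cm : ∀ f, A vq (A cm f) = A cm (A vq f)
  PM_vp : ∀ x, PM x → ∀ y ∈ vp x, PM y
  PM_vq : ∀ x, PM x → ∀ y ∈ vq x, PM y
  PM_cm : ∀ x, PM x → ∀ y ∈ cm x, PM y
  cm_triv : ∀ x, ¬ PM x → ∀ y ∈ cm x, y = x
  cm_two : ∀ x, (cm x).card ≤ 2
  PM_Z : ∀ x, PM x → ¬ Z x
  Z_p : ∀ x, Z x → ∀ y ∈ cp x, Z y
  Z_q : ∀ x, Z x → ∀ y ∈ cq x, Z y
  Z_diam : ∀ x y z, Z x → y ∈ cp x → z ∈ cq y → ∃ w ∈ cq x, z ∈ cp w
  Z_triv : ∀ x y, Z x → y ∈ cp x → y ∈ cq x → y = x
  rest : ∀ x, ¬ PM x → ¬ Z x → cp x = vp x ∨ cq x = vq x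
  avg_p : ∀ x, PM x → ∀ f, A cm (A vp f) x =
    (∑ y ∈ (cp x).filter (fun y => PM y), f y) / (((cp x).filter (fun y => PM y)).card : ℝ)
  avg_q : ∀ x, PM x → ∀ f, A cm (A vq f) x =
    (∑ y ∈ (cq x).filter (fun y => PM y), f y) / (((cq x).filter (fun y => PM y)).card : ℝ)

/-- restriction of a partition to an invariant set -/
def rs (c : Ω → Finset Ω) (Z : Ω → Prop) [DecidablePred Z] (x : Ω) : Finset Ω :=
  if Z x then c x else {x}

lemma rs_prt {c : Ω → Finset Ω} (h : Prt c) (hZ : ∀ x, Z x → ∀ y ∈ c x, Z y) :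
    Prt (rs c Z) := by
  constructor
  · intro x
    unfold rs
    split_ifs
    · exact h.refl x
    · simp
  · intro x y hy
    unfold rs at hy ⊢
    by_cases hx : Z x
    · rw [if_pos hx] at hy ⊢
      rw [if_pos (hZ x hx y hy)]
      exact h.eq x y hy
    · rw [if_neg hx] at hy
      rw [Finset.mem_singleton] at hy
      rw [hy]

lemma Z_part (H : Data cp cq vp vq cm PM Z) (g : Ω → ℝ) :
    0 ≤ ∑ x, (if Z x then (g x - A cp g x) * (g x - A cq g x) else 0) := by
  have hp := rs_prt H.hcp H.Z_p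
  have hq := rs_prt H.hcq H.Z_q
  have hcomm : ∀ f, A (rs cp Z) (A (rs cq Z) f) = A (rs cq Z) (A (rs cp Z) f) := by
    intro f
    apply A_comm hp hq
    · intro x y hy hy'
      unfold rs at hy hy'
      by_cases hx : Z x
      · rw [if_pos hx] at hy hy'
        exact H.Z_triv x y hx hy hy'
      · rw [if_neg hx, Finset.mem_singleton] at hy
        exact hy
    · intro x y z hy hz
      unfold rs at hy
      by_cases hx : Z x
      · rw [if_pos hx] at hy
        have hZy : Z y := H.Z_p x hx y hy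
        unfold rs at hz
        rw [if_pos hZy] at hz
        obtain ⟨w, hw, hw'⟩ := H.Z_diam x y z hx hy hz
        refine ⟨w, ?_, ?_⟩
        · unfold rs; rw [if_pos hx]; exact hw
        · unfold rs; rw [if_pos (H.Z_q x hx w hw)]; exact hw'
      · rw [if_neg hx, Finset.mem_singleton] at hy
        subst hy
        unfold rs at hz
        rw [if_neg hx, Finset.mem_singleton] at hz
        subst hz
        refine ⟨z, hq.refl z, hp.refl z⟩
  have := comm_nonneg hp hq hcomm g
  refine le_of_le_of_eq this ?_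
  unfold ip
  refine Finset.sum_congr rfl fun x _ => ?_
  by_cases hx : Z x
  · rw [if_pos hx]
    simp only [Pi.sub_apply, A_apply, rs, if_pos hx]
  · rw [if_neg hx]
    simp only [Pi.sub_apply, A_apply, rs, if_neg hx]
    simp

lemma sum_PM_contr {v : Ω → Finset Ω} (hv : Prt v) (hPM : ∀ x, PM x → ∀ y ∈ v x, PM y)
    (h : Ω → ℝ) :
    ∑ x, (if PM x then (A v h x) ^ 2 else 0) ≤ ∑ x, (if PM x then (h x) ^ 2 else 0) := by
  have h1 := contr hv (fun x => if PM x then h x else 0)
  have h2 : ∀ x, A v (fun x => if PM x then h x else 0) x = if PM x then A v h x else 0 := by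
    intro x
    rw [A_apply, A_apply]
    by_cases hx : PM x
    · rw [if_pos hx]
      congr 1
      exact Finset.sum_congr rfl fun y hy => by rw [if_pos (hPM x hx y hy)]
    · rw [if_neg hx]
      rw [Finset.sum_eq_zero, zero_div]
      intro y hy
      rw [if_neg]
      intro hy'
      exact hx (hPM y hy' x (hv.symm hy))
  unfold ip at h1
  simp only [h2] at h1
  calc _ = ∑ x, (if PM x then A v h x else 0) * (if PM x then A v h x else 0) := by
        refine Finset.sum_congr rfl fun x _ => ?_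
        split_ifs <;> ring
    _ ≤ _ := h1
    _ = _ := by
        refine Finset.sum_congr rfl fun x _ => ?_
        split_ifs <;> ring

/-- the pattern level inequality on `PM` states: bounding one of the two squares -/
lemma PM_sq {cp vp vq cm : Ω → Finset Ω} (hcp : Prt cp) (hvp : Prt vp) (hvq : Prt vq)
    (hcm : Prt cm) (vp_sub : ∀ x, vp x ⊆ cp x) (cm_sub : ∀ x, cm x ⊆ cp x)
    (vq_cp : ∀ f, A vq (A cp f) = A cp (A vq f))
    (vp_vq : ∀ f, A vp (A vq f) = A vq (A vp f))
    (vq_cm : ∀ f, A vq (A cm f) = A cm (A vq f))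
    (PM_vq : ∀ x, PM x → ∀ y ∈ vq x, PM y)
    (avg_p : ∀ x, PM x → ∀ f, A cm (A vp f) x =
      (∑ y ∈ (cp x).filter (fun y => PM y), f y) / (((cp x).filter (fun y => PM y)).card : ℝ))
    (f : Ω → ℝ) :
    ∑ x, (if PM x then (A cm (A vp (A vq f)) x - A cp (A vp (A vq f)) x) ^ 2 else 0) ≤
      ∑ x, (if PM x then ((∑ y ∈ (cp x).filter (fun y => PM y), (f y - A cp f y)) /
        (((cp x).filter (fun y => PM y)).card : ℝ)) ^ 2 else 0) := by
  have e1 : ∀ x, A cm (A vp (A vq f)) x - A cp (A vp (A vq f)) x =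
      A vq (A cm (A vp (f - A cp f))) x := by
    intro x
    have : A cm (A vp (A vq f)) - A cp (A vp (A vq f)) = A vq (A cm (A vp (f - A cp f))) := by
      simp only [map_sub]
      rw [vq_cm, ← vp_vq f, A_nest_left hvp hcp vp_sub, A_nest_left hcm hcp cm_sub, vq_cp,
        A_nest_right hvp hcp vp_sub]
    exact congrFun this x
  simp only [e1]
  refine (sum_PM_contr hvq PM_vq _).trans (le_of_eq ?_)
  refine Finset.sum_congr rfl fun x _ => ?_
  by_cases hx : PM x
  · rw [if_pos hx, if_pos hx, avg_p x hx]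
    rfl
  · rw [if_neg hx, if_neg hx]

/-- the pattern level -/
lemma pattern (H : Data cp cq vp vq cm PM Z) (f : Ω → ℝ) (g : Ω → ℝ) (hg : g = A vp (A vq f)) :
    ip (g - A cm g) (g - A cm g)
      - (∑ x, (if PM x then ((∑ y ∈ (cp x).filter (fun y => PM y), (f y - A cp f y)) /
        (((cp x).filter (fun y => PM y)).card : ℝ)) ^ 2 else 0)) / 2
      - (∑ x, (if PM x then ((∑ y ∈ (cq x).filter (fun y => PM y), (f y - A cq f y)) /
        (((cq x).filter (fun y => PM y)).card : ℝ)) ^ 2 else 0)) / 2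
      ≤ ip (g - A cp g) (g - A cq g) := by
  have hgp : A vp g = g := by rw [hg, A_idem H.hvp]
  have hgq : A vq g = g := by rw [hg, H.vp_vq, A_idem H.hvq]
  have b1 := PM_sq (PM := PM) H.hcp H.hvp H.hvq H.hcm H.vp_sub H.cm_sub_p H.vq_cp H.vp_vq
    H.vq_cm H.PM_vq H.avg_p f
  have b2 := PM_sq (PM := PM) H.hcq H.hvq H.hvp H.hcm H.vq_sub H.cm_sub_q H.vp_cq
    (fun f => (H.vp_vq f).symm) H.vp_cm H.PM_vp H.avg_q f
  rw [← hg] at b1
  rw [← H.vp_vq, ← hg] at b2
  -- decomposition of the sum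
  have dec : ip (g - A cp g) (g - A cq g) =
      (∑ x, (if PM x then (g x - A cp g x) * (g x - A cq g x) else 0)) +
      ∑ x, (if Z x then (g x - A cp g x) * (g x - A cq g x) else 0) := by
    rw [← Finset.sum_add_distrib]
    unfold ip
    refine Finset.sum_congr rfl fun x _ => ?_
    simp only [Pi.sub_apply]
    by_cases hx : PM x
    · rw [if_pos hx, if_neg (H.PM_Z x hx), add_zero]
    · by_cases hz : Z x
      · rw [if_neg hx, if_pos hz, zero_add]
      · rw [if_neg hx, if_neg hz, add_zero]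
        rcases H.rest x hx hz with h | h
        · have : A cp g x = g x := by
            rw [A_apply, h, ← A_apply, hgp]
          rw [this, sub_self, zero_mul]
        · have : A cq g x = g x := by
            rw [A_apply, h, ← A_apply, hgq]
          rw [this, sub_self, mul_zero]
  -- the PM part
  have hw0 : ∀ x, ¬ PM x → g x - A cm g x = 0 := by
    intro x hx
    rw [A_of_const H.hcm (fun y hy => by rw [H.cm_triv x hx y hy]), sub_self]
  have cross : ∑ x, (if PM x then (g x - A cm g x) *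
      ((A cm g x - A cp g x) + (A cm g x - A cq g x)) else 0) = 0 := by
    set k : Ω → ℝ := fun x => if PM x then ((A cm g x - A cp g x) + (A cm g x - A cq g x)) else 0
      with hk
    have hkc : ∀ x, ∀ y ∈ cm x, k y = k x := by
      intro x y hy
      have e1 : A cm g y = A cm g x := A_inv H.hcm g hy
      have e2 : A cp g y = A cp g x := A_inv H.hcp g (H.cm_sub_p x hy)
      have e3 : A cq g y = A cq g x := A_inv H.hcq g (H.cm_sub_q x hy)
      simp only [hk, e1, e2, e3]
      by_cases hx : PM x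
      · rw [if_pos hx, if_pos (H.PM_cm x hx y hy)]
      · rw [if_neg hx, if_neg (fun h => hx (H.PM_cm y h x (H.hcm.symm hy)))]
    have hkk : A cm k = k := by
      funext x; exact A_of_const H.hcm (hkc x)
    have : ip (g - A cm g) k = 0 := by
      rw [ip_sub_left, A_symm H.hcm, hkk, sub_self]
    refine Eq.trans ?_ this
    unfold ip
    refine Finset.sum_congr rfl fun x _ => ?_
    simp only [hk, Pi.sub_apply]
    split_ifs <;> ring
  have pm : ip (g - A cm g) (g - A cm g)
      - (∑ x, (if PM x then (A cm g x - A cp g x) ^ 2 else 0)) / 2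
      - (∑ x, (if PM x then (A cm g x - A cq g x) ^ 2 else 0)) / 2 ≤
      ∑ x, (if PM x then (g x - A cp g x) * (g x - A cq g x) else 0) := by
    have e : ∑ x, (if PM x then (g x - A cp g x) * (g x - A cq g x) else 0) =
        ip (g - A cm g) (g - A cm g) + ∑ x, (if PM x then (g x - A cm g x) *
      ((A cm g x - A cp g x) + (A cm g x - A cq g x)) else 0) +
        ∑ x, (if PM x then (A cm g x - A cp g x) * (A cm g x - A cq g x) else 0) := by
      unfold ip
      rw [← Finset.sum_add_distrib, ← Finset.sum_add_distrib]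
      refine Finset.sum_congr rfl fun x _ => ?_
      simp only [Pi.sub_apply]
      by_cases hx : PM x
      · simp only [if_pos hx]; ring
      · simp only [if_neg hx, hw0 x hx]; ring
    rw [e, cross]
    have : 0 ≤ (∑ x, (if PM x then (A cm g x - A cp g x) ^ 2 else 0)) / 2 +
        (∑ x, (if PM x then (A cm g x - A cq g x) ^ 2 else 0)) / 2 +
        ∑ x, (if PM x then (A cm g x - A cp g x) * (A cm g x - A cq g x) else 0) := by
      rw [Finset.sum_div, Finset.sum_div, ← Finset.sum_add_distrib, ← Finset.sum_add_distrib]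
      refine Finset.sum_nonneg fun x _ => ?_
      split_ifs
      · nlinarith [sq_nonneg ((A cm g x - A cp g x) + (A cm g x - A cq g x))]
      · norm_num
    linarith
  have hZ := Z_part H g
  rw [dec]
  linarith

/-- the energy is controlled by `D_m` -/
lemma en_le (hcm : Prt cm) (h2 : ∀ x, (cm x).card ≤ 2) (f : Ω → ℝ) :
    ∑ x, ∑ y ∈ cm x, (f x - f y) ^ 2 ≤ 4 * ip (f - A cm f) (f - A cm f) := by
  have e1 : ∀ x, ∑ y ∈ cm x, (f x - f y) ^ 2 =
      ((cm x).card : ℝ) * (f x - A cm f x) ^ 2 + ∑ y ∈ cm x, (f y - A cm f y) ^ 2 := by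
    intro x
    have hm : ∀ y ∈ cm x, A cm f y = A cm f x := fun y hy => A_inv hcm f hy
    have hs : ∑ y ∈ cm x, (f y - A cm f x) = 0 := by
      rw [Finset.sum_sub_distrib, Finset.sum_const, nsmul_eq_mul, A_apply]
      field_simp [(hcm.card_pos x).ne']
      ring
    have : ∀ y ∈ cm x, (f x - f y) ^ 2 = (f x - A cm f x) ^ 2
        - 2 * (f x - A cm f x) * (f y - A cm f x) + (f y - A cm f y) ^ 2 := by
      intro y hy
      rw [hm y hy]; ring
    rw [Finset.sum_congr rfl this, Finset.sum_add_distrib, Finset.sum_sub_distrib,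
      Finset.sum_const, nsmul_eq_mul, ← Finset.mul_sum, hs]
    ring
  have e2 : ∑ x, ∑ y ∈ cm x, (f y - A cm f y) ^ 2 =
      ∑ x, ((cm x).card : ℝ) * (f x - A cm f x) ^ 2 := by
    have : ∀ x, ∑ y ∈ cm x, (f y - A cm f y) ^ 2 =
        ∑ y, (if y ∈ cm x then (f y - A cm f y) ^ 2 else 0) := by
      intro x
      rw [← Finset.sum_filter, Finset.filter_mem_eq_inter, Finset.univ_inter]
    simp_rw [this]
    rw [Finset.sum_comm]
    refine Finset.sum_congr rfl fun y _ => ?_
    have : ∀ x, (if y ∈ cm x then (f y - A cm f y) ^ 2 else 0) =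
        if x ∈ cm y then (f y - A cm f y) ^ 2 else 0 := by
      intro x
      by_cases hx : y ∈ cm x
      · rw [if_pos hx, if_pos (hcm.symm hx)]
      · rw [if_neg hx, if_neg (fun h => hx (hcm.symm h))]
    simp_rw [this]
    rw [← Finset.sum_filter, Finset.filter_mem_eq_inter, Finset.univ_inter, Finset.sum_const,
      nsmul_eq_mul]
  rw [Finset.sum_congr rfl fun x _ => e1 x, Finset.sum_add_distrib, e2]
  unfold ip
  rw [← Finset.sum_add_distrib, Finset.mul_sum]
  refine Finset.sum_le_sum fun x _ => ?_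
  have hc : ((cm x).card : ℝ) ≤ 2 := by exact_mod_cast h2 x
  simp only [Pi.sub_apply]
  nlinarith [sq_nonneg (f x - A cm f x)]

theorem main (H : Data cp cq vp vq cm PM Z) (f : Ω → ℝ) :
    (∑ x, ∑ y ∈ cm x, (f x - f y) ^ 2) / 4
      - (∑ x, (if PM x then ((∑ y ∈ (cp x).filter (fun y => PM y), (f y - A cp f y)) /
        (((cp x).filter (fun y => PM y)).card : ℝ)) ^ 2 else 0)) / 2
      - (∑ x, (if PM x then ((∑ y ∈ (cq x).filter (fun y => PM y), (f y - A cq f y)) /
        (((cq x).filter (fun y => PM y)).card : ℝ)) ^ 2 else 0)) / 2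
      ≤ ip (f - A cp f) (f - A cq f) := by
  have hen := en_le H.hcm H.cm_two f
  have vqcq : ∀ f, A vq (A cq f) = A cq (A vq f) := fun f => by
    rw [A_nest_left H.hvq H.hcq H.vq_sub, A_nest_right H.hvq H.hcq H.vq_sub]
  have vpcp : ∀ f, A vp (A cp f) = A cp (A vp f) := fun f => by
    rw [A_nest_left H.hvp H.hcp H.vp_sub, A_nest_right H.hvp H.hcp H.vp_sub]
  have s1 := split H.hvq H.vq_cp vqcq f
  have s1m := split H.hvq H.vq_cm H.vq_cm f
  have s2 := split H.hvp vpcp H.vp_cq (A vq f)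
  have s2m := split H.hvp H.vp_cm H.vp_cm (A vq f)
  -- the `h` part
  have t1 : ip ((f - A vq f) - A cm (f - A vq f)) ((f - A vq f) - A cm (f - A vq f)) ≤
      ip ((f - A vq f) - A cp (f - A vq f)) ((f - A vq f) - A cq (f - A vq f)) := by
    have z : A cq (f - A vq f) = 0 := by
      rw [map_sub, A_nest_right H.hvq H.hcq H.vq_sub, sub_self]
    rw [z, sub_zero, D_sq H.hcm, D_left H.hcp]
    have := nest_mono H.hcm H.hcp H.cm_sub_p (f - A vq f)
    linarith
  have t2 : ip ((A vq f - A vp (A vq f)) - A cm (A vq f - A vp (A vq f)))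
        ((A vq f - A vp (A vq f)) - A cm (A vq f - A vp (A vq f))) ≤
      ip ((A vq f - A vp (A vq f)) - A cp (A vq f - A vp (A vq f)))
        ((A vq f - A vp (A vq f)) - A cq (A vq f - A vp (A vq f))) := by
    have z : A cp (A vq f - A vp (A vq f)) = 0 := by
      rw [map_sub, A_nest_right H.hvp H.hcp H.vp_sub, sub_self]
    rw [z, sub_zero, D_sq H.hcm, ip_comm _ (_ - A cq _), D_left H.hcq]
    have := nest_mono H.hcm H.hcq H.cm_sub_q (A vq f - A vp (A vq f))
    linarith
  have t3 := pattern H f _ rfl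
  linarith

end Crest.Agent.LSwPairAbs
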