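import Crest.Agent.LSwSpec
import Crest.Agent.LSwOrb
import Crest.Agent.LSwPairAbs

set_option autoImplicit false
set_option linter.all false
open Finset

/-!
The disjoint pair inequality (module `Pair` of S0453).
-/

namespace Crest.Agent.LSwPair

open Crest.Agent.LSw Crest.Agent.LSwPart Crest.Agent.LSwOrb

/-! finite facts about 2×2 matrices -/

lemma b1 : ∀ x1 x2 x3 x4 y1 y2 y3 y4 : Bool,
    y1.toNat + y2.toNat = x1.toNat + x2.toNat → y3.toNat + y4.toNat = x3.toNat + x4.toNat →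
    y1.toNat + y3.toNat = x1.toNat + x3.toNat → y2.toNat + y4.toNat = x2.toNat + x4.toNat →
    ¬ ((x1.toNat + x2.toNat = 1 ∧ x3.toNat + x4.toNat = 1) ∧
      (x1.toNat + x3.toNat = 1 ∧ x2.toNat + x4.toNat = 1)) →
    (y1 = x1 ∧ y2 = x2) ∧ (y3 = x3 ∧ y4 = x4) := by decide

lemma b2 : ∀ x1 x2 x3 x4 y1 y2 y3 y4 : Bool,
    y1.toNat + y2.toNat = x1.toNat + x2.toNat → y3.toNat + y4.toNat = x3.toNat + x4.toNat →
    y1.toNat + y3.toNat = x1.toNat + x3.toNat → y2.toNat + y4.toNat = x2.toNat + x4.toNat →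
    ¬ ((y1 = x1 ∧ y2 = x2) ∧ (y3 = x3 ∧ y4 = x4)) →
    (y1 = !x1 ∧ y2 = !x2) ∧ (y3 = !x3 ∧ y4 = !x4) := by decide

lemma b3 : ∀ x1 x2 x3 x4 z1 z2 z3 z4 : Bool,
    (z1.toNat + z2.toNat) + (z3.toNat + z4.toNat) = (x1.toNat + x2.toNat) + (x3.toNat + x4.toNat) →
    ((x1.toNat + x2.toNat) + (x3.toNat + x4.toNat) = 1 ∨
      (x1.toNat + x2.toNat) + (x3.toNat + x4.toNat) = 3) →
    ∃ m1 m2 m3 m4 : Bool, (m1.toNat + m2.toNat = z1.toNat + z2.toNat ∧
      m3.toNat + m4.toNat = z3.toNat + z4.toNat) ∧ (m1.toNat + m3.toNat = x1.toNat + x3.toNat ∧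
      m2.toNat + m4.toNat = x2.toNat + x4.toNat) := by decide

lemma b4 : ∀ x1 x2 x3 x4 : Bool,
    ¬ ((x1.toNat + x2.toNat = 1 ∧ x3.toNat + x4.toNat = 1) ∧
      (x1.toNat + x3.toNat = 1 ∧ x2.toNat + x4.toNat = 1)) →
    ¬ ((x1.toNat + x2.toNat) + (x3.toNat + x4.toNat) = 1 ∨
      (x1.toNat + x2.toNat) + (x3.toNat + x4.toNat) = 3) →
    (∀ y1 y2 y3 y4 : Bool, y1.toNat + y3.toNat = x1.toNat + x3.toNat →
      y2.toNat + y4.toNat = x2.toNat + x4.toNat → (y1 = x1 ∧ y2 = x2) ∧ (y3 = x3 ∧ y4 = x4)) ∨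
    (∀ y1 y2 y3 y4 : Bool, y1.toNat + y2.toNat = x1.toNat + x2.toNat →
      y3.toNat + y4.toNat = x3.toNat + x4.toNat → (y1 = x1 ∧ y2 = x2) ∧ (y3 = x3 ∧ y4 = x4)) := by
  decide

variable {n : ℕ} {d : Fin n → ℕ}

lemma PM_iff (p q : Finset (Fin n)) (x : Om d) :
    PM p q x ↔ (∀ i ∈ p, sm x i q = 1) ∧ ∀ j ∈ q, sm x j p = 1 := by
  unfold PM
  refine and_congr ?_ ?_
  · refine forall_congr' fun i => forall_congr' fun _ => ?_
    rw [sm_eq_card]
  · refine forall_congr' fun j => forall_congr' fun _ => ?_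
    rw [sm_eq_card]
    have : (p.filter fun i => x.1 i j = true) = (p.filter fun i => x.1 j i = true) :=
      Finset.filter_congr fun i _ => by rw [LSwOrb.symm x i j]
    rw [this]

lemma PM_swap (p q : Finset (Fin n)) (x : Om d) : PM p q x ↔ PM q p x := by
  rw [PM_iff, PM_iff, and_comm]

section

variable {a b c e : Fin n} (hab : a ≠ b) (hce : c ≠ e)

include hce in
lemma sm_q (x : Om d) (i : Fin n) : sm x i {c, e} = (x.1 i c).toNat + (x.1 i e).toNat := by
  unfold sm; rw [Finset.sum_pair hce]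

include hab in
lemma sm_p' (x : Om d) (j : Fin n) : sm x j {a, b} = (x.1 a j).toNat + (x.1 b j).toNat := by
  unfold sm; rw [Finset.sum_pair hab, LSwOrb.symm x j a, LSwOrb.symm x j b]

include hab hce in
lemma PM_iff4 (x : Om d) : PM {a, b} {c, e} x ↔
    (((x.1 a c).toNat + (x.1 a e).toNat = 1 ∧ (x.1 b c).toNat + (x.1 b e).toNat = 1) ∧
      ((x.1 a c).toNat + (x.1 b c).toNat = 1 ∧ (x.1 a e).toNat + (x.1 b e).toNat = 1)) := by
  rw [PM_iff]
  simp only [Finset.mem_insert, Finset.mem_singleton, forall_eq_or_imp, forall_eq,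
    sm_q hce, sm_p' hab]

include hab hce in
lemma tot_eq (x : Om d) : tot {a, b} {c, e} x =
    ((x.1 a c).toNat + (x.1 a e).toNat) + ((x.1 b c).toNat + (x.1 b e).toNat) := by
  unfold tot
  rw [Finset.sum_pair hab, sm_q hce, sm_q hce]

lemma cross_iff (x y : Om d) : (∀ i ∈ ({a, b} : Finset (Fin n)), ∀ j ∈ ({c, e} : Finset (Fin n)),
    y.1 i j = x.1 i j) ↔ ((y.1 a c = x.1 a c ∧ y.1 a e = x.1 a e) ∧
      (y.1 b c = x.1 b c ∧ y.1 b e = x.1 b e)) := by
  simp only [Finset.mem_insert, Finset.mem_singleton, forall_eq_or_imp, forall_eq]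

end

/-- total cross number 1 or 3 -/
def Z (p q : Finset (Fin n)) (x : Om d) : Prop := tot p q x = 1 ∨ tot p q x = 3

instance (p q : Finset (Fin n)) : DecidablePred (Z (d := d) p q) := fun x => by
  unfold Z; infer_instance

section

variable {p q : Finset (Fin n)}

lemma tot_of_p (hpq : Disjoint p q) {x y : Om d} (hy : y ∈ cls p x) :
    tot p q y = tot p q x := by
  rw [tot_swap p q y, tot_swap p q x]
  unfold tot
  exact Finset.sum_congr rfl fun j hj =>
    sm_p hy (fun hj' => (Finset.disjoint_left.1 hpq hj') hj)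

lemma tot_of_q (hpq : Disjoint p q) {x y : Om d} (hy : y ∈ cls q x) :
    tot p q y = tot p q x := by
  unfold tot
  exact Finset.sum_congr rfl fun j hj =>
    sm_p hy (fun hj' => (Finset.disjoint_left.1 hpq hj) hj')

lemma PM_of_cross {x y : Om d} (h : ∀ i ∈ p, ∀ j ∈ q, y.1 i j = x.1 i j) (hx : PM p q x) :
    PM p q y := by
  rw [PM_iff] at hx ⊢
  refine ⟨fun i hi => ?_, fun j hj => ?_⟩
  · rw [← hx.1 i hi]; unfold sm
    exact Finset.sum_congr rfl fun j hj => by rw [h i hi j hj]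
  · rw [← hx.2 j hj]; unfold sm
    exact Finset.sum_congr rfl fun i hi => by rw [cross_symm h j hj i hi]

/-- the composite average -/
lemma avg (hp : p.card = 2) (hq : q.card = 2) (hpq : Disjoint p q) (x : Om d) (hx : PM p q x)
    (f : Om d → ℝ) : A (M p q) (A (V p q) f) x =
    (∑ y ∈ (cls p x).filter (fun y => PM p q y), f y) /
      (((cls p x).filter (fun y => PM p q y)).card : ℝ) := by
  have h := comp_avg (prt_M p q) (prt_V p q) (fun x y hy hy' => by
      obtain ⟨h1, h2⟩ := mem_V.1 hy'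
      obtain ⟨h3, h4⟩ := mem_M.1 hy
      exact triv hpq h1 h4 h2) (fun x y z hy hz => by
      obtain ⟨h3, h4⟩ := mem_M.1 hy
      obtain ⟨w, hw, hw'⟩ := diam hp hq hpq h4 hz
      refine ⟨w, hw, mem_M.2 ⟨?_, hw'⟩⟩
      obtain ⟨h5, h6⟩ := mem_V.1 hw
      obtain ⟨h7, h8⟩ := mem_V.1 hz
      exact mem_cls_trans (mem_cls_symm h5) (mem_cls_trans h3 h7)) f x
  have hset : (M p q x).biUnion (V p q) = (cls p x).filter (fun y => PM p q y) := by
    ext z
    rw [Finset.mem_biUnion, Finset.mem_filter]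
    constructor
    · rintro ⟨y, hy, hz⟩
      obtain ⟨h1, h2⟩ := mem_M.1 hy
      obtain ⟨h3, h4⟩ := mem_V.1 hz
      refine ⟨mem_cls_trans h1 h3, PM_of_cross h4 ?_⟩
      rw [PM_iff] at hx ⊢
      refine ⟨fun i hi => ?_, fun j hj => ?_⟩
      · rw [← hx.1 i hi]
        exact sm_p h2 (fun hi' => (Finset.disjoint_left.1 hpq hi) hi')
      · rw [← hx.2 j hj]
        exact sm_p h1 (fun hj' => (Finset.disjoint_left.1 hpq hj') hj)
    · rintro ⟨hz, hPM⟩
      rw [PM_iff] at hx hPM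
      obtain ⟨w, hw1, hw2, hw3⟩ := merge hpq (Orb.refl p q x) z.1 (by
        intro i hi
        rw [hx.1 i hi, ← hPM.1 i hi]
        rfl) (by
        intro j hj
        rw [hx.2 j hj, ← hPM.2 j hj]
        unfold sm
        exact Finset.sum_congr rfl fun i _ => by rw [LSwOrb.symm z j i])
      refine ⟨w, mem_M.2 ⟨hw1, mem_cls_symm hw2⟩, mem_V.2 ⟨?_, fun i hi j hj => (hw3 i hi j hj).symm⟩⟩
      exact mem_cls_trans (mem_cls_symm hw1) hz
  rw [hset] at h
  exact h

lemma M_swap (p q : Finset (Fin n)) : M (d := d) p q = M q p := by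
  funext x; unfold M; rw [Finset.inter_comm]

theorem data (hp : p.card = 2) (hq : q.card = 2) (hpq : Disjoint p q) :
    LSwPairAbs.Data (Ω := Om d) (cls p) (cls q) (V p q) (V q p) (M p q) (PM p q) (Z p q) := by
  obtain ⟨a, b, hab, hpe⟩ := Finset.card_eq_two.1 hp
  obtain ⟨c, e, hce, hqe⟩ := Finset.card_eq_two.1 hq
  have hpn : ∀ i ∈ p, i ∉ q := fun i hi hi' => (Finset.disjoint_left.1 hpq hi) hi'
  have hqn : ∀ i ∈ q, i ∉ p := fun i hi hi' => (Finset.disjoint_left.1 hpq hi') hi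
  have ha : a ∈ p := by rw [hpe]; simp
  have hb : b ∈ p := by rw [hpe]; simp
  have hc : c ∈ q := by rw [hqe]; simp
  have he : e ∈ q := by rw [hqe]; simp
  -- column sums preserved by `p`-moves, row sums by `q`-moves
  have cols : ∀ x y : Om d, y ∈ cls p x →
      (y.1 a c).toNat + (y.1 b c).toNat = (x.1 a c).toNat + (x.1 b c).toNat ∧
      (y.1 a e).toNat + (y.1 b e).toNat = (x.1 a e).toNat + (x.1 b e).toNat := by
    intro x y hy
    have h1 := sm_p hy (hqn c hc)
    have h2 := sm_p hy (hqn e he)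
    rw [hpe, sm_p' hab, sm_p' hab] at h1 h2
    exact ⟨h1, h2⟩
  have rows : ∀ x y : Om d, y ∈ cls q x →
      (y.1 a c).toNat + (y.1 a e).toNat = (x.1 a c).toNat + (x.1 a e).toNat ∧
      (y.1 b c).toNat + (y.1 b e).toNat = (x.1 b c).toNat + (x.1 b e).toNat := by
    intro x y hy
    have h1 := sm_p hy (hpn a ha)
    have h2 := sm_p hy (hpn b hb)
    rw [hqe, sm_q hce, sm_q hce] at h1 h2
    exact ⟨h1, h2⟩
  have hPM4 : ∀ x : Om d, PM p q x ↔
    (((x.1 a c).toNat + (x.1 a e).toNat = 1 ∧ (x.1 b c).toNat + (x.1 b e).toNat = 1) ∧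
      ((x.1 a c).toNat + (x.1 b c).toNat = 1 ∧ (x.1 a e).toNat + (x.1 b e).toNat = 1)) := by
    intro x; rw [hpe, hqe]; exact PM_iff4 hab hce x
  have htot : ∀ x : Om d, tot p q x =
    ((x.1 a c).toNat + (x.1 a e).toNat) + ((x.1 b c).toNat + (x.1 b e).toNat) := by
    intro x; rw [hpe, hqe]; exact tot_eq hab hce x
  have hcr : ∀ x y : Om d, (∀ i ∈ p, ∀ j ∈ q, y.1 i j = x.1 i j) ↔
      ((y.1 a c = x.1 a c ∧ y.1 a e = x.1 a e) ∧ (y.1 b c = x.1 b c ∧ y.1 b e = x.1 b e)) := by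
    intro x y; rw [hpe, hqe]; exact cross_iff x y
  have hcmt : ∀ x : Om d, ¬ PM p q x → ∀ y ∈ M p q x, y = x := by
    intro x hx y hy
    obtain ⟨h1, h2⟩ := mem_M.1 hy
    obtain ⟨c1, c2⟩ := cols x y h1
    obtain ⟨r1, r2⟩ := rows x y h2
    rw [hPM4] at hx
    exact triv hpq h1 h2 ((hcr x y).2 (b1 _ _ _ _ _ _ _ _ r1 r2 c1 c2 hx))
  have hPMZ : ∀ x : Om d, PM p q x → ¬ Z p q x := by
    intro x hx hz
    rw [hPM4] at hx
    unfold Z at hz
    rw [htot] at hz
    obtain ⟨⟨h1, h2⟩, h3, h4⟩ := hx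
    omega
  constructor
  · exact prt_cls p
  · exact prt_cls q
  · exact prt_V p q
  · exact prt_V q p
  · exact prt_M p q
  · intro x; exact Finset.filter_subset _ _
  · intro x; exact Finset.filter_subset _ _
  · intro x; exact Finset.inter_subset_left
  · intro x; exact Finset.inter_subset_right
  · exact V_cls_comm hp hq hpq
  · exact V_cls_comm hq hp hpq.symm
  · exact V_V_comm hp hq hpq
  · exact V_M_comm hp hq hpq
  · rw [M_swap]; exact V_M_comm hq hp hpq.symm
  · intro x hx y hy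
    exact PM_of_cross (mem_V.1 hy).2 hx
  · intro x hx y hy
    exact PM_of_cross (cross_symm (mem_V.1 hy).2) hx
  · intro x hx y hy
    obtain ⟨h1, h2⟩ := mem_M.1 hy
    obtain ⟨c1, c2⟩ := cols x y h1
    obtain ⟨r1, r2⟩ := rows x y h2
    rw [hPM4] at hx ⊢
    rw [c1, c2, r1, r2]
    exact hx
  · exact hcmt
  · intro x
    have hflip : ∀ y ∈ M p q x, y ≠ x → (y.1 a c = !(x.1 a c) ∧ y.1 a e = !(x.1 a e)) ∧
        (y.1 b c = !(x.1 b c) ∧ y.1 b e = !(x.1 b e)) := by
      intro y hy hne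
      obtain ⟨h1, h2⟩ := mem_M.1 hy
      obtain ⟨c1, c2⟩ := cols x y h1
      obtain ⟨r1, r2⟩ := rows x y h2
      exact b2 _ _ _ _ _ _ _ _ r1 r2 c1 c2
        (fun h => hne (triv hpq h1 h2 ((hcr x y).2 h)))
    have h1 : ((M p q x).erase x).card ≤ 1 := by
      rw [Finset.card_le_one]
      intro y hy z hz
      rw [Finset.mem_erase] at hy hz
      have hy' := hflip y hy.2 hy.1
      have hz' := hflip z hz.2 hz.1
      obtain ⟨k1, k2⟩ := mem_M.1 hy.2
      obtain ⟨k3, k4⟩ := mem_M.1 hz.2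
      refine triv hpq (mem_cls_trans (mem_cls_symm k3) k1) (mem_cls_trans (mem_cls_symm k4) k2)
        ((hcr z y).2 ?_)
      rw [hy'.1.1, hy'.1.2, hy'.2.1, hy'.2.2, hz'.1.1, hz'.1.2, hz'.2.1, hz'.2.2]
      exact ⟨⟨rfl, rfl⟩, rfl, rfl⟩
    have h2 := Finset.card_erase_add_one ((prt_M p q).refl x)
    omega
  · exact hPMZ
  · intro x hx y hy
    unfold Z at hx ⊢
    rw [tot_of_p hpq hy]; exact hx
  · intro x hx y hy
    unfold Z at hx ⊢
    rw [tot_of_q hpq hy]; exact hx
  · -- diamond on Z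
    intro x y z hx hy hz
    have ho : Orb p q x z := (orb_p hp hpq hy).trans (orb_q hq hpq hz)
    have ht : tot p q z = tot p q x := (tot_of_q hpq hz).trans (tot_of_p hpq hy)
    unfold Z at hx
    rw [htot] at hx
    rw [htot, htot] at ht
    -- matrix with the rows sums of x and column sums of z
    obtain ⟨m1, m2, m3, m4, ⟨r1, r2⟩, c1, c2⟩ := b3 _ _ _ _ _ _ _ _ ht.symm
      (by rw [ht]; exact hx)
    let m : Fin n → Fin n → Bool := fun i j =>
      if i = c then (if j = a then m1 else m3) else (if j = a then m2 else m4)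
    obtain ⟨w, hw1, hw2, hw3⟩ := merge hpq.symm ho.swap m (by
      intro i hi
      rw [hqe, Finset.mem_insert, Finset.mem_singleton] at hi
      rw [hpe, sm_p' hab, Finset.sum_pair hab]
      rcases hi with rfl | rfl
      · simp only [m, if_pos rfl, if_neg hab.symm, if_true]
        rw [c1]
      · simp only [m, if_neg hce.symm, if_neg hab.symm, if_true]
        rw [c2]) (by
      intro j hj
      rw [hpe, Finset.mem_insert, Finset.mem_singleton] at hj
      rw [hqe, sm_q hce, Finset.sum_pair hce]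
      rcases hj with rfl | rfl
      · simp only [m, if_pos rfl, if_neg hce.symm, if_true]
        rw [r1]
      · simp only [m, if_neg hce.symm, if_neg hab.symm, if_true]
        rw [r2])
    exact ⟨w, hw1, hw2⟩
  · intro x y hx hy hy'
    exact hcmt x (fun h => hPMZ x h hx) y (mem_M.2 ⟨hy, hy'⟩)
  · -- rest
    intro x hx hz
    rw [hPM4] at hx
    unfold Z at hz
    rw [htot] at hz
    rcases b4 _ _ _ _ hx hz with h | h
    · left
      symm
      refine Finset.filter_true_of_mem fun y hy => (hcr x y).2 ?_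
      obtain ⟨c1, c2⟩ := cols x y hy
      exact h _ _ _ _ c1 c2
    · right
      symm
      refine Finset.filter_true_of_mem fun y hy => cross_symm ((hcr x y).2 ?_)
      obtain ⟨c1, c2⟩ := rows x y hy
      exact h _ _ _ _ c1 c2
  · intro x hx f
    exact avg hp hq hpq x hx f
  · intro x hx f
    have := avg hq hp hpq.symm x ((PM_swap p q x).1 hx) f
    rw [M_swap]
    rw [this]
    have hf : (cls q x).filter (fun y => PM q p y) = (cls q x).filter (fun y => PM p q y) :=
      Finset.filter_congr fun y _ => (PM_swap p q y).symm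
    rw [hf]

end

theorem main : LSw.Pair := by
  intro n d p q hp hq f
  have hp2 : p.card = 2 := by
    unfold prs at hp; exact (Finset.mem_powersetCard.1 hp).2
  unfold dj at hq
  rw [Finset.mem_filter] at hq
  have hq2 : q.card = 2 := by
    have := hq.1
    unfold prs at this; exact (Finset.mem_powersetCard.1 this).2
  have h := LSwPairAbs.main (data (d := d) hp2 hq2 hq.2) f
  have e1 : en p q f = ∑ x, ∑ y ∈ M p q x, (f x - f y) ^ 2 := rfl
  have e2 : N p q f = ∑ x, (if PM p q x then ((∑ y ∈ (cls p x).filter (fun y => PM p q y),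
      (f y - A (cls p) f y)) / (((cls p x).filter (fun y => PM p q y)).card : ℝ)) ^ 2 else 0) := by
    unfold N
    rw [Finset.sum_filter]
    rfl
  have e3 : N q p f = ∑ x, (if PM p q x then ((∑ y ∈ (cls q x).filter (fun y => PM p q y),
      (f y - A (cls q) f y)) / (((cls q x).filter (fun y => PM p q y)).card : ℝ)) ^ 2 else 0) := by
    unfold N clsPM
    rw [Finset.sum_filter]
    refine Finset.sum_congr rfl fun x _ => ?_
    have hf : (cls q x).filter (fun y => PM q p y) = (cls q x).filter (fun y => PM p q y) :=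
      Finset.filter_congr fun y _ => (PM_swap p q y).symm
    by_cases hx : PM p q x
    · rw [if_pos hx, if_pos ((PM_swap p q x).1 hx), hf]
      rfl
    · rw [if_neg hx, if_neg (fun h => hx ((PM_swap p q x).2 h))]
  rw [e1, e2, e3]
  exact h

end Crest.Agent.LSwPair
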