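import Crest.Agent.LSwSpec
import Crest.Agent.LSwOrb
import Crest.Agent.LSwPair
import Crest.Agent.LSwJPP

set_option autoImplicit false
set_option linter.all false
open Finset

/-!
A `p`-block (`p = {a,b}`) is a Johnson graph (used for S0453).
-/

namespace Crest.Agent.LSwBlock

open Crest.Agent.LSw Crest.Agent.LSwPart Crest.Agent.LSwOrb

variable {n : ℕ} {d : Fin n → ℕ} {a b : Fin n}

/-- the columns where `a` and `b` differ -/
def TT (a b : Fin n) (y : Om d) : Finset (Fin n) :=
  univ.filter fun v => (v ≠ a ∧ v ≠ b) ∧ y.1 a v ≠ y.1 b v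

/-- the share of `a` -/
def XX (a b : Fin n) (y : Om d) : Finset (Fin n) := (TT a b y).filter fun v => y.1 a v = true

lemma mem_TT {y : Om d} {v : Fin n} :
    v ∈ TT a b y ↔ (v ≠ a ∧ v ≠ b) ∧ y.1 a v ≠ y.1 b v := by
  unfold TT; simp

lemma mem_XX {y : Om d} {v : Fin n} :
    v ∈ XX a b y ↔ ((v ≠ a ∧ v ≠ b) ∧ y.1 a v ≠ y.1 b v) ∧ y.1 a v = true := by
  unfold XX; rw [Finset.mem_filter, mem_TT]

lemma XX_sub (y : Om d) : XX a b y ⊆ TT a b y := Finset.filter_subset _ _

section

variable (hab : a ≠ b)

include hab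

lemma col {y z : Om d} (hz : z ∈ cls {a, b} y) {v : Fin n} (hva : v ≠ a) (hvb : v ≠ b) :
    (z.1 a v).toNat + (z.1 b v).toNat = (y.1 a v).toNat + (y.1 b v).toNat := by
  have h := sm_p hz (v := v) (by simp [hva, hvb])
  rw [LSwPair.sm_p' hab, LSwPair.sm_p' hab] at h
  exact h

lemma ab_eq {y z : Om d} (hz : z ∈ cls {a, b} y) : z.1 a b = y.1 a b :=
  pp (Finset.card_pair hab) hz a (by simp) b (by simp)

lemma TT_cls {y z : Om d} (hz : z ∈ cls {a, b} y) : TT a b z = TT a b y := by
  ext v
  rw [mem_TT, mem_TT]
  refine and_congr_right fun hv => ?_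
  have h := col hab hz hv.1 hv.2
  revert h
  cases z.1 a v <;> cases z.1 b v <;> cases y.1 a v <;> cases y.1 b v <;> simp

/-- outside `T` nothing changes -/
lemma out_T {y z : Om d} (hz : z ∈ cls {a, b} y) {v : Fin n} (hva : v ≠ a) (hvb : v ≠ b)
    (hv : v ∉ TT a b y) : z.1 a v = y.1 a v ∧ z.1 b v = y.1 b v := by
  have h := col hab hz hva hvb
  rw [mem_TT] at hv
  revert h hv
  cases z.1 a v <;> cases z.1 b v <;> cases y.1 a v <;> cases y.1 b v <;> simp [hva, hvb]

lemma b_of_a {y z : Om d} (hz : z ∈ cls {a, b} y) {v : Fin n} (hva : v ≠ a) (hvb : v ≠ b)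
    (h : z.1 a v = y.1 a v) : z.1 b v = y.1 b v := by
  have h' := col hab hz hva hvb
  rw [h] at h'
  revert h'
  cases z.1 b v <;> cases y.1 b v <;> cases y.1 a v <;> simp

/-- states of a block agreeing in row `a` are equal -/
lemma eq_of_row {y z : Om d} (hz : z ∈ cls {a, b} y)
    (h : ∀ v, v ≠ a → v ≠ b → z.1 a v = y.1 a v) : z = y := by
  have ha : ∀ v, z.1 a v = y.1 a v := by
    intro v
    by_cases hva : v = a
    · rw [hva, LSwOrb.diag, LSwOrb.diag]
    · by_cases hvb : v = b
      · rw [hvb]; exact ab_eq hab hz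
      · exact h v hva hvb
  have hb : ∀ v, z.1 b v = y.1 b v := by
    intro v
    by_cases hva : v = a
    · rw [hva, LSwOrb.symm z, LSwOrb.symm y]; exact ab_eq hab hz
    · by_cases hvb : v = b
      · rw [hvb, LSwOrb.diag, LSwOrb.diag]
      · exact b_of_a hab hz hva hvb (ha v)
  apply Subtype.ext
  funext i j
  by_cases hi : i = a
  · rw [hi]; exact ha j
  · by_cases hi' : i = b
    · rw [hi']; exact hb j
    · by_cases hj : j = a
      · rw [hj, LSwOrb.symm z, LSwOrb.symm y]; exact ha i
      · by_cases hj' : j = b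
        · rw [hj', LSwOrb.symm z, LSwOrb.symm y]; exact hb i
        · exact (mem_cls.1 hz i j (by simp [hi, hi']) (by simp [hj, hj'])).symm

lemma XX_inj {y z : Om d} (hz : z ∈ cls {a, b} y) (h : XX a b z = XX a b y) : z = y := by
  refine eq_of_row hab hz fun v hva hvb => ?_
  by_cases hv : v ∈ TT a b y
  · have h1 : v ∈ XX a b z ↔ v ∈ XX a b y := by rw [h]
    have hv' : v ∈ TT a b z := by rw [TT_cls hab hz]; exact hv
    rw [mem_TT] at hv hv'
    rw [mem_XX, mem_XX] at h1
    have h2 : z.1 a v = true ↔ y.1 a v = true :=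
      ⟨fun h3 => (h1.1 ⟨hv', h3⟩).2, fun h3 => (h1.2 ⟨hv, h3⟩).2⟩
    revert h2
    cases z.1 a v <;> cases y.1 a v <;> simp
  · exact (out_T hab hz hva hvb hv).1

/-- degree of `a` in terms of `X` -/
lemma deg_a (y : Om d) : d a = (XX a b y).card + (y.1 a b).toNat +
    ∑ v ∈ (univ.erase a).erase b \ TT a b y, (y.1 a v).toNat := by
  rw [← sm_univ y a]
  unfold sm
  have h1 : (univ : Finset (Fin n)) = insert a (insert b ((univ.erase a).erase b)) := by
    rw [Finset.insert_erase (by simp [hab.symm]), Finset.insert_erase (by simp)]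
  have hsub : TT a b y ⊆ (univ.erase a).erase b := by
    intro v hv
    rw [mem_TT] at hv
    simp [hv.1.1, hv.1.2]
  rw [← Finset.add_sum_erase univ (fun j => (y.1 a j).toNat) (Finset.mem_univ a),
    ← Finset.add_sum_erase (univ.erase a) (fun j => (y.1 a j).toNat)
      (show b ∈ univ.erase a by simp [hab.symm]), ← Finset.sum_sdiff hsub]
  have h2 : ∑ v ∈ TT a b y, (y.1 a v).toNat = (XX a b y).card := by
    unfold XX
    rw [Finset.card_filter]
    refine Finset.sum_congr rfl fun v _ => ?_
    cases y.1 a v <;> simp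
  rw [h2, LSwOrb.diag]
  simp only [Bool.toNat_false]
  omega

lemma XX_card {y z : Om d} (hz : z ∈ cls {a, b} y) : (XX a b z).card = (XX a b y).card := by
  have h1 := deg_a hab z
  have h2 := deg_a hab y
  rw [TT_cls hab hz, ab_eq hab hz] at h1
  have h3 : ∑ v ∈ (univ.erase a).erase b \ TT a b y, (z.1 a v).toNat =
      ∑ v ∈ (univ.erase a).erase b \ TT a b y, (y.1 a v).toNat := by
    refine Finset.sum_congr rfl fun v hv => ?_
    rw [Finset.mem_sdiff, Finset.mem_erase, Finset.mem_erase] at hv
    rw [(out_T hab hz hv.1.2.1 hv.1.1 hv.2).1]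
  omega

/-- every subset of the right size is a share -/
lemma surj (y : Om d) (X : Finset (Fin n)) (hX : X ⊆ TT a b y)
    (hc : X.card = (XX a b y).card) : ∃ z ∈ cls {a, b} y, XX a b z = X := by
  classical
  have hT : ∀ v ∈ TT a b y, v ≠ a ∧ v ≠ b := fun v hv => (mem_TT.1 hv).1
  have haT : a ∉ TT a b y := fun h => (hT a h).1 rfl
  have hbT : b ∉ TT a b y := fun h => (hT b h).2 rfl
  -- new rows
  let ra : Fin n → Bool := fun v => if v ∈ TT a b y then decide (v ∈ X) else y.1 a v
  let rb : Fin n → Bool := fun v => if v ∈ TT a b y then !decide (v ∈ X) else y.1 b v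
  let w : Fin n → Fin n → Bool := fun i j =>
    if i = a then ra j else if i = b then rb j else if j = a then ra i
      else if j = b then rb i else y.1 i j
  have hraa : ra a = false := by simp only [ra, if_neg haT, LSwOrb.diag]
  have hrbb : rb b = false := by simp only [rb, if_neg hbT, LSwOrb.diag]
  have hrab : ra b = y.1 a b := by simp only [ra, if_neg hbT]
  have hrba : rb a = y.1 b a := by simp only [rb, if_neg haT]
  have hw1 : ∀ i, w i i = false := by
    intro i
    by_cases hi : i = a
    · subst hi; simp only [w, if_true]; exact hraa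
    · by_cases hi' : i = b
      · subst hi'; simp only [w, if_neg hi, if_true]; exact hrbb
      · simp only [w, if_neg hi, if_neg hi', LSwOrb.diag]
  have hw2 : ∀ i j, w i j = w j i := by
    intro i j
    by_cases hi : i = a
    · subst hi
      by_cases hj : j = i
      · subst hj; rfl
      · by_cases hj' : j = b
        · subst hj'
          simp only [w, if_true, if_neg hab.symm]
          rw [hrab, hrba, LSwOrb.symm y]
        · simp only [w, if_true, if_neg hj, if_neg hj']
    · by_cases hi' : i = b
      · subst hi'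
        by_cases hj : j = a
        · subst hj
          simp only [w, if_true, if_neg hi]
          rw [hrab, hrba, LSwOrb.symm y]
        · by_cases hj' : j = i
          · subst hj'; rfl
          · simp only [w, if_true, if_neg hi, if_neg hj, if_neg hj']
      · by_cases hj : j = a
        · subst hj; simp only [w, if_true, if_neg hi, if_neg hi']
        · by_cases hj' : j = b
          · subst hj'; simp only [w, if_true, if_neg hi, if_neg hi', if_neg hj]
          · simp only [w, if_neg hi, if_neg hi', if_neg hj, if_neg hj', LSwOrb.symm y i j]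
  have hcount : ∀ r : Fin n → Bool, (univ.filter fun j => r j = true).card = ∑ j, (r j).toNat := by
    intro r
    rw [Finset.card_filter]
    refine Finset.sum_congr rfl fun j _ => ?_
    cases r j <;> simp
  have hsa : ∑ j, (ra j).toNat = d a := by
    rw [deg_a hab y, ← Finset.add_sum_erase univ (fun j => (ra j).toNat) (Finset.mem_univ a),
      ← Finset.add_sum_erase (univ.erase a) (fun j => (ra j).toNat)
      (show b ∈ univ.erase a by simp [hab.symm]), hraa, hrab]
    have hsub : TT a b y ⊆ (univ.erase a).erase b := by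
      intro v hv
      simp [(hT v hv).1, (hT v hv).2]
    rw [← Finset.sum_sdiff hsub]
    have e1 : ∑ v ∈ TT a b y, (ra v).toNat = X.card := by
      have : X = (TT a b y).filter fun v => v ∈ X := by
        ext v; rw [Finset.mem_filter]; exact ⟨fun h => ⟨hX h, h⟩, fun h => h.2⟩
      conv_rhs => rw [this, Finset.card_filter]
      refine Finset.sum_congr rfl fun v hv => ?_
      simp only [ra, if_pos hv]
      by_cases h : v ∈ X <;> simp [h]
    have e2 : ∑ v ∈ (univ.erase a).erase b \ TT a b y, (ra v).toNat =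
        ∑ v ∈ (univ.erase a).erase b \ TT a b y, (y.1 a v).toNat := by
      refine Finset.sum_congr rfl fun v hv => ?_
      simp only [ra, if_neg (Finset.mem_sdiff.1 hv).2]
    rw [e1, e2, hc]
    simp only [Bool.toNat_false]
    omega
  have hcolsum : ∀ v, v ≠ a → v ≠ b → (ra v).toNat + (rb v).toNat =
      (y.1 a v).toNat + (y.1 b v).toNat := by
    intro v hva hvb
    by_cases hv : v ∈ TT a b y
    · simp only [ra, rb, if_pos hv]
      have := (mem_TT.1 hv).2
      revert this
      by_cases h : v ∈ X <;> cases y.1 a v <;> cases y.1 b v <;> simp [h]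
    · simp only [ra, rb, if_neg hv]
  have hsab : ∑ j, ((ra j).toNat + (rb j).toNat) = ∑ j, ((y.1 a j).toNat + (y.1 b j).toNat) := by
    refine Finset.sum_congr rfl fun v _ => ?_
    by_cases hva : v = a
    · subst hva; rw [hraa, hrba, LSwOrb.diag]
    · by_cases hvb : v = b
      · subst hvb; rw [hrab, hrbb, LSwOrb.diag]
      · exact hcolsum v hva hvb
  have hya : ∑ j, (y.1 a j).toNat = d a := sm_univ y a
  have hyb : ∑ j, (y.1 b j).toNat = d b := sm_univ y b
  have hsb : ∑ j, (rb j).toNat = d b := by
    rw [Finset.sum_add_distrib, Finset.sum_add_distrib] at hsab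
    omega
  have hw3 : ∀ i, (univ.filter fun j => w i j = true).card = d i := by
    intro i
    rw [hcount]
    by_cases hi : i = a
    · subst hi
      rw [← hsa]
      refine Finset.sum_congr rfl fun j _ => ?_
      simp only [w, if_true]
    · by_cases hi' : i = b
      · subst hi'
        rw [← hsb]
        refine Finset.sum_congr rfl fun j _ => ?_
        simp only [w, if_neg hi, if_true]
      · have hyi : ∑ j, (y.1 i j).toNat = d i := sm_univ y i
        rw [← hyi, ← Finset.add_sum_erase univ (fun j => (w i j).toNat) (Finset.mem_univ a),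
          ← Finset.add_sum_erase (univ.erase a) (fun j => (w i j).toNat)
            (show b ∈ univ.erase a by simp [hab.symm]),
          ← Finset.add_sum_erase univ (fun j => (y.1 i j).toNat) (Finset.mem_univ a),
          ← Finset.add_sum_erase (univ.erase a) (fun j => (y.1 i j).toNat)
            (show b ∈ univ.erase a by simp [hab.symm])]
        have e1 : ∑ j ∈ (univ.erase a).erase b, (w i j).toNat =
            ∑ j ∈ (univ.erase a).erase b, (y.1 i j).toNat := by
          refine Finset.sum_congr rfl fun j hj => ?_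
          rw [Finset.mem_erase, Finset.mem_erase] at hj
          simp only [w, if_neg hi, if_neg hi', if_neg hj.1, if_neg hj.2.1]
        rw [e1]
        have e2 : w i a = ra i := by simp only [w, if_neg hi, if_neg hi', if_true]
        have e3 : w i b = rb i := by simp only [w, if_neg hi, if_neg hi', if_neg hab.symm, if_true]
        have e4 := hcolsum i hi hi'
        rw [e2, e3, LSwOrb.symm y i a, LSwOrb.symm y i b]
        omega
  have hwcls : (⟨w, hw1, hw2, hw3⟩ : Om d) ∈ cls {a, b} y := by
    rw [mem_cls]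
    intro i j hi hj
    simp only [Finset.mem_insert, Finset.mem_singleton, not_or] at hi hj
    simp only [w, if_neg hi.1, if_neg hi.2, if_neg hj.1, if_neg hj.2]
  refine ⟨⟨w, hw1, hw2, hw3⟩, hwcls, ?_⟩
  unfold XX
  rw [TT_cls hab hwcls]
  ext v
  rw [Finset.mem_filter]
  have : (⟨w, hw1, hw2, hw3⟩ : Om d).1 a v = ra v := by simp only [w, if_true]
  rw [this]
  constructor
  · rintro ⟨h1, h2⟩
    simp only [ra, if_pos h1, decide_eq_true_eq] at h2
    exact h2
  · intro h
    refine ⟨hX h, ?_⟩
    simp only [ra, if_pos (hX h), decide_eq_true_eq]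
    exact h

omit hab in
/-- the inverse of `XX` on the block of `y` -/
noncomputable def W (a b : Fin n) (y : Om d) (X : Finset (Fin n)) : Om d :=
  open Classical in
  if h : ∃ z ∈ cls {a, b} y, XX a b z = X then h.choose else y

lemma W_XX {y z : Om d} (hz : z ∈ cls {a, b} y) : W a b y (XX a b z) = z := by
  classical
  have h : ∃ z' ∈ cls {a, b} y, XX a b z' = XX a b z := ⟨z, hz, rfl⟩
  unfold W
  rw [dif_pos h]
  obtain ⟨h1, h2⟩ := h.choose_spec
  refine XX_inj hab ?_ h2
  exact mem_cls_trans (mem_cls_symm hz) h1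

lemma XX_W {y : Om d} {X : Finset (Fin n)} (hX : X ∈ (TT a b y).powersetCard (XX a b y).card) :
    W a b y X ∈ cls {a, b} y ∧ XX a b (W a b y X) = X := by
  classical
  obtain ⟨h1, h2⟩ := Finset.mem_powersetCard.1 hX
  have h : ∃ z ∈ cls {a, b} y, XX a b z = X := surj hab y X h1 h2
  unfold W
  rw [dif_pos h]
  exact h.choose_spec

lemma XX_mem {y z : Om d} (hz : z ∈ cls {a, b} y) :
    XX a b z ∈ (TT a b y).powersetCard (XX a b y).card := by
  rw [Finset.mem_powersetCard, ← XX_card hab hz, ← TT_cls hab hz]
  exact ⟨XX_sub z, rfl⟩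

lemma sum_block (y : Om d) (F : Om d → ℝ) :
    ∑ z ∈ cls {a, b} y, F z =
      ∑ X ∈ (TT a b y).powersetCard (XX a b y).card, F (W a b y X) := by
  refine Finset.sum_bij' (fun z _ => XX a b z) (fun X _ => W a b y X) ?_ ?_ ?_ ?_ ?_
  · intro z hz; exact XX_mem hab hz
  · intro X hX; exact (XX_W hab hX).1
  · intro z hz; exact W_XX hab hz
  · intro X hX; exact (XX_W hab hX).2
  · intro z hz; rw [W_XX hab hz]

end

end Crest.Agent.LSwBlock
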