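import Crest.Agent.LSwBlock

set_option autoImplicit false
set_option linter.all false
open Finset

/-!
Johnson inequalities on the `p`-blocks (modules `JohnsonN`, `JohnsonP` of S0453).
-/

namespace Crest.Agent.LSwBlock2

open Crest.Agent.LSw Crest.Agent.LSwPart Crest.Agent.LSwOrb Crest.Agent.LSwBlock

variable {n : ℕ} {d : Fin n → ℕ} {a b : Fin n}

section

variable (hab : a ≠ b)

include hab

lemma flip_mem {z z' : Om d} {c e : Fin n} (hz : z' ∈ cls {a, b} z)
    (hX : XX a b z' = insert e ((XX a b z).erase c)) : z' ∈ cls {c, e} z := by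
  have hra : ∀ j, j ≠ c → j ≠ e → z'.1 a j = z.1 a j := by
    intro j hjc hje
    by_cases hja : j = a
    · rw [hja, LSwOrb.diag, LSwOrb.diag]
    · by_cases hjb : j = b
      · rw [hjb]; exact ab_eq hab hz
      · by_cases hj : j ∈ TT a b z
        · have hj' : j ∈ TT a b z' := by rw [TT_cls hab hz]; exact hj
          have h1 : j ∈ XX a b z' ↔ j ∈ XX a b z := by
            rw [hX, Finset.mem_insert, Finset.mem_erase]
            constructor
            · rintro (h | h)
              · exact absurd h hje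
              · exact h.2
            · intro h; exact Or.inr ⟨hjc, h⟩
          rw [mem_TT] at hj hj'
          rw [mem_XX, mem_XX] at h1
          have h2 : z'.1 a j = true ↔ z.1 a j = true :=
            ⟨fun h3 => (h1.1 ⟨hj', h3⟩).2, fun h3 => (h1.2 ⟨hj, h3⟩).2⟩
          revert h2
          cases z'.1 a j <;> cases z.1 a j <;> simp
        · exact (out_T hab hz hja hjb hj).1
  have hrb : ∀ j, j ≠ c → j ≠ e → z'.1 b j = z.1 b j := by
    intro j hjc hje
    by_cases hja : j = a
    · rw [hja, LSwOrb.symm z', LSwOrb.symm z]; exact ab_eq hab hz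
    · by_cases hjb : j = b
      · rw [hjb, LSwOrb.diag, LSwOrb.diag]
      · exact b_of_a hab hz hja hjb (hra j hjc hje)
  rw [mem_cls]
  intro i j hi hj
  simp only [Finset.mem_insert, Finset.mem_singleton, not_or] at hi hj
  by_cases hia : i = a
  · rw [hia]; exact (hra j hj.1 hj.2).symm
  · by_cases hib : i = b
    · rw [hib]; exact (hrb j hj.1 hj.2).symm
    · by_cases hja : j = a
      · rw [hja, LSwOrb.symm z', LSwOrb.symm z]; exact (hra i hi.1 hi.2).symm
      · by_cases hjb : j = b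
        · rw [hjb, LSwOrb.symm z', LSwOrb.symm z]; exact (hrb i hi.1 hi.2).symm
        · exact mem_cls.1 hz i j (by simp [hia, hib]) (by simp [hja, hjb])

lemma conv_aux {z z' : Om d} {c e : Fin n} (hce : c ≠ e) (hca : c ≠ a) (hcb : c ≠ b)
    (hea : e ≠ a) (heb : e ≠ b) (hz : z' ∈ cls {a, b} z) (hq : z' ∈ cls {c, e} z)
    (hne : z' ≠ z) :
    (c ∈ TT a b z ∧ e ∈ TT a b z) ∧
    ((z.1 a c = true ∧ z.1 a e = false ∧ z'.1 a c = false ∧ z'.1 a e = true) ∨
      (z.1 a c = false ∧ z.1 a e = true ∧ z'.1 a c = true ∧ z'.1 a e = false)) := by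
  have hrow := sm_p hq (v := a) (by simp [hca.symm, hea.symm])
  rw [LSwPair.sm_q hce, LSwPair.sm_q hce] at hrow
  have hc := col hab hz hca hcb
  have he := col hab hz hea heb
  have hne' : ¬ (z'.1 a c = z.1 a c ∧ z'.1 a e = z.1 a e) := by
    rintro ⟨h1, h2⟩
    apply hne
    refine eq_of_row hab hz fun v hva hvb => ?_
    by_cases hvc : v = c
    · rw [hvc]; exact h1
    · by_cases hve : v = e
      · rw [hve]; exact h2
      · exact (mem_cls.1 hq a v (by simp [hca.symm, hea.symm]) (by simp [hvc, hve])).symm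
  rw [mem_TT, mem_TT]
  revert hrow hc he hne'
  cases z.1 a c <;> cases z.1 a e <;> cases z.1 b c <;> cases z.1 b e <;>
    cases z'.1 a c <;> cases z'.1 a e <;> cases z'.1 b c <;> cases z'.1 b e <;>
    simp [hca, hcb, hea, heb]

lemma conv_X {z z' : Om d} {c e : Fin n} (hce : c ≠ e)
    (hz : z' ∈ cls {a, b} z) (hq : z' ∈ cls {c, e} z) (hca : c ≠ a) (hea : e ≠ a)
    (hcT : c ∈ TT a b z) (heT : e ∈ TT a b z)
    (h : z.1 a c = true ∧ z.1 a e = false ∧ z'.1 a c = false ∧ z'.1 a e = true) :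
    c ∈ XX a b z ∧ e ∈ TT a b z \ XX a b z ∧
      XX a b z' = insert e ((XX a b z).erase c) := by
  obtain ⟨h1, h2, h3, h4⟩ := h
  refine ⟨?_, ?_, ?_⟩
  · unfold XX; rw [Finset.mem_filter]; exact ⟨hcT, h1⟩
  · rw [Finset.mem_sdiff]; refine ⟨heT, ?_⟩
    unfold XX; rw [Finset.mem_filter, h2]; simp
  · ext v
    rw [Finset.mem_insert, Finset.mem_erase]
    unfold XX
    rw [TT_cls hab hz, Finset.mem_filter, Finset.mem_filter]
    by_cases hvc : v = c
    · rw [hvc, h3]; simp [hce]
    · by_cases hve : v = e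
      · rw [hve, h4]; simp [heT]
      · rw [← mem_cls.1 hq a v (by simp [hca.symm, hea.symm]) (by simp [hvc, hve])]
        simp [hvc, hve]

/-- pointwise energy -/
lemma en_pt (y z : Om d) (hzy : z ∈ cls {a, b} y) (f : Om d → ℝ) :
    ∑ q ∈ dj {a, b}, ∑ z' ∈ cls {a, b} z ∩ cls q z, (f z - f z') ^ 2 =
      ∑ c ∈ XX a b z, ∑ e ∈ TT a b y \ XX a b z,
        (f z - f (W a b y (insert e ((XX a b z).erase c)))) ^ 2 := by
  have hT : TT a b z = TT a b y := TT_cls hab hzy
  rw [Finset.sum_sigma', Finset.sum_sigma']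
  symm
  have hW : ∀ c ∈ XX a b z, ∀ e ∈ TT a b y \ XX a b z,
      W a b y (insert e ((XX a b z).erase c)) ∈ cls {a, b} z ∧
      XX a b (W a b y (insert e ((XX a b z).erase c))) = insert e ((XX a b z).erase c) := by
    intro c hc e he
    rw [Finset.mem_sdiff] at he
    have hmem : insert e ((XX a b z).erase c) ∈ (TT a b y).powersetCard (XX a b y).card := by
      rw [Finset.mem_powersetCard]
      refine ⟨Finset.insert_subset he.1 ?_, ?_⟩
      · intro v hv; rw [← hT]; exact XX_sub z (Finset.mem_of_mem_erase hv)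
      · rw [Finset.card_insert_of_notMem (fun h => he.2 (Finset.mem_of_mem_erase h)),
          Finset.card_erase_of_mem hc, ← XX_card hab hzy]
        have : 0 < (XX a b z).card := Finset.card_pos.2 ⟨c, hc⟩
        omega
    obtain ⟨h1, h2⟩ := XX_W hab hmem
    exact ⟨mem_cls_trans (mem_cls_symm hzy) h1, h2⟩
  refine Finset.sum_of_injOn
    (fun u => (⟨{u.1, u.2}, W a b y (insert u.2 ((XX a b z).erase u.1))⟩ :
      (_ : Finset (Fin n)) × Om d)) ?_ ?_ ?_ ?_
  · rintro ⟨c, e⟩ hu ⟨c', e'⟩ hu' h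
    simp only [Finset.coe_sigma, Set.mem_sigma_iff, Finset.mem_coe] at hu hu'
    obtain ⟨h1, h2⟩ := hu
    obtain ⟨h3, h4⟩ := hu'
    rw [Finset.mem_sdiff] at h2 h4
    simp only [Sigma.mk.injEq] at h
    have hs : ({c, e} : Finset (Fin n)) = {c', e'} := h.1
    have hc : c ∈ ({c', e'} : Finset (Fin n)) := by rw [← hs]; simp
    have he : e ∈ ({c', e'} : Finset (Fin n)) := by rw [← hs]; simp
    simp only [Finset.mem_insert, Finset.mem_singleton] at hc he
    have hc' : c = c' := by
      rcases hc with h5 | h5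
      · exact h5
      · exact absurd (h5 ▸ h1) h4.2
    have he' : e = e' := by
      rcases he with h5 | h5
      · exact absurd (h5 ▸ h3) h2.2
      · exact h5
    rw [hc', he']
  · rintro ⟨c, e⟩ hu
    simp only [Finset.coe_sigma, Set.mem_sigma_iff, Finset.mem_coe] at hu ⊢
    obtain ⟨h1, h2⟩ := hu
    obtain ⟨h3, h4⟩ := hW c h1 e h2
    rw [Finset.mem_sdiff] at h2
    have hc := (mem_XX.1 h1).1.1
    have he := (mem_TT.1 h2.1).1
    have hce : c ≠ e := by rintro rfl; exact h2.2 h1
    refine ⟨?_, ?_⟩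
    · unfold dj prs
      rw [Finset.mem_filter, Finset.mem_powersetCard]
      refine ⟨⟨Finset.subset_univ _, Finset.card_pair hce⟩, ?_⟩
      rw [Finset.disjoint_left]
      intro v hv hv'
      simp only [Finset.mem_insert, Finset.mem_singleton] at hv hv'
      rcases hv with rfl | rfl <;> rcases hv' with rfl | rfl
      · exact hc.1 rfl
      · exact he.1 rfl
      · exact hc.2 rfl
      · exact he.2 rfl
    · rw [Finset.mem_inter]
      exact ⟨h3, flip_mem hab h3 h4⟩
  · rintro ⟨q, z'⟩ hu hnot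
    simp only [Finset.mem_sigma, Finset.mem_inter] at hu
    obtain ⟨hq, h1, h2⟩ := hu
    by_cases hne : z' = z
    · simp [hne]
    exfalso
    apply hnot
    unfold dj prs at hq
    rw [Finset.mem_filter, Finset.mem_powersetCard] at hq
    obtain ⟨⟨_, hq2⟩, hdis⟩ := hq
    obtain ⟨c, e, hce, rfl⟩ := Finset.card_eq_two.1 hq2
    rw [Finset.disjoint_left] at hdis
    have hca : c ≠ a := by rintro rfl; exact hdis (by simp) (by simp : c ∈ ({c, e} : Finset (Fin n)))
    have hcb : c ≠ b := by rintro rfl; exact hdis (by simp) (by simp : c ∈ ({c, e} : Finset (Fin n)))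
    have hea : e ≠ a := by rintro rfl; exact hdis (by simp) (by simp : e ∈ ({c, e} : Finset (Fin n)))
    have heb : e ≠ b := by rintro rfl; exact hdis (by simp) (by simp : e ∈ ({c, e} : Finset (Fin n)))
    obtain ⟨⟨hcT, heT⟩, h | h⟩ := conv_aux hab hce hca hcb hea heb h1 h2 hne
    · obtain ⟨k1, k2, k3⟩ := conv_X hab hce h1 h2 hca hea hcT heT h
      refine ⟨⟨c, e⟩, ?_, ?_⟩
      · simp only [Finset.coe_sigma, Set.mem_sigma_iff, Finset.mem_coe]
        rw [← hT]; exact ⟨k1, k2⟩
      · simp only [Sigma.mk.injEq, heq_eq_eq, true_and]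
        rw [← k3]
        exact W_XX hab (mem_cls_trans hzy h1)
    · have h2' : z' ∈ cls {e, c} z := by rw [Finset.pair_comm]; exact h2
      obtain ⟨k1, k2, k3⟩ := conv_X hab hce.symm h1 h2' hea hca heT hcT
        ⟨h.2.1, h.1, h.2.2.2, h.2.2.1⟩
      refine ⟨⟨e, c⟩, ?_, ?_⟩
      · simp only [Finset.coe_sigma, Set.mem_sigma_iff, Finset.mem_coe]
        rw [← hT]; exact ⟨k1, k2⟩
      · simp only [Sigma.mk.injEq]
        refine ⟨Finset.pair_comm e c, ?_⟩
        rw [← k3]
        exact heq_of_eq (W_XX hab (mem_cls_trans hzy h1))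
  · rintro ⟨c, e⟩ _
    rfl

/-- block energy -/
lemma en_block (y : Om d) (f : Om d → ℝ) :
    ∑ z ∈ cls {a, b} y, ∑ q ∈ dj {a, b}, ∑ z' ∈ cls {a, b} z ∩ cls q z, (f z - f z') ^ 2 =
      LSwJPP.EE (TT a b y) (XX a b y).card (fun X => f (W a b y X)) := by
  rw [sum_block hab y]
  unfold LSwJPP.EE
  refine Finset.sum_congr rfl fun X hX => ?_
  obtain ⟨h1, h2⟩ := XX_W hab hX
  rw [en_pt hab y _ h1, h2]

end

/-- block sums determine sums -/
lemma sum_le_of_blocks {Ω : Type} [Fintype Ω] [DecidableEq Ω] {c : Ω → Finset Ω} (h : Prt c)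
    (F G : Ω → ℝ) (hFG : ∀ y, ∑ z ∈ c y, F z ≤ ∑ z ∈ c y, G z) : ∑ x, F x ≤ ∑ x, G x := by
  have key : ∀ F : Ω → ℝ, ∑ x, F x = ∑ x, (∑ z ∈ c x, F z) / ((c x).card : ℝ) := by
    intro F
    have h1 := A_symm h F (fun _ => 1)
    have h2 : A c (fun _ => (1:ℝ)) = fun _ => 1 := by
      funext x; exact A_of_const h fun _ _ => rfl
    rw [h2] at h1
    unfold LSwPart.ip at h1
    simp only [mul_one] at h1
    rw [← h1]
    rfl
  rw [key F, key G]
  refine Finset.sum_le_sum fun x _ => ?_
  exact div_le_div_of_nonneg_right (hFG x) (h.card_pos x).le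

lemma D_sum_zero (p : Finset (Fin n)) (f : Om d → ℝ) (y : Om d) :
    ∑ z ∈ cls p y, D p f z = 0 := by
  have h : ∀ z ∈ cls p y, D p f z = f z - E p f y := by
    intro z hz
    unfold D E
    rw [cls_eq hz]
  rw [Finset.sum_congr rfl h, Finset.sum_sub_distrib, Finset.sum_const, nsmul_eq_mul]
  unfold E
  have : (0:ℝ) < ((cls p y).card : ℝ) := (prt_cls p).card_pos y
  field_simp
  ring

lemma EE_D (hab : a ≠ b) (y : Om d) (f : Om d → ℝ) :
    LSwJPP.EE (TT a b y) (XX a b y).card (fun X => D {a, b} f (W a b y X)) =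
      LSwJPP.EE (TT a b y) (XX a b y).card (fun X => f (W a b y X)) := by
  unfold LSwJPP.EE
  refine Finset.sum_congr rfl fun X hX => Finset.sum_congr rfl fun c hc =>
    Finset.sum_congr rfl fun e he => ?_
  obtain ⟨hX1, hX2⟩ := Finset.mem_powersetCard.1 hX
  have hX' : insert e (X.erase c) ∈ (TT a b y).powersetCard (XX a b y).card := by
    rw [Finset.mem_sdiff] at he
    rw [Finset.mem_powersetCard]
    refine ⟨Finset.insert_subset he.1 ((Finset.erase_subset _ _).trans hX1), ?_⟩
    rw [Finset.card_insert_of_notMem (fun h => he.2 (Finset.mem_of_mem_erase h)),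
      Finset.card_erase_of_mem hc, hX2]
    have : 0 < X.card := Finset.card_pos.2 ⟨c, hc⟩
    omega
  have e1 : E {a, b} f (W a b y X) = E {a, b} f y := by
    unfold E; rw [cls_eq (XX_W hab hX).1]
  have e2 : E {a, b} f (W a b y (insert e (X.erase c))) = E {a, b} f y := by
    unfold E; rw [cls_eq (XX_W hab hX').1]
  unfold D
  beta_reduce
  rw [e1, e2]
  ring

/-- (JP) -/
theorem mainP : LSw.JohnsonP := by
  intro n d p hp f
  unfold prs at hp
  obtain ⟨a, b, hab, rfl⟩ := Finset.card_eq_two.1 (Finset.mem_powersetCard.1 hp).2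
  have h1 : LSw.ip f (D {a, b} f) = ∑ x, (D {a, b} f x) ^ 2 := by
    have e1 := LSwPairAbs.D_left (prt_cls (d := d) {a, b}) f
    have e2 := LSwPairAbs.D_sq (prt_cls (d := d) {a, b}) f
    have e3 : LSw.ip f (D {a, b} f) = LSwPart.ip (f - A (cls {a, b}) f) f := LSwPart.ip_comm _ _
    have e4 : ∑ x, (D {a, b} f x) ^ 2 =
        LSwPart.ip (f - A (cls {a, b}) f) (f - A (cls {a, b}) f) := by
      unfold LSwPart.ip
      exact Finset.sum_congr rfl fun x _ => pow_two _
    rw [e3, e4, e1, e2]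
  rw [h1]
  unfold en
  rw [Finset.sum_comm, Finset.sum_div]
  refine sum_le_of_blocks (prt_cls {a, b}) _ _ fun y => ?_
  rw [← Finset.sum_div, en_block hab y f, sum_block hab y]
  have h2 := LSwJPP.main (TT a b y) (XX a b y).card (fun X => D {a, b} f (W a b y X))
    (Finset.card_le_card (XX_sub y)) (by
      rw [← sum_block hab y]; exact D_sum_zero _ f y)
  rw [LSwJPP.EE_eq, EE_D hab] at h2
  exact h2

/-! ### (JN) -/

/-- number of `x`-subsets containing `c` and not `e` -/
lemma card_sep_aux {α : Type} [DecidableEq α] (T : Finset α) (x : ℕ) {c e : α} (hce : c ≠ e)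
    (hc : c ∈ T) (he : e ∈ T) :
    ((T.powersetCard (x + 1)).filter fun X => c ∈ X ∧ e ∉ X).card = (T.card - 2).choose x := by
  have h1 : ((T.erase c).erase e).card = T.card - 2 := by
    rw [Finset.card_erase_of_mem (by simp [hce.symm, he]), Finset.card_erase_of_mem hc]
    omega
  rw [← h1, ← Finset.card_powersetCard]
  symm
  refine Finset.card_bij (fun X _ => insert c X) ?_ ?_ ?_
  · intro X hX
    rw [Finset.mem_powersetCard] at hX
    rw [Finset.mem_filter, Finset.mem_powersetCard]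
    have hcX : c ∉ X := fun h => by
      have := hX.1 h
      simp at this
    have heX : e ∉ X := fun h => by
      have := hX.1 h
      simp at this
    refine ⟨⟨Finset.insert_subset hc (hX.1.trans ((Finset.erase_subset _ _).trans
      (Finset.erase_subset _ _))), ?_⟩, Finset.mem_insert_self _ _, ?_⟩
    · rw [Finset.card_insert_of_notMem hcX, hX.2]
    · rw [Finset.mem_insert, not_or]; exact ⟨hce.symm, heX⟩
  · intro X hX Y hY hXY
    rw [Finset.mem_powersetCard] at hX hY
    have hcX : c ∉ X := fun h => by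
      have := hX.1 h
      simp at this
    have hcY : c ∉ Y := fun h => by
      have := hY.1 h
      simp at this
    have := congrArg (fun Z => Z.erase c) hXY
    simpa [Finset.erase_insert hcX, Finset.erase_insert hcY] using this
  · intro Y hY
    rw [Finset.mem_filter, Finset.mem_powersetCard] at hY
    refine ⟨Y.erase c, ?_, Finset.insert_erase hY.2.1⟩
    rw [Finset.mem_powersetCard]
    refine ⟨?_, ?_⟩
    · intro v hv
      rw [Finset.mem_erase] at hv
      rw [Finset.mem_erase, Finset.mem_erase]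
      exact ⟨fun h => hY.2.2 (h ▸ hv.2), hv.1, hY.1.1 hv.2⟩
    · rw [Finset.card_erase_of_mem hY.2.1, hY.1.2]; rfl

lemma card_sep {α : Type} [DecidableEq α] (T : Finset α) (x : ℕ) {c e : α} (hce : c ≠ e)
    (hc : c ∈ T) (he : e ∈ T) :
    ((T.powersetCard (x + 1)).filter fun X => ¬ (c ∈ X ↔ e ∈ X)).card =
      2 * (T.card - 2).choose x := by
  have h : ((T.powersetCard (x + 1)).filter fun X => ¬ (c ∈ X ↔ e ∈ X)) =
      ((T.powersetCard (x + 1)).filter fun X => c ∈ X ∧ e ∉ X) ∪
        ((T.powersetCard (x + 1)).filter fun X => e ∈ X ∧ c ∉ X) := by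
    rw [← Finset.filter_or]
    refine Finset.filter_congr fun X _ => ?_
    tauto
  rw [h, Finset.card_union_of_disjoint, card_sep_aux T x hce hc he,
    card_sep_aux T x hce.symm he hc]
  · ring
  · rw [Finset.disjoint_left]
    intro X hX hX'
    rw [Finset.mem_filter] at hX hX'
    exact hX.2.2 hX'.2.1

/-- sums over ordered pairs versus two-element subsets -/
lemma sum_pairs {α : Type} [DecidableEq α] (T : Finset α) (F : Finset α → ℝ) :
    ∑ c ∈ T, ∑ e ∈ T.erase c, F {c, e} = 2 * ∑ q ∈ T.powersetCard 2, F q := by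
  have h := LSwJPP.dc T 1 (fun Y _ => F Y)
  have h1 : ∑ Y ∈ T.powersetCard (1 + 1), ∑ c ∈ Y, F Y = 2 * ∑ q ∈ T.powersetCard 2, F q := by
    rw [Finset.mul_sum]
    refine Finset.sum_congr rfl fun Y hY => ?_
    rw [Finset.sum_const, (Finset.mem_powersetCard.1 hY).2, nsmul_eq_mul]
    norm_num
  rw [h1] at h
  rw [← h, Finset.powersetCard_one, Finset.sum_map]
  refine Finset.sum_congr rfl fun c hc => ?_
  simp only [Function.Embedding.coeFn_mk]
  have hs : T \ {c} = T.erase c := by rw [Finset.sdiff_singleton_eq_erase]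
  rw [hs]
  refine Finset.sum_congr rfl fun e _ => ?_
  rw [Finset.pair_comm]

lemma PM_iff_X (hab : a ≠ b) {z : Om d} {c e : Fin n} (hce : c ≠ e) (hca : c ≠ a) (hcb : c ≠ b)
    (hea : e ≠ a) (heb : e ≠ b) :
    PM {a, b} {c, e} z ↔ (c ∈ TT a b z ∧ e ∈ TT a b z) ∧ ¬ (c ∈ XX a b z ↔ e ∈ XX a b z) := by
  rw [LSwPair.PM_iff4 hab hce, mem_TT, mem_TT, mem_XX, mem_XX]
  cases z.1 a c <;> cases z.1 a e <;> cases z.1 b c <;> cases z.1 b e <;>
    simp [hca, hcb, hea, heb]

/-- block form of `N` -/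
lemma N_block (hab : a ≠ b) (y : Om d) (f : Om d → ℝ) (q : Finset (Fin n)) :
    ∑ z ∈ cls {a, b} y, (if PM {a, b} q z then ((∑ y' ∈ clsPM {a, b} q z, D {a, b} f y') /
      ((clsPM {a, b} q z).card : ℝ)) ^ 2 else 0) =
    (∑ z ∈ clsPM {a, b} q y, D {a, b} f z) ^ 2 / ((clsPM {a, b} q y).card : ℝ) := by
  have h1 : ∀ z ∈ cls {a, b} y, clsPM {a, b} q z = clsPM {a, b} q y := by
    intro z hz; unfold clsPM; rw [cls_eq hz]
  rw [← Finset.sum_filter]
  have h2 : (cls {a, b} y).filter (fun z => PM {a, b} q z) = clsPM {a, b} q y := rfl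
  rw [h2]
  have h3 : ∀ z ∈ clsPM {a, b} q y, ((∑ y' ∈ clsPM {a, b} q z, D {a, b} f y') /
      ((clsPM {a, b} q z).card : ℝ)) ^ 2 = ((∑ y' ∈ clsPM {a, b} q y, D {a, b} f y') /
      ((clsPM {a, b} q y).card : ℝ)) ^ 2 := by
    intro z hz
    rw [h1 z (Finset.mem_filter.1 hz).1]
  rw [Finset.sum_congr rfl h3, Finset.sum_const, nsmul_eq_mul]
  by_cases h0 : ((clsPM {a, b} q y).card : ℝ) = 0
  · rw [h0]; simp
  · field_simp

theorem mainN (hJ : LSw.JohnsonPure) : LSw.JohnsonN := by
  intro n d p hp f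
  unfold prs at hp
  obtain ⟨a, b, hab, rfl⟩ := Finset.card_eq_two.1 (Finset.mem_powersetCard.1 hp).2
  unfold en N
  rw [Finset.sum_comm (s := dj {a, b}) (t := univ)
    (f := fun q x => ∑ y ∈ cls {a, b} x ∩ cls q x, (f x - f y) ^ 2), Finset.sum_div]
  simp_rw [Finset.sum_filter]
  rw [Finset.sum_comm]
  refine sum_le_of_blocks (prt_cls {a, b}) _ _ fun y => ?_
  rw [← Finset.sum_div, en_block hab y f, Finset.sum_comm]
  simp_rw [N_block hab y f]
  -- rewrite through `T` and `X`
  set T := TT a b y with hTdef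
  set x := (XX a b y).card with hxdef
  set g : Finset (Fin n) → ℝ := fun X => D {a, b} f (W a b y X) with hg
  have hxT : x ≤ T.card := Finset.card_le_card (XX_sub y)
  have hTa : ∀ v ∈ T, v ≠ a ∧ v ≠ b := fun v hv => (mem_TT.1 hv).1
  set H : Finset (Fin n) → ℝ := fun q =>
    (∑ z ∈ clsPM {a, b} q y, D {a, b} f z) ^ 2 / ((clsPM {a, b} q y).card : ℝ) with hH
  have hsub : T.powersetCard 2 ⊆ dj {a, b} := by
    intro q hq
    rw [Finset.mem_powersetCard] at hq
    unfold dj prs
    rw [Finset.mem_filter, Finset.mem_powersetCard]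
    refine ⟨⟨Finset.subset_univ _, hq.2⟩, ?_⟩
    rw [Finset.disjoint_left]
    intro v hv hv'
    have := hTa v (hq.1 hv')
    simp only [Finset.mem_insert, Finset.mem_singleton] at hv
    rcases hv with h | h
    · exact this.1 h
    · exact this.2 h
  have hPMset : ∀ c ∈ T, ∀ e ∈ T, c ≠ e → ∀ X ∈ T.powersetCard x,
      (PM {a, b} {c, e} (W a b y X) ↔ ¬ (c ∈ X ↔ e ∈ X)) := by
    intro c hc e he hce X hX
    obtain ⟨h1, h2⟩ := XX_W hab hX
    rw [PM_iff_X hab hce (hTa c hc).1 (hTa c hc).2 (hTa e he).1 (hTa e he).2, h2,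
      TT_cls hab h1]
    exact ⟨fun h => h.2, fun h => ⟨⟨hc, he⟩, h⟩⟩
  have hzero : ∀ q ∈ dj {a, b}, q ∉ T.powersetCard 2 → H q = 0 := by
    intro q hq hq'
    have hemp : clsPM {a, b} q y = ∅ := by
      unfold clsPM
      rw [Finset.filter_eq_empty_iff]
      intro z hz hPM
      apply hq'
      unfold dj prs at hq
      rw [Finset.mem_filter, Finset.mem_powersetCard] at hq
      obtain ⟨⟨_, hq2⟩, hdis⟩ := hq
      obtain ⟨c, e, hce, rfl⟩ := Finset.card_eq_two.1 hq2
      rw [Finset.disjoint_left] at hdis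
      have hca : c ≠ a := by
        rintro rfl; exact hdis (by simp) (by simp : c ∈ ({c, e} : Finset (Fin n)))
      have hcb : c ≠ b := by
        rintro rfl; exact hdis (by simp) (by simp : c ∈ ({c, e} : Finset (Fin n)))
      have hea : e ≠ a := by
        rintro rfl; exact hdis (by simp) (by simp : e ∈ ({c, e} : Finset (Fin n)))
      have heb : e ≠ b := by
        rintro rfl; exact hdis (by simp) (by simp : e ∈ ({c, e} : Finset (Fin n)))
      have := ((PM_iff_X hab hce hca hcb hea heb).1 hPM).1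
      rw [TT_cls hab hz] at this
      rw [Finset.mem_powersetCard]
      refine ⟨?_, hq2⟩
      intro v hv
      simp only [Finset.mem_insert, Finset.mem_singleton] at hv
      rcases hv with rfl | rfl
      · exact this.1
      · exact this.2
    simp only [hH]
    rw [hemp]; simp
  have hS : ∀ c ∈ T, ∀ e ∈ T.erase c, H {c, e} =
      (∑ X ∈ (T.powersetCard x).filter (fun X => ¬ (c ∈ X ↔ e ∈ X)), g X) ^ 2 /
        (((T.powersetCard x).filter (fun X => ¬ (c ∈ X ↔ e ∈ X))).card : ℝ) := by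
    intro c hc e he
    rw [Finset.mem_erase] at he
    have k1 : ∑ z ∈ clsPM {a, b} {c, e} y, D {a, b} f z =
        ∑ X ∈ (T.powersetCard x).filter (fun X => ¬ (c ∈ X ↔ e ∈ X)), g X := by
      unfold clsPM
      rw [Finset.sum_filter, sum_block hab y, Finset.sum_filter]
      refine Finset.sum_congr rfl fun X hX => ?_
      have := hPMset c hc e he.2 he.1.symm X hX
      by_cases h : PM {a, b} {c, e} (W a b y X)
      · rw [if_pos h, if_pos (this.1 h)]
      · rw [if_neg h, if_neg (fun h' => h (this.2 h'))]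
    have k2 : ((clsPM {a, b} {c, e} y).card : ℝ) =
        (((T.powersetCard x).filter (fun X => ¬ (c ∈ X ↔ e ∈ X))).card : ℝ) := by
      have e1 : ∀ s : Finset (Om d), (s.card : ℝ) = ∑ z ∈ s, (1:ℝ) := by intro s; simp
      have e2 : ∀ s : Finset (Finset (Fin n)), (s.card : ℝ) = ∑ z ∈ s, (1:ℝ) := by
        intro s; simp
      rw [e1, e2]
      unfold clsPM
      rw [Finset.sum_filter, sum_block hab y, Finset.sum_filter]
      refine Finset.sum_congr rfl fun X hX => ?_
      have := hPMset c hc e he.2 he.1.symm X hX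
      by_cases h : PM {a, b} {c, e} (W a b y X)
      · rw [if_pos h, if_pos (this.1 h)]
      · rw [if_neg h, if_neg (fun h' => h (this.2 h'))]
    simp only [hH]
    rw [k1, k2]
  have hsum : ∑ q ∈ dj {a, b}, H q = (∑ c ∈ T, ∑ e ∈ T.erase c, H {c, e}) / 2 := by
    rw [sum_pairs T H, ← Finset.sum_subset hsub hzero]
    ring
  have hEE0 : 0 ≤ LSwJPP.EE T x (fun X => f (W a b y X)) := LSwJPP.EE_nonneg _ _ _
  show ∑ q ∈ dj {a, b}, H q ≤ _
  rw [hsum]
  by_cases hx : 1 ≤ x ∧ x + 1 ≤ T.card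
  · obtain ⟨hx1, hx2⟩ := hx
    have hpure := hJ T x g hx1 hx2 (by
      rw [hg, ← sum_block hab y]; exact D_sum_zero _ f y)
    rw [LSwJPP.EE_eq, hg, EE_D hab, ← hg] at hpure
    obtain ⟨x', hx'⟩ : ∃ x', x = x' + 1 := ⟨x - 1, by omega⟩
    have hC : (0:ℝ) < ((T.card - 2).choose (x - 1) : ℝ) := by
      exact_mod_cast Nat.choose_pos (by omega)
    have e1 : ∑ c ∈ T, ∑ e ∈ T.erase c, H {c, e} =
        (∑ c ∈ T, ∑ e ∈ T.erase c,
          (∑ X ∈ (T.powersetCard x).filter (fun X => ¬ (c ∈ X ↔ e ∈ X)), g X) ^ 2) /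
          (2 * ((T.card - 2).choose (x - 1) : ℝ)) := by
      rw [Finset.sum_div]
      refine Finset.sum_congr rfl fun c hc => ?_
      rw [Finset.sum_div]
      refine Finset.sum_congr rfl fun e he => ?_
      rw [hS c hc e he]
      congr 1
      rw [hx', card_sep T x' (Finset.mem_erase.1 he).1.symm hc (Finset.mem_erase.1 he).2]
      push_cast
      simp
    rw [e1]
    rw [div_div, div_le_div_iff₀ (by positivity) (by norm_num)]
    nlinarith
  · -- trivial block
    have hz : ∀ c ∈ T, ∀ e ∈ T.erase c, H {c, e} = 0 := by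
      intro c hc e he
      rw [hS c hc e he]
      have hemp : (T.powersetCard x).filter (fun X => ¬ (c ∈ X ↔ e ∈ X)) = ∅ := by
        rw [Finset.filter_eq_empty_iff]
        intro X hX
        rw [Finset.mem_powersetCard] at hX
        rw [not_not]
        by_cases hx0 : x = 0
        · have : X = ∅ := Finset.card_eq_zero.1 (hX.2.trans hx0)
          simp [this]
        · have hxc : x = T.card := by omega
          have : X = T := Finset.eq_of_subset_of_card_le hX.1 (by omega)
          rw [this]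
          exact ⟨fun _ => (Finset.mem_erase.1 he).2, fun _ => hc⟩
      rw [hemp]; simp
    rw [Finset.sum_congr rfl fun c hc => Finset.sum_congr rfl fun e he => hz c hc e he]
    simp only [Finset.sum_const_zero, zero_div]
    positivity

end Crest.Agent.LSwBlock2
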