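import Crest.Agent.LSwSpec
import Crest.Agent.LSwBlock2

set_option autoImplicit false
set_option linter.all false
open Finset

/-!
Connectivity (module `Conn` of S0453).
-/

namespace Crest.Agent.LSwConn

open Crest.Agent.LSw Crest.Agent.LSwPart Crest.Agent.LSwOrb Crest.Agent.LSwBlock
  Crest.Agent.LSwBlock2

variable {n : ℕ} {d : Fin n → ℕ}

/-- agreement off `S × S` -/
def Ag (S : Finset (Fin n)) (x y : Om d) : Prop := ∀ i j, (i ∉ S ∨ j ∉ S) → x.1 i j = y.1 i j

lemma Ag.symm {S : Finset (Fin n)} {x y : Om d} (h : Ag S x y) : Ag S y x :=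
  fun i j hij => (h i j hij).symm

lemma Ag.trans {S : Finset (Fin n)} {x y z : Om d} (h : Ag S x y) (h' : Ag S y z) : Ag S x z :=
  fun i j hij => (h i j hij).trans (h' i j hij)

lemma Ag.sm_eq {S : Finset (Fin n)} {x y : Om d} (h : Ag S x y) (w : Fin n) :
    sm x w S = sm y w S := by
  have h1 := sm_add_compl x w S
  have h2 := sm_add_compl y w S
  have h3 : sm x w Sᶜ = sm y w Sᶜ := by
    unfold sm
    refine Finset.sum_congr rfl fun j hj => ?_
    rw [h w j (Or.inr (by simpa using hj))]
  omega

lemma key {S : Finset (Fin n)} {u w v : Fin n} (hu : u ∈ S) (hw : w ∈ S) (hv : v ∈ S) (x : Om d)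
    (hvw : v ≠ w) (h1 : x.1 v u = true) (h2 : x.1 v w = false) (hd : sm x u S ≤ sm x w S) :
    ∃ x' ∈ cls {u, w} x, Ag S x' x ∧ x'.1 v w = true ∧ x'.1 v u = false ∧
      ∀ j, j ≠ u → j ≠ w → x'.1 v j = x.1 v j := by
  have huw : u ≠ w := by rintro rfl; rw [h1] at h2; exact Bool.noConfusion h2
  have hvu : v ≠ u := by rintro rfl; rw [LSwOrb.diag] at h1; exact Bool.noConfusion h1
  -- find z
  have hz : ∃ z ∈ (S.erase u).erase w, (x.1 u z).toNat < (x.1 w z).toNat := by
    by_contra hcon
    push_neg at hcon
    have e1 : ∀ i : Fin n, sm x i S =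
        (x.1 i u).toNat + ((x.1 i w).toNat + ∑ j ∈ (S.erase u).erase w, (x.1 i j).toNat) := by
      intro i
      unfold sm
      rw [← Finset.add_sum_erase S (fun j => (x.1 i j).toNat) hu,
        ← Finset.add_sum_erase (S.erase u) (fun j => (x.1 i j).toNat)
          (Finset.mem_erase.2 ⟨huw.symm, hw⟩)]
    have e2 : ∑ j ∈ (S.erase u).erase w, (x.1 w j).toNat <
        ∑ j ∈ (S.erase u).erase w, (x.1 u j).toNat := by
      refine Finset.sum_lt_sum (fun j hj => hcon j hj) ⟨v, ?_, ?_⟩
      · exact Finset.mem_erase.2 ⟨hvw, Finset.mem_erase.2 ⟨hvu, hv⟩⟩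
      · rw [LSwOrb.symm x w v, LSwOrb.symm x u v, h1, h2]; simp
    rw [e1 u, e1 w, LSwOrb.diag, LSwOrb.diag, LSwOrb.symm x w u] at hd
    simp only [Bool.toNat_false] at hd
    omega
  obtain ⟨z, hzS, hzlt⟩ := hz
  rw [Finset.mem_erase, Finset.mem_erase] at hzS
  have hz1 : x.1 u z = false := by
    revert hzlt; cases x.1 u z <;> cases x.1 w z <;> simp
  have hz2 : x.1 w z = true := by
    revert hzlt; cases x.1 u z <;> cases x.1 w z <;> simp
  have hvX : v ∈ XX u w x := by
    rw [mem_XX, LSwOrb.symm x u v, LSwOrb.symm x w v, h1, h2]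
    exact ⟨⟨⟨hvu, hvw⟩, by simp⟩, rfl⟩
  have hzT : z ∈ TT u w x := by
    rw [mem_TT, hz1, hz2]; exact ⟨⟨hzS.2.1, hzS.1⟩, by simp⟩
  have hzX : z ∉ XX u w x := by
    rw [mem_XX, hz1]; simp
  have hvz : v ≠ z := by rintro rfl; exact hzX hvX
  obtain ⟨x', hx', hX'⟩ := surj huw x (insert z ((XX u w x).erase v))
    (Finset.insert_subset hzT ((Finset.erase_subset _ _).trans (XX_sub x))) (by
      rw [Finset.card_insert_of_notMem (fun h => hzX (Finset.mem_of_mem_erase h)),
        Finset.card_erase_of_mem hvX]
      have : 0 < (XX u w x).card := Finset.card_pos.2 ⟨v, hvX⟩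
      omega)
  have hx'' : x' ∈ cls {v, z} x := flip_mem huw hx' hX'
  have hvT : v ∈ TT u w x' := by rw [TT_cls huw hx']; exact XX_sub x hvX
  have hvX' : v ∉ XX u w x' := by
    rw [hX', Finset.mem_insert, Finset.mem_erase]
    rintro (h | h)
    · exact hvz h
    · exact h.1 rfl
  rw [mem_TT] at hvT
  have hxu : x'.1 v u = false := by
    by_contra hne
    apply hvX'
    rw [mem_XX]
    refine ⟨hvT, ?_⟩
    rw [LSwOrb.symm x' u v]
    simpa using hne
  have hxw : x'.1 v w = true := by
    have := hvT.2
    rw [LSwOrb.symm x' u v, LSwOrb.symm x' w v, hxu] at this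
    revert this; cases x'.1 v w <;> simp
  refine ⟨x', hx', ?_, hxw, hxu, ?_⟩
  · intro i j hij
    by_cases hi : i ∈ ({u, w} : Finset (Fin n))
    · by_cases hj : j ∈ ({v, z} : Finset (Fin n))
      · exfalso
        simp only [Finset.mem_insert, Finset.mem_singleton] at hi hj
        have hiS : i ∈ S := by rcases hi with rfl | rfl <;> assumption
        have hjS : j ∈ S := by
          rcases hj with rfl | rfl
          · exact hv
          · exact hzS.2.2
        rcases hij with h | h
        · exact h hiS
        · exact h hjS
      · have hi' : i ∉ ({v, z} : Finset (Fin n)) := by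
          simp only [Finset.mem_insert, Finset.mem_singleton] at hi ⊢
          rintro (h | h)
          · rcases hi with h' | h'
            · exact hvu (h.symm.trans h')
            · exact hvw (h.symm.trans h')
          · rcases hi with h' | h'
            · exact hzS.2.1 (h.symm.trans h')
            · exact hzS.1 (h.symm.trans h')
        exact (mem_cls.1 hx'' i j hi' hj).symm
    · by_cases hj : j ∈ ({u, w} : Finset (Fin n))
      · by_cases hi' : i ∈ ({v, z} : Finset (Fin n))
        · exfalso
          simp only [Finset.mem_insert, Finset.mem_singleton] at hj hi'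
          have hjS : j ∈ S := by rcases hj with rfl | rfl <;> assumption
          have hiS : i ∈ S := by
            rcases hi' with rfl | rfl
            · exact hv
            · exact hzS.2.2
          rcases hij with h | h
          · exact h hiS
          · exact h hjS
        · have hj' : j ∉ ({v, z} : Finset (Fin n)) := by
            simp only [Finset.mem_insert, Finset.mem_singleton] at hj ⊢
            rintro (h | h)
            · rcases hj with h' | h'
              · exact hvu (h.symm.trans h')
              · exact hvw (h.symm.trans h')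
            · rcases hj with h' | h'
              · exact hzS.2.1 (h.symm.trans h')
              · exact hzS.1 (h.symm.trans h')
          exact (mem_cls.1 hx'' i j hi' hj').symm
      · exact (mem_cls.1 hx' i j hi hj).symm
  · intro j hju hjw
    exact (mem_cls.1 hx' v j (by simp [hvu, hvw]) (by simp [hju, hjw])).symm

/-- the set of differences in row `v` -/
def df (v : Fin n) (x y : Om d) : Finset (Fin n) := univ.filter fun j => x.1 v j ≠ y.1 v j

lemma df_comm (v : Fin n) (x y : Om d) : df v x y = df v y x := by
  unfold df
  exact Finset.filter_congr fun j _ => ne_comm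

/-- if the rows differ there are differences in both directions -/
lemma both {v : Fin n} {x y : Om d} (h : (df v x y).Nonempty) :
    ∃ u w, (x.1 v u = true ∧ y.1 v u = false) ∧ (x.1 v w = false ∧ y.1 v w = true) := by
  have hx := sm_univ x v
  have hy := sm_univ y v
  unfold sm at hx hy
  by_contra hcon
  push_neg at hcon
  obtain ⟨j, hj⟩ := h
  unfold df at hj
  rw [Finset.mem_filter] at hj
  -- either all differences are x=1,y=0 or none is
  by_cases hex : ∃ u, x.1 v u = true ∧ y.1 v u = false
  · obtain ⟨u, hu⟩ := hex
    have hle : ∀ w, (y.1 v w).toNat ≤ (x.1 v w).toNat := by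
      intro w
      have := hcon u w hu
      revert this
      cases x.1 v w <;> cases y.1 v w <;> simp
    have hlt : ∑ w, (y.1 v w).toNat < ∑ w, (x.1 v w).toNat :=
      Finset.sum_lt_sum (fun w _ => hle w) ⟨u, Finset.mem_univ _, by rw [hu.1, hu.2]; simp⟩
    omega
  · push_neg at hex
    have hle : ∀ w, (x.1 v w).toNat ≤ (y.1 v w).toNat := by
      intro w
      have := hex w
      revert this
      cases x.1 v w <;> cases y.1 v w <;> simp
    have hlt : ∑ w, (x.1 v w).toNat < ∑ w, (y.1 v w).toNat := by
      refine Finset.sum_lt_sum (fun w _ => hle w) ⟨j, Finset.mem_univ _, ?_⟩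
      have h1 := hle j
      have h2 := hj.2
      revert h1 h2
      cases x.1 v j <;> cases y.1 v j <;> simp
    omega

theorem main : LSw.Conn := by
  intro n d f hf
  have hprs : ∀ u w : Fin n, u ≠ w → ({u, w} : Finset (Fin n)) ∈ prs n := by
    intro u w h
    unfold prs
    rw [Finset.mem_powersetCard]
    exact ⟨Finset.subset_univ _, Finset.card_pair h⟩
  -- one step for the row of `v`
  have row : ∀ (S : Finset (Fin n)) (v : Fin n), v ∈ S → ∀ (k : ℕ) (x y : Om d), Ag S x y →
      (df v x y).card ≤ k → ∃ x' y' : Om d, f x' = f x ∧ f y' = f y ∧ Ag S x' y' ∧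
        ∀ j, x'.1 v j = y'.1 v j := by
    intro S v hv k
    induction k with
    | zero =>
      intro x y hA hk
      refine ⟨x, y, rfl, rfl, hA, fun j => ?_⟩
      by_contra hne
      have : j ∈ df v x y := by unfold df; rw [Finset.mem_filter]; exact ⟨Finset.mem_univ _, hne⟩
      rw [Finset.card_eq_zero.1 (Nat.le_zero.1 hk)] at this
      exact absurd this (Finset.notMem_empty j)
    | succ k ih =>
      intro x y hA hk
      by_cases hne : (df v x y).Nonempty
      · obtain ⟨u, w, ⟨hu1, hu2⟩, hw1, hw2⟩ := both hne
        have huS : u ∈ S := by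
          by_contra h
          have := hA v u (Or.inr h)
          rw [hu1, hu2] at this; exact Bool.noConfusion this
        have hwS : w ∈ S := by
          by_contra h
          have := hA v w (Or.inr h)
          rw [hw1, hw2] at this; exact Bool.noConfusion this
        have huw : u ≠ w := by rintro rfl; rw [hu1] at hw1; exact Bool.noConfusion hw1
        have hvu : v ≠ u := by rintro rfl; rw [LSwOrb.diag] at hu1; exact Bool.noConfusion hu1
        have hvw : v ≠ w := by rintro rfl; rw [LSwOrb.diag] at hw2; exact Bool.noConfusion hw2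
        have hmem : u ∈ df v x y := by
          unfold df; rw [Finset.mem_filter, hu1, hu2]; simp
        rcases le_total (sm x u S) (sm x w S) with hd | hd
        · obtain ⟨x', hx', hAx, h1, h2, h3⟩ := key huS hwS hv x hvw hu1 hw1 hd
          have hfx : f x' = f x := (hf _ (hprs u w huw) x x' hx').symm
          have hsub : df v x' y ⊆ (df v x y).erase u := by
            intro j hj
            unfold df at hj
            rw [Finset.mem_filter] at hj
            have hju : j ≠ u := by
              rintro rfl; rw [h2, hu2] at hj; exact hj.2 rfl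
            have hjw : j ≠ w := by
              rintro rfl; rw [h1, hw2] at hj; exact hj.2 rfl
            rw [Finset.mem_erase]
            refine ⟨hju, ?_⟩
            unfold df
            rw [Finset.mem_filter, ← h3 j hju hjw]
            exact ⟨Finset.mem_univ _, hj.2⟩
          have hc := Finset.card_le_card hsub
          rw [Finset.card_erase_of_mem hmem] at hc
          obtain ⟨x2, y2, e1, e2, e3, e4⟩ := ih x' y (hAx.trans hA) (by omega)
          exact ⟨x2, y2, e1.trans hfx, e2, e3, e4⟩
        · have hd' : sm y w S ≤ sm y u S := by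
            rw [← hA.sm_eq, ← hA.sm_eq]; exact hd
          obtain ⟨y', hy', hAy, h1, h2, h3⟩ := key hwS huS hv y hvu hw2 hu2 hd'
          have hfy : f y' = f y := (hf _ (hprs w u huw.symm) y y' hy').symm
          have hsub : df v x y' ⊆ (df v x y).erase u := by
            intro j hj
            unfold df at hj
            rw [Finset.mem_filter] at hj
            have hju : j ≠ u := by
              rintro rfl; rw [h1, hu1] at hj; exact hj.2 rfl
            have hjw : j ≠ w := by
              rintro rfl; rw [h2, hw1] at hj; exact hj.2 rfl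
            rw [Finset.mem_erase]
            refine ⟨hju, ?_⟩
            unfold df
            rw [Finset.mem_filter, ← h3 j hjw hju]
            exact ⟨Finset.mem_univ _, hj.2⟩
          have hc := Finset.card_le_card hsub
          rw [Finset.card_erase_of_mem hmem] at hc
          obtain ⟨x2, y2, e1, e2, e3, e4⟩ := ih x y' (hA.trans hAy.symm) (by omega)
          exact ⟨x2, y2, e1, e2.trans hfy, e3, e4⟩
      · refine ih x y hA ?_
        rw [Finset.not_nonempty_iff_eq_empty.1 hne]; simp
  -- induction on the support
  have gen : ∀ (k : ℕ) (S : Finset (Fin n)), S.card = k → ∀ x y : Om d, Ag S x y → f x = f y := by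
    intro k
    induction k with
    | zero =>
      intro S hS x y hA
      have hS' : S = ∅ := Finset.card_eq_zero.1 hS
      have : x = y := by
        apply Subtype.ext
        funext i j
        exact hA i j (Or.inl (by rw [hS']; simp))
      rw [this]
    | succ k ih =>
      intro S hS x y hA
      have hne : S.Nonempty := Finset.card_pos.1 (by omega)
      obtain ⟨v, hv⟩ := hne
      obtain ⟨x', y', h1, h2, h3, h4⟩ := row S v hv _ x y hA le_rfl
      rw [← h1, ← h2]
      refine ih (S.erase v) (by rw [Finset.card_erase_of_mem hv, hS]; rfl) x' y' ?_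
      intro i j hij
      by_cases hi : i = v
      · rw [hi]; exact h4 j
      · by_cases hj : j = v
        · rw [hj, LSwOrb.symm x', LSwOrb.symm y']; exact h4 i
        · refine h3 i j ?_
          rcases hij with h | h
          · left; intro h'; exact h (Finset.mem_erase.2 ⟨hi, h'⟩)
          · right; intro h'; exact h (Finset.mem_erase.2 ⟨hj, h'⟩)
  intro x y
  exact gen _ univ rfl x y (fun i j h => by
    rcases h with h | h <;> exact absurd (Finset.mem_univ _) h)

end Crest.Agent.LSwConn
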