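import Mathlib
import Crest.Prelude.Def_SwitchChain

set_option autoImplicit false
open Finset

/-!
Definitions for S0453 (rid 299): block conditional expectations on the graphs with a given
degree vector.  A graph is an adjacency matrix `x : Fin n → Fin n → Bool`.
-/

namespace Crest.Agent.LSw

variable {n : ℕ}

/-- adjacency matrices of simple graphs with degree vector `d` -/
def IsReal (d : Fin n → ℕ) (x : Fin n → Fin n → Bool) : Prop :=
  (∀ a, x a a = false) ∧ (∀ a b, x a b = x b a) ∧
    ∀ a, (univ.filter fun b => x a b = true).card = d a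

instance (d : Fin n → ℕ) : DecidablePred (IsReal d) := fun x => by
  unfold IsReal; infer_instance

/-- the realizations of `d` -/
abbrev Om (d : Fin n → ℕ) := {x : Fin n → Fin n → Bool // IsReal d x}

variable {d : Fin n → ℕ}

/-- the `S`-block of `x`: all realizations which agree with `x` on all pairs avoiding `S` -/
def cls (S : Finset (Fin n)) (x : Om d) : Finset (Om d) :=
  univ.filter fun y => ∀ a b, a ∉ S → b ∉ S → x.1 a b = y.1 a b

lemma mem_cls {S : Finset (Fin n)} {x y : Om d} :
    y ∈ cls S x ↔ ∀ a b, a ∉ S → b ∉ S → x.1 a b = y.1 a b := by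
  simp [cls]

lemma self_mem_cls (S : Finset (Fin n)) (x : Om d) : x ∈ cls S x := by
  simp [cls]

lemma mem_cls_symm {S : Finset (Fin n)} {x y : Om d} (h : y ∈ cls S x) : x ∈ cls S y := by
  rw [mem_cls] at *
  intro a b ha hb
  exact (h a b ha hb).symm

lemma mem_cls_trans {S : Finset (Fin n)} {x y z : Om d} (h : y ∈ cls S x) (h' : z ∈ cls S y) :
    z ∈ cls S x := by
  rw [mem_cls] at *
  intro a b ha hb
  rw [h a b ha hb, h' a b ha hb]

lemma cls_eq {S : Finset (Fin n)} {x y : Om d} (h : y ∈ cls S x) : cls S y = cls S x := by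
  ext z
  exact ⟨fun hz => mem_cls_trans h hz, fun hz => mem_cls_trans (mem_cls_symm h) hz⟩

lemma cls_mono {S T : Finset (Fin n)} (h : S ⊆ T) (x : Om d) : cls S x ⊆ cls T x := by
  intro y hy
  rw [mem_cls] at *
  intro a b ha hb
  exact hy a b (fun h' => ha (h h')) (fun h' => hb (h h'))

/-- conditional expectation onto the `S`-blocks -/
noncomputable def E (S : Finset (Fin n)) (f : Om d → ℝ) (x : Om d) : ℝ :=
  (∑ y ∈ cls S x, f y) / ((cls S x).card : ℝ)

/-- `I - E_S` -/
noncomputable def D (S : Finset (Fin n)) (f : Om d → ℝ) (x : Om d) : ℝ := f x - E S f x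

/-- inner product -/
noncomputable def ip (f g : Om d → ℝ) : ℝ := ∑ x, f x * g x

/-- the two-element vertex sets -/
def prs (n : ℕ) : Finset (Finset (Fin n)) := univ.powersetCard 2

/-- `L f = ∑_p D_p f` -/
noncomputable def L (f : Om d → ℝ) (x : Om d) : ℝ := ∑ p ∈ prs n, D p f x

/-- `L_T f = ∑_{p ⊆ T} D_p f` -/
noncomputable def LT (T : Finset (Fin n)) (f : Om d → ℝ) (x : Om d) : ℝ :=
  ∑ p ∈ T.powersetCard 2, D p f x

/-- switch energy of type `(p,q)` (for disjoint pairs `p`, `q` the set
`cls p x ∩ cls q x` is `{x}` or `{x, x'}`, `x'` the switch of `x` on `p × q`) -/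
noncomputable def en (p q : Finset (Fin n)) (f : Om d → ℝ) : ℝ :=
  ∑ x, ∑ y ∈ cls p x ∩ cls q x, (f x - f y) ^ 2

/-- `x` restricted to `p × q` is a perfect matching (every vertex of `p` has exactly one neighbour
in `q` and conversely) -/
def PM (p q : Finset (Fin n)) (x : Om d) : Prop :=
  (∀ i ∈ p, (q.filter fun j => x.1 i j = true).card = 1) ∧
    ∀ j ∈ q, (p.filter fun i => x.1 i j = true).card = 1

instance (p q : Finset (Fin n)) : DecidablePred (PM (d := d) p q) := fun x => by
  unfold PM; infer_instance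

/-- the states of the `p`-block of `x` which are a perfect matching on `p × q` -/
def clsPM (p q : Finset (Fin n)) (x : Om d) : Finset (Om d) :=
  (cls p x).filter fun y => PM p q y

/-- `N p q f = ∑_B (∑_{y ∈ B, PM} D_p f y)² / #{y ∈ B, PM}`, the sum over all `p`-blocks `B` -/
noncomputable def N (p q : Finset (Fin n)) (f : Om d → ℝ) : ℝ :=
  ∑ x ∈ univ.filter (fun x : Om d => PM p q x),
    ((∑ y ∈ clsPM p q x, D p f y) / ((clsPM p q x).card : ℝ)) ^ 2

/-- the pairs disjoint from `p` -/
def dj (p : Finset (Fin n)) : Finset (Finset (Fin n)) := (prs n).filter fun q => Disjoint p q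

end Crest.Agent.LSw
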