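import Crest.Agent.LSwKernelC

set_option autoImplicit false
open Finset

namespace Crest.Agent.LSwMixing

open Crest.SwitchChain Crest.Agent.LSwKernel

variable {n : ℕ} {d : Fin n → ℕ}

/-- `K f` on the realizations. -/
noncomputable def Kf (d : Fin n → ℕ) (f : Finset (Edge n) → ℝ) (G : Finset (Edge n)) : ℝ :=
  ∑ G' ∈ realizations d, kernel n G G' * f G'

lemma K'_sum (hn : 4 ≤ n) {G : Finset (Edge n)} (hG : G ∈ realizations d) :
    ∑ G' ∈ realizations d, (proposalCount G G' : ℝ) = 6 * (n.choose 4 : ℝ) := by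
  have h := kernel_sum hn hG
  unfold kernel at h
  rw [Finset.sum_add_distrib, Finset.sum_ite_eq, if_pos hG, ← Finset.sum_div] at h
  have hc : (0:ℝ) < (n.choose 4 : ℝ) := by exact_mod_cast Nat.choose_pos hn
  have : (∑ G' ∈ realizations d, (proposalCount G G' : ℝ)) / (12 * (n.choose 4 : ℝ)) = 1 / 2 := by
    linarith
  rw [div_eq_iff (by positivity)] at this
  rw [this]; ring

/-- `‖K f‖² ≤ ⟨f, K f⟩`. -/
lemma sum_Kf_sq_le (hn : 4 ≤ n) (f : Finset (Edge n) → ℝ) :
    ∑ G ∈ realizations d, Kf d f G ^ 2 ≤ ∑ G ∈ realizations d, f G * Kf d f G := by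
  set Ω := realizations d with hΩ
  have hc : (0:ℝ) < (n.choose 4 : ℝ) := by exact_mod_cast Nat.choose_pos hn
  set c6 : ℝ := 6 * (n.choose 4 : ℝ) with hc6
  have hc6p : 0 < c6 := by positivity
  set J : Finset (Edge n) → ℝ := fun G => (∑ G' ∈ Ω, (proposalCount G G' : ℝ) * f G') / c6 with hJ
  have hKJ : ∀ G ∈ Ω, Kf d f G = (f G + J G) / 2 := by
    intro G hG
    unfold Kf kernel
    simp only [add_mul]
    rw [Finset.sum_add_distrib]
    have e1 : ∑ G' ∈ Ω, (if G = G' then (1:ℝ) / 2 else 0) * f G' = f G / 2 := by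
      have : ∀ G' ∈ Ω, (if G = G' then (1:ℝ) / 2 else 0) * f G' =
          if G = G' then f G' / 2 else 0 := by
        intro G' _
        split_ifs <;> ring
      rw [Finset.sum_congr rfl this, Finset.sum_ite_eq, if_pos hG]
    rw [e1, hJ]
    have e2 : ∑ G' ∈ Ω, (proposalCount G G' : ℝ) / (12 * (n.choose 4 : ℝ)) * f G' =
        (∑ G' ∈ Ω, (proposalCount G G' : ℝ) * f G') / c6 / 2 := by
      rw [Finset.sum_div, Finset.sum_div]
      refine Finset.sum_congr rfl fun G' _ => ?_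
      rw [hc6]; field_simp; ring
    rw [e2]; ring
  have hJsq : ∑ G ∈ Ω, J G ^ 2 ≤ ∑ G ∈ Ω, f G ^ 2 := by
    have h1 : ∀ G ∈ Ω, J G ^ 2 ≤ (∑ G' ∈ Ω, (proposalCount G G' : ℝ) * f G' ^ 2) / c6 := by
      intro G hG
      rw [hJ]
      simp only
      rw [div_pow, pow_two c6, ← div_div]
      apply div_le_div_of_nonneg_right _ hc6p.le
      rw [div_le_iff₀ hc6p]
      have hcs := Finset.sum_mul_sq_le_sq_mul_sq Ω
        (fun G' => Real.sqrt (proposalCount G G' : ℝ))
        (fun G' => Real.sqrt (proposalCount G G' : ℝ) * f G')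
      have e1 : ∀ G' ∈ Ω, Real.sqrt (proposalCount G G' : ℝ) *
          (Real.sqrt (proposalCount G G' : ℝ) * f G') = (proposalCount G G' : ℝ) * f G' := by
        intro G' _
        rw [← mul_assoc, Real.mul_self_sqrt (by positivity)]
      have e2 : ∀ G' ∈ Ω, Real.sqrt (proposalCount G G' : ℝ) ^ 2 = (proposalCount G G' : ℝ) := by
        intro G' _
        rw [Real.sq_sqrt (by positivity)]
      have e3 : ∀ G' ∈ Ω, (Real.sqrt (proposalCount G G' : ℝ) * f G') ^ 2 =
          (proposalCount G G' : ℝ) * f G' ^ 2 := by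
        intro G' _
        rw [mul_pow, Real.sq_sqrt (by positivity)]
      rw [Finset.sum_congr rfl e1, Finset.sum_congr rfl e2, Finset.sum_congr rfl e3,
        K'_sum hn hG] at hcs
      rw [mul_comm]
      exact hcs
    refine (Finset.sum_le_sum h1).trans ?_
    rw [← Finset.sum_div, Finset.sum_comm, div_le_iff₀ hc6p, Finset.sum_mul]
    apply le_of_eq
    refine Finset.sum_congr rfl fun G' hG' => ?_
    rw [← Finset.sum_mul, mul_comm]
    congr 1
    rw [hc6, ← K'_sum hn hG']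
    exact Finset.sum_congr rfl fun G _ => by rw [proposalCount_symm]
  have h2 : ∑ G ∈ Ω, f G * Kf d f G - ∑ G ∈ Ω, Kf d f G ^ 2 =
      (∑ G ∈ Ω, f G ^ 2 - ∑ G ∈ Ω, J G ^ 2) / 4 := by
    rw [← Finset.sum_sub_distrib, ← Finset.sum_sub_distrib, Finset.sum_div]
    refine Finset.sum_congr rfl fun G hG => ?_
    rw [hKJ G hG]; ring
  linarith

lemma pow_zero_off {G : Finset (Edge n)} (hG : G ∈ realizations d) (t : ℕ) :
    ∀ G', G' ∉ realizations d → (kernel n ^ t) G G' = 0 := by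
  induction t with
  | zero =>
    intro G' hG'
    rw [pow_zero, Matrix.one_apply_ne]
    rintro rfl; exact hG' hG
  | succ t ih =>
    intro G' hG'
    rw [pow_succ, Matrix.mul_apply]
    refine Finset.sum_eq_zero fun H _ => ?_
    by_cases hH : H ∈ realizations d
    · rw [kernel_eq_zero hH hG', mul_zero]
    · rw [ih H hH, zero_mul]

/-- the deviation from uniform -/
noncomputable def dev (d : Fin n → ℕ) (G : Finset (Edge n)) (t : ℕ) (G' : Finset (Edge n)) : ℝ :=
  (kernel n ^ t) G G' - 1 / ((realizations d).card : ℝ)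

lemma pow_succ_apply {G : Finset (Edge n)} (hG : G ∈ realizations d) (t : ℕ)
    (G' : Finset (Edge n)) :
    (kernel n ^ (t + 1)) G G' = ∑ H ∈ realizations d, kernel n G' H * (kernel n ^ t) G H := by
  rw [pow_succ, Matrix.mul_apply]
  symm
  rw [Finset.sum_congr rfl (fun H _ => by
    rw [kernel_symm G' H, mul_comm] : ∀ H ∈ realizations d,
      kernel n G' H * (kernel n ^ t) G H = (kernel n ^ t) G H * kernel n H G')]
  apply Finset.sum_subset (subset_univ _)
  intro H _ hH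
  rw [pow_zero_off hG t H hH, zero_mul]

lemma dev_succ (hn : 4 ≤ n) {G : Finset (Edge n)} (hG : G ∈ realizations d) (t : ℕ)
    {G' : Finset (Edge n)} (hG' : G' ∈ realizations d) :
    dev d G (t + 1) G' = Kf d (dev d G t) G' := by
  unfold dev Kf
  rw [pow_succ_apply hG]
  simp only [mul_sub]
  rw [Finset.sum_sub_distrib, ← Finset.sum_mul, kernel_sum hn hG', one_mul]

lemma dev_mean (hn : 4 ≤ n) {G : Finset (Edge n)} (hG : G ∈ realizations d) (t : ℕ) :
    ∑ G' ∈ realizations d, dev d G t G' = 0 := by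
  have hcard : ((realizations d).card : ℝ) ≠ 0 := by
    have : 0 < (realizations d).card := card_pos.2 ⟨G, hG⟩
    positivity
  induction t with
  | zero =>
    unfold dev
    rw [Finset.sum_sub_distrib, Finset.sum_const, nsmul_eq_mul, mul_one_div_cancel hcard]
    have : ∑ x ∈ realizations d, (kernel n ^ 0) G x = 1 := by
      rw [Finset.sum_eq_single G]
      · rw [pow_zero, Matrix.one_apply_eq]
      · intro b _ hb
        rw [pow_zero, Matrix.one_apply_ne hb.symm]
      · intro h; exact absurd hG h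
    rw [this, sub_self]
  | succ t ih =>
    rw [Finset.sum_congr rfl (fun G' hG' => dev_succ hn hG t hG')]
    unfold Kf
    rw [Finset.sum_comm]
    have : ∀ H ∈ realizations d, ∑ G' ∈ realizations d, kernel n G' H * dev d G t H =
        dev d G t H := by
      intro H hH
      rw [← Finset.sum_mul]
      rw [Finset.sum_congr rfl (fun G' _ => kernel_symm G' H), kernel_sum hn hH, one_mul]
    rw [Finset.sum_congr rfl this, ih]

lemma dev_sq_zero {G : Finset (Edge n)} (hG : G ∈ realizations d) :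
    ∑ G' ∈ realizations d, dev d G 0 G' ^ 2 ≤ 1 := by
  set N : ℝ := ((realizations d).card : ℝ) with hN
  have hNpos : 0 < N := by
    have : 0 < (realizations d).card := card_pos.2 ⟨G, hG⟩
    rw [hN]; positivity
  have e : ∀ G' ∈ realizations d, dev d G 0 G' ^ 2 =
      (if G = G' then 1 - 2 / N else 0) + 1 / N ^ 2 := by
    intro G' _
    unfold dev
    rw [pow_zero, Matrix.one_apply, ← hN]
    split_ifs <;> ring
  rw [Finset.sum_congr rfl e, Finset.sum_add_distrib, Finset.sum_ite_eq, if_pos hG,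
    Finset.sum_const, nsmul_eq_mul, ← hN]
  have h1 : N * (1 / N ^ 2) = 1 / N := by field_simp
  rw [h1]
  have h2 : 0 < 1 / N := by positivity
  have h3 : 2 / N = 2 * (1 / N) := by ring
  rw [h3]; linarith

lemma gamma_le (hn : 4 ≤ n) : 24 * (n : ℝ) ^ 2 * (n.choose 4 : ℝ) ≤ (n : ℝ) ^ 6 := by
  have h1 : 24 * n.choose 4 ≤ n ^ 4 := by
    have := Nat.descFactorial_eq_factorial_mul_choose n 4
    have h2 := Nat.descFactorial_le_pow n 4
    rw [this] at h2
    simpa [Nat.factorial] using h2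
  have h2 : (24:ℝ) * (n.choose 4 : ℝ) ≤ (n:ℝ) ^ 4 := by exact_mod_cast h1
  calc 24 * (n : ℝ) ^ 2 * (n.choose 4 : ℝ) = (n:ℝ) ^ 2 * (24 * (n.choose 4 : ℝ)) := by ring
    _ ≤ (n:ℝ) ^ 2 * (n:ℝ) ^ 4 := mul_le_mul_of_nonneg_left h2 (by positivity)
    _ = (n:ℝ) ^ 6 := by ring

lemma card_le_exp (d : Fin n → ℕ) :
    ((realizations d).card : ℝ) ≤ Real.exp ((n:ℝ) ^ 2) := by
  have h1 : (realizations d).card ≤ 2 ^ (n ^ 2) := by
    calc (realizations d).card ≤ Fintype.card (Finset (Edge n)) := card_le_univ _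
      _ = 2 ^ Fintype.card (Edge n) := Fintype.card_finset
      _ ≤ 2 ^ (n ^ 2) := by
          apply Nat.pow_le_pow_right (by norm_num)
          have : Fintype.card (Edge n) = n.choose 2 := by
            have h := Sym2.card_subtype_not_diag (α := Fin n)
            rw [Fintype.card_fin] at h
            convert h
          rw [this]
          exact Nat.choose_le_pow n 2
  have h2 : ((realizations d).card : ℝ) ≤ (2:ℝ) ^ (n ^ 2) := by exact_mod_cast h1
  refine h2.trans ?_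
  have h3 : (2:ℝ) ≤ Real.exp 1 := by
    have := Real.add_one_le_exp (1:ℝ)
    linarith
  calc (2:ℝ) ^ (n ^ 2) ≤ (Real.exp 1) ^ (n ^ 2) := pow_le_pow_left₀ (by norm_num) h3 _
    _ = Real.exp ((n:ℝ) ^ 2) := by
        rw [← Real.exp_nat_mul]; push_cast; rw [mul_one]

theorem mixing_of_poincare (hn : 4 ≤ n) (d : Fin n → ℕ)
    (hP : ∀ f : Finset (Edge n) → ℝ,
      ((realizations d).card : ℝ) * (∑ G ∈ realizations d, f G ^ 2) -
          (∑ G ∈ realizations d, f G) ^ 2 ≤
        24 * (n : ℝ) ^ 2 * (n.choose 4 : ℝ) * (realizations d).card *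
          ∑ G ∈ realizations d, f G * (f G - ∑ G' ∈ realizations d, kernel n G G' * f G')) :
    ∃ t : ℕ, t ≤ 2 * n ^ 8 ∧ ∀ G ∈ realizations d,
        tvDist (fun G' => (kernel n ^ t) G G') (unifOn (realizations d)) ≤ 1 / 4 := by
  refine ⟨2 * n ^ 8, le_rfl, fun G hG => ?_⟩
  set Ω := realizations d with hΩ
  set N : ℝ := (Ω.card : ℝ) with hN
  have hNpos : 0 < N := by
    have : 0 < Ω.card := card_pos.2 ⟨G, hG⟩
    rw [hN]; positivity
  have hc : (0:ℝ) < (n.choose 4 : ℝ) := by exact_mod_cast Nat.choose_pos hn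
  have hnpos : (0:ℝ) < (n:ℝ) := by
    have : (4:ℝ) ≤ (n:ℝ) := by exact_mod_cast hn
    linarith
  set Γ : ℝ := 24 * (n : ℝ) ^ 2 * (n.choose 4 : ℝ) with hΓ
  have hΓpos : 0 < Γ := by positivity
  have hΓ1 : 1 ≤ Γ := by
    have h1 : (1:ℝ) ≤ (n.choose 4 : ℝ) := by exact_mod_cast Nat.choose_pos hn
    have h2 : (1:ℝ) ≤ (n:ℝ) ^ 2 := by
      have : (4:ℝ) ≤ (n:ℝ) := by exact_mod_cast hn
      nlinarith
    rw [hΓ]; nlinarith
  -- one step contraction
  have hstep : ∀ t, ∑ G' ∈ Ω, dev d G (t + 1) G' ^ 2 ≤ (1 - 1 / Γ) * ∑ G' ∈ Ω, dev d G t G' ^ 2 := by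
    intro t
    have e1 : ∑ G' ∈ Ω, dev d G (t + 1) G' ^ 2 = ∑ G' ∈ Ω, Kf d (dev d G t) G' ^ 2 :=
      Finset.sum_congr rfl fun G' hG' => by rw [dev_succ hn hG t hG']
    rw [e1]
    refine (sum_Kf_sq_le hn _).trans ?_
    have h := hP (dev d G t)
    rw [dev_mean hn hG t] at h
    have e2 : ∑ G' ∈ Ω, dev d G t G' * (dev d G t G' - ∑ H ∈ Ω, kernel n G' H * dev d G t H) =
        ∑ G' ∈ Ω, dev d G t G' ^ 2 - ∑ G' ∈ Ω, dev d G t G' * Kf d (dev d G t) G' := by
      rw [← Finset.sum_sub_distrib]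
      refine Finset.sum_congr rfl fun G' _ => ?_
      unfold Kf; ring
    rw [e2] at h
    set A := ∑ G' ∈ Ω, dev d G t G' ^ 2
    set B := ∑ G' ∈ Ω, dev d G t G' * Kf d (dev d G t) G'
    have h' : N * A ≤ N * (Γ * (A - B)) := by
      have e3 : 24 * (n:ℝ) ^ 2 * (n.choose 4 : ℝ) * (Ω.card : ℝ) * (A - B) = N * (Γ * (A - B)) := by
        rw [hΓ, hN]; ring
      rw [← e3]
      have : (0:ℝ) ^ 2 = 0 := by norm_num
      rw [this, sub_zero] at h
      exact h
    have h'' := le_of_mul_le_mul_left h' hNpos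
    have h3 : A / Γ ≤ A - B := by
      rw [div_le_iff₀ hΓpos]; linarith
    have h4 : (1 - 1 / Γ) * A = A - A / Γ := by ring
    rw [h4]; linarith
  have hfac : 0 ≤ 1 - 1 / Γ := by
    have : 1 / Γ ≤ 1 := by rw [div_le_one hΓpos]; exact hΓ1
    linarith
  have hpow : ∀ t, ∑ G' ∈ Ω, dev d G t G' ^ 2 ≤ (1 - 1 / Γ) ^ t := by
    intro t
    induction t with
    | zero => rw [pow_zero]; exact dev_sq_zero hG
    | succ t ih =>
      refine (hstep t).trans ?_
      rw [pow_succ, mul_comm]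
      exact mul_le_mul_of_nonneg_right ih hfac
  set t := 2 * n ^ 8 with ht
  have hexp : (1 - 1 / Γ) ^ t ≤ Real.exp (-(2 * (n:ℝ) ^ 2)) := by
    have h1 : 1 - 1 / Γ ≤ Real.exp (-(1 / Γ)) := by
      have := Real.add_one_le_exp (-(1 / Γ))
      linarith
    refine (pow_le_pow_left₀ hfac h1 t).trans ?_
    rw [← Real.exp_nat_mul]
    apply Real.exp_le_exp.2
    rw [ht]
    push_cast
    have h2 : (2 * (n:ℝ) ^ 8) * (1 / Γ) ≥ 2 * (n:ℝ) ^ 2 := by
      rw [mul_one_div, ge_iff_le, le_div_iff₀ hΓpos]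
      have := gamma_le hn
      calc 2 * (n:ℝ) ^ 2 * Γ ≤ 2 * (n:ℝ) ^ 2 * (n:ℝ) ^ 6 :=
            mul_le_mul_of_nonneg_left this (by positivity)
        _ = 2 * (n:ℝ) ^ 8 := by ring
    linarith
  -- total variation
  unfold tvDist
  have e1 : ∑ a, |(kernel n ^ t) G a - unifOn Ω a| = ∑ a ∈ Ω, |dev d G t a| := by
    rw [← Finset.sum_subset (subset_univ Ω)]
    · refine Finset.sum_congr rfl fun a ha => ?_
      unfold dev unifOn
      rw [if_pos ha]
    · intro a _ ha
      unfold unifOn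
      rw [if_neg ha, pow_zero_off hG t a ha]
      simp
  rw [e1]
  have h2 : (∑ a ∈ Ω, |dev d G t a|) ^ 2 ≤ 1 / 4 := by
    have hcs := Finset.sum_mul_sq_le_sq_mul_sq Ω (fun _ => (1:ℝ)) (fun a => |dev d G t a|)
    simp only [one_mul, one_pow, Finset.sum_const, nsmul_eq_mul, mul_one, sq_abs] at hcs
    refine hcs.trans ?_
    calc (Ω.card : ℝ) * ∑ a ∈ Ω, dev d G t a ^ 2
        ≤ Real.exp ((n:ℝ) ^ 2) * Real.exp (-(2 * (n:ℝ) ^ 2)) := by
          apply mul_le_mul (card_le_exp d) ((hpow t).trans hexp)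
          · exact Finset.sum_nonneg fun _ _ => sq_nonneg _
          · exact (Real.exp_pos _).le
      _ = Real.exp (-((n:ℝ) ^ 2)) := by rw [← Real.exp_add]; congr 1; ring
      _ ≤ 1 / 4 := by
          have hn4 : (4:ℝ) ≤ (n:ℝ) := by exact_mod_cast hn
          have h5 : (n:ℝ) ^ 2 ≥ 3 := by nlinarith
          have h6 : (4:ℝ) ≤ Real.exp ((n:ℝ) ^ 2) := by
            have := Real.add_one_le_exp ((n:ℝ) ^ 2)
            linarith
          rw [Real.exp_neg, ← one_div]
          exact one_div_le_one_div_of_le (by norm_num) h6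
  have h3 : 0 ≤ ∑ a ∈ Ω, |dev d G t a| := Finset.sum_nonneg fun _ _ => abs_nonneg _
  have h4 : ∑ a ∈ Ω, |dev d G t a| ≤ 1 / 2 := by
    by_contra h
    push Not at h
    nlinarith
  linarith

end Crest.Agent.LSwMixing
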