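import Crest.Agent.LSwKernel
import Crest.Agent.LSwMixing

set_option autoImplicit false
open Finset

/-!
S0453 from the two abstract statements `LSw.Poinc` and `LSw.JohnsonP`.
-/

namespace Crest.Agent.LSwFinal

open Crest.Agent.LSw

theorem final (hPo : Poinc) (hJP : JohnsonP) (n : ℕ) (hn : 4 ≤ n)
    (d : Fin n → ℕ) :
    (∃ t : ℕ, t ≤ 2 * n ^ 8 ∧ ∀ G ∈ Crest.SwitchChain.realizations d,
        Crest.SwitchChain.tvDist (fun G' => (Crest.SwitchChain.kernel n ^ t) G G')
          (Crest.SwitchChain.unifOn (Crest.SwitchChain.realizations d)) ≤ 1 / 4) ∧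
      ∀ f : Finset (Crest.SwitchChain.Edge n) → ℝ,
        ((Crest.SwitchChain.realizations d).card : ℝ) *
              (∑ G ∈ Crest.SwitchChain.realizations d, f G ^ 2) -
            (∑ G ∈ Crest.SwitchChain.realizations d, f G) ^ 2 ≤
          24 * (n : ℝ) ^ 2 * (n.choose 4 : ℝ) * (Crest.SwitchChain.realizations d).card *
            ∑ G ∈ Crest.SwitchChain.realizations d,
              f G * (f G - ∑ G' ∈ Crest.SwitchChain.realizations d,
                Crest.SwitchChain.kernel n G G' * f G') :=
  ⟨LSwMixing.mixing_of_poincare hn d (LSwKernel.poincare_of hPo hJP hn d),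
    LSwKernel.poincare_of hPo hJP hn d⟩

end Crest.Agent.LSwFinal
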