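import Crest.Agent.LSwSpec
import Crest.Agent.LSwBlock2

set_option autoImplicit false
set_option linter.all false
open Finset

/-!
The pure Johnson inequality (module `JohnsonPure` of S0453).
-/

namespace Crest.Agent.LSwJohnsonPure

variable {α : Type} [DecidableEq α]

lemma cs_aux {n1 n2 E1 E2 A B : ℝ} (hn1 : 0 ≤ n1) (hn2 : 0 ≤ n2) (hN : 0 < n1 + n2)
    (hE1 : 0 ≤ E1) (hE2 : 0 ≤ E2) (h1 : A ^ 2 ≤ n1 * E1) (h2 : (B - A) ^ 2 ≤ n2 * E2)
    (m : ℝ) (hm : m * (n1 + n2) = n1) :
    B ^ 2 + 4 * (A - m * B) ^ 2 ≤ (n1 + n2) * (E1 + E2) := by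
  rcases hn1.eq_or_lt with h | h
  · -- n1 = 0
    rw [← h] at h1 hN hm ⊢
    have hA : A = 0 := by nlinarith [sq_nonneg A]
    have hm0 : m = 0 := by
      rcases mul_eq_zero.1 hm with h' | h'
      · exact h'
      · linarith
    rw [hA] at h2 ⊢
    rw [hm0]
    nlinarith
  · rcases hn2.eq_or_lt with h' | h'
    · rw [← h'] at h2 hN hm ⊢
      have hAB : B - A = 0 := by nlinarith [sq_nonneg (B - A)]
      have hA : A = B := by linarith
      have hm1 : m = 1 := by
        have : (m - 1) * n1 = 0 := by linarith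
        rcases mul_eq_zero.1 this with h'' | h''
        · linarith
        · linarith
      rw [hA] at h1 ⊢
      rw [hm1]
      nlinarith
    · have hmeq : m = n1 / (n1 + n2) := by field_simp; exact hm
      have e1 : A ^ 2 / n1 ≤ E1 := by rw [div_le_iff₀ h]; linarith
      have e2 : (B - A) ^ 2 / n2 ≤ E2 := by rw [div_le_iff₀ h']; linarith
      have key : B ^ 2 + 4 * (A - m * B) ^ 2 ≤ (n1 + n2) * (A ^ 2 / n1 + (B - A) ^ 2 / n2) := by
        have e3 : (n1 + n2) * (A ^ 2 / n1 + (B - A) ^ 2 / n2) =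
            B ^ 2 + (n1 + n2) ^ 2 / (n1 * n2) * (A - m * B) ^ 2 := by
          rw [hmeq]
          field_simp
          ring
        rw [e3]
        have e4 : 4 ≤ (n1 + n2) ^ 2 / (n1 * n2) := by
          rw [le_div_iff₀ (by positivity)]
          nlinarith [sq_nonneg (n1 - n2)]
        nlinarith [sq_nonneg (A - m * B)]
      calc _ ≤ _ := key
        _ ≤ _ := by
          apply mul_le_mul_of_nonneg_left _ hN.le
          linarith

section

variable (T : Finset α) (x : ℕ) (g : Finset α → ℝ)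

/-- `F_c` -/
noncomputable def F (c : α) : ℝ := ∑ X ∈ T.powersetCard x, if c ∈ X then g X else 0

/-- `F_{c,e}` -/
noncomputable def F2 (c e : α) : ℝ :=
  ∑ X ∈ T.powersetCard x, if c ∈ X ∧ e ∈ X then g X else 0

lemma F2_symm (c e : α) : F2 T x g c e = F2 T x g e c := by
  unfold F2
  refine Finset.sum_congr rfl fun X _ => ?_
  simp only [and_comm]

lemma sum_F (hg : ∑ X ∈ T.powersetCard x, g X = 0) : ∑ c ∈ T, F T x g c = 0 := by
  unfold F
  rw [Finset.sum_comm]
  have : ∀ X ∈ T.powersetCard x, ∑ c ∈ T, (if c ∈ X then g X else 0) = x * g X := by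
    intro X hX
    obtain ⟨h1, h2⟩ := Finset.mem_powersetCard.1 hX
    rw [← Finset.sum_filter, Finset.sum_const, nsmul_eq_mul]
    have : T.filter (fun c => c ∈ X) = X := by
      ext c; rw [Finset.mem_filter]; exact ⟨fun h => h.2, fun h => ⟨h1 h, h⟩⟩
    rw [this, h2]
  rw [Finset.sum_congr rfl this, ← Finset.mul_sum, hg, mul_zero]

lemma sum_F2 (hx : 1 ≤ x) (c : α) (hc : c ∈ T) :
    ∑ e ∈ T.erase c, F2 T x g c e = ((x - 1 : ℕ) : ℝ) * F T x g c := by
  unfold F2 F
  rw [Finset.sum_comm, Finset.mul_sum]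
  refine Finset.sum_congr rfl fun X hX => ?_
  obtain ⟨h1, h2⟩ := Finset.mem_powersetCard.1 hX
  by_cases hcX : c ∈ X
  · simp only [hcX, true_and, if_true]
    rw [← Finset.sum_filter, Finset.sum_const, nsmul_eq_mul]
    have : (T.erase c).filter (fun e => e ∈ X) = X.erase c := by
      ext e; rw [Finset.mem_filter, Finset.mem_erase, Finset.mem_erase]
      exact ⟨fun h => ⟨h.1.1, h.2⟩, fun h => ⟨⟨h.1, h1 h.2⟩, h.2⟩⟩
    rw [this, Finset.card_erase_of_mem hcX, h2]
  · simp [hcX]

lemma sep_eq (c e : α) (hce : c ≠ e) :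
    ∑ X ∈ (T.powersetCard x).filter (fun X => ¬ (c ∈ X ↔ e ∈ X)), g X =
      F T x g c + F T x g e - 2 * F2 T x g c e := by
  unfold F F2
  rw [Finset.sum_filter, ← Finset.sum_add_distrib, Finset.mul_sum, ← Finset.sum_sub_distrib]
  refine Finset.sum_congr rfl fun X _ => ?_
  by_cases h1 : c ∈ X <;> by_cases h2 : e ∈ X <;> simp [h1, h2]
  ring

/-- exchange bijection -/
lemma exch (c e : α) (hce : c ≠ e) (hc : c ∈ T) (he : e ∈ T) (R : Finset α → Prop)
    [DecidablePred R] (hR : ∀ X, c ∈ X → e ∉ X → (R X ↔ R (insert e (X.erase c)))) :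
    ∑ X ∈ (T.powersetCard x).filter (fun X => (c ∈ X ∧ e ∉ X) ∧ R X),
        g (insert e (X.erase c)) =
      ∑ X ∈ (T.powersetCard x).filter (fun X => (e ∈ X ∧ c ∉ X) ∧ R X), g X := by
  refine Finset.sum_bij' (fun X _ => insert e (X.erase c)) (fun X _ => insert c (X.erase e))
    ?_ ?_ ?_ ?_ ?_
  · intro X hX
    rw [Finset.mem_filter, Finset.mem_powersetCard] at hX ⊢
    obtain ⟨⟨h1, h2⟩, ⟨h3, h4⟩, h5⟩ := hX
    refine ⟨⟨Finset.insert_subset he ((Finset.erase_subset _ _).trans h1), ?_⟩,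
      ⟨Finset.mem_insert_self _ _, ?_⟩, (hR X h3 h4).1 h5⟩
    · rw [Finset.card_insert_of_notMem (fun h => h4 (Finset.mem_of_mem_erase h)),
        Finset.card_erase_of_mem h3, h2]
      have : 0 < X.card := Finset.card_pos.2 ⟨c, h3⟩
      omega
    · simp [hce]
  · intro X hX
    rw [Finset.mem_filter, Finset.mem_powersetCard] at hX ⊢
    obtain ⟨⟨h1, h2⟩, ⟨h3, h4⟩, h5⟩ := hX
    have hcc : c ∉ X.erase e := fun h => h4 (Finset.mem_of_mem_erase h)
    refine ⟨⟨Finset.insert_subset hc ((Finset.erase_subset _ _).trans h1), ?_⟩,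
      ⟨Finset.mem_insert_self _ _, ?_⟩, ?_⟩
    · rw [Finset.card_insert_of_notMem hcc, Finset.card_erase_of_mem h3, h2]
      have : 0 < X.card := Finset.card_pos.2 ⟨e, h3⟩
      omega
    · simp [hce.symm]
    · rw [hR _ (Finset.mem_insert_self _ _) (by simp [hce.symm])]
      rw [Finset.erase_insert hcc, Finset.insert_erase h3]
      exact h5
  · intro X hX
    rw [Finset.mem_filter] at hX
    obtain ⟨_, ⟨h3, h4⟩, _⟩ := hX
    rw [Finset.erase_insert (fun h => h4 (Finset.mem_of_mem_erase h)), Finset.insert_erase h3]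
  · intro X hX
    rw [Finset.mem_filter] at hX
    obtain ⟨_, ⟨h3, h4⟩, _⟩ := hX
    rw [Finset.erase_insert (fun h => h4 (Finset.mem_of_mem_erase h)), Finset.insert_erase h3]
  · intro X _; rfl

/-- energy of a pair -/
noncomputable def En (c e : α) : ℝ :=
  ∑ X ∈ (T.powersetCard x).filter (fun X => c ∈ X ∧ e ∉ X), (g X - g (insert e (X.erase c))) ^ 2

lemma pair_bound (c e u : α) (hce : c ≠ e) (huc : u ≠ c) (hue : u ≠ e) (hc : c ∈ T) (he : e ∈ T)
    (hu : u ∈ T) (hx : 1 ≤ x) (hxT : x + 1 ≤ T.card) (m : ℝ)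
    (hm : m * ((T.card - 2 : ℕ) : ℝ) = ((x - 1 : ℕ) : ℝ)) :
    (F T x g c - F T x g e) ^ 2 +
      4 * ((F2 T x g c u - F2 T x g e u) - m * (F T x g c - F T x g e)) ^ 2 ≤
    ((T.card - 2).choose (x - 1) : ℝ) * En T x g c e := by
  classical
  set S1 := (T.powersetCard x).filter (fun X => (c ∈ X ∧ e ∉ X) ∧ u ∈ X) with hS1
  set S2 := (T.powersetCard x).filter (fun X => (c ∈ X ∧ e ∉ X) ∧ u ∉ X) with hS2
  set d : Finset α → ℝ := fun X => g X - g (insert e (X.erase c)) with hd
  have hR1 : ∀ X : Finset α, c ∈ X → e ∉ X → (u ∈ X ↔ u ∈ insert e (X.erase c)) := by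
    intro X _ _
    rw [Finset.mem_insert, Finset.mem_erase]
    constructor
    · intro h; exact Or.inr ⟨huc, h⟩
    · rintro (h | h)
      · exact absurd h hue
      · exact h.2
  have hR2 : ∀ X : Finset α, c ∈ X → e ∉ X → (u ∉ X ↔ u ∉ insert e (X.erase c)) :=
    fun X h1 h2 => not_congr (hR1 X h1 h2)
  -- the two sums of d
  have hA : ∑ X ∈ S1, d X = F2 T x g c u - F2 T x g e u := by
    simp only [hd, Finset.sum_sub_distrib]
    rw [hS1, exch T x g c e hce hc he (fun X => u ∈ X) hR1]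
    unfold F2
    rw [Finset.sum_filter, Finset.sum_filter, ← Finset.sum_sub_distrib, ← Finset.sum_sub_distrib]
    refine Finset.sum_congr rfl fun X _ => ?_
    by_cases h1 : c ∈ X <;> by_cases h2 : e ∈ X <;> by_cases h3 : u ∈ X <;> simp [h1, h2, h3]
  have hB : ∑ X ∈ S2, d X = (F T x g c - F T x g e) - (F2 T x g c u - F2 T x g e u) := by
    simp only [hd, Finset.sum_sub_distrib]
    rw [hS2, exch T x g c e hce hc he (fun X => u ∉ X) hR2]
    unfold F F2
    rw [Finset.sum_filter, Finset.sum_filter, ← Finset.sum_sub_distrib, ← Finset.sum_sub_distrib,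
      ← Finset.sum_sub_distrib, ← Finset.sum_sub_distrib]
    refine Finset.sum_congr rfl fun X _ => ?_
    by_cases h1 : c ∈ X <;> by_cases h2 : e ∈ X <;> by_cases h3 : u ∈ X <;> simp [h1, h2, h3]
  -- cardinalities
  obtain ⟨x', rfl⟩ : ∃ x', x = x' + 1 := ⟨x - 1, by omega⟩
  have hN : (S1.card : ℝ) + (S2.card : ℝ) = ((T.card - 2).choose x' : ℝ) := by
    have h1 := LSwBlock2.card_sep_aux T x' hce hc he
    rw [← h1]
    have h2 : (T.powersetCard (x' + 1)).filter (fun X => c ∈ X ∧ e ∉ X) = S1 ∪ S2 := by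
      rw [hS1, hS2, ← Finset.filter_or]
      refine Finset.filter_congr fun X _ => ?_
      tauto
    rw [h2, Finset.card_union_of_disjoint]
    · push_cast; rfl
    · rw [Finset.disjoint_left]
      intro X hX hX'
      rw [hS1, Finset.mem_filter] at hX
      rw [hS2, Finset.mem_filter] at hX'
      exact hX'.2.2 hX.2.2
  have hn1 : (S1.card : ℝ) * ((T.card - 2 : ℕ) : ℝ) = (x' : ℝ) * ((T.card - 2).choose x' : ℝ) := by
    -- S1 ≅ sets of size x' in T \ u
    have h1 : S1.card = (((T.erase u).powersetCard x').filter fun X => c ∈ X ∧ e ∉ X).card := by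
      rw [hS1]
      refine Finset.card_bij (fun X _ => X.erase u) ?_ ?_ ?_
      · intro X hX
        rw [Finset.mem_filter, Finset.mem_powersetCard] at hX ⊢
        obtain ⟨⟨h1, h2⟩, ⟨h3, h4⟩, h5⟩ := hX
        refine ⟨⟨Finset.erase_subset_erase u h1, ?_⟩, ?_, ?_⟩
        · rw [Finset.card_erase_of_mem h5, h2]; rfl
        · rw [Finset.mem_erase]; exact ⟨huc.symm, h3⟩
        · exact fun h => h4 (Finset.mem_of_mem_erase h)
      · intro X hX Y hY hXY
        rw [Finset.mem_filter] at hX hY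
        have := congrArg (fun Z => insert u Z) hXY
        simpa [Finset.insert_erase hX.2.2, Finset.insert_erase hY.2.2] using this
      · intro Y hY
        rw [Finset.mem_filter, Finset.mem_powersetCard] at hY
        obtain ⟨⟨h1, h2⟩, h3, h4⟩ := hY
        have huY : u ∉ Y := fun h => by
          have := h1 h
          simp at this
        refine ⟨insert u Y, ?_, Finset.erase_insert huY⟩
        rw [Finset.mem_filter, Finset.mem_powersetCard]
        refine ⟨⟨Finset.insert_subset hu (h1.trans (Finset.erase_subset _ _)), ?_⟩,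
          ⟨Finset.mem_insert_of_mem h3, ?_⟩, Finset.mem_insert_self _ _⟩
        · rw [Finset.card_insert_of_notMem huY, h2]
        · rw [Finset.mem_insert, not_or]; exact ⟨hue.symm, h4⟩
    rcases x' with _ | x''
    · have : S1.card = 0 := by
        rw [h1, Finset.powersetCard_zero]
        simp [Finset.filter_singleton]
      rw [this]; simp
    · rw [h1, LSwBlock2.card_sep_aux (T.erase u) x'' hce
        (Finset.mem_erase.2 ⟨huc.symm, hc⟩) (Finset.mem_erase.2 ⟨hue.symm, he⟩),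
        Finset.card_erase_of_mem hu]
      have h3 : 3 ≤ T.card := by omega
      obtain ⟨t, ht⟩ : ∃ t, T.card = t + 3 := ⟨T.card - 3, by omega⟩
      rw [ht]
      have e1 : t + 3 - 1 - 2 = t := by omega
      have e2 : t + 3 - 2 = t + 1 := by omega
      rw [e1, e2]
      have := Nat.add_one_mul_choose_eq t x''
      have h' : ((t + 1 : ℕ) : ℝ) * (t.choose x'' : ℝ) =
          ((t + 1).choose (x'' + 1) : ℝ) * ((x'' + 1 : ℕ) : ℝ) := by exact_mod_cast this
      push_cast at h' ⊢
      linarith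
  have hNpos : (0:ℝ) < (S1.card : ℝ) + (S2.card : ℝ) := by
    rw [hN]; exact_mod_cast Nat.choose_pos (by omega)
  have hE : En T (x' + 1) g c e = ∑ X ∈ S1, (d X) ^ 2 + ∑ X ∈ S2, (d X) ^ 2 := by
    unfold En
    rw [hS1, hS2, Finset.sum_filter, Finset.sum_filter, Finset.sum_filter,
      ← Finset.sum_add_distrib]
    refine Finset.sum_congr rfl fun X _ => ?_
    by_cases h1 : c ∈ X <;> by_cases h2 : e ∈ X <;> by_cases h3 : u ∈ X <;>
      simp [h1, h2, h3, hd]
  have c1 : (F2 T (x' + 1) g c u - F2 T (x' + 1) g e u) ^ 2 ≤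
      (S1.card : ℝ) * ∑ X ∈ S1, (d X) ^ 2 := by
    rw [← hA]; exact sq_sum_le_card_mul_sum_sq
  have c2 : ((F T (x' + 1) g c - F T (x' + 1) g e) -
      (F2 T (x' + 1) g c u - F2 T (x' + 1) g e u)) ^ 2 ≤ (S2.card : ℝ) * ∑ X ∈ S2, (d X) ^ 2 := by
    rw [← hB]; exact sq_sum_le_card_mul_sum_sq
  have hm' : m * ((S1.card : ℝ) + (S2.card : ℝ)) = S1.card := by
    rw [hN]
    have ht2 : (0:ℝ) < ((T.card - 2 : ℕ) : ℝ) := by
      have h3 : 3 ≤ T.card := by
        have : ({c, e, u} : Finset α) ⊆ T := by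
          intro v hv
          simp only [Finset.mem_insert, Finset.mem_singleton] at hv
          rcases hv with rfl | rfl | rfl <;> assumption
        have h4 := Finset.card_le_card this
        have h5 : ({c, e, u} : Finset α).card = 3 := by
          rw [Finset.card_eq_three]
          exact ⟨c, e, u, hce, huc.symm, hue.symm, rfl⟩
        omega
      exact_mod_cast (by omega : 0 < T.card - 2)
    have hm2 : m * ((T.card - 2 : ℕ) : ℝ) = (x' : ℝ) := by
      rw [hm]; simp
    have : (m * ((T.card - 2).choose x' : ℝ)) * ((T.card - 2 : ℕ) : ℝ) =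
        (S1.card : ℝ) * ((T.card - 2 : ℕ) : ℝ) := by
      rw [hn1, ← hm2]; ring
    exact mul_right_cancel₀ ht2.ne' this
  have := cs_aux (Nat.cast_nonneg _) (Nat.cast_nonneg _) hNpos
    (Finset.sum_nonneg fun X _ => sq_nonneg (d X)) (Finset.sum_nonneg fun X _ => sq_nonneg (d X))
    c1 c2 m hm'
  rw [hN, ← hE] at this
  simpa using this

end

/-- sum of squared differences -/
lemma sum_diff_sq (T : Finset α) (f : α → ℝ) (h0 : ∑ c ∈ T, f c = 0) :
    ∑ c ∈ T, ∑ e ∈ T, (f c - f e) ^ 2 = 2 * (T.card : ℝ) * ∑ c ∈ T, (f c) ^ 2 := by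
  have h1 : ∀ c ∈ T, ∑ e ∈ T, (f c - f e) ^ 2 =
      (T.card : ℝ) * (f c) ^ 2 + ∑ e ∈ T, (f e) ^ 2 := by
    intro c _
    have : ∀ e ∈ T, (f c - f e) ^ 2 = (f c) ^ 2 - 2 * f c * f e + (f e) ^ 2 := by
      intro e _; ring
    rw [Finset.sum_congr rfl this, Finset.sum_add_distrib, Finset.sum_sub_distrib,
      Finset.sum_const, nsmul_eq_mul, ← Finset.mul_sum, h0]
    ring
  rw [Finset.sum_congr rfl h1, Finset.sum_add_distrib, Finset.sum_const, nsmul_eq_mul,
    ← Finset.mul_sum]
  ring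

theorem main : LSw.JohnsonPure := by
  intro α _ T x g hx hxT hg
  -- the case t = 2
  rcases Nat.lt_or_ge T.card 3 with ht | ht
  · have hT2 : T.card = 2 := by omega
    have hx1 : x = 1 := by omega
    subst hx1
    have h0 : ∀ c ∈ T, ∀ e ∈ T.erase c,
        ∑ X ∈ (T.powersetCard 1).filter (fun X => ¬ (c ∈ X ↔ e ∈ X)), g X = 0 := by
      intro c hc e he
      rw [Finset.mem_erase] at he
      rw [← hg]
      congr 1
      rw [Finset.filter_true_of_mem]
      intro X hX
      rw [Finset.powersetCard_one, Finset.mem_map] at hX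
      obtain ⟨v, hv, rfl⟩ := hX
      simp only [Function.Embedding.coeFn_mk, Finset.mem_singleton]
      have hT : T = {c, e} := by
        symm
        apply Finset.eq_of_subset_of_card_le
        · intro w hw
          simp only [Finset.mem_insert, Finset.mem_singleton] at hw
          rcases hw with rfl | rfl
          · exact hc
          · exact he.2
        · rw [hT2, Finset.card_pair he.1.symm]
      rw [hT] at hv
      simp only [Finset.mem_insert, Finset.mem_singleton] at hv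
      rcases hv with rfl | rfl
      · intro h; exact he.1 (h.1 rfl)
      · intro h; exact he.1 (h.2 rfl).symm
    have e1 : ∑ c ∈ T, ∑ e ∈ T.erase c,
      (∑ X ∈ (T.powersetCard 1).filter (fun X => ¬ (c ∈ X ↔ e ∈ X)), g X) ^ 2 = 0 := by
      refine Finset.sum_eq_zero fun c hc => Finset.sum_eq_zero fun e he => ?_
      rw [h0 c hc e he]; norm_num
    rw [e1]
    refine mul_nonneg (Nat.cast_nonneg _) (Finset.sum_nonneg fun _ _ =>
      Finset.sum_nonneg fun _ _ => Finset.sum_nonneg fun _ _ => sq_nonneg _)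
  -- main case
  set t : ℝ := (T.card : ℝ) with htdef
  have ht3 : (3:ℝ) ≤ t := by rw [htdef]; exact_mod_cast ht
  have hsub : ((T.card - 2 : ℕ) : ℝ) = t - 2 := by
    rw [htdef, Nat.cast_sub (by omega)]; norm_num
  have hxsub : ((x - 1 : ℕ) : ℝ) = (x : ℝ) - 1 := by
    rw [Nat.cast_sub hx]; norm_num
  set m : ℝ := ((x : ℝ) - 1) / (t - 2) with hmdef
  have ht2 : (0:ℝ) < t - 2 := by linarith
  have hm : m * ((T.card - 2 : ℕ) : ℝ) = ((x - 1 : ℕ) : ℝ) := by
    rw [hsub, hxsub, hmdef]; field_simp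
  have hm0 : 0 ≤ m := by
    rw [hmdef]; apply div_nonneg _ ht2.le
    have : (1:ℝ) ≤ x := by exact_mod_cast hx
    linarith
  have hm1 : m ≤ 1 := by
    rw [hmdef, div_le_one ht2]
    have : (x:ℝ) + 1 ≤ t := by rw [htdef]; exact_mod_cast hxT
    linarith
  set Fc := F T x g with hFc
  set H : α → α → ℝ := fun c e => F2 T x g c e - m * (Fc c + Fc e) with hH
  have hHs : ∀ c e, H c e = H e c := by
    intro c e; simp only [hH]; rw [F2_symm]; ring
  have hF0 : ∑ c ∈ T, Fc c = 0 := sum_F T x g hg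
  have hH0 : ∀ c ∈ T, ∑ e ∈ T.erase c, H c e = 0 := by
    intro c hc
    simp only [hH]
    rw [Finset.sum_sub_distrib, sum_F2 T x g hx c hc, ← Finset.mul_sum, Finset.sum_add_distrib,
      Finset.sum_const, nsmul_eq_mul, Finset.card_erase_of_mem hc]
    have h1 : ∑ e ∈ T.erase c, Fc e = - Fc c := by
      have := Finset.add_sum_erase T Fc hc
      rw [hF0] at this; linarith
    have h2 : ((T.card - 1 : ℕ) : ℝ) = t - 1 := by
      rw [htdef, Nat.cast_sub (by omega)]; norm_num
    rw [h1, h2, hxsub, hmdef, ← hFc]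
    field_simp
    ring
  set N : ℝ := ((T.card - 2).choose (x - 1) : ℝ) with hNdef
  set SF : ℝ := ∑ c ∈ T, (Fc c) ^ 2 with hSF
  set SH : ℝ := ∑ c ∈ T, ∑ e ∈ T.erase c, (H c e) ^ 2 with hSH
  have hSF0 : 0 ≤ SF := Finset.sum_nonneg fun _ _ => sq_nonneg _
  have hSH0 : 0 ≤ SH := Finset.sum_nonneg fun _ _ => Finset.sum_nonneg fun _ _ => sq_nonneg _
  -- (1) lower bound of the energy
  have low : 2 * t * (t - 2) * SF + 8 * (t - 1) * SH ≤
      (t - 2) * (N * ∑ c ∈ T, ∑ e ∈ T.erase c, En T x g c e) := by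
    have p1 : ∀ c ∈ T, ∀ e ∈ T.erase c,
        (t - 2) * (Fc c - Fc e) ^ 2 + 4 * ∑ u ∈ (T.erase c).erase e, (H c u - H e u) ^ 2 ≤
        (t - 2) * (N * En T x g c e) := by
      intro c hc e he
      have he' := Finset.mem_erase.1 he
      have hcard : (((T.erase c).erase e).card : ℝ) = t - 2 := by
        rw [Finset.card_erase_of_mem he, Finset.card_erase_of_mem hc, htdef,
          Nat.sub_sub, Nat.cast_sub (by omega)]
        norm_num
      have : ∑ u ∈ (T.erase c).erase e, ((Fc c - Fc e) ^ 2 + 4 * (H c u - H e u) ^ 2) ≤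
          ∑ u ∈ (T.erase c).erase e, N * En T x g c e := by
        refine Finset.sum_le_sum fun u hu => ?_
        have hu1 := Finset.mem_erase.1 hu
        have hu2 := Finset.mem_erase.1 hu1.2
        have h := pair_bound T x g c e u he'.1.symm hu2.1 hu1.1 hc he'.2 hu2.2 hx hxT m hm
        have e1 : H c u - H e u =
            (F2 T x g c u - F2 T x g e u) - m * (F T x g c - F T x g e) := by
          simp only [hH, hFc]; ring
        rw [e1]
        exact h
      rw [Finset.sum_add_distrib, Finset.sum_const, Finset.sum_const, nsmul_eq_mul, nsmul_eq_mul,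
        hcard, ← Finset.mul_sum] at this
      exact this
    have p2 : ∑ c ∈ T, ∑ e ∈ T.erase c,
        ((t - 2) * (Fc c - Fc e) ^ 2 + 4 * ∑ u ∈ (T.erase c).erase e, (H c u - H e u) ^ 2) ≤
        (t - 2) * (N * ∑ c ∈ T, ∑ e ∈ T.erase c, En T x g c e) := by
      rw [Finset.mul_sum, Finset.mul_sum]
      refine Finset.sum_le_sum fun c hc => ?_
      rw [Finset.mul_sum, Finset.mul_sum]
      exact Finset.sum_le_sum fun e he => p1 c hc e he
    refine le_trans (le_of_eq ?_) p2
    simp_rw [Finset.sum_add_distrib, ← Finset.mul_sum]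
    have q1 : ∑ c ∈ T, ∑ e ∈ T.erase c, (Fc c - Fc e) ^ 2 = 2 * t * SF := by
      rw [← sum_diff_sq T Fc hF0]
      refine Finset.sum_congr rfl fun c hc => ?_
      rw [← Finset.add_sum_erase T (fun e => (Fc c - Fc e) ^ 2) hc]
      simp
    have q2 : ∑ c ∈ T, ∑ e ∈ T.erase c, ∑ u ∈ (T.erase c).erase e, (H c u - H e u) ^ 2 =
        2 * (t - 1) * SH := by
      have r1 : ∀ c ∈ T, ∑ e ∈ T.erase c, ∑ u ∈ (T.erase c).erase e, (H c u - H e u) ^ 2 =
          ∑ u ∈ T.erase c, ∑ e ∈ (T.erase c).erase u, (H c u - H e u) ^ 2 := by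
        intro c _
        refine Finset.sum_comm' ?_
        intro e u
        simp only [Finset.mem_erase]
        tauto
      rw [Finset.sum_congr rfl r1]
      have r2 : ∑ c ∈ T, ∑ u ∈ T.erase c, ∑ e ∈ (T.erase c).erase u, (H c u - H e u) ^ 2 =
          ∑ u ∈ T, ∑ c ∈ T.erase u, ∑ e ∈ (T.erase c).erase u, (H c u - H e u) ^ 2 := by
        refine Finset.sum_comm' ?_
        intro c u
        simp only [Finset.mem_erase]
        tauto
      rw [r2]
      have r3 : ∀ u ∈ T, ∑ c ∈ T.erase u, ∑ e ∈ (T.erase c).erase u, (H c u - H e u) ^ 2 =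
          2 * (t - 1) * ∑ c ∈ T.erase u, (H c u) ^ 2 := by
        intro u hu
        have s0 : ∑ c ∈ T.erase u, H c u = 0 := by
          rw [← hH0 u hu]
          exact Finset.sum_congr rfl fun c _ => hHs c u
        have s1 := sum_diff_sq (T.erase u) (fun c => H c u) s0
        have s2 : ((T.erase u).card : ℝ) = t - 1 := by
          rw [Finset.card_erase_of_mem hu, htdef, Nat.cast_sub (by omega)]; norm_num
        rw [s2] at s1
        rw [← s1]
        refine Finset.sum_congr rfl fun c hc => ?_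
        rw [← Finset.add_sum_erase (T.erase u) (fun e => (H c u - H e u) ^ 2) hc]
        rw [Finset.erase_right_comm]
        simp
      rw [Finset.sum_congr rfl r3, ← Finset.mul_sum]
      congr 1
      rw [hSH]
      refine Finset.sum_congr rfl fun u _ => Finset.sum_congr rfl fun c _ => ?_
      rw [hHs c u]
    rw [q1, q2]
    ring
  -- (2) the left-hand side
  have lhs : ∑ c ∈ T, ∑ e ∈ T.erase c,
      (∑ X ∈ (T.powersetCard x).filter (fun X => ¬ (c ∈ X ↔ e ∈ X)), g X) ^ 2 =
      2 * (1 - 2 * m) ^ 2 * (t - 2) * SF + 4 * SH := by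
    have k1 : ∀ c ∈ T, ∀ e ∈ T.erase c,
        (∑ X ∈ (T.powersetCard x).filter (fun X => ¬ (c ∈ X ↔ e ∈ X)), g X) ^ 2 =
        (1 - 2 * m) ^ 2 * (Fc c + Fc e) ^ 2 - 4 * (1 - 2 * m) * (Fc c * H c e)
          - 4 * (1 - 2 * m) * (Fc e * H e c) + 4 * (H c e) ^ 2 := by
      intro c hc e he
      rw [sep_eq T x g c e (Finset.mem_erase.1 he).1.symm, hHs e c]
      simp only [hH, hFc]
      ring
    rw [Finset.sum_congr rfl fun c hc => Finset.sum_congr rfl fun e he => k1 c hc e he]
    simp_rw [Finset.sum_add_distrib, Finset.sum_sub_distrib, ← Finset.mul_sum]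
    have k2 : ∑ c ∈ T, Fc c * ∑ e ∈ T.erase c, H c e = 0 :=
      Finset.sum_eq_zero fun c hc => by rw [hH0 c hc, mul_zero]
    have k3 : ∑ c ∈ T, ∑ e ∈ T.erase c, Fc e * H e c = 0 := by
      have : ∑ c ∈ T, ∑ e ∈ T.erase c, Fc e * H e c = ∑ e ∈ T, ∑ c ∈ T.erase e, Fc e * H e c := by
        refine Finset.sum_comm' ?_
        intro c e
        simp only [Finset.mem_erase]
        tauto
      rw [this]
      simp_rw [← Finset.mul_sum]
      exact k2
    have k4 : ∑ c ∈ T, ∑ e ∈ T.erase c, (Fc c + Fc e) ^ 2 = 2 * (t - 2) * SF := by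
      have j1 : ∀ c ∈ T, ∑ e ∈ T.erase c, (Fc c + Fc e) ^ 2 = (t - 4) * (Fc c) ^ 2 + SF := by
        intro c hc
        have j2 : ∑ e ∈ T, (Fc c + Fc e) ^ 2 = t * (Fc c) ^ 2 + SF := by
          have : ∀ e ∈ T, (Fc c + Fc e) ^ 2 = (Fc c) ^ 2 + 2 * Fc c * Fc e + (Fc e) ^ 2 := by
            intro e _; ring
          rw [Finset.sum_congr rfl this, Finset.sum_add_distrib, Finset.sum_add_distrib,
            Finset.sum_const, nsmul_eq_mul, ← Finset.mul_sum, hF0]
          ring
        rw [← Finset.add_sum_erase T (fun e => (Fc c + Fc e) ^ 2) hc] at j2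
        linarith
      rw [Finset.sum_congr rfl j1, Finset.sum_add_distrib, Finset.sum_const, nsmul_eq_mul,
        ← Finset.mul_sum]
      ring
    rw [k2, k3, k4]
    ring
  rw [lhs]
  change _ ≤ N * ∑ c ∈ T, ∑ e ∈ T.erase c, En T x g c e
  have hfin : (t - 2) * (2 * (1 - 2 * m) ^ 2 * (t - 2) * SF + 4 * SH) ≤
      (t - 2) * (N * ∑ c ∈ T, ∑ e ∈ T.erase c, En T x g c e) := by
    refine le_trans ?_ low
    have hmm : (1 - 2 * m) ^ 2 ≤ 1 := by nlinarith
    have a1 : (1 - 2 * m) ^ 2 * (t - 2) ≤ t := by nlinarith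
    have a2 : (t - 2) * (2 * (1 - 2 * m) ^ 2 * (t - 2) * SF) ≤ 2 * t * (t - 2) * SF := by
      have := mul_le_mul_of_nonneg_right a1 (by positivity : 0 ≤ 2 * (t - 2) * SF)
      nlinarith
    have a3 : (t - 2) * (4 * SH) ≤ 8 * (t - 1) * SH := by nlinarith
    nlinarith
  exact le_of_mul_le_mul_left hfin ht2

end Crest.Agent.LSwJohnsonPure
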