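import Crest.Agent.LSwKernelD

set_option autoImplicit false
open Finset

namespace Crest.Agent.LSwKernel

open Crest.SwitchChain Crest.Agent.LSw

variable {n : ℕ} {d : Fin n → ℕ}

lemma ip_L (f : Om d → ℝ) : ip f (L f) = ∑ p ∈ prs n, ip f (D p f) := by
  unfold ip L
  rw [Finset.sum_comm]
  exact Finset.sum_congr rfl fun x _ => Finset.mul_sum _ _ _

/-- The Poincaré inequality of S0453 from the abstract one. -/
theorem poincare_of (hPo : Poinc) (hJP : JohnsonP) (hn : 4 ≤ n) (d : Fin n → ℕ)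
    (f : Finset (Edge n) → ℝ) :
    ((realizations d).card : ℝ) * (∑ G ∈ realizations d, f G ^ 2) -
        (∑ G ∈ realizations d, f G) ^ 2 ≤
      24 * (n : ℝ) ^ 2 * (n.choose 4 : ℝ) * (realizations d).card *
        ∑ G ∈ realizations d, f G * (f G - ∑ G' ∈ realizations d, kernel n G G' * f G') := by
  set g : Om d → ℝ := fun x => f (gr x.1) with hg
  have hc : (0:ℝ) < (n.choose 4 : ℝ) := by exact_mod_cast Nat.choose_pos hn
  rw [dirichlet hn, card_realizations]
  have e1 : ∑ G ∈ realizations d, f G ^ 2 = ∑ x : Om d, g x ^ 2 :=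
    sum_realizations (fun G => f G ^ 2)
  have e2 : ∑ G ∈ realizations d, f G = ∑ x : Om d, g x := sum_realizations f
  have e3 : ∑ G ∈ realizations d, ∑ G' ∈ realizations d,
      (proposalCount G G' : ℝ) * (f G - f G') ^ 2 =
      ∑ x : Om d, ∑ y : Om d, (proposalCount (gr x.1) (gr y.1) : ℝ) * (g x - g y) ^ 2 := by
    rw [sum_realizations (d := d) (fun G => ∑ G' ∈ realizations d,
      (proposalCount G G' : ℝ) * (f G - f G') ^ 2)]
    refine Finset.sum_congr rfl fun x _ => ?_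
    rw [sum_realizations (d := d) (fun G' => (proposalCount (gr x.1) G' : ℝ) *
      (f (gr x.1) - f G') ^ 2)]
  rw [e1, e2, e3]
  set Q : ℝ := ∑ x : Om d, ∑ y : Om d, (proposalCount (gr x.1) (gr y.1) : ℝ) * (g x - g y) ^ 2
    with hQ
  have hQ0 : 0 ≤ Q := by
    rw [hQ]
    exact Finset.sum_nonneg fun x _ => Finset.sum_nonneg fun y _ => by positivity
  have hN : (0:ℝ) ≤ (Fintype.card (Om d) : ℝ) := by positivity
  have h1 := hPo g
  have h2 : ip g (L g) ≤ 3 / 2 * Q := by
    rw [ip_L]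
    calc ∑ p ∈ prs n, ip g (D p g) ≤ ∑ p ∈ prs n, (∑ q ∈ dj p, en p q g) / 4 :=
          Finset.sum_le_sum fun p hp => hJP p hp g
      _ = (∑ p ∈ prs n, ∑ q ∈ dj p, en p q g) / 4 := by rw [Finset.sum_div]
      _ ≤ (6 * Q) / 4 := by
          have := sum_en_le (d := d) g
          linarith
      _ = 3 / 2 * Q := by ring
  have hn2 : (16:ℝ) ≤ (n:ℝ) ^ 2 := by
    have : (4:ℝ) ≤ (n:ℝ) := by exact_mod_cast hn
    nlinarith
  calc _ ≤ (Fintype.card (Om d) : ℝ) * ip g (L g) := h1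
    _ ≤ (Fintype.card (Om d) : ℝ) * (3 / 2 * Q) := mul_le_mul_of_nonneg_left h2 hN
    _ ≤ (Fintype.card (Om d) : ℝ) * ((n:ℝ) ^ 2 * Q) := by
        apply mul_le_mul_of_nonneg_left _ hN
        nlinarith
    _ = _ := by
        field_simp

end Crest.Agent.LSwKernel
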