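import Crest.Agent.LSwSpec

set_option autoImplicit false
open Finset

namespace Crest.Agent.LSwKernel

open Crest.SwitchChain Crest.Agent.LSw

variable {n : ℕ}

/-- the edge `uv` -/
def mkE (u v : Fin n) (h : u ≠ v) : Edge n := ⟨s(u, v), by simpa using h⟩

lemma mkE_val (u v : Fin n) (h : u ≠ v) : (mkE u v h).1 = s(u, v) := rfl

lemma mem_mkE (u v w : Fin n) (h : u ≠ v) : w ∈ (mkE u v h).1 ↔ w = u ∨ w = v := by
  rw [mkE_val]; exact Sym2.mem_iff

lemma exists_mkE (e : Edge n) : ∃ u v, ∃ h : u ≠ v, e = mkE u v h := by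
  obtain ⟨e, he⟩ := e
  induction e using Sym2.ind with
  | _ u v =>
    refine ⟨u, v, by simpa using he, rfl⟩

/-- the edge set of a symmetric Boolean matrix -/
def gr (x : Fin n → Fin n → Bool) : Finset (Edge n) :=
  univ.filter fun e => ∃ u v, e.1 = s(u, v) ∧ x u v = true

/-- adjacency matrix of an edge set -/
def mat (G : Finset (Edge n)) : Fin n → Fin n → Bool :=
  fun u v => decide (∃ h : u ≠ v, mkE u v h ∈ G)

lemma mkE_mem_gr {x : Fin n → Fin n → Bool} (hs : ∀ a b, x a b = x b a) (u v : Fin n)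
    (h : u ≠ v) : mkE u v h ∈ gr x ↔ x u v = true := by
  unfold gr
  rw [mem_filter]
  constructor
  · rintro ⟨-, a, b, hab, hx⟩
    rw [mkE_val, Sym2.eq_iff] at hab
    rcases hab with ⟨rfl, rfl⟩ | ⟨rfl, rfl⟩
    · exact hx
    · rw [hs]; exact hx
  · intro hx
    exact ⟨mem_univ _, u, v, rfl, hx⟩

lemma mat_symm (G : Finset (Edge n)) (u v : Fin n) : mat G u v = mat G v u := by
  unfold mat
  congr 1
  apply propext
  constructor
  · rintro ⟨h, hm⟩
    refine ⟨h.symm, ?_⟩
    have : mkE v u h.symm = mkE u v h := Subtype.ext (by rw [mkE_val, mkE_val]; exact Sym2.eq_swap)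
    rw [this]; exact hm
  · rintro ⟨h, hm⟩
    refine ⟨h.symm, ?_⟩
    have : mkE u v h.symm = mkE v u h := Subtype.ext (by rw [mkE_val, mkE_val]; exact Sym2.eq_swap)
    rw [this]; exact hm

lemma mat_diag (G : Finset (Edge n)) (u : Fin n) : mat G u u = false := by
  unfold mat
  simp

lemma gr_mat (G : Finset (Edge n)) : gr (mat G) = G := by
  ext e
  obtain ⟨u, v, h, rfl⟩ := exists_mkE e
  rw [mkE_mem_gr (mat_symm G)]
  unfold mat
  simp [h]

lemma mat_gr {x : Fin n → Fin n → Bool} (hs : ∀ a b, x a b = x b a) (hd : ∀ a, x a a = false) :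
    mat (gr x) = x := by
  funext u v
  by_cases h : u = v
  · subst h; rw [mat_diag, hd]
  · unfold mat
    by_cases hx : x u v = true
    · rw [hx]
      simp only [decide_eq_true_eq]
      exact ⟨h, (mkE_mem_gr hs u v h).2 hx⟩
    · have hx' : x u v = false := by simpa using hx
      rw [hx']
      simp only [decide_eq_false_iff_not]
      rintro ⟨h', hm⟩
      exact hx ((mkE_mem_gr hs u v h').1 hm)

lemma deg_eq (G : Finset (Edge n)) (v : Fin n) :
    deg G v = (univ.filter fun w => mat G v w = true).card := by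
  unfold deg
  symm
  refine Finset.card_bij (fun w hw => mkE v w (by
      intro h; subst h
      simp [mat_diag] at hw)) ?_ ?_ ?_
  · intro w hw
    rw [mem_filter] at hw
    rw [mem_filter]
    have h2 := hw.2
    unfold mat at h2
    rw [decide_eq_true_eq] at h2
    obtain ⟨h, hm⟩ := h2
    exact ⟨hm, (mem_mkE _ _ _ _).2 (Or.inl rfl)⟩
  · intro w hw w' hw' h
    have := congrArg Subtype.val h
    rw [mkE_val, mkE_val, Sym2.eq_iff] at this
    rcases this with ⟨-, h⟩ | ⟨h1, h2⟩
    · exact h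
    · rw [h2, ← h1]
  · intro e he
    rw [mem_filter] at he
    obtain ⟨u, w, h, rfl⟩ := exists_mkE e
    rw [mem_mkE] at he
    rcases he with ⟨hm, rfl | rfl⟩
    · refine ⟨w, ?_, rfl⟩
      rw [mem_filter]
      refine ⟨mem_univ _, ?_⟩
      unfold mat
      rw [decide_eq_true_eq]
      exact ⟨h, hm⟩
    · have hE : mkE v u h.symm = mkE u v h :=
        Subtype.ext (by rw [mkE_val, mkE_val]; exact Sym2.eq_swap)
      refine ⟨u, ?_, hE⟩
      rw [mem_filter]
      refine ⟨mem_univ _, ?_⟩
      unfold mat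
      rw [decide_eq_true_eq]
      exact ⟨h.symm, by rw [hE]; exact hm⟩

lemma mem_realizations {d : Fin n → ℕ} {G : Finset (Edge n)} :
    G ∈ realizations d ↔ IsReal d (mat G) := by
  unfold realizations IsReal
  rw [mem_filter]
  constructor
  · rintro ⟨-, h⟩
    refine ⟨mat_diag G, mat_symm G, fun a => ?_⟩
    rw [← deg_eq]; exact h a
  · rintro ⟨-, -, h⟩
    refine ⟨mem_univ _, fun a => ?_⟩
    rw [deg_eq]; exact h a

/-- the bijection between `Om d` and the realizations -/
lemma sum_realizations {d : Fin n → ℕ} {M : Type*} [AddCommMonoid M]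
    (F : Finset (Edge n) → M) :
    ∑ G ∈ realizations d, F G = ∑ x : Om d, F (gr x.1) := by
  symm
  refine Finset.sum_bij (fun x _ => gr x.1) ?_ ?_ ?_ ?_
  · intro x _
    rw [mem_realizations, mat_gr x.2.2.1 x.2.1]
    exact x.2
  · intro x _ y _ h
    have := congrArg mat h
    rw [mat_gr x.2.2.1 x.2.1, mat_gr y.2.2.1 y.2.1] at this
    exact Subtype.ext this
  · intro G hG
    rw [mem_realizations] at hG
    exact ⟨⟨mat G, hG⟩, mem_univ _, gr_mat G⟩
  · intro x _
    rfl

lemma card_realizations {d : Fin n → ℕ} :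
    (realizations d).card = Fintype.card (Om d) := by
  rw [Finset.card_eq_sum_ones, sum_realizations, Finset.card_univ.symm, Finset.card_eq_sum_ones]

lemma gr_mem {d : Fin n → ℕ} (x : Om d) : gr x.1 ∈ realizations d := by
  rw [mem_realizations, mat_gr x.2.2.1 x.2.1]; exact x.2

end Crest.Agent.LSwKernel
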