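import Crest.Agent.LSwKernelA

set_option autoImplicit false
open Finset

namespace Crest.Agent.LSwKernel

open Crest.SwitchChain Crest.Agent.LSw

variable {n : ℕ}

lemma mkE_eq_iff {a b c e : Fin n} (h : a ≠ b) (h' : c ≠ e) :
    mkE a b h = mkE c e h' ↔ (a = c ∧ b = e) ∨ (a = e ∧ b = c) := by
  rw [Subtype.ext_iff, mkE_val, mkE_val, Sym2.eq_iff]

lemma mkE_comm {a b : Fin n} (h : a ≠ b) : mkE a b h = mkE b a h.symm := by
  rw [mkE_eq_iff]; exact Or.inr ⟨rfl, rfl⟩

lemma pm_mem {a b c e : Fin n} (hab : a ≠ b) (hac : a ≠ c) (hae : a ≠ e) (hbc : b ≠ c)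
    (hbe : b ≠ e) (hce : c ≠ e) {S : Finset (Fin n)} (hS : S = {a, b, c, e}) :
    ({mkE a b hab, mkE c e hce} : Finset (Edge n)) ∈ pmSet S := by
  subst hS
  unfold pmSet
  rw [mem_filter, mem_powersetCard]
  have hne : mkE a b hab ≠ mkE c e hce := by
    rw [Ne, mkE_eq_iff]; rintro (⟨h, -⟩ | ⟨h, -⟩)
    · exact hac h
    · exact hae h
  refine ⟨⟨subset_univ _, card_pair hne⟩, ?_, ?_⟩
  · intro f hf v hv
    rw [mem_insert, mem_singleton] at hf
    rcases hf with rfl | rfl
    · rw [mem_mkE] at hv
      rcases hv with rfl | rfl <;> simp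
    · rw [mem_mkE] at hv
      rcases hv with rfl | rfl <;> simp
  · intro v hv
    simp only [mem_insert, mem_singleton] at hv
    rw [filter_insert, filter_singleton]
    simp only [mem_mkE]
    rcases hv with rfl | rfl | rfl | rfl
    · simp [hab, hac, hae]
    · simp [hab.symm, hbc, hbe]
    · simp [hac.symm, hbc.symm, hce]
    · simp [hae.symm, hbe.symm, hce.symm]

lemma pmSet_eq {a b c e : Fin n} (hab : a ≠ b) (hac : a ≠ c) (hae : a ≠ e) (hbc : b ≠ c)
    (hbe : b ≠ e) (hce : c ≠ e) :
    pmSet ({a, b, c, e} : Finset (Fin n)) =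
      {{mkE a b hab, mkE c e hce}, {mkE a c hac, mkE b e hbe}, {mkE a e hae, mkE b c hbc}} := by
  ext F
  constructor
  · intro hF
    unfold pmSet at hF
    rw [mem_filter, mem_powersetCard] at hF
    obtain ⟨⟨-, hcard⟩, hin, hdeg⟩ := hF
    -- the unique edge at `a`
    have ha := hdeg a (by simp)
    rw [card_eq_one] at ha
    obtain ⟨e1, he1⟩ := ha
    have he1m : e1 ∈ F.filter fun f => a ∈ f.1 := by rw [he1]; exact mem_singleton_self _
    rw [mem_filter] at he1m
    obtain ⟨he1F, hae1⟩ := he1m
    -- the second edge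
    obtain ⟨x, y, hxy, hFxy⟩ := card_eq_two.1 hcard
    obtain ⟨e2, hne, hFe⟩ : ∃ e2, e2 ≠ e1 ∧ F = {e1, e2} := by
      rw [hFxy, mem_insert, mem_singleton] at he1F
      rcases he1F with rfl | rfl
      · exact ⟨y, hxy.symm, hFxy⟩
      · exact ⟨x, hxy, by rw [hFxy, pair_comm]⟩
    have he2F : e2 ∈ F := by rw [hFe]; simp
    have huniq : ∀ v ∈ ({a, b, c, e} : Finset (Fin n)), v ∈ e1.1 → v ∉ e2.1 := by
      intro v hv h1 h2
      have hv1 := hdeg v hv
      rw [card_eq_one] at hv1
      obtain ⟨g, hg⟩ := hv1
      have h3 : e1 ∈ F.filter fun f => v ∈ f.1 := mem_filter.2 ⟨he1F, h1⟩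
      have h4 : e2 ∈ F.filter fun f => v ∈ f.1 := mem_filter.2 ⟨he2F, h2⟩
      rw [hg, mem_singleton] at h3 h4
      exact hne (h4.trans h3.symm)
    have hcov : ∀ v ∈ ({a, b, c, e} : Finset (Fin n)), v ∈ e1.1 ∨ v ∈ e2.1 := by
      intro v hv
      have hv1 := hdeg v hv
      rw [card_eq_one] at hv1
      obtain ⟨g, hg⟩ := hv1
      have h3 : g ∈ F.filter fun f => v ∈ f.1 := by rw [hg]; exact mem_singleton_self _
      rw [mem_filter, hFe, mem_insert, mem_singleton] at h3
      rcases h3 with ⟨rfl | rfl, h⟩
      · exact Or.inl h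
      · exact Or.inr h
    obtain ⟨u, w, huw, rfl⟩ := exists_mkE e1
    obtain ⟨p, q, hpq, rfl⟩ := exists_mkE e2
    -- normalise `u = a`
    wlog hau : a = u generalizing u w
    · rw [mem_mkE] at hae1
      rcases hae1 with h | h
      · exact absurd h hau
      · exact this w u huw.symm (by rw [← mkE_comm huw]; exact he1)
          (by rw [← mkE_comm huw]; exact he1F) (by rw [mem_mkE]; exact Or.inl h)
          (by rw [← mkE_comm huw]; exact hne) (by rw [← mkE_comm huw]; exact hFe)
          (by rw [← mkE_comm huw]; exact huniq) (by rw [← mkE_comm huw]; exact hcov) h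
    subst hau
    have hwS := hin _ he1F w (by rw [mem_mkE]; exact Or.inr rfl)
    have hpS := hin _ he2F p (by rw [mem_mkE]; exact Or.inl rfl)
    have hqS := hin _ he2F q (by rw [mem_mkE]; exact Or.inr rfl)
    have hua := huniq a (by simp) (by rw [mem_mkE]; exact Or.inl rfl)
    have huw2 := huniq w hwS (by rw [mem_mkE]; exact Or.inr rfl)
    rw [mem_mkE, not_or] at hua huw2
    simp only [mem_insert, mem_singleton] at hwS hpS hqS
    have key : ∀ {x y : Fin n} (hx : x ≠ y), (p = x ∧ q = y) ∨ (p = y ∧ q = x) →
        mkE p q hpq = mkE x y hx := fun hx h => (mkE_eq_iff _ _).2 h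
    rw [hFe, mem_insert, mem_insert, mem_singleton]
    rcases hwS with h | h | h | h
    · exact absurd h.symm huw
    · subst h
      left
      rw [key hce (by
        rcases hpS with h | h | h | h
        · exact absurd h.symm hua.1
        · exact absurd h.symm huw2.1
        · rcases hqS with h' | h' | h' | h'
          · exact absurd h'.symm hua.2
          · exact absurd h'.symm huw2.2
          · exact absurd (h.trans h'.symm) hpq
          · exact Or.inl ⟨h, h'⟩
        · rcases hqS with h' | h' | h' | h'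
          · exact absurd h'.symm hua.2
          · exact absurd h'.symm huw2.2
          · exact Or.inr ⟨h, h'⟩
          · exact absurd (h.trans h'.symm) hpq)]
    · subst h
      right; left
      rw [key hbe (by
        rcases hpS with h | h | h | h
        · exact absurd h.symm hua.1
        · rcases hqS with h' | h' | h' | h'
          · exact absurd h'.symm hua.2
          · exact absurd (h.trans h'.symm) hpq
          · exact absurd h'.symm huw2.2
          · exact Or.inl ⟨h, h'⟩
        · exact absurd h.symm huw2.1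
        · rcases hqS with h' | h' | h' | h'
          · exact absurd h'.symm hua.2
          · exact Or.inr ⟨h, h'⟩
          · exact absurd h'.symm huw2.2
          · exact absurd (h.trans h'.symm) hpq)]
    · subst h
      right; right
      rw [key hbc (by
        rcases hpS with h | h | h | h
        · exact absurd h.symm hua.1
        · rcases hqS with h' | h' | h' | h'
          · exact absurd h'.symm hua.2
          · exact absurd (h.trans h'.symm) hpq
          · exact Or.inl ⟨h, h'⟩
          · exact absurd h'.symm huw2.2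
        · rcases hqS with h' | h' | h' | h'
          · exact absurd h'.symm hua.2
          · exact Or.inr ⟨h, h'⟩
          · exact absurd (h.trans h'.symm) hpq
          · exact absurd h'.symm huw2.2
        · exact absurd h.symm huw2.1)]
  · intro hF
    rw [mem_insert, mem_insert, mem_singleton] at hF
    rcases hF with rfl | rfl | rfl
    · exact pm_mem hab hac hae hbc hbe hce rfl
    · refine pm_mem hac hab hae hbc.symm hce hbe ?_
      ext v; simp only [mem_insert, mem_singleton]; tauto
    · refine pm_mem hae hab hac hbe.symm hce.symm hbc ?_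
      ext v; simp only [mem_insert, mem_singleton]; tauto

lemma pmSet_card {S : Finset (Fin n)} (hS : S.card = 4) : (pmSet S).card = 3 := by
  obtain ⟨a, b, c, e, hab, hac, hae, hbc, hbe, hce, rfl⟩ := card_eq_four.1 hS
  rw [pmSet_eq hab hac hae hbc hbe hce]
  have h1 : ({mkE a b hab, mkE c e hce} : Finset (Edge n)) ≠ {mkE a c hac, mkE b e hbe} := by
    intro h
    have : mkE a b hab ∈ ({mkE a c hac, mkE b e hbe} : Finset (Edge n)) := by rw [← h]; simp
    rw [mem_insert, mem_singleton, mkE_eq_iff, mkE_eq_iff] at this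
    tauto
  have h2 : ({mkE a b hab, mkE c e hce} : Finset (Edge n)) ≠ {mkE a e hae, mkE b c hbc} := by
    intro h
    have : mkE a b hab ∈ ({mkE a e hae, mkE b c hbc} : Finset (Edge n)) := by rw [← h]; simp
    rw [mem_insert, mem_singleton, mkE_eq_iff, mkE_eq_iff] at this
    tauto
  have h3 : ({mkE a c hac, mkE b e hbe} : Finset (Edge n)) ≠ {mkE a e hae, mkE b c hbc} := by
    intro h
    have : mkE a c hac ∈ ({mkE a e hae, mkE b c hbc} : Finset (Edge n)) := by rw [← h]; simp
    rw [mem_insert, mem_singleton, mkE_eq_iff, mkE_eq_iff] at this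
    tauto
  rw [card_insert_of_notMem, card_insert_of_notMem, card_singleton]
  · rw [mem_singleton]; exact h3
  · rw [mem_insert, mem_singleton, not_or]; exact ⟨h1, h2⟩

end Crest.Agent.LSwKernel
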