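import Crest.Agent.LSwKernelB

set_option autoImplicit false
open Finset

namespace Crest.Agent.LSwKernel

open Crest.SwitchChain Crest.Agent.LSw

variable {n : ℕ}

lemma pm_filter_card {S : Finset (Fin n)} {F : Finset (Edge n)} (hF : F ∈ pmSet S) (v : Fin n) :
    (F.filter fun e => v ∈ e.1).card = if v ∈ S then 1 else 0 := by
  unfold pmSet at hF
  rw [mem_filter] at hF
  by_cases hv : v ∈ S
  · rw [if_pos hv]; exact hF.2.2 v hv
  · rw [if_neg hv, card_eq_zero, filter_eq_empty_iff]
    intro e he h
    exact hv (hF.2.1 e he v h)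

lemma switchResult_mem {d : Fin n → ℕ} {S : Finset (Fin n)} {E F F' : Finset (Edge n)}
    (hE : E ∈ realizations d) (hF : F ∈ pmSet S) (hF' : F' ∈ pmSet S) :
    switchResult E F F' ∈ realizations d := by
  unfold switchResult
  split_ifs with h
  · obtain ⟨h1, h2⟩ := h
    unfold realizations at hE ⊢
    rw [mem_filter] at hE ⊢
    refine ⟨mem_univ _, fun v => ?_⟩
    rw [← hE.2 v]
    unfold deg
    rw [filter_union, card_union_of_disjoint]
    · have e1 : ((E \ F).filter fun e => v ∈ e.1) =
          (E.filter fun e => v ∈ e.1) \ (F.filter fun e => v ∈ e.1) := by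
        ext e; simp only [mem_filter, mem_sdiff]; tauto
      rw [e1, card_sdiff_of_subset (filter_subset_filter _ h1), pm_filter_card hF, pm_filter_card hF']
      apply Nat.sub_add_cancel
      rw [← pm_filter_card hF v]
      exact card_le_card (filter_subset_filter _ h1)
    · rw [disjoint_left]
      intro e he he'
      rw [mem_filter, mem_sdiff] at he
      rw [mem_filter] at he'
      exact (disjoint_left.1 h2 he'.1) he.1.1
  · exact hE

lemma proposalCount_eq_zero {d : Fin n → ℕ} {E E' : Finset (Edge n)}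
    (hE : E ∈ realizations d) (hE' : E' ∉ realizations d) : proposalCount E E' = 0 := by
  unfold proposalCount
  refine Finset.sum_eq_zero fun S _ => Finset.sum_eq_zero fun F hF => Finset.sum_eq_zero
    fun F' hF' => ?_
  rw [if_neg]
  intro h
  apply hE'
  rw [← h]
  exact switchResult_mem hE hF (mem_of_mem_erase hF')

lemma sum_proposalCount (E : Finset (Edge n)) :
    ∑ E' : Finset (Edge n), proposalCount E E' = 6 * n.choose 4 := by
  unfold proposalCount
  rw [Finset.sum_comm]
  have : ∀ S ∈ (univ : Finset (Fin n)).powersetCard 4,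
      ∑ E' : Finset (Edge n), ∑ F ∈ pmSet S, ∑ F' ∈ (pmSet S).erase F,
        (if switchResult E F F' = E' then 1 else 0) = 6 := by
    intro S hS
    have hc : S.card = 4 := (mem_powersetCard.1 hS).2
    rw [Finset.sum_comm]
    have : ∀ F ∈ pmSet S, ∑ E' : Finset (Edge n), ∑ F' ∈ (pmSet S).erase F,
        (if switchResult E F F' = E' then 1 else 0) = 2 := by
      intro F hF
      rw [Finset.sum_comm]
      have : ∀ F' ∈ (pmSet S).erase F, ∑ E' : Finset (Edge n),
          (if switchResult E F F' = E' then 1 else 0) = 1 := by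
        intro F' _
        rw [Finset.sum_ite_eq]
        simp
      rw [Finset.sum_congr rfl this, Finset.sum_const, card_erase_of_mem hF, pmSet_card hc]
      rfl
    rw [Finset.sum_congr rfl this, Finset.sum_const, pmSet_card hc]
    rfl
  rw [Finset.sum_congr rfl this, Finset.sum_const, card_powersetCard, card_univ, Fintype.card_fin,
    smul_eq_mul, mul_comm]

lemma switchResult_symm {E E' F F' : Finset (Edge n)} (hne : E ≠ E')
    (h : switchResult E F F' = E') : switchResult E' F' F = E := by
  unfold switchResult at h ⊢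
  split_ifs at h with h1
  · obtain ⟨h1, h2⟩ := h1
    subst h
    have hd : Disjoint F F' := (h2.mono_right h1).symm
    rw [if_pos]
    · ext e
      simp only [mem_union, mem_sdiff]
      constructor
      · rintro (⟨⟨ha, hb⟩ | ha, hc⟩ | ha)
        · exact ha
        · exact absurd ha hc
        · exact h1 ha
      · intro he
        by_cases hF : e ∈ F
        · exact Or.inr hF
        · exact Or.inl ⟨Or.inl ⟨he, hF⟩, fun h' => disjoint_left.1 h2 h' he⟩
    · refine ⟨subset_union_right, ?_⟩
      rw [disjoint_left]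
      intro e he he'
      rw [mem_union, mem_sdiff] at he'
      rcases he' with ⟨-, h'⟩ | h'
      · exact h' he
      · exact disjoint_left.1 hd he h'
  · exact absurd h hne

lemma sum_erase_swap {α : Type*} [DecidableEq α] (s : Finset α) (φ : α → α → ℕ) :
    ∑ a ∈ s, ∑ b ∈ s.erase a, φ a b = ∑ a ∈ s, ∑ b ∈ s.erase a, φ b a := by
  have h1 : ∀ ψ : α → α → ℕ, ∑ a ∈ s, ∑ b ∈ s.erase a, ψ a b =
      ∑ a ∈ s, ∑ b ∈ s, if a = b then 0 else ψ a b := by
    intro ψ
    refine Finset.sum_congr rfl fun a ha => ?_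
    rw [← Finset.sum_filter_add_sum_filter_not s (fun b => a = b)]
    have e1 : ∑ b ∈ s.filter (fun b => a = b), (if a = b then 0 else ψ a b) = 0 :=
      Finset.sum_eq_zero fun b hb => by rw [mem_filter] at hb; rw [if_pos hb.2]
    rw [e1, zero_add]
    refine Finset.sum_congr ?_ ?_
    · ext b; rw [mem_erase, mem_filter]; constructor
      · rintro ⟨h, h'⟩; exact ⟨h', fun h2 => h h2.symm⟩
      · rintro ⟨h, h'⟩; exact ⟨fun h2 => h' h2.symm, h⟩
    · intro b hb
      rw [mem_filter] at hb
      rw [if_neg hb.2]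
  rw [h1, h1, Finset.sum_comm]
  refine Finset.sum_congr rfl fun a _ => Finset.sum_congr rfl fun b _ => ?_
  by_cases h : a = b
  · rw [if_pos h, if_pos h.symm]
  · rw [if_neg h, if_neg (fun h' => h h'.symm)]

lemma proposalCount_symm (E E' : Finset (Edge n)) : proposalCount E E' = proposalCount E' E := by
  by_cases hne : E = E'
  · subst hne; rfl
  unfold proposalCount
  refine Finset.sum_congr rfl fun S _ => ?_
  rw [sum_erase_swap]
  refine Finset.sum_congr rfl fun F _ => Finset.sum_congr rfl fun F' _ => ?_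
  by_cases h : switchResult E F' F = E'
  · rw [if_pos h, if_pos (switchResult_symm hne h)]
  · rw [if_neg h, if_neg]
    intro h'
    exact h (switchResult_symm (Ne.symm hne) h')

lemma kernel_symm (E E' : Finset (Edge n)) : kernel n E E' = kernel n E' E := by
  unfold kernel
  rw [proposalCount_symm E E']
  congr 1
  by_cases h : E = E'
  · rw [if_pos h, if_pos h.symm]
  · rw [if_neg h, if_neg (fun h' => h h'.symm)]

lemma kernel_eq_zero {d : Fin n → ℕ} {E E' : Finset (Edge n)}
    (hE : E ∈ realizations d) (hE' : E' ∉ realizations d) : kernel n E E' = 0 := by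
  unfold kernel
  rw [proposalCount_eq_zero hE hE', if_neg]
  · simp
  · rintro rfl; exact hE' hE

lemma kernel_nonneg (E E' : Finset (Edge n)) : 0 ≤ kernel n E E' := by
  unfold kernel
  have : (0:ℝ) ≤ if E = E' then 1 / 2 else 0 := by split_ifs <;> norm_num
  positivity

lemma kernel_sum_univ (hn : 4 ≤ n) (E : Finset (Edge n)) : ∑ E', kernel n E E' = 1 := by
  unfold kernel
  rw [Finset.sum_add_distrib, Finset.sum_ite_eq, ← Finset.sum_div, ← Nat.cast_sum,
    sum_proposalCount]
  have hc : (0:ℝ) < (n.choose 4 : ℝ) := by exact_mod_cast Nat.choose_pos hn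
  simp only [mem_univ, if_true]
  push_cast
  field_simp
  norm_num

lemma kernel_sum {d : Fin n → ℕ} (hn : 4 ≤ n) {E : Finset (Edge n)} (hE : E ∈ realizations d) :
    ∑ E' ∈ realizations d, kernel n E E' = 1 := by
  rw [← kernel_sum_univ hn E]
  apply Finset.sum_subset (subset_univ _)
  intro E' _ h
  exact kernel_eq_zero hE h

/-- the Dirichlet form -/
lemma dirichlet {d : Fin n → ℕ} (hn : 4 ≤ n) (f : Finset (Edge n) → ℝ) :
    ∑ G ∈ realizations d, f G * (f G - ∑ G' ∈ realizations d, kernel n G G' * f G') =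
      (∑ G ∈ realizations d, ∑ G' ∈ realizations d, (proposalCount G G' : ℝ) * (f G - f G') ^ 2) /
        (24 * (n.choose 4 : ℝ)) := by
  set Ω := realizations d
  have h1 : ∀ G ∈ Ω, f G * (f G - ∑ G' ∈ Ω, kernel n G G' * f G') =
      ∑ G' ∈ Ω, kernel n G G' * (f G ^ 2 - f G * f G') := by
    intro G hG
    simp only [mul_sub]
    rw [Finset.sum_sub_distrib, ← Finset.sum_mul, kernel_sum hn hG, Finset.mul_sum]
    rw [one_mul, pow_two]
    congr 1
    exact Finset.sum_congr rfl fun G' _ => by ring
  rw [Finset.sum_congr rfl h1]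
  have h2 : ∑ G ∈ Ω, ∑ G' ∈ Ω, kernel n G G' * (f G ^ 2 - f G * f G') =
      ∑ G ∈ Ω, ∑ G' ∈ Ω, kernel n G G' * (f G' ^ 2 - f G * f G') := by
    rw [Finset.sum_comm]
    refine Finset.sum_congr rfl fun G _ => Finset.sum_congr rfl fun G' _ => ?_
    rw [kernel_symm G' G]; ring
  have h3 : ∑ G ∈ Ω, ∑ G' ∈ Ω, kernel n G G' * (f G - f G') ^ 2 =
      2 * ∑ G ∈ Ω, ∑ G' ∈ Ω, kernel n G G' * (f G ^ 2 - f G * f G') := by
    rw [two_mul]
    nth_rewrite 2 [h2]
    rw [← Finset.sum_add_distrib]
    refine Finset.sum_congr rfl fun G _ => ?_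
    rw [← Finset.sum_add_distrib]
    exact Finset.sum_congr rfl fun G' _ => by ring
  have h4 : ∀ G G', kernel n G G' * (f G - f G') ^ 2 =
      (proposalCount G G' : ℝ) * (f G - f G') ^ 2 / (12 * (n.choose 4 : ℝ)) := by
    intro G G'
    unfold kernel
    by_cases h : G = G'
    · subst h; simp
    · rw [if_neg h]; ring
  have hc : (0:ℝ) < (n.choose 4 : ℝ) := by exact_mod_cast Nat.choose_pos hn
  simp only [h4, ← Finset.sum_div] at h3
  rw [eq_div_iff (by positivity)]
  rw [div_eq_iff (by positivity)] at h3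
  rw [h3]; ring

end Crest.Agent.LSwKernel
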