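import Crest.Agent.LSwKernelC

set_option autoImplicit false
open Finset

namespace Crest.Agent.LSwKernel

open Crest.SwitchChain Crest.Agent.LSw

variable {n : ℕ} {d : Fin n → ℕ}

lemma agree_off {p q : Finset (Fin n)} (hpq : Disjoint p q) {x y : Om d}
    (hp : y ∈ cls p x) (hq : y ∈ cls q x) {u w : Fin n}
    (h : ¬ ((u ∈ p ∧ w ∈ q) ∨ (u ∈ q ∧ w ∈ p))) : x.1 u w = y.1 u w := by
  rw [mem_cls] at hp hq
  by_cases hu : u ∈ p
  · have hw : w ∉ q := fun hw => h (Or.inl ⟨hu, hw⟩)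
    exact hq u w (disjoint_left.1 hpq hu) hw
  · by_cases hw : w ∈ p
    · have hu' : u ∉ q := fun hu' => h (Or.inr ⟨hu', hw⟩)
      exact hq u w hu' (disjoint_left.1 hpq hw)
    · exact hp u w hu hw

lemma row_eq {p q : Finset (Fin n)} (hpq : Disjoint p q) {x y : Om d}
    (hp : y ∈ cls p x) (hq : y ∈ cls q x) {i : Fin n} (hi : i ∈ p) :
    (q.filter fun w => x.1 i w = true).card = (q.filter fun w => y.1 i w = true).card := by
  have hx := x.2.2.2 i
  have hy := y.2.2.2 i
  have hsplit : ∀ z : Om d, (univ.filter fun w => z.1 i w = true).card =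
      (q.filter fun w => z.1 i w = true).card + (qᶜ.filter fun w => z.1 i w = true).card := by
    intro z
    rw [← card_union_of_disjoint, ← filter_union, union_compl]
    exact disjoint_filter_filter (disjoint_compl_right)
  rw [hsplit] at hx hy
  have : (qᶜ.filter fun w => x.1 i w = true) = (qᶜ.filter fun w => y.1 i w = true) := by
    apply filter_congr
    intro w hw
    rw [mem_compl] at hw
    rw [agree_off hpq hp hq (by
      rintro (⟨-, h⟩ | ⟨h, -⟩)
      · exact hw h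
      · exact disjoint_left.1 hpq hi h)]
  rw [this] at hx
  omega

lemma bool_dich : ∀ x1 x2 x3 x4 y1 y2 y3 y4 : Bool,
    x1.toNat + x2.toNat = y1.toNat + y2.toNat → x3.toNat + x4.toNat = y3.toNat + y4.toNat →
    x1.toNat + x3.toNat = y1.toNat + y3.toNat → x2.toNat + x4.toNat = y2.toNat + y4.toNat →
    (x1 = y1 ∧ x2 = y2 ∧ x3 = y3 ∧ x4 = y4) ∨
    (x1 = true ∧ x4 = true ∧ x2 = false ∧ x3 = false ∧
      y1 = false ∧ y4 = false ∧ y2 = true ∧ y3 = true) ∨
    (x1 = false ∧ x4 = false ∧ x2 = true ∧ x3 = true ∧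
      y1 = true ∧ y4 = true ∧ y2 = false ∧ y3 = false) := by
  intro x1 x2 x3 x4 y1 y2 y3 y4
  cases x1 <;> cases x2 <;> cases x3 <;> cases x4 <;> cases y1 <;> cases y2 <;> cases y3 <;>
    cases y4 <;> simp

lemma card_pair_filter {c e : Fin n} (hce : c ≠ e) (φ : Fin n → Bool) :
    (({c, e} : Finset (Fin n)).filter fun w => φ w = true).card = (φ c).toNat + (φ e).toNat := by
  rw [filter_insert, filter_singleton]
  cases h1 : φ c <;> cases h2 : φ e <;> simp [hce]

lemma block_dich {a b c e : Fin n} (hab : a ≠ b) (hac : a ≠ c) (hae : a ≠ e) (hbc : b ≠ c)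
    (hbe : b ≠ e) (hce : c ≠ e) {x y : Om d} (hxy : x ≠ y)
    (hp : y ∈ cls {a, b} x) (hq : y ∈ cls {c, e} x) :
    (x.1 a c = true ∧ x.1 b e = true ∧ x.1 a e = false ∧ x.1 b c = false ∧
      y.1 a c = false ∧ y.1 b e = false ∧ y.1 a e = true ∧ y.1 b c = true) ∨
    (x.1 a c = false ∧ x.1 b e = false ∧ x.1 a e = true ∧ x.1 b c = true ∧
      y.1 a c = true ∧ y.1 b e = true ∧ y.1 a e = false ∧ y.1 b c = false) := by
  have hd : Disjoint ({a, b} : Finset (Fin n)) {c, e} := by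
    rw [disjoint_left]; intro v hv hv'
    simp only [mem_insert, mem_singleton] at hv hv'
    rcases hv with rfl | rfl <;> rcases hv' with h | h <;> first | exact hac h | exact hae h | exact hbc h | exact hbe h
  have r1 := row_eq hd hp hq (i := a) (by simp)
  have r2 := row_eq hd hp hq (i := b) (by simp)
  have r3 := row_eq hd.symm hq hp (i := c) (by simp)
  have r4 := row_eq hd.symm hq hp (i := e) (by simp)
  rw [card_pair_filter hce, card_pair_filter hce] at r1 r2
  rw [card_pair_filter hab, card_pair_filter hab] at r3 r4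
  rw [x.2.2.1 c a, x.2.2.1 c b, y.2.2.1 c a, y.2.2.1 c b] at r3
  rw [x.2.2.1 e a, x.2.2.1 e b, y.2.2.1 e a, y.2.2.1 e b] at r4
  rcases bool_dich _ _ _ _ _ _ _ _ r1 r2 r3 r4 with h | h | h
  · exfalso
    apply hxy
    apply Subtype.ext
    funext u w
    by_cases hh : (u ∈ ({a, b} : Finset (Fin n)) ∧ w ∈ ({c, e} : Finset (Fin n))) ∨
        (u ∈ ({c, e} : Finset (Fin n)) ∧ w ∈ ({a, b} : Finset (Fin n)))
    · obtain ⟨h1, h2, h3, h4⟩ := h
      simp only [mem_insert, mem_singleton] at hh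
      rcases hh with ⟨rfl | rfl, rfl | rfl⟩ | ⟨rfl | rfl, rfl | rfl⟩
      · exact h1
      · exact h2
      · exact h3
      · exact h4
      · rw [x.2.2.1, y.2.2.1]; exact h1
      · rw [x.2.2.1, y.2.2.1]; exact h3
      · rw [x.2.2.1, y.2.2.1]; exact h2
      · rw [x.2.2.1, y.2.2.1]; exact h4
    · exact agree_off hd hp hq hh
  · left
    obtain ⟨h1, h2, h3, h4, h5, h6, h7, h8⟩ := h
    exact ⟨h1, h2, h3, h4, h5, h6, h7, h8⟩
  · right
    obtain ⟨h1, h2, h3, h4, h5, h6, h7, h8⟩ := h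
    exact ⟨h1, h2, h3, h4, h5, h6, h7, h8⟩

lemma mem_prs {p : Finset (Fin n)} : p ∈ prs n ↔ p.card = 2 := by
  unfold prs
  rw [mem_powersetCard]
  exact ⟨fun h => h.2, fun h => ⟨subset_univ _, h⟩⟩

lemma union_eq_support {p q : Finset (Fin n)} (hp2 : p.card = 2) (hq2 : q.card = 2)
    (hpq : Disjoint p q) {x y : Om d} (hxy : x ≠ y)
    (hp : y ∈ cls p x) (hq : y ∈ cls q x) :
    p ∪ q = univ.filter fun v => ∃ w, x.1 v w ≠ y.1 v w := by
  obtain ⟨a, b, hab, rfl⟩ := card_eq_two.1 hp2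
  obtain ⟨c, e, hce, rfl⟩ := card_eq_two.1 hq2
  have hac : a ≠ c := by rintro rfl; exact disjoint_left.1 hpq (by simp) (by simp : a ∈ _)
  have hae : a ≠ e := by rintro rfl; exact disjoint_left.1 hpq (by simp) (by simp : a ∈ _)
  have hbc : b ≠ c := by rintro rfl; exact disjoint_left.1 hpq (by simp) (by simp : b ∈ _)
  have hbe : b ≠ e := by rintro rfl; exact disjoint_left.1 hpq (by simp) (by simp : b ∈ _)
  have hdich := block_dich hab hac hae hbc hbe hce hxy hp hq
  ext v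
  rw [mem_filter, mem_union]
  constructor
  · intro hv
    refine ⟨mem_univ _, ?_⟩
    have hxac : x.1 a c ≠ y.1 a c := by
      rcases hdich with h | h
      · rw [h.1, h.2.2.2.2.1]; decide
      · rw [h.1, h.2.2.2.2.1]; decide
    have hxbe : x.1 b e ≠ y.1 b e := by
      rcases hdich with h | h
      · rw [h.2.1, h.2.2.2.2.2.1]; decide
      · rw [h.2.1, h.2.2.2.2.2.1]; decide
    simp only [mem_insert, mem_singleton] at hv
    rcases hv with (rfl | rfl) | (rfl | rfl)
    · exact ⟨c, hxac⟩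
    · exact ⟨e, hxbe⟩
    · exact ⟨a, by rw [x.2.2.1, y.2.2.1]; exact hxac⟩
    · exact ⟨b, by rw [x.2.2.1, y.2.2.1]; exact hxbe⟩
  · rintro ⟨-, w, hw⟩
    by_contra hv
    rw [not_or] at hv
    apply hw
    apply agree_off hpq hp hq
    rintro (⟨h, -⟩ | ⟨h, -⟩)
    · exact hv.1 h
    · exact hv.2 h

lemma one_le_proposalCount {a b c e : Fin n} (hab : a ≠ b) (hac : a ≠ c) (hae : a ≠ e)
    (hbc : b ≠ c) (hbe : b ≠ e) (hce : c ≠ e) {x y : Om d}
    (hp : y ∈ cls {a, b} x) (hq : y ∈ cls {c, e} x)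
    (h : x.1 a c = true ∧ x.1 b e = true ∧ x.1 a e = false ∧ x.1 b c = false ∧
      y.1 a c = false ∧ y.1 b e = false ∧ y.1 a e = true ∧ y.1 b c = true) :
    1 ≤ proposalCount (gr x.1) (gr y.1) := by
  obtain ⟨h1, h2, h3, h4, h5, h6, h7, h8⟩ := h
  have hd : Disjoint ({a, b} : Finset (Fin n)) {c, e} := by
    rw [disjoint_left]; intro v hv hv'
    simp only [mem_insert, mem_singleton] at hv hv'
    rcases hv with rfl | rfl <;> rcases hv' with h | h <;> first | exact hac h | exact hae h | exact hbc h | exact hbe h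
  set S : Finset (Fin n) := {a, c, b, e} with hS
  set F : Finset (Edge n) := {mkE a c hac, mkE b e hbe} with hF
  set F' : Finset (Edge n) := {mkE a e hae, mkE c b hbc.symm} with hF'
  have hFS : F ∈ pmSet S := pm_mem hac hab hae hbc.symm hce hbe rfl
  have hFS' : F' ∈ pmSet S := by
    refine pm_mem hae hac hab hce.symm hbe.symm hbc.symm ?_
    ext v; rw [hS]; simp only [mem_insert, mem_singleton]; tauto
  have hne : F' ≠ F := by
    intro h
    have : mkE a e hae ∈ F := by rw [← h, hF']; simp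
    rw [hF, mem_insert, mem_singleton, mkE_eq_iff, mkE_eq_iff] at this
    tauto
  have hScard : S ∈ (univ : Finset (Fin n)).powersetCard 4 := by
    rw [mem_powersetCard]
    refine ⟨subset_univ _, ?_⟩
    rw [card_eq_four]
    exact ⟨a, c, b, e, hac, hab, hae, hbc.symm, hce, hbe, rfl⟩
  have hres : switchResult (gr x.1) F F' = gr y.1 := by
    unfold switchResult
    rw [if_pos]
    · ext g
      obtain ⟨u, w, huw, rfl⟩ := exists_mkE g
      rw [mem_union, mem_sdiff, mkE_mem_gr x.2.2.1, mkE_mem_gr y.2.2.1, hF, hF']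
      simp only [mem_insert, mem_singleton, mkE_eq_iff]
      by_cases hh : (u ∈ ({a, b} : Finset (Fin n)) ∧ w ∈ ({c, e} : Finset (Fin n))) ∨
          (u ∈ ({c, e} : Finset (Fin n)) ∧ w ∈ ({a, b} : Finset (Fin n)))
      · simp only [mem_insert, mem_singleton] at hh
        rcases hh with ⟨rfl | rfl, rfl | rfl⟩ | ⟨rfl | rfl, rfl | rfl⟩
        · rw [h1, h5]; simp [hce, hab, hac, hae]
        · rw [h3, h7]; simp
        · rw [h4, h8]; simp
        · rw [h2, h6]; simp [hab.symm, hbe, hce.symm, hbc]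
        · rw [x.2.2.1, y.2.2.1, h1, h5]; simp [hab, hac.symm, hce, hac]
        · rw [x.2.2.1, y.2.2.1, h4, h8]; simp
        · rw [x.2.2.1, y.2.2.1, h3, h7]; simp
        · rw [x.2.2.1, y.2.2.1, h2, h6]; simp [hab.symm, hbe.symm, hce.symm, hbe]
      · rw [agree_off hd hp hq hh]
        have n1 : ¬ (((u = a ∧ w = e) ∨ (u = e ∧ w = a)) ∨ ((u = c ∧ w = b) ∨ (u = b ∧ w = c))) := by
          rintro ((⟨rfl, rfl⟩ | ⟨rfl, rfl⟩) | (⟨rfl, rfl⟩ | ⟨rfl, rfl⟩)) <;> exact hh (by simp)
        have n2 : ¬ (((u = a ∧ w = c) ∨ (u = c ∧ w = a)) ∨ ((u = b ∧ w = e) ∨ (u = e ∧ w = b))) := by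
          rintro ((⟨rfl, rfl⟩ | ⟨rfl, rfl⟩) | (⟨rfl, rfl⟩ | ⟨rfl, rfl⟩)) <;> exact hh (by simp)
        constructor
        · rintro (⟨h, -⟩ | h)
          · exact h
          · exact absurd h n1
        · intro h
          exact Or.inl ⟨h, n2⟩
    · constructor
      · intro g hg
        rw [hF, mem_insert, mem_singleton] at hg
        rcases hg with rfl | rfl
        · rw [mkE_mem_gr x.2.2.1]; exact h1
        · rw [mkE_mem_gr x.2.2.1]; exact h2
      · rw [disjoint_left]
        intro g hg hg'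
        rw [hF', mem_insert, mem_singleton] at hg
        rcases hg with rfl | rfl
        · rw [mkE_mem_gr x.2.2.1, h3] at hg'; exact Bool.noConfusion hg'
        · rw [mkE_mem_gr x.2.2.1, x.2.2.1, h4] at hg'; exact Bool.noConfusion hg'
  rw [Nat.one_le_iff_ne_zero]
  intro h0
  unfold proposalCount at h0
  rw [Finset.sum_eq_zero_iff] at h0
  have h0 := h0 S hScard
  rw [Finset.sum_eq_zero_iff] at h0
  have h0 := h0 F hFS
  rw [Finset.sum_eq_zero_iff] at h0
  have h0 := h0 F' (mem_erase.2 ⟨hne, hFS'⟩)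
  rw [if_pos hres] at h0
  exact one_ne_zero h0

lemma one_le_proposalCount' {p q : Finset (Fin n)} (hp2 : p.card = 2) (hq2 : q.card = 2)
    (hpq : Disjoint p q) {x y : Om d} (hxy : x ≠ y)
    (hp : y ∈ cls p x) (hq : y ∈ cls q x) :
    1 ≤ proposalCount (gr x.1) (gr y.1) := by
  obtain ⟨a, b, hab, rfl⟩ := card_eq_two.1 hp2
  obtain ⟨c, e, hce, rfl⟩ := card_eq_two.1 hq2
  have hac : a ≠ c := by rintro rfl; exact disjoint_left.1 hpq (by simp) (by simp : a ∈ _)
  have hae : a ≠ e := by rintro rfl; exact disjoint_left.1 hpq (by simp) (by simp : a ∈ _)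
  have hbc : b ≠ c := by rintro rfl; exact disjoint_left.1 hpq (by simp) (by simp : b ∈ _)
  have hbe : b ≠ e := by rintro rfl; exact disjoint_left.1 hpq (by simp) (by simp : b ∈ _)
  rcases block_dich hab hac hae hbc hbe hce hxy hp hq with h | h
  · exact one_le_proposalCount hab hac hae hbc hbe hce hp hq h
  · obtain ⟨h1, h2, h3, h4, h5, h6, h7, h8⟩ := h
    rw [pair_comm] at hq
    exact one_le_proposalCount hab hae hac hbe hbc hce.symm hp hq
      ⟨h3, h4, h1, h2, h7, h8, h5, h6⟩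

lemma count_le {x y : Om d} (hxy : x ≠ y) :
    ∑ p ∈ prs n, ∑ q ∈ dj p, (if y ∈ cls p x ∩ cls q x then 1 else 0 : ℕ) ≤
      6 * proposalCount (gr x.1) (gr y.1) := by
  set Z : Finset (Finset (Fin n)) := (prs n).filter fun p =>
    ∃ q ∈ dj p, y ∈ cls p x ∩ cls q x with hZ
  set S0 : Finset (Fin n) := univ.filter fun v => ∃ w, x.1 v w ≠ y.1 v w with hS0
  have hone : ∀ p ∈ prs n, ∑ q ∈ dj p, (if y ∈ cls p x ∩ cls q x then 1 else 0 : ℕ) ≤
      if p ∈ Z then 1 else 0 := by
    intro p hp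
    rw [← Finset.card_filter]
    by_cases hpZ : p ∈ Z
    · rw [if_pos hpZ, card_le_one]
      intro q hq q' hq'
      rw [mem_filter] at hq hq'
      unfold dj at hq hq'
      rw [mem_filter, mem_inter] at hq hq'
      have e1 := union_eq_support (mem_prs.1 hp) (mem_prs.1 hq.1.1) hq.1.2 hxy hq.2.1 hq.2.2
      have e2 := union_eq_support (mem_prs.1 hp) (mem_prs.1 hq'.1.1) hq'.1.2 hxy hq'.2.1 hq'.2.2
      have e3 : q = (p ∪ q) \ p := by
        rw [union_sdiff_left, sdiff_eq_self_of_disjoint hq.1.2.symm]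
      have e4 : q' = (p ∪ q') \ p := by
        rw [union_sdiff_left, sdiff_eq_self_of_disjoint hq'.1.2.symm]
      rw [e3, e4, e1, e2]
    · rw [if_neg hpZ, Nat.le_zero, card_eq_zero, filter_eq_empty_iff]
      intro q hq h
      exact hpZ (mem_filter.2 ⟨hp, q, hq, h⟩)
  have hsum : ∑ p ∈ prs n, ∑ q ∈ dj p, (if y ∈ cls p x ∩ cls q x then 1 else 0 : ℕ) ≤ Z.card := by
    refine (Finset.sum_le_sum hone).trans ?_
    rw [← Finset.card_filter]
    apply card_le_card
    intro p hp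
    exact (mem_filter.1 hp).2
  by_cases hne : Z = ∅
  · rw [hne] at hsum
    simp only [card_empty] at hsum
    omega
  · obtain ⟨p0, hp0⟩ := nonempty_iff_ne_empty.2 hne
    have hp0' := (mem_filter.1 hp0)
    obtain ⟨hp0p, q0, hq0, hy0⟩ := hp0'
    unfold dj at hq0
    rw [mem_filter] at hq0
    rw [mem_inter] at hy0
    have hpc := one_le_proposalCount' (mem_prs.1 hp0p) (mem_prs.1 hq0.1) hq0.2 hxy hy0.1 hy0.2
    have hS4 : S0.card = 4 := by
      rw [hS0, ← union_eq_support (mem_prs.1 hp0p) (mem_prs.1 hq0.1) hq0.2 hxy hy0.1 hy0.2,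
        card_union_of_disjoint hq0.2, mem_prs.1 hp0p, mem_prs.1 hq0.1]
    have hZ6 : Z.card ≤ 6 := by
      have : Z ⊆ S0.powersetCard 2 := by
        intro p hp
        obtain ⟨hpp, q, hq, hy⟩ := mem_filter.1 hp
        unfold dj at hq
        rw [mem_filter] at hq
        rw [mem_inter] at hy
        rw [mem_powersetCard]
        refine ⟨?_, mem_prs.1 hpp⟩
        rw [hS0, ← union_eq_support (mem_prs.1 hpp) (mem_prs.1 hq.1) hq.2 hxy hy.1 hy.2]
        exact subset_union_left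
      have h := card_le_card this
      rw [card_powersetCard, hS4] at h
      exact h.trans (by decide)
    nlinarith [hsum, hZ6, hpc]

theorem sum_en_le (f : Om d → ℝ) :
    ∑ p ∈ prs n, ∑ q ∈ dj p, en p q f ≤
      6 * ∑ x : Om d, ∑ y : Om d, (proposalCount (gr x.1) (gr y.1) : ℝ) * (f x - f y) ^ 2 := by
  have h1 : ∑ p ∈ prs n, ∑ q ∈ dj p, en p q f =
      ∑ x : Om d, ∑ y : Om d,
        ((∑ p ∈ prs n, ∑ q ∈ dj p, (if y ∈ cls p x ∩ cls q x then 1 else 0 : ℕ) : ℕ) : ℝ) *
          (f x - f y) ^ 2 := by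
    have h2 : ∀ p q : Finset (Fin n), en p q f = ∑ x : Om d, ∑ y : Om d,
        ((if y ∈ cls p x ∩ cls q x then 1 else 0 : ℕ) : ℝ) * (f x - f y) ^ 2 := by
      intro p q
      unfold en
      refine Finset.sum_congr rfl fun x _ => ?_
      rw [← Finset.sum_filter_add_sum_filter_not univ (fun y => y ∈ cls p x ∩ cls q x)
        (fun y => ((if y ∈ cls p x ∩ cls q x then 1 else 0 : ℕ) : ℝ) * (f x - f y) ^ 2)]
      have e0 : ∑ y ∈ univ.filter (fun y => ¬ (y ∈ cls p x ∩ cls q x)),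
          ((if y ∈ cls p x ∩ cls q x then 1 else 0 : ℕ) : ℝ) * (f x - f y) ^ 2 = 0 := by
        refine Finset.sum_eq_zero fun y hy => ?_
        rw [mem_filter] at hy
        rw [if_neg hy.2]; simp
      rw [e0, add_zero]
      have e1 : (univ.filter fun y => y ∈ cls p x ∩ cls q x) = cls p x ∩ cls q x := by
        ext y; simp
      rw [e1]
      refine Finset.sum_congr rfl fun y hy => ?_
      rw [if_pos hy]; simp
    simp only [h2]
    have e3 : ∀ x y : Om d, (((∑ p ∈ prs n, ∑ q ∈ dj p,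
        (if y ∈ cls p x ∩ cls q x then 1 else 0 : ℕ)) : ℕ) : ℝ) * (f x - f y) ^ 2 =
        ∑ p ∈ prs n, ∑ q ∈ dj p,
          ((if y ∈ cls p x ∩ cls q x then 1 else 0 : ℕ) : ℝ) * (f x - f y) ^ 2 := by
      intro x y
      push_cast
      rw [Finset.sum_mul]
      refine Finset.sum_congr rfl fun p _ => ?_
      rw [Finset.sum_mul]
    simp only [e3]
    have e4 : ∀ p ∈ prs n, ∑ q ∈ dj p, ∑ x : Om d, ∑ y : Om d,
        ((if y ∈ cls p x ∩ cls q x then 1 else 0 : ℕ) : ℝ) * (f x - f y) ^ 2 =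
        ∑ x : Om d, ∑ y : Om d, ∑ q ∈ dj p,
        ((if y ∈ cls p x ∩ cls q x then 1 else 0 : ℕ) : ℝ) * (f x - f y) ^ 2 := by
      intro p _
      rw [Finset.sum_comm]
      refine Finset.sum_congr rfl fun x _ => ?_
      rw [Finset.sum_comm]
    rw [Finset.sum_congr rfl e4, Finset.sum_comm]
    refine Finset.sum_congr rfl fun x _ => ?_
    rw [Finset.sum_comm]
  rw [h1, Finset.mul_sum]
  refine Finset.sum_le_sum fun x _ => ?_
  rw [Finset.mul_sum]
  refine Finset.sum_le_sum fun y _ => ?_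
  by_cases hxy : x = y
  · subst hxy; simp
  · have h := count_le hxy
    have h' : (((∑ p ∈ prs n, ∑ q ∈ dj p,
        (if y ∈ cls p x ∩ cls q x then 1 else 0 : ℕ)) : ℕ) : ℝ) ≤
        6 * (proposalCount (gr x.1) (gr y.1) : ℝ) := by exact_mod_cast h
    calc _ ≤ (6 * (proposalCount (gr x.1) (gr y.1) : ℝ)) * (f x - f y) ^ 2 :=
          mul_le_mul_of_nonneg_right h' (sq_nonneg _)
      _ = _ := by ring

end Crest.Agent.LSwKernel
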