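import Mathlib

set_option autoImplicit false
open Finset

/-!
Lipschitz lemma for convolutions of log-concave weights (for S0453, module Triple).
-/

namespace Crest.Agent.LSwLip

lemma abel (u θ : ℕ → ℝ) (m : ℕ) :
    ∑ x ∈ range (m + 1), u x * θ x = (∑ y ∈ range (m + 1), u y) * θ m -
      ∑ x ∈ range m, (∑ y ∈ range (x + 1), u y) * (θ (x + 1) - θ x) := by
  induction m with
  | zero => simp
  | succ m ih =>
    rw [sum_range_succ, ih, sum_range_succ (fun x => (∑ y ∈ range (x + 1), u y) *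
      (θ (x + 1) - θ x)) m, sum_range_succ u (m + 1)]
    ring

/-- the weight of `x` at total `s` -/
noncomputable def w (a b : ℕ → ℝ) (s x : ℕ) : ℝ := if x ≤ s then a x * b (s - x) else 0

lemma w_nonneg {a b : ℕ → ℝ} (ha : ∀ x, 0 ≤ a x) (hb : ∀ x, 0 ≤ b x) (s x : ℕ) :
    0 ≤ w a b s x := by
  unfold w; split_ifs
  · exact mul_nonneg (ha _) (hb _)
  · exact le_rfl

lemma sum_w_eq (a b : ℕ → ℝ) (s m : ℕ) (h : s ≤ m) :
    ∑ x ∈ range (m + 1), w a b s x = ∑ x ∈ range (s + 1), a x * b (s - x) := by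
  have h1 : ∑ x ∈ range (s + 1), w a b s x = ∑ x ∈ range (s + 1), a x * b (s - x) := by
    refine sum_congr rfl fun x hx => ?_
    unfold w
    rw [if_pos (by rw [mem_range] at hx; omega)]
  rw [← h1]
  symm
  apply sum_subset
  · intro x hx; rw [mem_range] at *; omega
  · intro x _ hx
    rw [mem_range] at hx
    unfold w
    rw [if_neg (by omega)]

/-- cumulative domination, cross-multiplied -/
lemma cum {a b : ℕ → ℝ} (ha : ∀ x, 0 ≤ a x) (hb : ∀ x, 0 ≤ b x)
    (hlb : ∀ y z, y ≤ z → b y * b (z + 1) ≤ b (y + 1) * b z) (s m : ℕ) (_hm : s + 1 ≤ m) (x : ℕ)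
    (hx : x ≤ m) :
    (∑ z ∈ range (m + 1), w a b s z) * (∑ y ∈ range (x + 1), w a b (s + 1) y) ≤
      (∑ z ∈ range (m + 1), w a b (s + 1) z) * (∑ y ∈ range (x + 1), w a b s y) := by
  have hsplit : ∀ g : ℕ → ℝ, ∑ z ∈ range (m + 1), g z =
      ∑ z ∈ range (x + 1), g z + ∑ z ∈ Ico (x + 1) (m + 1), g z := by
    intro g
    rw [Finset.sum_range_add_sum_Ico]
    omega
  rw [hsplit, hsplit, add_mul, add_mul]
  have e1 : (∑ z ∈ range (x + 1), w a b s z) * (∑ y ∈ range (x + 1), w a b (s + 1) y) =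
      (∑ z ∈ range (x + 1), w a b (s + 1) z) * (∑ y ∈ range (x + 1), w a b s y) := mul_comm _ _
  rw [e1]
  apply add_le_add le_rfl
  rw [sum_mul_sum, sum_mul_sum]
  refine sum_le_sum fun z hz => sum_le_sum fun y hy => ?_
  rw [mem_Ico] at hz
  rw [mem_range] at hy
  unfold w
  by_cases h1 : z ≤ s
  · rw [if_pos h1, if_pos (by omega : y ≤ s + 1), if_pos (by omega : z ≤ s + 1),
      if_pos (by omega : y ≤ s)]
    have h := hlb (s - z) (s - y) (by omega)
    have e2 : s + 1 - y = s - y + 1 := by omega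
    have e3 : s + 1 - z = s - z + 1 := by omega
    rw [e2, e3]
    have h4 : 0 ≤ a z * a y := mul_nonneg (ha _) (ha _)
    calc a z * b (s - z) * (a y * b (s - y + 1)) = (a z * a y) * (b (s - z) * b (s - y + 1)) := by
          ring
      _ ≤ (a z * a y) * (b (s - z + 1) * b (s - y)) := mul_le_mul_of_nonneg_left h h4
      _ = _ := by ring
  · rw [if_neg h1, zero_mul]
    apply mul_nonneg
    · split_ifs
      · exact mul_nonneg (ha _) (hb _)
      · exact le_rfl
    · split_ifs
      · exact mul_nonneg (ha _) (hb _)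
      · exact le_rfl

/-- reversal of the weights -/
lemma w_rev (a b : ℕ → ℝ) (s x : ℕ) (hx : x ≤ s) : w a b s (s - x) = w b a s x := by
  unfold w
  rw [if_pos (by omega), if_pos hx, mul_comm]
  congr 2
  omega

theorem lip {a b φ ψ : ℕ → ℝ} {L : ℝ} (ha : ∀ x, 0 ≤ a x) (hb : ∀ x, 0 ≤ b x)
    (hla : ∀ y z, y ≤ z → a y * a (z + 1) ≤ a (y + 1) * a z)
    (hlb : ∀ y z, y ≤ z → b y * b (z + 1) ≤ b (y + 1) * b z)
    (hφ : ∀ x, |φ (x + 1) - φ x| ≤ L) (hψ : ∀ x, |ψ (x + 1) - ψ x| ≤ L) (s : ℕ)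
    (hZ : 0 < ∑ x ∈ range (s + 1), a x * b (s - x))
    (hZ' : 0 < ∑ x ∈ range (s + 2), a x * b (s + 1 - x)) :
    |(∑ x ∈ range (s + 1), a x * b (s - x) * (φ x + ψ (s - x))) /
        (∑ x ∈ range (s + 1), a x * b (s - x)) -
      (∑ x ∈ range (s + 2), a x * b (s + 1 - x) * (φ x + ψ (s + 1 - x))) /
        (∑ x ∈ range (s + 2), a x * b (s + 1 - x))| ≤ L := by
  set Z := ∑ x ∈ range (s + 1), a x * b (s - x) with hZdef
  set Z' := ∑ x ∈ range (s + 2), a x * b (s + 1 - x) with hZ'def
  set p : ℕ → ℝ := fun x => w a b s x / Z with hp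
  set q : ℕ → ℝ := fun x => w a b (s + 1) x / Z' with hq
  set P : ℕ → ℝ := fun x => ∑ y ∈ range (x + 1), p y with hP
  set Q : ℕ → ℝ := fun x => ∑ y ∈ range (x + 1), q y with hQ
  have hZs : ∑ x ∈ range (s + 2), w a b s x = Z := sum_w_eq a b s (s + 1) (by omega)
  have hZs0 : ∑ x ∈ range (s + 1), w a b s x = Z := sum_w_eq a b s s le_rfl
  have hZs' : ∑ x ∈ range (s + 2), w a b (s + 1) x = Z' := sum_w_eq a b (s + 1) (s + 1) le_rfl
  have hPs1 : P (s + 1) = 1 := by
    show ∑ y ∈ range (s + 2), w a b s y / Z = 1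
    rw [← sum_div, hZs, div_self hZ.ne']
  have hPs : P s = 1 := by
    show ∑ y ∈ range (s + 1), w a b s y / Z = 1
    rw [← sum_div, hZs0, div_self hZ.ne']
  have hQs1 : Q (s + 1) = 1 := by
    show ∑ y ∈ range (s + 2), w a b (s + 1) y / Z' = 1
    rw [← sum_div, hZs', div_self hZ'.ne']
  -- first domination
  have hQP : ∀ x, x ≤ s + 1 → Q x ≤ P x := by
    intro x hx
    show ∑ y ∈ range (x + 1), w a b (s + 1) y / Z' ≤ ∑ y ∈ range (x + 1), w a b s y / Z
    rw [← sum_div, ← sum_div, div_le_div_iff₀ hZ' hZ]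
    have h := cum ha hb hlb s (s + 1) le_rfl x hx
    rw [hZs, hZs'] at h
    linarith
  -- second domination, by reversal
  have hPQ : ∀ x, x ≤ s → P x ≤ Q (x + 1) := by
    intro x hx
    rcases Nat.eq_or_lt_of_le hx with rfl | hlt
    · rw [hPs, hQs1]
    -- complement sums
    have hc := cum hb ha hla s (s + 1) le_rfl (s - x - 1) (by omega)
    have hr1 : ∑ z ∈ range (s + 1 + 1), w b a s z = Z := by
      rw [sum_w_eq b a s (s + 1) (by omega), hZdef, ← sum_range_reflect]
      refine sum_congr rfl fun z hz => ?_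
      rw [mem_range] at hz
      rw [mul_comm]
      have : s + 1 - 1 - z = s - z := by omega
      rw [this, Nat.sub_sub_self (by omega)]
    have hr2 : ∑ z ∈ range (s + 1 + 1), w b a (s + 1) z = Z' := by
      rw [sum_w_eq b a (s + 1) (s + 1) le_rfl, hZ'def, ← sum_range_reflect]
      refine sum_congr rfl fun z hz => ?_
      rw [mem_range] at hz
      rw [mul_comm]
      have : s + 1 + 1 - 1 - z = s + 1 - z := by omega
      rw [this, Nat.sub_sub_self (by omega)]
    rw [hr1, hr2] at hc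
    -- tail sums
    have ht1 : ∑ y ∈ range (s - x - 1 + 1), w b a s y = Z - ∑ y ∈ range (x + 1), w a b s y := by
      have e : ∑ y ∈ range (s + 1), w a b s y =
          ∑ y ∈ range (x + 1), w a b s y + ∑ y ∈ Ico (x + 1) (s + 1), w a b s y := by
        rw [Finset.sum_range_add_sum_Ico]; omega
      rw [hZs0] at e
      rw [e, add_sub_cancel_left, Finset.sum_Ico_eq_sum_range]
      have e5 : s - x - 1 + 1 = s + 1 - (x + 1) := by omega
      rw [e5, ← sum_range_reflect]
      refine sum_congr rfl fun y hy => ?_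
      rw [mem_range] at hy
      rw [← w_rev a b s _ (by omega)]
      congr 1
      omega
    have ht2 : ∑ y ∈ range (s - x - 1 + 1), w b a (s + 1) y =
        Z' - ∑ y ∈ range (x + 2), w a b (s + 1) y := by
      have e : ∑ y ∈ range (s + 2), w a b (s + 1) y =
          ∑ y ∈ range (x + 2), w a b (s + 1) y + ∑ y ∈ Ico (x + 2) (s + 2), w a b (s + 1) y := by
        rw [Finset.sum_range_add_sum_Ico]; omega
      rw [hZs'] at e
      rw [e, add_sub_cancel_left, Finset.sum_Ico_eq_sum_range]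
      have e5 : s - x - 1 + 1 = s + 2 - (x + 2) := by omega
      rw [e5, ← sum_range_reflect]
      refine sum_congr rfl fun y hy => ?_
      rw [mem_range] at hy
      rw [← w_rev a b (s + 1) _ (by omega)]
      congr 1
      omega
    rw [ht1, ht2] at hc
    show ∑ y ∈ range (x + 1), w a b s y / Z ≤ ∑ y ∈ range (x + 2), w a b (s + 1) y / Z'
    rw [← sum_div, ← sum_div, div_le_div_iff₀ hZ hZ']
    nlinarith
  -- the two means
  have hM : (∑ x ∈ range (s + 1), a x * b (s - x) * (φ x + ψ (s - x))) / Z =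
      ∑ x ∈ range (s + 2), p x * φ x + ∑ x ∈ range (s + 1), p x * ψ (s - x) := by
    have e1 : ∑ x ∈ range (s + 2), p x * φ x = ∑ x ∈ range (s + 1), p x * φ x := by
      rw [sum_range_succ]
      have : p (s + 1) = 0 := by
        show w a b s (s + 1) / Z = 0
        unfold w
        rw [if_neg (by omega), zero_div]
      rw [this, zero_mul, add_zero]
    rw [e1, sum_div, ← sum_add_distrib]
    refine sum_congr rfl fun x hx => ?_
    rw [mem_range] at hx
    show _ = w a b s x / Z * φ x + w a b s x / Z * ψ (s - x)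
    unfold w
    rw [if_pos (by omega)]; ring
  have hM' : (∑ x ∈ range (s + 2), a x * b (s + 1 - x) * (φ x + ψ (s + 1 - x))) / Z' =
      ∑ x ∈ range (s + 2), q x * φ x + ∑ x ∈ range (s + 2), q x * ψ (s + 1 - x) := by
    rw [sum_div, ← sum_add_distrib]
    refine sum_congr rfl fun x hx => ?_
    rw [mem_range] at hx
    show _ = w a b (s + 1) x / Z' * φ x + w a b (s + 1) x / Z' * ψ (s + 1 - x)
    unfold w
    rw [if_pos (by omega)]; ring
  -- shift of `p`
  set p' : ℕ → ℝ := fun x => if x = 0 then 0 else p (x - 1) with hp'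
  have hp'sum : ∀ x, ∑ y ∈ range (x + 1), p' y = if x = 0 then 0 else P (x - 1) := by
    intro x
    rw [sum_range_succ']
    have : ∀ k ∈ range x, p' (k + 1) = p k := by
      intro k _
      show (if k + 1 = 0 then 0 else p (k + 1 - 1)) = p k
      rw [if_neg (by omega)]
      simp
    rw [sum_congr rfl this]
    have h0 : p' 0 = 0 := by show (if 0 = 0 then (0:ℝ) else p (0 - 1)) = 0; simp
    rw [h0, add_zero]
    rcases Nat.eq_zero_or_pos x with rfl | hx
    · simp
    · rw [if_neg (by omega)]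
      show _ = ∑ y ∈ range (x - 1 + 1), p y
      rw [Nat.sub_add_cancel hx]
  have hshift : ∑ x ∈ range (s + 1), p x * ψ (s - x) =
      ∑ x ∈ range (s + 2), p' x * ψ (s + 1 - x) := by
    rw [sum_range_succ' (fun x => p' x * ψ (s + 1 - x)) (s + 1)]
    have h0 : p' 0 = 0 := by show (if 0 = 0 then (0:ℝ) else p (0 - 1)) = 0; simp
    rw [h0, zero_mul, add_zero]
    refine sum_congr rfl fun x _ => ?_
    show _ = (if x + 1 = 0 then 0 else p (x + 1 - 1)) * ψ (s + 1 - (x + 1))
    rw [if_neg (by omega)]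
    congr 2
    omega
  rw [hM, hM', hshift]
  have hA1 : ∑ x ∈ range (s + 2), p x * φ x - ∑ x ∈ range (s + 2), q x * φ x =
      - ∑ x ∈ range (s + 1), (P x - Q x) * (φ (x + 1) - φ x) := by
    rw [abel p φ (s + 1), abel q φ (s + 1)]
    have e1 : ∑ y ∈ range (s + 1 + 1), p y = 1 := hPs1
    have e2 : ∑ y ∈ range (s + 1 + 1), q y = 1 := hQs1
    rw [e1, e2]
    have e3 : ∑ x ∈ range (s + 1), (P x - Q x) * (φ (x + 1) - φ x) =
        ∑ x ∈ range (s + 1), (∑ y ∈ range (x + 1), p y) * (φ (x + 1) - φ x) -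
        ∑ x ∈ range (s + 1), (∑ y ∈ range (x + 1), q y) * (φ (x + 1) - φ x) := by
      rw [← sum_sub_distrib]
      exact sum_congr rfl fun x _ => by show (P x - Q x) * _ = P x * _ - Q x * _; ring
    rw [e3]; ring
  set θ : ℕ → ℝ := fun x => ψ (s + 1 - x) with hθ
  have hA2 : ∑ x ∈ range (s + 2), p' x * ψ (s + 1 - x) - ∑ x ∈ range (s + 2), q x * ψ (s + 1 - x) =
      ∑ x ∈ range (s + 1), (Q x - (if x = 0 then 0 else P (x - 1))) * (θ (x + 1) - θ x) := by
    have h1 := abel p' θ (s + 1)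
    have h2 := abel q θ (s + 1)
    have e1 : ∑ y ∈ range (s + 1 + 1), p' y = 1 := by
      rw [hp'sum, if_neg (by omega)]
      exact hPs
    have e2 : ∑ y ∈ range (s + 1 + 1), q y = 1 := hQs1
    rw [e1] at h1
    rw [e2] at h2
    have h1' : ∑ x ∈ range (s + 2), p' x * ψ (s + 1 - x) = 1 * θ (s + 1) -
      ∑ x ∈ range (s + 1), (∑ y ∈ range (x + 1), p' y) * (θ (x + 1) - θ x) := h1
    have h2' : ∑ x ∈ range (s + 2), q x * ψ (s + 1 - x) = 1 * θ (s + 1) -
      ∑ x ∈ range (s + 1), (∑ y ∈ range (x + 1), q y) * (θ (x + 1) - θ x) := h2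
    rw [h1', h2']
    have e3 : ∑ x ∈ range (s + 1), (Q x - (if x = 0 then 0 else P (x - 1))) * (θ (x + 1) - θ x) =
        ∑ x ∈ range (s + 1), (∑ y ∈ range (x + 1), q y) * (θ (x + 1) - θ x) -
        ∑ x ∈ range (s + 1), (∑ y ∈ range (x + 1), p' y) * (θ (x + 1) - θ x) := by
      rw [← sum_sub_distrib]
      refine sum_congr rfl fun x _ => ?_
      rw [hp'sum]
      show (Q x - _) * _ = Q x * _ - _
      ring
    rw [e3]; ring
  have hθL : ∀ x ∈ range (s + 1), |θ (x + 1) - θ x| ≤ L := by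
    intro x hx
    rw [mem_range] at hx
    show |ψ (s + 1 - (x + 1)) - ψ (s + 1 - x)| ≤ L
    have e1 : s + 1 - (x + 1) = s - x := by omega
    have e2 : s + 1 - x = s - x + 1 := by omega
    rw [e1, e2, abs_sub_comm]
    exact hψ _
  have hfinal : ∑ x ∈ range (s + 2), p x * φ x + ∑ x ∈ range (s + 2), p' x * ψ (s + 1 - x) -
      (∑ x ∈ range (s + 2), q x * φ x + ∑ x ∈ range (s + 2), q x * ψ (s + 1 - x)) =
      ∑ x ∈ range (s + 1), ((Q x - (if x = 0 then 0 else P (x - 1))) * (θ (x + 1) - θ x) -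
        (P x - Q x) * (φ (x + 1) - φ x)) := by
    rw [sum_sub_distrib, ← hA2]
    linarith
  rw [hfinal]
  refine (abs_sum_le_sum_abs _ _).trans ?_
  have hbound : ∀ x ∈ range (s + 1),
      |(Q x - (if x = 0 then 0 else P (x - 1))) * (θ (x + 1) - θ x) -
        (P x - Q x) * (φ (x + 1) - φ x)| ≤ L * (P x - (if x = 0 then 0 else P (x - 1))) := by
    intro x hx
    have hx' := mem_range.1 hx
    have h1 : 0 ≤ Q x - (if x = 0 then 0 else P (x - 1)) := by
      rcases Nat.eq_zero_or_pos x with rfl | hpos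
      · rw [if_pos rfl, sub_zero]
        show 0 ≤ ∑ y ∈ range (0 + 1), w a b (s + 1) y / Z'
        exact sum_nonneg fun y _ => div_nonneg (w_nonneg ha hb _ _) hZ'.le
      · rw [if_neg (by omega)]
        have := hPQ (x - 1) (by omega)
        rw [Nat.sub_add_cancel hpos] at this
        linarith
    have h2 : 0 ≤ P x - Q x := by
      have := hQP x (by omega)
      linarith
    calc _ ≤ |(Q x - (if x = 0 then 0 else P (x - 1))) * (θ (x + 1) - θ x)| +
          |(P x - Q x) * (φ (x + 1) - φ x)| := abs_sub _ _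
      _ ≤ (Q x - (if x = 0 then 0 else P (x - 1))) * L + (P x - Q x) * L := by
          rw [abs_mul, abs_mul, abs_of_nonneg h1, abs_of_nonneg h2]
          exact add_le_add (mul_le_mul_of_nonneg_left (hθL x hx) h1)
            (mul_le_mul_of_nonneg_left (hφ x) h2)
      _ = _ := by ring
  refine (sum_le_sum hbound).trans ?_
  rw [← mul_sum]
  have htel : ∑ x ∈ range (s + 1), (P x - (if x = 0 then 0 else P (x - 1))) = P s := by
    have : ∀ m, ∑ x ∈ range (m + 1), (P x - (if x = 0 then 0 else P (x - 1))) = P m := by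
      intro m
      induction m with
      | zero => simp
      | succ m ih =>
        rw [sum_range_succ, ih, if_neg (by omega)]
        simp
    exact this s
  rw [htel, hPs, mul_one]

end Crest.Agent.LSwLip
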