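import Crest.Agent.LSwSpec
import Crest.Agent.LSwOrb
import Crest.Agent.LSwPairAbs

set_option autoImplicit false
open Finset

/-!
Assembly of the Poincare inequality (module `Poinc` of S0453) from `Triple`, `Pair`, `JohnsonN`, `Conn`.
-/

namespace Crest.Agent.LSwPoinc

open Crest.Agent.LSw Crest.Agent.LSwPart Crest.Agent.LSwOrb

section Spectral

lemma spectral2 {X : Type*} [Fintype X] (A : (X → ℝ) →ₗ[ℝ] (X → ℝ))
    (hA : ∀ f g, ∑ x, A f x * g x = ∑ x, f x * A g x)
    (hev : ∀ (μ : ℝ) (f : X → ℝ), A f = μ • f → f ≠ 0 → 1 ≤ μ ∨ (μ = 0 ∧ ∀ x y, f x = f y))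
    (f : X → ℝ) (hf : ∑ x, f x = 0) :
    ∑ x, f x * f x ≤ ∑ x, f x * A f x := by
  classical
  let e : EuclideanSpace ℝ X ≃ₗ[ℝ] (X → ℝ) := WithLp.linearEquiv 2 ℝ (X → ℝ)
  let B : EuclideanSpace ℝ X →ₗ[ℝ] EuclideanSpace ℝ X := e.symm.toLinearMap ∘ₗ A ∘ₗ e.toLinearMap
  have hin : ∀ u v : EuclideanSpace ℝ X, inner ℝ u v = ∑ x, e u x * e v x := by
    intro u v
    rw [PiLp.inner_apply]
    refine sum_congr rfl fun x _ => ?_
    simp [e, mul_comm]
  have heB : ∀ u, e (B u) = A (e u) := by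
    intro u; simp [B]
  have hB : B.IsSymmetric := by
    intro u v
    rw [hin, hin, heB, heB]
    exact hA _ _
  let b := hB.eigenvectorBasis rfl
  let μ := hB.eigenvalues rfl
  have hb : ∀ i, B (b i) = μ i • b i := fun i => hB.apply_eigenvectorBasis rfl i
  set u := e.symm f with hu
  have heu : e u = f := by simp [hu]
  have hμ : ∀ i, (inner ℝ (b i) u) ^ 2 ≤ μ i * (inner ℝ (b i) u) ^ 2 := by
    intro i
    rcases hev (μ i) (e (b i)) (by rw [← heB, hb, map_smul]) (by
      intro h0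
      have : b i = 0 := by simpa using h0
      have h1 := b.orthonormal.1 i
      rw [this] at h1
      simp at h1) with h | ⟨h0, hc⟩
    · nlinarith [sq_nonneg (inner ℝ (b i) u)]
    · have h2 : inner ℝ (b i) u = 0 := by
        rw [hin, heu]
        rcases isEmpty_or_nonempty X with hX | ⟨⟨x0⟩⟩
        · simp
        · have : ∀ x, e (b i) x * f x = e (b i) x0 * f x := fun x => by rw [hc x x0]
          simp only [this]
          rw [← mul_sum, hf, mul_zero]
      rw [h2]; simp
  have h1 : inner ℝ u (B u) = ∑ i, μ i * (inner ℝ (b i) u) ^ 2 := by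
    rw [← b.sum_inner_mul_inner u (B u)]
    refine sum_congr rfl fun i _ => ?_
    rw [← hB (b i) u, hb, inner_smul_left, real_inner_comm (b i) u]
    simp; ring
  have h2 : inner ℝ u u = ∑ i, (inner ℝ (b i) u) ^ 2 := by
    rw [← b.sum_inner_mul_inner u u]
    refine sum_congr rfl fun i _ => ?_
    rw [real_inner_comm (b i) u]
    ring
  have h3 : inner ℝ u (B u) = ∑ x, f x * A f x := by rw [hin, heB, heu]
  have h4 : inner ℝ u u = ∑ x, f x * f x := by rw [hin, heu]
  rw [← h3, ← h4, h1, h2]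
  exact sum_le_sum fun i _ => hμ i

end Spectral

variable {n : ℕ} {d : Fin n → ℕ}

lemma mem_prs {p : Finset (Fin n)} : p ∈ prs n ↔ p.card = 2 := by
  simp [prs, mem_powersetCard]

lemma D_eq (S : Finset (Fin n)) (f : Om d → ℝ) : D S f = f - A (cls S) f := rfl

lemma ip_eq (f g : Om d → ℝ) : LSw.ip f g = LSwPart.ip f g := rfl

/-- inner products of the differences -/
noncomputable def c (f : Om d → ℝ) (p q : Finset (Fin n)) : ℝ := LSw.ip (D p f) (D q f)

lemma ip_D (f : Om d → ℝ) (p : Finset (Fin n)) : LSw.ip f (D p f) = c f p p := by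
  unfold c
  rw [D_eq, ip_eq, ip_eq, LSwPart.ip_comm, LSwPairAbs.D_left (prt_cls p), LSwPairAbs.D_sq (prt_cls p)]

lemma c_nonneg (f : Om d → ℝ) (p : Finset (Fin n)) : 0 ≤ c f p p := by
  unfold c LSw.ip
  exact sum_nonneg fun x _ => mul_self_nonneg _

lemma ip_sum_right (f : Om d → ℝ) {ι : Type*} (s : Finset ι) (g : ι → Om d → ℝ) :
    LSw.ip f (fun x => ∑ i ∈ s, g i x) = ∑ i ∈ s, LSw.ip f (g i) := by
  unfold LSw.ip
  rw [sum_comm]
  exact sum_congr rfl fun x _ => by rw [mul_sum]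

lemma ip_sum_left (f : Om d → ℝ) {ι : Type*} (s : Finset ι) (g : ι → Om d → ℝ) :
    LSw.ip (fun x => ∑ i ∈ s, g i x) f = ∑ i ∈ s, LSw.ip (g i) f := by
  unfold LSw.ip
  rw [sum_comm]
  exact sum_congr rfl fun x _ => by rw [sum_mul]

lemma ip_L (f : Om d → ℝ) : LSw.ip f (LSw.L f) = ∑ p ∈ prs n, c f p p := by
  have : LSw.L f = fun x => ∑ p ∈ prs n, D p f x := rfl
  rw [this, ip_sum_right]
  exact sum_congr rfl fun p _ => ip_D f p

lemma ip_LL (f : Om d → ℝ) : LSw.ip (LSw.L f) (LSw.L f) = ∑ p ∈ prs n, ∑ q ∈ prs n, c f p q := by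
  have : LSw.L f = fun x => ∑ p ∈ prs n, D p f x := rfl
  rw [this, ip_sum_left]
  refine sum_congr rfl fun p _ => ?_
  rw [ip_sum_right]
  rfl

lemma ip_LT (T : Finset (Fin n)) (f : Om d → ℝ) :
    LSw.ip f (LT T f) = ∑ p ∈ T.powersetCard 2, c f p p := by
  have : LT T f = fun x => ∑ p ∈ T.powersetCard 2, D p f x := rfl
  rw [this, ip_sum_right]
  exact sum_congr rfl fun p _ => ip_D f p

lemma ip_LTLT (T : Finset (Fin n)) (f : Om d → ℝ) :
    LSw.ip (LT T f) (LT T f) = ∑ p ∈ T.powersetCard 2, ∑ q ∈ T.powersetCard 2, c f p q := by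
  have : LT T f = fun x => ∑ p ∈ T.powersetCard 2, D p f x := rfl
  rw [this, ip_sum_left]
  refine sum_congr rfl fun p _ => ?_
  rw [ip_sum_right]
  rfl

/-- intersecting pairs -/
lemma meet_nonneg (hT : Triple) (f : Om d → ℝ) :
    0 ≤ ∑ p ∈ prs n, ∑ q ∈ prs n, if (p ≠ q ∧ ¬ Disjoint p q) then c f p q else 0 := by
  classical
  have h1 : ∀ T ∈ (univ : Finset (Fin n)).powersetCard 3,
      0 ≤ ∑ p ∈ prs n, ∑ q ∈ prs n, if (p ≠ q ∧ p ⊆ T ∧ q ⊆ T) then c f p q else 0 := by
    intro T hTm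
    have hT3 : T.card = 3 := (mem_powersetCard.1 hTm).2
    have h := hT T hT3 f
    rw [ip_LT, ip_LTLT] at h
    have e1 : ∑ p ∈ T.powersetCard 2, ∑ q ∈ T.powersetCard 2, c f p q =
        ∑ p ∈ T.powersetCard 2, c f p p +
        ∑ p ∈ T.powersetCard 2, ∑ q ∈ T.powersetCard 2, if p ≠ q then c f p q else 0 := by
      rw [← sum_add_distrib]
      refine sum_congr rfl fun p hp => ?_
      have : ∀ q ∈ T.powersetCard 2, c f p q = (if p = q then c f p q else 0) +
          (if p ≠ q then c f p q else 0) := by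
        intro q _
        by_cases h : p = q <;> simp [h]
      rw [sum_congr rfl this, sum_add_distrib, sum_ite_eq, if_pos hp]
    have hsub : T.powersetCard 2 = (prs n).filter fun p => p ⊆ T := by
      ext p
      rw [mem_filter, mem_prs, mem_powersetCard, and_comm]
    have e2 : ∑ p ∈ T.powersetCard 2, (∑ q ∈ T.powersetCard 2, if p ≠ q then c f p q else 0) =
        ∑ p ∈ prs n, ∑ q ∈ prs n, if (p ≠ q ∧ p ⊆ T ∧ q ⊆ T) then c f p q else 0 := by
      rw [hsub, sum_filter]
      refine sum_congr rfl fun p _ => ?_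
      rw [sum_filter]
      by_cases hp : p ⊆ T
      · rw [if_pos hp]
        refine sum_congr rfl fun q _ => ?_
        by_cases hq : q ⊆ T <;> by_cases hpq : p ≠ q <;> simp [hp, hq, hpq]
      · rw [if_neg hp]
        symm
        apply sum_eq_zero
        intro q _
        simp [hp]
    rw [← e2]
    linarith
  have h2 := sum_nonneg h1
  rw [sum_comm] at h2
  refine le_of_le_of_eq h2 (sum_congr rfl fun p hp => ?_)
  rw [sum_comm]
  refine sum_congr rfl fun q hq => ?_
  rw [mem_prs] at hp hq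
  by_cases hpq : p = q
  · simp [hpq]
  have hcard : (p ∪ q).card + (p ∩ q).card = 4 := by
    rw [card_union_add_card_inter, hp, hq]
  have hlt : (p ∩ q).card < 2 := by
    by_contra hcon
    push Not at hcon
    have h3 : p ∩ q = p := eq_of_subset_of_card_le inter_subset_left (by omega)
    have h4 : p ∩ q = q := eq_of_subset_of_card_le inter_subset_right (by omega)
    exact hpq (h3.symm.trans h4)
  by_cases hdj : Disjoint p q
  · rw [if_neg (by tauto)]
    apply sum_eq_zero
    intro T hTm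
    have hT3 : T.card = 3 := (mem_powersetCard.1 hTm).2
    rw [if_neg]
    rintro ⟨-, h3, h4⟩
    have h5 := card_le_card (union_subset h3 h4)
    have h6 : (p ∩ q).card = 0 := by rw [disjoint_iff_inter_eq_empty.1 hdj, card_empty]
    omega
  · rw [if_pos ⟨hpq, hdj⟩]
    have h6 : (p ∩ q).card ≠ 0 := by
      rw [Ne, card_eq_zero, ← disjoint_iff_inter_eq_empty]; exact hdj
    rw [sum_eq_single (p ∪ q)]
    · rw [if_pos ⟨hpq, subset_union_left, subset_union_right⟩]
    · intro T hTm hne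
      have hT3 : T.card = 3 := (mem_powersetCard.1 hTm).2
      rw [if_neg]
      rintro ⟨-, h3, h4⟩
      apply hne
      exact (eq_of_subset_of_card_le (union_subset h3 h4) (by omega)).symm
    · intro h
      exact absurd (mem_powersetCard.2 ⟨subset_univ _, by omega⟩) h

/-- disjoint pairs -/
lemma disj_nonneg (hP : Pair) (hJ : JohnsonN) (f : Om d → ℝ) :
    0 ≤ ∑ p ∈ prs n, ∑ q ∈ prs n, if Disjoint p q then c f p q else 0 := by
  have h1 : ∀ p ∈ prs n, ∀ q ∈ prs n, (if Disjoint p q then (en p q f / 4 - N p q f / 2 -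
      N q p f / 2) else 0) ≤ if Disjoint p q then c f p q else 0 := by
    intro p hp q hq
    split_ifs with h
    · exact hP p q hp (mem_filter.2 ⟨hq, h⟩) f
    · exact le_refl _
  refine le_trans ?_ (sum_le_sum fun p hp => sum_le_sum fun q hq => h1 p hp q hq)
  have h2 : ∑ p ∈ prs n, ∑ q ∈ prs n, (if Disjoint p q then (en p q f / 4 - N p q f / 2 -
      N q p f / 2) else 0) = ∑ p ∈ prs n, ∑ q ∈ prs n, (if Disjoint p q then en p q f / 4 else 0) -
      (∑ p ∈ prs n, ∑ q ∈ prs n, (if Disjoint p q then N p q f / 2 else 0)) -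
      ∑ p ∈ prs n, ∑ q ∈ prs n, (if Disjoint p q then N q p f / 2 else 0) := by
    rw [← sum_sub_distrib, ← sum_sub_distrib]
    refine sum_congr rfl fun p _ => ?_
    rw [← sum_sub_distrib, ← sum_sub_distrib]
    refine sum_congr rfl fun q _ => ?_
    split_ifs <;> simp
  have h3 : ∑ p ∈ prs n, ∑ q ∈ prs n, (if Disjoint p q then N q p f / 2 else 0) =
      ∑ p ∈ prs n, ∑ q ∈ prs n, (if Disjoint p q then N p q f / 2 else 0) := by
    rw [sum_comm]
    refine sum_congr rfl fun p _ => sum_congr rfl fun q _ => ?_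
    simp only [disjoint_comm]
  rw [h2, h3, sub_sub, ← sum_add_distrib, sub_nonneg]
  refine sum_le_sum fun p hp => ?_
  have h4 := hJ p hp f
  rw [dj, sum_filter, sum_filter, sum_div] at h4
  rw [← sum_add_distrib]
  refine le_trans (le_of_eq ?_) (le_trans h4 (le_of_eq ?_))
  · refine sum_congr rfl fun q _ => ?_
    split_ifs <;> ring
  · refine sum_congr rfl fun q _ => ?_
    split_ifs <;> ring

lemma L_sq (hT : Triple) (hP : Pair) (hJ : JohnsonN) (f : Om d → ℝ) :
    LSw.ip f (LSw.L f) ≤ LSw.ip (LSw.L f) (LSw.L f) := by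
  rw [ip_L, ip_LL]
  have h1 : ∑ p ∈ prs n, ∑ q ∈ prs n, c f p q = ∑ p ∈ prs n, c f p p +
      ∑ p ∈ prs n, (∑ q ∈ prs n, if (p ≠ q ∧ ¬ Disjoint p q) then c f p q else 0) +
      ∑ p ∈ prs n, ∑ q ∈ prs n, if Disjoint p q then c f p q else 0 := by
    rw [← sum_add_distrib, ← sum_add_distrib]
    refine sum_congr rfl fun p hp => ?_
    have h2 : ∀ q ∈ prs n, c f p q = (if p = q then c f p q else 0) +
        (if (p ≠ q ∧ ¬ Disjoint p q) then c f p q else 0) + (if Disjoint p q then c f p q else 0) := by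
      intro q hq
      by_cases h : p = q
      · subst h
        have : ¬ Disjoint p p := by
          intro h0
          rw [disjoint_self_iff_empty] at h0
          rw [mem_prs, h0] at hp
          simp at hp
        rw [if_pos rfl, if_neg (by tauto), if_neg this]
        ring
      · by_cases h' : Disjoint p q <;> simp [h, h']
    rw [sum_congr rfl h2, sum_add_distrib, sum_add_distrib, sum_ite_eq, if_pos hp]
  rw [h1]
  have h3 := meet_nonneg hT f
  have h4 := disj_nonneg hP hJ f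
  linarith

/-- `L` as a linear map -/
noncomputable def LL : (Om d → ℝ) →ₗ[ℝ] (Om d → ℝ) :=
  ∑ p ∈ prs n, (LinearMap.id - A (cls p))

lemma LL_apply (f : Om d → ℝ) : LL f = LSw.L f := by
  funext x
  simp [LL, LSw.L, LinearMap.sum_apply, D_eq]

lemma LL_symm (f g : Om d → ℝ) : ∑ x, LL f x * g x = ∑ x, f x * LL g x := by
  rw [LL_apply, LL_apply]
  show LSw.ip (LSw.L f) g = LSw.ip f (LSw.L g)
  have h1 : LSw.L f = fun x => ∑ p ∈ prs n, D p f x := rfl
  have h2 : LSw.L g = fun x => ∑ p ∈ prs n, D p g x := rfl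
  rw [h1, h2, ip_sum_left, ip_sum_right]
  refine sum_congr rfl fun p _ => ?_
  rw [D_eq, D_eq, ip_eq, ip_eq, LSwPart.ip_sub_left, LSwPart.ip_sub_right, A_symm (prt_cls p)]

lemma L_const (f : Om d → ℝ) (hf : ∀ x y, f x = f y) : LSw.L f = 0 := by
  funext x
  show ∑ p ∈ prs n, D p f x = 0
  refine sum_eq_zero fun p _ => ?_
  rw [D_eq, Pi.sub_apply, A_of_const (prt_cls p) (fun y _ => hf y x), sub_self]

lemma poinc0 (hT : Triple) (hP : Pair) (hJ : JohnsonN) (hC : Conn) (f : Om d → ℝ)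
    (hf : ∑ x, f x = 0) : ∑ x, f x * f x ≤ LSw.ip f (LSw.L f) := by
  have h := spectral2 LL (LL_symm (d := d)) ?_ f hf
  · rw [LL_apply] at h; exact h
  intro μ g hg hne
  rw [LL_apply] at hg
  have h1 := L_sq hT hP hJ g
  have e1 : LSw.ip g (LSw.L g) = μ * LSw.ip g g := by
    rw [hg]; unfold LSw.ip
    rw [mul_sum]
    exact sum_congr rfl fun x _ => by simp only [Pi.smul_apply, smul_eq_mul]; ring
  have e2 : LSw.ip (LSw.L g) (LSw.L g) = μ ^ 2 * LSw.ip g g := by
    rw [hg]; unfold LSw.ip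
    rw [mul_sum]
    exact sum_congr rfl fun x _ => by simp only [Pi.smul_apply, smul_eq_mul]; ring
  have hpos : 0 < LSw.ip g g := by
    obtain ⟨x, hx⟩ : ∃ x, g x ≠ 0 := by
      by_contra hcon
      push Not at hcon
      exact hne (funext hcon)
    unfold LSw.ip
    exact sum_pos' (fun y _ => mul_self_nonneg _) ⟨x, mem_univ _, mul_self_pos.2 hx⟩
  have h0 : 0 ≤ μ := by
    have := sum_nonneg (fun p (_ : p ∈ prs n) => c_nonneg g p)
    rw [← ip_L, e1] at this
    by_contra hcon
    push Not at hcon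
    nlinarith
  rw [e1, e2] at h1
  have h2 : μ ≤ μ ^ 2 := le_of_mul_le_mul_right h1 hpos
  rcases h0.eq_or_lt with h3 | h3
  · right
    refine ⟨h3.symm, ?_⟩
    have h4 : ∑ p ∈ prs n, c g p p = 0 := by
      rw [← ip_L, e1, ← h3, zero_mul]
    apply hC g
    intro p hp
    have h5 : c g p p = 0 := (sum_eq_zero_iff_of_nonneg fun p _ => c_nonneg g p).1 h4 p hp
    have h6 : ∀ x, D p g x = 0 := by
      intro x
      unfold c LSw.ip at h5
      have := (sum_eq_zero_iff_of_nonneg fun x _ => mul_self_nonneg (D p g x)).1 h5 x (mem_univ _)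
      exact mul_self_eq_zero.1 this
    intro x y hy
    have a1 := h6 x
    have a2 := h6 y
    rw [D_eq, Pi.sub_apply] at a1 a2
    rw [A_inv (prt_cls p) g hy] at a2
    linarith
  · left
    nlinarith

theorem main (hT : Triple) (hP : Pair) (hJ : JohnsonN) (hC : Conn) : Poinc := by
  intro n d f
  rcases isEmpty_or_nonempty (Om d) with hE | hNE
  · simp
  have hN : (0:ℝ) < (Fintype.card (Om d) : ℝ) := by exact_mod_cast Fintype.card_pos
  set K : ℝ := (Fintype.card (Om d) : ℝ) with hK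
  set m : ℝ := (∑ x, f x) / K with hm
  have hmK : m * K = ∑ x, f x := by rw [hm]; field_simp
  set g : Om d → ℝ := fun x => f x - m with hg
  have hsum : ∑ x, g x = 0 := by
    simp only [hg, sum_sub_distrib, sum_const, card_univ, nsmul_eq_mul]
    rw [← hK, mul_comm, hmK, sub_self]
  have h1 := poinc0 hT hP hJ hC g hsum
  have hLg : LSw.L g = LSw.L f := by
    have : g = f - (fun _ => m) := rfl
    rw [this, ← LL_apply, map_sub, LL_apply, LL_apply, L_const (fun _ : Om d => m) (fun _ _ => rfl),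
      sub_zero]
  have hsumL : ∑ x, LSw.L f x = 0 := by
    have h := LL_symm f (fun _ : Om d => (1:ℝ))
    rw [LL_apply, LL_apply, L_const (fun _ : Om d => (1:ℝ)) (fun _ _ => rfl)] at h
    simpa using h
  have e1 : LSw.ip g (LSw.L g) = LSw.ip f (LSw.L f) := by
    rw [hLg]
    unfold LSw.ip
    have : ∀ x, g x * LSw.L f x = f x * LSw.L f x - m * LSw.L f x := fun x => by
      simp only [hg]; ring
    simp only [this]
    rw [sum_sub_distrib, ← mul_sum, hsumL, mul_zero, sub_zero]
  have e2 : ∑ x, g x * g x = ∑ x, f x ^ 2 - K * m ^ 2 := by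
    have : ∀ x, g x * g x = f x ^ 2 - 2 * m * f x + m ^ 2 := fun x => by simp only [hg]; ring
    simp only [this]
    rw [sum_add_distrib, sum_sub_distrib, ← mul_sum, ← hmK, sum_const, card_univ, nsmul_eq_mul, ← hK]
    ring
  rw [e1, e2] at h1
  have h2 := mul_le_mul_of_nonneg_left h1 hN.le
  have e3 : K * (∑ x, f x ^ 2 - K * m ^ 2) = K * ∑ x, f x ^ 2 - (∑ x, f x) ^ 2 := by
    rw [← hmK]; ring
  rw [e3] at h2
  exact h2

end Crest.Agent.LSwPoinc
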