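import Crest.Agent.LSwDefs

set_option autoImplicit false
open Finset

/-!
Specification of the modules for S0453 (rid 299).  Each `def ... : Prop` is the statement of a module;
prove it as a theorem `Crest.Agent.LSw<Name>.main : LSw.<Name>` in your own file.
All statements were checked numerically for n ≤ 6 (all degree vectors with ≤ 31 realizations).
-/

namespace Crest.Agent.LSw

/-- (T) three-vertex blocks: `L_T² ≥ L_T` -/
def Triple : Prop := ∀ {n : ℕ} {d : Fin n → ℕ} (T : Finset (Fin n)), T.card = 3 →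
  ∀ f : Om d → ℝ, ip f (LT T f) ≤ ip (LT T f) (LT T f)

/-- (P) disjoint pairs -/
def Pair : Prop := ∀ {n : ℕ} {d : Fin n → ℕ} (p q : Finset (Fin n)), p ∈ prs n → q ∈ dj p →
  ∀ f : Om d → ℝ, en p q f / 4 - N p q f / 2 - N q p f / 2 ≤ ip (D p f) (D q f)

/-- (JN) Johnson inequality -/
def JohnsonN : Prop := ∀ {n : ℕ} {d : Fin n → ℕ} (p : Finset (Fin n)), p ∈ prs n →
  ∀ f : Om d → ℝ, ∑ q ∈ dj p, N p q f ≤ (∑ q ∈ dj p, en p q f) / 4

/-- (JP) Johnson Poincare inequality -/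
def JohnsonP : Prop := ∀ {n : ℕ} {d : Fin n → ℕ} (p : Finset (Fin n)), p ∈ prs n →
  ∀ f : Om d → ℝ, ip f (D p f) ≤ (∑ q ∈ dj p, en p q f) / 4

/-- (C) connectivity -/
def Conn : Prop := ∀ {n : ℕ} {d : Fin n → ℕ} (f : Om d → ℝ),
  (∀ p ∈ prs n, ∀ x, ∀ y ∈ cls p x, f x = f y) → ∀ x y, f x = f y

/-- (A) assembly: the Poincare inequality for `L` -/
def Poinc : Prop := ∀ {n : ℕ} {d : Fin n → ℕ} (f : Om d → ℝ),
  (Fintype.card (Om d) : ℝ) * ∑ x, f x ^ 2 - (∑ x, f x) ^ 2 ≤ (Fintype.card (Om d) : ℝ) * ip f (L f)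

/-- (B) the pure Johnson inequality behind (JN): `g` on the `x`-subsets of `T`, `∑ g = 0` -/
def JohnsonPure : Prop := ∀ {α : Type} [DecidableEq α] (T : Finset α) (x : ℕ) (g : Finset α → ℝ),
  1 ≤ x → x + 1 ≤ T.card → (∑ X ∈ T.powersetCard x, g X = 0) →
  ∑ c ∈ T, ∑ e ∈ T.erase c,
      (∑ X ∈ (T.powersetCard x).filter (fun X => ¬ (c ∈ X ↔ e ∈ X)), g X) ^ 2 ≤
    ((T.card - 2).choose (x - 1) : ℝ) * ∑ c ∈ T, ∑ e ∈ T.erase c,
      ∑ X ∈ (T.powersetCard x).filter (fun X => c ∈ X ∧ e ∉ X), (g X - g (insert e (X.erase c))) ^ 2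

end Crest.Agent.LSw
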