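import Mathlib

set_option autoImplicit false
set_option linter.unusedSectionVars false
open Finset

/-!
Three-row 0/1 tables with fixed margins: the sum of the three conditional expectations given one row
has no eigenvalue `> 2` except on constants (used for S0453).
-/

namespace Crest.Agent.LSwTab

variable {J : Type*} [Fintype J] [DecidableEq J]

/-- the tables with row sums `r` and column sums `s` -/
def V (r : Fin 3 → ℕ) (s : J → ℕ) : Finset (Fin 3 → J → Bool) :=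
  univ.filter fun Z => (∀ i, ∑ u, (Z i u).toNat = r i) ∧ ∀ u, ∑ i, (Z i u).toNat = s u

variable {r : Fin 3 → ℕ} {s : J → ℕ}

lemma mem_V {Z : Fin 3 → J → Bool} : Z ∈ V r s ↔
    (∀ i, ∑ u, (Z i u).toNat = r i) ∧ ∀ u, ∑ i, (Z i u).toNat = s u := by
  simp [V]

lemma sum3 {M : Type*} [AddCommMonoid M] {i l k : Fin 3} (hil : i ≠ l) (hik : i ≠ k)
    (hlk : l ≠ k) (g : Fin 3 → M) : ∑ a, g a = g i + g l + g k := by
  have : (univ : Finset (Fin 3)) = {i, l, k} := by
    revert i l k; decide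
  rw [this, sum_insert (by simp [hil, hik]), sum_insert (by simp [hlk]), sum_singleton, add_assoc]

lemma col {Z : Fin 3 → J → Bool} (hZ : Z ∈ V r s) {i l k : Fin 3} (hil : i ≠ l) (hik : i ≠ k)
    (hlk : l ≠ k) (u : J) : (Z i u).toNat + (Z l u).toNat + (Z k u).toNat = s u := by
  rw [← (mem_V.1 hZ).2 u, sum3 hil hik hlk]

/-- tables of `W` with the same row `i` as `Z` -/
def cl (W : Finset (Fin 3 → J → Bool)) (i : Fin 3) (Z : Fin 3 → J → Bool) :
    Finset (Fin 3 → J → Bool) := W.filter fun Y => Y i = Z i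

/-- average over the tables with the same row `i` -/
noncomputable def av (W : Finset (Fin 3 → J → Bool)) (f : (Fin 3 → J → Bool) → ℝ) (i : Fin 3)
    (Z : Fin 3 → J → Bool) : ℝ := (∑ Y ∈ cl W i Z, f Y) / ((cl W i Z).card : ℝ)

lemma mem_cl {W : Finset (Fin 3 → J → Bool)} {i : Fin 3} {Z Y : Fin 3 → J → Bool} :
    Y ∈ cl W i Z ↔ Y ∈ W ∧ Y i = Z i := by simp [cl]

lemma cl_congr (W : Finset (Fin 3 → J → Bool)) {i : Fin 3} {Z Y : Fin 3 → J → Bool}
    (h : Y i = Z i) : cl W i Y = cl W i Z := by simp [cl, h]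

lemma av_congr (W : Finset (Fin 3 → J → Bool)) (f : (Fin 3 → J → Bool) → ℝ) {i : Fin 3}
    {Z Y : Fin 3 → J → Bool} (h : Y i = Z i) : av W f i Y = av W f i Z := by
  simp [av, cl_congr W h]

lemma sum_av (W : Finset (Fin 3 → J → Bool)) (f g : (Fin 3 → J → Bool) → ℝ) (i : Fin 3)
    (hg : ∀ Z ∈ W, ∀ Y ∈ W, Y i = Z i → g Y = g Z) :
    ∑ Z ∈ W, g Z * av W f i Z = ∑ Z ∈ W, g Z * f Z := by
  have h1 : ∀ Z ∈ W, g Z * av W f i Z =
      ∑ Y ∈ W, if Y i = Z i then g Y * f Y / ((cl W i Y).card : ℝ) else 0 := by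
    intro Z hZ
    rw [← sum_filter, av, mul_div_assoc', mul_sum, sum_div]
    refine sum_congr rfl fun Y hY => ?_
    rw [mem_filter] at hY
    rw [cl_congr W hY.2, hg Z hZ Y hY.1 hY.2]
  rw [sum_congr rfl h1, sum_comm]
  refine sum_congr rfl fun Y hY => ?_
  rw [← sum_filter]
  have h2 : (W.filter fun Z => Y i = Z i) = cl W i Y := by
    ext Z; simp [cl, eq_comm]
  rw [h2, sum_const, nsmul_eq_mul]
  have h3 : ((cl W i Y).card : ℝ) ≠ 0 := by
    have : Y ∈ cl W i Y := mem_cl.2 ⟨hY, rfl⟩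
    exact_mod_cast (card_pos.2 ⟨Y, this⟩).ne'
  field_simp

/-- the equations satisfied by `φ_i = E[f | row i]` for an eigenfunction `f` -/
structure Sys (W : Finset (Fin 3 → J → Bool)) (C : ℝ) (φ : Fin 3 → (Fin 3 → J → Bool) → ℝ) :
    Prop where
  row : ∀ i, ∀ Z ∈ W, ∀ Y ∈ W, Y i = Z i → φ i Y = φ i Z
  eq : ∀ i l k : Fin 3, i ≠ l → i ≠ k → l ≠ k → ∀ g : (Fin 3 → J → Bool) → ℝ,
    (∀ Z ∈ W, ∀ Y ∈ W, Y i = Z i → g Y = g Z) →
    ∑ Z ∈ W, g Z * (φ l Z + φ k Z) = (C - 1) * ∑ Z ∈ W, g Z * φ i Z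

lemma Sys.neg {W : Finset (Fin 3 → J → Bool)} {C : ℝ} {φ : Fin 3 → (Fin 3 → J → Bool) → ℝ}
    (h : Sys W C φ) : Sys W C (fun i Z => - φ i Z) := by
  refine ⟨fun i Z hZ Y hY hYZ => by simp [h.row i Z hZ Y hY hYZ], ?_⟩
  intro i l k hil hik hlk g hg
  have := h.eq i l k hil hik hlk g hg
  have e1 : ∀ Z, g Z * (- φ l Z + - φ k Z) = - (g Z * (φ l Z + φ k Z)) := fun Z => by ring
  have e2 : ∀ Z, g Z * - φ i Z = - (g Z * φ i Z) := fun Z => by ring
  simp only [e1, e2, sum_neg_distrib, this]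
  ring

lemma sys_of_eigen (W : Finset (Fin 3 → J → Bool)) (C : ℝ) (f : (Fin 3 → J → Bool) → ℝ)
    (h : ∀ Z ∈ W, ∑ i, av W f i Z = C * f Z) : Sys W C (av W f) := by
  refine ⟨fun i Z _ Y _ hYZ => av_congr W f hYZ, ?_⟩
  intro i l k hil hik hlk g hg
  have h1 := sum_av W f g i hg
  have h2 : ∑ Z ∈ W, g Z * (av W f i Z + av W f l Z + av W f k Z) = C * ∑ Z ∈ W, g Z * f Z := by
    rw [mul_sum]
    refine sum_congr rfl fun Z hZ => ?_
    rw [← sum3 hil hik hlk (fun a => av W f a Z), h Z hZ]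
    ring
  have h3 : ∑ Z ∈ W, g Z * (av W f i Z + av W f l Z + av W f k Z) =
      ∑ Z ∈ W, g Z * av W f i Z + ∑ Z ∈ W, g Z * (av W f l Z + av W f k Z) := by
    rw [← sum_add_distrib]
    refine sum_congr rfl fun Z _ => ?_
    ring
  rw [h3, ← h1] at h2
  linarith

lemma Sys.cls {W : Finset (Fin 3 → J → Bool)} {C : ℝ} {φ : Fin 3 → (Fin 3 → J → Bool) → ℝ}
    (h : Sys W C φ) {i l k : Fin 3} (hil : i ≠ l) (hik : i ≠ k) (hlk : l ≠ k)
    {Z : Fin 3 → J → Bool} (hZ : Z ∈ W) :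
    ∑ Y ∈ cl W i Z, (φ l Y + φ k Y) = (C - 1) * (((cl W i Z).card : ℝ) * φ i Z) := by
  have h1 := h.eq i l k hil hik hlk (fun Y => if Y i = Z i then 1 else 0) (by
    intro A _ B _ hBA
    simp [hBA])
  simp only [ite_mul, one_mul, zero_mul, ← sum_filter] at h1
  have h2 : ∑ Y ∈ W with Y i = Z i, φ i Y = ((cl W i Z).card : ℝ) * φ i Z := by
    rw [← nsmul_eq_mul]
    refine sum_eq_card_nsmul ?_
    intro Y hY
    rw [mem_filter] at hY
    exact h.row i Z hZ Y hY.1 hY.2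
  rw [h2] at h1
  exact h1

/-- swapping two columns -/
def sw (u v : J) (Z : Fin 3 → J → Bool) : Fin 3 → J → Bool := fun a w => Z a (Equiv.swap u v w)

lemma sw_sw (u v : J) (Z : Fin 3 → J → Bool) : sw u v (sw u v Z) = Z := by
  funext a w; simp [sw]

lemma sw_mem {u v : J} (huv : s u = s v) {Z : Fin 3 → J → Bool} (hZ : Z ∈ V r s) :
    sw u v Z ∈ V r s := by
  rw [mem_V] at *
  refine ⟨fun i => ?_, fun w => ?_⟩
  · rw [← hZ.1 i]
    exact Equiv.sum_comp (Equiv.swap u v) (fun w => (Z i w).toNat)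
  · have : s w = s (Equiv.swap u v w) := by
      by_cases h1 : w = u
      · subst h1; simp [huv]
      · by_cases h2 : w = v
        · subst h2; simp [huv]
        · rw [Equiv.swap_apply_of_ne_of_ne h1 h2]
    rw [this, ← hZ.2]
    rfl

lemma sum_cl_sw {u v : J} (huv : s u = s v) (i : Fin 3) (Z : Fin 3 → J → Bool)
    (F : (Fin 3 → J → Bool) → ℝ) :
    ∑ Y ∈ cl (V r s) i (sw u v Z), F Y = ∑ Y ∈ cl (V r s) i Z, F (sw u v Y) := by
  refine sum_nbij' (sw u v) (sw u v) ?_ ?_ ?_ ?_ ?_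
  · intro Y hY
    rw [mem_cl] at *
    refine ⟨sw_mem huv hY.1, ?_⟩
    funext w
    have := congrFun hY.2 (Equiv.swap u v w)
    simpa [sw] using this
  · intro Y hY
    rw [mem_cl] at *
    refine ⟨sw_mem huv hY.1, ?_⟩
    funext w
    have := congrFun hY.2 (Equiv.swap u v w)
    simpa [sw] using this
  · intro Y _; exact sw_sw u v Y
  · intro Y _; exact sw_sw u v Y
  · intro Y _; rw [sw_sw]

lemma bool1 : ∀ a b c d e f : Bool, a ≠ b →
    a.toNat + c.toNat + e.toNat = b.toNat + d.toNat + f.toNat → c = d ∨ e = f := by decide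

lemma sw_row_eq {u v : J} {Z : Fin 3 → J → Bool} {a : Fin 3} (h : Z a u = Z a v) :
    (sw u v Z) a = Z a := by
  funext w
  by_cases h1 : w = u
  · subst h1; simp [sw, h]
  · by_cases h2 : w = v
    · subst h2; simp [sw, h]
    · simp [sw, Equiv.swap_apply_of_ne_of_ne h1 h2]

lemma others (i : Fin 3) : ∃ l k : Fin 3, i ≠ l ∧ i ≠ k ∧ l ≠ k := by
  revert i; decide

lemma alpha_step {C : ℝ} (hC : 1 < C) {φ : Fin 3 → (Fin 3 → J → Bool) → ℝ}
    (h : Sys (V r s) C φ) {α : ℝ}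
    (hα : ∀ i, ∀ Z ∈ V r s, ∀ u v, s u = s v → |φ i Z - φ i (sw u v Z)| ≤ α)
    (i : Fin 3) (Z : Fin 3 → J → Bool) (hZ : Z ∈ V r s) (u v : J) (huv : s u = s v) :
    (C - 1) * |φ i Z - φ i (sw u v Z)| ≤ α := by
  by_cases hb : Z i u = Z i v
  · have h1 : φ i (sw u v Z) = φ i Z := h.row i Z hZ _ (sw_mem huv hZ) (sw_row_eq hb)
    have h2 := hα i Z hZ u v huv
    rw [h1, sub_self, abs_zero] at *
    simpa using h2
  obtain ⟨l, k, hil, hik, hlk⟩ := others i
  have e1 := h.cls hil hik hlk hZ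
  have e2 := h.cls hil hik hlk (sw_mem huv hZ)
  have hcard : ((cl (V r s) i (sw u v Z)).card : ℝ) = ((cl (V r s) i Z).card : ℝ) := by
    have := sum_cl_sw (r := r) huv i Z (fun _ => (1 : ℝ))
    simpa using this
  rw [sum_cl_sw huv, hcard] at e2
  have hpos : 0 < ((cl (V r s) i Z).card : ℝ) := by
    exact_mod_cast card_pos.2 ⟨Z, mem_cl.2 ⟨hZ, rfl⟩⟩
  have e3 : (C - 1) * (((cl (V r s) i Z).card : ℝ) * (φ i Z - φ i (sw u v Z))) =
      ∑ Y ∈ cl (V r s) i Z,
        ((φ l Y - φ l (sw u v Y)) + (φ k Y - φ k (sw u v Y))) := by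
    have : ∀ Y, (φ l Y - φ l (sw u v Y)) + (φ k Y - φ k (sw u v Y)) =
      (φ l Y + φ k Y) - (φ l (sw u v Y) + φ k (sw u v Y)) := fun Y => by ring
    simp only [this, sum_sub_distrib, e1, e2]
    ring
  have e4 : |∑ Y ∈ cl (V r s) i Z,
        ((φ l Y - φ l (sw u v Y)) + (φ k Y - φ k (sw u v Y)))| ≤
      ((cl (V r s) i Z).card : ℝ) * α := by
    rw [← nsmul_eq_mul]
    refine (abs_sum_le_sum_abs _ _).trans (sum_le_card_nsmul _ _ _ ?_)
    intro Y hY
    rw [mem_cl] at hY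
    have c1 := col hY.1 hil hik hlk u
    have c2 := col hY.1 hil hik hlk v
    rw [huv, ← c2] at c1
    have hne : Y i u ≠ Y i v := by rw [hY.2]; exact hb
    rcases bool1 _ _ _ _ _ _ hne c1 with h3 | h3
    · have h1 : φ l (sw u v Y) = φ l Y := h.row l Y hY.1 _ (sw_mem huv hY.1) (sw_row_eq h3)
      rw [h1, sub_self, zero_add]
      exact hα k Y hY.1 u v huv
    · have h1 : φ k (sw u v Y) = φ k Y := h.row k Y hY.1 _ (sw_mem huv hY.1) (sw_row_eq h3)
      rw [h1, sub_self, add_zero]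
      exact hα l Y hY.1 u v huv
  rw [← e3, abs_mul, abs_mul, abs_of_pos hpos, abs_of_pos (by linarith : 0 < C - 1)] at e4
  have e5 : ((cl (V r s) i Z).card : ℝ) * ((C - 1) * |φ i Z - φ i (sw u v Z)|) ≤
      ((cl (V r s) i Z).card : ℝ) * α := by
    calc _ = (C - 1) * (((cl (V r s) i Z).card : ℝ) * |φ i Z - φ i (sw u v Z)|) := by ring
      _ ≤ _ := e4
  exact le_of_mul_le_mul_left e5 hpos

lemma inv_sw {C : ℝ} (hC : 2 < C) {φ : Fin 3 → (Fin 3 → J → Bool) → ℝ}
    (h : Sys (V r s) C φ) (i : Fin 3) (Z : Fin 3 → J → Bool) (hZ : Z ∈ V r s) (u v : J)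
    (huv : s u = s v) : φ i (sw u v Z) = φ i Z := by
  classical
  let A : Finset (Fin 3 × (Fin 3 → J → Bool) × J × J) :=
    ((univ : Finset (Fin 3)) ×ˢ (V r s) ×ˢ (univ : Finset J) ×ˢ (univ : Finset J)).filter
      (fun x => s x.2.2.1 = s x.2.2.2)
  have memA : ∀ i Z u v, (i, Z, u, v) ∈ A ↔ Z ∈ V r s ∧ s u = s v := by
    intro i Z u v; simp [A]
  obtain ⟨⟨i₀, Z₀, u₀, v₀⟩, hm, hmax⟩ := exists_max_image A
    (fun x => |φ x.1 x.2.1 - φ x.1 (sw x.2.2.1 x.2.2.2 x.2.1)|)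
    ⟨(i, Z, u, v), (memA _ _ _ _).2 ⟨hZ, huv⟩⟩
  rw [memA] at hm
  have h1 : ∀ i, ∀ Z ∈ V r s, ∀ u v, s u = s v → |φ i Z - φ i (sw u v Z)| ≤
      |φ i₀ Z₀ - φ i₀ (sw u₀ v₀ Z₀)| := fun i Z hZ u v huv =>
    hmax (i, Z, u, v) ((memA _ _ _ _).2 ⟨hZ, huv⟩)
  have h2 := alpha_step (by linarith) h h1 i₀ Z₀ hm.1 u₀ v₀ hm.2
  have h3 := h1 i Z hZ u v huv
  have h4 : |φ i₀ Z₀ - φ i₀ (sw u₀ v₀ Z₀)| ≤ 0 := by
    by_contra hcon
    push Not at hcon
    nlinarith
  have h5 : |φ i Z - φ i (sw u v Z)| = 0 := le_antisymm (h3.trans h4) (abs_nonneg _)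
  have h6 := abs_eq_zero.1 h5
  linarith

/-- number of `1`s of row `i` in the columns with sum `1` -/
def m (s : J → ℕ) (i : Fin 3) (Z : Fin 3 → J → Bool) : ℕ :=
  ∑ u, if s u = 1 then (Z i u).toNat else 0

/-- number of `0`s of row `i` in the columns with sum `2` -/
def m' (s : J → ℕ) (i : Fin 3) (Z : Fin 3 → J → Bool) : ℕ :=
  ∑ u, if s u = 2 then (!Z i u).toNat else 0

lemma bool0 : ∀ a b c : Bool, a.toNat + b.toNat + c.toNat = 0 → a = false := by decide
lemma bool3 : ∀ a b c : Bool, a.toNat + b.toNat + c.toNat = 3 → a = true := by decide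
lemma boolle : ∀ a b c : Bool, a.toNat + b.toNat + c.toNat ≤ 3 := by decide
lemma bool11 : ∀ a b c : Bool, a.toNat + b.toNat + c.toNat = 1 → a = true → b = false := by decide
lemma bool22 : ∀ a b c : Bool, a.toNat + b.toNat + c.toNat = 2 → a = false → b = true := by decide

lemma m_congr {i : Fin 3} {Z Y : Fin 3 → J → Bool} (h : Y i = Z i) : m s i Y = m s i Z := by
  simp [m, h]

lemma row_eq (i : Fin 3) {Z : Fin 3 → J → Bool} (hZ : Z ∈ V r s) :
    r i + m' s i Z = m s i Z + ∑ u, ((if s u = 2 then 1 else 0) + (if s u = 3 then 1 else 0)) := by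
  rw [← (mem_V.1 hZ).1 i, m, m', ← sum_add_distrib, ← sum_add_distrib]
  refine sum_congr rfl fun u _ => ?_
  obtain ⟨l, k, hil, hik, hlk⟩ := others i
  have c := col hZ hil hik hlk u
  have hle := boolle (Z i u) (Z l u) (Z k u)
  rw [c] at hle
  have h0 : s u = 0 ∨ s u = 1 ∨ s u = 2 ∨ s u = 3 := by omega
  rcases h0 with h0 | h0 | h0 | h0
  · rw [h0] at c; rw [bool0 _ _ _ c]; simp [h0]
  · simp [h0]
  · cases hb : Z i u <;> simp [h0]
  · rw [h0] at c; rw [bool3 _ _ _ c]; simp [h0]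

lemma m_rel (i : Fin 3) {Z Y : Fin 3 → J → Bool} (hZ : Z ∈ V r s) (hY : Y ∈ V r s) :
    m s i Z + m' s i Y = m s i Y + m' s i Z := by
  have h1 := row_eq i hZ
  have h2 := row_eq i hY
  omega

lemma m_total {i l k : Fin 3} (hil : i ≠ l) (hik : i ≠ k) (hlk : l ≠ k)
    {Z : Fin 3 → J → Bool} (hZ : Z ∈ V r s) :
    m s i Z + m s l Z + m s k Z = ∑ u, if s u = 1 then 1 else 0 := by
  simp only [m]
  rw [← sum_add_distrib, ← sum_add_distrib]
  refine sum_congr rfl fun u _ => ?_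
  have c := col hZ hil hik hlk u
  split_ifs with h
  · rw [c, h]
  · rfl

lemma exists_pair {A B : J → Bool} (p : J → Prop) [DecidablePred p]
    (hs : ∑ w, (if p w then (A w).toNat else 0) = ∑ w, (if p w then (B w).toNat else 0))
    {u : J} (hu : p u) (hA : A u = true) (hB : B u = false) :
    ∃ v, p v ∧ A v = false ∧ B v = true := by
  by_contra hcon
  push Not at hcon
  have : ∑ w, (if p w then (B w).toNat else 0) < ∑ w, (if p w then (A w).toNat else 0) := by
    refine sum_lt_sum (fun w _ => ?_) ⟨u, mem_univ u, by simp [hu, hA, hB]⟩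
    split_ifs with h
    · have := hcon w h
      cases h1 : A w <;> cases h2 : B w <;> simp_all
    · exact le_rfl
  omega

lemma m_sw {u v : J} (huv : s u = s v) (i : Fin 3) (Z : Fin 3 → J → Bool) :
    m s i (sw u v Z) = m s i Z := by
  have hs : ∀ w, s (Equiv.swap u v w) = s w := by
    intro w
    by_cases h1 : w = u
    · subst h1; simp [huv]
    · by_cases h2 : w = v
      · subst h2; simp [huv]
      · rw [Equiv.swap_apply_of_ne_of_ne h1 h2]
  rw [m, m, ← Equiv.sum_comp (Equiv.swap u v) (fun w => if s w = 1 then (Z i w).toNat else 0)]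
  refine sum_congr rfl fun w _ => ?_
  rw [hs]
  rfl

lemma type_sum (i : Fin 3) {Z Y : Fin 3 → J → Bool} (hZ : Z ∈ V r s) (hY : Y ∈ V r s)
    (hm : m s i Z = m s i Y) (t : ℕ) :
    ∑ w, (if s w = t then (Z i w).toNat else 0) = ∑ w, (if s w = t then (Y i w).toNat else 0) := by
  obtain ⟨l, k, hil, hik, hlk⟩ := others i
  have c := fun u => col hZ hil hik hlk u
  have c' := fun u => col hY hil hik hlk u
  have hle := fun u => boolle (Z i u) (Z l u) (Z k u)
  simp only [c] at hle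
  rcases Nat.lt_or_ge 3 t with ht | ht
  · refine sum_congr rfl fun w _ => ?_
    have := hle w
    rw [if_neg (by omega), if_neg (by omega)]
  · have ht' : t = 0 ∨ t = 1 ∨ t = 2 ∨ t = 3 := by omega
    rcases ht' with rfl | rfl | rfl | rfl
    · refine sum_congr rfl fun w _ => ?_
      split_ifs with h
      · have e1 := c w
        have e2 := c' w
        rw [h] at e1 e2
        rw [bool0 _ _ _ e1, bool0 _ _ _ e2]
      · rfl
    · exact hm
    · have e := m_rel i hZ hY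
      have e1 : ∀ (X : Fin 3 → J → Bool),
          (∑ w, (if s w = 2 then (X i w).toNat else 0)) + m' s i X =
            ∑ w, (if s w = 2 then 1 else 0) := by
        intro X
        rw [m', ← sum_add_distrib]
        refine sum_congr rfl fun w _ => ?_
        split_ifs with h
        · cases X i w <;> rfl
        · rfl
      have e2 := e1 Z
      have e3 := e1 Y
      omega
    · refine sum_congr rfl fun w _ => ?_
      split_ifs with h
      · have e1 := c w
        have e2 := c' w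
        rw [h] at e1 e2
        rw [bool3 _ _ _ e1, bool3 _ _ _ e2]
      · rfl

lemma m_dep {φ : Fin 3 → (Fin 3 → J → Bool) → ℝ}
    (hrow : ∀ i, ∀ Z ∈ V r s, ∀ Y ∈ V r s, Y i = Z i → φ i Y = φ i Z)
    (hinv : ∀ i, ∀ Z ∈ V r s, ∀ u v, s u = s v → φ i (sw u v Z) = φ i Z)
    (i : Fin 3) : ∀ (N : ℕ) (Z Y : Fin 3 → J → Bool), Z ∈ V r s → Y ∈ V r s →
      m s i Z = m s i Y → (univ.filter fun u => Z i u ≠ Y i u).card ≤ N → φ i Z = φ i Y := by
  intro N
  induction N with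
  | zero =>
    intro Z Y hZ hY _ hN
    refine hrow i Y hY Z hZ ?_
    funext u
    by_contra hcon
    have : u ∈ univ.filter fun u => Z i u ≠ Y i u := by simp [hcon]
    have := card_pos.2 ⟨u, this⟩
    omega
  | succ N ih =>
    intro Z Y hZ hY hm hN
    by_cases hne : Z i = Y i
    · exact hrow i Y hY Z hZ hne
    obtain ⟨u, hu⟩ : ∃ u, Z i u ≠ Y i u := by
      by_contra hcon
      push Not at hcon
      exact hne (funext hcon)
    obtain ⟨v, hv, hv1, hv2⟩ : ∃ v, s v = s u ∧ Z i v = Y i u ∧ Y i v = Z i u := by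
      cases hb : Z i u
      · have hb' : Y i u = true := by
          rw [hb] at hu; cases h : Y i u <;> simp_all
        obtain ⟨v, hv, h1, h2⟩ := exists_pair (fun w => s w = s u)
          (type_sum i hY hZ hm.symm (s u)) rfl hb' hb
        exact ⟨v, hv, by rw [h2, hb'], by rw [h1]⟩
      · have hb' : Y i u = false := by
          rw [hb] at hu; cases h : Y i u <;> simp_all
        obtain ⟨v, hv, h1, h2⟩ := exists_pair (fun w => s w = s u)
          (type_sum i hZ hY hm (s u)) rfl hb hb'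
        exact ⟨v, hv, by rw [h1, hb'], by rw [h2]⟩
    have huv : u ≠ v := by
      rintro rfl; exact hu hv1
    rw [← hinv i Z hZ u v hv.symm]
    refine ih _ Y (sw_mem hv.symm hZ) hY (by rw [m_sw hv.symm, hm]) ?_
    have hsub : (univ.filter fun w => (sw u v Z) i w ≠ Y i w) ⊆
        (univ.filter fun w => Z i w ≠ Y i w).erase u := by
      intro w hw
      rw [mem_filter] at hw
      rw [mem_erase, mem_filter]
      have hwu : w ≠ u := by
        rintro rfl
        apply hw.2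
        simp [sw, hv1]
      have hwv : w ≠ v := by
        rintro rfl
        apply hw.2
        simp [sw, hv2]
      refine ⟨hwu, mem_univ _, ?_⟩
      have := hw.2
      simpa [sw, Equiv.swap_apply_of_ne_of_ne hwu hwv] using this
    have h1 := card_le_card hsub
    have h2 : u ∈ univ.filter fun w => Z i w ≠ Y i w := by simp [hu]
    have h3 := card_erase_of_mem h2
    omega

/-- exchanging the rows `i` and `l` in the columns `u` and `v` -/
def ex (i l : Fin 3) (u v : J) (Z : Fin 3 → J → Bool) : Fin 3 → J → Bool :=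
  fun a w => if w = u ∨ w = v then Z (Equiv.swap i l a) w else Z a w

lemma ex_ex (i l : Fin 3) (u v : J) (Z : Fin 3 → J → Bool) :
    ex i l u v (ex i l u v Z) = Z := by
  funext a w
  simp only [ex]
  split_ifs with h
  · simp
  · rfl

lemma ex_comm (i l : Fin 3) (u v : J) (Z : Fin 3 → J → Bool) :
    ex i l u v Z = ex l i u v Z := by
  funext a w
  simp only [ex, Equiv.swap_comm]

lemma ex_other {i l k : Fin 3} (hik : i ≠ k) (hlk : l ≠ k) (u v : J) (Z : Fin 3 → J → Bool) :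
    (ex i l u v Z) k = Z k := by
  funext w
  simp only [ex, Equiv.swap_apply_of_ne_of_ne hik.symm hlk.symm, ite_self]

lemma ex_left (i l : Fin 3) (u v : J) (Z : Fin 3 → J → Bool) (w : J) :
    (ex i l u v Z) i w = if w = u ∨ w = v then Z l w else Z i w := by
  simp [ex]

lemma ex_right (i l : Fin 3) (u v : J) (Z : Fin 3 → J → Bool) (w : J) :
    (ex i l u v Z) l w = if w = u ∨ w = v then Z i w else Z l w := by
  simp [ex]

lemma ex_mem {i l : Fin 3} (hil : i ≠ l) {u v : J} {Z : Fin 3 → J → Bool} (hZ : Z ∈ V r s)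
    (h1 : Z i u = false) (h2 : Z i v = true) (h3 : Z l u = true) (h4 : Z l v = false) :
    ex i l u v Z ∈ V r s := by
  have huv : u ≠ v := by rintro rfl; simp_all
  have hZ' := hZ
  rw [mem_V] at hZ' ⊢
  refine ⟨fun a => ?_, fun w => ?_⟩
  · have key : ∀ (b c : J), (∑ w, if w = b then 1 else 0) = (∑ w, if w = c then 1 else 0) := by
      intro b c; simp
    by_cases ha : a = i
    · subst ha
      have : ∑ w, (((ex a l u v Z) a w).toNat + if w = v then 1 else 0) =
          ∑ w, ((Z a w).toNat + if w = u then 1 else 0) := by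
        refine sum_congr rfl fun w _ => ?_
        rw [ex_left]
        by_cases hwu : w = u
        · subst hwu; simp [h1, h3, huv]
        · by_cases hwv : w = v
          · subst hwv; simp [h2, h4, hwu]
          · simp [hwu, hwv]
      rw [sum_add_distrib, sum_add_distrib, key v u] at this
      rw [← hZ'.1 a]
      omega
    by_cases ha' : a = l
    · subst ha'
      have : ∑ w, (((ex i a u v Z) a w).toNat + if w = u then 1 else 0) =
          ∑ w, ((Z a w).toNat + if w = v then 1 else 0) := by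
        refine sum_congr rfl fun w _ => ?_
        rw [ex_right]
        by_cases hwu : w = u
        · subst hwu; simp [h1, h3, huv]
        · by_cases hwv : w = v
          · subst hwv; simp [h2, h4, hwu]
          · simp [hwu, hwv]
      rw [sum_add_distrib, sum_add_distrib, key v u] at this
      rw [← hZ'.1 a]
      omega
    rw [ex_other (Ne.symm ha) (Ne.symm ha')]
    exact hZ'.1 a
  · rw [← hZ'.2 w]
    simp only [ex]
    split_ifs with h
    · exact Equiv.sum_comp (Equiv.swap i l) (fun a => (Z a w).toNat)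
    · rfl

lemma m_ex {i l : Fin 3} {u v : J} {Z : Fin 3 → J → Bool} (hu : s u = 1) (hv : s v = 2)
    (h1 : Z i u = false) (h3 : Z l u = true) :
    m s i (ex i l u v Z) = m s i Z + 1 := by
  have huv : u ≠ v := by rintro rfl; omega
  have : ∑ w, (if s w = 1 then ((ex i l u v Z) i w).toNat else 0) =
      ∑ w, ((if s w = 1 then (Z i w).toNat else 0) + if w = u then 1 else 0) := by
    refine sum_congr rfl fun w _ => ?_
    rw [ex_left]
    by_cases hwu : w = u
    · subst hwu; simp [h1, h3, hu]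
    · by_cases hwv : w = v
      · subst hwv; simp [hv, hwu]
      · simp [hwu, hwv]
  rw [m, this, sum_add_distrib, m]
  simp

lemma col_one {i l k : Fin 3} (hil : i ≠ l) (hik : i ≠ k) (hlk : l ≠ k) {u : J}
    {Z : Fin 3 → J → Bool} (hZ : Z ∈ V r s) (hu : s u = 1) (h : Z l u = true) :
    Z i u = false := by
  have c := col hZ hil.symm hlk hik u
  rw [hu] at c
  exact bool11 _ _ _ c h

lemma col_two {i l k : Fin 3} (hil : i ≠ l) (hik : i ≠ k) (hlk : l ≠ k) {u : J}
    {Z : Fin 3 → J → Bool} (hZ : Z ∈ V r s) (hu : s u = 2) (h : Z l u = false) :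
    Z i u = true := by
  have c := col hZ hil.symm hlk hik u
  rw [hu] at c
  exact bool22 _ _ _ c h

lemma exists_up {i : Fin 3} {Z Y : Fin 3 → J → Bool} (hZ : Z ∈ V r s) (hY : Y ∈ V r s)
    (hm : m s i Z < m s i Y) :
    ∃ l, i ≠ l ∧ ∃ u v, s u = 1 ∧ s v = 2 ∧ Z l u = true ∧ Z l v = false := by
  obtain ⟨l, k, hil, hik, hlk⟩ := others i
  have t1 := m_total hil hik hlk hZ
  have t2 := m_total hil hik hlk hY
  have key : ∀ a : Fin 3, m s a Y < m s a Z →
      ∃ u v, s u = 1 ∧ s v = 2 ∧ Z a u = true ∧ Z a v = false := by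
    intro a ha
    have hr := m_rel a hZ hY
    have p1 : 0 < m s a Z := by omega
    have p2 : 0 < m' s a Z := by omega
    obtain ⟨u, -, hu⟩ := exists_ne_zero_of_sum_ne_zero p1.ne'
    obtain ⟨v, -, hv⟩ := exists_ne_zero_of_sum_ne_zero p2.ne'
    refine ⟨u, v, ?_, ?_, ?_, ?_⟩
    · by_contra h; simp [h] at hu
    · by_contra h; simp [h] at hv
    · cases h : Z a u
      · simp [h] at hu
      · rfl
    · cases h : Z a v
      · rfl
      · simp [h] at hv
  rcases Nat.lt_or_ge (m s l Y) (m s l Z) with h | h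
  · exact ⟨l, hil, key l h⟩
  · exact ⟨k, hik, key k (by omega)⟩

/-- `Y` has in row `i` the row of `Z` with `u` added and `v` removed -/
def Q (i : Fin 3) (u v : J) (Z Y : Fin 3 → J → Bool) : Prop :=
  Y i u = true ∧ Y i v = false ∧ Z i u = false ∧ Z i v = true ∧
    ∀ w, w ≠ u → w ≠ v → Y i w = Z i w

instance (i : Fin 3) (u v : J) (Z : Fin 3 → J → Bool) : DecidablePred (Q i u v Z) := fun Y => by
  unfold Q; infer_instance

lemma sum_ex {i l k : Fin 3} (hil : i ≠ l) (hik : i ≠ k) (hlk : l ≠ k) {u v : J}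
    (hu : s u = 1) (hv : s v = 2) (Z : Fin 3 → J → Bool) (G : (Fin 3 → J → Bool) → ℝ)
    (hG : ∀ W ∈ V r s, ∀ Y ∈ V r s, Y k = W k → G Y = G W) :
    ∑ W ∈ (cl (V r s) i Z).filter (fun W => W l u = true ∧ W l v = false), G W =
      ∑ Y ∈ (V r s).filter (fun Y => Q i u v Z Y), G Y := by
  have huv : u ≠ v := by rintro rfl; omega
  have fwd : ∀ W ∈ (cl (V r s) i Z).filter (fun W => W l u = true ∧ W l v = false),
      ex i l u v W ∈ (V r s).filter (fun Y => Q i u v Z Y) := by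
    intro W hW
    rw [mem_filter, mem_cl] at hW
    obtain ⟨⟨hWV, hWi⟩, h3, h4⟩ := hW
    have h1 := col_one hil hik hlk hWV hu h3
    have h2 := col_two hil hik hlk hWV hv h4
    rw [mem_filter]
    refine ⟨ex_mem hil hWV h1 h2 h3 h4, ?_, ?_, ?_, ?_, ?_⟩
    · rw [ex_left]; simp [h3]
    · rw [ex_left]; simp [h4]
    · rw [← hWi]; exact h1
    · rw [← hWi]; exact h2
    · intro w hwu hwv
      rw [ex_left]; simp [hwu, hwv, hWi]
  have bwd : ∀ Y ∈ (V r s).filter (fun Y => Q i u v Z Y),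
      ex i l u v Y ∈ (cl (V r s) i Z).filter (fun W => W l u = true ∧ W l v = false) := by
    intro Y hY
    rw [mem_filter] at hY
    obtain ⟨hYV, h1, h2, h3, h4, h5⟩ := hY
    have h6 : Y l u = false := col_one hil.symm hlk hik hYV hu h1
    have h7 : Y l v = true := col_two hil.symm hlk hik hYV hv h2
    rw [mem_filter, mem_cl]
    refine ⟨⟨?_, ?_⟩, ?_, ?_⟩
    · rw [ex_comm]; exact ex_mem hil.symm hYV h6 h7 h1 h2
    · funext w
      rw [ex_left]
      by_cases hwu : w = u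
      · subst hwu; simp [h3, h6]
      · by_cases hwv : w = v
        · subst hwv; simp [h4, h7]
        · simp [hwu, hwv, h5 w hwu hwv]
    · rw [ex_right]; simp [h1]
    · rw [ex_right]; simp [h2]
  refine sum_nbij' (ex i l u v) (ex i l u v) fwd bwd ?_ ?_ ?_
  · intro W _; exact ex_ex i l u v W
  · intro W _; exact ex_ex i l u v W
  · intro W hW
    have h1 := fwd W hW
    rw [mem_filter] at h1 hW
    rw [mem_cl] at hW
    exact (hG W hW.1.1 _ h1.1 (ex_other hik hlk u v W)).symm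

/-- the number of pairs `(u,v)` with `Q` -/
noncomputable def q (s : J → ℕ) (i : Fin 3) (Z Y : Fin 3 → J → Bool) : ℝ :=
  ∑ u, ∑ v, if (s u = 1 ∧ s v = 2) ∧ Q i u v Z Y then 1 else 0

lemma mm' (l : Fin 3) (W : Fin 3 → J → Bool) :
    ((m s l W : ℝ) * (m' s l W : ℝ)) =
      ∑ u, ∑ v, if (s u = 1 ∧ s v = 2) ∧ W l u = true ∧ W l v = false then 1 else 0 := by
  rw [m, m', Nat.cast_sum, Nat.cast_sum, sum_mul_sum]
  refine sum_congr rfl fun u _ => sum_congr rfl fun v _ => ?_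
  by_cases h1 : s u = 1 <;> by_cases h2 : s v = 2 <;> cases h3 : W l u <;> cases h4 : W l v <;>
    simp [h1, h2]

lemma sum_w {i l k : Fin 3} (hil : i ≠ l) (hik : i ≠ k) (hlk : l ≠ k)
    (Z : Fin 3 → J → Bool) (G : (Fin 3 → J → Bool) → ℝ)
    (hG : ∀ W ∈ V r s, ∀ Y ∈ V r s, Y k = W k → G Y = G W) :
    ∑ W ∈ cl (V r s) i Z, ((m s l W : ℝ) * (m' s l W : ℝ)) * G W =
      ∑ Y ∈ V r s, q s i Z Y * G Y := by
  have e1 : ∀ W, ((m s l W : ℝ) * (m' s l W : ℝ)) * G W =
      ∑ u, ∑ v, if (s u = 1 ∧ s v = 2) then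
        (if W l u = true ∧ W l v = false then G W else 0) else 0 := by
    intro W
    rw [mm', sum_mul]
    refine sum_congr rfl fun u _ => ?_
    rw [sum_mul]
    refine sum_congr rfl fun v _ => ?_
    split_ifs <;> simp_all
  have e2 : ∀ Y, q s i Z Y * G Y =
      ∑ u, ∑ v, if (s u = 1 ∧ s v = 2) then (if Q i u v Z Y then G Y else 0) else 0 := by
    intro W
    rw [q, sum_mul]
    refine sum_congr rfl fun u _ => ?_
    rw [sum_mul]
    refine sum_congr rfl fun v _ => ?_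
    split_ifs <;> simp_all
  simp only [e1, e2]
  rw [sum_comm, sum_comm (s := V r s)]
  refine sum_congr rfl fun u _ => ?_
  rw [sum_comm, sum_comm (s := V r s)]
  refine sum_congr rfl fun v _ => ?_
  by_cases h : s u = 1 ∧ s v = 2
  · simp only [h, and_self, if_true]
    rw [← sum_filter, ← sum_filter]
    exact sum_ex hil hik hlk h.1 h.2 Z G hG
  · simp [h]

lemma third {i l : Fin 3} (h : i ≠ l) : ∃ k, i ≠ k ∧ l ≠ k := by
  revert i l; decide

lemma m_pos {l : Fin 3} {u : J} {Z : Fin 3 → J → Bool} (hu : s u = 1) (h : Z l u = true) :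
    0 < m s l Z := by
  refine sum_pos' (fun _ _ => Nat.zero_le _) ⟨u, mem_univ u, by simp [hu, h]⟩

lemma m'_pos {l : Fin 3} {u : J} {Z : Fin 3 → J → Bool} (hu : s u = 2) (h : Z l u = false) :
    0 < m' s l Z := by
  refine sum_pos' (fun _ _ => Nat.zero_le _) ⟨u, mem_univ u, by simp [hu, h]⟩

lemma Q_m {i : Fin 3} {u v : J} {Z Y : Fin 3 → J → Bool} (hu : s u = 1) (hv : s v = 2)
    (h : Q i u v Z Y) : m s i Y = m s i Z + 1 := by
  obtain ⟨h1, h2, h3, h4, h5⟩ := h
  have : ∑ w, (if s w = 1 then (Y i w).toNat else 0) =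
      ∑ w, ((if s w = 1 then (Z i w).toNat else 0) + if w = u then 1 else 0) := by
    refine sum_congr rfl fun w _ => ?_
    by_cases hwu : w = u
    · subst hwu; simp [h1, h3, hu]
    · by_cases hwv : w = v
      · subst hwv; simp [hv, hwu]
      · simp [hwu, h5 w hwu hwv]
  rw [m, this, sum_add_distrib, m]
  simp

lemma q_nonneg (i : Fin 3) (Z Y : Fin 3 → J → Bool) : 0 ≤ q s i Z Y := by
  refine sum_nonneg fun u _ => sum_nonneg fun v _ => ?_
  split_ifs <;> norm_num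

lemma q_m {i : Fin 3} {Z Y : Fin 3 → J → Bool} (h : q s i Z Y ≠ 0) :
    m s i Y = m s i Z + 1 := by
  obtain ⟨u, -, hu⟩ := exists_ne_zero_of_sum_ne_zero h
  obtain ⟨v, -, hv⟩ := exists_ne_zero_of_sum_ne_zero hu
  by_cases hc : (s u = 1 ∧ s v = 2) ∧ Q i u v Z Y
  · exact Q_m hc.1.1 hc.1.2 hc.2
  · simp [hc] at hv

lemma q_congr {i : Fin 3} (Z : Fin 3 → J → Bool) {W Y : Fin 3 → J → Bool} (h : Y i = W i) :
    q s i Z Y = q s i Z W := by
  refine sum_congr rfl fun u _ => sum_congr rfl fun v _ => ?_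
  have : Q i u v Z Y ↔ Q i u v Z W := by unfold Q; rw [h]
  simp only [this]

lemma q_sum_pos {i : Fin 3} {Z Y : Fin 3 → J → Bool} (hZ : Z ∈ V r s) (hY : Y ∈ V r s)
    (hm : m s i Z < m s i Y) : 0 < ∑ Y ∈ V r s, q s i Z Y := by
  obtain ⟨l, hil, u, v, hu, hv, h1, h2⟩ := exists_up hZ hY hm
  obtain ⟨k, hik, hlk⟩ := third hil
  have e := sum_w (r := r) (s := s) hil hik hlk Z (fun _ => (1 : ℝ)) (fun _ _ _ _ _ => rfl)
  simp only [mul_one] at e
  rw [← e]
  refine sum_pos' (fun _ _ => by positivity) ⟨Z, mem_cl.2 ⟨hZ, rfl⟩, ?_⟩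
  have p1 := m_pos hu h1
  have p2 := m'_pos hv h2
  positivity

lemma cheb {φ : Fin 3 → (Fin 3 → J → Bool) → ℝ} {β : ℝ}
    (hrow : ∀ i, ∀ Z ∈ V r s, ∀ Y ∈ V r s, Y i = Z i → φ i Y = φ i Z)
    (hL : ∀ i, ∀ Z ∈ V r s, ∀ Y ∈ V r s, m s i Z ≤ m s i Y →
      φ i Y - φ i Z ≤ β * ((m s i Y : ℝ) - m s i Z))
    {i l k : Fin 3} (hil : i ≠ l) (hik : i ≠ k) (hlk : l ≠ k)
    (Z : Fin 3 → J → Bool) :
    ((cl (V r s) i Z).card : ℝ) * ∑ Y ∈ V r s, q s i Z Y * (β * m s k Y - φ k Y) ≤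
      (∑ W ∈ cl (V r s) i Z, (β * m s k W - φ k W)) * ∑ Y ∈ V r s, q s i Z Y := by
  have e1 := sum_w (r := r) (s := s) hil hik hlk Z (fun W => β * m s k W - φ k W) (by
    intro A hA B hB hAB
    show β * (m s k B : ℝ) - φ k B = β * (m s k A : ℝ) - φ k A
    rw [hrow k A hA B hB hAB, m_congr hAB])
  have e2 := sum_w (r := r) (s := s) hil hik hlk Z (fun _ => (1 : ℝ)) (fun _ _ _ _ _ => rfl)
  simp only [mul_one] at e2
  rw [← e1, ← e2]
  have hanti : AntivaryOn (fun W => β * (m s k W : ℝ) - φ k W)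
      (fun W => (m s l W : ℝ) * (m' s l W : ℝ)) (cl (V r s) i Z : Set (Fin 3 → J → Bool)) := by
    intro A hA B hB hAB
    simp only [mem_coe, mem_cl] at hA hB
    simp only at hAB ⊢
    have hlt : m s l A < m s l B := by
      by_contra hcon
      push Not at hcon
      have hr := m_rel l hA.1 hB.1
      have h1 : m' s l B ≤ m' s l A := by omega
      have h2 : m s l B * m' s l B ≤ m s l A * m' s l A := Nat.mul_le_mul hcon h1
      have h3 : ((m s l B : ℝ) * (m' s l B : ℝ)) ≤ ((m s l A : ℝ) * (m' s l A : ℝ)) := by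
        exact_mod_cast h2
      linarith
    have t1 := m_total hil hik hlk hA.1
    have t2 := m_total hil hik hlk hB.1
    have t3 : m s i A = m s i B := by
      rw [m_congr hA.2, m_congr hB.2]
    have h4 := hL k B hB.1 A hA.1 (by omega)
    linarith
  have h5 := hanti.card_mul_sum_le_sum_mul_sum
  calc _ = ((cl (V r s) i Z).card : ℝ) * ∑ W ∈ cl (V r s) i Z,
        (β * (m s k W : ℝ) - φ k W) * ((m s l W : ℝ) * (m' s l W : ℝ)) := by
        congr 1
        exact sum_congr rfl fun W _ => mul_comm _ _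
    _ ≤ _ := h5

lemma beta_step {C : ℝ} {φ : Fin 3 → (Fin 3 → J → Bool) → ℝ}
    (h : Sys (V r s) C φ)
    (hm : ∀ i, ∀ Z ∈ V r s, ∀ Y ∈ V r s, m s i Z = m s i Y → φ i Z = φ i Y) {β : ℝ}
    (hL : ∀ i, ∀ Z ∈ V r s, ∀ Y ∈ V r s, m s i Z ≤ m s i Y →
      φ i Y - φ i Z ≤ β * ((m s i Y : ℝ) - m s i Z))
    {i : Fin 3} {Z Y : Fin 3 → J → Bool} (hZ : Z ∈ V r s) (hY : Y ∈ V r s)
    (hmY : m s i Y = m s i Z + 1) :
    (C - 1) * (φ i Z - φ i Y) ≤ β := by
  obtain ⟨l, k, hil, hik, hlk⟩ := others i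
  have hQ := q_sum_pos (i := i) hZ hY (by omega)
  have hc : 0 < ((cl (V r s) i Z).card : ℝ) := by
    exact_mod_cast card_pos.2 ⟨Z, mem_cl.2 ⟨hZ, rfl⟩⟩
  have c1 := cheb h.row hL hil hik hlk Z
  have c2 := cheb h.row hL hik hil hlk.symm Z
  set Qs := ∑ Y ∈ V r s, q s i Z Y with hQs
  set c := ((cl (V r s) i Z).card : ℝ) with hcdef
  -- the q side
  have t1 := m_total hil hik hlk hZ
  have f1 : ∑ Y ∈ V r s, q s i Z Y * (β * m s k Y - φ k Y) +
      ∑ Y ∈ V r s, q s i Z Y * (β * m s l Y - φ l Y) =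
      (β * ((m s l Z : ℝ) + m s k Z - 1) - (C - 1) * φ i Y) * Qs := by
    have g1 : ∑ Y ∈ V r s, q s i Z Y * (β * m s k Y - φ k Y) +
      ∑ Y ∈ V r s, q s i Z Y * (β * m s l Y - φ l Y) =
      ∑ W ∈ V r s, q s i Z W * (β * ((m s l W : ℝ) + m s k W)) -
        ∑ W ∈ V r s, q s i Z W * (φ l W + φ k W) := by
      rw [← sum_add_distrib, ← sum_sub_distrib]
      refine sum_congr rfl fun W _ => ?_
      ring
    rw [g1, h.eq i l k hil hik hlk (q s i Z) (fun A _ B _ hAB => q_congr Z hAB)]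
    have g2 : ∑ W ∈ V r s, q s i Z W * (β * ((m s l W : ℝ) + m s k W)) =
        β * ((m s l Z : ℝ) + m s k Z - 1) * Qs := by
      rw [hQs, mul_sum]
      refine sum_congr rfl fun W hW => ?_
      by_cases hq : q s i Z W = 0
      · simp [hq]
      · have t2 := m_total hil hik hlk hW
        have t3 := q_m hq
        have t4 : m s l W + m s k W + 1 = m s l Z + m s k Z := by omega
        have t5 : (m s l W : ℝ) + m s k W + 1 = m s l Z + m s k Z := by exact_mod_cast t4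
        have t6 : (m s l W : ℝ) + m s k W = m s l Z + m s k Z - 1 := by linarith
        rw [t6]; ring
    have g3 : ∑ W ∈ V r s, q s i Z W * φ i W = φ i Y * Qs := by
      rw [hQs, mul_sum]
      refine sum_congr rfl fun W hW => ?_
      by_cases hq : q s i Z W = 0
      · simp [hq]
      · have t3 := q_m hq
        rw [hm i W hW Y hY (by omega)]
        ring
    rw [g2, g3]; ring
  have f2 : ∑ W ∈ cl (V r s) i Z, (β * m s k W - φ k W) +
      ∑ W ∈ cl (V r s) i Z, (β * m s l W - φ l W) =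
      c * (β * ((m s l Z : ℝ) + m s k Z) - (C - 1) * φ i Z) := by
    have g1 : ∑ W ∈ cl (V r s) i Z, (β * m s k W - φ k W) +
      ∑ W ∈ cl (V r s) i Z, (β * m s l W - φ l W) =
      ∑ W ∈ cl (V r s) i Z, (β * ((m s l W : ℝ) + m s k W)) -
        ∑ W ∈ cl (V r s) i Z, (φ l W + φ k W) := by
      rw [← sum_add_distrib, ← sum_sub_distrib]
      refine sum_congr rfl fun W _ => ?_
      ring
    rw [g1, h.cls hil hik hlk hZ]
    have g2 : ∑ W ∈ cl (V r s) i Z, (β * ((m s l W : ℝ) + m s k W)) =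
        c * (β * ((m s l Z : ℝ) + m s k Z)) := by
      rw [hcdef, ← nsmul_eq_mul]
      refine sum_eq_card_nsmul ?_
      intro W hW
      rw [mem_cl] at hW
      have t2 := m_total hil hik hlk hW.1
      have t3 : m s i W = m s i Z := m_congr hW.2
      have t4 : m s l W + m s k W = m s l Z + m s k Z := by omega
      have t5 : (m s l W : ℝ) + m s k W = m s l Z + m s k Z := by exact_mod_cast t4
      rw [t5]
    rw [g2]; ring
  have f3 : c * ((β * ((m s l Z : ℝ) + m s k Z - 1) - (C - 1) * φ i Y) * Qs) ≤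
      c * (β * ((m s l Z : ℝ) + m s k Z) - (C - 1) * φ i Z) * Qs := by
    rw [← f1, ← f2]
    linarith
  have f4 : (c * Qs) * (β * ((m s l Z : ℝ) + m s k Z - 1) - (C - 1) * φ i Y) ≤
      (c * Qs) * (β * ((m s l Z : ℝ) + m s k Z) - (C - 1) * φ i Z) := by
    linarith
  have f5 := le_of_mul_le_mul_left f4 (mul_pos hc hQ)
  linarith

lemma lip {φ : Fin 3 → (Fin 3 → J → Bool) → ℝ}
    (hm : ∀ i, ∀ Z ∈ V r s, ∀ Y ∈ V r s, m s i Z = m s i Y → φ i Z = φ i Y) {β : ℝ}
    (hB : ∀ i, ∀ Z ∈ V r s, ∀ Y ∈ V r s, m s i Y = m s i Z + 1 → |φ i Z - φ i Y| ≤ β)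
    (i : Fin 3) : ∀ (N : ℕ) (Z Y : Fin 3 → J → Bool), Z ∈ V r s → Y ∈ V r s →
      m s i Z + N = m s i Y → |φ i Z - φ i Y| ≤ β * N := by
  intro N
  induction N with
  | zero =>
    intro Z Y hZ hY hN
    rw [hm i Z hZ Y hY (by omega)]
    simp
  | succ N ih =>
    intro Z Y hZ hY hN
    obtain ⟨l, hil, u, v, hu, hv, h3, h4⟩ := exists_up (i := i) hZ hY (by omega)
    obtain ⟨k, hik, hlk⟩ := third hil
    have h1 := col_one hil hik hlk hZ hu h3
    have h2 := col_two hil hik hlk hZ hv h4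
    have hW := ex_mem hil hZ h1 h2 h3 h4
    have hmW := m_ex hu hv h1 h3 (Z := Z) (i := i) (l := l)
    have e1 := hB i Z hZ _ hW hmW
    have e2 := ih _ Y hW hY (by omega)
    calc |φ i Z - φ i Y| = |(φ i Z - φ i (ex i l u v Z)) + (φ i (ex i l u v Z) - φ i Y)| := by
          congr 1; ring
      _ ≤ β + β * N := (abs_add_le _ _).trans (add_le_add e1 e2)
      _ = β * ((N + 1 : ℕ) : ℝ) := by push_cast; ring

theorem phi_const {C : ℝ} (hC : 2 < C) {φ : Fin 3 → (Fin 3 → J → Bool) → ℝ}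
    (h : Sys (V r s) C φ) (i : Fin 3) (Z Y : Fin 3 → J → Bool) (hZ : Z ∈ V r s)
    (hY : Y ∈ V r s) : φ i Z = φ i Y := by
  classical
  have hm : ∀ i, ∀ Z ∈ V r s, ∀ Y ∈ V r s, m s i Z = m s i Y → φ i Z = φ i Y :=
    fun i Z hZ Y hY hZY => m_dep h.row (fun i Z hZ u v huv => inv_sw hC h i Z hZ u v huv) i _
      Z Y hZ hY hZY le_rfl
  have fin : (∀ i, ∀ Z ∈ V r s, ∀ Y ∈ V r s, m s i Y = m s i Z + 1 → |φ i Z - φ i Y| ≤ 0) →
      φ i Z = φ i Y := by
    intro hB
    have key : ∀ Z Y, Z ∈ V r s → Y ∈ V r s → m s i Z ≤ m s i Y → φ i Z = φ i Y := by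
      intro Z Y hZ hY hle
      have := lip hm hB i (m s i Y - m s i Z) Z Y hZ hY (by omega)
      rw [zero_mul] at this
      have h2 := abs_eq_zero.1 (le_antisymm this (abs_nonneg _))
      linarith
    rcases le_total (m s i Z) (m s i Y) with hle | hle
    · exact key Z Y hZ hY hle
    · exact (key Y Z hY hZ hle).symm
  let A : Finset (Fin 3 × (Fin 3 → J → Bool) × (Fin 3 → J → Bool)) :=
    ((univ : Finset (Fin 3)) ×ˢ (V r s) ×ˢ (V r s)).filter
      (fun x => m s x.1 x.2.2 = m s x.1 x.2.1 + 1)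
  have memA : ∀ i Z Y, (i, Z, Y) ∈ A ↔ (Z ∈ V r s ∧ Y ∈ V r s) ∧ m s i Y = m s i Z + 1 := by
    intro i Z Y; simp [A]
  rcases A.eq_empty_or_nonempty with hA | hA
  · apply fin
    intro i Z hZ Y hY hmm
    exfalso
    have : (i, Z, Y) ∈ A := (memA _ _ _).2 ⟨⟨hZ, hY⟩, hmm⟩
    rw [hA] at this
    simp at this
  · obtain ⟨⟨i₀, Z₀, Y₀⟩, hm0, hmax⟩ := exists_max_image A
      (fun x => |φ x.1 x.2.1 - φ x.1 x.2.2|) hA
    rw [memA] at hm0
    have hB : ∀ i, ∀ Z ∈ V r s, ∀ Y ∈ V r s, m s i Y = m s i Z + 1 →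
        |φ i Z - φ i Y| ≤ |φ i₀ Z₀ - φ i₀ Y₀| := fun i Z hZ Y hY hmm =>
      hmax (i, Z, Y) ((memA _ _ _).2 ⟨⟨hZ, hY⟩, hmm⟩)
    set β := |φ i₀ Z₀ - φ i₀ Y₀| with hβ
    have hL' : ∀ i, ∀ Z ∈ V r s, ∀ Y ∈ V r s, m s i Z ≤ m s i Y →
        |φ i Z - φ i Y| ≤ β * ((m s i Y : ℝ) - m s i Z) := by
      intro i Z hZ Y hY hle
      have := lip hm hB i (m s i Y - m s i Z) Z Y hZ hY (by omega)
      rwa [Nat.cast_sub hle] at this
    have s1 := beta_step h hm (β := β) (fun i Z hZ Y hY hle => by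
      have := abs_le.1 (hL' i Z hZ Y hY hle)
      linarith [this.1]) hm0.1.1 hm0.1.2 hm0.2
    have s2 := beta_step h.neg (fun i Z hZ Y hY hZY => by
      simp only [hm i Z hZ Y hY hZY]) (β := β) (fun i Z hZ Y hY hle => by
      have := abs_le.1 (hL' i Z hZ Y hY hle)
      linarith [this.2]) hm0.1.1 hm0.1.2 hm0.2
    have hβ0 : β ≤ 0 := by
      by_contra hcon
      push Not at hcon
      rcases abs_cases (φ i₀ Z₀ - φ i₀ Y₀) with ⟨h1, _⟩ | ⟨h1, _⟩
      · have : (C - 1) * β ≤ β := by rw [hβ, h1]; rw [hβ, h1] at s1; exact s1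
        nlinarith
      · have : (C - 1) * β ≤ β := by
          have e : - φ i₀ Z₀ - - φ i₀ Y₀ = β := by rw [hβ, h1]; ring
          rw [e] at s2
          exact s2
        nlinarith
    exact fin fun i Z hZ Y hY hmm => (hB i Z hZ Y hY hmm).trans hβ0

/-- the sum of the three conditional expectations given one row has no eigenvalue `> 2` except on
constants -/
theorem eigen_const {C : ℝ} (hC : 2 < C) (f : (Fin 3 → J → Bool) → ℝ)
    (h : ∀ Z ∈ V r s, ∑ i, av (V r s) f i Z = C * f Z) :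
    ∀ Z ∈ V r s, ∀ Y ∈ V r s, f Z = f Y := by
  intro Z hZ Y hY
  have hS := sys_of_eigen (V r s) C f h
  have h1 : C * f Z = C * f Y := by
    rw [← h Z hZ, ← h Y hY]
    exact sum_congr rfl fun i _ => phi_const hC hS i Z Y hZ hY
  exact mul_left_cancel₀ (by linarith) h1

end Crest.Agent.LSwTab
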