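import Crest.Agent.LSwSpec
import Crest.Agent.LSwTab

set_option autoImplicit false
set_option linter.unusedSectionVars false
open Finset

/-!
Module (T) of S0453: `L_T² ≥ L_T` for three-vertex sets `T`.
-/

namespace Crest.Agent.LSwTriple

open LSw

variable {n : ℕ} {d : Fin n → ℕ}

lemma isReal_iff {x : Fin n → Fin n → Bool} : IsReal d x ↔
    (∀ a, x a a = false) ∧ (∀ a b, x a b = x b a) ∧ ∀ a, ∑ b, (x a b).toNat = d a := by
  unfold IsReal
  have : ∀ a, (univ.filter fun b => x a b = true).card = ∑ b, (x a b).toNat := by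
    intro a
    rw [card_filter]
    refine sum_congr rfl fun b _ => ?_
    cases x a b <;> simp
  simp only [this]

section enc

variable (t : Fin 3 → Fin n)

/-- the image of `t` -/
def TT : Finset (Fin n) := univ.image t

lemma t_mem (i : Fin 3) : t i ∈ TT t := mem_image_of_mem t (mem_univ i)

lemma mem_TT {v : Fin n} : v ∈ TT t ↔ ∃ i, t i = v := by simp [TT]

lemma sum_split (ht : Function.Injective t) (g : Fin n → ℕ) :
    ∑ q, g q = (∑ q, if q ∈ TT t then 0 else g q) + (g (t 0) + g (t 1) + g (t 2)) := by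
  have h1 : ∑ q, g q = (∑ q, if q ∈ TT t then 0 else g q) + ∑ q, if q ∈ TT t then g q else 0 := by
    rw [← sum_add_distrib]
    refine sum_congr rfl fun q _ => ?_
    split_ifs <;> simp
  have h2 : (∑ q, if q ∈ TT t then g q else 0) = g (t 0) + g (t 1) + g (t 2) := by
    rw [← sum_filter]
    have : (univ.filter fun q => q ∈ TT t) = univ.image t := by
      ext q; simp [TT]
    rw [this, sum_image (fun a _ b _ h => ht h), Fin.sum_univ_three]
  rw [h1, h2]

/-- encoding of a graph as a three-row table; column `none` holds the internal pairs -/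
def enc (x : Fin n → Fin n → Bool) : Fin 3 → Option (Fin n) → Bool
  | i, none => !x (t (i + 1)) (t (i + 2))
  | i, some v => if v ∈ TT t then false else x (t i) v

/-- index of a vertex of `T` -/
def idx (p : Fin n) : Option (Fin 3) :=
  if p = t 0 then some 0 else if p = t 1 then some 1 else if p = t 2 then some 2 else none

lemma idx_t (ht : Function.Injective t) (i : Fin 3) : idx t (t i) = some i := by
  have h1 : ∀ a b : Fin 3, t a = t b ↔ a = b := fun a b => ht.eq_iff
  simp only [idx, h1]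
  fin_cases i <;> simp

lemma idx_none {p : Fin n} (hp : p ∉ TT t) : idx t p = none := by
  rw [mem_TT] at hp
  push Not at hp
  simp [idx, (hp 0).symm, (hp 1).symm, (hp 2).symm]

/-- decoding -/
def dec (x₀ : Fin n → Fin n → Bool) (Z : Fin 3 → Option (Fin n) → Bool) (p q : Fin n) : Bool :=
  match idx t p, idx t q with
  | none, none => x₀ p q
  | some i, none => Z i (some q)
  | none, some j => Z j (some p)
  | some i, some j => if i = j then false else !Z (-(i + j)) none

variable {t}

lemma dec_tt (ht : Function.Injective t) (x₀ : Fin n → Fin n → Bool)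
    (Z : Fin 3 → Option (Fin n) → Bool) (i j : Fin 3) :
    dec t x₀ Z (t i) (t j) = if i = j then false else !Z (-(i + j)) none := by
  simp [dec, idx_t t ht]

lemma dec_to (ht : Function.Injective t) (x₀ : Fin n → Fin n → Bool)
    (Z : Fin 3 → Option (Fin n) → Bool) (i : Fin 3) {q : Fin n} (hq : q ∉ TT t) :
    dec t x₀ Z (t i) q = Z i (some q) := by
  simp [dec, idx_t t ht, idx_none t hq]

lemma dec_ot (ht : Function.Injective t) (x₀ : Fin n → Fin n → Bool)
    (Z : Fin 3 → Option (Fin n) → Bool) (i : Fin 3) {q : Fin n} (hq : q ∉ TT t) :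
    dec t x₀ Z q (t i) = Z i (some q) := by
  simp [dec, idx_t t ht, idx_none t hq]

lemma dec_oo (x₀ : Fin n → Fin n → Bool)
    (Z : Fin 3 → Option (Fin n) → Bool) {p q : Fin n} (hp : p ∉ TT t) (hq : q ∉ TT t) :
    dec t x₀ Z p q = x₀ p q := by
  simp [dec, idx_none t hp, idx_none t hq]

/-- row margins -/
def rr (t : Fin 3 → Fin n) (x₀ : Fin n → Fin n → Bool) (i : Fin 3) : ℕ := ∑ w, (enc t x₀ i w).toNat

/-- column margins -/
def ss (t : Fin 3 → Fin n) (x₀ : Fin n → Fin n → Bool) (w : Option (Fin n)) : ℕ :=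
  ∑ i, (enc t x₀ i w).toNat

lemma ss_T (x₀ : Fin n → Fin n → Bool) {v : Fin n} (hv : v ∈ TT t) : ss t x₀ (some v) = 0 := by
  simp [ss, enc, hv]

lemma ss_o (x₀ : Fin n → Fin n → Bool) {v : Fin n} (hv : v ∉ TT t) :
    ss t x₀ (some v) = (x₀ (t 0) v).toNat + (x₀ (t 1) v).toNat + (x₀ (t 2) v).toNat := by
  simp [ss, enc, hv, Fin.sum_univ_three]

lemma bnot (b : Bool) : (!b).toNat + b.toNat = 1 := by cases b <;> rfl

/-- outside degree of `t i` -/
def oa (t : Fin 3 → Fin n) (x : Fin n → Fin n → Bool) (i : Fin 3) : ℕ :=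
  ∑ q, if q ∈ TT t then 0 else (x (t i) q).toNat

lemma row_sum (x : Fin n → Fin n → Bool) (i : Fin 3) :
    ∑ w, (enc t x i w).toNat = (!x (t (i + 1)) (t (i + 2))).toNat + oa t x i := by
  rw [Fintype.sum_option, oa]
  congr 1
  refine sum_congr rfl fun q _ => ?_
  simp only [enc]
  split_ifs <;> rfl

/-- number of internal edges -/
def ie (t : Fin 3 → Fin n) (x : Fin n → Fin n → Bool) : ℕ :=
  (x (t 0) (t 1)).toNat + (x (t 0) (t 2)).toNat + (x (t 1) (t 2)).toNat

lemma deg_t (ht : Function.Injective t) {x : Fin n → Fin n → Bool} (hx : IsReal d x) (i : Fin 3) :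
    d (t i) + (x (t (i + 1)) (t (i + 2))).toNat = oa t x i + ie t x := by
  rw [isReal_iff] at hx
  rw [← hx.2.2 (t i), sum_split t ht, ie]
  rw [show (∑ q, if q ∈ TT t then 0 else (x (t i) q).toNat) = oa t x i from rfl]
  have s1 := hx.2.1 (t 1) (t 0)
  have s2 := hx.2.1 (t 2) (t 0)
  have s3 := hx.2.1 (t 2) (t 1)
  have d0 := hx.1 (t 0)
  have d1 := hx.1 (t 1)
  have d2 := hx.1 (t 2)
  fin_cases i <;> simp [s1, s2, s3, d0, d1, d2] <;> omega

lemma rr_add (ht : Function.Injective t) {x : Fin n → Fin n → Bool} (hx : IsReal d x) (i : Fin 3) :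
    ∑ w, (enc t x i w).toNat + ie t x = 1 + d (t i) := by
  have h1 := deg_t ht hx i
  have h2 := bnot (x (t (i + 1)) (t (i + 2)))
  rw [row_sum]
  omega

lemma col_eq (ht : Function.Injective t) {x y : Fin n → Fin n → Bool} (hx : IsReal d x)
    (hy : IsReal d y) (hxy : ∀ a b, a ∉ TT t → b ∉ TT t → x a b = y a b) {v : Fin n}
    (hv : v ∉ TT t) : (y (t 0) v).toNat + (y (t 1) v).toNat + (y (t 2) v).toNat =
      (x (t 0) v).toNat + (x (t 1) v).toNat + (x (t 2) v).toNat := by
  rw [isReal_iff] at hx hy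
  have h1 := hx.2.2 v
  have h2 := hy.2.2 v
  rw [sum_split t ht] at h1 h2
  have h3 : (∑ q, if q ∈ TT t then 0 else (x v q).toNat) =
      ∑ q, if q ∈ TT t then 0 else (y v q).toNat := by
    refine sum_congr rfl fun q _ => ?_
    split_ifs with h
    · rfl
    · rw [hxy v q hv h]
  rw [hx.2.1 v (t 0), hx.2.1 v (t 1), hx.2.1 v (t 2)] at h1
  rw [hy.2.1 v (t 0), hy.2.1 v (t 1), hy.2.1 v (t 2)] at h2
  omega

lemma ie_eq (ht : Function.Injective t) {x y : Fin n → Fin n → Bool} (hx : IsReal d x)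
    (hy : IsReal d y) (hxy : ∀ a b, a ∉ TT t → b ∉ TT t → x a b = y a b) :
    ie t y = ie t x := by
  have hoa : oa t y 0 + oa t y 1 + oa t y 2 = oa t x 0 + oa t x 1 + oa t x 2 := by
    simp only [oa]
    rw [← sum_add_distrib, ← sum_add_distrib, ← sum_add_distrib, ← sum_add_distrib]
    refine sum_congr rfl fun q _ => ?_
    split_ifs with h
    · rfl
    · exact col_eq ht hx hy hxy h
  have key : ∀ z : Fin n → Fin n → Bool, IsReal d z →
      d (t 0) + d (t 1) + d (t 2) = oa t z 0 + oa t z 1 + oa t z 2 + 2 * ie t z := by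
    intro z hz
    have h0 : d (t 0) + (z (t 1) (t 2)).toNat = oa t z 0 + ie t z := deg_t ht hz 0
    have h1 : d (t 1) + (z (t 2) (t 0)).toNat = oa t z 1 + ie t z := deg_t ht hz 1
    have h2 : d (t 2) + (z (t 0) (t 1)).toNat = oa t z 2 + ie t z := deg_t ht hz 2
    have s2 := hz.2.1 (t 2) (t 0)
    rw [s2] at h1
    simp only [ie] at *
    omega
  have k1 := key x hx
  have k2 := key y hy
  omega

lemma ss_none (x : Fin n → Fin n → Bool) (hs : ∀ a b, x a b = x b a) :
    ss t x none + ie t x = 3 := by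
  have h : ss t x none = (!x (t 1) (t 2)).toNat + (!x (t 2) (t 0)).toNat +
      (!x (t 0) (t 1)).toNat := by
    rw [ss, Fin.sum_univ_three]
    rfl
  rw [h, hs (t 2) (t 0), ie]
  have h1 := bnot (x (t 1) (t 2))
  have h2 := bnot (x (t 0) (t 2))
  have h3 := bnot (x (t 0) (t 1))
  omega

lemma enc_mem (ht : Function.Injective t) {x y : Fin n → Fin n → Bool} (hx : IsReal d x)
    (hy : IsReal d y) (hxy : ∀ a b, a ∉ TT t → b ∉ TT t → x a b = y a b) :
    enc t y ∈ LSwTab.V (rr t x) (ss t x) := by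
  rw [LSwTab.mem_V]
  have hie := ie_eq ht hx hy hxy
  refine ⟨fun i => ?_, fun w => ?_⟩
  · have h1 := rr_add ht hx i
    have h2 := rr_add ht hy i
    rw [rr]
    omega
  · change ss t y w = ss t x w
    cases w with
    | none =>
      have h1 := ss_none (t := t) x hx.2.1
      have h2 := ss_none (t := t) y hy.2.1
      omega
    | some v =>
      by_cases hv : v ∈ TT t
      · rw [ss_T _ hv, ss_T _ hv]
      · rw [ss_o _ hv, ss_o _ hv, col_eq ht hx hy hxy hv]

lemma dec_enc (ht : Function.Injective t) {x y : Fin n → Fin n → Bool}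
    (hy : IsReal d y) (hxy : ∀ a b, a ∉ TT t → b ∉ TT t → x a b = y a b) :
    dec t x (enc t y) = y := by
  funext p q
  by_cases hp : p ∈ TT t
  · obtain ⟨i, rfl⟩ := (mem_TT t).1 hp
    by_cases hq : q ∈ TT t
    · obtain ⟨j, rfl⟩ := (mem_TT t).1 hq
      rw [dec_tt ht]
      have s1 := hy.2.1 (t 1) (t 0)
      have s2 := hy.2.1 (t 2) (t 0)
      have s3 := hy.2.1 (t 2) (t 1)
      have d0 := hy.1 (t 0)
      have d1 := hy.1 (t 1)
      have d2 := hy.1 (t 2)
      have e0 : enc t y 0 none = !y (t 1) (t 2) := rfl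
      have e1 : enc t y 1 none = !y (t 2) (t 0) := rfl
      have e2 : enc t y 2 none = !y (t 0) (t 1) := rfl
      have n1 : (-(0 + 1) : Fin 3) = 2 := by decide
      have n2 : (-(0 + 2) : Fin 3) = 1 := by decide
      have n3 : (-(1 + 2) : Fin 3) = 0 := by decide
      have n4 : (-(1 + 0) : Fin 3) = 2 := by decide
      have n5 : (-(2 + 0) : Fin 3) = 1 := by decide
      have n6 : (-(2 + 1) : Fin 3) = 0 := by decide
      fin_cases i <;> fin_cases j <;>
        simp only [Fin.zero_eta, Fin.mk_one, Fin.reduceFinMk, n1, n2, n3, n4, n5, n6, e0, e1, e2,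
          s1, s2, s3, d0, d1, d2, Bool.not_not, if_true] <;> rfl
    · rw [dec_to ht _ _ _ hq]
      simp [enc, hq]
  · by_cases hq : q ∈ TT t
    · obtain ⟨j, rfl⟩ := (mem_TT t).1 hq
      rw [dec_ot ht _ _ _ hp]
      simp [enc, hp, hy.2.1 p (t j)]
    · rw [dec_oo _ _ hp hq, hxy p q hp hq]

lemma V_T {x : Fin n → Fin n → Bool} {Z : Fin 3 → Option (Fin n) → Bool}
    (hZ : Z ∈ LSwTab.V (rr t x) (ss t x)) {v : Fin n} (hv : v ∈ TT t) (i : Fin 3) :
    Z i (some v) = false := by
  rw [LSwTab.mem_V] at hZ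
  have h := hZ.2 (some v)
  rw [ss_T _ hv, sum_eq_zero_iff] at h
  have := h i (mem_univ i)
  cases hb : Z i (some v)
  · rfl
  · rw [hb] at this; simp at this

lemma dec_real (ht : Function.Injective t) {x : Fin n → Fin n → Bool} (hx : IsReal d x)
    {Z : Fin 3 → Option (Fin n) → Bool} (hZ : Z ∈ LSwTab.V (rr t x) (ss t x)) :
    IsReal d (dec t x Z) := by
  have hx' := hx
  rw [isReal_iff] at hx' ⊢
  have hZ' := hZ
  rw [LSwTab.mem_V] at hZ'
  have n1 : (-(0 + 1) : Fin 3) = 2 := by decide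
  have n2 : (-(0 + 2) : Fin 3) = 1 := by decide
  have n3 : (-(1 + 2) : Fin 3) = 0 := by decide
  have n4 : (-(1 + 0) : Fin 3) = 2 := by decide
  have n5 : (-(2 + 0) : Fin 3) = 1 := by decide
  have n6 : (-(2 + 1) : Fin 3) = 0 := by decide
  refine ⟨fun p => ?_, fun p q => ?_, fun p => ?_⟩
  · by_cases hp : p ∈ TT t
    · obtain ⟨i, rfl⟩ := (mem_TT t).1 hp
      rw [dec_tt ht, if_pos rfl]
    · rw [dec_oo _ _ hp hp, hx'.1]
  · by_cases hp : p ∈ TT t
    · obtain ⟨i, rfl⟩ := (mem_TT t).1 hp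
      by_cases hq : q ∈ TT t
      · obtain ⟨j, rfl⟩ := (mem_TT t).1 hq
        rw [dec_tt ht, dec_tt ht, add_comm j i]
        simp only [eq_comm]
      · rw [dec_to ht _ _ _ hq, dec_ot ht _ _ _ hq]
    · by_cases hq : q ∈ TT t
      · obtain ⟨j, rfl⟩ := (mem_TT t).1 hq
        rw [dec_to ht _ _ _ hp, dec_ot ht _ _ _ hp]
      · rw [dec_oo _ _ hp hq, dec_oo _ _ hq hp, hx'.2.1]
  · rw [sum_split t ht]
    by_cases hp : p ∈ TT t
    · obtain ⟨i, rfl⟩ := (mem_TT t).1 hp
      have e1 : (∑ q, if q ∈ TT t then 0 else (dec t x Z (t i) q).toNat) =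
          ∑ q, (Z i (some q)).toNat := by
        refine sum_congr rfl fun q _ => ?_
        split_ifs with h
        · rw [V_T hZ h]; rfl
        · rw [dec_to ht _ _ _ h]
      have e2 := hZ'.1 i
      rw [Fintype.sum_option] at e2
      have e3 := rr_add ht hx i
      rw [← rr] at e3
      have e4 := hZ'.2 none
      rw [Fin.sum_univ_three] at e4
      have e5 := ss_none (t := t) x hx.2.1
      have b0 := bnot (Z 0 none)
      have b1 := bnot (Z 1 none)
      have b2 := bnot (Z 2 none)
      rw [e1, dec_tt ht, dec_tt ht, dec_tt ht]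
      fin_cases i <;>
        simp only [Fin.zero_eta, Fin.mk_one, Fin.reduceFinMk, Fin.reduceEq, if_false, if_true, n1,
          n2, n3, n4, n5, n6, Bool.toNat_false] at * <;> omega
    · have e1 : (∑ q, if q ∈ TT t then 0 else (dec t x Z p q).toNat) =
          ∑ q, if q ∈ TT t then 0 else (x p q).toNat := by
        refine sum_congr rfl fun q _ => ?_
        split_ifs with h
        · rfl
        · rw [dec_oo _ _ hp h]
      have e2 := hZ'.2 (some p)
      rw [ss_o _ hp, Fin.sum_univ_three, hx.2.1 (t 0) p, hx.2.1 (t 1) p, hx.2.1 (t 2) p] at e2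
      rw [e1, dec_ot ht _ _ _ hp, dec_ot ht _ _ _ hp, dec_ot ht _ _ _ hp, e2, ← sum_split t ht,
        hx'.2.2]

lemma enc_dec (ht : Function.Injective t) {x : Fin n → Fin n → Bool}
    {Z : Fin 3 → Option (Fin n) → Bool} (hZ : Z ∈ LSwTab.V (rr t x) (ss t x)) :
    enc t (dec t x Z) = Z := by
  funext i w
  cases w with
  | none =>
    simp only [enc]
    rw [dec_tt ht, if_neg (by revert i; decide), Bool.not_not]
    have : -(i + 1 + (i + 2)) = i := by revert i; decide
    rw [this]
  | some v =>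
    simp only [enc]
    split_ifs with h
    · rw [V_T hZ h]
    · rw [dec_to ht _ _ _ h]

/-- same row `i` iff same `T \ {t i}`-block -/
lemma row_iff (ht : Function.Injective t) {x₀ : Om d} {y z : Om d} (hy : y ∈ cls (TT t) x₀)
    (hz : z ∈ cls (TT t) x₀) (i : Fin 3) :
    z ∈ cls ((TT t).erase (t i)) y ↔ enc t z.1 i = enc t y.1 i := by
  rw [mem_cls] at hy hz
  have hyV := enc_mem ht x₀.2 y.2 hy
  have hzV := enc_mem ht x₀.2 z.2 hz
  constructor
  · intro h
    rw [mem_cls] at h
    have hs : ∀ v, enc t z.1 i (some v) = enc t y.1 i (some v) := by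
      intro v
      simp only [enc]
      split_ifs with hv
      · rfl
      · exact (h (t i) v (by simp) (by simp [hv])).symm
    have hn : enc t z.1 i none = enc t y.1 i none := by
      have h1 := (LSwTab.mem_V.1 hyV).1 i
      have h2 := (LSwTab.mem_V.1 hzV).1 i
      rw [Fintype.sum_option] at h1 h2
      simp only [hs] at h2
      have h3 : (enc t z.1 i none).toNat = (enc t y.1 i none).toNat := by omega
      revert h3
      cases enc t z.1 i none <;> cases enc t y.1 i none <;> simp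
    funext w
    cases w with
    | none => exact hn
    | some v => exact hs v
  · intro h
    rw [mem_cls]
    have key : ∀ v, v ∉ TT t → y.1 (t i) v = z.1 (t i) v := by
      intro v hv
      have := congrFun h (some v)
      simp only [enc, hv, if_false] at this
      exact this.symm
    intro a b ha hb
    rw [mem_erase, not_and_or, not_not] at ha hb
    rcases ha with rfl | ha
    · rcases hb with rfl | hb
      · rw [y.2.1, z.2.1]
      · exact key b hb
    · rcases hb with rfl | hb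
      · rw [y.2.2.1, z.2.2.1]; exact key a ha
      · rw [← hy a b ha hb, ← hz a b ha hb]

/-- the key lemma: an eigenfunction of `E_ab + E_ac + E_bc` with eigenvalue `> 2` is constant on
`T`-blocks -/
lemma const_block (ht : Function.Injective t) {C : ℝ} (hC : 2 < C) (f : Om d → ℝ)
    (hf : ∀ x, ∑ i, E ((TT t).erase (t i)) f x = C * f x) {x y : Om d}
    (hy : y ∈ cls (TT t) x) : f x = f y := by
  classical
  let F : (Fin 3 → Option (Fin n) → Bool) → ℝ := fun Z =>
    if h : IsReal d (dec t x.1 Z) then f ⟨dec t x.1 Z, h⟩ else 0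
  have hF : ∀ z ∈ cls (TT t) x, F (enc t z.1) = f z := by
    intro z hz
    have h1 := dec_enc ht z.2 (mem_cls.1 hz)
    have h2 : IsReal d (dec t x.1 (enc t z.1)) := by rw [h1]; exact z.2
    simp only [F, dif_pos h2]
    congr 1
    exact Subtype.ext h1
  have hinj : ∀ z ∈ cls (TT t) x, ∀ w ∈ cls (TT t) x, enc t z.1 = enc t w.1 → z = w := by
    intro z hz w hw h
    apply Subtype.ext
    rw [← dec_enc ht z.2 (mem_cls.1 hz), ← dec_enc ht w.2 (mem_cls.1 hw), h]
  have hsub : ∀ z ∈ cls (TT t) x, ∀ i, cls ((TT t).erase (t i)) z ⊆ cls (TT t) x := by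
    intro z hz i w hw
    exact mem_cls_trans hz (cls_mono (erase_subset _ _) z hw)
  have hsurj : ∀ Z ∈ LSwTab.V (rr t x.1) (ss t x.1), ∃ z ∈ cls (TT t) x, enc t z.1 = Z := by
    intro Z hZ
    refine ⟨⟨dec t x.1 Z, dec_real ht x.2 hZ⟩, ?_, enc_dec ht hZ⟩
    rw [mem_cls]
    intro a b ha hb
    exact (dec_oo x.1 Z ha hb).symm
  have hcl : ∀ z ∈ cls (TT t) x, ∀ i, LSwTab.cl (LSwTab.V (rr t x.1) (ss t x.1)) i (enc t z.1) =
      (cls ((TT t).erase (t i)) z).image fun w => enc t w.1 := by
    intro z hz i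
    ext Z
    rw [LSwTab.mem_cl, mem_image]
    constructor
    · rintro ⟨hZ, hi⟩
      obtain ⟨w, hw, rfl⟩ := hsurj Z hZ
      exact ⟨w, (row_iff ht hz hw i).2 hi, rfl⟩
    · rintro ⟨w, hw, rfl⟩
      have hw' := hsub z hz i hw
      exact ⟨enc_mem ht x.2 w.2 (mem_cls.1 hw'), (row_iff ht hz hw' i).1 hw⟩
  have hav : ∀ z ∈ cls (TT t) x, ∀ i,
      LSwTab.av (LSwTab.V (rr t x.1) (ss t x.1)) F i (enc t z.1) =
        E ((TT t).erase (t i)) f z := by
    intro z hz i
    have hi : Set.InjOn (fun w : Om d => enc t w.1) (cls ((TT t).erase (t i)) z : Set (Om d)) := by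
      intro a ha b hb hab
      exact hinj a (hsub z hz i ha) b (hsub z hz i hb) hab
    rw [LSwTab.av, E, hcl z hz i, sum_image hi, card_image_of_injOn hi]
    congr 1
    exact sum_congr rfl fun w hw => hF w (hsub z hz i hw)
  have h1 : ∀ Z ∈ LSwTab.V (rr t x.1) (ss t x.1),
      ∑ i, LSwTab.av (LSwTab.V (rr t x.1) (ss t x.1)) F i Z = C * F Z := by
    intro Z hZ
    obtain ⟨z, hz, rfl⟩ := hsurj Z hZ
    rw [hF z hz, ← hf z]
    exact sum_congr rfl fun i _ => hav z hz i
  have h2 := LSwTab.eigen_const hC F h1 _ (enc_mem ht x.2 x.2 (mem_cls.1 (self_mem_cls _ x)))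
    _ (enc_mem ht x.2 y.2 (mem_cls.1 hy))
  rw [hF x (self_mem_cls _ x), hF y hy] at h2
  exact h2

end enc

/-- a symmetric operator without eigenvalues in `(0,1)` satisfies `A ≤ A²` -/
lemma spectral {X : Type*} [Fintype X] (A : (X → ℝ) →ₗ[ℝ] (X → ℝ))
    (hA : ∀ f g, ∑ x, A f x * g x = ∑ x, f x * A g x)
    (hev : ∀ (μ : ℝ) (f : X → ℝ), A f = μ • f → f ≠ 0 → μ ≤ μ ^ 2) (f : X → ℝ) :
    ∑ x, f x * A f x ≤ ∑ x, A f x * A f x := by
  classical
  let e : EuclideanSpace ℝ X ≃ₗ[ℝ] (X → ℝ) := WithLp.linearEquiv 2 ℝ (X → ℝ)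
  let B : EuclideanSpace ℝ X →ₗ[ℝ] EuclideanSpace ℝ X := e.symm.toLinearMap ∘ₗ A ∘ₗ e.toLinearMap
  have hin : ∀ u v : EuclideanSpace ℝ X, inner ℝ u v = ∑ x, e u x * e v x := by
    intro u v
    rw [PiLp.inner_apply]
    refine sum_congr rfl fun x _ => ?_
    simp [e, mul_comm]
  have heB : ∀ u, e (B u) = A (e u) := by
    intro u; simp [B]
  have hB : B.IsSymmetric := by
    intro u v
    rw [hin, hin, heB, heB]
    exact hA _ _
  let b := hB.eigenvectorBasis rfl
  let μ := hB.eigenvalues rfl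
  have hb : ∀ i, B (b i) = μ i • b i := fun i => hB.apply_eigenvectorBasis rfl i
  have hμ : ∀ i, μ i ≤ μ i ^ 2 := by
    intro i
    refine hev (μ i) (e (b i)) ?_ ?_
    · rw [← heB, hb, map_smul]
    · intro h0
      have : b i = 0 := by simpa using h0
      have h1 := b.orthonormal.1 i
      rw [this] at h1
      simp at h1
  set u := e.symm f with hu
  have heu : e u = f := by simp [hu]
  have h1 : inner ℝ u (B u) = ∑ i, μ i * (inner ℝ (b i) u) ^ 2 := by
    rw [← b.sum_inner_mul_inner u (B u)]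
    refine sum_congr rfl fun i _ => ?_
    rw [← hB (b i) u, hb, inner_smul_left, real_inner_comm (b i) u]
    simp; ring
  have h2 : inner ℝ (B u) (B u) = ∑ i, μ i ^ 2 * (inner ℝ (b i) u) ^ 2 := by
    rw [← b.sum_inner_mul_inner (B u) (B u)]
    refine sum_congr rfl fun i _ => ?_
    rw [← hB (b i) u, hb, real_inner_comm (b i) (B u), ← hB (b i) u, hb, inner_smul_left]
    simp; ring
  rw [hin, heB, heu] at h1
  rw [hin, heB, heu] at h2
  rw [h1, h2]
  exact sum_le_sum fun i _ => mul_le_mul_of_nonneg_right (hμ i) (sq_nonneg _)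

lemma E_symm (S : Finset (Fin n)) (f g : Om d → ℝ) : ∑ x, E S f x * g x = ∑ x, f x * E S g x := by
  have h1 : ∀ (f g : Om d → ℝ), ∑ x, E S f x * g x =
      ∑ x, ∑ y, if y ∈ cls S x then f y * g x / ((cls S x).card : ℝ) else 0 := by
    intro f g
    refine sum_congr rfl fun x _ => ?_
    rw [← sum_filter, E, div_mul_eq_mul_div, sum_mul, sum_div]
    refine sum_congr ?_ fun y _ => rfl
    ext y; simp
  have h2 : ∑ x, f x * E S g x = ∑ x, E S g x * f x := by
    refine sum_congr rfl fun x _ => mul_comm _ _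
  rw [h2, h1, h1, sum_comm]
  refine sum_congr rfl fun x _ => sum_congr rfl fun y _ => ?_
  by_cases h : x ∈ cls S y
  · have h' := mem_cls_symm h
    rw [if_pos h, if_pos h', cls_eq h, mul_comm]
  · have h' : y ∉ cls S x := fun hc => h (mem_cls_symm hc)
    rw [if_neg h, if_neg h']

lemma E_const {S : Finset (Fin n)} {f : Om d → ℝ} {x : Om d} (h : ∀ y ∈ cls S x, f y = f x) :
    E S f x = f x := by
  rw [E, sum_congr rfl h, sum_const, nsmul_eq_mul]
  have : ((cls S x).card : ℝ) ≠ 0 := by
    exact_mod_cast (card_pos.2 ⟨x, self_mem_cls S x⟩).ne'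
  field_simp

/-- `E S` as a linear map -/
noncomputable def EL (S : Finset (Fin n)) : (Om d → ℝ) →ₗ[ℝ] (Om d → ℝ) where
  toFun := E S
  map_add' f g := by
    funext x
    simp only [E, Pi.add_apply, sum_add_distrib, add_div]
  map_smul' c f := by
    funext x
    simp only [E, Pi.smul_apply, smul_eq_mul, ← mul_sum, RingHom.id_apply, mul_div_assoc]

lemma powersetCard_erase {T : Finset (Fin n)} (hT : T.card = 3) :
    T.powersetCard 2 = T.image fun v => T.erase v := by
  ext p
  rw [mem_powersetCard, mem_image]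
  constructor
  · rintro ⟨h1, h2⟩
    have h3 : (T \ p).card = 1 := by rw [card_sdiff_of_subset h1]; omega
    obtain ⟨v, hv⟩ := card_eq_one.1 h3
    have hvT : v ∈ T \ p := by rw [hv]; simp
    rw [mem_sdiff] at hvT
    refine ⟨v, hvT.1, ?_⟩
    ext w
    rw [mem_erase]
    constructor
    · rintro ⟨hw1, hw2⟩
      by_contra hcon
      have : w ∈ T \ p := mem_sdiff.2 ⟨hw2, hcon⟩
      rw [hv, mem_singleton] at this
      exact hw1 this
    · intro hw
      exact ⟨fun h => hvT.2 (h ▸ hw), h1 hw⟩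
  · rintro ⟨v, hv, rfl⟩
    exact ⟨erase_subset _ _, by rw [card_erase_of_mem hv, hT]⟩

theorem main : LSw.Triple := by
  intro n d T hT f
  obtain ⟨a, b, c, hab, hac, hbc, rfl⟩ := card_eq_three.1 hT
  set t : Fin 3 → Fin n := ![a, b, c] with htdef
  have ht : Function.Injective t := by
    intro i j hij
    fin_cases i <;> fin_cases j <;> simp_all
  have hTT : ({a, b, c} : Finset (Fin n)) = TT t := by
    ext v
    simp [mem_TT, Fin.exists_fin_succ, htdef, eq_comm]
  rw [hTT] at hT ⊢
  have hLT : ∀ (f : Om d → ℝ) (x : Om d), LSw.LT (TT t) f x =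
      3 * f x - ∑ i, E ((TT t).erase (t i)) f x := by
    intro f x
    rw [LSw.LT, powersetCard_erase hT, sum_image]
    · rw [TT, sum_image (fun a _ b _ h => ht h), Fin.sum_univ_three, Fin.sum_univ_three]
      simp only [D]
      rw [← TT]
      ring
    · intro u hu v hv huv
      by_contra hne
      have : u ∈ (TT t).erase v := mem_erase.2 ⟨hne, hu⟩
      simp only at huv
      rw [← huv] at this
      simp at this
  let A : (Om d → ℝ) →ₗ[ℝ] (Om d → ℝ) :=
    (3 : ℝ) • LinearMap.id - ∑ i, EL ((TT t).erase (t i))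
  have hAf : ∀ f : Om d → ℝ, A f = LSw.LT (TT t) f := by
    intro f
    funext x
    rw [hLT]
    simp [A, EL, LinearMap.sum_apply]
  have hsymm : ∀ f g : Om d → ℝ, ∑ x, A f x * g x = ∑ x, f x * A g x := by
    intro f g
    simp only [hAf, hLT, sub_mul, mul_sub, sum_sub_distrib, sum_mul, mul_sum]
    congr 1
    · exact sum_congr rfl fun x _ => by ring
    · rw [sum_comm, sum_comm (s := (univ : Finset (Om d)))]
      exact sum_congr rfl fun i _ => E_symm _ _ _
  have hev : ∀ (μ : ℝ) (f : Om d → ℝ), A f = μ • f → f ≠ 0 → μ ≤ μ ^ 2 := by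
    intro μ f hμ hf
    by_contra hcon
    push Not at hcon
    have hμ0 : 0 < μ := by nlinarith [sq_nonneg μ]
    have hμ1 : μ < 1 := by nlinarith
    have hx : ∀ x, ∑ i, E ((TT t).erase (t i)) f x = (3 - μ) * f x := by
      intro x
      have := congrFun hμ x
      rw [hAf, hLT] at this
      simp only [Pi.smul_apply, smul_eq_mul] at this
      linarith
    have hc := fun (x y : Om d) (hy : y ∈ cls (TT t) x) =>
      const_block ht (by linarith : (2 : ℝ) < 3 - μ) f hx hy
    apply hf
    funext x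
    have h1 : ∀ i, E ((TT t).erase (t i)) f x = f x := by
      intro i
      refine E_const fun y hy => ?_
      exact (hc x y (cls_mono (erase_subset _ _) x hy)).symm
    have h2 := hx x
    simp only [h1, sum_const, card_univ, Fintype.card_fin, nsmul_eq_mul] at h2
    push_cast at h2
    have : μ * f x = 0 := by linarith
    rcases mul_eq_zero.1 this with h | h
    · linarith
    · exact h
  have := spectral A hsymm hev f
  simp only [hAf] at this
  exact this

end Crest.Agent.LSwTriple
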