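/- rid 227 (S0351): specification file, instalment 1 (formal group API and E-level modules).
   Every `Spec...` Prop is one module (or an API bundle), to be proved in its own file as
   `theorem Crest.Agent.LT3XXX.main (hyps) : LT3.Spec.XXX`. -/
import Crest.Statements.S0351

set_option autoImplicit false
open Crest.LubinTate
open Crest Crest.GeometryTopology

namespace Crest.Agent.LT3

/-- zero constant coefficient (for `PowerSeries` take `σ = Unit`; it is defeq to
`PowerSeries.constantCoeff f = 0`). -/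
def ZC {σ : Type} {R : Type} [CommRing R] (f : MvPowerSeries σ R) : Prop :=
  MvPowerSeries.constantCoeff f = 0

/-- all coefficients in the ideal `I`. -/
def InI {σ : Type} {R : Type} [CommRing R] (I : Ideal R) (f : MvPowerSeries σ R) : Prop :=
  ∀ e, MvPowerSeries.coeff e f ∈ I

/-- coefficientwise congruence modulo `I`. -/
def EqM {σ : Type} {R : Type} [CommRing R] (I : Ideal R) (f g : MvPowerSeries σ R) : Prop :=
  ∀ e, MvPowerSeries.coeff e f - MvPowerSeries.coeff e g ∈ I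

/-- `f +_F g`.  For one-variable series this is the expression used in `mulSeries`. -/
noncomputable def fadd {σ : Type} {R : Type} [CommRing R] (F : FormalGroup R)
    (f g : MvPowerSeries σ R) : MvPowerSeries σ R :=
  F.toPowerSeries.subst ![f, g]

open Classical in
/-- `-_F f` (only meaningful for `ZC f`). -/
noncomputable def fneg {σ : Type} {R : Type} [CommRing R] (F : FormalGroup R)
    (f : MvPowerSeries σ R) : MvPowerSeries σ R :=
  if h : ∃ g, ZC g ∧ fadd F f g = 0 ∧ fadd F g f = 0 then h.choose else 0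

/-- `f -_F g`. -/
noncomputable def fsub {σ : Type} {R : Type} [CommRing R] (F : FormalGroup R)
    (f g : MvPowerSeries σ R) : MvPowerSeries σ R := fadd F f (fneg F g)

/-- composition `φ(a)` of a one-variable series with an arbitrary series of zero constant
coefficient. -/
noncomputable def cmp {σ : Type} {R : Type} [CommRing R] (φ : PowerSeries R)
    (a : MvPowerSeries σ R) : MvPowerSeries σ R := PowerSeries.subst a φ

/-- API A: the formal sum. -/
structure ApiA : Prop where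
  zc_fadd : ∀ {σ R : Type} [CommRing R] (F : FormalGroup R) {f g : MvPowerSeries σ R},
    ZC f → ZC g → ZC (fadd F f g)
  fadd_zero : ∀ {σ R : Type} [CommRing R] (F : FormalGroup R) {f : MvPowerSeries σ R},
    ZC f → fadd F f 0 = f
  zero_fadd : ∀ {σ R : Type} [CommRing R] (F : FormalGroup R) {f : MvPowerSeries σ R},
    ZC f → fadd F 0 f = f
  fadd_assoc : ∀ {σ R : Type} [CommRing R] (F : FormalGroup R) {f g h : MvPowerSeries σ R},
    ZC f → ZC g → ZC h → fadd F (fadd F f g) h = fadd F f (fadd F g h)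
  fadd_comm : ∀ {σ R : Type} [CommRing R] (F : FormalGroup R), F.IsComm →
    ∀ {f g : MvPowerSeries σ R}, ZC f → ZC g → fadd F f g = fadd F g f
  zc_fneg : ∀ {σ R : Type} [CommRing R] (F : FormalGroup R) {f : MvPowerSeries σ R},
    ZC f → ZC (fneg F f)
  fadd_fneg : ∀ {σ R : Type} [CommRing R] (F : FormalGroup R) {f : MvPowerSeries σ R},
    ZC f → fadd F f (fneg F f) = 0
  fneg_fadd : ∀ {σ R : Type} [CommRing R] (F : FormalGroup R) {f : MvPowerSeries σ R},
    ZC f → fadd F (fneg F f) f = 0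
  fadd_cancel_right : ∀ {σ R : Type} [CommRing R] (F : FormalGroup R)
    {f f' g : MvPowerSeries σ R}, ZC f → ZC f' → ZC g → fadd F f g = fadd F f' g → f = f'
  fsub_fadd : ∀ {σ R : Type} [CommRing R] (F : FormalGroup R) {f g : MvPowerSeries σ R},
    ZC f → ZC g → fadd F (fsub F f g) g = f
  fsub_self : ∀ {σ R : Type} [CommRing R] (F : FormalGroup R) {f g : MvPowerSeries σ R},
    ZC f → ZC g → (fsub F f g = 0 ↔ f = g)
  /-- substitution is additive -/
  subst_fadd : ∀ {σ τ R : Type} [Finite σ] [CommRing R] (F : FormalGroup R) {f g : MvPowerSeries σ R}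
    (a : σ → MvPowerSeries τ R), ZC f → ZC g → (∀ i, ZC (a i)) →
    MvPowerSeries.subst a (fadd F f g) =
      fadd F (MvPowerSeries.subst a f) (MvPowerSeries.subst a g)
  cmp_fadd : ∀ {σ R : Type} [CommRing R] (F : FormalGroup R) {f g : PowerSeries R}
    {a : MvPowerSeries σ R}, ZC f → ZC g → ZC a →
    cmp (fadd F f g) a = fadd F (cmp f a) (cmp g a)
  map_fadd : ∀ {σ R S : Type} [CommRing R] [CommRing S] (r : R →+* S) (F : FormalGroup R)
    {f g : MvPowerSeries σ R}, ZC f → ZC g →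
    MvPowerSeries.map r (fadd F f g) =
      fadd (F.map r) (MvPowerSeries.map r f) (MvPowerSeries.map r g)
  map_fneg : ∀ {σ R S : Type} [CommRing R] [CommRing S] (r : R →+* S) (F : FormalGroup R)
    {f : MvPowerSeries σ R}, ZC f →
    MvPowerSeries.map r (fneg F f) = fneg (F.map r) (MvPowerSeries.map r f)
  coeff_one_fadd : ∀ {R : Type} [CommRing R] (F : FormalGroup R) {f g : PowerSeries R},
    ZC f → ZC g → PowerSeries.coeff 1 (fadd F f g : PowerSeries R) =
      PowerSeries.coeff 1 f + PowerSeries.coeff 1 g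
  /-- congruences -/
  fadd_congr : ∀ {σ R : Type} [CommRing R] (I : Ideal R) (F : FormalGroup R)
    {f f' g g' : MvPowerSeries σ R}, ZC f → ZC f' → ZC g → ZC g' → EqM I f f' → EqM I g g' →
    EqM I (fadd F f g) (fadd F f' g')
  fneg_congr : ∀ {σ R : Type} [CommRing R] (I : Ideal R) (F : FormalGroup R)
    {f f' : MvPowerSeries σ R}, ZC f → ZC f' → EqM I f f' → EqM I (fneg F f) (fneg F f')
  cmp_congr : ∀ {σ R : Type} [CommRing R] (I : Ideal R) {φ φ' : PowerSeries R}
    {a a' : MvPowerSeries σ R}, ZC a → ZC a' → EqM I φ φ' → EqM I a a' →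
    EqM I (cmp φ a) (cmp φ' a')
  /-- `f +_F g = f + g + O(fg)` -/
  fadd_sub_mem : ∀ {σ R : Type} [CommRing R] (I J : Ideal R) (F : FormalGroup R)
    {f g : MvPowerSeries σ R}, ZC f → ZC g → InI I f → InI J g →
    InI (I * J) (fadd F f g - f - g)
  fneg_mem : ∀ {σ R : Type} [CommRing R] (I : Ideal R) (F : FormalGroup R)
    {f : MvPowerSeries σ R}, ZC f → InI I f → InI I (fneg F f)
  /-- if the difference is small, so is the formal difference, and conversely -/
  fsub_mem_iff : ∀ {σ R : Type} [CommRing R] (I : Ideal R) (F : FormalGroup R)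
    {f g : MvPowerSeries σ R}, ZC f → ZC g → (InI I (fsub F f g) ↔ EqM I f g)

/-- API B: homomorphisms of formal group laws. -/
structure ApiB : Prop where
  hom_fadd : ∀ {σ R : Type} [CommRing R] {F G : FormalGroup R} {φ : PowerSeries R},
    IsFGHom F G φ → ∀ {f g : MvPowerSeries σ R}, ZC f → ZC g →
    cmp φ (fadd F f g) = fadd G (cmp φ f) (cmp φ g)
  hom_fneg : ∀ {σ R : Type} [CommRing R] {F G : FormalGroup R} {φ : PowerSeries R},
    IsFGHom F G φ → ∀ {f : MvPowerSeries σ R}, ZC f → cmp φ (fneg F f) = fneg G (cmp φ f)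
  hom_iff : ∀ {R : Type} [CommRing R] {F G : FormalGroup R} {φ : PowerSeries R}, ZC φ →
    (IsFGHom F G φ ↔
      cmp φ (fadd F (MvPowerSeries.X 0 : MvPowerSeries (Fin 2) R) (MvPowerSeries.X 1)) =
      fadd G (cmp φ (MvPowerSeries.X 0 : MvPowerSeries (Fin 2) R))
        (cmp φ (MvPowerSeries.X 1 : MvPowerSeries (Fin 2) R)))
  hom_X : ∀ {R : Type} [CommRing R] (F : FormalGroup R), IsFGHom F F PowerSeries.X
  hom_zero : ∀ {R : Type} [CommRing R] (F G : FormalGroup R), IsFGHom F G 0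
  hom_comp : ∀ {R : Type} [CommRing R] {F G K : FormalGroup R} {φ ψ : PowerSeries R},
    IsFGHom F G φ → IsFGHom G K ψ → IsFGHom F K (cmp ψ φ)
  hom_add : ∀ {R : Type} [CommRing R] {F G : FormalGroup R}, G.IsComm →
    ∀ {φ ψ : PowerSeries R}, IsFGHom F G φ → IsFGHom F G ψ → IsFGHom F G (fadd G φ ψ)
  hom_neg : ∀ {R : Type} [CommRing R] {F G : FormalGroup R}, G.IsComm →
    ∀ {φ : PowerSeries R}, IsFGHom F G φ → IsFGHom F G (fneg G φ)
  hom_map : ∀ {R S : Type} [CommRing R] [CommRing S] (r : R →+* S) {F G : FormalGroup R}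
    {φ : PowerSeries R}, IsFGHom F G φ → IsFGHom (F.map r) (G.map r) (PowerSeries.map r φ)
  /-- inverse of an isomorphism -/
  hom_inv : ∀ {R : Type} [CommRing R] {F G : FormalGroup R} {φ : PowerSeries R},
    IsFGHom F G φ → IsUnit (PowerSeries.coeff 1 φ) →
    ∃ ψ : PowerSeries R, IsFGHom G F ψ ∧ cmp φ ψ = PowerSeries.X ∧ cmp ψ φ = PowerSeries.X
  /-- transport of structure: for `s` invertible there is `F' = s⁻¹ F(s, s)` -/
  transport : ∀ {R : Type} [CommRing R] (F : FormalGroup R) {s : PowerSeries R}, ZC s →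
    IsUnit (PowerSeries.coeff 1 s) → ∃ F' : FormalGroup R, IsFGHom F' F s ∧
      (F.IsComm → F'.IsComm)
  /-- `F'` is determined by `s : F' → F` invertible -/
  transport_unique : ∀ {R : Type} [CommRing R] {F F' F'' : FormalGroup R} {s : PowerSeries R},
    IsUnit (PowerSeries.coeff 1 s) → IsFGHom F' F s → IsFGHom F'' F s → F' = F''
  comm_map : ∀ {R S : Type} [CommRing R] [CommRing S] (r : R →+* S) (F : FormalGroup R),
    F.IsComm → (F.map r).IsComm
  cmp_map : ∀ {σ R S : Type} [CommRing R] [CommRing S] (r : R →+* S) {φ : PowerSeries R}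
    {a : MvPowerSeries σ R}, ZC a →
    MvPowerSeries.map r (cmp φ a) = cmp (PowerSeries.map r φ) (MvPowerSeries.map r a)
  cmp_assoc : ∀ {σ R : Type} [CommRing R] {φ ψ : PowerSeries R} {a : MvPowerSeries σ R},
    ZC ψ → ZC a → cmp φ (cmp ψ a) = cmp (cmp φ ψ : PowerSeries R) a
  zc_cmp : ∀ {σ R : Type} [CommRing R] {φ : PowerSeries R} {a : MvPowerSeries σ R},
    ZC φ → ZC a → ZC (cmp φ a)
  cmp_X : ∀ {R : Type} [CommRing R] (φ : PowerSeries R), cmp φ (PowerSeries.X : PowerSeries R) = φ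
  X_cmp : ∀ {σ R : Type} [CommRing R] {a : MvPowerSeries σ R}, ZC a →
    cmp PowerSeries.X a = a
  coeff_one_cmp : ∀ {R : Type} [CommRing R] {φ a : PowerSeries R}, ZC φ → ZC a →
    PowerSeries.coeff 1 (cmp φ a : PowerSeries R) = PowerSeries.coeff 1 φ * PowerSeries.coeff 1 a

/-- API C: the series `[m]_F`. -/
structure ApiC : Prop where
  zc_mul : ∀ {R : Type} [CommRing R] (F : FormalGroup R) (m : ℕ), ZC (mulSeries F m)
  mul_one : ∀ {R : Type} [CommRing R] (F : FormalGroup R), mulSeries F 1 = PowerSeries.X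
  mul_hom : ∀ {R : Type} [CommRing R] {F : FormalGroup R}, F.IsComm → ∀ m : ℕ,
    IsFGHom F F (mulSeries F m)
  mul_add : ∀ {R : Type} [CommRing R] (F : FormalGroup R) (a b : ℕ),
    mulSeries F (a + b) = fadd F (mulSeries F a) (mulSeries F b)
  mul_mul : ∀ {R : Type} [CommRing R] (F : FormalGroup R) (a b : ℕ),
    mulSeries F (a * b) = cmp (mulSeries F a) (mulSeries F b)
  mul_map : ∀ {R S : Type} [CommRing R] [CommRing S] (r : R →+* S) (F : FormalGroup R) (m : ℕ),
    PowerSeries.map r (mulSeries F m) = mulSeries (F.map r) m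
  coeff_one_mul : ∀ {R : Type} [CommRing R] (F : FormalGroup R) (m : ℕ),
    PowerSeries.coeff 1 (mulSeries F m) = (m : R)
  hom_mul : ∀ {R : Type} [CommRing R] {F G : FormalGroup R} {φ : PowerSeries R},
    IsFGHom F G φ → ∀ m : ℕ, cmp φ (mulSeries F m) = cmp (mulSeries G m) φ
  /-- `[p]` maps `I^i` to `I^{i+1}` when `p ∈ I` -/
  cmp_mul_mem : ∀ {σ R : Type} [CommRing R] (I : Ideal R) (F : FormalGroup R) (p : ℕ),
    (p : R) ∈ I → ∀ (i : ℕ), 1 ≤ i → ∀ {f : MvPowerSeries σ R}, ZC f → InI (I ^ i) f →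
    InI (I ^ (i + 1)) (cmp (mulSeries F p) f)
  /-- `[p^k]` maps `I^i` to `I^{i+k}` when `p ∈ I` -/
  cmp_mul_pow_mem : ∀ {σ R : Type} [CommRing R] (I : Ideal R) (F : FormalGroup R) (p k : ℕ),
    (p : R) ∈ I → ∀ (i : ℕ), 1 ≤ i → ∀ {f : MvPowerSeries σ R}, ZC f → InI (I ^ i) f →
    InI (I ^ (i + k)) (cmp (mulSeries F (p ^ k)) f)

/-- API D: rigidity. If `p ∈ I`, `⋂ I^i = 0`, `[p]_F ≡ X^q` mod `I` and `δ : F → G` has
coefficients in `I` then `δ = 0`; hence two homs congruent mod `I` agree. -/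
structure ApiD : Prop where
  rigid : ∀ {R : Type} [CommRing R] (I : Ideal R) (p q : ℕ), (p : R) ∈ I → 1 ≤ q →
    (⨅ i : ℕ, I ^ i) = ⊥ → ∀ (F G : FormalGroup R),
    EqM I (mulSeries F p) (PowerSeries.X ^ q : PowerSeries R) →
    ∀ δ : PowerSeries R, IsFGHom F G δ → InI I δ → δ = 0
  rigid₂ : ∀ {R : Type} [CommRing R] (I : Ideal R) (p q : ℕ), (p : R) ∈ I → 1 ≤ q →
    (⨅ i : ℕ, I ^ i) = ⊥ → ∀ (F G : FormalGroup R), G.IsComm →
    EqM I (mulSeries F p) (PowerSeries.X ^ q : PowerSeries R) →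
    ∀ δ δ' : PowerSeries R, IsFGHom F G δ → IsFGHom F G δ' → EqM I δ δ' → δ = δ'

namespace Spec

/-- B5: in characteristic `p` a hom whose coefficients at `p^i`, `i < h`, vanish factors through
the `h`-fold Frobenius. -/
def B5 : Prop :=
  ∀ (p : ℕ) [Fact p.Prime] (R : Type) [CommRing R] [CharP R p] (F G : FormalGroup R)
    (f : PowerSeries R), IsFGHom F G f → ∀ h : ℕ,
    (∀ i, i < h → PowerSeries.coeff (p ^ i) f = 0) →
    ∃ g : PowerSeries R, IsFGHom (F.map (iterateFrobenius R p h)) G g ∧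
      f = cmp g (PowerSeries.X ^ (p ^ h) : PowerSeries R)

/-- consequence of B5: only exponents divisible by `p^h` occur. -/
def B5' : Prop :=
  ∀ (p : ℕ) [Fact p.Prime] (R : Type) [CommRing R] [CharP R p] (F G : FormalGroup R)
    (f : PowerSeries R), IsFGHom F G f → ∀ h : ℕ,
    (∀ i, i < h → PowerSeries.coeff (p ^ i) f = 0) →
    ∀ j : ℕ, ¬ p ^ h ∣ j → PowerSeries.coeff j f = 0

/-- LAZ (Lazard's lemma over a field of characteristic `p`), coefficient form: a symmetric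
homogeneous 2-cocycle of degree `m`, `c i` = coefficient of `X^i Y^(m-i)`, is a multiple of
`C_m = ((X+Y)^m - X^m - Y^m)/ν(m)`, `ν(m) = p` if `m` is a power of `p`, else `1`. -/
def LAZ : Prop :=
  ∀ (p : ℕ) [Fact p.Prime] (k : Type) [Field k] [CharP k p] (m : ℕ), 2 ≤ m →
    ∀ c : ℕ → k, (∀ i, 1 ≤ i → i < m → c i = c (m - i)) →
    (∀ i j l : ℕ, 1 ≤ i → 1 ≤ j → 1 ≤ l → i + j + l = m →
      c (i + j) * ((i + j).choose i : k) = c i * ((j + l).choose j : k)) →
    ((∀ r : ℕ, m ≠ p ^ r) → ∃ b : k, ∀ i, 1 ≤ i → i < m → c i = b * (m.choose i : k)) ∧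
    (∀ r : ℕ, m = p ^ r → ∃ b : k, ∀ i, 1 ≤ i → i < m →
      c i = b * ((m.choose i / p : ℕ) : k))

/-- END: endomorphisms of the Honda law with prescribed leading term. -/
def END : Prop :=
  ∀ (p : ℕ) [Fact p.Prime] (n : ℕ), 1 ≤ n → ∀ (Γ : FormalGroup (GaloisField p n)), Γ.IsComm →
    mulSeries Γ p = PowerSeries.X ^ (p ^ n) →
    ∀ (ω : GaloisField p n) (s : ℕ), ∃ a : PowerSeries (GaloisField p n), IsFGHom Γ Γ a ∧
      (∀ i, i < p ^ s → PowerSeries.coeff i a = 0) ∧ PowerSeries.coeff (p ^ s) a = ω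

/-- SMALL: a small endomorphism is a `p`-power multiple. -/
def SMALL : Prop :=
  ∀ (p : ℕ) [Fact p.Prime] (n : ℕ), 1 ≤ n → ∀ (Γ : FormalGroup (GaloisField p n)),
    ∀ (K : ℕ) (b : PowerSeries (GaloisField p n)), IsFGHom Γ Γ b →
    (∀ i, i < p ^ (n * K) → PowerSeries.coeff i b = 0) →
    ∃ a : PowerSeries (GaloisField p n), IsFGHom Γ Γ a ∧ b = a ^ (p ^ (n * K))

end Spec

/-- Standing hypotheses at E-level. -/
structure Setup (p : ℕ) [Fact p.Prime] (n : ℕ) (Γ : FormalGroup (GaloisField p n))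
    (H : FormalGroup (LTRing p n)) : Prop where
  hn : 1 ≤ n
  commΓ : Γ.IsComm
  commH : H.IsComm
  hΓ : mulSeries Γ p = PowerSeries.X ^ (p ^ n)
  hH : IsUniversalDeformation p n Γ H

/-- the maximal ideal of `E`. -/
noncomputable def mE (p : ℕ) [Fact p.Prime] (n : ℕ) : Ideal (LTRing p n) :=
  RingHom.ker (LTRing.residue p n)

/-- `u_h = coeff_{p^h} [p]_H`. -/
noncomputable def uu {p : ℕ} [Fact p.Prime] {n : ℕ} (H : FormalGroup (LTRing p n)) (h : ℕ) :
    LTRing p n := PowerSeries.coeff (p ^ h) (mulSeries H p)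

namespace Spec

/-- RINGE: ring-theoretic facts on `E = W(k)[[u_1..u_{n-1}]]`. -/
def RINGE : Prop :=
  ∀ (p : ℕ) [Fact p.Prime] (n : ℕ), 1 ≤ n →
    IsDomain (LTRing p n) ∧ IsNoetherianRing (LTRing p n) ∧ IsLocalRing (LTRing p n) ∧
    (∀ _ : IsLocalRing (LTRing p n), IsLocalRing.maximalIdeal (LTRing p n) = mE p n) ∧
    IsAdicComplete (mE p n) (LTRing p n) ∧
    Function.Surjective (LTRing.residue p n) ∧
    (LTRing.residue p n).comp (algebraMap (WittVector p (GaloisField p n)) (LTRing p n)) =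
      WittVector.constantCoeff ∧
    (⨅ i : ℕ, (mE p n) ^ i) = ⊥ ∧
    mE p n = Ideal.span ({(p : LTRing p n)} ∪
      Set.range (fun i : Fin (n - 1) => (MvPowerSeries.X i : LTRing p n)))

/-- KRULL: `⋂_K (P + 𝔪^K) = P`. -/
def KRULL : Prop :=
  ∀ (p : ℕ) [Fact p.Prime] (n : ℕ), 1 ≤ n → ∀ J : Ideal (LTRing p n), ∀ f : LTRing p n,
    (∀ K : ℕ, f ∈ J ⊔ (mE p n) ^ K) → J ≤ mE p n → f ∈ J

/-- QUOTR: the quotients `B = E/J`, `J ≤ 𝔪`, satisfy the hypotheses of the universal property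
(so `IsUniversalDeformation` can be applied to them); stated as the resulting consequence. -/
def QUOTR : Prop :=
  ∀ (p : ℕ) [Fact p.Prime] (n : ℕ), ∀ (Γ : FormalGroup (GaloisField p n))
    (H : FormalGroup (LTRing p n)), Setup p n Γ H → ∀ (J : Ideal (LTRing p n)), J ≤ mE p n →
    ∀ (G : FormalGroup (LTRing p n ⧸ J)) (r : (LTRing p n ⧸ J) →+* GaloisField p n),
    r.comp (Ideal.Quotient.mk J) = LTRing.residue p n → G.map r = Γ →
    ∃! φ : LTRing p n →ₐ[WittVector p (GaloisField p n)] (LTRing p n ⧸ J),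
      r.comp φ.toRingHom = LTRing.residue p n ∧
      ∃ θ : PowerSeries (LTRing p n ⧸ J), IsFGHom (H.map φ.toRingHom) G θ ∧
        PowerSeries.map r θ = PowerSeries.X

/-- STAB: existence, uniqueness, composition, bijectivity of the stabilizer maps. -/
def STAB : Prop :=
  ∀ (p : ℕ) [Fact p.Prime] (n : ℕ), ∀ (Γ : FormalGroup (GaloisField p n))
    (H : FormalGroup (LTRing p n)), Setup p n Γ H →
    (∀ g, IsFGAut Γ g → ∃ φ, IsStabilizerMap p n H g φ) ∧
    (∀ g, IsFGAut Γ g → ∀ φ φ', IsStabilizerMap p n H g φ → IsStabilizerMap p n H g φ' → φ = φ') ∧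
    (∀ g g', IsFGAut Γ g → IsFGAut Γ g' → ∀ φ φ', IsStabilizerMap p n H g φ →
      IsStabilizerMap p n H g' φ' → IsStabilizerMap p n H (cmp g g') (φ.comp φ')) ∧
    (∀ g, IsFGAut Γ g → ∀ φ, IsStabilizerMap p n H g φ → Function.Bijective φ)

/-- MOVEE: `g = X +_Γ a^{Q^K}` moves everything by at most `𝔪^{K+1}`, and
`θ ≡ X +_H [p^K]_H ∘ ã` modulo `𝔪^{K+1}`. -/
def MOVEE : Prop :=
  ∀ (p : ℕ) [Fact p.Prime] (n : ℕ), ∀ (Γ : FormalGroup (GaloisField p n))
    (H : FormalGroup (LTRing p n)), Setup p n Γ H → ∀ (K : ℕ), 1 ≤ K →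
    ∀ a : PowerSeries (GaloisField p n), IsFGHom Γ Γ a →
    IsFGAut Γ (fadd Γ PowerSeries.X (a ^ (p ^ (n * K)))) ∧
    ∀ φ : LTRing p n →ₐ[WittVector p (GaloisField p n)] LTRing p n,
      (LTRing.residue p n).comp φ.toRingHom = LTRing.residue p n →
      ∀ θ : PowerSeries (LTRing p n), IsFGHom (H.map φ.toRingHom) H θ →
      PowerSeries.map (LTRing.residue p n) θ = fadd Γ PowerSeries.X (a ^ (p ^ (n * K))) →
      (∀ f, φ f - f ∈ (mE p n) ^ (K + 1)) ∧
      ∀ a' : PowerSeries (LTRing p n), ZC a' → PowerSeries.map (LTRing.residue p n) a' = a →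
        EqM ((mE p n) ^ (K + 1)) θ
          (fadd H PowerSeries.X (cmp (mulSeries H (p ^ K)) a' : PowerSeries (LTRing p n)))

/-- CONT: continuity of the action. -/
def CONT : Prop :=
  ∀ (p : ℕ) [Fact p.Prime] (n : ℕ), ∀ (Γ : FormalGroup (GaloisField p n))
    (H : FormalGroup (LTRing p n)), Setup p n Γ H → ∀ (K : ℕ), 1 ≤ K →
    ∀ g φ, IsFGAut Γ g →
      (∀ i : ℕ, i < p ^ (n * K) → PowerSeries.coeff i g = PowerSeries.coeff i PowerSeries.X) →
      IsStabilizerMap p n H g φ → ∀ f, φ f - f ∈ (mE p n) ^ (K + 1)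

/-- MAXGEN: `I_n = 𝔪`. -/
def MAXGEN : Prop :=
  ∀ (p : ℕ) [Fact p.Prime] (n : ℕ), ∀ (Γ : FormalGroup (GaloisField p n))
    (H : FormalGroup (LTRing p n)), Setup p n Γ H → heightIdeal p n H n = mE p n

/-- COORD: change of coordinates making `u_{j+1} = X_j + c_j`, `c_j ∈ pW`. -/
def COORD : Prop :=
  ∀ (p : ℕ) [Fact p.Prime] (n : ℕ), ∀ (Γ : FormalGroup (GaloisField p n))
    (H : FormalGroup (LTRing p n)), Setup p n Γ H →
    ∃ (Ψ : LTRing p n ≃ₐ[WittVector p (GaloisField p n)] LTRing p n)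
      (c : Fin (n - 1) → WittVector p (GaloisField p n)),
      (∀ j, WittVector.constantCoeff (c j) = 0) ∧
      (∀ j : Fin (n - 1), Ψ (uu H (j.1 + 1)) = MvPowerSeries.X j + MvPowerSeries.C (c j)) ∧
      (∀ f, LTRing.residue p n (Ψ f) = LTRing.residue p n f)

/-- PI: the quotients `E/I_h = k[[u_h, …, u_{n-1}]]`, `1 ≤ h < n`. -/
def PI : Prop :=
  ∀ (p : ℕ) [Fact p.Prime] (n : ℕ), ∀ (Γ : FormalGroup (GaloisField p n))
    (H : FormalGroup (LTRing p n)), Setup p n Γ H → ∀ h, 1 ≤ h → h < n →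
    ∃ π : LTRing p n →+* MvPowerSeries (Fin (n - h)) (GaloisField p n),
      Function.Surjective π ∧ RingHom.ker π = heightIdeal p n H h ∧
      (∀ c : WittVector p (GaloisField p n),
        π (MvPowerSeries.C c) = MvPowerSeries.C (WittVector.constantCoeff c)) ∧
      (∀ i : Fin (n - h), π (uu H (h + i.1)) = MvPowerSeries.X i) ∧
      (∀ f, MvPowerSeries.constantCoeff (π f) = LTRing.residue p n f)

/-- HVAN: modulo `I_h` only exponents divisible by `p^h` occur in `[p]_H`; `u_0 = p`. -/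
def HVAN : Prop :=
  ∀ (p : ℕ) [Fact p.Prime] (n : ℕ), ∀ (Γ : FormalGroup (GaloisField p n))
    (H : FormalGroup (LTRing p n)), Setup p n Γ H →
    uu H 0 = (p : LTRing p n) ∧
    ∀ h, h ≤ n → ∀ j, ¬ p ^ h ∣ j →
      PowerSeries.coeff j (mulSeries H p) ∈ heightIdeal p n H h

/-- HSTABLE: the height ideals are stable under the whole automorphism group. -/
def HSTABLE : Prop :=
  ∀ (p : ℕ) [Fact p.Prime] (n : ℕ), ∀ (Γ : FormalGroup (GaloisField p n))
    (H : FormalGroup (LTRing p n)), Setup p n Γ H → ∀ h, h ≤ n → ∀ g φ, IsFGAut Γ g →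
    IsStabilizerMap p n H g φ →
    Ideal.comap φ.toRingHom (heightIdeal p n H h) = heightIdeal p n H h ∧
    (h < n → ∃ c : LTRing p n, IsUnit c ∧ φ (uu H h) - c * uu H h ∈ heightIdeal p n H h)

/-- MINPR: minimal primes of stable ideals are stable for a smaller group. -/
def MINPR : Prop :=
  ∀ (p : ℕ) [Fact p.Prime] (n : ℕ), ∀ (Γ : FormalGroup (GaloisField p n))
    (H : FormalGroup (LTRing p n)), Setup p n Γ H → ∀ (M : ℕ) (J : Ideal (LTRing p n)),
    IsStableIdeal p n Γ H M J →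
    ∃ M', M ≤ M' ∧ ∀ P ∈ J.minimalPrimes, IsStableIdeal p n Γ H M' P

end Spec

/-- the maximal ideal of `k[[X_0..X_{d-1}]]`. -/
noncomputable def mR (k : Type) [Field k] (d : ℕ) : Ideal (MvPowerSeries (Fin d) k) :=
  RingHom.ker (MvPowerSeries.constantCoeff : MvPowerSeries (Fin d) k →+* k)

/-- the law `F` over `R = k[[X_0..X_{d-1}]]` has stabilizer moves fixing the ideal `P`. -/
def HasMoves (p : ℕ) [Fact p.Prime] (n : ℕ) (Γ : FormalGroup (GaloisField p n)) {d : ℕ}
    (F : FormalGroup (MvPowerSeries (Fin d) (GaloisField p n)))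
    (P : Ideal (MvPowerSeries (Fin d) (GaloisField p n))) : Prop :=
  ∃ K₀ : ℕ, ∀ K, K₀ ≤ K → ∀ a : PowerSeries (GaloisField p n), IsFGHom Γ Γ a →
    ∃ (φ : MvPowerSeries (Fin d) (GaloisField p n) →+* MvPowerSeries (Fin d) (GaloisField p n))
      (θ : PowerSeries (MvPowerSeries (Fin d) (GaloisField p n))),
      (∀ c, φ (MvPowerSeries.C c) = MvPowerSeries.C c) ∧
      (∀ f, φ f ∈ P ↔ f ∈ P) ∧
      (∀ f, φ f - f ∈ (mR (GaloisField p n) d) ^ (K + 1)) ∧
      IsFGHom (F.map φ) F θ ∧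
      PowerSeries.map MvPowerSeries.constantCoeff θ =
        (fadd Γ PowerSeries.X (a ^ (p ^ (n * K))) : PowerSeries (GaloisField p n)) ∧
      EqM ((mR (GaloisField p n) d) ^ (K + 1)) θ
        (fadd F PowerSeries.X (cmp (mulSeries F (p ^ K)) (PowerSeries.map MvPowerSeries.C a) :
          PowerSeries (MvPowerSeries (Fin d) (GaloisField p n))))

/-- the same over `E`. -/
def HasMoves0 (p : ℕ) [Fact p.Prime] (n : ℕ) (Γ : FormalGroup (GaloisField p n))
    (H : FormalGroup (LTRing p n)) (P : Ideal (LTRing p n)) : Prop :=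
  ∃ K₀ : ℕ, ∀ K, K₀ ≤ K → ∀ a : PowerSeries (GaloisField p n), IsFGHom Γ Γ a →
    ∃ (φ : LTRing p n →ₐ[WittVector p (GaloisField p n)] LTRing p n)
      (θ : PowerSeries (LTRing p n)),
      (∀ f, φ f ∈ P ↔ f ∈ P) ∧
      (∀ f, φ f - f ∈ (mE p n) ^ (K + 1)) ∧
      IsFGHom (H.map φ.toRingHom) H θ ∧
      PowerSeries.map (LTRing.residue p n) θ =
        (fadd Γ PowerSeries.X (a ^ (p ^ (n * K))) : PowerSeries (GaloisField p n)) ∧
      ∀ a' : PowerSeries (LTRing p n), ZC a' → PowerSeries.map (LTRing.residue p n) a' = a →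
        EqM ((mE p n) ^ (K + 1)) θ
          (fadd H PowerSeries.X (cmp (mulSeries H (p ^ K)) a' : PowerSeries (LTRing p n)))

/-- the ideal generated by the variables of index `< i` in `k[[X_0..X_{d-1}]]`. -/
noncomputable def varIdeal (k : Type) [Field k] (d i : ℕ) : Ideal (MvPowerSeries (Fin d) k) :=
  Ideal.span {f | ∃ l : Fin d, l.1 < i ∧ f = MvPowerSeries.X l}

/-- data over `R = k[[X_0..X_{d-1}]]` of the stratum `h ≥ 1` (`d = n - h`). -/
structure Strat (p : ℕ) [Fact p.Prime] (n h d : ℕ) (Γ : FormalGroup (GaloisField p n))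
    (F : FormalGroup (MvPowerSeries (Fin d) (GaloisField p n))) : Prop where
  hh : 1 ≤ h
  hd : 1 ≤ d
  hn : h + d = n
  commΓ : Γ.IsComm
  commF : F.IsComm
  hΓ : mulSeries Γ p = PowerSeries.X ^ (p ^ n)
  red : F.map MvPowerSeries.constantCoeff = Γ
  c2 : ∀ i : Fin d, PowerSeries.coeff (p ^ (h + i.1)) (mulSeries F p) = MvPowerSeries.X i
  c3 : ∀ i, i ≤ d → ∀ j, ¬ p ^ (h + i) ∣ j →
    PowerSeries.coeff j (mulSeries F p) ∈ varIdeal (GaloisField p n) d i

/-- normalised data over `E` (stratum `h = 0`). -/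
structure Strat0 (p : ℕ) [Fact p.Prime] (n : ℕ) (Γ : FormalGroup (GaloisField p n))
    (H : FormalGroup (LTRing p n)) (c : Fin (n - 1) → WittVector p (GaloisField p n)) : Prop where
  hn : 1 ≤ n
  commΓ : Γ.IsComm
  commH : H.IsComm
  hΓ : mulSeries Γ p = PowerSeries.X ^ (p ^ n)
  red : H.map (LTRing.residue p n) = Γ
  hc : ∀ j, WittVector.constantCoeff (c j) = 0
  c2 : ∀ j : Fin (n - 1), uu H (j.1 + 1) = MvPowerSeries.X j + MvPowerSeries.C (c j)
  c3 : ∀ i, i ≤ n → ∀ j, ¬ p ^ i ∣ j →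
    PowerSeries.coeff j (mulSeries H p) ∈ heightIdeal p n H i

namespace Spec

/-- MOVES: the data (`HasMoves`) over `E/I_h` for a stable prime `P ⊇ I_h`. -/
def MOVES : Prop :=
  ∀ (p : ℕ) [Fact p.Prime] (n : ℕ), ∀ (Γ : FormalGroup (GaloisField p n))
    (H : FormalGroup (LTRing p n)), Setup p n Γ H →
    ∀ h d, 1 ≤ h → 1 ≤ d → h + d = n →
    ∀ π : LTRing p n →+* MvPowerSeries (Fin d) (GaloisField p n),
      Function.Surjective π → RingHom.ker π = heightIdeal p n H h →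
      (∀ c : WittVector p (GaloisField p n),
        π (MvPowerSeries.C c) = MvPowerSeries.C (WittVector.constantCoeff c)) →
      (∀ i : Fin d, π (uu H (h + i.1)) = MvPowerSeries.X i) →
      (∀ f, MvPowerSeries.constantCoeff (π f) = LTRing.residue p n f) →
    ∀ (M : ℕ) (P : Ideal (LTRing p n)), P.IsPrime → IsStableIdeal p n Γ H M P →
      heightIdeal p n H h ≤ P →
      Strat p n h d Γ (H.map π) ∧ HasMoves p n Γ (H.map π) (P.map π)

/-- MOVES0: the normalised data over `E` for a stable prime `P`. -/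
def MOVES0 : Prop :=
  ∀ (p : ℕ) [Fact p.Prime] (n : ℕ), ∀ (Γ : FormalGroup (GaloisField p n))
    (H : FormalGroup (LTRing p n)), Setup p n Γ H →
    ∀ (M : ℕ) (P : Ideal (LTRing p n)), P.IsPrime → IsStableIdeal p n Γ H M P →
    ∃ (Ψ : LTRing p n ≃ₐ[WittVector p (GaloisField p n)] LTRing p n)
      (c : Fin (n - 1) → WittVector p (GaloisField p n)),
      Strat0 p n Γ (H.map (Ψ : LTRing p n →+* LTRing p n)) c ∧
      HasMoves0 p n Γ (H.map (Ψ : LTRing p n →+* LTRing p n))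
        (P.map (Ψ : LTRing p n →+* LTRing p n)) ∧
      (∀ i, heightIdeal p n (H.map (Ψ : LTRing p n →+* LTRing p n)) i =
        (heightIdeal p n H i).map (Ψ : LTRing p n →+* LTRing p n))

/-- KEYp (instalment 2): the heart, stratum `h ≥ 1`. -/
def KEYp : Prop :=
  ∀ (p : ℕ) [Fact p.Prime] (n h d : ℕ) (Γ : FormalGroup (GaloisField p n))
    (F : FormalGroup (MvPowerSeries (Fin d) (GaloisField p n))), Strat p n h d Γ F →
    ∀ P : Ideal (MvPowerSeries (Fin d) (GaloisField p n)), P.IsPrime → HasMoves p n Γ F P →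
    (∀ l : Fin d, l.1 = 0 → (MvPowerSeries.X l : MvPowerSeries (Fin d) (GaloisField p n)) ∉ P) →
    ∀ r, 1 ≤ r → r ≤ d →
      P ≤ varIdeal (GaloisField p n) d (d - r + 1) →
      varIdeal (GaloisField p n) d (d - r + 1) ≤
        (P ⊔ varIdeal (GaloisField p n) d 1).radical →
      P = ⊥

/-- KEY0 (instalment 2): the heart, stratum `h = 0`. -/
def KEY0 : Prop :=
  ∀ (p : ℕ) [Fact p.Prime] (n : ℕ) (Γ : FormalGroup (GaloisField p n))
    (H : FormalGroup (LTRing p n)) (c : Fin (n - 1) → WittVector p (GaloisField p n)),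
    Strat0 p n Γ H c →
    ∀ P : Ideal (LTRing p n), P.IsPrime → HasMoves0 p n Γ H P → (p : LTRing p n) ∉ P →
    ∀ h, 1 ≤ h → h ≤ n → P ≤ heightIdeal p n H h →
      heightIdeal p n H h ≤ (P ⊔ heightIdeal p n H 1).radical →
      P = ⊥

end Spec

end Crest.Agent.LT3
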