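/- rid 227 (S0351): ring-theoretic facts on the Lubin-Tate ring. -/
import Crest.Agent.LT3Spec

set_option autoImplicit false
open Crest.LubinTate

namespace Crest.Agent.LT3RINGE
open Crest.Agent.LT3

section General

variable {d : ℕ} {W : Type} [CommRing W]

/-- coefficient of `f`, kept only when the least index of the support is `i`. -/
noncomputable def slice (f : MvPowerSeries (Fin d) W) (i : Fin d) :
    MvPowerSeries (Fin d) W :=
  open Classical in
  fun e => if ∀ j, j < i → (e + Finsupp.single i 1 : Fin d →₀ ℕ) j = 0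
    then MvPowerSeries.coeff (e + Finsupp.single i 1) f else 0

open Classical in
theorem coeff_slice (f : MvPowerSeries (Fin d) W) (i : Fin d) (e : Fin d →₀ ℕ) :
    MvPowerSeries.coeff e (slice f i) =
      if ∀ j, j < i → (e + Finsupp.single i 1 : Fin d →₀ ℕ) j = 0
      then MvPowerSeries.coeff (e + Finsupp.single i 1) f else 0 := by
  rfl

theorem coeff_X_mul' (g : MvPowerSeries (Fin d) W) (i : Fin d) (e : Fin d →₀ ℕ) :
    MvPowerSeries.coeff e (MvPowerSeries.X i * g) =
      if e i = 0 then 0 else MvPowerSeries.coeff (e - Finsupp.single i 1) g := by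
  classical
  split_ifs with h
  · exact (MvPowerSeries.X_dvd_iff.mp (Dvd.intro g rfl)) e h
  · have h2 : e = Finsupp.single i 1 + (e - Finsupp.single i 1) := by
      rw [add_tsub_cancel_of_le]
      rw [Finsupp.single_le_iff]; omega
    conv_lhs => rw [h2]
    rw [MvPowerSeries.X, MvPowerSeries.coeff_add_monomial_mul, one_mul]

theorem decomp (f : MvPowerSeries (Fin d) W) :
    f = MvPowerSeries.C (MvPowerSeries.constantCoeff f) +
      ∑ i : Fin d, MvPowerSeries.X i * slice f i := by
  classical
  ext e
  rw [map_add, map_sum, MvPowerSeries.coeff_C]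
  by_cases he : e = 0
  · subst he
    rw [if_pos rfl, Finset.sum_eq_zero]
    · simp
    · intro i _
      rw [coeff_X_mul']
      simp
  · rw [if_neg he, zero_add]
    -- least index
    have hex : ∃ i, e i ≠ 0 := by
      by_contra hcon
      push Not at hcon
      exact he (Finsupp.ext hcon)
    obtain ⟨i, hi, hmin⟩ : ∃ i, e i ≠ 0 ∧ ∀ j, j < i → e j = 0 := by
      have hne : (Finset.univ.filter (fun i => e i ≠ 0)).Nonempty := by
        obtain ⟨i, hi⟩ := hex
        exact ⟨i, by simp [hi]⟩
      refine ⟨(Finset.univ.filter (fun i => e i ≠ 0)).min' hne, ?_, ?_⟩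
      · have := Finset.min'_mem _ hne
        simpa using this
      · intro j hj
        by_contra hcon
        have := Finset.min'_le (Finset.univ.filter (fun i => e i ≠ 0)) j (by simp [hcon])
        exact absurd (lt_of_lt_of_le hj this) (lt_irrefl _)
    rw [Finset.sum_eq_single i]
    · rw [coeff_X_mul', if_neg hi, coeff_slice]
      have h2 : e - Finsupp.single i 1 + Finsupp.single i 1 = e := by
        rw [tsub_add_cancel_of_le]
        rw [Finsupp.single_le_iff]; omega
      rw [h2, if_pos hmin]
    · intro j _ hj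
      rw [coeff_X_mul']
      split_ifs with h0
      · rfl
      · rw [coeff_slice]
        have h2 : e - Finsupp.single j 1 + Finsupp.single j 1 = e := by
          rw [tsub_add_cancel_of_le]
          rw [Finsupp.single_le_iff]; omega
        rw [h2, if_neg]
        intro hcon
        rcases lt_trichotomy i j with h | h | h
        · exact hi (hcon i h)
        · exact hj h.symm
        · exact h0 (hmin j h)
    · intro h; exact absurd (Finset.mem_univ i) h

/-- the ideal of series with `coeff_e f ∈ (p)^{N-|e|}`. -/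
def DD (I : Ideal W) (N : ℕ) : Ideal (MvPowerSeries (Fin d) W) where
  carrier := {f | ∀ e, MvPowerSeries.coeff e f ∈ I ^ (N - e.degree)}
  zero_mem' := by intro e; simp
  add_mem' := by
    intro f g hf hg e
    rw [map_add]
    exact Ideal.add_mem _ (hf e) (hg e)
  smul_mem' := by
    classical
    intro c f hf e
    rw [smul_eq_mul, MvPowerSeries.coeff_mul]
    refine Ideal.sum_mem _ ?_
    rintro ⟨a, b⟩ hab
    rw [Finset.HasAntidiagonal.mem_antidiagonal] at hab
    refine Ideal.mul_mem_left _ _ (Ideal.pow_le_pow_right ?_ (hf b))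
    have : e.degree = a.degree + b.degree := by rw [← hab]; simp
    omega

theorem mem_DD {I : Ideal W} {N : ℕ} {f : MvPowerSeries (Fin d) W} :
    f ∈ DD I N ↔ ∀ e, MvPowerSeries.coeff e f ∈ I ^ (N - e.degree) := Iff.rfl

theorem DD_mul (I : Ideal W) (a b : ℕ) :
    (DD I a : Ideal (MvPowerSeries (Fin d) W)) * DD I b ≤ DD I (a + b) := by
  classical
  rw [Ideal.mul_le]
  intro f hf g hg e
  rw [MvPowerSeries.coeff_mul]
  refine Ideal.sum_mem _ ?_
  rintro ⟨x, y⟩ hxy
  rw [Finset.HasAntidiagonal.mem_antidiagonal] at hxy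
  have h1 := Ideal.mul_mem_mul (hf x) (hg y)
  rw [← pow_add] at h1
  refine Ideal.pow_le_pow_right ?_ h1
  have : e.degree = x.degree + y.degree := by rw [← hxy]; simp
  omega

theorem DD_zero (I : Ideal W) : (DD I 0 : Ideal (MvPowerSeries (Fin d) W)) = ⊤ := by
  rw [eq_top_iff]
  intro f _ e
  simp

/-- `𝔪 = D_1` -/
theorem DD_one_mem (I : Ideal W) (f : MvPowerSeries (Fin d) W) :
    f ∈ (DD I 1 : Ideal (MvPowerSeries (Fin d) W)) ↔ MvPowerSeries.constantCoeff f ∈ I := by
  constructor
  · intro h
    have := h 0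
    simpa using this
  · intro h e
    by_cases he : e = 0
    · subst he
      simpa using h
    · have : 1 - e.degree = 0 := by
        have : e.degree ≠ 0 := by
          intro h0
          exact he (Finsupp.degree_eq_zero_iff e |>.mp h0)
        omega
      rw [this, pow_zero]
      simp

theorem pow_DD_le (I : Ideal W) (N : ℕ) :
    (DD I 1 : Ideal (MvPowerSeries (Fin d) W)) ^ N ≤ DD I N := by
  induction N with
  | zero => rw [DD_zero]; exact le_top
  | succ N ih =>
    rw [pow_succ]
    exact (Ideal.mul_mono_left ih).trans (DD_mul I N 1)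

theorem C_mem_DD_one {I : Ideal W} {c : W} (hc : c ∈ I) :
    (MvPowerSeries.C c : MvPowerSeries (Fin d) W) ∈ DD I 1 := by
  rw [DD_one_mem]; simpa using hc

theorem C_pow_mem {I : Ideal W} {N : ℕ} {c : W} (hc : c ∈ I ^ N) :
    (MvPowerSeries.C c : MvPowerSeries (Fin d) W) ∈ (DD I 1) ^ N := by
  have h1 : (I ^ N).map (MvPowerSeries.C : W →+* MvPowerSeries (Fin d) W) ≤ (DD I 1) ^ N := by
    rw [Ideal.map_pow]
    refine Ideal.pow_right_mono ?_ N
    rw [Ideal.map_le_iff_le_comap]
    intro x hx
    exact C_mem_DD_one hx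
  exact h1 (Ideal.mem_map_of_mem _ hc)

theorem DD_le_pow (I : Ideal W) (N : ℕ) :
    (DD I N : Ideal (MvPowerSeries (Fin d) W)) ≤ DD I 1 ^ N := by
  induction N with
  | zero => rw [pow_zero, Ideal.one_eq_top]; exact le_top
  | succ N ih =>
    intro f hf
    rw [decomp f]
    refine Ideal.add_mem _ ?_ (Ideal.sum_mem _ ?_)
    · refine C_pow_mem ?_
      have := hf 0
      simpa using this
    · intro i _
      rw [pow_succ']
      refine Ideal.mul_mem_mul ?_ (ih ?_)
      · rw [DD_one_mem]; simp
      · intro e
        classical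
        rw [coeff_slice]
        split_ifs
        · have := hf (e + Finsupp.single i 1)
          have h2 : (e + Finsupp.single i 1).degree = e.degree + 1 := by simp
          rw [h2] at this
          have h3 : N + 1 - (e.degree + 1) = N - e.degree := by omega
          rwa [h3] at this
        · exact Ideal.zero_mem _

theorem DD_eq_pow (I : Ideal W) (N : ℕ) :
    (DD I 1 : Ideal (MvPowerSeries (Fin d) W)) ^ N = DD I N :=
  le_antisymm (pow_DD_le I N) (DD_le_pow I N)

theorem precomplete (I : Ideal W) [IsPrecomplete I W] :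
    IsPrecomplete (DD I 1 : Ideal (MvPowerSeries (Fin d) W)) (MvPowerSeries (Fin d) W) := by
  refine ⟨?_⟩
  intro f hf
  -- hf : m ≤ n → f m ≡ f n mod 𝔪^m
  have hf' : ∀ {m n}, m ≤ n → ∀ e, MvPowerSeries.coeff e (f m) - MvPowerSeries.coeff e (f n) ∈
      I ^ (m - e.degree) := by
    intro m n hmn e
    have h1 := hf hmn
    rw [SModEq.sub_mem, smul_eq_mul, Ideal.mul_top, DD_eq_pow] at h1
    have := h1 e
    rwa [map_sub] at this
  -- coefficientwise limit
  have hlim : ∀ e : Fin d →₀ ℕ, ∃ L : W, ∀ n, MvPowerSeries.coeff e (f (n + e.degree)) - L ∈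
      I ^ n := by
    intro e
    obtain ⟨L, hL⟩ := IsPrecomplete.prec' (I := I) (M := W)
      (fun n => MvPowerSeries.coeff e (f (n + e.degree))) (by
        intro m n hmn
        rw [SModEq.sub_mem, smul_eq_mul, Ideal.mul_top]
        have := hf' (show m + e.degree ≤ n + e.degree by omega) e
        have h3 : m + e.degree - e.degree = m := by omega
        rwa [h3] at this)
    refine ⟨L, fun n => ?_⟩
    have := hL n
    rwa [SModEq.sub_mem, smul_eq_mul, Ideal.mul_top] at this
  choose L hL using hlim
  obtain ⟨g, hg⟩ : ∃ g : MvPowerSeries (Fin d) W, ∀ e, MvPowerSeries.coeff e g = L e :=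
    ⟨fun e => L e, fun e => rfl⟩
  refine ⟨g, fun n => ?_⟩
  rw [SModEq.sub_mem, smul_eq_mul, Ideal.mul_top, DD_eq_pow]
  intro e
  rw [map_sub, hg]
  by_cases h : e.degree ≤ n
  · have := hL e (n - e.degree)
    have h3 : n - e.degree + e.degree = n := by omega
    rwa [h3] at this
  · have h3 : n - e.degree = 0 := by omega
    rw [h3, pow_zero]
    simp

end General

section LT

variable (p : ℕ) [Fact p.Prime] (n : ℕ)

theorem mem_mE (f : LTRing p n) :
    f ∈ mE p n ↔ MvPowerSeries.constantCoeff f ∈
      Ideal.span {(p : WittVector p (GaloisField p n))} := by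
  rw [← WittVector.ker_constantCoeff]
  rfl

theorem mE_eq : mE p n = DD (Ideal.span {(p : WittVector p (GaloisField p n))}) 1 := by
  ext f
  rw [mem_mE, DD_one_mem]

theorem residue_surj : Function.Surjective (LTRing.residue p n) := by
  intro x
  obtain ⟨y, hy⟩ := WittVector.constantCoeff_surjective (p := p) (R := GaloisField p n) x
  refine ⟨MvPowerSeries.C y, ?_⟩
  simp [LTRing.residue, hy]

theorem mE_ne_top : mE p n ≠ ⊤ := by
  exact RingHom.ker_ne_top _

theorem mE_span : mE p n = Ideal.span ({(p : LTRing p n)} ∪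
      Set.range (fun i : Fin (n - 1) => (MvPowerSeries.X i : LTRing p n))) := by
  apply le_antisymm
  · intro f hf
    rw [decomp f]
    refine Ideal.add_mem _ ?_ (Ideal.sum_mem _ ?_)
    · rw [mem_mE, Ideal.mem_span_singleton] at hf
      obtain ⟨c, hc⟩ := hf
      rw [hc, map_mul]
      refine Ideal.mul_mem_right _ _ (Ideal.subset_span ?_)
      left
      simp
    · intro i _
      refine Ideal.mul_mem_right _ _ (Ideal.subset_span ?_)
      right
      exact ⟨i, rfl⟩
  · rw [Ideal.span_le]
    rintro x (hx | ⟨i, rfl⟩)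
    · rw [Set.mem_singleton_iff] at hx
      subst hx
      rw [SetLike.mem_coe, mem_mE]
      rw [map_natCast]
      exact Ideal.mem_span_singleton_self _
    · rw [SetLike.mem_coe, mem_mE]
      simp

end LT

theorem main : Spec.RINGE := by
  intro p _ n hn
  have hN : IsNoetherianRing (LTRing p n) := inferInstance
  have hL : IsLocalRing (LTRing p n) := inferInstance
  have hD : IsDomain (LTRing p n) := by
    have : NoZeroDivisors (LTRing p n) := inferInstance
    have : Nontrivial (LTRing p n) := inferInstance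
    exact NoZeroDivisors.to_isDomain _
  refine ⟨hD, hN, hL, ?_, ?_, residue_surj p n, ?_, ?_, mE_span p n⟩
  · intro _
    symm
    apply IsLocalRing.eq_maximalIdeal
    exact RingHom.ker_isMaximal_of_surjective _ (residue_surj p n)
  · rw [mE_eq]
    have : IsPrecomplete (DD (Ideal.span {(p : WittVector p (GaloisField p n))}) 1 :
      Ideal (LTRing p n)) (LTRing p n) := precomplete _
    have : IsHausdorff (DD (Ideal.span {(p : WittVector p (GaloisField p n))}) 1 :
      Ideal (LTRing p n)) (LTRing p n) := by
      apply IsHausdorff.of_isLocalRing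
      rw [← mE_eq]; exact mE_ne_top p n
    exact { }
  · ext x
    simp [LTRing.residue, MvPowerSeries.algebraMap_apply]
  · exact Ideal.iInf_pow_eq_bot_of_isLocalRing _ (mE_ne_top p n)

theorem krull : Spec.KRULL := by
  intro p _ n hn J f hf hJ
  have hH : IsHausdorff (mE p n) (LTRing p n ⧸ J) :=
    IsHausdorff.of_isLocalRing (mE p n) (LTRing p n ⧸ J) (mE_ne_top p n)
  have h0 : (Ideal.Quotient.mk J f) = 0 := by
    apply hH.haus'
    intro K
    rw [SModEq.zero]
    have h1 := hf K
    rw [Submodule.mem_sup] at h1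
    obtain ⟨a, ha, b, hb, rfl⟩ := h1
    rw [map_add, Ideal.Quotient.eq_zero_iff_mem.mpr ha, zero_add]
    have h2 : (Ideal.Quotient.mk J b) = b • (1 : LTRing p n ⧸ J) := by
      rw [← map_one (Ideal.Quotient.mk J)]
      change _ = Ideal.Quotient.mk J (b • 1)
      rw [smul_eq_mul, mul_one]
    rw [h2]
    exact Submodule.smul_mem_smul hb Submodule.mem_top
  exact Ideal.Quotient.eq_zero_iff_mem.mp h0

theorem main' : Spec.RINGE ∧ Spec.KRULL := ⟨main, krull⟩

end Crest.Agent.LT3RINGE
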