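/- rid 227 (S0351): specification file, instalment 2 (characteristic p strata, analytic part).
   One Prop `Spec2.XXX` per module. -/
import Crest.Agent.LT3Spec

set_option autoImplicit false
open Crest.LubinTate
open Crest Crest.GeometryTopology

namespace Crest.Agent.LT3

/-- all coefficients of norm `≤ 1`. -/
def Int1 {σ : Type} {C : Type} [NormedField C] (f : MvPowerSeries σ C) : Prop :=
  ∀ e, ‖MvPowerSeries.coeff e f‖ ≤ 1

/-- evaluation of a power series in finitely many variables. -/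
noncomputable def evm {σ : Type} [Fintype σ] {C : Type} [NormedField C] (f : MvPowerSeries σ C)
    (z : σ → C) : C :=
  ∑' e : σ →₀ ℕ, MvPowerSeries.coeff e f * ∏ i, z i ^ e i

/-- evaluation of a one-variable power series. -/
noncomputable def ev {C : Type} [NormedField C] (f : PowerSeries C) (z : C) : C :=
  ∑' j : ℕ, PowerSeries.coeff j f * z ^ j

/-- API E1: evaluation over a complete ultrametric field: algebra and bounds. -/
structure ApiE1 : Prop where
  hasSum_evm : ∀ {C : Type} [NontriviallyNormedField C] [CompleteSpace C] [IsUltrametricDist C]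
    {σ : Type} [Fintype σ] {f : MvPowerSeries σ C} {z : σ → C}, Int1 f → (∀ i, ‖z i‖ < 1) →
    HasSum (fun e : σ →₀ ℕ => MvPowerSeries.coeff e f * ∏ i, z i ^ e i) (evm f z)
  hasSum_ev : ∀ {C : Type} [NontriviallyNormedField C] [CompleteSpace C] [IsUltrametricDist C]
    {f : PowerSeries C} {z : C}, Int1 f → ‖z‖ < 1 →
    HasSum (fun j : ℕ => PowerSeries.coeff j f * z ^ j) (ev f z)
  ev_eq : ∀ {C : Type} [NontriviallyNormedField C] [CompleteSpace C] [IsUltrametricDist C]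
    (f : PowerSeries C) (z : C), evm f (fun _ : Unit => z) = ev f z
  evm_add : ∀ {C : Type} [NontriviallyNormedField C] [CompleteSpace C] [IsUltrametricDist C]
    {σ : Type} [Fintype σ] {f g : MvPowerSeries σ C} {z : σ → C}, Int1 f → Int1 g →
    (∀ i, ‖z i‖ < 1) → evm (f + g) z = evm f z + evm g z
  evm_sub : ∀ {C : Type} [NontriviallyNormedField C] [CompleteSpace C] [IsUltrametricDist C]
    {σ : Type} [Fintype σ] {f g : MvPowerSeries σ C} {z : σ → C}, Int1 f → Int1 g →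
    (∀ i, ‖z i‖ < 1) → evm (f - g) z = evm f z - evm g z
  evm_mul : ∀ {C : Type} [NontriviallyNormedField C] [CompleteSpace C] [IsUltrametricDist C]
    {σ : Type} [Fintype σ] {f g : MvPowerSeries σ C} {z : σ → C}, Int1 f → Int1 g →
    (∀ i, ‖z i‖ < 1) → evm (f * g) z = evm f z * evm g z
  ev_add : ∀ {C : Type} [NontriviallyNormedField C] [CompleteSpace C] [IsUltrametricDist C]
    {f g : PowerSeries C} {z : C}, Int1 f → Int1 g → ‖z‖ < 1 → ev (f + g) z = ev f z + ev g z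
  ev_mul : ∀ {C : Type} [NontriviallyNormedField C] [CompleteSpace C] [IsUltrametricDist C]
    {f g : PowerSeries C} {z : C}, Int1 f → Int1 g → ‖z‖ < 1 → ev (f * g) z = ev f z * ev g z
  evm_C : ∀ {C : Type} [NontriviallyNormedField C] [CompleteSpace C] [IsUltrametricDist C]
    {σ : Type} [Fintype σ] (c : C) (z : σ → C), evm (MvPowerSeries.C c) z = c
  evm_X : ∀ {C : Type} [NontriviallyNormedField C] [CompleteSpace C] [IsUltrametricDist C]
    {σ : Type} [Fintype σ] (i : σ) (z : σ → C), evm (MvPowerSeries.X i) z = z i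
  ev_C : ∀ {C : Type} [NontriviallyNormedField C] [CompleteSpace C] [IsUltrametricDist C]
    (c z : C), ev (PowerSeries.C c) z = c
  ev_X : ∀ {C : Type} [NontriviallyNormedField C] [CompleteSpace C] [IsUltrametricDist C]
    (z : C), ev (PowerSeries.X : PowerSeries C) z = z
  /-- values of polynomials -/
  ev_poly : ∀ {C : Type} [NontriviallyNormedField C] [CompleteSpace C] [IsUltrametricDist C]
    (f : Polynomial C) (z : C), ev (f : PowerSeries C) z = f.eval z
  evm_le_one : ∀ {C : Type} [NontriviallyNormedField C] [CompleteSpace C] [IsUltrametricDist C]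
    {σ : Type} [Fintype σ] {f : MvPowerSeries σ C} {z : σ → C}, Int1 f → (∀ i, ‖z i‖ < 1) →
    ‖evm f z‖ ≤ 1
  /-- coefficients bounded by `ρ'`, value bounded by `ρ'` -/
  evm_le : ∀ {C : Type} [NontriviallyNormedField C] [CompleteSpace C] [IsUltrametricDist C]
    {σ : Type} [Fintype σ] {f : MvPowerSeries σ C} {z : σ → C} (ρ : ℝ), 0 ≤ ρ →
    (∀ e, ‖MvPowerSeries.coeff e f‖ ≤ ρ) → (∀ i, ‖z i‖ < 1) → ‖evm f z‖ ≤ ρ
  evm_le_of_zc : ∀ {C : Type} [NontriviallyNormedField C] [CompleteSpace C] [IsUltrametricDist C]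
    {σ : Type} [Fintype σ] {f : MvPowerSeries σ C} {z : σ → C} (ρ : ℝ), 0 ≤ ρ → ρ < 1 →
    Int1 f → ZC f → (∀ i, ‖z i‖ ≤ ρ) → ‖evm f z‖ ≤ ρ
  ev_le_of_zc : ∀ {C : Type} [NontriviallyNormedField C] [CompleteSpace C] [IsUltrametricDist C]
    {f : PowerSeries C} {z : C}, Int1 f → ZC f → ‖z‖ < 1 → ‖ev f z‖ ≤ ‖z‖
  int_add : ∀ {C : Type} [NontriviallyNormedField C] [CompleteSpace C] [IsUltrametricDist C]
    {σ : Type} {f g : MvPowerSeries σ C}, Int1 f → Int1 g → Int1 (f + g)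
  int_neg : ∀ {C : Type} [NontriviallyNormedField C] [CompleteSpace C] [IsUltrametricDist C]
    {σ : Type} {f : MvPowerSeries σ C}, Int1 f → Int1 (-f)
  int_mul : ∀ {C : Type} [NontriviallyNormedField C] [CompleteSpace C] [IsUltrametricDist C]
    {σ : Type} {f g : MvPowerSeries σ C}, Int1 f → Int1 g → Int1 (f * g)
  int_X : ∀ {C : Type} [NontriviallyNormedField C] [CompleteSpace C] [IsUltrametricDist C]
    {σ : Type} (i : σ), Int1 (MvPowerSeries.X i : MvPowerSeries σ C)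

/-- API E2: evaluation and substitution. -/
structure ApiE2 : Prop where
  /-- substitution -/
  evm_subst : ∀ {C : Type} [NontriviallyNormedField C] [CompleteSpace C] [IsUltrametricDist C]
    {σ τ : Type} [Fintype σ] [Fintype τ] {f : MvPowerSeries σ C} {a : σ → MvPowerSeries τ C}
    {z : τ → C}, Int1 f → (∀ i, Int1 (a i)) → (∀ i, ZC (a i)) → (∀ i, ‖z i‖ < 1) →
    evm (MvPowerSeries.subst a f) z = evm f (fun i => evm (a i) z)
  evm_cmp : ∀ {C : Type} [NontriviallyNormedField C] [CompleteSpace C] [IsUltrametricDist C]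
    {σ : Type} [Fintype σ] {φ : PowerSeries C} {a : MvPowerSeries σ C} {z : σ → C},
    Int1 φ → Int1 a → ZC a → (∀ i, ‖z i‖ < 1) → evm (cmp φ a) z = ev φ (evm a z)
  ev_cmp : ∀ {C : Type} [NontriviallyNormedField C] [CompleteSpace C] [IsUltrametricDist C]
    {φ a : PowerSeries C} {z : C}, Int1 φ → Int1 a → ZC a → ‖z‖ < 1 →
    ev (cmp φ a) z = ev φ (ev a z)
  int_subst : ∀ {C : Type} [NontriviallyNormedField C] [CompleteSpace C] [IsUltrametricDist C]
    {σ τ : Type} [Fintype σ] {f : MvPowerSeries σ C} {a : σ → MvPowerSeries τ C}, Int1 f →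
    (∀ i, Int1 (a i)) → (∀ i, ZC (a i)) → Int1 (MvPowerSeries.subst a f)
  int_cmp : ∀ {C : Type} [NontriviallyNormedField C] [CompleteSpace C] [IsUltrametricDist C]
    {σ : Type} {φ : PowerSeries C} {a : MvPowerSeries σ C}, Int1 φ → Int1 a → ZC a →
    Int1 (cmp φ a)

/-- API E3: Lipschitz and Taylor estimates. -/
structure ApiE3 : Prop where
  evm_lip : ∀ {C : Type} [NontriviallyNormedField C] [CompleteSpace C] [IsUltrametricDist C]
    {σ : Type} [Fintype σ] {f : MvPowerSeries σ C} {z z' : σ → C} (ε : ℝ), 0 ≤ ε → Int1 f →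
    (∀ i, ‖z i‖ < 1) → (∀ i, ‖z' i‖ < 1) → (∀ i, ‖z i - z' i‖ ≤ ε) → ‖evm f z - evm f z'‖ ≤ ε
  ev_lip : ∀ {C : Type} [NontriviallyNormedField C] [CompleteSpace C] [IsUltrametricDist C]
    {f : PowerSeries C} {z z' : C}, Int1 f → ‖z‖ < 1 → ‖z'‖ < 1 → ‖ev f z - ev f z'‖ ≤ ‖z - z'‖
  /-- second order Taylor estimate -/
  ev_taylor : ∀ {C : Type} [NontriviallyNormedField C] [CompleteSpace C] [IsUltrametricDist C]
    {f : PowerSeries C} {z z' : C}, Int1 f → ‖z‖ < 1 → ‖z'‖ < 1 →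
    ‖ev f z' - ev f z - ev (PowerSeries.derivative C f) z * (z' - z)‖ ≤ ‖z' - z‖ ^ 2
  evm_taylor : ∀ {C : Type} [NontriviallyNormedField C] [CompleteSpace C] [IsUltrametricDist C]
    {σ : Type} [Fintype σ] {f : MvPowerSeries σ C} {z z' : σ → C} (ε : ℝ), 0 ≤ ε → Int1 f →
    (∀ i, ‖z i‖ < 1) → (∀ i, ‖z' i‖ < 1) → (∀ i, ‖z' i - z i‖ ≤ ε) →
    ‖evm f z' - evm f z - ∑ i, evm (MvPowerSeries.pderiv C i f) z * (z' i - z i)‖ ≤ ε ^ 2

/-- API E. -/
structure ApiE : Prop extends ApiE1, ApiE2, ApiE3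

/-- integral formal group over `C`. -/
structure IG {C : Type} [NormedField C] (G : FormalGroup C) : Prop where
  comm : G.IsComm
  int : Int1 G.toPowerSeries

/-- the group operation on the open unit ball. -/
noncomputable def gadd {C : Type} [NormedField C] (G : FormalGroup C) (z z' : C) : C :=
  evm G.toPowerSeries ![z, z']
/-- `[m] z`. -/
noncomputable def gmul {C : Type} [NormedField C] (G : FormalGroup C) (m : ℕ) (z : C) : C :=
  ev (mulSeries G m) z
/-- `-z`. -/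
noncomputable def gneg {C : Type} [NormedField C] (G : FormalGroup C) (z : C) : C :=
  ev (fneg G PowerSeries.X) z
/-- `z - z'`. -/
noncomputable def gsub {C : Type} [NormedField C] (G : FormalGroup C) (z z' : C) : C :=
  gadd G z (gneg G z')

/-- API G: the group of points. -/
structure ApiG : Prop where
  int_mul : ∀ {C : Type} [NontriviallyNormedField C] [CompleteSpace C] [IsUltrametricDist C]
    {G : FormalGroup C}, IG G → ∀ m, Int1 (mulSeries G m)
  int_neg : ∀ {C : Type} [NontriviallyNormedField C] [CompleteSpace C] [IsUltrametricDist C]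
    {G : FormalGroup C}, IG G → Int1 (fneg G (PowerSeries.X : PowerSeries C))
  add_ball : ∀ {C : Type} [NontriviallyNormedField C] [CompleteSpace C] [IsUltrametricDist C]
    {G : FormalGroup C}, IG G → ∀ {z z' : C}, ‖z‖ < 1 → ‖z'‖ < 1 → ‖gadd G z z'‖ < 1
  add_le : ∀ {C : Type} [NontriviallyNormedField C] [CompleteSpace C] [IsUltrametricDist C]
    {G : FormalGroup C}, IG G → ∀ {z z' : C}, ‖z‖ < 1 → ‖z'‖ < 1 →
    ‖gadd G z z'‖ ≤ max ‖z‖ ‖z'‖
  /-- `z +_G z' = z + z' + O(z z')` -/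
  add_approx : ∀ {C : Type} [NontriviallyNormedField C] [CompleteSpace C] [IsUltrametricDist C]
    {G : FormalGroup C}, IG G → ∀ {z z' : C}, ‖z‖ < 1 → ‖z'‖ < 1 →
    ‖gadd G z z' - (z + z')‖ ≤ ‖z‖ * ‖z'‖
  neg_norm : ∀ {C : Type} [NontriviallyNormedField C] [CompleteSpace C] [IsUltrametricDist C]
    {G : FormalGroup C}, IG G → ∀ {z : C}, ‖z‖ < 1 → ‖gneg G z‖ = ‖z‖
  neg_approx : ∀ {C : Type} [NontriviallyNormedField C] [CompleteSpace C] [IsUltrametricDist C]
    {G : FormalGroup C}, IG G → ∀ {z : C}, ‖z‖ < 1 → ‖gneg G z + z‖ ≤ ‖z‖ ^ 2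
  zero_add : ∀ {C : Type} [NontriviallyNormedField C] [CompleteSpace C] [IsUltrametricDist C]
    {G : FormalGroup C}, IG G → ∀ {z : C}, ‖z‖ < 1 → gadd G 0 z = z
  add_comm : ∀ {C : Type} [NontriviallyNormedField C] [CompleteSpace C] [IsUltrametricDist C]
    {G : FormalGroup C}, IG G → ∀ {z z' : C}, ‖z‖ < 1 → ‖z'‖ < 1 → gadd G z z' = gadd G z' z
  add_assoc : ∀ {C : Type} [NontriviallyNormedField C] [CompleteSpace C] [IsUltrametricDist C]
    {G : FormalGroup C}, IG G → ∀ {z z' z'' : C}, ‖z‖ < 1 → ‖z'‖ < 1 → ‖z''‖ < 1 →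
    gadd G (gadd G z z') z'' = gadd G z (gadd G z' z'')
  add_neg : ∀ {C : Type} [NontriviallyNormedField C] [CompleteSpace C] [IsUltrametricDist C]
    {G : FormalGroup C}, IG G → ∀ {z : C}, ‖z‖ < 1 → gadd G z (gneg G z) = 0
  /-- `‖z - z'‖` is the distance in the group -/
  sub_norm : ∀ {C : Type} [NontriviallyNormedField C] [CompleteSpace C] [IsUltrametricDist C]
    {G : FormalGroup C}, IG G → ∀ {z z' : C}, ‖z‖ < 1 → ‖z'‖ < 1 → ‖gsub G z z'‖ = ‖z - z'‖
  /-- `z -_G z' = (z - z') * (1 + O(max))` -/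
  sub_approx : ∀ {C : Type} [NontriviallyNormedField C] [CompleteSpace C] [IsUltrametricDist C]
    {G : FormalGroup C}, IG G → ∀ {z z' : C}, ‖z‖ < 1 → ‖z'‖ < 1 →
    ‖gsub G z z' - (z - z')‖ ≤ ‖z - z'‖ * max ‖z‖ ‖z'‖
  mul_zero : ∀ {C : Type} [NontriviallyNormedField C] [CompleteSpace C] [IsUltrametricDist C]
    {G : FormalGroup C}, IG G → ∀ m, gmul G m 0 = 0
  zero_mul : ∀ {C : Type} [NontriviallyNormedField C] [CompleteSpace C] [IsUltrametricDist C]
    {G : FormalGroup C}, IG G → ∀ {z : C}, ‖z‖ < 1 → gmul G 0 z = 0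
  one_mul : ∀ {C : Type} [NontriviallyNormedField C] [CompleteSpace C] [IsUltrametricDist C]
    {G : FormalGroup C}, IG G → ∀ {z : C}, ‖z‖ < 1 → gmul G 1 z = z
  mul_norm_le : ∀ {C : Type} [NontriviallyNormedField C] [CompleteSpace C] [IsUltrametricDist C]
    {G : FormalGroup C}, IG G → ∀ m {z : C}, ‖z‖ < 1 → ‖gmul G m z‖ ≤ ‖z‖
  add_mul : ∀ {C : Type} [NontriviallyNormedField C] [CompleteSpace C] [IsUltrametricDist C]
    {G : FormalGroup C}, IG G → ∀ a b {z : C}, ‖z‖ < 1 →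
    gmul G (a + b) z = gadd G (gmul G a z) (gmul G b z)
  mul_mul : ∀ {C : Type} [NontriviallyNormedField C] [CompleteSpace C] [IsUltrametricDist C]
    {G : FormalGroup C}, IG G → ∀ a b {z : C}, ‖z‖ < 1 →
    gmul G (a * b) z = gmul G a (gmul G b z)
  mul_add : ∀ {C : Type} [NontriviallyNormedField C] [CompleteSpace C] [IsUltrametricDist C]
    {G : FormalGroup C}, IG G → ∀ m {z z' : C}, ‖z‖ < 1 → ‖z'‖ < 1 →
    gmul G m (gadd G z z') = gadd G (gmul G m z) (gmul G m z')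
  mul_sub : ∀ {C : Type} [NontriviallyNormedField C] [CompleteSpace C] [IsUltrametricDist C]
    {G : FormalGroup C}, IG G → ∀ m {z z' : C}, ‖z‖ < 1 → ‖z'‖ < 1 →
    gmul G m (gsub G z z') = gsub G (gmul G m z) (gmul G m z')
  hom_add : ∀ {C : Type} [NontriviallyNormedField C] [CompleteSpace C] [IsUltrametricDist C]
    {G G' : FormalGroup C}, IG G → IG G' → ∀ {φ : PowerSeries C}, Int1 φ → IsFGHom G G' φ →
    ∀ {z z' : C}, ‖z‖ < 1 → ‖z'‖ < 1 → ev φ (gadd G z z') = gadd G' (ev φ z) (ev φ z')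

/-- `x : k[[X_0..X_{d-1}]] → C` is evaluation at `w` (along `ι : k → C`). -/
structure IsEv {k : Type} [Field k] {d : ℕ} {C : Type} [NormedField C] (ι : k →+* C)
    (w : Fin d → C) (x : MvPowerSeries (Fin d) k →+* C) : Prop where
  hw : ∀ i, ‖w i‖ < 1
  hx : ∀ f, x f = evm (MvPowerSeries.map ι f) w

/-- API X: evaluation points of `k[[X_0..X_{d-1}]]`, `k` a finite field. -/
structure ApiX : Prop where
  iota_norm : ∀ {C : Type} [NontriviallyNormedField C] {k : Type} [Field k] [Finite k]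
    (ι : k →+* C) (c : k), c ≠ 0 → ‖ι c‖ = 1
  le_one : ∀ {C : Type} [NontriviallyNormedField C] [CompleteSpace C] [IsUltrametricDist C]
    {k : Type} [Field k] [Finite k] {d : ℕ} {ι : k →+* C} {w : Fin d → C}
    {x : MvPowerSeries (Fin d) k →+* C}, IsEv ι w x → ∀ f, ‖x f‖ ≤ 1
  x_C : ∀ {C : Type} [NontriviallyNormedField C] [CompleteSpace C] [IsUltrametricDist C]
    {k : Type} [Field k] [Finite k] {d : ℕ} {ι : k →+* C} {w : Fin d → C}
    {x : MvPowerSeries (Fin d) k →+* C}, IsEv ι w x → ∀ c, x (MvPowerSeries.C c) = ι c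
  x_X : ∀ {C : Type} [NontriviallyNormedField C] [CompleteSpace C] [IsUltrametricDist C]
    {k : Type} [Field k] [Finite k] {d : ℕ} {ι : k →+* C} {w : Fin d → C}
    {x : MvPowerSeries (Fin d) k →+* C}, IsEv ι w x → ∀ i, x (MvPowerSeries.X i) = w i
  /-- `x (𝔪^j)` has norm `≤ ρ^j` -/
  mem_pow : ∀ {C : Type} [NontriviallyNormedField C] [CompleteSpace C] [IsUltrametricDist C]
    {k : Type} [Field k] [Finite k] {d : ℕ} {ι : k →+* C} {w : Fin d → C}
    {x : MvPowerSeries (Fin d) k →+* C}, IsEv ι w x → ∀ ρ : ℝ, 0 ≤ ρ → (∀ i, ‖w i‖ ≤ ρ) →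
    ∀ (j : ℕ) f, f ∈ (mR k d) ^ j → ‖x f‖ ≤ ρ ^ j
  /-- a local endomorphism `φ` (`φ(C c) = C c`, `φ(𝔪) ⊂ 𝔪`) composed with an evaluation is an
  evaluation -/
  comp : ∀ {C : Type} [NontriviallyNormedField C] [CompleteSpace C] [IsUltrametricDist C]
    {k : Type} [Field k] [Finite k] {d : ℕ} {ι : k →+* C} {w : Fin d → C}
    {x : MvPowerSeries (Fin d) k →+* C}, IsEv ι w x →
    ∀ φ : MvPowerSeries (Fin d) k →+* MvPowerSeries (Fin d) k,
    (∀ c, φ (MvPowerSeries.C c) = MvPowerSeries.C c) → (∀ f, f ∈ mR k d → φ f ∈ mR k d) →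
    IsEv ι (fun i => x (φ (MvPowerSeries.X i))) (x.comp φ)
  lip : ∀ {C : Type} [NontriviallyNormedField C] [CompleteSpace C] [IsUltrametricDist C]
    {k : Type} [Field k] [Finite k] {d : ℕ} {ι : k →+* C} {w w' : Fin d → C}
    {x x' : MvPowerSeries (Fin d) k →+* C}, IsEv ι w x → IsEv ι w' x' → ∀ ε : ℝ, 0 ≤ ε →
    (∀ i, ‖w' i - w i‖ ≤ ε) → ∀ f, ‖x' f - x f‖ ≤ ε
  taylor : ∀ {C : Type} [NontriviallyNormedField C] [CompleteSpace C] [IsUltrametricDist C]
    {k : Type} [Field k] [Finite k] {d : ℕ} {ι : k →+* C} {w w' : Fin d → C}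
    {x x' : MvPowerSeries (Fin d) k →+* C}, IsEv ι w x → IsEv ι w' x' → ∀ ε : ℝ, 0 ≤ ε →
    (∀ i, ‖w' i - w i‖ ≤ ε) → ∀ f,
    ‖x' f - x f - ∑ i, x (MvPowerSeries.pderiv k i f) * (w' i - w i)‖ ≤ ε ^ 2
  /-- the law `F.map x` is integral, and points of `[m]` are Lipschitz in the parameter -/
  ig : ∀ {C : Type} [NontriviallyNormedField C] [CompleteSpace C] [IsUltrametricDist C]
    {k : Type} [Field k] [Finite k] {d : ℕ} {ι : k →+* C} {w : Fin d → C}
    {x : MvPowerSeries (Fin d) k →+* C}, IsEv ι w x →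
    ∀ F : FormalGroup (MvPowerSeries (Fin d) k), F.IsComm → IG (F.map x)
  mul_lip : ∀ {C : Type} [NontriviallyNormedField C] [CompleteSpace C] [IsUltrametricDist C]
    {k : Type} [Field k] [Finite k] {d : ℕ} {ι : k →+* C} {w w' : Fin d → C}
    {x x' : MvPowerSeries (Fin d) k →+* C}, IsEv ι w x → IsEv ι w' x' → ∀ ε : ℝ, 0 ≤ ε →
    (∀ i, ‖w' i - w i‖ ≤ ε) → ∀ F : FormalGroup (MvPowerSeries (Fin d) k), F.IsComm →
    ∀ (m : ℕ) (z : C), ‖z‖ < 1 → ‖gmul (F.map x') m z - gmul (F.map x) m z‖ ≤ ε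

namespace Spec2

/-- MOORE (norm form of the Moore determinant). -/
def MOORE : Prop :=
  ∀ (p : ℕ) [Fact p.Prime] (C : Type) [NontriviallyNormedField C] [CompleteSpace C]
    [IsUltrametricDist C] [CharP C p] (s : ℕ) (ρ : Fin s → C),
    (∀ i, ‖ρ i‖ ≤ 1) →
    (∀ b : Fin s → ℕ, (∀ i, b i < p) → (∃ i, b i ≠ 0) → ‖∑ i, (b i : C) * ρ i‖ = 1) →
    ∀ D : Fin s → C, (∀ i, ‖D i‖ ≤ 1) → (∃ i, ‖D i‖ = 1) → ∀ e₀ : ℕ,
    ∃ e, e₀ ≤ e ∧ e < e₀ + s ∧ ‖∑ i, D i * ρ i ^ (p ^ e)‖ = 1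

/-- STRASS: a series with unit coefficient at `j` has at most `j` zeros in the open ball. -/
def STRASS : Prop :=
  ∀ (C : Type) [NontriviallyNormedField C] [CompleteSpace C] [IsUltrametricDist C]
    (f : PowerSeries C) (j : ℕ), Int1 f → ‖PowerSeries.coeff j f‖ = 1 →
    ∀ Z : Finset C, (∀ z ∈ Z, ‖z‖ < 1 ∧ ev f z = 0) → Z.card ≤ j

/-- MONO: `M ↦ g M` integer window combinatorics used in LEMM.  `c : ℕ → ℕ` monotone, eventually
`c (M + n) = c M + d`, with a jump `≥ s` right after every multiple of `n`. Then the exponents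
`M - c M` (`1 ≤ m < n`, `M = m + n K`, `c (M + 1) = c M`) cover `s` consecutive integers. -/
def MONO : Prop :=
  ∀ (n d s : ℕ) (c : ℕ → ℕ), d < n → 1 ≤ s → Monotone c → ∀ K : ℕ,
    c (n * K + n) = c (n * K) + d → c (n * K) + s ≤ c (n * K + 1) →
    ∀ e : ℤ, (n * K : ℤ) - c (n * K) + 1 - s ≤ e → e ≤ (n * K : ℤ) - c (n * K) →
    ∃ m : ℕ, 1 ≤ m ∧ m < n ∧ c (m + n * K + 1) = c (m + n * K) ∧
      ((m + n * K : ℕ) : ℤ) - c (m + n * K) = e

end Spec2

end Crest.Agent.LT3
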